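import Vale.Agent.P100.Calib.SlabAllGapBox
import Vale.Agent.P100.Calib.SlabAllGapDataThree

/-!
# Kernel checks of the piece K on `91/100 ≤ u ≤ 39/40`, part three
-/

namespace Vale.Agent.P100.Calib.GapAll

open Pack EndAll

set_option linter.defProp false

def Kcf_18_0 : checkLong boxK 309 14 21 8 5
    (coef (parK.forms surK) 18 0) = true := by decide +kernel

def Kcf_18_1 : checkLong boxK 310 14 21 8 5
    (coef (parK.forms surK) 18 1) = true := by decide +kernel

def Kcf_18_2 : checkLong boxK 309 14 21 8 5
    (coef (parK.forms surK) 18 2) = true := by decide +kernel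

def Kcf_19_0 : checkLong boxK 383 14 24 10 6
    (coef (parK.forms surK) 19 0) = true := by decide +kernel

def Kcf_19_1 : checkLong boxK 384 14 24 10 6
    (coef (parK.forms surK) 19 1) = true := by decide +kernel

def Kcf_19_2 : checkLong boxK 383 14 24 10 6
    (coef (parK.forms surK) 19 2) = true := by decide +kernel

def Kcf_20_0 : checkLong boxK 383 14 24 10 6
    (coef (parK.forms surK) 20 0) = true := by decide +kernel

def Kcf_20_1 : checkLong boxK 384 14 24 10 6
    (coef (parK.forms surK) 20 1) = true := by decide +kernel

def Kcf_20_2 : checkLong boxK 383 14 24 10 6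
    (coef (parK.forms surK) 20 2) = true := by decide +kernel

end Vale.Agent.P100.Calib.GapAll
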