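import Vale.Agent.P100.Calib.SlabAllGapForms

/-!
# The expressions of the domain on `91/100 ≤ u ≤ 39/40`

The upper bounds of `σ` from `v_crit`, from the forward function before the end and from the two
bands, the upper end of `η` above the exit band, and the lower end below a combination of the
stable band and of the positivity of the exit speed.
-/

namespace Vale.Agent.P100.Calib.GapAll

open Pack EndAll

local instance gapDomAdd : Add Pack.Ex := ⟨Ex.add⟩
local instance gapDomSub : Sub Pack.Ex := ⟨Ex.sub⟩
local instance gapDomMul : Mul Pack.Ex := ⟨Ex.mul⟩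

namespace Par

variable (P : Par)

/-- The bound of `σ` from `v_crit`, scaled. -/
def domTv : Ex :=
  P.q * (.num 1 + .num 2 * A * P.I) -
    .num P.xD * (.num 1 + .num 2 * A * P.I - P.S * P.D)

/-- The numerator of the bound of `σ` before the end. -/
def domG : Ex :=
  let Q : Ex := (.num 65 - .num 22 * A + .num 4500 * P.I * A * A) * (A + .num 2 * P.I)
  let R : Ex := .num 420000 * P.I * A * A * A * A
  let S' : Ex := .num 22 + .num 100 * P.I - .num 1000 * P.I * A * A
  .num 40 * Q - R - .num 40 * S' - R - .num 100 * P.I +
    (.num 1600 * S' + .num 80 * R) * W - .num 1600 * R * (W * W)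

/-- The bound of `σ` before the end, scaled. -/
def domTt : Ex :=
  P.q * (.num 1600 * (.num 9 - .num 20 * A)) - .num P.xD * P.domG

/-- A hundred times the slope of the stable band. -/
def domK : Ex := .num 100 * P.B - .num 5 * A * U * (.num 33 - .num 23 * U)

/-- A hundred times the coefficient of the upper stable band. -/
def domC : Ex :=
  .num 600 * P.I - .num 396 + .num 100 * (U * (.num 2 - .num 3 * A + .num 6 * A * A -
    .num 17 * P.I + .num 18 * A * P.I + U * (.num 4 * A - .num 34 * A * A + .num 7 * P.I +
    U * (.num 18 * A * A))))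

/-- A hundred times the coefficient of the exit band. -/
def domE : Ex :=
  .num 200 + .num 230 * A + .num 1600 * (A * A * A) +
    P.I * (.num 520 + .num 700 * A + .num 33000 * (A * A * A) + .num 50000 * (A * A * (A * A))) -
    (.num 3000 * (A * A) + .num 5700 * (A * A * A) + .num 2100 * P.I +
      .num 500000 * (P.I * (A * A * A)) + .num 16000000 * (P.I * (A * A * A * (A * A * A)))) * W +
    .num 150000000 * (P.I * (A * A * A * (A * A * A))) * (W * W)

/-- The bound of `σ` from the two bands, scaled. -/
def domTc : Ex :=
  P.q * (.num 2 * P.domK) -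
    .num P.xD * (P.S * W * P.domE + .num 2 * P.domK + P.S * P.D * P.domC)

/-- The upper end of `η`, scaled. -/
def domU : Ex := .num 100 * P.eU - .num P.xD * (W * P.domE)

/-- The stable band, scaled by `100 S cD`. -/
def domUG : Ex :=
  .num 2 * P.domK * P.WT - .num P.cD * (.num 2 * P.domK + P.S * P.D * P.domC)

/-- `(Q + S) b`, scaled by `cD`. -/
def domQB : Ex := (P.Q + .num P.cD * P.S) * P.B

/-- The coefficient of the exit speed. -/
def domP : Ex := P.domQB - P.S * U * P.Q - .num P.cD * (P.S * P.S * W * P.B)

/-- The constant of the exit speed. -/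
def domR : Ex := P.domQB - P.S * U * P.Q - P.S * W * P.domQB

/-- The lower end of `η` below `l/m` of the stable band and the rest of the exit speed. -/
def domL (l m : ℕ) : Ex :=
  .num l * .num P.xD * P.domUG * (P.I * U * P.domP) +
    .num (m - l : ℕ) * .num P.xD * .num P.cD * (.num 100 * P.S) *
      (U * P.domP * P.D - P.domR * P.E) -
    .num m * .num P.cD * (.num 100 * P.S) * P.eL * (P.I * U * P.domP)

/-- The lower end of `η` below the stable band. -/
def domLUG : Ex := .num P.xD * P.domUG - .num P.cD * (.num 100 * P.S) * P.eL

/-- Signs of the ranges. -/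
def domSigns : List Ex :=
  [P.q, .num 10 * P.pWl - .num P.cD, .num 2 * P.eL + .num P.xD, P.eU,
    .num 100 * P.domP - .num P.cD]

end Par

end Vale.Agent.P100.Calib.GapAll
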