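import Vale.Agent.P100.Calib.SlabAllGapArgs
import Vale.Agent.P100.Calib.SlabAllEndData

/-!
# The expressions to be checked on `91/100 ≤ u ≤ 39/40`

The forms in five variables and the inequalities between surrogates, as at the end of the tail,
with the largest `σ` of the piece in place of `w τ`.
-/

namespace Vale.Agent.P100.Calib.GapAll

open Pack EndAll

local instance gapDataAdd : Add Pack.Ex := ⟨Ex.add⟩
local instance gapDataSub : Sub Pack.Ex := ⟨Ex.sub⟩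
local instance gapDataMul : Mul Pack.Ex := ⟨Ex.mul⟩

namespace Par

variable (P : Par) (D : Sur)

def fs (l : List (ℤ × ℕ × ℕ × ℕ)) : Fn := Fn.divNat (Fn.poly [surEx P.I l]) 100000
def fav : Fn := Fn.mul fa P.fv
def fu3 : Fn := Fn.mul (Fn.mul (Fn.mul fa fa) fa) P.fI
def fs3 : Fn := Fn.mul P.fu3 P.fI
def fQ : Fn := P.fadd (Fn.int 1) P.fdv
def fcab : Fn := Fn.mul (Fn.mul fc fa) fb
def fht : Fn :=
  Fn.mul (Fn.mul (Fn.mul (Fn.mul (Fn.mul (Fn.mul fa fb) fd) fd) P.fQ) fc) P.fav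
def fgg : Fn := Fn.mul P.fgMS P.fgGS
def fZt : Fn := Fn.mul (Fn.mul P.fg P.fs3) (P.fs D.z)
def fle : Fn := P.fLEESLin (Fn.mul (P.fs D.o1) fib)
def flm : Fn := P.fLMGSLin (Fn.mul (P.fs D.o0) fib)
def fS1 : Fn := P.fadd (Fn.int 1) fS
def cAL : Fn :=
  P.fsub (P.fsub
    (P.fsub (Fn.mul fcab
        (P.fsub (P.fadd (Fn.mul (Fn.int 8) (P.fle D)) (Fn.mul (Fn.int 4) (P.flm D)))
          (Fn.mul (Fn.mul (Fn.int 8) P.fS1) P.fgg)))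
      (Fn.mul (Fn.mul (Fn.mul (Fn.int 4) P.fS1) P.fht)
        (P.fadd (Fn.mul P.fhM (P.fs D.PM)) (P.fs D.HH))))
    (P.fZt D)) (Fn.mul P.fu3 (P.fs D.al))
def cML : Fn :=
  P.fsub (P.fsub
    (P.fadd (Fn.mul fcab
        (P.fadd (Fn.mul (Fn.int 4) (P.flm D)) (Fn.mul (Fn.mul (Fn.int 16) P.fI) P.fgg)))
      (Fn.mul (Fn.mul (Fn.mul (Fn.int 8) P.fI) P.fht)
        (P.fsub (Fn.mul P.fhM (P.fs D.PM)) (P.fs D.HH))))
    (P.fZt D)) (Fn.mul P.fu3 (P.fs D.ml))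
def cGL : Fn :=
  P.fsub (Fn.mul (Fn.mul (Fn.mul (Fn.mul (Fn.int 8) fcab) (P.fadd (Fn.int 2) P.fdv)) P.fQ) P.fLGGS)
    (Fn.mul P.fu3 (P.fs D.gl))
def cLL : Fn :=
  P.fadd (Fn.mul (Fn.mul (Fn.mul (Fn.mul P.fR fa) P.fI) P.fI) (P.fs D.z))
    (Fn.mul (Fn.mul (Fn.mul (Fn.int 8) fb) fb) P.fLLGS)
def fEG : Fn :=
  P.fsub (Fn.mul (Fn.mul (Fn.int 4) fcab) P.fLEGS)
    (Fn.mul P.fS1 (P.fadd (Fn.mul (Fn.mul (Fn.mul fc fa) (P.fs D.FM)) P.fgGS)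
      (Fn.mul (Fn.mul (Fn.mul (Fn.mul fa fb) fa) (P.fs D.PM)) P.fhES)))

/-- The checks in five variables. -/
def forms : List Fn :=
  [P.fsub P.fgES (Fn.mul P.fav (P.fs D.f0)), P.fsub (Fn.mul P.fav (P.fs D.f1)) P.fgES,
    P.fadd P.fgGS (Fn.mul P.fav (P.fs D.kG)), P.fsub (Fn.mul P.fav (P.fs D.kG)) P.fgGS,
    P.fadd P.fhES (Fn.mul P.fav (P.fs D.kE)), P.fsub (Fn.mul P.fav (P.fs D.kE)) P.fhES,
    P.fsub P.fhGS (Fn.mul P.fav (P.fs D.p0)), P.fsub (Fn.mul P.fav (P.fs D.p1)) P.fhGS,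
    P.fadd P.fhM (P.fs D.H), P.fsub (P.fs D.H) P.fhM,
    P.fsub (Fn.mul (Fn.mul fb P.fg) P.fW) (P.fs D.o0),
    P.fsub (P.fs D.o1) (Fn.mul (Fn.mul fb P.fg) P.fW),
    P.fsub P.fTMMS (Fn.mul (Fn.mul P.fI P.fI) (P.fs D.M)),
    P.fsub P.fTMES (Fn.mul (Fn.mul (Fn.mul fa P.fI) P.fI) (P.fs D.y0)),
    P.fsub (Fn.mul (Fn.mul (Fn.mul fa P.fI) P.fI) (P.fs D.y1)) P.fTMES,
    P.cAL D, P.cML D, P.cGL D, P.cLL D,
    P.fsub (P.fEG D) (Fn.mul P.fu3 (P.fs D.L0)), P.fsub (Fn.mul P.fu3 (P.fs D.L1)) (P.fEG D)]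

/-! ### Polynomials in `(a, I, w)` -/

def pe (l : List (ℤ × ℕ × ℕ × ℕ)) : Ex := surEx P.I l
def kk : Ex := .num 100000
def pWl : Ex :=
  .num P.cD - P.q * .num (P.s0 + P.ds : ℕ)
def pJ : Ex := .num 1 + P.S
def eP : Ex :=
  kk * P.S * P.S * P.D * P.pe D.al -
    P.pJ * P.B * (P.D * P.D * (P.pe D.f0 * P.pe D.f0) + P.S * (P.pe D.kE * P.pe D.kE))
def gP : Ex :=
  kk * P.S * P.S * P.D * P.pe D.gl -
    P.pJ * P.B * (P.S * (P.pe D.kG * P.pe D.kG) + P.D * P.D * (P.pe D.p0 * P.pe D.p0))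
def nP : Ex :=
  kk * P.S * P.S * P.D * P.pe D.ml -
    P.B * (P.D * P.D * (P.pe D.f0 * P.pe D.f0) + P.S * (P.pe D.kE * P.pe D.kE))
def rP : Ex := .num 2 * P.pJ * P.B * (P.pe D.DF * P.pe D.kG + P.pe D.DPs * P.pe D.kE)
def fP : Ex :=
  .num 128 * P.B * P.B * P.B * P.pWl * P.pe D.g5 * P.pe D.M -
    .num P.cD * P.S * P.S * P.S * (P.pe D.z * P.pe D.z)
def minorP (X : Ex) : Ex :=
  (.num 4000 - A * A) * (P.pe D.e5 * P.pe D.g5) - .num 1000 * (P.S * P.D * P.D * (X * X))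
def detP (X Y : Ex) : Ex :=
  P.pWl * P.B * P.B * P.B *
      (.num 256 * P.pe D.e5 * P.pe D.g5 * P.pe D.M * (.num 1000 - A * A) -
        .num 64000 * P.D * P.D * P.S * P.pe D.M * (X * X)) -
    .num 1000 * .num P.cD * (P.S * P.S) *
      (.num 512 * P.B * P.B * P.B * P.B * P.D * P.D * P.pe D.g5 * (Y * Y) -
        .num 32 * P.B * P.B * P.D * P.D * P.S * X * Y * P.pe D.z +
        .num 2 * P.S * P.pe D.e5 * (P.pe D.z * P.pe D.z))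

/-- The checks in three variables. -/
def polys : List Ex :=
  [P.eP D - kk * P.pe D.e5, P.gP D - kk * P.pe D.g5,
    kk * P.S * P.D * P.pe D.L0 - P.rP D - kk * P.pe D.XL,
    kk * P.pe D.XH - (kk * P.S * P.D * P.pe D.L1 + P.rP D),
    kk * P.pe D.HH - P.pe D.H * P.pe D.DPs,
    P.pe D.DF - (P.pe D.f1 - P.pe D.FM), P.pe D.DF - (P.pe D.FM - P.pe D.f0),
    P.pe D.DPs - (P.pe D.p1 - P.pe D.PM), P.pe D.DPs - (P.pe D.PM - P.pe D.p0),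
    .num 0 - (P.pe D.f0 + P.pe D.f1), .num 0 - (P.pe D.p0 + P.pe D.p1), P.pe D.o0, P.nP D,
    P.pe D.e5 - .num 100 * A * P.I, P.pe D.g5 - .num 100 * A * P.I, P.pe D.M - .num 100 * A * P.I,
    P.fP D, P.minorP D (P.pe D.XL), P.minorP D (P.pe D.XH),
    P.detP D (P.pe D.XL) (P.pe D.y0), P.detP D (P.pe D.XL) (P.pe D.y1),
    P.detP D (P.pe D.XH) (P.pe D.y0), P.detP D (P.pe D.XH) (P.pe D.y1)]

end Par

end Vale.Agent.P100.Calib.GapAll
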