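import Vale.Agent.P100.Calib.SlabAllGapSigns

/-!
# The closed signs on `91/100 ≤ u ≤ 39/40` in every dimension from twenty on

For `n ≥ 20` and `(S - d)/2 ≤ 31/100` the signs hold under the upper stable band, the exit band,
the forward function before the end, and the positivity of the exit speed among the chart facts.
-/

set_option linter.unusedVariables false

namespace Vale.Agent.P100.Calib.Closed.All

open EndAll

/-- **The closed signs before the end of the tail in every dimension from twenty on.** -/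
theorem signsTail_gap {n : ℕ} {d S u v t : ℝ} (hn : 20 ≤ n) (hb : ChartBox n d S)
    (ha : (S - d) / 2 ≤ 31 / 100) (hu : 91 / 100 ≤ u) (hu' : u ≤ 39 / 40)
    (hf : ChartFacts d S u v t)
    (hT : 23 / 25 ≤ u → 0 < Band.allTailF (Band.allEntryA ((1 - S) / 2) ((S - d) / 2))
      (Band.allEntryB ((1 - S) / 2) ((S - d) / 2)) ((S - d) / 2) ((S + d) / 2) u v)
    (hlow : 1 - (1 - S) / 2 * (1 - u) * lowC ((1 - S) / 2) ((S - d) / 2) (1 - u) / (100 * d) ≤
      chH d S u v t * ((S + d) / 2 - u * ((S - d) / 2)))
    (htop : chH d S u v t < Band.allStabUG ((S - d) / 2) ((S + d) / 2) u v) :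
    ChartSigns d S u v t := by
  obtain ⟨hd, hS2, hS1, hone, hdim, -⟩ := hb
  have hn' : (20 : ℝ) ≤ n := by exact_mod_cast hn
  have h1S : 0 < 1 - S := by linarith
  have hI20 : (1 - S) / 2 ≤ 1 / 20 := by
    rw [lt_div_iff₀ h1S] at hdim
    have := mul_le_mul_of_nonneg_right hn' h1S.le
    linarith
  set I := (1 - S) / 2 with hI
  set a := (S - d) / 2 with haa
  set w := 1 - u with hw
  set H := chH d S u v t with hHd
  have hI0 : 0 < I := by linarith
  have hw0 : 1 / 40 ≤ w := by linarith
  have hw9 : w ≤ 9 / 100 := by linarith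
  have hwp : 0 < w := by linarith
  have hIa : I ≤ a := by linarith
  have ha0 : 0 < a := by linarith
  have hS : 0 < S := by linarith
  have hS' : S = 1 - 2 * I := by rw [hI]; ring
  have hd' : d = pD a I := by rw [pD, hI, haa]; ring
  have hb' : (S + d) / 2 = pB a I := by rw [pB, hI, haa]; ring
  have hE : (S + d) / 2 - u * a = d + a * w := by rw [hw, haa]; ring
  have hEp : 0 < d + a * w := by positivity
  set σ := 1 - S * d * v / (2 * I) with hσ
  set η := (1 - H * (d + a * w)) * d / I with hη
  have hσe : 2 * I * σ = 2 * I - S * d * v := by rw [hσ]; field_simp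
  have hηe : I * η = (1 - H * (d + a * w)) * d := by rw [hη]; field_simp
  have hkap : S * d * v < 2 * I := by linarith [hf.kap]
  have hσ0 : 0 ≤ σ := sub_nonneg.2 ((div_le_one (by linarith)).2 hkap.le)
  have hv : v = pV a I w (σ / w) := by
    rw [pV, ← hd', ← hS', mul_div_cancel₀ _ hwp.ne',
      show 2 * I * (1 - σ) = S * d * v by linarith]
    field_simp
  have hcrit : σ * (1 + 2 * a * I) ≤ 1 + 2 * a * I - (1 - 2 * I) * pD a I := by
    rw [← hS', ← hd']
    have h1 := hf.v_crit
    have h2 := mul_lt_mul_of_pos_left h1 (mul_pos hS hd)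
    refine le_of_mul_le_mul_left ?_ (show (0 : ℝ) < 2 * (2 * I) by linarith)
    rw [show 2 * (2 * I) * (σ * (1 + 2 * a * I)) =
        2 * (1 + 2 * a * I) * (2 * I * σ) by ring, hσe]
    rw [show (S - d) = 2 * a by rw [haa]; ring, show (1 - S) = 2 * I by rw [hI]; ring] at h2
    linarith
  have htail : w ≤ 2 / 25 → σ * (1600 * (9 - 20 * a)) ≤
      Band.allTailG (Band.allEntryA I a) (Band.allEntryB I a) I a w := fun h => by
    have h1 := hT (by linarith)
    have eI : Band.allStabI a ((S + d) / 2) = I := by rw [Band.allStabI, haa, hI]; ring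
    rw [Band.allTailF, Band.allTailDen, eI, show a + (S + d) / 2 = S by rw [haa]; ring,
      show (S + d) / 2 - a = d by rw [haa]; ring, ← hw] at h1
    refine le_of_mul_le_mul_left ?_ (mul_pos two_pos hI0)
    rw [← mul_assoc, hσe]
    linarith
  have hexit : 100 * η ≤ w * lowC I a w := by
    rw [hE] at hlow
    have h := mul_le_mul_of_nonneg_right hlow (show 0 ≤ 100 * d by linarith)
    rw [sub_mul, div_mul_cancel₀ _ (by linarith : 100 * d ≠ 0)] at h
    refine le_of_mul_le_mul_left ?_ hI0
    rw [show I * (100 * η) = 100 * (I * η) by ring, hηe]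
    linarith
  have hstab : 2 * Band.allStabK a (pB a I) (1 - w) * σ - 2 * Band.allStabK a (pB a I) (1 - w) -
      (1 - 2 * I) * pD a I * ((Band.allStabUC I a).1 + 100 * ((1 - w) *
        ((Band.allStabUC I a).2.1 + (1 - w) * ((Band.allStabUC I a).2.2.1 +
        (1 - w) * (Band.allStabUC I a).2.2.2)))) ≤ 100 * (1 - 2 * I) * η := by
    rw [← hS', ← hd', show 1 - w = u by rw [hw]; ring, ← hb']
    have h1 := htop
    have eI : Band.allStabI a ((S + d) / 2) = I := by rw [Band.allStabI, haa, hI]; ring
    rw [Band.allStabUG, Band.allStabG, Band.allStabN, eI, Band.allPole, hE,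
      max_eq_left (show u - 1 ≤ 0 by linarith), zero_pow (two_ne_zero), mul_zero, add_zero,
      lt_div_iff₀ (by positivity)] at h1
    have h2 := mul_lt_mul_of_pos_left h1 (mul_pos hS hd)
    refine le_of_mul_le_mul_left ?_ hI0
    rw [show I * (100 * S * η) = 100 * S * (I * η) by ring, hηe]
    have h3 : Band.allStabK a ((S + d) / 2) u * (S * d * v) =
        Band.allStabK a ((S + d) / 2) u * (2 * I - 2 * I * σ) := by rw [hσe]; ring
    linarith
  have hQ : 0 < pQ I w (σ / w) := by
    have h1 := hf.v_crit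
    have hv0 : 0 < v := pos_of_mul_pos_left (lt_trans (by linarith) h1) (by
      have := mul_nonneg (show 0 ≤ S - d by linarith) h1S.le; linarith)
    have : 0 < S * (1 + d * v) := by positivity
    rw [pQ, show 2 * I * w * (σ / w) = 2 * I * σ by field_simp, hσe]
    linarith
  have hH : H = pH a I w (η / w) := by
    rw [pH, pEta, pE, ← hd']
    field_simp
    linear_combination hηe
  have hden : 0 < 2 + d * v - d * u * H := by
    have hv0 : 0 < v := pos_of_mul_pos_left (lt_trans (by linarith) hf.v_crit) (by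
      have := mul_nonneg (show 0 ≤ S - d by linarith) h1S.le; linarith)
    have h1 : u * (d * H) ≤ 1 * 1 := mul_le_mul (by linarith) hf.h_lt.le
      (mul_nonneg hd.le hf.H_pos.le) zero_le_one
    have h2 : 0 < d * v := mul_pos hd hv0
    linarith
  have hspeed : (1 - w) * ((1 - 2 * I * σ + (1 - 2 * I)) * pB a I -
      (1 - 2 * I) * (1 - w) * (1 - 2 * I * σ) - (1 - 2 * I) * (1 - 2 * I) * w * pB a I) * pD a I -
      ((1 - 2 * I * σ + (1 - 2 * I)) * pB a I - (1 - 2 * I) * (1 - w) * (1 - 2 * I * σ) -
        (1 - 2 * I) * w * ((1 - 2 * I * σ + (1 - 2 * I)) * pB a I)) * pE a I w ≤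
      I * (1 - w) * ((1 - 2 * I * σ + (1 - 2 * I)) * pB a I -
        (1 - 2 * I) * (1 - w) * (1 - 2 * I * σ) - (1 - 2 * I) * (1 - 2 * I) * w * pB a I) * η := by
    rw [← hS', ← hd', show 1 - w = u by rw [hw]; ring, show pE a I w = d + a * w by
      rw [pE, hd'], hσe, ← hb']
    have hb0 : 0 < (S + d) / 2 := by linarith
    have h1 := hf.ev_pos
    rw [← hHd, chG, ← hHd, show u - 1 = -w by rw [hw]; ring,
      show (1 - S) = 2 * I by rw [hI]; ring] at h1
    have h2 : 0 < ((1 - d * u * H) * ((2 + d * v) * ((S + d) / 2) - S * u * (1 + d * v)) -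
        S * w * ((S + d) / 2) * (2 + d * v - d * u * H)) /
        (I * ((S + d) / 2) * (2 + d * v - d * u * H)) := by
      refine lt_of_lt_of_eq h1 ?_
      field_simp
      ring
    have h3 := (div_pos_iff_of_pos_right (by positivity)).1 h2
    have h4 := mul_le_mul_of_nonneg_left h3.le (mul_nonneg hS.le hEp.le)
    rw [show 1 - (2 * I - S * d * v) = S * (1 + d * v) by linear_combination (-1 : ℝ) * hS']
    linear_combination h4 - u * ((S * (1 + d * v) + S) * ((S + d) / 2) -
      S * u * (S * (1 + d * v)) - S * S * w * ((S + d) / 2)) * hηe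
  have hDn : 0 < pDn a I w (σ / w) (η / w) := by
    have e : pDn a I w (σ / w) (η / w) = S * (2 + d * v - d * u * H) * (d + a * w) := by
      unfold pDn pQ pE
      rw [← hd', ← hS']
      field_simp
      linear_combination (-(d + a * w)) * hσe - (d + a * w) * hS' + S * (1 - w) * hηe +
        S * (d + a * w) * d * H * hw
    rw [e]; positivity
  exact chartSigns_of' ha0 ha hI0 hI20 hd' hS' (by rw [hw]; ring) hwp (by linarith) hv hQ hDn hH
    (GapAll.gap_signs ha hI0 hI20 hIa hw0 hw9 ⟨hσ0, hcrit, htail, hstab, hexit, hspeed⟩)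

end Vale.Agent.P100.Calib.Closed.All
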