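import Vale.Agent.P100.Calib.SlabAllGapPoint

/-!
# The signs at a point of a piece on `91/100 ≤ u ≤ 39/40`

A point whose `σ` and `η` lie in the ranges of a piece has the form of the checks, so the signs
hold there.
-/

set_option linter.unusedVariables false

namespace Vale.Agent.P100.Calib.GapAll

open Pack EndAll

local instance gapPieceAdd : Add Pack.Ex := ⟨Ex.add⟩
local instance gapPieceSub : Sub Pack.Ex := ⟨Ex.sub⟩
local instance gapPieceMul : Mul Pack.Ex := ⟨Ex.mul⟩

/-- The signs of the ranges hold at the point. -/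
structure DomOk (P : Par) (x : ℕ → ℝ) : Prop where
  d0 : 0 ≤ (P.domSigns.getD 0 (.num 0)).eval x
  d1 : 0 ≤ (P.domSigns.getD 1 (.num 0)).eval x
  d2 : 0 ≤ (P.domSigns.getD 2 (.num 0)).eval x
  d3 : 0 ≤ (P.domSigns.getD 3 (.num 0)).eval x
  d4 : 0 ≤ (P.domSigns.getD 4 (.num 0)).eval x

variable {P : Par} {D : Sur} {x : ℕ → ℝ}

namespace DomOk

variable (h : DomOk P x)
include h

theorem q_nonneg : 0 ≤ P.q.eval x := h.d0

theorem wl_low (hc : 0 < P.cD) : 1 / 10 ≤ wlVal P x := by
  have h1 : 0 ≤ (Ex.num 10 * P.pWl - Ex.num P.cD).eval x := h.d1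
  simp only [eval_sub, eval_mul, eval_num, eval_pWl hc] at h1
  push_cast at h1
  have : (0 : ℝ) < P.cD := Nat.cast_pos.2 hc
  refine le_of_mul_le_mul_left ?_ this
  linarith

theorem eL_low : -(P.xD : ℝ) / 2 ≤ P.eL.eval x := by
  have h1 : 0 ≤ (Ex.num 2 * P.eL + Ex.num P.xD).eval x := h.d2
  simp only [eval_add, eval_mul, eval_num] at h1
  push_cast at h1
  linarith

theorem eU_nonneg : 0 ≤ P.eU.eval x := h.d3

theorem domP_pos (hc : 0 < P.cD) : 0 < P.domP.eval x := by
  have h1 : 0 ≤ (Ex.num 100 * P.domP - Ex.num P.cD).eval x := h.d4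
  simp only [eval_sub, eval_mul, eval_num] at h1
  push_cast at h1
  have : (0 : ℝ) < P.cD := Nat.cast_pos.2 hc
  linarith

end DomOk

theorem exists_mix {A B y : ℝ} (h0 : A ≤ y) (h1 : y ≤ B) :
    ∃ θ : ℝ, 0 ≤ θ ∧ θ ≤ 1 ∧ A * (1 - θ) + B * θ = y := by
  rcases (h0.trans h1).lt_or_eq with h | h
  · have hp : 0 < B - A := sub_pos.2 h
    refine ⟨(y - A) / (B - A), div_nonneg (by linarith) hp.le, (div_le_one hp).2 (by linarith), ?_⟩
    field_simp; ring
  · exact ⟨0, le_rfl, zero_le_one, by linarith⟩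

/-- The signs where the checks hold and `σ`, `η` are in the ranges. -/
theorem signs_at {σ η : ℝ} (hc : CheckOk P D x) (hd : DomOk P x) (hcD : 0 < P.cD)
    (hxD : 0 < P.xD) (ha0 : 0 < x 0) (ha : x 0 ≤ 5 / 16) (ht : 0 < x 1)
    (hI : 0 < iVal P x) (hI20 : iVal P x ≤ 1 / 20) (hw : 0 < x 2) (hw1 : x 2 ≤ 1 / 11)
    (hT0 : 0 ≤ x 3) (hT1 : x 3 ≤ 1) (hσ : P.WT.eval x = P.cD * σ)
    (hlo : P.eL.eval x ≤ η * P.xD) (hhi : η * P.xD ≤ P.eU.eval x) :
    PSigns (x 0) (iVal P x) (x 2) (σ / x 2) (η / x 2) := by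
  obtain ⟨θ, hθ0, hθ1, hθ⟩ := exists_mix hlo hhi
  have hc' : (0 : ℝ) < P.cD := Nat.cast_pos.2 hcD
  have hx' : (0 : ℝ) < P.xD := Nat.cast_pos.2 hxD
  have eσ : sigVal P x = σ := by
    simp only [Par.WT, eval_add, eval_mul, eval_num, eval_var] at hσ
    push_cast at hσ
    rw [sigVal, div_mul_eq_mul_div, div_eq_iff hc'.ne']; linarith
  have eη : etaVal P x θ = η := by rw [etaVal, hθ, mul_div_cancel_right₀ _ hx'.ne']
  have hσ1 : σ ≤ 1 - wlVal P x := by
    rw [← eσ, sigVal, wlVal, sub_sub_cancel, mul_div_right_comm, Nat.cast_add]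
    exact mul_le_mul_of_nonneg_left
      (add_le_add le_rfl (mul_le_of_le_one_right (Nat.cast_nonneg _) hT1))
      (div_nonneg hd.q_nonneg hc'.le)
  have hwl := hd.wl_low hcD
  have hη : -1 / 2 ≤ η := le_of_mul_le_mul_right (by linarith [hd.eL_low]) hx'
  have hIσ : iVal P x * σ ≤ 1 / 20 := (mul_le_mul_of_nonneg_left (show σ ≤ 1 by linarith) hI.le).trans
    (by linarith)
  have h : Pt P x θ :=
    { a_pos := ha0
      t_pos := ht
      S_pos := by linarith
      d_pos := by linarith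
      w_pos := hw
      w_lt := by linarith
      q_pos := by rw [eσ]; linarith
      dn_pos := by
        rw [eσ, eη]
        have h1 : (9 / 10) * (11 / 40) ≤
            (1 - 2 * iVal P x * σ) * pE (x 0) (iVal P x) (x 2) :=
          mul_le_mul (by linarith) (by unfold pE pD; linarith [mul_pos ha0 hw]) (by norm_num)
            (by linarith)
        have h2 : 0 ≤ (1 - 2 * iVal P x) * (1 - x 2) := mul_nonneg (by linarith) (by linarith)
        have h3 : (1 - 2 * iVal P x) * (1 - x 2) ≤ 1 :=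
          mul_le_one₀ (by linarith) (by linarith) (by linarith)
        have h4 : -(1 / 40) ≤ iVal P x * η := by
          have := mul_le_mul_of_nonneg_left hη hI.le
          linarith
        have h5 := mul_le_mul_of_nonneg_left h4 h2
        linarith
      cD_pos := hcD
      xD_pos := hxD
      th_low := hθ0
      th_high := hθ1 }
  have r := signs_of_checks h hc hd.q_nonneg hT0 hT1 (by linarith) hI20 ha
  rw [tauVal, xiVal, eσ, eη] at r
  exact r

/-- The point of the checks. -/
noncomputable def gapPt (a t w T : ℝ) : ℕ → ℝ :=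
  fun i => if i = 0 then a else if i = 1 then t else if i = 2 then w else T

/-- **The signs on a piece.** -/
theorem piece_signs {ca cw : Chart} {m : ℤ} {a I w σ η t : ℝ}
    (ok : ∀ {x : ℕ → ℝ}, InGap ca m cw x → CheckOk P D x)
    (dom : ∀ {x : ℕ → ℝ}, InGap ca m cw x → DomOk P x)
    (box : ∀ T, 0 ≤ T → T ≤ 1 → InGap ca m cw (gapPt a t w T))
    (hI' : cond P.low (a * t) t = I) (ha0 : 0 < a) (ha : a ≤ 31 / 100) (ht : 0 < t) (hI : 0 < I)
    (hI20 : I ≤ 1 / 20) (hw : 0 < w) (hw1 : w ≤ 1 / 11) (hcD : 0 < P.cD) (hxD : 0 < P.xD)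
    (qc : ∀ T, P.q.eval (gapPt a t w T) = P.q.eval (gapPt a t w 0))
    (hs0 : P.q.eval (gapPt a t w 0) * P.s0 ≤ σ * P.cD)
    (hs1 : σ * P.cD ≤ P.q.eval (gapPt a t w 0) * (P.s0 + P.ds : ℕ))
    (hhi : ∀ T, η * P.xD ≤ P.eU.eval (gapPt a t w T))
    (hlo : ∀ T, InGap ca m cw (gapPt a t w T) →
      P.WT.eval (gapPt a t w T) = P.cD * σ → P.eL.eval (gapPt a t w T) ≤ η * P.xD) :
    PSigns a I w (σ / w) (η / w) := by
  have hq := (dom (box 0 le_rfl zero_le_one)).q_nonneg
  rw [Nat.cast_add, mul_add] at hs1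
  obtain ⟨T, hT0, hT1, hT⟩ := exists_mix hs0 hs1
  have hσ : P.WT.eval (gapPt a t w T) = P.cD * σ := by
    simp only [Par.WT, eval_add, eval_mul, eval_num, eval_var, qc T,
      show gapPt a t w T 3 = T from rfl]
    push_cast; linarith
  have eI : iVal P (gapPt a t w T) = I := hI'
  have hb := box T hT0 hT1
  have r := signs_at (σ := σ) (η := η) (ok hb) (dom hb) hcD hxD (x := gapPt a t w T) ha0
    (show a ≤ 5 / 16 by linarith) ht (eI.symm ▸ hI) (eI.symm ▸ hI20) hw hw1 hT0 hT1 hσ
    (hlo T hb hσ) (hhi T)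
  rw [eI] at r
  exact r

theorem aMid_split {y : ℝ} (h : InChart aMid y) : InChart aMidL y ∨ InChart aMidR y := by
  have h1 := h.low
  have h2 := h.high
  simp only [aMid] at h1 h2
  push_cast at h1 h2
  rcases lt_or_ge y (1 / 60 : ℝ) with hy | hy
  · exact Or.inl ⟨by norm_num [aMidL], by simp only [aMidL]; push_cast; linarith,
      by simp only [aMidL]; push_cast; linarith⟩
  · exact Or.inr ⟨by norm_num [aMidR], by simp only [aMidR]; push_cast; linarith,
      by simp only [aMidR]; push_cast; linarith⟩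

theorem aHigh_split {y : ℝ} (h : InChart aHigh y) : InChart aHighL y ∨ InChart aHighR y := by
  have h1 := h.low
  have h2 := h.high
  simp only [aHigh] at h1 h2
  push_cast at h1 h2
  rcases lt_or_ge y (1 / 9 : ℝ) with hy | hy
  · exact Or.inl ⟨by norm_num [aHighL], by simp only [aHighL]; push_cast; linarith,
      by simp only [aHighL]; push_cast; linarith⟩
  · exact Or.inr ⟨by norm_num [aHighR], by simp only [aHighR]; push_cast; linarith,
      by simp only [aHighR]; push_cast; linarith⟩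

theorem wNear_split {y : ℝ} (h : InChart wNear y) : InChart wNearL y ∨ InChart wNearR y := by
  have h1 := h.low
  have h2 := h.high
  simp only [wNear] at h1 h2
  push_cast at h1 h2
  rcases lt_or_ge y (1 / 30 : ℝ) with hy | hy
  · exact Or.inl ⟨by norm_num [wNearL], by simp only [wNearL]; push_cast; linarith,
      by simp only [wNearL]; push_cast; linarith⟩
  · exact Or.inr ⟨by norm_num [wNearR], by simp only [wNearR]; push_cast; linarith,
      by simp only [wNearR]; push_cast; linarith⟩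

theorem wFar_split {y : ℝ} (h : InChart wFar y) : InChart wFarL y ∨ InChart wFarR y := by
  have h1 := h.low
  have h2 := h.high
  simp only [wFar] at h1 h2
  push_cast at h1 h2
  rcases lt_or_ge y (1 / 15 : ℝ) with hy | hy
  · exact Or.inl ⟨by norm_num [wFarL], by simp only [wFarL]; push_cast; linarith,
      by simp only [wFarL]; push_cast; linarith⟩
  · exact Or.inr ⟨by norm_num [wFarR], by simp only [wFarR]; push_cast; linarith,
      by simp only [wFarR]; push_cast; linarith⟩

end Vale.Agent.P100.Calib.GapAll
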