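import Vale.Agent.P100.Calib.SlabAllGapCheckAOne
import Vale.Agent.P100.Calib.SlabAllGapCheckATwo
import Vale.Agent.P100.Calib.SlabAllGapCheckAThree
import Vale.Agent.P100.Calib.SlabAllGapCheckAFour
import Vale.Agent.P100.Calib.SlabAllGapCheckAFive
import Vale.Agent.P100.Calib.SlabAllGapCheckBOne
import Vale.Agent.P100.Calib.SlabAllGapCheckBTwo
import Vale.Agent.P100.Calib.SlabAllGapCheckBThree
import Vale.Agent.P100.Calib.SlabAllGapCheckBFour
import Vale.Agent.P100.Calib.SlabAllGapCheckBFive
import Vale.Agent.P100.Calib.SlabAllGapCheckCOne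
import Vale.Agent.P100.Calib.SlabAllGapCheckCTwo
import Vale.Agent.P100.Calib.SlabAllGapCheckCThree
import Vale.Agent.P100.Calib.SlabAllGapCheckCFour
import Vale.Agent.P100.Calib.SlabAllGapCheckCFive
import Vale.Agent.P100.Calib.SlabAllGapPiece

/-!
# All checks of the pieces on `91/100 ≤ u ≤ 39/40` pass on their boxes, group one
-/

namespace Vale.Agent.P100.Calib.GapAll

open Pack EndAll

/-- The checks of the piece A hold on its box. -/
theorem okA {x : ℕ → ℝ} (h : InGap aLow 1 wAll x) : CheckOk parA surA x := by
  have hl : (parA.forms surA).map (fun F => F.num.length) =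
      [2, 2, 2, 2, 2, 2, 3, 3, 2, 2, 2, 2, 3, 3, 3, 3, 3, 3, 3, 3, 3] := by decide +kernel
  have hp : (parA.polys surA).length = 23 := rfl
  exact
    { f := fun i k => match i with
        | 0 => match k with
          | 0 => h.nonneg Acf_0_0
          | 1 => h.nonneg Acf_0_1
          | k + 2 => coef_out hl 0 _ (Nat.le_add_left _ _)
        | 1 => match k with
          | 0 => h.nonneg Acf_1_0
          | 1 => h.nonneg Acf_1_1
          | k + 2 => coef_out hl 1 _ (Nat.le_add_left _ _)
        | 2 => match k with
          | 0 => h.nonneg Acf_2_0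
          | 1 => h.nonneg Acf_2_1
          | k + 2 => coef_out hl 2 _ (Nat.le_add_left _ _)
        | 3 => match k with
          | 0 => h.nonneg Acf_3_0
          | 1 => h.nonneg Acf_3_1
          | k + 2 => coef_out hl 3 _ (Nat.le_add_left _ _)
        | 4 => match k with
          | 0 => h.nonneg Acf_4_0
          | 1 => h.nonneg Acf_4_1
          | k + 2 => coef_out hl 4 _ (Nat.le_add_left _ _)
        | 5 => match k with
          | 0 => h.nonneg Acf_5_0
          | 1 => h.nonneg Acf_5_1
          | k + 2 => coef_out hl 5 _ (Nat.le_add_left _ _)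
        | 6 => match k with
          | 0 => h.nonneg Acf_6_0
          | 1 => h.nonneg Acf_6_1
          | 2 => h.nonneg Acf_6_2
          | k + 3 => coef_out hl 6 _ (Nat.le_add_left _ _)
        | 7 => match k with
          | 0 => h.nonneg Acf_7_0
          | 1 => h.nonneg Acf_7_1
          | 2 => h.nonneg Acf_7_2
          | k + 3 => coef_out hl 7 _ (Nat.le_add_left _ _)
        | 8 => match k with
          | 0 => h.nonneg Acf_8_0
          | 1 => h.nonneg Acf_8_1
          | k + 2 => coef_out hl 8 _ (Nat.le_add_left _ _)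
        | 9 => match k with
          | 0 => h.nonneg Acf_9_0
          | 1 => h.nonneg Acf_9_1
          | k + 2 => coef_out hl 9 _ (Nat.le_add_left _ _)
        | 10 => match k with
          | 0 => h.nonneg Acf_10_0
          | 1 => h.nonneg Acf_10_1
          | k + 2 => coef_out hl 10 _ (Nat.le_add_left _ _)
        | 11 => match k with
          | 0 => h.nonneg Acf_11_0
          | 1 => h.nonneg Acf_11_1
          | k + 2 => coef_out hl 11 _ (Nat.le_add_left _ _)
        | 12 => match k with
          | 0 => h.nonneg Acf_12_0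
          | 1 => h.nonneg Acf_12_1
          | 2 => h.nonneg Acf_12_2
          | k + 3 => coef_out hl 12 _ (Nat.le_add_left _ _)
        | 13 => match k with
          | 0 => h.nonneg Acf_13_0
          | 1 => h.nonneg Acf_13_1
          | 2 => h.nonneg Acf_13_2
          | k + 3 => coef_out hl 13 _ (Nat.le_add_left _ _)
        | 14 => match k with
          | 0 => h.nonneg Acf_14_0
          | 1 => h.nonneg Acf_14_1
          | 2 => h.nonneg Acf_14_2
          | k + 3 => coef_out hl 14 _ (Nat.le_add_left _ _)
        | 15 => match k with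
          | 0 => h.nonneg Acf_15_0
          | 1 => h.nonneg Acf_15_1
          | 2 => h.nonneg Acf_15_2
          | k + 3 => coef_out hl 15 _ (Nat.le_add_left _ _)
        | 16 => match k with
          | 0 => h.nonneg Acf_16_0
          | 1 => h.nonneg Acf_16_1
          | 2 => h.nonneg Acf_16_2
          | k + 3 => coef_out hl 16 _ (Nat.le_add_left _ _)
        | 17 => match k with
          | 0 => h.nonneg Acf_17_0
          | 1 => h.nonneg Acf_17_1
          | 2 => h.nonneg Acf_17_2
          | k + 3 => coef_out hl 17 _ (Nat.le_add_left _ _)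
        | 18 => match k with
          | 0 => h.nonneg Acf_18_0
          | 1 => h.nonneg Acf_18_1
          | 2 => h.nonneg Acf_18_2
          | k + 3 => coef_out hl 18 _ (Nat.le_add_left _ _)
        | 19 => match k with
          | 0 => h.nonneg Acf_19_0
          | 1 => h.nonneg Acf_19_1
          | 2 => h.nonneg Acf_19_2
          | k + 3 => coef_out hl 19 _ (Nat.le_add_left _ _)
        | 20 => match k with
          | 0 => h.nonneg Acf_20_0
          | 1 => h.nonneg Acf_20_1
          | 2 => h.nonneg Acf_20_2
          | k + 3 => coef_out hl 20 _ (Nat.le_add_left _ _)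
        | i + 21 => coef_out hl _ _ (Nat.zero_le _)
      p := fun i => match i with
        | 0 => h.nonneg Acp_0
        | 1 => h.nonneg Acp_1
        | 2 => h.nonneg Acp_2
        | 3 => h.nonneg Acp_3
        | 4 => h.nonneg Acp_4
        | 5 => h.nonneg Acp_5
        | 6 => h.nonneg Acp_6
        | 7 => h.nonneg Acp_7
        | 8 => h.nonneg Acp_8
        | 9 => h.nonneg Acp_9
        | 10 => h.nonneg Acp_10
        | 11 => h.nonneg Acp_11
        | 12 => h.nonneg Acp_12
        | 13 => h.nonneg Acp_13
        | 14 => h.nonneg Acp_14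
        | 15 => h.nonneg Acp_15
        | 16 => h.nonneg Acp_16
        | 17 => h.nonneg Acp_17
        | 18 => h.nonneg Acp_18
        | 19 => h.nonneg Acp_19
        | 20 => h.nonneg Acp_20
        | 21 => h.nonneg Acp_21
        | 22 => h.nonneg Acp_22
        | i + 23 => poly_out hp _ (Nat.le_add_left _ _) }

/-- The signs of the ranges of the piece A. -/
theorem domA {x : ℕ → ℝ} (h : InGap aLow 1 wAll x) : DomOk parA x :=
  ⟨h.nonneg Acd_0, h.nonneg Acd_1, h.nonneg Acd_2, h.nonneg Acd_3, h.nonneg Acd_4⟩

/-- The upper end of `η` of the piece A. -/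
theorem topA_ok {x : ℕ → ℝ} (h : InGap aLow 1 wAll x) :
    0 ≤ (parA.domU).eval x := h.nonneg Acd_5

/-- The bound of `σ` of the piece A. -/
theorem sigA_ok {x : ℕ → ℝ} (h : InGap aLow 1 wAll x) :
    0 ≤ (parA.domTv).eval x := h.nonneg Acd_6

/-- The lower end of `η` of the piece A. -/
theorem lowA_ok {x : ℕ → ℝ} (h : InGap aLow 1 wAll x) :
    0 ≤ (parA.domLUG).eval x := h.nonneg Acd_7

/-- The checks of the piece B hold on its box. -/
theorem okB {x : ℕ → ℝ} (h : InGap aMid 33 wLow x) : CheckOk parB surB x := by
  have hl : (parB.forms surB).map (fun F => F.num.length) =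
      [2, 2, 2, 2, 2, 2, 3, 3, 2, 2, 2, 2, 3, 3, 3, 3, 3, 3, 3, 3, 3] := by decide +kernel
  have hp : (parB.polys surB).length = 23 := rfl
  exact
    { f := fun i k => match i with
        | 0 => match k with
          | 0 => h.nonneg Bcf_0_0
          | 1 => h.nonneg Bcf_0_1
          | k + 2 => coef_out hl 0 _ (Nat.le_add_left _ _)
        | 1 => match k with
          | 0 => h.nonneg Bcf_1_0
          | 1 => h.nonneg Bcf_1_1
          | k + 2 => coef_out hl 1 _ (Nat.le_add_left _ _)
        | 2 => match k with
          | 0 => h.nonneg Bcf_2_0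
          | 1 => h.nonneg Bcf_2_1
          | k + 2 => coef_out hl 2 _ (Nat.le_add_left _ _)
        | 3 => match k with
          | 0 => h.nonneg Bcf_3_0
          | 1 => h.nonneg Bcf_3_1
          | k + 2 => coef_out hl 3 _ (Nat.le_add_left _ _)
        | 4 => match k with
          | 0 => h.nonneg Bcf_4_0
          | 1 => h.nonneg Bcf_4_1
          | k + 2 => coef_out hl 4 _ (Nat.le_add_left _ _)
        | 5 => match k with
          | 0 => h.nonneg Bcf_5_0
          | 1 => h.nonneg Bcf_5_1
          | k + 2 => coef_out hl 5 _ (Nat.le_add_left _ _)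
        | 6 => match k with
          | 0 => h.nonneg Bcf_6_0
          | 1 => h.nonneg Bcf_6_1
          | 2 => h.nonneg Bcf_6_2
          | k + 3 => coef_out hl 6 _ (Nat.le_add_left _ _)
        | 7 => match k with
          | 0 => h.nonneg Bcf_7_0
          | 1 => h.nonneg Bcf_7_1
          | 2 => h.nonneg Bcf_7_2
          | k + 3 => coef_out hl 7 _ (Nat.le_add_left _ _)
        | 8 => match k with
          | 0 => h.nonneg Bcf_8_0
          | 1 => h.nonneg Bcf_8_1
          | k + 2 => coef_out hl 8 _ (Nat.le_add_left _ _)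
        | 9 => match k with
          | 0 => h.nonneg Bcf_9_0
          | 1 => h.nonneg Bcf_9_1
          | k + 2 => coef_out hl 9 _ (Nat.le_add_left _ _)
        | 10 => match k with
          | 0 => h.nonneg Bcf_10_0
          | 1 => h.nonneg Bcf_10_1
          | k + 2 => coef_out hl 10 _ (Nat.le_add_left _ _)
        | 11 => match k with
          | 0 => h.nonneg Bcf_11_0
          | 1 => h.nonneg Bcf_11_1
          | k + 2 => coef_out hl 11 _ (Nat.le_add_left _ _)
        | 12 => match k with
          | 0 => h.nonneg Bcf_12_0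
          | 1 => h.nonneg Bcf_12_1
          | 2 => h.nonneg Bcf_12_2
          | k + 3 => coef_out hl 12 _ (Nat.le_add_left _ _)
        | 13 => match k with
          | 0 => h.nonneg Bcf_13_0
          | 1 => h.nonneg Bcf_13_1
          | 2 => h.nonneg Bcf_13_2
          | k + 3 => coef_out hl 13 _ (Nat.le_add_left _ _)
        | 14 => match k with
          | 0 => h.nonneg Bcf_14_0
          | 1 => h.nonneg Bcf_14_1
          | 2 => h.nonneg Bcf_14_2
          | k + 3 => coef_out hl 14 _ (Nat.le_add_left _ _)
        | 15 => match k with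
          | 0 => h.nonneg Bcf_15_0
          | 1 => h.nonneg Bcf_15_1
          | 2 => h.nonneg Bcf_15_2
          | k + 3 => coef_out hl 15 _ (Nat.le_add_left _ _)
        | 16 => match k with
          | 0 => h.nonneg Bcf_16_0
          | 1 => h.nonneg Bcf_16_1
          | 2 => h.nonneg Bcf_16_2
          | k + 3 => coef_out hl 16 _ (Nat.le_add_left _ _)
        | 17 => match k with
          | 0 => h.nonneg Bcf_17_0
          | 1 => h.nonneg Bcf_17_1
          | 2 => h.nonneg Bcf_17_2
          | k + 3 => coef_out hl 17 _ (Nat.le_add_left _ _)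
        | 18 => match k with
          | 0 => h.nonneg Bcf_18_0
          | 1 => h.nonneg Bcf_18_1
          | 2 => h.nonneg Bcf_18_2
          | k + 3 => coef_out hl 18 _ (Nat.le_add_left _ _)
        | 19 => match k with
          | 0 => h.nonneg Bcf_19_0
          | 1 => h.nonneg Bcf_19_1
          | 2 => h.nonneg Bcf_19_2
          | k + 3 => coef_out hl 19 _ (Nat.le_add_left _ _)
        | 20 => match k with
          | 0 => h.nonneg Bcf_20_0
          | 1 => h.nonneg Bcf_20_1
          | 2 => h.nonneg Bcf_20_2
          | k + 3 => coef_out hl 20 _ (Nat.le_add_left _ _)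
        | i + 21 => coef_out hl _ _ (Nat.zero_le _)
      p := fun i => match i with
        | 0 => h.nonneg Bcp_0
        | 1 => h.nonneg Bcp_1
        | 2 => h.nonneg Bcp_2
        | 3 => h.nonneg Bcp_3
        | 4 => h.nonneg Bcp_4
        | 5 => h.nonneg Bcp_5
        | 6 => h.nonneg Bcp_6
        | 7 => h.nonneg Bcp_7
        | 8 => h.nonneg Bcp_8
        | 9 => h.nonneg Bcp_9
        | 10 => h.nonneg Bcp_10
        | 11 => h.nonneg Bcp_11
        | 12 => h.nonneg Bcp_12
        | 13 => h.nonneg Bcp_13
        | 14 => h.nonneg Bcp_14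
        | 15 => h.nonneg Bcp_15
        | 16 => h.nonneg Bcp_16
        | 17 => h.nonneg Bcp_17
        | 18 => h.nonneg Bcp_18
        | 19 => h.nonneg Bcp_19
        | 20 => h.nonneg Bcp_20
        | 21 => h.nonneg Bcp_21
        | 22 => h.nonneg Bcp_22
        | i + 23 => poly_out hp _ (Nat.le_add_left _ _) }

/-- The signs of the ranges of the piece B. -/
theorem domB {x : ℕ → ℝ} (h : InGap aMid 33 wLow x) : DomOk parB x :=
  ⟨h.nonneg Bcd_0, h.nonneg Bcd_1, h.nonneg Bcd_2, h.nonneg Bcd_3, h.nonneg Bcd_4⟩

/-- The upper end of `η` of the piece B. -/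
theorem topB_ok {x : ℕ → ℝ} (h : InGap aMid 33 wLow x) :
    0 ≤ (parB.domU).eval x := h.nonneg Bcd_5

/-- The bound of `σ` of the piece B. -/
theorem sigB_ok {x : ℕ → ℝ} (h : InGap aMid 33 wLow x) :
    0 ≤ (parB.domTt).eval x := h.nonneg Bcd_6

/-- The lower end of `η` of the piece B. -/
theorem lowB_ok {x : ℕ → ℝ} (h : InGap aMid 33 wLow x) :
    0 ≤ (parB.domLUG).eval x := by
  rcases aMid_split h.a_in with hL | hR
  · exact InGap.nonneg { h with a_in := hL } Bcd_7L
  · exact InGap.nonneg { h with a_in := hR } Bcd_7R

/-- The checks of the piece C hold on its box. -/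
theorem okC {x : ℕ → ℝ} (h : InGap aMid 33 wMid x) : CheckOk parC surC x := by
  have hl : (parC.forms surC).map (fun F => F.num.length) =
      [2, 2, 2, 2, 2, 2, 3, 3, 2, 2, 2, 2, 3, 3, 3, 3, 3, 3, 3, 3, 3] := by decide +kernel
  have hp : (parC.polys surC).length = 23 := rfl
  exact
    { f := fun i k => match i with
        | 0 => match k with
          | 0 => h.nonneg Ccf_0_0
          | 1 => h.nonneg Ccf_0_1
          | k + 2 => coef_out hl 0 _ (Nat.le_add_left _ _)
        | 1 => match k with
          | 0 => h.nonneg Ccf_1_0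
          | 1 => h.nonneg Ccf_1_1
          | k + 2 => coef_out hl 1 _ (Nat.le_add_left _ _)
        | 2 => match k with
          | 0 => h.nonneg Ccf_2_0
          | 1 => h.nonneg Ccf_2_1
          | k + 2 => coef_out hl 2 _ (Nat.le_add_left _ _)
        | 3 => match k with
          | 0 => h.nonneg Ccf_3_0
          | 1 => h.nonneg Ccf_3_1
          | k + 2 => coef_out hl 3 _ (Nat.le_add_left _ _)
        | 4 => match k with
          | 0 => h.nonneg Ccf_4_0
          | 1 => h.nonneg Ccf_4_1
          | k + 2 => coef_out hl 4 _ (Nat.le_add_left _ _)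
        | 5 => match k with
          | 0 => h.nonneg Ccf_5_0
          | 1 => h.nonneg Ccf_5_1
          | k + 2 => coef_out hl 5 _ (Nat.le_add_left _ _)
        | 6 => match k with
          | 0 => h.nonneg Ccf_6_0
          | 1 => h.nonneg Ccf_6_1
          | 2 => h.nonneg Ccf_6_2
          | k + 3 => coef_out hl 6 _ (Nat.le_add_left _ _)
        | 7 => match k with
          | 0 => h.nonneg Ccf_7_0
          | 1 => h.nonneg Ccf_7_1
          | 2 => h.nonneg Ccf_7_2
          | k + 3 => coef_out hl 7 _ (Nat.le_add_left _ _)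
        | 8 => match k with
          | 0 => h.nonneg Ccf_8_0
          | 1 => h.nonneg Ccf_8_1
          | k + 2 => coef_out hl 8 _ (Nat.le_add_left _ _)
        | 9 => match k with
          | 0 => h.nonneg Ccf_9_0
          | 1 => h.nonneg Ccf_9_1
          | k + 2 => coef_out hl 9 _ (Nat.le_add_left _ _)
        | 10 => match k with
          | 0 => h.nonneg Ccf_10_0
          | 1 => h.nonneg Ccf_10_1
          | k + 2 => coef_out hl 10 _ (Nat.le_add_left _ _)
        | 11 => match k with
          | 0 => h.nonneg Ccf_11_0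
          | 1 => h.nonneg Ccf_11_1
          | k + 2 => coef_out hl 11 _ (Nat.le_add_left _ _)
        | 12 => match k with
          | 0 => h.nonneg Ccf_12_0
          | 1 => h.nonneg Ccf_12_1
          | 2 => h.nonneg Ccf_12_2
          | k + 3 => coef_out hl 12 _ (Nat.le_add_left _ _)
        | 13 => match k with
          | 0 => h.nonneg Ccf_13_0
          | 1 => h.nonneg Ccf_13_1
          | 2 => h.nonneg Ccf_13_2
          | k + 3 => coef_out hl 13 _ (Nat.le_add_left _ _)
        | 14 => match k with
          | 0 => h.nonneg Ccf_14_0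
          | 1 => h.nonneg Ccf_14_1
          | 2 => h.nonneg Ccf_14_2
          | k + 3 => coef_out hl 14 _ (Nat.le_add_left _ _)
        | 15 => match k with
          | 0 => h.nonneg Ccf_15_0
          | 1 => h.nonneg Ccf_15_1
          | 2 => h.nonneg Ccf_15_2
          | k + 3 => coef_out hl 15 _ (Nat.le_add_left _ _)
        | 16 => match k with
          | 0 => h.nonneg Ccf_16_0
          | 1 => h.nonneg Ccf_16_1
          | 2 => h.nonneg Ccf_16_2
          | k + 3 => coef_out hl 16 _ (Nat.le_add_left _ _)
        | 17 => match k with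
          | 0 => h.nonneg Ccf_17_0
          | 1 => h.nonneg Ccf_17_1
          | 2 => h.nonneg Ccf_17_2
          | k + 3 => coef_out hl 17 _ (Nat.le_add_left _ _)
        | 18 => match k with
          | 0 => h.nonneg Ccf_18_0
          | 1 => h.nonneg Ccf_18_1
          | 2 => h.nonneg Ccf_18_2
          | k + 3 => coef_out hl 18 _ (Nat.le_add_left _ _)
        | 19 => match k with
          | 0 => h.nonneg Ccf_19_0
          | 1 => h.nonneg Ccf_19_1
          | 2 => h.nonneg Ccf_19_2
          | k + 3 => coef_out hl 19 _ (Nat.le_add_left _ _)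
        | 20 => match k with
          | 0 => h.nonneg Ccf_20_0
          | 1 => h.nonneg Ccf_20_1
          | 2 => h.nonneg Ccf_20_2
          | k + 3 => coef_out hl 20 _ (Nat.le_add_left _ _)
        | i + 21 => coef_out hl _ _ (Nat.zero_le _)
      p := fun i => match i with
        | 0 => h.nonneg Ccp_0
        | 1 => h.nonneg Ccp_1
        | 2 => h.nonneg Ccp_2
        | 3 => h.nonneg Ccp_3
        | 4 => h.nonneg Ccp_4
        | 5 => h.nonneg Ccp_5
        | 6 => h.nonneg Ccp_6
        | 7 => h.nonneg Ccp_7
        | 8 => h.nonneg Ccp_8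
        | 9 => h.nonneg Ccp_9
        | 10 => h.nonneg Ccp_10
        | 11 => h.nonneg Ccp_11
        | 12 => h.nonneg Ccp_12
        | 13 => h.nonneg Ccp_13
        | 14 => h.nonneg Ccp_14
        | 15 => h.nonneg Ccp_15
        | 16 => h.nonneg Ccp_16
        | 17 => h.nonneg Ccp_17
        | 18 => h.nonneg Ccp_18
        | 19 => h.nonneg Ccp_19
        | 20 => h.nonneg Ccp_20
        | 21 => h.nonneg Ccp_21
        | 22 => h.nonneg Ccp_22
        | i + 23 => poly_out hp _ (Nat.le_add_left _ _) }

/-- The signs of the ranges of the piece C. -/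
theorem domC {x : ℕ → ℝ} (h : InGap aMid 33 wMid x) : DomOk parC x :=
  ⟨h.nonneg Ccd_0, h.nonneg Ccd_1, h.nonneg Ccd_2, h.nonneg Ccd_3, h.nonneg Ccd_4⟩

/-- The upper end of `η` of the piece C. -/
theorem topC_ok {x : ℕ → ℝ} (h : InGap aMid 33 wMid x) :
    0 ≤ (parC.domU).eval x := h.nonneg Ccd_5

/-- The bound of `σ` of the piece C. -/
theorem sigC_ok {x : ℕ → ℝ} (h : InGap aMid 33 wMid x) :
    0 ≤ (parC.domTc).eval x := h.nonneg Ccd_6

/-- The lower end of `η` of the piece C. -/
theorem lowC_ok {x : ℕ → ℝ} (h : InGap aMid 33 wMid x) :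
    0 ≤ (parC.domLUG).eval x := h.nonneg Ccd_7

end Vale.Agent.P100.Calib.GapAll
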