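import Vale.Agent.P100.Calib.SlabAllGapCheckHOne
import Vale.Agent.P100.Calib.SlabAllGapCheckHTwo
import Vale.Agent.P100.Calib.SlabAllGapCheckHThree
import Vale.Agent.P100.Calib.SlabAllGapCheckHFour
import Vale.Agent.P100.Calib.SlabAllGapCheckHFive
import Vale.Agent.P100.Calib.SlabAllGapCheckIOne
import Vale.Agent.P100.Calib.SlabAllGapCheckITwo
import Vale.Agent.P100.Calib.SlabAllGapCheckIThree
import Vale.Agent.P100.Calib.SlabAllGapCheckIFour
import Vale.Agent.P100.Calib.SlabAllGapCheckIFive
import Vale.Agent.P100.Calib.SlabAllGapCheckJOne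
import Vale.Agent.P100.Calib.SlabAllGapCheckJTwo
import Vale.Agent.P100.Calib.SlabAllGapCheckJThree
import Vale.Agent.P100.Calib.SlabAllGapCheckJFour
import Vale.Agent.P100.Calib.SlabAllGapCheckJFive
import Vale.Agent.P100.Calib.SlabAllGapCheckKOne
import Vale.Agent.P100.Calib.SlabAllGapCheckKTwo
import Vale.Agent.P100.Calib.SlabAllGapCheckKThree
import Vale.Agent.P100.Calib.SlabAllGapCheckKFour
import Vale.Agent.P100.Calib.SlabAllGapCheckKFive
import Vale.Agent.P100.Calib.SlabAllGapPiece

/-!
# All checks of the pieces on `91/100 ≤ u ≤ 39/40` pass on their boxes, group three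
-/

namespace Vale.Agent.P100.Calib.GapAll

open Pack EndAll

/-- The checks of the piece H hold on its box. -/
theorem okH {x : ℕ → ℝ} (h : InGap aHigh 20 wFar x) : CheckOk parH surH x := by
  have hl : (parH.forms surH).map (fun F => F.num.length) =
      [2, 2, 2, 2, 2, 2, 3, 3, 2, 2, 2, 2, 3, 3, 3, 3, 3, 3, 3, 3, 3] := by decide +kernel
  have hp : (parH.polys surH).length = 23 := rfl
  exact
    { f := fun i k => match i with
        | 0 => match k with
          | 0 => h.nonneg Hcf_0_0
          | 1 => h.nonneg Hcf_0_1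
          | k + 2 => coef_out hl 0 _ (Nat.le_add_left _ _)
        | 1 => match k with
          | 0 => h.nonneg Hcf_1_0
          | 1 => h.nonneg Hcf_1_1
          | k + 2 => coef_out hl 1 _ (Nat.le_add_left _ _)
        | 2 => match k with
          | 0 => h.nonneg Hcf_2_0
          | 1 => h.nonneg Hcf_2_1
          | k + 2 => coef_out hl 2 _ (Nat.le_add_left _ _)
        | 3 => match k with
          | 0 => h.nonneg Hcf_3_0
          | 1 => h.nonneg Hcf_3_1
          | k + 2 => coef_out hl 3 _ (Nat.le_add_left _ _)
        | 4 => match k with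
          | 0 => h.nonneg Hcf_4_0
          | 1 => h.nonneg Hcf_4_1
          | k + 2 => coef_out hl 4 _ (Nat.le_add_left _ _)
        | 5 => match k with
          | 0 => h.nonneg Hcf_5_0
          | 1 => h.nonneg Hcf_5_1
          | k + 2 => coef_out hl 5 _ (Nat.le_add_left _ _)
        | 6 => match k with
          | 0 => h.nonneg Hcf_6_0
          | 1 => h.nonneg Hcf_6_1
          | 2 => h.nonneg Hcf_6_2
          | k + 3 => coef_out hl 6 _ (Nat.le_add_left _ _)
        | 7 => match k with
          | 0 => h.nonneg Hcf_7_0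
          | 1 => h.nonneg Hcf_7_1
          | 2 => h.nonneg Hcf_7_2
          | k + 3 => coef_out hl 7 _ (Nat.le_add_left _ _)
        | 8 => match k with
          | 0 => h.nonneg Hcf_8_0
          | 1 => h.nonneg Hcf_8_1
          | k + 2 => coef_out hl 8 _ (Nat.le_add_left _ _)
        | 9 => match k with
          | 0 => h.nonneg Hcf_9_0
          | 1 => h.nonneg Hcf_9_1
          | k + 2 => coef_out hl 9 _ (Nat.le_add_left _ _)
        | 10 => match k with
          | 0 => h.nonneg Hcf_10_0
          | 1 => h.nonneg Hcf_10_1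
          | k + 2 => coef_out hl 10 _ (Nat.le_add_left _ _)
        | 11 => match k with
          | 0 => h.nonneg Hcf_11_0
          | 1 => h.nonneg Hcf_11_1
          | k + 2 => coef_out hl 11 _ (Nat.le_add_left _ _)
        | 12 => match k with
          | 0 => h.nonneg Hcf_12_0
          | 1 => h.nonneg Hcf_12_1
          | 2 => h.nonneg Hcf_12_2
          | k + 3 => coef_out hl 12 _ (Nat.le_add_left _ _)
        | 13 => match k with
          | 0 => h.nonneg Hcf_13_0
          | 1 => h.nonneg Hcf_13_1
          | 2 => h.nonneg Hcf_13_2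
          | k + 3 => coef_out hl 13 _ (Nat.le_add_left _ _)
        | 14 => match k with
          | 0 => h.nonneg Hcf_14_0
          | 1 => h.nonneg Hcf_14_1
          | 2 => h.nonneg Hcf_14_2
          | k + 3 => coef_out hl 14 _ (Nat.le_add_left _ _)
        | 15 => match k with
          | 0 => h.nonneg Hcf_15_0
          | 1 => h.nonneg Hcf_15_1
          | 2 => h.nonneg Hcf_15_2
          | k + 3 => coef_out hl 15 _ (Nat.le_add_left _ _)
        | 16 => match k with
          | 0 => h.nonneg Hcf_16_0
          | 1 => h.nonneg Hcf_16_1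
          | 2 => h.nonneg Hcf_16_2
          | k + 3 => coef_out hl 16 _ (Nat.le_add_left _ _)
        | 17 => match k with
          | 0 => h.nonneg Hcf_17_0
          | 1 => h.nonneg Hcf_17_1
          | 2 => h.nonneg Hcf_17_2
          | k + 3 => coef_out hl 17 _ (Nat.le_add_left _ _)
        | 18 => match k with
          | 0 => h.nonneg Hcf_18_0
          | 1 => h.nonneg Hcf_18_1
          | 2 => h.nonneg Hcf_18_2
          | k + 3 => coef_out hl 18 _ (Nat.le_add_left _ _)
        | 19 => match k with
          | 0 => h.nonneg Hcf_19_0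
          | 1 => h.nonneg Hcf_19_1
          | 2 => h.nonneg Hcf_19_2
          | k + 3 => coef_out hl 19 _ (Nat.le_add_left _ _)
        | 20 => match k with
          | 0 => h.nonneg Hcf_20_0
          | 1 => h.nonneg Hcf_20_1
          | 2 => h.nonneg Hcf_20_2
          | k + 3 => coef_out hl 20 _ (Nat.le_add_left _ _)
        | i + 21 => coef_out hl _ _ (Nat.zero_le _)
      p := fun i => match i with
        | 0 => h.nonneg Hcp_0
        | 1 => h.nonneg Hcp_1
        | 2 => h.nonneg Hcp_2
        | 3 => h.nonneg Hcp_3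
        | 4 => h.nonneg Hcp_4
        | 5 => h.nonneg Hcp_5
        | 6 => h.nonneg Hcp_6
        | 7 => h.nonneg Hcp_7
        | 8 => h.nonneg Hcp_8
        | 9 => h.nonneg Hcp_9
        | 10 => h.nonneg Hcp_10
        | 11 => h.nonneg Hcp_11
        | 12 => h.nonneg Hcp_12
        | 13 => h.nonneg Hcp_13
        | 14 => h.nonneg Hcp_14
        | 15 => h.nonneg Hcp_15
        | 16 => h.nonneg Hcp_16
        | 17 => h.nonneg Hcp_17
        | 18 => h.nonneg Hcp_18
        | 19 => h.nonneg Hcp_19
        | 20 => h.nonneg Hcp_20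
        | 21 => h.nonneg Hcp_21
        | 22 => h.nonneg Hcp_22
        | i + 23 => poly_out hp _ (Nat.le_add_left _ _) }

/-- The signs of the ranges of the piece H. -/
theorem domH {x : ℕ → ℝ} (h : InGap aHigh 20 wFar x) : DomOk parH x :=
  ⟨h.nonneg Hcd_0, h.nonneg Hcd_1, h.nonneg Hcd_2, h.nonneg Hcd_3, h.nonneg Hcd_4⟩

/-- The upper end of `η` of the piece H. -/
theorem topH_ok {x : ℕ → ℝ} (h : InGap aHigh 20 wFar x) :
    0 ≤ (parH.domU).eval x := h.nonneg Hcd_5

/-- The bound of `σ` of the piece H. -/
theorem sigH_ok {x : ℕ → ℝ} (h : InGap aHigh 20 wFar x) :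
    0 ≤ (parH.domTc).eval x := by
  rcases aHigh_split h.a_in with hL | hR
  · exact InGap.nonneg { h with a_in := hL } Hcd_6L
  · exact InGap.nonneg { h with a_in := hR } Hcd_6R

/-- The lower end of `η` of the piece H. -/
theorem lowH_ok {x : ℕ → ℝ} (h : InGap aHigh 20 wFar x) :
    0 ≤ (parH.domL 4 5).eval x := by
  rcases aHigh_split h.a_in with hL | hR
  · exact InGap.nonneg { h with a_in := hL } Hcd_7L
  · exact InGap.nonneg { h with a_in := hR } Hcd_7R

/-- The checks of the piece I hold on its box. -/
theorem okI {x : ℕ → ℝ} (h : InGap aTop 20 wFar x) : CheckOk parI surI x := by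
  have hl : (parI.forms surI).map (fun F => F.num.length) =
      [2, 2, 2, 2, 2, 2, 3, 3, 2, 2, 2, 2, 3, 3, 3, 3, 3, 3, 3, 3, 3] := by decide +kernel
  have hp : (parI.polys surI).length = 23 := rfl
  exact
    { f := fun i k => match i with
        | 0 => match k with
          | 0 => h.nonneg Icf_0_0
          | 1 => h.nonneg Icf_0_1
          | k + 2 => coef_out hl 0 _ (Nat.le_add_left _ _)
        | 1 => match k with
          | 0 => h.nonneg Icf_1_0
          | 1 => h.nonneg Icf_1_1
          | k + 2 => coef_out hl 1 _ (Nat.le_add_left _ _)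
        | 2 => match k with
          | 0 => h.nonneg Icf_2_0
          | 1 => h.nonneg Icf_2_1
          | k + 2 => coef_out hl 2 _ (Nat.le_add_left _ _)
        | 3 => match k with
          | 0 => h.nonneg Icf_3_0
          | 1 => h.nonneg Icf_3_1
          | k + 2 => coef_out hl 3 _ (Nat.le_add_left _ _)
        | 4 => match k with
          | 0 => h.nonneg Icf_4_0
          | 1 => h.nonneg Icf_4_1
          | k + 2 => coef_out hl 4 _ (Nat.le_add_left _ _)
        | 5 => match k with
          | 0 => h.nonneg Icf_5_0
          | 1 => h.nonneg Icf_5_1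
          | k + 2 => coef_out hl 5 _ (Nat.le_add_left _ _)
        | 6 => match k with
          | 0 => h.nonneg Icf_6_0
          | 1 => h.nonneg Icf_6_1
          | 2 => h.nonneg Icf_6_2
          | k + 3 => coef_out hl 6 _ (Nat.le_add_left _ _)
        | 7 => match k with
          | 0 => h.nonneg Icf_7_0
          | 1 => h.nonneg Icf_7_1
          | 2 => h.nonneg Icf_7_2
          | k + 3 => coef_out hl 7 _ (Nat.le_add_left _ _)
        | 8 => match k with
          | 0 => h.nonneg Icf_8_0
          | 1 => h.nonneg Icf_8_1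
          | k + 2 => coef_out hl 8 _ (Nat.le_add_left _ _)
        | 9 => match k with
          | 0 => h.nonneg Icf_9_0
          | 1 => h.nonneg Icf_9_1
          | k + 2 => coef_out hl 9 _ (Nat.le_add_left _ _)
        | 10 => match k with
          | 0 => h.nonneg Icf_10_0
          | 1 => h.nonneg Icf_10_1
          | k + 2 => coef_out hl 10 _ (Nat.le_add_left _ _)
        | 11 => match k with
          | 0 => h.nonneg Icf_11_0
          | 1 => h.nonneg Icf_11_1
          | k + 2 => coef_out hl 11 _ (Nat.le_add_left _ _)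
        | 12 => match k with
          | 0 => h.nonneg Icf_12_0
          | 1 => h.nonneg Icf_12_1
          | 2 => h.nonneg Icf_12_2
          | k + 3 => coef_out hl 12 _ (Nat.le_add_left _ _)
        | 13 => match k with
          | 0 => h.nonneg Icf_13_0
          | 1 => h.nonneg Icf_13_1
          | 2 => h.nonneg Icf_13_2
          | k + 3 => coef_out hl 13 _ (Nat.le_add_left _ _)
        | 14 => match k with
          | 0 => h.nonneg Icf_14_0
          | 1 => h.nonneg Icf_14_1
          | 2 => h.nonneg Icf_14_2
          | k + 3 => coef_out hl 14 _ (Nat.le_add_left _ _)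
        | 15 => match k with
          | 0 => h.nonneg Icf_15_0
          | 1 => h.nonneg Icf_15_1
          | 2 => h.nonneg Icf_15_2
          | k + 3 => coef_out hl 15 _ (Nat.le_add_left _ _)
        | 16 => match k with
          | 0 => h.nonneg Icf_16_0
          | 1 => h.nonneg Icf_16_1
          | 2 => h.nonneg Icf_16_2
          | k + 3 => coef_out hl 16 _ (Nat.le_add_left _ _)
        | 17 => match k with
          | 0 => h.nonneg Icf_17_0
          | 1 => h.nonneg Icf_17_1
          | 2 => h.nonneg Icf_17_2
          | k + 3 => coef_out hl 17 _ (Nat.le_add_left _ _)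
        | 18 => match k with
          | 0 => h.nonneg Icf_18_0
          | 1 => h.nonneg Icf_18_1
          | 2 => h.nonneg Icf_18_2
          | k + 3 => coef_out hl 18 _ (Nat.le_add_left _ _)
        | 19 => match k with
          | 0 => h.nonneg Icf_19_0
          | 1 => h.nonneg Icf_19_1
          | 2 => h.nonneg Icf_19_2
          | k + 3 => coef_out hl 19 _ (Nat.le_add_left _ _)
        | 20 => match k with
          | 0 => h.nonneg Icf_20_0
          | 1 => h.nonneg Icf_20_1
          | 2 => h.nonneg Icf_20_2
          | k + 3 => coef_out hl 20 _ (Nat.le_add_left _ _)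
        | i + 21 => coef_out hl _ _ (Nat.zero_le _)
      p := fun i => match i with
        | 0 => h.nonneg Icp_0
        | 1 => h.nonneg Icp_1
        | 2 => h.nonneg Icp_2
        | 3 => h.nonneg Icp_3
        | 4 => h.nonneg Icp_4
        | 5 => h.nonneg Icp_5
        | 6 => h.nonneg Icp_6
        | 7 => h.nonneg Icp_7
        | 8 => h.nonneg Icp_8
        | 9 => h.nonneg Icp_9
        | 10 => h.nonneg Icp_10
        | 11 => h.nonneg Icp_11
        | 12 => h.nonneg Icp_12
        | 13 => h.nonneg Icp_13
        | 14 => h.nonneg Icp_14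
        | 15 => h.nonneg Icp_15
        | 16 => h.nonneg Icp_16
        | 17 => h.nonneg Icp_17
        | 18 => h.nonneg Icp_18
        | 19 => h.nonneg Icp_19
        | 20 => h.nonneg Icp_20
        | 21 => h.nonneg Icp_21
        | 22 => h.nonneg Icp_22
        | i + 23 => poly_out hp _ (Nat.le_add_left _ _) }

/-- The signs of the ranges of the piece I. -/
theorem domI {x : ℕ → ℝ} (h : InGap aTop 20 wFar x) : DomOk parI x :=
  ⟨h.nonneg Icd_0, h.nonneg Icd_1, h.nonneg Icd_2, h.nonneg Icd_3, h.nonneg Icd_4⟩

/-- The upper end of `η` of the piece I. -/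
theorem topI_ok {x : ℕ → ℝ} (h : InGap aTop 20 wFar x) :
    0 ≤ (parI.domU).eval x := h.nonneg Icd_5

/-- The bound of `σ` of the piece I. -/
theorem sigI_ok {x : ℕ → ℝ} (h : InGap aTop 20 wFar x) :
    0 ≤ (parI.domTc).eval x := by
  rcases wFar_split h.w_in with hL | hR
  · exact InGap.nonneg { h with w_in := hL } Icd_6L
  · exact InGap.nonneg { h with w_in := hR } Icd_6R

/-- The lower end of `η` of the piece I. -/
theorem lowI_ok {x : ℕ → ℝ} (h : InGap aTop 20 wFar x) :
    0 ≤ (parI.domL 0 1).eval x := h.nonneg Icd_7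

/-- The checks of the piece J hold on its box. -/
theorem okJ {x : ℕ → ℝ} (h : InGap aTop 20 wFar x) : CheckOk parJ surJ x := by
  have hl : (parJ.forms surJ).map (fun F => F.num.length) =
      [2, 2, 2, 2, 2, 2, 3, 3, 2, 2, 2, 2, 3, 3, 3, 3, 3, 3, 3, 3, 3] := by decide +kernel
  have hp : (parJ.polys surJ).length = 23 := rfl
  exact
    { f := fun i k => match i with
        | 0 => match k with
          | 0 => h.nonneg Jcf_0_0
          | 1 => h.nonneg Jcf_0_1
          | k + 2 => coef_out hl 0 _ (Nat.le_add_left _ _)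
        | 1 => match k with
          | 0 => h.nonneg Jcf_1_0
          | 1 => h.nonneg Jcf_1_1
          | k + 2 => coef_out hl 1 _ (Nat.le_add_left _ _)
        | 2 => match k with
          | 0 => h.nonneg Jcf_2_0
          | 1 => h.nonneg Jcf_2_1
          | k + 2 => coef_out hl 2 _ (Nat.le_add_left _ _)
        | 3 => match k with
          | 0 => h.nonneg Jcf_3_0
          | 1 => h.nonneg Jcf_3_1
          | k + 2 => coef_out hl 3 _ (Nat.le_add_left _ _)
        | 4 => match k with
          | 0 => h.nonneg Jcf_4_0
          | 1 => h.nonneg Jcf_4_1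
          | k + 2 => coef_out hl 4 _ (Nat.le_add_left _ _)
        | 5 => match k with
          | 0 => h.nonneg Jcf_5_0
          | 1 => h.nonneg Jcf_5_1
          | k + 2 => coef_out hl 5 _ (Nat.le_add_left _ _)
        | 6 => match k with
          | 0 => h.nonneg Jcf_6_0
          | 1 => h.nonneg Jcf_6_1
          | 2 => h.nonneg Jcf_6_2
          | k + 3 => coef_out hl 6 _ (Nat.le_add_left _ _)
        | 7 => match k with
          | 0 => h.nonneg Jcf_7_0
          | 1 => h.nonneg Jcf_7_1
          | 2 => h.nonneg Jcf_7_2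
          | k + 3 => coef_out hl 7 _ (Nat.le_add_left _ _)
        | 8 => match k with
          | 0 => h.nonneg Jcf_8_0
          | 1 => h.nonneg Jcf_8_1
          | k + 2 => coef_out hl 8 _ (Nat.le_add_left _ _)
        | 9 => match k with
          | 0 => h.nonneg Jcf_9_0
          | 1 => h.nonneg Jcf_9_1
          | k + 2 => coef_out hl 9 _ (Nat.le_add_left _ _)
        | 10 => match k with
          | 0 => h.nonneg Jcf_10_0
          | 1 => h.nonneg Jcf_10_1
          | k + 2 => coef_out hl 10 _ (Nat.le_add_left _ _)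
        | 11 => match k with
          | 0 => h.nonneg Jcf_11_0
          | 1 => h.nonneg Jcf_11_1
          | k + 2 => coef_out hl 11 _ (Nat.le_add_left _ _)
        | 12 => match k with
          | 0 => h.nonneg Jcf_12_0
          | 1 => h.nonneg Jcf_12_1
          | 2 => h.nonneg Jcf_12_2
          | k + 3 => coef_out hl 12 _ (Nat.le_add_left _ _)
        | 13 => match k with
          | 0 => h.nonneg Jcf_13_0
          | 1 => h.nonneg Jcf_13_1
          | 2 => h.nonneg Jcf_13_2
          | k + 3 => coef_out hl 13 _ (Nat.le_add_left _ _)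
        | 14 => match k with
          | 0 => h.nonneg Jcf_14_0
          | 1 => h.nonneg Jcf_14_1
          | 2 => h.nonneg Jcf_14_2
          | k + 3 => coef_out hl 14 _ (Nat.le_add_left _ _)
        | 15 => match k with
          | 0 => h.nonneg Jcf_15_0
          | 1 => h.nonneg Jcf_15_1
          | 2 => h.nonneg Jcf_15_2
          | k + 3 => coef_out hl 15 _ (Nat.le_add_left _ _)
        | 16 => match k with
          | 0 => h.nonneg Jcf_16_0
          | 1 => h.nonneg Jcf_16_1
          | 2 => h.nonneg Jcf_16_2
          | k + 3 => coef_out hl 16 _ (Nat.le_add_left _ _)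
        | 17 => match k with
          | 0 => h.nonneg Jcf_17_0
          | 1 => h.nonneg Jcf_17_1
          | 2 => h.nonneg Jcf_17_2
          | k + 3 => coef_out hl 17 _ (Nat.le_add_left _ _)
        | 18 => match k with
          | 0 => h.nonneg Jcf_18_0
          | 1 => h.nonneg Jcf_18_1
          | 2 => h.nonneg Jcf_18_2
          | k + 3 => coef_out hl 18 _ (Nat.le_add_left _ _)
        | 19 => match k with
          | 0 => h.nonneg Jcf_19_0
          | 1 => h.nonneg Jcf_19_1
          | 2 => h.nonneg Jcf_19_2
          | k + 3 => coef_out hl 19 _ (Nat.le_add_left _ _)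
        | 20 => match k with
          | 0 => h.nonneg Jcf_20_0
          | 1 => h.nonneg Jcf_20_1
          | 2 => h.nonneg Jcf_20_2
          | k + 3 => coef_out hl 20 _ (Nat.le_add_left _ _)
        | i + 21 => coef_out hl _ _ (Nat.zero_le _)
      p := fun i => match i with
        | 0 => h.nonneg Jcp_0
        | 1 => h.nonneg Jcp_1
        | 2 => h.nonneg Jcp_2
        | 3 => h.nonneg Jcp_3
        | 4 => h.nonneg Jcp_4
        | 5 => h.nonneg Jcp_5
        | 6 => h.nonneg Jcp_6
        | 7 => h.nonneg Jcp_7
        | 8 => h.nonneg Jcp_8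
        | 9 => h.nonneg Jcp_9
        | 10 => h.nonneg Jcp_10
        | 11 => h.nonneg Jcp_11
        | 12 => h.nonneg Jcp_12
        | 13 => h.nonneg Jcp_13
        | 14 => h.nonneg Jcp_14
        | 15 => h.nonneg Jcp_15
        | 16 => h.nonneg Jcp_16
        | 17 => h.nonneg Jcp_17
        | 18 => h.nonneg Jcp_18
        | 19 => h.nonneg Jcp_19
        | 20 => h.nonneg Jcp_20
        | 21 => h.nonneg Jcp_21
        | 22 => h.nonneg Jcp_22
        | i + 23 => poly_out hp _ (Nat.le_add_left _ _) }

/-- The signs of the ranges of the piece J. -/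
theorem domJ {x : ℕ → ℝ} (h : InGap aTop 20 wFar x) : DomOk parJ x :=
  ⟨h.nonneg Jcd_0, h.nonneg Jcd_1, h.nonneg Jcd_2, h.nonneg Jcd_3, h.nonneg Jcd_4⟩

/-- The upper end of `η` of the piece J. -/
theorem topJ_ok {x : ℕ → ℝ} (h : InGap aTop 20 wFar x) :
    0 ≤ (parJ.domU).eval x := h.nonneg Jcd_5

/-- The bound of `σ` of the piece J. -/
theorem sigJ_ok {x : ℕ → ℝ} (h : InGap aTop 20 wFar x) :
    0 ≤ (parJ.domTc).eval x := by
  rcases wFar_split h.w_in with hL | hR
  · exact InGap.nonneg { h with w_in := hL } Jcd_6L
  · exact InGap.nonneg { h with w_in := hR } Jcd_6R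

/-- The lower end of `η` of the piece J. -/
theorem lowJ_ok {x : ℕ → ℝ} (h : InGap aTop 20 wFar x) :
    0 ≤ (parJ.domLUG).eval x := h.nonneg Jcd_7

/-- The checks of the piece K hold on its box. -/
theorem okK {x : ℕ → ℝ} (h : InGap aTop 20 wNear x) : CheckOk parK surK x := by
  have hl : (parK.forms surK).map (fun F => F.num.length) =
      [2, 2, 2, 2, 2, 2, 3, 3, 2, 2, 2, 2, 3, 3, 3, 3, 3, 3, 3, 3, 3] := by decide +kernel
  have hp : (parK.polys surK).length = 23 := rfl
  exact
    { f := fun i k => match i with
        | 0 => match k with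
          | 0 => h.nonneg Kcf_0_0
          | 1 => h.nonneg Kcf_0_1
          | k + 2 => coef_out hl 0 _ (Nat.le_add_left _ _)
        | 1 => match k with
          | 0 => h.nonneg Kcf_1_0
          | 1 => h.nonneg Kcf_1_1
          | k + 2 => coef_out hl 1 _ (Nat.le_add_left _ _)
        | 2 => match k with
          | 0 => h.nonneg Kcf_2_0
          | 1 => h.nonneg Kcf_2_1
          | k + 2 => coef_out hl 2 _ (Nat.le_add_left _ _)
        | 3 => match k with
          | 0 => h.nonneg Kcf_3_0
          | 1 => h.nonneg Kcf_3_1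
          | k + 2 => coef_out hl 3 _ (Nat.le_add_left _ _)
        | 4 => match k with
          | 0 => h.nonneg Kcf_4_0
          | 1 => h.nonneg Kcf_4_1
          | k + 2 => coef_out hl 4 _ (Nat.le_add_left _ _)
        | 5 => match k with
          | 0 => h.nonneg Kcf_5_0
          | 1 => h.nonneg Kcf_5_1
          | k + 2 => coef_out hl 5 _ (Nat.le_add_left _ _)
        | 6 => match k with
          | 0 => h.nonneg Kcf_6_0
          | 1 => h.nonneg Kcf_6_1
          | 2 => h.nonneg Kcf_6_2
          | k + 3 => coef_out hl 6 _ (Nat.le_add_left _ _)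
        | 7 => match k with
          | 0 => h.nonneg Kcf_7_0
          | 1 => h.nonneg Kcf_7_1
          | 2 => h.nonneg Kcf_7_2
          | k + 3 => coef_out hl 7 _ (Nat.le_add_left _ _)
        | 8 => match k with
          | 0 => h.nonneg Kcf_8_0
          | 1 => h.nonneg Kcf_8_1
          | k + 2 => coef_out hl 8 _ (Nat.le_add_left _ _)
        | 9 => match k with
          | 0 => h.nonneg Kcf_9_0
          | 1 => h.nonneg Kcf_9_1
          | k + 2 => coef_out hl 9 _ (Nat.le_add_left _ _)
        | 10 => match k with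
          | 0 => h.nonneg Kcf_10_0
          | 1 => h.nonneg Kcf_10_1
          | k + 2 => coef_out hl 10 _ (Nat.le_add_left _ _)
        | 11 => match k with
          | 0 => h.nonneg Kcf_11_0
          | 1 => h.nonneg Kcf_11_1
          | k + 2 => coef_out hl 11 _ (Nat.le_add_left _ _)
        | 12 => match k with
          | 0 => h.nonneg Kcf_12_0
          | 1 => h.nonneg Kcf_12_1
          | 2 => h.nonneg Kcf_12_2
          | k + 3 => coef_out hl 12 _ (Nat.le_add_left _ _)
        | 13 => match k with
          | 0 => h.nonneg Kcf_13_0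
          | 1 => h.nonneg Kcf_13_1
          | 2 => h.nonneg Kcf_13_2
          | k + 3 => coef_out hl 13 _ (Nat.le_add_left _ _)
        | 14 => match k with
          | 0 => h.nonneg Kcf_14_0
          | 1 => h.nonneg Kcf_14_1
          | 2 => h.nonneg Kcf_14_2
          | k + 3 => coef_out hl 14 _ (Nat.le_add_left _ _)
        | 15 => match k with
          | 0 => h.nonneg Kcf_15_0
          | 1 => h.nonneg Kcf_15_1
          | 2 => h.nonneg Kcf_15_2
          | k + 3 => coef_out hl 15 _ (Nat.le_add_left _ _)
        | 16 => match k with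
          | 0 => h.nonneg Kcf_16_0
          | 1 => h.nonneg Kcf_16_1
          | 2 => h.nonneg Kcf_16_2
          | k + 3 => coef_out hl 16 _ (Nat.le_add_left _ _)
        | 17 => match k with
          | 0 => h.nonneg Kcf_17_0
          | 1 => h.nonneg Kcf_17_1
          | 2 => h.nonneg Kcf_17_2
          | k + 3 => coef_out hl 17 _ (Nat.le_add_left _ _)
        | 18 => match k with
          | 0 => h.nonneg Kcf_18_0
          | 1 => h.nonneg Kcf_18_1
          | 2 => h.nonneg Kcf_18_2
          | k + 3 => coef_out hl 18 _ (Nat.le_add_left _ _)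
        | 19 => match k with
          | 0 => h.nonneg Kcf_19_0
          | 1 => h.nonneg Kcf_19_1
          | 2 => h.nonneg Kcf_19_2
          | k + 3 => coef_out hl 19 _ (Nat.le_add_left _ _)
        | 20 => match k with
          | 0 => h.nonneg Kcf_20_0
          | 1 => h.nonneg Kcf_20_1
          | 2 => h.nonneg Kcf_20_2
          | k + 3 => coef_out hl 20 _ (Nat.le_add_left _ _)
        | i + 21 => coef_out hl _ _ (Nat.zero_le _)
      p := fun i => match i with
        | 0 => h.nonneg Kcp_0
        | 1 => h.nonneg Kcp_1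
        | 2 => h.nonneg Kcp_2
        | 3 => h.nonneg Kcp_3
        | 4 => h.nonneg Kcp_4
        | 5 => h.nonneg Kcp_5
        | 6 => h.nonneg Kcp_6
        | 7 => h.nonneg Kcp_7
        | 8 => h.nonneg Kcp_8
        | 9 => h.nonneg Kcp_9
        | 10 => h.nonneg Kcp_10
        | 11 => h.nonneg Kcp_11
        | 12 => h.nonneg Kcp_12
        | 13 => h.nonneg Kcp_13
        | 14 => h.nonneg Kcp_14
        | 15 => h.nonneg Kcp_15
        | 16 => h.nonneg Kcp_16
        | 17 => h.nonneg Kcp_17
        | 18 => h.nonneg Kcp_18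
        | 19 => h.nonneg Kcp_19
        | 20 => h.nonneg Kcp_20
        | 21 => h.nonneg Kcp_21
        | 22 => h.nonneg Kcp_22
        | i + 23 => poly_out hp _ (Nat.le_add_left _ _) }

/-- The signs of the ranges of the piece K. -/
theorem domK {x : ℕ → ℝ} (h : InGap aTop 20 wNear x) : DomOk parK x :=
  ⟨h.nonneg Kcd_0, h.nonneg Kcd_1, h.nonneg Kcd_2, h.nonneg Kcd_3, h.nonneg Kcd_4⟩

/-- The upper end of `η` of the piece K. -/
theorem topK_ok {x : ℕ → ℝ} (h : InGap aTop 20 wNear x) :
    0 ≤ (parK.domU).eval x := h.nonneg Kcd_5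

/-- The bound of `σ` of the piece K. -/
theorem sigK_ok {x : ℕ → ℝ} (h : InGap aTop 20 wNear x) :
    0 ≤ (parK.domTt).eval x := by
  rcases wNear_split h.w_in with hL | hR
  · exact InGap.nonneg { h with w_in := hL } Kcd_6L
  · exact InGap.nonneg { h with w_in := hR } Kcd_6R

/-- The lower end of `η` of the piece K. -/
theorem lowK_ok {x : ℕ → ℝ} (h : InGap aTop 20 wNear x) :
    0 ≤ (parK.domL 0 1).eval x := h.nonneg Kcd_7

end Vale.Agent.P100.Calib.GapAll
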