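import Vale.Agent.P100.Calib.SlabAllGapCheckDOne
import Vale.Agent.P100.Calib.SlabAllGapCheckDTwo
import Vale.Agent.P100.Calib.SlabAllGapCheckDThree
import Vale.Agent.P100.Calib.SlabAllGapCheckDFour
import Vale.Agent.P100.Calib.SlabAllGapCheckDFive
import Vale.Agent.P100.Calib.SlabAllGapCheckEOne
import Vale.Agent.P100.Calib.SlabAllGapCheckETwo
import Vale.Agent.P100.Calib.SlabAllGapCheckEThree
import Vale.Agent.P100.Calib.SlabAllGapCheckEFour
import Vale.Agent.P100.Calib.SlabAllGapCheckEFive
import Vale.Agent.P100.Calib.SlabAllGapCheckFOne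
import Vale.Agent.P100.Calib.SlabAllGapCheckFTwo
import Vale.Agent.P100.Calib.SlabAllGapCheckFThree
import Vale.Agent.P100.Calib.SlabAllGapCheckFFour
import Vale.Agent.P100.Calib.SlabAllGapCheckFFive
import Vale.Agent.P100.Calib.SlabAllGapCheckGOne
import Vale.Agent.P100.Calib.SlabAllGapCheckGTwo
import Vale.Agent.P100.Calib.SlabAllGapCheckGThree
import Vale.Agent.P100.Calib.SlabAllGapCheckGFour
import Vale.Agent.P100.Calib.SlabAllGapCheckGFive
import Vale.Agent.P100.Calib.SlabAllGapPiece

/-!
# All checks of the pieces on `91/100 ≤ u ≤ 39/40` pass on their boxes, group two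
-/

namespace Vale.Agent.P100.Calib.GapAll

open Pack EndAll

/-- The checks of the piece D hold on its box. -/
theorem okD {x : ℕ → ℝ} (h : InGap aHigh 20 wNear x) : CheckOk parD surD x := by
  have hl : (parD.forms surD).map (fun F => F.num.length) =
      [2, 2, 2, 2, 2, 2, 3, 3, 2, 2, 2, 2, 3, 3, 3, 3, 3, 3, 3, 3, 3] := by decide +kernel
  have hp : (parD.polys surD).length = 23 := rfl
  exact
    { f := fun i k => match i with
        | 0 => match k with
          | 0 => h.nonneg Dcf_0_0
          | 1 => h.nonneg Dcf_0_1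
          | k + 2 => coef_out hl 0 _ (Nat.le_add_left _ _)
        | 1 => match k with
          | 0 => h.nonneg Dcf_1_0
          | 1 => h.nonneg Dcf_1_1
          | k + 2 => coef_out hl 1 _ (Nat.le_add_left _ _)
        | 2 => match k with
          | 0 => h.nonneg Dcf_2_0
          | 1 => h.nonneg Dcf_2_1
          | k + 2 => coef_out hl 2 _ (Nat.le_add_left _ _)
        | 3 => match k with
          | 0 => h.nonneg Dcf_3_0
          | 1 => h.nonneg Dcf_3_1
          | k + 2 => coef_out hl 3 _ (Nat.le_add_left _ _)
        | 4 => match k with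
          | 0 => h.nonneg Dcf_4_0
          | 1 => h.nonneg Dcf_4_1
          | k + 2 => coef_out hl 4 _ (Nat.le_add_left _ _)
        | 5 => match k with
          | 0 => h.nonneg Dcf_5_0
          | 1 => h.nonneg Dcf_5_1
          | k + 2 => coef_out hl 5 _ (Nat.le_add_left _ _)
        | 6 => match k with
          | 0 => h.nonneg Dcf_6_0
          | 1 => h.nonneg Dcf_6_1
          | 2 => h.nonneg Dcf_6_2
          | k + 3 => coef_out hl 6 _ (Nat.le_add_left _ _)
        | 7 => match k with
          | 0 => h.nonneg Dcf_7_0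
          | 1 => h.nonneg Dcf_7_1
          | 2 => h.nonneg Dcf_7_2
          | k + 3 => coef_out hl 7 _ (Nat.le_add_left _ _)
        | 8 => match k with
          | 0 => h.nonneg Dcf_8_0
          | 1 => h.nonneg Dcf_8_1
          | k + 2 => coef_out hl 8 _ (Nat.le_add_left _ _)
        | 9 => match k with
          | 0 => h.nonneg Dcf_9_0
          | 1 => h.nonneg Dcf_9_1
          | k + 2 => coef_out hl 9 _ (Nat.le_add_left _ _)
        | 10 => match k with
          | 0 => h.nonneg Dcf_10_0
          | 1 => h.nonneg Dcf_10_1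
          | k + 2 => coef_out hl 10 _ (Nat.le_add_left _ _)
        | 11 => match k with
          | 0 => h.nonneg Dcf_11_0
          | 1 => h.nonneg Dcf_11_1
          | k + 2 => coef_out hl 11 _ (Nat.le_add_left _ _)
        | 12 => match k with
          | 0 => h.nonneg Dcf_12_0
          | 1 => h.nonneg Dcf_12_1
          | 2 => h.nonneg Dcf_12_2
          | k + 3 => coef_out hl 12 _ (Nat.le_add_left _ _)
        | 13 => match k with
          | 0 => h.nonneg Dcf_13_0
          | 1 => h.nonneg Dcf_13_1
          | 2 => h.nonneg Dcf_13_2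
          | k + 3 => coef_out hl 13 _ (Nat.le_add_left _ _)
        | 14 => match k with
          | 0 => h.nonneg Dcf_14_0
          | 1 => h.nonneg Dcf_14_1
          | 2 => h.nonneg Dcf_14_2
          | k + 3 => coef_out hl 14 _ (Nat.le_add_left _ _)
        | 15 => match k with
          | 0 => h.nonneg Dcf_15_0
          | 1 => h.nonneg Dcf_15_1
          | 2 => h.nonneg Dcf_15_2
          | k + 3 => coef_out hl 15 _ (Nat.le_add_left _ _)
        | 16 => match k with
          | 0 => h.nonneg Dcf_16_0
          | 1 => h.nonneg Dcf_16_1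
          | 2 => h.nonneg Dcf_16_2
          | k + 3 => coef_out hl 16 _ (Nat.le_add_left _ _)
        | 17 => match k with
          | 0 => h.nonneg Dcf_17_0
          | 1 => h.nonneg Dcf_17_1
          | 2 => h.nonneg Dcf_17_2
          | k + 3 => coef_out hl 17 _ (Nat.le_add_left _ _)
        | 18 => match k with
          | 0 => h.nonneg Dcf_18_0
          | 1 => h.nonneg Dcf_18_1
          | 2 => h.nonneg Dcf_18_2
          | k + 3 => coef_out hl 18 _ (Nat.le_add_left _ _)
        | 19 => match k with
          | 0 => h.nonneg Dcf_19_0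
          | 1 => h.nonneg Dcf_19_1
          | 2 => h.nonneg Dcf_19_2
          | k + 3 => coef_out hl 19 _ (Nat.le_add_left _ _)
        | 20 => match k with
          | 0 => h.nonneg Dcf_20_0
          | 1 => h.nonneg Dcf_20_1
          | 2 => h.nonneg Dcf_20_2
          | k + 3 => coef_out hl 20 _ (Nat.le_add_left _ _)
        | i + 21 => coef_out hl _ _ (Nat.zero_le _)
      p := fun i => match i with
        | 0 => h.nonneg Dcp_0
        | 1 => h.nonneg Dcp_1
        | 2 => h.nonneg Dcp_2
        | 3 => h.nonneg Dcp_3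
        | 4 => h.nonneg Dcp_4
        | 5 => h.nonneg Dcp_5
        | 6 => h.nonneg Dcp_6
        | 7 => h.nonneg Dcp_7
        | 8 => h.nonneg Dcp_8
        | 9 => h.nonneg Dcp_9
        | 10 => h.nonneg Dcp_10
        | 11 => h.nonneg Dcp_11
        | 12 => h.nonneg Dcp_12
        | 13 => h.nonneg Dcp_13
        | 14 => h.nonneg Dcp_14
        | 15 => h.nonneg Dcp_15
        | 16 => h.nonneg Dcp_16
        | 17 => h.nonneg Dcp_17
        | 18 => h.nonneg Dcp_18
        | 19 => h.nonneg Dcp_19
        | 20 => h.nonneg Dcp_20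
        | 21 => h.nonneg Dcp_21
        | 22 => h.nonneg Dcp_22
        | i + 23 => poly_out hp _ (Nat.le_add_left _ _) }

/-- The signs of the ranges of the piece D. -/
theorem domD {x : ℕ → ℝ} (h : InGap aHigh 20 wNear x) : DomOk parD x :=
  ⟨h.nonneg Dcd_0, h.nonneg Dcd_1, h.nonneg Dcd_2, h.nonneg Dcd_3, h.nonneg Dcd_4⟩

/-- The upper end of `η` of the piece D. -/
theorem topD_ok {x : ℕ → ℝ} (h : InGap aHigh 20 wNear x) :
    0 ≤ (parD.domU).eval x := h.nonneg Dcd_5

/-- The bound of `σ` of the piece D. -/
theorem sigD_ok {x : ℕ → ℝ} (h : InGap aHigh 20 wNear x) :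
    0 ≤ (parD.domTt).eval x := by
  rcases wNear_split h.w_in with hL | hR
  · exact InGap.nonneg { h with w_in := hL } Dcd_6L
  · exact InGap.nonneg { h with w_in := hR } Dcd_6R

/-- The lower end of `η` of the piece D. -/
theorem lowD_ok {x : ℕ → ℝ} (h : InGap aHigh 20 wNear x) :
    0 ≤ (parD.domL 0 1).eval x := h.nonneg Dcd_7

/-- The checks of the piece E hold on its box. -/
theorem okE {x : ℕ → ℝ} (h : InGap aHigh 20 wNear x) : CheckOk parE surE x := by
  have hl : (parE.forms surE).map (fun F => F.num.length) =
      [2, 2, 2, 2, 2, 2, 3, 3, 2, 2, 2, 2, 3, 3, 3, 3, 3, 3, 3, 3, 3] := by decide +kernel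
  have hp : (parE.polys surE).length = 23 := rfl
  exact
    { f := fun i k => match i with
        | 0 => match k with
          | 0 => h.nonneg Ecf_0_0
          | 1 => h.nonneg Ecf_0_1
          | k + 2 => coef_out hl 0 _ (Nat.le_add_left _ _)
        | 1 => match k with
          | 0 => h.nonneg Ecf_1_0
          | 1 => h.nonneg Ecf_1_1
          | k + 2 => coef_out hl 1 _ (Nat.le_add_left _ _)
        | 2 => match k with
          | 0 => h.nonneg Ecf_2_0
          | 1 => h.nonneg Ecf_2_1
          | k + 2 => coef_out hl 2 _ (Nat.le_add_left _ _)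
        | 3 => match k with
          | 0 => h.nonneg Ecf_3_0
          | 1 => h.nonneg Ecf_3_1
          | k + 2 => coef_out hl 3 _ (Nat.le_add_left _ _)
        | 4 => match k with
          | 0 => h.nonneg Ecf_4_0
          | 1 => h.nonneg Ecf_4_1
          | k + 2 => coef_out hl 4 _ (Nat.le_add_left _ _)
        | 5 => match k with
          | 0 => h.nonneg Ecf_5_0
          | 1 => h.nonneg Ecf_5_1
          | k + 2 => coef_out hl 5 _ (Nat.le_add_left _ _)
        | 6 => match k with
          | 0 => h.nonneg Ecf_6_0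
          | 1 => h.nonneg Ecf_6_1
          | 2 => h.nonneg Ecf_6_2
          | k + 3 => coef_out hl 6 _ (Nat.le_add_left _ _)
        | 7 => match k with
          | 0 => h.nonneg Ecf_7_0
          | 1 => h.nonneg Ecf_7_1
          | 2 => h.nonneg Ecf_7_2
          | k + 3 => coef_out hl 7 _ (Nat.le_add_left _ _)
        | 8 => match k with
          | 0 => h.nonneg Ecf_8_0
          | 1 => h.nonneg Ecf_8_1
          | k + 2 => coef_out hl 8 _ (Nat.le_add_left _ _)
        | 9 => match k with
          | 0 => h.nonneg Ecf_9_0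
          | 1 => h.nonneg Ecf_9_1
          | k + 2 => coef_out hl 9 _ (Nat.le_add_left _ _)
        | 10 => match k with
          | 0 => h.nonneg Ecf_10_0
          | 1 => h.nonneg Ecf_10_1
          | k + 2 => coef_out hl 10 _ (Nat.le_add_left _ _)
        | 11 => match k with
          | 0 => h.nonneg Ecf_11_0
          | 1 => h.nonneg Ecf_11_1
          | k + 2 => coef_out hl 11 _ (Nat.le_add_left _ _)
        | 12 => match k with
          | 0 => h.nonneg Ecf_12_0
          | 1 => h.nonneg Ecf_12_1
          | 2 => h.nonneg Ecf_12_2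
          | k + 3 => coef_out hl 12 _ (Nat.le_add_left _ _)
        | 13 => match k with
          | 0 => h.nonneg Ecf_13_0
          | 1 => h.nonneg Ecf_13_1
          | 2 => h.nonneg Ecf_13_2
          | k + 3 => coef_out hl 13 _ (Nat.le_add_left _ _)
        | 14 => match k with
          | 0 => h.nonneg Ecf_14_0
          | 1 => h.nonneg Ecf_14_1
          | 2 => h.nonneg Ecf_14_2
          | k + 3 => coef_out hl 14 _ (Nat.le_add_left _ _)
        | 15 => match k with
          | 0 => h.nonneg Ecf_15_0
          | 1 => h.nonneg Ecf_15_1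
          | 2 => h.nonneg Ecf_15_2
          | k + 3 => coef_out hl 15 _ (Nat.le_add_left _ _)
        | 16 => match k with
          | 0 => h.nonneg Ecf_16_0
          | 1 => h.nonneg Ecf_16_1
          | 2 => h.nonneg Ecf_16_2
          | k + 3 => coef_out hl 16 _ (Nat.le_add_left _ _)
        | 17 => match k with
          | 0 => h.nonneg Ecf_17_0
          | 1 => h.nonneg Ecf_17_1
          | 2 => h.nonneg Ecf_17_2
          | k + 3 => coef_out hl 17 _ (Nat.le_add_left _ _)
        | 18 => match k with
          | 0 => h.nonneg Ecf_18_0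
          | 1 => h.nonneg Ecf_18_1
          | 2 => h.nonneg Ecf_18_2
          | k + 3 => coef_out hl 18 _ (Nat.le_add_left _ _)
        | 19 => match k with
          | 0 => h.nonneg Ecf_19_0
          | 1 => h.nonneg Ecf_19_1
          | 2 => h.nonneg Ecf_19_2
          | k + 3 => coef_out hl 19 _ (Nat.le_add_left _ _)
        | 20 => match k with
          | 0 => h.nonneg Ecf_20_0
          | 1 => h.nonneg Ecf_20_1
          | 2 => h.nonneg Ecf_20_2
          | k + 3 => coef_out hl 20 _ (Nat.le_add_left _ _)
        | i + 21 => coef_out hl _ _ (Nat.zero_le _)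
      p := fun i => match i with
        | 0 => h.nonneg Ecp_0
        | 1 => h.nonneg Ecp_1
        | 2 => h.nonneg Ecp_2
        | 3 => h.nonneg Ecp_3
        | 4 => h.nonneg Ecp_4
        | 5 => h.nonneg Ecp_5
        | 6 => h.nonneg Ecp_6
        | 7 => h.nonneg Ecp_7
        | 8 => h.nonneg Ecp_8
        | 9 => h.nonneg Ecp_9
        | 10 => h.nonneg Ecp_10
        | 11 => h.nonneg Ecp_11
        | 12 => h.nonneg Ecp_12
        | 13 => h.nonneg Ecp_13
        | 14 => h.nonneg Ecp_14
        | 15 => h.nonneg Ecp_15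
        | 16 => h.nonneg Ecp_16
        | 17 => h.nonneg Ecp_17
        | 18 => h.nonneg Ecp_18
        | 19 => h.nonneg Ecp_19
        | 20 => h.nonneg Ecp_20
        | 21 => h.nonneg Ecp_21
        | 22 => h.nonneg Ecp_22
        | i + 23 => poly_out hp _ (Nat.le_add_left _ _) }

/-- The signs of the ranges of the piece E. -/
theorem domE {x : ℕ → ℝ} (h : InGap aHigh 20 wNear x) : DomOk parE x :=
  ⟨h.nonneg Ecd_0, h.nonneg Ecd_1, h.nonneg Ecd_2, h.nonneg Ecd_3, h.nonneg Ecd_4⟩

/-- The upper end of `η` of the piece E. -/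
theorem topE_ok {x : ℕ → ℝ} (h : InGap aHigh 20 wNear x) :
    0 ≤ (parE.domU).eval x := h.nonneg Ecd_5

/-- The bound of `σ` of the piece E. -/
theorem sigE_ok {x : ℕ → ℝ} (h : InGap aHigh 20 wNear x) :
    0 ≤ (parE.domTt).eval x := by
  rcases wNear_split h.w_in with hL | hR
  · exact InGap.nonneg { h with w_in := hL } Ecd_6L
  · exact InGap.nonneg { h with w_in := hR } Ecd_6R

/-- The lower end of `η` of the piece E. -/
theorem lowE_ok {x : ℕ → ℝ} (h : InGap aHigh 20 wNear x) :
    0 ≤ (parE.domL 3 5).eval x := by
  rcases aHigh_split h.a_in with hL | hR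
  · exact InGap.nonneg { h with a_in := hL } Ecd_7L
  · exact InGap.nonneg { h with a_in := hR } Ecd_7R

/-- The checks of the piece F hold on its box. -/
theorem okF {x : ℕ → ℝ} (h : InGap aTop 20 wNear x) : CheckOk parF surF x := by
  have hl : (parF.forms surF).map (fun F => F.num.length) =
      [2, 2, 2, 2, 2, 2, 3, 3, 2, 2, 2, 2, 3, 3, 3, 3, 3, 3, 3, 3, 3] := by decide +kernel
  have hp : (parF.polys surF).length = 23 := rfl
  exact
    { f := fun i k => match i with
        | 0 => match k with
          | 0 => h.nonneg Fcf_0_0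
          | 1 => h.nonneg Fcf_0_1
          | k + 2 => coef_out hl 0 _ (Nat.le_add_left _ _)
        | 1 => match k with
          | 0 => h.nonneg Fcf_1_0
          | 1 => h.nonneg Fcf_1_1
          | k + 2 => coef_out hl 1 _ (Nat.le_add_left _ _)
        | 2 => match k with
          | 0 => h.nonneg Fcf_2_0
          | 1 => h.nonneg Fcf_2_1
          | k + 2 => coef_out hl 2 _ (Nat.le_add_left _ _)
        | 3 => match k with
          | 0 => h.nonneg Fcf_3_0
          | 1 => h.nonneg Fcf_3_1
          | k + 2 => coef_out hl 3 _ (Nat.le_add_left _ _)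
        | 4 => match k with
          | 0 => h.nonneg Fcf_4_0
          | 1 => h.nonneg Fcf_4_1
          | k + 2 => coef_out hl 4 _ (Nat.le_add_left _ _)
        | 5 => match k with
          | 0 => h.nonneg Fcf_5_0
          | 1 => h.nonneg Fcf_5_1
          | k + 2 => coef_out hl 5 _ (Nat.le_add_left _ _)
        | 6 => match k with
          | 0 => h.nonneg Fcf_6_0
          | 1 => h.nonneg Fcf_6_1
          | 2 => h.nonneg Fcf_6_2
          | k + 3 => coef_out hl 6 _ (Nat.le_add_left _ _)
        | 7 => match k with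
          | 0 => h.nonneg Fcf_7_0
          | 1 => h.nonneg Fcf_7_1
          | 2 => h.nonneg Fcf_7_2
          | k + 3 => coef_out hl 7 _ (Nat.le_add_left _ _)
        | 8 => match k with
          | 0 => h.nonneg Fcf_8_0
          | 1 => h.nonneg Fcf_8_1
          | k + 2 => coef_out hl 8 _ (Nat.le_add_left _ _)
        | 9 => match k with
          | 0 => h.nonneg Fcf_9_0
          | 1 => h.nonneg Fcf_9_1
          | k + 2 => coef_out hl 9 _ (Nat.le_add_left _ _)
        | 10 => match k with
          | 0 => h.nonneg Fcf_10_0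
          | 1 => h.nonneg Fcf_10_1
          | k + 2 => coef_out hl 10 _ (Nat.le_add_left _ _)
        | 11 => match k with
          | 0 => h.nonneg Fcf_11_0
          | 1 => h.nonneg Fcf_11_1
          | k + 2 => coef_out hl 11 _ (Nat.le_add_left _ _)
        | 12 => match k with
          | 0 => h.nonneg Fcf_12_0
          | 1 => h.nonneg Fcf_12_1
          | 2 => h.nonneg Fcf_12_2
          | k + 3 => coef_out hl 12 _ (Nat.le_add_left _ _)
        | 13 => match k with
          | 0 => h.nonneg Fcf_13_0
          | 1 => h.nonneg Fcf_13_1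
          | 2 => h.nonneg Fcf_13_2
          | k + 3 => coef_out hl 13 _ (Nat.le_add_left _ _)
        | 14 => match k with
          | 0 => h.nonneg Fcf_14_0
          | 1 => h.nonneg Fcf_14_1
          | 2 => h.nonneg Fcf_14_2
          | k + 3 => coef_out hl 14 _ (Nat.le_add_left _ _)
        | 15 => match k with
          | 0 => h.nonneg Fcf_15_0
          | 1 => h.nonneg Fcf_15_1
          | 2 => h.nonneg Fcf_15_2
          | k + 3 => coef_out hl 15 _ (Nat.le_add_left _ _)
        | 16 => match k with
          | 0 => h.nonneg Fcf_16_0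
          | 1 => h.nonneg Fcf_16_1
          | 2 => h.nonneg Fcf_16_2
          | k + 3 => coef_out hl 16 _ (Nat.le_add_left _ _)
        | 17 => match k with
          | 0 => h.nonneg Fcf_17_0
          | 1 => h.nonneg Fcf_17_1
          | 2 => h.nonneg Fcf_17_2
          | k + 3 => coef_out hl 17 _ (Nat.le_add_left _ _)
        | 18 => match k with
          | 0 => h.nonneg Fcf_18_0
          | 1 => h.nonneg Fcf_18_1
          | 2 => h.nonneg Fcf_18_2
          | k + 3 => coef_out hl 18 _ (Nat.le_add_left _ _)
        | 19 => match k with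
          | 0 => h.nonneg Fcf_19_0
          | 1 => h.nonneg Fcf_19_1
          | 2 => h.nonneg Fcf_19_2
          | k + 3 => coef_out hl 19 _ (Nat.le_add_left _ _)
        | 20 => match k with
          | 0 => h.nonneg Fcf_20_0
          | 1 => h.nonneg Fcf_20_1
          | 2 => h.nonneg Fcf_20_2
          | k + 3 => coef_out hl 20 _ (Nat.le_add_left _ _)
        | i + 21 => coef_out hl _ _ (Nat.zero_le _)
      p := fun i => match i with
        | 0 => h.nonneg Fcp_0
        | 1 => h.nonneg Fcp_1
        | 2 => h.nonneg Fcp_2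
        | 3 => h.nonneg Fcp_3
        | 4 => h.nonneg Fcp_4
        | 5 => h.nonneg Fcp_5
        | 6 => h.nonneg Fcp_6
        | 7 => h.nonneg Fcp_7
        | 8 => h.nonneg Fcp_8
        | 9 => h.nonneg Fcp_9
        | 10 => h.nonneg Fcp_10
        | 11 => h.nonneg Fcp_11
        | 12 => h.nonneg Fcp_12
        | 13 => h.nonneg Fcp_13
        | 14 => h.nonneg Fcp_14
        | 15 => h.nonneg Fcp_15
        | 16 => h.nonneg Fcp_16
        | 17 => h.nonneg Fcp_17
        | 18 => h.nonneg Fcp_18
        | 19 => h.nonneg Fcp_19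
        | 20 => h.nonneg Fcp_20
        | 21 => h.nonneg Fcp_21
        | 22 => h.nonneg Fcp_22
        | i + 23 => poly_out hp _ (Nat.le_add_left _ _) }

/-- The signs of the ranges of the piece F. -/
theorem domF {x : ℕ → ℝ} (h : InGap aTop 20 wNear x) : DomOk parF x :=
  ⟨h.nonneg Fcd_0, h.nonneg Fcd_1, h.nonneg Fcd_2, h.nonneg Fcd_3, h.nonneg Fcd_4⟩

/-- The upper end of `η` of the piece F. -/
theorem topF_ok {x : ℕ → ℝ} (h : InGap aTop 20 wNear x) :
    0 ≤ (parF.domU).eval x := h.nonneg Fcd_5

/-- The bound of `σ` of the piece F. -/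
theorem sigF_ok {x : ℕ → ℝ} (h : InGap aTop 20 wNear x) :
    0 ≤ (parF.domTt).eval x := by
  rcases wNear_split h.w_in with hL | hR
  · exact InGap.nonneg { h with w_in := hL } Fcd_6L
  · exact InGap.nonneg { h with w_in := hR } Fcd_6R

/-- The lower end of `η` of the piece F. -/
theorem lowF_ok {x : ℕ → ℝ} (h : InGap aTop 20 wNear x) :
    0 ≤ (parF.domL 1 2).eval x := h.nonneg Fcd_7

/-- The checks of the piece G hold on its box. -/
theorem okG {x : ℕ → ℝ} (h : InGap aHigh 20 wFar x) : CheckOk parG surG x := by
  have hl : (parG.forms surG).map (fun F => F.num.length) =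
      [2, 2, 2, 2, 2, 2, 3, 3, 2, 2, 2, 2, 3, 3, 3, 3, 3, 3, 3, 3, 3] := by decide +kernel
  have hp : (parG.polys surG).length = 23 := rfl
  exact
    { f := fun i k => match i with
        | 0 => match k with
          | 0 => h.nonneg Gcf_0_0
          | 1 => h.nonneg Gcf_0_1
          | k + 2 => coef_out hl 0 _ (Nat.le_add_left _ _)
        | 1 => match k with
          | 0 => h.nonneg Gcf_1_0
          | 1 => h.nonneg Gcf_1_1
          | k + 2 => coef_out hl 1 _ (Nat.le_add_left _ _)
        | 2 => match k with
          | 0 => h.nonneg Gcf_2_0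
          | 1 => h.nonneg Gcf_2_1
          | k + 2 => coef_out hl 2 _ (Nat.le_add_left _ _)
        | 3 => match k with
          | 0 => h.nonneg Gcf_3_0
          | 1 => h.nonneg Gcf_3_1
          | k + 2 => coef_out hl 3 _ (Nat.le_add_left _ _)
        | 4 => match k with
          | 0 => h.nonneg Gcf_4_0
          | 1 => h.nonneg Gcf_4_1
          | k + 2 => coef_out hl 4 _ (Nat.le_add_left _ _)
        | 5 => match k with
          | 0 => h.nonneg Gcf_5_0
          | 1 => h.nonneg Gcf_5_1
          | k + 2 => coef_out hl 5 _ (Nat.le_add_left _ _)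
        | 6 => match k with
          | 0 => h.nonneg Gcf_6_0
          | 1 => h.nonneg Gcf_6_1
          | 2 => h.nonneg Gcf_6_2
          | k + 3 => coef_out hl 6 _ (Nat.le_add_left _ _)
        | 7 => match k with
          | 0 => h.nonneg Gcf_7_0
          | 1 => h.nonneg Gcf_7_1
          | 2 => h.nonneg Gcf_7_2
          | k + 3 => coef_out hl 7 _ (Nat.le_add_left _ _)
        | 8 => match k with
          | 0 => h.nonneg Gcf_8_0
          | 1 => h.nonneg Gcf_8_1
          | k + 2 => coef_out hl 8 _ (Nat.le_add_left _ _)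
        | 9 => match k with
          | 0 => h.nonneg Gcf_9_0
          | 1 => h.nonneg Gcf_9_1
          | k + 2 => coef_out hl 9 _ (Nat.le_add_left _ _)
        | 10 => match k with
          | 0 => h.nonneg Gcf_10_0
          | 1 => h.nonneg Gcf_10_1
          | k + 2 => coef_out hl 10 _ (Nat.le_add_left _ _)
        | 11 => match k with
          | 0 => h.nonneg Gcf_11_0
          | 1 => h.nonneg Gcf_11_1
          | k + 2 => coef_out hl 11 _ (Nat.le_add_left _ _)
        | 12 => match k with
          | 0 => h.nonneg Gcf_12_0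
          | 1 => h.nonneg Gcf_12_1
          | 2 => h.nonneg Gcf_12_2
          | k + 3 => coef_out hl 12 _ (Nat.le_add_left _ _)
        | 13 => match k with
          | 0 => h.nonneg Gcf_13_0
          | 1 => h.nonneg Gcf_13_1
          | 2 => h.nonneg Gcf_13_2
          | k + 3 => coef_out hl 13 _ (Nat.le_add_left _ _)
        | 14 => match k with
          | 0 => h.nonneg Gcf_14_0
          | 1 => h.nonneg Gcf_14_1
          | 2 => h.nonneg Gcf_14_2
          | k + 3 => coef_out hl 14 _ (Nat.le_add_left _ _)
        | 15 => match k with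
          | 0 => h.nonneg Gcf_15_0
          | 1 => h.nonneg Gcf_15_1
          | 2 => h.nonneg Gcf_15_2
          | k + 3 => coef_out hl 15 _ (Nat.le_add_left _ _)
        | 16 => match k with
          | 0 => h.nonneg Gcf_16_0
          | 1 => h.nonneg Gcf_16_1
          | 2 => h.nonneg Gcf_16_2
          | k + 3 => coef_out hl 16 _ (Nat.le_add_left _ _)
        | 17 => match k with
          | 0 => h.nonneg Gcf_17_0
          | 1 => h.nonneg Gcf_17_1
          | 2 => h.nonneg Gcf_17_2
          | k + 3 => coef_out hl 17 _ (Nat.le_add_left _ _)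
        | 18 => match k with
          | 0 => h.nonneg Gcf_18_0
          | 1 => h.nonneg Gcf_18_1
          | 2 => h.nonneg Gcf_18_2
          | k + 3 => coef_out hl 18 _ (Nat.le_add_left _ _)
        | 19 => match k with
          | 0 => h.nonneg Gcf_19_0
          | 1 => h.nonneg Gcf_19_1
          | 2 => h.nonneg Gcf_19_2
          | k + 3 => coef_out hl 19 _ (Nat.le_add_left _ _)
        | 20 => match k with
          | 0 => h.nonneg Gcf_20_0
          | 1 => h.nonneg Gcf_20_1
          | 2 => h.nonneg Gcf_20_2
          | k + 3 => coef_out hl 20 _ (Nat.le_add_left _ _)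
        | i + 21 => coef_out hl _ _ (Nat.zero_le _)
      p := fun i => match i with
        | 0 => h.nonneg Gcp_0
        | 1 => h.nonneg Gcp_1
        | 2 => h.nonneg Gcp_2
        | 3 => h.nonneg Gcp_3
        | 4 => h.nonneg Gcp_4
        | 5 => h.nonneg Gcp_5
        | 6 => h.nonneg Gcp_6
        | 7 => h.nonneg Gcp_7
        | 8 => h.nonneg Gcp_8
        | 9 => h.nonneg Gcp_9
        | 10 => h.nonneg Gcp_10
        | 11 => h.nonneg Gcp_11
        | 12 => h.nonneg Gcp_12
        | 13 => h.nonneg Gcp_13
        | 14 => h.nonneg Gcp_14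
        | 15 => h.nonneg Gcp_15
        | 16 => h.nonneg Gcp_16
        | 17 => h.nonneg Gcp_17
        | 18 => h.nonneg Gcp_18
        | 19 => h.nonneg Gcp_19
        | 20 => h.nonneg Gcp_20
        | 21 => h.nonneg Gcp_21
        | 22 => h.nonneg Gcp_22
        | i + 23 => poly_out hp _ (Nat.le_add_left _ _) }

/-- The signs of the ranges of the piece G. -/
theorem domG {x : ℕ → ℝ} (h : InGap aHigh 20 wFar x) : DomOk parG x :=
  ⟨h.nonneg Gcd_0, h.nonneg Gcd_1, h.nonneg Gcd_2, h.nonneg Gcd_3, h.nonneg Gcd_4⟩

/-- The upper end of `η` of the piece G. -/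
theorem topG_ok {x : ℕ → ℝ} (h : InGap aHigh 20 wFar x) :
    0 ≤ (parG.domU).eval x := h.nonneg Gcd_5

/-- The bound of `σ` of the piece G. -/
theorem sigG_ok {x : ℕ → ℝ} (h : InGap aHigh 20 wFar x) :
    0 ≤ (parG.domTc).eval x := by
  rcases aHigh_split h.a_in with hL | hR
  · exact InGap.nonneg { h with a_in := hL } Gcd_6L
  · exact InGap.nonneg { h with a_in := hR } Gcd_6R

/-- The lower end of `η` of the piece G. -/
theorem lowG_ok {x : ℕ → ℝ} (h : InGap aHigh 20 wFar x) :
    0 ≤ (parG.domL 0 1).eval x := h.nonneg Gcd_7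

end Vale.Agent.P100.Calib.GapAll
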