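import Vale.Agent.P100.Calib.SlabAllTailSigns

/-!
# The forward rungs at the end of the tail in every dimension from twenty on

`allTailF` is positive on orbits: with the coefficients before the end for `23/25 ≤ u ≤ 39/40`,
with those at the end for `39/40 ≤ u < 1`.
-/

open Set Filter Topology

namespace Vale.Agent.P100.Calib.Band

open Vale.Agent.P100.Bubble Chart

variable {N p q : ℝ} {S : Set ℝ} {R x y s dx dy : ℝ → ℝ}

theorem continuous_allTail (A B a b : ℝ) :
    Continuous fun w : ℝ × ℝ × ℝ => allTailF A B a b w.1 w.2.1 := by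
  simp only [allTailF, allTailG]
  fun_prop

namespace AllLow

theorem tail_facts {N a b u v : ℝ} (hb : SlabBoxAll N a b) (h20 : 20 ≤ N) (ha : a ≤ 31 / 100)
    (hv : VRange N a b v) (hu : 0 ≤ u) (hu1 : u ≤ 1) :
    ∃ I X, v = 2 * I * X ∧ b = 1 - 2 * I - a ∧ allStabI a b = I ∧ BandPlace a (1 / 2) I X ∧
      -40000 < allTailF 0 (allTailB I a) a b u v ∧
      -40000 < allTailF (allEntryA I a) (allEntryB I a) a b u v := by
  obtain ⟨I, X, h1, hbI, hB⟩ := bandPlace_of (u := 1 / 2) hb h20 ha (by norm_num) (by norm_num) hv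
  obtain ⟨ha0, hb0, hd, -⟩ := hb.facts
  obtain ⟨hI0, hI20, hIa, -, -, -, -, -⟩ := id hB
  have eI' : allStabI a b = I := by rw [allStabI, hbI]; ring
  have hD : 0 ≤ allTailDen a b :=
    (mul_pos (mul_pos (by linarith) hd) (mul_pos (by norm_num) (by linarith))).le
  have hv0 : 0 ≤ v := (hv.pos (by linarith)).le
  obtain ⟨hQ, hQ1, hS, hS1, hR0, hR, -⟩ := tail_bounds hI0.le hI20 ha0.le ha
  refine ⟨I, X, h1, hbI, eI', hB, ?_, ?_⟩
  · exact tail_low eI' hI0.le hI20 ha0.le ha hD hu hu1 hv0 (by norm_num)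
      (by simp only [allTailB]; linarith)
  · exact tail_low eI' hI0.le hI20 ha0.le ha hD hu hu1 hv0 (by simp only [allEntryA]; linarith)
      (by simp only [allEntryB]; linarith)

end AllLow

/-- **The forward function before the end** for real `N ≥ 20` and `1/(p+1) ≤ 31/100`. -/
theorem orbit_entry_all (hf : IsOrbitFns N p q S R x y s dx dy)
    (hb : SlabBoxAll N (1 / (p + 1)) (1 / (q + 1))) (h20 : 20 ≤ N) (ha : 1 / (p + 1) ≤ 31 / 100)
    {w : ℝ} (hw : w ∈ S) (hw0 : 0 < R w) (hu0 : 23 / 25 ≤ uOf N (R w) (x w))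
    (hu1 : uOf N (R w) (x w) ≤ 39 / 40) :
    let I := allStabI (1 / (p + 1)) (1 / (q + 1))
    0 < allTailF (allEntryA I (1 / (p + 1))) (allEntryB I (1 / (p + 1))) (1 / (p + 1)) (1 / (q + 1))
      (uOf N (R w) (x w)) (vOf (1 / (p + 1)) (1 / (q + 1)) (y w / x w)) := by
  intro I
  refine forward_step_all hf hb (u₁ := 39 / 40) (K := 100000000000) (by norm_num)
    (hasGrad_allTail _ _ _ _) (continuous_allTail _ _ _ _)
    (fun u v H => H < allStabUG (1 / (p + 1)) (1 / (q + 1)) u v ∧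
      (91 / 100 ≤ u → 0 ≤ allEndLow (1 / (p + 1)) (1 / (q + 1)) u H))
    (fun z hz hz0 _ => ⟨orbit_stab_up_all hf hb h20 ha hz hz0,
      orbit_end_low_all hf hb h20 ha hz hz0⟩) (fun v h1 h2 h3 => ?_)
    (fun u v H hP _ hu hE => ?_) (fun u v H hP _ hu hu' hE hF => ?_) hw hw0 hu0 hu1
  · obtain ⟨ha0, hb0, hd, -⟩ := hb.facts
    have hN : 0 < N + 2 * (1 / (p + 1)) := by linarith
    have hv : 0 ≤ v := nonneg_of_mul_nonneg_right (by linarith) hN
    have hN0 : N ≠ 0 := by linarith
    have hI : I = 1 / N := by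
      have := hb.dim
      simp only [I, allStabI]
      field_simp at this ⊢
      linarith
    have hI1 : 0 ≤ I := hI ▸ by positivity
    have hI20 : I ≤ 1 / 20 := hI ▸ one_div_le_one_div_of_le (by norm_num) h20
    obtain ⟨hQ, -, hS, hS1, hR0, hR, -⟩ := AllLow.tail_bounds hI1 hI20 ha0.le ha
    have := AllLow.tail_low (A := allEntryA I (1 / (p + 1))) (B := allEntryB I (1 / (p + 1)))
      (u := 0) (v := v) (a := 1 / (p + 1)) (b := 1 / (q + 1)) rfl hI1 hI20
      ha0.le ha (mul_nonneg (mul_nonneg (by linarith) hd.le)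
        (mul_nonneg (by norm_num) (by linarith))) le_rfl zero_le_one hv
      (by simp only [allEntryA]; linarith)
      (by simp only [allEntryB]; linarith)
    linarith
  · obtain ⟨J, X, h1, hbI, eI', hB, -, hlow⟩ :=
      AllLow.tail_facts hb h20 ha hP.toVRange hP.u_pos.le hP.u_lt.le
    rw [show I = J from eI']
    rcases le_or_gt u (917 / 1000) with h | h
    · have : (3 / 1000 : ℝ) ^ 2 ≤ (23 / 25 - u) ^ 2 :=
        pow_le_pow_left₀ (by norm_num) (by linarith) 2
      linarith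
    · subst h1
      have := AllLow.entry_start hB hbI h.le hu hP.av.le hE.1 hP.flow_pos
      linarith [sq_nonneg (23 / 25 - u)]
  · obtain ⟨J, X, rfl, hbI, eI', hB, -, -⟩ :=
      AllLow.tail_facts hb h20 ha hP.toVRange hP.u_pos.le hP.u_lt.le
    simp only [show I = J from eI'] at hF ⊢
    exact AllLow.entry_tail_sign hB hbI hu hu' hP.av.le hF (hE.2 (by linarith))

/-- **The forward function at the end** for real `N ≥ 20` and `1/(p+1) ≤ 31/100`. -/
theorem orbit_tail_all (hf : IsOrbitFns N p q S R x y s dx dy)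
    (hb : SlabBoxAll N (1 / (p + 1)) (1 / (q + 1))) (h20 : 20 ≤ N) (ha : 1 / (p + 1) ≤ 31 / 100)
    {w : ℝ} (hw : w ∈ S) (hw0 : 0 < R w) (hu0 : 39 / 40 ≤ uOf N (R w) (x w)) :
    0 < allTailF 0 (allTailB (allStabI (1 / (p + 1)) (1 / (q + 1))) (1 / (p + 1))) (1 / (p + 1))
      (1 / (q + 1)) (uOf N (R w) (x w))
      (vOf (1 / (p + 1)) (1 / (q + 1)) (y w / x w)) := by
  set I := allStabI (1 / (p + 1)) (1 / (q + 1)) with hI
  refine forward_step_all hf hb (u₁ := 1) (K := 100000000) (by norm_num)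
    (hasGrad_allTail _ _ _ _) (continuous_allTail _ _ _ _)
    (fun u v H => (91 / 100 ≤ u → 0 ≤ allEndLow (1 / (p + 1)) (1 / (q + 1)) u H) ∧
      (23 / 25 ≤ u → u ≤ 39 / 40 → 0 < allTailF (allEntryA I (1 / (p + 1)))
        (allEntryB I (1 / (p + 1))) (1 / (p + 1)) (1 / (q + 1)) u v))
    (fun z hz hz0 _ => ⟨orbit_end_low_all hf hb h20 ha hz hz0,
      fun h1 h2 => orbit_entry_all hf hb h20 ha hz hz0 h1 h2⟩) (fun v h1 h2 h3 => ?_)
    (fun u v H hP _ hu hE => ?_) (fun u v H hP _ hu _ hE hF => ?_) hw hw0 hu0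
    (orbit_point_all hf hb hw hw0).1.u_lt.le
  · obtain ⟨ha0, hb0, hd, -⟩ := hb.facts
    have hN : 0 < N + 2 * (1 / (p + 1)) := by linarith
    have hv : 0 ≤ v := nonneg_of_mul_nonneg_right (by linarith) hN
    have hN0 : N ≠ 0 := by linarith
    have hI0 : I = 1 / N := by
      have := hb.dim
      simp only [hI, allStabI]
      field_simp at this ⊢
      linarith
    have hI1 : 0 ≤ I := hI0 ▸ by positivity
    have hI20 : I ≤ 1 / 20 := hI0 ▸ one_div_le_one_div_of_le (by norm_num) h20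
    obtain ⟨hQ, -, -, -, -, -, -⟩ := AllLow.tail_bounds hI1 hI20 ha0.le ha
    have := AllLow.tail_low (A := 0) (B := allTailB I (1 / (p + 1)))
      (u := 0) (v := v) hI.symm hI1 hI20
      ha0.le ha (mul_nonneg (mul_nonneg (by linarith) hd.le)
        (mul_nonneg (by norm_num) (by linarith))) le_rfl zero_le_one hv (by norm_num)
      (by simp only [allTailB]; linarith)
    linarith
  · obtain ⟨J, X, rfl, hbI, eI', hB, hlow, -⟩ :=
      AllLow.tail_facts hb h20 ha hP.toVRange hP.u_pos.le hP.u_lt.le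
    rw [← hI] at eI'
    subst eI'
    rcases le_or_gt u (23 / 25) with h | h
    · have : (55 / 1000 : ℝ) ^ 2 ≤ (39 / 40 - u) ^ 2 :=
        pow_le_pow_left₀ (by norm_num) (by linarith) 2
      linarith
    · have hpre := hE.2 h.le hu
      obtain ⟨hI0, hI20, -, -, -, -, -, -⟩ := hB
      obtain ⟨ha0, -, -, -⟩ := hb.facts
      obtain ⟨hQ, hQ1, hS, hS1, hR0, hR, -⟩ := AllLow.tail_bounds hI0.le hI20 ha0.le ha
      generalize 1 / (p + 1) = al at ha0 hI hQ hQ1 hS hS1 hR0 hR hpre ⊢
      generalize 1 / (q + 1) = be at hI hpre ⊢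
      generalize 2 * I * X = v at hpre ⊢
      simp only [allTailF, ← hI, allTailG, allTailB, allEntryA, allEntryB] at hpre ⊢
      have e : 1600 * allTailQ I al * (1 - u) =
          40 * allTailQ I al + 1600 * allTailQ I al * (39 / 40 - u) := by ring
      have hc : -75000 * (39 / 40 - u) ≤
          (1600 * allTailQ I al - (1600 * allTailS I al + 80 * allTailR I al)) *
            (39 / 40 - u) :=
        mul_le_mul_of_nonneg_right (by linarith) (by linarith)
      have hc' := mul_le_mul_of_nonneg_left hc (mul_nonneg two_pos.le hI0.le)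
      linarith [sq_nonneg (10000 * (39 / 40 - u) - 15 / 2 * I),
        mul_pos hI0 hI0]
  · obtain ⟨J, X, rfl, hbI, eI', hB, -, -⟩ :=
      AllLow.tail_facts hb h20 ha hP.toVRange hP.u_pos.le hP.u_lt.le
    simp only [show I = J from eI'] at hF ⊢
    exact AllLow.end_tail_sign hB hbI hu hP.u_lt hP.av.le hF (hE.1 (by linarith))

/-- **The curve at the end of the tail** in the variables of the request. -/
theorem orbit_tail_curve_all (hf : IsOrbitFns N p q S R x y s dx dy)
    (hb : SlabBoxAll N (1 / (p + 1)) (1 / (q + 1))) (h20 : 20 ≤ N) (ha : 1 / (p + 1) ≤ 31 / 100)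
    {w : ℝ} (hw : w ∈ S) (hw0 : 0 < R w) (hu0 : 39 / 40 ≤ uOf N (R w) (x w)) :
    let al := 1 / (p + 1)
    let be := 1 / (q + 1)
    let I := allStabI al be
    let u := uOf N (R w) (x w)
    (2 * I - (al + be) * (be - al) * vOf al be (y w / x w)) * (9 / 10 - 2 * al) <
      2 * I * ((1 - u) * ((13 / 2 - 11 * al / 5 + 450 * I * al ^ 2) * (al + 2 * I) -
        42000 * I * al ^ 4 * (1 - u))) := by
  intro al be I u
  have h := orbit_tail_all hf hb h20 ha hw hw0 hu0
  simp only [allTailF, allTailG, allTailB, allTailQ, allTailR, allTailDen] at h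
  simp only [al, be, I, u]
  linarith

end Vale.Agent.P100.Calib.Band
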