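import Vale.Agent.P100.Calib.SlabAllGapBox
import Vale.Agent.P100.Calib.SlabAllGapCore
import Vale.Agent.P100.Calib.SlabAllEndPieces
import Vale.Agent.P100.Calib.SlabAllTail
import Vale.Agent.P100.Calib.SlabAllEndMain

/-!
# Points of the boxes on `91/100 ≤ u ≤ 39/40`

The charts cover the ranges of `a` and `w` without their upper ends; by continuity a check holds on
the upper faces of the other two variables. From the checks of the domain, the range of `σ` and
`η` of a piece contains the point.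
-/

set_option linter.unusedVariables false

namespace Vale.Agent.P100.Calib.GapAll

open Pack EndAll

local instance gapPointAdd : Add Pack.Ex := ⟨Ex.add⟩
local instance gapPointSub : Sub Pack.Ex := ⟨Ex.sub⟩
local instance gapPointMul : Mul Pack.Ex := ⟨Ex.mul⟩

/-- The point with the second and the last variable scaled by `s`. -/
def gapScale (x : ℕ → ℝ) (s : ℝ) : ℕ → ℝ := fun i => if i = 0 ∨ i = 2 then x i else s * x i

theorem continuous_gapEval (x : ℕ → ℝ) : ∀ e : Ex,
    Continuous fun s : ℝ => e.eval (gapScale x s)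
  | .var i => by simp only [Ex.eval, gapScale]; split_ifs <;> fun_prop
  | .num z => by simp only [Ex.eval]; fun_prop
  | .add e f => by simp only [Ex.eval]; exact (continuous_gapEval x e).add (continuous_gapEval x f)
  | .sub e f => by simp only [Ex.eval]; exact (continuous_gapEval x e).sub (continuous_gapEval x f)
  | .mul e f => by simp only [Ex.eval]; exact (continuous_gapEval x e).mul (continuous_gapEval x f)
  | .pow e n => by simp only [Ex.eval]; exact (continuous_gapEval x e).pow n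

/-- A value in the range of a chart without its upper end. -/
structure InChart (C : Chart) (y : ℝ) : Prop where
  det : 0 < (C.c : ℝ) * C.b - C.a * C.d
  low : (C.a : ℝ) ≤ y * C.c
  high : y * C.d < C.b

/-- The box of a piece. -/
structure InGap (ca : Chart) (m : ℤ) (cw : Chart) (x : ℕ → ℝ) : Prop where
  a_in : InChart ca (x 0)
  w_in : InChart cw (x 2)
  m_pos : 0 < m
  t_low : 0 ≤ x 1
  t_high : x 1 * m ≤ 1
  T_low : 0 ≤ x 3
  T_high : x 3 ≤ 1

theorem InGap.nonneg {ca cw : Chart} {m : ℤ} {x : ℕ → ℝ} (h : InGap ca m cw x) {K a b c d : ℕ}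
    {e : Ex} (hc : checkLong (gapBox ca m cw) K a b c d e = true) : 0 ≤ e.eval x := by
  rw [checkLong_eq] at hc
  have key : ∀ s : ℝ, 0 < s → s < 1 → 0 ≤ e.eval (gapScale x s) := by
    intro s hs0 hs1
    refine nonneg_of_checkFour hc fun i hi => ?_
    have hm : (0 : ℝ) < m := Int.cast_pos.2 h.m_pos
    interval_cases i
    · exact chart_point h.a_in.det (by simpa [gapScale, gapBox] using h.a_in.low)
        (by simpa [gapScale, gapBox] using h.a_in.high)
    · refine chart_point (by simp [gapBox]) ?_ ?_ <;> simp [gapScale, gapBox]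
      · exact mul_nonneg hs0.le h.t_low
      · have := mul_le_mul_of_nonneg_left h.t_high hs0.le; linarith
    · exact chart_point h.w_in.det (by simpa [gapScale, gapBox] using h.w_in.low)
        (by simpa [gapScale, gapBox] using h.w_in.high)
    · refine chart_point (by simp [gapBox]) ?_ ?_ <;> simp [gapScale, gapBox]
      · exact mul_nonneg hs0.le h.T_low
      · have := mul_le_mul_of_nonneg_left h.T_high hs0.le; linarith
  have lim : Filter.Tendsto (fun s : ℝ => e.eval (gapScale x s)) (nhdsWithin 1 (Set.Iio 1))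
      (nhds (e.eval (gapScale x 1))) :=
    ((continuous_gapEval x e).tendsto 1).mono_left nhdsWithin_le_nhds
  have h1 : gapScale x 1 = x := by funext i; simp [gapScale]
  rw [h1] at lim
  refine ge_of_tendsto lim ?_
  filter_upwards [Ioo_mem_nhdsLT (zero_lt_one' ℝ)] with s hs using key s hs.1 hs.2

/-- The facts at a point in the coordinates `(a, I, w, σ, η)`. -/
structure GapFacts (a I w σ η : ℝ) : Prop where
  sig_low : 0 ≤ σ
  crit : σ * (1 + 2 * a * I) ≤ 1 + 2 * a * I - (1 - 2 * I) * pD a I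
  tail : w ≤ 2 / 25 → σ * (1600 * (9 - 20 * a)) ≤
    Band.allTailG (Band.allEntryA I a) (Band.allEntryB I a) I a w
  stab : 2 * Band.allStabK a (pB a I) (1 - w) * σ - 2 * Band.allStabK a (pB a I) (1 - w) -
    (1 - 2 * I) * pD a I * ((Band.allStabUC I a).1 + 100 * ((1 - w) * ((Band.allStabUC I a).2.1 +
      (1 - w) * ((Band.allStabUC I a).2.2.1 + (1 - w) * (Band.allStabUC I a).2.2.2)))) ≤
    100 * (1 - 2 * I) * η
  exit : 100 * η ≤ w * lowC I a w
  speed : (1 - w) * ((1 - 2 * I * σ + (1 - 2 * I)) * pB a I -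
      (1 - 2 * I) * (1 - w) * (1 - 2 * I * σ) - (1 - 2 * I) * (1 - 2 * I) * w * pB a I) * pD a I -
      ((1 - 2 * I * σ + (1 - 2 * I)) * pB a I - (1 - 2 * I) * (1 - w) * (1 - 2 * I * σ) -
        (1 - 2 * I) * w * ((1 - 2 * I * σ + (1 - 2 * I)) * pB a I)) * pE a I w ≤
    I * (1 - w) * ((1 - 2 * I * σ + (1 - 2 * I)) * pB a I -
      (1 - 2 * I) * (1 - w) * (1 - 2 * I * σ) - (1 - 2 * I) * (1 - 2 * I) * w * pB a I) * η

variable {P : Par} {x : ℕ → ℝ}

/-- The two bounds of `σ`. -/
def SigLe (P : Par) (x : ℕ → ℝ) (σ : ℝ) : Prop := σ * P.xD ≤ P.q.eval x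

theorem eval_pS : P.S.eval x = 1 - 2 * iVal P x := by
  simp [Par.S, eval_sub, eval_mul, eval_num, eval_I]

theorem eval_pB : P.B.eval x = pB (x 0) (iVal P x) := by
  simp [Par.B, Par.S, Par.A, pB, eval_sub, eval_mul, eval_num, eval_var, eval_I]

theorem eval_pD : P.D.eval x = pD (x 0) (iVal P x) := by
  simp [Par.D, Par.B, Par.S, Par.A, pD, eval_sub, eval_mul, eval_num, eval_var, eval_I]
  ring

theorem sig_le_crit {σ η : ℝ} (hf : GapFacts (x 0) (iVal P x) (x 2) σ η) (hI : 0 ≤ iVal P x)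
    (ha : 0 ≤ x 0) (hd : 0 ≤ P.domTv.eval x) : SigLe P x σ := by
  simp only [Par.domTv, Par.A, eval_add, eval_sub, eval_mul, eval_num, eval_var, eval_I, eval_pS,
    eval_pD] at hd
  push_cast at hd
  have h1 := hf.crit
  have hp : 0 < 1 + 2 * x 0 * iVal P x := by positivity
  have h3 := mul_le_mul_of_nonneg_left h1 (Nat.cast_nonneg (α := ℝ) P.xD)
  refine le_of_mul_le_mul_right ?_ hp
  linarith

theorem sig_le_tail {σ η : ℝ} (hf : GapFacts (x 0) (iVal P x) (x 2) σ η) (hw : x 2 ≤ 2 / 25)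
    (ha : x 0 ≤ 5 / 16) (hd : 0 ≤ P.domTt.eval x) : SigLe P x σ := by
  simp only [Par.domTt, Par.domG, Par.A, Par.W, eval_add, eval_sub, eval_mul, eval_num, eval_var,
    eval_I] at hd
  push_cast at hd
  have h1 := hf.tail hw
  simp only [Band.allTailG, Band.allEntryA, Band.allEntryB, Band.allTailQ, Band.allTailR,
    Band.allTailS] at h1
  have h3 := mul_le_mul_of_nonneg_left h1 (Nat.cast_nonneg (α := ℝ) P.xD)
  refine le_of_mul_le_mul_right ?_ (show (0 : ℝ) < 1600 * (9 - 20 * x 0) by linarith)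
  linarith

theorem eval_domK : P.domK.eval x = Band.allStabK (x 0) (pB (x 0) (iVal P x)) (1 - x 2) := by
  simp only [Par.domK, Par.A, Par.U, Par.W, Band.allStabK, eval_sub, eval_mul, eval_num, eval_var,
    eval_pB]
  push_cast; ring

theorem eval_domC : P.domC.eval x = (Band.allStabUC (iVal P x) (x 0)).1 +
    100 * ((1 - x 2) * ((Band.allStabUC (iVal P x) (x 0)).2.1 +
      (1 - x 2) * ((Band.allStabUC (iVal P x) (x 0)).2.2.1 +
      (1 - x 2) * (Band.allStabUC (iVal P x) (x 0)).2.2.2))) := by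
  simp only [Par.domC, Par.A, Par.U, Par.W, Band.allStabUC, eval_add, eval_sub, eval_mul, eval_num,
    eval_var, eval_I]
  push_cast; ring

theorem eval_domE : P.domE.eval x = lowC (iVal P x) (x 0) (x 2) := by
  simp only [Par.domE, Par.A, Par.W, lowC, eval_add, eval_sub, eval_mul, eval_num, eval_var,
    eval_I]
  push_cast; ring

theorem sig_le_bands {σ η : ℝ} (hf : GapFacts (x 0) (iVal P x) (x 2) σ η)
    (hS : 0 ≤ 1 - 2 * iVal P x) (hK : 0 < P.domK.eval x) (hd : 0 ≤ P.domTc.eval x) :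
    SigLe P x σ := by
  simp only [Par.domTc, Par.W, eval_add, eval_sub, eval_mul, eval_num, eval_var, eval_pS, eval_pD,
    eval_domC, eval_domE] at hd
  push_cast at hd
  have h1 := hf.stab
  rw [← eval_domK] at h1
  have h2 := mul_le_mul_of_nonneg_left hf.exit hS
  have h3 := mul_le_mul_of_nonneg_left (h1.trans (le_of_eq_of_le (by ring) h2))
    (Nat.cast_nonneg (α := ℝ) P.xD)
  refine le_of_mul_le_mul_right ?_ (show (0 : ℝ) < 2 * P.domK.eval x by linarith)
  linarith

theorem eta_le_top {σ η : ℝ} (hf : GapFacts (x 0) (iVal P x) (x 2) σ η)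
    (hd : 0 ≤ P.domU.eval x) : η * P.xD ≤ P.eU.eval x := by
  simp only [Par.domU, Par.W, eval_sub, eval_mul, eval_num, eval_var, eval_domE] at hd
  push_cast at hd
  have h1 := mul_le_mul_of_nonneg_left hf.exit (Nat.cast_nonneg (α := ℝ) P.xD)
  linarith

theorem eval_domUG {σ : ℝ} (hσ : P.WT.eval x = P.cD * σ) : P.domUG.eval x =
    P.cD * (2 * P.domK.eval x * σ - 2 * P.domK.eval x -
      (1 - 2 * iVal P x) * pD (x 0) (iVal P x) * P.domC.eval x) := by
  simp only [Par.domUG, eval_add, eval_sub, eval_mul, eval_num, eval_pS, eval_pD, hσ]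
  push_cast; ring

theorem low_le_stab {σ η : ℝ} (hf : GapFacts (x 0) (iVal P x) (x 2) σ η)
    (hσ : P.WT.eval x = P.cD * σ) (hcD : 0 < P.cD) (hS : 0 < 1 - 2 * iVal P x)
    (hd : 0 ≤ P.domLUG.eval x) : P.eL.eval x ≤ η * P.xD := by
  simp only [Par.domLUG, eval_sub, eval_mul, eval_num, eval_pS, eval_domUG hσ] at hd
  push_cast at hd
  have h1 := hf.stab
  rw [← eval_domK, ← eval_domC] at h1
  have hc : (0 : ℝ) < P.cD := Nat.cast_pos.2 hcD
  have h2 := mul_le_mul_of_nonneg_left h1
    (mul_nonneg hc.le (Nat.cast_nonneg (α := ℝ) P.xD))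
  refine le_of_mul_le_mul_left ?_
    (mul_pos hc (mul_pos (show (0 : ℝ) < 100 by norm_num) hS))
  linarith

theorem low_le_mix {σ η : ℝ} {l m : ℕ} (hlm : l ≤ m) (hm : 0 < m)
    (hf : GapFacts (x 0) (iVal P x) (x 2) σ η) (hσ : P.WT.eval x = P.cD * σ) (hcD : 0 < P.cD)
    (hS : 0 < 1 - 2 * iVal P x) (hI : 0 < iVal P x) (hw : 0 < 1 - x 2)
    (hp : 0 < P.domP.eval x) (hd : 0 ≤ (P.domL l m).eval x) : P.eL.eval x ≤ η * P.xD := by
  have hQ : P.Q.eval x = P.cD * (1 - 2 * iVal P x * σ) := by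
    simp only [Par.Q, eval_sub, eval_mul, eval_num, eval_I, hσ]
    push_cast; ring
  have hqb : P.domQB.eval x =
      P.cD * ((1 - 2 * iVal P x * σ + (1 - 2 * iVal P x)) * pB (x 0) (iVal P x)) := by
    simp only [Par.domQB, eval_add, eval_mul, eval_num, eval_pS, eval_pB, hQ]
    push_cast; ring
  have hU : Par.U.eval x = 1 - x 2 := by simp [Par.U, Par.W, eval_sub, eval_num, eval_var]
  have hE : P.E.eval x = pE (x 0) (iVal P x) (x 2) := by
    simp [Par.E, Par.A, Par.W, pE, eval_add, eval_mul, eval_var, eval_pD]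
  have eP : P.domP.eval x = P.cD * ((1 - 2 * iVal P x * σ + (1 - 2 * iVal P x)) *
      pB (x 0) (iVal P x) - (1 - 2 * iVal P x) * (1 - x 2) * (1 - 2 * iVal P x * σ) -
      (1 - 2 * iVal P x) * (1 - 2 * iVal P x) * x 2 * pB (x 0) (iVal P x)) := by
    simp only [Par.domP, eval_sub, eval_mul, eval_num, eval_pS, eval_pB, hqb, hQ, hU,
      show Par.W.eval x = x 2 from rfl]
    push_cast; ring
  have eR : P.domR.eval x = P.cD * ((1 - 2 * iVal P x * σ + (1 - 2 * iVal P x)) *
      pB (x 0) (iVal P x) - (1 - 2 * iVal P x) * (1 - x 2) * (1 - 2 * iVal P x * σ) -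
      (1 - 2 * iVal P x) * x 2 *
        ((1 - 2 * iVal P x * σ + (1 - 2 * iVal P x)) * pB (x 0) (iVal P x))) := by
    simp only [Par.domR, eval_sub, eval_mul, eval_pS, hqb, hQ, hU,
      show Par.W.eval x = x 2 from rfl]
    ring
  simp only [Par.domL, eval_add, eval_sub, eval_mul, eval_num, eval_pS, eval_pD, eval_I,
    eval_domUG hσ, hU, hE] at hd
  push_cast [Nat.cast_sub hlm] at hd
  have hc : (0 : ℝ) < P.cD := Nat.cast_pos.2 hcD
  have hlm' : (0 : ℝ) ≤ (m : ℝ) - l := sub_nonneg.2 (Nat.cast_le.2 hlm)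
  have h1 := hf.stab
  rw [← eval_domK, ← eval_domC] at h1
  have hB : 0 < iVal P x * (1 - x 2) * P.domP.eval x := mul_pos (mul_pos hI hw) hp
  have h2 := mul_le_mul_of_nonneg_left h1 (mul_nonneg (mul_nonneg (mul_nonneg (Nat.cast_nonneg
    (α := ℝ) l) (Nat.cast_nonneg (α := ℝ) P.xD)) hc.le) hB.le)
  have h3 : (1 - x 2) * P.domP.eval x * pD (x 0) (iVal P x) -
      P.domR.eval x * pE (x 0) (iVal P x) (x 2) ≤
      iVal P x * (1 - x 2) * P.domP.eval x * η := by
    have := mul_le_mul_of_nonneg_left hf.speed hc.le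
    rw [eP, eR]; linarith
  have h4 := mul_le_mul_of_nonneg_left h3 (mul_nonneg (mul_nonneg hlm' (mul_nonneg
    (Nat.cast_nonneg (α := ℝ) P.xD) hc.le)) (mul_nonneg (show (0 : ℝ) ≤ 100 by norm_num) hS.le))
  refine le_of_mul_le_mul_left ?_ (mul_pos (mul_pos (mul_pos (mul_pos (Nat.cast_pos (α := ℝ).2 hm)
    hc) (mul_pos (show (0 : ℝ) < 100 by norm_num) hS)) hB) one_pos)
  linarith

end Vale.Agent.P100.Calib.GapAll
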