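import Vale.Agent.P100.Calib.SlabAllGapPiecesOne
import Vale.Agent.P100.Calib.SlabAllGapPiecesTwo
import Vale.Agent.P100.Calib.SlabAllGapPiecesThree

/-!
# The signs in the coordinates of `91/100 ≤ u ≤ 39/40`

The pieces cover `a ≤ 31/100`, `I ≤ 1/20`, `1/40 ≤ w ≤ 9/100`: below `a = 1/200` the bound of
`σ` is that of `v_crit`, elsewhere that of the forward function for small `w` and that of the two
bands for the other `w`.
-/

set_option linter.unusedVariables false

namespace Vale.Agent.P100.Calib.GapAll

open Pack EndAll

theorem eval_endPt_sur (l : List (ℤ × ℕ × ℕ × ℕ)) (a t w T : ℝ) :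
    (surEx (.var 1) l).eval (gapPt a t w T) = surSum a t w l :=
  eval_surEx _ _ l

theorem eval_endPt_surLow (l : List (ℤ × ℕ × ℕ × ℕ)) (a t w T : ℝ) :
    (surEx (.mul (.var 0) (.var 1)) l).eval (gapPt a t w T) = surSum a (a * t) w l :=
  eval_surEx _ _ l

theorem endPt_mem {ca cw : Chart} {m : ℤ} {a t w T : ℝ} (ha : InChart ca a) (hw : InChart cw w)
    (hm : 0 < m) (ht0 : 0 ≤ t) (ht : t * m ≤ 1) (hT0 : 0 ≤ T) (hT1 : T ≤ 1) :
    InGap ca m cw (gapPt a t w T) :=
  ⟨ha, hw, hm, ht0, ht, hT0, hT1⟩

/-- **The signs in the coordinates `(a, I, w, σ, η)`.** -/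
theorem gap_signs {a I w σ η : ℝ} (ha : a ≤ 31 / 100) (hI : 0 < I) (hI20 : I ≤ 1 / 20)
    (hIa : I ≤ a) (hw0 : 1 / 40 ≤ w) (hw9 : w ≤ 9 / 100) (hf : GapFacts a I w σ η) :
    PSigns a I w (σ / w) (η / w) := by
  have ha0 : 0 < a := hI.trans_le hIa
  have hw : 0 < w := by linarith
  have hw1 : w ≤ 1 / 11 := by linarith
  rcases lt_or_ge a (1 / 200) with a1 | a1
  · have hca : InChart aLow a := ⟨by norm_num [aLow], by simp only [aLow]; push_cast; linarith,
      by simp only [aLow]; push_cast; linarith⟩
    have hcw : InChart wAll w := ⟨by norm_num [wAll], by simp only [wAll]; push_cast; linarith,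
      by simp only [wAll]; push_cast; linarith⟩
    have box : ∀ T, 0 ≤ T → T ≤ 1 → InGap aLow 1 wAll (gapPt a (I / a) w T) := fun T =>
      endPt_mem hca hcw one_pos (by positivity)
        (by push_cast; rw [mul_one]; exact (div_le_one ha0).2 hIa)
    have e : ∀ T, iVal parA (gapPt a (I / a) w T) = I := fun T => by
      show a * (I / a) = I
      field_simp
    have hq : SigLe parA (gapPt a (I / a) w 0) σ :=
      sig_le_crit (η := η) (by rw [e 0]; exact hf) (by rw [e 0]; exact hI.le) ha0.le
        (sigA_ok (box 0 le_rfl zero_le_one))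
    refine piece_signs okA domA box (e 0) ha0 ha (div_pos hI ha0) hI hI20 hw hw1 (by decide)
      (by decide) (fun T => by simp only [parA, eval_endPt_surLow]) ?_ ?_ (fun T => ?_) ?_
    · have := mul_nonneg hf.sig_low (show (0 : ℝ) ≤ parA.cD from Nat.cast_nonneg _)
      simpa [parA] using this
    · simp only [SigLe, parA] at hq ⊢; push_cast at hq ⊢; linarith
    · have := eta_le_top (σ := σ) (η := η) (P := parA) (x := gapPt a (I / a) w 0)
        (by rw [e 0]; exact hf) (topA_ok (box 0 le_rfl zero_le_one))
      simpa only [parA, eval_endPt_surLow] using this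
    · exact fun T hb hσ => low_le_stab (η := η) (by rw [e T]; exact hf) hσ (by decide)
        (by rw [e T]; linarith) (lowA_ok hb)
  have ht : ∀ P : Par, P.low = false → ∀ T, iVal P (gapPt a I w T) = I := fun P h T => by
    simp [iVal, h, gapPt]
  have fac : ∀ P : Par, P.low = false → ∀ T,
      GapFacts (gapPt a I w T 0) (iVal P (gapPt a I w T)) (gapPt a I w T 2) σ η := fun P h T => by
    rw [ht P h T]; exact hf
  have hS : ∀ P : Par, P.low = false → ∀ T, 0 < 1 - 2 * iVal P (gapPt a I w T) := fun P h T => by
    rw [ht P h T]; linarith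
  have hIp : ∀ P : Par, P.low = false → ∀ T, 0 < iVal P (gapPt a I w T) := fun P h T => by
    rw [ht P h T]; exact hI
  have hu : ∀ T, 0 < 1 - gapPt a I w T 2 := fun T => by
    show 0 < 1 - w
    linarith
  have hK : ∀ P : Par, P.low = false → 0 < P.domK.eval (gapPt a I w 0) := fun P h => by
    rw [eval_domK, ht P h 0]
    show 0 < Band.allStabK a (pB a I) (1 - w)
    have h1 : 0 ≤ a * (1 - w) := mul_nonneg ha0.le (by linarith)
    have h2 : a * (1 - w) * (33 - 23 * (1 - w)) ≤ 31 / 100 * 1 * 13 :=
      mul_le_mul (mul_le_mul ha (by linarith) (by linarith) (by norm_num)) (by linarith)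
        (by linarith) (by norm_num)
    unfold Band.allStabK pB
    linarith
  rcases lt_or_ge a (1 / 33) with a2 | a2
  · have hca : InChart aMid a := ⟨by norm_num [aMid], by simp only [aMid]; push_cast; linarith,
      by simp only [aMid]; push_cast; linarith⟩
    have hIm : I * ((33 : ℤ) : ℝ) ≤ 1 := by push_cast; linarith
    rcases lt_or_ge w (1 / 29) with w2 | w2
    · have hcw : InChart wLow w := ⟨by norm_num [wLow], by simp only [wLow]; push_cast; linarith,
        by simp only [wLow]; push_cast; linarith⟩
      have box : ∀ T, 0 ≤ T → T ≤ 1 → InGap aMid 33 wLow (gapPt a I w T) := fun T =>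
        endPt_mem hca hcw (by norm_num) hI.le hIm
      refine piece_signs okB domB box rfl ha0 ha hI hI hI20 hw hw1 (by decide) (by decide)
        (fun T => by simp only [parB, eval_endPt_sur]) ?_ ?_ (fun T => ?_) ?_
      · have := mul_nonneg hf.sig_low (show (0 : ℝ) ≤ parB.cD from Nat.cast_nonneg _)
        simpa [parB] using this
      · have hq := sig_le_tail (P := parB) (fac parB rfl 0) (by show w ≤ 2 / 25; linarith)
          (by show a ≤ 5 / 16; linarith) (sigB_ok (box 0 le_rfl zero_le_one))
        simp only [SigLe, parB] at hq ⊢; push_cast at hq ⊢; linarith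
      · have := eta_le_top (fac parB rfl 0) (topB_ok (box 0 le_rfl zero_le_one))
        simpa only [parB, eval_endPt_sur] using this
      · exact fun T hb hσ => low_le_stab (fac parB rfl T) hσ (by decide) (hS parB rfl T)
          (lowB_ok hb)
    · have hcw : InChart wMid w := ⟨by norm_num [wMid], by simp only [wMid]; push_cast; linarith,
        by simp only [wMid]; push_cast; linarith⟩
      have box : ∀ T, 0 ≤ T → T ≤ 1 → InGap aMid 33 wMid (gapPt a I w T) := fun T =>
        endPt_mem hca hcw (by norm_num) hI.le hIm
      refine piece_signs okC domC box rfl ha0 ha hI hI hI20 hw hw1 (by decide) (by decide)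
        (fun T => by simp only [parC, eval_endPt_sur]) ?_ ?_ (fun T => ?_) ?_
      · have := mul_nonneg hf.sig_low (show (0 : ℝ) ≤ parC.cD from Nat.cast_nonneg _)
        simpa [parC] using this
      · have hq := sig_le_bands (fac parC rfl 0) (hS parC rfl 0).le (hK parC rfl)
          (sigC_ok (box 0 le_rfl zero_le_one))
        simp only [SigLe, parC] at hq ⊢; push_cast at hq ⊢; linarith
      · have := eta_le_top (fac parC rfl 0) (topC_ok (box 0 le_rfl zero_le_one))
        simpa only [parC, eval_endPt_sur] using this
      · exact fun T hb hσ => low_le_stab (fac parC rfl T) hσ (by decide) (hS parC rfl T)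
          (lowC_ok hb)
  have hIm : I * ((20 : ℤ) : ℝ) ≤ 1 := by push_cast; linarith
  rcases lt_or_ge a (2 / 9) with a3 | a3
  · have hca : InChart aHigh a := ⟨by norm_num [aHigh], by simp only [aHigh]; push_cast; linarith,
      by simp only [aHigh]; push_cast; linarith⟩
    rcases lt_or_ge w (1 / 22) with w3 | w3
    · have hcw : InChart wNear w := ⟨by norm_num [wNear], by simp only [wNear]; push_cast; linarith,
        by simp only [wNear]; push_cast; linarith⟩
      have box : ∀ T, 0 ≤ T → T ≤ 1 → InGap aHigh 20 wNear (gapPt a I w T) := fun T =>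
        endPt_mem hca hcw (by norm_num) hI.le hIm
      rcases lt_or_ge (σ * parD.cD) (parD.q.eval (gapPt a I w 0) * (parD.s0 + parD.ds : ℕ)) with
        hcut | hcut
      · refine piece_signs okD domD box rfl ha0 ha hI hI hI20 hw hw1 (by decide) (by decide)
          (fun T => by simp only [parD, eval_endPt_sur]) ?_ ?_ (fun T => ?_) ?_
        · have := mul_nonneg hf.sig_low (show (0 : ℝ) ≤ parD.cD from Nat.cast_nonneg _)
          simpa [parD] using this
        · exact hcut.le
        · have := eta_le_top (fac parD rfl 0) (topD_ok (box 0 le_rfl zero_le_one))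
          simpa only [parD, eval_endPt_sur] using this
        · exact fun T hb hσ => low_le_mix (l := 0) (m := 1) (by norm_num) (by norm_num)
            (fac parD rfl T) hσ (by decide) (hS parD rfl T) (hIp parD rfl T) (hu T)
            ((domD hb).domP_pos (by decide)) (lowD_ok hb)
      · refine piece_signs okE domE box rfl ha0 ha hI hI hI20 hw hw1 (by decide) (by decide)
          (fun T => by simp only [parE, eval_endPt_sur]) ?_ ?_ (fun T => ?_) ?_
        · exact hcut
        · have hq := sig_le_tail (P := parE) (fac parE rfl 0) (by show w ≤ 2 / 25; linarith)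
            (by show a ≤ 5 / 16; linarith) (sigE_ok (box 0 le_rfl zero_le_one))
          simp only [SigLe, parE] at hq ⊢; push_cast at hq ⊢; linarith
        · have := eta_le_top (fac parE rfl 0) (topE_ok (box 0 le_rfl zero_le_one))
          simpa only [parE, eval_endPt_sur] using this
        · exact fun T hb hσ => low_le_mix (l := 3) (m := 5) (by norm_num) (by norm_num)
            (fac parE rfl T) hσ (by decide) (hS parE rfl T) (hIp parE rfl T) (hu T)
            ((domE hb).domP_pos (by decide)) (lowE_ok hb)
    · have hcw : InChart wFar w := ⟨by norm_num [wFar], by simp only [wFar]; push_cast; linarith,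
        by simp only [wFar]; push_cast; linarith⟩
      have box : ∀ T, 0 ≤ T → T ≤ 1 → InGap aHigh 20 wFar (gapPt a I w T) := fun T =>
        endPt_mem hca hcw (by norm_num) hI.le hIm
      rcases lt_or_ge (σ * parG.cD) (parG.q.eval (gapPt a I w 0) * (parG.s0 + parG.ds : ℕ)) with
        hcut | hcut
      · refine piece_signs okG domG box rfl ha0 ha hI hI hI20 hw hw1 (by decide) (by decide)
          (fun T => by simp only [parG, eval_endPt_sur]) ?_ ?_ (fun T => ?_) ?_
        · have := mul_nonneg hf.sig_low (show (0 : ℝ) ≤ parG.cD from Nat.cast_nonneg _)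
          simpa [parG] using this
        · exact hcut.le
        · have := eta_le_top (fac parG rfl 0) (topG_ok (box 0 le_rfl zero_le_one))
          simpa only [parG, eval_endPt_sur] using this
        · exact fun T hb hσ => low_le_mix (l := 0) (m := 1) (by norm_num) (by norm_num)
            (fac parG rfl T) hσ (by decide) (hS parG rfl T) (hIp parG rfl T) (hu T)
            ((domG hb).domP_pos (by decide)) (lowG_ok hb)
      · refine piece_signs okH domH box rfl ha0 ha hI hI hI20 hw hw1 (by decide) (by decide)
          (fun T => by simp only [parH, eval_endPt_sur]) ?_ ?_ (fun T => ?_) ?_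
        · exact hcut
        · have hq := sig_le_bands (fac parH rfl 0) (hS parH rfl 0).le (hK parH rfl)
            (sigH_ok (box 0 le_rfl zero_le_one))
          simp only [SigLe, parH] at hq ⊢; push_cast at hq ⊢; linarith
        · have := eta_le_top (fac parH rfl 0) (topH_ok (box 0 le_rfl zero_le_one))
          simpa only [parH, eval_endPt_sur] using this
        · exact fun T hb hσ => low_le_mix (l := 4) (m := 5) (by norm_num) (by norm_num)
            (fac parH rfl T) hσ (by decide) (hS parH rfl T) (hIp parH rfl T) (hu T)
            ((domH hb).domP_pos (by decide)) (lowH_ok hb)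
  · have hca : InChart aTop a := ⟨by norm_num [aTop], by simp only [aTop]; push_cast; linarith,
      by simp only [aTop]; push_cast; linarith⟩
    rcases lt_or_ge w (1 / 22) with w3 | w3
    · have hcw : InChart wNear w := ⟨by norm_num [wNear], by simp only [wNear]; push_cast; linarith,
        by simp only [wNear]; push_cast; linarith⟩
      have box : ∀ T, 0 ≤ T → T ≤ 1 → InGap aTop 20 wNear (gapPt a I w T) := fun T =>
        endPt_mem hca hcw (by norm_num) hI.le hIm
      rcases lt_or_ge (σ * parK.cD) (parK.q.eval (gapPt a I w 0) * (parK.s0 + parK.ds : ℕ)) with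
        hcut | hcut
      · refine piece_signs okK domK box rfl ha0 ha hI hI hI20 hw hw1 (by decide) (by decide)
          (fun T => by simp only [parK, eval_endPt_sur]) ?_ ?_ (fun T => ?_) ?_
        · have := mul_nonneg hf.sig_low (show (0 : ℝ) ≤ parK.cD from Nat.cast_nonneg _)
          simpa [parK] using this
        · exact hcut.le
        · have := eta_le_top (fac parK rfl 0) (topK_ok (box 0 le_rfl zero_le_one))
          simpa only [parK, eval_endPt_sur] using this
        · exact fun T hb hσ => low_le_mix (l := 0) (m := 1) (by norm_num) (by norm_num)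
            (fac parK rfl T) hσ (by decide) (hS parK rfl T) (hIp parK rfl T) (hu T)
            ((domK hb).domP_pos (by decide)) (lowK_ok hb)
      · refine piece_signs okF domF box rfl ha0 ha hI hI hI20 hw hw1 (by decide) (by decide)
          (fun T => by simp only [parF, eval_endPt_sur]) ?_ ?_ (fun T => ?_) ?_
        · exact hcut
        · have hq := sig_le_tail (P := parF) (fac parF rfl 0) (by show w ≤ 2 / 25; linarith)
            (by show a ≤ 5 / 16; linarith) (sigF_ok (box 0 le_rfl zero_le_one))
          simp only [SigLe, parF] at hq ⊢; push_cast at hq ⊢; linarith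
        · have := eta_le_top (fac parF rfl 0) (topF_ok (box 0 le_rfl zero_le_one))
          simpa only [parF, eval_endPt_sur] using this
        · exact fun T hb hσ => low_le_mix (l := 1) (m := 2) (by norm_num) (by norm_num)
            (fac parF rfl T) hσ (by decide) (hS parF rfl T) (hIp parF rfl T) (hu T)
            ((domF hb).domP_pos (by decide)) (lowF_ok hb)
    · have hcw : InChart wFar w := ⟨by norm_num [wFar], by simp only [wFar]; push_cast; linarith,
        by simp only [wFar]; push_cast; linarith⟩
      have box : ∀ T, 0 ≤ T → T ≤ 1 → InGap aTop 20 wFar (gapPt a I w T) := fun T =>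
        endPt_mem hca hcw (by norm_num) hI.le hIm
      rcases lt_or_ge (σ * parI.cD) (parI.q.eval (gapPt a I w 0) * (parI.s0 + parI.ds : ℕ)) with
        hcut | hcut
      · refine piece_signs okI domI box rfl ha0 ha hI hI hI20 hw hw1 (by decide) (by decide)
          (fun T => by simp only [parI, eval_endPt_sur]) ?_ ?_ (fun T => ?_) ?_
        · have := mul_nonneg hf.sig_low (show (0 : ℝ) ≤ parI.cD from Nat.cast_nonneg _)
          simpa [parI] using this
        · exact hcut.le
        · have := eta_le_top (fac parI rfl 0) (topI_ok (box 0 le_rfl zero_le_one))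
          simpa only [parI, eval_endPt_sur] using this
        · exact fun T hb hσ => low_le_mix (l := 0) (m := 1) (by norm_num) (by norm_num)
            (fac parI rfl T) hσ (by decide) (hS parI rfl T) (hIp parI rfl T) (hu T)
            ((domI hb).domP_pos (by decide)) (lowI_ok hb)
      · refine piece_signs okJ domJ box rfl ha0 ha hI hI hI20 hw hw1 (by decide) (by decide)
          (fun T => by simp only [parJ, eval_endPt_sur]) ?_ ?_ (fun T => ?_) ?_
        · exact hcut
        · have hq := sig_le_bands (fac parJ rfl 0) (hS parJ rfl 0).le (hK parJ rfl)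
            (sigJ_ok (box 0 le_rfl zero_le_one))
          simp only [SigLe, parJ] at hq ⊢; push_cast at hq ⊢; linarith
        · have := eta_le_top (fac parJ rfl 0) (topJ_ok (box 0 le_rfl zero_le_one))
          simpa only [parJ, eval_endPt_sur] using this
        · exact fun T hb hσ => low_le_stab (fac parJ rfl T) hσ (by decide) (hS parJ rfl T)
            (lowJ_ok hb)

end Vale.Agent.P100.Calib.GapAll
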