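import Mathlib
import Vale.Agent.P100.Bubble.TrapLift

/-!
# The chart in every dimension, in the variables `(u, v, H)`

With `r = a/b (1 + d v)`, `d = b - a` and `h = d H` every field of the chart is `N` times a
polynomial in `(a, b, u, v, H)` over `b (2 + d v - u d H)`.
-/

namespace Vale.Agent.P100.Calib.Band

open Vale.Agent.P100.Bubble Chart

/-- The denominator of `qv`. -/
def allDen (a b u v H : ℝ) : ℝ := 2 + (b - a) * v - u * ((b - a) * H)

/-- The numerator of `qv`. -/
def allQn (a b u v : ℝ) : ℝ := b * (2 + (b - a) * v) - (a + b) * (u * (1 + (b - a) * v))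

/-- The numerator of `ev`. -/
def allEn (a b u v H : ℝ) : ℝ :=
  (1 - u * ((b - a) * H)) * allQn a b u v - (a + b) * ((1 - u) * (b * allDen a b u v H))

/-- The numerator of `qv h - (N - 2) (1 - r)`. -/
def allFlow (a b u v H : ℝ) : ℝ :=
  allQn a b u v * H - (a + b) * ((1 - a * v) * allDen a b u v H)

/-- The numerator of `fh`. -/
def allFh (a b u v H : ℝ) : ℝ :=
  -((1 - u * ((b - a) * H)) * (allFlow a b u v H - (a + b) * (v * allDen a b u v H))) -
    H * allEn a b u v H

/-- The flow applied to a function of `(u, v, H)` with partial derivatives `gu`, `gv`, `gh`. -/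
def allDot (a b u v H gu gv gh : ℝ) : ℝ :=
  gu * (u * allEn a b u v H) + gv * ((1 + (b - a) * v) * (u * allFlow a b u v H)) +
    gh * allFh a b u v H

/-- `h` at the centre, over `d`. -/
noncomputable def allHc (a b v : ℝ) : ℝ :=
  (a + b) * (1 + (1 - a) * v) / (b * (2 - (a + b)))

variable {N a b u v H : ℝ}

theorem qv_all (hN : N - 2 = N * (a + b)) (ha : a ≠ 0) (hb : b ≠ 0) (hD : allDen a b u v H ≠ 0) :
    qv N a b u (a / b * (1 + (b - a) * v)) ((b - a) * H) * (b * allDen a b u v H) =
      N * allQn a b u v := by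
  have e : a + b * (a / b * (1 + (b - a) * v)) - a * u * ((b - a) * H) = a * allDen a b u v H := by
    simp only [allDen]; field_simp; ring
  simp only [qv, e, hN, allQn]
  field_simp
  ring

theorem ev_all (hN : N - 2 = N * (a + b)) (ha : a ≠ 0) (hb : b ≠ 0) (hD : allDen a b u v H ≠ 0) :
    ev N a b u (a / b * (1 + (b - a) * v)) ((b - a) * H) * (b * allDen a b u v H) =
      N * allEn a b u v H := by
  have hq := qv_all hN ha hb hD
  simp only [ev, allEn]
  linear_combination (1 - u * ((b - a) * H)) * hq + (u - 1) * (b * allDen a b u v H) * hN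

theorem flow_all (hN : N - 2 = N * (a + b)) (ha : a ≠ 0) (hb : b ≠ 0) (hD : allDen a b u v H ≠ 0) :
    (qv N a b u (a / b * (1 + (b - a) * v)) ((b - a) * H) * ((b - a) * H) -
        (N - 2) * (1 - a / b * (1 + (b - a) * v))) * (b * allDen a b u v H) =
      N * ((b - a) * allFlow a b u v H) := by
  have hq := qv_all hN ha hb hD
  have e : b * (1 - a / b * (1 + (b - a) * v)) = (b - a) * (1 - a * v) := by field_simp; ring
  simp only [allFlow]
  linear_combination ((b - a) * H) * hq - (N - 2) * allDen a b u v H * e -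
    (b - a) * (1 - a * v) * allDen a b u v H * hN

theorem fh_all (hN : N - 2 = N * (a + b)) (ha : a ≠ 0) (hb : b ≠ 0) (hD : allDen a b u v H ≠ 0) :
    fh N a b u (a / b * (1 + (b - a) * v)) ((b - a) * H) * (b * allDen a b u v H) =
      N * ((b - a) * allFh a b u v H) := by
  have hf := flow_all hN ha hb hD
  have he := ev_all hN ha hb hD
  have e : b * (a / b * (1 + (b - a) * v) / a - 1 / b) = (b - a) * v := by field_simp; ring
  simp only [fh, allFh]
  linear_combination -(1 - u * ((b - a) * H)) * hf - (b - a) * H * he +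
    (1 - u * ((b - a) * H)) * (N - 2) * allDen a b u v H * e +
    (1 - u * ((b - a) * H)) * (b - a) * v * allDen a b u v H * hN

/-- **The flow of a function of `(u, v, H)`.** -/
theorem dot_all (hN : N - 2 = N * (a + b)) (ha : a ≠ 0) (hb : b ≠ 0) (hd : b - a ≠ 0)
    (hD : allDen a b u v H ≠ 0) (gu gv gh : ℝ) :
    (gu * (u * ev N a b u (a / b * (1 + (b - a) * v)) ((b - a) * H)) +
        gv * (b / a / (b - a)) *
          (a / b * (1 + (b - a) * v) * dv N a b u (a / b * (1 + (b - a) * v)) ((b - a) * H)) +
        gh / (b - a) * fh N a b u (a / b * (1 + (b - a) * v)) ((b - a) * H)) *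
      (b * allDen a b u v H) = N * allDot a b u v H gu gv gh := by
  have he := ev_all hN ha hb hD
  have hf := flow_all hN ha hb hD
  have hh := fh_all hN ha hb hD
  simp only [dv, allDot]
  have e1 : b / a / (b - a) * (a / b * (1 + (b - a) * v)) = (1 + (b - a) * v) / (b - a) := by
    field_simp
  have e2 : gh / (b - a) * (b - a) = gh := div_mul_cancel₀ _ hd
  have e3 : (1 + (b - a) * v) / (b - a) * (b - a) = 1 + (b - a) * v := div_mul_cancel₀ _ hd
  generalize qv N a b u (a / b * (1 + (b - a) * v)) ((b - a) * H) = q at hf ⊢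
  generalize ev N a b u (a / b * (1 + (b - a) * v)) ((b - a) * H) = E at he ⊢
  generalize fh N a b u (a / b * (1 + (b - a) * v)) ((b - a) * H) = F at hh ⊢
  generalize a / b * (1 + (b - a) * v) = r at hf e1 ⊢
  generalize b / a / (b - a) = k at e1 ⊢
  generalize (1 + (b - a) * v) / (b - a) = l at e1 e3
  generalize gh / (b - a) = g at e2 ⊢
  linear_combination gu * u * he + gv * u * l * hf + g * hh +
    gv * u * (q * ((b - a) * H) - (N - 2) * (1 - r)) * (b * allDen a b u v H) * e1 +
    N * gv * u * allFlow a b u v H * e3 + N * allFh a b u v H * e2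

end Vale.Agent.P100.Calib.Band
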