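import Mathlib
import Vale.Agent.P100.Pack.FastFour

/-!
# The numerators of the lower band of all dimensions from twenty on

The band is `H = Gn/Gd`, `Gd = 5 b (1 + 2 I) (b - u a)`, with the variables `u`, `X`, `I` (or
`I/a`), `a` and `v = 2 I X`, `b = 1 - 2 I - a`. `eLowNum` is the numerator of the flow at the band,
`eLowDen` that of the denominator of the chart.
-/

namespace Vale.Agent.P100.Calib.Band.AllLow

open Pack

local instance allLowAdd : Add Pack.Ex := ⟨Ex.add⟩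
local instance allLowSub : Sub Pack.Ex := ⟨Ex.sub⟩
local instance allLowMul : Mul Pack.Ex := ⟨Ex.mul⟩

/-- An integer. -/
def eN (z : ℤ) : Pack.Ex := .num z

/-- `u`. -/
def eU : Pack.Ex := .var 0

/-- `S`. -/
def eS (I : Pack.Ex) : Pack.Ex := eN 1 - eN 2 * I

/-- `b`. -/
def eB (I a : Pack.Ex) : Pack.Ex := eS I - a

/-- `d`. -/
def eD (I a : Pack.Ex) : Pack.Ex := eB I a - a

/-- `v`. -/
def eV (I : Pack.Ex) : Pack.Ex := eN 2 * I * .var 1

/-- `d v`. -/
def eDV (I a : Pack.Ex) : Pack.Ex := eD I a * eV I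

/-- `b - u a`. -/
def eW (I a : Pack.Ex) : Pack.Ex := eB I a - eU * a

/-- `1 + 2 I`. -/
def eJ (I : Pack.Ex) : Pack.Ex := eN 1 + eN 2 * I

/-- `1 + (1 - a) v`. -/
def eQ (I a : Pack.Ex) : Pack.Ex := eN 1 + (eN 1 - a) * eV I

/-- Five times the slope of the band at the centre. -/
def eP (I a : Pack.Ex) : Pack.Ex :=
  eN 5 * a + eN 10 * I - eN 40 * I * a - eN 5 * a * (eN 1 - a) * eV I -
    eN 110 * (eN 1 - eN 2 * a) * I * I - I * a

/-- `Gn`. -/
def eGn (I a : Pack.Ex) : Pack.Ex := eN 5 * eS I * eQ I a * eW I a + eU * eJ I * eP I a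

/-- `Gd`. -/
def eGd (I a : Pack.Ex) : Pack.Ex := eN 5 * (eB I a * eJ I) * eW I a

/-- The derivative of `Gn` in `u`. -/
def eGu (I a : Pack.Ex) : Pack.Ex := eJ I * eP I a - eN 5 * eS I * eQ I a * a

/-- The derivative of `Gd` in `u`. -/
def eDu (I a : Pack.Ex) : Pack.Ex := eN (-5) * (eB I a * eJ I) * a

/-- The derivative of `Gn` in `v`. -/
def eGv (I a : Pack.Ex) : Pack.Ex :=
  eN 5 * eS I * (eN 1 - a) * eW I a - eN 5 * eU * eJ I * a * (eN 1 - a)

/-- The numerator of `qv`. -/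
def eQn (I a : Pack.Ex) : Pack.Ex :=
  eB I a * (eN 2 + eDV I a) - eS I * eU * (eN 1 + eDV I a)

/-- The denominator of `qv`, times `Gd`. -/
def eLowDen (I a : Pack.Ex) : Pack.Ex :=
  (eN 2 + eDV I a) * eGd I a - eU * eD I a * eGn I a

/-- `1 - u h`, times `Gd`. -/
def eA (I a : Pack.Ex) : Pack.Ex := eGd I a - eU * eD I a * eGn I a

/-- The numerator of `ev`, times `Gd`. -/
def eEn (I a : Pack.Ex) : Pack.Ex :=
  eA I a * eQn I a - eS I * (eN 1 - eU) * eB I a * eLowDen I a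

/-- The numerator of the radial speed, times `Gd`. -/
def eFlow (I a : Pack.Ex) : Pack.Ex :=
  eQn I a * eGn I a - eS I * (eN 1 - a * eV I) * eLowDen I a

/-- The flow at the band, times `Gd ^ 3`. -/
def eLowNum (I a : Pack.Ex) : Pack.Ex :=
  eN 0 - eA I a * (eQn I a * eGn I a - eS I * eQ I a * eLowDen I a) * eGd I a -
    eGn I a * eEn I a * eGd I a - eU * (eGu I a * eGd I a - eGn I a * eDu I a) * eEn I a -
    eU * (eN 1 + eDV I a) * eGv I a * eGd I a * eFlow I a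

/-- The flow, less a monomial, in `(u, X, I, a)`. -/
def eLowI : Pack.Ex :=
  eN 16 * eLowNum (.var 2) (.var 3) - eU * .var 2 * .var 3

/-- The flow, less a monomial, in `(u, X, I/a, a)`. -/
def eLowS : Pack.Ex :=
  eN 16 * eLowNum (.var 2 * .var 3) (.var 3) - eU * .var 2 * .var 3 * .var 3

/-- The denominator, less a constant, in `(u, X, I, a)`. -/
def eDenI : Pack.Ex := eN 4 * eLowDen (.var 2) (.var 3) - eN 1

/-- The denominator, less a constant, in `(u, X, I/a, a)`. -/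
def eDenS : Pack.Ex := eN 4 * eLowDen (.var 2 * .var 3) (.var 3) - eN 1

/-- The box `a ≤ 1/20`, in `(u, X, I/a, a)`. -/
def boxSmall : ℕ → Chart
  | 0 => ⟨0, 31, 50, 50⟩
  | 1 => ⟨24, 36, 25, 25⟩
  | 2 => ⟨0, 101, 100, 100⟩
  | _ => ⟨0, 51, 1000, 1000⟩

/-- The box `1/20 ≤ a ≤ 3/20`, in `(u, X, I, a)`. -/
def boxMid : ℕ → Chart
  | 0 => ⟨0, 31, 50, 50⟩
  | 1 => ⟨24, 50, 25, 25⟩
  | 2 => ⟨0, 51, 1000, 1000⟩
  | _ => ⟨49, 151, 1000, 1000⟩

/-- The box `3/20 ≤ a ≤ 31/100`, in `(u, X, I, a)`. -/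
def boxBig : ℕ → Chart
  | 0 => ⟨0, 601, 1000, 1000⟩
  | 1 => ⟨24, 100, 25, 25⟩
  | 2 => ⟨0, 51, 1000, 1000⟩
  | _ => ⟨149, 311, 1000, 1000⟩

theorem flow_small : checkFour boxSmall 440 5 3 14 16 eLowS = true := by decide +kernel

theorem flow_mid : checkFour boxMid 440 5 3 14 9 eLowI = true := by decide +kernel

theorem flow_big : checkFour boxBig 440 5 3 14 9 eLowI = true := by decide +kernel

theorem den_small : checkFour boxSmall 200 2 1 5 5 eDenS = true := by decide +kernel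

theorem den_mid : checkFour boxMid 200 2 1 5 3 eDenI = true := by decide +kernel

theorem den_big : checkFour boxBig 200 2 1 5 3 eDenI = true := by decide +kernel

end Vale.Agent.P100.Calib.Band.AllLow
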