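import Vale.Agent.P100.Calib.SlabAllRungs
import Vale.Agent.P100.Calib.SlabAllLowExpr

/-!
# The lower band up to `u = 3/5` in every dimension from twenty on

`allLowG` is `allHc` plus `u` times a minorant of the slope at the centre, over `b - u a`. Beyond
`u = 1` its pole is replaced by a differentiable positive function.
-/

open Set Filter Topology

namespace Vale.Agent.P100.Calib.Band

open Vale.Agent.P100.Bubble Chart

/-- `b - u a` up to `u = 1`, positive everywhere. -/
noncomputable def allPole (a b u : ℝ) : ℝ := b - u * a + a ^ 2 / (b - a) * max 0 (u - 1) ^ 2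

/-- The derivative of `allPole`. -/
noncomputable def allPole' (a b u : ℝ) : ℝ := -a + a ^ 2 / (b - a) * (2 * max 0 (u - 1))

theorem allPole_pos {a b u : ℝ} (ha : 0 < a) (hd : 0 < b - a) : 0 < allPole a b u := by
  unfold allPole
  have hk : 0 ≤ a ^ 2 / (b - a) := by positivity
  rcases le_or_gt u 1 with hu | hu
  · have := mul_nonneg hk (sq_nonneg (max 0 (u - 1)))
    have := mul_le_mul_of_nonneg_right hu ha.le
    linarith
  · rw [max_eq_right (by linarith)]
    have e : a ^ 2 / (b - a) * (u - 1) ^ 2 * (b - a) = (a * (u - 1)) ^ 2 := by field_simp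
    refine pos_of_mul_pos_left (b := b - a) ?_ hd.le
    rw [add_mul, e]
    nlinarith [sq_nonneg (a * (u - 1) * 2 - (b - a)), sq_pos_of_pos hd]

theorem allPole_eq {a b u : ℝ} (hu : u ≤ 1) :
    allPole a b u = b - u * a ∧ allPole' a b u = -a := by
  simp [allPole, allPole', max_eq_left (sub_nonpos.2 hu)]

theorem hasDerivAt_allPole (a b u : ℝ) : HasDerivAt (allPole a b) (allPole' a b u) u := by
  have h1 : HasDerivAt (fun x : ℝ => b - x * a) (-a) u := by
    simpa using ((hasDerivAt_id u).mul_const a).const_sub b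
  exact (h1.fun_add (((hasDerivAt_max_sq (u - 1)).comp u
    ((hasDerivAt_id u).sub_const 1)).const_mul (a ^ 2 / (b - a)))).congr_deriv (by simp [allPole'])

/-- Five times the slope of the band at the centre. -/
def allLowP (a I v : ℝ) : ℝ :=
  5 * a + 10 * I - 40 * I * a - 5 * a * (1 - a) * v - 110 * (1 - 2 * a) * I * I - I * a

/-- The numerator of the band. -/
def allLowN (a I b u v : ℝ) : ℝ :=
  5 * (1 - 2 * I) * (1 + (1 - a) * v) * (b - u * a) + u * (1 + 2 * I) * allLowP a I v

/-- The derivative of `allLowN` in `u`. -/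
def allLowNu (a I v : ℝ) : ℝ :=
  (1 + 2 * I) * allLowP a I v - 5 * (1 - 2 * I) * (1 + (1 - a) * v) * a

/-- The derivative of `allLowN` in `v`. -/
def allLowNv (a I b u : ℝ) : ℝ :=
  5 * (1 - 2 * I) * (1 - a) * (b - u * a) - 5 * u * (1 + 2 * I) * a * (1 - a)

/-- **The lower band**, for `I = 1/N`. -/
noncomputable def allLowG (a b u v : ℝ) : ℝ :=
  allLowN a ((1 - (a + b)) / 2) b u v / (5 * (b * (2 - (a + b))) * allPole a b u)

/-- Its derivative in `u`. -/
noncomputable def allLowGu (a b u v : ℝ) : ℝ :=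
  (allLowNu a ((1 - (a + b)) / 2) v * allPole a b u -
      allLowN a ((1 - (a + b)) / 2) b u v * allPole' a b u) /
    (5 * (b * (2 - (a + b))) * allPole a b u ^ 2)

/-- Its derivative in `v`. -/
noncomputable def allLowGv (a b u : ℝ) : ℝ :=
  allLowNv a ((1 - (a + b)) / 2) b u / (5 * (b * (2 - (a + b))) * allPole a b u)

theorem hasGradTwo_allLow {a b : ℝ} (ha : 0 < a) (hd : 0 < b - a) (hS : a + b < 2) :
    HasGradTwo (allLowG a b) (allLowGu a b) (fun u _ => allLowGv a b u) := by
  intro u v du dv t hu hv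
  have hp := allPole_pos (u := u t) ha hd
  have hb : 0 < b := by linarith
  have hk : 0 < 5 * (b * (2 - (a + b))) := by nlinarith
  set I := (1 - (a + b)) / 2 with hI
  have hN : HasDerivAt (fun s => allLowN a I b (u s) (v s))
      (allLowNu a I (v t) * du + allLowNv a I b (u t) * dv) t := by
    have h1 := ((hv.const_mul (1 - a)).const_add 1).const_mul (5 * (1 - 2 * I))
    have h2 := ((hv.const_mul (5 * a * (1 - a))).const_sub
      (5 * a + 10 * I - 40 * I * a)).sub_const (110 * (1 - 2 * a) * I * I)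
    refine ((h1.fun_mul ((hu.mul_const a).const_sub b)).fun_add
      ((hu.mul_const (1 + 2 * I)).fun_mul (h2.sub_const (I * a)))).congr_deriv ?_
    simp only [allLowNu, allLowNv, allLowP]
    ring
  refine (hN.fun_div (((hasDerivAt_allPole a b (u t)).comp t hu).const_mul
    (5 * (b * (2 - (a + b))))) (by positivity)).congr_deriv ?_
  simp only [allLowGu, allLowGv, ← hI, Function.comp_apply]
  generalize allLowNu a I (v t) = A
  generalize allLowNv a I b (u t) = B
  generalize allLowN a I b (u t) (v t) = C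
  generalize allPole' a b (u t) = P'
  generalize allPole a b (u t) = P at hp ⊢
  generalize 5 * (b * (2 - (a + b))) = K at hk ⊢
  field_simp
  ring

theorem continuous_allLow {a b : ℝ} (ha : 0 < a) (hd : 0 < b - a) (hS : a + b < 2) :
    Continuous (fun w : ℝ × ℝ => allLowG a b w.1 w.2) ∧
      Continuous (fun w : ℝ × ℝ => allLowGu a b w.1 w.2) ∧
      Continuous (fun w : ℝ × ℝ => allLowGv a b w.1) := by
  have hb : 0 < b := by linarith
  have hk : 0 < 5 * (b * (2 - (a + b))) := by nlinarith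
  have cp : Continuous fun w : ℝ × ℝ => allPole a b w.1 := by unfold allPole; fun_prop
  have cp' : Continuous fun w : ℝ × ℝ => allPole' a b w.1 := by unfold allPole'; fun_prop
  have hp : ∀ w : ℝ × ℝ, allPole a b w.1 ≠ 0 := fun w => (allPole_pos ha hd).ne'
  refine ⟨?_, ?_, ?_⟩
  · refine Continuous.div (by unfold allLowN allLowP; fun_prop) (continuous_const.mul cp)
      fun w => mul_ne_zero hk.ne' (hp w)
  · refine Continuous.div ?_ (continuous_const.mul (cp.pow 2))
      fun w => mul_ne_zero hk.ne' (pow_ne_zero 2 (hp w))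
    exact ((by unfold allLowNu allLowP; fun_prop : Continuous fun w : ℝ × ℝ =>
        allLowNu a ((1 - (a + b)) / 2) w.2).mul cp).sub
      ((by unfold allLowN allLowP; fun_prop : Continuous fun w : ℝ × ℝ =>
        allLowN a ((1 - (a + b)) / 2) b w.1 w.2).mul cp')
  · exact Continuous.div (by unfold allLowNv; fun_prop) (continuous_const.mul cp)
      fun w => mul_ne_zero hk.ne' (hp w)

namespace AllLow

open Pack

local instance allLowRealAdd : Add Pack.Ex := ⟨Ex.add⟩
local instance allLowRealSub : Sub Pack.Ex := ⟨Ex.sub⟩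
local instance allLowRealMul : Mul Pack.Ex := ⟨Ex.mul⟩

theorem eval_add' (x : ℕ → ℝ) (e f : Pack.Ex) : (e + f).eval x = e.eval x + f.eval x := rfl

theorem eval_sub' (x : ℕ → ℝ) (e f : Pack.Ex) : (e - f).eval x = e.eval x - f.eval x := rfl

theorem eval_mul' (x : ℕ → ℝ) (e f : Pack.Ex) : (e * f).eval x = e.eval x * f.eval x := rfl

theorem eval_num' (x : ℕ → ℝ) (z : ℤ) : (eN z).eval x = (z : ℝ) := rfl

/-- `allDot` at a band times the cube of its denominator. -/
theorem dot_band {a b u v Gn Gd Gu dU Gv : ℝ} (hG : Gd ≠ 0) :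
    allDen a b u v (Gn / Gd) * Gd = (2 + (b - a) * v) * Gd - u * (b - a) * Gn ∧
    allDot a b u v (Gn / Gd) (-((Gu * Gd - Gn * dU) / Gd ^ 2)) (-(Gv / Gd)) 1 * Gd ^ 3 =
      0 - (Gd - u * (b - a) * Gn) *
          (allQn a b u v * Gn - (a + b) * (1 + (1 - a) * v) *
            ((2 + (b - a) * v) * Gd - u * (b - a) * Gn)) * Gd -
        Gn * ((Gd - u * (b - a) * Gn) * allQn a b u v -
          (a + b) * (1 - u) * b * ((2 + (b - a) * v) * Gd - u * (b - a) * Gn)) * Gd -
        u * (Gu * Gd - Gn * dU) * ((Gd - u * (b - a) * Gn) * allQn a b u v -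
          (a + b) * (1 - u) * b * ((2 + (b - a) * v) * Gd - u * (b - a) * Gn)) -
        u * (1 + (b - a) * v) * Gv * Gd *
          (allQn a b u v * Gn - (a + b) * (1 - a * v) *
            ((2 + (b - a) * v) * Gd - u * (b - a) * Gn)) := by
  simp only [allDot, allFh, allEn, allFlow, allDen]
  generalize allQn a b u v = Q
  constructor
  · field_simp
  · field_simp
    ring

/-- The values of the expressions on the band. -/
theorem eval_band {a b I u X : ℝ} {x : ℕ → ℝ} (tI tA : Pack.Ex) (hI : tI.eval x = I)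
    (ha : tA.eval x = a) (hu : x 0 = u) (hX : x 1 = X) (hb : b = 1 - 2 * I - a)
    (hu1 : u ≤ 1) (ha0 : 0 < a) (hd : 0 < b - a) (hI0 : 0 ≤ I) :
    let G := allLowG a b u (2 * I * X)
    let Gd := 5 * (b * (1 + 2 * I)) * (b - u * a)
    0 < Gd ∧ allDen a b u (2 * I * X) G * Gd = (eLowDen tI tA).eval x ∧
      allDot a b u (2 * I * X) G (-allLowGu a b u (2 * I * X)) (-allLowGv a b u) 1 * Gd ^ 3 =
        (eLowNum tI tA).eval x := by
  intro G Gd
  obtain ⟨hp, hp'⟩ := allPole_eq (a := a) (b := b) hu1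
  have hb0 : 0 < b := by linarith
  have hw : 0 < b - u * a := by linarith [mul_le_mul_of_nonneg_right hu1 ha0.le]
  have hB : 0 < 5 * (b * (1 + 2 * I)) := by positivity
  have hG : 0 < Gd := mul_pos hB hw
  have eS : 2 - (a + b) = 1 + 2 * I := by rw [hb]; ring
  have eI' : (1 - (a + b)) / 2 = I := by rw [hb]; ring
  have eG : G = allLowN a I b u (2 * I * X) / Gd := by
    simp only [G, Gd, allLowG, hp, eS, eI']
  have eu : -allLowGu a b u (2 * I * X) =
      -((allLowNu a I (2 * I * X) * Gd -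
        allLowN a I b u (2 * I * X) * ((-5) * (b * (1 + 2 * I)) * a)) / Gd ^ 2) := by
    simp only [Gd, allLowGu, hp, hp', eS, eI']
    field_simp
  have ev : -allLowGv a b u = -(allLowNv a I b u / Gd) := by
    simp only [Gd, allLowGv, hp, eS, eI']
  obtain ⟨k1, k2⟩ := dot_band (a := a) (b := b) (u := u) (v := 2 * I * X)
    (Gn := allLowN a I b u (2 * I * X)) (Gu := allLowNu a I (2 * I * X))
    (dU := (-5) * (b * (1 + 2 * I)) * a) (Gv := allLowNv a I b u) hG.ne'
  have vS : (AllLow.eS tI).eval x = a + b := by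
    simp only [AllLow.eS, eval_sub', eval_mul', eval_num', hI]; push_cast; rw [hb]; ring
  have vB : (eB tI tA).eval x = b := by simp only [eB, eval_sub', vS, ha]; ring
  have vD : (eD tI tA).eval x = b - a := by simp only [eD, eval_sub', vB, ha]
  have vV : (eV tI).eval x = 2 * I * X := by
    simp only [eV, eval_mul', eval_num', Ex.eval, hI, hX]; push_cast; ring
  have vDV : (eDV tI tA).eval x = (b - a) * (2 * I * X) := by simp only [eDV, eval_mul', vD, vV]
  have vJ : (eJ tI).eval x = 1 + 2 * I := by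
    simp only [eJ, eval_add', eval_mul', eval_num', hI]; push_cast; ring
  have vQ : (AllLow.eQ tI tA).eval x = 1 + (1 - a) * (2 * I * X) := by
    simp only [AllLow.eQ, eval_add', eval_sub', eval_mul', eval_num', ha, vV]; push_cast; ring
  have vU : eU.eval x = u := by simp only [eU, Ex.eval, hu]
  have vW : (eW tI tA).eval x = b - u * a := by simp only [eW, eval_sub', eval_mul', vB, vU, ha]
  have vP : (eP tI tA).eval x = allLowP a I (2 * I * X) := by
    simp only [eP, allLowP, eval_add', eval_sub', eval_mul', eval_num', hI, ha, vV]; push_cast; ring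
  have eS' : a + b = 1 - 2 * I := by rw [hb]; ring
  have vGn : (eGn tI tA).eval x = allLowN a I b u (2 * I * X) := by
    simp only [eGn, allLowN, eval_add', eval_mul', eval_num', vS, vQ, vW, vJ, vP, vU, eS']
    push_cast; ring
  have vGd : (eGd tI tA).eval x = Gd := by
    simp only [eGd, Gd, eval_mul', eval_num', vB, vJ, vW]; push_cast; ring
  have vGu : (eGu tI tA).eval x = allLowNu a I (2 * I * X) := by
    simp only [eGu, allLowNu, eval_sub', eval_mul', eval_num', vS, vQ, vJ, vP, ha, eS']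
    push_cast; ring
  have vDu : (eDu tI tA).eval x = (-5) * (b * (1 + 2 * I)) * a := by
    simp only [eDu, eval_mul', eval_num', vB, vJ, ha]; push_cast; ring
  have vGv : (eGv tI tA).eval x = allLowNv a I b u := by
    simp only [eGv, allLowNv, eval_sub', eval_mul', eval_num', vS, vW, vJ, vU, ha, eS']
    push_cast; ring
  have vQn : (eQn tI tA).eval x = allQn a b u (2 * I * X) := by
    simp only [eQn, allQn, eval_add', eval_sub', eval_mul', eval_num', vS, vB, vDV, vU]
    push_cast; ring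
  have vDen : (eLowDen tI tA).eval x = (2 + (b - a) * (2 * I * X)) * Gd -
      u * (b - a) * allLowN a I b u (2 * I * X) := by
    simp only [eLowDen, eval_add', eval_sub', eval_mul', eval_num', vDV, vGd, vU, vD, vGn]
    push_cast; ring
  refine ⟨hG, ?_, ?_⟩
  · rw [eG, k1, vDen]
  · rw [eG, eu, ev, k2]
    simp only [eLowNum, eEn, eFlow, AllLow.eA, eval_add', eval_sub', eval_mul', eval_num', vDen,
      vQn, vGn, vGd, vGu, vDu, vGv, vS, vQ, vB, vU, vD, vDV, vV, ha]
    generalize allLowN a I b u (2 * I * X) = n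
    generalize allLowNu a I (2 * I * X) = nu
    generalize allLowNv a I b u = nv
    generalize allQn a b u (2 * I * X) = Q
    generalize (-5 : ℝ) * (b * (1 + 2 * I)) * a = dU
    generalize Gd = g
    push_cast
    ring

theorem side_mem {C : Chart} {y : ℝ} {den : ℕ} (hc : C.c = den) (hd : C.d = den)
    (h1 : (C.a : ℝ) ≤ y * den) (h2 : y * den < (C.b : ℝ)) :
    ∃ t : ℝ, 0 ≤ t ∧ 0 < (C.c : ℝ) + C.d * t ∧
      (C.a : ℝ) + C.b * t = y * ((C.c : ℝ) + C.d * t) ∨ den = 0 := by
  rcases Nat.eq_zero_or_pos den with h | h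
  · exact ⟨0, Or.inr h⟩
  have hden : (0 : ℝ) < den := by exact_mod_cast h
  refine ⟨(y * den - C.a) / (C.b - y * den), Or.inl ?_⟩
  have ht : 0 ≤ (y * den - C.a) / (C.b - y * den) := div_nonneg (by linarith) (by linarith)
  have e := div_mul_cancel₀ (y * den - (C.a : ℝ)) (show (C.b : ℝ) - y * den ≠ 0 by linarith)
  rw [hc, hd]
  push_cast
  generalize (y * den - (C.a : ℝ)) / (C.b - y * den) = s at ht e ⊢
  refine ⟨ht, add_pos_of_pos_of_nonneg hden (mul_nonneg hden.le ht), ?_⟩
  linarith

/-- A point of a chart. -/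
theorem side_point {A B : ℤ} {den : ℕ} (hden : 0 < den) {y : ℝ}
    (h1 : (A : ℝ) ≤ y * den) (h2 : y * den < (B : ℝ)) :
    ∃ t : ℝ, 0 ≤ t ∧ 0 < ((den : ℤ) : ℝ) + ((den : ℤ) : ℝ) * t ∧
      (A : ℝ) + B * t = y * (((den : ℤ) : ℝ) + ((den : ℤ) : ℝ) * t) := by
  obtain ⟨t, h | h⟩ := side_mem (C := ⟨A, B, den, den⟩) rfl rfl h1 h2
  · exact ⟨t, h⟩
  · omega

/-- The signs on the band. -/
theorem signs {N a b u v : ℝ} (hb : SlabBoxAll N a b) (h20 : 20 ≤ N) (ha : a ≤ 31 / 100)
    (hu : 0 < u) (hu1 : u ≤ 3 / 5) (hv : VRange N a b v) :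
    0 < allDen a b u v (allLowG a b u v) ∧
      0 < allDot a b u v (allLowG a b u v) (-allLowGu a b u v) (-allLowGv a b u) 1 := by
  obtain ⟨ha0, hb0, hd, -⟩ := hb.facts
  obtain ⟨I, hI⟩ : ∃ I, I = 1 / N := ⟨_, rfl⟩
  have hN : 0 < N := by linarith
  have hIN : I * N = 1 := by rw [hI]; field_simp
  have hI0 : 0 < I := hI ▸ one_div_pos.2 hN
  have hI20 : I ≤ 1 / 20 := hI ▸ one_div_le_one_div_of_le (by norm_num) h20
  have hIa : I ≤ a := le_of_mul_le_mul_right (by linarith [hb.one_le]) hN
  have hbI : b = 1 - 2 * I - a := by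
    have : 1 - (a + b) = 2 * I := by
      refine mul_left_cancel₀ hN.ne' ?_
      rw [hb.sum]; linarith
    linarith
  obtain ⟨X, rfl⟩ : ∃ X, v = 2 * I * X :=
    ⟨v / (2 * I), (mul_div_cancel₀ v (mul_pos two_pos hI0).ne').symm⟩
  have hX1 : 1 < (1 + 2 * a * I) * X := by
    have e : (N + 2 * a) * (2 * I * X) = 2 * ((1 + 2 * a * I) * X) := by
      linear_combination 2 * X * hIN
    linarith [hv.low]
  have hX0 : 0 < X := pos_of_mul_pos_right (one_pos.trans hX1) (by positivity)
  have hX2 : (1 - 2 * I) * (1 - 2 * I - 2 * a) * X < 1 := by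
    have e : (N - 2) * ((b - a) * (2 * I * X)) =
        2 * ((1 - 2 * I) * (1 - 2 * I - 2 * a) * X) := by
      rw [hbI]; linear_combination 2 * (1 - 2 * I - 2 * a) * X * hIN
    linarith [hv.high]
  have hXlo : 24 / 25 ≤ X := by
    have : a * I ≤ 31 / 100 * (1 / 20) := mul_le_mul ha hI20 hI0.le (by norm_num)
    have := mul_le_mul_of_nonneg_right (show 2 * a * I ≤ 31 / 1000 by linarith) hX0.le
    linarith
  have hmono : ∀ A : ℝ, a ≤ A → A ≤ 31 / 100 → (9 / 10) * (9 / 10 - 2 * A) * X < 1 := fun A hA hA' => by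
    refine lt_of_le_of_lt (mul_le_mul_of_nonneg_right ?_ hX0.le) hX2
    exact mul_le_mul (by linarith) (by linarith) (by linarith) (by linarith)
  have main : ∀ (eI eA : Pack.Ex) (x : ℕ → ℝ) (m : ℝ), eI.eval x = I → eA.eval x = a →
      x 0 = u → x 1 = X → 0 < m → 0 ≤ (eN 4 * eLowDen eI eA - eN 1).eval x →
      0 ≤ 16 * (eLowNum eI eA).eval x - m →
      0 < allDen a b u (2 * I * X) (allLowG a b u (2 * I * X)) ∧
        0 < allDot a b u (2 * I * X) (allLowG a b u (2 * I * X))
          (-allLowGu a b u (2 * I * X)) (-allLowGv a b u) 1 := by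
    intro eI eA x m h1 h2 h3 h4 hm hden hnum
    obtain ⟨hG, k1, k2⟩ := eval_band (b := b) eI eA h1 h2 h3 h4 hbI (by linarith) ha0 hd hI0.le
    simp only [eval_sub', eval_mul', eval_num'] at hden
    push_cast at hden
    exact ⟨pos_of_mul_pos_left (by rw [k1]; linarith) hG.le,
      pos_of_mul_pos_left (by rw [k2]; linarith) (pow_pos hG 3).le⟩
  rcases lt_or_ge a (1 / 20) with h5 | h5
  · have hXhi := hmono (1 / 20) h5.le (by norm_num)
    obtain ⟨s, hs⟩ : ∃ s, I = s * a := ⟨I / a, (div_mul_cancel₀ I ha0.ne').symm⟩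
    have hs0 : 0 < s := pos_of_mul_pos_left (hs ▸ hI0) ha0.le
    have hs1 : s ≤ 1 := le_of_mul_le_mul_right (by rw [one_mul, ← hs]; exact hIa) ha0
    set x : ℕ → ℝ := fun i => if i = 0 then u else if i = 1 then X else if i = 2 then s else a
      with hx
    have hp : ∀ i < 4, ∃ t : ℝ, 0 ≤ t ∧ 0 < ((boxSmall i).c : ℝ) + (boxSmall i).d * t ∧
        ((boxSmall i).a : ℝ) + (boxSmall i).b * t =
          x i * (((boxSmall i).c : ℝ) + (boxSmall i).d * t) := by
      intro i hi
      interval_cases i <;> refine side_point (by norm_num) ?_ ?_ <;> simp [hx, boxSmall] <;> linarith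
    have h1 := nonneg_of_checkFour flow_small hp
    have h2 := nonneg_of_checkFour den_small hp
    simp only [eLowS, eU, eval_sub', eval_num', Ex.eval] at h1
    push_cast at h1
    refine main (.var 2 * .var 3) (.var 3) x (u * s * a * a) ?_ ?_ ?_ ?_ (by positivity) h2 ?_
    · simp [hx, Ex.eval, hs]
    · simp [hx, Ex.eval]
    · simp [hx]
    · simp [hx]
    · simpa [hx] using h1
  set x : ℕ → ℝ := fun i => if i = 0 then u else if i = 1 then X else if i = 2 then I else a
    with hx
  have fin : ∀ B : ℕ → Chart, (∀ i < 4, ∃ t : ℝ, 0 ≤ t ∧ 0 < ((B i).c : ℝ) + (B i).d * t ∧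
        ((B i).a : ℝ) + (B i).b * t = x i * (((B i).c : ℝ) + (B i).d * t)) →
      checkFour B 440 5 3 14 9 eLowI = true → checkFour B 200 2 1 5 3 eDenI = true →
      0 < allDen a b u (2 * I * X) (allLowG a b u (2 * I * X)) ∧
        0 < allDot a b u (2 * I * X) (allLowG a b u (2 * I * X))
          (-allLowGu a b u (2 * I * X)) (-allLowGv a b u) 1 := by
    intro B hp c1 c2
    have h1 := nonneg_of_checkFour c1 hp
    have h2 := nonneg_of_checkFour c2 hp
    simp only [eLowI, eU, eval_sub', eval_num', Ex.eval] at h1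
    push_cast at h1
    refine main (.var 2) (.var 3) x (u * I * a) ?_ ?_ ?_ ?_ (by positivity) h2 ?_
    · simp [hx, Ex.eval]
    · simp [hx, Ex.eval]
    · simp [hx]
    · simp [hx]
    · simpa [hx] using h1
  rcases lt_or_ge a (3 / 20) with h15 | h15
  · have hXhi := hmono (3 / 20) h15.le (by norm_num)
    refine fin boxMid (fun i hi => ?_) flow_mid den_mid
    interval_cases i <;> refine side_point (by norm_num) ?_ ?_ <;> simp [hx, boxMid] <;> linarith
  · have hXhi := hmono (31 / 100) ha le_rfl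
    refine fin boxBig (fun i hi => ?_) flow_big den_big
    interval_cases i <;> refine side_point (by norm_num) ?_ ?_ <;> simp [hx, boxBig] <;> linarith

end AllLow

variable {N p q : ℝ} {S : Set ℝ} {R x y s dx dy : ℝ → ℝ}

/-- **The lower band up to `u = 3/5`** for real dimensions `N ≥ 20` and `1/(p+1) ≤ 31/100`. -/
theorem orbit_low_all (hf : IsOrbitFns N p q S R x y s dx dy)
    (hb : SlabBoxAll N (1 / (p + 1)) (1 / (q + 1))) (h20 : 20 ≤ N) (ha : 1 / (p + 1) ≤ 31 / 100)
    {w : ℝ} (hw : w ∈ S) (hw0 : 0 < R w) (hwu : uOf N (R w) (x w) ≤ 3 / 5) :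
    allLowG (1 / (p + 1)) (1 / (q + 1)) (uOf N (R w) (x w))
        (vOf (1 / (p + 1)) (1 / (q + 1)) (y w / x w)) <
      hOf N (R w) (x w) (y w) w / (1 / (q + 1) - 1 / (p + 1)) := by
  obtain ⟨ha0, hb0, hd, -⟩ := hb.facts
  have hS : 1 / (p + 1) + 1 / (q + 1) < 2 := by linarith [hb.S_lt]
  obtain ⟨c1, c2, c3⟩ := continuous_allLow ha0 hd hS
  have key := band_step_all hf hb (u₁ := 3 / 5) (one_mul 1) (hasGradTwo_allLow ha0 hd hS) c1 c2 c3
    (fun _ _ => True) (fun _ _ _ _ => trivial) (fun v _ _ _ => ?_)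
    (fun u v hu _ hu1 hv _ => ?_) hw hw0 hwu
  · linarith
  · refine le_of_eq ?_
    generalize 1 / (p + 1) = al at ha0 hd hS ⊢
    generalize 1 / (q + 1) = be at hb0 hd hS ⊢
    obtain ⟨hp, -⟩ := allPole_eq (a := al) (b := be) zero_le_one
    have h2 : (2 : ℝ) - (al + be) ≠ 0 := by linarith
    simp only [allLowG, allHc, allLowN, hp, zero_mul, sub_zero, add_zero]
    field_simp
    ring
  · rw [one_mul]
    exact AllLow.signs hb h20 ha hu hu1 hv

end Vale.Agent.P100.Calib.Band
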