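import Vale.Agent.P100.Calib.SlabAllNegExpr

/-!
# The checks at and below the crossing in every dimension from twenty on
-/

namespace Vale.Agent.P100.Calib.Band.AllNeg

open BoxPos

theorem chkHi_s : Ex.checkNonneg (chkHi nSub) boxSmall 257 ⟨4, 5, 23, 32⟩ = true := by
  decide +kernel

theorem chkLo_s : Ex.checkNonneg (chkLo nSub) boxSmall 272 ⟨4, 5, 25, 34⟩ = true := by
  decide +kernel

theorem downHi_s : Ex.checkNonneg (chkDown nHi nSub) boxSmall 132 ⟨2, 0, 13, 18⟩ = true := by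
  decide +kernel

theorem upHi_s : Ex.checkNonneg (chkUp nHi nSub) boxSmall 132 ⟨2, 0, 13, 18⟩ = true := by
  decide +kernel

theorem downLo_s : Ex.checkNonneg (chkDown (nLo nSub .x₃) nSub) boxSmall 139 ⟨2, 0, 14, 19⟩ = true := by
  decide +kernel

theorem upLo_s : Ex.checkNonneg (chkUp (nLo nSub .x₃) nSub) boxSmall 139 ⟨2, 0, 14, 19⟩ = true := by
  decide +kernel

theorem left_s : Ex.checkNonneg (chkLeft nSub) boxSmall 84 ⟨0, 1, 7, 11⟩ = true := by
  decide +kernel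

theorem chkHi_b : Ex.checkNonneg (chkHi .x₂) boxBig 287 ⟨4, 5, 23, 13⟩ = true := by
  decide +kernel

theorem chkLo_b : Ex.checkNonneg (chkLo .x₂) boxBig 315 ⟨4, 5, 25, 15⟩ = true := by
  decide +kernel

theorem downHi_b : Ex.checkNonneg (chkDown nHi .x₂) boxBig 146 ⟨2, 0, 13, 7⟩ = true := by
  decide +kernel

theorem upHi_b : Ex.checkNonneg (chkUp nHi .x₂) boxBig 146 ⟨2, 0, 13, 7⟩ = true := by
  decide +kernel

theorem downLo_b : Ex.checkNonneg (chkDown (nLo .x₂ .x₃) .x₂) boxBig 160 ⟨2, 0, 14, 8⟩ = true := by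
  decide +kernel

theorem upLo_b : Ex.checkNonneg (chkUp (nLo .x₂ .x₃) .x₂) boxBig 160 ⟨2, 0, 14, 8⟩ = true := by
  decide +kernel

theorem left_b : Ex.checkNonneg (chkLeft .x₂) boxBig 95 ⟨0, 1, 7, 5⟩ = true := by
  decide +kernel

end Vale.Agent.P100.Calib.Band.AllNeg
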