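import Vale.Agent.P100.Calib.SlabAllStab
import Vale.Agent.P100.Calib.SlabAllNegCert

/-!
# The signs of the conditions at and below the crossing in every dimension from twenty on

For `u < 0` the region is `V₀ ≤ v ≤ V₁`, `-K v ≤ u` and `allNegG τhi ≤ H ≤ allNegG τlo`, where
`allNegG τ = allHc + u (a/(1 - a)² + I τ)`, `τhi = 11/5`, `τlo = 2 - 27/10 a - 13 I`.
-/

open Set Filter Topology

namespace Vale.Agent.P100.Calib.Band

open Vale.Agent.P100.Bubble Chart

/-- The bound of `-u/v`. -/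
noncomputable def allNegK (a b : ℝ) : ℝ := (1 - a) * (1 + 3 / 5 * allStabI a b)

/-- The lower end of `v`. -/
noncomputable def allNegV₀ (a b : ℝ) : ℝ := 2 * allStabI a b * (1 - 3 * allStabI a b)

/-- The upper end of `v`. -/
noncomputable def allNegV₁ (a b : ℝ) : ℝ := 2 * allStabI a b * (9 / 8 + 2 * allStabI a b)

/-- The lower value of `τ`. -/
noncomputable def allNegLo (a b : ℝ) : ℝ := 2 - 27 / 10 * a - 13 * allStabI a b

/-- The slope of a band. -/
noncomputable def allNegS (a b τ : ℝ) : ℝ := a / (1 - a) ^ 2 + allStabI a b * τ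

/-- A band. -/
noncomputable def allNegG (a b τ u v : ℝ) : ℝ := allHc a b v + u * allNegS a b τ

/-- Its derivative in `v`. -/
noncomputable def allNegGv (a b : ℝ) : ℝ := (a + b) * (1 - a) / (b * (2 - (a + b)))

theorem allHc_lin (a b v : ℝ) :
    allHc a b v = (a + b) / (b * (2 - (a + b))) + allNegGv a b * v := by
  unfold allHc allNegGv; ring

theorem hasGradTwo_allNeg (a b τ : ℝ) :
    HasGradTwo (allNegG a b τ) (fun _ _ => allNegS a b τ) (fun _ _ => allNegGv a b) := by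
  intro u v du dv t hu hv
  simp only [allNegG, allHc_lin]
  exact (((hv.const_mul (allNegGv a b)).const_add _).fun_add
    (hu.mul_const (allNegS a b τ))).congr_deriv (by ring)

theorem continuous_allNeg (a b τ : ℝ) :
    Continuous fun w : ℝ × ℝ => allNegG a b τ w.1 w.2 := by
  simp only [allNegG, allHc_lin]; fun_prop

namespace AllNeg

open BoxPos

local instance allNegBandAdd : Add Ex := ⟨Ex.add⟩
local instance allNegBandSub : Sub Ex := ⟨Ex.sub⟩
local instance allNegBandMul : Mul Ex := ⟨Ex.mul⟩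

/-- The value at a point. -/
noncomputable def ev4 (x : ℕ → ℝ) (e : Ex) : ℝ := e.val (x 0) (x 1) (x 2) (x 3)

theorem ev4_sub (x : ℕ → ℝ) (e f : Ex) : ev4 x (e - f) = ev4 x e - ev4 x f := rfl
theorem ev4_add (x : ℕ → ℝ) (e f : Ex) : ev4 x (e + f) = ev4 x e + ev4 x f := rfl
theorem ev4_mul (x : ℕ → ℝ) (e f : Ex) : ev4 x (e * f) = ev4 x e * ev4 x f := rfl
theorem ev4_nC (x : ℕ → ℝ) (n : ℤ) (d : ℕ) : ev4 x (nC n d) = (n : ℝ) / (d : ℝ) := rfl

/-- The values of the expressions at a band. -/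
theorem eval_neg {a b I u v τ : ℝ} {x : ℕ → ℝ} {t q w tI ta : Ex} (hI : ev4 x tI = I)
    (ha : ev4 x ta = a) (ht : ev4 x t = τ) (hb : b = 1 - 2 * I - a) (hb0 : 0 < b) (hI0 : 0 ≤ I)
    (ha1 : a < 1)
    (hv : v = 2 * I * ((1 - 3 * I) + ev4 x w * (1 / 8 + 2 * I + 3 * I)))
    (hu : u = -(ev4 x q * ((1 - a) * (1 + 3 / 5 * I) * v))) :
    let Gd := b * (1 + 2 * I) * (1 - a) ^ 2
    0 < Gd ∧ ev4 x (nGd tI ta) = Gd ∧ ev4 x (nGn t q w tI ta) = allNegG a b τ u v * Gd ∧
      ev4 x (nFlow t q w tI ta) = allFlow a b u v (allNegG a b τ u v) * Gd ∧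
      ev4 x (nNum t q w tI ta) = allDot a b u v (allNegG a b τ u v)
        (-allNegS a b τ) (-allNegGv a b) 1 * Gd ^ 2 := by
  intro Gd
  have h1a : (1 - a) ≠ 0 := by linarith
  have hG : 0 < Gd := mul_pos (mul_pos hb0 (by linarith)) (pow_pos (by linarith) 2)
  have eI : allStabI a b = I := by rw [allStabI, hb]; ring
  have vS : ev4 x (nS tI) = a + b := by
    simp only [nS, ev4_sub, ev4_mul, ev4_nC, hI]; push_cast; rw [hb]; ring
  have vB : ev4 x (nB tI ta) = b := by simp only [nB, ev4_sub, vS, ha]; ring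
  have vD : ev4 x (nD tI ta) = b - a := by simp only [nD, ev4_sub, vB, ha]
  have vV : ev4 x (nV w tI ta) = v := by
    simp only [nV, ev4_add, ev4_sub, ev4_mul, ev4_nC, hI, hv]; push_cast; ring
  have vK : ev4 x (nK tI ta) = (1 - a) * (1 + 3 / 5 * I) := by
    simp only [nK, ev4_add, ev4_sub, ev4_mul, ev4_nC, hI, ha]; push_cast; ring
  have vU : ev4 x (nU q w tI ta) = u := by
    simp only [nU, ev4_mul, ev4_nC, vK, vV, hu]; push_cast; ring
  have vGd : ev4 x (nGd tI ta) = Gd := by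
    simp only [nGd, nM, Gd, ev4_add, ev4_sub, ev4_mul, ev4_nC, vB, hI, ha]; push_cast; ring
  have eJ : 2 - (a + b) = 1 + 2 * I := by linarith
  have vGu : ev4 x (nGu t tI ta) = allNegS a b τ * Gd := by
    simp only [nGu, nM, Gd, allNegS, eI, ev4_add, ev4_sub, ev4_mul, ev4_nC, vB, hI, ha, ht]
    push_cast
    field_simp
  have vGv : ev4 x (nS tI * (nC 1 - ta) * nM ta) = allNegGv a b * Gd := by
    simp only [nM, Gd, allNegGv, eJ, ev4_sub, ev4_mul, ev4_nC, vS, ha]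
    push_cast
    have : 1 + 2 * I ≠ 0 := by linarith
    field_simp
  have vGn : ev4 x (nGn t q w tI ta) = allNegG a b τ u v * Gd := by
    simp only [nGn, nM, allNegG, allHc, eJ, ev4_add, ev4_sub, ev4_mul, ev4_nC, vS, vV, vU, vGu, ha]
    simp only [Gd]
    push_cast
    have : 1 + 2 * I ≠ 0 := by linarith
    field_simp
  have vDen : ev4 x (nDen t q w tI ta) = allDen a b u v (allNegG a b τ u v) * Gd := by
    simp only [nDen, allDen, ev4_add, ev4_sub, ev4_mul, ev4_nC, vD, vV, vGd, vU, vGn]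
    push_cast; ring
  have vQn : ev4 x (nQn q w tI ta) = allQn a b u v := by
    simp only [nQn, allQn, ev4_add, ev4_sub, ev4_mul, ev4_nC, vS, vB, vD, vV, vU]
    push_cast; ring
  have vFl : ev4 x (nFlow t q w tI ta) = allFlow a b u v (allNegG a b τ u v) * Gd := by
    simp only [nFlow, allFlow, ev4_sub, ev4_mul, ev4_nC, vS, vV, vDen, vQn, vGn, ha]
    push_cast; ring
  have vEn : ev4 x (nEn t q w tI ta) = allEn a b u v (allNegG a b τ u v) * Gd := by
    simp only [nEn, allEn, ev4_sub, ev4_mul, ev4_nC, vS, vB, vD, vU, vGd, vDen, vQn, vGn]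
    push_cast; ring
  refine ⟨hG, vGd, vGn, vFl, ?_⟩
  simp only [nNum, ev4_sub, ev4_mul, ev4_add, ev4_nC, vS, vD, vV, vU, vGd, vDen, vQn, vGn, vGu,
    vFl, vEn, ha] at vGv ⊢
  rw [vGv]
  simp only [allDot, allFh, allFlow, allEn]
  push_cast
  ring

/-- A point of a box. -/
theorem chart_point {x : ℝ} {c : Pack.Chart} (m : ℝ) (hm : 0 ≤ m)
    (h0 : 0 < (c.c : ℝ) + c.d * m) (h : (c.a : ℝ) + c.b * m = x * ((c.c : ℝ) + c.d * m)) :
    ∃ t : ℝ, 0 ≤ t ∧ 0 < (c.c : ℝ) + c.d * t ∧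
      (c.a : ℝ) + c.b * t = x * ((c.c : ℝ) + c.d * t) := ⟨m, hm, h0, h⟩

/-- `x ∈ (0, 1/k]`. -/
theorem top_point {x : ℝ} {k : ℕ} (hk : 0 < k) (hx : 0 < x) (hx1 : (k : ℝ) * x ≤ 1) :
    ∃ t : ℝ, 0 ≤ t ∧ 0 < ((k : ℤ) : ℝ) + (k : ℤ) * t ∧
      ((1 : ℤ) : ℝ) + (0 : ℤ) * t = x * (((k : ℤ) : ℝ) + (k : ℤ) * t) := by
  have hk' : (0 : ℝ) < k := by exact_mod_cast hk
  refine ⟨(1 - k * x) / (k * x), div_nonneg (by linarith) (by positivity), ?_, ?_⟩
  · push_cast
    have : 0 ≤ (1 - k * x) / (k * x) := div_nonneg (by linarith) (by positivity)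
    positivity
  · push_cast
    field_simp
    ring

/-- The region. -/
structure Region (N a b u v : ℝ) : Prop where
  box : SlabBoxAll N a b
  big : 20 ≤ N
  al : a ≤ 31 / 100
  u_neg : u < 0
  low : allNegV₀ a b ≤ v
  high : v ≤ allNegV₁ a b
  left : -(allNegK a b * v) ≤ u

theorem box_facts {N a b : ℝ} (hb : SlabBoxAll N a b) (h20 : 20 ≤ N) :
    0 < allStabI a b ∧ allStabI a b ≤ 1 / 20 ∧ allStabI a b ≤ a ∧ b = 1 - 2 * allStabI a b - a := by
  have hN : 0 < N := by linarith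
  have hIN : N * allStabI a b = 1 := by
    rw [allStabI, mul_div_assoc', hb.sum]; norm_num
  have hI : 0 < allStabI a b := pos_of_mul_pos_right (by linarith) hN.le
  refine ⟨hI, ?_, ?_, by rw [allStabI]; ring⟩
  · linarith [mul_le_mul_of_nonneg_right h20 hI.le]
  · exact le_of_mul_le_mul_left (by linarith [hb.one_le]) hN

/-- Coordinates of the region. -/
theorem coords {N a b u v : ℝ} (h : Region N a b u v) :
    0 < v ∧ 0 < allNegK a b ∧ ∃ q w : ℝ, 0 < q ∧ q ≤ 1 ∧ 0 ≤ w ∧ w ≤ 1 ∧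
      v = 2 * allStabI a b * ((1 - 3 * allStabI a b) +
        w * (1 / 8 + 2 * allStabI a b + 3 * allStabI a b)) ∧
      u = -(q * (allNegK a b * v)) := by
  obtain ⟨hI, hI20, hIa, -⟩ := box_facts h.box h.big
  have ha := h.al
  have hlow := h.low
  have hhigh := h.high
  simp only [allNegV₀, allNegV₁] at hlow hhigh
  set I := allStabI a b
  have hv : 0 < v := lt_of_lt_of_le (mul_pos (by linarith) (by linarith)) hlow
  have hK : 0 < allNegK a b := mul_pos (by linarith) (by linarith)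
  have hKv := mul_pos hK hv
  have hden : 0 < 2 * I * (1 / 8 + 2 * I + 3 * I) := mul_pos (by linarith) (by linarith)
  refine ⟨hv, hK, -u / (allNegK a b * v), (v - 2 * I * (1 - 3 * I)) / (2 * I * (1 / 8 + 2 * I + 3 * I)),
    div_pos (neg_pos.2 h.u_neg) hKv, (div_le_one hKv).2 (by linarith [h.left]),
    div_nonneg (by linarith) hden.le, (div_le_one hden).2 (by linarith), ?_, ?_⟩
  · have := div_mul_cancel₀ (v - 2 * I * (1 - 3 * I)) hden.ne'
    linear_combination -this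
  · rw [div_mul_cancel₀ _ hKv.ne', neg_neg]

/-- The point `(q, w, z, a)`. -/
def pt (q w z a : ℝ) : ℕ → ℝ
  | 0 => q
  | 1 => w
  | 2 => z
  | _ => a

/-- The two boxes: values, charts and `I`. -/
theorem place {N a b : ℝ} (hb : SlabBoxAll N a b) (h20 : 20 ≤ N) (ha : a ≤ 31 / 100) {q w : ℝ}
    (hq : 0 < q) (hq1 : q ≤ 1) (hw : 0 ≤ w) (hw1 : w ≤ 1)
    (P : (ℕ → ℝ) → Ex → Prop)
    (hs : ∀ x, (∀ i < 4, ∃ t : ℝ, 0 ≤ t ∧ 0 < ((boxSmall i).c : ℝ) + (boxSmall i).d * t ∧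
        ((boxSmall i).a : ℝ) + (boxSmall i).b * t =
          x i * (((boxSmall i).c : ℝ) + (boxSmall i).d * t)) →
      x 0 = q → x 1 = w → x 3 = a → ev4 x nSub = allStabI a b → P x nSub)
    (hg : ∀ x, (∀ i < 4, ∃ t : ℝ, 0 ≤ t ∧ 0 < ((boxBig i).c : ℝ) + (boxBig i).d * t ∧
        ((boxBig i).a : ℝ) + (boxBig i).b * t =
          x i * (((boxBig i).c : ℝ) + (boxBig i).d * t)) →
      x 0 = q → x 1 = w → x 3 = a → ev4 x .x₂ = allStabI a b → P x .x₂) :
    ∃ x tI, x 0 = q ∧ x 1 = w ∧ x 3 = a ∧ ev4 x tI = allStabI a b ∧ P x tI := by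
  obtain ⟨hI, hI20, hIa, -⟩ := box_facts hb h20
  set I := allStabI a b
  have ha0 : 0 < a := hI.trans_le hIa
  have h0 : ∃ t : ℝ, 0 ≤ t ∧ 0 < ((1 : ℤ) : ℝ) + (1 : ℤ) * t ∧
      ((1 : ℤ) : ℝ) + (0 : ℤ) * t = q * (((1 : ℤ) : ℝ) + (1 : ℤ) * t) :=
    top_point (k := 1) one_pos hq (by simpa using hq1)
  have h1 : ∃ t : ℝ, 0 ≤ t ∧ 0 < ((16 : ℤ) : ℝ) + (16 : ℤ) * t ∧
      ((0 : ℤ) : ℝ) + (17 : ℤ) * t = w * (((16 : ℤ) : ℝ) + (16 : ℤ) * t) := by
    refine chart_point (c := ⟨0, 17, 16, 16⟩) (16 * w / (17 - 16 * w))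
      (div_nonneg (by linarith) (by linarith)) ?_ ?_
    · push_cast
      have : 0 ≤ 16 * w / (17 - 16 * w) := div_nonneg (by linarith) (by linarith)
      linarith
    · push_cast
      have : 17 - 16 * w ≠ 0 := by linarith
      field_simp
      ring
  rcases le_or_gt (20 * a) 1 with h | h
  · refine ⟨pt q w (I / a) a, nSub, rfl, rfl, rfl, ?_, hs _ (fun i hi => ?_) rfl rfl rfl ?_⟩
    · show I / a * a = I
      exact div_mul_cancel₀ _ ha0.ne'
    · interval_cases i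
      · exact h0
      · exact h1
      · exact top_point (k := 1) one_pos (div_pos hI ha0) (show ((1 : ℕ) : ℝ) * (I / a) ≤ 1 by rw [Nat.cast_one, one_mul]; exact (div_le_one ha0).2 hIa)
      · exact top_point (k := 20) (by norm_num) ha0 (show ((20 : ℕ) : ℝ) * a ≤ 1 by push_cast; linarith)
    · show I / a * a = I
      exact div_mul_cancel₀ _ ha0.ne'
  · refine ⟨pt q w I a, .x₂, rfl, rfl, rfl, rfl, hg _ (fun i hi => ?_) rfl rfl rfl rfl⟩
    interval_cases i
    · exact h0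
    · exact h1
    · exact top_point (k := 20) (by norm_num) hI (show ((20 : ℕ) : ℝ) * I ≤ 1 by push_cast; linarith)
    · refine chart_point (c := ⟨31, 5, 100, 100⟩) ((31 - 100 * a) / (100 * a - 5))
        (div_nonneg (by linarith) (by linarith)) ?_ ?_
      · push_cast
        have : 0 ≤ (31 - 100 * a) / (100 * a - 5) := div_nonneg (by linarith) (by linarith)
        linarith
      · show ((31 : ℤ) : ℝ) + (5 : ℤ) * _ = a * _
        push_cast
        have : 100 * a - 5 ≠ 0 := by linarith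
        field_simp
        ring

theorem pos_of_sub {x : ℕ → ℝ} {e f : Ex} (h : 0 ≤ ev4 x (e - f)) (hf : 0 < ev4 x f) :
    0 < ev4 x e := by rw [ev4_sub] at h; linarith

variable {N a b u v : ℝ}

theorem gd_pos (h : Region N a b u v) : 0 < b := h.box.facts.2.1

/-- The flow at the two bands. -/
theorem band_signs (h : Region N a b u v) :
    0 < allDot a b u v (allNegG a b (11 / 5) u v) (-allNegS a b (11 / 5)) (-allNegGv a b) 1 ∧
      allDot a b u v (allNegG a b (allNegLo a b) u v) (-allNegS a b (allNegLo a b))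
        (-allNegGv a b) 1 < 0 := by
  obtain ⟨hI, hI20, hIa, hbI⟩ := box_facts h.box h.big
  obtain ⟨hv, hK, q, w, hq, hq1, hw, hw1, ev, eu⟩ := coords h
  obtain ⟨x, tI, x0, x1, x3, eI, h1, h2⟩ := place h.box h.big h.al hq hq1 hw hw1
    (fun x tI => 0 ≤ ev4 x (chkHi tI) ∧ 0 ≤ ev4 x (chkLo tI))
    (fun x hx _ _ _ _ => ⟨Ex.nonneg_of_checkNonneg chkHi_s hx, Ex.nonneg_of_checkNonneg chkLo_s hx⟩)
    (fun x hx _ _ _ _ => ⟨Ex.nonneg_of_checkNonneg chkHi_b hx, Ex.nonneg_of_checkNonneg chkLo_b hx⟩)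
  have ex0 : ev4 x .x₀ = q := x0
  have ex1 : ev4 x .x₁ = w := x1
  have ex3 : ev4 x .x₃ = a := x3
  have ha0 : 0 < a := hI.trans_le hIa
  have ha1 : a < 1 := by linarith [h.al]
  have k1 := eval_neg (u := u) (v := v) (t := nHi) (τ := 11 / 5) (q := .x₀) (w := .x₁) eI ex3
    (by simp [nHi, ev4_nC]) hbI (gd_pos h) hI.le ha1 (by rw [ex1]; exact ev)
    (by rw [ex0]; exact eu)
  have k2 := eval_neg (u := u) (v := v) (t := nLo tI .x₃) (τ := allNegLo a b) (q := .x₀) (w := .x₁)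
    eI ex3 (by simp [nLo, allNegLo, ev4_sub, ev4_mul, ev4_nC, eI, ex3]) hbI (gd_pos h) hI.le ha1
    (by rw [ex1]; exact ev) (by rw [ex0]; exact eu)
  obtain ⟨hG, -, -, -, n1⟩ := k1
  obtain ⟨-, -, -, -, n2⟩ := k2
  have hp : 0 < ev4 x (nC 1 1000 * (.x₀ * (tI * tI * .x₃))) := by
    simp only [ev4_mul, ev4_nC, eI, ex0, ex3]
    have := mul_pos hq (mul_pos (mul_pos hI hI) ha0)
    push_cast
    linarith
  have p1 := pos_of_sub h1 hp
  have p2 := pos_of_sub h2 hp
  rw [n1] at p1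
  rw [ev4_sub, n2] at p2
  refine ⟨pos_of_mul_pos_left p1 (sq_nonneg _),
    neg_of_mul_neg_left (b := (b * (1 + 2 * allStabI a b) * (1 - a) ^ 2) ^ 2) ?_ (sq_nonneg _)⟩
  simp only [ev4_nC] at p2
  norm_num at p2
  linarith

/-- `allFlow` is affine in `H`. -/
theorem flow_between {a b u v H G G' : ℝ} (e : ℝ) (h1 : G ≤ H) (h2 : H ≤ G')
    (f1 : 0 < e * allFlow a b u v G) (f2 : 0 < e * allFlow a b u v G') :
    0 < e * allFlow a b u v H := by
  rcases eq_or_lt_of_le (h1.trans h2) with hh | hh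
  · rwa [le_antisymm (h2.trans hh.ge) h1]
  · have key : (G' - G) * (e * allFlow a b u v H) =
        (G' - H) * (e * allFlow a b u v G) + (H - G) * (e * allFlow a b u v G') := by
      simp only [allFlow, allDen]; ring
    refine pos_of_mul_pos_right (a := G' - G) ?_ (by linarith)
    rw [key]
    rcases eq_or_lt_of_le h1 with h0 | h0
    · subst h0; simpa using mul_pos (sub_pos.2 hh) f1
    · linarith [mul_nonneg (sub_nonneg.2 h2) f1.le, mul_pos (sub_pos.2 h0) f2]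

/-- The drift of `v` on its two ends. -/
theorem line_signs {H : ℝ} (h : Region N a b u v) (h1 : allNegG a b (11 / 5) u v ≤ H)
    (h2 : H ≤ allNegG a b (allNegLo a b) u v) :
    (v = allNegV₀ a b → allFlow a b u v H < 0) ∧ (v = allNegV₁ a b → 0 < allFlow a b u v H) := by
  obtain ⟨hI, hI20, hIa, hbI⟩ := box_facts h.box h.big
  obtain ⟨hv, hK, q, w, hq, hq1, hw, hw1, -, eu⟩ := coords h
  obtain ⟨x, tI, x0, x1, x3, eI, c1, c2, c3, c4⟩ := place h.box h.big h.al hq hq1 hw hw1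
    (fun x tI => 0 ≤ ev4 x (chkDown nHi tI) ∧ 0 ≤ ev4 x (chkDown (nLo tI .x₃) tI) ∧
      0 ≤ ev4 x (chkUp nHi tI) ∧ 0 ≤ ev4 x (chkUp (nLo tI .x₃) tI))
    (fun x hx _ _ _ _ => ⟨Ex.nonneg_of_checkNonneg downHi_s hx, Ex.nonneg_of_checkNonneg downLo_s hx,
      Ex.nonneg_of_checkNonneg upHi_s hx, Ex.nonneg_of_checkNonneg upLo_s hx⟩)
    (fun x hx _ _ _ _ => ⟨Ex.nonneg_of_checkNonneg downHi_b hx, Ex.nonneg_of_checkNonneg downLo_b hx,
      Ex.nonneg_of_checkNonneg upHi_b hx, Ex.nonneg_of_checkNonneg upLo_b hx⟩)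
  have ex0 : ev4 x .x₀ = q := x0
  have ex3 : ev4 x .x₃ = a := x3
  have ha0 : 0 < a := hI.trans_le hIa
  have ha1 : a < 1 := by linarith [h.al]
  have hp : 0 < ev4 x (nC 1 1000 * (tI * tI * .x₃)) := by
    simp only [ev4_mul, ev4_nC, eI, ex3]
    have := mul_pos (mul_pos hI hI) ha0
    push_cast
    linarith
  have tH : ev4 x nHi = 11 / 5 := by simp [nHi, ev4_nC]
  have tL : ev4 x (nLo tI .x₃) = allNegLo a b := by
    simp [nLo, allNegLo, ev4_sub, ev4_mul, ev4_nC, eI, ex3]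
  constructor <;> intro hvv
  · have hv' : v = 2 * allStabI a b * ((1 - 3 * allStabI a b) +
        ev4 x (nC 0) * (1 / 8 + 2 * allStabI a b + 3 * allStabI a b)) := by
      rw [hvv, allNegV₀, ev4_nC]; push_cast; ring
    obtain ⟨hG, -, -, f1, -⟩ := eval_neg (u := u) (q := .x₀) eI ex3 tH hbI (gd_pos h) hI.le ha1 hv'
      (by rw [ex0]; exact eu)
    obtain ⟨-, -, -, f2, -⟩ := eval_neg (u := u) (q := .x₀) eI ex3 tL hbI (gd_pos h) hI.le ha1 hv'
      (by rw [ex0]; exact eu)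
    have p1 := pos_of_sub c1 hp
    have p2 := pos_of_sub c2 hp
    rw [ev4_sub, f1, ev4_nC] at p1
    rw [ev4_sub, f2, ev4_nC] at p2
    norm_num at p1 p2
    have := flow_between (-1) h1 h2
      (by linarith [neg_of_mul_neg_left p1 hG.le]) (by linarith [neg_of_mul_neg_left p2 hG.le])
    linarith
  · have hv' : v = 2 * allStabI a b * ((1 - 3 * allStabI a b) +
        ev4 x (nC 1) * (1 / 8 + 2 * allStabI a b + 3 * allStabI a b)) := by
      rw [hvv, allNegV₁, ev4_nC]; push_cast; ring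
    obtain ⟨hG, -, -, f1, -⟩ := eval_neg (u := u) (q := .x₀) eI ex3 tH hbI (gd_pos h) hI.le ha1 hv'
      (by rw [ex0]; exact eu)
    obtain ⟨-, -, -, f2, -⟩ := eval_neg (u := u) (q := .x₀) eI ex3 tL hbI (gd_pos h) hI.le ha1 hv'
      (by rw [ex0]; exact eu)
    have p1 := pos_of_sub c3 hp
    have p2 := pos_of_sub c4 hp
    rw [f1] at p1
    rw [f2] at p2
    have := flow_between 1 h1 h2 (by linarith [pos_of_mul_pos_left p1 hG.le])
      (by linarith [pos_of_mul_pos_left p2 hG.le])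
    linarith

theorem lo_le_hi (h : Region N a b u v) :
    allNegG a b (11 / 5) u v ≤ allNegG a b (allNegLo a b) u v := by
  obtain ⟨hI, -, hIa, -⟩ := box_facts h.box h.big
  have h1 : allNegS a b (allNegLo a b) ≤ allNegS a b (11 / 5) := by
    have : allNegLo a b ≤ 11 / 5 := by simp only [allNegLo]; linarith
    simp only [allNegS]
    linarith [mul_le_mul_of_nonneg_left this hI.le]
  simp only [allNegG]
  linarith [mul_le_mul_of_nonpos_left h1 h.u_neg.le]

/-- On the left end of the range of `u` the lower band passes `1/K`. -/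
theorem left_sign (h : Region N a b u v) :
    0 < allNegG a b (11 / 5) u v ∧
      1 < allNegK a b * allNegG a b (11 / 5) (-(allNegK a b * v)) v := by
  obtain ⟨hI, hI20, hIa, hbI⟩ := box_facts h.box h.big
  obtain ⟨hv, hK, q, w, hq, hq1, hw, hw1, ev, -⟩ := coords h
  obtain ⟨x, tI, x0, x1, x3, eI, c1⟩ := place h.box h.big h.al hq hq1 hw hw1
    (fun x tI => 0 ≤ ev4 x (chkLeft tI))
    (fun x hx _ _ _ _ => Ex.nonneg_of_checkNonneg left_s hx)
    (fun x hx _ _ _ _ => Ex.nonneg_of_checkNonneg left_b hx)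
  have ex1 : ev4 x .x₁ = w := x1
  have ex3 : ev4 x .x₃ = a := x3
  have ha1 : a < 1 := by linarith [h.al]
  obtain ⟨hG, g1, g2, -, -⟩ := eval_neg (u := -(allNegK a b * v)) (v := v) (t := nHi) (τ := 11 / 5)
    (q := nC 1) (w := .x₁) eI ex3 (by simp [nHi, ev4_nC]) hbI (gd_pos h) hI.le ha1
    (by rw [ex1]; exact ev) (by simp [ev4_nC, allNegK])
  have hp : 0 < ev4 x (nC 1 1000 * tI) := by
    simp only [ev4_mul, ev4_nC, eI]
    push_cast
    linarith
  have p := pos_of_sub c1 hp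
  rw [ev4_sub, ev4_mul, g1, g2] at p
  have vK : ev4 x (nK tI .x₃) = allNegK a b := by
    simp [nK, allNegK, ev4_add, ev4_sub, ev4_mul, ev4_nC, eI, ex3]
  rw [vK] at p
  have h1 : 1 < allNegK a b * allNegG a b (11 / 5) (-(allNegK a b * v)) v := by
    refine lt_of_mul_lt_mul_right ?_ hG.le
    linarith
  refine ⟨?_, h1⟩
  have h2 : 0 < allNegG a b (11 / 5) (-(allNegK a b * v)) v :=
    pos_of_mul_pos_right (by linarith) hK.le
  have hS : 0 ≤ allNegS a b (11 / 5) := by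
    have ha0 : 0 < a := hI.trans_le hIa
    simp only [allNegS]
    positivity
  simp only [allNegG] at h2 ⊢
  linarith [mul_le_mul_of_nonneg_right h.left hS]

end AllNeg

end Vale.Agent.P100.Calib.Band
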