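import Vale.Agent.P100.Calib.SlabAllExit
import Vale.Agent.P100.Calib.SlabAllNegBand
import Vale.Agent.P100.Calib.SlabChartOrbitAll

/-!
# The conditions at and below the crossing in every dimension from twenty on

On every orbit with real `N ≥ 20` and `a = 1/(p+1) ≤ 31/100`, for `R z ≤ 0` and
`z ≤ (p + 1)/(q + 1)`: `V₀ ≤ v ≤ V₁`, `-K v ≤ u ≤ 0` and
`a/(1 - a)² + I τlo ≤ t ≤ a/(1 - a)² + 11/5 I` for the slope `t`.
-/

open Set Filter Topology

namespace Vale.Agent.P100.Calib.Band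

open Vale.Agent.P100.Bubble Chart

/-- A band in the chart. -/
noncomputable def allNegL (a b τ u r : ℝ) : ℝ := (b - a) * allNegG a b τ u (vOf a b r)

/-- The conditions in the chart below the crossing. -/
structure AllNegAt (a b u r h : ℝ) : Prop where
  low : allNegV₀ a b ≤ vOf a b r
  high : vOf a b r ≤ allNegV₁ a b
  left : -(allNegK a b * vOf a b r) ≤ u
  lower : allNegL a b (11 / 5) u r ≤ h
  upper : h ≤ allNegL a b (allNegLo a b) u r

/-- The region at and below the crossing, in `(d, S, u, v, t)`. -/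
def allNeg (d S u v t : ℝ) : Prop :=
  allNegV₀ ((S - d) / 2) ((S + d) / 2) ≤ v ∧ v ≤ allNegV₁ ((S - d) / 2) ((S + d) / 2) ∧
    -(allNegK ((S - d) / 2) ((S + d) / 2) * v) ≤ u ∧
    allNegS ((S - d) / 2) ((S + d) / 2) (allNegLo ((S - d) / 2) ((S + d) / 2)) ≤ t ∧
    t ≤ allNegS ((S - d) / 2) ((S + d) / 2) (11 / 5)

section
variable {N a b u r h : ℝ}

/-- The least of the five gaps. -/
noncomputable def allNegGap (a b u r h : ℝ) : ℝ :=
  min (min (vOf a b r - allNegV₀ a b) (allNegV₁ a b - vOf a b r))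
    (min (u + allNegK a b * vOf a b r)
      (min (h - allNegL a b (11 / 5) u r) (allNegL a b (allNegLo a b) u r - h)))

theorem allNegGap_pos : 0 < allNegGap a b u r h ↔
    allNegV₀ a b < vOf a b r ∧ vOf a b r < allNegV₁ a b ∧ -(allNegK a b * vOf a b r) < u ∧
      allNegL a b (11 / 5) u r < h ∧ h < allNegL a b (allNegLo a b) u r := by
  simp only [allNegGap, lt_min_iff, sub_pos]
  constructor
  · rintro ⟨⟨a1, a2⟩, a3, a4, a5⟩
    exact ⟨a1, a2, by linarith, a4, a5⟩
  · rintro ⟨a1, a2, a3, a4, a5⟩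
    exact ⟨⟨a1, a2⟩, by linarith, a4, a5⟩

theorem allNegAt_of_gap (hg : 0 ≤ allNegGap a b u r h) : AllNegAt a b u r h := by
  simp only [allNegGap, le_min_iff, sub_nonneg] at hg
  obtain ⟨⟨a1, a2⟩, a3, a4, a5⟩ := hg
  exact ⟨a1, a2, by linarith, a4, a5⟩

theorem continuous_allNegGap :
    Continuous fun w : ℝ × ℝ × ℝ => allNegGap a b w.1 w.2.1 w.2.2 := by
  simp only [allNegGap, allNegL, allNegG, allHc_lin, vOf]
  fun_prop

theorem AllNegAt.region (hN : AllNegAt a b u r h) (hb : SlabBoxAll N a b) (h20 : 20 ≤ N)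
    (ha : a ≤ 31 / 100) (hu : u < 0) : AllNeg.Region N a b u (vOf a b r) :=
  ⟨hb, h20, ha, hu, hN.low, hN.high, hN.left⟩

/-- The drift of `v` is signed on the two lines. -/
theorem allNeg_drift (hb : SlabBoxAll N a b) (h20 : 20 ≤ N) (ha : a ≤ 31 / 100) (hu : u < 0)
    (hh : 0 < h) (hN : AllNegAt a b u r h) :
    (vOf a b r = allNegV₀ a b → 0 < b / a / (b - a) * (r * dv N a b u r h)) ∧
      (vOf a b r = allNegV₁ a b → b / a / (b - a) * (r * dv N a b u r h) < 0) := by
  obtain ⟨ha0, hb0, hd, -⟩ := hb.facts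
  have hR := hN.region hb h20 ha hu
  obtain ⟨hv, -, -⟩ := AllNeg.coords hR
  have hH : 0 < h / (b - a) := div_pos hh hd
  have hdv : 0 < 1 + (b - a) * vOf a b r := by linarith [mul_pos hd hv]
  have hD : 0 < allDen a b u (vOf a b r) (h / (b - a)) := by
    simp only [allDen]
    linarith [mul_pos hd hv, mul_neg_of_neg_of_pos hu (mul_pos hd hH)]
  have e := hb.dot_eq (u := u) (h := h) (r := r) hD 0 1 0
  simp only [zero_mul, zero_div, add_zero, zero_add, one_mul, allDot] at e
  have hl := hN.lower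
  have hup := hN.upper
  simp only [allNegL] at hl hup
  obtain ⟨f1, f2⟩ := AllNeg.line_signs hR (H := h / (b - a)) (by rw [le_div_iff₀ hd]; linarith)
    (by rw [div_le_iff₀ hd]; linarith)
  have hX := mul_pos hb0 hD
  have hN0 : 0 < N := by linarith
  constructor <;> intro hv'
  · refine pos_of_mul_pos_left ?_ hX.le
    rw [e]
    exact mul_pos hN0 (mul_pos hdv (mul_pos_of_neg_of_neg hu (f1 hv')))
  · refine neg_of_mul_neg_left ?_ hX.le
    rw [e]
    exact mul_neg_of_pos_of_neg hN0 (mul_neg_of_pos_of_neg hdv (mul_neg_of_neg_of_pos hu (f2 hv')))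

theorem vOf_pos (ha : 0 < a) (hd : 0 < b - a) (hr : a < b * r) : 0 < vOf a b r := by
  simp only [vOf]
  refine div_pos (sub_pos.2 ?_) hd
  rw [div_mul_eq_mul_div, lt_div_iff₀ ha]
  linarith

theorem allNegV₀_lt (hb : SlabBoxAll N a b) (h20 : 20 ≤ N) {v : ℝ} (hv : 2 ≤ (N + 2 * a) * v) :
    allNegV₀ a b < v := by
  obtain ⟨hI, hI20, hIa, -⟩ := AllNeg.box_facts hb h20
  have ha : a ≤ 1 / 2 := hb.facts.2.2.2.2.2.2.le
  have e : N * allStabI a b = 1 := by
    rw [allStabI, mul_div_assoc', hb.sum]; norm_num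
  have hM : 0 < N + 2 * a := by linarith [hb.al_pos]
  refine lt_of_mul_lt_mul_left (a := N + 2 * a) (lt_of_lt_of_le ?_ hv) hM.le
  have h1 : (N + 2 * a) * allNegV₀ a b =
      2 * (N * allStabI a b) + allStabI a b * (4 * a - 6 * (N * allStabI a b) -
        12 * (a * allStabI a b)) := by simp only [allNegV₀]; ring
  rw [h1, e]
  linarith [mul_neg_of_pos_of_neg hI (show 4 * a - 6 * 1 - 12 * (a * allStabI a b) < 0 by
    linarith [mul_pos hb.al_pos hI])]

end

variable {N p q : ℝ} {S : Set ℝ} {R x y s dx dy : ℝ → ℝ}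

/-- The range of `v` at the crossing. -/
theorem orbit_centre_all (hf : IsOrbitFns N p q S R x y s dx dy)
    (hb : SlabBoxAll N (1 / (p + 1)) (1 / (q + 1))) (h20 : 20 ≤ N) (ha : 1 / (p + 1) ≤ 31 / 100)
    {z₀ : ℝ} (hz₀ : z₀ ∈ S) (hR₀ : R z₀ = 0) :
    let al := 1 / (p + 1)
    let be := 1 / (q + 1)
    allNegV₀ al be < vOf al be (y z₀ / x z₀) ∧ vOf al be (y z₀ / x z₀) < allNegV₁ al be := by
  intro al be
  obtain ⟨hal, hbe, hd, -⟩ := hb.facts
  obtain ⟨hI, -, -, -⟩ := AllNeg.box_facts hb h20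
  have cR := hf.smooth.1.continuousOn.continuousAt (hf.isOpen.mem_nhds hz₀)
  have cx := hf.smooth.2.1.continuousOn.continuousAt (hf.isOpen.mem_nhds hz₀)
  have cy := hf.smooth.2.2.1.continuousOn.continuousAt (hf.isOpen.mem_nhds hz₀)
  have hx0 := hf.x_pos z₀ hz₀
  have hleft : ∀ᶠ z in 𝓝[<] z₀, z ∈ S ∧ 0 < R z := by
    filter_upwards [mem_nhdsWithin_of_mem_nhds (hf.isOpen.mem_nhds hz₀), self_mem_nhdsWithin]
      with z hz hlt
    exact ⟨hz, hR₀ ▸ hf.anti hz hz₀ hlt⟩
  have hright : ∀ᶠ z in 𝓝[>] z₀, z ∈ S ∧ R z < 0 := by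
    filter_upwards [mem_nhdsWithin_of_mem_nhds (hf.isOpen.mem_nhds hz₀), self_mem_nhdsWithin]
      with z hz hlt
    exact ⟨hz, hR₀ ▸ hf.anti hz₀ hz hlt⟩
  have cg : ContinuousAt (fun z => x z - z * y z) z₀ := cx.sub (continuousAt_id.mul cy)
  have hzy : x z₀ - z₀ * y z₀ = 0 := le_antisymm
    (le_of_tendsto (cg.tendsto.mono_left (nhdsWithin_le_nhds (s := Ioi z₀))) (hright.mono fun z hz =>
      (sub_neg.2 ((hf.band z hz.1).2.2 hz.2)).le))
    (ge_of_tendsto (cg.tendsto.mono_left (nhdsWithin_le_nhds (s := Iio z₀))) (hleft.mono fun z hz =>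
      (sub_pos.2 ((hf.band z hz.1).2.1 hz.2).1).le))
  have hr : y z₀ / x z₀ = 1 / z₀ := by
    rw [div_eq_div_iff hx0.ne' (hf.pos hz₀).ne']
    linarith
  obtain ⟨hc, -, -⟩ := hf.centre hb.five hb.one_le z₀ hz₀ hR₀
  refine ⟨allNegV₀_lt hb h20 ?_, ?_⟩
  · rw [← hr] at hc
    simp only [Trap.c0p] at hc
    have hr' : be * (y z₀ / x z₀) = al * (1 + (be - al) * vOf al be (y z₀ / x z₀)) := by
      have e0 : al / be * (1 + (be - al) * vOf al be (y z₀ / x z₀)) = y z₀ / x z₀ := hb.r_eq _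
      rw [div_mul_eq_mul_div, div_eq_iff (ne_of_gt hbe)] at e0
      linarith
    refine le_of_mul_le_mul_right (a := al * (be - al)) ?_ (mul_pos hal hd)
    have := congrArg (fun w => (N + 2 * al) * w) hr'
    linarith
  · have cv : ContinuousAt (fun z => vOf al be (y z / x z)) z₀ := by
      simp only [vOf]
      exact (((cy.div cx hx0.ne').const_mul (be / al)).sub continuousAt_const).div_const _
    have cu : ContinuousAt (fun z => uOf N (R z) (x z)) z₀ := by
      simp only [uOf]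
      exact ((cR.const_mul 2).mul cx).div_const _
    have hu0 : uOf N (R z₀) (x z₀) = 0 := by simp [uOf, hR₀]
    have hsmall : ∀ᶠ z in 𝓝[<] z₀, uOf N (R z) (x z) < 199 / 200 :=
      (cu.tendsto.mono_left nhdsWithin_le_nhds).eventually (Iio_mem_nhds (by rw [hu0]; norm_num))
    have hF : ContinuousAt
        (fun z => vOf al be (y z / x z) * allExitDen (allStabI al be) al (uOf N (R z) (x z))) z₀ := by
      refine cv.mul ?_
      simp only [allExitDen]
      fun_prop
    have hlim : vOf al be (y z₀ / x z₀) * allExitDen (allStabI al be) al (uOf N (R z₀) (x z₀)) ≤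
        2 * allStabI al be * (56 + 100 * allStabI al be) :=
      le_of_tendsto (hF.tendsto.mono_left (nhdsWithin_le_nhds (s := Iio z₀)))
        ((hleft.and hsmall).mono fun z hz => (orbit_exit_all' hf hb h20 ha hz.1.1 hz.1.2 hz.2.le).le)
    rw [hu0] at hlim
    simp only [allExitDen, mul_zero, zero_mul, sub_zero] at hlim
    simp only [allNegV₁]
    change 0 < allStabI al be at hI
    linarith

/-- The bands, given the range of `v` and `u`. -/
theorem allNeg_bands (hf : IsOrbitFns N p q S R x y s dx dy)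
    (hb : SlabBoxAll N (1 / (p + 1)) (1 / (q + 1))) (h20 : 20 ≤ N) (ha : 1 / (p + 1) ≤ 31 / 100)
    {z₂ : ℝ} (hz₂ : z₂ ∈ S) (hE : ∀ z ∈ S, z ≤ z₂ → R z < 0 →
      allNegV₀ (1 / (p + 1)) (1 / (q + 1)) ≤ vOf (1 / (p + 1)) (1 / (q + 1)) (y z / x z) ∧
      vOf (1 / (p + 1)) (1 / (q + 1)) (y z / x z) ≤ allNegV₁ (1 / (p + 1)) (1 / (q + 1)) ∧
      -(allNegK (1 / (p + 1)) (1 / (q + 1)) * vOf (1 / (p + 1)) (1 / (q + 1)) (y z / x z)) ≤
        uOf N (R z) (x z))
    {z : ℝ} (hz : z ∈ S) (hle : z ≤ z₂) (hzR : R z < 0) :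
    let al := 1 / (p + 1)
    let be := 1 / (q + 1)
    allNegL al be (11 / 5) (uOf N (R z) (x z)) (y z / x z) < hOf N (R z) (x z) (y z) z ∧
      hOf N (R z) (x z) (y z) z < allNegL al be (allNegLo al be) (uOf N (R z) (x z)) (y z / x z) := by
  intro al' be'
  obtain ⟨hal, hbe, hd, -⟩ := hb.facts
  have h5 := hb.five
  have hlow : 1 ≤ N * (1 / (p + 1)) := hb.one_le
  set al := 1 / (p + 1) with hald
  set be := 1 / (q + 1) with hbed
  have hgrad : ∀ τ : ℝ, HasGradTwo (allNegL al be τ) (fun _ _ => (be - al) * allNegS al be τ)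
      (fun _ _ => allNegGv al be * (be / al)) := by
    intro τ u r du dr t hu hr
    refine ((hasGradTwo_allNeg al be τ u _ du _ t hu
      (((hr.const_mul (be / al)).sub_const 1).div_const (be - al))).const_mul (be - al)).congr_deriv ?_
    have := div_mul_cancel₀ (be / al * dr) hd.ne'
    linear_combination allNegGv al be * this
  have key : ∀ e τ : ℝ, e * e = 1 →
      (∀ u r, AllNeg.Region N al be u (vOf al be r) →
        0 < allNegG al be τ u (vOf al be r) ∧
        0 < e * allDot al be u (vOf al be r) (allNegG al be τ u (vOf al be r))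
          (-allNegS al be τ) (-allNegGv al be) 1) →
      0 < e * (hOf N (R z) (x z) (y z) z - allNegL al be τ (uOf N (R z) (x z)) (y z / x z)) := by
    intro e τ he hT
    refine hf.band_barrier_neg h5 hlow e he _ _ _
      (fun u r => allNegV₀ al be ≤ vOf al be r ∧ vOf al be r ≤ allNegV₁ al be ∧
        -(allNegK al be * vOf al be r) ≤ u)
      (hgrad τ)
      (fun r' => ⟨?_, continuous_const.continuousAt, continuous_const.continuousAt⟩)
      (fun r' _ _ _ => ?_) z₂ hz₂ hE (fun u r hu _ _ hab => ?_) z hz hle hzR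
    · refine Continuous.continuousAt ?_
      simp only [allNegL, allNegG, allHc_lin, vOf]
      fun_prop
    · refine le_of_eq ?_
      have : Chart.hc N al be r' = allNegL al be τ 0 r' := by
        rw [hb.hc_eq r']; simp [allNegL, allNegG]
      rw [this, sub_self, mul_zero]
    · obtain ⟨hG, hdot⟩ := hT u r ⟨hb, h20, ha, hu, hab.1, hab.2.1, hab.2.2⟩
      obtain ⟨hv, -, -⟩ := AllNeg.coords (N := N)
        (⟨hb, h20, ha, hu, hab.1, hab.2.1, hab.2.2⟩ : AllNeg.Region N al be u (vOf al be r))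
      set G := allNegG al be τ u (vOf al be r) with hGd
      have hh : allNegL al be τ u r / (be - al) = G := by
        rw [allNegL, ← hGd]
        exact mul_div_cancel_left₀ _ hd.ne'
      have hD : 0 < allDen al be u (vOf al be r) G := by
        simp only [allDen]
        linarith [mul_pos hd hv, mul_neg_of_neg_of_pos hu (mul_pos hd hG)]
      have k := hb.dot_eq (u := u) (h := allNegL al be τ u r) (r := r) (hh ▸ hD)
        (-allNegS al be τ) (-allNegGv al be) 1
      rw [hh] at k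
      refine pos_of_mul_pos_left (b := be * allDen al be u (vOf al be r) G) ?_
        (mul_pos hbe hD).le
      refine lt_of_lt_of_eq (mul_pos (mul_pos hd (show 0 < N by linarith)) hdot) ?_
      simp only [lie]
      have := one_div_mul_cancel hd.ne'
      have c1 : be / al / (be - al) * (be - al) = be / al := div_mul_cancel₀ _ hd.ne'
      generalize be / al / (be - al) = k2 at k c1
      generalize 1 / (be - al) = k1 at k this
      linear_combination -(e * (be - al)) * k +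
        e * fh N al be u r (allNegL al be τ u r) * (be * allDen al be u (vOf al be r) G) * this -
        e * allNegGv al be * (r * dv N al be u r (allNegL al be τ u r)) *
          (be * allDen al be u (vOf al be r) G) * c1
  have k1 := key 1 (11 / 5) (one_mul 1) (fun u r hR => ⟨(AllNeg.left_sign hR).1, by
    rw [one_mul]; exact (AllNeg.band_signs hR).1⟩)
  have k2 := key (-1) (allNegLo al be) (by norm_num) (fun u r hR =>
    ⟨(AllNeg.left_sign hR).1.trans_le (AllNeg.lo_le_hi hR), by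
      linarith [(AllNeg.band_signs hR).2]⟩)
  constructor <;> linarith

section
variable {c : ℝ} (hcS : c ∈ S) (hcR : R c < 0)
  (hweak : ∀ z ∈ S, z ≤ c → R z < 0 → AllNegAt (1 / (p + 1)) (1 / (q + 1))
    (uOf N (R z) (x z)) (y z / x z) (hOf N (R z) (x z) (y z) z))
include hcS hcR hweak

/-- The lower line is not reached. -/
theorem allNeg_low (hf : IsOrbitFns N p q S R x y s dx dy)
    (hb : SlabBoxAll N (1 / (p + 1)) (1 / (q + 1))) (h20 : 20 ≤ N) (ha : 1 / (p + 1) ≤ 31 / 100) :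
    let al := 1 / (p + 1)
    let be := 1 / (q + 1)
    allNegV₀ al be < vOf al be (y c / x c) := by
  intro al' be'
  obtain ⟨hal, hbe, hd, -⟩ := hb.facts
  have h5 := hb.five
  have hlow : 1 ≤ N * (1 / (p + 1)) := hb.one_le
  set al := 1 / (p + 1) with hald
  set be := 1 / (q + 1) with hbed
  have key := hf.barrier_neg h5 hlow (fun _ b _ => vOf al be b - allNegV₀ al be)
    (fun _ _ _ => 0) (fun _ _ _ => be / al / (be - al)) (fun _ _ _ => 0)
    (fun u r h => AllNegAt al be u r h) ?_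
    (fun r' => by simp only [vOf]; fun_prop) (fun r' hc' _ _ => ?_) c hcS hweak
    (fun a b w ha' hw _ _ hab hG => ?_) c hcS le_rfl hcR
  · linarith
  · intro a b w da db dc t _ hb' _
    exact ((((hb'.const_mul (be / al)).sub_const 1).div_const (be - al)).sub_const _).congr_deriv
      (by ring)
  · refine sub_pos.2 (allNegV₀_lt hb h20 ?_)
    simp only [Trap.c0p, ← hald, ← hbed] at hc'
    have hr' : be * r' = al * (1 + (be - al) * vOf al be r') := by
      have e0 : al / be * (1 + (be - al) * vOf al be r') = r' := hb.r_eq _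
      rw [div_mul_eq_mul_div, div_eq_iff hbe.ne'] at e0
      linarith
    refine le_of_mul_le_mul_right (a := al * (be - al)) ?_ (mul_pos hal hd)
    have := congrArg (fun w => (N + 2 * al) * w) hr'
    linarith
  · have := (allNeg_drift hb h20 ha ha' hw hab).1 (sub_eq_zero.1 hG)
    linarith

/-- The upper line is not reached. -/
theorem allNeg_high (hf : IsOrbitFns N p q S R x y s dx dy)
    (hb : SlabBoxAll N (1 / (p + 1)) (1 / (q + 1))) (h20 : 20 ≤ N) (ha : 1 / (p + 1) ≤ 31 / 100)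
    (huc : uOf N (R c) (x c) < 0) :
    let al := 1 / (p + 1)
    let be := 1 / (q + 1)
    vOf al be (y c / x c) < allNegV₁ al be := by
  intro al' be'
  obtain ⟨hal, hbe, hd, -⟩ := hb.facts
  obtain ⟨hI, -, -, -⟩ := AllNeg.box_facts hb h20
  have h5 := hb.five
  have hlow : 1 ≤ N * (1 / (p + 1)) := hb.one_le
  set al := 1 / (p + 1) with hald
  set be := 1 / (q + 1) with hbed
  set η := -(uOf N (R c) (x c)) with hη
  have hη0 : 0 < η := by linarith
  have key := hf.barrier_neg h5 hlow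
    (fun a b _ => allNegV₁ al be - vOf al be b + 1 / al * (1 + a / η) ^ 2)
    (fun a _ _ => 1 / al * (2 * (1 + a / η) / η)) (fun _ _ _ => -(be / al / (be - al)))
    (fun _ _ _ => 0) (fun u r h => AllNegAt al be u r h) ?_
    (fun r' => by simp only [vOf]; fun_prop) (fun r' _ hr' _ => ?_) c hcS hweak
    (fun a b w ha' hw _ _ hab hG => ?_) c hcS le_rfl hcR
  · rw [show uOf N (R c) (x c) / η = -1 by
      rw [hη, div_neg, div_self huc.ne]] at key
    norm_num at key
    linarith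
  · intro a b w da db dc t ha' hb' _
    refine ((((hb'.const_mul (be / al)).sub_const 1).div_const (be - al)).const_sub
      (allNegV₁ al be)).fun_add
      ((((ha'.div_const η).const_add 1).fun_pow 2).const_mul (1 / al)) |>.congr_deriv ?_
    ring
  · simp only [zero_div, add_zero, one_pow, mul_one]
    have h4 : vOf al be r' < 1 / al := by
      simp only [vOf, ← hald, ← hbed] at hr' ⊢
      rw [div_lt_div_iff₀ hd hal, sub_mul, div_mul_eq_mul_div, div_mul_cancel₀ _ hal.ne']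
      linarith [mul_lt_mul_of_pos_left hr' hbe]
    have hV : 0 < allNegV₁ al be := mul_pos (by linarith) (by linarith)
    linarith
  · have h6 : 0 ≤ allNegV₁ al be - vOf al be b := sub_nonneg.2 hab.high
    have h7 : (1 + a / η) ^ 2 = 0 := by
      refine le_antisymm ?_ (sq_nonneg _)
      by_contra hh
      have := mul_pos (one_div_pos.2 hal) (not_le.1 hh)
      linarith
    have h8 : 1 + a / η = 0 := (pow_eq_zero_iff two_ne_zero).1 h7
    rw [h7, mul_zero, add_zero] at hG
    have := (allNeg_drift hb h20 ha ha' hw hab).2 (by linarith)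
    simp only [h8, mul_zero, zero_div, zero_mul, add_zero, zero_add]
    linarith

/-- The end of the range of `u` is not reached. -/
theorem allNeg_left (hf : IsOrbitFns N p q S R x y s dx dy)
    (hb : SlabBoxAll N (1 / (p + 1)) (1 / (q + 1))) (h20 : 20 ≤ N) (ha : 1 / (p + 1) ≤ 31 / 100)
    (huc : uOf N (R c) (x c) < 0) (hκ : c ≤ 1 / (q + 1) / (1 / (p + 1))) :
    let al := 1 / (p + 1)
    let be := 1 / (q + 1)
    (-(allNegK al be * vOf al be (y c / x c))) < uOf N (R c) (x c) := by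
  intro al' be'
  obtain ⟨hal, hbe, hd, -⟩ := hb.facts
  set al := 1 / (p + 1) with hald
  set be := 1 / (q + 1) with hbed
  set d := be - al with hdd
  set u : ℝ → ℝ := fun z => uOf N (R z) (x z) with hud
  set v : ℝ → ℝ := fun z => vOf al be (y z / x z) with hvd
  set h : ℝ → ℝ := fun z => hOf N (R z) (x z) (y z) z with hhd
  have hwk : AllNegAt al be (u c) (y c / x c) (h c) := hweak c hcS le_rfl hcR
  show -(allNegK al be * v c) < u c
  refine lt_of_le_of_ne hwk.left fun he => ?_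
  have hR := hwk.region hb h20 ha huc
  obtain ⟨hv, hK, -⟩ := AllNeg.coords hR
  have hzv : -(u c * h c) ≤ d * v c := by
    have hx := hf.x_pos c hcS
    have e : u c * h c = 1 - c * (y c / x c) := by
      simp only [u, h, uOf, hOf]
      field_simp
      exact mul_div_cancel_left₀ _ (mul_ne_zero hcR.ne (by linarith [hb.five]))
    have e' : be / al * (y c / x c) = 1 + d * v c := by
      simp only [v, vOf, ← hdd]
      rw [mul_div_cancel₀ _ hd.ne']
      ring
    have hcle : c * (y c / x c) ≤ be / al * (y c / x c) :=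
      mul_le_mul_of_nonneg_right (hκ) (div_nonneg (hf.y_pos c hcS).le hx.le)
    linarith
  have hk := (AllNeg.left_sign hR).2
  change 1 < allNegK al be * allNegG al be (11 / 5) (-(allNegK al be * v c)) (v c) at hk
  rw [he] at hk
  have hl := hwk.lower
  change d * allNegG al be (11 / 5) (u c) (v c) ≤ h c at hl
  have h9 := mul_le_mul_of_nonneg_left hl (mul_pos hK hv).le
  rw [show u c = -(allNegK al be * v c) from he.symm] at hzv h9 hk
  have := mul_lt_mul_of_pos_left hk (mul_pos hd hv)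
  linarith

end

/-- The chart conditions hold near the crossing and propagate up to `(p + 1)/(q + 1)`. -/
theorem orbit_neg_all (hf : IsOrbitFns N p q S R x y s dx dy)
    (hb : SlabBoxAll N (1 / (p + 1)) (1 / (q + 1))) (h20 : 20 ≤ N) (ha : 1 / (p + 1) ≤ 31 / 100)
    {z₁ : ℝ} (hz₁ : z₁ ∈ S) (hR₁ : R z₁ < 0) (hκ : z₁ ≤ 1 / (q + 1) / (1 / (p + 1))) :
    uOf N (R z₁) (x z₁) < 0 ∧
      AllNegAt (1 / (p + 1)) (1 / (q + 1)) (uOf N (R z₁) (x z₁)) (y z₁ / x z₁)
        (hOf N (R z₁) (x z₁) (y z₁) z₁) := by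
  obtain ⟨hal, hbe, hd, -⟩ := hb.facts
  have h5 := hb.five
  have hκ' : 1 / (q + 1) / (1 / (p + 1)) = (p + 1) / (q + 1) := by
    rw [div_div_eq_mul_div, div_one, one_div_mul_eq_div]
  set al := 1 / (p + 1) with hald
  set be := 1 / (q + 1) with hbed
  set d := be - al with hdd
  set u : ℝ → ℝ := fun z => uOf N (R z) (x z) with hud
  set v : ℝ → ℝ := fun z => vOf al be (y z / x z) with hvd
  set h : ℝ → ℝ := fun z => hOf N (R z) (x z) (y z) z with hhd
  obtain ⟨z₀, hz₀, hR₀⟩ := hf.crossing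
  have hz₀S : z₀ ∈ S := hf.cover ⟨hz₀.1, hz₀.2.le⟩
  have hgt : ∀ z ∈ S, R z < 0 → z₀ < z := fun z hz hzR => by
    by_contra hn
    rcases (not_lt.1 hn).lt_or_eq with h' | h'
    · have := hf.anti hz hz₀S h'
      linarith
    · rw [h', hR₀] at hzR
      exact lt_irrefl _ hzR
  have hneg : ∀ z ∈ S, z₀ < z → R z < 0 := fun z hz hlt => hR₀ ▸ hf.anti hz₀S hz hlt
  have h01 : z₀ < z₁ := hgt z₁ hz₁ hR₁
  have hIS : ∀ z, z₀ < z → z ≤ z₁ → z ∈ S := fun z hz hz' =>
    hf.cover ⟨hz₀.1.trans hz, hκ' ▸ hz'.trans hκ⟩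
  have hM : 0 < N - 2 := by linarith
  have hu0 : ∀ z ∈ S, R z < 0 → u z < 0 := fun z hz hzR =>
    div_neg_of_neg_of_pos (mul_neg_of_neg_of_pos (by linarith) (hf.x_pos z hz)) hM
  have cR : ∀ z ∈ S, ContinuousAt R z := fun z hz =>
    hf.smooth.1.continuousOn.continuousAt (hf.isOpen.mem_nhds hz)
  have cx : ∀ z ∈ S, ContinuousAt x z := fun z hz =>
    hf.smooth.2.1.continuousOn.continuousAt (hf.isOpen.mem_nhds hz)
  have cy : ∀ z ∈ S, ContinuousAt y z := fun z hz =>
    hf.smooth.2.2.1.continuousOn.continuousAt (hf.isOpen.mem_nhds hz)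
  have cu : ∀ z ∈ S, ContinuousAt u z := fun z hz => by
    simp only [u, uOf]
    exact (((cR z hz).const_mul 2).mul (cx z hz)).div_const _
  have cv : ∀ z ∈ S, ContinuousAt v z := fun z hz => by
    simp only [v, vOf]
    exact ((((cy z hz).div (cx z hz) (hf.x_pos z hz).ne').const_mul (be / al)).sub
      continuousAt_const).div_const _
  have ch : ∀ z ∈ S, R z < 0 → ContinuousAt h z := fun z hz hzR => by
    simp only [h, hOf]
    exact ((((cx z hz).sub (continuousAt_id.mul (cy z hz))).const_mul _).div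
      (((cR z hz).const_mul 2).mul ((cx z hz).pow 2))
      (mul_ne_zero (mul_ne_zero two_ne_zero hzR.ne) (pow_ne_zero 2 (hf.x_pos z hz).ne')))
  -- near the crossing
  obtain ⟨hc0, hc1⟩ := orbit_centre_all hf hb h20 ha hz₀S hR₀
  have hIpos := (AllNeg.box_facts hb h20).1
  have hK : 0 < allNegK al be := mul_pos (by linarith) (by linarith)
  have hv0 : 0 < v z₀ := by
    refine lt_trans ?_ hc0
    have := (AllNeg.box_facts hb h20).2.1
    exact mul_pos (by linarith) (by linarith)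
  have hstart : ∀ᶠ z in 𝓝[>] z₀, allNegV₀ al be < v z ∧ v z < allNegV₁ al be ∧
      -(allNegK al be * v z) < u z := by
    have e0 : u z₀ = 0 := by simp [u, uOf, hR₀]
    have t1 : Tendsto v (𝓝[>] z₀) (𝓝 (v z₀)) :=
      (cv z₀ hz₀S).tendsto.mono_left nhdsWithin_le_nhds
    have t2 : Tendsto (fun z => u z + allNegK al be * v z) (𝓝[>] z₀)
        (𝓝 (allNegK al be * v z₀)) := by
      have := ((cu z₀ hz₀S).add ((cv z₀ hz₀S).const_mul (allNegK al be))).tendsto.mono_left
        (nhdsWithin_le_nhds (s := Ioi z₀))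
      simpa [e0, Pi.add_def] using this
    filter_upwards [t1.eventually (Ioi_mem_nhds hc0), t1.eventually (Iio_mem_nhds hc1),
      t2.eventually (Ioi_mem_nhds (mul_pos hK hv0))] with z n1 n2 n3
    exact ⟨n1, n2, by linarith⟩
  obtain ⟨b, hb0, hbI⟩ := mem_nhdsGT_iff_exists_Ioc_subset.1 hstart
  set δ := min b z₁ with hδ
  have hδ0 : z₀ < δ := lt_min hb0 h01
  have hδS : δ ∈ S := hIS δ hδ0 (min_le_right _ _)
  have near : ∀ z ∈ S, z ≤ δ → R z < 0 → allNegV₀ al be < v z ∧ v z < allNegV₁ al be ∧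
      -(allNegK al be * v z) < u z := fun z hz hzd hzR =>
    hbI ⟨hgt z hz hzR, hzd.trans (min_le_left _ _)⟩
  -- the strict conditions
  set P : ℝ → Prop := fun z => allNegV₀ al be < v z ∧ v z < allNegV₁ al be ∧
    -(allNegK al be * v z) < u z ∧ allNegL al be (11 / 5) (u z) (y z / x z) < h z ∧
    h z < allNegL al be (allNegLo al be) (u z) (y z / x z) with hP
  have hPnear : ∀ z ∈ S, z ≤ δ → R z < 0 → P z := fun z hz hzd hzR => by
    obtain ⟨n1, n2, n3⟩ := near z hz hzd hzR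
    obtain ⟨b1, b2⟩ := allNeg_bands hf hb h20 ha hδS (fun w hw hwd hwR => by
      obtain ⟨m1, m2, m3⟩ := near w hw hwd hwR
      exact ⟨m1.le, m2.le, m3.le⟩) hz hzd hzR
    exact ⟨n1, n2, n3, b1, b2⟩
  have hall : ∀ z ∈ Icc δ z₁, P z := by
    by_contra hbad
    have hcR : ∀ z ∈ Icc δ z₁, z ∈ S ∧ R z < 0 := fun z hz =>
      ⟨hIS z (hδ0.trans_le hz.1) hz.2, hneg z (hIS z (hδ0.trans_le hz.1) hz.2) (hδ0.trans_le hz.1)⟩
    set g : ℝ → ℝ := fun z => allNegGap al be (u z) (y z / x z) (h z) with hg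
    have gP : ∀ z, 0 < g z ↔ P z := fun z => allNegGap_pos
    have cg : ContinuousOn g (Icc δ z₁) := fun z hz =>
      ((continuous_allNegGap (a := al) (b := be)).continuousAt.comp
        ((cu z (hcR z hz).1).prodMk
          (((cy z (hcR z hz).1).div (cx z (hcR z hz).1) (hf.x_pos z (hcR z hz).1).ne').prodMk
            (ch z (hcR z hz).1 (hcR z hz).2)))).continuousWithinAt
    obtain ⟨z', hz', hz'P⟩ : ∃ z ∈ Icc δ z₁, ¬ P z := by
      simpa only [not_forall, exists_prop] using hbad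
    have hcl : IsCompact (Icc δ z₁ ∩ g ⁻¹' Iic 0) := isCompact_Icc.of_isClosed_subset
      (cg.preimage_isClosed_of_isClosed isClosed_Icc isClosed_Iic) inter_subset_left
    obtain ⟨c, ⟨hcI, hcg⟩, hmin⟩ := hcl.exists_isLeast
      ⟨z', hz', show g z' ≤ 0 from not_lt.1 fun hh => hz'P ((gP z').1 hh)⟩
    obtain ⟨hcS, hcR'⟩ := hcR c hcI
    have hδc : δ < c := lt_of_le_of_ne hcI.1 fun e =>
      not_lt.2 (show g c ≤ 0 from hcg) ((gP c).2 (e ▸ hPnear δ hδS le_rfl (hneg δ hδS hδ0)))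
    have before : ∀ z ∈ S, z < c → R z < 0 → P z := fun z hz hzc hzR => by
      rcases le_or_gt z δ with hd' | hd'
      · exact hPnear z hz hd' hzR
      · exact (gP z).1 (not_le.1 fun hgz =>
          not_lt.2 (hmin ⟨⟨hd'.le, hzc.le.trans hcI.2⟩, hgz⟩) hzc)
    have g0 : 0 ≤ g c := by
      refine ge_of_tendsto ((cg c hcI).mono_of_mem_nhdsWithin ?_).tendsto
        (show ∀ᶠ z in 𝓝[<] c, 0 ≤ g z from ?_)
      · exact Filter.mem_of_superset (Ioo_mem_nhdsLT hδc)
          fun z hz => ⟨hz.1.le, hz.2.le.trans hcI.2⟩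
      · filter_upwards [Ioo_mem_nhdsLT hδc] with z hz
        obtain ⟨hzS, hzR⟩ := hcR z ⟨hz.1.le, hz.2.le.trans hcI.2⟩
        exact ((gP z).2 (before z hzS hz.2 hzR)).le
    have weak : ∀ z ∈ S, z ≤ c → R z < 0 →
        AllNegAt al be (u z) (y z / x z) (h z) := fun z hz hzc hzR => by
      rcases hzc.lt_or_eq with h' | h'
      · obtain ⟨a1, a2, a3, a4, a5⟩ := before z hz h' hzR
        exact ⟨a1.le, a2.le, a3.le, a4.le, a5.le⟩
      · subst h'
        exact allNegAt_of_gap g0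
    obtain ⟨c4, c5⟩ := allNeg_bands hf hb h20 ha hcS (fun z hz hzc hzR => by
      have hw := weak z hz hzc hzR
      exact ⟨hw.low, hw.high, hw.left⟩) hcS le_rfl hcR'
    have huc := hu0 c hcS hcR'
    have c1 := allNeg_low hcS hcR' weak hf hb h20 ha
    have c2 := allNeg_high hcS hcR' weak hf hb h20 ha huc
    have c3 := allNeg_left hcS hcR' weak hf hb h20 ha huc (hcI.2.trans hκ)
    exact not_lt.2 (show g c ≤ 0 from hcg) ((gP c).2 ⟨c1, c2, c3, c4, c5⟩)
  obtain ⟨a1, a2, a3, a4, a5⟩ := hall z₁ ⟨min_le_right _ _, le_rfl⟩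
  exact ⟨hu0 z₁ hz₁ hR₁, ⟨a1.le, a2.le, a3.le, a4.le, a5.le⟩⟩

/-- **The conditions in the chart at and below the crossing.** -/
theorem orbit_allNeg (hc : IsCrit N p q) (hf : IsOrbitFns N p q S R x y s dx dy)
    (hb : SlabBoxAll N (1 / (p + 1)) (1 / (q + 1))) (h20 : 20 ≤ N) (ha : 1 / (p + 1) ≤ 31 / 100)
    {z : ℝ} (hz : z ∈ S) (hR : R z ≤ 0) (hκ : z ≤ 1 / (q + 1) / (1 / (p + 1))) :
    allNeg (1 / (q + 1) - 1 / (p + 1)) (1 / (p + 1) + 1 / (q + 1)) (uOf N (R z) (x z))
      (vOf (1 / (p + 1)) (1 / (q + 1)) (y z / x z)) (slopeAt N p q R x y dx dy z) := by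
  have hd : 0 < 1 / (q + 1) - 1 / (p + 1) := sub_pos.2 hb.lt
  simp only [allNeg,
    show (1 / (p + 1) + 1 / (q + 1) - (1 / (q + 1) - 1 / (p + 1))) / 2 = 1 / (p + 1) by ring,
    show (1 / (p + 1) + 1 / (q + 1) + (1 / (q + 1) - 1 / (p + 1))) / 2 = 1 / (q + 1) by ring]
  have key : ∀ t ∈ S, R t < 0 → t ≤ 1 / (q + 1) / (1 / (p + 1)) →
      allNegS (1 / (p + 1)) (1 / (q + 1)) (allNegLo (1 / (p + 1)) (1 / (q + 1))) ≤
          slopeAt N p q R x y dx dy t ∧
        slopeAt N p q R x y dx dy t ≤ allNegS (1 / (p + 1)) (1 / (q + 1)) (11 / 5) := by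
    intro t ht htR htκ
    obtain ⟨hu, hn⟩ := orbit_neg_all hf hb h20 ha ht htR htκ
    have e := (slopeAt_eq_all hc hf hb ht htR.ne).1
    rw [hb.hc_eq] at e
    have hdu := mul_neg_of_pos_of_neg hd hu
    have h1 := hn.lower
    have h2 := hn.upper
    simp only [allNegL, allNegG] at h1 h2
    constructor
    · refine (mul_le_mul_left_of_neg hdu).1 ?_
      linarith
    · refine (mul_le_mul_left_of_neg hdu).1 ?_
      linarith
  rcases hR.lt_or_eq with hlt | h0
  · obtain ⟨-, hn⟩ := orbit_neg_all hf hb h20 ha hz hlt hκ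
    exact ⟨hn.low, hn.high, hn.left, key z hz hlt hκ⟩
  obtain ⟨c0, c1⟩ := orbit_centre_all hf hb h20 ha hz h0
  obtain ⟨hI, hI20, -⟩ := AllNeg.box_facts hb h20
  have hv : 0 ≤ allNegK (1 / (p + 1)) (1 / (q + 1)) *
      vOf (1 / (p + 1)) (1 / (q + 1)) (y z / x z) := by
    refine mul_nonneg (mul_nonneg (by linarith) (by linarith)) (le_trans ?_ c0.le)
    exact mul_nonneg (by linarith) (by linarith)
  refine ⟨c0.le, c1.le, by rw [show uOf N (R z) (x z) = 0 by simp [uOf, h0]]; linarith, ?_⟩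
  obtain ⟨z₀, hz₀, hR₀⟩ := hf.crossing
  have hz₀S : z₀ ∈ S := hf.cover ⟨hz₀.1, hz₀.2.le⟩
  obtain rfl : z = z₀ := hf.anti.injOn hz hz₀S (h0.trans hR₀.symm)
  have hκ' : z < 1 / (q + 1) / (1 / (p + 1)) := by
    rw [div_div_eq_mul_div, div_one, one_div_mul_eq_div]; exact hz₀.2
  have ev : ∀ᶠ t in 𝓝[>] z,
      allNegS (1 / (p + 1)) (1 / (q + 1)) (allNegLo (1 / (p + 1)) (1 / (q + 1))) ≤
          slopeAt N p q R x y dx dy t ∧
        slopeAt N p q R x y dx dy t ≤ allNegS (1 / (p + 1)) (1 / (q + 1)) (11 / 5) := by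
    filter_upwards [mem_nhdsWithin_of_mem_nhds (hf.isOpen.mem_nhds hz),
      Ioo_mem_nhdsGT hκ'] with t ht htI
    exact key t ht (h0 ▸ hf.anti hz ht htI.1) htI.2.le
  have ct := ((continuousOn_slopeAt_all hc hf hb).continuousAt
    (hf.isOpen.mem_nhds hz)).tendsto.mono_left (nhdsWithin_le_nhds (s := Ioi z))
  exact ⟨ge_of_tendsto ct (ev.mono fun t ht => ht.1), le_of_tendsto ct (ev.mono fun t ht => ht.2)⟩

end Vale.Agent.P100.Calib.Band
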