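import Vale.Agent.P100.Calib.SlabAllPack

/-!
# The expressions of the conditions at and below the crossing in every dimension from twenty on

The variables are `(q, w, s or I, a)`: `u = -q K v`, `v = 2 I X`, `X = (1 - k) + w (1/8 + 2 I + k)`,
`k = 3 I`, `K = (1 - a)(1 + 3/5 I)`; the band is `H = Gn/Gd`, `Gd = b (1 + 2 I)(1 - a)²`.
-/

namespace Vale.Agent.P100.Calib.Band.AllNeg

open BoxPos

local instance allNegAdd : Add Ex := ⟨Ex.add⟩
local instance allNegSub : Sub Ex := ⟨Ex.sub⟩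
local instance allNegMul : Mul Ex := ⟨Ex.mul⟩

/-- A constant. -/
def nC (n : ℤ) (d : ℕ := 1) : Ex := Ex.cst n d

/-- `S`. -/
def nS (I : Ex) : Ex := nC 1 - nC 2 * I

/-- `b`. -/
def nB (I a : Ex) : Ex := nS I - a

/-- `d`. -/
def nD (I a : Ex) : Ex := nB I a - a

/-- `(1 - a)²`. -/
def nM (a : Ex) : Ex := (nC 1 - a) * (nC 1 - a)

/-- `v`. -/
def nV (w I _a : Ex) : Ex :=
  nC 2 * I * ((nC 1 - nC 3 * I) + w * (nC 1 8 + nC 2 * I + nC 3 * I))

/-- `K`. -/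
def nK (I a : Ex) : Ex := (nC 1 - a) * (nC 1 + nC 3 5 * I)

/-- `u`. -/
def nU (q w I a : Ex) : Ex := nC (-1) * (q * (nK I a * nV w I a))

/-- The upper value of `τ`. -/
def nHi : Ex := nC 11 5

/-- The lower value of `τ`. -/
def nLo (I a : Ex) : Ex := nC 2 - nC 27 10 * a - nC 13 * I

/-- `Gd`. -/
def nGd (I a : Ex) : Ex := nB I a * (nC 1 + nC 2 * I) * nM a

/-- The derivative of `Gn` in `u`. -/
def nGu (t I a : Ex) : Ex := nB I a * (nC 1 + nC 2 * I) * (a + I * t * nM a)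

/-- `Gn`. -/
def nGn (t q w I a : Ex) : Ex :=
  nS I * (nC 1 + (nC 1 - a) * nV w I a) * nM a + nU q w I a * nGu t I a

/-- The denominator times `Gd`. -/
def nDen (t q w I a : Ex) : Ex :=
  (nC 2 + nD I a * nV w I a) * nGd I a - nU q w I a * nD I a * nGn t q w I a

/-- The numerator of `qv`. -/
def nQn (q w I a : Ex) : Ex :=
  nB I a * (nC 2 + nD I a * nV w I a) - nS I * nU q w I a * (nC 1 + nD I a * nV w I a)

/-- `allFlow` times `Gd`. -/
def nFlow (t q w I a : Ex) : Ex :=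
  nQn q w I a * nGn t q w I a - nS I * (nC 1 - a * nV w I a) * nDen t q w I a

/-- `allEn` times `Gd`. -/
def nEn (t q w I a : Ex) : Ex :=
  (nGd I a - nU q w I a * nD I a * nGn t q w I a) * nQn q w I a -
    nS I * (nC 1 - nU q w I a) * nB I a * nDen t q w I a

/-- The flow at the band times `Gd²`. -/
def nNum (t q w I a : Ex) : Ex :=
  nC 0 - (nGd I a - nU q w I a * nD I a * nGn t q w I a) *
      (nQn q w I a * nGn t q w I a -
        nS I * (nC 1 + (nC 1 - a) * nV w I a) * nDen t q w I a) -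
    nGn t q w I a * nEn t q w I a - nU q w I a * nGu t I a * nEn t q w I a -
    nU q w I a * (nC 1 + nD I a * nV w I a) * (nS I * (nC 1 - a) * nM a) * nFlow t q w I a

/-- The lower band of `H`. -/
def chkHi (I : Ex) : Ex :=
  nNum nHi .x₀ .x₁ I .x₃ - nC 1 1000 * (.x₀ * (I * I * .x₃))

/-- The upper band of `H`. -/
def chkLo (I : Ex) : Ex :=
  nC 0 - nNum (nLo I .x₃) .x₀ .x₁ I .x₃ - nC 1 1000 * (.x₀ * (I * I * .x₃))

/-- The lower end of `v`. -/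
def chkDown (t I : Ex) : Ex := nC 0 - nFlow t .x₀ (nC 0) I .x₃ - nC 1 1000 * (I * I * .x₃)

/-- The upper end of `v`. -/
def chkUp (t I : Ex) : Ex := nFlow t .x₀ (nC 1) I .x₃ - nC 1 1000 * (I * I * .x₃)

/-- The end of the range of `u`. -/
def chkLeft (I : Ex) : Ex :=
  nK I .x₃ * nGn nHi (nC 1) .x₁ I .x₃ - nGd I .x₃ - nC 1 1000 * I

/-- `I = s a`. -/
def nSub : Ex := .x₂ * .x₃

/-- The charts for `a ≤ 1/20`, `I = s a`: `q, s ∈ (0, 1]`, `w ∈ [0, 17/16)`. -/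
def boxSmall : ℕ → Pack.Chart
  | 0 => ⟨1, 0, 1, 1⟩
  | 1 => ⟨0, 17, 16, 16⟩
  | 2 => ⟨1, 0, 1, 1⟩
  | _ => ⟨1, 0, 20, 20⟩

/-- The charts for `1/20 < a ≤ 31/100`: `I ∈ (0, 1/20]`. -/
def boxBig : ℕ → Pack.Chart
  | 0 => ⟨1, 0, 1, 1⟩
  | 1 => ⟨0, 17, 16, 16⟩
  | 2 => ⟨1, 0, 20, 20⟩
  | _ => ⟨31, 5, 100, 100⟩

end Vale.Agent.P100.Calib.Band.AllNeg
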