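import Vale.Agent.P100.Calib.SlabAllBandExpr

/-!
# The numerators of the upper band of all dimensions from twenty on

The band has a majorant of the slope at the centre and a term in `u ^ 2`; its certificates need
one box for `a ≤ 3/20` in each of two charts and seven boxes beyond.
-/

namespace Vale.Agent.P100.Calib.Band.AllLow

open Pack

local instance allUpAdd : Add Pack.Ex := ⟨Ex.add⟩
local instance allUpSub : Sub Pack.Ex := ⟨Ex.sub⟩
local instance allUpMul : Mul Pack.Ex := ⟨Ex.mul⟩

/-- Five times the slope of the band at the centre. -/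
def eUpP (I a : Pack.Ex) : Pack.Ex :=
  eN 5 * a + eN 10 * I - eN 40 * I * a - eN 5 * a * (eN 1 - a) * eV I +
    I * a * (eN 1 + eN 8 * a + eN 2000 * I * a * a) - eN 64 * (eN 1 - eN 3 * a) * I * I

/-- The curvature of the band at the centre. -/
def eUpC (a : Pack.Ex) : Pack.Ex := eN 16 - eN 12 * a

/-- The growth of the curvature. -/
def eUpK (I a : Pack.Ex) : Pack.Ex := (eN 54 - eN 50 * a) * (eN 1 - eN 4 * I)

/-- `Gn`. -/
def eUpN (I a : Pack.Ex) : Pack.Ex :=
  eN 5 * eS I * eQ I a * eW I a + eU * eJ I * eUpP I a +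
    eU * eU * I * (eN 2 * a + eN 3 * I) * (eUpC a + eU * eUpK I a)

/-- The derivative of `Gn` in `u`. -/
def eUpNu (I a : Pack.Ex) : Pack.Ex :=
  eJ I * eUpP I a - eN 5 * eS I * eQ I a * a +
    eU * I * (eN 2 * a + eN 3 * I) * (eN 2 * eUpC a + eN 3 * eU * eUpK I a)

/-- The flow at the band, less a monomial, in `(u, X, I, a)`. -/
def eUpI : Pack.Ex :=
  eN (-16) * eBandNum (eUpN (.var 2) (.var 3)) (eUpNu (.var 2) (.var 3)) (eGv (.var 2) (.var 3))
    (.var 2) (.var 3) - eU * .var 2 * .var 3

/-- The flow at the band, less a monomial, in `(u, X, I/a, a)`. -/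
def eUpS : Pack.Ex :=
  eN (-16) * eBandNum (eUpN (.var 2 * .var 3) (.var 3)) (eUpNu (.var 2 * .var 3) (.var 3))
      (eGv (.var 2 * .var 3) (.var 3)) (.var 2 * .var 3) (.var 3) -
    eU * .var 2 * .var 3 * .var 3

/-- The denominator, less a constant, in `(u, X, I, a)`. -/
def eUpDenI : Pack.Ex :=
  eN 4 * eBandDen (eUpN (.var 2) (.var 3)) (.var 2) (.var 3) - eN 1

/-- The denominator, less a constant, in `(u, X, I/a, a)`. -/
def eUpDenS : Pack.Ex :=
  eN 4 * eBandDen (eUpN (.var 2 * .var 3) (.var 3)) (.var 2 * .var 3) (.var 3) - eN 1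

/-- A box in thousandths, `X` in twenty-fifths from `24/25`. -/
def upBox (u₀ u₁ Xh I₀ I₁ a₀ a₁ : ℤ) : ℕ → Chart
  | 0 => ⟨u₀, u₁, 1000, 1000⟩
  | 1 => ⟨24, Xh, 25, 25⟩
  | 2 => ⟨I₀, I₁, 1000, 1000⟩
  | _ => ⟨a₀, a₁, 1000, 1000⟩

/-- The box `a ≤ 1/20`, in `(u, X, I/a, a)`. -/
def upSmall : ℕ → Chart := boxSmall

theorem up_small : checkFour upSmall 520 9 3 14 20 eUpS = true := by decide +kernel

theorem up_mid : checkFour boxMid 480 9 3 14 11 eUpI = true := by decide +kernel

theorem up_a : checkFour (upBox 0 601 54 0 25 149 230) 520 9 3 14 11 eUpI = true := by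
  decide +kernel

theorem up_b : checkFour (upBox 0 300 69 0 6 230 311) 520 9 3 14 11 eUpI = true := by
  decide +kernel

theorem up_c : checkFour (upBox 0 300 72 6 12 230 311) 520 9 3 14 11 eUpI = true := by
  decide +kernel

theorem up_d : checkFour (upBox 300 601 72 0 12 230 311) 520 9 3 14 11 eUpI = true := by
  decide +kernel

theorem up_e : checkFour (upBox 0 601 80 12 25 230 311) 520 9 3 14 11 eUpI = true := by
  decide +kernel

theorem up_f : checkFour (upBox 0 601 90 25 38 149 311) 520 9 3 14 11 eUpI = true := by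
  decide +kernel

theorem up_g : checkFour (upBox 0 601 100 38 51 149 311) 520 9 3 14 11 eUpI = true := by
  decide +kernel

theorem up_den_small : checkFour upSmall 240 4 1 5 7 eUpDenS = true := by decide +kernel

theorem up_den_mid : checkFour boxMid 240 4 1 5 4 eUpDenI = true := by decide +kernel

theorem up_den_big : checkFour boxBig 240 4 1 5 4 eUpDenI = true := by decide +kernel

end Vale.Agent.P100.Calib.Band.AllLow
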