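import Vale.Agent.P100.Calib.SlabAllBand
import Vale.Agent.P100.Calib.SlabAllUpExpr

/-!
# The upper band up to `u = 3/5` in every dimension from twenty on

`allUpG` has a majorant of the slope at the centre and a term `u ^ 2`; its sign needs no barrier
on `v`.
-/

open Set Filter Topology

namespace Vale.Agent.P100.Calib.Band

open Vale.Agent.P100.Bubble Chart

/-- Five times the slope of the band at the centre. -/
def allUpP (a I v : ℝ) : ℝ :=
  5 * a + 10 * I - 40 * I * a - 5 * a * (1 - a) * v +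
    I * a * (1 + 8 * a + 2000 * I * a * a) - 64 * (1 - 3 * a) * I * I

/-- The numerator of the band. -/
def allUpN (a I b u v : ℝ) : ℝ :=
  5 * (1 - 2 * I) * (1 + (1 - a) * v) * (b - u * a) + u * (1 + 2 * I) * allUpP a I v +
    u * u * I * (2 * a + 3 * I) * (16 - 12 * a + u * ((54 - 50 * a) * (1 - 4 * I)))

/-- The derivative of `allUpN` in `u`. -/
def allUpNu (a I u v : ℝ) : ℝ :=
  (1 + 2 * I) * allUpP a I v - 5 * (1 - 2 * I) * (1 + (1 - a) * v) * a +
    u * I * (2 * a + 3 * I) * (2 * (16 - 12 * a) + 3 * u * ((54 - 50 * a) * (1 - 4 * I)))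

/-- **The upper band**, for `I = 1/N`. -/
noncomputable def allUpG (a b u v : ℝ) : ℝ :=
  allUpN a ((1 - (a + b)) / 2) b u v / (5 * (b * (2 - (a + b))) * allPole a b u)

/-- Its derivative in `u`. -/
noncomputable def allUpGu (a b u v : ℝ) : ℝ :=
  (allUpNu a ((1 - (a + b)) / 2) u v * allPole a b u -
      allUpN a ((1 - (a + b)) / 2) b u v * allPole' a b u) /
    (5 * (b * (2 - (a + b))) * allPole a b u ^ 2)

theorem hasGradTwo_allUp {a b : ℝ} (ha : 0 < a) (hd : 0 < b - a) (hS : a + b < 2) :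
    HasGradTwo (allUpG a b) (allUpGu a b) (fun u _ => allLowGv a b u) := by
  intro u v du dv t hu hv
  have hp := allPole_pos (u := u t) ha hd
  have hb : 0 < b := by linarith
  have hk : 0 < 5 * (b * (2 - (a + b))) := by nlinarith
  set I := (1 - (a + b)) / 2 with hI
  have hN : HasDerivAt (fun s => allUpN a I b (u s) (v s))
      (allUpNu a I (u t) (v t) * du + allLowNv a I b (u t) * dv) t := by
    have h1 := ((hv.const_mul (1 - a)).const_add 1).const_mul (5 * (1 - 2 * I))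
    have h2 := (((hv.const_mul (5 * a * (1 - a))).const_sub
      (5 * a + 10 * I - 40 * I * a)).add_const
        (I * a * (1 + 8 * a + 2000 * I * a * a))).sub_const (64 * (1 - 3 * a) * I * I)
    have h3 := (((hu.fun_mul hu).mul_const I).mul_const (2 * a + 3 * I)).fun_mul
      ((hu.mul_const ((54 - 50 * a) * (1 - 4 * I))).const_add (16 - 12 * a))
    refine (((h1.fun_mul ((hu.mul_const a).const_sub b)).fun_add
      ((hu.mul_const (1 + 2 * I)).fun_mul h2)).fun_add h3).congr_deriv ?_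
    simp only [allUpNu, allLowNv, allUpP]
    ring
  refine (hN.fun_div (((hasDerivAt_allPole a b (u t)).comp t hu).const_mul
    (5 * (b * (2 - (a + b))))) (by positivity)).congr_deriv ?_
  simp only [allUpGu, allLowGv, ← hI, Function.comp_apply]
  generalize allUpNu a I (u t) (v t) = A
  generalize allLowNv a I b (u t) = B
  generalize allUpN a I b (u t) (v t) = C
  generalize allPole' a b (u t) = P'
  generalize allPole a b (u t) = P at hp ⊢
  generalize 5 * (b * (2 - (a + b))) = K at hk ⊢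
  field_simp
  ring

theorem continuous_allUp {a b : ℝ} (ha : 0 < a) (hd : 0 < b - a) (hS : a + b < 2) :
    Continuous (fun w : ℝ × ℝ => allUpG a b w.1 w.2) ∧
      Continuous (fun w : ℝ × ℝ => allUpGu a b w.1 w.2) := by
  have hb : 0 < b := by linarith
  have hk : 0 < 5 * (b * (2 - (a + b))) := by nlinarith
  have cp : Continuous fun w : ℝ × ℝ => allPole a b w.1 := by unfold allPole; fun_prop
  have cp' : Continuous fun w : ℝ × ℝ => allPole' a b w.1 := by unfold allPole'; fun_prop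
  have hp : ∀ w : ℝ × ℝ, allPole a b w.1 ≠ 0 := fun w => (allPole_pos ha hd).ne'
  refine ⟨?_, ?_⟩
  · refine Continuous.div (by unfold allUpN allUpP; fun_prop) (continuous_const.mul cp)
      fun w => mul_ne_zero hk.ne' (hp w)
  · refine Continuous.div ?_ (continuous_const.mul (cp.pow 2))
      fun w => mul_ne_zero hk.ne' (pow_ne_zero 2 (hp w))
    exact ((by unfold allUpNu allUpP; fun_prop : Continuous fun w : ℝ × ℝ =>
        allUpNu a ((1 - (a + b)) / 2) w.1 w.2).mul cp).sub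
      ((by unfold allUpN allUpP; fun_prop : Continuous fun w : ℝ × ℝ =>
        allUpN a ((1 - (a + b)) / 2) b w.1 w.2).mul cp')

namespace AllLow

open Pack

local instance allUpRealAdd : Add Pack.Ex := ⟨Ex.add⟩
local instance allUpRealSub : Sub Pack.Ex := ⟨Ex.sub⟩
local instance allUpRealMul : Mul Pack.Ex := ⟨Ex.mul⟩

/-- The values on the upper band. -/
theorem eval_up {a b I u X : ℝ} {x : ℕ → ℝ} (tI tA : Pack.Ex) (hI : tI.eval x = I)
    (ha : tA.eval x = a) (hu : x 0 = u) (hX : x 1 = X) (hb : b = 1 - 2 * I - a)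
    (hu1 : u ≤ 1) (ha0 : 0 < a) (hd : 0 < b - a) (hI0 : 0 ≤ I) :
    let G := allUpG a b u (2 * I * X)
    let Gd := 5 * (b * (1 + 2 * I)) * (b - u * a)
    0 < Gd ∧ allDen a b u (2 * I * X) G * Gd = (eBandDen (eUpN tI tA) tI tA).eval x ∧
      allDot a b u (2 * I * X) G (-allUpGu a b u (2 * I * X)) (-allLowGv a b u) 1 * Gd ^ 3 =
        (eBandNum (eUpN tI tA) (eUpNu tI tA) (eGv tI tA) tI tA).eval x := by
  intro G Gd
  obtain ⟨hp, hp'⟩ := allPole_eq (a := a) (b := b) hu1
  have hb0 : 0 < b := by linarith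
  have hw : 0 < b - u * a := by linarith [mul_le_mul_of_nonneg_right hu1 ha0.le]
  have eS2 : 2 - (a + b) = 1 + 2 * I := by rw [hb]; ring
  have eI' : (1 - (a + b)) / 2 = I := by rw [hb]; ring
  have eG : G = allUpN a I b u (2 * I * X) / Gd := by
    simp only [G, Gd, allUpG, hp, eS2, eI']
  have eu : -allUpGu a b u (2 * I * X) =
      -((allUpNu a I u (2 * I * X) * Gd -
        allUpN a I b u (2 * I * X) * ((-5) * (b * (1 + 2 * I)) * a)) / Gd ^ 2) := by
    simp only [Gd, allUpGu, hp, hp', eS2, eI']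
    field_simp
  have ev : -allLowGv a b u = -(allLowNv a I b u / Gd) := by
    simp only [Gd, allLowGv, hp, eS2, eI']
  have hn : (eUpN tI tA).eval x = allUpN a I b u (2 * I * X) := by
    simp only [eUpN, eUpP, eUpC, eUpK, AllLow.eS, AllLow.eQ, eW, eB, eJ, eU, eV, allUpN, allUpP,
      eval_add', eval_sub', eval_num', Ex.eval, hI, ha, hu, hX, hb]
    push_cast; ring
  have hnu : (eUpNu tI tA).eval x = allUpNu a I u (2 * I * X) := by
    simp only [eUpNu, eUpP, eUpC, eUpK, AllLow.eS, AllLow.eQ, eJ, eU, eV, allUpNu, allUpP,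
      eval_add', eval_sub', eval_num', Ex.eval, hI, ha, hu, hX]
    push_cast; ring
  have hnv : (eGv tI tA).eval x = allLowNv a I b u := by
    simp only [eGv, AllLow.eS, eW, eB, eJ, eU, allLowNv, eval_sub',
      eval_num', Ex.eval, hI, ha, hu, hb]
    push_cast; ring
  obtain ⟨hG, k1, k2⟩ := eval_bandAll _ _ _ tI tA hI ha hn hnu hnv hu hX hb hu1 ha0 hd hI0
  exact ⟨hG, by rw [eG]; exact k1, by rw [eG, eu, ev]; exact k2⟩

/-- The signs on the upper band. -/
theorem up_signs {N a b u v : ℝ} (hb : SlabBoxAll N a b) (h20 : 20 ≤ N) (ha : a ≤ 31 / 100)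
    (hu : 0 < u) (hu1 : u ≤ 3 / 5) (hv : VRange N a b v) :
    0 < allDen a b u v (allUpG a b u v) ∧
      allDot a b u v (allUpG a b u v) (-allUpGu a b u v) (-allLowGv a b u) 1 < 0 := by
  obtain ⟨ha0, hb0, hd, -⟩ := hb.facts
  obtain ⟨I, X, rfl, hbI, hP⟩ := bandPlace_of hb h20 ha hu hu1 hv
  obtain ⟨hI0, hI20, hIa, -, -, -, hXlo, -⟩ := id hP
  have main : ∀ (tI tA : Pack.Ex) (x : ℕ → ℝ) (m : ℝ), tI.eval x = I → tA.eval x = a →
      x 0 = u → x 1 = X → 0 < m →
      0 ≤ (eN 4 * eBandDen (eUpN tI tA) tI tA - eN 1).eval x →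
      0 ≤ -16 * (eBandNum (eUpN tI tA) (eUpNu tI tA) (eGv tI tA) tI tA).eval x - m →
      0 < allDen a b u (2 * I * X) (allUpG a b u (2 * I * X)) ∧
        allDot a b u (2 * I * X) (allUpG a b u (2 * I * X))
          (-allUpGu a b u (2 * I * X)) (-allLowGv a b u) 1 < 0 := by
    intro tI tA x m h1 h2 h3 h4 hm hden hnum
    obtain ⟨hG, k1, k2⟩ := eval_up (b := b) tI tA h1 h2 h3 h4 hbI (by linarith) ha0 hd hI0.le
    simp only [eval_sub', eval_mul', eval_num'] at hden
    push_cast at hden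
    exact ⟨pos_of_mul_pos_left (by rw [k1]; linarith) hG.le,
      neg_of_mul_neg_left (by rw [k2]; linarith) (pow_pos hG 3).le⟩
  rcases lt_or_ge a (1 / 20) with h5 | h5
  · have hXhi := hP.X_lt (1 / 20) (1 / 20) (36 / 25) h5.le hI20 (by norm_num) le_rfl (by norm_num)
    obtain ⟨s, hs⟩ : ∃ s, I = s * a := ⟨I / a, (div_mul_cancel₀ I ha0.ne').symm⟩
    have hs0 : 0 < s := pos_of_mul_pos_left (hs ▸ hI0) ha0.le
    have hs1 : s ≤ 1 := le_of_mul_le_mul_right (by rw [one_mul, ← hs]; exact hIa) ha0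
    set x : ℕ → ℝ := fun i => if i = 0 then u else if i = 1 then X else if i = 2 then s else a
      with hx
    have hp : ∀ i < 4, ∃ t : ℝ, 0 ≤ t ∧ 0 < ((upSmall i).c : ℝ) + (upSmall i).d * t ∧
        ((upSmall i).a : ℝ) + (upSmall i).b * t =
          x i * (((upSmall i).c : ℝ) + (upSmall i).d * t) := by
      intro i hi
      interval_cases i <;> refine side_point (by norm_num) ?_ ?_ <;>
        simp [hx, upSmall, boxSmall] <;> linarith
    have h1 := nonneg_of_checkFour up_small hp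
    have h2 := nonneg_of_checkFour up_den_small hp
    simp only [eUpS, eU, eval_sub', eval_num', Ex.eval] at h1
    push_cast at h1
    refine main (.var 2 * .var 3) (.var 3) x (u * s * a * a) ?_ ?_ ?_ ?_ (by positivity) h2 ?_
    · simp [hx, Ex.eval, hs]
    · simp [hx, Ex.eval]
    · simp [hx]
    · simp [hx]
    · simpa [hx] using h1
  set x : ℕ → ℝ := fun i => if i = 0 then u else if i = 1 then X else if i = 2 then I else a
    with hx
  have fin : ∀ (B D : ℕ → Chart) (K : ℕ), (∀ i < 4, ∃ t : ℝ, 0 ≤ t ∧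
        0 < ((B i).c : ℝ) + (B i).d * t ∧
        ((B i).a : ℝ) + (B i).b * t = x i * (((B i).c : ℝ) + (B i).d * t)) →
      (∀ i < 4, ∃ t : ℝ, 0 ≤ t ∧ 0 < ((D i).c : ℝ) + (D i).d * t ∧
        ((D i).a : ℝ) + (D i).b * t = x i * (((D i).c : ℝ) + (D i).d * t)) →
      checkFour B K 9 3 14 11 eUpI = true → checkFour D 240 4 1 5 4 eUpDenI = true →
      0 < allDen a b u (2 * I * X) (allUpG a b u (2 * I * X)) ∧
        allDot a b u (2 * I * X) (allUpG a b u (2 * I * X))
          (-allUpGu a b u (2 * I * X)) (-allLowGv a b u) 1 < 0 := by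
    intro B D K hp hq c1 c2
    have h1 := nonneg_of_checkFour c1 hp
    have h2 := nonneg_of_checkFour c2 hq
    simp only [eUpI, eU, eval_sub', eval_num', Ex.eval] at h1
    push_cast at h1
    refine main (.var 2) (.var 3) x (u * I * a) ?_ ?_ ?_ ?_ (by positivity) h2 ?_
    · simp [hx, Ex.eval]
    · simp [hx, Ex.eval]
    · simp [hx]
    · simp [hx]
    · simpa [hx] using h1
  rcases lt_or_ge a (3 / 20) with h15 | h15
  · have hXhi := hP.X_lt (3 / 20) (1 / 20) 2 h15.le hI20 (by norm_num) le_rfl (by norm_num)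
    refine fin boxMid boxMid 480 (fun i hi => ?_) (fun i hi => ?_) up_mid up_den_mid <;>
      interval_cases i <;> refine side_point (by norm_num) ?_ ?_ <;>
      simp [hx, boxMid] <;> linarith
  have hq : ∀ i < 4, ∃ t : ℝ, 0 ≤ t ∧ 0 < ((boxBig i).c : ℝ) + (boxBig i).d * t ∧
      ((boxBig i).a : ℝ) + (boxBig i).b * t = x i * (((boxBig i).c : ℝ) + (boxBig i).d * t) := by
    have hXhi := hP.X_lt (31 / 100) (1 / 20) 4 ha hI20 le_rfl le_rfl (by norm_num)
    intro i hi
    interval_cases i <;> refine side_point (by norm_num) ?_ ?_ <;>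
      simp [hx, boxBig] <;> linarith
  have side : ∀ u₀ u₁ Xh I₀ I₁ a₀ a₁ : ℤ, (u₀ : ℝ) ≤ u * 1000 → u * 1000 < u₁ → X * 25 < Xh →
      (I₀ : ℝ) ≤ I * 1000 → I * 1000 < I₁ → (a₀ : ℝ) ≤ a * 1000 → a * 1000 < a₁ →
      ∀ i < 4, ∃ t : ℝ, 0 ≤ t ∧
        0 < ((upBox u₀ u₁ Xh I₀ I₁ a₀ a₁ i).c : ℝ) + (upBox u₀ u₁ Xh I₀ I₁ a₀ a₁ i).d * t ∧
        ((upBox u₀ u₁ Xh I₀ I₁ a₀ a₁ i).a : ℝ) + (upBox u₀ u₁ Xh I₀ I₁ a₀ a₁ i).b * t =
          x i * (((upBox u₀ u₁ Xh I₀ I₁ a₀ a₁ i).c : ℝ) +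
            (upBox u₀ u₁ Xh I₀ I₁ a₀ a₁ i).d * t) := by
    intro u₀ u₁ Xh I₀ I₁ a₀ a₁ g1 g2 g3 g4 g5 g6 g7 i hi
    have h24 : (((24 : ℤ)) : ℝ) ≤ X * 25 := by push_cast; linarith
    interval_cases i <;> simp only [upBox]
    · exact side_point (den := 1000) (by norm_num) (by simpa [hx] using g1) (by simpa [hx] using g2)
    · exact side_point (den := 25) (by norm_num) (by simpa [hx] using h24)
        (by simpa [hx] using g3)
    · exact side_point (den := 1000) (by norm_num) (by simpa [hx] using g4) (by simpa [hx] using g5)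
    · exact side_point (den := 1000) (by norm_num) (by simpa [hx] using g6) (by simpa [hx] using g7)
  rcases lt_or_ge I (25 / 1000) with i25 | i25
  · rcases lt_or_ge a (23 / 100) with a23 | a23
    · have hXhi := hP.X_lt (23 / 100) (25 / 1000) (54 / 25) a23.le i25.le (by norm_num)
        (by norm_num) (by norm_num)
      refine fin _ _ 520 (side 0 601 54 0 25 149 230 ?_ ?_ ?_ ?_ ?_ ?_ ?_) hq up_a up_den_big <;>
        push_cast <;> linarith
    rcases lt_or_ge I (12 / 1000) with i12 | i12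
    · have hXhi := hP.X_lt (31 / 100) (12 / 1000) (72 / 25) ha i12.le le_rfl (by norm_num)
        (by norm_num)
      rcases lt_or_ge u (3 / 10) with u3 | u3
      · rcases lt_or_ge I (6 / 1000) with i6 | i6
        · have hXhi' := hP.X_lt (31 / 100) (6 / 1000) (69 / 25) ha i6.le le_rfl (by norm_num)
            (by norm_num)
          refine fin _ _ 520 (side 0 300 69 0 6 230 311 ?_ ?_ ?_ ?_ ?_ ?_ ?_) hq up_b
            up_den_big <;> push_cast <;> linarith
        · refine fin _ _ 520 (side 0 300 72 6 12 230 311 ?_ ?_ ?_ ?_ ?_ ?_ ?_) hq up_c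
            up_den_big <;> push_cast <;> linarith
      · refine fin _ _ 520 (side 300 601 72 0 12 230 311 ?_ ?_ ?_ ?_ ?_ ?_ ?_) hq up_d
          up_den_big <;> push_cast <;> linarith
    · have hXhi := hP.X_lt (31 / 100) (25 / 1000) (80 / 25) ha i25.le le_rfl (by norm_num)
        (by norm_num)
      refine fin _ _ 520 (side 0 601 80 12 25 230 311 ?_ ?_ ?_ ?_ ?_ ?_ ?_) hq up_e up_den_big <;>
        push_cast <;> linarith
  rcases lt_or_ge I (38 / 1000) with i38 | i38
  · have hXhi := hP.X_lt (31 / 100) (38 / 1000) (90 / 25) ha i38.le le_rfl (by norm_num)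
      (by norm_num)
    refine fin _ _ 520 (side 0 601 90 25 38 149 311 ?_ ?_ ?_ ?_ ?_ ?_ ?_) hq up_f up_den_big <;>
      push_cast <;> linarith
  · have hXhi := hP.X_lt (31 / 100) (1 / 20) (100 / 25) ha hI20 le_rfl le_rfl (by norm_num)
    refine fin _ _ 520 (side 0 601 100 38 51 149 311 ?_ ?_ ?_ ?_ ?_ ?_ ?_) hq up_g up_den_big <;>
      push_cast <;> linarith

end AllLow

variable {N p q : ℝ} {S : Set ℝ} {R x y s dx dy : ℝ → ℝ}

/-- **The upper band up to `u = 3/5`** for real dimensions `N ≥ 20` and `1/(p+1) ≤ 31/100`. -/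
theorem orbit_up_all (hf : IsOrbitFns N p q S R x y s dx dy)
    (hb : SlabBoxAll N (1 / (p + 1)) (1 / (q + 1))) (h20 : 20 ≤ N) (ha : 1 / (p + 1) ≤ 31 / 100)
    {w : ℝ} (hw : w ∈ S) (hw0 : 0 < R w) (hwu : uOf N (R w) (x w) ≤ 3 / 5) :
    hOf N (R w) (x w) (y w) w / (1 / (q + 1) - 1 / (p + 1)) <
      allUpG (1 / (p + 1)) (1 / (q + 1)) (uOf N (R w) (x w))
        (vOf (1 / (p + 1)) (1 / (q + 1)) (y w / x w)) := by
  obtain ⟨ha0, hb0, hd, -⟩ := hb.facts
  have hS : 1 / (p + 1) + 1 / (q + 1) < 2 := by linarith [hb.S_lt]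
  obtain ⟨c1, c2⟩ := continuous_allUp ha0 hd hS
  obtain ⟨-, -, c3⟩ := continuous_allLow ha0 hd hS
  have key := band_step_all hf hb (e := -1) (u₁ := 3 / 5) (by norm_num)
    (hasGradTwo_allUp ha0 hd hS) c1 c2 c3 (fun _ _ => True) (fun _ _ _ _ => trivial)
    (fun v _ _ _ => ?_) (fun u v hu _ hu1 hv _ => ?_) hw hw0 hwu
  · linarith
  · refine le_of_eq ?_
    generalize 1 / (p + 1) = al at ha0 hd hS ⊢
    generalize 1 / (q + 1) = be at hb0 hd hS ⊢
    obtain ⟨hp, -⟩ := allPole_eq (a := al) (b := be) zero_le_one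
    have h2 : (2 : ℝ) - (al + be) ≠ 0 := by linarith
    simp only [allUpG, allHc, allUpN, hp, zero_mul, sub_zero, add_zero]
    field_simp
    ring
  · obtain ⟨h1, h2⟩ := AllLow.up_signs hb h20 ha hu hu1 hv
    exact ⟨h1, by linarith⟩

end Vale.Agent.P100.Calib.Band
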