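import Vale.Agent.P100.Calib.SlabAllSignsCert
import Vale.Agent.P100.Calib.SlabAllExit
import Vale.Agent.P100.Calib.SlabAllUp

/-!
# The closed signs on `0 < u ≤ 3/5` in every dimension from twenty on

The hypotheses are the bands of the orbit: `allLowG`, `allUpG` up to `9/40`, `allStabLG`,
`allStabUG` beyond, and the side of the exit curve.
-/

set_option linter.unusedVariables false

namespace Vale.Agent.P100.Calib.Closed.All.Low

open Band

/-- The lower end of `X`. -/
theorem X_low {X a a₁ I : ℝ} (hX : 0 < X) (h : 1 < X * (1 + 2 * a * I)) (ha0 : 0 ≤ a)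
    (ha : a ≤ a₁) (hI0 : 0 ≤ I) (hI : I ≤ 1 / 20) : 1 < X * (1 + a₁ / 10) := by
  refine h.trans_le (mul_le_mul_of_nonneg_left ?_ hX.le)
  have := mul_le_mul ha hI hI0 (ha0.trans ha)
  linarith

/-- The upper end of `X` before the exit. -/
theorem X_high {X a a₁ u u₁ I : ℝ} (hX : 0 < X) (h : X * allExitDen I a u ≤ 56 + 100 * I)
    (ha0 : 0 ≤ a) (ha : a ≤ a₁) (hu0 : 0 ≤ u) (hu : u ≤ u₁) (hI0 : 0 ≤ I) (hI : I ≤ 1 / 20) :
    X * (50 - 100 * a₁ * u₁ - 5 / 4 * (u₁ * (2 + 3 * u₁))) ≤ 61 := by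
  refine (mul_le_mul_of_nonneg_left ?_ hX.le).trans (h.trans (by linarith))
  have h1 := mul_le_mul ha hu hu0 (ha0.trans ha)
  have h2 := mul_le_mul hu (show 2 + 3 * u ≤ 2 + 3 * u₁ by linarith) (by linarith) (hu0.trans hu)
  have h3 := mul_le_mul hI h2 (mul_nonneg hu0 (by linarith)) (by norm_num)
  simp only [allExitDen]
  linarith

section
variable {d S u v t : ℝ}

/-- The facts used, from those of the chart. -/
theorem Basic.of_facts {n : ℕ} (hb : ChartBox n d S) (hn : 20 ≤ n) (ha : (S - d) / 2 ≤ 31 / 100)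
    (hF : ChartFacts d S u v t) : Basic d S u v t := by
  have hS : 0 < 1 - S := sub_pos.2 hb.S_lt
  have hdim : (20 : ℝ) < 2 / (1 - S) := lt_of_le_of_lt (by exact_mod_cast hn) hb.dim_low
  rw [lt_div_iff₀ hS] at hdim
  have hk : 0 < 2 + (S - d) * (1 - S) := by
    have := mul_nonneg (show 0 ≤ S - d by linarith [hb.one, hb.S_lt]) hS.le
    linarith
  exact ⟨hb.pos, hb.S_lt, hb.one, ha, by linarith, hF.u_pos, hF.u_lt,
    pos_of_mul_pos_left ((mul_pos two_pos hS).trans hF.v_crit) hk.le, hF.H_pos, hF.h_lt, hF.r_lt,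
    hF.drift⟩


/-- The facts of the point on the band `bandLow`. -/
theorem Basic.adm_low (hB : Basic d S u v t)
    (hl : allLowG ((S - d) / 2) ((S + d) / 2) u v ≤ chH d S u v t)
    (hr : chH d S u v t ≤ allUpG ((S - d) / 2) ((S + d) / 2) u v) :
    (ptOf d S u v).Adm bandLow (chH d S u v t) := by
  set o := ptOf d S u v with ho
  obtain ⟨e1, eb, ev, eS⟩ : o.d = d ∧ o.b = (S + d) / 2 ∧ o.v = v ∧ o.S = S :=
    ptOf_eqs hB.S_lt
  have hp := hB.pos
  have hI : 0 < o.I := hp.I_pos
  have ha0 : 0 < o.a := hp.a_pos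
  have hab : o.a < (S + d) / 2 := by simp only [ho, ptOf]; linarith [hB.d_pos]
  have eP : allPole o.a ((S + d) / 2) u = (S + d) / 2 - u * o.a :=
    (allPole_eq (by linarith [hB.u_lt])).1
  have hP : 0 < (S + d) / 2 - u * o.a := by
    rw [← eP]
    exact allPole_pos ha0 (sub_pos.2 hab)
  have hbb : 0 < (S + d) / 2 := ha0.trans hab
  obtain ⟨vu, vX, va, vI, vd, vb, vv, vQ, vD, vS, -, -⟩ := o.vals
  have eu : o.u = u := rfl
  have eIb : (1 - ((S - d) / 2 + (S + d) / 2)) / 2 = o.I := by simp only [ho, ptOf]; ring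
  have ea : (S - d) / 2 = o.a := rfl
  have eI2 : 2 - ((S - d) / 2 + (S + d) / 2) = 1 + 2 * o.I := by simp only [ho, ptOf]; ring
  have l := hl
  have r := hr
  have ep : bandLow.pole.val o.x =
      5 * ((S + d) / 2 * (1 + 2 * o.I)) * ((S + d) / 2 - u * o.a) := by
    simp only [bandLow, val_mul, val_sub, val_add, val_num, vu, va, vI, vb, eb, eu]
    push_cast
    ring
  have p0 : 0 < bandLow.pole.val o.x := by rw [ep]; positivity
  simp only [allLowG, allUpG, eIb, eI2] at l r
  rw [ea, eP] at l r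
  rw [← ep, div_le_iff₀ p0] at l
  rw [← ep, le_div_iff₀ p0] at r
  refine ⟨hB.den_pos, p0, le_of_eq_of_le ?_ l, le_of_le_of_eq r ?_⟩
  · simp only [bandLow, xP5, xS, val_mul, val_sub, val_add, val_num, vu, va, vI, vb, vv, eb,
      ev, eu, allLowN, allLowP]
    push_cast
    ring
  · simp only [bandLow, xP5, xS, val_mul, val_sub, val_add, val_num, vu, va, vI, vb, vv, eb,
      ev, eu, allUpN, allUpP]
    push_cast
    ring

/-- The facts of the point on the band `bandHigh`. -/
theorem Basic.adm_high (hB : Basic d S u v t)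
    (hl : allStabLG ((S - d) / 2) ((S + d) / 2) u v ≤ chH d S u v t)
    (hr : chH d S u v t ≤ allStabUG ((S - d) / 2) ((S + d) / 2) u v) :
    (ptOf d S u v).Adm bandHigh (chH d S u v t) := by
  set o := ptOf d S u v with ho
  obtain ⟨e1, eb, ev, eS⟩ : o.d = d ∧ o.b = (S + d) / 2 ∧ o.v = v ∧ o.S = S :=
    ptOf_eqs hB.S_lt
  have hp := hB.pos
  have hI : 0 < o.I := hp.I_pos
  have ha0 : 0 < o.a := hp.a_pos
  have hab : o.a < (S + d) / 2 := by simp only [ho, ptOf]; linarith [hB.d_pos]
  have eP : allPole o.a ((S + d) / 2) u = (S + d) / 2 - u * o.a :=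
    (allPole_eq (by linarith [hB.u_lt])).1
  have hP : 0 < (S + d) / 2 - u * o.a := by
    rw [← eP]
    exact allPole_pos ha0 (sub_pos.2 hab)
  have hbb : 0 < (S + d) / 2 := ha0.trans hab
  obtain ⟨vu, vX, va, vI, vd, vb, vv, vQ, vD, vS, -, -⟩ := o.vals
  have eu : o.u = u := rfl
  have eIb : (1 - ((S - d) / 2 + (S + d) / 2)) / 2 = o.I := by simp only [ho, ptOf]; ring
  have ea : (S - d) / 2 = o.a := rfl
  have l := hl
  have r := hr
  have ep : bandHigh.pole.val o.x = 100 * ((S + d) / 2 - u * o.a) := by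
    simp only [bandHigh, val_mul, val_sub, val_num, vu, va, vb, eb, eu]
    push_cast
    ring
  have p0 : 0 < bandHigh.pole.val o.x := by rw [ep]; positivity
  simp only [allStabLG, allStabUG, allStabG, allStabI, eIb] at l r
  rw [ea, eP] at l r
  rw [← ep, div_le_iff₀ p0] at l
  rw [← ep, le_div_iff₀ p0] at r
  refine ⟨hB.den_pos, p0, le_of_eq_of_le ?_ l, le_of_le_of_eq r ?_⟩
  · simp only [bandHigh, xK100, val_mul, val_sub, val_add, val_num, vu, va, vI, vb, vv, eb,
      ev, eu, allStabN, allStabK, allStabLC]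
    push_cast
    ring
  · simp only [bandHigh, xK100, val_mul, val_sub, val_add, val_num, vu, va, vI, vb, vv, eb,
      ev, eu, allStabN, allStabK, allStabUC]
    push_cast
    ring

/-- The ranges at a point before the exit. -/
structure PtR.Range (o : PtR) : Prop where
  X_pos : 0 < o.X
  X_low : 1 < o.X * (1 + 2 * o.a * o.I)
  X_high : o.X * allExitDen o.I o.a o.u ≤ 56 + 100 * o.I
  a_pos : 0 < o.a
  u_pos : 0 < o.u
  I_pos : 0 < o.I
  I_le : o.I ≤ 1 / 20

/-- The signs on the first bands. -/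
theorem signs_bandLow {n : ℕ} (hb : ChartBox n d S) (hB : Basic d S u v t) (R : (ptOf d S u v).Range)
    (hA : (ptOf d S u v).Adm bandLow (chH d S u v t)) (h9 : u ≤ 9 / 40) : ChartSigns d S u v t := by
  set o := ptOf d S u v with ho
  obtain ⟨hX, hXl, hXh, ha0, hu0, hI, hI20⟩ := R
  have eu : o.u = u := rfl
  have ha : o.a ≤ 31 / 100 := hB.a_le
  rcases le_or_gt o.a (2 / 25) with a1 | a1
  · rcases le_or_gt o.u (1 / 8) with u1 | u1
    · have l := X_low hX hXl ha0.le a1 hI.le hI20
      have r := X_high hX hXh ha0.le a1 hu0.le u1 hI.le hI20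
      refine Piece.AllHold.signs hb hB (piece0_holds ?_) hA
      refine PtR.In.of_bounds ?_ ?_ ?_ ?_ <;> simp only [box0, InChart] <;>
        norm_num at l r ⊢ <;> (try constructor) <;> linarith
    · have l := X_low hX hXl ha0.le a1 hI.le hI20
      have r := X_high hX hXh ha0.le a1 hu0.le (eu.le.trans h9) hI.le hI20
      refine Piece.AllHold.signs hb hB (piece1_holds ?_) hA
      refine PtR.In.of_bounds ?_ ?_ ?_ ?_ <;> simp only [box1, InChart] <;>
        norm_num at l r ⊢ <;> (try constructor) <;> linarith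
  rcases le_or_gt o.a (4 / 25) with a2 | a2
  · rcases le_or_gt o.u (3 / 20) with u1 | u1
    · have l := X_low hX hXl ha0.le a2 hI.le hI20
      have r := X_high hX hXh ha0.le a2 hu0.le u1 hI.le hI20
      refine Piece.AllHold.signs hb hB (piece2_holds ?_) hA
      refine PtR.In.of_bounds ?_ ?_ ?_ ?_ <;> simp only [box2, InChart] <;>
        norm_num at l r ⊢ <;> (try constructor) <;> linarith
    · have l := X_low hX hXl ha0.le a2 hI.le hI20
      have r := X_high hX hXh ha0.le a2 hu0.le (eu.le.trans h9) hI.le hI20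
      refine Piece.AllHold.signs hb hB (piece3_holds ?_) hA
      refine PtR.In.of_bounds ?_ ?_ ?_ ?_ <;> simp only [box3, InChart] <;>
        norm_num at l r ⊢ <;> (try constructor) <;> linarith
  have a3 : o.a ≤ 31 / 100 := ha
  rcases le_or_gt o.u (1 / 8) with u1 | u1
  · have l := X_low hX hXl ha0.le a3 hI.le hI20
    have r := X_high hX hXh ha0.le a3 hu0.le u1 hI.le hI20
    refine Piece.AllHold.signs hb hB (piece4_holds ?_) hA
    refine PtR.In.of_bounds ?_ ?_ ?_ ?_ <;> simp only [box4, InChart] <;>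
      norm_num at l r ⊢ <;> (try constructor) <;> linarith
  · have l := X_low hX hXl ha0.le a3 hI.le hI20
    have r := X_high hX hXh ha0.le a3 hu0.le (eu.le.trans h9) hI.le hI20
    refine Piece.AllHold.signs hb hB (piece5_holds ?_) hA
    refine PtR.In.of_bounds ?_ ?_ ?_ ?_ <;> simp only [box5, InChart] <;>
      norm_num at l r ⊢ <;> (try constructor) <;> linarith

/-- The signs on the stable bands. -/
theorem signs_bandHigh {n : ℕ} (hb : ChartBox n d S) (hB : Basic d S u v t) (R : (ptOf d S u v).Range)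
    (hA : (ptOf d S u v).Adm bandHigh (chH d S u v t)) (h9 : 9 / 40 < u) (hu : u ≤ 3 / 5) : ChartSigns d S u v t := by
  set o := ptOf d S u v with ho
  obtain ⟨hX, hXl, hXh, ha0, hu0, hI, hI20⟩ := R
  have eu : o.u = u := rfl
  have ha : o.a ≤ 31 / 100 := hB.a_le
  have u2 : o.u ≤ 3 / 5 := hu
  have u0 : 9 / 40 < o.u := h9
  rcases le_or_gt o.a (2 / 25) with a1 | a1
  · rcases le_or_gt o.u (3 / 8) with u1 | u1
    · have l := X_low hX hXl ha0.le a1 hI.le hI20
      have r := X_high hX hXh ha0.le a1 hu0.le u1 hI.le hI20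
      refine Piece.AllHold.signs hb hB (piece6_holds ?_) hA
      refine PtR.In.of_bounds ?_ ?_ ?_ ?_ <;> simp only [box6, InChart] <;>
        norm_num at l r ⊢ <;> (try constructor) <;> linarith
    · have l := X_low hX hXl ha0.le a1 hI.le hI20
      have r := X_high hX hXh ha0.le a1 hu0.le u2 hI.le hI20
      refine Piece.AllHold.signs hb hB (piece8_holds ?_) hA
      refine PtR.In.of_bounds ?_ ?_ ?_ ?_ <;> simp only [box8, InChart] <;>
        norm_num at l r ⊢ <;> (try constructor) <;> linarith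
  rcases le_or_gt o.a (4 / 25) with a2 | a2
  · rcases le_or_gt o.u (3 / 8) with u1 | u1
    · have l := X_low hX hXl ha0.le a2 hI.le hI20
      have r := X_high hX hXh ha0.le a2 hu0.le u1 hI.le hI20
      refine Piece.AllHold.signs hb hB (piece7_holds ?_) hA
      refine PtR.In.of_bounds ?_ ?_ ?_ ?_ <;> simp only [box7, InChart] <;>
        norm_num at l r ⊢ <;> (try constructor) <;> linarith
    · have l := X_low hX hXl ha0.le a2 hI.le hI20
      have r := X_high hX hXh ha0.le a2 hu0.le u2 hI.le hI20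
      refine Piece.AllHold.signs hb hB (piece9_holds ?_) hA
      refine PtR.In.of_bounds ?_ ?_ ?_ ?_ <;> simp only [box9, InChart] <;>
        norm_num at l r ⊢ <;> (try constructor) <;> linarith
  have a3 : o.a ≤ 31 / 100 := ha
  rcases le_or_gt o.u (3 / 8) with u1 | u1
  · have l := X_low hX hXl ha0.le a3 hI.le hI20
    have r := X_high hX hXh ha0.le a3 hu0.le u1 hI.le hI20
    refine Piece.AllHold.signs hb hB (piece10_holds ?_) hA
    refine PtR.In.of_bounds ?_ ?_ ?_ ?_ <;> simp only [box10, InChart] <;>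
      norm_num at l r ⊢ <;> (try constructor) <;> linarith
  rcases le_or_gt o.a (6 / 25) with a4 | a4
  · have l := X_low hX hXl ha0.le a4 hI.le hI20
    have r := X_high hX hXh ha0.le a4 hu0.le u2 hI.le hI20
    refine Piece.AllHold.signs hb hB (piece11_holds ?_) hA
    refine PtR.In.of_bounds ?_ ?_ ?_ ?_ <;> simp only [box11, InChart] <;>
      norm_num at l r ⊢ <;> (try constructor) <;> linarith
  · have l := X_low hX hXl ha0.le a3 hI.le hI20
    have r := X_high hX hXh ha0.le a3 hu0.le u2 hI.le hI20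
    refine Piece.AllHold.signs hb hB (piece12_holds ?_) hA
    refine PtR.In.of_bounds ?_ ?_ ?_ ?_ <;> simp only [box12, InChart] <;>
      norm_num at l r ⊢ <;> (try constructor) <;> linarith

/-- **The closed signs on `0 < u ≤ 3/5`, in every dimension from twenty on, for `a ≤ 31/100`.** -/
theorem signsLow_all {n : ℕ} (hn : 20 ≤ n) (hb : ChartBox n d S) (ha : (S - d) / 2 ≤ 31 / 100)
    (hu : u ≤ 3 / 5) (hF : ChartFacts d S u v t)
    (hexit : v * allExitDen ((1 - S) / 2) ((S - d) / 2) u ≤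
      2 * ((1 - S) / 2) * (56 + 100 * ((1 - S) / 2)))
    (hlow : u ≤ 9 / 40 →
      allLowG ((S - d) / 2) ((S + d) / 2) u v ≤ chH d S u v t ∧
        chH d S u v t ≤ allUpG ((S - d) / 2) ((S + d) / 2) u v)
    (hstab : 9 / 40 < u →
      allStabLG ((S - d) / 2) ((S + d) / 2) u v ≤ chH d S u v t ∧
        chH d S u v t ≤ allStabUG ((S - d) / 2) ((S + d) / 2) u v) :
    ChartSigns d S u v t := by
  have hB := Basic.of_facts hb hn ha hF
  set o := ptOf d S u v with ho
  obtain ⟨e1, eb, ev, eS⟩ : o.d = d ∧ o.b = (S + d) / 2 ∧ o.v = v ∧ o.S = S :=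
    ptOf_eqs hB.S_lt
  have hp := hB.pos
  have hI20 : o.I ≤ 1 / 20 := by
    have := hB.S_low
    simp only [ho, ptOf]
    linarith
  have hX : 0 < o.X := div_pos hB.v_pos (sub_pos.2 hB.S_lt)
  have hI : 0 < o.I := hp.I_pos
  have ha0 : 0 < o.a := hp.a_pos
  have hu0 : 0 < o.u := hB.u_pos
  have eX : v = 2 * o.I * o.X := by
    have : 1 - S ≠ 0 := (sub_pos.2 hB.S_lt).ne'
    simp only [ho, ptOf]
    field_simp
  have hXl : 1 < o.X * (1 + 2 * o.a * o.I) := by
    refine lt_of_mul_lt_mul_left (a := 2 * (2 * o.I)) ?_ (by positivity)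
    have h := hF.v_crit
    rw [show 1 - S = 2 * o.I by simp only [ho, ptOf]; ring,
      show S - d = 2 * o.a by simp only [ho, ptOf]; ring, eX] at h
    linarith
  have hXh : o.X * allExitDen o.I o.a o.u ≤ 56 + 100 * o.I := by
    refine le_of_mul_le_mul_left (a := 2 * o.I) ?_ (by positivity)
    have h : v * allExitDen o.I o.a o.u ≤ 2 * o.I * (56 + 100 * o.I) := hexit
    rw [eX] at h
    linarith
  have R : o.Range := ⟨hX, hXl, hXh, ha0, hu0, hI, hI20⟩
  rcases le_or_gt u (9 / 40) with h9 | h9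
  · exact signs_bandLow hb hB R (hB.adm_low (hlow h9).1 (hlow h9).2) h9
  · exact signs_bandHigh hb hB R (hB.adm_high (hstab h9).1 (hstab h9).2) h9 hu

end

end Vale.Agent.P100.Calib.Closed.All.Low
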