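import Vale.Agent.P100.Calib.SlabSignsAllNegBox

/-!
# Checks below the crossing, piece A
-/

set_option linter.defProp false

namespace Vale.Agent.P100.Calib.Closed.All.SgnNeg

open BoxPos

def gyA0000 :
    Ex.checkNonneg (cGY 3 false (pE false) (gE false) (tE false) eK1) boxA 410 ⟨3, 8, 29, 16⟩ = true := by decide +kernel

def gyA0001 :
    Ex.checkNonneg (cGY 3 false (pE false) (gE false) (tE true) eK1) boxA 410 ⟨3, 8, 29, 16⟩ = true := by decide +kernel

def gyA0010 :
    Ex.checkNonneg (cGY 3 false (pE false) (gE true) (tE false) eK1) boxA 410 ⟨3, 8, 29, 16⟩ = true := by decide +kernel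

def gyA0011 :
    Ex.checkNonneg (cGY 3 false (pE false) (gE true) (tE true) eK1) boxA 410 ⟨3, 8, 29, 16⟩ = true := by decide +kernel

def gyA0100 :
    Ex.checkNonneg (cGY 3 false (pE true) (gE false) (tE false) eK1) boxA 410 ⟨3, 8, 29, 16⟩ = true := by decide +kernel

def gyA0101 :
    Ex.checkNonneg (cGY 3 false (pE true) (gE false) (tE true) eK1) boxA 410 ⟨3, 8, 29, 16⟩ = true := by decide +kernel

def gyA0110 :
    Ex.checkNonneg (cGY 3 false (pE true) (gE true) (tE false) eK1) boxA 410 ⟨3, 8, 29, 16⟩ = true := by decide +kernel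

def gyA0111 :
    Ex.checkNonneg (cGY 3 false (pE true) (gE true) (tE true) eK1) boxA 410 ⟨3, 8, 29, 16⟩ = true := by decide +kernel

def gyA1000 :
    Ex.checkNonneg (cGY 3 true (pE false) (gE false) (tE false) eK1) boxA 410 ⟨3, 8, 29, 16⟩ = true := by decide +kernel

def gyA1001 :
    Ex.checkNonneg (cGY 3 true (pE false) (gE false) (tE true) eK1) boxA 410 ⟨3, 8, 29, 16⟩ = true := by decide +kernel

def gyA1010 :
    Ex.checkNonneg (cGY 3 true (pE false) (gE true) (tE false) eK1) boxA 410 ⟨3, 8, 29, 16⟩ = true := by decide +kernel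

def gyA1011 :
    Ex.checkNonneg (cGY 3 true (pE false) (gE true) (tE true) eK1) boxA 410 ⟨3, 8, 29, 16⟩ = true := by decide +kernel

def gyA1100 :
    Ex.checkNonneg (cGY 3 true (pE true) (gE false) (tE false) eK1) boxA 410 ⟨3, 8, 29, 16⟩ = true := by decide +kernel

def gyA1101 :
    Ex.checkNonneg (cGY 3 true (pE true) (gE false) (tE true) eK1) boxA 410 ⟨3, 8, 29, 16⟩ = true := by decide +kernel

def gyA1110 :
    Ex.checkNonneg (cGY 3 true (pE true) (gE true) (tE false) eK1) boxA 410 ⟨3, 8, 29, 16⟩ = true := by decide +kernel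

def gyA1111 :
    Ex.checkNonneg (cGY 3 true (pE true) (gE true) (tE true) eK1) boxA 410 ⟨3, 8, 29, 16⟩ = true := by decide +kernel

theorem gyA : ∀ s i j l : Bool,
    Ex.checkNonneg (cGY 3 s (pE i) (gE j) (tE l) eK1) boxA 410 ⟨3, 8, 29, 16⟩ = true
  | false, false, false, false => gyA0000
  | false, false, false, true => gyA0001
  | false, false, true, false => gyA0010
  | false, false, true, true => gyA0011
  | false, true, false, false => gyA0100
  | false, true, false, true => gyA0101
  | false, true, true, false => gyA0110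
  | false, true, true, true => gyA0111
  | true, false, false, false => gyA1000
  | true, false, false, true => gyA1001
  | true, false, true, false => gyA1010
  | true, false, true, true => gyA1011
  | true, true, false, false => gyA1100
  | true, true, false, true => gyA1101
  | true, true, true, false => gyA1110
  | true, true, true, true => gyA1111

def lgA00 :
    Ex.checkNonneg (fLG (tE false) (tE false) eK1) boxA 251 ⟨2, 5, 16, 10⟩ = true := by decide +kernel

def lgA01 :
    Ex.checkNonneg (fLG (tE false) (tE true) eK1) boxA 251 ⟨2, 5, 16, 10⟩ = true := by decide +kernel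

def lgA10 :
    Ex.checkNonneg (fLG (tE true) (tE false) eK1) boxA 251 ⟨2, 5, 16, 10⟩ = true := by decide +kernel

def lgA11 :
    Ex.checkNonneg (fLG (tE true) (tE true) eK1) boxA 251 ⟨2, 5, 16, 10⟩ = true := by decide +kernel

theorem lgA : ∀ i l : Bool,
    Ex.checkNonneg (fLG (tE i) (tE l) eK1) boxA 251 ⟨2, 5, 16, 10⟩ = true
  | false, false => lgA00
  | false, true => lgA01
  | true, false => lgA10
  | true, true => lgA11

def dgyA0 :
    Ex.checkNonneg (dGY 3 false) boxA 253 ⟨0, 5, 21, 11⟩ = true := by decide +kernel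

def dgyA1 :
    Ex.checkNonneg (dGY 3 true) boxA 253 ⟨0, 5, 21, 11⟩ = true := by decide +kernel

theorem dgyA : ∀ s : Bool,
    Ex.checkNonneg (dGY 3 s) boxA 253 ⟨0, 5, 21, 11⟩ = true
  | false => dgyA0
  | true => dgyA1

def dlA0 :
    Ex.checkNonneg (dL 3 false) boxA 257 ⟨0, 5, 20, 12⟩ = true := by decide +kernel

def dlA1 :
    Ex.checkNonneg (dL 3 true) boxA 257 ⟨0, 5, 20, 12⟩ = true := by decide +kernel

theorem dlA : ∀ s : Bool,
    Ex.checkNonneg (dL 3 s) boxA 257 ⟨0, 5, 20, 12⟩ = true
  | false => dlA0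
  | true => dlA1

def dggA :
    Ex.checkNonneg (dGG) boxA 165 ⟨0, 5, 15, 5⟩ = true := by decide +kernel

def dteA :
    Ex.checkNonneg (dTE) boxA 152 ⟨0, 4, 13, 6⟩ = true := by decide +kernel

def dneA :
    Ex.checkNonneg (dNE) boxA 145 ⟨0, 4, 12, 6⟩ = true := by decide +kernel

def dnpA :
    Ex.checkNonneg (dNP) boxA 234 ⟨0, 5, 18, 11⟩ = true := by decide +kernel

def dtwA :
    Ex.checkNonneg (dTW) boxA 70 ⟨0, 2, 5, 2⟩ = true := by decide +kernel

def dnwA :
    Ex.checkNonneg (dNW) boxA 64 ⟨0, 2, 4, 2⟩ = true := by decide +kernel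

def dxwA :
    Ex.checkNonneg (dXW) boxA 39 ⟨0, 1, 3, 1⟩ = true := by decide +kernel

def eplA :
    Ex.checkNonneg (envPL upEncl) boxA 148 ⟨3, 2, 9, 6⟩ = true := by decide +kernel

def ephA :
    Ex.checkNonneg (envPH upEncl) boxA 162 ⟨3, 2, 10, 7⟩ = true := by decide +kernel

def eghA :
    Ex.checkNonneg (envGH upEncl) boxA 160 ⟨3, 1, 9, 8⟩ = true := by decide +kernel

def eglA :
    Ex.checkNonneg (envGL upEncl) boxA 174 ⟨3, 1, 10, 9⟩ = true := by decide +kernel

def etlA :
    Ex.checkNonneg (envTL upEncl) boxA 114 ⟨2, 1, 6, 6⟩ = true := by decide +kernel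

def ethA :
    Ex.checkNonneg (envTH upEncl) boxA 121 ⟨2, 1, 7, 6⟩ = true := by decide +kernel

end Vale.Agent.P100.Calib.Closed.All.SgnNeg
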