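import Vale.Agent.P100.Calib.SlabSignsAllNegBox

/-!
# Checks below the crossing, piece A
-/

set_option linter.defProp false

namespace Vale.Agent.P100.Calib.Closed.All.SgnNeg

open BoxPos

def arA0000 :
    Ex.checkNonneg (cL 3 false (pE false) (gE false) (tE false) (wE false) eK1) boxA 433 ⟨4, 7, 27, 19⟩ = true := by decide +kernel

def arA0001 :
    Ex.checkNonneg (cL 3 false (pE false) (gE false) (tE true) (wE false) eK1) boxA 433 ⟨4, 7, 27, 19⟩ = true := by decide +kernel

def arA0010 :
    Ex.checkNonneg (cL 3 false (pE false) (gE true) (tE false) (wE false) eK1) boxA 433 ⟨4, 7, 27, 19⟩ = true := by decide +kernel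

def arA0011 :
    Ex.checkNonneg (cL 3 false (pE false) (gE true) (tE true) (wE false) eK1) boxA 433 ⟨4, 7, 27, 19⟩ = true := by decide +kernel

def arA0100 :
    Ex.checkNonneg (cL 3 false (pE true) (gE false) (tE false) (wE false) eK1) boxA 433 ⟨4, 7, 27, 19⟩ = true := by decide +kernel

def arA0101 :
    Ex.checkNonneg (cL 3 false (pE true) (gE false) (tE true) (wE false) eK1) boxA 433 ⟨4, 7, 27, 19⟩ = true := by decide +kernel

def arA0110 :
    Ex.checkNonneg (cL 3 false (pE true) (gE true) (tE false) (wE false) eK1) boxA 433 ⟨4, 7, 27, 19⟩ = true := by decide +kernel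

def arA0111 :
    Ex.checkNonneg (cL 3 false (pE true) (gE true) (tE true) (wE false) eK1) boxA 433 ⟨4, 7, 27, 19⟩ = true := by decide +kernel

def arA1000 :
    Ex.checkNonneg (cL 3 true (pE false) (gE false) (tE false) (wE false) eK1) boxA 433 ⟨4, 7, 27, 19⟩ = true := by decide +kernel

def arA1001 :
    Ex.checkNonneg (cL 3 true (pE false) (gE false) (tE true) (wE false) eK1) boxA 433 ⟨4, 7, 27, 19⟩ = true := by decide +kernel

def arA1010 :
    Ex.checkNonneg (cL 3 true (pE false) (gE true) (tE false) (wE false) eK1) boxA 433 ⟨4, 7, 27, 19⟩ = true := by decide +kernel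

def arA1011 :
    Ex.checkNonneg (cL 3 true (pE false) (gE true) (tE true) (wE false) eK1) boxA 433 ⟨4, 7, 27, 19⟩ = true := by decide +kernel

def arA1100 :
    Ex.checkNonneg (cL 3 true (pE true) (gE false) (tE false) (wE false) eK1) boxA 433 ⟨4, 7, 27, 19⟩ = true := by decide +kernel

def arA1101 :
    Ex.checkNonneg (cL 3 true (pE true) (gE false) (tE true) (wE false) eK1) boxA 433 ⟨4, 7, 27, 19⟩ = true := by decide +kernel

def arA1110 :
    Ex.checkNonneg (cL 3 true (pE true) (gE true) (tE false) (wE false) eK1) boxA 433 ⟨4, 7, 27, 19⟩ = true := by decide +kernel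

def arA1111 :
    Ex.checkNonneg (cL 3 true (pE true) (gE true) (tE true) (wE false) eK1) boxA 433 ⟨4, 7, 27, 19⟩ = true := by decide +kernel

theorem arA : ∀ s i j l : Bool,
    Ex.checkNonneg (cL 3 s (pE i) (gE j) (tE l) (wE false) eK1) boxA 433 ⟨4, 7, 27, 19⟩ = true
  | false, false, false, false => arA0000
  | false, false, false, true => arA0001
  | false, false, true, false => arA0010
  | false, false, true, true => arA0011
  | false, true, false, false => arA0100
  | false, true, false, true => arA0101
  | false, true, true, false => arA0110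
  | false, true, true, true => arA0111
  | true, false, false, false => arA1000
  | true, false, false, true => arA1001
  | true, false, true, false => arA1010
  | true, false, true, true => arA1011
  | true, true, false, false => arA1100
  | true, true, false, true => arA1101
  | true, true, true, false => arA1110
  | true, true, true, true => arA1111

end Vale.Agent.P100.Calib.Closed.All.SgnNeg
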