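import Vale.Agent.P100.Calib.SlabSignsAllNegBox

/-!
# Checks below the crossing, piece A
-/

set_option linter.defProp false

namespace Vale.Agent.P100.Calib.Closed.All.SgnNeg

open BoxPos

def mgA000 :
    Ex.checkNonneg (fN (pE false) (gE false) (tE false) (wE true) eK1) boxA 404 ⟨4, 7, 24, 18⟩ = true := by decide +kernel

def mgA001 :
    Ex.checkNonneg (fN (pE false) (gE false) (tE true) (wE true) eK1) boxA 404 ⟨4, 7, 24, 18⟩ = true := by decide +kernel

def mgA010 :
    Ex.checkNonneg (fN (pE false) (gE true) (tE false) (wE true) eK1) boxA 404 ⟨4, 7, 24, 18⟩ = true := by decide +kernel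

def mgA011 :
    Ex.checkNonneg (fN (pE false) (gE true) (tE true) (wE true) eK1) boxA 404 ⟨4, 7, 24, 18⟩ = true := by decide +kernel

def mgA100 :
    Ex.checkNonneg (fN (pE true) (gE false) (tE false) (wE true) eK1) boxA 404 ⟨4, 7, 24, 18⟩ = true := by decide +kernel

def mgA101 :
    Ex.checkNonneg (fN (pE true) (gE false) (tE true) (wE true) eK1) boxA 404 ⟨4, 7, 24, 18⟩ = true := by decide +kernel

def mgA110 :
    Ex.checkNonneg (fN (pE true) (gE true) (tE false) (wE true) eK1) boxA 404 ⟨4, 7, 24, 18⟩ = true := by decide +kernel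

def mgA111 :
    Ex.checkNonneg (fN (pE true) (gE true) (tE true) (wE true) eK1) boxA 404 ⟨4, 7, 24, 18⟩ = true := by decide +kernel

theorem mgA : ∀ i j l : Bool,
    Ex.checkNonneg (fN (pE i) (gE j) (tE l) (wE true) eK1) boxA 404 ⟨4, 7, 24, 18⟩ = true
  | false, false, false => mgA000
  | false, false, true => mgA001
  | false, true, false => mgA010
  | false, true, true => mgA011
  | true, false, false => mgA100
  | true, false, true => mgA101
  | true, true, false => mgA110
  | true, true, true => mgA111

end Vale.Agent.P100.Calib.Closed.All.SgnNeg
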