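import Vale.Agent.P100.Calib.SlabSignsAllNegBox

/-!
# Checks below the crossing, piece A
-/

set_option linter.defProp false

namespace Vale.Agent.P100.Calib.Closed.All.SgnNeg

open BoxPos

def xbA0000 :
    Ex.checkNonneg (cX false (pE false) (gE false) (tE false) (wE false)) boxA 262 ⟨3, 4, 15, 12⟩ = true := by decide +kernel

def xbA0001 :
    Ex.checkNonneg (cX false (pE false) (gE false) (tE true) (wE false)) boxA 262 ⟨3, 4, 15, 12⟩ = true := by decide +kernel

def xbA0010 :
    Ex.checkNonneg (cX false (pE false) (gE true) (tE false) (wE false)) boxA 262 ⟨3, 4, 15, 12⟩ = true := by decide +kernel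

def xbA0011 :
    Ex.checkNonneg (cX false (pE false) (gE true) (tE true) (wE false)) boxA 262 ⟨3, 4, 15, 12⟩ = true := by decide +kernel

def xbA0100 :
    Ex.checkNonneg (cX false (pE true) (gE false) (tE false) (wE false)) boxA 262 ⟨3, 4, 15, 12⟩ = true := by decide +kernel

def xbA0101 :
    Ex.checkNonneg (cX false (pE true) (gE false) (tE true) (wE false)) boxA 262 ⟨3, 4, 15, 12⟩ = true := by decide +kernel

def xbA0110 :
    Ex.checkNonneg (cX false (pE true) (gE true) (tE false) (wE false)) boxA 262 ⟨3, 4, 15, 12⟩ = true := by decide +kernel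

def xbA0111 :
    Ex.checkNonneg (cX false (pE true) (gE true) (tE true) (wE false)) boxA 262 ⟨3, 4, 15, 12⟩ = true := by decide +kernel

def xbA1000 :
    Ex.checkNonneg (cX true (pE false) (gE false) (tE false) (wE true)) boxA 262 ⟨3, 4, 15, 12⟩ = true := by decide +kernel

def xbA1001 :
    Ex.checkNonneg (cX true (pE false) (gE false) (tE true) (wE true)) boxA 262 ⟨3, 4, 15, 12⟩ = true := by decide +kernel

def xbA1010 :
    Ex.checkNonneg (cX true (pE false) (gE true) (tE false) (wE true)) boxA 262 ⟨3, 4, 15, 12⟩ = true := by decide +kernel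

def xbA1011 :
    Ex.checkNonneg (cX true (pE false) (gE true) (tE true) (wE true)) boxA 262 ⟨3, 4, 15, 12⟩ = true := by decide +kernel

def xbA1100 :
    Ex.checkNonneg (cX true (pE true) (gE false) (tE false) (wE true)) boxA 262 ⟨3, 4, 15, 12⟩ = true := by decide +kernel

def xbA1101 :
    Ex.checkNonneg (cX true (pE true) (gE false) (tE true) (wE true)) boxA 262 ⟨3, 4, 15, 12⟩ = true := by decide +kernel

def xbA1110 :
    Ex.checkNonneg (cX true (pE true) (gE true) (tE false) (wE true)) boxA 262 ⟨3, 4, 15, 12⟩ = true := by decide +kernel

def xbA1111 :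
    Ex.checkNonneg (cX true (pE true) (gE true) (tE true) (wE true)) boxA 262 ⟨3, 4, 15, 12⟩ = true := by decide +kernel

theorem xbA : ∀ s i j l : Bool,
    Ex.checkNonneg (cX s (pE i) (gE j) (tE l) (wE s)) boxA 262 ⟨3, 4, 15, 12⟩ = true
  | false, false, false, false => xbA0000
  | false, false, false, true => xbA0001
  | false, false, true, false => xbA0010
  | false, false, true, true => xbA0011
  | false, true, false, false => xbA0100
  | false, true, false, true => xbA0101
  | false, true, true, false => xbA0110
  | false, true, true, true => xbA0111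
  | true, false, false, false => xbA1000
  | true, false, false, true => xbA1001
  | true, false, true, false => xbA1010
  | true, false, true, true => xbA1011
  | true, true, false, false => xbA1100
  | true, true, false, true => xbA1101
  | true, true, true, false => xbA1110
  | true, true, true, true => xbA1111

end Vale.Agent.P100.Calib.Closed.All.SgnNeg
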