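import Vale.Agent.P100.Calib.SlabSignsAllNegSound
import Vale.Agent.P100.Calib.SlabSignsAllNegAGY
import Vale.Agent.P100.Calib.SlabSignsAllNegAX
import Vale.Agent.P100.Calib.SlabSignsAllNegAL
import Vale.Agent.P100.Calib.SlabSignsAllNegAN

/-!
# The points of piece A are good
-/

namespace Vale.Agent.P100.Calib.Closed.All.SgnNeg

open BoxPos

theorem goodA {x : ℕ → ℝ} (hx : ∀ i < 4, ∃ t : ℝ, 0 ≤ t ∧ 0 < ((boxA i).c : ℝ) + (boxA i).d * t ∧
    ((boxA i).a : ℝ) + (boxA i).b * t = x i * (((boxA i).c : ℝ) + (boxA i).d * t)) :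
    Good upEncl eK1 x 3 where
  gy s i j l := Ex.nonneg_of_checkNonneg (gyA s i j l) hx
  xb s i j l := Ex.nonneg_of_checkNonneg (xbA s i j l) hx
  arrow s i j l := Ex.nonneg_of_checkNonneg (arA s i j l) hx
  mg i j l := Ex.nonneg_of_checkNonneg (mgA i j l) hx
  lg i l := Ex.nonneg_of_checkNonneg (lgA i l) hx
  cgy s := Ex.nonneg_of_checkNonneg (dgyA s) hx
  cl s := Ex.nonneg_of_checkNonneg (dlA s) hx
  cgg := Ex.nonneg_of_checkNonneg dggA hx
  cte := Ex.nonneg_of_checkNonneg dteA hx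
  cne := Ex.nonneg_of_checkNonneg dneA hx
  cnp := Ex.nonneg_of_checkNonneg dnpA hx
  tw := Ex.nonneg_of_checkNonneg dtwA hx
  nw := Ex.nonneg_of_checkNonneg dnwA hx
  xw := Ex.nonneg_of_checkNonneg dxwA hx
  pl := Ex.nonneg_of_checkNonneg eplA hx
  ph := Ex.nonneg_of_checkNonneg ephA hx
  gh := Ex.nonneg_of_checkNonneg eghA hx
  gl := Ex.nonneg_of_checkNonneg eglA hx
  tl := Ex.nonneg_of_checkNonneg etlA hx
  th := Ex.nonneg_of_checkNonneg ethA hx

end Vale.Agent.P100.Calib.Closed.All.SgnNeg
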