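import Vale.Agent.P100.Calib.SlabSignsAllNegBox

/-!
# Checks below the crossing, piece B
-/

set_option linter.defProp false

namespace Vale.Agent.P100.Calib.Closed.All.SgnNeg

open BoxPos

def gyB0000 :
    Ex.checkNonneg (cGY 3 false (pE false) (gE false) (tE false) eK1) boxB 474 ⟨3, 8, 29, 16⟩ = true := by decide +kernel

def gyB0001 :
    Ex.checkNonneg (cGY 3 false (pE false) (gE false) (tE true) eK1) boxB 474 ⟨3, 8, 29, 16⟩ = true := by decide +kernel

def gyB0010 :
    Ex.checkNonneg (cGY 3 false (pE false) (gE true) (tE false) eK1) boxB 474 ⟨3, 8, 29, 16⟩ = true := by decide +kernel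

def gyB0011 :
    Ex.checkNonneg (cGY 3 false (pE false) (gE true) (tE true) eK1) boxB 474 ⟨3, 8, 29, 16⟩ = true := by decide +kernel

def gyB0100 :
    Ex.checkNonneg (cGY 3 false (pE true) (gE false) (tE false) eK1) boxB 474 ⟨3, 8, 29, 16⟩ = true := by decide +kernel

def gyB0101 :
    Ex.checkNonneg (cGY 3 false (pE true) (gE false) (tE true) eK1) boxB 474 ⟨3, 8, 29, 16⟩ = true := by decide +kernel

def gyB0110 :
    Ex.checkNonneg (cGY 3 false (pE true) (gE true) (tE false) eK1) boxB 474 ⟨3, 8, 29, 16⟩ = true := by decide +kernel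

def gyB0111 :
    Ex.checkNonneg (cGY 3 false (pE true) (gE true) (tE true) eK1) boxB 474 ⟨3, 8, 29, 16⟩ = true := by decide +kernel

def gyB1000 :
    Ex.checkNonneg (cGY 3 true (pE false) (gE false) (tE false) eK1) boxB 474 ⟨3, 8, 29, 16⟩ = true := by decide +kernel

def gyB1001 :
    Ex.checkNonneg (cGY 3 true (pE false) (gE false) (tE true) eK1) boxB 474 ⟨3, 8, 29, 16⟩ = true := by decide +kernel

def gyB1010 :
    Ex.checkNonneg (cGY 3 true (pE false) (gE true) (tE false) eK1) boxB 474 ⟨3, 8, 29, 16⟩ = true := by decide +kernel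

def gyB1011 :
    Ex.checkNonneg (cGY 3 true (pE false) (gE true) (tE true) eK1) boxB 474 ⟨3, 8, 29, 16⟩ = true := by decide +kernel

def gyB1100 :
    Ex.checkNonneg (cGY 3 true (pE true) (gE false) (tE false) eK1) boxB 474 ⟨3, 8, 29, 16⟩ = true := by decide +kernel

def gyB1101 :
    Ex.checkNonneg (cGY 3 true (pE true) (gE false) (tE true) eK1) boxB 474 ⟨3, 8, 29, 16⟩ = true := by decide +kernel

def gyB1110 :
    Ex.checkNonneg (cGY 3 true (pE true) (gE true) (tE false) eK1) boxB 474 ⟨3, 8, 29, 16⟩ = true := by decide +kernel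

def gyB1111 :
    Ex.checkNonneg (cGY 3 true (pE true) (gE true) (tE true) eK1) boxB 474 ⟨3, 8, 29, 16⟩ = true := by decide +kernel

theorem gyB : ∀ s i j l : Bool,
    Ex.checkNonneg (cGY 3 s (pE i) (gE j) (tE l) eK1) boxB 474 ⟨3, 8, 29, 16⟩ = true
  | false, false, false, false => gyB0000
  | false, false, false, true => gyB0001
  | false, false, true, false => gyB0010
  | false, false, true, true => gyB0011
  | false, true, false, false => gyB0100
  | false, true, false, true => gyB0101
  | false, true, true, false => gyB0110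
  | false, true, true, true => gyB0111
  | true, false, false, false => gyB1000
  | true, false, false, true => gyB1001
  | true, false, true, false => gyB1010
  | true, false, true, true => gyB1011
  | true, true, false, false => gyB1100
  | true, true, false, true => gyB1101
  | true, true, true, false => gyB1110
  | true, true, true, true => gyB1111

def lgB00 :
    Ex.checkNonneg (fLG (tE false) (tE false) eK1) boxB 289 ⟨2, 5, 16, 10⟩ = true := by decide +kernel

def lgB01 :
    Ex.checkNonneg (fLG (tE false) (tE true) eK1) boxB 289 ⟨2, 5, 16, 10⟩ = true := by decide +kernel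

def lgB10 :
    Ex.checkNonneg (fLG (tE true) (tE false) eK1) boxB 289 ⟨2, 5, 16, 10⟩ = true := by decide +kernel

def lgB11 :
    Ex.checkNonneg (fLG (tE true) (tE true) eK1) boxB 289 ⟨2, 5, 16, 10⟩ = true := by decide +kernel

theorem lgB : ∀ i l : Bool,
    Ex.checkNonneg (fLG (tE i) (tE l) eK1) boxB 289 ⟨2, 5, 16, 10⟩ = true
  | false, false => lgB00
  | false, true => lgB01
  | true, false => lgB10
  | true, true => lgB11

def dgyB0 :
    Ex.checkNonneg (dGY 3 false) boxB 297 ⟨0, 5, 21, 11⟩ = true := by decide +kernel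

def dgyB1 :
    Ex.checkNonneg (dGY 3 true) boxB 297 ⟨0, 5, 21, 11⟩ = true := by decide +kernel

theorem dgyB : ∀ s : Bool,
    Ex.checkNonneg (dGY 3 s) boxB 297 ⟨0, 5, 21, 11⟩ = true
  | false => dgyB0
  | true => dgyB1

def dlB0 :
    Ex.checkNonneg (dL 3 false) boxB 302 ⟨0, 5, 20, 12⟩ = true := by decide +kernel

def dlB1 :
    Ex.checkNonneg (dL 3 true) boxB 302 ⟨0, 5, 20, 12⟩ = true := by decide +kernel

theorem dlB : ∀ s : Bool,
    Ex.checkNonneg (dL 3 s) boxB 302 ⟨0, 5, 20, 12⟩ = true
  | false => dlB0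
  | true => dlB1

def dggB :
    Ex.checkNonneg (dGG) boxB 196 ⟨0, 5, 15, 5⟩ = true := by decide +kernel

def dteB :
    Ex.checkNonneg (dTE) boxB 181 ⟨0, 4, 13, 6⟩ = true := by decide +kernel

def dneB :
    Ex.checkNonneg (dNE) boxB 173 ⟨0, 4, 12, 6⟩ = true := by decide +kernel

def dnpB :
    Ex.checkNonneg (dNP) boxB 276 ⟨0, 5, 18, 11⟩ = true := by decide +kernel

def dtwB :
    Ex.checkNonneg (dTW) boxB 80 ⟨0, 2, 5, 2⟩ = true := by decide +kernel

def dnwB :
    Ex.checkNonneg (dNW) boxB 73 ⟨0, 2, 4, 2⟩ = true := by decide +kernel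

def dxwB :
    Ex.checkNonneg (dXW) boxB 44 ⟨0, 1, 3, 1⟩ = true := by decide +kernel

def eplB :
    Ex.checkNonneg (envPL upEncl) boxB 169 ⟨3, 2, 9, 6⟩ = true := by decide +kernel

def ephB :
    Ex.checkNonneg (envPH upEncl) boxB 186 ⟨3, 2, 10, 7⟩ = true := by decide +kernel

def eghB :
    Ex.checkNonneg (envGH upEncl) boxB 183 ⟨3, 1, 9, 8⟩ = true := by decide +kernel

def eglB :
    Ex.checkNonneg (envGL upEncl) boxB 200 ⟨3, 1, 10, 9⟩ = true := by decide +kernel

def etlB :
    Ex.checkNonneg (envTL upEncl) boxB 131 ⟨2, 1, 6, 6⟩ = true := by decide +kernel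

def ethB :
    Ex.checkNonneg (envTH upEncl) boxB 139 ⟨2, 1, 7, 6⟩ = true := by decide +kernel

end Vale.Agent.P100.Calib.Closed.All.SgnNeg
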