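import Vale.Agent.P100.Calib.SlabSignsAllNegBox

/-!
# Checks below the crossing, piece B
-/

set_option linter.defProp false

namespace Vale.Agent.P100.Calib.Closed.All.SgnNeg

open BoxPos

def arB0000 :
    Ex.checkNonneg (cL 3 false (pE false) (gE false) (tE false) (wE false) eK1) boxB 498 ⟨4, 7, 27, 19⟩ = true := by decide +kernel

def arB0001 :
    Ex.checkNonneg (cL 3 false (pE false) (gE false) (tE true) (wE false) eK1) boxB 498 ⟨4, 7, 27, 19⟩ = true := by decide +kernel

def arB0010 :
    Ex.checkNonneg (cL 3 false (pE false) (gE true) (tE false) (wE false) eK1) boxB 498 ⟨4, 7, 27, 19⟩ = true := by decide +kernel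

def arB0011 :
    Ex.checkNonneg (cL 3 false (pE false) (gE true) (tE true) (wE false) eK1) boxB 498 ⟨4, 7, 27, 19⟩ = true := by decide +kernel

def arB0100 :
    Ex.checkNonneg (cL 3 false (pE true) (gE false) (tE false) (wE false) eK1) boxB 498 ⟨4, 7, 27, 19⟩ = true := by decide +kernel

def arB0101 :
    Ex.checkNonneg (cL 3 false (pE true) (gE false) (tE true) (wE false) eK1) boxB 498 ⟨4, 7, 27, 19⟩ = true := by decide +kernel

def arB0110 :
    Ex.checkNonneg (cL 3 false (pE true) (gE true) (tE false) (wE false) eK1) boxB 498 ⟨4, 7, 27, 19⟩ = true := by decide +kernel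

def arB0111 :
    Ex.checkNonneg (cL 3 false (pE true) (gE true) (tE true) (wE false) eK1) boxB 498 ⟨4, 7, 27, 19⟩ = true := by decide +kernel

def arB1000 :
    Ex.checkNonneg (cL 3 true (pE false) (gE false) (tE false) (wE false) eK1) boxB 498 ⟨4, 7, 27, 19⟩ = true := by decide +kernel

def arB1001 :
    Ex.checkNonneg (cL 3 true (pE false) (gE false) (tE true) (wE false) eK1) boxB 498 ⟨4, 7, 27, 19⟩ = true := by decide +kernel

def arB1010 :
    Ex.checkNonneg (cL 3 true (pE false) (gE true) (tE false) (wE false) eK1) boxB 498 ⟨4, 7, 27, 19⟩ = true := by decide +kernel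

def arB1011 :
    Ex.checkNonneg (cL 3 true (pE false) (gE true) (tE true) (wE false) eK1) boxB 498 ⟨4, 7, 27, 19⟩ = true := by decide +kernel

def arB1100 :
    Ex.checkNonneg (cL 3 true (pE true) (gE false) (tE false) (wE false) eK1) boxB 498 ⟨4, 7, 27, 19⟩ = true := by decide +kernel

def arB1101 :
    Ex.checkNonneg (cL 3 true (pE true) (gE false) (tE true) (wE false) eK1) boxB 498 ⟨4, 7, 27, 19⟩ = true := by decide +kernel

def arB1110 :
    Ex.checkNonneg (cL 3 true (pE true) (gE true) (tE false) (wE false) eK1) boxB 498 ⟨4, 7, 27, 19⟩ = true := by decide +kernel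

def arB1111 :
    Ex.checkNonneg (cL 3 true (pE true) (gE true) (tE true) (wE false) eK1) boxB 498 ⟨4, 7, 27, 19⟩ = true := by decide +kernel

theorem arB : ∀ s i j l : Bool,
    Ex.checkNonneg (cL 3 s (pE i) (gE j) (tE l) (wE false) eK1) boxB 498 ⟨4, 7, 27, 19⟩ = true
  | false, false, false, false => arB0000
  | false, false, false, true => arB0001
  | false, false, true, false => arB0010
  | false, false, true, true => arB0011
  | false, true, false, false => arB0100
  | false, true, false, true => arB0101
  | false, true, true, false => arB0110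
  | false, true, true, true => arB0111
  | true, false, false, false => arB1000
  | true, false, false, true => arB1001
  | true, false, true, false => arB1010
  | true, false, true, true => arB1011
  | true, true, false, false => arB1100
  | true, true, false, true => arB1101
  | true, true, true, false => arB1110
  | true, true, true, true => arB1111

end Vale.Agent.P100.Calib.Closed.All.SgnNeg
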