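import Vale.Agent.P100.Calib.SlabSignsAllNegBox

/-!
# Checks below the crossing, piece B
-/

set_option linter.defProp false

namespace Vale.Agent.P100.Calib.Closed.All.SgnNeg

open BoxPos

def mgB000 :
    Ex.checkNonneg (fN (pE false) (gE false) (tE false) (wE true) eK1) boxB 465 ⟨4, 7, 24, 18⟩ = true := by decide +kernel

def mgB001 :
    Ex.checkNonneg (fN (pE false) (gE false) (tE true) (wE true) eK1) boxB 465 ⟨4, 7, 24, 18⟩ = true := by decide +kernel

def mgB010 :
    Ex.checkNonneg (fN (pE false) (gE true) (tE false) (wE true) eK1) boxB 465 ⟨4, 7, 24, 18⟩ = true := by decide +kernel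

def mgB011 :
    Ex.checkNonneg (fN (pE false) (gE true) (tE true) (wE true) eK1) boxB 465 ⟨4, 7, 24, 18⟩ = true := by decide +kernel

def mgB100 :
    Ex.checkNonneg (fN (pE true) (gE false) (tE false) (wE true) eK1) boxB 465 ⟨4, 7, 24, 18⟩ = true := by decide +kernel

def mgB101 :
    Ex.checkNonneg (fN (pE true) (gE false) (tE true) (wE true) eK1) boxB 465 ⟨4, 7, 24, 18⟩ = true := by decide +kernel

def mgB110 :
    Ex.checkNonneg (fN (pE true) (gE true) (tE false) (wE true) eK1) boxB 465 ⟨4, 7, 24, 18⟩ = true := by decide +kernel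

def mgB111 :
    Ex.checkNonneg (fN (pE true) (gE true) (tE true) (wE true) eK1) boxB 465 ⟨4, 7, 24, 18⟩ = true := by decide +kernel

theorem mgB : ∀ i j l : Bool,
    Ex.checkNonneg (fN (pE i) (gE j) (tE l) (wE true) eK1) boxB 465 ⟨4, 7, 24, 18⟩ = true
  | false, false, false => mgB000
  | false, false, true => mgB001
  | false, true, false => mgB010
  | false, true, true => mgB011
  | true, false, false => mgB100
  | true, false, true => mgB101
  | true, true, false => mgB110
  | true, true, true => mgB111

end Vale.Agent.P100.Calib.Closed.All.SgnNeg
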