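import Vale.Agent.P100.Calib.SlabSignsAllNegSound
import Vale.Agent.P100.Calib.SlabSignsAllNegBGY
import Vale.Agent.P100.Calib.SlabSignsAllNegBX
import Vale.Agent.P100.Calib.SlabSignsAllNegBL
import Vale.Agent.P100.Calib.SlabSignsAllNegBN

/-!
# The points of piece B are good
-/

namespace Vale.Agent.P100.Calib.Closed.All.SgnNeg

open BoxPos

theorem goodB {x : ℕ → ℝ} (hx : ∀ i < 4, ∃ t : ℝ, 0 ≤ t ∧ 0 < ((boxB i).c : ℝ) + (boxB i).d * t ∧
    ((boxB i).a : ℝ) + (boxB i).b * t = x i * (((boxB i).c : ℝ) + (boxB i).d * t)) :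
    Good upEncl eK1 x 3 where
  gy s i j l := Ex.nonneg_of_checkNonneg (gyB s i j l) hx
  xb s i j l := Ex.nonneg_of_checkNonneg (xbB s i j l) hx
  arrow s i j l := Ex.nonneg_of_checkNonneg (arB s i j l) hx
  mg i j l := Ex.nonneg_of_checkNonneg (mgB i j l) hx
  lg i l := Ex.nonneg_of_checkNonneg (lgB i l) hx
  cgy s := Ex.nonneg_of_checkNonneg (dgyB s) hx
  cl s := Ex.nonneg_of_checkNonneg (dlB s) hx
  cgg := Ex.nonneg_of_checkNonneg dggB hx
  cte := Ex.nonneg_of_checkNonneg dteB hx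
  cne := Ex.nonneg_of_checkNonneg dneB hx
  cnp := Ex.nonneg_of_checkNonneg dnpB hx
  tw := Ex.nonneg_of_checkNonneg dtwB hx
  nw := Ex.nonneg_of_checkNonneg dnwB hx
  xw := Ex.nonneg_of_checkNonneg dxwB hx
  pl := Ex.nonneg_of_checkNonneg eplB hx
  ph := Ex.nonneg_of_checkNonneg ephB hx
  gh := Ex.nonneg_of_checkNonneg eghB hx
  gl := Ex.nonneg_of_checkNonneg eglB hx
  tl := Ex.nonneg_of_checkNonneg etlB hx
  th := Ex.nonneg_of_checkNonneg ethB hx

end Vale.Agent.P100.Calib.Closed.All.SgnNeg
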