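import Vale.Agent.P100.Calib.SlabSignsAllNegBox

/-!
# Checks below the crossing, piece C
-/

set_option linter.defProp false

namespace Vale.Agent.P100.Calib.Closed.All.SgnNeg

open BoxPos

def gyC0000 :
    Ex.checkNonneg (cGY 1 false (pE false) (gE false) (tE false) eK1) boxC 455 ⟨3, 8, 29, 16⟩ = true := by decide +kernel

def gyC0001 :
    Ex.checkNonneg (cGY 1 false (pE false) (gE false) (tE true) eK1) boxC 455 ⟨3, 8, 29, 16⟩ = true := by decide +kernel

def gyC0010 :
    Ex.checkNonneg (cGY 1 false (pE false) (gE true) (tE false) eK1) boxC 455 ⟨3, 8, 29, 16⟩ = true := by decide +kernel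

def gyC0011 :
    Ex.checkNonneg (cGY 1 false (pE false) (gE true) (tE true) eK1) boxC 455 ⟨3, 8, 29, 16⟩ = true := by decide +kernel

def gyC0100 :
    Ex.checkNonneg (cGY 1 false (pE true) (gE false) (tE false) eK1) boxC 455 ⟨3, 8, 29, 16⟩ = true := by decide +kernel

def gyC0101 :
    Ex.checkNonneg (cGY 1 false (pE true) (gE false) (tE true) eK1) boxC 455 ⟨3, 8, 29, 16⟩ = true := by decide +kernel

def gyC0110 :
    Ex.checkNonneg (cGY 1 false (pE true) (gE true) (tE false) eK1) boxC 455 ⟨3, 8, 29, 16⟩ = true := by decide +kernel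

def gyC0111 :
    Ex.checkNonneg (cGY 1 false (pE true) (gE true) (tE true) eK1) boxC 455 ⟨3, 8, 29, 16⟩ = true := by decide +kernel

def gyC1000 :
    Ex.checkNonneg (cGY 1 true (pE false) (gE false) (tE false) eK1) boxC 455 ⟨3, 8, 29, 16⟩ = true := by decide +kernel

def gyC1001 :
    Ex.checkNonneg (cGY 1 true (pE false) (gE false) (tE true) eK1) boxC 455 ⟨3, 8, 29, 16⟩ = true := by decide +kernel

def gyC1010 :
    Ex.checkNonneg (cGY 1 true (pE false) (gE true) (tE false) eK1) boxC 455 ⟨3, 8, 29, 16⟩ = true := by decide +kernel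

def gyC1011 :
    Ex.checkNonneg (cGY 1 true (pE false) (gE true) (tE true) eK1) boxC 455 ⟨3, 8, 29, 16⟩ = true := by decide +kernel

def gyC1100 :
    Ex.checkNonneg (cGY 1 true (pE true) (gE false) (tE false) eK1) boxC 455 ⟨3, 8, 29, 16⟩ = true := by decide +kernel

def gyC1101 :
    Ex.checkNonneg (cGY 1 true (pE true) (gE false) (tE true) eK1) boxC 455 ⟨3, 8, 29, 16⟩ = true := by decide +kernel

def gyC1110 :
    Ex.checkNonneg (cGY 1 true (pE true) (gE true) (tE false) eK1) boxC 455 ⟨3, 8, 29, 16⟩ = true := by decide +kernel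

def gyC1111 :
    Ex.checkNonneg (cGY 1 true (pE true) (gE true) (tE true) eK1) boxC 455 ⟨3, 8, 29, 16⟩ = true := by decide +kernel

theorem gyC : ∀ s i j l : Bool,
    Ex.checkNonneg (cGY 1 s (pE i) (gE j) (tE l) eK1) boxC 455 ⟨3, 8, 29, 16⟩ = true
  | false, false, false, false => gyC0000
  | false, false, false, true => gyC0001
  | false, false, true, false => gyC0010
  | false, false, true, true => gyC0011
  | false, true, false, false => gyC0100
  | false, true, false, true => gyC0101
  | false, true, true, false => gyC0110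
  | false, true, true, true => gyC0111
  | true, false, false, false => gyC1000
  | true, false, false, true => gyC1001
  | true, false, true, false => gyC1010
  | true, false, true, true => gyC1011
  | true, true, false, false => gyC1100
  | true, true, false, true => gyC1101
  | true, true, true, false => gyC1110
  | true, true, true, true => gyC1111

def lgC00 :
    Ex.checkNonneg (fLG (tE false) (tE false) eK1) boxC 277 ⟨2, 5, 16, 10⟩ = true := by decide +kernel

def lgC01 :
    Ex.checkNonneg (fLG (tE false) (tE true) eK1) boxC 277 ⟨2, 5, 16, 10⟩ = true := by decide +kernel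

def lgC10 :
    Ex.checkNonneg (fLG (tE true) (tE false) eK1) boxC 277 ⟨2, 5, 16, 10⟩ = true := by decide +kernel

def lgC11 :
    Ex.checkNonneg (fLG (tE true) (tE true) eK1) boxC 277 ⟨2, 5, 16, 10⟩ = true := by decide +kernel

theorem lgC : ∀ i l : Bool,
    Ex.checkNonneg (fLG (tE i) (tE l) eK1) boxC 277 ⟨2, 5, 16, 10⟩ = true
  | false, false => lgC00
  | false, true => lgC01
  | true, false => lgC10
  | true, true => lgC11

def dgyC0 :
    Ex.checkNonneg (dGY 1 false) boxC 284 ⟨0, 5, 21, 11⟩ = true := by decide +kernel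

def dgyC1 :
    Ex.checkNonneg (dGY 1 true) boxC 284 ⟨0, 5, 21, 11⟩ = true := by decide +kernel

theorem dgyC : ∀ s : Bool,
    Ex.checkNonneg (dGY 1 s) boxC 284 ⟨0, 5, 21, 11⟩ = true
  | false => dgyC0
  | true => dgyC1

def dlC0 :
    Ex.checkNonneg (dL 1 false) boxC 291 ⟨0, 5, 20, 12⟩ = true := by decide +kernel

def dlC1 :
    Ex.checkNonneg (dL 1 true) boxC 291 ⟨0, 5, 20, 12⟩ = true := by decide +kernel

theorem dlC : ∀ s : Bool,
    Ex.checkNonneg (dL 1 s) boxC 291 ⟨0, 5, 20, 12⟩ = true
  | false => dlC0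
  | true => dlC1

def dggC :
    Ex.checkNonneg (dGG) boxC 185 ⟨0, 5, 15, 5⟩ = true := by decide +kernel

def dteC :
    Ex.checkNonneg (dTE) boxC 173 ⟨0, 4, 13, 6⟩ = true := by decide +kernel

def dneC :
    Ex.checkNonneg (dNE) boxC 165 ⟨0, 4, 12, 6⟩ = true := by decide +kernel

def dnpC :
    Ex.checkNonneg (dNP) boxC 264 ⟨0, 5, 18, 11⟩ = true := by decide +kernel

def dtwC :
    Ex.checkNonneg (dTW) boxC 75 ⟨0, 2, 5, 2⟩ = true := by decide +kernel

def dnwC :
    Ex.checkNonneg (dNW) boxC 69 ⟨0, 2, 4, 2⟩ = true := by decide +kernel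

def dxwC :
    Ex.checkNonneg (dXW) boxC 42 ⟨0, 1, 3, 1⟩ = true := by decide +kernel

def eplC :
    Ex.checkNonneg (envPL upEncl) boxC 164 ⟨3, 2, 9, 6⟩ = true := by decide +kernel

def ephC :
    Ex.checkNonneg (envPH upEncl) boxC 181 ⟨3, 2, 10, 7⟩ = true := by decide +kernel

def eghC :
    Ex.checkNonneg (envGH upEncl) boxC 181 ⟨3, 1, 9, 8⟩ = true := by decide +kernel

def eglC :
    Ex.checkNonneg (envGL upEncl) boxC 197 ⟨3, 1, 10, 9⟩ = true := by decide +kernel

def etlC :
    Ex.checkNonneg (envTL upEncl) boxC 129 ⟨2, 1, 6, 6⟩ = true := by decide +kernel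

def ethC :
    Ex.checkNonneg (envTH upEncl) boxC 136 ⟨2, 1, 7, 6⟩ = true := by decide +kernel

end Vale.Agent.P100.Calib.Closed.All.SgnNeg
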