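import Vale.Agent.P100.Calib.SlabSignsAllNegBox

/-!
# Checks below the crossing, piece C
-/

set_option linter.defProp false

namespace Vale.Agent.P100.Calib.Closed.All.SgnNeg

open BoxPos

def arC0000 :
    Ex.checkNonneg (cL 1 false (pE false) (gE false) (tE false) (wE false) eK1) boxC 482 ⟨4, 7, 27, 19⟩ = true := by decide +kernel

def arC0001 :
    Ex.checkNonneg (cL 1 false (pE false) (gE false) (tE true) (wE false) eK1) boxC 482 ⟨4, 7, 27, 19⟩ = true := by decide +kernel

def arC0010 :
    Ex.checkNonneg (cL 1 false (pE false) (gE true) (tE false) (wE false) eK1) boxC 482 ⟨4, 7, 27, 19⟩ = true := by decide +kernel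

def arC0011 :
    Ex.checkNonneg (cL 1 false (pE false) (gE true) (tE true) (wE false) eK1) boxC 482 ⟨4, 7, 27, 19⟩ = true := by decide +kernel

def arC0100 :
    Ex.checkNonneg (cL 1 false (pE true) (gE false) (tE false) (wE false) eK1) boxC 482 ⟨4, 7, 27, 19⟩ = true := by decide +kernel

def arC0101 :
    Ex.checkNonneg (cL 1 false (pE true) (gE false) (tE true) (wE false) eK1) boxC 482 ⟨4, 7, 27, 19⟩ = true := by decide +kernel

def arC0110 :
    Ex.checkNonneg (cL 1 false (pE true) (gE true) (tE false) (wE false) eK1) boxC 482 ⟨4, 7, 27, 19⟩ = true := by decide +kernel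

def arC0111 :
    Ex.checkNonneg (cL 1 false (pE true) (gE true) (tE true) (wE false) eK1) boxC 482 ⟨4, 7, 27, 19⟩ = true := by decide +kernel

def arC1000 :
    Ex.checkNonneg (cL 1 true (pE false) (gE false) (tE false) (wE false) eK1) boxC 482 ⟨4, 7, 27, 19⟩ = true := by decide +kernel

def arC1001 :
    Ex.checkNonneg (cL 1 true (pE false) (gE false) (tE true) (wE false) eK1) boxC 482 ⟨4, 7, 27, 19⟩ = true := by decide +kernel

def arC1010 :
    Ex.checkNonneg (cL 1 true (pE false) (gE true) (tE false) (wE false) eK1) boxC 482 ⟨4, 7, 27, 19⟩ = true := by decide +kernel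

def arC1011 :
    Ex.checkNonneg (cL 1 true (pE false) (gE true) (tE true) (wE false) eK1) boxC 482 ⟨4, 7, 27, 19⟩ = true := by decide +kernel

def arC1100 :
    Ex.checkNonneg (cL 1 true (pE true) (gE false) (tE false) (wE false) eK1) boxC 482 ⟨4, 7, 27, 19⟩ = true := by decide +kernel

def arC1101 :
    Ex.checkNonneg (cL 1 true (pE true) (gE false) (tE true) (wE false) eK1) boxC 482 ⟨4, 7, 27, 19⟩ = true := by decide +kernel

def arC1110 :
    Ex.checkNonneg (cL 1 true (pE true) (gE true) (tE false) (wE false) eK1) boxC 482 ⟨4, 7, 27, 19⟩ = true := by decide +kernel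

def arC1111 :
    Ex.checkNonneg (cL 1 true (pE true) (gE true) (tE true) (wE false) eK1) boxC 482 ⟨4, 7, 27, 19⟩ = true := by decide +kernel

theorem arC : ∀ s i j l : Bool,
    Ex.checkNonneg (cL 1 s (pE i) (gE j) (tE l) (wE false) eK1) boxC 482 ⟨4, 7, 27, 19⟩ = true
  | false, false, false, false => arC0000
  | false, false, false, true => arC0001
  | false, false, true, false => arC0010
  | false, false, true, true => arC0011
  | false, true, false, false => arC0100
  | false, true, false, true => arC0101
  | false, true, true, false => arC0110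
  | false, true, true, true => arC0111
  | true, false, false, false => arC1000
  | true, false, false, true => arC1001
  | true, false, true, false => arC1010
  | true, false, true, true => arC1011
  | true, true, false, false => arC1100
  | true, true, false, true => arC1101
  | true, true, true, false => arC1110
  | true, true, true, true => arC1111

end Vale.Agent.P100.Calib.Closed.All.SgnNeg
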