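import Vale.Agent.P100.Calib.SlabSignsAllNegBox

/-!
# Checks below the crossing, piece C
-/

set_option linter.defProp false

namespace Vale.Agent.P100.Calib.Closed.All.SgnNeg

open BoxPos

def xbC0000 :
    Ex.checkNonneg (cX false (pE false) (gE false) (tE false) (wE false)) boxC 292 ⟨3, 4, 15, 12⟩ = true := by decide +kernel

def xbC0001 :
    Ex.checkNonneg (cX false (pE false) (gE false) (tE true) (wE false)) boxC 292 ⟨3, 4, 15, 12⟩ = true := by decide +kernel

def xbC0010 :
    Ex.checkNonneg (cX false (pE false) (gE true) (tE false) (wE false)) boxC 292 ⟨3, 4, 15, 12⟩ = true := by decide +kernel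

def xbC0011 :
    Ex.checkNonneg (cX false (pE false) (gE true) (tE true) (wE false)) boxC 292 ⟨3, 4, 15, 12⟩ = true := by decide +kernel

def xbC0100 :
    Ex.checkNonneg (cX false (pE true) (gE false) (tE false) (wE false)) boxC 292 ⟨3, 4, 15, 12⟩ = true := by decide +kernel

def xbC0101 :
    Ex.checkNonneg (cX false (pE true) (gE false) (tE true) (wE false)) boxC 292 ⟨3, 4, 15, 12⟩ = true := by decide +kernel

def xbC0110 :
    Ex.checkNonneg (cX false (pE true) (gE true) (tE false) (wE false)) boxC 292 ⟨3, 4, 15, 12⟩ = true := by decide +kernel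

def xbC0111 :
    Ex.checkNonneg (cX false (pE true) (gE true) (tE true) (wE false)) boxC 292 ⟨3, 4, 15, 12⟩ = true := by decide +kernel

def xbC1000 :
    Ex.checkNonneg (cX true (pE false) (gE false) (tE false) (wE true)) boxC 292 ⟨3, 4, 15, 12⟩ = true := by decide +kernel

def xbC1001 :
    Ex.checkNonneg (cX true (pE false) (gE false) (tE true) (wE true)) boxC 292 ⟨3, 4, 15, 12⟩ = true := by decide +kernel

def xbC1010 :
    Ex.checkNonneg (cX true (pE false) (gE true) (tE false) (wE true)) boxC 292 ⟨3, 4, 15, 12⟩ = true := by decide +kernel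

def xbC1011 :
    Ex.checkNonneg (cX true (pE false) (gE true) (tE true) (wE true)) boxC 292 ⟨3, 4, 15, 12⟩ = true := by decide +kernel

def xbC1100 :
    Ex.checkNonneg (cX true (pE true) (gE false) (tE false) (wE true)) boxC 292 ⟨3, 4, 15, 12⟩ = true := by decide +kernel

def xbC1101 :
    Ex.checkNonneg (cX true (pE true) (gE false) (tE true) (wE true)) boxC 292 ⟨3, 4, 15, 12⟩ = true := by decide +kernel

def xbC1110 :
    Ex.checkNonneg (cX true (pE true) (gE true) (tE false) (wE true)) boxC 292 ⟨3, 4, 15, 12⟩ = true := by decide +kernel

def xbC1111 :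
    Ex.checkNonneg (cX true (pE true) (gE true) (tE true) (wE true)) boxC 292 ⟨3, 4, 15, 12⟩ = true := by decide +kernel

theorem xbC : ∀ s i j l : Bool,
    Ex.checkNonneg (cX s (pE i) (gE j) (tE l) (wE s)) boxC 292 ⟨3, 4, 15, 12⟩ = true
  | false, false, false, false => xbC0000
  | false, false, false, true => xbC0001
  | false, false, true, false => xbC0010
  | false, false, true, true => xbC0011
  | false, true, false, false => xbC0100
  | false, true, false, true => xbC0101
  | false, true, true, false => xbC0110
  | false, true, true, true => xbC0111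
  | true, false, false, false => xbC1000
  | true, false, false, true => xbC1001
  | true, false, true, false => xbC1010
  | true, false, true, true => xbC1011
  | true, true, false, false => xbC1100
  | true, true, false, true => xbC1101
  | true, true, true, false => xbC1110
  | true, true, true, true => xbC1111

end Vale.Agent.P100.Calib.Closed.All.SgnNeg
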