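import Vale.Agent.P100.Calib.SlabSignsAllNegSound
import Vale.Agent.P100.Calib.SlabSignsAllNegCGY
import Vale.Agent.P100.Calib.SlabSignsAllNegCX
import Vale.Agent.P100.Calib.SlabSignsAllNegCL
import Vale.Agent.P100.Calib.SlabSignsAllNegCN

/-!
# The points of piece C are good
-/

namespace Vale.Agent.P100.Calib.Closed.All.SgnNeg

open BoxPos

theorem goodC {x : ℕ → ℝ} (hx : ∀ i < 4, ∃ t : ℝ, 0 ≤ t ∧ 0 < ((boxC i).c : ℝ) + (boxC i).d * t ∧
    ((boxC i).a : ℝ) + (boxC i).b * t = x i * (((boxC i).c : ℝ) + (boxC i).d * t)) :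
    Good upEncl eK1 x 1 where
  gy s i j l := Ex.nonneg_of_checkNonneg (gyC s i j l) hx
  xb s i j l := Ex.nonneg_of_checkNonneg (xbC s i j l) hx
  arrow s i j l := Ex.nonneg_of_checkNonneg (arC s i j l) hx
  mg i j l := Ex.nonneg_of_checkNonneg (mgC i j l) hx
  lg i l := Ex.nonneg_of_checkNonneg (lgC i l) hx
  cgy s := Ex.nonneg_of_checkNonneg (dgyC s) hx
  cl s := Ex.nonneg_of_checkNonneg (dlC s) hx
  cgg := Ex.nonneg_of_checkNonneg dggC hx
  cte := Ex.nonneg_of_checkNonneg dteC hx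
  cne := Ex.nonneg_of_checkNonneg dneC hx
  cnp := Ex.nonneg_of_checkNonneg dnpC hx
  tw := Ex.nonneg_of_checkNonneg dtwC hx
  nw := Ex.nonneg_of_checkNonneg dnwC hx
  xw := Ex.nonneg_of_checkNonneg dxwC hx
  pl := Ex.nonneg_of_checkNonneg eplC hx
  ph := Ex.nonneg_of_checkNonneg ephC hx
  gh := Ex.nonneg_of_checkNonneg eghC hx
  gl := Ex.nonneg_of_checkNonneg eglC hx
  tl := Ex.nonneg_of_checkNonneg etlC hx
  th := Ex.nonneg_of_checkNonneg ethC hx

end Vale.Agent.P100.Calib.Closed.All.SgnNeg
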