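import Vale.Agent.P100.Calib.SlabSignsAllNegChart
import Vale.Agent.P100.Calib.SlabSignsAllNegA
import Vale.Agent.P100.Calib.SlabSignsAllNegB
import Vale.Agent.P100.Calib.SlabSignsAllNegC

/-!
# The closed signs below the crossing on the slabs of every dimension from twenty on

On `allNeg`, at `u ≤ 0`, for `n ≥ 20` and `(S - d)/2 ≤ 31/100`, the closed signs hold.
-/

set_option linter.unusedSimpArgs false

namespace Vale.Agent.P100.Calib.Closed.All

open SgnNeg

/-- The enclosures fit on `U ≤ 121/100`, `X ∈ [17/20, 49/40]`, `I ≤ 1/20`, `a ≤ 31/100`. -/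
theorem upEncl_ok {x : ℕ → ℝ} (h : Box x) (hU1 : x 0 ≤ 121 / 100) (hX : 17 / 20 ≤ x 1)
    (hX1 : x 1 ≤ 49 / 40) (hI1 : x 2 ≤ 1 / 20) (ha : x 3 ≤ 31 / 100) : upEncl.Ok x := by
  obtain ⟨ha0, -⟩ := h.pos
  obtain ⟨hU, -, hI, -, hIa, -⟩ := h
  have key : 3 ≤ ev x (pE false) ∧ 1 ≤ ev x (SgnNeg.gE false) ∧ 9 / 10 ≤ ev x (tE false) := by
    simp only [pE, SgnNeg.gE, tE, pM, SgnNeg.gM, tM, ev_add, ev_sub, ev_mul, ev_nC, ev_x₀, ev_x₁, ev_x₂, ev_x₃]
    push_cast
    have hII : x 2 * x 2 ≤ 1 / 400 := by nlinarith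
    have hIU : 0 ≤ x 2 * x 0 := mul_nonneg hI.le hU
    have hIIU : 0 ≤ x 2 * x 2 * x 0 := mul_nonneg (mul_self_nonneg _) hU
    refine ⟨?_, ?_, ?_⟩
    · have h1 : -8 ≤ 8 * (1 - x 3) * x 1 - 8 := by
        nlinarith [mul_nonneg (by linarith : (0 : ℝ) ≤ 1 - x 3) (by linarith : 0 ≤ x 1)]
      have h2 : -30 ≤ 14 - 5 * x 3 - 14 * x 1 + 21 * x 3 * x 1 + 20 * x 3 * x 0 +
          27 * x 3 * x 3 * x 0 := by
        nlinarith [mul_nonneg ha0.le (by linarith : 0 ≤ x 1), mul_nonneg ha0.le hU,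
          mul_nonneg (mul_self_nonneg (x 3)) hU]
      nlinarith [mul_le_mul_of_nonneg_left h1 hI.le,
        mul_le_mul_of_nonneg_left h2 (mul_self_nonneg (x 2))]
    · have h1 : 0 ≤ x 2 * x 0 * x 3 * (1 + x 3 + x 3 * x 3) :=
        mul_nonneg (mul_nonneg hIU ha0.le) (by nlinarith)
      have h2 : 0 ≤ 8 - 13 * x 3 + 75 * (x 3 * x 3) := by nlinarith
      nlinarith [mul_nonneg hIIU h2]
    · have h1 : 0 ≤ x 2 * x 0 * (1 - 2 * x 2 - x 3 - x 3 * x 3 - x 3 * x 3 * x 3) :=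
        mul_nonneg hIU (by nlinarith [mul_nonneg ha0.le (mul_self_nonneg (x 3))])
      have h2 : -6 ≤ 7 / 2 * x 1 - 7 / 2 - 8 * (x 3 * x 1) := by
        nlinarith [mul_le_mul ha hX1 (by linarith : 0 ≤ x 1) (by norm_num : (0:ℝ) ≤ 31 / 100)]
      have h3 : x 2 * x 2 * x 0 ≤ 121 / 40000 := by nlinarith [mul_self_nonneg (x 2)]
      nlinarith [mul_le_mul_of_nonneg_left h2 hIIU]
  obtain ⟨k1, k2, k3⟩ := key
  simp only [pE, SgnNeg.gE, tE, ev_add, ev_mul, ev_nC, ev_x₂] at k1 k2 k3 ⊢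
  push_cast at k1 k2 k3
  constructor <;> simp only [upEncl, pE, SgnNeg.gE, tE, ev_add, ev_mul, ev_nC, ev_x₂] <;> push_cast
  · linarith
  · linarith
  · linarith
  · exact ⟨by nlinarith, by linarith, by linarith⟩

/-- The box of a point of `allNeg`. -/
theorem allNeg_box {n : ℕ} {d S u v t : ℝ} (hn : 20 ≤ n) (hb : ChartBox n d S)
    (ha : (S - d) / 2 ≤ 31 / 100) (hu : u ≤ 0) (hN : Band.allNeg d S u v t) :
    Box (pt d S u v) ∧ upEncl.Ok (pt d S u v) ∧ 0 ≤ rK1 (pt d S u v) ∧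
      pt d S u v 0 < 121 / 100 ∧
      1 - 3 * pt d S u v 2 ≤ pt d S u v 1 ∧ pt d S u v 1 ≤ 9 / 8 + 2 * pt d S u v 2 := by
  obtain ⟨h₀, h₁, h₂, -, -⟩ := hN
  have hn' : (20 : ℝ) ≤ n := by exact_mod_cast hn
  have hS1 : 0 < 1 - S := by linarith [hb.S_lt]
  have hI : (1 - S) / 2 < 1 / 20 := by
    have := hb.dim_low
    rw [lt_div_iff₀ hS1] at this
    nlinarith
  have hIa : (1 - S) / 2 ≤ (S - d) / 2 := by linarith [hb.one]
  have hIS : Band.allStabI ((S - d) / 2) ((S + d) / 2) = (1 - S) / 2 := by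
    rw [Band.allStabI]; ring
  simp only [Band.allNegV₀, Band.allNegV₁, Band.allNegK, hIS] at h₀ h₁ h₂
  set I := (1 - S) / 2 with hId
  have hI0 : 0 < I := by linarith
  have eI : 1 - S = 2 * I := by linarith
  have hX₀ : 1 - 3 * I ≤ v / (1 - S) := by
    rw [le_div_iff₀ hS1, eI]; linarith
  have hX₁ : v / (1 - S) ≤ 9 / 8 + 2 * I := by
    rw [div_le_iff₀ hS1, eI]; linarith
  have hK : (1 - (S - d) / 2) * (1 + 3 / 5 * I) ≤ 1 - 2 / 5 * I := by
    nlinarith
  have hv : 0 ≤ v := le_trans (mul_nonneg (by linarith) (by linarith)) h₀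
  have hU : -u / (1 - S) < 121 / 100 := by
    rw [div_lt_iff₀ hS1, eI]
    have := mul_le_mul hK h₁ hv (by linarith)
    nlinarith
  have hB : Box (pt d S u v) := ⟨div_nonneg (by linarith) hS1.le,
    (by linarith : (0 : ℝ) ≤ 1 - 3 * I).trans hX₀, hI0, by show I ≤ 1 / 7; linarith, hIa,
    by show 0 < 1 - 2 * I - 2 * ((S - d) / 2); linarith [hb.pos]⟩
  refine ⟨hB, upEncl_ok hB hU.le (by show 17 / 20 ≤ v / (1 - S); linarith)
    (by show v / (1 - S) ≤ 49 / 40; linarith) hI.le ha, ?_, hU, hX₀, hX₁⟩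
  show 0 ≤ (1 - 2 * I) ^ 2 - 2 * ((S - d) / 2) * (1 - I)
  nlinarith [mul_le_mul ha (le_refl (1 - I)) (by linarith) (by norm_num)]

/-- The closed signs below the crossing in every dimension from twenty on. -/
theorem signsNeg_all {n : ℕ} {d S u v t : ℝ} (hn : 20 ≤ n) (hb : ChartBox n d S)
    (ha : (S - d) / 2 ≤ 31 / 100) (hu : u ≤ 0) (hN : Band.allNeg d S u v t) :
    ChartSigns d S u v t := by
  obtain ⟨h, hE, hK, hU, hX₀, hX₁⟩ := allNeg_box hn hb ha hu hN
  obtain ⟨-, -, -, h₀, h₁⟩ := hN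
  obtain ⟨hU0, -, hI0, -, hIa, -⟩ := id h
  have hI1 : pt d S u v 2 ≤ 1 / 20 := by
    have := hb.dim_low
    rw [lt_div_iff₀ (by linarith [hb.S_lt])] at this
    show (1 - S) / 2 ≤ 1 / 20
    have hn' : (20 : ℝ) ≤ n := by exact_mod_cast hn
    nlinarith [hb.S_lt]
  have hX : 0 < pt d S u v 1 := by linarith
  have ha1 : pt d S u v 3 ≤ 31 / 100 := ha
  set x := pt d S u v with hx
  have hz : ev x eK1 = max 0 (rK1 x) := by rw [max_eq_right hK, (ev_base x).2.2.2.2.2.2.2]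
  have eI : Band.allStabI ((S - d) / 2) ((S + d) / 2) = x 2 := by
    show _ = (1 - S) / 2
    rw [Band.allStabI]; ring
  have w₀ : ev x (wE false) = Band.allNegLo ((S - d) / 2) ((S + d) / 2) := by
    simp only [wE, ev_sub, ev_mul, ev_nC, ev_x₂, ev_x₃, Band.allNegLo, eI]
    push_cast; rw [show x 3 = (S - d) / 2 from rfl]; ring
  have w₁ : ev x (wE true) = 11 / 5 := by simp only [wE, ev_nC]; push_cast; ring
  rw [← w₀] at h₀
  rw [← w₁] at h₁
  have h₀' : Band.allNegS ((S - d) / 2) ((S + d) / 2) (ev x (upEncl.w false)) ≤ t := h₀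
  have h₁' : t ≤ Band.allNegS ((S - d) / 2) ((S + d) / 2) (ev x (upEncl.w true)) := h₁
  rcases le_or_gt (x 2) (1 / 30) with hI | hI
  · refine signs_of_good (by norm_num : 0 < 3) hb h hX hE hz (goodA fun i hi => ?_) h₀' h₁'
    interval_cases i <;> simp only [boxA] <;> (first
      | exact chart_up (by norm_num) (by push_cast; linarith) (by push_cast; linarith)
      | exact chart_down (by norm_num) (by push_cast; linarith) (by push_cast; linarith))
  rcases le_or_gt (x 1) (21 / 20) with hX' | hX'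
  · refine signs_of_good (by norm_num : 0 < 3) hb h hX hE hz (goodB fun i hi => ?_) h₀' h₁'
    interval_cases i <;> simp only [boxB] <;> (first
      | exact chart_up (by norm_num) (by push_cast; linarith) (by push_cast; linarith)
      | exact chart_down (by norm_num) (by push_cast; linarith) (by push_cast; linarith))
  · refine signs_of_good (by norm_num : 0 < 1) hb h hX hE hz (goodC fun i hi => ?_) h₀' h₁'
    interval_cases i <;> simp only [boxC] <;> (first
      | exact chart_up (by norm_num) (by push_cast; linarith) (by push_cast; linarith)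
      | exact chart_down (by norm_num) (by push_cast; linarith) (by push_cast; linarith))

end Vale.Agent.P100.Calib.Closed.All
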