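import Vale.Agent.P100.Calib.SlabAllNeg
import Vale.Agent.P100.Calib.SlabSignsAllNeg
import Vale.Agent.P100.Calib.SlabAllSignsLow
import Vale.Agent.P100.Calib.SlabChartOrbitAll

/-!
# The closed signs along orbits up to `u = 3/5`

The dimensions are those from twenty on and `1/(p + 1) ≤ 31/100`.
-/

set_option linter.unusedVariables false

open Set Filter Topology

namespace Vale.Agent.P100.Calib.Band

open Vale.Agent.P100.Bubble Chart Closed

variable {N p q : ℝ} {S : Set ℝ} {R x y s dx dy : ℝ → ℝ}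

/-- The real dimension is at least twenty. -/
theorem twenty_le_dim {n : ℕ} (hn : 20 ≤ n) (hb : SlabBoxAll N (1 / (p + 1)) (1 / (q + 1)))
    (hcb : All.ChartBox n (1 / (q + 1) - 1 / (p + 1)) (1 / (p + 1) + 1 / (q + 1))) : 20 ≤ N := by
  have h := hcb.dim_low
  rw [← hb.dim_eq] at h
  have : (20 : ℝ) ≤ n := by exact_mod_cast hn
  linarith

/-- **The closed signs on orbits at and below the crossing** from dimension twenty on. -/
theorem orbit_signs_neg_all {n : ℕ} (hn : 20 ≤ n) (hc : IsCrit N p q)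
    (hf : IsOrbitFns N p q S R x y s dx dy)
    (hb : SlabBoxAll N (1 / (p + 1)) (1 / (q + 1)))
    (hcb : All.ChartBox n (1 / (q + 1) - 1 / (p + 1)) (1 / (p + 1) + 1 / (q + 1)))
    (ha : 1 / (p + 1) ≤ 31 / 100) {z : ℝ} (hz : z ∈ S) (hR : R z ≤ 0)
    (hκ : z ≤ 1 / (q + 1) / (1 / (p + 1))) :
    All.ChartSigns (1 / (q + 1) - 1 / (p + 1)) (1 / (p + 1) + 1 / (q + 1)) (uOf N (R z) (x z))
      (vOf (1 / (p + 1)) (1 / (q + 1)) (y z / x z)) (slopeAt N p q R x y dx dy z) := by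
  refine All.signsNeg_all hn hcb (by linarith) ?_
    (orbit_allNeg hc hf hb (twenty_le_dim hn hb hcb) ha hz hR hκ)
  exact div_nonpos_of_nonpos_of_nonneg
    (mul_nonpos_of_nonpos_of_nonneg (mul_nonpos_of_nonneg_of_nonpos two_pos.le hR)
      (hf.x_pos z hz).le) (by linarith [hb.six])

/-- **The closed signs on orbits at `0 < u ≤ 3/5`** from dimension twenty on. -/
theorem orbit_signs_low_all {n : ℕ} (hn : 20 ≤ n) (hc : IsCrit N p q)
    (hf : IsOrbitFns N p q S R x y s dx dy)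
    (hb : SlabBoxAll N (1 / (p + 1)) (1 / (q + 1)))
    (hcb : All.ChartBox n (1 / (q + 1) - 1 / (p + 1)) (1 / (p + 1) + 1 / (q + 1)))
    (ha : 1 / (p + 1) ≤ 31 / 100) {z : ℝ} (hz : z ∈ S) (hR : 0 < R z)
    (hu : uOf N (R z) (x z) ≤ 3 / 5) :
    All.ChartSigns (1 / (q + 1) - 1 / (p + 1)) (1 / (p + 1) + 1 / (q + 1)) (uOf N (R z) (x z))
      (vOf (1 / (p + 1)) (1 / (q + 1)) (y z / x z)) (slopeAt N p q R x y dx dy z) := by
  have h20 := twenty_le_dim hn hb hcb
  obtain ⟨-, eH⟩ := slopeAt_eq_all hc hf hb hz hR.ne'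
  obtain ⟨-, -, hd, -⟩ := hb.facts
  have e1 : (1 / (p + 1) + 1 / (q + 1) - (1 / (q + 1) - 1 / (p + 1))) / 2 = 1 / (p + 1) := by ring
  have e2 : (1 / (p + 1) + 1 / (q + 1) + (1 / (q + 1) - 1 / (p + 1))) / 2 = 1 / (q + 1) := by ring
  have eq : chH (1 / (q + 1) - 1 / (p + 1)) (1 / (p + 1) + 1 / (q + 1)) (uOf N (R z) (x z))
      (vOf (1 / (p + 1)) (1 / (q + 1)) (y z / x z)) (slopeAt N p q R x y dx dy z) =
      hOf N (R z) (x z) (y z) z / (1 / (q + 1) - 1 / (p + 1)) := by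
    rw [eq_div_iff hd.ne', mul_comm]
    exact eH
  have hx := orbit_exit_all' hf hb h20 ha hz hR (by linarith)
  simp only [allStabI] at hx
  refine All.Low.signsLow_all hn hcb (by rw [e1]; exact ha) hu
    (chartFacts_orbit_all hc hf hb hz hR) (by rw [e1]; exact hx.le) (fun h9 => ?_) (fun h9 => ?_) <;>
    rw [e1, e2, eq]
  · exact ⟨(orbit_low_all hf hb h20 ha hz hR hu).le, (orbit_up_all hf hb h20 ha hz hR hu).le⟩
  · exact ⟨(orbit_stab_low_all hf hb h20 ha hz hR).le, (orbit_stab_up_all hf hb h20 ha hz hR).le⟩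

end Vale.Agent.P100.Calib.Band
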