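import Mathlib
import Vale.Agent.P100.Calib.SlabGeneric

/-!
# Forward barriers from a handoff point

`G = A u - W u * v - m u * (h - hc r - d u T u)` stays positive on `[u₀, u₁]`: before `u₀` only
`G + K (u₀ - u) ^ 2 > 0` is asked, from facts known there; after it the sign of `exitM` at `G = 0`.
Tilted bands are the case `m = 1` or `m = -1`, with `W` a multiple of `d u`.
-/

open Set Filter Topology

namespace Vale.Agent.P100.Calib.Band

open Vale.Agent.P100.Bubble Chart

variable {N al be r u : ℝ} {p q : ℝ} {S : Set ℝ} {R x y s dx dy : ℝ → ℝ}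

theorem hasDerivAt_max_sq (x : ℝ) :
    HasDerivAt (fun y : ℝ => max 0 y ^ 2) (2 * max 0 x) x := by
  rcases lt_trichotomy x 0 with hx | hx | hx
  · rw [max_eq_left hx.le, mul_zero]
    exact (hasDerivAt_const x (0 : ℝ)).congr_of_eventuallyEq
      ((eventually_lt_nhds hx).mono fun y hy => by simp [max_eq_left hy.le])
  · subst hx
    rw [max_self, mul_zero, hasDerivAt_iff_isLittleO_nhds_zero]
    refine Asymptotics.IsBigO.trans_isLittleO (g := fun h : ℝ => h ^ 2) ?_
      (Asymptotics.isLittleO_pow_id one_lt_two)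
    refine Asymptotics.isBigO_of_le _ fun y => ?_
    simp only [zero_add, max_self, smul_zero, sub_zero, Real.norm_eq_abs, abs_pow, sq_abs]
    rcases le_total y 0 with h | h
    · simp [max_eq_left h, sq_nonneg]
    · simp [max_eq_right h]
  · rw [max_eq_right hx.le]
    refine (((hasDerivAt_id x).fun_pow 2).congr_deriv (by simp)).congr_of_eventuallyEq ?_
    exact (eventually_gt_nhds hx).mono fun y hy => by simp [max_eq_right hy.le]

/-- **A forward rung** starting at `u₀`: before it only `G + K (u₀ - u) ^ 2 > 0` is asked. -/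
theorem forwardT_step (hf : IsOrbitFns N p q S R x y s dx dy)
    (hb : SlabBox N (1 / (p + 1)) (1 / (q + 1))) {u₀ u₁ K : ℝ} (hu₀ : 0 ≤ u₀)
    {T T' A A' W W' m m' : ℝ → ℝ} (hT : ∀ u, HasDerivAt T (T' u) u)
    (hA : ∀ u, HasDerivAt A (A' u) u) (hW : ∀ u, HasDerivAt W (W' u) u)
    (hm : ∀ u, HasDerivAt m (m' u) u)
    (E : ℝ → ℝ → ℝ → Prop)
    (hE : ∀ w ∈ S, 0 < R w → uOf N (R w) (x w) ≤ u₁ →
      E (uOf N (R w) (x w)) (y w / x w) (hOf N (R w) (x w) (y w) w))
    (hcentre : ∀ r, 0 ≤ Trap.c0p N (1 / (p + 1)) (1 / (q + 1)) r → r < 1 →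
      (N - 2) * (1 / (q + 1)) * r < N * (1 / (p + 1)) →
      0 < A 0 - W 0 * vOf (1 / (p + 1)) (1 / (q + 1)) r + K * u₀ ^ 2)
    (hbefore : ∀ u r h, InChart N (1 / (p + 1)) (1 / (q + 1)) u r h → u ≤ u₀ → E u r h →
      33 / 100 ≤ vOf (1 / (p + 1)) (1 / (q + 1)) r →
      vOf (1 / (p + 1)) (1 / (q + 1)) r ≤ 89 / 20 →
      0 < A u - W u * vOf (1 / (p + 1)) (1 / (q + 1)) r - m u *
        ((1 / (q + 1) - 1 / (p + 1)) * u * (tauOf N (1 / (p + 1)) (1 / (q + 1))
          (1 / (q + 1) - 1 / (p + 1)) u r h - T u)) + K * (u₀ - u) ^ 2)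
    (hsign : ∀ u r h, InChart N (1 / (p + 1)) (1 / (q + 1)) u r h → u₀ ≤ u → u ≤ u₁ → E u r h →
      33 / 100 ≤ vOf (1 / (p + 1)) (1 / (q + 1)) r →
      vOf (1 / (p + 1)) (1 / (q + 1)) r ≤ 89 / 20 →
      A u - W u * vOf (1 / (p + 1)) (1 / (q + 1)) r - m u *
        ((1 / (q + 1) - 1 / (p + 1)) * u * (tauOf N (1 / (p + 1)) (1 / (q + 1))
          (1 / (q + 1) - 1 / (p + 1)) u r h - T u)) = 0 →
      exitM (1 / (p + 1) + 1 / (q + 1)) (1 / (q + 1) - 1 / (p + 1)) u
        (vOf (1 / (p + 1)) (1 / (q + 1)) r)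
        (tauOf N (1 / (p + 1)) (1 / (q + 1)) (1 / (q + 1) - 1 / (p + 1)) u r h) (W u)
        (A' u - W' u * vOf (1 / (p + 1)) (1 / (q + 1)) r - m' u *
            ((1 / (q + 1) - 1 / (p + 1)) * u * (tauOf N (1 / (p + 1)) (1 / (q + 1))
              (1 / (q + 1) - 1 / (p + 1)) u r h - T u)) +
          m u * (1 / (q + 1) - 1 / (p + 1)) * (T u + u * T' u -
            tauOf N (1 / (p + 1)) (1 / (q + 1)) (1 / (q + 1) - 1 / (p + 1)) u r h))
        (m u) < 0)
    {w : ℝ} (hw : w ∈ S) (hw0 : 0 < R w) (hwu : uOf N (R w) (x w) ≤ u₁) :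
    u₀ ≤ uOf N (R w) (x w) →
    0 < A (uOf N (R w) (x w)) - W (uOf N (R w) (x w)) *
        vOf (1 / (p + 1)) (1 / (q + 1)) (y w / x w) -
      m (uOf N (R w) (x w)) * (hOf N (R w) (x w) (y w) w - bandT N (1 / (p + 1)) (1 / (q + 1))
        (1 / (q + 1) - 1 / (p + 1)) T (uOf N (R w) (x w)) (y w / x w)) := by
  intro hw0u
  obtain ⟨hal, hbe, hd, hS1, hS2, -, -⟩ := hb.facts
  have hlow : 1 ≤ N * (1 / (p + 1)) := hb.low
  set al := 1 / (p + 1) with hald
  set be := 1 / (q + 1) with hbed
  set d := be - al with hdd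
  set G : ℝ → ℝ → ℝ → ℝ := fun a b c => A a - W a * vOf al be b - m a * (c - bandT N al be d T a b)
    with hGdef
  have hG : HasGrad G
      (fun a b c => A' a - W' a * vOf al be b - m' a * (c - bandT N al be d T a b) +
        m a * (d * (T a + a * T' a)))
      (fun a _ _ => -(W a * (be / al / d)) + m a * bandLr N al) (fun a _ _ => -m a) := by
    intro a b c da db dc t ha hb' hc'
    refine ((((hA (a t)).comp t ha).fun_sub (((hW (a t)).comp t ha).fun_mul
      (((hb'.const_mul (be / al)).sub_const 1).div_const (be - al)))).fun_sub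
      (((hm (a t)).comp t ha).fun_mul (hc'.fun_sub
        (((((((hb'.div_const al).sub_const (1 / be)).add_const 1).fun_sub hb').const_mul
          (N - 2)).div_const (N + 2)).fun_add
          ((ha.fun_mul ((hT (a t)).comp t ha)).const_mul d))))).congr_deriv ?_
    simp only [vOf, bandT, bandLr, hc, Function.comp_apply, d]
    ring
  have et : ∀ u' r' h', 0 < u' → h' - bandT N al be d T u' r' =
      d * u' * (tauOf N al be d u' r' h' - T u') := by
    intro u' r' h' hu'
    simp only [tauOf, bandT]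
    field_simp
    ring
  set G₁ : ℝ → ℝ → ℝ → ℝ := fun a b c => G a b c + K * max 0 (u₀ - a) ^ 2 with hG₁def
  have hG₁ : HasGrad G₁
      (fun a b c => (A' a - W' a * vOf al be b - m' a * (c - bandT N al be d T a b) +
        m a * (d * (T a + a * T' a))) + K * (-(2 * max 0 (u₀ - a))))
      (fun a _ _ => -(W a * (be / al / d)) + m a * bandLr N al) (fun a _ _ => -m a) := by
    intro a b c da db dc t ha hb' hc'
    refine ((hG a b c da db dc t ha hb' hc').fun_add
      ((((hasDerivAt_max_sq (u₀ - a t)).comp t (ha.const_sub u₀))).const_mul K)).congr_deriv ?_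
    ring
  have cT : Continuous T := continuous_iff_continuousAt.2 fun a => (hT a).continuousAt
  have cA : Continuous A := continuous_iff_continuousAt.2 fun a => (hA a).continuousAt
  have cW : Continuous W := continuous_iff_continuousAt.2 fun a => (hW a).continuousAt
  have cm : Continuous m := continuous_iff_continuousAt.2 fun a => (hm a).continuousAt
  have cG : Continuous fun w : ℝ × ℝ × ℝ => G₁ w.1 w.2.1 w.2.2 := by
    simp only [G₁, G, vOf, bandT, hc]
    fun_prop
  have key := hf.barrier hb.five hlow u₁ G₁ _ _ _ E hG₁ (fun r' => cG.continuousAt)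
    (fun r' h0 h1 h2 => ?_) (fun w' hw' hw'0 hw'u => hE w' hw' hw'0 hw'u)
    (fun u' r' w' hI hu' hE' hG0 => ?_) w hw hw0 hwu
  · have e : max 0 (u₀ - uOf N (R w) (x w)) = 0 := max_eq_left (by linarith)
    simp only [G₁, e] at key
    simpa [G] using key
  · have := hcentre r' h0 h1 h2
    simp only [G₁, G, bandT, zero_mul, mul_zero, add_zero, sub_self, sub_zero, max_eq_right hu₀,
      al, be] at this ⊢
    exact this
  · have hI' := hI
    obtain ⟨hu0, hu1', hr0, hr1, hh0, hh1, hr2, hc0, hk, -⟩ := hI'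
    simp only [G₁, G] at hG0
    rw [et _ _ _ hu0] at hG0
    obtain ⟨hv', hv1'⟩ := hb.v_mem hc0 hr1 hk
    have hv : 33 / 100 ≤ vOf al be r' := hv'
    have hv1 : vOf al be r' ≤ 89 / 20 := hv1'
    rcases lt_or_ge u' u₀ with hlt | hge
    · exfalso
      have := hbefore u' r' w' hI hlt.le hE' hv hv1
      rw [max_eq_right (by linarith : (0 : ℝ) ≤ u₀ - u')] at hG0
      linarith
    have emax : max 0 (u₀ - u') = 0 := max_eq_left (by linarith)
    have hG0' : A u' - W u' * vOf al be r' - m u' * (d * u' * (tauOf N al be d u' r' w' - T u')) = 0 := by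
      rw [emax] at hG0
      linarith
    have hs := hsign u' r' w' hI hge hu' hE' hv hv1 hG0'
    clear hG0'
    generalize htd : tauOf N al be d u' r' w' = t at hs hG0
    generalize hvd : vOf al be r' = v at hs hG0 hv hv1
    have hr' : al / be * (1 + d * v) = r' := by rw [← hvd]; exact hb.r_eq r'
    have hw' : w' = bandL N al be d t 0 0 u' r' := by
      rw [← htd]
      simp only [tauOf, bandL]
      field_simp
      ring
    have hB : 0 < bandB (al + be) d := by
      unfold bandB; exact mul_pos (by linarith) (by linarith [hb.S_high])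
    have hbv := band_value (u := u') (v := v) (c₁ := t) (c₂ := 0) (c₃ := 0)
      hb.sum rfl rfl hal.ne' hbe.ne' hS1 hS2
    rw [hr', ← hw'] at hbv
    have hD : 0 < denV (al + be) d u' v t := by
      have h1 : u' * w' < 1 := lt_of_le_of_lt (mul_le_of_le_one_right hu0.le hh1.le) hu1'
      have h2 : 0 < d * v := mul_pos hd (lt_of_lt_of_le (by norm_num : (0 : ℝ) < 33 / 100) hv)
      have e : denV (al + be) d u' v t = bandB (al + be) d * (2 + d * v - u' * w') := by
        rw [hbv]
        simp only [denV, bandD, d]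
        generalize bandK (al + be) (be - al) u' v t 0 0 = K
        simp only [d] at hB
        field_simp
      rw [e]
      exact mul_pos hB (by linarith)
    have kl := lie_band (u := u') (v := v) (c₁ := t) (c₂ := 0) (c₃ := 0) hb.sum rfl rfl hal.ne'
      hbe.ne' hS1 hS2 hD.ne'
    have kp := exitP_band (u := u') (v := v) (t := t) (W := W u')
      (g := A' u' - W' u' * v - m' u' * (d * u' * (t - T u')) +
        m u' * d * (T u' + u' * T' u' - t)) hb.sum rfl rfl hal.ne' hbe.ne' hS1 hS2 hD.ne'
    rw [← hbv, hr'] at kp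
    rw [hr', ← hw'] at kl
    change exitM (al + be) d u' v t (W u') _ (m u') < 0 at hs
    simp only [exitM] at hs
    change _ * _ = d * u' * lieT (al + be) d u' v t 0 0 at kl
    have hX : 0 < (1 - (al + be)) * bandB (al + be) d * be * denV (al + be) d u' v t :=
      mul_pos (mul_pos (mul_pos (by linarith [hb.S_high]) hB) hbe) hD
    simp only [emax, mul_zero, neg_zero, add_zero]
    refine pos_of_mul_pos_left (b := (1 - (al + be)) * bandB (al + be) d * be *
      denV (al + be) d u' v t) ?_ hX.le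
    refine lt_of_lt_of_eq (b := -(u' * (bandB (al + be) d *
      exitP (al + be) d u' v t (W u') (A' u' - W' u' * v - m' u' * (d * u' * (t - T u')) +
        m u' * d * (T u' + u' * T' u' - t)) + m u' * d * lieT (al + be) d u' v t 0 0)))
      (neg_pos.2 (mul_neg_of_pos_of_neg hu0 hs)) (Eq.symm ?_)
    have hr'' : r' * (be / al) = 1 + d * v := by rw [← hr']; field_simp
    have edv : r' * dv N al be u' r' w' * (be / al / d) =
        u' / d * (1 + d * v) * (qv N al be u' r' w' * w' - (N - 2) * (1 - r')) := by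
      simp only [dv]
      rw [← hr'']
      ring
    simp only [lie, bandLu, denV] at kl
    rw [et _ _ _ hu0, htd]
    simp only [← hald, ← hbed]
    have e3 : (A' u' - W' u' * v - m' u' * (d * u' * (t - T u')) + m u' * (d * (T u' + u' * T' u'))) *
        (u' * ev N al be u' r' w') + (-(W u' * (be / al / d)) + m u' * bandLr N al) *
        (r' * dv N al be u' r' w') + -m u' * fh N al be u' r' w' =
        (A' u' - W' u' * v - m' u' * (d * u' * (t - T u')) + m u' * (d * (T u' + u' * T' u'))) *
          (u' * ev N al be u' r' w') - W u' * (r' * dv N al be u' r' w' * (be / al / d)) +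
          m u' * (bandLr N al * (r' * dv N al be u' r' w') - fh N al be u' r' w') := by ring
    simp only [denV] at hX kp ⊢
    rw [e3, edv]
    generalize bandD (al + be) d u' v (bandK (al + be) d u' v t 0 0) = D at kl kp hX ⊢
    generalize exitP (al + be) d u' v t (W u') _ = P at kp ⊢
    generalize lieT (al + be) d u' v t 0 0 = L at kl ⊢
    have hk' : d * (u' / d) = u' := mul_div_cancel₀ _ hd.ne'
    generalize u' / d = k' at hk' ⊢
    subst hk'
    linear_combination (-(k' * bandB (al + be) d)) * kp - m (d * k') * kl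

end Vale.Agent.P100.Calib.Band
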