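import Vale.Agent.P100.Calib.SlabBoxAll
import Vale.Agent.P100.Calib.SlabAllLie
import Vale.Agent.P100.Calib.SlabForward
import Vale.Agent.P100.Calib.SlabEv

/-!
# Rungs on the box of all dimensions from six on

A barrier is a function of `(u, v, H)`, `H = h/d`; its flow is the closed form `allDot`.
-/

open Set Filter Topology

namespace Vale.Agent.P100.Calib.Band

open Vale.Agent.P100.Bubble Chart

/-- The range of `v` on the chart. -/
structure VRange (N a b v : ℝ) : Prop where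
  low : 2 < (N + 2 * a) * v
  high : (N - 2) * ((b - a) * v) < 2
  av : a * v < 1

/-- What the chart says in the variables `(u, v, H)`. -/
structure AllPoint (N a b u v H : ℝ) : Prop extends VRange N a b v where
  u_pos : 0 < u
  u_lt : u < 1
  H_pos : 0 < H
  H_lt : (b - a) * H < 1
  den_pos : 0 < allDen a b u v H
  flow_pos : 0 < allFlow a b u v H

variable {N a b u r h v H : ℝ}

theorem VRange.pos (h : VRange N a b v) (hN : 0 < N + 2 * a) : 0 < v :=
  pos_of_mul_pos_right (two_pos.trans h.low) hN.le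

namespace SlabBoxAll

theorem dim (hb : SlabBoxAll N a b) : N - 2 = N * (a + b) := by linarith [hb.sum]

theorem r_eq (hb : SlabBoxAll N a b) (r : ℝ) : a / b * (1 + (b - a) * vOf a b r) = r := by
  obtain ⟨ha, hb', hd, -⟩ := hb.facts
  unfold vOf
  field_simp
  ring

theorem hc_eq (hb : SlabBoxAll N a b) (r : ℝ) :
    hc N a b r = (b - a) * allHc a b (vOf a b r) := by
  obtain ⟨ha, hb', hd, -, h2, -⟩ := hb.facts
  have hN : N + 2 ≠ 0 := by linarith [hb.six]
  have e : N + 2 = N * (2 - (a + b)) := by linarith [hb.sum]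
  have hN0 : N ≠ 0 := by linarith [hb.six]
  simp only [hc, allHc, hb.dim, e]
  conv_lhs => rw [← hb.r_eq r]
  generalize vOf a b r = v
  field_simp
  ring

theorem v_range (hb : SlabBoxAll N a b) (hc : 0 < Trap.c0p N a b r) (h1 : r < 1)
    (hk : (N - 2) * b * r < N * a) : VRange N a b (vOf a b r) := by
  obtain ⟨ha, hb', hd, -⟩ := hb.facts
  set v := vOf a b r
  have hr : b * r = a * (1 + (b - a) * v) := by
    have := hb.r_eq r
    rw [div_mul_eq_mul_div, div_eq_iff hb'.ne'] at this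
    linarith
  refine ⟨?_, ?_, ?_⟩
  · refine lt_of_mul_lt_mul_right (a := a * (b - a)) ?_ (mul_pos ha hd).le
    simp only [Trap.c0p] at hc
    have := congrArg (fun w => (N + 2 * a) * w) hr
    linarith
  · have h2 : (N - 2) * (1 + (b - a) * v) < N := by
      refine lt_of_mul_lt_mul_left (a := a) ?_ ha.le
      have := congrArg (fun w => (N - 2) * w) hr
      linarith
    linarith
  · refine lt_of_mul_lt_mul_left (a := b - a) ?_ hd.le
    have := mul_lt_mul_of_pos_left h1 hb'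
    linarith

theorem den_pos (hb : SlabBoxAll N a b) (hv : VRange N a b v) (h1 : u * ((b - a) * H) < 2) :
    0 < allDen a b u v H := by
  have := mul_pos hb.facts.2.2.1 (hv.pos (by linarith [hb.six, hb.al_pos]))
  simp only [allDen]
  linarith

theorem point (hb : SlabBoxAll N a b) (hI : InChart N a b u r h) :
    AllPoint N a b u (vOf a b r) (h / (b - a)) := by
  obtain ⟨hu0, hu1, -, hr1, hh0, hh1, -, hc0, hk, hflow⟩ := hI
  obtain ⟨ha, hb', hd, -⟩ := hb.facts
  have hv := hb.v_range hc0 hr1 hk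
  have hH : (b - a) * (h / (b - a)) = h := mul_div_cancel₀ _ hd.ne'
  have hD := hb.den_pos (u := u) (H := h / (b - a)) hv (by
    rw [hH]; linarith [mul_le_of_le_one_right hu0.le hh1.le])
  refine ⟨hv, hu0, hu1, div_pos hh0 hd, by rw [hH]; exact hh1, hD, ?_⟩
  have e := flow_all hb.dim ha.ne' hb'.ne' hD.ne'
  rw [hH, hb.r_eq r] at e
  have h2 : 0 < (qv N a b u r h * h - (N - 2) * (1 - r)) *
      (b * allDen a b u (vOf a b r) (h / (b - a))) :=
    mul_pos (by linarith) (mul_pos hb' hD)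
  rw [e] at h2
  exact pos_of_mul_pos_right (pos_of_mul_pos_right h2 (by linarith [hb.six])) hd.le

theorem dot_eq (hb : SlabBoxAll N a b) (hD : 0 < allDen a b u (vOf a b r) (h / (b - a)))
    (gu gv gh : ℝ) :
    (gu * (u * ev N a b u r h) + gv * (b / a / (b - a)) * (r * dv N a b u r h) +
        gh / (b - a) * fh N a b u r h) * (b * allDen a b u (vOf a b r) (h / (b - a))) =
      N * allDot a b u (vOf a b r) (h / (b - a)) gu gv gh := by
  obtain ⟨ha, hb', hd, -⟩ := hb.facts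
  have e := dot_all hb.dim ha.ne' hb'.ne' hd.ne' hD.ne' gu gv gh
  rwa [hb.r_eq r, mul_div_cancel₀ _ hd.ne'] at e

end SlabBoxAll

theorem hasGrad_chart {F Fu Fv Fh : ℝ → ℝ → ℝ → ℝ} (hF : HasGrad F Fu Fv Fh) (a b : ℝ) :
    HasGrad (fun u r h => F u (vOf a b r) (h / (b - a)))
      (fun u r h => Fu u (vOf a b r) (h / (b - a)))
      (fun u r h => Fv u (vOf a b r) (h / (b - a)) * (b / a / (b - a)))
      (fun u r h => Fh u (vOf a b r) (h / (b - a)) / (b - a)) := by
  intro u r h du dr dh t hu hr hh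
  have hv : HasDerivAt (fun s => vOf a b (r s)) ((b / a / (b - a)) * dr) t :=
    ((((hr.const_mul (b / a)).sub_const 1).div_const (b - a))).congr_deriv (by ring)
  exact (hF u _ _ du _ _ t hu hv (hh.div_const (b - a))).congr_deriv (by ring)

theorem continuous_chart {F : ℝ → ℝ → ℝ → ℝ}
    (hF : Continuous fun w : ℝ × ℝ × ℝ => F w.1 w.2.1 w.2.2) (a b : ℝ) :
    Continuous fun w : ℝ × ℝ × ℝ => F w.1 (vOf a b w.2.1) (w.2.2 / (b - a)) := by
  have : Continuous fun w : ℝ × ℝ × ℝ => (w.1, vOf a b w.2.1, w.2.2 / (b - a)) := by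
    simp only [vOf]; fun_prop
  exact hF.comp this

variable {p q : ℝ} {S : Set ℝ} {R x y s dx dy : ℝ → ℝ}

/-- The orbit in the variables `(u, v, H)`. -/
theorem orbit_point_all (hf : IsOrbitFns N p q S R x y s dx dy)
    (hb : SlabBoxAll N (1 / (p + 1)) (1 / (q + 1))) {w : ℝ} (hw : w ∈ S) (hw0 : 0 < R w) :
    AllPoint N (1 / (p + 1)) (1 / (q + 1)) (uOf N (R w) (x w))
        (vOf (1 / (p + 1)) (1 / (q + 1)) (y w / x w))
        (hOf N (R w) (x w) (y w) w / (1 / (q + 1) - 1 / (p + 1))) ∧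
      0 < allEn (1 / (p + 1)) (1 / (q + 1)) (uOf N (R w) (x w))
        (vOf (1 / (p + 1)) (1 / (q + 1)) (y w / x w))
        (hOf N (R w) (x w) (y w) w / (1 / (q + 1) - 1 / (p + 1))) := by
  obtain ⟨ha, hb', hd, -⟩ := hb.facts
  have hP := hb.point (hf.chart hb.five hb.one_le w hw hw0)
  refine ⟨hP, ?_⟩
  have he := orbit_ev_pos hf hb.five hb.one_le ha hb' hw hw0
  have e := ev_all hb.dim ha.ne' hb'.ne' hP.den_pos.ne'
  rw [hb.r_eq, mul_div_cancel₀ _ hd.ne'] at e
  have := mul_pos he (mul_pos hb' hP.den_pos)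
  rw [e] at this
  exact pos_of_mul_pos_right this (by linarith [hb.six])

/-- **A barrier from the centre.** -/
theorem barrier_step_all (hf : IsOrbitFns N p q S R x y s dx dy)
    (hb : SlabBoxAll N (1 / (p + 1)) (1 / (q + 1))) (u₁ : ℝ)
    {F Fu Fv Fh : ℝ → ℝ → ℝ → ℝ} (hF : HasGrad F Fu Fv Fh)
    (cF : Continuous fun w : ℝ × ℝ × ℝ => F w.1 w.2.1 w.2.2) (E : ℝ → ℝ → ℝ → Prop)
    (hE : ∀ w ∈ S, 0 < R w → uOf N (R w) (x w) ≤ u₁ →
      E (uOf N (R w) (x w)) (vOf (1 / (p + 1)) (1 / (q + 1)) (y w / x w))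
        (hOf N (R w) (x w) (y w) w / (1 / (q + 1) - 1 / (p + 1))))
    (hcentre : ∀ v, 2 ≤ (N + 2 * (1 / (p + 1))) * v →
      (N - 2) * ((1 / (q + 1) - 1 / (p + 1)) * v) < 2 → (1 / (p + 1)) * v < 1 →
      0 < F 0 v (allHc (1 / (p + 1)) (1 / (q + 1)) v))
    (hsign : ∀ u v H, AllPoint N (1 / (p + 1)) (1 / (q + 1)) u v H →
      0 < allEn (1 / (p + 1)) (1 / (q + 1)) u v H → u ≤ u₁ → E u v H → F u v H = 0 →
      0 < allDot (1 / (p + 1)) (1 / (q + 1)) u v H (Fu u v H) (Fv u v H) (Fh u v H))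
    {w : ℝ} (hw : w ∈ S) (hw0 : 0 < R w) (hwu : uOf N (R w) (x w) ≤ u₁) :
    0 < F (uOf N (R w) (x w)) (vOf (1 / (p + 1)) (1 / (q + 1)) (y w / x w))
      (hOf N (R w) (x w) (y w) w / (1 / (q + 1) - 1 / (p + 1))) := by
  obtain ⟨ha, hb', hd, -⟩ := hb.facts
  set al := 1 / (p + 1)
  set be := 1 / (q + 1)
  refine hf.barrier hb.five hb.one_le u₁ _ _ _ _
    (fun u r h => InChart N al be u r h → 0 < allEn al be u (vOf al be r) (h / (be - al)) ∧
      E u (vOf al be r) (h / (be - al)))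
    (hasGrad_chart hF al be) (fun r => (continuous_chart cF al be).continuousAt)
    (fun r h0 h1 h2 => ?_)
    (fun z hz hz0 hzu _ => ⟨(orbit_point_all hf hb hz hz0).2, hE z hz hz0 hzu⟩)
    (fun u r h hI hu hE' hG => ?_) w hw hw0 hwu
  · show 0 < F 0 (vOf al be r) (hc N al be r / (be - al))
    rw [hb.hc_eq r, mul_div_cancel_left₀ _ hd.ne']
    have hr : be * r = al * (1 + (be - al) * vOf al be r) := by
      have e : al / be * (1 + (be - al) * vOf al be r) = r := hb.r_eq r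
      rw [div_mul_eq_mul_div, div_eq_iff hb'.ne'] at e
      linarith
    refine hcentre _ ?_ ?_ ?_
    · refine le_of_mul_le_mul_right (a := al * (be - al)) ?_ (mul_pos ha hd)
      simp only [Trap.c0p] at h0
      have := congrArg (fun w => (N + 2 * al) * w) hr
      linarith
    · have h3 : (N - 2) * (1 + (be - al) * vOf al be r) < N := by
        refine lt_of_mul_lt_mul_left (a := al) ?_ ha.le
        have := congrArg (fun w => (N - 2) * w) hr
        linarith
      linarith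
    · refine lt_of_mul_lt_mul_left (a := be - al) ?_ hd.le
      have := mul_lt_mul_of_pos_left h1 hb'
      linarith
  · obtain ⟨he, hE'⟩ := hE' hI
    have hP := hb.point hI
    have hs := hsign u _ _ hP he hu hE' hG
    refine pos_of_mul_pos_left ?_ (mul_pos hb' hP.den_pos).le
    rw [hb.dot_eq hP.den_pos]
    exact mul_pos (by linarith [hb.six]) hs

/-- **An exit barrier** up to `u₁ < 1`. -/
theorem exit_step_all (hf : IsOrbitFns N p q S R x y s dx dy)
    (hb : SlabBoxAll N (1 / (p + 1)) (1 / (q + 1))) {u₁ : ℝ} (hu₁ : u₁ < 1)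
    {F Fu Fv Fh : ℝ → ℝ → ℝ → ℝ} (hF : HasGrad F Fu Fv Fh) (E : ℝ → ℝ → ℝ → Prop)
    (hE : ∀ w ∈ S, 0 < R w → uOf N (R w) (x w) ≤ u₁ →
      E (uOf N (R w) (x w)) (vOf (1 / (p + 1)) (1 / (q + 1)) (y w / x w))
        (hOf N (R w) (x w) (y w) w / (1 / (q + 1) - 1 / (p + 1))))
    (hend : ∀ v H, AllPoint N (1 / (p + 1)) (1 / (q + 1)) u₁ v H →
      0 < allEn (1 / (p + 1)) (1 / (q + 1)) u₁ v H → E u₁ v H → 0 < F u₁ v H)
    (hsign : ∀ u v H, AllPoint N (1 / (p + 1)) (1 / (q + 1)) u v H →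
      0 < allEn (1 / (p + 1)) (1 / (q + 1)) u v H → u ≤ u₁ → E u v H → F u v H = 0 →
      allDot (1 / (p + 1)) (1 / (q + 1)) u v H (Fu u v H) (Fv u v H) (Fh u v H) < 0)
    {w : ℝ} (hw : w ∈ S) (hw0 : 0 < R w) (hwu : uOf N (R w) (x w) ≤ u₁) :
    0 < F (uOf N (R w) (x w)) (vOf (1 / (p + 1)) (1 / (q + 1)) (y w / x w))
      (hOf N (R w) (x w) (y w) w / (1 / (q + 1) - 1 / (p + 1))) := by
  obtain ⟨ha, hb', hd, -⟩ := hb.facts
  set al := 1 / (p + 1)
  set be := 1 / (q + 1)
  refine hf.exit_barrier hb.five hb.one_le u₁ hu₁ _ _ _ _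
    (fun u r h => InChart N al be u r h → 0 < allEn al be u (vOf al be r) (h / (be - al)) ∧
      E u (vOf al be r) (h / (be - al)))
    (hasGrad_chart hF al be)
    (fun z hz hz0 hzu _ => ⟨(orbit_point_all hf hb hz hz0).2, hE z hz hz0 hzu⟩)
    (fun r h hI hE' => ?_) (fun u r h hI hu hE' hG => ?_) w hw hw0 hwu
  · exact hend _ _ (hb.point hI) (hE' hI).1 (hE' hI).2
  · have hP := hb.point hI
    have hs := hsign u _ _ hP (hE' hI).1 hu (hE' hI).2 hG
    refine neg_of_mul_neg_left (b := be * allDen al be u (vOf al be r) (h / (be - al))) ?_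
      (mul_pos hb' hP.den_pos).le
    rw [hb.dot_eq hP.den_pos]
    exact mul_neg_of_pos_of_neg (by linarith [hb.six]) hs

/-- **A forward barrier** from `u₀`: before it only `F + K (u₀ - u)² > 0` is asked. -/
theorem forward_step_all (hf : IsOrbitFns N p q S R x y s dx dy)
    (hb : SlabBoxAll N (1 / (p + 1)) (1 / (q + 1))) {u₀ u₁ K : ℝ} (hu₀ : 0 ≤ u₀)
    {F Fu Fv Fh : ℝ → ℝ → ℝ → ℝ} (hF : HasGrad F Fu Fv Fh)
    (cF : Continuous fun w : ℝ × ℝ × ℝ => F w.1 w.2.1 w.2.2) (E : ℝ → ℝ → ℝ → Prop)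
    (hE : ∀ w ∈ S, 0 < R w → uOf N (R w) (x w) ≤ u₁ →
      E (uOf N (R w) (x w)) (vOf (1 / (p + 1)) (1 / (q + 1)) (y w / x w))
        (hOf N (R w) (x w) (y w) w / (1 / (q + 1) - 1 / (p + 1))))
    (hcentre : ∀ v, 2 ≤ (N + 2 * (1 / (p + 1))) * v →
      (N - 2) * ((1 / (q + 1) - 1 / (p + 1)) * v) < 2 → (1 / (p + 1)) * v < 1 →
      0 < F 0 v (allHc (1 / (p + 1)) (1 / (q + 1)) v) + K * u₀ ^ 2)
    (hbefore : ∀ u v H, AllPoint N (1 / (p + 1)) (1 / (q + 1)) u v H →
      0 < allEn (1 / (p + 1)) (1 / (q + 1)) u v H → u ≤ u₀ → E u v H →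
      0 < F u v H + K * (u₀ - u) ^ 2)
    (hsign : ∀ u v H, AllPoint N (1 / (p + 1)) (1 / (q + 1)) u v H →
      0 < allEn (1 / (p + 1)) (1 / (q + 1)) u v H → u₀ ≤ u → u ≤ u₁ → E u v H → F u v H = 0 →
      0 < allDot (1 / (p + 1)) (1 / (q + 1)) u v H (Fu u v H) (Fv u v H) (Fh u v H))
    {w : ℝ} (hw : w ∈ S) (hw0 : 0 < R w) (hw0u : u₀ ≤ uOf N (R w) (x w))
    (hwu : uOf N (R w) (x w) ≤ u₁) :
    0 < F (uOf N (R w) (x w)) (vOf (1 / (p + 1)) (1 / (q + 1)) (y w / x w))
      (hOf N (R w) (x w) (y w) w / (1 / (q + 1) - 1 / (p + 1))) := by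
  have cP : Continuous fun w : ℝ × ℝ × ℝ => F w.1 w.2.1 w.2.2 + K * max 0 (u₀ - w.1) ^ 2 := by
    fun_prop
  have key := barrier_step_all hf hb u₁
    (F := fun u v H => F u v H + K * max 0 (u₀ - u) ^ 2)
    (Fu := fun u v H => Fu u v H + K * (-(2 * max 0 (u₀ - u)))) (Fv := Fv) (Fh := Fh)
    (fun u v H du dv dh t hu hv hh => ((hF u v H du dv dh t hu hv hh).fun_add
      (((hasDerivAt_max_sq (u₀ - u t)).comp t (hu.const_sub u₀)).const_mul K)).congr_deriv
        (by ring))
    cP E hE (fun v h1 h2 h3 => ?_) (fun u v H hP he hu hE' hG => ?_) hw hw0 hwu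
  · rwa [max_eq_left (sub_nonpos.2 hw0u), zero_pow two_ne_zero, mul_zero, add_zero] at key
  · simpa [hu₀] using hcentre v h1 h2 h3
  rcases le_or_gt u u₀ with h0 | h0
  · rw [max_eq_right (sub_nonneg.2 h0)] at hG
    linarith [hbefore u v H hP he h0 hE']
  · simp only [max_eq_left (sub_nonpos.2 h0.le), zero_pow two_ne_zero, mul_zero, add_zero,
      neg_zero] at hG ⊢
    exact hsign u v H hP he h0.le hu hE' hG

/-- **A band `H > g u v` (`e = 1`) or `H < g u v` (`e = -1`) from the centre.** -/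
theorem band_step_all (hf : IsOrbitFns N p q S R x y s dx dy)
    (hb : SlabBoxAll N (1 / (p + 1)) (1 / (q + 1))) {e u₁ : ℝ} (he : e * e = 1)
    {g gu gv : ℝ → ℝ → ℝ} (hg : HasGradTwo g gu gv)
    (cg : Continuous fun w : ℝ × ℝ => g w.1 w.2) (cu : Continuous fun w : ℝ × ℝ => gu w.1 w.2)
    (cv : Continuous fun w : ℝ × ℝ => gv w.1 w.2) (E : ℝ → ℝ → Prop)
    (hE : ∀ w ∈ S, 0 < R w → uOf N (R w) (x w) ≤ u₁ →
      E (uOf N (R w) (x w)) (vOf (1 / (p + 1)) (1 / (q + 1)) (y w / x w)))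
    (hstart : ∀ v, 2 ≤ (N + 2 * (1 / (p + 1))) * v →
      (N - 2) * ((1 / (q + 1) - 1 / (p + 1)) * v) < 2 → (1 / (p + 1)) * v < 1 →
      0 ≤ e * (allHc (1 / (p + 1)) (1 / (q + 1)) v - g 0 v))
    (hsign : ∀ u v, 0 < u → u < 1 → u ≤ u₁ →
      VRange N (1 / (p + 1)) (1 / (q + 1)) v → E u v →
      0 < allDen (1 / (p + 1)) (1 / (q + 1)) u v (g u v) ∧
        0 < e * allDot (1 / (p + 1)) (1 / (q + 1)) u v (g u v) (-gu u v) (-gv u v) 1)
    {w : ℝ} (hw : w ∈ S) (hw0 : 0 < R w) (hwu : uOf N (R w) (x w) ≤ u₁) :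
    0 < e * (hOf N (R w) (x w) (y w) w / (1 / (q + 1) - 1 / (p + 1)) -
      g (uOf N (R w) (x w)) (vOf (1 / (p + 1)) (1 / (q + 1)) (y w / x w))) := by
  obtain ⟨ha, hb', hd, -⟩ := hb.facts
  set al := 1 / (p + 1)
  set be := 1 / (q + 1)
  set d := be - al with hdd
  have hL : HasGradTwo (fun u r => d * g u (vOf al be r)) (fun u r => d * gu u (vOf al be r))
      (fun u r => gv u (vOf al be r) * (be / al)) := by
    intro u r du dr t hu hr
    refine ((hg u _ du _ t hu (((hr.const_mul (be / al)).sub_const 1).div_const (be - al))).const_mul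
      d).congr_deriv ?_
    have := div_mul_cancel₀ (be / al * dr) hd.ne'
    simp only [vOf, ← hdd]
    linear_combination gv (u t) ((be / al * r t - 1) / d) * this
  have cm : Continuous fun w : ℝ × ℝ => (w.1, vOf al be w.2) := by simp only [vOf]; fun_prop
  have c1 := cg.comp cm
  have c2 := cu.comp cm
  have c3 := cv.comp cm
  have key := hf.band_barrier hb.five hb.one_le e u₁ he _ _ _
    (fun u r => E u (vOf al be r)) hL
    (fun r => ⟨(c1.const_mul d).continuousAt, (c2.const_mul d).continuousAt,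
      (c3.mul_const (be / al)).continuousAt⟩)
    (fun r h0 h1 h2 => ?_) hE (fun u r hu hu' hu1 _ hr1 _ hc0 hk hE' => ?_) w hw hw0 hwu
  · refine pos_of_mul_pos_right (a := d) ?_ hd.le
    refine key.trans_eq ?_
    field_simp
  · have e' : d * allHc al be (vOf al be r) = hc N al be r := (hb.hc_eq r).symm
    rw [← e', ← mul_sub, mul_left_comm]
    have hr : be * r = al * (1 + d * vOf al be r) := by
      have e0 : al / be * (1 + (be - al) * vOf al be r) = r := hb.r_eq r
      rw [div_mul_eq_mul_div, div_eq_iff hb'.ne'] at e0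
      rw [hdd]; linarith
    refine mul_nonneg hd.le (hstart _ ?_ ?_ ?_)
    · refine le_of_mul_le_mul_right (a := al * d) ?_ (mul_pos ha hd)
      simp only [Trap.c0p] at h0
      have := congrArg (fun w => (N + 2 * al) * w) hr
      simp only [hdd] at this ⊢
      linarith
    · have h3 : (N - 2) * (1 + d * vOf al be r) < N := by
        refine lt_of_mul_lt_mul_left (a := al) ?_ ha.le
        have := congrArg (fun w => (N - 2) * w) hr
        linarith
      linarith
    · refine lt_of_mul_lt_mul_left (a := d) ?_ hd.le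
      have := mul_lt_mul_of_pos_left h1 hb'
      simp only [hdd] at hr ⊢
      linarith
  obtain ⟨hD, hs⟩ := hsign u _ hu hu' hu1 (hb.v_range hc0 hr1 hk) hE'
  have hH : d * g u (vOf al be r) / (be - al) = g u (vOf al be r) := mul_div_cancel_left₀ _ hd.ne'
  have e2 := hb.dot_eq (u := u) (r := r) (h := d * g u (vOf al be r)) (by rw [hH]; exact hD)
    (-gu u (vOf al be r)) (-gv u (vOf al be r)) 1
  rw [hH] at e2
  set P := be * allDen al be u (vOf al be r) (g u (vOf al be r)) with hP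
  refine pos_of_mul_pos_left (b := P) ?_ (mul_pos hb' hD).le
  have e3 : lie N al be (fun u r => d * gu u (vOf al be r))
      (fun u r => gv u (vOf al be r) * (be / al)) u r (d * g u (vOf al be r)) =
      d * (-gu u (vOf al be r) * (u * ev N al be u r (d * g u (vOf al be r))) +
        -gv u (vOf al be r) * (be / al / (be - al)) *
          (r * dv N al be u r (d * g u (vOf al be r))) +
        1 / (be - al) * fh N al be u r (d * g u (vOf al be r))) := by
    simp only [lie, ← hdd]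
    have k1 : d * (1 / d) = 1 := mul_one_div_cancel hd.ne'
    have k2 : be / al / d * d = be / al := div_mul_cancel₀ _ hd.ne'
    generalize be / al / d = k at k2 ⊢
    generalize be / al = l at k2 ⊢
    generalize (1 : ℝ) / d = m at k1 ⊢
    linear_combination (-fh N al be u r (d * g u (vOf al be r))) * k1 +
      gv u (vOf al be r) * (r * dv N al be u r (d * g u (vOf al be r))) * k2
  rw [e3, mul_assoc, mul_assoc, e2]
  have := mul_pos (mul_pos hd (show 0 < N by linarith [hb.six])) hs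
  linarith

end Vale.Agent.P100.Calib.Band
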