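import Vale.Agent.P100.Calib.SlabClosed

/-!
# The closed forms in `(g W, g E, g K, g W1)`

The closed forms depend on `g`, `W`, `E`, `K`, `W1` through these products only, are quadratic in
`g W` and affine in `g K` and `g W1`. The arrow follows from a linear split.
-/

set_option linter.unusedSimpArgs false

namespace Vale.Agent.P100.Calib.Closed

variable (a d v g W W1 R E K : ℝ)

theorem TGG_expand : TGG a d v g W W1 R E K = TGG a d v 1 0 0 0 0 0 +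
    (TGG a d v 1 1 0 0 0 0 - TGG a d v 1 (-1) 0 0 0 0) / 2 * (g * W) +
    (TGG a d v 1 1 0 0 0 0 + TGG a d v 1 (-1) 0 0 0 0 - 2 * TGG a d v 1 0 0 0 0 0) / 2 *
      (g * W) ^ 2 := by
  simp only [TGG, LGG, LGGc, LGGv, gG, hG]
  ring

theorem TEG_expand : TEG a d v g W W1 R E K = TEG a d v 1 0 0 0 (g * E) 0 +
    (TEG a d v 1 1 0 0 (g * E) 0 - TEG a d v 1 (-1) 0 0 (g * E) 0) / 2 * (g * W) +
    (TEG a d v 1 1 0 0 (g * E) 0 + TEG a d v 1 (-1) 0 0 (g * E) 0 -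
      2 * TEG a d v 1 0 0 0 (g * E) 0) / 2 * (g * W) ^ 2 := by
  simp only [TEG, LEG, LEG1, LEG1_000000_0, LEGc, LEGv, LEGw, j1, gE, gG, hE, hG]
  ring

theorem TA_expand : TA a d v g W W1 R E K = TA a d v 1 0 0 0 (g * E) 0 +
    (TA a d v 1 1 0 0 (g * E) 0 - TA a d v 1 (-1) 0 0 (g * E) 0) / 2 * (g * W) +
    (TA a d v 1 1 0 0 (g * E) 0 + TA a d v 1 (-1) 0 0 (g * E) 0 -
      2 * TA a d v 1 0 0 0 (g * E) 0) / 2 * (g * W) ^ 2 +
    (TA a d v 1 0 0 0 (g * E) 1 - TA a d v 1 0 0 0 (g * E) 0) * (g * K) +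
    (TA a d v 1 0 1 0 (g * E) 0 - TA a d v 1 0 0 0 (g * E) 0) * (g * W1) := by
  simp only [TA, TEE, TMG, LEE, LEE1, LEEc, LEEc_000000_0, LEEc_000000_1, LEEc_110000_0,
    LEEc_110000_1, LEEv, LEEw, LMG, LMG1, LMG1_000000_0, LMG1_000000_1, LMGc, LMGc_000000_0,
    LMGc_000000_1, LMGv, LMGw, gramEE, gramMG, j1, gM, gE, gG, hM, hE, hG]
  ring

theorem TMG_expand : TMG a d v g W W1 R E K = TMG a d v 1 0 0 0 (g * E) 0 +
    (TMG a d v 1 1 0 0 (g * E) 0 - TMG a d v 1 (-1) 0 0 (g * E) 0) / 2 * (g * W) +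
    (TMG a d v 1 1 0 0 (g * E) 0 + TMG a d v 1 (-1) 0 0 (g * E) 0 -
      2 * TMG a d v 1 0 0 0 (g * E) 0) / 2 * (g * W) ^ 2 +
    (TMG a d v 1 0 0 0 (g * E) 1 - TMG a d v 1 0 0 0 (g * E) 0) * (g * K) +
    (TMG a d v 1 0 1 0 (g * E) 0 - TMG a d v 1 0 0 0 (g * E) 0) * (g * W1) := by
  simp only [TMG, LMG, LMG1, LMG1_000000_0, LMG1_000000_1, LMGc, LMGc_000000_0,
    LMGc_000000_1, LMGv, LMGw, gramEE, gramMG, gM, gE, gG, hM, hE, hG, j1]
  ring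

theorem TME_expand : g * TME a d v g W W1 E K = TME a d v 1 0 0 (g * E) 0 +
    (TME a d v 1 1 0 (g * E) 0 - TME a d v 1 0 0 (g * E) 0) * (g * W) +
    (TME a d v 1 0 0 (g * E) 1 - TME a d v 1 0 0 (g * E) 0) * (g * K) +
    (TME a d v 1 0 1 (g * E) 0 - TME a d v 1 0 0 (g * E) 0) * (g * W1) := by
  simp only [TME, TME_010000_0, TME_010000_1]
  ring

/-- The arrow times `g ^ 2`. -/
theorem TArrow_scale : g ^ 2 * TArrow a d v g W W1 R E K =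
    4 * TA a d v g W W1 R E K * ((1 + d * v) * ((1 - 2 * a - d) * (g * W) * -(g * E))) *
        TGG a d v g W W1 R E K -
      16 * (1 + d * v) * (g * TME a d v g W W1 E K) ^ 2 * TGG a d v g W W1 R E K -
      625 * d ^ 2 * v ^ 2 * (1 + d * v) * TEG a d v g W W1 R E K ^ 2 *
        ((1 + d * v) * ((1 - 2 * a - d) * (g * W) * -(g * E))) := by
  simp only [TArrow, TMM]
  ring

/-- A concave quadratic is positive between two points where it is positive. -/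
theorem concave_pos {f : ℝ → ℝ} {c₀ c₁ c₂ x y p : ℝ}
    (hf : ∀ z, f z = c₀ + c₁ * z + c₂ * z ^ 2) (h2 : c₂ ≤ 0) (hx : x ≤ p) (hy : p ≤ y)
    (fx : 0 < f x) (fy : 0 < f y) : 0 < f p := by
  rw [hf] at fx fy ⊢
  rcases eq_or_lt_of_le hx with rfl | hx'
  · exact fx
  by_contra hn
  have key : (c₀ + c₁ * p + c₂ * p ^ 2) * (y - x) = (y - p) * (c₀ + c₁ * x + c₂ * x ^ 2) +
      (p - x) * (c₀ + c₁ * y + c₂ * y ^ 2) - c₂ * ((p - x) * (y - p) * (y - x)) := by ring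
  have h3 : c₂ * ((p - x) * (y - p) * (y - x)) ≤ 0 :=
    mul_nonpos_of_nonpos_of_nonneg h2
      (mul_nonneg (mul_nonneg (by linarith) (by linarith)) (by linarith))
  have h4 : (c₀ + c₁ * p + c₂ * p ^ 2) * (y - x) ≤ 0 :=
    mul_nonpos_of_nonpos_of_nonneg (not_lt.1 hn) (by linarith)
  have h5 : 0 < (p - x) * (c₀ + c₁ * y + c₂ * y ^ 2) := mul_pos (by linarith) fy
  have h6 : 0 ≤ (y - p) * (c₀ + c₁ * x + c₂ * x ^ 2) := mul_nonneg (by linarith) fx.le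
  linarith

/-- The arrow from a linear split. -/
theorem arrow_of_split {o X G A M T c k₁ k₂ k₂' : ℝ} (ho : 0 < o) (hX : 0 < X) (hG : 0 < G)
    (hM : M ≤ 0) (h1 : 0 ≤ k₁ * X + 4 * M) (h2 : 0 ≤ 4 * k₂ * G - c * T)
    (h2' : 0 ≤ 4 * k₂' * G + c * T) (h3 : 0 < A + k₁ * M - k₂ * T)
    (h3' : 0 < A + k₁ * M + k₂' * T) :
    0 < 4 * A * (o * X) * G - 16 * o * M ^ 2 * G - c * T ^ 2 * (o * X) := by
  have hF : 0 < o * X := mul_pos ho hX
  have e1 : 0 ≤ -(4 * k₁ * X * M + 16 * M ^ 2) := by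
    nlinarith [mul_nonneg (neg_nonneg.2 hM) h1]
  have e1' : 0 ≤ o * G * -(4 * k₁ * X * M + 16 * M ^ 2) :=
    mul_nonneg (mul_nonneg ho.le hG.le) e1
  rcases le_total 0 T with hT | hT
  · have e2 : 0 ≤ o * X * (T * (4 * k₂ * G - c * T)) := mul_nonneg hF.le (mul_nonneg hT h2)
    nlinarith [mul_pos (mul_pos hF hG) h3]
  · have e2 : 0 ≤ o * X * (-T * (4 * k₂' * G + c * T)) :=
      mul_nonneg hF.le (mul_nonneg (neg_nonneg.2 hT) h2')
    nlinarith [mul_pos (mul_pos hF hG) h3']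

end Vale.Agent.P100.Calib.Closed
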