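import Mathlib
import Vale.Agent.P100.Calib.SlabGenClosed
import Vale.Agent.P100.Calib.SlabSignAlgebra

/-!
# The closed forms at `g = 1` along segments of their numbers

Along a segment of `(g W, g W1, g E, g K, G, G1)` the blocks are quadratic; in `G, G1` alone `TEG`,
`E² + MG` and `MG` are affine and `G²` is concave; in `g W1` alone all are affine.
-/

set_option linter.unusedVariables false

namespace Vale.Agent.P100.Calib.Closed.All.Low



/-- The point `θ` of a segment. -/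
def seg (θ x y : ℝ) : ℝ := (1 - θ) * x + θ * y

/-- A function that is quadratic on the segment. -/
def IsQuad (f : ℝ → ℝ) : Prop :=
  ∀ θ, f θ = (1 - θ) ^ 2 * f 0 + 2 * θ * (1 - θ) * (2 * f (1 / 2) - (f 0 + f 1) / 2) + θ ^ 2 * f 1

/-- A function that is affine on the segment. -/
def IsAff (f : ℝ → ℝ) : Prop := ∀ θ, f θ = (1 - θ) * f 0 + θ * f 1

theorem IsAff.mul {f g : ℝ → ℝ} (hf : IsAff f) (hg : IsAff g) : IsQuad fun θ => f θ * g θ := by
  intro θ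
  simp only [hf θ, hg θ, hf (1 / 2), hg (1 / 2)]
  ring

theorem IsAff.quad {f : ℝ → ℝ} (hf : IsAff f) : IsQuad f := by
  intro θ
  rw [hf θ, hf (1 / 2)]
  ring

theorem IsQuad.add {f g : ℝ → ℝ} (hf : IsQuad f) (hg : IsQuad g) :
    IsQuad fun θ => f θ + g θ := by
  intro θ
  simp only
  rw [hf θ, hg θ]
  ring

theorem IsQuad.smul {f : ℝ → ℝ} (c : ℝ) (hf : IsQuad f) : IsQuad fun θ => c * f θ := by
  intro θ
  simp only
  rw [hf θ]
  ring

theorem IsQuad.sub {f g : ℝ → ℝ} (hf : IsQuad f) (hg : IsQuad g) :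
    IsQuad fun θ => f θ - g θ := by
  intro θ
  simp only
  rw [hf θ, hg θ]
  ring

theorem isAff_seg (x y : ℝ) : IsAff fun θ => seg θ x y := by
  intro θ; simp only [seg]; ring

/-- The blocks at one value of the numbers. -/
structure Nums where
  (p w E K G G1 : ℝ)

/-- The numbers of the closed forms. -/
def Nums.num (n : Nums) (c e2 D2 : ℝ) : ClosedGen.Num := ⟨c, e2, n.E, n.K, n.G, n.G1, D2⟩

/-- The segment of numbers. -/
def Nums.seg (m n : Nums) (θ : ℝ) : Nums :=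
  ⟨Low.seg θ m.p n.p, Low.seg θ m.w n.w, Low.seg θ m.E n.E, Low.seg θ m.K n.K, Low.seg θ m.G n.G,
    Low.seg θ m.G1 n.G1⟩

/-- A closed form at `g = 1` along a segment of numbers. -/
def along (F : ℝ → ℝ → ℝ → ℝ → ℝ → ℝ → ℝ → ClosedGen.Num → ℝ) (a d v c e2 D2 : ℝ) (m n : Nums) (θ : ℝ) : ℝ :=
  F a d v 1 (m.seg n θ).p (m.seg n θ).w 0 ((m.seg n θ).num c e2 D2)

section
variable (a d v c e2 D2 : ℝ) (m n : Nums)

theorem aff_gE : IsAff (along ClosedGen.gES a d v c e2 D2 m n) := by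
  intro θ
  simp only [along, ClosedGen.gES, ClosedGen.gE_c, ClosedGen.gE_w, Nums.num, Nums.seg, seg]
  ring

theorem aff_gG : IsAff (along ClosedGen.gGS a d v c e2 D2 m n) := by
  intro θ
  simp only [along, ClosedGen.gGS, ClosedGen.gG_c, Nums.num, Nums.seg, seg]
  ring

theorem aff_gM : IsAff (along ClosedGen.gMS a d v c e2 D2 m n) := by
  intro θ
  simp only [along, ClosedGen.gMS]
  ring

theorem aff_hM : IsAff (along ClosedGen.hMS a d v c e2 D2 m n) := by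
  intro θ
  simp only [along, ClosedGen.hMS, ClosedGen.hM_c, Nums.num, Nums.seg, seg]
  ring

theorem aff_hE : IsAff (along ClosedGen.hES a d v c e2 D2 m n) := by
  intro θ
  simp only [along, ClosedGen.hES, ClosedGen.hE_c, Nums.num, Nums.seg, seg]
  ring

theorem aff_hG : IsAff (along ClosedGen.hGS a d v c e2 D2 m n) := by
  intro θ
  simp only [along, ClosedGen.hGS, ClosedGen.hG_c, Nums.num, Nums.seg, seg]
  ring

theorem quad_LEG : IsQuad (along ClosedGen.LEGS a d v c e2 D2 m n) := by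
  intro θ
  simp only [along, ClosedGen.LEGS, Closed.LEGc, Closed.LEGv, Closed.LEGw, ClosedGen.EG_g, Nums.num,
    Nums.seg, seg]
  ring

theorem quad_LGG : IsQuad (along ClosedGen.LGGS a d v c e2 D2 m n) := by
  intro θ
  simp only [along, ClosedGen.LGGS, ClosedGen.GG_g, Nums.num, Nums.seg, seg]
  ring

theorem quad_LEE : IsQuad (along ClosedGen.LEES a d v c e2 D2 m n) := by
  intro θ
  simp only [along, ClosedGen.LEES, Closed.LEEc, Closed.LEEv, Closed.LEEw, ClosedGen.EE_g,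
    ClosedGen.EE_kc, Nums.num, Nums.seg, seg]
  ring

theorem quad_LMG : IsQuad (along ClosedGen.LMGS a d v c e2 D2 m n) := by
  intro θ
  simp only [along, ClosedGen.LMGS, Closed.LMGc, Closed.LMGv, Closed.LMGw, ClosedGen.MG_g,
    ClosedGen.MG_kc, ClosedGen.MG_kw, Nums.num, Nums.seg, seg]
  ring

theorem quad_TGG : IsQuad (along ClosedGen.TGGS a d v c e2 D2 m n) := by
  have h := (((quad_LGG a d v c e2 D2 m n).smul
    (8 * c * a * (a + d) * v * (2 + d * v) * (1 + d * v))).add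
      (((aff_gG a d v c e2 D2 m n).mul (aff_gG a d v c e2 D2 m n)).smul (-Closed.j1 a d * c))).add
      (((aff_hG a d v c e2 D2 m n).mul (aff_hG a d v c e2 D2 m n)).smul
        (-Closed.j1 a d * a * (a + d) * d ^ 2 * (1 + d * v)))
  intro θ
  have e := h θ
  simp only [along, ClosedGen.TGGS, Nums.num] at e ⊢
  linear_combination e

theorem quad_TEG : IsQuad (along ClosedGen.TEGS a d v c e2 D2 m n) := by
  have h := (((quad_LEG a d v c e2 D2 m n).smul (4 * c * a * (a + d) * v)).add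
      (((aff_gE a d v c e2 D2 m n).mul (aff_gG a d v c e2 D2 m n)).smul
        (-(2 * Closed.j1 a d) * c))).add
      (((aff_hE a d v c e2 D2 m n).mul (aff_hG a d v c e2 D2 m n)).smul
        (-(2 * Closed.j1 a d) * a * (a + d)))
  intro θ
  have e := h θ
  simp only [along, ClosedGen.TEGS, Nums.num] at e ⊢
  linear_combination e

theorem quad_TMG : IsQuad (along ClosedGen.TMGS a d v c e2 D2 m n) := by
  have h := (((((quad_LMG a d v c e2 D2 m n).smul (4 * c * a * (a + d) * v)).add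
      (((aff_gM a d v c e2 D2 m n).mul (aff_gG a d v c e2 D2 m n)).smul
        (8 * (2 - 2 * Closed.j1 a d) * c * a * (a + d) * v))).add
      (((aff_hM a d v c e2 D2 m n).mul (aff_hG a d v c e2 D2 m n)).smul
        (4 * (2 - 2 * Closed.j1 a d) * a * (a + d) * v * d ^ 2 * (1 + d * v)))).add
      (((aff_gE a d v c e2 D2 m n).mul (aff_gE a d v c e2 D2 m n)).smul
        (-1 / 2 * c * d ^ 2 * (1 + d * v)))).add
      (((aff_hE a d v c e2 D2 m n).mul (aff_hE a d v c e2 D2 m n)).smul (-1 / 2 * a * (a + d)))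
  intro θ
  have e := h θ
  simp only [along, ClosedGen.TMGS, Nums.num] at e ⊢
  linear_combination e

theorem quad_TEE : IsQuad (along ClosedGen.TEES a d v c e2 D2 m n) := by
  have h := (((((quad_LEE a d v c e2 D2 m n).smul (8 * c * a * (a + d) * v)).add
      (((aff_gE a d v c e2 D2 m n).mul (aff_gE a d v c e2 D2 m n)).smul
        ((1 / 2 - Closed.j1 a d) * c * d ^ 2 * (1 + d * v)))).add
      (((aff_hE a d v c e2 D2 m n).mul (aff_hE a d v c e2 D2 m n)).smul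
        ((1 / 2 - Closed.j1 a d) * a * (a + d)))).add
      (((aff_gM a d v c e2 D2 m n).mul (aff_gG a d v c e2 D2 m n)).smul
        (8 * (-2) * c * a * (a + d) * v))).add
      (((aff_hM a d v c e2 D2 m n).mul (aff_hG a d v c e2 D2 m n)).smul
        (4 * (-2) * a * (a + d) * v * d ^ 2 * (1 + d * v)))
  intro θ
  have e := h θ
  simp only [along, ClosedGen.TEES, Nums.num] at e ⊢
  linear_combination e

theorem quad_TA : IsQuad (along ClosedGen.TAS a d v c e2 D2 m n) := by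
  have h := (quad_TEE a d v c e2 D2 m n).add (quad_TMG a d v c e2 D2 m n)
  exact h

theorem quad_TME : IsQuad (along ClosedGen.TMES a d v c e2 D2 m n) := by
  intro θ
  simp only [along, ClosedGen.TMES, ClosedGen.TME_c, ClosedGen.TME_v, ClosedGen.TME_w, Nums.num,
    Nums.seg, seg]
  ring

theorem quad_TMM : IsQuad (along ClosedGen.TMMS a d v c e2 D2 m n) := by
  intro θ
  simp only [along, ClosedGen.TMMS, ClosedGen.TMM_w, Nums.num, Nums.seg, seg]
  ring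

end

section
variable (a d v c e2 D2 p w E K G₀ G₁ H₀ H₁ s w' : ℝ)

theorem tau_TGG : ClosedGen.TGGS a d v 1 p w 0 ⟨c, e2, E, K, seg s G₀ G₁, seg s H₀ H₁, D2⟩ =
    seg s (ClosedGen.TGGS a d v 1 p w 0 ⟨c, e2, E, K, G₀, H₀, D2⟩)
      (ClosedGen.TGGS a d v 1 p w 0 ⟨c, e2, E, K, G₁, H₁, D2⟩) +
    s * (1 - s) * (Closed.j1 a d * a * (a + d) * d ^ 2 * (1 + d * v) *
      (4 * (G₁ - G₀) * v * d * (2 + d * v)) ^ 2) := by
  simp only [ClosedGen.TGGS, ClosedGen.gGS, ClosedGen.hGS, ClosedGen.LGGS, ClosedGen.hG_g, seg]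
  ring

theorem tau_TEG : ClosedGen.TEGS a d v 1 p w 0 ⟨c, e2, E, K, seg s G₀ G₁, seg s H₀ H₁, D2⟩ =
    seg s (ClosedGen.TEGS a d v 1 p w 0 ⟨c, e2, E, K, G₀, H₀, D2⟩)
      (ClosedGen.TEGS a d v 1 p w 0 ⟨c, e2, E, K, G₁, H₁, D2⟩) := by
  simp only [ClosedGen.TEGS, ClosedGen.gES, ClosedGen.gGS, ClosedGen.hES, ClosedGen.hGS,
    ClosedGen.LEGS, ClosedGen.hG_g, seg]
  ring

theorem tau_TMG : ClosedGen.TMGS a d v 1 p w 0 ⟨c, e2, E, K, seg s G₀ G₁, seg s H₀ H₁, D2⟩ =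
    seg s (ClosedGen.TMGS a d v 1 p w 0 ⟨c, e2, E, K, G₀, H₀, D2⟩)
      (ClosedGen.TMGS a d v 1 p w 0 ⟨c, e2, E, K, G₁, H₁, D2⟩) := by
  simp only [ClosedGen.TMGS, ClosedGen.gES, ClosedGen.gGS, ClosedGen.hES, ClosedGen.hGS,
    ClosedGen.hMS, ClosedGen.gMS, ClosedGen.LMGS, ClosedGen.hG_g, seg]
  ring

theorem tau_TA : ClosedGen.TAS a d v 1 p w 0 ⟨c, e2, E, K, seg s G₀ G₁, seg s H₀ H₁, D2⟩ =
    seg s (ClosedGen.TAS a d v 1 p w 0 ⟨c, e2, E, K, G₀, H₀, D2⟩)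
      (ClosedGen.TAS a d v 1 p w 0 ⟨c, e2, E, K, G₁, H₁, D2⟩) := by
  simp only [ClosedGen.TAS, tau_TMG]
  simp only [ClosedGen.TEES, ClosedGen.gES, ClosedGen.gGS, ClosedGen.hES, ClosedGen.hGS,
    ClosedGen.hMS, ClosedGen.gMS, ClosedGen.LEES, ClosedGen.hG_g, seg]
  ring

theorem tau_TME : ClosedGen.TMES a d v 1 p w 0 ⟨c, e2, E, K, G₀, H₀, D2⟩ =
    ClosedGen.TMES a d v 1 p w 0 ⟨c, e2, E, K, 0, 0, D2⟩ := by
  simp only [ClosedGen.TMES]

theorem w_TGG : ClosedGen.TGGS a d v 1 p w' 0 ⟨c, e2, E, K, G₀, H₀, D2⟩ =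
    ClosedGen.TGGS a d v 1 p w 0 ⟨c, e2, E, K, G₀, H₀, D2⟩ := by
  simp only [ClosedGen.TGGS, ClosedGen.gGS, ClosedGen.hGS, ClosedGen.LGGS]

theorem w_TEG : ClosedGen.TEGS a d v 1 p w' 0 ⟨c, e2, E, K, G₀, H₀, D2⟩ =
    ClosedGen.TEGS a d v 1 p w 0 ⟨c, e2, E, K, G₀, H₀, D2⟩ := by
  simp only [ClosedGen.TEGS, ClosedGen.gES, ClosedGen.gGS, ClosedGen.hES, ClosedGen.hGS,
    ClosedGen.LEGS]

theorem w_LEE : ClosedGen.LEES a d v 1 p w' 0 ⟨c, e2, E, K, G₀, H₀, D2⟩ =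
    ClosedGen.LEES a d v 1 p w 0 ⟨c, e2, E, K, G₀, H₀, D2⟩ -
      (w' - w) * (c * (1 + d * v) * (a + d) ^ 2 * (4 * d * v + 8)) := by
  simp only [ClosedGen.LEES, Closed.LEEc]
  ring

theorem w_LMG : ClosedGen.LMGS a d v 1 p w' 0 ⟨c, e2, E, K, G₀, H₀, D2⟩ =
    ClosedGen.LMGS a d v 1 p w 0 ⟨c, e2, E, K, G₀, H₀, D2⟩ +
      (w' - w) * (c * (1 + d * v) * (a + d) ^ 2 * (1 - 2 * a - d) * (4 * d * v + 8)) := by
  simp only [ClosedGen.LMGS, Closed.LMGc, Closed.LMGc_000000_0, Closed.LMGc_000000_1]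
  ring

theorem w_TMG : ClosedGen.TMGS a d v 1 p w' 0 ⟨c, e2, E, K, G₀, H₀, D2⟩ =
    ClosedGen.TMGS a d v 1 p w 0 ⟨c, e2, E, K, G₀, H₀, D2⟩ + (w' - w) *
      (4 * c ^ 2 * a * (a + d) ^ 3 * v * (1 + d * v) * (1 - 2 * a - d) * (4 * d * v + 8)) := by
  simp only [ClosedGen.TMGS, w_LMG (w := w) (w' := w'), ClosedGen.gES, ClosedGen.gGS,
    ClosedGen.hES, ClosedGen.hGS, ClosedGen.hMS, ClosedGen.gMS]
  ring

theorem w_TA : ClosedGen.TAS a d v 1 p w' 0 ⟨c, e2, E, K, G₀, H₀, D2⟩ =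
    ClosedGen.TAS a d v 1 p w 0 ⟨c, e2, E, K, G₀, H₀, D2⟩ - (w' - w) *
      (4 * c ^ 2 * a * (a + d) ^ 3 * v * (1 + d * v) * (1 + 2 * a + d) * (4 * d * v + 8)) := by
  simp only [ClosedGen.TAS, w_TMG (w := w) (w' := w'), ClosedGen.TEES,
    w_LEE (w := w) (w' := w'), ClosedGen.gES, ClosedGen.gGS, ClosedGen.hES, ClosedGen.hGS,
    ClosedGen.hMS, ClosedGen.gMS]
  ring

theorem w_TME : ClosedGen.TMES a d v 1 p w' 0 ⟨c, e2, E, K, G₀, H₀, D2⟩ =
    ClosedGen.TMES a d v 1 p w 0 ⟨c, e2, E, K, G₀, H₀, D2⟩ + (w' - w) * (c * (a + d) * v *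
      (v * (2 * a ^ 2 * d + 3 * a * d ^ 2 + a * d + d ^ 3 + d ^ 2) + 4 * a ^ 2 + 6 * a * d +
        2 * a + 2 * d ^ 2 + 2 * d)) := by
  simp only [ClosedGen.TMES, ClosedGen.TME_c]
  ring

end

end Vale.Agent.P100.Calib.Closed.All.Low
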