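import Vale.Agent.P100.Calib.SlabAllSignsExpr

/-!
# Values of the packed closed signs
-/

set_option linter.unusedVariables false
set_option linter.unusedSimpArgs false

namespace Vale.Agent.P100.Calib.Closed.All.Low

/-- The numbers at a point. -/
noncomputable def atNum (a d e k G G1 D2 : ℝ) : ClosedGen.Num :=
  ⟨a * (a + d), -(1 - 2 * a - (1 - 2 * a - d) / 4) * ((1 - 2 * a - d) / 2), e, k, G, G1, D2⟩

/-- The atoms take the values of the point. -/
structure Subst (z : Atm) (x : ℕ → ℝ) (a d v p e k w G G1 D2 : ℝ) : Prop where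
  a_ne : a ≠ 0
  a_eq : a = x 2
  d_eq : d = 1 - 2 * x 3 - 2 * x 2
  v_eq : v = 2 * x 3 * x 1
  r_eq : z.r.val x = (a + d) * p
  om_eq : x 3 * z.om.val x = w
  eta_eq : z.eta.val x = z.s.val x * (x 3 * e)
  kap_eq : z.kap.val x = z.s.val x * (x 3 * k)
  G_eq : a * z.Z.val x = d ^ 2 * G
  G1_eq : a * z.Z1.val x = d ^ 2 * G1
  D2_eq : z.D2.val x = z.s2.val x * D2

section

variable {z : Atm} {x : ℕ → ℝ} {a d v p e k w G G1 D2 : ℝ}

theorem Subst.vars (h : Subst z x a d v p e k w G G1 D2) :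
    xa.val x = a ∧ xd.val x = d ∧ xb.val x = a + d ∧ xv.val x = v ∧ xI.val x = (1 - 2 * a - d) / 2 ∧
      xX.val x = x 1 := by
  simp only [xa, xd, xb, xv, xI, xX, val_sub, val_mul, val_num, val_var]
  refine ⟨h.a_eq.symm, ?_, ?_, ?_, ?_, trivial⟩ <;>
    rw [h.a_eq, h.d_eq] at * <;> push_cast <;> [skip; skip; rw [h.v_eq]; skip] <;> ring

theorem Subst.r_eq' (h : Subst z x a d v p e k w G G1 D2) :
    z.r.val x = (xa.val x + xd.val x) * p := by
  obtain ⟨ea, ed, -, -, -, -⟩ := h.vars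
  rw [ea, ed, h.r_eq]

theorem Subst.Z_eq' (h : Subst z x a d v p e k w G G1 D2) : z.Z.val x = d ^ 2 * G / a := by
  rw [eq_div_iff h.a_ne, mul_comm, h.G_eq]

theorem Subst.Z1_eq' (h : Subst z x a d v p e k w G G1 D2) : z.Z1.val x = d ^ 2 * G1 / a := by
  rw [eq_div_iff h.a_ne, mul_comm, h.G1_eq]

theorem val_gM (h : Subst z x a d v p e k w G G1 D2) :
    qgM.val x = ClosedGen.gMS a d v 1 p w 0 (atNum a d e k G G1 D2) := by
  obtain ⟨ea, ed, eb, ev, eI, eX⟩ := h.vars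
  simp only [qgM, val_gM_1, ClosedGen.gMS, ea, ed, ev]

theorem val_gE (h : Subst z x a d v p e k w G G1 D2) :
    a * z.gE.val x = z.s.val x * ClosedGen.gES a d v 1 p w 0 (atNum a d e k G G1 D2) := by
  obtain ⟨ea, ed, eb, ev, eI, eX⟩ := h.vars
  simp only [Atm.gE, Atm.s, xD0, val_add, val_sub, val_mul, val_pow, val_num, val_gE_1, ea, ed, eb,
    ev, eI, h.r_eq, h.eta_eq, h.D2_eq, ClosedGen.gES, ClosedGen.gE_c, ClosedGen.gE_w,
    ClosedGen.gE_k1, atNum]
  have hI : x 3 = (1 - 2 * a - d) / 2 := by linarith [h.d_eq, h.a_eq]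
  rw [hI]; push_cast; ring

theorem val_gG (h : Subst z x a d v p e k w G G1 D2) :
    a * z.gG.val x = ClosedGen.gGS a d v 1 p w 0 (atNum a d e k G G1 D2) := by
  obtain ⟨ea, ed, eb, ev, eI, eX⟩ := h.vars
  simp only [Atm.gG, xQ, xD0, xe2, val_add, val_sub, val_mul, val_pow, val_num, val_dec,
    val_gG_1, val_gG_c _ _ _ _ x h.r_eq', ea, ed, eb, ev, eI, ClosedGen.gGS, ClosedGen.gG_v, atNum]
  push_cast; ring

theorem val_hM (h : Subst z x a d v p e k w G G1 D2) :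
    a * z.hM.val x = ClosedGen.hMS a d v 1 p w 0 (atNum a d e k G G1 D2) := by
  obtain ⟨ea, ed, eb, ev, eI, eX⟩ := h.vars
  simp only [Atm.hM, val_mul, val_hM_c _ _ _ _ x h.r_eq', ea, ed, eb, ev, ClosedGen.hMS, atNum]
  ring

theorem val_hE (h : Subst z x a d v p e k w G G1 D2) :
    a * z.hE.val x = ClosedGen.hES a d v 1 p w 0 (atNum a d e k G G1 D2) := by
  obtain ⟨ea, ed, eb, ev, eI, eX⟩ := h.vars
  simp only [Atm.hE, xD0, xe2, val_add, val_sub, val_mul, val_pow, val_num, val_dec,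
    val_hE_c _ _ _ _ x h.r_eq', ea, ed, eb, ev, eI, ClosedGen.hES, ClosedGen.hE_v, atNum]
  push_cast; ring

theorem val_hG (h : Subst z x a d v p e k w G G1 D2) :
    a * z.hG.val x = z.s2.val x * d * ClosedGen.hGS a d v 1 p w 0 (atNum a d e k G G1 D2) := by
  obtain ⟨ea, ed, eb, ev, eI, eX⟩ := h.vars
  simp only [Atm.s, Atm.hG, xD0, val_add, val_sub, val_mul, val_pow, val_num, val_dec,
    val_hG_c _ _ _ _ x h.r_eq', h.Z_eq', h.D2_eq, ea, ed, eb, ev, eI, ClosedGen.hGS,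
    ClosedGen.hG_g, ClosedGen.hG_kc, atNum]
  have := h.a_ne
  push_cast; field_simp; ring

theorem val_LEG (h : Subst z x a d v p e k w G G1 D2) :
    a * z.LEG.val x = z.s.val x * d * ClosedGen.LEGS a d v 1 p w 0 (atNum a d e k G G1 D2) := by
  obtain ⟨ea, ed, eb, ev, eI, eX⟩ := h.vars
  simp only [Atm.s, Atm.LEG, xQ, xD0, xe2, val_add, val_sub, val_mul, val_pow, val_num, val_dec,
    val_LEG1, val_LEGc _ _ _ _ x h.r_eq', val_LEGv _ _ _ _ x h.r_eq', val_EG_g _ _ _ _ x h.r_eq',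
    val_EG_k1, h.Z_eq', h.Z1_eq', h.D2_eq, h.eta_eq, ea, ed, eb, ev, eI, eX, ClosedGen.LEGS,
    ClosedGen.EG_g0, ClosedGen.EG_kv, Closed.LEGw, atNum]
  have hI : x 3 = (1 - 2 * a - d) / 2 := by linarith [h.d_eq, h.a_eq]
  rw [h.v_eq, hI]; have := h.a_ne
  push_cast; field_simp; ring

theorem val_LGG (h : Subst z x a d v p e k w G G1 D2) :
    a * z.LGG.val x = z.s2.val x * ClosedGen.LGGS a d v 1 p w 0 (atNum a d e k G G1 D2) := by
  obtain ⟨ea, ed, eb, ev, eI, eX⟩ := h.vars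
  simp only [Atm.s, Atm.LGG, xD0, xe2, val_add, val_sub, val_mul, val_pow, val_num, val_dec,
    val_LGGc, val_LGGv, val_GG_g _ _ _ _ x h.r_eq', h.Z_eq', h.Z1_eq', h.D2_eq, ea, ed, eb, ev, eI,
    ClosedGen.LGGS, ClosedGen.GG_g0, ClosedGen.GG_kg, atNum]
  have := h.a_ne
  push_cast; field_simp; ring

theorem val_w (h : Subst z x a d v p e k w G G1 D2) : z.w.val x = w := by
  simp only [Atm.w, xI, val_mul, val_var, h.om_eq]

theorem val_LEE (h : Subst z x a d v p e k w G G1 D2) :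
    a * z.LEE.val x = z.s.val x * ClosedGen.LEES a d v 1 p w 0 (atNum a d e k G G1 D2) := by
  obtain ⟨ea, ed, eb, ev, eI, eX⟩ := h.vars
  simp only [Atm.s, Atm.LEE, xQ, xD0, xe2, val_add, val_sub, val_mul, val_pow, val_num, val_dec,
    val_LEE1, val_LEEc _ _ _ _ _ x h.r_eq', val_LEEv _ _ _ _ x h.r_eq',
    val_EE_g _ _ _ _ x h.r_eq', val_EE_k1, val_EE_kc _ _ _ _ x h.r_eq', val_w h, h.Z_eq', h.D2_eq,
    h.eta_eq, ea, ed, eb, ev, eI, eX, ClosedGen.LEES, Closed.LEEw, atNum]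
  have hI : x 3 = (1 - 2 * a - d) / 2 := by linarith [h.d_eq, h.a_eq]
  rw [h.v_eq, hI]; have := h.a_ne
  push_cast; field_simp; ring

theorem val_mgW (h : Subst z x a d v p e k w G G1 D2) :
    z.mgW.val x = z.s.val x * Closed.LMGw a d v 1 e k := by
  obtain ⟨ea, ed, eb, ev, eI, eX⟩ := h.vars
  simp only [Atm.s, Atm.mgW, val_add, val_sub, val_mul, val_pow, val_num, val_dec, h.eta_eq, h.kap_eq,
    ea, ed, eb, ev, eI, eX, Closed.LMGw]
  have hI : x 3 = (1 - 2 * a - d) / 2 := by linarith [h.d_eq, h.a_eq]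
  rw [h.v_eq, hI]; push_cast; ring

theorem val_LMG (h : Subst z x a d v p e k w G G1 D2) :
    a * z.LMG.val x = z.s.val x ^ 2 * ClosedGen.LMGS a d v 1 p w 0 (atNum a d e k G G1 D2) := by
  obtain ⟨ea, ed, eb, ev, eI, eX⟩ := h.vars
  simp only [Atm.s, Atm.LMG, xQ, xD0, xe2, val_add, val_sub, val_mul, val_pow, val_num, val_dec,
    val_LMG1, val_LMGc _ _ _ _ _ x h.r_eq', val_LMGv _ _ _ _ x h.r_eq',
    val_MG_g _ _ _ _ x h.r_eq', val_MG_k1, val_MG_kc _ _ _ _ x h.r_eq', val_w h, val_mgW h,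
    h.Z_eq', h.D2_eq, h.eta_eq, ea, ed, eb, ev, eI, eX, ClosedGen.LMGS, ClosedGen.MG_kw, atNum]
  have hI : x 3 = (1 - 2 * a - d) / 2 := by linarith [h.d_eq, h.a_eq]
  rw [hI]; have := h.a_ne
  push_cast; field_simp; ring

theorem div_gE (h : Subst z x a d v p e k w G G1 D2) :
    z.gE.val x = (z.s.val x * ClosedGen.gES a d v 1 p w 0 (atNum a d e k G G1 D2)) / a := by
  rw [eq_div_iff h.a_ne, mul_comm, val_gE h]

theorem div_gG (h : Subst z x a d v p e k w G G1 D2) :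
    z.gG.val x = (ClosedGen.gGS a d v 1 p w 0 (atNum a d e k G G1 D2)) / a := by
  rw [eq_div_iff h.a_ne, mul_comm, val_gG h]

theorem div_hM (h : Subst z x a d v p e k w G G1 D2) :
    z.hM.val x = (ClosedGen.hMS a d v 1 p w 0 (atNum a d e k G G1 D2)) / a := by
  rw [eq_div_iff h.a_ne, mul_comm, val_hM h]

theorem div_hE (h : Subst z x a d v p e k w G G1 D2) :
    z.hE.val x = (ClosedGen.hES a d v 1 p w 0 (atNum a d e k G G1 D2)) / a := by
  rw [eq_div_iff h.a_ne, mul_comm, val_hE h]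

theorem div_hG (h : Subst z x a d v p e k w G G1 D2) :
    z.hG.val x = (z.s2.val x * d * ClosedGen.hGS a d v 1 p w 0 (atNum a d e k G G1 D2)) / a := by
  rw [eq_div_iff h.a_ne, mul_comm, val_hG h]

theorem div_LEG (h : Subst z x a d v p e k w G G1 D2) :
    z.LEG.val x = (z.s.val x * d * ClosedGen.LEGS a d v 1 p w 0 (atNum a d e k G G1 D2)) / a := by
  rw [eq_div_iff h.a_ne, mul_comm, val_LEG h]

theorem div_LGG (h : Subst z x a d v p e k w G G1 D2) :
    z.LGG.val x = (z.s2.val x * ClosedGen.LGGS a d v 1 p w 0 (atNum a d e k G G1 D2)) / a := by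
  rw [eq_div_iff h.a_ne, mul_comm, val_LGG h]

theorem div_LEE (h : Subst z x a d v p e k w G G1 D2) :
    z.LEE.val x = (z.s.val x * ClosedGen.LEES a d v 1 p w 0 (atNum a d e k G G1 D2)) / a := by
  rw [eq_div_iff h.a_ne, mul_comm, val_LEE h]

theorem div_LMG (h : Subst z x a d v p e k w G G1 D2) :
    z.LMG.val x = (z.s.val x ^ 2 * ClosedGen.LMGS a d v 1 p w 0 (atNum a d e k G G1 D2)) / a := by
  rw [eq_div_iff h.a_ne, mul_comm, val_LMG h]

theorem val_TGG (h : Subst z x a d v p e k w G G1 D2) :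
    a ^ 3 * z.TGG.val x = z.s2.val x ^ 2 * ClosedGen.TGGS a d v 1 p w 0 (atNum a d e k G G1 D2) := by
  obtain ⟨ea, ed, eb, ev, eI, eX⟩ := h.vars
  simp only [Atm.s, Atm.TGG, xQ, xD0, xj, val_add, val_sub, val_mul, val_pow, val_num, val_dec,
    div_LGG h, div_gG h, div_hG h, ea, ed, eb, ev, eI, ClosedGen.TGGS, Closed.j1]
  simp only [atNum]
  have := h.a_ne
  push_cast; field_simp; ring

theorem val_TEG (h : Subst z x a d v p e k w G G1 D2) :
    a ^ 3 * z.TEG.val x = z.s.val x * d * ClosedGen.TEGS a d v 1 p w 0 (atNum a d e k G G1 D2) := by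
  obtain ⟨ea, ed, eb, ev, eI, eX⟩ := h.vars
  simp only [Atm.s, Atm.TEG, xj, val_add, val_sub, val_mul, val_pow, val_num, val_dec,
    div_LEG h, div_gE h, div_gG h, div_hE h, div_hG h, ea, ed, eb, ev, eI, ClosedGen.TEGS,
    Closed.j1]
  simp only [atNum]
  have := h.a_ne
  push_cast; field_simp; ring

theorem val_TA (h : Subst z x a d v p e k w G G1 D2) :
    a ^ 3 * z.TA.val x = z.s.val x ^ 2 * ClosedGen.TAS a d v 1 p w 0 (atNum a d e k G G1 D2) := by
  obtain ⟨ea, ed, eb, ev, eI, eX⟩ := h.vars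
  simp only [Atm.s, Atm.TA, xQ, xj, val_add, val_sub, val_mul, val_pow, val_num, val_dec,
    div_LEE h, div_LMG h, div_gE h, div_hE h, val_gM h, div_gG h, div_hM h, div_hG h, ea, ed, eb,
    ev, eI, ClosedGen.TAS, ClosedGen.TEES, ClosedGen.TMGS, Closed.j1]
  simp only [atNum]
  have := h.a_ne
  push_cast; field_simp; ring

theorem val_TMG (h : Subst z x a d v p e k w G G1 D2) :
    a ^ 3 * z.TMG.val x = z.s.val x ^ 2 * ClosedGen.TMGS a d v 1 p w 0 (atNum a d e k G G1 D2) := by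
  obtain ⟨ea, ed, eb, ev, eI, eX⟩ := h.vars
  simp only [Atm.s, Atm.TMG, xQ, val_add, val_sub, val_mul, val_pow, val_num, val_dec,
    div_LMG h, div_gE h, div_hE h, val_gM h, div_gG h, div_hM h, div_hG h, ea, ed, eb,
    ev, eI, ClosedGen.TMGS, Closed.j1]
  simp only [atNum]
  have := h.a_ne
  push_cast; field_simp; ring

theorem val_TME (h : Subst z x a d v p e k w G G1 D2) :
    a * z.TME.val x = z.s.val x * ClosedGen.TMES a d v 1 p w 0 (atNum a d e k G G1 D2) := by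
  obtain ⟨ea, ed, eb, ev, eI, eX⟩ := h.vars
  simp only [Atm.s, Atm.TME, xQ, xD0, xe2, val_add, val_sub, val_mul, val_pow, val_num, val_dec,
    val_w h, h.r_eq, h.eta_eq, h.kap_eq, ea, ed, eb, ev, eI, eX, ClosedGen.TMES, ClosedGen.TME_c,
    ClosedGen.TME_v, ClosedGen.TME_w, atNum]
  have hI : x 3 = (1 - 2 * a - d) / 2 := by linarith [h.d_eq, h.a_eq]
  rw [h.v_eq, hI]; push_cast; ring

theorem val_TMM (h : Subst z x a d v p e k w G G1 D2) :
    z.TMM.val x = z.s.val x * ((a + d) * ClosedGen.TMMS a d v 1 p w 0 (atNum a d e k G G1 D2)) := by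
  obtain ⟨ea, ed, eb, ev, eI, eX⟩ := h.vars
  simp only [Atm.s, Atm.TMM, xQ, val_add, val_sub, val_mul, val_pow, val_num, val_dec, h.r_eq, h.eta_eq,
    ea, ed, eb, ev, eI, ClosedGen.TMMS, ClosedGen.TMM_w, atNum]
  have hI : x 3 = (1 - 2 * a - d) / 2 := by linarith [h.d_eq, h.a_eq]
  rw [hI]; push_cast; ring

end

end Vale.Agent.P100.Calib.Closed.All.Low
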