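import Vale.Agent.P100.Calib.SlabAllSignsPieceExpr
import Vale.Agent.P100.Calib.SlabAllSignsVal
import Vale.Agent.P100.Calib.SlabAllSignsExpand

/-!
# The checked quantities of a piece as combinations of the blocks
-/

set_option linter.unusedVariables false
set_option linter.unusedSimpArgs false

namespace Vale.Agent.P100.Calib.Closed.All.Low

/-- The point in the variables of the forms. -/
structure PtR where
  (u X a I : ℝ)

namespace PtR

variable (o : PtR)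

/-- The variables as a function. -/
def x : ℕ → ℝ
  | 0 => o.u
  | 1 => o.X
  | 2 => o.a
  | _ => o.I

/-- `d`. -/
def d : ℝ := 1 - 2 * o.I - 2 * o.a
/-- `b`. -/
def b : ℝ := 1 - 2 * o.I - o.a
/-- `v`. -/
def v : ℝ := 2 * o.I * o.X
/-- `1 + d v`. -/
def Q : ℝ := 1 + o.d * o.v
/-- `2 + d v`. -/
def D0 : ℝ := 2 + o.d * o.v
/-- `S`. -/
def S : ℝ := 1 - 2 * o.I
/-- The scale `s1`. -/
def s1 : ℝ := 2 * o.b * o.D0
/-- The scale `s2`. -/
def s2 : ℝ := o.S ^ 2 * o.d ^ 2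

/-- `(a + d) g W` at `pi`. -/
def r (pi : ℝ) : ℝ := 4 + o.I * pi
/-- The scaled `g`. -/
def gam (pi : ℝ) : ℝ :=
  4 * (o.D0 * o.b - o.S * o.u * o.Q) + o.u * o.d * o.r pi * o.S
/-- The scaled `g (1 - d u H)`. -/
def gom (pi : ℝ) : ℝ := o.gam pi - o.u * o.d * o.r pi * o.S * o.D0

/-- The numbers at `(pi, om, tau)`. -/
noncomputable def nums (pi om tau : ℝ) : Nums where
  p := o.r pi / o.b
  w := o.I * om
  E := (-2 * (1 - 3 * o.I - 2 * o.a ^ 2) * o.I * o.Q * o.gam pi - 5 / 2 * o.gom pi) /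
    (o.s1 * o.d * o.I)
  K := -(5 / 2) * o.gom pi / (o.s1 * o.I)
  G := o.a * (-1 * o.I * (1 - 3 * o.a - o.I) - 3 / 10 * tau) / o.d ^ 2
  G1 := o.a * (-3 / 10 * tau) / o.d ^ 2

/-- The number `D2`. -/
noncomputable def D2 : ℝ := (o.S ^ 2 - 2 * o.a * (1 - o.I)) / o.s2

/-- The numbers of the closed forms. -/
noncomputable def num (n : Nums) : ClosedGen.Num :=
  n.num (o.a * (o.a + o.d)) (-(1 - 2 * o.a - (1 - 2 * o.a - o.d) / 4) * ((1 - 2 * o.a - o.d) / 2))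
    o.D2

/-- A block at `g = 1`. -/
noncomputable def blk (F : ℝ → ℝ → ℝ → ℝ → ℝ → ℝ → ℝ → ClosedGen.Num → ℝ) (n : Nums) : ℝ :=
  F o.a o.d o.v 1 n.p n.w 0 (o.num n)

/-- What holds on the box of a piece. -/
structure Pos : Prop where
  u_nonneg : 0 ≤ o.u
  X_pos : 0 < o.X
  a_pos : 0 < o.a
  I_pos : 0 < o.I
  I_lt : 2 * o.I < 1
  d_pos : 0 < o.d

variable {o}

theorem Pos.b_pos (h : o.Pos) : 0 < o.b := by
  have := h.d_pos; have := h.a_pos; simp only [PtR.d, PtR.b] at *; linarith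

theorem Pos.v_pos (h : o.Pos) : 0 < o.v := mul_pos (mul_pos two_pos h.I_pos) h.X_pos

theorem Pos.S_pos (h : o.Pos) : 0 < o.S := by
  have := h.I_lt; simp only [PtR.S]; linarith

theorem Pos.Q_pos (h : o.Pos) : 0 < o.Q := by
  have := mul_pos h.d_pos h.v_pos; simp only [PtR.Q]; linarith

theorem Pos.D0_pos (h : o.Pos) : 0 < o.D0 := by
  have := mul_pos h.d_pos h.v_pos; simp only [PtR.D0]; linarith

theorem Pos.s1_pos (h : o.Pos) : 0 < o.s1 := mul_pos (mul_pos two_pos h.b_pos) h.D0_pos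

theorem Pos.s2_pos (h : o.Pos) : 0 < o.s2 := mul_pos (pow_pos h.S_pos 2) (pow_pos h.d_pos 2)

theorem vals (o : PtR) :
    xu.val o.x = o.u ∧ xX.val o.x = o.X ∧ xa.val o.x = o.a ∧ xI.val o.x = o.I ∧
      xd.val o.x = o.d ∧ xb.val o.x = o.b ∧ xv.val o.x = o.v ∧ xQ.val o.x = o.Q ∧
      xD0.val o.x = o.D0 ∧ xS.val o.x = o.S ∧ xs1.val o.x = o.s1 ∧ xs2.val o.x = o.s2 := by
  simp only [xs1, xs2, xQ, xD0, xS, xb, xd, xv, xu, xa, xI, xX, val_add, val_sub, val_mul,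
    val_pow, val_num, val_var, x, s1, s2, PtR.Q, PtR.D0, PtR.S, PtR.b, PtR.d, PtR.v]
  push_cast
  simp only [and_self]

theorem val_gam (o : PtR) (r : QEx) {π : ℝ} (hr : r.val o.x = o.r π) :
    (xGam r).val o.x = o.gam π := by
  obtain ⟨eu, -, -, -, ed, eb, -, eQ, eD, eS, -, -⟩ := o.vals
  simp only [xGam, xqn, gam, val_add, val_sub, val_mul, val_num, eu, ed, eb, eQ, eD, eS, hr]
  push_cast; ring

theorem val_gom (o : PtR) (r : QEx) {π : ℝ} (hr : r.val o.x = o.r π) :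
    (xGom r).val o.x = o.gom π := by
  obtain ⟨eu, -, -, -, ed, -, -, -, eD, eS, -, -⟩ := o.vals
  simp only [xGom, gom, val_sub, val_mul, o.val_gam r hr, eu, ed, eD, eS, hr]

theorem Pos.subst (h : o.Pos) (pi om tau : QEx) {π ω τ : ℝ} (hπ : pi.val o.x = π)
    (hω : om.val o.x = ω) (hτ : tau.val o.x = τ) :
    Subst (mkAtm pi om tau) o.x o.a o.d o.v (o.nums π ω τ).p (o.nums π ω τ).E (o.nums π ω τ).K
      (o.nums π ω τ).w (o.nums π ω τ).G (o.nums π ω τ).G1 o.D2 := by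
  obtain ⟨eu, eX, ea, eI, ed, eb, ev, eQ, eD, eS, e1, e2⟩ := o.vals
  have hb := h.b_pos.ne'
  have hI := h.I_pos.ne'
  have hd := h.d_pos.ne'
  have h1 := h.s1_pos.ne'
  have h2 := h.s2_pos.ne'
  have hr : (qN 4 + xI * pi).val o.x = o.r π := by
    simp only [val_add, val_mul, val_num, eI, hπ, PtR.r]; push_cast; ring
  refine ⟨h.a_pos.ne', rfl, rfl, rfl, ?_, ?_, ?_, ?_, ?_, ?_, ?_⟩
  · have : o.a + o.d = o.b := by simp only [PtR.b, PtR.d]; ring
    simp only [mkAtm, nums, hr, this]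
    field_simp
  · simp only [mkAtm, nums, hω]; rfl
  · show (mkAtm pi om tau).eta.val o.x = (mkAtm pi om tau).s.val o.x * (o.I * (o.nums π ω τ).E)
    simp only [mkAtm, Atm.s, nums, xc0, val_sub, val_mul, val_pow, val_num, val_dec,
      o.val_gam _ hr, o.val_gom _ hr, ea, eI, ed, eQ, eS, e1, e2]
    field_simp
    simp only [s2]
    push_cast; ring
  · show (mkAtm pi om tau).kap.val o.x = (mkAtm pi om tau).s.val o.x * (o.I * (o.nums π ω τ).K)
    simp only [mkAtm, Atm.s, nums, val_mul, val_dec, o.val_gom _ hr, e1, e2]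
    field_simp
    push_cast; ring
  · simp only [mkAtm, Atm.Z, nums, val_sub, val_mul, val_num, val_dec, ea, eI, hτ]
    field_simp
    push_cast; ring
  · simp only [mkAtm, Atm.Z1, nums, val_mul, val_dec, hτ]
    field_simp
    push_cast; ring
  · simp only [mkAtm, D2, val_sub, val_mul, val_pow, val_num, ea, eI, eS, e2]
    field_simp
    push_cast; ring

end PtR

/-- The coefficients of a combination of `TGG, TEG, E² + MG, MG, ME, M²`. -/
structure Comb where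
  (G T A N E M : ℝ)

/-- The combination at `g = 1`. -/
noncomputable def Comb.at (c : Comb) (o : PtR) (n : Nums) : ℝ :=
  c.G * o.blk ClosedGen.TGGS n + c.T * o.blk ClosedGen.TEGS n + c.A * o.blk ClosedGen.TAS n +
    c.N * o.blk ClosedGen.TMGS n + c.E * o.blk ClosedGen.TMES n + c.M * o.blk ClosedGen.TMMS n

/-- The combination of a checked quantity. -/
noncomputable def Piece.comb (P : Piece) (o : PtR) : Kind → Comb
  | .g => ⟨o.s2 ^ 2 / o.a ^ 3, 0, 0, 0, 0, 0⟩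
  | .n => ⟨0, 0, 0, (o.s1 * o.s2) ^ 2 / o.a ^ 3, 0, 0⟩
  | .tlo => ⟨-((P.r₀.ex P.o).val o.x * o.s1 * o.s2 ^ 2 / o.a ^ 3),
      o.s1 * o.s2 ^ 2 / o.a ^ 3 * o.d, 0, 0, 0, 0⟩
  | .thi => ⟨(P.r₁.ex P.o).val o.x * o.s1 * o.s2 ^ 2 / o.a ^ 3,
      -(o.s1 * o.s2 ^ 2 / o.a ^ 3 * o.d), 0, 0, 0, 0⟩
  | .mlo => ⟨0, 0, 0, 0, o.s1 * o.s2 / o.a,
      -((P.m₀.ex P.o).val o.x * o.I * o.s1 * o.s2 * o.b)⟩
  | .mhi => ⟨0, 0, 0, 0, -(o.s1 * o.s2 / o.a),
      (P.m₁.ex P.o).val o.x * o.I * o.s1 * o.s2 * o.b⟩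
  | .f =>
    let q := (P.qa : ℝ) / 1000 + (P.qb : ℝ) / 1000 * o.I
    let r₀ := (P.r₀.ex P.o).val o.x
    let r₁ := (P.r₁.ex P.o).val o.x
    let m₀ := (P.m₀.ex P.o).val o.x
    let m₁ := (P.m₁.ex P.o).val o.x
    let k := (o.s1 * o.s2) ^ 2 / o.a ^ 3
    ⟨k * q * r₀ * r₁, -(k * q * (r₀ + r₁) * o.d), k * 4, 0,
      -(k * q * 16 * o.a ^ 2 * o.b ^ 2 * o.I * (m₀ + m₁)),
      k * q * 16 * o.a ^ 3 * o.b ^ 3 * o.I ^ 2 * m₀ * m₁⟩

/-- The value of a quantity at atoms. -/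
theorem form_val (P : Piece) {o : PtR} (h : o.Pos) (q : Kind) (pi om tau : QEx) :
    (P.form (mkAtm pi om tau) q).val o.x = (P.comb o q).at o
      (o.nums (pi.val o.x) (om.val o.x) (tau.val o.x)) := by
  have hS := h.subst pi om tau rfl rfl rfl
  have ha := h.a_pos.ne'
  have es1 : (mkAtm pi om tau).s1.val o.x = o.s1 := by
    simp only [mkAtm, xs1, xb, xD0, xd, xv, xa, xI, xX, val_mul, val_add, val_sub, val_num,
      val_var, PtR.x, PtR.s1, PtR.b, PtR.D0, PtR.d, PtR.v]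
    push_cast; ring
  have es2 : (mkAtm pi om tau).s2.val o.x = o.s2 := by
    simp only [mkAtm, xs2, xS, xd, xa, xI, val_mul, val_sub, val_pow, val_num, val_var, PtR.x,
      PtR.s2, PtR.S, PtR.d]
    push_cast; ring
  have es : (mkAtm pi om tau).s.val o.x = o.s1 * o.s2 := by
    rw [Atm.s, val_mul, es1, es2]
  have eG := val_TGG hS
  have eT := val_TEG hS
  have eA := val_TA hS
  have eN := val_TMG hS
  have eE := val_TME hS
  have eM := val_TMM hS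
  rw [es2] at eG
  rw [es] at eT eA eN eE eM
  have hb : o.a + o.d = o.b := by simp only [PtR.b, PtR.d]; ring
  rw [hb] at eM
  have eI : xI.val o.x = o.I := by simp [xI, PtR.x]
  have eb : xb.val o.x = o.b := by
    simp only [xb, xa, xI, val_sub, val_mul, val_num, val_var, PtR.x, PtR.b]; push_cast; ring
  have a3 : o.a ^ 3 ≠ 0 := pow_ne_zero 3 ha
  rw [mul_comm, ← eq_div_iff a3] at eG eT eA eN
  rw [mul_comm, ← eq_div_iff ha] at eE
  cases q <;> simp only [Piece.form, Piece.comb, Comb.at, PtR.blk, PtR.num, Nums.num, atNum,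
    val_add, val_sub, val_mul, val_pow, val_num, val_dec, es, es1, es2, eI, eb, eG, eT, eA, eN,
    eE, eM] <;> push_cast <;> field_simp <;> ring

section
variable (c : Comb) (o : PtR)

theorem Comb.quad (m n : Nums) : IsQuad fun θ => c.at o (m.seg n θ) := by
  have e : ∀ {F : ℝ → ℝ → ℝ → ℝ → ℝ → ℝ → ℝ → ClosedGen.Num → ℝ},
      IsQuad (along F o.a o.d o.v (o.a * (o.a + o.d))
        (-(1 - 2 * o.a - (1 - 2 * o.a - o.d) / 4) * ((1 - 2 * o.a - o.d) / 2)) o.D2 m n) →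
      IsQuad fun θ => o.blk F (m.seg n θ) := fun h => h
  exact ((((((e (quad_TGG o.a o.d o.v _ _ o.D2 m n)).smul c.G).add ((e (quad_TEG o.a o.d o.v _ _ o.D2 m n)).smul c.T)).add
    ((e (quad_TA o.a o.d o.v _ _ o.D2 m n)).smul c.A)).add ((e (quad_TMG o.a o.d o.v _ _ o.D2 m n)).smul c.N)).add
      ((e (quad_TME o.a o.d o.v _ _ o.D2 m n)).smul c.E)).add ((e (quad_TMM o.a o.d o.v _ _ o.D2 m n)).smul c.M)

theorem Comb.tau (π ω τ₀ τ₁ s : ℝ) (hd : o.d ≠ 0) : c.at o (o.nums π ω (seg s τ₀ τ₁)) =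
    seg s (c.at o (o.nums π ω τ₀)) (c.at o (o.nums π ω τ₁)) +
      c.G * (s * (1 - s) * (Closed.j1 o.a o.d * o.a ^ 3 * o.b * o.Q *
        (6 / 5 * (τ₁ - τ₀) * o.v * o.D0) ^ 2)) := by
  set n₀ := o.nums π ω τ₀ with h₀
  set n₁ := o.nums π ω τ₁ with h₁
  have e : o.nums π ω (seg s τ₀ τ₁) =
      ⟨n₀.p, n₀.w, n₀.E, n₀.K, seg s n₀.G n₁.G, seg s n₀.G1 n₁.G1⟩ := by
    simp only [h₀, h₁, PtR.nums, seg, Nums.mk.injEq, true_and]
    constructor <;> ring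
  have e1 : n₁ = ⟨n₀.p, n₀.w, n₀.E, n₀.K, n₁.G, n₁.G1⟩ := rfl
  have hsq : Closed.j1 o.a o.d * o.a * (o.a + o.d) * o.d ^ 2 * (1 + o.d * o.v) *
      (4 * (n₁.G - n₀.G) * o.v * o.d * (2 + o.d * o.v)) ^ 2 =
      Closed.j1 o.a o.d * o.a ^ 3 * o.b * o.Q * (6 / 5 * (τ₁ - τ₀) * o.v * o.D0) ^ 2 := by
    have hb : o.a + o.d = o.b := by simp only [PtR.b, PtR.d]; ring
    simp only [h₀, h₁, PtR.nums, hb, PtR.Q, PtR.D0]
    field_simp
    ring
  rw [e, e1]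
  simp only [Comb.at, PtR.blk, PtR.num, Nums.num, tau_TGG, tau_TEG, tau_TA, tau_TMG, hsq,
    tau_TME (G₀ := seg s n₀.G n₁.G), tau_TME (G₀ := n₁.G), tau_TME (G₀ := n₀.G),
    ClosedGen.TMMS]
  simp only [seg]
  ring

/-- The coefficient in `g W1/I` of a combination. -/
noncomputable def Comb.slope : ℝ :=
  let a := o.a
  let d := o.d
  let v := o.v
  o.I * (4 * (a * (a + d)) ^ 2 * a * (a + d) ^ 3 * v * (1 + d * v) * (4 * d * v + 8) *
      (c.N * (1 - 2 * a - d) - c.A * (1 + 2 * a + d)) +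
    c.E * (a * (a + d) * (a + d) * v *
      (v * (2 * a ^ 2 * d + 3 * a * d ^ 2 + a * d + d ^ 3 + d ^ 2) + 4 * a ^ 2 + 6 * a * d +
        2 * a + 2 * d ^ 2 + 2 * d)))

theorem Comb.omega (π ω ω' τ : ℝ) :
    c.at o (o.nums π ω' τ) = c.at o (o.nums π ω τ) + (ω' - ω) * c.slope o := by
  simp only [Comb.at, PtR.blk, PtR.num, Nums.num, PtR.nums, Comb.slope]
  rw [w_TGG (w := o.I * ω), w_TEG (w := o.I * ω), w_TA (w := o.I * ω), w_TMG (w := o.I * ω),
    w_TME (w := o.I * ω)]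
  simp only [ClosedGen.TMMS]
  ring

end

end Vale.Agent.P100.Calib.Closed.All.Low
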