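import Vale.Agent.P100.Calib.SlabAllSignsQ

/-!
# The packed test on closed boxes
-/

set_option linter.unusedVariables false

open Filter Topology

namespace Vale.Agent.P100.Calib.Closed.All.Low

open Pack

theorem continuous_eval {y : ℝ → ℕ → ℝ} (hy : ∀ i, Continuous fun s => y s i) :
    ∀ e : Pack.Ex, Continuous fun s => e.eval (y s)
  | .var i => by simpa [Ex.eval] using hy i
  | .num z => by simpa [Ex.eval] using continuous_const
  | .add e f => by
    simpa [Ex.eval] using (continuous_eval hy e).fun_add (continuous_eval hy f)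
  | .sub e f => by
    simpa [Ex.eval] using (continuous_eval hy e).fun_sub (continuous_eval hy f)
  | .mul e f => by
    simpa [Ex.eval] using (continuous_eval hy e).fun_mul (continuous_eval hy f)
  | .pow e k => by
    simpa [Ex.eval] using (continuous_eval hy e).fun_pow k

/-- The chart `⟨A, B, D, D⟩` of `[A/D, B/D]` contains `x`. -/
def InChart (C : Chart) (x : ℝ) : Prop :=
  C.c = C.d ∧ 0 < C.c ∧ C.a < C.b ∧ (C.a : ℝ) ≤ x * C.c ∧ x * C.c ≤ C.b

/-- **An expression that passes the test is nonnegative on the closed box.** -/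
theorem QEx.nonneg_on_box {q : QEx} {C : ℕ → Chart} {K a b c d : ℕ}
    (h : checkShift C K a b c d q.e = true) {x : ℕ → ℝ} (hx : ∀ i < 4, InChart (C i) (x i)) :
    0 ≤ q.val x := by
  set y : ℝ → ℕ → ℝ := fun s i => x i + s * ((C i).a / (C i).c - x i) with hy
  have cy : Continuous fun s => q.val (y s) := by
    simp only [QEx.val]
    exact (continuous_eval (fun i => by simp only [hy]; fun_prop) q.e).div_const _
  have ev : ∀ᶠ s in 𝓝[>] (0 : ℝ), 0 ≤ q.val (y s) := by
    filter_upwards [Ioo_mem_nhdsGT zero_lt_one] with s hs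
    refine q.nonneg_of_check _ h fun i hi => ?_
    obtain ⟨e, c0, ab, l, r⟩ := hx i hi
    have c0' : (0 : ℝ) < (C i).c := by exact_mod_cast c0
    have ab' : ((C i).a : ℝ) < (C i).b := by exact_mod_cast ab
    have ey : y s i * (C i).c = (1 - s) * (x i * (C i).c) + s * (C i).a := by
      simp only [hy]; field_simp; ring
    have h1 : ((C i).a : ℝ) ≤ y s i * (C i).c := by
      have := mul_le_mul_of_nonneg_left l (sub_nonneg.2 hs.2.le)
      linarith
    have h2 : y s i * (C i).c < (C i).b := by
      have := mul_le_mul_of_nonneg_left r (sub_nonneg.2 hs.2.le)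
      have := mul_lt_mul_of_pos_left ab' hs.1
      linarith
    refine ⟨(y s i * (C i).c - (C i).a) / ((C i).b - y s i * (C i).c),
      div_nonneg (by linarith) (by linarith), ?_, ?_⟩
    · rw [← e]; positivity
    · rw [← e]
      have : ((C i).b : ℝ) - y s i * (C i).c ≠ 0 := by linarith
      field_simp
      ring
  have hlim := cy.continuousAt.tendsto.mono_left (nhdsWithin_le_nhds (a := (0 : ℝ)) (s := Set.Ioi 0))
  have e0 : y 0 = x := by funext i; simp [hy]
  rw [e0] at hlim
  exact ge_of_tendsto hlim ev

end Vale.Agent.P100.Calib.Closed.All.Low
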