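import Vale.Agent.P100.Calib.SlabAllSignsPieces

/-!
# Checks of the certificate of the signs on `0 < u ≤ 3/5`
-/

set_option linter.defProp false

namespace Vale.Agent.P100.Calib.Closed.All.Low

/-- A check of the piece 10. -/
def c10_piL_lo_0 :
    checkShift box10_0 154 5 2 4 6
      (piece10.env bandHigh.lo bandHigh.hi bandHigh.pole .piL).e = true := by
  decide +kernel

/-- A check of the piece 10. -/
def c10_piL_lo_1 :
    checkShift box10_1 155 5 2 4 6
      (piece10.env bandHigh.lo bandHigh.hi bandHigh.pole .piL).e = true := by
  decide +kernel

/-- A check of the piece 10. -/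
def c10_piL_hi :
    checkShift box10 151 5 2 4 6
      (piece10.env bandHigh.hi bandHigh.hi bandHigh.pole .piL).e = true := by
  decide +kernel

/-- A check of the piece 10. -/
def c10_piU_lo :
    checkShift box10 151 5 2 4 6
      (piece10.env bandHigh.lo bandHigh.hi bandHigh.pole .piU).e = true := by
  decide +kernel

/-- A check of the piece 10. -/
def c10_piU_hi :
    checkShift box10 151 5 2 4 6
      (piece10.env bandHigh.hi bandHigh.hi bandHigh.pole .piU).e = true := by
  decide +kernel

/-- A check of the piece 10. -/
def c10_omL_lo :
    checkShift box10 259 7 4 7 10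
      (piece10.env bandHigh.lo bandHigh.hi bandHigh.pole .omL).e = true := by
  decide +kernel

/-- A check of the piece 10. -/
def c10_omL_hi :
    checkShift box10 259 7 4 7 10
      (piece10.env bandHigh.hi bandHigh.hi bandHigh.pole .omL).e = true := by
  decide +kernel

/-- A check of the piece 10. -/
def c10_omU_lo :
    checkShift box10 259 7 4 7 10
      (piece10.env bandHigh.lo bandHigh.hi bandHigh.pole .omU).e = true := by
  decide +kernel

/-- A check of the piece 10. -/
def c10_omU_hi_0 :
    checkShift box10_0 265 7 4 7 10
      (piece10.env bandHigh.hi bandHigh.hi bandHigh.pole .omU).e = true := by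
  decide +kernel

/-- A check of the piece 10. -/
def c10_omU_hi_1 :
    checkShift box10_1 266 7 4 7 10
      (piece10.env bandHigh.hi bandHigh.hi bandHigh.pole .omU).e = true := by
  decide +kernel

/-- A check of the piece 10. -/
def c10_tauL_lo_0 :
    checkShift box10_0 295 9 4 8 11
      (piece10.env bandHigh.lo bandHigh.hi bandHigh.pole .tauL).e = true := by
  decide +kernel

/-- A check of the piece 10. -/
def c10_tauL_lo_1 :
    checkShift box10_1 295 9 4 8 11
      (piece10.env bandHigh.lo bandHigh.hi bandHigh.pole .tauL).e = true := by
  decide +kernel

/-- A check of the piece 10. -/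
def c10_tauL_hi_0 :
    checkShift box10_0 295 9 4 8 11
      (piece10.env bandHigh.hi bandHigh.hi bandHigh.pole .tauL).e = true := by
  decide +kernel

/-- A check of the piece 10. -/
def c10_tauL_hi_1 :
    checkShift box10_1 295 9 4 8 11
      (piece10.env bandHigh.hi bandHigh.hi bandHigh.pole .tauL).e = true := by
  decide +kernel

/-- A check of the piece 10. -/
def c10_tauU_lo :
    checkShift box10 287 9 4 8 11
      (piece10.env bandHigh.lo bandHigh.hi bandHigh.pole .tauU).e = true := by
  decide +kernel

/-- A check of the piece 10. -/
def c10_tauU_hi :
    checkShift box10 287 9 4 8 11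
      (piece10.env bandHigh.hi bandHigh.hi bandHigh.pole .tauU).e = true := by
  decide +kernel

/-- A check of the piece 10. -/
def c10_wid :
    checkShift box10 64 1 1 1 1
      (piece10.wid - qD 1).e = true := by
  decide +kernel

/-- A check of the piece 10. -/
def c10_llg_lo :
    checkShift box10 254 5 4 11 16
      (xLLG bandHigh.lo bandHigh.pole).e = true := by
  decide +kernel

/-- A check of the piece 10. -/
def c10_llg_hi :
    checkShift box10 254 5 4 11 16
      (xLLG bandHigh.hi bandHigh.pole).e = true := by
  decide +kernel

/-- A check of the piece 10. -/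
def c10_side_rA :
    checkShift box10 39 1 1 0 0
      (piece10.side .rA).e = true := by
  decide +kernel

/-- A check of the piece 10. -/
def c10_side_rB :
    checkShift box10 38 1 1 0 0
      (piece10.side .rB).e = true := by
  decide +kernel

/-- A check of the piece 10. -/
def c10_side_rF_0 :
    checkShift box10_2 77 2 2 0 0
      (piece10.side .rF).e = true := by
  decide +kernel

/-- A check of the piece 10. -/
def c10_side_rF_1 :
    checkShift box10_3 77 2 2 0 0
      (piece10.side .rF).e = true := by
  decide +kernel

/-- A check of the piece 10. -/
def c10_side_q :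
    checkShift box10 38 0 1 1 2
      (piece10.side .q).e = true := by
  decide +kernel

/-- A check of the piece 10. -/
def c10_side_om :
    checkShift box10 119 1 2 4 6
      (piece10.side .om).e = true := by
  decide +kernel

end Vale.Agent.P100.Calib.Closed.All.Low
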