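import Vale.Agent.P100.Calib.SlabAllSignsPieces

/-!
# Checks of the certificate of the signs on `0 < u ≤ 3/5`
-/

set_option linter.defProp false

namespace Vale.Agent.P100.Calib.Closed.All.Low

/-- A check of the piece 12. -/
def c12_piL_lo_0 :
    checkShift box12_0 155 5 2 4 6
      (piece12.env bandHigh.lo bandHigh.hi bandHigh.pole .piL).e = true := by
  decide +kernel

/-- A check of the piece 12. -/
def c12_piL_lo_1 :
    checkShift box12_1 155 5 2 4 6
      (piece12.env bandHigh.lo bandHigh.hi bandHigh.pole .piL).e = true := by
  decide +kernel

/-- A check of the piece 12. -/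
def c12_piL_hi :
    checkShift box12 151 5 2 4 6
      (piece12.env bandHigh.hi bandHigh.hi bandHigh.pole .piL).e = true := by
  decide +kernel

/-- A check of the piece 12. -/
def c12_piU_lo :
    checkShift box12 151 5 2 4 6
      (piece12.env bandHigh.lo bandHigh.hi bandHigh.pole .piU).e = true := by
  decide +kernel

/-- A check of the piece 12. -/
def c12_piU_hi_0 :
    checkShift box12_2 158 5 2 4 6
      (piece12.env bandHigh.hi bandHigh.hi bandHigh.pole .piU).e = true := by
  decide +kernel

/-- A check of the piece 12. -/
def c12_piU_hi_1 :
    checkShift box12_3 158 5 2 4 6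
      (piece12.env bandHigh.hi bandHigh.hi bandHigh.pole .piU).e = true := by
  decide +kernel

/-- A check of the piece 12. -/
def c12_piU_hi_2 :
    checkShift box12_4 158 5 2 4 6
      (piece12.env bandHigh.hi bandHigh.hi bandHigh.pole .piU).e = true := by
  decide +kernel

/-- A check of the piece 12. -/
def c12_piU_hi_3 :
    checkShift box12_5 158 5 2 4 6
      (piece12.env bandHigh.hi bandHigh.hi bandHigh.pole .piU).e = true := by
  decide +kernel

/-- A check of the piece 12. -/
def c12_omL_lo :
    checkShift box12 260 7 4 7 10
      (piece12.env bandHigh.lo bandHigh.hi bandHigh.pole .omL).e = true := by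
  decide +kernel

/-- A check of the piece 12. -/
def c12_omL_hi :
    checkShift box12 260 7 4 7 10
      (piece12.env bandHigh.hi bandHigh.hi bandHigh.pole .omL).e = true := by
  decide +kernel

/-- A check of the piece 12. -/
def c12_omU_lo_0 :
    checkShift box12_6 264 7 4 7 10
      (piece12.env bandHigh.lo bandHigh.hi bandHigh.pole .omU).e = true := by
  decide +kernel

/-- A check of the piece 12. -/
def c12_omU_lo_1 :
    checkShift box12_7 264 7 4 7 10
      (piece12.env bandHigh.lo bandHigh.hi bandHigh.pole .omU).e = true := by
  decide +kernel

/-- A check of the piece 12. -/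
def c12_omU_hi_0 :
    checkShift box12_2 271 7 4 7 10
      (piece12.env bandHigh.hi bandHigh.hi bandHigh.pole .omU).e = true := by
  decide +kernel

/-- A check of the piece 12. -/
def c12_omU_hi_1 :
    checkShift box12_3 271 7 4 7 10
      (piece12.env bandHigh.hi bandHigh.hi bandHigh.pole .omU).e = true := by
  decide +kernel

/-- A check of the piece 12. -/
def c12_omU_hi_2 :
    checkShift box12_4 271 7 4 7 10
      (piece12.env bandHigh.hi bandHigh.hi bandHigh.pole .omU).e = true := by
  decide +kernel

/-- A check of the piece 12. -/
def c12_omU_hi_3 :
    checkShift box12_5 271 7 4 7 10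
      (piece12.env bandHigh.hi bandHigh.hi bandHigh.pole .omU).e = true := by
  decide +kernel

/-- A check of the piece 12. -/
def c12_tauL_lo_0 :
    checkShift box12_8 306 9 4 8 11
      (piece12.env bandHigh.lo bandHigh.hi bandHigh.pole .tauL).e = true := by
  decide +kernel

/-- A check of the piece 12. -/
def c12_tauL_lo_1 :
    checkShift box12_9 308 9 4 8 11
      (piece12.env bandHigh.lo bandHigh.hi bandHigh.pole .tauL).e = true := by
  decide +kernel

/-- A check of the piece 12. -/
def c12_tauL_lo_2 :
    checkShift box12_10 307 9 4 8 11
      (piece12.env bandHigh.lo bandHigh.hi bandHigh.pole .tauL).e = true := by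
  decide +kernel

/-- A check of the piece 12. -/
def c12_tauL_lo_3 :
    checkShift box12_11 308 9 4 8 11
      (piece12.env bandHigh.lo bandHigh.hi bandHigh.pole .tauL).e = true := by
  decide +kernel

/-- A check of the piece 12. -/
def c12_tauL_hi_0 :
    checkShift box12_0 296 9 4 8 11
      (piece12.env bandHigh.hi bandHigh.hi bandHigh.pole .tauL).e = true := by
  decide +kernel

/-- A check of the piece 12. -/
def c12_tauL_hi_1 :
    checkShift box12_1 296 9 4 8 11
      (piece12.env bandHigh.hi bandHigh.hi bandHigh.pole .tauL).e = true := by
  decide +kernel

/-- A check of the piece 12. -/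
def c12_tauU_lo :
    checkShift box12 288 9 4 8 11
      (piece12.env bandHigh.lo bandHigh.hi bandHigh.pole .tauU).e = true := by
  decide +kernel

/-- A check of the piece 12. -/
def c12_tauU_hi :
    checkShift box12 288 9 4 8 11
      (piece12.env bandHigh.hi bandHigh.hi bandHigh.pole .tauU).e = true := by
  decide +kernel

/-- A check of the piece 12. -/
def c12_wid :
    checkShift box12 65 1 1 1 1
      (piece12.wid - qD 1).e = true := by
  decide +kernel

/-- A check of the piece 12. -/
def c12_llg_lo :
    checkShift box12 255 5 4 11 16
      (xLLG bandHigh.lo bandHigh.pole).e = true := by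
  decide +kernel

/-- A check of the piece 12. -/
def c12_llg_hi :
    checkShift box12 255 5 4 11 16
      (xLLG bandHigh.hi bandHigh.pole).e = true := by
  decide +kernel

/-- A check of the piece 12. -/
def c12_side_rA :
    checkShift box12 39 1 1 0 0
      (piece12.side .rA).e = true := by
  decide +kernel

/-- A check of the piece 12. -/
def c12_side_rB :
    checkShift box12 37 1 1 0 0
      (piece12.side .rB).e = true := by
  decide +kernel

/-- A check of the piece 12. -/
def c12_side_rF_0 :
    checkShift box12_12 80 2 2 0 0
      (piece12.side .rF).e = true := by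
  decide +kernel

/-- A check of the piece 12. -/
def c12_side_rF_1 :
    checkShift box12_13 80 2 2 0 0
      (piece12.side .rF).e = true := by
  decide +kernel

/-- A check of the piece 12. -/
def c12_side_rF_2 :
    checkShift box12_14 81 2 2 0 0
      (piece12.side .rF).e = true := by
  decide +kernel

/-- A check of the piece 12. -/
def c12_side_rF_3 :
    checkShift box12_15 81 2 2 0 0
      (piece12.side .rF).e = true := by
  decide +kernel

/-- A check of the piece 12. -/
def c12_side_rF_4 :
    checkShift box12_16 80 2 2 0 0
      (piece12.side .rF).e = true := by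
  decide +kernel

/-- A check of the piece 12. -/
def c12_side_rF_5 :
    checkShift box12_17 80 2 2 0 0
      (piece12.side .rF).e = true := by
  decide +kernel

/-- A check of the piece 12. -/
def c12_side_rF_6 :
    checkShift box12_18 81 2 2 0 0
      (piece12.side .rF).e = true := by
  decide +kernel

/-- A check of the piece 12. -/
def c12_side_rF_7 :
    checkShift box12_19 81 2 2 0 0
      (piece12.side .rF).e = true := by
  decide +kernel

/-- A check of the piece 12. -/
def c12_side_q :
    checkShift box12 38 0 1 1 2
      (piece12.side .q).e = true := by
  decide +kernel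

/-- A check of the piece 12. -/
def c12_side_om :
    checkShift box12 119 1 2 4 6
      (piece12.side .om).e = true := by
  decide +kernel

end Vale.Agent.P100.Calib.Closed.All.Low
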