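import Vale.Agent.P100.Calib.SlabAllSignsPieces

/-!
# Checks of the certificate of the signs on `0 < u ≤ 3/5`
-/

set_option linter.defProp false

namespace Vale.Agent.P100.Calib.Closed.All.Low

/-- A check of the piece 3. -/
def c3_piL_lo :
    checkShift box3 136 3 2 4 8
      (piece3.env bandLow.lo bandLow.hi bandLow.pole .piL).e = true := by
  decide +kernel

/-- A check of the piece 3. -/
def c3_piL_hi :
    checkShift box3 154 5 2 5 8
      (piece3.env bandLow.hi bandLow.hi bandLow.pole .piL).e = true := by
  decide +kernel

/-- A check of the piece 3. -/
def c3_piU_lo :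
    checkShift box3 136 3 2 4 8
      (piece3.env bandLow.lo bandLow.hi bandLow.pole .piU).e = true := by
  decide +kernel

/-- A check of the piece 3. -/
def c3_piU_hi :
    checkShift box3 154 5 2 5 8
      (piece3.env bandLow.hi bandLow.hi bandLow.pole .piU).e = true := by
  decide +kernel

/-- A check of the piece 3. -/
def c3_omL_lo :
    checkShift box3 237 5 4 7 12
      (piece3.env bandLow.lo bandLow.hi bandLow.pole .omL).e = true := by
  decide +kernel

/-- A check of the piece 3. -/
def c3_omL_hi :
    checkShift box3 255 7 4 8 12
      (piece3.env bandLow.hi bandLow.hi bandLow.pole .omL).e = true := by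
  decide +kernel

/-- A check of the piece 3. -/
def c3_omU_lo :
    checkShift box3 237 5 4 7 12
      (piece3.env bandLow.lo bandLow.hi bandLow.pole .omU).e = true := by
  decide +kernel

/-- A check of the piece 3. -/
def c3_omU_hi :
    checkShift box3 255 7 4 8 12
      (piece3.env bandLow.hi bandLow.hi bandLow.pole .omU).e = true := by
  decide +kernel

/-- A check of the piece 3. -/
def c3_tauL_lo :
    checkShift box3 288 9 4 9 15
      (piece3.env bandLow.lo bandLow.hi bandLow.pole .tauL).e = true := by
  decide +kernel

/-- A check of the piece 3. -/
def c3_tauL_hi :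
    checkShift box3 294 9 4 10 15
      (piece3.env bandLow.hi bandLow.hi bandLow.pole .tauL).e = true := by
  decide +kernel

/-- A check of the piece 3. -/
def c3_tauU_lo :
    checkShift box3 263 5 4 9 15
      (piece3.env bandLow.lo bandLow.hi bandLow.pole .tauU).e = true := by
  decide +kernel

/-- A check of the piece 3. -/
def c3_tauU_hi :
    checkShift box3 294 9 4 10 15
      (piece3.env bandLow.hi bandLow.hi bandLow.pole .tauU).e = true := by
  decide +kernel

/-- A check of the piece 3. -/
def c3_wid :
    checkShift box3 61 1 1 1 1
      (piece3.wid - qD 1).e = true := by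
  decide +kernel

/-- A check of the piece 3. -/
def c3_llg_lo :
    checkShift box3 225 3 4 11 18
      (xLLG bandLow.lo bandLow.pole).e = true := by
  decide +kernel

/-- A check of the piece 3. -/
def c3_llg_hi :
    checkShift box3 243 5 4 12 18
      (xLLG bandLow.hi bandLow.pole).e = true := by
  decide +kernel

/-- A check of the piece 3. -/
def c3_side_rA :
    checkShift box3 38 1 1 0 0
      (piece3.side .rA).e = true := by
  decide +kernel

/-- A check of the piece 3. -/
def c3_side_rB :
    checkShift box3 38 1 1 0 0
      (piece3.side .rB).e = true := by
  decide +kernel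

/-- A check of the piece 3. -/
def c3_side_rF_0 :
    checkShift box3_0 79 2 2 0 0
      (piece3.side .rF).e = true := by
  decide +kernel

/-- A check of the piece 3. -/
def c3_side_rF_1 :
    checkShift box3_1 79 2 2 0 0
      (piece3.side .rF).e = true := by
  decide +kernel

/-- A check of the piece 3. -/
def c3_side_rF_2 :
    checkShift box3_2 79 2 2 0 0
      (piece3.side .rF).e = true := by
  decide +kernel

/-- A check of the piece 3. -/
def c3_side_rF_3 :
    checkShift box3_3 79 2 2 0 0
      (piece3.side .rF).e = true := by
  decide +kernel

/-- A check of the piece 3. -/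
def c3_side_rF_4 :
    checkShift box3_4 79 2 2 0 0
      (piece3.side .rF).e = true := by
  decide +kernel

/-- A check of the piece 3. -/
def c3_side_rF_5 :
    checkShift box3_5 79 2 2 0 0
      (piece3.side .rF).e = true := by
  decide +kernel

/-- A check of the piece 3. -/
def c3_side_rF_6 :
    checkShift box3_6 79 2 2 0 0
      (piece3.side .rF).e = true := by
  decide +kernel

/-- A check of the piece 3. -/
def c3_side_rF_7 :
    checkShift box3_7 79 2 2 0 0
      (piece3.side .rF).e = true := by
  decide +kernel

/-- A check of the piece 3. -/
def c3_side_q :
    checkShift box3 35 0 1 1 2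
      (piece3.side .q).e = true := by
  decide +kernel

/-- A check of the piece 3. -/
def c3_side_om :
    checkShift box3 110 1 2 4 6
      (piece3.side .om).e = true := by
  decide +kernel

end Vale.Agent.P100.Calib.Closed.All.Low
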