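import Vale.Agent.P100.Calib.SlabAllSignsPieces

/-!
# Checks of the certificate of the signs on `0 < u ≤ 3/5`
-/

set_option linter.defProp false

namespace Vale.Agent.P100.Calib.Closed.All.Low

/-- A check of the piece 4. -/
def c4_piL_lo :
    checkShift box4 137 3 2 4 8
      (piece4.env bandLow.lo bandLow.hi bandLow.pole .piL).e = true := by
  decide +kernel

/-- A check of the piece 4. -/
def c4_piL_hi :
    checkShift box4 153 5 2 5 8
      (piece4.env bandLow.hi bandLow.hi bandLow.pole .piL).e = true := by
  decide +kernel

/-- A check of the piece 4. -/
def c4_piU_lo :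
    checkShift box4 137 3 2 4 8
      (piece4.env bandLow.lo bandLow.hi bandLow.pole .piU).e = true := by
  decide +kernel

/-- A check of the piece 4. -/
def c4_piU_hi :
    checkShift box4 153 5 2 5 8
      (piece4.env bandLow.hi bandLow.hi bandLow.pole .piU).e = true := by
  decide +kernel

/-- A check of the piece 4. -/
def c4_omL_lo :
    checkShift box4 239 5 4 7 12
      (piece4.env bandLow.lo bandLow.hi bandLow.pole .omL).e = true := by
  decide +kernel

/-- A check of the piece 4. -/
def c4_omL_hi :
    checkShift box4 255 7 4 8 12
      (piece4.env bandLow.hi bandLow.hi bandLow.pole .omL).e = true := by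
  decide +kernel

/-- A check of the piece 4. -/
def c4_omU_lo :
    checkShift box4 239 5 4 7 12
      (piece4.env bandLow.lo bandLow.hi bandLow.pole .omU).e = true := by
  decide +kernel

/-- A check of the piece 4. -/
def c4_omU_hi :
    checkShift box4 255 7 4 8 12
      (piece4.env bandLow.hi bandLow.hi bandLow.pole .omU).e = true := by
  decide +kernel

/-- A check of the piece 4. -/
def c4_tauL_lo_0 :
    checkShift box4_0 295 9 4 9 15
      (piece4.env bandLow.lo bandLow.hi bandLow.pole .tauL).e = true := by
  decide +kernel

/-- A check of the piece 4. -/
def c4_tauL_lo_1 :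
    checkShift box4_1 296 9 4 9 15
      (piece4.env bandLow.lo bandLow.hi bandLow.pole .tauL).e = true := by
  decide +kernel

/-- A check of the piece 4. -/
def c4_tauL_hi_0 :
    checkShift box4_0 304 9 4 10 15
      (piece4.env bandLow.hi bandLow.hi bandLow.pole .tauL).e = true := by
  decide +kernel

/-- A check of the piece 4. -/
def c4_tauL_hi_1 :
    checkShift box4_1 304 9 4 10 15
      (piece4.env bandLow.hi bandLow.hi bandLow.pole .tauL).e = true := by
  decide +kernel

/-- A check of the piece 4. -/
def c4_tauU_lo :
    checkShift box4 270 5 4 9 15
      (piece4.env bandLow.lo bandLow.hi bandLow.pole .tauU).e = true := by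
  decide +kernel

/-- A check of the piece 4. -/
def c4_tauU_hi :
    checkShift box4 294 9 4 10 15
      (piece4.env bandLow.hi bandLow.hi bandLow.pole .tauU).e = true := by
  decide +kernel

/-- A check of the piece 4. -/
def c4_wid :
    checkShift box4 61 1 1 1 1
      (piece4.wid - qD 1).e = true := by
  decide +kernel

/-- A check of the piece 4. -/
def c4_llg_lo :
    checkShift box4 240 3 4 11 18
      (xLLG bandLow.lo bandLow.pole).e = true := by
  decide +kernel

/-- A check of the piece 4. -/
def c4_llg_hi :
    checkShift box4 256 5 4 12 18
      (xLLG bandLow.hi bandLow.pole).e = true := by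
  decide +kernel

/-- A check of the piece 4. -/
def c4_side_rA :
    checkShift box4 36 1 1 0 0
      (piece4.side .rA).e = true := by
  decide +kernel

/-- A check of the piece 4. -/
def c4_side_rB :
    checkShift box4 35 1 1 0 0
      (piece4.side .rB).e = true := by
  decide +kernel

/-- A check of the piece 4. -/
def c4_side_rF :
    checkShift box4 69 2 2 0 0
      (piece4.side .rF).e = true := by
  decide +kernel

/-- A check of the piece 4. -/
def c4_side_q :
    checkShift box4 37 0 1 1 2
      (piece4.side .q).e = true := by
  decide +kernel

/-- A check of the piece 4. -/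
def c4_side_om :
    checkShift box4 116 1 2 4 6
      (piece4.side .om).e = true := by
  decide +kernel

end Vale.Agent.P100.Calib.Closed.All.Low
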