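import Vale.Agent.P100.Calib.SlabAllSignsPieces

/-!
# Checks of the certificate of the signs on `0 < u ≤ 3/5`
-/

set_option linter.defProp false

namespace Vale.Agent.P100.Calib.Closed.All.Low

/-- A check of the piece 6. -/
def c6_piL_lo :
    checkShift box6 144 5 2 4 6
      (piece6.env bandHigh.lo bandHigh.hi bandHigh.pole .piL).e = true := by
  decide +kernel

/-- A check of the piece 6. -/
def c6_piL_hi :
    checkShift box6 144 5 2 4 6
      (piece6.env bandHigh.hi bandHigh.hi bandHigh.pole .piL).e = true := by
  decide +kernel

/-- A check of the piece 6. -/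
def c6_piU_lo :
    checkShift box6 144 5 2 4 6
      (piece6.env bandHigh.lo bandHigh.hi bandHigh.pole .piU).e = true := by
  decide +kernel

/-- A check of the piece 6. -/
def c6_piU_hi :
    checkShift box6 144 5 2 4 6
      (piece6.env bandHigh.hi bandHigh.hi bandHigh.pole .piU).e = true := by
  decide +kernel

/-- A check of the piece 6. -/
def c6_omL_lo :
    checkShift box6 247 7 4 7 10
      (piece6.env bandHigh.lo bandHigh.hi bandHigh.pole .omL).e = true := by
  decide +kernel

/-- A check of the piece 6. -/
def c6_omL_hi :
    checkShift box6 247 7 4 7 10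
      (piece6.env bandHigh.hi bandHigh.hi bandHigh.pole .omL).e = true := by
  decide +kernel

/-- A check of the piece 6. -/
def c6_omU_lo :
    checkShift box6 247 7 4 7 10
      (piece6.env bandHigh.lo bandHigh.hi bandHigh.pole .omU).e = true := by
  decide +kernel

/-- A check of the piece 6. -/
def c6_omU_hi :
    checkShift box6 247 7 4 7 10
      (piece6.env bandHigh.hi bandHigh.hi bandHigh.pole .omU).e = true := by
  decide +kernel

/-- A check of the piece 6. -/
def c6_tauL_lo :
    checkShift box6 273 9 4 8 11
      (piece6.env bandHigh.lo bandHigh.hi bandHigh.pole .tauL).e = true := by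
  decide +kernel

/-- A check of the piece 6. -/
def c6_tauL_hi :
    checkShift box6 273 9 4 8 11
      (piece6.env bandHigh.hi bandHigh.hi bandHigh.pole .tauL).e = true := by
  decide +kernel

/-- A check of the piece 6. -/
def c6_tauU_lo :
    checkShift box6 273 9 4 8 11
      (piece6.env bandHigh.lo bandHigh.hi bandHigh.pole .tauU).e = true := by
  decide +kernel

/-- A check of the piece 6. -/
def c6_tauU_hi :
    checkShift box6 273 9 4 8 11
      (piece6.env bandHigh.hi bandHigh.hi bandHigh.pole .tauU).e = true := by
  decide +kernel

/-- A check of the piece 6. -/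
def c6_wid :
    checkShift box6 62 1 1 1 1
      (piece6.wid - qD 1).e = true := by
  decide +kernel

/-- A check of the piece 6. -/
def c6_llg_lo :
    checkShift box6 234 5 4 11 16
      (xLLG bandHigh.lo bandHigh.pole).e = true := by
  decide +kernel

/-- A check of the piece 6. -/
def c6_llg_hi :
    checkShift box6 234 5 4 11 16
      (xLLG bandHigh.hi bandHigh.pole).e = true := by
  decide +kernel

/-- A check of the piece 6. -/
def c6_side_rA :
    checkShift box6 40 1 1 0 0
      (piece6.side .rA).e = true := by
  decide +kernel

/-- A check of the piece 6. -/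
def c6_side_rB :
    checkShift box6 40 1 1 0 0
      (piece6.side .rB).e = true := by
  decide +kernel

/-- A check of the piece 6. -/
def c6_side_rF_0 :
    checkShift box6_0 78 2 2 0 0
      (piece6.side .rF).e = true := by
  decide +kernel

/-- A check of the piece 6. -/
def c6_side_rF_1 :
    checkShift box6_1 78 2 2 0 0
      (piece6.side .rF).e = true := by
  decide +kernel

/-- A check of the piece 6. -/
def c6_side_q :
    checkShift box6 36 0 1 1 2
      (piece6.side .q).e = true := by
  decide +kernel

/-- A check of the piece 6. -/
def c6_side_om :
    checkShift box6 112 1 2 4 6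
      (piece6.side .om).e = true := by
  decide +kernel

end Vale.Agent.P100.Calib.Closed.All.Low
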