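import Vale.Agent.P100.Calib.SlabAllSignsPieces

/-!
# Checks of the certificate of the signs on `0 < u ≤ 3/5`
-/

set_option linter.defProp false

namespace Vale.Agent.P100.Calib.Closed.All.Low

/-- A check of the piece 9. -/
def c9_piL_lo :
    checkShift box9 144 5 2 4 6
      (piece9.env bandHigh.lo bandHigh.hi bandHigh.pole .piL).e = true := by
  decide +kernel

/-- A check of the piece 9. -/
def c9_piL_hi :
    checkShift box9 144 5 2 4 6
      (piece9.env bandHigh.hi bandHigh.hi bandHigh.pole .piL).e = true := by
  decide +kernel

/-- A check of the piece 9. -/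
def c9_piU_lo :
    checkShift box9 144 5 2 4 6
      (piece9.env bandHigh.lo bandHigh.hi bandHigh.pole .piU).e = true := by
  decide +kernel

/-- A check of the piece 9. -/
def c9_piU_hi :
    checkShift box9 144 5 2 4 6
      (piece9.env bandHigh.hi bandHigh.hi bandHigh.pole .piU).e = true := by
  decide +kernel

/-- A check of the piece 9. -/
def c9_omL_lo :
    checkShift box9 248 7 4 7 10
      (piece9.env bandHigh.lo bandHigh.hi bandHigh.pole .omL).e = true := by
  decide +kernel

/-- A check of the piece 9. -/
def c9_omL_hi :
    checkShift box9 248 7 4 7 10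
      (piece9.env bandHigh.hi bandHigh.hi bandHigh.pole .omL).e = true := by
  decide +kernel

/-- A check of the piece 9. -/
def c9_omU_lo :
    checkShift box9 248 7 4 7 10
      (piece9.env bandHigh.lo bandHigh.hi bandHigh.pole .omU).e = true := by
  decide +kernel

/-- A check of the piece 9. -/
def c9_omU_hi :
    checkShift box9 248 7 4 7 10
      (piece9.env bandHigh.hi bandHigh.hi bandHigh.pole .omU).e = true := by
  decide +kernel

/-- A check of the piece 9. -/
def c9_tauL_lo :
    checkShift box9 274 9 4 8 11
      (piece9.env bandHigh.lo bandHigh.hi bandHigh.pole .tauL).e = true := by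
  decide +kernel

/-- A check of the piece 9. -/
def c9_tauL_hi :
    checkShift box9 274 9 4 8 11
      (piece9.env bandHigh.hi bandHigh.hi bandHigh.pole .tauL).e = true := by
  decide +kernel

/-- A check of the piece 9. -/
def c9_tauU_lo :
    checkShift box9 274 9 4 8 11
      (piece9.env bandHigh.lo bandHigh.hi bandHigh.pole .tauU).e = true := by
  decide +kernel

/-- A check of the piece 9. -/
def c9_tauU_hi :
    checkShift box9 274 9 4 8 11
      (piece9.env bandHigh.hi bandHigh.hi bandHigh.pole .tauU).e = true := by
  decide +kernel

/-- A check of the piece 9. -/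
def c9_wid :
    checkShift box9 63 1 1 1 1
      (piece9.wid - qD 1).e = true := by
  decide +kernel

/-- A check of the piece 9. -/
def c9_llg_lo :
    checkShift box9 235 5 4 11 16
      (xLLG bandHigh.lo bandHigh.pole).e = true := by
  decide +kernel

/-- A check of the piece 9. -/
def c9_llg_hi :
    checkShift box9 235 5 4 11 16
      (xLLG bandHigh.hi bandHigh.pole).e = true := by
  decide +kernel

/-- A check of the piece 9. -/
def c9_side_rA :
    checkShift box9 40 1 1 0 0
      (piece9.side .rA).e = true := by
  decide +kernel

/-- A check of the piece 9. -/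
def c9_side_rB :
    checkShift box9 40 1 1 0 0
      (piece9.side .rB).e = true := by
  decide +kernel

/-- A check of the piece 9. -/
def c9_side_rF_0 :
    checkShift box9_0 80 2 2 0 0
      (piece9.side .rF).e = true := by
  decide +kernel

/-- A check of the piece 9. -/
def c9_side_rF_1 :
    checkShift box9_1 80 2 2 0 0
      (piece9.side .rF).e = true := by
  decide +kernel

/-- A check of the piece 9. -/
def c9_side_q :
    checkShift box9 37 0 1 1 2
      (piece9.side .q).e = true := by
  decide +kernel

/-- A check of the piece 9. -/
def c9_side_om :
    checkShift box9 112 1 2 4 6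
      (piece9.side .om).e = true := by
  decide +kernel

end Vale.Agent.P100.Calib.Closed.All.Low
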