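import Vale.Agent.P100.Calib.SlabAllSignsPieces

/-!
# Checks of the certificate of the signs on `0 < u ≤ 3/5`
-/

set_option linter.defProp false

namespace Vale.Agent.P100.Calib.Closed.All.Low

/-- A check of the piece 2. -/
def c2_f_false_lo :
    checkShift box2 530 5 11 18 33
      (piece2.check .f false .lo).e = true := by
  decide +kernel

/-- A check of the piece 2. -/
def c2_f_false_hi :
    checkShift box2 530 5 11 18 33
      (piece2.check .f false .hi).e = true := by
  decide +kernel

/-- A check of the piece 2. -/
def c2_f_false_mid :
    checkShift box2 551 5 11 18 33
      (piece2.check .f false .mid).e = true := by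
  decide +kernel

end Vale.Agent.P100.Calib.Closed.All.Low
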