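import Vale.Agent.P100.Calib.SlabAllSignsPieces

/-!
# Checks of the certificate of the signs on `0 < u ≤ 3/5`
-/

set_option linter.defProp false

namespace Vale.Agent.P100.Calib.Closed.All.Low

/-- A check of the piece 12. -/
def c12_g_false_lo :
    checkShift box12 398 2 7 14 26
      (piece12.check .g false .lo).e = true := by
  decide +kernel

/-- A check of the piece 12. -/
def c12_g_false_hi :
    checkShift box12 398 2 7 14 26
      (piece12.check .g false .hi).e = true := by
  decide +kernel

/-- A check of the piece 12. -/
def c12_g_false_mid :
    checkShift box12 419 2 7 14 26
      (piece12.check .g false .mid).e = true := by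
  decide +kernel

/-- A check of the piece 12. -/
def c12_g_true_lo :
    checkShift box12 398 2 7 14 26
      (piece12.check .g true .lo).e = true := by
  decide +kernel

/-- A check of the piece 12. -/
def c12_g_true_hi :
    checkShift box12 398 2 7 14 26
      (piece12.check .g true .hi).e = true := by
  decide +kernel

/-- A check of the piece 12. -/
def c12_g_true_mid :
    checkShift box12 419 2 7 14 26
      (piece12.check .g true .mid).e = true := by
  decide +kernel

/-- A check of the piece 12. -/
def c12_n_false_lo :
    checkShift box12 493 4 8 18 31
      (piece12.check .n false .lo).e = true := by
  decide +kernel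

/-- A check of the piece 12. -/
def c12_n_false_hi :
    checkShift box12 493 4 8 18 31
      (piece12.check .n false .hi).e = true := by
  decide +kernel

/-- A check of the piece 12. -/
def c12_n_false_mid :
    checkShift box12 514 4 8 18 31
      (piece12.check .n false .mid).e = true := by
  decide +kernel

/-- A check of the piece 12. -/
def c12_n_true_lo :
    checkShift box12 493 4 8 18 31
      (piece12.check .n true .lo).e = true := by
  decide +kernel

/-- A check of the piece 12. -/
def c12_n_true_hi :
    checkShift box12 493 4 8 18 31
      (piece12.check .n true .hi).e = true := by
  decide +kernel

/-- A check of the piece 12. -/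
def c12_n_true_mid :
    checkShift box12 514 4 8 18 31
      (piece12.check .n true .mid).e = true := by
  decide +kernel

/-- A check of the piece 12. -/
def c12_mlo_false_lo :
    checkShift box12 336 4 5 10 18
      (piece12.check .mlo false .lo).e = true := by
  decide +kernel

/-- A check of the piece 12. -/
def c12_mlo_false_hi :
    checkShift box12 336 4 5 10 18
      (piece12.check .mlo false .hi).e = true := by
  decide +kernel

/-- A check of the piece 12. -/
def c12_mlo_false_mid :
    checkShift box12 358 4 5 10 18
      (piece12.check .mlo false .mid).e = true := by
  decide +kernel

/-- A check of the piece 12. -/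
def c12_mhi_false_lo :
    checkShift box12 336 4 5 10 18
      (piece12.check .mhi false .lo).e = true := by
  decide +kernel

/-- A check of the piece 12. -/
def c12_mhi_false_hi :
    checkShift box12 336 4 5 10 18
      (piece12.check .mhi false .hi).e = true := by
  decide +kernel

/-- A check of the piece 12. -/
def c12_mhi_false_mid :
    checkShift box12 358 4 5 10 18
      (piece12.check .mhi false .mid).e = true := by
  decide +kernel

end Vale.Agent.P100.Calib.Closed.All.Low
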