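import Vale.Agent.P100.Calib.SlabAllSignsPieces

/-!
# Checks of the certificate of the signs on `0 < u ≤ 3/5`
-/

set_option linter.defProp false

namespace Vale.Agent.P100.Calib.Closed.All.Low

/-- A check of the piece 10. -/
def c10_tlo_false_lo :
    checkShift box10 474 3 9 16 29
      (piece10.check .tlo false .lo).e = true := by
  decide +kernel

/-- A check of the piece 10. -/
def c10_tlo_false_hi :
    checkShift box10 474 3 9 16 29
      (piece10.check .tlo false .hi).e = true := by
  decide +kernel

/-- A check of the piece 10. -/
def c10_tlo_false_mid :
    checkShift box10 496 3 9 16 29
      (piece10.check .tlo false .mid).e = true := by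
  decide +kernel

/-- A check of the piece 10. -/
def c10_tlo_true_lo :
    checkShift box10 474 3 9 16 29
      (piece10.check .tlo true .lo).e = true := by
  decide +kernel

/-- A check of the piece 10. -/
def c10_tlo_true_hi :
    checkShift box10 474 3 9 16 29
      (piece10.check .tlo true .hi).e = true := by
  decide +kernel

/-- A check of the piece 10. -/
def c10_tlo_true_mid :
    checkShift box10 496 3 9 16 29
      (piece10.check .tlo true .mid).e = true := by
  decide +kernel

end Vale.Agent.P100.Calib.Closed.All.Low
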