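import Vale.Agent.P100.Calib.SlabAllSignsRay
import Vale.Agent.P100.Calib.SlabAllSignsBox
import Vale.Agent.P100.Calib.SlabAllSignsCheckE0
import Vale.Agent.P100.Calib.SlabAllSignsCheckE1
import Vale.Agent.P100.Calib.SlabAllSignsCheckE10
import Vale.Agent.P100.Calib.SlabAllSignsCheckE11
import Vale.Agent.P100.Calib.SlabAllSignsCheckE12
import Vale.Agent.P100.Calib.SlabAllSignsCheckE2
import Vale.Agent.P100.Calib.SlabAllSignsCheckE3
import Vale.Agent.P100.Calib.SlabAllSignsCheckE4
import Vale.Agent.P100.Calib.SlabAllSignsCheckE5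
import Vale.Agent.P100.Calib.SlabAllSignsCheckE6
import Vale.Agent.P100.Calib.SlabAllSignsCheckE7
import Vale.Agent.P100.Calib.SlabAllSignsCheckE8
import Vale.Agent.P100.Calib.SlabAllSignsCheckE9
import Vale.Agent.P100.Calib.SlabAllSignsCheckF0A
import Vale.Agent.P100.Calib.SlabAllSignsCheckF0B
import Vale.Agent.P100.Calib.SlabAllSignsCheckF10A
import Vale.Agent.P100.Calib.SlabAllSignsCheckF10B
import Vale.Agent.P100.Calib.SlabAllSignsCheckF11A
import Vale.Agent.P100.Calib.SlabAllSignsCheckF11B
import Vale.Agent.P100.Calib.SlabAllSignsCheckF12A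
import Vale.Agent.P100.Calib.SlabAllSignsCheckF12B
import Vale.Agent.P100.Calib.SlabAllSignsCheckF1A
import Vale.Agent.P100.Calib.SlabAllSignsCheckF1B
import Vale.Agent.P100.Calib.SlabAllSignsCheckF2A
import Vale.Agent.P100.Calib.SlabAllSignsCheckF2B
import Vale.Agent.P100.Calib.SlabAllSignsCheckF3A
import Vale.Agent.P100.Calib.SlabAllSignsCheckF3B
import Vale.Agent.P100.Calib.SlabAllSignsCheckF4A
import Vale.Agent.P100.Calib.SlabAllSignsCheckF4B
import Vale.Agent.P100.Calib.SlabAllSignsCheckF5A
import Vale.Agent.P100.Calib.SlabAllSignsCheckF5B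
import Vale.Agent.P100.Calib.SlabAllSignsCheckF6A
import Vale.Agent.P100.Calib.SlabAllSignsCheckF6B
import Vale.Agent.P100.Calib.SlabAllSignsCheckF7A
import Vale.Agent.P100.Calib.SlabAllSignsCheckF7B
import Vale.Agent.P100.Calib.SlabAllSignsCheckF8A
import Vale.Agent.P100.Calib.SlabAllSignsCheckF8B
import Vale.Agent.P100.Calib.SlabAllSignsCheckF9A
import Vale.Agent.P100.Calib.SlabAllSignsCheckF9B
import Vale.Agent.P100.Calib.SlabAllSignsCheckN0
import Vale.Agent.P100.Calib.SlabAllSignsCheckN1
import Vale.Agent.P100.Calib.SlabAllSignsCheckN10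
import Vale.Agent.P100.Calib.SlabAllSignsCheckN11
import Vale.Agent.P100.Calib.SlabAllSignsCheckN12
import Vale.Agent.P100.Calib.SlabAllSignsCheckN2
import Vale.Agent.P100.Calib.SlabAllSignsCheckN3
import Vale.Agent.P100.Calib.SlabAllSignsCheckN4
import Vale.Agent.P100.Calib.SlabAllSignsCheckN5
import Vale.Agent.P100.Calib.SlabAllSignsCheckN6
import Vale.Agent.P100.Calib.SlabAllSignsCheckN7
import Vale.Agent.P100.Calib.SlabAllSignsCheckN8
import Vale.Agent.P100.Calib.SlabAllSignsCheckN9
import Vale.Agent.P100.Calib.SlabAllSignsCheckT0A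
import Vale.Agent.P100.Calib.SlabAllSignsCheckT0B
import Vale.Agent.P100.Calib.SlabAllSignsCheckT10A
import Vale.Agent.P100.Calib.SlabAllSignsCheckT10B
import Vale.Agent.P100.Calib.SlabAllSignsCheckT11A
import Vale.Agent.P100.Calib.SlabAllSignsCheckT11B
import Vale.Agent.P100.Calib.SlabAllSignsCheckT12A
import Vale.Agent.P100.Calib.SlabAllSignsCheckT12B
import Vale.Agent.P100.Calib.SlabAllSignsCheckT1A
import Vale.Agent.P100.Calib.SlabAllSignsCheckT1B
import Vale.Agent.P100.Calib.SlabAllSignsCheckT2A
import Vale.Agent.P100.Calib.SlabAllSignsCheckT2B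
import Vale.Agent.P100.Calib.SlabAllSignsCheckT3A
import Vale.Agent.P100.Calib.SlabAllSignsCheckT3B
import Vale.Agent.P100.Calib.SlabAllSignsCheckT4A
import Vale.Agent.P100.Calib.SlabAllSignsCheckT4B
import Vale.Agent.P100.Calib.SlabAllSignsCheckT5A
import Vale.Agent.P100.Calib.SlabAllSignsCheckT5B
import Vale.Agent.P100.Calib.SlabAllSignsCheckT6A
import Vale.Agent.P100.Calib.SlabAllSignsCheckT6B
import Vale.Agent.P100.Calib.SlabAllSignsCheckT7A
import Vale.Agent.P100.Calib.SlabAllSignsCheckT7B
import Vale.Agent.P100.Calib.SlabAllSignsCheckT8A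
import Vale.Agent.P100.Calib.SlabAllSignsCheckT8B
import Vale.Agent.P100.Calib.SlabAllSignsCheckT9A
import Vale.Agent.P100.Calib.SlabAllSignsCheckT9B

/-!
# The pieces of the certificate hold on their boxes
-/

set_option linter.unusedVariables false

namespace Vale.Agent.P100.Calib.Closed.All.Low

/-- The point is in the closed box of four charts. -/
def PtR.In (o : PtR) (C : ℕ → Pack.Chart) : Prop := ∀ i < 4, InChart (C i) (o.x i)

/-- The bounds of a box. -/
def InRange (C : Pack.Chart) (x : ℝ) : Prop := (C.a : ℝ) ≤ x * C.c ∧ x * C.c ≤ C.b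

theorem PtR.In.bounds {o : PtR} {C : ℕ → Pack.Chart} (h : o.In C) :
    ((C 0).a ≤ o.u * (C 0).c ∧ o.u * (C 0).c ≤ (C 0).b) ∧
      ((C 1).a ≤ o.X * (C 1).c ∧ o.X * (C 1).c ≤ (C 1).b) ∧
      ((C 2).a ≤ o.a * (C 2).c ∧ o.a * (C 2).c ≤ (C 2).b) ∧
      ((C 3).a ≤ o.I * (C 3).c ∧ o.I * (C 3).c ≤ (C 3).b) :=
  ⟨(h 0 (by norm_num)).2.2.2, (h 1 (by norm_num)).2.2.2, (h 2 (by norm_num)).2.2.2,
    (h 3 (by norm_num)).2.2.2⟩

theorem PtR.In.of_bounds {o : PtR} {C : ℕ → Pack.Chart} (h₀ : InChart (C 0) o.u)
    (h₁ : InChart (C 1) o.X) (h₂ : InChart (C 2) o.a) (h₃ : InChart (C 3) o.I) : o.In C := by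
  intro i hi
  interval_cases i <;> assumption

/-- The split check. -/
theorem c0_side_rF_all {o : PtR} (m : o.In box0) :
    0 ≤ (piece0.side .rF).val o.x := by
  obtain ⟨hu, hX, ha, hI⟩ := m.bounds
  simp only [box0] at hu hX ha hI
  norm_num at hu hX ha hI
  rcases le_total o.X (9 / 8 : ℝ) with h10 | h10
  ·
    refine QEx.nonneg_on_box c0_side_rF_0 (PtR.In.of_bounds ?_ ?_ ?_ ?_) <;>
      simp only [box0_0, InChart] <;> norm_num <;> (try constructor) <;> linarith
  ·
    refine QEx.nonneg_on_box c0_side_rF_1 (PtR.In.of_bounds ?_ ?_ ?_ ?_) <;>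
      simp only [box0_1, InChart] <;> norm_num <;> (try constructor) <;> linarith

/-- The piece 0 holds on its box. -/
theorem piece0_holds {o : PtR} (m : o.In box0) : piece0.AllHold bandLow o where
  forms :=
    { forms := fun q h k =>
        match q, h, k with
        | .g, false, .lo => QEx.nonneg_on_box c0_g_false_lo m
        | .g, false, .hi => QEx.nonneg_on_box c0_g_false_hi m
        | .g, false, .mid => QEx.nonneg_on_box c0_g_false_mid m
        | .g, true, .lo => QEx.nonneg_on_box c0_g_true_lo m
        | .g, true, .hi => QEx.nonneg_on_box c0_g_true_hi m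
        | .g, true, .mid => QEx.nonneg_on_box c0_g_true_mid m
        | .n, false, .lo => QEx.nonneg_on_box c0_n_false_lo m
        | .n, false, .hi => QEx.nonneg_on_box c0_n_false_hi m
        | .n, false, .mid => QEx.nonneg_on_box c0_n_false_mid m
        | .n, true, .lo => QEx.nonneg_on_box c0_n_true_lo m
        | .n, true, .hi => QEx.nonneg_on_box c0_n_true_hi m
        | .n, true, .mid => QEx.nonneg_on_box c0_n_true_mid m
        | .tlo, false, .lo => QEx.nonneg_on_box c0_tlo_false_lo m
        | .tlo, false, .hi => QEx.nonneg_on_box c0_tlo_false_hi m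
        | .tlo, false, .mid => QEx.nonneg_on_box c0_tlo_false_mid m
        | .tlo, true, .lo => QEx.nonneg_on_box c0_tlo_true_lo m
        | .tlo, true, .hi => QEx.nonneg_on_box c0_tlo_true_hi m
        | .tlo, true, .mid => QEx.nonneg_on_box c0_tlo_true_mid m
        | .thi, false, .lo => QEx.nonneg_on_box c0_thi_false_lo m
        | .thi, false, .hi => QEx.nonneg_on_box c0_thi_false_hi m
        | .thi, false, .mid => QEx.nonneg_on_box c0_thi_false_mid m
        | .thi, true, .lo => QEx.nonneg_on_box c0_thi_true_lo m
        | .thi, true, .hi => QEx.nonneg_on_box c0_thi_true_hi m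
        | .thi, true, .mid => QEx.nonneg_on_box c0_thi_true_mid m
        | .mlo, false, .lo => QEx.nonneg_on_box c0_mlo_false_lo m
        | .mlo, false, .hi => QEx.nonneg_on_box c0_mlo_false_hi m
        | .mlo, false, .mid => QEx.nonneg_on_box c0_mlo_false_mid m
        | .mlo, true, .lo => QEx.nonneg_on_box c0_mlo_false_lo m
        | .mlo, true, .hi => QEx.nonneg_on_box c0_mlo_false_hi m
        | .mlo, true, .mid => QEx.nonneg_on_box c0_mlo_false_mid m
        | .mhi, false, .lo => QEx.nonneg_on_box c0_mhi_false_lo m
        | .mhi, false, .hi => QEx.nonneg_on_box c0_mhi_false_hi m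
        | .mhi, false, .mid => QEx.nonneg_on_box c0_mhi_false_mid m
        | .mhi, true, .lo => QEx.nonneg_on_box c0_mhi_false_lo m
        | .mhi, true, .hi => QEx.nonneg_on_box c0_mhi_false_hi m
        | .mhi, true, .mid => QEx.nonneg_on_box c0_mhi_false_mid m
        | .f, false, .lo => QEx.nonneg_on_box c0_f_false_lo m
        | .f, false, .hi => QEx.nonneg_on_box c0_f_false_hi m
        | .f, false, .mid => QEx.nonneg_on_box c0_f_false_mid m
        | .f, true, .lo => QEx.nonneg_on_box c0_f_true_lo m
        | .f, true, .hi => QEx.nonneg_on_box c0_f_true_hi m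
        | .f, true, .mid => QEx.nonneg_on_box c0_f_true_mid m
      side := fun e =>
        match e with
        | .rA => QEx.nonneg_on_box c0_side_rA m
        | .rB => QEx.nonneg_on_box c0_side_rB m
        | .rF => c0_side_rF_all m
        | .q => QEx.nonneg_on_box c0_side_q m
        | .om => QEx.nonneg_on_box c0_side_om m
      nums := by decide }
  env :=
    { lo := fun e =>
        match e with
        | .piL => QEx.nonneg_on_box c0_piL_lo m
        | .piU => QEx.nonneg_on_box c0_piU_lo m
        | .omL => QEx.nonneg_on_box c0_omL_lo m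
        | .omU => QEx.nonneg_on_box c0_omU_lo m
        | .tauL => QEx.nonneg_on_box c0_tauL_lo m
        | .tauU => QEx.nonneg_on_box c0_tauU_lo m
      hi := fun e =>
        match e with
        | .piL => QEx.nonneg_on_box c0_piL_hi m
        | .piU => QEx.nonneg_on_box c0_piU_hi m
        | .omL => QEx.nonneg_on_box c0_omL_hi m
        | .omU => QEx.nonneg_on_box c0_omU_hi m
        | .tauL => QEx.nonneg_on_box c0_tauL_hi m
        | .tauU => QEx.nonneg_on_box c0_tauU_hi m
      wid := QEx.nonneg_on_box c0_wid m }
  rayLo := QEx.nonneg_on_box c0_llg_lo m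
  rayHi := QEx.nonneg_on_box c0_llg_hi m

/-- The split check. -/
theorem c1_side_rF_all {o : PtR} (m : o.In box1) :
    0 ≤ (piece1.side .rF).val o.x := by
  obtain ⟨hu, hX, ha, hI⟩ := m.bounds
  simp only [box1] at hu hX ha hI
  norm_num at hu hX ha hI
  rcases le_total o.X (57 / 50 : ℝ) with h10 | h10
  ·
    refine QEx.nonneg_on_box c1_side_rF_0 (PtR.In.of_bounds ?_ ?_ ?_ ?_) <;>
      simp only [box1_0, InChart] <;> norm_num <;> (try constructor) <;> linarith
  ·
    refine QEx.nonneg_on_box c1_side_rF_1 (PtR.In.of_bounds ?_ ?_ ?_ ?_) <;>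
      simp only [box1_1, InChart] <;> norm_num <;> (try constructor) <;> linarith

/-- The piece 1 holds on its box. -/
theorem piece1_holds {o : PtR} (m : o.In box1) : piece1.AllHold bandLow o where
  forms :=
    { forms := fun q h k =>
        match q, h, k with
        | .g, false, .lo => QEx.nonneg_on_box c1_g_false_lo m
        | .g, false, .hi => QEx.nonneg_on_box c1_g_false_hi m
        | .g, false, .mid => QEx.nonneg_on_box c1_g_false_mid m
        | .g, true, .lo => QEx.nonneg_on_box c1_g_true_lo m
        | .g, true, .hi => QEx.nonneg_on_box c1_g_true_hi m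
        | .g, true, .mid => QEx.nonneg_on_box c1_g_true_mid m
        | .n, false, .lo => QEx.nonneg_on_box c1_n_false_lo m
        | .n, false, .hi => QEx.nonneg_on_box c1_n_false_hi m
        | .n, false, .mid => QEx.nonneg_on_box c1_n_false_mid m
        | .n, true, .lo => QEx.nonneg_on_box c1_n_true_lo m
        | .n, true, .hi => QEx.nonneg_on_box c1_n_true_hi m
        | .n, true, .mid => QEx.nonneg_on_box c1_n_true_mid m
        | .tlo, false, .lo => QEx.nonneg_on_box c1_tlo_false_lo m
        | .tlo, false, .hi => QEx.nonneg_on_box c1_tlo_false_hi m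
        | .tlo, false, .mid => QEx.nonneg_on_box c1_tlo_false_mid m
        | .tlo, true, .lo => QEx.nonneg_on_box c1_tlo_true_lo m
        | .tlo, true, .hi => QEx.nonneg_on_box c1_tlo_true_hi m
        | .tlo, true, .mid => QEx.nonneg_on_box c1_tlo_true_mid m
        | .thi, false, .lo => QEx.nonneg_on_box c1_thi_false_lo m
        | .thi, false, .hi => QEx.nonneg_on_box c1_thi_false_hi m
        | .thi, false, .mid => QEx.nonneg_on_box c1_thi_false_mid m
        | .thi, true, .lo => QEx.nonneg_on_box c1_thi_true_lo m
        | .thi, true, .hi => QEx.nonneg_on_box c1_thi_true_hi m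
        | .thi, true, .mid => QEx.nonneg_on_box c1_thi_true_mid m
        | .mlo, false, .lo => QEx.nonneg_on_box c1_mlo_false_lo m
        | .mlo, false, .hi => QEx.nonneg_on_box c1_mlo_false_hi m
        | .mlo, false, .mid => QEx.nonneg_on_box c1_mlo_false_mid m
        | .mlo, true, .lo => QEx.nonneg_on_box c1_mlo_false_lo m
        | .mlo, true, .hi => QEx.nonneg_on_box c1_mlo_false_hi m
        | .mlo, true, .mid => QEx.nonneg_on_box c1_mlo_false_mid m
        | .mhi, false, .lo => QEx.nonneg_on_box c1_mhi_false_lo m
        | .mhi, false, .hi => QEx.nonneg_on_box c1_mhi_false_hi m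
        | .mhi, false, .mid => QEx.nonneg_on_box c1_mhi_false_mid m
        | .mhi, true, .lo => QEx.nonneg_on_box c1_mhi_false_lo m
        | .mhi, true, .hi => QEx.nonneg_on_box c1_mhi_false_hi m
        | .mhi, true, .mid => QEx.nonneg_on_box c1_mhi_false_mid m
        | .f, false, .lo => QEx.nonneg_on_box c1_f_false_lo m
        | .f, false, .hi => QEx.nonneg_on_box c1_f_false_hi m
        | .f, false, .mid => QEx.nonneg_on_box c1_f_false_mid m
        | .f, true, .lo => QEx.nonneg_on_box c1_f_true_lo m
        | .f, true, .hi => QEx.nonneg_on_box c1_f_true_hi m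
        | .f, true, .mid => QEx.nonneg_on_box c1_f_true_mid m
      side := fun e =>
        match e with
        | .rA => QEx.nonneg_on_box c1_side_rA m
        | .rB => QEx.nonneg_on_box c1_side_rB m
        | .rF => c1_side_rF_all m
        | .q => QEx.nonneg_on_box c1_side_q m
        | .om => QEx.nonneg_on_box c1_side_om m
      nums := by decide }
  env :=
    { lo := fun e =>
        match e with
        | .piL => QEx.nonneg_on_box c1_piL_lo m
        | .piU => QEx.nonneg_on_box c1_piU_lo m
        | .omL => QEx.nonneg_on_box c1_omL_lo m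
        | .omU => QEx.nonneg_on_box c1_omU_lo m
        | .tauL => QEx.nonneg_on_box c1_tauL_lo m
        | .tauU => QEx.nonneg_on_box c1_tauU_lo m
      hi := fun e =>
        match e with
        | .piL => QEx.nonneg_on_box c1_piL_hi m
        | .piU => QEx.nonneg_on_box c1_piU_hi m
        | .omL => QEx.nonneg_on_box c1_omL_hi m
        | .omU => QEx.nonneg_on_box c1_omU_hi m
        | .tauL => QEx.nonneg_on_box c1_tauL_hi m
        | .tauU => QEx.nonneg_on_box c1_tauU_hi m
      wid := QEx.nonneg_on_box c1_wid m }
  rayLo := QEx.nonneg_on_box c1_llg_lo m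
  rayHi := QEx.nonneg_on_box c1_llg_hi m

/-- The split check. -/
theorem c2_side_rF_all {o : PtR} (m : o.In box2) :
    0 ≤ (piece2.side .rF).val o.x := by
  obtain ⟨hu, hX, ha, hI⟩ := m.bounds
  simp only [box2] at hu hX ha hI
  norm_num at hu hX ha hI
  rcases le_total o.u (3 / 40 : ℝ) with h00 | h00
  ·
    rcases le_total o.X (53 / 50 : ℝ) with h10 | h10
    ·
      refine QEx.nonneg_on_box c2_side_rF_0 (PtR.In.of_bounds ?_ ?_ ?_ ?_) <;>
        simp only [box2_0, InChart] <;> norm_num <;> (try constructor) <;> linarith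
    ·
      rcases le_total o.X (57 / 50 : ℝ) with h11 | h11
      ·
        refine QEx.nonneg_on_box c2_side_rF_1 (PtR.In.of_bounds ?_ ?_ ?_ ?_) <;>
          simp only [box2_1, InChart] <;> norm_num <;> (try constructor) <;> linarith
      ·
        rcases le_total o.X (61 / 50 : ℝ) with h12 | h12
        ·
          refine QEx.nonneg_on_box c2_side_rF_2 (PtR.In.of_bounds ?_ ?_ ?_ ?_) <;>
            simp only [box2_2, InChart] <;> norm_num <;> (try constructor) <;> linarith
        ·
          refine QEx.nonneg_on_box c2_side_rF_3 (PtR.In.of_bounds ?_ ?_ ?_ ?_) <;>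
            simp only [box2_3, InChart] <;> norm_num <;> (try constructor) <;> linarith
  ·
    rcases le_total o.X (53 / 50 : ℝ) with h10 | h10
    ·
      refine QEx.nonneg_on_box c2_side_rF_4 (PtR.In.of_bounds ?_ ?_ ?_ ?_) <;>
        simp only [box2_4, InChart] <;> norm_num <;> (try constructor) <;> linarith
    ·
      rcases le_total o.X (57 / 50 : ℝ) with h11 | h11
      ·
        refine QEx.nonneg_on_box c2_side_rF_5 (PtR.In.of_bounds ?_ ?_ ?_ ?_) <;>
          simp only [box2_5, InChart] <;> norm_num <;> (try constructor) <;> linarith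
      ·
        rcases le_total o.X (61 / 50 : ℝ) with h12 | h12
        ·
          refine QEx.nonneg_on_box c2_side_rF_6 (PtR.In.of_bounds ?_ ?_ ?_ ?_) <;>
            simp only [box2_6, InChart] <;> norm_num <;> (try constructor) <;> linarith
        ·
          refine QEx.nonneg_on_box c2_side_rF_7 (PtR.In.of_bounds ?_ ?_ ?_ ?_) <;>
            simp only [box2_7, InChart] <;> norm_num <;> (try constructor) <;> linarith

/-- The piece 2 holds on its box. -/
theorem piece2_holds {o : PtR} (m : o.In box2) : piece2.AllHold bandLow o where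
  forms :=
    { forms := fun q h k =>
        match q, h, k with
        | .g, false, .lo => QEx.nonneg_on_box c2_g_false_lo m
        | .g, false, .hi => QEx.nonneg_on_box c2_g_false_hi m
        | .g, false, .mid => QEx.nonneg_on_box c2_g_false_mid m
        | .g, true, .lo => QEx.nonneg_on_box c2_g_true_lo m
        | .g, true, .hi => QEx.nonneg_on_box c2_g_true_hi m
        | .g, true, .mid => QEx.nonneg_on_box c2_g_true_mid m
        | .n, false, .lo => QEx.nonneg_on_box c2_n_false_lo m
        | .n, false, .hi => QEx.nonneg_on_box c2_n_false_hi m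
        | .n, false, .mid => QEx.nonneg_on_box c2_n_false_mid m
        | .n, true, .lo => QEx.nonneg_on_box c2_n_true_lo m
        | .n, true, .hi => QEx.nonneg_on_box c2_n_true_hi m
        | .n, true, .mid => QEx.nonneg_on_box c2_n_true_mid m
        | .tlo, false, .lo => QEx.nonneg_on_box c2_tlo_false_lo m
        | .tlo, false, .hi => QEx.nonneg_on_box c2_tlo_false_hi m
        | .tlo, false, .mid => QEx.nonneg_on_box c2_tlo_false_mid m
        | .tlo, true, .lo => QEx.nonneg_on_box c2_tlo_true_lo m
        | .tlo, true, .hi => QEx.nonneg_on_box c2_tlo_true_hi m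
        | .tlo, true, .mid => QEx.nonneg_on_box c2_tlo_true_mid m
        | .thi, false, .lo => QEx.nonneg_on_box c2_thi_false_lo m
        | .thi, false, .hi => QEx.nonneg_on_box c2_thi_false_hi m
        | .thi, false, .mid => QEx.nonneg_on_box c2_thi_false_mid m
        | .thi, true, .lo => QEx.nonneg_on_box c2_thi_true_lo m
        | .thi, true, .hi => QEx.nonneg_on_box c2_thi_true_hi m
        | .thi, true, .mid => QEx.nonneg_on_box c2_thi_true_mid m
        | .mlo, false, .lo => QEx.nonneg_on_box c2_mlo_false_lo m
        | .mlo, false, .hi => QEx.nonneg_on_box c2_mlo_false_hi m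
        | .mlo, false, .mid => QEx.nonneg_on_box c2_mlo_false_mid m
        | .mlo, true, .lo => QEx.nonneg_on_box c2_mlo_false_lo m
        | .mlo, true, .hi => QEx.nonneg_on_box c2_mlo_false_hi m
        | .mlo, true, .mid => QEx.nonneg_on_box c2_mlo_false_mid m
        | .mhi, false, .lo => QEx.nonneg_on_box c2_mhi_false_lo m
        | .mhi, false, .hi => QEx.nonneg_on_box c2_mhi_false_hi m
        | .mhi, false, .mid => QEx.nonneg_on_box c2_mhi_false_mid m
        | .mhi, true, .lo => QEx.nonneg_on_box c2_mhi_false_lo m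
        | .mhi, true, .hi => QEx.nonneg_on_box c2_mhi_false_hi m
        | .mhi, true, .mid => QEx.nonneg_on_box c2_mhi_false_mid m
        | .f, false, .lo => QEx.nonneg_on_box c2_f_false_lo m
        | .f, false, .hi => QEx.nonneg_on_box c2_f_false_hi m
        | .f, false, .mid => QEx.nonneg_on_box c2_f_false_mid m
        | .f, true, .lo => QEx.nonneg_on_box c2_f_true_lo m
        | .f, true, .hi => QEx.nonneg_on_box c2_f_true_hi m
        | .f, true, .mid => QEx.nonneg_on_box c2_f_true_mid m
      side := fun e =>
        match e with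
        | .rA => QEx.nonneg_on_box c2_side_rA m
        | .rB => QEx.nonneg_on_box c2_side_rB m
        | .rF => c2_side_rF_all m
        | .q => QEx.nonneg_on_box c2_side_q m
        | .om => QEx.nonneg_on_box c2_side_om m
      nums := by decide }
  env :=
    { lo := fun e =>
        match e with
        | .piL => QEx.nonneg_on_box c2_piL_lo m
        | .piU => QEx.nonneg_on_box c2_piU_lo m
        | .omL => QEx.nonneg_on_box c2_omL_lo m
        | .omU => QEx.nonneg_on_box c2_omU_lo m
        | .tauL => QEx.nonneg_on_box c2_tauL_lo m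
        | .tauU => QEx.nonneg_on_box c2_tauU_lo m
      hi := fun e =>
        match e with
        | .piL => QEx.nonneg_on_box c2_piL_hi m
        | .piU => QEx.nonneg_on_box c2_piU_hi m
        | .omL => QEx.nonneg_on_box c2_omL_hi m
        | .omU => QEx.nonneg_on_box c2_omU_hi m
        | .tauL => QEx.nonneg_on_box c2_tauL_hi m
        | .tauU => QEx.nonneg_on_box c2_tauU_hi m
      wid := QEx.nonneg_on_box c2_wid m }
  rayLo := QEx.nonneg_on_box c2_llg_lo m
  rayHi := QEx.nonneg_on_box c2_llg_hi m

/-- The split check. -/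
theorem c3_side_rF_all {o : PtR} (m : o.In box3) :
    0 ≤ (piece3.side .rF).val o.x := by
  obtain ⟨hu, hX, ha, hI⟩ := m.bounds
  simp only [box3] at hu hX ha hI
  norm_num at hu hX ha hI
  rcases le_total o.u (3 / 16 : ℝ) with h00 | h00
  ·
    rcases le_total o.X (107 / 100 : ℝ) with h10 | h10
    ·
      refine QEx.nonneg_on_box c3_side_rF_0 (PtR.In.of_bounds ?_ ?_ ?_ ?_) <;>
        simp only [box3_0, InChart] <;> norm_num <;> (try constructor) <;> linarith
    ·
      rcases le_total o.X (29 / 25 : ℝ) with h11 | h11
      ·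
        refine QEx.nonneg_on_box c3_side_rF_1 (PtR.In.of_bounds ?_ ?_ ?_ ?_) <;>
          simp only [box3_1, InChart] <;> norm_num <;> (try constructor) <;> linarith
      ·
        rcases le_total o.X (5 / 4 : ℝ) with h12 | h12
        ·
          refine QEx.nonneg_on_box c3_side_rF_2 (PtR.In.of_bounds ?_ ?_ ?_ ?_) <;>
            simp only [box3_2, InChart] <;> norm_num <;> (try constructor) <;> linarith
        ·
          refine QEx.nonneg_on_box c3_side_rF_3 (PtR.In.of_bounds ?_ ?_ ?_ ?_) <;>
            simp only [box3_3, InChart] <;> norm_num <;> (try constructor) <;> linarith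
  ·
    rcases le_total o.X (107 / 100 : ℝ) with h10 | h10
    ·
      refine QEx.nonneg_on_box c3_side_rF_4 (PtR.In.of_bounds ?_ ?_ ?_ ?_) <;>
        simp only [box3_4, InChart] <;> norm_num <;> (try constructor) <;> linarith
    ·
      rcases le_total o.X (29 / 25 : ℝ) with h11 | h11
      ·
        refine QEx.nonneg_on_box c3_side_rF_5 (PtR.In.of_bounds ?_ ?_ ?_ ?_) <;>
          simp only [box3_5, InChart] <;> norm_num <;> (try constructor) <;> linarith
      ·
        rcases le_total o.X (5 / 4 : ℝ) with h12 | h12
        ·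
          refine QEx.nonneg_on_box c3_side_rF_6 (PtR.In.of_bounds ?_ ?_ ?_ ?_) <;>
            simp only [box3_6, InChart] <;> norm_num <;> (try constructor) <;> linarith
        ·
          refine QEx.nonneg_on_box c3_side_rF_7 (PtR.In.of_bounds ?_ ?_ ?_ ?_) <;>
            simp only [box3_7, InChart] <;> norm_num <;> (try constructor) <;> linarith

/-- The piece 3 holds on its box. -/
theorem piece3_holds {o : PtR} (m : o.In box3) : piece3.AllHold bandLow o where
  forms :=
    { forms := fun q h k =>
        match q, h, k with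
        | .g, false, .lo => QEx.nonneg_on_box c3_g_false_lo m
        | .g, false, .hi => QEx.nonneg_on_box c3_g_false_hi m
        | .g, false, .mid => QEx.nonneg_on_box c3_g_false_mid m
        | .g, true, .lo => QEx.nonneg_on_box c3_g_true_lo m
        | .g, true, .hi => QEx.nonneg_on_box c3_g_true_hi m
        | .g, true, .mid => QEx.nonneg_on_box c3_g_true_mid m
        | .n, false, .lo => QEx.nonneg_on_box c3_n_false_lo m
        | .n, false, .hi => QEx.nonneg_on_box c3_n_false_hi m
        | .n, false, .mid => QEx.nonneg_on_box c3_n_false_mid m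
        | .n, true, .lo => QEx.nonneg_on_box c3_n_true_lo m
        | .n, true, .hi => QEx.nonneg_on_box c3_n_true_hi m
        | .n, true, .mid => QEx.nonneg_on_box c3_n_true_mid m
        | .tlo, false, .lo => QEx.nonneg_on_box c3_tlo_false_lo m
        | .tlo, false, .hi => QEx.nonneg_on_box c3_tlo_false_hi m
        | .tlo, false, .mid => QEx.nonneg_on_box c3_tlo_false_mid m
        | .tlo, true, .lo => QEx.nonneg_on_box c3_tlo_true_lo m
        | .tlo, true, .hi => QEx.nonneg_on_box c3_tlo_true_hi m
        | .tlo, true, .mid => QEx.nonneg_on_box c3_tlo_true_mid m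
        | .thi, false, .lo => QEx.nonneg_on_box c3_thi_false_lo m
        | .thi, false, .hi => QEx.nonneg_on_box c3_thi_false_hi m
        | .thi, false, .mid => QEx.nonneg_on_box c3_thi_false_mid m
        | .thi, true, .lo => QEx.nonneg_on_box c3_thi_true_lo m
        | .thi, true, .hi => QEx.nonneg_on_box c3_thi_true_hi m
        | .thi, true, .mid => QEx.nonneg_on_box c3_thi_true_mid m
        | .mlo, false, .lo => QEx.nonneg_on_box c3_mlo_false_lo m
        | .mlo, false, .hi => QEx.nonneg_on_box c3_mlo_false_hi m
        | .mlo, false, .mid => QEx.nonneg_on_box c3_mlo_false_mid m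
        | .mlo, true, .lo => QEx.nonneg_on_box c3_mlo_false_lo m
        | .mlo, true, .hi => QEx.nonneg_on_box c3_mlo_false_hi m
        | .mlo, true, .mid => QEx.nonneg_on_box c3_mlo_false_mid m
        | .mhi, false, .lo => QEx.nonneg_on_box c3_mhi_false_lo m
        | .mhi, false, .hi => QEx.nonneg_on_box c3_mhi_false_hi m
        | .mhi, false, .mid => QEx.nonneg_on_box c3_mhi_false_mid m
        | .mhi, true, .lo => QEx.nonneg_on_box c3_mhi_false_lo m
        | .mhi, true, .hi => QEx.nonneg_on_box c3_mhi_false_hi m
        | .mhi, true, .mid => QEx.nonneg_on_box c3_mhi_false_mid m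
        | .f, false, .lo => QEx.nonneg_on_box c3_f_false_lo m
        | .f, false, .hi => QEx.nonneg_on_box c3_f_false_hi m
        | .f, false, .mid => QEx.nonneg_on_box c3_f_false_mid m
        | .f, true, .lo => QEx.nonneg_on_box c3_f_true_lo m
        | .f, true, .hi => QEx.nonneg_on_box c3_f_true_hi m
        | .f, true, .mid => QEx.nonneg_on_box c3_f_true_mid m
      side := fun e =>
        match e with
        | .rA => QEx.nonneg_on_box c3_side_rA m
        | .rB => QEx.nonneg_on_box c3_side_rB m
        | .rF => c3_side_rF_all m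
        | .q => QEx.nonneg_on_box c3_side_q m
        | .om => QEx.nonneg_on_box c3_side_om m
      nums := by decide }
  env :=
    { lo := fun e =>
        match e with
        | .piL => QEx.nonneg_on_box c3_piL_lo m
        | .piU => QEx.nonneg_on_box c3_piU_lo m
        | .omL => QEx.nonneg_on_box c3_omL_lo m
        | .omU => QEx.nonneg_on_box c3_omU_lo m
        | .tauL => QEx.nonneg_on_box c3_tauL_lo m
        | .tauU => QEx.nonneg_on_box c3_tauU_lo m
      hi := fun e =>
        match e with
        | .piL => QEx.nonneg_on_box c3_piL_hi m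
        | .piU => QEx.nonneg_on_box c3_piU_hi m
        | .omL => QEx.nonneg_on_box c3_omL_hi m
        | .omU => QEx.nonneg_on_box c3_omU_hi m
        | .tauL => QEx.nonneg_on_box c3_tauL_hi m
        | .tauU => QEx.nonneg_on_box c3_tauU_hi m
      wid := QEx.nonneg_on_box c3_wid m }
  rayLo := QEx.nonneg_on_box c3_llg_lo m
  rayHi := QEx.nonneg_on_box c3_llg_hi m

/-- The split check. -/
theorem c4_tauL_lo_all {o : PtR} (m : o.In box4) :
    0 ≤ (piece4.env bandLow.lo bandLow.hi bandLow.pole .tauL).val o.x := by
  obtain ⟨hu, hX, ha, hI⟩ := m.bounds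
  simp only [box4] at hu hX ha hI
  norm_num at hu hX ha hI
  rcases le_total o.a (47 / 200 : ℝ) with h20 | h20
  ·
    refine QEx.nonneg_on_box c4_tauL_lo_0 (PtR.In.of_bounds ?_ ?_ ?_ ?_) <;>
      simp only [box4_0, InChart] <;> norm_num <;> (try constructor) <;> linarith
  ·
    refine QEx.nonneg_on_box c4_tauL_lo_1 (PtR.In.of_bounds ?_ ?_ ?_ ?_) <;>
      simp only [box4_1, InChart] <;> norm_num <;> (try constructor) <;> linarith

/-- The split check. -/
theorem c4_tauL_hi_all {o : PtR} (m : o.In box4) :
    0 ≤ (piece4.env bandLow.hi bandLow.hi bandLow.pole .tauL).val o.x := by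
  obtain ⟨hu, hX, ha, hI⟩ := m.bounds
  simp only [box4] at hu hX ha hI
  norm_num at hu hX ha hI
  rcases le_total o.a (47 / 200 : ℝ) with h20 | h20
  ·
    refine QEx.nonneg_on_box c4_tauL_hi_0 (PtR.In.of_bounds ?_ ?_ ?_ ?_) <;>
      simp only [box4_0, InChart] <;> norm_num <;> (try constructor) <;> linarith
  ·
    refine QEx.nonneg_on_box c4_tauL_hi_1 (PtR.In.of_bounds ?_ ?_ ?_ ?_) <;>
      simp only [box4_1, InChart] <;> norm_num <;> (try constructor) <;> linarith

/-- The piece 4 holds on its box. -/
theorem piece4_holds {o : PtR} (m : o.In box4) : piece4.AllHold bandLow o where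
  forms :=
    { forms := fun q h k =>
        match q, h, k with
        | .g, false, .lo => QEx.nonneg_on_box c4_g_false_lo m
        | .g, false, .hi => QEx.nonneg_on_box c4_g_false_hi m
        | .g, false, .mid => QEx.nonneg_on_box c4_g_false_mid m
        | .g, true, .lo => QEx.nonneg_on_box c4_g_true_lo m
        | .g, true, .hi => QEx.nonneg_on_box c4_g_true_hi m
        | .g, true, .mid => QEx.nonneg_on_box c4_g_true_mid m
        | .n, false, .lo => QEx.nonneg_on_box c4_n_false_lo m
        | .n, false, .hi => QEx.nonneg_on_box c4_n_false_hi m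
        | .n, false, .mid => QEx.nonneg_on_box c4_n_false_mid m
        | .n, true, .lo => QEx.nonneg_on_box c4_n_true_lo m
        | .n, true, .hi => QEx.nonneg_on_box c4_n_true_hi m
        | .n, true, .mid => QEx.nonneg_on_box c4_n_true_mid m
        | .tlo, false, .lo => QEx.nonneg_on_box c4_tlo_false_lo m
        | .tlo, false, .hi => QEx.nonneg_on_box c4_tlo_false_hi m
        | .tlo, false, .mid => QEx.nonneg_on_box c4_tlo_false_mid m
        | .tlo, true, .lo => QEx.nonneg_on_box c4_tlo_true_lo m
        | .tlo, true, .hi => QEx.nonneg_on_box c4_tlo_true_hi m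
        | .tlo, true, .mid => QEx.nonneg_on_box c4_tlo_true_mid m
        | .thi, false, .lo => QEx.nonneg_on_box c4_thi_false_lo m
        | .thi, false, .hi => QEx.nonneg_on_box c4_thi_false_hi m
        | .thi, false, .mid => QEx.nonneg_on_box c4_thi_false_mid m
        | .thi, true, .lo => QEx.nonneg_on_box c4_thi_true_lo m
        | .thi, true, .hi => QEx.nonneg_on_box c4_thi_true_hi m
        | .thi, true, .mid => QEx.nonneg_on_box c4_thi_true_mid m
        | .mlo, false, .lo => QEx.nonneg_on_box c4_mlo_false_lo m
        | .mlo, false, .hi => QEx.nonneg_on_box c4_mlo_false_hi m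
        | .mlo, false, .mid => QEx.nonneg_on_box c4_mlo_false_mid m
        | .mlo, true, .lo => QEx.nonneg_on_box c4_mlo_false_lo m
        | .mlo, true, .hi => QEx.nonneg_on_box c4_mlo_false_hi m
        | .mlo, true, .mid => QEx.nonneg_on_box c4_mlo_false_mid m
        | .mhi, false, .lo => QEx.nonneg_on_box c4_mhi_false_lo m
        | .mhi, false, .hi => QEx.nonneg_on_box c4_mhi_false_hi m
        | .mhi, false, .mid => QEx.nonneg_on_box c4_mhi_false_mid m
        | .mhi, true, .lo => QEx.nonneg_on_box c4_mhi_false_lo m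
        | .mhi, true, .hi => QEx.nonneg_on_box c4_mhi_false_hi m
        | .mhi, true, .mid => QEx.nonneg_on_box c4_mhi_false_mid m
        | .f, false, .lo => QEx.nonneg_on_box c4_f_false_lo m
        | .f, false, .hi => QEx.nonneg_on_box c4_f_false_hi m
        | .f, false, .mid => QEx.nonneg_on_box c4_f_false_mid m
        | .f, true, .lo => QEx.nonneg_on_box c4_f_true_lo m
        | .f, true, .hi => QEx.nonneg_on_box c4_f_true_hi m
        | .f, true, .mid => QEx.nonneg_on_box c4_f_true_mid m
      side := fun e =>
        match e with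
        | .rA => QEx.nonneg_on_box c4_side_rA m
        | .rB => QEx.nonneg_on_box c4_side_rB m
        | .rF => QEx.nonneg_on_box c4_side_rF m
        | .q => QEx.nonneg_on_box c4_side_q m
        | .om => QEx.nonneg_on_box c4_side_om m
      nums := by decide }
  env :=
    { lo := fun e =>
        match e with
        | .piL => QEx.nonneg_on_box c4_piL_lo m
        | .piU => QEx.nonneg_on_box c4_piU_lo m
        | .omL => QEx.nonneg_on_box c4_omL_lo m
        | .omU => QEx.nonneg_on_box c4_omU_lo m
        | .tauL => c4_tauL_lo_all m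
        | .tauU => QEx.nonneg_on_box c4_tauU_lo m
      hi := fun e =>
        match e with
        | .piL => QEx.nonneg_on_box c4_piL_hi m
        | .piU => QEx.nonneg_on_box c4_piU_hi m
        | .omL => QEx.nonneg_on_box c4_omL_hi m
        | .omU => QEx.nonneg_on_box c4_omU_hi m
        | .tauL => c4_tauL_hi_all m
        | .tauU => QEx.nonneg_on_box c4_tauU_hi m
      wid := QEx.nonneg_on_box c4_wid m }
  rayLo := QEx.nonneg_on_box c4_llg_lo m
  rayHi := QEx.nonneg_on_box c4_llg_hi m

/-- The split check. -/
theorem c5_omU_hi_all {o : PtR} (m : o.In box5) :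
    0 ≤ (piece5.env bandLow.hi bandLow.hi bandLow.pole .omU).val o.x := by
  obtain ⟨hu, hX, ha, hI⟩ := m.bounds
  simp only [box5] at hu hX ha hI
  norm_num at hu hX ha hI
  rcases le_total o.a (47 / 200 : ℝ) with h20 | h20
  ·
    rcases le_total o.I (1 / 40 : ℝ) with h30 | h30
    ·
      refine QEx.nonneg_on_box c5_omU_hi_0 (PtR.In.of_bounds ?_ ?_ ?_ ?_) <;>
        simp only [box5_0, InChart] <;> norm_num <;> (try constructor) <;> linarith
    ·
      refine QEx.nonneg_on_box c5_omU_hi_1 (PtR.In.of_bounds ?_ ?_ ?_ ?_) <;>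
        simp only [box5_1, InChart] <;> norm_num <;> (try constructor) <;> linarith
  ·
    rcases le_total o.I (1 / 40 : ℝ) with h30 | h30
    ·
      refine QEx.nonneg_on_box c5_omU_hi_2 (PtR.In.of_bounds ?_ ?_ ?_ ?_) <;>
        simp only [box5_2, InChart] <;> norm_num <;> (try constructor) <;> linarith
    ·
      refine QEx.nonneg_on_box c5_omU_hi_3 (PtR.In.of_bounds ?_ ?_ ?_ ?_) <;>
        simp only [box5_3, InChart] <;> norm_num <;> (try constructor) <;> linarith

/-- The split check. -/
theorem c5_tauL_lo_all {o : PtR} (m : o.In box5) :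
    0 ≤ (piece5.env bandLow.lo bandLow.hi bandLow.pole .tauL).val o.x := by
  obtain ⟨hu, hX, ha, hI⟩ := m.bounds
  simp only [box5] at hu hX ha hI
  norm_num at hu hX ha hI
  rcases le_total o.a (47 / 200 : ℝ) with h20 | h20
  ·
    refine QEx.nonneg_on_box c5_tauL_lo_0 (PtR.In.of_bounds ?_ ?_ ?_ ?_) <;>
      simp only [box5_4, InChart] <;> norm_num <;> (try constructor) <;> linarith
  ·
    refine QEx.nonneg_on_box c5_tauL_lo_1 (PtR.In.of_bounds ?_ ?_ ?_ ?_) <;>
      simp only [box5_5, InChart] <;> norm_num <;> (try constructor) <;> linarith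

/-- The split check. -/
theorem c5_tauL_hi_all {o : PtR} (m : o.In box5) :
    0 ≤ (piece5.env bandLow.hi bandLow.hi bandLow.pole .tauL).val o.x := by
  obtain ⟨hu, hX, ha, hI⟩ := m.bounds
  simp only [box5] at hu hX ha hI
  norm_num at hu hX ha hI
  rcases le_total o.a (47 / 200 : ℝ) with h20 | h20
  ·
    refine QEx.nonneg_on_box c5_tauL_hi_0 (PtR.In.of_bounds ?_ ?_ ?_ ?_) <;>
      simp only [box5_4, InChart] <;> norm_num <;> (try constructor) <;> linarith
  ·
    refine QEx.nonneg_on_box c5_tauL_hi_1 (PtR.In.of_bounds ?_ ?_ ?_ ?_) <;>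
      simp only [box5_5, InChart] <;> norm_num <;> (try constructor) <;> linarith

/-- The split check. -/
theorem c5_side_rF_all {o : PtR} (m : o.In box5) :
    0 ≤ (piece5.side .rF).val o.x := by
  obtain ⟨hu, hX, ha, hI⟩ := m.bounds
  simp only [box5] at hu hX ha hI
  norm_num at hu hX ha hI
  rcases le_total o.u (7 / 40 : ℝ) with h00 | h00
  ·
    rcases le_total o.X (433 / 400 : ℝ) with h10 | h10
    ·
      refine QEx.nonneg_on_box c5_side_rF_0 (PtR.In.of_bounds ?_ ?_ ?_ ?_) <;>
        simp only [box5_6, InChart] <;> norm_num <;> (try constructor) <;> linarith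
    ·
      rcases le_total o.X (241 / 200 : ℝ) with h11 | h11
      ·
        refine QEx.nonneg_on_box c5_side_rF_1 (PtR.In.of_bounds ?_ ?_ ?_ ?_) <;>
          simp only [box5_7, InChart] <;> norm_num <;> (try constructor) <;> linarith
      ·
        rcases le_total o.X (531 / 400 : ℝ) with h12 | h12
        ·
          refine QEx.nonneg_on_box c5_side_rF_2 (PtR.In.of_bounds ?_ ?_ ?_ ?_) <;>
            simp only [box5_8, InChart] <;> norm_num <;> (try constructor) <;> linarith
        ·
          refine QEx.nonneg_on_box c5_side_rF_3 (PtR.In.of_bounds ?_ ?_ ?_ ?_) <;>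
            simp only [box5_9, InChart] <;> norm_num <;> (try constructor) <;> linarith
  ·
    rcases le_total o.X (433 / 400 : ℝ) with h10 | h10
    ·
      refine QEx.nonneg_on_box c5_side_rF_4 (PtR.In.of_bounds ?_ ?_ ?_ ?_) <;>
        simp only [box5_10, InChart] <;> norm_num <;> (try constructor) <;> linarith
    ·
      rcases le_total o.X (241 / 200 : ℝ) with h11 | h11
      ·
        refine QEx.nonneg_on_box c5_side_rF_5 (PtR.In.of_bounds ?_ ?_ ?_ ?_) <;>
          simp only [box5_11, InChart] <;> norm_num <;> (try constructor) <;> linarith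
      ·
        rcases le_total o.X (531 / 400 : ℝ) with h12 | h12
        ·
          refine QEx.nonneg_on_box c5_side_rF_6 (PtR.In.of_bounds ?_ ?_ ?_ ?_) <;>
            simp only [box5_12, InChart] <;> norm_num <;> (try constructor) <;> linarith
        ·
          refine QEx.nonneg_on_box c5_side_rF_7 (PtR.In.of_bounds ?_ ?_ ?_ ?_) <;>
            simp only [box5_13, InChart] <;> norm_num <;> (try constructor) <;> linarith

/-- The piece 5 holds on its box. -/
theorem piece5_holds {o : PtR} (m : o.In box5) : piece5.AllHold bandLow o where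
  forms :=
    { forms := fun q h k =>
        match q, h, k with
        | .g, false, .lo => QEx.nonneg_on_box c5_g_false_lo m
        | .g, false, .hi => QEx.nonneg_on_box c5_g_false_hi m
        | .g, false, .mid => QEx.nonneg_on_box c5_g_false_mid m
        | .g, true, .lo => QEx.nonneg_on_box c5_g_true_lo m
        | .g, true, .hi => QEx.nonneg_on_box c5_g_true_hi m
        | .g, true, .mid => QEx.nonneg_on_box c5_g_true_mid m
        | .n, false, .lo => QEx.nonneg_on_box c5_n_false_lo m
        | .n, false, .hi => QEx.nonneg_on_box c5_n_false_hi m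
        | .n, false, .mid => QEx.nonneg_on_box c5_n_false_mid m
        | .n, true, .lo => QEx.nonneg_on_box c5_n_true_lo m
        | .n, true, .hi => QEx.nonneg_on_box c5_n_true_hi m
        | .n, true, .mid => QEx.nonneg_on_box c5_n_true_mid m
        | .tlo, false, .lo => QEx.nonneg_on_box c5_tlo_false_lo m
        | .tlo, false, .hi => QEx.nonneg_on_box c5_tlo_false_hi m
        | .tlo, false, .mid => QEx.nonneg_on_box c5_tlo_false_mid m
        | .tlo, true, .lo => QEx.nonneg_on_box c5_tlo_true_lo m
        | .tlo, true, .hi => QEx.nonneg_on_box c5_tlo_true_hi m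
        | .tlo, true, .mid => QEx.nonneg_on_box c5_tlo_true_mid m
        | .thi, false, .lo => QEx.nonneg_on_box c5_thi_false_lo m
        | .thi, false, .hi => QEx.nonneg_on_box c5_thi_false_hi m
        | .thi, false, .mid => QEx.nonneg_on_box c5_thi_false_mid m
        | .thi, true, .lo => QEx.nonneg_on_box c5_thi_true_lo m
        | .thi, true, .hi => QEx.nonneg_on_box c5_thi_true_hi m
        | .thi, true, .mid => QEx.nonneg_on_box c5_thi_true_mid m
        | .mlo, false, .lo => QEx.nonneg_on_box c5_mlo_false_lo m
        | .mlo, false, .hi => QEx.nonneg_on_box c5_mlo_false_hi m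
        | .mlo, false, .mid => QEx.nonneg_on_box c5_mlo_false_mid m
        | .mlo, true, .lo => QEx.nonneg_on_box c5_mlo_false_lo m
        | .mlo, true, .hi => QEx.nonneg_on_box c5_mlo_false_hi m
        | .mlo, true, .mid => QEx.nonneg_on_box c5_mlo_false_mid m
        | .mhi, false, .lo => QEx.nonneg_on_box c5_mhi_false_lo m
        | .mhi, false, .hi => QEx.nonneg_on_box c5_mhi_false_hi m
        | .mhi, false, .mid => QEx.nonneg_on_box c5_mhi_false_mid m
        | .mhi, true, .lo => QEx.nonneg_on_box c5_mhi_false_lo m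
        | .mhi, true, .hi => QEx.nonneg_on_box c5_mhi_false_hi m
        | .mhi, true, .mid => QEx.nonneg_on_box c5_mhi_false_mid m
        | .f, false, .lo => QEx.nonneg_on_box c5_f_false_lo m
        | .f, false, .hi => QEx.nonneg_on_box c5_f_false_hi m
        | .f, false, .mid => QEx.nonneg_on_box c5_f_false_mid m
        | .f, true, .lo => QEx.nonneg_on_box c5_f_true_lo m
        | .f, true, .hi => QEx.nonneg_on_box c5_f_true_hi m
        | .f, true, .mid => QEx.nonneg_on_box c5_f_true_mid m
      side := fun e =>
        match e with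
        | .rA => QEx.nonneg_on_box c5_side_rA m
        | .rB => QEx.nonneg_on_box c5_side_rB m
        | .rF => c5_side_rF_all m
        | .q => QEx.nonneg_on_box c5_side_q m
        | .om => QEx.nonneg_on_box c5_side_om m
      nums := by decide }
  env :=
    { lo := fun e =>
        match e with
        | .piL => QEx.nonneg_on_box c5_piL_lo m
        | .piU => QEx.nonneg_on_box c5_piU_lo m
        | .omL => QEx.nonneg_on_box c5_omL_lo m
        | .omU => QEx.nonneg_on_box c5_omU_lo m
        | .tauL => c5_tauL_lo_all m
        | .tauU => QEx.nonneg_on_box c5_tauU_lo m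
      hi := fun e =>
        match e with
        | .piL => QEx.nonneg_on_box c5_piL_hi m
        | .piU => QEx.nonneg_on_box c5_piU_hi m
        | .omL => QEx.nonneg_on_box c5_omL_hi m
        | .omU => c5_omU_hi_all m
        | .tauL => c5_tauL_hi_all m
        | .tauU => QEx.nonneg_on_box c5_tauU_hi m
      wid := QEx.nonneg_on_box c5_wid m }
  rayLo := QEx.nonneg_on_box c5_llg_lo m
  rayHi := QEx.nonneg_on_box c5_llg_hi m

/-- The split check. -/
theorem c6_side_rF_all {o : PtR} (m : o.In box6) :
    0 ≤ (piece6.side .rF).val o.x := by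
  obtain ⟨hu, hX, ha, hI⟩ := m.bounds
  simp only [box6] at hu hX ha hI
  norm_num at hu hX ha hI
  rcases le_total o.X (117 / 100 : ℝ) with h10 | h10
  ·
    refine QEx.nonneg_on_box c6_side_rF_0 (PtR.In.of_bounds ?_ ?_ ?_ ?_) <;>
      simp only [box6_0, InChart] <;> norm_num <;> (try constructor) <;> linarith
  ·
    refine QEx.nonneg_on_box c6_side_rF_1 (PtR.In.of_bounds ?_ ?_ ?_ ?_) <;>
      simp only [box6_1, InChart] <;> norm_num <;> (try constructor) <;> linarith

/-- The piece 6 holds on its box. -/
theorem piece6_holds {o : PtR} (m : o.In box6) : piece6.AllHold bandHigh o where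
  forms :=
    { forms := fun q h k =>
        match q, h, k with
        | .g, false, .lo => QEx.nonneg_on_box c6_g_false_lo m
        | .g, false, .hi => QEx.nonneg_on_box c6_g_false_hi m
        | .g, false, .mid => QEx.nonneg_on_box c6_g_false_mid m
        | .g, true, .lo => QEx.nonneg_on_box c6_g_true_lo m
        | .g, true, .hi => QEx.nonneg_on_box c6_g_true_hi m
        | .g, true, .mid => QEx.nonneg_on_box c6_g_true_mid m
        | .n, false, .lo => QEx.nonneg_on_box c6_n_false_lo m
        | .n, false, .hi => QEx.nonneg_on_box c6_n_false_hi m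
        | .n, false, .mid => QEx.nonneg_on_box c6_n_false_mid m
        | .n, true, .lo => QEx.nonneg_on_box c6_n_true_lo m
        | .n, true, .hi => QEx.nonneg_on_box c6_n_true_hi m
        | .n, true, .mid => QEx.nonneg_on_box c6_n_true_mid m
        | .tlo, false, .lo => QEx.nonneg_on_box c6_tlo_false_lo m
        | .tlo, false, .hi => QEx.nonneg_on_box c6_tlo_false_hi m
        | .tlo, false, .mid => QEx.nonneg_on_box c6_tlo_false_mid m
        | .tlo, true, .lo => QEx.nonneg_on_box c6_tlo_true_lo m
        | .tlo, true, .hi => QEx.nonneg_on_box c6_tlo_true_hi m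
        | .tlo, true, .mid => QEx.nonneg_on_box c6_tlo_true_mid m
        | .thi, false, .lo => QEx.nonneg_on_box c6_thi_false_lo m
        | .thi, false, .hi => QEx.nonneg_on_box c6_thi_false_hi m
        | .thi, false, .mid => QEx.nonneg_on_box c6_thi_false_mid m
        | .thi, true, .lo => QEx.nonneg_on_box c6_thi_true_lo m
        | .thi, true, .hi => QEx.nonneg_on_box c6_thi_true_hi m
        | .thi, true, .mid => QEx.nonneg_on_box c6_thi_true_mid m
        | .mlo, false, .lo => QEx.nonneg_on_box c6_mlo_false_lo m
        | .mlo, false, .hi => QEx.nonneg_on_box c6_mlo_false_hi m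
        | .mlo, false, .mid => QEx.nonneg_on_box c6_mlo_false_mid m
        | .mlo, true, .lo => QEx.nonneg_on_box c6_mlo_false_lo m
        | .mlo, true, .hi => QEx.nonneg_on_box c6_mlo_false_hi m
        | .mlo, true, .mid => QEx.nonneg_on_box c6_mlo_false_mid m
        | .mhi, false, .lo => QEx.nonneg_on_box c6_mhi_false_lo m
        | .mhi, false, .hi => QEx.nonneg_on_box c6_mhi_false_hi m
        | .mhi, false, .mid => QEx.nonneg_on_box c6_mhi_false_mid m
        | .mhi, true, .lo => QEx.nonneg_on_box c6_mhi_false_lo m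
        | .mhi, true, .hi => QEx.nonneg_on_box c6_mhi_false_hi m
        | .mhi, true, .mid => QEx.nonneg_on_box c6_mhi_false_mid m
        | .f, false, .lo => QEx.nonneg_on_box c6_f_false_lo m
        | .f, false, .hi => QEx.nonneg_on_box c6_f_false_hi m
        | .f, false, .mid => QEx.nonneg_on_box c6_f_false_mid m
        | .f, true, .lo => QEx.nonneg_on_box c6_f_true_lo m
        | .f, true, .hi => QEx.nonneg_on_box c6_f_true_hi m
        | .f, true, .mid => QEx.nonneg_on_box c6_f_true_mid m
      side := fun e =>
        match e with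
        | .rA => QEx.nonneg_on_box c6_side_rA m
        | .rB => QEx.nonneg_on_box c6_side_rB m
        | .rF => c6_side_rF_all m
        | .q => QEx.nonneg_on_box c6_side_q m
        | .om => QEx.nonneg_on_box c6_side_om m
      nums := by decide }
  env :=
    { lo := fun e =>
        match e with
        | .piL => QEx.nonneg_on_box c6_piL_lo m
        | .piU => QEx.nonneg_on_box c6_piU_lo m
        | .omL => QEx.nonneg_on_box c6_omL_lo m
        | .omU => QEx.nonneg_on_box c6_omU_lo m
        | .tauL => QEx.nonneg_on_box c6_tauL_lo m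
        | .tauU => QEx.nonneg_on_box c6_tauU_lo m
      hi := fun e =>
        match e with
        | .piL => QEx.nonneg_on_box c6_piL_hi m
        | .piU => QEx.nonneg_on_box c6_piU_hi m
        | .omL => QEx.nonneg_on_box c6_omL_hi m
        | .omU => QEx.nonneg_on_box c6_omU_hi m
        | .tauL => QEx.nonneg_on_box c6_tauL_hi m
        | .tauU => QEx.nonneg_on_box c6_tauU_hi m
      wid := QEx.nonneg_on_box c6_wid m }
  rayLo := QEx.nonneg_on_box c6_llg_lo m
  rayHi := QEx.nonneg_on_box c6_llg_hi m

/-- The split check. -/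
theorem c7_side_rF_all {o : PtR} (m : o.In box7) :
    0 ≤ (piece7.side .rF).val o.x := by
  obtain ⟨hu, hX, ha, hI⟩ := m.bounds
  simp only [box7] at hu hX ha hI
  norm_num at hu hX ha hI
  rcases le_total o.u (3 / 10 : ℝ) with h00 | h00
  ·
    rcases le_total o.X (219 / 200 : ℝ) with h10 | h10
    ·
      refine QEx.nonneg_on_box c7_side_rF_0 (PtR.In.of_bounds ?_ ?_ ?_ ?_) <;>
        simp only [box7_0, InChart] <;> norm_num <;> (try constructor) <;> linarith
    ·
      rcases le_total o.X (121 / 100 : ℝ) with h11 | h11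
      ·
        refine QEx.nonneg_on_box c7_side_rF_1 (PtR.In.of_bounds ?_ ?_ ?_ ?_) <;>
          simp only [box7_1, InChart] <;> norm_num <;> (try constructor) <;> linarith
      ·
        rcases le_total o.X (53 / 40 : ℝ) with h12 | h12
        ·
          refine QEx.nonneg_on_box c7_side_rF_2 (PtR.In.of_bounds ?_ ?_ ?_ ?_) <;>
            simp only [box7_2, InChart] <;> norm_num <;> (try constructor) <;> linarith
        ·
          refine QEx.nonneg_on_box c7_side_rF_3 (PtR.In.of_bounds ?_ ?_ ?_ ?_) <;>
            simp only [box7_3, InChart] <;> norm_num <;> (try constructor) <;> linarith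
  ·
    rcases le_total o.X (219 / 200 : ℝ) with h10 | h10
    ·
      refine QEx.nonneg_on_box c7_side_rF_4 (PtR.In.of_bounds ?_ ?_ ?_ ?_) <;>
        simp only [box7_4, InChart] <;> norm_num <;> (try constructor) <;> linarith
    ·
      rcases le_total o.X (121 / 100 : ℝ) with h11 | h11
      ·
        refine QEx.nonneg_on_box c7_side_rF_5 (PtR.In.of_bounds ?_ ?_ ?_ ?_) <;>
          simp only [box7_5, InChart] <;> norm_num <;> (try constructor) <;> linarith
      ·
        rcases le_total o.X (53 / 40 : ℝ) with h12 | h12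
        ·
          refine QEx.nonneg_on_box c7_side_rF_6 (PtR.In.of_bounds ?_ ?_ ?_ ?_) <;>
            simp only [box7_6, InChart] <;> norm_num <;> (try constructor) <;> linarith
        ·
          refine QEx.nonneg_on_box c7_side_rF_7 (PtR.In.of_bounds ?_ ?_ ?_ ?_) <;>
            simp only [box7_7, InChart] <;> norm_num <;> (try constructor) <;> linarith

/-- The piece 7 holds on its box. -/
theorem piece7_holds {o : PtR} (m : o.In box7) : piece7.AllHold bandHigh o where
  forms :=
    { forms := fun q h k =>
        match q, h, k with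
        | .g, false, .lo => QEx.nonneg_on_box c7_g_false_lo m
        | .g, false, .hi => QEx.nonneg_on_box c7_g_false_hi m
        | .g, false, .mid => QEx.nonneg_on_box c7_g_false_mid m
        | .g, true, .lo => QEx.nonneg_on_box c7_g_true_lo m
        | .g, true, .hi => QEx.nonneg_on_box c7_g_true_hi m
        | .g, true, .mid => QEx.nonneg_on_box c7_g_true_mid m
        | .n, false, .lo => QEx.nonneg_on_box c7_n_false_lo m
        | .n, false, .hi => QEx.nonneg_on_box c7_n_false_hi m
        | .n, false, .mid => QEx.nonneg_on_box c7_n_false_mid m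
        | .n, true, .lo => QEx.nonneg_on_box c7_n_true_lo m
        | .n, true, .hi => QEx.nonneg_on_box c7_n_true_hi m
        | .n, true, .mid => QEx.nonneg_on_box c7_n_true_mid m
        | .tlo, false, .lo => QEx.nonneg_on_box c7_tlo_false_lo m
        | .tlo, false, .hi => QEx.nonneg_on_box c7_tlo_false_hi m
        | .tlo, false, .mid => QEx.nonneg_on_box c7_tlo_false_mid m
        | .tlo, true, .lo => QEx.nonneg_on_box c7_tlo_true_lo m
        | .tlo, true, .hi => QEx.nonneg_on_box c7_tlo_true_hi m
        | .tlo, true, .mid => QEx.nonneg_on_box c7_tlo_true_mid m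
        | .thi, false, .lo => QEx.nonneg_on_box c7_thi_false_lo m
        | .thi, false, .hi => QEx.nonneg_on_box c7_thi_false_hi m
        | .thi, false, .mid => QEx.nonneg_on_box c7_thi_false_mid m
        | .thi, true, .lo => QEx.nonneg_on_box c7_thi_true_lo m
        | .thi, true, .hi => QEx.nonneg_on_box c7_thi_true_hi m
        | .thi, true, .mid => QEx.nonneg_on_box c7_thi_true_mid m
        | .mlo, false, .lo => QEx.nonneg_on_box c7_mlo_false_lo m
        | .mlo, false, .hi => QEx.nonneg_on_box c7_mlo_false_hi m
        | .mlo, false, .mid => QEx.nonneg_on_box c7_mlo_false_mid m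
        | .mlo, true, .lo => QEx.nonneg_on_box c7_mlo_false_lo m
        | .mlo, true, .hi => QEx.nonneg_on_box c7_mlo_false_hi m
        | .mlo, true, .mid => QEx.nonneg_on_box c7_mlo_false_mid m
        | .mhi, false, .lo => QEx.nonneg_on_box c7_mhi_false_lo m
        | .mhi, false, .hi => QEx.nonneg_on_box c7_mhi_false_hi m
        | .mhi, false, .mid => QEx.nonneg_on_box c7_mhi_false_mid m
        | .mhi, true, .lo => QEx.nonneg_on_box c7_mhi_false_lo m
        | .mhi, true, .hi => QEx.nonneg_on_box c7_mhi_false_hi m
        | .mhi, true, .mid => QEx.nonneg_on_box c7_mhi_false_mid m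
        | .f, false, .lo => QEx.nonneg_on_box c7_f_false_lo m
        | .f, false, .hi => QEx.nonneg_on_box c7_f_false_hi m
        | .f, false, .mid => QEx.nonneg_on_box c7_f_false_mid m
        | .f, true, .lo => QEx.nonneg_on_box c7_f_true_lo m
        | .f, true, .hi => QEx.nonneg_on_box c7_f_true_hi m
        | .f, true, .mid => QEx.nonneg_on_box c7_f_true_mid m
      side := fun e =>
        match e with
        | .rA => QEx.nonneg_on_box c7_side_rA m
        | .rB => QEx.nonneg_on_box c7_side_rB m
        | .rF => c7_side_rF_all m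
        | .q => QEx.nonneg_on_box c7_side_q m
        | .om => QEx.nonneg_on_box c7_side_om m
      nums := by decide }
  env :=
    { lo := fun e =>
        match e with
        | .piL => QEx.nonneg_on_box c7_piL_lo m
        | .piU => QEx.nonneg_on_box c7_piU_lo m
        | .omL => QEx.nonneg_on_box c7_omL_lo m
        | .omU => QEx.nonneg_on_box c7_omU_lo m
        | .tauL => QEx.nonneg_on_box c7_tauL_lo m
        | .tauU => QEx.nonneg_on_box c7_tauU_lo m
      hi := fun e =>
        match e with
        | .piL => QEx.nonneg_on_box c7_piL_hi m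
        | .piU => QEx.nonneg_on_box c7_piU_hi m
        | .omL => QEx.nonneg_on_box c7_omL_hi m
        | .omU => QEx.nonneg_on_box c7_omU_hi m
        | .tauL => QEx.nonneg_on_box c7_tauL_hi m
        | .tauU => QEx.nonneg_on_box c7_tauU_hi m
      wid := QEx.nonneg_on_box c7_wid m }
  rayLo := QEx.nonneg_on_box c7_llg_lo m
  rayHi := QEx.nonneg_on_box c7_llg_hi m

/-- The split check. -/
theorem c8_piU_hi_all {o : PtR} (m : o.In box8) :
    0 ≤ (piece8.env bandHigh.hi bandHigh.hi bandHigh.pole .piU).val o.x := by
  obtain ⟨hu, hX, ha, hI⟩ := m.bounds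
  simp only [box8] at hu hX ha hI
  norm_num at hu hX ha hI
  rcases le_total o.a (1 / 25 : ℝ) with h20 | h20
  ·
    refine QEx.nonneg_on_box c8_piU_hi_0 (PtR.In.of_bounds ?_ ?_ ?_ ?_) <;>
      simp only [box8_0, InChart] <;> norm_num <;> (try constructor) <;> linarith
  ·
    refine QEx.nonneg_on_box c8_piU_hi_1 (PtR.In.of_bounds ?_ ?_ ?_ ?_) <;>
      simp only [box8_1, InChart] <;> norm_num <;> (try constructor) <;> linarith

/-- The split check. -/
theorem c8_side_rF_all {o : PtR} (m : o.In box8) :
    0 ≤ (piece8.side .rF).val o.x := by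
  obtain ⟨hu, hX, ha, hI⟩ := m.bounds
  simp only [box8] at hu hX ha hI
  norm_num at hu hX ha hI
  rcases le_total o.X (61 / 50 : ℝ) with h10 | h10
  ·
    refine QEx.nonneg_on_box c8_side_rF_0 (PtR.In.of_bounds ?_ ?_ ?_ ?_) <;>
      simp only [box8_2, InChart] <;> norm_num <;> (try constructor) <;> linarith
  ·
    refine QEx.nonneg_on_box c8_side_rF_1 (PtR.In.of_bounds ?_ ?_ ?_ ?_) <;>
      simp only [box8_3, InChart] <;> norm_num <;> (try constructor) <;> linarith

/-- The piece 8 holds on its box. -/
theorem piece8_holds {o : PtR} (m : o.In box8) : piece8.AllHold bandHigh o where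
  forms :=
    { forms := fun q h k =>
        match q, h, k with
        | .g, false, .lo => QEx.nonneg_on_box c8_g_false_lo m
        | .g, false, .hi => QEx.nonneg_on_box c8_g_false_hi m
        | .g, false, .mid => QEx.nonneg_on_box c8_g_false_mid m
        | .g, true, .lo => QEx.nonneg_on_box c8_g_true_lo m
        | .g, true, .hi => QEx.nonneg_on_box c8_g_true_hi m
        | .g, true, .mid => QEx.nonneg_on_box c8_g_true_mid m
        | .n, false, .lo => QEx.nonneg_on_box c8_n_false_lo m
        | .n, false, .hi => QEx.nonneg_on_box c8_n_false_hi m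
        | .n, false, .mid => QEx.nonneg_on_box c8_n_false_mid m
        | .n, true, .lo => QEx.nonneg_on_box c8_n_true_lo m
        | .n, true, .hi => QEx.nonneg_on_box c8_n_true_hi m
        | .n, true, .mid => QEx.nonneg_on_box c8_n_true_mid m
        | .tlo, false, .lo => QEx.nonneg_on_box c8_tlo_false_lo m
        | .tlo, false, .hi => QEx.nonneg_on_box c8_tlo_false_hi m
        | .tlo, false, .mid => QEx.nonneg_on_box c8_tlo_false_mid m
        | .tlo, true, .lo => QEx.nonneg_on_box c8_tlo_true_lo m
        | .tlo, true, .hi => QEx.nonneg_on_box c8_tlo_true_hi m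
        | .tlo, true, .mid => QEx.nonneg_on_box c8_tlo_true_mid m
        | .thi, false, .lo => QEx.nonneg_on_box c8_thi_false_lo m
        | .thi, false, .hi => QEx.nonneg_on_box c8_thi_false_hi m
        | .thi, false, .mid => QEx.nonneg_on_box c8_thi_false_mid m
        | .thi, true, .lo => QEx.nonneg_on_box c8_thi_true_lo m
        | .thi, true, .hi => QEx.nonneg_on_box c8_thi_true_hi m
        | .thi, true, .mid => QEx.nonneg_on_box c8_thi_true_mid m
        | .mlo, false, .lo => QEx.nonneg_on_box c8_mlo_false_lo m
        | .mlo, false, .hi => QEx.nonneg_on_box c8_mlo_false_hi m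
        | .mlo, false, .mid => QEx.nonneg_on_box c8_mlo_false_mid m
        | .mlo, true, .lo => QEx.nonneg_on_box c8_mlo_false_lo m
        | .mlo, true, .hi => QEx.nonneg_on_box c8_mlo_false_hi m
        | .mlo, true, .mid => QEx.nonneg_on_box c8_mlo_false_mid m
        | .mhi, false, .lo => QEx.nonneg_on_box c8_mhi_false_lo m
        | .mhi, false, .hi => QEx.nonneg_on_box c8_mhi_false_hi m
        | .mhi, false, .mid => QEx.nonneg_on_box c8_mhi_false_mid m
        | .mhi, true, .lo => QEx.nonneg_on_box c8_mhi_false_lo m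
        | .mhi, true, .hi => QEx.nonneg_on_box c8_mhi_false_hi m
        | .mhi, true, .mid => QEx.nonneg_on_box c8_mhi_false_mid m
        | .f, false, .lo => QEx.nonneg_on_box c8_f_false_lo m
        | .f, false, .hi => QEx.nonneg_on_box c8_f_false_hi m
        | .f, false, .mid => QEx.nonneg_on_box c8_f_false_mid m
        | .f, true, .lo => QEx.nonneg_on_box c8_f_true_lo m
        | .f, true, .hi => QEx.nonneg_on_box c8_f_true_hi m
        | .f, true, .mid => QEx.nonneg_on_box c8_f_true_mid m
      side := fun e =>
        match e with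
        | .rA => QEx.nonneg_on_box c8_side_rA m
        | .rB => QEx.nonneg_on_box c8_side_rB m
        | .rF => c8_side_rF_all m
        | .q => QEx.nonneg_on_box c8_side_q m
        | .om => QEx.nonneg_on_box c8_side_om m
      nums := by decide }
  env :=
    { lo := fun e =>
        match e with
        | .piL => QEx.nonneg_on_box c8_piL_lo m
        | .piU => QEx.nonneg_on_box c8_piU_lo m
        | .omL => QEx.nonneg_on_box c8_omL_lo m
        | .omU => QEx.nonneg_on_box c8_omU_lo m
        | .tauL => QEx.nonneg_on_box c8_tauL_lo m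
        | .tauU => QEx.nonneg_on_box c8_tauU_lo m
      hi := fun e =>
        match e with
        | .piL => QEx.nonneg_on_box c8_piL_hi m
        | .piU => c8_piU_hi_all m
        | .omL => QEx.nonneg_on_box c8_omL_hi m
        | .omU => QEx.nonneg_on_box c8_omU_hi m
        | .tauL => QEx.nonneg_on_box c8_tauL_hi m
        | .tauU => QEx.nonneg_on_box c8_tauU_hi m
      wid := QEx.nonneg_on_box c8_wid m }
  rayLo := QEx.nonneg_on_box c8_llg_lo m
  rayHi := QEx.nonneg_on_box c8_llg_hi m

/-- The split check. -/
theorem c9_side_rF_all {o : PtR} (m : o.In box9) :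
    0 ≤ (piece9.side .rF).val o.x := by
  obtain ⟨hu, hX, ha, hI⟩ := m.bounds
  simp only [box9] at hu hX ha hI
  norm_num at hu hX ha hI
  rcases le_total o.X (261 / 200 : ℝ) with h10 | h10
  ·
    refine QEx.nonneg_on_box c9_side_rF_0 (PtR.In.of_bounds ?_ ?_ ?_ ?_) <;>
      simp only [box9_0, InChart] <;> norm_num <;> (try constructor) <;> linarith
  ·
    refine QEx.nonneg_on_box c9_side_rF_1 (PtR.In.of_bounds ?_ ?_ ?_ ?_) <;>
      simp only [box9_1, InChart] <;> norm_num <;> (try constructor) <;> linarith

/-- The piece 9 holds on its box. -/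
theorem piece9_holds {o : PtR} (m : o.In box9) : piece9.AllHold bandHigh o where
  forms :=
    { forms := fun q h k =>
        match q, h, k with
        | .g, false, .lo => QEx.nonneg_on_box c9_g_false_lo m
        | .g, false, .hi => QEx.nonneg_on_box c9_g_false_hi m
        | .g, false, .mid => QEx.nonneg_on_box c9_g_false_mid m
        | .g, true, .lo => QEx.nonneg_on_box c9_g_true_lo m
        | .g, true, .hi => QEx.nonneg_on_box c9_g_true_hi m
        | .g, true, .mid => QEx.nonneg_on_box c9_g_true_mid m
        | .n, false, .lo => QEx.nonneg_on_box c9_n_false_lo m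
        | .n, false, .hi => QEx.nonneg_on_box c9_n_false_hi m
        | .n, false, .mid => QEx.nonneg_on_box c9_n_false_mid m
        | .n, true, .lo => QEx.nonneg_on_box c9_n_true_lo m
        | .n, true, .hi => QEx.nonneg_on_box c9_n_true_hi m
        | .n, true, .mid => QEx.nonneg_on_box c9_n_true_mid m
        | .tlo, false, .lo => QEx.nonneg_on_box c9_tlo_false_lo m
        | .tlo, false, .hi => QEx.nonneg_on_box c9_tlo_false_hi m
        | .tlo, false, .mid => QEx.nonneg_on_box c9_tlo_false_mid m
        | .tlo, true, .lo => QEx.nonneg_on_box c9_tlo_true_lo m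
        | .tlo, true, .hi => QEx.nonneg_on_box c9_tlo_true_hi m
        | .tlo, true, .mid => QEx.nonneg_on_box c9_tlo_true_mid m
        | .thi, false, .lo => QEx.nonneg_on_box c9_thi_false_lo m
        | .thi, false, .hi => QEx.nonneg_on_box c9_thi_false_hi m
        | .thi, false, .mid => QEx.nonneg_on_box c9_thi_false_mid m
        | .thi, true, .lo => QEx.nonneg_on_box c9_thi_true_lo m
        | .thi, true, .hi => QEx.nonneg_on_box c9_thi_true_hi m
        | .thi, true, .mid => QEx.nonneg_on_box c9_thi_true_mid m
        | .mlo, false, .lo => QEx.nonneg_on_box c9_mlo_false_lo m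
        | .mlo, false, .hi => QEx.nonneg_on_box c9_mlo_false_hi m
        | .mlo, false, .mid => QEx.nonneg_on_box c9_mlo_false_mid m
        | .mlo, true, .lo => QEx.nonneg_on_box c9_mlo_false_lo m
        | .mlo, true, .hi => QEx.nonneg_on_box c9_mlo_false_hi m
        | .mlo, true, .mid => QEx.nonneg_on_box c9_mlo_false_mid m
        | .mhi, false, .lo => QEx.nonneg_on_box c9_mhi_false_lo m
        | .mhi, false, .hi => QEx.nonneg_on_box c9_mhi_false_hi m
        | .mhi, false, .mid => QEx.nonneg_on_box c9_mhi_false_mid m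
        | .mhi, true, .lo => QEx.nonneg_on_box c9_mhi_false_lo m
        | .mhi, true, .hi => QEx.nonneg_on_box c9_mhi_false_hi m
        | .mhi, true, .mid => QEx.nonneg_on_box c9_mhi_false_mid m
        | .f, false, .lo => QEx.nonneg_on_box c9_f_false_lo m
        | .f, false, .hi => QEx.nonneg_on_box c9_f_false_hi m
        | .f, false, .mid => QEx.nonneg_on_box c9_f_false_mid m
        | .f, true, .lo => QEx.nonneg_on_box c9_f_true_lo m
        | .f, true, .hi => QEx.nonneg_on_box c9_f_true_hi m
        | .f, true, .mid => QEx.nonneg_on_box c9_f_true_mid m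
      side := fun e =>
        match e with
        | .rA => QEx.nonneg_on_box c9_side_rA m
        | .rB => QEx.nonneg_on_box c9_side_rB m
        | .rF => c9_side_rF_all m
        | .q => QEx.nonneg_on_box c9_side_q m
        | .om => QEx.nonneg_on_box c9_side_om m
      nums := by decide }
  env :=
    { lo := fun e =>
        match e with
        | .piL => QEx.nonneg_on_box c9_piL_lo m
        | .piU => QEx.nonneg_on_box c9_piU_lo m
        | .omL => QEx.nonneg_on_box c9_omL_lo m
        | .omU => QEx.nonneg_on_box c9_omU_lo m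
        | .tauL => QEx.nonneg_on_box c9_tauL_lo m
        | .tauU => QEx.nonneg_on_box c9_tauU_lo m
      hi := fun e =>
        match e with
        | .piL => QEx.nonneg_on_box c9_piL_hi m
        | .piU => QEx.nonneg_on_box c9_piU_hi m
        | .omL => QEx.nonneg_on_box c9_omL_hi m
        | .omU => QEx.nonneg_on_box c9_omU_hi m
        | .tauL => QEx.nonneg_on_box c9_tauL_hi m
        | .tauU => QEx.nonneg_on_box c9_tauU_hi m
      wid := QEx.nonneg_on_box c9_wid m }
  rayLo := QEx.nonneg_on_box c9_llg_lo m
  rayHi := QEx.nonneg_on_box c9_llg_hi m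

/-- The split check. -/
theorem c10_piL_lo_all {o : PtR} (m : o.In box10) :
    0 ≤ (piece10.env bandHigh.lo bandHigh.hi bandHigh.pole .piL).val o.x := by
  obtain ⟨hu, hX, ha, hI⟩ := m.bounds
  simp only [box10] at hu hX ha hI
  norm_num at hu hX ha hI
  rcases le_total o.a (47 / 200 : ℝ) with h20 | h20
  ·
    refine QEx.nonneg_on_box c10_piL_lo_0 (PtR.In.of_bounds ?_ ?_ ?_ ?_) <;>
      simp only [box10_0, InChart] <;> norm_num <;> (try constructor) <;> linarith
  ·
    refine QEx.nonneg_on_box c10_piL_lo_1 (PtR.In.of_bounds ?_ ?_ ?_ ?_) <;>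
      simp only [box10_1, InChart] <;> norm_num <;> (try constructor) <;> linarith

/-- The split check. -/
theorem c10_omU_hi_all {o : PtR} (m : o.In box10) :
    0 ≤ (piece10.env bandHigh.hi bandHigh.hi bandHigh.pole .omU).val o.x := by
  obtain ⟨hu, hX, ha, hI⟩ := m.bounds
  simp only [box10] at hu hX ha hI
  norm_num at hu hX ha hI
  rcases le_total o.a (47 / 200 : ℝ) with h20 | h20
  ·
    refine QEx.nonneg_on_box c10_omU_hi_0 (PtR.In.of_bounds ?_ ?_ ?_ ?_) <;>
      simp only [box10_0, InChart] <;> norm_num <;> (try constructor) <;> linarith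
  ·
    refine QEx.nonneg_on_box c10_omU_hi_1 (PtR.In.of_bounds ?_ ?_ ?_ ?_) <;>
      simp only [box10_1, InChart] <;> norm_num <;> (try constructor) <;> linarith

/-- The split check. -/
theorem c10_tauL_lo_all {o : PtR} (m : o.In box10) :
    0 ≤ (piece10.env bandHigh.lo bandHigh.hi bandHigh.pole .tauL).val o.x := by
  obtain ⟨hu, hX, ha, hI⟩ := m.bounds
  simp only [box10] at hu hX ha hI
  norm_num at hu hX ha hI
  rcases le_total o.a (47 / 200 : ℝ) with h20 | h20
  ·
    refine QEx.nonneg_on_box c10_tauL_lo_0 (PtR.In.of_bounds ?_ ?_ ?_ ?_) <;>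
      simp only [box10_0, InChart] <;> norm_num <;> (try constructor) <;> linarith
  ·
    refine QEx.nonneg_on_box c10_tauL_lo_1 (PtR.In.of_bounds ?_ ?_ ?_ ?_) <;>
      simp only [box10_1, InChart] <;> norm_num <;> (try constructor) <;> linarith

/-- The split check. -/
theorem c10_tauL_hi_all {o : PtR} (m : o.In box10) :
    0 ≤ (piece10.env bandHigh.hi bandHigh.hi bandHigh.pole .tauL).val o.x := by
  obtain ⟨hu, hX, ha, hI⟩ := m.bounds
  simp only [box10] at hu hX ha hI
  norm_num at hu hX ha hI
  rcases le_total o.a (47 / 200 : ℝ) with h20 | h20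
  ·
    refine QEx.nonneg_on_box c10_tauL_hi_0 (PtR.In.of_bounds ?_ ?_ ?_ ?_) <;>
      simp only [box10_0, InChart] <;> norm_num <;> (try constructor) <;> linarith
  ·
    refine QEx.nonneg_on_box c10_tauL_hi_1 (PtR.In.of_bounds ?_ ?_ ?_ ?_) <;>
      simp only [box10_1, InChart] <;> norm_num <;> (try constructor) <;> linarith

/-- The split check. -/
theorem c10_side_rF_all {o : PtR} (m : o.In box10) :
    0 ≤ (piece10.side .rF).val o.x := by
  obtain ⟨hu, hX, ha, hI⟩ := m.bounds
  simp only [box10] at hu hX ha hI
  norm_num at hu hX ha hI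
  rcases le_total o.X (131 / 100 : ℝ) with h10 | h10
  ·
    refine QEx.nonneg_on_box c10_side_rF_0 (PtR.In.of_bounds ?_ ?_ ?_ ?_) <;>
      simp only [box10_2, InChart] <;> norm_num <;> (try constructor) <;> linarith
  ·
    refine QEx.nonneg_on_box c10_side_rF_1 (PtR.In.of_bounds ?_ ?_ ?_ ?_) <;>
      simp only [box10_3, InChart] <;> norm_num <;> (try constructor) <;> linarith

/-- The piece 10 holds on its box. -/
theorem piece10_holds {o : PtR} (m : o.In box10) : piece10.AllHold bandHigh o where
  forms :=
    { forms := fun q h k =>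
        match q, h, k with
        | .g, false, .lo => QEx.nonneg_on_box c10_g_false_lo m
        | .g, false, .hi => QEx.nonneg_on_box c10_g_false_hi m
        | .g, false, .mid => QEx.nonneg_on_box c10_g_false_mid m
        | .g, true, .lo => QEx.nonneg_on_box c10_g_true_lo m
        | .g, true, .hi => QEx.nonneg_on_box c10_g_true_hi m
        | .g, true, .mid => QEx.nonneg_on_box c10_g_true_mid m
        | .n, false, .lo => QEx.nonneg_on_box c10_n_false_lo m
        | .n, false, .hi => QEx.nonneg_on_box c10_n_false_hi m
        | .n, false, .mid => QEx.nonneg_on_box c10_n_false_mid m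
        | .n, true, .lo => QEx.nonneg_on_box c10_n_true_lo m
        | .n, true, .hi => QEx.nonneg_on_box c10_n_true_hi m
        | .n, true, .mid => QEx.nonneg_on_box c10_n_true_mid m
        | .tlo, false, .lo => QEx.nonneg_on_box c10_tlo_false_lo m
        | .tlo, false, .hi => QEx.nonneg_on_box c10_tlo_false_hi m
        | .tlo, false, .mid => QEx.nonneg_on_box c10_tlo_false_mid m
        | .tlo, true, .lo => QEx.nonneg_on_box c10_tlo_true_lo m
        | .tlo, true, .hi => QEx.nonneg_on_box c10_tlo_true_hi m
        | .tlo, true, .mid => QEx.nonneg_on_box c10_tlo_true_mid m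
        | .thi, false, .lo => QEx.nonneg_on_box c10_thi_false_lo m
        | .thi, false, .hi => QEx.nonneg_on_box c10_thi_false_hi m
        | .thi, false, .mid => QEx.nonneg_on_box c10_thi_false_mid m
        | .thi, true, .lo => QEx.nonneg_on_box c10_thi_true_lo m
        | .thi, true, .hi => QEx.nonneg_on_box c10_thi_true_hi m
        | .thi, true, .mid => QEx.nonneg_on_box c10_thi_true_mid m
        | .mlo, false, .lo => QEx.nonneg_on_box c10_mlo_false_lo m
        | .mlo, false, .hi => QEx.nonneg_on_box c10_mlo_false_hi m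
        | .mlo, false, .mid => QEx.nonneg_on_box c10_mlo_false_mid m
        | .mlo, true, .lo => QEx.nonneg_on_box c10_mlo_false_lo m
        | .mlo, true, .hi => QEx.nonneg_on_box c10_mlo_false_hi m
        | .mlo, true, .mid => QEx.nonneg_on_box c10_mlo_false_mid m
        | .mhi, false, .lo => QEx.nonneg_on_box c10_mhi_false_lo m
        | .mhi, false, .hi => QEx.nonneg_on_box c10_mhi_false_hi m
        | .mhi, false, .mid => QEx.nonneg_on_box c10_mhi_false_mid m
        | .mhi, true, .lo => QEx.nonneg_on_box c10_mhi_false_lo m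
        | .mhi, true, .hi => QEx.nonneg_on_box c10_mhi_false_hi m
        | .mhi, true, .mid => QEx.nonneg_on_box c10_mhi_false_mid m
        | .f, false, .lo => QEx.nonneg_on_box c10_f_false_lo m
        | .f, false, .hi => QEx.nonneg_on_box c10_f_false_hi m
        | .f, false, .mid => QEx.nonneg_on_box c10_f_false_mid m
        | .f, true, .lo => QEx.nonneg_on_box c10_f_true_lo m
        | .f, true, .hi => QEx.nonneg_on_box c10_f_true_hi m
        | .f, true, .mid => QEx.nonneg_on_box c10_f_true_mid m
      side := fun e =>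
        match e with
        | .rA => QEx.nonneg_on_box c10_side_rA m
        | .rB => QEx.nonneg_on_box c10_side_rB m
        | .rF => c10_side_rF_all m
        | .q => QEx.nonneg_on_box c10_side_q m
        | .om => QEx.nonneg_on_box c10_side_om m
      nums := by decide }
  env :=
    { lo := fun e =>
        match e with
        | .piL => c10_piL_lo_all m
        | .piU => QEx.nonneg_on_box c10_piU_lo m
        | .omL => QEx.nonneg_on_box c10_omL_lo m
        | .omU => QEx.nonneg_on_box c10_omU_lo m
        | .tauL => c10_tauL_lo_all m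
        | .tauU => QEx.nonneg_on_box c10_tauU_lo m
      hi := fun e =>
        match e with
        | .piL => QEx.nonneg_on_box c10_piL_hi m
        | .piU => QEx.nonneg_on_box c10_piU_hi m
        | .omL => QEx.nonneg_on_box c10_omL_hi m
        | .omU => c10_omU_hi_all m
        | .tauL => c10_tauL_hi_all m
        | .tauU => QEx.nonneg_on_box c10_tauU_hi m
      wid := QEx.nonneg_on_box c10_wid m }
  rayLo := QEx.nonneg_on_box c10_llg_lo m
  rayHi := QEx.nonneg_on_box c10_llg_hi m

/-- The split check. -/
theorem c11_omU_lo_all {o : PtR} (m : o.In box11) :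
    0 ≤ (piece11.env bandHigh.lo bandHigh.hi bandHigh.pole .omU).val o.x := by
  obtain ⟨hu, hX, ha, hI⟩ := m.bounds
  simp only [box11] at hu hX ha hI
  norm_num at hu hX ha hI
  rcases le_total o.a (1 / 5 : ℝ) with h20 | h20
  ·
    refine QEx.nonneg_on_box c11_omU_lo_0 (PtR.In.of_bounds ?_ ?_ ?_ ?_) <;>
      simp only [box11_0, InChart] <;> norm_num <;> (try constructor) <;> linarith
  ·
    refine QEx.nonneg_on_box c11_omU_lo_1 (PtR.In.of_bounds ?_ ?_ ?_ ?_) <;>
      simp only [box11_1, InChart] <;> norm_num <;> (try constructor) <;> linarith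

/-- The split check. -/
theorem c11_omU_hi_all {o : PtR} (m : o.In box11) :
    0 ≤ (piece11.env bandHigh.hi bandHigh.hi bandHigh.pole .omU).val o.x := by
  obtain ⟨hu, hX, ha, hI⟩ := m.bounds
  simp only [box11] at hu hX ha hI
  norm_num at hu hX ha hI
  rcases le_total o.a (1 / 5 : ℝ) with h20 | h20
  ·
    refine QEx.nonneg_on_box c11_omU_hi_0 (PtR.In.of_bounds ?_ ?_ ?_ ?_) <;>
      simp only [box11_0, InChart] <;> norm_num <;> (try constructor) <;> linarith
  ·
    refine QEx.nonneg_on_box c11_omU_hi_1 (PtR.In.of_bounds ?_ ?_ ?_ ?_) <;>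
      simp only [box11_1, InChart] <;> norm_num <;> (try constructor) <;> linarith

/-- The piece 11 holds on its box. -/
theorem piece11_holds {o : PtR} (m : o.In box11) : piece11.AllHold bandHigh o where
  forms :=
    { forms := fun q h k =>
        match q, h, k with
        | .g, false, .lo => QEx.nonneg_on_box c11_g_false_lo m
        | .g, false, .hi => QEx.nonneg_on_box c11_g_false_hi m
        | .g, false, .mid => QEx.nonneg_on_box c11_g_false_mid m
        | .g, true, .lo => QEx.nonneg_on_box c11_g_true_lo m
        | .g, true, .hi => QEx.nonneg_on_box c11_g_true_hi m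
        | .g, true, .mid => QEx.nonneg_on_box c11_g_true_mid m
        | .n, false, .lo => QEx.nonneg_on_box c11_n_false_lo m
        | .n, false, .hi => QEx.nonneg_on_box c11_n_false_hi m
        | .n, false, .mid => QEx.nonneg_on_box c11_n_false_mid m
        | .n, true, .lo => QEx.nonneg_on_box c11_n_true_lo m
        | .n, true, .hi => QEx.nonneg_on_box c11_n_true_hi m
        | .n, true, .mid => QEx.nonneg_on_box c11_n_true_mid m
        | .tlo, false, .lo => QEx.nonneg_on_box c11_tlo_false_lo m
        | .tlo, false, .hi => QEx.nonneg_on_box c11_tlo_false_hi m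
        | .tlo, false, .mid => QEx.nonneg_on_box c11_tlo_false_mid m
        | .tlo, true, .lo => QEx.nonneg_on_box c11_tlo_true_lo m
        | .tlo, true, .hi => QEx.nonneg_on_box c11_tlo_true_hi m
        | .tlo, true, .mid => QEx.nonneg_on_box c11_tlo_true_mid m
        | .thi, false, .lo => QEx.nonneg_on_box c11_thi_false_lo m
        | .thi, false, .hi => QEx.nonneg_on_box c11_thi_false_hi m
        | .thi, false, .mid => QEx.nonneg_on_box c11_thi_false_mid m
        | .thi, true, .lo => QEx.nonneg_on_box c11_thi_true_lo m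
        | .thi, true, .hi => QEx.nonneg_on_box c11_thi_true_hi m
        | .thi, true, .mid => QEx.nonneg_on_box c11_thi_true_mid m
        | .mlo, false, .lo => QEx.nonneg_on_box c11_mlo_false_lo m
        | .mlo, false, .hi => QEx.nonneg_on_box c11_mlo_false_hi m
        | .mlo, false, .mid => QEx.nonneg_on_box c11_mlo_false_mid m
        | .mlo, true, .lo => QEx.nonneg_on_box c11_mlo_false_lo m
        | .mlo, true, .hi => QEx.nonneg_on_box c11_mlo_false_hi m
        | .mlo, true, .mid => QEx.nonneg_on_box c11_mlo_false_mid m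
        | .mhi, false, .lo => QEx.nonneg_on_box c11_mhi_false_lo m
        | .mhi, false, .hi => QEx.nonneg_on_box c11_mhi_false_hi m
        | .mhi, false, .mid => QEx.nonneg_on_box c11_mhi_false_mid m
        | .mhi, true, .lo => QEx.nonneg_on_box c11_mhi_false_lo m
        | .mhi, true, .hi => QEx.nonneg_on_box c11_mhi_false_hi m
        | .mhi, true, .mid => QEx.nonneg_on_box c11_mhi_false_mid m
        | .f, false, .lo => QEx.nonneg_on_box c11_f_false_lo m
        | .f, false, .hi => QEx.nonneg_on_box c11_f_false_hi m
        | .f, false, .mid => QEx.nonneg_on_box c11_f_false_mid m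
        | .f, true, .lo => QEx.nonneg_on_box c11_f_true_lo m
        | .f, true, .hi => QEx.nonneg_on_box c11_f_true_hi m
        | .f, true, .mid => QEx.nonneg_on_box c11_f_true_mid m
      side := fun e =>
        match e with
        | .rA => QEx.nonneg_on_box c11_side_rA m
        | .rB => QEx.nonneg_on_box c11_side_rB m
        | .rF => QEx.nonneg_on_box c11_side_rF m
        | .q => QEx.nonneg_on_box c11_side_q m
        | .om => QEx.nonneg_on_box c11_side_om m
      nums := by decide }
  env :=
    { lo := fun e =>
        match e with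
        | .piL => QEx.nonneg_on_box c11_piL_lo m
        | .piU => QEx.nonneg_on_box c11_piU_lo m
        | .omL => QEx.nonneg_on_box c11_omL_lo m
        | .omU => c11_omU_lo_all m
        | .tauL => QEx.nonneg_on_box c11_tauL_lo m
        | .tauU => QEx.nonneg_on_box c11_tauU_lo m
      hi := fun e =>
        match e with
        | .piL => QEx.nonneg_on_box c11_piL_hi m
        | .piU => QEx.nonneg_on_box c11_piU_hi m
        | .omL => QEx.nonneg_on_box c11_omL_hi m
        | .omU => c11_omU_hi_all m
        | .tauL => QEx.nonneg_on_box c11_tauL_hi m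
        | .tauU => QEx.nonneg_on_box c11_tauU_hi m
      wid := QEx.nonneg_on_box c11_wid m }
  rayLo := QEx.nonneg_on_box c11_llg_lo m
  rayHi := QEx.nonneg_on_box c11_llg_hi m

/-- The split check. -/
theorem c12_piL_lo_all {o : PtR} (m : o.In box12) :
    0 ≤ (piece12.env bandHigh.lo bandHigh.hi bandHigh.pole .piL).val o.x := by
  obtain ⟨hu, hX, ha, hI⟩ := m.bounds
  simp only [box12] at hu hX ha hI
  norm_num at hu hX ha hI
  rcases le_total o.a (11 / 40 : ℝ) with h20 | h20
  ·
    refine QEx.nonneg_on_box c12_piL_lo_0 (PtR.In.of_bounds ?_ ?_ ?_ ?_) <;>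
      simp only [box12_0, InChart] <;> norm_num <;> (try constructor) <;> linarith
  ·
    refine QEx.nonneg_on_box c12_piL_lo_1 (PtR.In.of_bounds ?_ ?_ ?_ ?_) <;>
      simp only [box12_1, InChart] <;> norm_num <;> (try constructor) <;> linarith

/-- The split check. -/
theorem c12_piU_hi_all {o : PtR} (m : o.In box12) :
    0 ≤ (piece12.env bandHigh.hi bandHigh.hi bandHigh.pole .piU).val o.x := by
  obtain ⟨hu, hX, ha, hI⟩ := m.bounds
  simp only [box12] at hu hX ha hI
  norm_num at hu hX ha hI
  rcases le_total o.u (39 / 80 : ℝ) with h00 | h00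
  ·
    rcases le_total o.X (31 / 20 : ℝ) with h10 | h10
    ·
      refine QEx.nonneg_on_box c12_piU_hi_0 (PtR.In.of_bounds ?_ ?_ ?_ ?_) <;>
        simp only [box12_2, InChart] <;> norm_num <;> (try constructor) <;> linarith
    ·
      refine QEx.nonneg_on_box c12_piU_hi_1 (PtR.In.of_bounds ?_ ?_ ?_ ?_) <;>
        simp only [box12_3, InChart] <;> norm_num <;> (try constructor) <;> linarith
  ·
    rcases le_total o.X (31 / 20 : ℝ) with h10 | h10
    ·
      refine QEx.nonneg_on_box c12_piU_hi_2 (PtR.In.of_bounds ?_ ?_ ?_ ?_) <;>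
        simp only [box12_4, InChart] <;> norm_num <;> (try constructor) <;> linarith
    ·
      refine QEx.nonneg_on_box c12_piU_hi_3 (PtR.In.of_bounds ?_ ?_ ?_ ?_) <;>
        simp only [box12_5, InChart] <;> norm_num <;> (try constructor) <;> linarith

/-- The split check. -/
theorem c12_omU_lo_all {o : PtR} (m : o.In box12) :
    0 ≤ (piece12.env bandHigh.lo bandHigh.hi bandHigh.pole .omU).val o.x := by
  obtain ⟨hu, hX, ha, hI⟩ := m.bounds
  simp only [box12] at hu hX ha hI
  norm_num at hu hX ha hI
  rcases le_total o.X (31 / 20 : ℝ) with h10 | h10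
  ·
    refine QEx.nonneg_on_box c12_omU_lo_0 (PtR.In.of_bounds ?_ ?_ ?_ ?_) <;>
      simp only [box12_6, InChart] <;> norm_num <;> (try constructor) <;> linarith
  ·
    refine QEx.nonneg_on_box c12_omU_lo_1 (PtR.In.of_bounds ?_ ?_ ?_ ?_) <;>
      simp only [box12_7, InChart] <;> norm_num <;> (try constructor) <;> linarith

/-- The split check. -/
theorem c12_omU_hi_all {o : PtR} (m : o.In box12) :
    0 ≤ (piece12.env bandHigh.hi bandHigh.hi bandHigh.pole .omU).val o.x := by
  obtain ⟨hu, hX, ha, hI⟩ := m.bounds
  simp only [box12] at hu hX ha hI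
  norm_num at hu hX ha hI
  rcases le_total o.u (39 / 80 : ℝ) with h00 | h00
  ·
    rcases le_total o.X (31 / 20 : ℝ) with h10 | h10
    ·
      refine QEx.nonneg_on_box c12_omU_hi_0 (PtR.In.of_bounds ?_ ?_ ?_ ?_) <;>
        simp only [box12_2, InChart] <;> norm_num <;> (try constructor) <;> linarith
    ·
      refine QEx.nonneg_on_box c12_omU_hi_1 (PtR.In.of_bounds ?_ ?_ ?_ ?_) <;>
        simp only [box12_3, InChart] <;> norm_num <;> (try constructor) <;> linarith
  ·
    rcases le_total o.X (31 / 20 : ℝ) with h10 | h10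
    ·
      refine QEx.nonneg_on_box c12_omU_hi_2 (PtR.In.of_bounds ?_ ?_ ?_ ?_) <;>
        simp only [box12_4, InChart] <;> norm_num <;> (try constructor) <;> linarith
    ·
      refine QEx.nonneg_on_box c12_omU_hi_3 (PtR.In.of_bounds ?_ ?_ ?_ ?_) <;>
        simp only [box12_5, InChart] <;> norm_num <;> (try constructor) <;> linarith

/-- The split check. -/
theorem c12_tauL_lo_all {o : PtR} (m : o.In box12) :
    0 ≤ (piece12.env bandHigh.lo bandHigh.hi bandHigh.pole .tauL).val o.x := by
  obtain ⟨hu, hX, ha, hI⟩ := m.bounds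
  simp only [box12] at hu hX ha hI
  norm_num at hu hX ha hI
  rcases le_total o.a (11 / 40 : ℝ) with h20 | h20
  ·
    rcases le_total o.I (1 / 40 : ℝ) with h30 | h30
    ·
      refine QEx.nonneg_on_box c12_tauL_lo_0 (PtR.In.of_bounds ?_ ?_ ?_ ?_) <;>
        simp only [box12_8, InChart] <;> norm_num <;> (try constructor) <;> linarith
    ·
      refine QEx.nonneg_on_box c12_tauL_lo_1 (PtR.In.of_bounds ?_ ?_ ?_ ?_) <;>
        simp only [box12_9, InChart] <;> norm_num <;> (try constructor) <;> linarith
  ·
    rcases le_total o.I (1 / 40 : ℝ) with h30 | h30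
    ·
      refine QEx.nonneg_on_box c12_tauL_lo_2 (PtR.In.of_bounds ?_ ?_ ?_ ?_) <;>
        simp only [box12_10, InChart] <;> norm_num <;> (try constructor) <;> linarith
    ·
      refine QEx.nonneg_on_box c12_tauL_lo_3 (PtR.In.of_bounds ?_ ?_ ?_ ?_) <;>
        simp only [box12_11, InChart] <;> norm_num <;> (try constructor) <;> linarith

/-- The split check. -/
theorem c12_tauL_hi_all {o : PtR} (m : o.In box12) :
    0 ≤ (piece12.env bandHigh.hi bandHigh.hi bandHigh.pole .tauL).val o.x := by
  obtain ⟨hu, hX, ha, hI⟩ := m.bounds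
  simp only [box12] at hu hX ha hI
  norm_num at hu hX ha hI
  rcases le_total o.a (11 / 40 : ℝ) with h20 | h20
  ·
    refine QEx.nonneg_on_box c12_tauL_hi_0 (PtR.In.of_bounds ?_ ?_ ?_ ?_) <;>
      simp only [box12_0, InChart] <;> norm_num <;> (try constructor) <;> linarith
  ·
    refine QEx.nonneg_on_box c12_tauL_hi_1 (PtR.In.of_bounds ?_ ?_ ?_ ?_) <;>
      simp only [box12_1, InChart] <;> norm_num <;> (try constructor) <;> linarith

/-- The split check. -/
theorem c12_side_rF_all {o : PtR} (m : o.In box12) :
    0 ≤ (piece12.side .rF).val o.x := by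
  obtain ⟨hu, hX, ha, hI⟩ := m.bounds
  simp only [box12] at hu hX ha hI
  norm_num at hu hX ha hI
  rcases le_total o.u (39 / 80 : ℝ) with h00 | h00
  ·
    rcases le_total o.X (251 / 200 : ℝ) with h10 | h10
    ·
      refine QEx.nonneg_on_box c12_side_rF_0 (PtR.In.of_bounds ?_ ?_ ?_ ?_) <;>
        simp only [box12_12, InChart] <;> norm_num <;> (try constructor) <;> linarith
    ·
      rcases le_total o.X (31 / 20 : ℝ) with h11 | h11
      ·
        refine QEx.nonneg_on_box c12_side_rF_1 (PtR.In.of_bounds ?_ ?_ ?_ ?_) <;>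
          simp only [box12_13, InChart] <;> norm_num <;> (try constructor) <;> linarith
      ·
        rcases le_total o.X (369 / 200 : ℝ) with h12 | h12
        ·
          refine QEx.nonneg_on_box c12_side_rF_2 (PtR.In.of_bounds ?_ ?_ ?_ ?_) <;>
            simp only [box12_14, InChart] <;> norm_num <;> (try constructor) <;> linarith
        ·
          refine QEx.nonneg_on_box c12_side_rF_3 (PtR.In.of_bounds ?_ ?_ ?_ ?_) <;>
            simp only [box12_15, InChart] <;> norm_num <;> (try constructor) <;> linarith
  ·
    rcases le_total o.X (251 / 200 : ℝ) with h10 | h10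
    ·
      refine QEx.nonneg_on_box c12_side_rF_4 (PtR.In.of_bounds ?_ ?_ ?_ ?_) <;>
        simp only [box12_16, InChart] <;> norm_num <;> (try constructor) <;> linarith
    ·
      rcases le_total o.X (31 / 20 : ℝ) with h11 | h11
      ·
        refine QEx.nonneg_on_box c12_side_rF_5 (PtR.In.of_bounds ?_ ?_ ?_ ?_) <;>
          simp only [box12_17, InChart] <;> norm_num <;> (try constructor) <;> linarith
      ·
        rcases le_total o.X (369 / 200 : ℝ) with h12 | h12
        ·
          refine QEx.nonneg_on_box c12_side_rF_6 (PtR.In.of_bounds ?_ ?_ ?_ ?_) <;>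
            simp only [box12_18, InChart] <;> norm_num <;> (try constructor) <;> linarith
        ·
          refine QEx.nonneg_on_box c12_side_rF_7 (PtR.In.of_bounds ?_ ?_ ?_ ?_) <;>
            simp only [box12_19, InChart] <;> norm_num <;> (try constructor) <;> linarith

/-- The piece 12 holds on its box. -/
theorem piece12_holds {o : PtR} (m : o.In box12) : piece12.AllHold bandHigh o where
  forms :=
    { forms := fun q h k =>
        match q, h, k with
        | .g, false, .lo => QEx.nonneg_on_box c12_g_false_lo m
        | .g, false, .hi => QEx.nonneg_on_box c12_g_false_hi m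
        | .g, false, .mid => QEx.nonneg_on_box c12_g_false_mid m
        | .g, true, .lo => QEx.nonneg_on_box c12_g_true_lo m
        | .g, true, .hi => QEx.nonneg_on_box c12_g_true_hi m
        | .g, true, .mid => QEx.nonneg_on_box c12_g_true_mid m
        | .n, false, .lo => QEx.nonneg_on_box c12_n_false_lo m
        | .n, false, .hi => QEx.nonneg_on_box c12_n_false_hi m
        | .n, false, .mid => QEx.nonneg_on_box c12_n_false_mid m
        | .n, true, .lo => QEx.nonneg_on_box c12_n_true_lo m
        | .n, true, .hi => QEx.nonneg_on_box c12_n_true_hi m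
        | .n, true, .mid => QEx.nonneg_on_box c12_n_true_mid m
        | .tlo, false, .lo => QEx.nonneg_on_box c12_tlo_false_lo m
        | .tlo, false, .hi => QEx.nonneg_on_box c12_tlo_false_hi m
        | .tlo, false, .mid => QEx.nonneg_on_box c12_tlo_false_mid m
        | .tlo, true, .lo => QEx.nonneg_on_box c12_tlo_true_lo m
        | .tlo, true, .hi => QEx.nonneg_on_box c12_tlo_true_hi m
        | .tlo, true, .mid => QEx.nonneg_on_box c12_tlo_true_mid m
        | .thi, false, .lo => QEx.nonneg_on_box c12_thi_false_lo m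
        | .thi, false, .hi => QEx.nonneg_on_box c12_thi_false_hi m
        | .thi, false, .mid => QEx.nonneg_on_box c12_thi_false_mid m
        | .thi, true, .lo => QEx.nonneg_on_box c12_thi_true_lo m
        | .thi, true, .hi => QEx.nonneg_on_box c12_thi_true_hi m
        | .thi, true, .mid => QEx.nonneg_on_box c12_thi_true_mid m
        | .mlo, false, .lo => QEx.nonneg_on_box c12_mlo_false_lo m
        | .mlo, false, .hi => QEx.nonneg_on_box c12_mlo_false_hi m
        | .mlo, false, .mid => QEx.nonneg_on_box c12_mlo_false_mid m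
        | .mlo, true, .lo => QEx.nonneg_on_box c12_mlo_false_lo m
        | .mlo, true, .hi => QEx.nonneg_on_box c12_mlo_false_hi m
        | .mlo, true, .mid => QEx.nonneg_on_box c12_mlo_false_mid m
        | .mhi, false, .lo => QEx.nonneg_on_box c12_mhi_false_lo m
        | .mhi, false, .hi => QEx.nonneg_on_box c12_mhi_false_hi m
        | .mhi, false, .mid => QEx.nonneg_on_box c12_mhi_false_mid m
        | .mhi, true, .lo => QEx.nonneg_on_box c12_mhi_false_lo m
        | .mhi, true, .hi => QEx.nonneg_on_box c12_mhi_false_hi m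
        | .mhi, true, .mid => QEx.nonneg_on_box c12_mhi_false_mid m
        | .f, false, .lo => QEx.nonneg_on_box c12_f_false_lo m
        | .f, false, .hi => QEx.nonneg_on_box c12_f_false_hi m
        | .f, false, .mid => QEx.nonneg_on_box c12_f_false_mid m
        | .f, true, .lo => QEx.nonneg_on_box c12_f_true_lo m
        | .f, true, .hi => QEx.nonneg_on_box c12_f_true_hi m
        | .f, true, .mid => QEx.nonneg_on_box c12_f_true_mid m
      side := fun e =>
        match e with
        | .rA => QEx.nonneg_on_box c12_side_rA m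
        | .rB => QEx.nonneg_on_box c12_side_rB m
        | .rF => c12_side_rF_all m
        | .q => QEx.nonneg_on_box c12_side_q m
        | .om => QEx.nonneg_on_box c12_side_om m
      nums := by decide }
  env :=
    { lo := fun e =>
        match e with
        | .piL => c12_piL_lo_all m
        | .piU => QEx.nonneg_on_box c12_piU_lo m
        | .omL => QEx.nonneg_on_box c12_omL_lo m
        | .omU => c12_omU_lo_all m
        | .tauL => c12_tauL_lo_all m
        | .tauU => QEx.nonneg_on_box c12_tauU_lo m
      hi := fun e =>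
        match e with
        | .piL => QEx.nonneg_on_box c12_piL_hi m
        | .piU => c12_piU_hi_all m
        | .omL => QEx.nonneg_on_box c12_omL_hi m
        | .omU => c12_omU_hi_all m
        | .tauL => c12_tauL_hi_all m
        | .tauU => QEx.nonneg_on_box c12_tauU_hi m
      wid := QEx.nonneg_on_box c12_wid m }
  rayLo := QEx.nonneg_on_box c12_llg_lo m
  rayHi := QEx.nonneg_on_box c12_llg_hi m

end Vale.Agent.P100.Calib.Closed.All.Low
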