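import Vale.Agent.P100.Calib.SlabAllSignsPieces

/-!
# Checks of the certificate of the signs on `0 < u ≤ 3/5`
-/

set_option linter.defProp false

namespace Vale.Agent.P100.Calib.Closed.All.Low

/-- A check of the piece 5. -/
def c5_piL_lo :
    checkShift box5 146 3 2 4 8
      (piece5.env bandLow.lo bandLow.hi bandLow.pole .piL).e = true := by
  decide +kernel

/-- A check of the piece 5. -/
def c5_piL_hi :
    checkShift box5 167 5 2 5 8
      (piece5.env bandLow.hi bandLow.hi bandLow.pole .piL).e = true := by
  decide +kernel

/-- A check of the piece 5. -/
def c5_piU_lo :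
    checkShift box5 146 3 2 4 8
      (piece5.env bandLow.lo bandLow.hi bandLow.pole .piU).e = true := by
  decide +kernel

/-- A check of the piece 5. -/
def c5_piU_hi :
    checkShift box5 167 5 2 5 8
      (piece5.env bandLow.hi bandLow.hi bandLow.pole .piU).e = true := by
  decide +kernel

/-- A check of the piece 5. -/
def c5_omL_lo :
    checkShift box5 256 5 4 7 12
      (piece5.env bandLow.lo bandLow.hi bandLow.pole .omL).e = true := by
  decide +kernel

/-- A check of the piece 5. -/
def c5_omL_hi :
    checkShift box5 276 7 4 8 12
      (piece5.env bandLow.hi bandLow.hi bandLow.pole .omL).e = true := by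
  decide +kernel

/-- A check of the piece 5. -/
def c5_omU_lo :
    checkShift box5 256 5 4 7 12
      (piece5.env bandLow.lo bandLow.hi bandLow.pole .omU).e = true := by
  decide +kernel

/-- A check of the piece 5. -/
def c5_omU_hi_0 :
    checkShift box5_0 296 7 4 8 12
      (piece5.env bandLow.hi bandLow.hi bandLow.pole .omU).e = true := by
  decide +kernel

/-- A check of the piece 5. -/
def c5_omU_hi_1 :
    checkShift box5_1 297 7 4 8 12
      (piece5.env bandLow.hi bandLow.hi bandLow.pole .omU).e = true := by
  decide +kernel

/-- A check of the piece 5. -/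
def c5_omU_hi_2 :
    checkShift box5_2 296 7 4 8 12
      (piece5.env bandLow.hi bandLow.hi bandLow.pole .omU).e = true := by
  decide +kernel

/-- A check of the piece 5. -/
def c5_omU_hi_3 :
    checkShift box5_3 297 7 4 8 12
      (piece5.env bandLow.hi bandLow.hi bandLow.pole .omU).e = true := by
  decide +kernel

/-- A check of the piece 5. -/
def c5_tauL_lo_0 :
    checkShift box5_4 321 9 4 9 15
      (piece5.env bandLow.lo bandLow.hi bandLow.pole .tauL).e = true := by
  decide +kernel

/-- A check of the piece 5. -/
def c5_tauL_lo_1 :
    checkShift box5_5 321 9 4 9 15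
      (piece5.env bandLow.lo bandLow.hi bandLow.pole .tauL).e = true := by
  decide +kernel

/-- A check of the piece 5. -/
def c5_tauL_hi_0 :
    checkShift box5_4 329 9 4 10 15
      (piece5.env bandLow.hi bandLow.hi bandLow.pole .tauL).e = true := by
  decide +kernel

/-- A check of the piece 5. -/
def c5_tauL_hi_1 :
    checkShift box5_5 330 9 4 10 15
      (piece5.env bandLow.hi bandLow.hi bandLow.pole .tauL).e = true := by
  decide +kernel

/-- A check of the piece 5. -/
def c5_tauU_lo :
    checkShift box5 287 5 4 9 15
      (piece5.env bandLow.lo bandLow.hi bandLow.pole .tauU).e = true := by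
  decide +kernel

/-- A check of the piece 5. -/
def c5_tauU_hi :
    checkShift box5 320 9 4 10 15
      (piece5.env bandLow.hi bandLow.hi bandLow.pole .tauU).e = true := by
  decide +kernel

/-- A check of the piece 5. -/
def c5_wid :
    checkShift box5 65 1 1 1 1
      (piece5.wid - qD 1).e = true := by
  decide +kernel

/-- A check of the piece 5. -/
def c5_llg_lo :
    checkShift box5 252 3 4 11 18
      (xLLG bandLow.lo bandLow.pole).e = true := by
  decide +kernel

/-- A check of the piece 5. -/
def c5_llg_hi :
    checkShift box5 272 5 4 12 18
      (xLLG bandLow.hi bandLow.pole).e = true := by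
  decide +kernel

/-- A check of the piece 5. -/
def c5_side_rA :
    checkShift box5 40 1 1 0 0
      (piece5.side .rA).e = true := by
  decide +kernel

/-- A check of the piece 5. -/
def c5_side_rB :
    checkShift box5 38 1 1 0 0
      (piece5.side .rB).e = true := by
  decide +kernel

/-- A check of the piece 5. -/
def c5_side_rF_0 :
    checkShift box5_6 80 2 2 0 0
      (piece5.side .rF).e = true := by
  decide +kernel

/-- A check of the piece 5. -/
def c5_side_rF_1 :
    checkShift box5_7 80 2 2 0 0
      (piece5.side .rF).e = true := by
  decide +kernel

/-- A check of the piece 5. -/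
def c5_side_rF_2 :
    checkShift box5_8 80 2 2 0 0
      (piece5.side .rF).e = true := by
  decide +kernel

/-- A check of the piece 5. -/
def c5_side_rF_3 :
    checkShift box5_9 80 2 2 0 0
      (piece5.side .rF).e = true := by
  decide +kernel

/-- A check of the piece 5. -/
def c5_side_rF_4 :
    checkShift box5_10 80 2 2 0 0
      (piece5.side .rF).e = true := by
  decide +kernel

/-- A check of the piece 5. -/
def c5_side_rF_5 :
    checkShift box5_11 80 2 2 0 0
      (piece5.side .rF).e = true := by
  decide +kernel

/-- A check of the piece 5. -/
def c5_side_rF_6 :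
    checkShift box5_12 80 2 2 0 0
      (piece5.side .rF).e = true := by
  decide +kernel

/-- A check of the piece 5. -/
def c5_side_rF_7 :
    checkShift box5_13 80 2 2 0 0
      (piece5.side .rF).e = true := by
  decide +kernel

/-- A check of the piece 5. -/
def c5_side_q :
    checkShift box5 38 0 1 1 2
      (piece5.side .q).e = true := by
  decide +kernel

/-- A check of the piece 5. -/
def c5_side_om :
    checkShift box5 121 1 2 4 6
      (piece5.side .om).e = true := by
  decide +kernel

end Vale.Agent.P100.Calib.Closed.All.Low
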