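import Vale.Agent.P100.Calib.SlabAllSignsSound

/-!
# The bounds of a piece between two bands
-/

set_option linter.unusedVariables false
set_option linter.unusedSimpArgs false

namespace Vale.Agent.P100.Calib.Closed.All.Low

namespace PtR

variable (o : PtR) (H : ℝ)

/-- The denominator of `g` at `H`. -/
def den : ℝ := o.D0 - o.u * o.d * H
/-- The numerator of `g`. -/
def qn : ℝ := o.D0 * o.b - o.S * o.u * o.Q
/-- `pi` at `H`. -/
noncomputable def piH : ℝ :=
  (4 * o.qn * H - 4 * o.S * o.den H) / (o.I * o.S * o.den H)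
/-- `g W1/I` at `H`. -/
noncomputable def omH : ℝ :=
  4 * o.qn * (H * (o.u * o.S * (o.a - (1 - o.a) * o.d * o.v) - o.b * (1 + 2 * o.I)) +
      o.S * (1 + (1 - o.a) * o.v)) / (o.u * o.I * o.b ^ 2 * o.S ^ 2 * o.den H)
/-- `tau` at `H`. -/
noncomputable def tauH : ℝ := (1 - o.u * o.d * H) / (o.Q * o.b)

theorem val_qn : xqn.val o.x = o.qn := by
  obtain ⟨eu, -, -, -, -, eb, -, eQ, eD, eS, -, -⟩ := o.vals
  simp only [xqn, qn, val_sub, val_mul, eu, eb, eQ, eD, eS]

theorem val_den (n p : QEx) :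
    (xDen n p).val o.x = o.D0 * p.val o.x - o.u * o.d * n.val o.x := by
  obtain ⟨eu, -, -, -, ed, -, -, -, eD, -, -, -⟩ := o.vals
  simp only [xDen, val_sub, val_mul, eu, ed, eD]

theorem val_Pn (n p : QEx) : (xPn n p).val o.x =
    4 * o.qn * n.val o.x - 4 * o.S * (o.D0 * p.val o.x - o.u * o.d * n.val o.x) := by
  obtain ⟨-, -, -, -, -, -, -, -, -, eS, -, -⟩ := o.vals
  simp only [xPn, val_sub, val_mul, val_num, o.val_qn, o.val_den, eS]
  push_cast; ring

theorem val_Wn (n p : QEx) : (xWn n p).val o.x = 4 * o.qn *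
    (n.val o.x * (o.u * o.S * (o.a - (1 - o.a) * o.d * o.v) - o.b * (1 + 2 * o.I)) +
      o.S * (1 + (1 - o.a) * o.v) * p.val o.x) := by
  obtain ⟨eu, -, ea, eI, ed, eb, ev, -, -, eS, -, -⟩ := o.vals
  simp only [xWn, val_add, val_sub, val_mul, val_num, o.val_qn, eu, ea, eI, ed, eb, ev, eS]
  push_cast; ring

end PtR

/-- The checks of the bounds hold at a point. -/
structure Piece.HoldsEnv (P : Piece) (B : BandEx) (o : PtR) : Prop where
  lo : ∀ e, 0 ≤ (P.env B.lo B.hi B.pole e).val o.x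
  hi : ∀ e, 0 ≤ (P.env B.hi B.hi B.pole e).val o.x
  wid : 0 ≤ (P.wid - qD 1).val o.x

/-- What holds of the number `H`. -/
structure PtR.Adm (o : PtR) (B : BandEx) (H : ℝ) : Prop where
  den_pos : 0 < o.den H
  pole_pos : 0 < B.pole.val o.x
  lo : B.lo.val o.x ≤ H * B.pole.val o.x
  hi : H * B.pole.val o.x ≤ B.hi.val o.x

/-- `pi - piL`, scaled, at the numerator `n`. -/
noncomputable def Piece.riseAt (P : Piece) (o : PtR) (n p : ℝ) : ℝ :=
  4 * o.qn * n - 4 * o.S * (o.D0 * p - o.u * o.d * n) -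
    (P.piL.ex P.o).val o.x * o.I * o.S * (o.D0 * p - o.u * o.d * n)

variable (P : Piece) (o : PtR) (n nU p : QEx)

theorem Piece.val_rise : (P.xRise n p).val o.x = P.riseAt o (n.val o.x) (p.val o.x) := by
  obtain ⟨-, -, -, eI, -, -, -, -, -, eS, -, -⟩ := o.vals
  simp only [Piece.xRise, Piece.riseAt, val_sub, val_mul, o.val_Pn, o.val_den, eI, eS]

theorem Piece.val_piU : (P.env n nU p .piU).val o.x =
    (P.piU.ex P.o).val o.x * o.I * o.S * (o.D0 * p.val o.x - o.u * o.d * n.val o.x) -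
      (4 * o.qn * n.val o.x - 4 * o.S * (o.D0 * p.val o.x - o.u * o.d * n.val o.x)) := by
  obtain ⟨-, -, -, eI, -, -, -, -, -, eS, -, -⟩ := o.vals
  simp only [Piece.env, val_sub, val_mul, o.val_Pn, o.val_den, eI, eS]

theorem Piece.val_xOm (e : QEx) : (P.xOm e n p).val o.x =
    o.u * o.b ^ 2 * o.S * (P.riseAt o (n.val o.x) (p.val o.x) *
        ((P.om₁.ex P.o).val o.x - (P.om₀.ex P.o).val o.x)) +
      ((P.om₀.ex P.o).val o.x - e.val o.x) * ((P.piU.ex P.o).val o.x - (P.piL.ex P.o).val o.x) *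
        o.u * o.I * o.b ^ 2 * o.S ^ 2 * (o.D0 * p.val o.x - o.u * o.d * n.val o.x) := by
  obtain ⟨eu, -, -, eI, -, eb, -, -, -, eS, -, -⟩ := o.vals
  simp only [Piece.xOm, Piece.wid, val_add, val_sub, val_mul, val_pow, P.val_rise, o.val_den, eu,
    eI, eb, eS]

theorem Piece.val_xTau (e : QEx) : (P.xTau e n p).val o.x =
    (((P.tau₀.ex P.o).val o.x + e.val o.x) *
        ((P.piU.ex P.o).val o.x - (P.piL.ex P.o).val o.x) * o.I * o.S *
        (o.D0 * p.val o.x - o.u * o.d * n.val o.x) +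
      P.riseAt o (n.val o.x) (p.val o.x) *
        ((P.tau₁.ex P.o).val o.x - (P.tau₀.ex P.o).val o.x)) * (o.Q * o.b * p.val o.x) := by
  obtain ⟨-, -, -, eI, -, eb, -, eQ, -, eS, -, -⟩ := o.vals
  simp only [Piece.xTau, Piece.wid, val_add, val_sub, val_mul, P.val_rise, o.val_den, eI, eb, eQ,
    eS]

theorem Piece.val_tauU : (P.env n nU p .tauU).val o.x =
    (P.xTau (qD P.wtau) n p).val o.x -
      ((P.piU.ex P.o).val o.x - (P.piL.ex P.o).val o.x) * (p.val o.x - o.u * o.d * n.val o.x) *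
        (o.D0 * p.val o.x - o.u * o.d * n.val o.x) * o.I * o.S := by
  obtain ⟨eu, -, -, eI, ed, -, -, -, -, eS, -, -⟩ := o.vals
  simp only [Piece.env, Piece.wid, val_sub, val_mul, o.val_den, eu, eI, ed, eS]

theorem Piece.val_tauL : (P.env n nU p .tauL).val o.x =
    ((P.piU.ex P.o).val o.x - (P.piL.ex P.o).val o.x) *
        ((p.val o.x - o.u * o.d * nU.val o.x) * (o.D0 * p.val o.x - o.u * o.d * n.val o.x) +
          (o.u * o.d * nU.val o.x - o.u * o.d * n.val o.x) *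
            (o.D0 * p.val o.x - o.u * o.d * nU.val o.x)) * o.I * o.S -
      (P.xTau (qN 0) n p).val o.x := by
  obtain ⟨eu, -, -, eI, ed, -, -, -, -, eS, -, -⟩ := o.vals
  simp only [Piece.env, Piece.wid, val_add, val_sub, val_mul, o.val_den, eu, eI, ed, eS]

/-- The bounds of `tau` from the checks at the ends. -/
theorem tau_bounds {IS D0 ud qn S pL pU t₀ t₁ w Qb p N nl nh s k π τ : ℝ} (hIS : 0 ≤ IS)
    (hwid : 0 < pU - pL) (hk : 0 < k * (Qb * p)) (s0 : 0 ≤ s) (s1 : s ≤ 1)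
    (hN : N = (1 - s) * nl + s * nh) (ek : k = IS * (D0 * p - ud * N))
    (ePi : π * k = 4 * qn * N - 4 * S * (D0 * p - ud * N)) (eTau : τ * (Qb * p) = p - ud * N)
    (lL : 0 ≤ (pU - pL) * ((p - ud * nh) * (D0 * p - ud * nl) +
        (ud * nh - ud * nl) * (D0 * p - ud * nh)) * IS -
      (t₀ * (pU - pL) * IS * (D0 * p - ud * nl) + (4 * qn * nl - 4 * S * (D0 * p - ud * nl) -
        pL * IS * (D0 * p - ud * nl)) * (t₁ - t₀)) * (Qb * p))
    (rL : 0 ≤ (pU - pL) * ((p - ud * nh) * (D0 * p - ud * nh)) * IS -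
      (t₀ * (pU - pL) * IS * (D0 * p - ud * nh) + (4 * qn * nh - 4 * S * (D0 * p - ud * nh) -
        pL * IS * (D0 * p - ud * nh)) * (t₁ - t₀)) * (Qb * p))
    (lU : 0 ≤ ((t₀ + w) * (pU - pL) * IS * (D0 * p - ud * nl) +
        (4 * qn * nl - 4 * S * (D0 * p - ud * nl) - pL * IS * (D0 * p - ud * nl)) * (t₁ - t₀)) *
        (Qb * p) - (pU - pL) * (p - ud * nl) * (D0 * p - ud * nl) * IS)
    (rU : 0 ≤ ((t₀ + w) * (pU - pL) * IS * (D0 * p - ud * nh) +
        (4 * qn * nh - 4 * S * (D0 * p - ud * nh) - pL * IS * (D0 * p - ud * nh)) * (t₁ - t₀)) *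
        (Qb * p) - (pU - pL) * (p - ud * nh) * (D0 * p - ud * nh) * IS) :
    (π - pL) * (t₁ - t₀) + t₀ * (pU - pL) ≤ (pU - pL) * τ ∧
      (pU - pL) * τ ≤ (π - pL) * (t₁ - t₀) + (t₀ + w) * (pU - pL) := by
  have q := sub_nonneg.2 s1
  have g1 : 0 ≤ (pU - pL) * IS * (ud * (nh - N)) ^ 2 := by positivity
  have g2 : 0 ≤ (pU - pL) * IS * (s * (1 - s)) * (ud * (nh - nl)) ^ 2 := by
    have := mul_nonneg s0 q; positivity
  constructor
  · rw [← sub_nonneg]
    refine nonneg_of_mul_nonneg_left (b := k * (Qb * p)) (le_of_le_of_eq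
      (add_nonneg (add_nonneg (mul_nonneg q lL) (mul_nonneg s0 rL)) g1) ?_) hk
    rw [show ((pU - pL) * τ - ((π - pL) * (t₁ - t₀) + t₀ * (pU - pL))) * (k * (Qb * p)) =
        (pU - pL) * k * (τ * (Qb * p)) - (π * k - pL * k) * (t₁ - t₀) * (Qb * p) -
          t₀ * (pU - pL) * k * (Qb * p) by ring, eTau, ePi, ek, hN]
    ring
  · rw [← sub_nonneg]
    refine nonneg_of_mul_nonneg_left (b := k * (Qb * p)) (le_of_le_of_eq
      (add_nonneg (add_nonneg (mul_nonneg q lU) (mul_nonneg s0 rU)) g2) ?_) hk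
    rw [show ((π - pL) * (t₁ - t₀) + (t₀ + w) * (pU - pL) - (pU - pL) * τ) * (k * (Qb * p)) =
        (π * k - pL * k) * (t₁ - t₀) * (Qb * p) + (t₀ + w) * (pU - pL) * k * (Qb * p) -
          (pU - pL) * k * (τ * (Qb * p)) by ring, eTau, ePi, ek, hN]
    ring

variable {P o}

/-- **The bounds of a piece hold between the bands.** -/
theorem Piece.HoldsEnv.place {B : BandEx} {H : ℝ} (E : P.HoldsEnv B o)
    (h : o.Pos) (hu : 0 < o.u) (hA : o.Adm B H) :
    ∃ θ, 0 ≤ θ ∧ θ ≤ 1 ∧ o.piH H = P.piR o θ ∧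
      P.omR o θ - (P.wom : ℝ) / 1000 ≤ o.omH H ∧ o.omH H ≤ P.omR o θ ∧
      P.tauR o θ ≤ o.tauH H ∧ o.tauH H ≤ P.tauR o θ + (P.wtau : ℝ) / 1000 := by
  obtain ⟨eu, eX, ea, eI, ed, eb, ev, eQ, eD, eS, e1, e2⟩ := o.vals
  set N := H * B.pole.val o.x with hN
  set p := B.pole.val o.x with hp
  have hp0 : 0 < p := hA.pole_pos
  obtain ⟨s, s0, s1, hs⟩ : ∃ s, 0 ≤ s ∧ s ≤ 1 ∧ N = seg s (B.lo.val o.x) (B.hi.val o.x) := by
    rcases (hA.lo.trans hA.hi).eq_or_lt with e | e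
    · exact ⟨0, le_rfl, zero_le_one, by simp only [seg]; linarith [hA.lo, hA.hi]⟩
    · refine ⟨(N - B.lo.val o.x) / (B.hi.val o.x - B.lo.val o.x),
        div_nonneg (by linarith [hA.lo]) (by linarith),
        (div_le_one (by linarith)).2 (by linarith [hA.hi]), ?_⟩
      have : B.hi.val o.x - B.lo.val o.x ≠ 0 := by linarith
      simp only [seg]; field_simp; ring
  set pL := (P.piL.ex P.o).val o.x with hpL
  set pU := (P.piU.ex P.o).val o.x with hpU
  set w₀ := (P.om₀.ex P.o).val o.x with hw₀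
  set w₁ := (P.om₁.ex P.o).val o.x with hw₁
  set t₀ := (P.tau₀.ex P.o).val o.x with ht₀
  set t₁ := (P.tau₁.ex P.o).val o.x with ht₁
  have hd := hA.den_pos
  have hb := h.b_pos
  have hI := h.I_pos
  have hS := h.S_pos
  have hQ := h.Q_pos
  have hw : (1 : ℝ) / 1000 ≤ pU - pL := by
    have := E.wid
    simp only [Piece.wid, val_sub, val_dec] at this
    push_cast at this
    linarith
  have hwid : 0 < pU - pL := by linarith
  set k := o.I * o.S * o.den H * p with hk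
  have hk0 : 0 < k := by positivity
  have ePi : o.piH H * k = 4 * o.qn * N - 4 * o.S * (o.D0 * p - o.u * o.d * N) := by
    simp only [PtR.piH, hk, hN, PtR.den] at hd ⊢
    have : o.D0 - H * o.u * o.d ≠ 0 := by linarith
    field_simp
  set K := o.u * o.I * o.b ^ 2 * o.S ^ 2 * o.den H * p with hK
  have hK0 : 0 < K := by positivity
  have eOm : o.omH H * K = 4 * o.qn *
      (N * (o.u * o.S * (o.a - (1 - o.a) * o.d * o.v) - o.b * (1 + 2 * o.I)) +
        o.S * (1 + (1 - o.a) * o.v) * p) := by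
    simp only [PtR.omH, hK, hN, PtR.den] at hd ⊢
    have : o.D0 - H * o.u * o.d ≠ 0 := by linarith
    field_simp
  have eTau : o.tauH H * (o.Q * o.b * p) = p - o.u * o.d * N := by
    simp only [PtR.tauH, hN]
    field_simp
  have eDen : o.den H * p = o.D0 * p - o.u * o.d * N := by
    simp only [PtR.den, hN]; ring
  have l := E.lo
  have r := E.hi
  have l1 := l .piL; have r1 := r .piL
  have l2 := l .piU; have r2 := r .piU
  have l3 := l .omL; have r3 := r .omL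
  have l4 := l .omU; have r4 := r .omU
  have l5 := l .tauL; have r5 := r .tauL
  have l6 := l .tauU; have r6 := r .tauU
  simp only [P.val_piU, P.val_tauL, P.val_tauU, P.val_xTau, val_num, val_dec]
    at l2 r2 l5 r5 l6 r6
  simp only [Piece.env, Piece.wid, val_sub, val_mul, P.val_rise, P.val_xOm, o.val_Wn, val_num,
    val_dec] at l1 r1 l3 r3 l4 r4
  simp only [Piece.riseAt, ← hp, ← hpL, ← hpU, ← hw₀, ← hw₁, ← ht₀, ← ht₁]
    at l1 l2 l3 l4 l5 l6 r1 r2 r3 r4 r5 r6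
  push_cast at l1 l2 l3 l4 l5 l6 r1 r2 r3 r4 r5 r6
  simp only [seg] at hs
  have q := sub_nonneg.2 s1
  have ek : k = o.I * o.S * (o.D0 * p - o.u * o.d * N) := by rw [hk, ← eDen]; ring
  have eK : K = o.u * o.I * o.b ^ 2 * o.S ^ 2 * (o.D0 * p - o.u * o.d * N) := by
    rw [hK, ← eDen]; ring
  have a1 : 0 ≤ (o.piH H - pL) * k := by
    refine le_of_le_of_eq (add_nonneg (mul_nonneg q l1) (mul_nonneg s0 r1)) ?_
    rw [show (o.piH H - pL) * k = o.piH H * k - pL * k by ring, ePi, ek, hs]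
    ring
  have a2 : 0 ≤ (pU - o.piH H) * k := by
    refine le_of_le_of_eq (add_nonneg (mul_nonneg q l2) (mul_nonneg s0 r2)) ?_
    rw [show (pU - o.piH H) * k = pU * k - o.piH H * k by ring, ePi, ek, hs]
    ring
  have a1' := nonneg_of_mul_nonneg_left a1 hk0
  have a2' := nonneg_of_mul_nonneg_left a2 hk0
  refine ⟨(o.piH H - pL) / (pU - pL), div_nonneg a1' hwid.le,
    (div_le_one hwid).2 (by linarith), ?_, ?_, ?_, ?_, ?_⟩
  · simp only [Piece.piR, seg, ← hpL, ← hpU]; field_simp; ring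
  · have a3 : 0 ≤ ((pU - pL) * o.omH H - ((o.piH H - pL) * (w₁ - w₀) +
        (w₀ - (P.wom : ℝ) / 1000) * (pU - pL))) * K := by
      refine le_of_le_of_eq (add_nonneg (mul_nonneg q l3) (mul_nonneg s0 r3)) ?_
      rw [show ((pU - pL) * o.omH H - ((o.piH H - pL) * (w₁ - w₀) +
          (w₀ - (P.wom : ℝ) / 1000) * (pU - pL))) * K = (pU - pL) * (o.omH H * K) -
            o.u * o.b ^ 2 * o.S * ((o.piH H * k - pL * k) * (w₁ - w₀)) -
            (w₀ - (P.wom : ℝ) / 1000) * (pU - pL) * K by rw [hK, hk]; ring,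
        eOm, ePi, ek, eK, hs]
      ring
    have := nonneg_of_mul_nonneg_left a3 hK0
    simp only [Piece.omR, seg, ← hw₀, ← hw₁]
    rw [← sub_nonneg]
    refine nonneg_of_mul_nonneg_left (b := pU - pL) (le_of_le_of_eq this ?_) hwid
    field_simp
    ring
  · have a4 : 0 ≤ ((o.piH H - pL) * (w₁ - w₀) + w₀ * (pU - pL) - (pU - pL) * o.omH H) * K := by
      refine le_of_le_of_eq (add_nonneg (mul_nonneg q l4) (mul_nonneg s0 r4)) ?_
      rw [show ((o.piH H - pL) * (w₁ - w₀) + w₀ * (pU - pL) - (pU - pL) * o.omH H) * K =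
          o.u * o.b ^ 2 * o.S * ((o.piH H * k - pL * k) * (w₁ - w₀)) + w₀ * (pU - pL) * K -
            (pU - pL) * (o.omH H * K) by rw [hK, hk]; ring,
        eOm, ePi, ek, eK, hs]
      ring
    have := nonneg_of_mul_nonneg_left a4 hK0
    simp only [Piece.omR, seg, ← hw₀, ← hw₁]
    rw [← sub_nonneg]
    refine nonneg_of_mul_nonneg_left (b := pU - pL) (le_of_le_of_eq this ?_) hwid
    field_simp
    ring
  all_goals
    obtain ⟨t5, t6⟩ := tau_bounds (IS := o.I * o.S) (D0 := o.D0) (ud := o.u * o.d) (qn := o.qn)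
      (S := o.S) (pL := pL) (pU := pU) (t₀ := t₀) (t₁ := t₁) (w := (P.wtau : ℝ) / 1000)
      (Qb := o.Q * o.b) (π := o.piH H) (τ := o.tauH H) (mul_nonneg hI.le hS.le) hwid
      (mul_pos hk0 (mul_pos (mul_pos hQ hb) hp0)) s0 s1 hs ek ePi
      eTau (le_of_le_of_eq l5 (by ring)) (le_of_le_of_eq r5 (by ring))
      (le_of_le_of_eq l6 (by ring)) (le_of_le_of_eq r6 (by ring))
    simp only [Piece.tauR, seg, ← ht₀, ← ht₁]
    rw [← sub_nonneg]
  · refine nonneg_of_mul_nonneg_left (b := pU - pL) (le_of_le_of_eq (sub_nonneg.2 t5) ?_) hwid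
    field_simp
    ring
  · refine nonneg_of_mul_nonneg_left (b := pU - pL) (le_of_le_of_eq (sub_nonneg.2 t6) ?_) hwid
    field_simp
    ring

end Vale.Agent.P100.Calib.Closed.All.Low
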