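import Vale.Agent.P100.Calib.SlabAllSignsLeaf

/-!
# The packed closed signs of all dimensions from twenty on

The variables are `(u, X, a, I)` with `d = 1 - 2 I - 2 a`, `v = 2 I X`. An `Atm` gives expressions
for `r = (a + d) g W`, `om = g W1/I`, the varying part `tau` of the numbers `G`, `G1`, and, times
the scales `s2` for `D2` and `s = s1 s2` for the other two, `D2`, `eta = I g E`, `kap = I g K`.
The rows and the blocks are free of the powers of `a` they carry.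
-/

set_option linter.unusedVariables false

namespace Vale.Agent.P100.Calib.Closed.All.Low

/-- Expressions for the atoms. -/
structure Atm where
  /-- `(a + d) g W` -/
  r : QEx
  /-- `g W1/I` -/
  om : QEx
  /-- `I g E`, scaled -/
  eta : QEx
  /-- `I g K`, scaled -/
  kap : QEx
  /-- the varying part of `G` and `G1` -/
  tau : QEx
  /-- `D2`, scaled -/
  D2 : QEx
  /-- the scale of `eta` and `kap`, over that of `D2` -/
  s1 : QEx
  /-- the scale of `D2` -/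
  s2 : QEx

/-- `u`. -/
def xu : QEx := qX 0
/-- `X`. -/
def xX : QEx := qX 1
/-- `a`. -/
def xa : QEx := qX 2
/-- `I`. -/
def xI : QEx := qX 3
/-- `d`. -/
def xd : QEx := qN 1 - qN 2 * xI - qN 2 * xa
/-- `b`. -/
def xb : QEx := qN 1 - qN 2 * xI - xa
/-- `v`. -/
def xv : QEx := qN 2 * xI * xX
/-- `1 + d v`. -/
def xQ : QEx := qN 1 + xd * xv
/-- `2 + d v`. -/
def xD0 : QEx := qN 2 + xd * xv
/-- `e2`. -/
def xe2 : QEx := (qN (-1) + qN 2 * xa + qD 500 * xI) * xI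
/-- `j1`. -/
def xj : QEx := qN 1 - xI

/-- The common scale. -/
def Atm.s (z : Atm) : QEx := z.s1 * z.s2
/-- `d ^ 2 G / a`. -/
def Atm.Z (z : Atm) : QEx :=
  qN (-1) * xI * (qN 1 - qN 3 * xa - xI) - qD 300 * z.tau
/-- `d ^ 2 G1 / a`. -/
def Atm.Z1 (z : Atm) : QEx := qD (-300) * z.tau
/-- `g W1`. -/
def Atm.w (z : Atm) : QEx := xI * z.om

/-- Row g, M. -/
def qgM : QEx := qgM_1 xa xd xv

/-- Row g, E, times `s/a`. -/
def Atm.gE (z : Atm) : QEx :=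
  z.s * (qN 2 * xb * xv * qgE_1 xa xd xv + xb * xv * z.r * (qN (-1) * (qN 2 * xa + xd + qN 1))) +
    qN 4 * xv * z.eta - qN 4 * z.s1 * z.D2 * xb * xD0.pow 2 * xI

/-- Row g, G, over `a`. -/
def Atm.gG (z : Atm) : QEx :=
  qN 2 * xb * xv * xQ * qgG_1 xa xd xv + xb * xQ * qgG_c xa xd xv z.r +
    qN 2 * xe2 * xb * xv * xD0.pow 2

/-- Row h, M, over `a`. -/
def Atm.hM (z : Atm) : QEx := xb * qhM_c xa xd xv z.r

/-- Row h, E, over `a`. -/
def Atm.hE (z : Atm) : QEx :=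
  xb * qhE_c xa xd xv z.r + qN 4 * xe2 * xb * xv * xD0.pow 2

/-- Row h, G, times `d s2/a`. -/
def Atm.hG (z : Atm) : QEx :=
  z.s2 * (xd * xb * xv * qhG_c xa xd xv z.r + qN 4 * z.Z * xv * xD0) -
    qN 2 * z.D2 * xb * xd * xD0.pow 2 * xI

/-- Linear part EG, times `d s/a`. -/
def Atm.LEG (z : Atm) : QEx :=
  xd * (z.s * (qN 2 * xv * xQ * qLEG1 xa xd xv + xb * xv * xQ * qLEGc xa xd xv z.r +
        qN 4 * xe2 * xv * xD0.pow 2 * qLEGv xa xd xv z.r) -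
      qN 16 * xX * xQ * z.eta * (qN 2 * xa + xd) * xI.pow 2 +
      z.s1 * z.D2 * (qN 2 * xb * xD0.pow 2 * xQ * qEG_k1 xa xd xv -
        qN 8 * xe2 * xb * xD0.pow 4 * xI)) +
    z.s * (qN 2 * z.Z * xD0 * qEG_g xa xd xv z.r + qN 8 * z.Z1 * xv.pow 2 * xd * xD0.pow 2)

/-- Linear part GG, times `s2/a`. -/
def Atm.LGG (z : Atm) : QEx :=
  z.s2 * (xb * xv * qLGGc xa xd xv + xe2 * xv * xD0 * qLGGv xa xd xv +
    z.Z * xv * xd * qGG_g xa xd xv z.r - qN 4 * z.Z1 * xv * xD0) -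
    qN 2 * z.D2 * z.Z * xd * xD0.pow 2 * xI

/-- Linear part EE, times `s/a`. -/
def Atm.LEE (z : Atm) : QEx :=
  z.s * (qN 4 * xb * xv * xQ * qLEE1 xa xd xv + xb * xQ * qLEEc xa xd xv z.r z.w +
      qN 2 * xe2 * xb * xD0.pow 2 * qLEEv xa xd xv z.r +
      qN 4 * z.Z * xv * xd * xD0 * xQ * qEE_g xa xd xv z.r) +
    qN 32 * xX * xQ * xI.pow 2 * xd.pow 2 * (xa * xv - qN 1) * z.eta +
    z.s1 * z.D2 * xd.pow 2 * xD0.pow 2 * xQ *
      (qN 4 * xb * qEE_k1 xa xd xv + xb * qEE_kc xa xd xv z.r)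

/-- The part of the multiplier in MG, times `s`. -/
def Atm.mgW (z : Atm) : QEx :=
  qN 2 * xX * z.kap *
      (xv * (qN 8 * xa * xd + qN 4 * xd.pow 2 - qN 4 * xd) + qN 16 * xa + qN 8 * xd - qN 8) +
    qN 2 * xX * z.eta *
      (xv * (qN 8 * xa.pow 2 * xd.pow 2 + qN 2 * xa * xd.pow 3 - qN 2 * xa * xd.pow 2 -
          xd.pow 4 + qN 2 * xd.pow 3 - xd.pow 2) -
        qN 16 * xa.pow 2 * xd - qN 28 * xa * xd.pow 2 + qN 8 * xa * xd - qN 10 * xd.pow 3 +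
        qN 10 * xd.pow 2) - qN 16 * xI * z.eta

/-- Linear part MG, times `s ^ 2/a`. -/
def Atm.LMG (z : Atm) : QEx :=
  z.s * (z.s * (qN 4 * xb * xv * xQ * qLMG1 xa xd xv + xb * xQ * qLMGc xa xd xv z.r z.w +
        qN 8 * xe2 * xb * xD0.pow 2 * qLMGv xa xd xv z.r +
        qN 4 * z.Z * xv * xd * xD0 * xQ * qMG_g xa xd xv z.r) +
      qN 2 * xQ * z.mgW +
      z.s1 * z.D2 * xd.pow 2 * xD0.pow 2 * xQ *
        (qN 4 * xb * xv * qMG_k1 xa xd xv + xb * qMG_kc xa xd xv z.r)) -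
    qN 8 * z.s1 * z.D2 * xd.pow 2 * xD0.pow 2 * xQ * xI * z.eta

/-- The block, G², times `s2 ^ 2/a ^ 3`. -/
def Atm.TGG (z : Atm) : QEx :=
  qN 8 * xb.pow 2 * xv * xD0 * xQ * z.s2 * z.LGG - xj * xb * (z.s2 * z.gG).pow 2 -
    xj * xb * xQ * z.hG.pow 2

/-- The block, EG, times `d s/a ^ 3`. -/
def Atm.TEG (z : Atm) : QEx :=
  qN 4 * xb.pow 2 * xv * z.LEG - qN 2 * xj * xb * z.gE * (xd * z.gG) -
    qN 2 * xj * xb * z.hE * (z.s1 * z.hG)

/-- `E² + MG`, times `s ^ 2/a ^ 3`. -/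
def Atm.TA (z : Atm) : QEx :=
  xb.pow 2 * xv * (qN 8 * z.s * z.LEE + qN 4 * z.LMG) -
    xj * xb * xd.pow 2 * xQ * z.gE.pow 2 - xj * xb * (z.s * z.hE).pow 2 -
    qN 16 * xj * xb.pow 2 * xv * qgM * z.gG * z.s.pow 2 -
    qN 8 * xj * xb * xv * xd * xQ * z.hM * (z.s * z.s1 * z.hG)

/-- The block, MG, times `s ^ 2/a ^ 3`. -/
def Atm.TMG (z : Atm) : QEx :=
  qN 4 * xb.pow 2 * xv * z.LMG + qN 16 * xI * xb.pow 2 * xv * qgM * z.gG * z.s.pow 2 +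
    qN 8 * xI * xb * xv * xd * xQ * z.hM * (z.s * z.s1 * z.hG) -
    qD 500 * xb * xd.pow 2 * xQ * z.gE.pow 2 - qD 500 * xb * (z.s * z.hE).pow 2

/-- The block, ME, times `s/a`. -/
def Atm.TME (z : Atm) : QEx :=
  z.s * (xb * xv *
      (xb * z.w *
          (xv * (qN 2 * xa.pow 2 * xd + qN 3 * xa * xd.pow 2 + xa * xd + xd.pow 3 + xd.pow 2) +
            qN 4 * xa.pow 2 + qN 6 * xa * xd + qN 2 * xa + qN 2 * xd.pow 2 + qN 2 * xd) +
        z.r *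
          (xv * (qN (-8) * xa.pow 3 * xd - qN 12 * xa.pow 2 * xd.pow 2 - qN 6 * xa * xd.pow 3 +
              qN 4 * xa * xd - xd.pow 4 + qN 2 * xd.pow 2 + xd) -
            qN 8 * xa.pow 3 - qN 12 * xa.pow 2 * xd - qN 6 * xa * xd.pow 2 + qN 2 * xa -
            xd.pow 3 + xd)) +
      xe2 * xb * xv * xD0.pow 2 * z.r * (qN 2 * xa + xd - qN 3)) +
    (qN 2 * xX * z.kap * xv *
        (xv * (qN (-4) * xa * xd - qN 2 * xd.pow 2 + qN 2 * xd) - qN 8 * xa - qN 4 * xd +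
          qN 4) +
      qN 2 * xX * z.eta *
        (xv * (qN 4 * xa * xd.pow 2 + qN 2 * xd.pow 3 - qN 2 * xd.pow 2) + qN 12 * xa * xd -
          qN 4 * xa + qN 6 * xd.pow 2 - qN 8 * xd + qN 2) -
      qN 8 * z.eta + qN 2 * z.r * z.eta * xQ)

/-- The block, M², times `s (a + d)`. -/
def Atm.TMM (z : Atm) : QEx := qN (-2) * z.r * z.eta * xQ

end Vale.Agent.P100.Calib.Closed.All.Low
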