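import Vale.Agent.P100.Calib.SlabAllSignsQ
import Vale.Agent.P100.Calib.SlabGenClosed

/-!
# Packed leaves of the closed forms

`r` stands for `(a + d) g W` and `w` for `g W1`; each leaf has the value of the closed part at
`g = 1`.
-/

set_option linter.unusedVariables false
set_option linter.unusedSimpArgs false

namespace Vale.Agent.P100.Calib.Closed.All.Low

/-- `ClosedGen.gE_1`. -/
def qgE_1 (xa xd xv : QEx) : QEx :=
  (qN (8)) +
    xv * (qN (-3) + xd + qN (-6) * xa)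

/-- `ClosedGen.gG_1`. -/
def qgG_1 (xa xd xv : QEx) : QEx :=
  (qN (1) + xd + qN (2) * xa)

/-- `ClosedGen.gM_1`. -/
def qgM_1 (xa xd xv : QEx) : QEx :=
  (qN (-2) + qN (2) * xd + qN (4) * xa) +
    xv * (qN (-2) * xd + qN (4) * xa * xd) +
    (xv.pow 2) * (qN (2) * xa * (xd.pow 2))

/-- `ClosedGen.EE_k1`. -/
def qEE_k1 (xa xd xv : QEx) : QEx :=
  (qN (-1) + (xd.pow 2) + qN (4) * xa * xd + qN (4) * (xa.pow 2)) +
    xv * (xa + qN (-1) * xa * (xd.pow 2) + qN (-4) * (xa.pow 2) * xd + qN (-4) * (xa.pow 3))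

/-- `ClosedGen.EG_k1`. -/
def qEG_k1 (xa xd xv : QEx) : QEx :=
  (qN (-1) + qN (-1) * xd + (xd.pow 2) + (xd.pow 3) + qN (-2) * xa + qN (4) * xa * xd
      + qN (6) * xa * (xd.pow 2) + qN (4) * (xa.pow 2) + qN (12) * (xa.pow 2) * xd
      + qN (8) * (xa.pow 3))

/-- `ClosedGen.MG_k1`. -/
def qMG_k1 (xa xd xv : QEx) : QEx :=
  (qN (1) + qN (-1) * (xd.pow 2) + qN (-4) * xa * xd + qN (-4) * (xa.pow 2))

/-- `ClosedGen.gG_c`. -/
def qgG_c (xa xd xv r : QEx) : QEx :=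
  (qN (-4)) +
    r * (qN (1)) +
    xv * (qN (-2) * xd + qN (-2) * (xd.pow 2) + qN (-8) * xa * xd + qN (-8) * (xa.pow 2))

/-- `ClosedGen.hM_c`. -/
def qhM_c (xa xd xv r : QEx) : QEx :=
  (qN (4)) +
    r * (qN (-1)) +
    xv * (qN (-4) * xa)

/-- `ClosedGen.hE_c`. -/
def qhE_c (xa xd xv r : QEx) : QEx :=
  (qN (-8)) +
    r * (qN (2)) +
    xv * (qN (-4) + qN (-4) * (xd.pow 2) + qN (24) * xa + qN (-16) * xa * xd
      + qN (-16) * (xa.pow 2)) +
    xv * r * (qN (2) * xd) +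
    (xv.pow 2) * (qN (-4) * xd + qN (4) * (xd.pow 2) + qN (-4) * (xd.pow 3)
      + qN (24) * xa * xd + qN (-16) * xa * (xd.pow 2) + qN (-16) * (xa.pow 2) * xd) +
    (xv.pow 2) * r * (qN (-1) * (xd.pow 2)) +
    (xv.pow 3) * (qN (4) * xa * (xd.pow 2))

/-- `ClosedGen.hG_c`. -/
def qhG_c (xa xd xv r : QEx) : QEx :=
  (qN (2) + qN (-2) * xd + qN (-4) * xa) +
    r * (qN (1)) +
    xv * (qN (-1) + xd + qN (-2) * (xd.pow 2) + qN (-6) * xa * xd + qN (-4) * (xa.pow 2))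

/-- `ClosedGen.EG_g`. -/
def qEG_g (xa xd xv r : QEx) : QEx :=
  (qN (-24)) +
    r * (qN (6)) +
    xv * (qN (-4) + qN (-28) * xd + qN (8) * (xd.pow 2) + qN (16) * xa + qN (32) * xa * xd
      + qN (32) * (xa.pow 2)) +
    xv * r * (qN (6) * xd) +
    (xv.pow 2) * (qN (-4) * xd + qN (-8) * (xd.pow 2) + qN (8) * (xd.pow 3)
      + qN (16) * xa * xd + qN (32) * xa * (xd.pow 2) + qN (32) * (xa.pow 2) * xd) +
    (xv.pow 2) * r * (qN (-1) * (xd.pow 2)) +
    (xv.pow 3) * (qN (4) * xa * (xd.pow 2))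

/-- `ClosedGen.GG_g`. -/
def qGG_g (xa xd xv r : QEx) : QEx :=
  (qN (2) * xd + qN (4) * xa) +
    r * (qN (1)) +
    xv * (qN (-1) + qN (-1) * xd + qN (2) * (xd.pow 2) + qN (-2) * xa + qN (6) * xa * xd
      + qN (4) * (xa.pow 2))

/-- `ClosedGen.MG_g`. -/
def qMG_g (xa xd xv r : QEx) : QEx :=
  (qN (-4) + qN (4) * xd + qN (8) * xa) +
    r * (qN (-1)) +
    xv * (qN (4) * xa + qN (-4) * xa * xd + qN (-8) * (xa.pow 2))

/-- `ClosedGen.EE_g`. -/
def qEE_g (xa xd xv r : QEx) : QEx :=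
  (qN (4)) +
    r * (qN (-1)) +
    xv * (qN (-4) * xa)

/-- `ClosedGen.EE_kc`. -/
def qEE_kc (xa xd xv r : QEx) : QEx :=
  (qN (-4) + qN (4) * xd + qN (8) * xa) +
    r * (qN (1) + qN (-1) * xd + qN (-2) * xa) +
    xv * (qN (4) * xa + qN (-4) * xa * xd + qN (-8) * (xa.pow 2))

/-- `ClosedGen.MG_kc`. -/
def qMG_kc (xa xd xv r : QEx) : QEx :=
  (qN (4) + qN (-8) * xd + qN (4) * (xd.pow 2) + qN (-16) * xa + qN (16) * xa * xd
      + qN (16) * (xa.pow 2)) +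
    r * (qN (-1) + qN (2) * xd + qN (-1) * (xd.pow 2) + qN (4) * xa + qN (-4) * xa * xd
      + qN (-4) * (xa.pow 2)) +
    xv * (qN (-4) * xa + qN (8) * xa * xd + qN (-4) * xa * (xd.pow 2) + qN (16) * (xa.pow 2)
      + qN (-16) * (xa.pow 2) * xd + qN (-16) * (xa.pow 3))

/-- `Closed.LEG1`. -/
def qLEG1 (xa xd xv : QEx) : QEx :=
  (qN (4) * xd + qN (8) * (xd.pow 2) + qN (4) * (xd.pow 3) + qN (4) * xa + qN (24) * xa * xd
      + qN (20) * xa * (xd.pow 2) + qN (16) * (xa.pow 2) + qN (32) * (xa.pow 2) * xd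
      + qN (16) * (xa.pow 3)) +
    xv * (qN (-1) * xd + qN (-1) * (xd.pow 2) + (xd.pow 3) + (xd.pow 4) + qN (-1) * xa
      + qN (-7) * xa * xd + qN (-3) * xa * (xd.pow 2) + qN (3) * xa * (xd.pow 3)
      + qN (-6) * (xa.pow 2) + qN (-16) * (xa.pow 2) * xd
      + qN (-2) * (xa.pow 2) * (xd.pow 2) + qN (-12) * (xa.pow 3)
      + qN (-12) * (xa.pow 3) * xd + qN (-8) * (xa.pow 4))

/-- `Closed.LGGc`. -/
def qLGGc (xa xd xv : QEx) : QEx :=
  ((xd.pow 2) + qN (-1) * (xd.pow 4) + qN (2) * xa * xd + qN (-6) * xa * (xd.pow 3)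
      + qN (2) * (xa.pow 2) + qN (-14) * (xa.pow 2) * (xd.pow 2)
      + qN (-16) * (xa.pow 3) * xd + qN (-8) * (xa.pow 4)) +
    xv * ((xd.pow 3) + qN (-1) * (xd.pow 5) + qN (2) * xa * (xd.pow 2)
      + qN (-6) * xa * (xd.pow 4) + (xa.pow 2) * xd + qN (-13) * (xa.pow 2) * (xd.pow 3)
      + qN (-12) * (xa.pow 3) * (xd.pow 2) + qN (-4) * (xa.pow 4) * xd)

/-- `Closed.LGGv`. -/
def qLGGv (xa xd xv : QEx) : QEx :=
  (qN (-1) * (xd.pow 2) + (xd.pow 3) + qN (-3) * xa * xd + qN (5) * xa * (xd.pow 2)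
      + qN (-2) * (xa.pow 2) + qN (8) * (xa.pow 2) * xd + qN (4) * (xa.pow 3))

/-- `Closed.LEE1`. -/
def qLEE1 (xa xd xv : QEx) : QEx :=
  (qN (-2) + qN (6) * (xd.pow 2) + qN (4) * (xd.pow 3) + qN (8) * xa * xd
      + qN (8) * xa * (xd.pow 2) + qN (8) * (xa.pow 2)) +
    xv * (qN (-2) * xd + qN (-3) * (xd.pow 2) + (xd.pow 4) + qN (-4) * xa * (xd.pow 2)
      + qN (-4) * xa * (xd.pow 3) + qN (8) * (xa.pow 2) * xd
      + qN (-12) * (xa.pow 2) * (xd.pow 2)) +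
    (xv.pow 2) * (qN (3) * xa * (xd.pow 2) + qN (2) * xa * (xd.pow 3)
      + qN (-1) * xa * (xd.pow 4) + qN (8) * (xa.pow 2) * (xd.pow 2)
      + qN (4) * (xa.pow 3) * (xd.pow 2))

/-- `Closed.LMG1`. -/
def qLMG1 (xa xd xv : QEx) : QEx :=
  (qN (2) + qN (-2) * xd + qN (-2) * (xd.pow 2) + qN (2) * (xd.pow 3) + qN (-4) * xa
      + qN (-8) * xa * xd + qN (12) * xa * (xd.pow 2) + qN (-8) * (xa.pow 2)
      + qN (24) * (xa.pow 2) * xd + qN (16) * (xa.pow 3)) +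
    xv * (qN (2) * xd + qN (-4) * (xd.pow 2) + qN (-6) * (xd.pow 3) + qN (-4) * xa * xd
      + qN (-16) * xa * (xd.pow 2) + qN (4) * xa * (xd.pow 3) + qN (-8) * (xa.pow 2) * xd
      + qN (16) * (xa.pow 2) * (xd.pow 2) + qN (16) * (xa.pow 3) * xd) +
    (xv.pow 2) * ((xd.pow 2) + qN (-1) * (xd.pow 4) + qN (2) * xa * (xd.pow 2)
      + qN (2) * xa * (xd.pow 4) + qN (4) * (xa.pow 2) * (xd.pow 2)
      + qN (8) * (xa.pow 2) * (xd.pow 3) + qN (8) * (xa.pow 3) * (xd.pow 2))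

/-- `Closed.LEGc`. -/
def qLEGc (xa xd xv r : QEx) : QEx :=
  (qN (16) * xd + qN (-4) * (xd.pow 2) + qN (-20) * (xd.pow 3) + qN (32) * xa
      + qN (-16) * xa * xd + qN (-120) * xa * (xd.pow 2) + qN (-16) * (xa.pow 2)
      + qN (-240) * (xa.pow 2) * xd + qN (-160) * (xa.pow 3)) +
    r * (qN (2) * xd + (xd.pow 2) + qN (-1) * (xd.pow 3) + qN (4) * xa + qN (4) * xa * xd
      + qN (-6) * xa * (xd.pow 2) + qN (4) * (xa.pow 2) + qN (-12) * (xa.pow 2) * xd
      + qN (-8) * (xa.pow 3)) +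
    xv * (qN (12) * (xd.pow 2) + qN (-12) * (xd.pow 4) + qN (32) * xa * xd
      + qN (4) * xa * (xd.pow 2) + qN (-76) * xa * (xd.pow 3) + qN (16) * (xa.pow 2)
      + qN (16) * (xa.pow 2) * xd + qN (-168) * (xa.pow 2) * (xd.pow 2)
      + qN (16) * (xa.pow 3) + qN (-144) * (xa.pow 3) * xd + qN (-32) * (xa.pow 4))

/-- `Closed.LEGv`. -/
def qLEGv (xa xd xv r : QEx) : QEx :=
  (qN (-1) * xd + qN (3) * (xd.pow 2) + qN (-1) * xa + qN (9) * xa * xd
      + qN (6) * (xa.pow 2)) +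
    r * (xd + xa) +
    xv * (qN (-1) * xd + (xd.pow 3) + qN (-1) * xa + xa * xd + qN (2) * xa * (xd.pow 2)
      + (xa.pow 2) + qN (-1) * (xa.pow 2) * xd + qN (-2) * (xa.pow 3))

/-- `Closed.LEEv`. -/
def qLEEv (xa xd xv r : QEx) : QEx :=
  (qN (-8)) +
    r * (qN (2)) +
    xv * (qN (-4) + qN (-8) * xd + qN (4) * (xd.pow 2) + qN (8) * xa + qN (16) * xa * xd
      + qN (16) * (xa.pow 2)) +
    xv * r * (qN (2) * xd) +
    (xv.pow 2) * (qN (-4) * xd + qN (-4) * (xd.pow 2) + qN (4) * (xd.pow 3)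
      + qN (8) * xa * xd + qN (16) * xa * (xd.pow 2) + qN (16) * (xa.pow 2) * xd) +
    (xv.pow 2) * r * (qN (-1) * (xd.pow 2)) +
    (xv.pow 3) * (qN (4) * xa * (xd.pow 2))

/-- `Closed.LMGv`. -/
def qLMGv (xa xd xv r : QEx) : QEx :=
  (qN (-4)) +
    r * (qN (1)) +
    xv * (qN (-5) * xd + (xd.pow 2) + qN (2) * xa + qN (4) * xa * xd + qN (4) * (xa.pow 2)) +
    xv * r * (xd) +
    (xv.pow 2) * (qN (2) * xa * xd + qN (2) * xa * (xd.pow 2) + qN (4) * (xa.pow 2) * xd) +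
    (xv.pow 3) * (qN (-1) * xa * (xd.pow 2) + xa * (xd.pow 3)
      + qN (2) * (xa.pow 2) * (xd.pow 2))

/-- `Closed.LEEc`. -/
def qLEEc (xa xd xv r w : QEx) : QEx :=
  (qN (16) * xd + qN (32) * xa) +
    w * (qN (-8) * (xd.pow 2) + qN (-16) * xa * xd + qN (-8) * (xa.pow 2)) +
    r * (qN (-4)) +
    xv * (qN (48) * (xd.pow 2) + qN (-8) * (xd.pow 3) + qN (-8) * (xd.pow 4)
      + qN (48) * xa * xd + qN (-16) * xa * (xd.pow 2) + qN (-64) * xa * (xd.pow 3)
      + qN (-192) * (xa.pow 2) * (xd.pow 2) + qN (-256) * (xa.pow 3) * xd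
      + qN (-128) * (xa.pow 4)) +
    xv * w * (qN (-4) * (xd.pow 3) + qN (-8) * xa * (xd.pow 2) + qN (-4) * (xa.pow 2) * xd) +
    xv * r * (qN (-8) * xd + qN (-8) * (xd.pow 2) + qN (2) * (xd.pow 3)
      + qN (-2) * (xd.pow 4) + qN (4) * xa * (xd.pow 2) + qN (-8) * xa * (xd.pow 3)
      + qN (-8) * (xa.pow 2) * (xd.pow 2)) +
    xv * (r.pow 2) * (qN (-1) * (xd.pow 2)) +
    (xv.pow 2) * (qN (-4) * (xd.pow 2) + qN (20) * (xd.pow 3) + qN (-8) * (xd.pow 5)
      + qN (-8) * xa * (xd.pow 2) + qN (16) * xa * (xd.pow 3) + qN (-64) * xa * (xd.pow 4)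
      + qN (32) * (xa.pow 2) * (xd.pow 2) + qN (-192) * (xa.pow 2) * (xd.pow 3)
      + qN (-256) * (xa.pow 3) * (xd.pow 2) + qN (-128) * (xa.pow 4) * xd) +
    (xv.pow 2) * r * ((xd.pow 2) + qN (-3) * (xd.pow 3) + qN (2) * xa * (xd.pow 2)
      + qN (-2) * xa * (xd.pow 3) + qN (2) * xa * (xd.pow 4)
      + qN (-4) * (xa.pow 2) * (xd.pow 2) + qN (8) * (xa.pow 2) * (xd.pow 3)
      + qN (8) * (xa.pow 3) * (xd.pow 2)) +
    (xv.pow 3) * (qN (4) * xa * (xd.pow 2) + qN (-12) * xa * (xd.pow 3)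
      + qN (-8) * (xa.pow 2) * (xd.pow 3) + qN (-16) * (xa.pow 3) * (xd.pow 2))

/-- `Closed.LMGc`. -/
def qLMGc (xa xd xv r w : QEx) : QEx :=
  (qN (-16) * xd + qN (16) * (xd.pow 2) + qN (-32) * xa + qN (64) * xa * xd
      + qN (64) * (xa.pow 2)) +
    w * (qN (8) * (xd.pow 2) + qN (-8) * (xd.pow 3) + qN (16) * xa * xd
      + qN (-32) * xa * (xd.pow 2) + qN (8) * (xa.pow 2) + qN (-40) * (xa.pow 2) * xd
      + qN (-16) * (xa.pow 3)) +
    r * (qN (4) + qN (-4) * xd + qN (-8) * xa) +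
    xv * (qN (-32) * (xd.pow 2) + qN (48) * (xd.pow 3) + qN (-16) * (xd.pow 4)
      + qN (16) * xa * xd + qN (112) * xa * (xd.pow 2) + qN (-96) * xa * (xd.pow 3)
      + qN (64) * (xa.pow 2) + qN (-224) * (xa.pow 2) * (xd.pow 2) + qN (-64) * (xa.pow 3)
      + qN (-256) * (xa.pow 3) * xd + qN (-128) * (xa.pow 4)) +
    xv * w * (qN (4) * (xd.pow 3) + qN (-4) * (xd.pow 4) + qN (8) * xa * (xd.pow 2)
      + qN (-16) * xa * (xd.pow 3) + qN (4) * (xa.pow 2) * xd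
      + qN (-20) * (xa.pow 2) * (xd.pow 2) + qN (-8) * (xa.pow 3) * xd) +
    xv * r * (qN (8) * xd + qN (4) * (xd.pow 2) + qN (-12) * (xd.pow 3) + qN (-16) * xa * xd
      + qN (-24) * xa * (xd.pow 2)) +
    xv * (r.pow 2) * ((xd.pow 2) + qN (-1) * (xd.pow 3) + qN (-2) * xa * (xd.pow 2)) +
    (xv.pow 2) * (qN (4) * (xd.pow 2) + qN (-8) * (xd.pow 3) + qN (12) * (xd.pow 4)
      + qN (-8) * (xd.pow 5) + qN (64) * xa * (xd.pow 2) + qN (-32) * xa * (xd.pow 3)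
      + qN (-48) * xa * (xd.pow 4) + qN (64) * (xa.pow 2) * xd
      + qN (-144) * (xa.pow 2) * (xd.pow 2) + qN (-128) * (xa.pow 2) * (xd.pow 3)
      + qN (-64) * (xa.pow 3) * xd + qN (-192) * (xa.pow 3) * (xd.pow 2)
      + qN (-128) * (xa.pow 4) * xd) +
    (xv.pow 2) * r * (qN (-1) * (xd.pow 2) + qN (4) * (xd.pow 3) + qN (-3) * (xd.pow 4)
      + qN (-4) * xa * (xd.pow 2) + qN (12) * (xa.pow 2) * (xd.pow 2)) +
    (xv.pow 3) * (qN (-4) * xa * (xd.pow 2) + qN (16) * xa * (xd.pow 3)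
      + qN (-12) * xa * (xd.pow 4) + qN (8) * (xa.pow 2) * (xd.pow 2)
      + qN (-16) * (xa.pow 2) * (xd.pow 3) + qN (-8) * (xa.pow 2) * (xd.pow 4)
      + qN (16) * (xa.pow 3) * (xd.pow 2) + qN (-32) * (xa.pow 3) * (xd.pow 3)
      + qN (-32) * (xa.pow 4) * (xd.pow 2))

variable (xa xd xv r w : QEx) (x : ℕ → ℝ)

theorem val_gE_1 :
    (qgE_1 xa xd xv).val x =
      ClosedGen.gE_1 (xa.val x) (xd.val x) (xv.val x) := by
  simp only [qgE_1, ClosedGen.gE_1,
    val_add, val_mul, val_pow, val_num]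
  push_cast; ring

theorem val_gG_1 :
    (qgG_1 xa xd xv).val x =
      ClosedGen.gG_1 (xa.val x) (xd.val x) (xv.val x) := by
  simp only [qgG_1, ClosedGen.gG_1,
    val_add, val_mul, val_pow, val_num]
  push_cast; ring

theorem val_gM_1 :
    (qgM_1 xa xd xv).val x =
      ClosedGen.gM_1 (xa.val x) (xd.val x) (xv.val x) := by
  simp only [qgM_1, ClosedGen.gM_1,
    val_add, val_mul, val_pow, val_num]
  push_cast; ring

theorem val_EE_k1 :
    (qEE_k1 xa xd xv).val x =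
      ClosedGen.EE_k1 (xa.val x) (xd.val x) (xv.val x) := by
  simp only [qEE_k1, ClosedGen.EE_k1,
    val_add, val_mul, val_pow, val_num]
  push_cast; ring

theorem val_EG_k1 :
    (qEG_k1 xa xd xv).val x =
      ClosedGen.EG_k1 (xa.val x) (xd.val x) (xv.val x) := by
  simp only [qEG_k1, ClosedGen.EG_k1,
    val_add, val_mul, val_pow, val_num]
  push_cast; ring

theorem val_MG_k1 :
    (qMG_k1 xa xd xv).val x =
      ClosedGen.MG_k1 (xa.val x) (xd.val x) (xv.val x) := by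
  simp only [qMG_k1, ClosedGen.MG_k1,
    val_add, val_mul, val_pow, val_num]
  push_cast; ring

theorem val_gG_c {p : ℝ} (h : r.val x = (xa.val x + xd.val x) * p) :
    (qgG_c xa xd xv r).val x =
      ClosedGen.gG_c (xa.val x) (xd.val x) (xv.val x) 1 p := by
  simp only [qgG_c, ClosedGen.gG_c,
    val_add, val_mul, val_pow, val_num, h]
  push_cast; ring

theorem val_hM_c {p : ℝ} (h : r.val x = (xa.val x + xd.val x) * p) :
    (qhM_c xa xd xv r).val x =
      ClosedGen.hM_c (xa.val x) (xd.val x) (xv.val x) 1 p := by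
  simp only [qhM_c, ClosedGen.hM_c,
    val_add, val_mul, val_pow, val_num, h]
  push_cast; ring

theorem val_hE_c {p : ℝ} (h : r.val x = (xa.val x + xd.val x) * p) :
    (qhE_c xa xd xv r).val x =
      ClosedGen.hE_c (xa.val x) (xd.val x) (xv.val x) 1 p := by
  simp only [qhE_c, ClosedGen.hE_c,
    val_add, val_mul, val_pow, val_num, h]
  push_cast; ring

theorem val_hG_c {p : ℝ} (h : r.val x = (xa.val x + xd.val x) * p) :
    (qhG_c xa xd xv r).val x =
      ClosedGen.hG_c (xa.val x) (xd.val x) (xv.val x) 1 p := by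
  simp only [qhG_c, ClosedGen.hG_c,
    val_add, val_mul, val_pow, val_num, h]
  push_cast; ring

theorem val_EG_g {p : ℝ} (h : r.val x = (xa.val x + xd.val x) * p) :
    (qEG_g xa xd xv r).val x =
      ClosedGen.EG_g (xa.val x) (xd.val x) (xv.val x) 1 p := by
  simp only [qEG_g, ClosedGen.EG_g,
    val_add, val_mul, val_pow, val_num, h]
  push_cast; ring

theorem val_GG_g {p : ℝ} (h : r.val x = (xa.val x + xd.val x) * p) :
    (qGG_g xa xd xv r).val x =
      ClosedGen.GG_g (xa.val x) (xd.val x) (xv.val x) 1 p := by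
  simp only [qGG_g, ClosedGen.GG_g,
    val_add, val_mul, val_pow, val_num, h]
  push_cast; ring

theorem val_MG_g {p : ℝ} (h : r.val x = (xa.val x + xd.val x) * p) :
    (qMG_g xa xd xv r).val x =
      ClosedGen.MG_g (xa.val x) (xd.val x) (xv.val x) 1 p := by
  simp only [qMG_g, ClosedGen.MG_g,
    val_add, val_mul, val_pow, val_num, h]
  push_cast; ring

theorem val_EE_g {p : ℝ} (h : r.val x = (xa.val x + xd.val x) * p) :
    (qEE_g xa xd xv r).val x =
      ClosedGen.EE_g (xa.val x) (xd.val x) (xv.val x) 1 p := by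
  simp only [qEE_g, ClosedGen.EE_g,
    val_add, val_mul, val_pow, val_num, h]
  push_cast; ring

theorem val_EE_kc {p : ℝ} (h : r.val x = (xa.val x + xd.val x) * p) :
    (qEE_kc xa xd xv r).val x =
      ClosedGen.EE_kc (xa.val x) (xd.val x) (xv.val x) 1 p := by
  simp only [qEE_kc, ClosedGen.EE_kc,
    val_add, val_mul, val_pow, val_num, h]
  push_cast; ring

theorem val_MG_kc {p : ℝ} (h : r.val x = (xa.val x + xd.val x) * p) :
    (qMG_kc xa xd xv r).val x =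
      ClosedGen.MG_kc (xa.val x) (xd.val x) (xv.val x) 1 p := by
  simp only [qMG_kc, ClosedGen.MG_kc,
    val_add, val_mul, val_pow, val_num, h]
  push_cast; ring

theorem val_LEG1 :
    (qLEG1 xa xd xv).val x =
      Closed.LEG1 (xa.val x) (xd.val x) (xv.val x) := by
  simp only [qLEG1, Closed.LEG1,
    Closed.LEG1_000000_0,
    val_add, val_mul, val_pow, val_num]
  push_cast; ring

theorem val_LGGc :
    (qLGGc xa xd xv).val x =
      Closed.LGGc (xa.val x) (xd.val x) (xv.val x) := by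
  simp only [qLGGc, Closed.LGGc,
    val_add, val_mul, val_pow, val_num]
  push_cast; ring

theorem val_LGGv :
    (qLGGv xa xd xv).val x =
      Closed.LGGv (xa.val x) (xd.val x) (xv.val x) := by
  simp only [qLGGv, Closed.LGGv,
    val_add, val_mul, val_pow, val_num]
  push_cast; ring

theorem val_LEE1 :
    (qLEE1 xa xd xv).val x =
      Closed.LEE1 (xa.val x) (xd.val x) (xv.val x) := by
  simp only [qLEE1, Closed.LEE1,
    val_add, val_mul, val_pow, val_num]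
  push_cast; ring

theorem val_LMG1 :
    (qLMG1 xa xd xv).val x =
      Closed.LMG1 (xa.val x) (xd.val x) (xv.val x) := by
  simp only [qLMG1, Closed.LMG1,
    Closed.LMG1_000000_0,
    Closed.LMG1_000000_1,
    val_add, val_mul, val_pow, val_num]
  push_cast; ring

theorem val_LEGc {p : ℝ} (h : r.val x = (xa.val x + xd.val x) * p) :
    (qLEGc xa xd xv r).val x =
      Closed.LEGc (xa.val x) (xd.val x) (xv.val x) 1 p := by
  simp only [qLEGc, Closed.LEGc,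
    val_add, val_mul, val_pow, val_num, h]
  push_cast; ring

theorem val_LEGv {p : ℝ} (h : r.val x = (xa.val x + xd.val x) * p) :
    (qLEGv xa xd xv r).val x =
      Closed.LEGv (xa.val x) (xd.val x) (xv.val x) 1 p := by
  simp only [qLEGv, Closed.LEGv,
    val_add, val_mul, val_pow, val_num, h]
  push_cast; ring

theorem val_LEEv {p : ℝ} (h : r.val x = (xa.val x + xd.val x) * p) :
    (qLEEv xa xd xv r).val x =
      Closed.LEEv (xa.val x) (xd.val x) (xv.val x) 1 p := by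
  simp only [qLEEv, Closed.LEEv,
    val_add, val_mul, val_pow, val_num, h]
  push_cast; ring

theorem val_LMGv {p : ℝ} (h : r.val x = (xa.val x + xd.val x) * p) :
    (qLMGv xa xd xv r).val x =
      Closed.LMGv (xa.val x) (xd.val x) (xv.val x) 1 p := by
  simp only [qLMGv, Closed.LMGv,
    val_add, val_mul, val_pow, val_num, h]
  push_cast; ring

theorem val_LEEc {p : ℝ} (h : r.val x = (xa.val x + xd.val x) * p) :
    (qLEEc xa xd xv r w).val x =
      Closed.LEEc (xa.val x) (xd.val x) (xv.val x) 1 p (w.val x) := by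
  simp only [qLEEc, Closed.LEEc,
    Closed.LEEc_000000_0,
    Closed.LEEc_000000_1,
    Closed.LEEc_110000_0,
    Closed.LEEc_110000_1,
    val_add, val_mul, val_pow, val_num, h]
  push_cast; ring

theorem val_LMGc {p : ℝ} (h : r.val x = (xa.val x + xd.val x) * p) :
    (qLMGc xa xd xv r w).val x =
      Closed.LMGc (xa.val x) (xd.val x) (xv.val x) 1 p (w.val x) := by
  simp only [qLMGc, Closed.LMGc,
    Closed.LMGc_000000_0,
    Closed.LMGc_000000_1,
    val_add, val_mul, val_pow, val_num, h]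
  push_cast; ring

end Vale.Agent.P100.Calib.Closed.All.Low
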