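import Vale.Agent.P100.Calib.SlabAllSignsExpr

/-!
# The pieces of the certificate of the closed signs on `0 < u ≤ 3/5`, all dimensions from twenty on

A piece is a box of `(u, X, a, I)` with bounds for `pi = ((a + d) g W - 4)/I` and, affinely in `pi`,
for `g W1/I` and the varying part of `G`, and with the ends of the chords of the arrow. The numbers
`g E` and `g K` are exact affine functions of `pi`.
-/

set_option linter.unusedVariables false

namespace Vale.Agent.P100.Calib.Closed.All.Low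

/-- A centre of a box, in units of `1/1000`. -/
structure Ctr where
  (u X a I : ℤ)

/-- A bound: quadratic and multiaffine in the centred variables, in units of `1/1000`. -/
structure Quad where
  (c cu cX ca cI cuX cua cuI cXa cXI caI : ℤ)

/-- An affine bound of a ratio, in `(u, X)`. -/
structure Lin where
  (c cu cX : ℤ)

/-- `u` from the centre. -/
def Ctr.du (o : Ctr) : QEx := xu - qD o.u
/-- `X` from the centre. -/
def Ctr.dX (o : Ctr) : QEx := xX - qD o.X
/-- `a` from the centre. -/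
def Ctr.da (o : Ctr) : QEx := xa - qD o.a
/-- `I` from the centre. -/
def Ctr.dI (o : Ctr) : QEx := xI - qD o.I

/-- The polynomial. -/
def Quad.ex (q : Quad) (o : Ctr) : QEx :=
  qD q.c + qD q.cu * o.du + qD q.cX * o.dX + qD q.ca * o.da + qD q.cI * o.dI +
    qD q.cuX * (o.du * o.dX) + qD q.cua * (o.du * o.da) + qD q.cuI * (o.du * o.dI) +
    qD q.cXa * (o.dX * o.da) + qD q.cXI * (o.dX * o.dI) + qD q.caI * (o.da * o.dI)

/-- The bound. -/
def Lin.ex (q : Lin) (o : Ctr) : QEx :=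
  qD q.c + qD q.cu * o.du + qD q.cX * o.dX

/-- The data of a piece: the bounds `om₀`, `om₁` and `tau₀`, `tau₁` hold at the ends of `pi`,
affinely between; `wtau`, `wom` are their widths; `rA`, `rB`, `rF` bound `r0`, `-r1`, `-r0 r1`, and `qa + qb I` bounds `1 + d v`. -/
structure Piece where
  /-- the centre -/
  o : Ctr
  (piL piU om₀ om₁ tau₀ tau₁ : Quad)
  (r₀ r₁ m₀ m₁ : Lin)
  (wom wtau rA rB rF qa qb : ℤ)

/-- `S`. -/
def xS : QEx := qN 1 - qN 2 * xI
/-- `qn`, the numerator of `g`. -/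
def xqn : QEx := xD0 * xb - xS * xu * xQ
/-- `1 - 3 I - 2 a²`. -/
def xc0 : QEx := qN 1 - qN 3 * xI - qN 2 * xa.pow 2
/-- The scale of `D2`. -/
def xs2 : QEx := xS.pow 2 * xd.pow 2
/-- The scale of `g` over `b (2 + d v)`. -/
def xs1 : QEx := qN 2 * xb * xD0

/-- The scaled `g`. -/
def xGam (r : QEx) : QEx := qN 4 * xqn + xu * xd * r * xS

/-- The scaled `g (1 - d u H)`. -/
def xGom (r : QEx) : QEx := xGam r - xu * xd * r * xS * xD0

/-- The atoms at `pi`, with the ends `om`, `tau`. -/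
def mkAtm (pi om tau : QEx) : Atm where
  r := qN 4 + xI * pi
  om := om
  eta := xS.pow 2 * xd *
    (qN (-2) * xc0 * xI * xQ * xGam (qN 4 + xI * pi) - qD 2500 * xGom (qN 4 + xI * pi))
  kap := qD (-2500) * xs2 * xGom (qN 4 + xI * pi)
  tau := tau
  D2 := xS.pow 2 - qN 2 * xa * (qN 1 - xI)
  s1 := xs1
  s2 := xs2

/-- The three values of `pi`: the ends and the middle. -/
inductive PiAt where
  | lo | hi | mid

/-- `pi` there. -/
def Piece.piAt (P : Piece) : PiAt → QEx
  | .lo => P.piL.ex P.o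
  | .hi => P.piU.ex P.o
  | .mid => qD 500 * (P.piL.ex P.o + P.piU.ex P.o)

/-- An affine bound there. -/
def Piece.endAt (P : Piece) (l h : Quad) : PiAt → QEx
  | .lo => l.ex P.o
  | .hi => h.ex P.o
  | .mid => qD 500 * (l.ex P.o + h.ex P.o)

/-- The atoms there: the lower end of `g W1/I` for `low`, the upper one of `tau` for `high`. -/
def Piece.atm (P : Piece) (low high : Bool) (k : PiAt) : Atm :=
  mkAtm (P.piAt k) (cond low (P.endAt P.om₀ P.om₁ k - qD P.wom) (P.endAt P.om₀ P.om₁ k))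
    (cond high (P.endAt P.tau₀ P.tau₁ k + qD P.wtau) (P.endAt P.tau₀ P.tau₁ k))

/-- The slack of `TGG` between the ends of `tau`. -/
def Piece.slack (P : Piece) : QEx :=
  qD 250 * xj * xb * xQ * (qD 1200 * xv * xD0 * qD P.wtau * xs2).pow 2

/-- The seven quantities of a piece at atoms. -/
inductive Kind where
  | g | n | tlo | thi | mlo | mhi | f

/-- The quantity. -/
def Piece.form (P : Piece) (z : Atm) : Kind → QEx
  | .g => z.TGG
  | .n => z.TMG
  | .tlo => z.s2 * z.TEG - P.r₀.ex P.o * z.s1 * z.TGG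
  | .thi => P.r₁.ex P.o * z.s1 * z.TGG - z.s2 * z.TEG
  | .mlo => z.TME - P.m₀.ex P.o * xI * z.TMM
  | .mhi => P.m₁.ex P.o * xI * z.TMM - z.TME
  | .f => qN 4 * z.TA -
      (qD P.qa + qD P.qb * xI) *
        (((P.r₀.ex P.o + P.r₁.ex P.o) * z.s * z.TEG -
          P.r₀.ex P.o * P.r₁.ex P.o * z.s1.pow 2 * z.TGG) +
          qN 16 * xb.pow 2 * z.s * xI *
            ((P.m₀.ex P.o + P.m₁.ex P.o) * z.TME - P.m₀.ex P.o * P.m₁.ex P.o * xI * z.TMM))

/-- The end of `g W1` that is worst for a quantity. -/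
def Kind.low : Kind → Bool
  | .n | .mlo => true
  | _ => false

/-- The middle Bernstein coefficient in `pi` or the value at an end. -/
def Piece.bern (P : Piece) (q : Kind) (high : Bool) : PiAt → QEx
  | .mid => qN 2 * P.form (P.atm q.low high .mid) q -
      qD 500 * (P.form (P.atm q.low high .lo) q + P.form (P.atm q.low high .hi) q)
  | k => P.form (P.atm q.low high k) q

/-- What is checked: a coefficient less the slack, and a margin for strictness. -/
def Piece.check (P : Piece) (q : Kind) (high : Bool) (k : PiAt) : QEx :=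
  match q with
  | .g => P.bern q high k - qD 1 * xI.pow 2
  | .f => P.bern q high k - qD P.rF * (qD P.qa + qD P.qb * xI) * xs1.pow 2 * P.slack -
      qD 1 * xI.pow 2
  | .tlo => P.bern q high k - qD P.rA * xs1 * P.slack
  | .thi => P.bern q high k - qD P.rB * xs1 * P.slack
  | _ => P.bern q high k

/-- The bounds of the multipliers and of `1 + d v`, and the sign in `g W1` of `f`. -/
inductive Side where
  | rA | rB | rF | q | om

/-- The check. -/
def Piece.side (P : Piece) : Side → QEx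
  | .rA => qD P.rA - P.r₀.ex P.o
  | .rB => qD P.rB + P.r₁.ex P.o
  | .rF => qD P.rF + P.r₀.ex P.o * P.r₁.ex P.o
  | .q => qD P.qa + qD P.qb * xI - xQ
  | .om => xb * xQ * (qN 1 + qN 2 * xa + xd) * (qN 4 * xd * xv + qN 8) +
      (qD P.qa + qD P.qb * xI) * xI * (P.m₀.ex P.o + P.m₁.ex P.o) *
        (xv * (qN 2 * xa.pow 2 * xd + qN 3 * xa * xd.pow 2 + xa * xd + xd.pow 3 + xd.pow 2) +
          qN 4 * xa.pow 2 + qN 6 * xa * xd + qN 2 * xa + qN 2 * xd.pow 2 + qN 2 * xd)

/-- The numerators of the bands: `n/P`. -/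
structure BandEx where
  (lo hi pole : QEx)

/-- Five times the slope of the bands at the centre, without the second order. -/
def xP5 : QEx :=
  qN 5 * xa + qN 10 * xI - qN 40 * xI * xa - qN 5 * xa * (qN 1 - xa) * xv

/-- The bands up to `9/40`. -/
def bandLow : BandEx where
  lo := qN 5 * xS * (qN 1 + (qN 1 - xa) * xv) * (xb - xu * xa) +
    xu * (qN 1 + qN 2 * xI) * (xP5 - qN 110 * (qN 1 - qN 2 * xa) * xI * xI - xI * xa)
  hi := qN 5 * xS * (qN 1 + (qN 1 - xa) * xv) * (xb - xu * xa) +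
    xu * (qN 1 + qN 2 * xI) * (xP5 + xI * xa * (qN 1 + qN 8 * xa + qN 2000 * xI * xa * xa) -
      qN 64 * (qN 1 - qN 3 * xa) * xI * xI) +
    xu * xu * xI * (qN 2 * xa + qN 3 * xI) *
      (qN 16 - qN 12 * xa + xu * ((qN 54 - qN 50 * xa) * (qN 1 - qN 4 * xI)))
  pole := qN 5 * (xb * (qN 1 + qN 2 * xI)) * (xb - xu * xa)

/-- A hundred times the slope of the stable bands in `v`. -/
def xK100 : QEx := qN 100 * xb - qN 5 * (xa * xu * (qN 33 - qN 23 * xu))

/-- The bands beyond `9/40`. -/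
def bandHigh : BandEx where
  lo := qN 100 + xK100 * xv + xI * (qN 450 * xI - qN 413 + qN 100 * (xu *
    (qN 2 - qN 3 * xa + qN 5 * xa * xa - qN 11 * xI - qN 22 * xa * xI - qN 4 * xa * xa * xI +
      xu * (qN 4 * xa - qN 28 * xa * xa + qN 3 * xI - qN 6 * xa * xI + xu * (qN 12 * xa * xa)))))
  hi := qN 100 + xK100 * xv + xI * (qN 600 * xI - qN 396 + qN 100 * (xu *
    (qN 2 - qN 3 * xa + qN 6 * xa * xa - qN 17 * xI + qN 18 * xa * xI +
      xu * (qN 4 * xa - qN 34 * xa * xa + qN 7 * xI + xu * (qN 18 * xa * xa)))))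
  pole := qN 100 * (xb - xu * xa)

/-- The denominator of the chart at `n/P`. -/
def xDen (n P : QEx) : QEx := xD0 * P - xu * xd * n

/-- `pi` times `I S` and the denominator. -/
def xPn (n P : QEx) : QEx := qN 4 * xqn * n - qN 4 * xS * xDen n P

/-- `g W1` times `u b² S²` and the denominator. -/
def xWn (n P : QEx) : QEx :=
  qN 4 * xqn * (n * (xu * xS * (xa - (qN 1 - xa) * xd * xv) - xb * (qN 1 + qN 2 * xI)) +
    xS * (qN 1 + (qN 1 - xa) * xv) * P)

/-- The width of the bounds of `pi`. -/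
def Piece.wid (P : Piece) : QEx := P.piU.ex P.o - P.piL.ex P.o

/-- `pi - piL` times `I S` and the denominator. -/
def Piece.xRise (P : Piece) (n p : QEx) : QEx := xPn n p - P.piL.ex P.o * xI * xS * xDen n p

/-- The bound of `g W1/I` less `e`, over the width, times `u b² S` and the scales. -/
def Piece.xOm (P : Piece) (e : QEx) (n p : QEx) : QEx :=
  xu * xb.pow 2 * xS * (P.xRise n p * (P.om₁.ex P.o - P.om₀.ex P.o)) +
    (P.om₀.ex P.o - e) * P.wid * xu * xI * xb.pow 2 * xS.pow 2 * xDen n p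

/-- The bound of `tau` plus `e`, times the width and the scales. -/
def Piece.xTau (P : Piece) (e : QEx) (n p : QEx) : QEx :=
  ((P.tau₀.ex P.o + e) * P.wid * xI * xS * xDen n p +
    P.xRise n p * (P.tau₁.ex P.o - P.tau₀.ex P.o)) * (xQ * xb * p)

/-- The checks of the bounds at the band `n/P`; `nU` is the upper band. -/
inductive Env where
  | piL | piU | omL | omU | tauL | tauU

/-- The check. -/
def Piece.env (P : Piece) (n nU p : QEx) : Env → QEx
  | .piL => P.xRise n p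
  | .piU => P.piU.ex P.o * xI * xS * xDen n p - xPn n p
  | .omU => P.xOm (qN 0) n p - P.wid * xWn n p
  | .omL => P.wid * xWn n p - P.xOm (qD P.wom) n p
  | .tauU => P.xTau (qD P.wtau) n p - P.wid * (p - xu * xd * n) * xDen n p * xI * xS
  | .tauL => P.wid * ((p - xu * xd * nU) * xDen n p + (xu * xd * nU - xu * xd * n) * xDen nU p) *
        xI * xS - P.xTau (qN 0) n p

/-- The numerator of the exit curve. -/
def xExit : QEx :=
  qN 50 - qN 100 * xa * xu - qN 25 * (xI * xu * (qN 2 + qN 3 * xu))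

/-- `LLGc` at `q = 0`. -/
def xC0 : QEx :=
  qN (-8) * xa.pow 4 + qN (-20) * xa.pow 3 * xd + qN (-18) * xa.pow 2 * xd.pow 2 +
    qN 6 * xa.pow 2 + qN (-7) * xa * xd.pow 3 + qN 9 * xa * xd + qN 2 * xa +
    qN (-1) * xd.pow 4 + qN 3 * xd.pow 2 + qN 2 * xd

/-- the slope of `LLGc`. -/
def xC1 : QEx :=
  qN 4 * xa.pow 4 * xd + qN 12 * xa.pow 3 * xd.pow 2 + qN 13 * xa.pow 2 * xd.pow 3 +
    qN (-2) * xa.pow 2 * xd.pow 2 + qN (-3) * xa.pow 2 * xd + qN 6 * xa * xd.pow 4 +
    qN (-3) * xa * xd.pow 3 + qN (-6) * xa * xd.pow 2 + qN (-1) * xa * xd +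
    qN 1 * xd.pow 5 + qN (-1) * xd.pow 4 + qN (-3) * xd.pow 3 + qN (-1) * xd.pow 2

/-- `LLGv` at `q = 0`, times `v`. -/
def xV0a : QEx :=
  qN 2 * xa.pow 3 * xd + qN 5 * xa.pow 2 * xd.pow 2 + qN (-1) * xa.pow 2 * xd +
    qN 4 * xa * xd.pow 3 + qN (-2) * xa * xd.pow 2 + qN 1 * xd.pow 4 + qN (-1) * xd.pow 3

/-- `LLGv` at `q = 0`. -/
def xV0b : QEx :=
  qN 4 * xa.pow 3 + qN 10 * xa.pow 2 * xd + qN (-2) * xa.pow 2 + qN 8 * xa * xd.pow 2 +
    qN (-4) * xa * xd + qN 2 * xd.pow 3 + qN (-2) * xd.pow 2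

/-- the slope of `LLGv`. -/
def xV1 : QEx :=
  qN (-2) * xa.pow 3 * xd + qN (-5) * xa.pow 2 * xd.pow 2 + qN 1 * xa.pow 2 * xd +
    qN (-4) * xa * xd.pow 3 + qN 2 * xa * xd.pow 2 + qN (-1) * xd.pow 4 + qN 1 * xd.pow 3

/-- the part of `E` in `LLGw`, times `v`. -/
def xEa : QEx :=
  qN 8 * xa.pow 2 * xd + qN 12 * xa * xd.pow 2 + qN (-4) * xa * xd + qN 4 * xd.pow 3 +
    qN (-4) * xd.pow 2

/-- the part of `E` in `LLGw`. -/
def xEb : QEx :=
  qN 16 * xa.pow 2 + qN 24 * xa * xd + qN (-8) * xa + qN 8 * xd.pow 2 + qN (-8) * xd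

/-- the part of `R E` in `LLGw`, times `v`. -/
def xRa : QEx :=
  qN (-2) * xa * xd.pow 3 + qN 2 * xa * xd.pow 2 + qN (-1) * xd.pow 4 + qN 2 * xd.pow 3 +
    qN (-1) * xd.pow 2

/-- the part of `R E` in `LLGw`. -/
def xRb : QEx :=
  qN 16 * xa.pow 2 * xd + qN 12 * xa * xd.pow 2 + qN (-8) * xa * xd + qN 2 * xd.pow 3 +
    qN (-2) * xd.pow 2

/-- `d E` and the multiplier at `q = u n/p`, times `p`. -/
def xdE (n p : QEx) : QEx :=
  qN (-2) * xc0 * xI * xQ * p - qD 2500 * (p - xd * (xu * n))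

/-- A lower bound of the ray gap at `q = u n/p`, times `p d S ^ 2/a`. -/
def xLLG (n p : QEx) : QEx :=
  xd * xS.pow 2 *
      (xb * xv * xD0 * xQ * (xC0 * p + xC1 * (xu * n)) +
        xe2 * xv * xD0.pow 2 * ((xv * xV0a + xV0b) * p + xV1 * (xu * n)) +
        qN 2 * xv * xd * xD0 * (xu * n) * (qN 1 + qN 2 * xI) *
          (qN (-1) * xb * xQ * xI * (qN 1 - qN 3 * xa - xI) - qD 300)) +
    xQ * xS.pow 2 *
      (xdE n p * (xv * xEa + xEb) -
        qD 2500 * (xd * (p - xd * (xu * n))) * (xS * xu * (xv * (qN 4 * xv * xd + qN 8))) +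
        xdE n p * (xS * xu * (xX * (xv * xRa + xRb) + qN 8 * xI))) +
    (xS.pow 2 - qN 2 * xa * (qN 1 - xI)) * xD0.pow 2 * xQ * (qN 2 * xS * xu * xI) * xdE n p

end Vale.Agent.P100.Calib.Closed.All.Low
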