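import Vale.Agent.P100.Calib.SlabAllSignsPieceExpr

/-!
# The pieces of the certificate of the signs on `0 < u ≤ 3/5`, all dimensions from twenty on
-/

namespace Vale.Agent.P100.Calib.Closed.All.Low

/-- The piece 0: `u` in [0, 0.125], `a` in [0, 0.08]. -/
def piece0 : Piece where
  o := ⟨62, 1130, 40, 25⟩
  piL :=
    ⟨482, (-2455), 7272, (-9940), (-5026), (-673), (-21136), (-60679), (-7711), (-14160),
     14596⟩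
  piU :=
    ⟨629, (-579), 7269, (-9263), (-1518), (-751), (-10809), (-5598), (-8717), (-15689), 22291⟩
  om₀ :=
    ⟨(-15864), 693, (-7529), 15916, 24932, (-258), 6175, 16509, 26327, (-22581), 129149⟩
  om₁ :=
    ⟨(-15864), 693, (-7529), 15916, 24932, (-258), 6175, 16509, 26327, (-22581), 129149⟩
  tau₀ :=
    ⟨984, (-966), (-44), 1285, 641, (-3), (-39), 1285, 6, (-1516), 7870⟩
  tau₁ :=
    ⟨984, (-966), (-44), 1285, 641, (-3), (-39), 1285, 6, (-1516), 7870⟩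
  r₀ :=
    ⟨(-568), (-3208), 4854⟩
  r₁ :=
    ⟨1152, 528, 6759⟩
  m₀ :=
    ⟨(-488), 74, (-2057)⟩
  m₁ :=
    ⟨(-194), 460, (-1995)⟩
  wom := 5379
  wtau := 21
  rA := 1604
  rB := 2280
  rF := 1036
  qa := 1000
  qb := 2520

/-- The piece 1: `u` in [0.125, 0.225], `a` in [0, 0.08]. -/
def piece1 : Piece where
  o := ⟨175, 1145, 40, 25⟩
  piL :=
    ⟨301, (-2794), 7127, (-12565), (-12636), (-1110), (-23237), (-67826), (-10597), (-15778),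
     20273⟩
  piU :=
    ⟨713, 184, 7107, (-10208), (-1620), (-732), (-2100), 9676, (-11439), (-17542), 35440⟩
  om₀ :=
    ⟨(-15748), (-406), (-7711), 18343, 27700, (-425), (-11165), (-29459), 27365, (-34670),
     188483⟩
  om₁ :=
    ⟨(-18596), (-2815), (-7623), 857, (-63066), (-3988), (-59210), (-151279), 42223,
     (-20930), (-111106)⟩
  tau₀ :=
    ⟨874, (-981), (-44), 1242, 777, (-2), 267, 1284, (-1), (-1558), 6987⟩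
  tau₁ :=
    ⟨874, (-986), (-44), 1270, 743, (-2), (-313), 893, 58, (-1550), 7623⟩
  r₀ :=
    ⟨(-841), (-1934), 5806⟩
  r₁ :=
    ⟨1336, 838, 6907⟩
  m₀ :=
    ⟨(-514), (-150), (-2033)⟩
  m₁ :=
    ⟨(-158), 738, (-1960)⟩
  wom := 624
  wtau := 21
  rA := 2030
  rB := 2627
  rF := 1510
  qa := 1000
  qb := 2580

/-- The piece 2: `u` in [0, 0.15], `a` in [0.08, 0.16]. -/
def piece2 : Piece where
  o := ⟨75, 1150, 120, 25⟩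
  piL :=
    ⟨(-239), (-4220), 6500, (-10252), (-4670), (-2715), (-19207), (-59122), (-7909),
     (-13316), 13726⟩
  piU :=
    ⟨22, (-1252), 6533, (-9203), 419, (-2303), (-5638), 7856, (-9602), (-15947), 30487⟩
  om₀ :=
    ⟨(-14588), 878, (-4741), 17185, 37855, (-983), 294, 7651, 32409, (-117), 146481⟩
  om₁ :=
    ⟨(-14588), 878, (-4741), 17185, 37855, (-983), 294, 7651, 32409, (-117), 146481⟩
  tau₀ :=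
    ⟨1082, (-967), (-40), 1575, 1318, (-5), 192, 1166, 57, (-1396), 10303⟩
  tau₁ :=
    ⟨1082, (-967), (-40), 1575, 1318, (-5), 192, 1166, 57, (-1396), 10303⟩
  r₀ :=
    ⟨(-836), (-2501), 5439⟩
  r₁ :=
    ⟨330, (-613), 5764⟩
  m₀ :=
    ⟨(-530), 177, (-2013)⟩
  m₁ :=
    ⟨(-184), 976, (-1998)⟩
  wom := 8673
  wtau := 24
  rA := 2152
  rB := 1373
  rF := 516
  qa := 1000
  qb := 2184

/-- The piece 3: `u` in [0.15, 0.225], `a` in [0.08, 0.16]. -/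
def piece3 : Piece where
  o := ⟨188, 1170, 120, 25⟩
  piL :=
    ⟨(-603), (-4927), 6240, (-13054), (-11996), (-2887), (-23427), (-63334), (-10620),
     (-15261), 20929⟩
  piU :=
    ⟨75, 553, 6244, (-9701), 1718, (-2509), 7146, 25954, (-11144), (-17348), 59922⟩
  om₀ :=
    ⟨(-14435), 282, (-4647), 17651, 40686, 1273, (-12561), (-27521), 28138, (-83), 141860⟩
  om₁ :=
    ⟨(-19034), (-9720), (-5145), (-7021), (-82877), (-1486), (-95465), (-192431), 39434, 414,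
     (-357184)⟩
  tau₀ :=
    ⟨971, (-1001), (-40), 1590, 1455, (-3), (-75), 1332, 52, (-1450), 10423⟩
  tau₁ :=
    ⟨970, (-1010), (-40), 1586, 1404, (-3), (-127), 716, 53, (-1442), 10275⟩
  r₀ :=
    ⟨(-1097), (-3249), 5191⟩
  r₁ :=
    ⟨393, (-460), 5851⟩
  m₀ :=
    ⟨(-562), (-537), (-1900)⟩
  m₁ :=
    ⟨(-118), 1132, (-1878)⟩
  wom := 743
  wtau := 24
  rA := 2433
  rB := 1555
  rF := 779
  qa := 1000
  qb := 2252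

/-- The piece 4: `u` in [0, 0.125], `a` in [0.16, 0.31]. -/
def piece4 : Piece where
  o := ⟨62, 1170, 235, 25⟩
  piL :=
    ⟨(-1232), (-6665), 5590, (-10296), (-2038), (-3756), (-21324), (-54258), (-7962),
     (-11736), 14948⟩
  piU :=
    ⟨(-785), (-293), 5565, (-9172), 7850, (-4028), (-4220), 101942, (-9110), (-15526), 30221⟩
  om₀ :=
    ⟨(-12425), (-1063), 234, 18692, 60143, (-6355), (-23601), (-41378), 50260, 39679, 232434⟩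
  om₁ :=
    ⟨(-12425), (-1063), 234, 18692, 60143, (-6355), (-23601), (-41378), 50260, 39679, 232434⟩
  tau₀ :=
    ⟨1301, (-903), (-32), 2165, 2743, (-9), 118, 1383, 156, (-1138), 5983⟩
  tau₁ :=
    ⟨1301, (-903), (-32), 2165, 2743, (-9), 118, 1383, 156, (-1138), 5983⟩
  r₀ :=
    ⟨(-1600), (-3851), 4853⟩
  r₁ :=
    ⟨37, (-446), 3302⟩
  m₀ :=
    ⟨(-670), (-798), (-2028)⟩
  m₁ :=
    ⟨(-174), 1888, (-1999)⟩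
  wom := 23841
  wtau := 69
  rA := 3158
  rB := 764
  rF := 706
  qa := 1000
  qb := 1823

/-- The piece 5: `u` in [0.125, 0.225], `a` in [0.16, 0.31]. -/
def piece5 : Piece where
  o := ⟨175, 1225, 235, 25⟩
  piL :=
    ⟨(-1737), (-7868), 5041, (-13179), (-9346), (-4939), (-21958), (-55783), (-10190),
     (-13569), 19948⟩
  piU :=
    ⟨(-477), 836, 5053, (-6702), 15200, (-4400), 9979, 53451, (-10977), (-17071), 167349⟩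
  om₀ :=
    ⟨(-12152), (-2385), (-334), 19995, 64528, (-2830), (-50641), (-166280), 40059, 19481,
     292722⟩
  om₁ :=
    ⟨(-22461), (-7222), (-394), (-46267), (-216428), (-4271), 31692, 118296, 50093, 27884,
     (-1670019)⟩
  tau₀ :=
    ⟨1194, (-970), (-33), 2232, 2882, (-4), 542, 1690, 628, (-1164), 14460⟩
  tau₁ :=
    ⟨1193, (-985), (-33), 2224, 2794, (-5), 437, 749, 629, (-1158), 14238⟩
  r₀ :=
    ⟨(-1875), (-2285), 5181⟩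
  r₁ :=
    ⟨183, (-942), 2589⟩
  m₀ :=
    ⟨(-935), (-551), (-1667)⟩
  m₁ :=
    ⟨(-62), 2309, (-1836)⟩
  wom := 4816
  wtau := 66
  rA := 3708
  rB := 904
  rF := 719
  qa := 1000
  qb := 1972

/-- The piece 6: `u` in [0.225, 0.375], `a` in [0, 0.08]. -/
def piece6 : Piece where
  o := ⟨300, 1175, 40, 25⟩
  piL :=
    ⟨28, (-1523), 7442, (-15643), (-6842), (-984), (-18118), (-27186), (-12642), (-5058),
     (-66998)⟩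
  piU :=
    ⟨968, (-1353), 7458, (-14303), (-3065), (-830), (-11666), (-34291), (-12026), (-4998),
     (-574)⟩
  om₀ :=
    ⟨(-15620), (-8675), (-9587), 17688, (-22462), 2856, (-23237), (-46471), 21371, (-82884),
     411217⟩
  om₁ :=
    ⟨(-19186), 4573, (-9495), 9489, (-64619), 561, (-31067), 133989, 26270, (-93027), 135299⟩
  tau₀ :=
    ⟨749, (-1002), (-45), 1156, 843, (-3), (-554), 793, 60, (-1601), 13149⟩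
  tau₁ :=
    ⟨747, (-1007), (-45), 1151, 777, (-4), (-604), 630, 8, (-1632), 12359⟩
  r₀ :=
    ⟨(-1151), (-1130), 6541⟩
  r₁ :=
    ⟨1761, 735, 7698⟩
  m₀ :=
    ⟨(-641), 495, (-2214)⟩
  m₁ :=
    ⟨(-51), 435, (-1945)⟩
  wom := 1008
  wtau := 28
  rA := 2700
  rB := 3489
  rF := 2625
  qa := 1000
  qb := 2700

/-- The piece 7: `u` in [0.225, 0.375], `a` in [0.08, 0.16]. -/
def piece7 : Piece where
  o := ⟨300, 1220, 120, 25⟩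
  piL :=
    ⟨(-932), (-3153), 6479, (-16037), (-12013), (-1800), (-22242), (-37985), (-12542),
     (-6369), (-67084)⟩
  piU :=
    ⟨121, (-2696), 6505, (-14897), (-3413), (-1840), (-15907), (-25859), (-12570), (-6595),
     4658⟩
  om₀ :=
    ⟨(-14415), (-11788), (-7318), 17992, 11626, 484, (-15511), (-117536), 27117, (-59772),
     463834⟩
  om₁ :=
    ⟨(-18824), 3941, (-7362), 9408, (-56985), 1638, (-4752), 69839, 32280, (-70092), 143586⟩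
  tau₀ :=
    ⟨854, (-1044), (-41), 1466, 1501, (-5), (-485), 985, 66, (-1533), 17865⟩
  tau₁ :=
    ⟨852, (-1050), (-41), 1460, 1413, (-4), (-484), 648, 41, (-1525), 17630⟩
  r₀ :=
    ⟨(-1472), (-1551), 5842⟩
  r₁ :=
    ⟨663, (-260), 5196⟩
  m₀ :=
    ⟨(-622), 698, (-2089)⟩
  m₁ :=
    ⟨4, 964, (-2012)⟩
  wom := 1183
  wtau := 34
  rA := 3299
  rB := 2018
  rF := 1433
  qa := 1000
  qb := 2420

/-- The piece 8: `u` in [0.375, 0.6], `a` in [0, 0.08]. -/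
def piece8 : Piece where
  o := ⟨487, 1225, 40, 25⟩
  piL :=
    ⟨78, (-1708), 7310, (-19348), (-12545), (-876), (-15700), (-32834), (-14904), (-7732),
     (-91042)⟩
  piU :=
    ⟨1112, (-1136), 7319, (-16777), (-9944), (-744), (-7763), (-35015), (-14002), (-6720),
     24416⟩
  om₀ :=
    ⟨(-17027), (-3478), (-9041), 12835, (-28737), (-49), (-20410), (-19839), 22633, (-60484),
     328762⟩
  om₁ :=
    ⟨(-19216), 1113, (-9026), 6177, (-52478), 1556, (-17452), 23388, 24145, (-71805), 35359⟩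
  tau₀ :=
    ⟨555, (-1036), (-45), 996, 843, (-3), (-1025), 216, 42, (-1682), 13322⟩
  tau₁ :=
    ⟨553, (-1041), (-45), 1052, 739, (-3), (-1090), (-3), 37, (-1671), 7412⟩
  r₀ :=
    ⟨(-1912), (-896), 8464⟩
  r₁ :=
    ⟨3036, 4475, 9640⟩
  m₀ :=
    ⟨(-664), 451, (-2152)⟩
  m₁ :=
    ⟨(-13), 580, (-2055)⟩
  wom := 846
  wtau := 29
  rA := 4411
  rB := 6291
  rF := 8936
  qa := 1000
  qb := 2900

/-- The piece 9: `u` in [0.375, 0.6], `a` in [0.08, 0.16]. -/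
def piece9 : Piece where
  o := ⟨487, 1315, 120, 25⟩
  piL :=
    ⟨(-966), (-3419), 6203, (-21782), (-20069), (-1570), (-26528), (-44164), (-14392),
     (-8714), (-95589)⟩
  piU :=
    ⟨265, (-2420), 6221, (-19611), (-8560), (-1475), (-19155), (-21723), (-13819), (-8789),
     24044⟩
  om₀ :=
    ⟨(-16481), (-5328), (-7065), 15995, (-5800), (-1472), (-20660), (-46550), 25896,
     (-42516), 416516⟩
  om₁ :=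
    ⟨(-19325), (-77), (-7151), 9412, (-53357), 91, (-11043), 15956, 26617, (-52686), 75406⟩
  tau₀ :=
    ⟨646, (-1122), (-42), 1410, 1462, (-4), (-1093), 347, 50, (-1580), 3329⟩
  tau₁ :=
    ⟨643, (-1130), (-42), 1402, 1296, (-4), (-1124), (-129), 41, (-1564), 2245⟩
  r₀ :=
    ⟨(-2459), (-1317), 7227⟩
  r₁ :=
    ⟨1361, 916, 5322⟩
  m₀ :=
    ⟨(-711), 556, (-2024)⟩
  m₁ :=
    ⟨90, 1407, (-1927)⟩
  wom := 902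
  wtau := 35
  rA := 5541
  rB := 3465
  rF := 4520
  qa := 1000
  qb := 2739

/-- The piece 10: `u` in [0.225, 0.375], `a` in [0.16, 0.31]. -/
def piece10 : Piece where
  o := ⟨300, 1330, 235, 25⟩
  piL :=
    ⟨(-2180), (-6174), 5125, (-16515), (-19833), (-2578), (-23859), (-53117), (-11779),
     (-7241), (-61035)⟩
  piU :=
    ⟨(-940), (-5161), 5142, (-15210), (-3947), (-2604), (-19726), (-12987), (-11873),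
     (-8560), 5197⟩
  om₀ :=
    ⟨(-12684), (-15722), (-3300), 16235, 66772, (-8497), (-41468), (-263494), 37876,
     (-17635), 569371⟩
  om₁ :=
    ⟨(-18699), 2699, (-3644), 4609, (-49462), (-169), 6136, 25764, 36467, (-30757), 127087⟩
  tau₀ :=
    ⟨1062, (-1066), (-34), 2372, 2964, (-7), 222, 1491, 73, (-1214), 2138⟩
  tau₁ :=
    ⟨1060, (-1075), (-34), 2370, 2844, (-7), 242, 923, 75, (-1206), 2249⟩
  r₀ :=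
    ⟨(-2142), (-4775), 3963⟩
  r₁ :=
    ⟨277, (-1151), 3781⟩
  m₀ :=
    ⟨(-743), 989, (-1961)⟩
  m₁ :=
    ⟨111, 2316, (-1867)⟩
  wom := 1920
  wtau := 89
  rA := 4372
  rB := 1782
  rF := 2066
  qa := 1000
  qb := 2258

/-- The piece 11: `u` in [0.375, 0.6], `a` in [0.16, 0.24]. -/
def piece11 : Piece where
  o := ⟨487, 1435, 200, 25⟩
  piL :=
    ⟨(-2117), (-6009), 5141, (-23799), (-27956), (-1958), (-33993), (-55256), (-13719),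
     (-9105), (-92544)⟩
  piU :=
    ⟨(-711), (-4674), 5140, (-21856), (-7425), (-2055), (-27691), (-7995), (-13782), (-9611),
     37147⟩
  om₀ :=
    ⟨(-15735), (-7216), (-4917), 17107, 22968, (-3219), (-20848), (-84897), 29046, (-26080),
     465312⟩
  om₁ :=
    ⟨(-19245), (-897), (-5007), 10699, (-52608), (-1849), (-3206), (-31020), 30089, (-33262),
     71533⟩
  tau₀ :=
    ⟨769, (-1208), (-38), 1829, 2396, (-6), (-879), 720, 9, (-1434), 13821⟩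
  tau₁ :=
    ⟨765, (-1218), (-37), 1800, 2164, (-5), (-1020), (-60), 77, (-1411), 14547⟩
  r₀ :=
    ⟨(-3301), (-11912), 4213⟩
  r₁ :=
    ⟨467, (-499), 3281⟩
  m₀ :=
    ⟨(-771), 919, (-1889)⟩
  m₁ :=
    ⟨202, 2403, (-1878)⟩
  wom := 1088
  wtau := 42
  rA := 7323
  rB := 2155
  rF := 6212
  qa := 1000
  qb := 2544

/-- The piece 12: `u` in [0.375, 0.6], `a` in [0.24, 0.31]. -/
def piece12 : Piece where
  o := ⟨487, 1570, 275, 25⟩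
  piL :=
    ⟨(-3310), (-9050), 4164, (-24274), (-34959), (-2308), (-34001), (-61333), (-12432),
     (-8775), (-69296)⟩
  piU :=
    ⟨(-1751), (-7184), 4155, (-22618), (-6566), (-2490), (-28940), 4690, (-13251), (-9973),
     43974⟩
  om₀ :=
    ⟨(-14945), (-9403), (-2588), 13163, 51580, (-5275), (-40840), (-134296), 30693, (-9570),
     394811⟩
  om₁ :=
    ⟨(-19085), (-2082), (-2724), 6565, (-51385), (-4616), (-19661), (-84589), 32814,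
     (-12701), 38234⟩
  tau₀ :=
    ⟨933, (-1270), (-32), 2574, 3810, (-8), (-626), 1469, 74, (-1193), 40368⟩
  tau₁ :=
    ⟨928, (-1284), (-32), 2677, 3524, (-7), (-1559), 403, 108, (-1183), 25146⟩
  r₀ :=
    ⟨(-3676), (-1162), 5704⟩
  r₁ :=
    ⟨14, (-1357), 1578⟩
  m₀ :=
    ⟨(-816), 1498, (-1761)⟩
  m₁ :=
    ⟨250, 3264, (-1807)⟩
  wom := 1165
  wtau := 66
  rA := 8025
  rB := 1224
  rF := 1368
  qa := 1000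
  qb := 2226

/-- A box of the piece 0. -/
def box0 : ℕ → Pack.Chart
  | 0 => ⟨0, 1, 8, 8⟩
  | 1 => ⟨99, 126, 100, 100⟩
  | 2 => ⟨0, 2, 25, 25⟩
  | _ => ⟨0, 1, 20, 20⟩

/-- A box of the piece 0. -/
def box0_0 : ℕ → Pack.Chart
  | 0 => ⟨0, 1, 8, 8⟩
  | 1 => ⟨198, 225, 200, 200⟩
  | 2 => ⟨0, 2, 25, 25⟩
  | _ => ⟨0, 1, 20, 20⟩

/-- A box of the piece 0. -/
def box0_1 : ℕ → Pack.Chart
  | 0 => ⟨0, 1, 8, 8⟩
  | 1 => ⟨225, 252, 200, 200⟩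
  | 2 => ⟨0, 2, 25, 25⟩
  | _ => ⟨0, 1, 20, 20⟩

/-- A box of the piece 1. -/
def box1 : ℕ → Pack.Chart
  | 0 => ⟨5, 9, 40, 40⟩
  | 1 => ⟨99, 129, 100, 100⟩
  | 2 => ⟨0, 2, 25, 25⟩
  | _ => ⟨0, 1, 20, 20⟩

/-- A box of the piece 1. -/
def box1_0 : ℕ → Pack.Chart
  | 0 => ⟨5, 9, 40, 40⟩
  | 1 => ⟨99, 114, 100, 100⟩
  | 2 => ⟨0, 2, 25, 25⟩
  | _ => ⟨0, 1, 20, 20⟩

/-- A box of the piece 1. -/
def box1_1 : ℕ → Pack.Chart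
  | 0 => ⟨5, 9, 40, 40⟩
  | 1 => ⟨114, 129, 100, 100⟩
  | 2 => ⟨0, 2, 25, 25⟩
  | _ => ⟨0, 1, 20, 20⟩

/-- A box of the piece 2. -/
def box2 : ℕ → Pack.Chart
  | 0 => ⟨0, 3, 20, 20⟩
  | 1 => ⟨49, 65, 50, 50⟩
  | 2 => ⟨2, 4, 25, 25⟩
  | _ => ⟨0, 1, 20, 20⟩

/-- A box of the piece 2. -/
def box2_0 : ℕ → Pack.Chart
  | 0 => ⟨0, 3, 40, 40⟩
  | 1 => ⟨49, 53, 50, 50⟩
  | 2 => ⟨2, 4, 25, 25⟩
  | _ => ⟨0, 1, 20, 20⟩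

/-- A box of the piece 2. -/
def box2_1 : ℕ → Pack.Chart
  | 0 => ⟨0, 3, 40, 40⟩
  | 1 => ⟨53, 57, 50, 50⟩
  | 2 => ⟨2, 4, 25, 25⟩
  | _ => ⟨0, 1, 20, 20⟩

/-- A box of the piece 2. -/
def box2_2 : ℕ → Pack.Chart
  | 0 => ⟨0, 3, 40, 40⟩
  | 1 => ⟨57, 61, 50, 50⟩
  | 2 => ⟨2, 4, 25, 25⟩
  | _ => ⟨0, 1, 20, 20⟩

/-- A box of the piece 2. -/
def box2_3 : ℕ → Pack.Chart
  | 0 => ⟨0, 3, 40, 40⟩
  | 1 => ⟨61, 65, 50, 50⟩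
  | 2 => ⟨2, 4, 25, 25⟩
  | _ => ⟨0, 1, 20, 20⟩

/-- A box of the piece 2. -/
def box2_4 : ℕ → Pack.Chart
  | 0 => ⟨3, 6, 40, 40⟩
  | 1 => ⟨49, 53, 50, 50⟩
  | 2 => ⟨2, 4, 25, 25⟩
  | _ => ⟨0, 1, 20, 20⟩

/-- A box of the piece 2. -/
def box2_5 : ℕ → Pack.Chart
  | 0 => ⟨3, 6, 40, 40⟩
  | 1 => ⟨53, 57, 50, 50⟩
  | 2 => ⟨2, 4, 25, 25⟩
  | _ => ⟨0, 1, 20, 20⟩

/-- A box of the piece 2. -/
def box2_6 : ℕ → Pack.Chart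
  | 0 => ⟨3, 6, 40, 40⟩
  | 1 => ⟨57, 61, 50, 50⟩
  | 2 => ⟨2, 4, 25, 25⟩
  | _ => ⟨0, 1, 20, 20⟩

/-- A box of the piece 2. -/
def box2_7 : ℕ → Pack.Chart
  | 0 => ⟨3, 6, 40, 40⟩
  | 1 => ⟨61, 65, 50, 50⟩
  | 2 => ⟨2, 4, 25, 25⟩
  | _ => ⟨0, 1, 20, 20⟩

/-- A box of the piece 3. -/
def box3 : ℕ → Pack.Chart
  | 0 => ⟨6, 9, 40, 40⟩
  | 1 => ⟨49, 67, 50, 50⟩
  | 2 => ⟨2, 4, 25, 25⟩
  | _ => ⟨0, 1, 20, 20⟩

/-- A box of the piece 3. -/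
def box3_0 : ℕ → Pack.Chart
  | 0 => ⟨12, 15, 80, 80⟩
  | 1 => ⟨98, 107, 100, 100⟩
  | 2 => ⟨2, 4, 25, 25⟩
  | _ => ⟨0, 1, 20, 20⟩

/-- A box of the piece 3. -/
def box3_1 : ℕ → Pack.Chart
  | 0 => ⟨12, 15, 80, 80⟩
  | 1 => ⟨107, 116, 100, 100⟩
  | 2 => ⟨2, 4, 25, 25⟩
  | _ => ⟨0, 1, 20, 20⟩

/-- A box of the piece 3. -/
def box3_2 : ℕ → Pack.Chart
  | 0 => ⟨12, 15, 80, 80⟩
  | 1 => ⟨116, 125, 100, 100⟩
  | 2 => ⟨2, 4, 25, 25⟩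
  | _ => ⟨0, 1, 20, 20⟩

/-- A box of the piece 3. -/
def box3_3 : ℕ → Pack.Chart
  | 0 => ⟨12, 15, 80, 80⟩
  | 1 => ⟨125, 134, 100, 100⟩
  | 2 => ⟨2, 4, 25, 25⟩
  | _ => ⟨0, 1, 20, 20⟩

/-- A box of the piece 3. -/
def box3_4 : ℕ → Pack.Chart
  | 0 => ⟨15, 18, 80, 80⟩
  | 1 => ⟨98, 107, 100, 100⟩
  | 2 => ⟨2, 4, 25, 25⟩
  | _ => ⟨0, 1, 20, 20⟩

/-- A box of the piece 3. -/
def box3_5 : ℕ → Pack.Chart
  | 0 => ⟨15, 18, 80, 80⟩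
  | 1 => ⟨107, 116, 100, 100⟩
  | 2 => ⟨2, 4, 25, 25⟩
  | _ => ⟨0, 1, 20, 20⟩

/-- A box of the piece 3. -/
def box3_6 : ℕ → Pack.Chart
  | 0 => ⟨15, 18, 80, 80⟩
  | 1 => ⟨116, 125, 100, 100⟩
  | 2 => ⟨2, 4, 25, 25⟩
  | _ => ⟨0, 1, 20, 20⟩

/-- A box of the piece 3. -/
def box3_7 : ℕ → Pack.Chart
  | 0 => ⟨15, 18, 80, 80⟩
  | 1 => ⟨125, 134, 100, 100⟩
  | 2 => ⟨2, 4, 25, 25⟩
  | _ => ⟨0, 1, 20, 20⟩

/-- A box of the piece 4. -/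
def box4 : ℕ → Pack.Chart
  | 0 => ⟨0, 1, 8, 8⟩
  | 1 => ⟨48, 67, 50, 50⟩
  | 2 => ⟨16, 31, 100, 100⟩
  | _ => ⟨0, 1, 20, 20⟩

/-- A box of the piece 4. -/
def box4_0 : ℕ → Pack.Chart
  | 0 => ⟨0, 1, 8, 8⟩
  | 1 => ⟨48, 67, 50, 50⟩
  | 2 => ⟨32, 47, 200, 200⟩
  | _ => ⟨0, 1, 20, 20⟩

/-- A box of the piece 4. -/
def box4_1 : ℕ → Pack.Chart
  | 0 => ⟨0, 1, 8, 8⟩
  | 1 => ⟨48, 67, 50, 50⟩
  | 2 => ⟨47, 62, 200, 200⟩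
  | _ => ⟨0, 1, 20, 20⟩

/-- A box of the piece 5. -/
def box5 : ℕ → Pack.Chart
  | 0 => ⟨5, 9, 40, 40⟩
  | 1 => ⟨96, 145, 100, 100⟩
  | 2 => ⟨16, 31, 100, 100⟩
  | _ => ⟨0, 1, 20, 20⟩

/-- A box of the piece 5. -/
def box5_0 : ℕ → Pack.Chart
  | 0 => ⟨5, 9, 40, 40⟩
  | 1 => ⟨96, 145, 100, 100⟩
  | 2 => ⟨32, 47, 200, 200⟩
  | _ => ⟨0, 1, 40, 40⟩

/-- A box of the piece 5. -/
def box5_1 : ℕ → Pack.Chart
  | 0 => ⟨5, 9, 40, 40⟩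
  | 1 => ⟨96, 145, 100, 100⟩
  | 2 => ⟨32, 47, 200, 200⟩
  | _ => ⟨1, 2, 40, 40⟩

/-- A box of the piece 5. -/
def box5_2 : ℕ → Pack.Chart
  | 0 => ⟨5, 9, 40, 40⟩
  | 1 => ⟨96, 145, 100, 100⟩
  | 2 => ⟨47, 62, 200, 200⟩
  | _ => ⟨0, 1, 40, 40⟩

/-- A box of the piece 5. -/
def box5_3 : ℕ → Pack.Chart
  | 0 => ⟨5, 9, 40, 40⟩
  | 1 => ⟨96, 145, 100, 100⟩
  | 2 => ⟨47, 62, 200, 200⟩
  | _ => ⟨1, 2, 40, 40⟩

/-- A box of the piece 5. -/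
def box5_4 : ℕ → Pack.Chart
  | 0 => ⟨5, 9, 40, 40⟩
  | 1 => ⟨96, 145, 100, 100⟩
  | 2 => ⟨32, 47, 200, 200⟩
  | _ => ⟨0, 1, 20, 20⟩

/-- A box of the piece 5. -/
def box5_5 : ℕ → Pack.Chart
  | 0 => ⟨5, 9, 40, 40⟩
  | 1 => ⟨96, 145, 100, 100⟩
  | 2 => ⟨47, 62, 200, 200⟩
  | _ => ⟨0, 1, 20, 20⟩

/-- A box of the piece 5. -/
def box5_6 : ℕ → Pack.Chart
  | 0 => ⟨5, 7, 40, 40⟩
  | 1 => ⟨384, 433, 400, 400⟩
  | 2 => ⟨16, 31, 100, 100⟩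
  | _ => ⟨0, 1, 20, 20⟩

/-- A box of the piece 5. -/
def box5_7 : ℕ → Pack.Chart
  | 0 => ⟨5, 7, 40, 40⟩
  | 1 => ⟨433, 482, 400, 400⟩
  | 2 => ⟨16, 31, 100, 100⟩
  | _ => ⟨0, 1, 20, 20⟩

/-- A box of the piece 5. -/
def box5_8 : ℕ → Pack.Chart
  | 0 => ⟨5, 7, 40, 40⟩
  | 1 => ⟨482, 531, 400, 400⟩
  | 2 => ⟨16, 31, 100, 100⟩
  | _ => ⟨0, 1, 20, 20⟩

/-- A box of the piece 5. -/
def box5_9 : ℕ → Pack.Chart
  | 0 => ⟨5, 7, 40, 40⟩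
  | 1 => ⟨531, 580, 400, 400⟩
  | 2 => ⟨16, 31, 100, 100⟩
  | _ => ⟨0, 1, 20, 20⟩

/-- A box of the piece 5. -/
def box5_10 : ℕ → Pack.Chart
  | 0 => ⟨7, 9, 40, 40⟩
  | 1 => ⟨384, 433, 400, 400⟩
  | 2 => ⟨16, 31, 100, 100⟩
  | _ => ⟨0, 1, 20, 20⟩

/-- A box of the piece 5. -/
def box5_11 : ℕ → Pack.Chart
  | 0 => ⟨7, 9, 40, 40⟩
  | 1 => ⟨433, 482, 400, 400⟩
  | 2 => ⟨16, 31, 100, 100⟩
  | _ => ⟨0, 1, 20, 20⟩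

/-- A box of the piece 5. -/
def box5_12 : ℕ → Pack.Chart
  | 0 => ⟨7, 9, 40, 40⟩
  | 1 => ⟨482, 531, 400, 400⟩
  | 2 => ⟨16, 31, 100, 100⟩
  | _ => ⟨0, 1, 20, 20⟩

/-- A box of the piece 5. -/
def box5_13 : ℕ → Pack.Chart
  | 0 => ⟨7, 9, 40, 40⟩
  | 1 => ⟨531, 580, 400, 400⟩
  | 2 => ⟨16, 31, 100, 100⟩
  | _ => ⟨0, 1, 20, 20⟩

/-- A box of the piece 6. -/
def box6 : ℕ → Pack.Chart
  | 0 => ⟨9, 15, 40, 40⟩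
  | 1 => ⟨99, 135, 100, 100⟩
  | 2 => ⟨0, 2, 25, 25⟩
  | _ => ⟨0, 1, 20, 20⟩

/-- A box of the piece 6. -/
def box6_0 : ℕ → Pack.Chart
  | 0 => ⟨9, 15, 40, 40⟩
  | 1 => ⟨99, 117, 100, 100⟩
  | 2 => ⟨0, 2, 25, 25⟩
  | _ => ⟨0, 1, 20, 20⟩

/-- A box of the piece 6. -/
def box6_1 : ℕ → Pack.Chart
  | 0 => ⟨9, 15, 40, 40⟩
  | 1 => ⟨117, 135, 100, 100⟩
  | 2 => ⟨0, 2, 25, 25⟩
  | _ => ⟨0, 1, 20, 20⟩

/-- A box of the piece 7. -/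
def box7 : ℕ → Pack.Chart
  | 0 => ⟨9, 15, 40, 40⟩
  | 1 => ⟨49, 72, 50, 50⟩
  | 2 => ⟨2, 4, 25, 25⟩
  | _ => ⟨0, 1, 20, 20⟩

/-- A box of the piece 7. -/
def box7_0 : ℕ → Pack.Chart
  | 0 => ⟨9, 12, 40, 40⟩
  | 1 => ⟨196, 219, 200, 200⟩
  | 2 => ⟨2, 4, 25, 25⟩
  | _ => ⟨0, 1, 20, 20⟩

/-- A box of the piece 7. -/
def box7_1 : ℕ → Pack.Chart
  | 0 => ⟨9, 12, 40, 40⟩
  | 1 => ⟨219, 242, 200, 200⟩
  | 2 => ⟨2, 4, 25, 25⟩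
  | _ => ⟨0, 1, 20, 20⟩

/-- A box of the piece 7. -/
def box7_2 : ℕ → Pack.Chart
  | 0 => ⟨9, 12, 40, 40⟩
  | 1 => ⟨242, 265, 200, 200⟩
  | 2 => ⟨2, 4, 25, 25⟩
  | _ => ⟨0, 1, 20, 20⟩

/-- A box of the piece 7. -/
def box7_3 : ℕ → Pack.Chart
  | 0 => ⟨9, 12, 40, 40⟩
  | 1 => ⟨265, 288, 200, 200⟩
  | 2 => ⟨2, 4, 25, 25⟩
  | _ => ⟨0, 1, 20, 20⟩

/-- A box of the piece 7. -/
def box7_4 : ℕ → Pack.Chart
  | 0 => ⟨12, 15, 40, 40⟩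
  | 1 => ⟨196, 219, 200, 200⟩
  | 2 => ⟨2, 4, 25, 25⟩
  | _ => ⟨0, 1, 20, 20⟩

/-- A box of the piece 7. -/
def box7_5 : ℕ → Pack.Chart
  | 0 => ⟨12, 15, 40, 40⟩
  | 1 => ⟨219, 242, 200, 200⟩
  | 2 => ⟨2, 4, 25, 25⟩
  | _ => ⟨0, 1, 20, 20⟩

/-- A box of the piece 7. -/
def box7_6 : ℕ → Pack.Chart
  | 0 => ⟨12, 15, 40, 40⟩
  | 1 => ⟨242, 265, 200, 200⟩
  | 2 => ⟨2, 4, 25, 25⟩
  | _ => ⟨0, 1, 20, 20⟩

/-- A box of the piece 7. -/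
def box7_7 : ℕ → Pack.Chart
  | 0 => ⟨12, 15, 40, 40⟩
  | 1 => ⟨265, 288, 200, 200⟩
  | 2 => ⟨2, 4, 25, 25⟩
  | _ => ⟨0, 1, 20, 20⟩

/-- A box of the piece 8. -/
def box8 : ℕ → Pack.Chart
  | 0 => ⟨15, 24, 40, 40⟩
  | 1 => ⟨99, 145, 100, 100⟩
  | 2 => ⟨0, 2, 25, 25⟩
  | _ => ⟨0, 1, 20, 20⟩

/-- A box of the piece 8. -/
def box8_0 : ℕ → Pack.Chart
  | 0 => ⟨15, 24, 40, 40⟩
  | 1 => ⟨99, 145, 100, 100⟩
  | 2 => ⟨0, 1, 25, 25⟩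
  | _ => ⟨0, 1, 20, 20⟩

/-- A box of the piece 8. -/
def box8_1 : ℕ → Pack.Chart
  | 0 => ⟨15, 24, 40, 40⟩
  | 1 => ⟨99, 145, 100, 100⟩
  | 2 => ⟨1, 2, 25, 25⟩
  | _ => ⟨0, 1, 20, 20⟩

/-- A box of the piece 8. -/
def box8_2 : ℕ → Pack.Chart
  | 0 => ⟨15, 24, 40, 40⟩
  | 1 => ⟨99, 122, 100, 100⟩
  | 2 => ⟨0, 2, 25, 25⟩
  | _ => ⟨0, 1, 20, 20⟩

/-- A box of the piece 8. -/
def box8_3 : ℕ → Pack.Chart
  | 0 => ⟨15, 24, 40, 40⟩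
  | 1 => ⟨122, 145, 100, 100⟩
  | 2 => ⟨0, 2, 25, 25⟩
  | _ => ⟨0, 1, 20, 20⟩

/-- A box of the piece 9. -/
def box9 : ℕ → Pack.Chart
  | 0 => ⟨15, 24, 40, 40⟩
  | 1 => ⟨98, 163, 100, 100⟩
  | 2 => ⟨2, 4, 25, 25⟩
  | _ => ⟨0, 1, 20, 20⟩

/-- A box of the piece 9. -/
def box9_0 : ℕ → Pack.Chart
  | 0 => ⟨15, 24, 40, 40⟩
  | 1 => ⟨196, 261, 200, 200⟩
  | 2 => ⟨2, 4, 25, 25⟩
  | _ => ⟨0, 1, 20, 20⟩

/-- A box of the piece 9. -/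
def box9_1 : ℕ → Pack.Chart
  | 0 => ⟨15, 24, 40, 40⟩
  | 1 => ⟨261, 326, 200, 200⟩
  | 2 => ⟨2, 4, 25, 25⟩
  | _ => ⟨0, 1, 20, 20⟩

/-- A box of the piece 10. -/
def box10 : ℕ → Pack.Chart
  | 0 => ⟨9, 15, 40, 40⟩
  | 1 => ⟨48, 83, 50, 50⟩
  | 2 => ⟨16, 31, 100, 100⟩
  | _ => ⟨0, 1, 20, 20⟩

/-- A box of the piece 10. -/
def box10_0 : ℕ → Pack.Chart
  | 0 => ⟨9, 15, 40, 40⟩
  | 1 => ⟨48, 83, 50, 50⟩
  | 2 => ⟨32, 47, 200, 200⟩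
  | _ => ⟨0, 1, 20, 20⟩

/-- A box of the piece 10. -/
def box10_1 : ℕ → Pack.Chart
  | 0 => ⟨9, 15, 40, 40⟩
  | 1 => ⟨48, 83, 50, 50⟩
  | 2 => ⟨47, 62, 200, 200⟩
  | _ => ⟨0, 1, 20, 20⟩

/-- A box of the piece 10. -/
def box10_2 : ℕ → Pack.Chart
  | 0 => ⟨9, 15, 40, 40⟩
  | 1 => ⟨96, 131, 100, 100⟩
  | 2 => ⟨16, 31, 100, 100⟩
  | _ => ⟨0, 1, 20, 20⟩

/-- A box of the piece 10. -/
def box10_3 : ℕ → Pack.Chart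
  | 0 => ⟨9, 15, 40, 40⟩
  | 1 => ⟨131, 166, 100, 100⟩
  | 2 => ⟨16, 31, 100, 100⟩
  | _ => ⟨0, 1, 20, 20⟩

/-- A box of the piece 11. -/
def box11 : ℕ → Pack.Chart
  | 0 => ⟨15, 24, 40, 40⟩
  | 1 => ⟨96, 187, 100, 100⟩
  | 2 => ⟨4, 6, 25, 25⟩
  | _ => ⟨0, 1, 20, 20⟩

/-- A box of the piece 11. -/
def box11_0 : ℕ → Pack.Chart
  | 0 => ⟨15, 24, 40, 40⟩
  | 1 => ⟨96, 187, 100, 100⟩
  | 2 => ⟨4, 5, 25, 25⟩
  | _ => ⟨0, 1, 20, 20⟩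

/-- A box of the piece 11. -/
def box11_1 : ℕ → Pack.Chart
  | 0 => ⟨15, 24, 40, 40⟩
  | 1 => ⟨96, 187, 100, 100⟩
  | 2 => ⟨5, 6, 25, 25⟩
  | _ => ⟨0, 1, 20, 20⟩

/-- A box of the piece 12. -/
def box12 : ℕ → Pack.Chart
  | 0 => ⟨15, 24, 40, 40⟩
  | 1 => ⟨48, 107, 50, 50⟩
  | 2 => ⟨24, 31, 100, 100⟩
  | _ => ⟨0, 1, 20, 20⟩

/-- A box of the piece 12. -/
def box12_0 : ℕ → Pack.Chart
  | 0 => ⟨15, 24, 40, 40⟩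
  | 1 => ⟨48, 107, 50, 50⟩
  | 2 => ⟨48, 55, 200, 200⟩
  | _ => ⟨0, 1, 20, 20⟩

/-- A box of the piece 12. -/
def box12_1 : ℕ → Pack.Chart
  | 0 => ⟨15, 24, 40, 40⟩
  | 1 => ⟨48, 107, 50, 50⟩
  | 2 => ⟨55, 62, 200, 200⟩
  | _ => ⟨0, 1, 20, 20⟩

/-- A box of the piece 12. -/
def box12_2 : ℕ → Pack.Chart
  | 0 => ⟨30, 39, 80, 80⟩
  | 1 => ⟨96, 155, 100, 100⟩
  | 2 => ⟨24, 31, 100, 100⟩
  | _ => ⟨0, 1, 20, 20⟩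

/-- A box of the piece 12. -/
def box12_3 : ℕ → Pack.Chart
  | 0 => ⟨30, 39, 80, 80⟩
  | 1 => ⟨155, 214, 100, 100⟩
  | 2 => ⟨24, 31, 100, 100⟩
  | _ => ⟨0, 1, 20, 20⟩

/-- A box of the piece 12. -/
def box12_4 : ℕ → Pack.Chart
  | 0 => ⟨39, 48, 80, 80⟩
  | 1 => ⟨96, 155, 100, 100⟩
  | 2 => ⟨24, 31, 100, 100⟩
  | _ => ⟨0, 1, 20, 20⟩

/-- A box of the piece 12. -/
def box12_5 : ℕ → Pack.Chart
  | 0 => ⟨39, 48, 80, 80⟩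
  | 1 => ⟨155, 214, 100, 100⟩
  | 2 => ⟨24, 31, 100, 100⟩
  | _ => ⟨0, 1, 20, 20⟩

/-- A box of the piece 12. -/
def box12_6 : ℕ → Pack.Chart
  | 0 => ⟨15, 24, 40, 40⟩
  | 1 => ⟨96, 155, 100, 100⟩
  | 2 => ⟨24, 31, 100, 100⟩
  | _ => ⟨0, 1, 20, 20⟩

/-- A box of the piece 12. -/
def box12_7 : ℕ → Pack.Chart
  | 0 => ⟨15, 24, 40, 40⟩
  | 1 => ⟨155, 214, 100, 100⟩
  | 2 => ⟨24, 31, 100, 100⟩
  | _ => ⟨0, 1, 20, 20⟩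

/-- A box of the piece 12. -/
def box12_8 : ℕ → Pack.Chart
  | 0 => ⟨15, 24, 40, 40⟩
  | 1 => ⟨48, 107, 50, 50⟩
  | 2 => ⟨48, 55, 200, 200⟩
  | _ => ⟨0, 1, 40, 40⟩

/-- A box of the piece 12. -/
def box12_9 : ℕ → Pack.Chart
  | 0 => ⟨15, 24, 40, 40⟩
  | 1 => ⟨48, 107, 50, 50⟩
  | 2 => ⟨48, 55, 200, 200⟩
  | _ => ⟨1, 2, 40, 40⟩

/-- A box of the piece 12. -/
def box12_10 : ℕ → Pack.Chart
  | 0 => ⟨15, 24, 40, 40⟩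
  | 1 => ⟨48, 107, 50, 50⟩
  | 2 => ⟨55, 62, 200, 200⟩
  | _ => ⟨0, 1, 40, 40⟩

/-- A box of the piece 12. -/
def box12_11 : ℕ → Pack.Chart
  | 0 => ⟨15, 24, 40, 40⟩
  | 1 => ⟨48, 107, 50, 50⟩
  | 2 => ⟨55, 62, 200, 200⟩
  | _ => ⟨1, 2, 40, 40⟩

/-- A box of the piece 12. -/
def box12_12 : ℕ → Pack.Chart
  | 0 => ⟨30, 39, 80, 80⟩
  | 1 => ⟨192, 251, 200, 200⟩
  | 2 => ⟨24, 31, 100, 100⟩
  | _ => ⟨0, 1, 20, 20⟩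

/-- A box of the piece 12. -/
def box12_13 : ℕ → Pack.Chart
  | 0 => ⟨30, 39, 80, 80⟩
  | 1 => ⟨251, 310, 200, 200⟩
  | 2 => ⟨24, 31, 100, 100⟩
  | _ => ⟨0, 1, 20, 20⟩

/-- A box of the piece 12. -/
def box12_14 : ℕ → Pack.Chart
  | 0 => ⟨30, 39, 80, 80⟩
  | 1 => ⟨310, 369, 200, 200⟩
  | 2 => ⟨24, 31, 100, 100⟩
  | _ => ⟨0, 1, 20, 20⟩

/-- A box of the piece 12. -/
def box12_15 : ℕ → Pack.Chart
  | 0 => ⟨30, 39, 80, 80⟩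
  | 1 => ⟨369, 428, 200, 200⟩
  | 2 => ⟨24, 31, 100, 100⟩
  | _ => ⟨0, 1, 20, 20⟩

/-- A box of the piece 12. -/
def box12_16 : ℕ → Pack.Chart
  | 0 => ⟨39, 48, 80, 80⟩
  | 1 => ⟨192, 251, 200, 200⟩
  | 2 => ⟨24, 31, 100, 100⟩
  | _ => ⟨0, 1, 20, 20⟩

/-- A box of the piece 12. -/
def box12_17 : ℕ → Pack.Chart
  | 0 => ⟨39, 48, 80, 80⟩
  | 1 => ⟨251, 310, 200, 200⟩
  | 2 => ⟨24, 31, 100, 100⟩
  | _ => ⟨0, 1, 20, 20⟩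

/-- A box of the piece 12. -/
def box12_18 : ℕ → Pack.Chart
  | 0 => ⟨39, 48, 80, 80⟩
  | 1 => ⟨310, 369, 200, 200⟩
  | 2 => ⟨24, 31, 100, 100⟩
  | _ => ⟨0, 1, 20, 20⟩

/-- A box of the piece 12. -/
def box12_19 : ℕ → Pack.Chart
  | 0 => ⟨39, 48, 80, 80⟩
  | 1 => ⟨369, 428, 200, 200⟩
  | 2 => ⟨24, 31, 100, 100⟩
  | _ => ⟨0, 1, 20, 20⟩

end Vale.Agent.P100.Calib.Closed.All.Low
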