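import Mathlib
import Vale.Agent.P100.Calib.SlabGenClosed

/-!
# The closed signs through the numbers `g W`, `g W1`, `g E`, `g K`
-/

set_option linter.unusedVariables false

namespace Vale.Agent.P100.Calib.Closed.All.Low

open ClosedGen

section
variable (a d v g W W1 R c e2 E K G G1 D2 : ℝ)

theorem scale_TGG : TGGS a d v g W W1 R ⟨c, e2, E, K, G, G1, D2⟩ =
    TGGS a d v 1 (g * W) (g * W1) 0 ⟨c, e2, g * E, g * K, G, G1, D2⟩ := by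
  simp only [TGGS, LGGS, gGS, hGS, gG_c, hG_c, GG_g]
  ring

theorem scale_TEG : TEGS a d v g W W1 R ⟨c, e2, E, K, G, G1, D2⟩ =
    TEGS a d v 1 (g * W) (g * W1) 0 ⟨c, e2, g * E, g * K, G, G1, D2⟩ := by
  simp only [TEGS, LEGS, gES, gGS, hES, hGS, gE_c, gE_w, gG_c, hE_c, hG_c, EG_g, Closed.LEGc,
    Closed.LEGv, Closed.LEGw]
  ring

theorem scale_TEE : TEES a d v g W W1 R ⟨c, e2, E, K, G, G1, D2⟩ =
    TEES a d v 1 (g * W) (g * W1) 0 ⟨c, e2, g * E, g * K, G, G1, D2⟩ := by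
  simp only [TEES, LEES, gES, gGS, gMS, hES, hGS, hMS, gE_c, gE_w, gG_c, hE_c, hG_c, hM_c, EE_g,
    EE_kc, Closed.LEEc, Closed.LEEv, Closed.LEEw]
  ring

theorem scale_TMG : TMGS a d v g W W1 R ⟨c, e2, E, K, G, G1, D2⟩ =
    TMGS a d v 1 (g * W) (g * W1) 0 ⟨c, e2, g * E, g * K, G, G1, D2⟩ := by
  simp only [TMGS, LMGS, gES, gGS, gMS, hES, hGS, hMS, gE_c, gE_w, gG_c, hE_c, hG_c, hM_c, MG_g,
    MG_kc, MG_kw, Closed.LMGc, Closed.LMGv, Closed.LMGw]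
  ring

theorem scale_TA : TAS a d v g W W1 R ⟨c, e2, E, K, G, G1, D2⟩ =
    TAS a d v 1 (g * W) (g * W1) 0 ⟨c, e2, g * E, g * K, G, G1, D2⟩ := by
  rw [TAS, TAS, scale_TEE, scale_TMG]

theorem scale_TME : g * TMES a d v g W W1 R ⟨c, e2, E, K, G, G1, D2⟩ =
    TMES a d v 1 (g * W) (g * W1) 0 ⟨c, e2, g * E, g * K, G, G1, D2⟩ := by
  simp only [TMES, TME_c, TME_v, TME_w]
  ring

theorem scale_TMM : g ^ 2 * TMMS a d v g W W1 R ⟨c, e2, E, K, G, G1, D2⟩ =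
    TMMS a d v 1 (g * W) (g * W1) 0 ⟨c, e2, g * E, g * K, G, G1, D2⟩ := by
  simp only [TMMS, TMM_w]
  ring

/-- The signs at `(g, W, W1)` from those at `(1, g W, g W1)` and the ray gap. -/
theorem signs_of_one (hg : 0 < g)
    (hG : 0 < TGGS a d v 1 (g * W) (g * W1) 0 ⟨c, e2, g * E, g * K, G, G1, D2⟩)
    (hM : 0 < TMMS a d v 1 (g * W) (g * W1) 0 ⟨c, e2, g * E, g * K, G, G1, D2⟩)
    (hA : 0 < TArrowS a d v 1 (g * W) (g * W1) 0 ⟨c, e2, g * E, g * K, G, G1, D2⟩)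
    (hN : 0 ≤ TMGS a d v 1 (g * W) (g * W1) 0 ⟨c, e2, g * E, g * K, G, G1, D2⟩)
    (hL : 0 ≤ LLGS a d v g W W1 R ⟨c, e2, E, K, G, G1, D2⟩) :
    ClosedGen.Signs a d v g W W1 R ⟨c, e2, E, K, G, G1, D2⟩ := by
  have hg2 : 0 < g ^ 2 := pow_pos hg 2
  refine ⟨scale_TGG a d v g W W1 R c e2 E K G G1 D2 ▸ hG, ?_, ?_,
    scale_TMG a d v g W W1 R c e2 E K G G1 D2 ▸ hN, hL⟩
  · rw [← scale_TMM (R := R)] at hM
    exact pos_of_mul_pos_right hM hg2.le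
  · refine pos_of_mul_pos_right (a := g ^ 2) ?_ hg2.le
    have e : g ^ 2 * TArrowS a d v g W W1 R ⟨c, e2, E, K, G, G1, D2⟩ =
        TArrowS a d v 1 (g * W) (g * W1) 0 ⟨c, e2, g * E, g * K, G, G1, D2⟩ := by
      simp only [TArrowS, ← scale_TA (R := R), ← scale_TGG (R := R), ← scale_TMM (R := R),
        ← scale_TEG (R := R), ← scale_TME (R := R)]
      ring
    rwa [e]

end

end Vale.Agent.P100.Calib.Closed.All.Low
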