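import Vale.Agent.P100.Calib.SlabAllSignsEnv
import Vale.Agent.P100.Calib.SlabAllSignsScale
import Vale.Agent.P100.Calib.SlabChartAll

/-!
# The closed signs from a piece that holds at a point
-/

set_option linter.unusedVariables false
set_option linter.unusedSimpArgs false

namespace Vale.Agent.P100.Calib.Closed.All.Low

/-- The arrow from linear bounds of the two ratios. -/
theorem arrow_pos {A G T M E a b d I Q q r₀ r₁ m₀ m₁ : ℝ} (hG : 0 < G) (hM : 0 < M) (ha : 0 < a)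
    (hb : 0 < b) (hI : 0 < I) (hQ : 0 < Q) (hq : Q ≤ q)
    (t0 : r₀ * G ≤ d * T) (t1 : d * T ≤ r₁ * G) (e0 : m₀ * (a * b * I * M) ≤ E)
    (e1 : E ≤ m₁ * (a * b * I * M))
    (hf : 0 < 4 * A - q * ((r₀ + r₁) * (d * T) - r₀ * r₁ * G + 16 * a ^ 2 * b ^ 2 * I *
      ((m₀ + m₁) * E - m₀ * m₁ * (a * b * I * M)))) :
    0 < 4 * A * M * G + (-1) * d ^ 2 * Q * T ^ 2 * M + (-16) * (a * b) * Q * E ^ 2 * G := by
  set K₁ := (r₀ + r₁) * (d * T) - r₀ * r₁ * G with hK₁
  set K₂ := (m₀ + m₁) * E - m₀ * m₁ * (a * b * I * M) with hK₂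
  set k := a * b * I * M with hk
  have k0 : 0 < k := by positivity
  have h1 : (d * T) ^ 2 ≤ K₁ * G := by
    have := mul_nonneg (sub_nonneg.2 t0) (sub_nonneg.2 t1)
    rw [hK₁]; linarith
  have h2 : E ^ 2 ≤ K₂ * k := by
    have := mul_nonneg (sub_nonneg.2 e0) (sub_nonneg.2 e1)
    rw [hK₂]; linarith
  have p1 : 0 ≤ K₁ := nonneg_of_mul_nonneg_left ((sq_nonneg _).trans h1) hG
  have p2 : 0 ≤ K₂ := nonneg_of_mul_nonneg_left ((sq_nonneg _).trans h2) k0
  have hS : 0 ≤ K₁ + 16 * a ^ 2 * b ^ 2 * I * K₂ := by positivity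
  have := mul_le_mul_of_nonneg_right hq hS
  have h3 := mul_pos (mul_pos hM hG) hf
  have h4 := mul_le_mul_of_nonneg_left h1 (mul_nonneg hQ.le hM.le)
  have h5 := mul_le_mul_of_nonneg_left h2
    (mul_nonneg (mul_nonneg (mul_nonneg (by norm_num : (0 : ℝ) ≤ 16) (mul_pos ha hb).le) hQ.le) hG.le)
  have h6 := mul_le_mul_of_nonneg_left (mul_le_mul_of_nonneg_right hq hS) (mul_pos hM hG).le
  rw [hk] at h5
  linarith

section
variable {P : Piece} {B : BandEx} {o : PtR} {H : ℝ}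

/-- The signs at `g = 1`. -/
theorem Piece.Holds.signs_one (hP : P.Holds o) (h : o.Pos) {θ ω τ : ℝ} (h0 : 0 ≤ θ) (h1 : θ ≤ 1)
    (w0 : P.omR o θ - (P.wom : ℝ) / 1000 ≤ ω) (w1 : ω ≤ P.omR o θ)
    (t0 : P.tauR o θ ≤ τ) (t1 : τ ≤ P.tauR o θ + (P.wtau : ℝ) / 1000)
    (hr : 0 < o.r (P.piR o θ)) (hE : (o.nums (P.piR o θ) ω τ).E < 0) :
    let n := o.nums (P.piR o θ) ω τ
    0 < o.blk ClosedGen.TGGS n ∧ 0 < o.blk ClosedGen.TMMS n ∧ 0 < o.blk ClosedGen.TArrowS n ∧
      0 ≤ o.blk ClosedGen.TMGS n := by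
  intro n
  have B' := fun q => hP.between h q h0 h1 w0 w1 t0 t1
  have ha := h.a_pos
  have hb := h.b_pos
  have hI := h.I_pos
  have hQ := h.Q_pos
  have hs1 := h.s1_pos
  have hs2 := h.s2_pos
  have hab : o.a + o.d = o.b := by simp only [PtR.b, PtR.d]; ring
  have kg : 0 < o.s2 ^ 2 / o.a ^ 3 := by positivity
  have kt : 0 < o.s1 * o.s2 ^ 2 / o.a ^ 3 := by positivity
  have kn : 0 < (o.s1 * o.s2) ^ 2 / o.a ^ 3 := by positivity
  have ke : 0 < o.s1 * o.s2 / o.a := by positivity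
  have I2 : (0 : ℝ) < 1 / 1000 * o.I ^ 2 := by positivity
  have bg := B' .g; have bn := B' .n; have bl := B' .tlo; have bh := B' .thi
  have ml := B' .mlo; have mh := B' .mhi; have bf := B' .f
  simp only [Kind.floor, Comb.at, Piece.comb, zero_mul, add_zero, zero_add]
    at bg bn bl bh ml mh bf
  set G := o.blk ClosedGen.TGGS n
  set T := o.blk ClosedGen.TEGS n
  set A := o.blk ClosedGen.TAS n
  set N := o.blk ClosedGen.TMGS n
  set E := o.blk ClosedGen.TMES n
  set M := o.blk ClosedGen.TMMS n with hM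
  have G0 : 0 < G := pos_of_mul_pos_right (I2.trans_le bg) kg.le
  have M0 : 0 < M := by
    have : M = n.p * -n.E * (2 * o.I * o.Q) := by
      simp only [hM, PtR.blk, PtR.num, Nums.num, ClosedGen.TMMS, ClosedGen.TMM_w, PtR.Q]
      rw [show o.I = (1 - 2 * o.a - o.d) / 2 by simp only [PtR.d]; ring]
      ring
    rw [this]
    have hp : 0 < n.p := div_pos hr hb
    have : 0 < -n.E := neg_pos.2 hE
    positivity
  refine ⟨G0, M0, ?_, nonneg_of_mul_nonneg_right bn kn⟩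
  have hq := hP.side .q
  obtain ⟨-, -, -, eI, -, -, -, eQ, -, -, -, -⟩ := o.vals
  simp only [Piece.side, val_add, val_sub, val_mul, val_dec, eI, eQ] at hq
  refine lt_of_lt_of_eq (arrow_pos (T := T) (E := E) (A := A) (r₀ := (P.r₀.ex P.o).val o.x)
    (r₁ := (P.r₁.ex P.o).val o.x) (m₀ := (P.m₀.ex P.o).val o.x) (m₁ := (P.m₁.ex P.o).val o.x)
    (d := o.d) G0 M0 ha hb hI hQ
    (by linarith : o.Q ≤ (P.qa : ℝ) / 1000 + (P.qb : ℝ) / 1000 * o.I) ?_ ?_ ?_ ?_ ?_) ?_
  · refine sub_nonneg.1 (nonneg_of_mul_nonneg_right (le_of_le_of_eq bl ?_) kt)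
    ring
  · refine sub_nonneg.1 (nonneg_of_mul_nonneg_right (le_of_le_of_eq bh ?_) kt)
    ring
  · refine sub_nonneg.1 (nonneg_of_mul_nonneg_right (le_of_le_of_eq ml ?_) ke)
    field_simp
    ring
  · refine sub_nonneg.1 (nonneg_of_mul_nonneg_right (le_of_le_of_eq mh ?_) ke)
    field_simp
    ring
  · refine pos_of_mul_pos_right (lt_of_lt_of_le I2 (le_of_le_of_eq bf ?_)) kn.le
    ring
  · simp only [G, T, A, E, hM, PtR.blk, PtR.num, Nums.num, ClosedGen.TArrowS, PtR.Q, hab]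

end

section
variable {d S u v t : ℝ}

/-- The point of a state of the chart. -/
noncomputable def ptOf (d S u v : ℝ) : PtR := ⟨u, v / (1 - S), (S - d) / 2, (1 - S) / 2⟩

theorem ptOf_eqs (hS : S < 1) : (ptOf d S u v).d = d ∧ (ptOf d S u v).b = (S + d) / 2 ∧
    (ptOf d S u v).v = v ∧ (ptOf d S u v).S = S := by
  have : 1 - S ≠ 0 := by linarith
  simp only [ptOf, PtR.d, PtR.b, PtR.v, PtR.S]
  refine ⟨by ring, by ring, by field_simp, by ring⟩

/-- The facts of the chart used at a point of `0 < u`. -/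
structure Basic (d S u v t : ℝ) : Prop where
  d_pos : 0 < d
  S_lt : S < 1
  one : 1 + d ≤ 2 * S
  a_le : (S - d) / 2 ≤ 31 / 100
  S_low : 9 / 10 ≤ S
  u_pos : 0 < u
  u_lt : u < 1
  v_pos : 0 < v
  H_pos : 0 < chH d S u v t
  h_lt : d * chH d S u v t < 1
  r_lt : (S - d) * v < 2
  drift : 2 * S * (1 - (S - d) / 2 * v) / ((1 - S) * ((S + d) / 2)) <
    chG d S u v t * chH d S u v t / 2

variable (hB : Basic d S u v t)
include hB

theorem Basic.pos : (ptOf d S u v).Pos := by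
  obtain ⟨e1, -, -, -⟩ := ptOf_eqs (d := d) (u := u) (v := v) hB.S_lt
  refine ⟨hB.u_pos.le, div_pos hB.v_pos (by linarith [hB.S_lt]), ?_, ?_, ?_, by
    rw [e1]; exact hB.d_pos⟩ <;> simp only [ptOf] <;>
    linarith [hB.S_lt, hB.one, hB.S_low, hB.d_pos]

theorem Basic.den_pos : 0 < (ptOf d S u v).den (chH d S u v t) := by
  obtain ⟨e1, -, ev, -⟩ := ptOf_eqs (d := d) (u := u) (v := v) hB.S_lt
  have h1 := mul_pos hB.u_pos (sub_pos.2 hB.h_lt)
  have h2 := mul_pos hB.d_pos hB.v_pos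
  simp only [PtR.den, PtR.D0, e1, ev, show (ptOf d S u v).u = u from rfl]
  linarith [hB.u_lt]

theorem Basic.gap_pos : 0 < 1 - d * u * chH d S u v t := by
  have h1 := mul_pos hB.u_pos (sub_pos.2 hB.h_lt)
  linarith [hB.u_lt]

theorem Basic.chG_pos : 0 < chG d S u v t := by
  have := hB.S_lt; have := hB.S_low; have := hB.d_pos
  have h1 : 0 < 1 - (S - d) / 2 * v := by linarith [hB.r_lt]
  have h2 : 0 < 2 * S * (1 - (S - d) / 2 * v) / ((1 - S) * ((S + d) / 2)) :=
    div_pos (mul_pos (by linarith) h1) (mul_pos (by linarith) (by linarith))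
  exact pos_of_mul_pos_left (b := chH d S u v t) (by linarith [hB.drift]) hB.H_pos.le

theorem Basic.qn_pos : 0 < (ptOf d S u v).qn := by
  obtain ⟨e1, eb, ev, eS⟩ := ptOf_eqs (d := d) (u := u) (v := v) hB.S_lt
  have h := hB.chG_pos
  have hden := hB.den_pos
  have hS1 : 0 < 1 - S := by linarith [hB.S_lt]
  have hb : 0 < (S + d) / 2 := by linarith [hB.S_low, hB.d_pos]
  simp only [PtR.den, PtR.D0, e1, ev, show (ptOf d S u v).u = u from rfl] at hden
  simp only [PtR.qn, PtR.D0, PtR.Q, e1, eb, ev, eS, show (ptOf d S u v).u = u from rfl]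
  simp only [chG] at h
  rw [lt_div_iff₀ (mul_pos (mul_pos hS1 hb) (by linarith))] at h
  linarith

/-- The numbers of the chart through `(pi, g W1/I, tau)`. -/
theorem Basic.nums_eq :
    let o := ptOf d S u v
    let H := chH d S u v t
    let g := chG d S u v t
    let N := allNum ((S - d) / 2) d v (chW d S u v t) (chR S u)
    let n := o.nums (o.piH H) (o.omH H) (o.tauH H)
    g * chW d S u v t = n.p ∧ g * chW1 d S u v t = n.w ∧ g * N.E = n.E ∧ g * N.K = n.K ∧
      N.G = n.G ∧ N.G1 = n.G1 := by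
  intro o H g N n
  obtain ⟨e1, eb, ev, eS⟩ : o.d = d ∧ o.b = (S + d) / 2 ∧ o.v = v ∧ o.S = S := ptOf_eqs hB.S_lt
  have hS1 : 1 - S ≠ 0 := by linarith [hB.S_lt]
  have hS0 : S ≠ 0 := by linarith [hB.S_low]
  have hd : d ≠ 0 := hB.d_pos.ne'
  have hu : u ≠ 0 := hB.u_pos.ne'
  have hb : S + d ≠ 0 := by linarith [hB.S_low, hB.d_pos]
  have h2 : 2 - S ≠ 0 := by linarith [hB.S_lt]
  have hden : 2 + d * v - u * d * H ≠ 0 := by
    have h : 0 < o.den H := hB.den_pos
    simp only [PtR.den, PtR.D0, e1, ev, show o.u = u from rfl] at h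
    exact h.ne'
  have hden' : 2 + d * v - d * u * H ≠ 0 := by rwa [mul_comm d u]
  have hD : 2 + d * v ≠ 0 := by have := mul_pos hB.d_pos hB.v_pos; linarith
  have hQ : 1 + d * v ≠ 0 := by have := mul_pos hB.d_pos hB.v_pos; linarith
  have eT : chR S u * d * chW d S u v t = u * d * H := by
    simp only [chR, chW, H]; field_simp
  have eg : g = 4 * o.qn / ((1 - S) * ((S + d) / 2) * (2 + d * v - d * u * H)) := by
    simp only [g, chG, PtR.qn, PtR.D0, PtR.Q, e1, eb, ev, eS, show o.u = u from rfl, H]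
  have et : t = (H - S * (1 + (1 - (S - d) / 2) * v) / ((S + d) / 2 * (2 - S))) / u := by
    simp only [H, chH]; field_simp; ring
  have eW1 : chW1 d S u v t = (1 - S) / S *
      (H * ((S - d) / 2 - (1 - (S - d) / 2) * d * v) / ((S + d) / 2) - (2 - S) / S *
        ((H - S * (1 + (1 - (S - d) / 2) * v) / ((S + d) / 2 * (2 - S))) / u)) := by
    rw [← et]; rfl
  have eN : dimAll ((S - d) / 2) d = 2 / (1 - S) := by
    simp only [dimAll]; congr 1; ring
  have eW : chW d S u v t = (1 - S) / S * H := rfl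
  have ea : o.a = (S - d) / 2 := rfl
  have eI : o.I = (1 - S) / 2 := rfl
  have eu : o.u = u := rfl
  simp only [N, n]
  clear_value o H g
  simp only [allNum, eT, eN, show (S - d) / 2 + d = (S + d) / 2 by ring]
  simp only [PtR.nums, PtR.piH, PtR.omH, PtR.tauH, PtR.gam, PtR.gom, PtR.r,
    PtR.den, PtR.s1, PtR.D0, PtR.Q, e1, eb, ev, eS, eg, eW1,
    eu, ea, eI, eW]
  simp only [PtR.qn, PtR.D0, PtR.Q, e1, eb, ev, eS, eu]
  refine ⟨?_, ?_, ?_, ?_, ?_, ?_⟩ <;> field_simp <;> ring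

theorem Basic.D2_eq : (allNum ((S - d) / 2) d v (chW d S u v t) (chR S u)).D2 = (ptOf d S u v).D2 := by
  obtain ⟨e1, -, -, eS⟩ := ptOf_eqs (d := d) (u := u) (v := v) hB.S_lt
  have hS1 : 1 - S ≠ 0 := by linarith [hB.S_lt]
  have hS0 : 0 < S := by linarith [hB.S_low]
  have hd : d ≠ 0 := hB.d_pos.ne'
  have eN : dimAll ((S - d) / 2) d = 2 / (1 - S) := by
    simp only [dimAll]; congr 1; ring
  have key : 2 * (2 / (1 - S) * ((S - d) / 2)) * (2 / (1 - S) - 1) / (2 / (1 - S) - 2) ^ 2 =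
      (S - d) * ((1 + S) / 2) / S ^ 2 := by
    rw [show 2 / (1 - S) - 2 = 2 * S / (1 - S) by field_simp; ring]
    field_simp
    ring
  have le1 : (S - d) * ((1 + S) / 2) / S ^ 2 ≤ 1 := by
    rw [div_le_one (by positivity)]
    have h1 := mul_le_mul_of_nonneg_right (show S - d ≤ 31 / 50 by linarith [hB.a_le])
      (show (0 : ℝ) ≤ (1 + S) / 2 by linarith)
    have := pow_le_pow_left₀ (by norm_num) hB.S_low 2
    linarith [hB.S_lt]
  simp only [allNum, AllN.kapAll, eN, key, max_eq_right (neg_le_neg le1), PtR.D2, PtR.s2, eS, e1,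
    show (ptOf d S u v).a = (S - d) / 2 from rfl, show (ptOf d S u v).I = (1 - S) / 2 from rfl]
  field_simp
  ring

theorem Basic.E_neg :
    ((ptOf d S u v).nums ((ptOf d S u v).piH (chH d S u v t))
      ((ptOf d S u v).omH (chH d S u v t)) ((ptOf d S u v).tauH (chH d S u v t))).E < 0 ∧
    0 < (ptOf d S u v).r ((ptOf d S u v).piH (chH d S u v t)) := by
  set o := ptOf d S u v with ho
  set H := chH d S u v t with hH
  obtain ⟨e1, eb, ev, eS⟩ : o.d = d ∧ o.b = (S + d) / 2 ∧ o.v = v ∧ o.S = S :=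
    ptOf_eqs hB.S_lt
  have hp := hB.pos
  have hd := hB.den_pos
  have hq := hB.qn_pos
  have hg := hB.gap_pos
  have hI := hp.I_pos
  have hS := hp.S_pos
  have hD := hp.D0_pos
  have hQ := hp.Q_pos
  have eu : o.u = u := rfl
  simp only [← ho, ← hH] at hp hd hq hI hS hD hQ
  have er : o.r (o.piH H) = 4 * o.qn * H / (o.S * o.den H) := by
    simp only [PtR.r, PtR.piH]
    field_simp
    ring
  have eG : o.gam (o.piH H) = 4 * o.qn * o.D0 / o.den H := by
    simp only [PtR.gam, er]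
    rw [show o.D0 * o.b - o.S * o.u * o.Q = o.qn from rfl]
    field_simp
    simp only [PtR.den]
    ring
  have eO : o.gom (o.piH H) = 4 * o.qn * o.D0 / o.den H * (1 - d * u * H) := by
    have eD : o.den H = o.D0 - u * d * H := by simp only [PtR.den, eu, e1]
    simp only [PtR.gom, eG, er, eu, e1]
    field_simp
  refine ⟨?_, by rw [er]; have := hB.H_pos; positivity⟩
  simp only [PtR.nums, eO, eG]
  have c0 : 0 < 1 - 3 * o.I - 2 * o.a ^ 2 := by
    have h1 : o.I ≤ 1 / 20 := by simp only [ho, ptOf]; linarith [hB.S_low]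
    have h2 := pow_le_pow_left₀ hp.a_pos.le (show o.a ≤ 31 / 100 from hB.a_le) 2
    linarith
  have hG : 0 < 4 * o.qn * o.D0 / o.den H := by positivity
  refine div_neg_of_neg_of_pos ?_ (mul_pos (mul_pos hp.s1_pos hp.d_pos) hI)
  have := mul_pos (mul_pos (mul_pos c0 hI) hQ) hG
  have := mul_pos hG hg
  linarith

end

end Vale.Agent.P100.Calib.Closed.All.Low
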