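import Mathlib
import Vale.Agent.P100.Pack.FastFour

/-!
# Packed expressions with decimal denominators

`QEx` is an integer expression over a power of `1000`.
-/

namespace Vale.Agent.P100.Calib.Closed.All.Low

open Pack

/-- An integer expression over `1000 ^ k`. -/
structure QEx where
  /-- the numerator -/
  e : Pack.Ex
  /-- the exponent of the denominator -/
  k : ℕ

/-- The numerator over a higher power. -/
def QEx.up (q : QEx) (m : ℕ) : Pack.Ex :=
  cond (Nat.beq m q.k) q.e (.mul (.num ((1000 : ℤ) ^ Nat.sub m q.k)) q.e)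

/-- The sum. -/
def QEx.add (q r : QEx) : QEx :=
  ⟨.add (q.up (nmax q.k r.k)) (r.up (nmax q.k r.k)), nmax q.k r.k⟩

/-- The difference. -/
def QEx.sub (q r : QEx) : QEx :=
  ⟨.sub (q.up (nmax q.k r.k)) (r.up (nmax q.k r.k)), nmax q.k r.k⟩

/-- The product. -/
def QEx.mul (q r : QEx) : QEx := ⟨.mul q.e r.e, Nat.add q.k r.k⟩

/-- A power. -/
def QEx.pow (q : QEx) (n : ℕ) : QEx := ⟨.pow q.e n, Nat.mul n q.k⟩

/-- An integer. -/
def qN (z : ℤ) : QEx := ⟨.num z, 0⟩

/-- A number in units of `1/1000`. -/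
def qD (z : ℤ) : QEx := ⟨.num z, 1⟩

/-- A variable. -/
def qX (i : ℕ) : QEx := ⟨.var i, 0⟩

instance : Add QEx := ⟨QEx.add⟩
instance : Sub QEx := ⟨QEx.sub⟩
instance : Mul QEx := ⟨QEx.mul⟩

/-- The value. -/
noncomputable def QEx.val (q : QEx) (x : ℕ → ℝ) : ℝ := q.e.eval x / 1000 ^ q.k

theorem QEx.up_val (q : QEx) (x : ℕ → ℝ) {m : ℕ} (h : q.k ≤ m) :
    (q.up m).eval x / 1000 ^ m = q.val x := by
  unfold QEx.up QEx.val
  cases hm : Nat.beq m q.k
  · simp only [cond_false, Ex.eval, Nat.sub_eq]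
    push_cast
    rw [show (1000 : ℝ) ^ m = 1000 ^ (m - q.k) * 1000 ^ q.k by
      rw [← pow_add, Nat.sub_add_cancel h]]
    rw [mul_div_mul_left _ _ (pow_ne_zero _ (by norm_num))]
  · rw [Nat.beq_eq] at hm
    simp only [cond_true, hm]

variable (q r : QEx) (x : ℕ → ℝ)

@[simp] theorem val_add : (q + r).val x = q.val x + r.val x := by
  have hq : q.k ≤ nmax q.k r.k := by rw [nmax_eq]; exact le_max_left _ _
  have hr : r.k ≤ nmax q.k r.k := by rw [nmax_eq]; exact le_max_right _ _
  change (q.add r).val x = _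
  rw [← q.up_val x hq, ← r.up_val x hr]
  simp only [QEx.val, QEx.add, Ex.eval, add_div]

@[simp] theorem val_sub : (q - r).val x = q.val x - r.val x := by
  have hq : q.k ≤ nmax q.k r.k := by rw [nmax_eq]; exact le_max_left _ _
  have hr : r.k ≤ nmax q.k r.k := by rw [nmax_eq]; exact le_max_right _ _
  change (q.sub r).val x = _
  rw [← q.up_val x hq, ← r.up_val x hr]
  simp only [QEx.val, QEx.sub, Ex.eval, sub_div]

@[simp] theorem val_mul : (q * r).val x = q.val x * r.val x := by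
  change (q.mul r).val x = _
  simp only [QEx.val, QEx.mul, Ex.eval, Nat.add_eq, pow_add, div_mul_div_comm]

@[simp] theorem val_pow (n : ℕ) : (q.pow n).val x = q.val x ^ n := by
  simp only [QEx.val, QEx.pow, Ex.eval, Nat.mul_eq, div_pow, ← pow_mul, mul_comm n]

@[simp] theorem val_num (z : ℤ) : (qN z).val x = z := by simp [QEx.val, qN, Ex.eval]

@[simp] theorem val_dec (z : ℤ) : (qD z).val x = z / 1000 := by simp [QEx.val, qD, Ex.eval]

@[simp] theorem val_var (i : ℕ) : (qX i).val x = x i := by simp [QEx.val, qX, Ex.eval]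

/-- `Pack.maskDigits` by shifts, for blocks of more than `2 ^ 24` bits in all. -/
def maskShift (K n Z : ℕ) : Bool :=
  Nat.blt Z (Nat.shiftLeft 1 (Nat.mul K n)) &&
    Nat.beq (Nat.land Z (Nat.mul (Nat.shiftLeft 1 (Nat.sub K 1))
      (Nat.div (Nat.sub (Nat.shiftLeft 1 (Nat.mul K n)) 1) (Nat.sub (Nat.shiftLeft 1 K) 1)))) 0

theorem maskShift_eq (K n Z : ℕ) : maskShift K n Z = maskDigits K n Z := by
  have e : ∀ m, Nat.shiftLeft 1 m = 2 ^ m := fun m => Nat.one_shiftLeft m
  simp only [maskShift, maskDigits, repunit, e, Nat.mul_eq, Nat.sub_eq]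
  rfl

/-- `Pack.checkFour` with the test by shifts. -/
noncomputable def checkShift (C : ℕ → Chart) (K a b c d : ℕ) (e : Ex) : Bool :=
  let P := pt4 C K (deg4 a b c d)
  chartsOk C && e.ok 4 && decide (1 ≤ K) &&
    (Nat.beq (eval4 P e).n₀ a && Nat.beq (eval4 P e).n₁ b && Nat.beq (eval4 P e).n₂ c &&
      Nat.beq (eval4 P e).n₃ d) &&
    Nat.blt (Nat.mul 2 (eval4 P e).bnd) (Nat.pow 2 K) && decide (0 ≤ (eval4 P e).val) &&
    maskShift K ((a + 1) * width 3 (deg4 a b c d)) (eval4 P e).val.toNat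

theorem checkShift_eq (C : ℕ → Chart) (K a b c d : ℕ) (e : Ex) :
    checkShift C K a b c d e = checkFour C K a b c d e := by
  simp only [checkShift, checkFour, maskShift_eq]

/-- An expression whose numerator passes the test is nonnegative on the box. -/
theorem QEx.nonneg_of_check {C : ℕ → Chart} {K a b c d : ℕ}
    (h : checkShift C K a b c d q.e = true)
    (hx : ∀ i < 4, ∃ t : ℝ, 0 ≤ t ∧ 0 < ((C i).c : ℝ) + (C i).d * t ∧
      ((C i).a : ℝ) + (C i).b * t = x i * (((C i).c : ℝ) + (C i).d * t)) :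
    0 ≤ q.val x :=
  div_nonneg (nonneg_of_checkFour ((checkShift_eq ..).symm.trans h) hx) (by positivity)

end Vale.Agent.P100.Calib.Closed.All.Low
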