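import Vale.Agent.P100.Calib.SlabAllSignsPoint

/-!
# The ray gap between two bands, and the closed signs from a piece
-/

set_option linter.unusedVariables false
set_option linter.unusedSimpArgs false

namespace Vale.Agent.P100.Calib.Closed.All.Low

/-- The affine lower bound of `p d S ^ 2/a` times the ray gap, in the numerator `n` of the band. -/
noncomputable def rayAt (o : PtR) (n p : ℝ) : ℝ :=
  let a := o.a
  let d := o.d
  let v := o.v
  let I := o.I
  let E := -2 * (1 - 3 * I - 2 * a ^ 2) * I * o.Q * p - 5 / 2 * (p - d * (o.u * n))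
  d * o.S ^ 2 *
      (o.b * v * o.D0 * o.Q * (Closed.LLGc a d v 0 0 * p +
          (Closed.LLGc a d v 1 1 - Closed.LLGc a d v 0 0) * (o.u * n)) +
        (-1 + 2 * a + 1 / 2 * I) * I * v * o.D0 ^ 2 * (Closed.LLGv a d v 0 0 * p +
          (Closed.LLGv a d v 1 1 - Closed.LLGv a d v 0 0) * (o.u * n)) +
        2 * v * d * o.D0 * (o.u * n) * (1 + 2 * I) *
          (-o.b * o.Q * I * (1 - 3 * a - I) - 3 / 10)) +
    o.Q * o.S ^ 2 *
      (E * (v * (8 * a ^ 2 * d + 12 * a * d ^ 2 - 4 * a * d + 4 * d ^ 3 - 4 * d ^ 2) +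
          16 * a ^ 2 + 24 * a * d - 8 * a + 8 * d ^ 2 - 8 * d) -
        5 / 2 * (d * (p - d * (o.u * n))) * (o.S * o.u * (v * (4 * v * d + 8))) +
        E * (o.S * o.u * (o.X * (v * (-2 * a * d ^ 3 + 2 * a * d ^ 2 - d ^ 4 + 2 * d ^ 3 - d ^ 2) +
          16 * a ^ 2 * d + 12 * a * d ^ 2 - 8 * a * d + 2 * d ^ 3 - 2 * d ^ 2) + 8 * I))) +
    (o.S ^ 2 - 2 * a * (1 - I)) * o.D0 ^ 2 * o.Q * (2 * o.S * o.u * I) * E

theorem val_xLLG (o : PtR) (n p : QEx) :
    (xLLG n p).val o.x = rayAt o (n.val o.x) (p.val o.x) := by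
  obtain ⟨eu, eX, ea, eI, ed, eb, ev, eQ, eD, eS, -, -⟩ := o.vals
  simp only [xLLG, xdE, xc0, xe2, xC0, xC1, xV0a, xV0b, xV1, xEa, xEb, xRa, xRb, rayAt,
    Closed.LLGc, Closed.LLGv, val_add, val_sub, val_mul, val_pow, val_num, val_dec,
    eu, eX, ea, eI, ed, eb, ev, eQ, eD, eS]
  push_cast
  ring

/-- The ray gap, times `p d S ^ 2/a`, and its lower bound. -/
theorem ray_id {a d b v u I S X R H p : ℝ} (hd : d = 1 - 2 * I - 2 * a) (hb : b = 1 - 2 * I - a)
    (hv : v = 2 * I * X) (hS : S = 1 - 2 * I) (hR : R = S * u / (2 * I)) (a0 : a ≠ 0) (b0 : b ≠ 0)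
    (d0 : d ≠ 0) (I0 : I ≠ 0) (S0 : S ≠ 0) (Q0 : 1 + d * v ≠ 0) {W : ℝ} (hW : W * R = u * H)
    (o : PtR) (ho : o = ⟨u, X, a, I⟩) (g W1 : ℝ) :
    rayAt o (H * p) p + 2 * v * d * (2 + d * v) * (u * H) * (2 - 2 * a - d) * (d * S ^ 2) *
        (3 / 10) * (d * (u * H)) * p =
      p * d * S ^ 2 / a * ClosedGen.LLGS a d v g W W1 R
        ⟨a * (a + d), -(1 - 2 * a - 1 / 2 * I) * I,
          (-2 * (1 - 3 * I - 2 * a ^ 2) * I * (1 + d * v) - 5 / 2 * (1 - u * d * H)) / d,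
          -(5 / 2) * (1 - u * d * H),
          (-a * (1 - 3 * a - I) * I - 3 / 10 * (a / b) * ((1 - u * d * H) / (1 + d * v))) / d ^ 2,
          -(3 / 10) * (a / b) * ((1 - u * d * H) / (1 + d * v)) / d ^ 2,
          (S ^ 2 - 2 * a * (1 - I)) / (S ^ 2 * d ^ 2)⟩ := by
  have hab : a + d = b := by rw [hd, hb]; ring
  have eI : 2 * a + d - 1 = -(2 * I) := by rw [hd]; ring
  set E := (-2 * (1 - 3 * I - 2 * a ^ 2) * I * (1 + d * v) - 5 / 2 * (1 - u * d * H)) / d with hE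
  set dE := -2 * (1 - 3 * I - 2 * a ^ 2) * I * (1 + d * v) * p - 5 / 2 * (p - d * (u * (H * p)))
    with hdE
  have eE : E * (p * d) = dE := by rw [hE, hdE]; field_simp
  have t1 : p * d * S ^ 2 / a * (a * (a + d) * v * (2 + d * v) * (1 + d * v) *
      Closed.LLGc a d v W R) = d * S ^ 2 * (b * v * (2 + d * v) * (1 + d * v) *
        (Closed.LLGc a d v 0 0 * p +
          (Closed.LLGc a d v 1 1 - Closed.LLGc a d v 0 0) * (u * (H * p)))) := by
    rw [hab, ← mul_assoc u H, ← hW]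
    field_simp
    simp only [Closed.LLGc]
    ring
  have t2 : p * d * S ^ 2 / a * (-(1 - 2 * a - 1 / 2 * I) * I * a * v * (2 + d * v) ^ 2 *
      Closed.LLGv a d v W R) = d * S ^ 2 * ((-1 + 2 * a + 1 / 2 * I) * I * v * (2 + d * v) ^ 2 *
        (Closed.LLGv a d v 0 0 * p +
          (Closed.LLGv a d v 1 1 - Closed.LLGv a d v 0 0) * (u * (H * p)))) := by
    rw [← mul_assoc u H, ← hW]
    field_simp
    simp only [Closed.LLGv]
    ring
  have t3 : p * d * S ^ 2 / a * (a * (1 + d * v) *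
      Closed.LLGw a d v R E (-(5 / 2) * (1 - u * d * H))) = (1 + d * v) * S ^ 2 *
        (dE * (v * (8 * a ^ 2 * d + 12 * a * d ^ 2 - 4 * a * d + 4 * d ^ 3 - 4 * d ^ 2) +
            16 * a ^ 2 + 24 * a * d - 8 * a + 8 * d ^ 2 - 8 * d) -
          5 / 2 * (d * (p - d * (u * (H * p)))) * (S * u * (v * (4 * v * d + 8))) +
          dE * (S * u * (X * (v * (-2 * a * d ^ 3 + 2 * a * d ^ 2 - d ^ 4 + 2 * d ^ 3 - d ^ 2) +
            16 * a ^ 2 * d + 12 * a * d ^ 2 - 8 * a * d + 2 * d ^ 3 - 2 * d ^ 2) + 8 * I))) := by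
    rw [← eE, hR]
    simp only [Closed.LLGw]
    field_simp
    rw [hv, hd]
    ring
  have t4 : p * d * S ^ 2 / a * (2 * ((-a * (1 - 3 * a - I) * I -
        3 / 10 * (a / b) * ((1 - u * d * H) / (1 + d * v))) / d ^ 2) * (a + d) * v * d ^ 3 *
      (2 + d * v) * (1 + d * v) * (W * R * (-2 * a - d + 2))) =
      d * S ^ 2 * (2 * v * d * (2 + d * v) * (u * (H * p)) * (1 + 2 * I) *
          (-b * (1 + d * v) * I * (1 - 3 * a - I) - 3 / 10)) +
        2 * v * d * (2 + d * v) * (u * H) * (2 - 2 * a - d) * (d * S ^ 2) * (3 / 10) *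
          (d * (u * H)) * p := by
    rw [hW, hab, show -2 * a - d + 2 = 1 + 2 * I by rw [hd]; ring,
      show 2 - 2 * a - d = 1 + 2 * I by rw [hd]; ring]
    field_simp
    ring
  have t5 : p * d * S ^ 2 / a * ((S ^ 2 - 2 * a * (1 - I)) / (S ^ 2 * d ^ 2) * a * d ^ 2 *
      (2 + d * v) ^ 2 * (1 + d * v) * (R * E * (4 * a ^ 2 + 4 * a * d - 4 * a + d ^ 2 - 2 * d + 1))) =
      (S ^ 2 - 2 * a * (1 - I)) * (2 + d * v) ^ 2 * (1 + d * v) * (2 * S * u * I) * dE := by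
    rw [← eE, hR, show 4 * a ^ 2 + 4 * a * d - 4 * a + d ^ 2 - 2 * d + 1 = (2 * a + d - 1) ^ 2 by ring,
      eI]
    field_simp
  simp only [ClosedGen.LLGS, ClosedGen.LG_g, ClosedGen.LG_kw]
  rw [mul_add (p * d * S ^ 2 / a), mul_add (p * d * S ^ 2 / a), mul_add (p * d * S ^ 2 / a),
    mul_add (p * d * S ^ 2 / a), t1, t2, t3, t4, t5]
  subst ho
  simp only [rayAt, PtR.Q, PtR.D0, PtR.d, PtR.b, PtR.v, PtR.S]
  rw [hdE, hb, hS, hd, hv]
  ring

/-- **The ray gap is nonnegative between the bands.** -/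
theorem llg_nonneg {d S u v t : ℝ} {B : BandEx} (hB : Basic d S u v t)
    (hA : (ptOf d S u v).Adm B (chH d S u v t))
    (lo : 0 ≤ (xLLG B.lo B.pole).val (ptOf d S u v).x)
    (hi : 0 ≤ (xLLG B.hi B.pole).val (ptOf d S u v).x) :
    0 ≤ ClosedGen.LLGS ((S - d) / 2) d v (chG d S u v t) (chW d S u v t) (chW1 d S u v t) (chR S u)
      (allNum ((S - d) / 2) d v (chW d S u v t) (chR S u)) := by
  set o := ptOf d S u v with ho
  obtain ⟨e1, eb, ev, eS⟩ : o.d = d ∧ o.b = (S + d) / 2 ∧ o.v = v ∧ o.S = S := ptOf_eqs hB.S_lt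
  have hD2 : (allNum ((S - d) / 2) d v (chW d S u v t) (chR S u)).D2 = o.D2 := hB.D2_eq
  rw [val_xLLG] at lo hi
  set H := chH d S u v t with hH
  set p := B.pole.val o.x with hp
  set nl := B.lo.val o.x
  set nh := B.hi.val o.x
  have hp0 : 0 < p := hA.pole_pos
  have mid : 0 ≤ rayAt o (H * p) p := by
    rcases (hA.lo.trans hA.hi).eq_or_lt with e | e
    · rw [le_antisymm (e ▸ hA.hi) hA.lo]; exact lo
    · have key : (nh - nl) * rayAt o (H * p) p =
          (nh - H * p) * rayAt o nl p + (H * p - nl) * rayAt o nh p := by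
        simp only [rayAt]; ring
      refine nonneg_of_mul_nonneg_right (a := nh - nl) (key ▸ ?_) (sub_pos.2 e)
      exact add_nonneg (mul_nonneg (sub_nonneg.2 hA.hi) lo) (mul_nonneg (sub_nonneg.2 hA.lo) hi)
  have hpp := hB.pos
  have hS1 : 1 - S ≠ 0 := by linarith [hB.S_lt]
  have hS0 : 0 < S := by linarith [hB.S_low]
  have hd := hB.d_pos
  have ha : 0 < (S - d) / 2 := hpp.a_pos
  have hv := hB.v_pos
  have hb : 0 < (S + d) / 2 := by linarith
  have hI : 0 < (1 - S) / 2 := by linarith [hB.S_lt]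
  have hQ : 0 < 1 + d * v := by positivity
  have hD : 0 < 2 + d * v := by positivity
  have hu := hB.u_pos
  have eN : dimAll ((S - d) / 2) d = 2 / (1 - S) := by
    simp only [dimAll]; congr 1; ring
  have eT : chR S u * d * chW d S u v t = u * d * H := by
    simp only [chR, chW, hH]; field_simp
  have k0 : 0 < p * d * S ^ 2 / ((S - d) / 2) := by positivity
  refine nonneg_of_mul_nonneg_right (a := p * d * S ^ 2 / ((S - d) / 2)) ?_ k0
  have gap : 0 ≤ 2 * v * d * (2 + d * v) * (u * H) * (2 - (S - d) - d) * (d * S ^ 2) * (3 / 10) *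
      (d * (u * H)) * p := by
    have : 0 ≤ 2 - (S - d) - d := by linarith [hB.S_lt]
    have := hB.H_pos
    positivity
  refine le_of_le_of_eq (add_nonneg mid gap) ?_
  have hW : chW d S u v t * chR S u = u * H := by simp only [chR, chW, hH]; field_simp
  have eN' : allNum ((S - d) / 2) d v (chW d S u v t) (chR S u) =
      ⟨(S - d) / 2 * ((S - d) / 2 + d), -(1 - 2 * ((S - d) / 2) - 1 / 2 * ((1 - S) / 2)) * ((1 - S) / 2),
        (-2 * (1 - 3 * ((1 - S) / 2) - 2 * ((S - d) / 2) ^ 2) * ((1 - S) / 2) * (1 + d * v) -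
          5 / 2 * (1 - u * d * H)) / d,
        -(5 / 2) * (1 - u * d * H),
        (-((S - d) / 2) * (1 - 3 * ((S - d) / 2) - (1 - S) / 2) * ((1 - S) / 2) -
          3 / 10 * ((S - d) / 2 / ((S + d) / 2)) * ((1 - u * d * H) / (1 + d * v))) / d ^ 2,
        -(3 / 10) * ((S - d) / 2 / ((S + d) / 2)) * ((1 - u * d * H) / (1 + d * v)) / d ^ 2,
        (S ^ 2 - 2 * ((S - d) / 2) * (1 - (1 - S) / 2)) / (S ^ 2 * d ^ 2)⟩ := by
    rw [show allNum ((S - d) / 2) d v (chW d S u v t) (chR S u) = ⟨_, _, _, _, _, _, o.D2⟩ from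
      by rw [← hD2]]
    simp only [allNum, eT, eN, show (S - d) / 2 + d = (S + d) / 2 by ring, ClosedGen.Num.mk.injEq,
      true_and, PtR.D2, PtR.s2, eS, e1, show o.a = (S - d) / 2 from rfl,
      show o.I = (1 - S) / 2 from rfl, and_true]
    refine ⟨?_, ?_, ?_⟩ <;> field_simp
  rw [eN', ← ray_id (X := v / (1 - S)) (by ring) (by ring) (by field_simp) (by ring) ?_
    ha.ne' (show (S + d) / 2 ≠ 0 by linarith) hd.ne' hI.ne' hS0.ne' hQ.ne' hW o rfl]
  · ring
  · simp only [chR]; field_simp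

/-- The checks of a piece on a point. -/
structure Piece.AllHold (P : Piece) (B : BandEx) (o : PtR) : Prop where
  forms : P.Holds o
  env : P.HoldsEnv B o
  rayLo : 0 ≤ (xLLG B.lo B.pole).val o.x
  rayHi : 0 ≤ (xLLG B.hi B.pole).val o.x

/-- **The signs at a point where a piece holds.** -/
theorem Piece.AllHold.signs {P : Piece} {B : BandEx} {n : ℕ} {d S u v t : ℝ}
    (hb : ChartBox n d S) (hB : Basic d S u v t) (hP : P.AllHold B (ptOf d S u v))
    (hA : (ptOf d S u v).Adm B (chH d S u v t)) : ChartSigns d S u v t := by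
  refine ChartSigns.of_arrow hb hB.v_pos hB.chG_pos ?_
  set o := ptOf d S u v with ho
  obtain ⟨e1, eb, ev, eS⟩ : o.d = d ∧ o.b = (S + d) / 2 ∧ o.v = v ∧ o.S = S := ptOf_eqs hB.S_lt
  obtain ⟨θ, h0, h1, eπ, w0, w1, t0, t1⟩ := hP.env.place hB.pos hB.u_pos hA
  obtain ⟨hE, hr⟩ := hB.E_neg
  obtain ⟨ep, ew, eE, eK, eG, eG1⟩ := hB.nums_eq
  have hS := hP.forms.signs_one hB.pos h0 h1 w0 w1 t0 t1 (eπ ▸ hr) (eπ ▸ hE)
  rw [← eπ] at hS
  obtain ⟨s1, s2, s3, s4⟩ := hS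
  have eN : allNum ((S - d) / 2) d v (chW d S u v t) (chR S u) =
      ⟨o.a * (o.a + o.d), -(1 - 2 * o.a - (1 - 2 * o.a - o.d) / 4) * ((1 - 2 * o.a - o.d) / 2),
        (allNum ((S - d) / 2) d v (chW d S u v t) (chR S u)).E,
        (allNum ((S - d) / 2) d v (chW d S u v t) (chR S u)).K,
        (o.nums (o.piH (chH d S u v t)) (o.omH (chH d S u v t)) (o.tauH (chH d S u v t))).G,
        (o.nums (o.piH (chH d S u v t)) (o.omH (chH d S u v t)) (o.tauH (chH d S u v t))).G1,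
        o.D2⟩ := by
    rw [← eG, ← eG1, ← hB.D2_eq]
    simp only [allNum, dimAll, e1, show o.a = (S - d) / 2 from rfl, ClosedGen.Num.mk.injEq,
      and_true, true_and]
    have : 1 - S ≠ 0 := by linarith [hB.S_lt]
    have h2 : 1 - ((S - d) / 2 + ((S - d) / 2 + d)) = 1 - S := by ring
    rw [h2]
    field_simp
    ring
  have hL := llg_nonneg hB hA hP.rayLo hP.rayHi
  rw [eN] at hL ⊢
  simp only [PtR.blk, PtR.num, Nums.num, e1, ev, show o.a = (S - d) / 2 from rfl] at s1 s2 s3 s4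
  simp only [e1, show o.a = (S - d) / 2 from rfl] at hL ⊢
  refine signs_of_one _ _ _ _ _ _ _ _ _ _ _ _ _ _ hB.chG_pos ?_ ?_ ?_ ?_ hL <;>
    rw [ep, ew, eE, eK] <;> assumption

end Vale.Agent.P100.Calib.Closed.All.Low
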