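import Vale.Agent.P100.Calib.SlabAllStabExpr

/-!
# The packed signs of the flow at the lower band on the whole chart
-/

namespace Vale.Agent.P100.Calib.Band.AllLow

open Pack

theorem stab_L_a : checkFour (stabBox 0 1000 33 0 51 0 19) 420 9 3 9 8 eStabL = true := by
  decide +kernel

theorem stab_L_b : checkFour (stabBox 0 1000 34 0 51 19 38) 420 9 3 9 8 eStabL = true := by
  decide +kernel

theorem stab_L_c : checkFour (stabBox 0 1000 36 0 51 38 57) 420 9 3 9 8 eStabL = true := by
  decide +kernel

theorem stab_L_d : checkFour (stabBox 0 1000 38 0 51 57 77) 420 9 3 9 8 eStabL = true := by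
  decide +kernel

theorem stab_L_e : checkFour (stabBox 0 1000 42 0 51 77 116) 420 9 3 9 8 eStabL = true := by
  decide +kernel

theorem stab_L_f : checkFour (stabBox 0 1000 48 0 51 116 155) 420 9 3 9 8 eStabL = true := by
  decide +kernel

theorem stab_L_g : checkFour (stabBox 0 1000 55 0 51 155 194) 420 9 3 9 8 eStabL = true := by
  decide +kernel

theorem stab_L_h : checkFour (stabBox 0 1000 65 0 51 194 233) 420 9 3 9 8 eStabL = true := by
  decide +kernel

theorem stab_L_i : checkFour (stabBox 0 500 79 0 51 233 272) 420 9 3 9 8 eStabL = true := by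
  decide +kernel

theorem stab_L_j : checkFour (stabBox 500 1000 65 0 25 233 272) 420 9 3 9 8 eStabL = true := by
  decide +kernel

theorem stab_L_k : checkFour (stabBox 500 1000 79 25 51 233 272) 420 9 3 9 8 eStabL = true := by
  decide +kernel

theorem stab_L_l : checkFour (stabBox 0 500 88 0 51 272 291) 420 9 3 9 8 eStabL = true := by
  decide +kernel

theorem stab_L_m : checkFour (stabBox 0 250 80 0 25 291 311) 420 9 3 9 8 eStabL = true := by
  decide +kernel

theorem stab_L_n : checkFour (stabBox 0 250 100 25 51 291 311) 420 9 3 9 8 eStabL = true := by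
  decide +kernel

theorem stab_L_o : checkFour (stabBox 250 500 100 0 51 291 311) 420 9 3 9 8 eStabL = true := by
  decide +kernel

theorem stab_L_p : checkFour (stabBox 500 1000 88 0 51 272 291) 420 9 3 9 8 eStabL = true := by
  decide +kernel

theorem stab_L_q : checkFour (stabBox 500 1000 76 0 25 291 301) 420 9 3 9 8 eStabL = true := by
  decide +kernel

theorem stab_L_r : checkFour (stabBox 500 1000 85 25 38 291 301) 420 9 3 9 8 eStabL = true := by
  decide +kernel

theorem stab_L_s : checkFour (stabBox 500 1000 94 38 51 291 301) 420 9 3 9 8 eStabL = true := by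
  decide +kernel

theorem stab_L_t : checkFour (stabBox 500 1000 80 0 25 301 311) 420 9 3 9 8 eStabL = true := by
  decide +kernel

theorem stab_L_u : checkFour (stabBox 500 1000 90 25 38 301 311) 420 9 3 9 8 eStabL = true := by
  decide +kernel

theorem stab_L_v : checkFour (stabBox 500 1000 94 38 44 301 311) 420 9 3 9 8 eStabL = true := by
  decide +kernel

theorem stab_L_w : checkFour (stabBox 500 1000 97 44 47 301 311) 420 9 3 9 8 eStabL = true := by
  decide +kernel

theorem stab_L_x : checkFour (stabBox 500 1000 100 47 51 301 311) 420 9 3 9 8 eStabL = true := by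
  decide +kernel

end Vale.Agent.P100.Calib.Band.AllLow
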