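import Vale.Agent.P100.Calib.SlabAllStabExpr

/-!
# The packed signs of the flow at the upper band on the whole chart
-/

namespace Vale.Agent.P100.Calib.Band.AllLow

open Pack

theorem stab_U_a : checkFour (stabBox 0 1000 72 0 12 0 311) 420 9 3 9 8 eStabU = true := by
  decide +kernel

theorem stab_U_b : checkFour (stabBox 0 1000 80 12 25 0 311) 420 9 3 9 8 eStabU = true := by
  decide +kernel

theorem stab_U_c : checkFour (stabBox 0 1000 100 25 51 0 311) 420 9 3 9 8 eStabU = true := by
  decide +kernel

end Vale.Agent.P100.Calib.Band.AllLow
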