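import Vale.Agent.P100.Calib.SlabAllBand
import Vale.Agent.P100.Calib.SlabAllStabLowCert
import Vale.Agent.P100.Calib.SlabAllStabUpCert

/-!
# Two bands on the whole chart in every dimension from twenty on

`allStabLG` and `allStabUG` are `(1 + k v + I psi)/(b - u a)` with `psi` cubic in `u`; the orbit
stays between them for all `0 < u < 1`. No barrier on `v` is needed.
-/

open Set Filter Topology

namespace Vale.Agent.P100.Calib.Band

open Vale.Agent.P100.Bubble Chart

/-- `I`. -/
noncomputable def allStabI (a b : ℝ) : ℝ := (1 - (a + b)) / 2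

/-- A hundred times the slope of the bands in `v`. -/
def allStabK (a b u : ℝ) : ℝ := 100 * b - 5 * (a * u * (33 - 23 * u))

/-- Its derivative in `u`. -/
def allStabKu (a u : ℝ) : ℝ := -5 * (a * (33 - 46 * u))

/-- A hundred times the numerator of a band. -/
def allStabN (c : ℝ × ℝ × ℝ × ℝ) (I a b u v : ℝ) : ℝ :=
  100 + allStabK a b u * v + I * (c.1 + 100 * (u * (c.2.1 + u * (c.2.2.1 + u * c.2.2.2))))

/-- Its derivative in `u`. -/
def allStabNu (c : ℝ × ℝ × ℝ × ℝ) (I a u v : ℝ) : ℝ :=
  allStabKu a u * v + I * (100 * (c.2.1 + u * (2 * c.2.2.1 + 3 * (u * c.2.2.2))))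

/-- The coefficients of the lower band. -/
def allStabLC (I a : ℝ) : ℝ × ℝ × ℝ × ℝ :=
  (450 * I - 413, 2 - 3 * a + 5 * a * a - 11 * I - 22 * a * I - 4 * a * a * I,
    4 * a - 28 * a * a + 3 * I - 6 * a * I, 12 * a * a)

/-- The coefficients of the upper band. -/
def allStabUC (I a : ℝ) : ℝ × ℝ × ℝ × ℝ :=
  (600 * I - 396, 2 - 3 * a + 6 * a * a - 17 * I + 18 * a * I, 4 * a - 34 * a * a + 7 * I,
    18 * a * a)

/-- A band with given coefficients. -/
noncomputable def allStabG (c : ℝ × ℝ × ℝ × ℝ) (a b u v : ℝ) : ℝ :=
  allStabN c (allStabI a b) a b u v / (100 * allPole a b u)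

/-- Its derivative in `u`. -/
noncomputable def allStabGu (c : ℝ × ℝ × ℝ × ℝ) (a b u v : ℝ) : ℝ :=
  (allStabNu c (allStabI a b) a u v * allPole a b u -
      allStabN c (allStabI a b) a b u v * allPole' a b u) / (100 * allPole a b u ^ 2)

/-- Its derivative in `v`. -/
noncomputable def allStabGv (a b u : ℝ) : ℝ := allStabK a b u / (100 * allPole a b u)

/-- **The lower band.** -/
noncomputable def allStabLG (a b u v : ℝ) : ℝ := allStabG (allStabLC (allStabI a b) a) a b u v

/-- **The upper band.** -/
noncomputable def allStabUG (a b u v : ℝ) : ℝ := allStabG (allStabUC (allStabI a b) a) a b u v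

theorem hasGradTwo_allStab {a b : ℝ} (ha : 0 < a) (hd : 0 < b - a) (c : ℝ × ℝ × ℝ × ℝ) :
    HasGradTwo (allStabG c a b) (allStabGu c a b) (fun u _ => allStabGv a b u) := by
  intro u v du dv t hu hv
  have hp := allPole_pos (u := u t) ha hd
  have hK : HasDerivAt (fun s => allStabK a b (u s)) (allStabKu a (u t) * du) t := by
    refine ((((hu.const_mul a).fun_mul ((hu.const_mul 23).const_sub 33)).const_mul 5).const_sub
      (100 * b)).congr_deriv ?_
    simp only [allStabKu]
    ring
  have hN : HasDerivAt (fun s => allStabN c (allStabI a b) a b (u s) (v s))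
      (allStabNu c (allStabI a b) a (u t) (v t) * du + allStabK a b (u t) * dv) t := by
    refine (((hK.fun_mul hv).const_add 100).fun_add (((((hu.fun_mul
      (((hu.fun_mul ((hu.mul_const c.2.2.2).const_add c.2.2.1))).const_add c.2.1))).const_mul
        100).const_add c.1).const_mul (allStabI a b))).congr_deriv ?_
    simp only [allStabNu]
    ring
  refine (hN.fun_div (((hasDerivAt_allPole a b (u t)).comp t hu).const_mul 100)
    (by positivity)).congr_deriv ?_
  simp only [allStabGu, allStabGv, Function.comp_apply]
  generalize allStabNu c (allStabI a b) a (u t) (v t) = A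
  generalize allStabK a b (u t) = B
  generalize allStabN c (allStabI a b) a b (u t) (v t) = C
  generalize allPole' a b (u t) = P'
  generalize allPole a b (u t) = P at hp ⊢
  field_simp
  ring

theorem continuous_allStab {a b : ℝ} (ha : 0 < a) (hd : 0 < b - a) (c : ℝ × ℝ × ℝ × ℝ) :
    Continuous (fun w : ℝ × ℝ => allStabG c a b w.1 w.2) ∧
      Continuous (fun w : ℝ × ℝ => allStabGu c a b w.1 w.2) ∧
      Continuous (fun w : ℝ × ℝ => allStabGv a b w.1) := by
  have cp : Continuous fun w : ℝ × ℝ => allPole a b w.1 := by unfold allPole; fun_prop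
  have cp' : Continuous fun w : ℝ × ℝ => allPole' a b w.1 := by unfold allPole'; fun_prop
  have hp : ∀ w : ℝ × ℝ, allPole a b w.1 ≠ 0 := fun w => (allPole_pos ha hd).ne'
  have cN : Continuous fun w : ℝ × ℝ => allStabN c (allStabI a b) a b w.1 w.2 := by
    unfold allStabN allStabK; fun_prop
  refine ⟨cN.div (continuous_const.mul cp) fun w => mul_ne_zero (by norm_num) (hp w), ?_, ?_⟩
  · refine Continuous.div ?_ (continuous_const.mul (cp.pow 2))
      fun w => mul_ne_zero (by norm_num) (pow_ne_zero 2 (hp w))
    exact ((by unfold allStabNu allStabKu; fun_prop : Continuous fun w : ℝ × ℝ =>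
      allStabNu c (allStabI a b) a w.1 w.2).mul cp).sub (cN.mul cp')
  · exact Continuous.div (by unfold allStabK; fun_prop) (continuous_const.mul cp)
      fun w => mul_ne_zero (by norm_num) (hp w)

namespace AllLow

open Pack

local instance allStabRealAdd : Add Pack.Ex := ⟨Ex.add⟩
local instance allStabRealSub : Sub Pack.Ex := ⟨Ex.sub⟩
local instance allStabRealMul : Mul Pack.Ex := ⟨Ex.mul⟩

/-- The point `(u, X, I, a)`. -/
def stabPt (u X I a : ℝ) : ℕ → ℝ :=
  fun i => if i = 0 then u else if i = 1 then X else if i = 2 then I else a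

theorem stab_point {u X I a : ℝ} {u₀ u₁ Xh I₀ I₁ a₀ a₁ : ℤ} (h24 : 24 / 25 ≤ X)
    (g1 : (u₀ : ℝ) ≤ u * 1000) (g2 : u * 1000 < u₁) (g3 : X * 25 < Xh)
    (g4 : (I₀ : ℝ) ≤ I * 1000) (g5 : I * 1000 < I₁) (g6 : (a₀ : ℝ) ≤ a * 1000)
    (g7 : a * 1000 < a₁) :
    ∀ i < 4, ∃ t : ℝ, 0 ≤ t ∧
      0 < ((stabBox u₀ u₁ Xh I₀ I₁ a₀ a₁ i).c : ℝ) + (stabBox u₀ u₁ Xh I₀ I₁ a₀ a₁ i).d * t ∧
      ((stabBox u₀ u₁ Xh I₀ I₁ a₀ a₁ i).a : ℝ) + (stabBox u₀ u₁ Xh I₀ I₁ a₀ a₁ i).b * t =
        stabPt u X I a i * (((stabBox u₀ u₁ Xh I₀ I₁ a₀ a₁ i).c : ℝ) +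
          (stabBox u₀ u₁ Xh I₀ I₁ a₀ a₁ i).d * t) := by
  intro i hi
  have h24' : (((24 : ℤ)) : ℝ) ≤ X * 25 := by push_cast; linarith
  interval_cases i <;> simp only [stabBox]
  · exact side_point (den := 1000) (by norm_num) (by simpa [stabPt] using g1)
      (by simpa [stabPt] using g2)
  · exact side_point (den := 25) (by norm_num) (by simpa [stabPt] using h24')
      (by simpa [stabPt] using g3)
  · exact side_point (den := 1000) (by norm_num) (by simpa [stabPt] using g4)
      (by simpa [stabPt] using g5)
  · exact side_point (den := 1000) (by norm_num) (by simpa [stabPt] using g6)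
      (by simpa [stabPt] using g7)

/-- The values of the packed numerators at a band. -/
theorem eval_stab {a b I u X : ℝ} {x : ℕ → ℝ} (c : ℝ × ℝ × ℝ × ℝ) (tN tU : Pack.Ex)
    (hI : x 2 = I) (ha : x 3 = a) (hu : x 0 = u) (hX : x 1 = X)
    (hn : tN.eval x = allStabN c I a b u (2 * I * X))
    (hnu : tU.eval x = allStabNu c I a u (2 * I * X))
    (hb : b = 1 - 2 * I - a) (hu1 : u ≤ 1) (ha0 : 0 < a) (hd : 0 < b - a) :
    let Gd := 100 * (b - u * a)
    0 < Gd ∧ allDen a b u (2 * I * X) (allStabG c a b u (2 * I * X)) * Gd =
        (eStabDen tN (.var 2) (.var 3)).eval x ∧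
      allDot a b u (2 * I * X) (allStabG c a b u (2 * I * X))
          (-allStabGu c a b u (2 * I * X)) (-allStabGv a b u) 1 * Gd ^ 3 =
        (eStabNum tN tU (eStabK (.var 2) (.var 3)) (.var 2) (.var 3)).eval x := by
  intro Gd
  obtain ⟨hp, hp'⟩ := allPole_eq (a := a) (b := b) hu1
  have hw : 0 < b - u * a := by linarith [mul_le_mul_of_nonneg_right hu1 ha0.le]
  have hG : 0 < Gd := by positivity
  have eI' : allStabI a b = I := by rw [allStabI, hb]; ring
  have eG : allStabG c a b u (2 * I * X) = allStabN c I a b u (2 * I * X) / Gd := by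
    simp only [Gd, allStabG, hp, eI']
  have eu : -allStabGu c a b u (2 * I * X) =
      -((allStabNu c I a u (2 * I * X) * Gd -
        allStabN c I a b u (2 * I * X) * (-100 * a)) / Gd ^ 2) := by
    simp only [Gd, allStabGu, hp, hp', eI']
    field_simp
  have ev : -allStabGv a b u = -(allStabK a b u / Gd) := by simp only [Gd, allStabGv, hp]
  have vI : (Ex.var 2).eval x = I := hI
  have va : (Ex.var 3).eval x = a := ha
  have vU : eU.eval x = u := hu
  have vS : (AllLow.eS (.var 2)).eval x = a + b := by
    simp only [AllLow.eS, eval_sub', eval_mul', eval_num', vI]; push_cast; rw [hb]; ring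
  have vB : (eB (.var 2) (.var 3)).eval x = b := by simp only [eB, eval_sub', vS, va]; ring
  have vD : (eD (.var 2) (.var 3)).eval x = b - a := by simp only [eD, eval_sub', vB, va]
  have vV : (eV (.var 2)).eval x = 2 * I * X := by
    simp only [eV, eval_mul', eval_num', Ex.eval, hI, hX]; push_cast; ring
  have vDV : (eDV (.var 2) (.var 3)).eval x = (b - a) * (2 * I * X) := by
    simp only [eDV, eval_mul', vD, vV]
  have vQ : (AllLow.eQ (.var 2) (.var 3)).eval x = 1 + (1 - a) * (2 * I * X) := by
    simp only [AllLow.eQ, eval_add', eval_sub', eval_mul', eval_num', va, vV]; push_cast; ring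
  have vGd : (eStabGd (.var 2) (.var 3)).eval x = Gd := by
    simp only [eStabGd, eW, Gd, eval_sub', eval_mul', eval_num', vB, vU, va]; push_cast; ring
  have vQn : (eQn (.var 2) (.var 3)).eval x = allQn a b u (2 * I * X) := by
    simp only [eQn, allQn, eval_add', eval_sub', eval_mul', eval_num', vS, vB, vDV, vU]
    push_cast; ring
  have vK : (eStabK (.var 2) (.var 3)).eval x = allStabK a b u := by
    simp only [eStabK, allStabK, eval_sub', eval_mul', eval_num', vB, vU, va]; push_cast; ring
  have vDen : (eStabDen tN (.var 2) (.var 3)).eval x =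
      (2 + (b - a) * (2 * I * X)) * Gd - u * (b - a) * allStabN c I a b u (2 * I * X) := by
    simp only [eStabDen, eval_add', eval_sub', eval_mul', eval_num', vDV, vGd, vU, vD, hn]
    push_cast; ring
  obtain ⟨k1, k2⟩ := dot_band (a := a) (b := b) (u := u) (v := 2 * I * X)
    (Gn := allStabN c I a b u (2 * I * X)) (Gu := allStabNu c I a u (2 * I * X))
    (dU := -100 * a) (Gv := allStabK a b u) hG.ne'
  refine ⟨hG, ?_, ?_⟩
  · rw [eG, k1, vDen]
  · rw [eG, eu, ev, k2]
    simp only [eStabNum, eStabEn, eStabFlow, eval_add', eval_sub', eval_mul', eval_num', vDen, vQn,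
      vGd, vS, vQ, vB, vU, vD, vDV, vV, va, hn, hnu, vK]
    generalize allQn a b u (2 * I * X) = Q
    generalize allStabN c I a b u (2 * I * X) = n
    generalize allStabNu c I a u (2 * I * X) = nu
    generalize allStabK a b u = nv
    generalize Gd = g
    push_cast
    ring

theorem eval_stab_coeff {a b I u X : ℝ} (hb : b = 1 - 2 * I - a) :
    (eStabLN (.var 2) (.var 3)).eval (stabPt u X I a) =
        allStabN (allStabLC I a) I a b u (2 * I * X) ∧
      (eStabLNu (.var 2) (.var 3)).eval (stabPt u X I a) =
        allStabNu (allStabLC I a) I a u (2 * I * X) ∧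
      (eStabUN (.var 2) (.var 3)).eval (stabPt u X I a) =
        allStabN (allStabUC I a) I a b u (2 * I * X) ∧
      (eStabUNu (.var 2) (.var 3)).eval (stabPt u X I a) =
        allStabNu (allStabUC I a) I a u (2 * I * X) := by
  subst hb
  refine ⟨?_, ?_, ?_, ?_⟩ <;>
    simp only [eStabLN, eStabLNu, eStabUN, eStabUNu, eStabK, eStabKu, eStabL1, eStabL2, eStabL3,
      eStabU1, eStabU2, eStabU3, eB, AllLow.eS, eV, eU, allStabN, allStabNu, allStabK, allStabKu,
      allStabLC, allStabUC, eval_add', eval_sub', eval_num', Ex.eval, stabPt] <;>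
    norm_num

theorem stab_low_box {a b I u X : ℝ} (hP : BandPlace a (1 / 2) I X)
    (hbI : b = 1 - 2 * I - a) (hu : 0 < u) (hu1 : u < 1) (hd : 0 < b - a)
    {u₀ u₁ Xh I₀ I₁ a₀ a₁ : ℤ}
    (c1 : checkFour (stabBox u₀ u₁ Xh I₀ I₁ a₀ a₁) 420 9 3 9 8 eStabL = true)
    (g1 : (u₀ : ℝ) ≤ u * 1000) (g2 : u * 1000 < u₁) (g3 : X * 25 < Xh)
    (g4 : (I₀ : ℝ) ≤ I * 1000) (g5 : I * 1000 < I₁) (g6 : (a₀ : ℝ) ≤ a * 1000)
    (g7 : a * 1000 < a₁) :
      0 < allDen a b u (2 * I * X) (allStabG (allStabLC I a) a b u (2 * I * X)) ∧
        0 < allDot a b u (2 * I * X) (allStabG (allStabLC I a) a b u (2 * I * X))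
          (-allStabGu (allStabLC I a) a b u (2 * I * X)) (-allStabGv a b u) 1 := by
  obtain ⟨hI0, hI20, hIa, ha, -, -, hXlo, -⟩ := id hP
  have ha0 : 0 < a := by linarith
  obtain ⟨e1, e2, -, -⟩ := eval_stab_coeff (u := u) (X := X) hbI
  obtain ⟨hG, k1, k2⟩ := eval_stab (allStabLC I a) _ _ (x := stabPt u X I a) (by simp [stabPt])
    (by simp [stabPt]) (by simp [stabPt]) (by simp [stabPt]) e1 e2 hbI hu1.le ha0 hd
  have h1 := nonneg_of_checkFour c1 (stab_point hXlo g1 g2 g3 g4 g5 g6 g7)
  have hX4 : X * 25 < ((100 : ℤ) : ℝ) := by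
    have := hP.X_lt (31 / 100) (1 / 20) 4 ha hI20 le_rfl le_rfl (by norm_num)
    push_cast; linarith
  have h2 := nonneg_of_checkFour stab_L_den (stab_point (u := u) (I := I) (a := a) hXlo
    (by push_cast; linarith) (by push_cast; linarith) hX4 (by push_cast; linarith)
    (by push_cast; linarith) (by push_cast; linarith) (by push_cast; linarith))
  rw [eStabL, eval_sub', ← k2, show (Ex.var 2).eval (stabPt u X I a) = I from rfl] at h1
  rw [eStabLD, eval_sub', eval_num', ← k1] at h2
  push_cast at h2
  exact ⟨pos_of_mul_pos_left (by linarith) hG.le,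
    pos_of_mul_pos_left (by linarith) (pow_pos hG 3).le⟩

/-- The signs on the lower band. -/
theorem stab_low_signs {N a b u v : ℝ} (hb : SlabBoxAll N a b) (h20 : 20 ≤ N) (ha : a ≤ 31 / 100)
    (hu : 0 < u) (hu1 : u < 1) (hv : VRange N a b v) :
    0 < allDen a b u v (allStabLG a b u v) ∧
      0 < allDot a b u v (allStabLG a b u v) (-allStabGu (allStabLC (allStabI a b) a) a b u v)
        (-allStabGv a b u) 1 := by
  obtain ⟨ha0, hb0, hd, -⟩ := hb.facts
  obtain ⟨I, X, rfl, hbI, hP⟩ :=
    bandPlace_of (u := 1 / 2) hb h20 ha (by norm_num) (by norm_num) hv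
  obtain ⟨hI0, hI20, hIa, -, -, -, hXlo, -⟩ := id hP
  have eI' : allStabI a b = I := by rw [allStabI, hbI]; ring
  simp only [allStabLG, eI']
  rcases lt_or_ge a (34 / 125) with k3272 | k3272
  · rcases lt_or_ge a (29 / 250) with k3116 | k3116
    · rcases lt_or_ge a (19 / 500) with k338 | k338
      · rcases lt_or_ge a (19 / 1000) with k319 | k319
        · have hX := hP.X_lt (19 / 1000) (1 / 20) (33 / 25) k319.le hI20 (by norm_num) (by norm_num) (by norm_num)
          exact stab_low_box hP hbI hu hu1 hd stab_L_a (by push_cast; linarith) (by push_cast; linarith)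
            (by push_cast; linarith) (by push_cast; linarith) (by push_cast; linarith)
            (by push_cast; linarith) (by push_cast; linarith)
        · have hX := hP.X_lt (19 / 500) (1 / 20) (34 / 25) k338.le hI20 (by norm_num) (by norm_num) (by norm_num)
          exact stab_low_box hP hbI hu hu1 hd stab_L_b (by push_cast; linarith) (by push_cast; linarith)
            (by push_cast; linarith) (by push_cast; linarith) (by push_cast; linarith)
            (by push_cast; linarith) (by push_cast; linarith)
      · rcases lt_or_ge a (57 / 1000) with k357 | k357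
        · have hX := hP.X_lt (57 / 1000) (1 / 20) (36 / 25) k357.le hI20 (by norm_num) (by norm_num) (by norm_num)
          exact stab_low_box hP hbI hu hu1 hd stab_L_c (by push_cast; linarith) (by push_cast; linarith)
            (by push_cast; linarith) (by push_cast; linarith) (by push_cast; linarith)
            (by push_cast; linarith) (by push_cast; linarith)
        · rcases lt_or_ge a (77 / 1000) with k377 | k377
          · have hX := hP.X_lt (77 / 1000) (1 / 20) (38 / 25) k377.le hI20 (by norm_num) (by norm_num) (by norm_num)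
            exact stab_low_box hP hbI hu hu1 hd stab_L_d (by push_cast; linarith) (by push_cast; linarith)
              (by push_cast; linarith) (by push_cast; linarith) (by push_cast; linarith)
              (by push_cast; linarith) (by push_cast; linarith)
          · have hX := hP.X_lt (29 / 250) (1 / 20) (42 / 25) k3116.le hI20 (by norm_num) (by norm_num) (by norm_num)
            exact stab_low_box hP hbI hu hu1 hd stab_L_e (by push_cast; linarith) (by push_cast; linarith)
              (by push_cast; linarith) (by push_cast; linarith) (by push_cast; linarith)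
              (by push_cast; linarith) (by push_cast; linarith)
    · rcases lt_or_ge a (233 / 1000) with k3233 | k3233
      · rcases lt_or_ge a (31 / 200) with k3155 | k3155
        · have hX := hP.X_lt (31 / 200) (1 / 20) (48 / 25) k3155.le hI20 (by norm_num) (by norm_num) (by norm_num)
          exact stab_low_box hP hbI hu hu1 hd stab_L_f (by push_cast; linarith) (by push_cast; linarith)
            (by push_cast; linarith) (by push_cast; linarith) (by push_cast; linarith)
            (by push_cast; linarith) (by push_cast; linarith)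
        · rcases lt_or_ge a (97 / 500) with k3194 | k3194
          · have hX := hP.X_lt (97 / 500) (1 / 20) (11 / 5) k3194.le hI20 (by norm_num) (by norm_num) (by norm_num)
            exact stab_low_box hP hbI hu hu1 hd stab_L_g (by push_cast; linarith) (by push_cast; linarith)
              (by push_cast; linarith) (by push_cast; linarith) (by push_cast; linarith)
              (by push_cast; linarith) (by push_cast; linarith)
          · have hX := hP.X_lt (233 / 1000) (1 / 20) (13 / 5) k3233.le hI20 (by norm_num) (by norm_num) (by norm_num)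
            exact stab_low_box hP hbI hu hu1 hd stab_L_h (by push_cast; linarith) (by push_cast; linarith)
              (by push_cast; linarith) (by push_cast; linarith) (by push_cast; linarith)
              (by push_cast; linarith) (by push_cast; linarith)
      · rcases lt_or_ge u (1 / 2) with k0500 | k0500
        · have hX := hP.X_lt (34 / 125) (1 / 20) (79 / 25) k3272.le hI20 (by norm_num) (by norm_num) (by norm_num)
          exact stab_low_box hP hbI hu hu1 hd stab_L_i (by push_cast; linarith) (by push_cast; linarith)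
            (by push_cast; linarith) (by push_cast; linarith) (by push_cast; linarith)
            (by push_cast; linarith) (by push_cast; linarith)
        · rcases lt_or_ge I (1 / 40) with k225 | k225
          · have hX := hP.X_lt (34 / 125) (1 / 40) (13 / 5) k3272.le k225.le (by norm_num) (by norm_num) (by norm_num)
            exact stab_low_box hP hbI hu hu1 hd stab_L_j (by push_cast; linarith) (by push_cast; linarith)
              (by push_cast; linarith) (by push_cast; linarith) (by push_cast; linarith)
              (by push_cast; linarith) (by push_cast; linarith)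
          · have hX := hP.X_lt (34 / 125) (1 / 20) (79 / 25) k3272.le hI20 (by norm_num) (by norm_num) (by norm_num)
            exact stab_low_box hP hbI hu hu1 hd stab_L_k (by push_cast; linarith) (by push_cast; linarith)
              (by push_cast; linarith) (by push_cast; linarith) (by push_cast; linarith)
              (by push_cast; linarith) (by push_cast; linarith)
  · rcases lt_or_ge a (291 / 1000) with k3291 | k3291
    · rcases lt_or_ge u (1 / 2) with k0500 | k0500
      · have hX := hP.X_lt (291 / 1000) (1 / 20) (88 / 25) k3291.le hI20 (by norm_num) (by norm_num) (by norm_num)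
        exact stab_low_box hP hbI hu hu1 hd stab_L_l (by push_cast; linarith) (by push_cast; linarith)
          (by push_cast; linarith) (by push_cast; linarith) (by push_cast; linarith)
          (by push_cast; linarith) (by push_cast; linarith)
      · have hX := hP.X_lt (291 / 1000) (1 / 20) (88 / 25) k3291.le hI20 (by norm_num) (by norm_num) (by norm_num)
        exact stab_low_box hP hbI hu hu1 hd stab_L_p (by push_cast; linarith) (by push_cast; linarith)
          (by push_cast; linarith) (by push_cast; linarith) (by push_cast; linarith)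
          (by push_cast; linarith) (by push_cast; linarith)
    · rcases lt_or_ge u (1 / 2) with k0500 | k0500
      · rcases lt_or_ge u (1 / 4) with k0250 | k0250
        · rcases lt_or_ge I (1 / 40) with k225 | k225
          · have hX := hP.X_lt (31 / 100) (1 / 40) (16 / 5) ha k225.le (by norm_num) (by norm_num) (by norm_num)
            exact stab_low_box hP hbI hu hu1 hd stab_L_m (by push_cast; linarith) (by push_cast; linarith)
              (by push_cast; linarith) (by push_cast; linarith) (by push_cast; linarith)
              (by push_cast; linarith) (by push_cast; linarith)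
          · have hX := hP.X_lt (31 / 100) (1 / 20) 4 ha hI20 (by norm_num) (by norm_num) (by norm_num)
            exact stab_low_box hP hbI hu hu1 hd stab_L_n (by push_cast; linarith) (by push_cast; linarith)
              (by push_cast; linarith) (by push_cast; linarith) (by push_cast; linarith)
              (by push_cast; linarith) (by push_cast; linarith)
        · have hX := hP.X_lt (31 / 100) (1 / 20) 4 ha hI20 (by norm_num) (by norm_num) (by norm_num)
          exact stab_low_box hP hbI hu hu1 hd stab_L_o (by push_cast; linarith) (by push_cast; linarith)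
            (by push_cast; linarith) (by push_cast; linarith) (by push_cast; linarith)
            (by push_cast; linarith) (by push_cast; linarith)
      · rcases lt_or_ge a (301 / 1000) with k3301 | k3301
        · rcases lt_or_ge I (1 / 40) with k225 | k225
          · have hX := hP.X_lt (301 / 1000) (1 / 40) (76 / 25) k3301.le k225.le (by norm_num) (by norm_num) (by norm_num)
            exact stab_low_box hP hbI hu hu1 hd stab_L_q (by push_cast; linarith) (by push_cast; linarith)
              (by push_cast; linarith) (by push_cast; linarith) (by push_cast; linarith)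
              (by push_cast; linarith) (by push_cast; linarith)
          · rcases lt_or_ge I (19 / 500) with k238 | k238
            · have hX := hP.X_lt (301 / 1000) (19 / 500) (17 / 5) k3301.le k238.le (by norm_num) (by norm_num) (by norm_num)
              exact stab_low_box hP hbI hu hu1 hd stab_L_r (by push_cast; linarith) (by push_cast; linarith)
                (by push_cast; linarith) (by push_cast; linarith) (by push_cast; linarith)
                (by push_cast; linarith) (by push_cast; linarith)
            · have hX := hP.X_lt (301 / 1000) (1 / 20) (94 / 25) k3301.le hI20 (by norm_num) (by norm_num) (by norm_num)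
              exact stab_low_box hP hbI hu hu1 hd stab_L_s (by push_cast; linarith) (by push_cast; linarith)
                (by push_cast; linarith) (by push_cast; linarith) (by push_cast; linarith)
                (by push_cast; linarith) (by push_cast; linarith)
        · rcases lt_or_ge I (19 / 500) with k238 | k238
          · rcases lt_or_ge I (1 / 40) with k225 | k225
            · have hX := hP.X_lt (31 / 100) (1 / 40) (16 / 5) ha k225.le (by norm_num) (by norm_num) (by norm_num)
              exact stab_low_box hP hbI hu hu1 hd stab_L_t (by push_cast; linarith) (by push_cast; linarith)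
                (by push_cast; linarith) (by push_cast; linarith) (by push_cast; linarith)
                (by push_cast; linarith) (by push_cast; linarith)
            · have hX := hP.X_lt (31 / 100) (19 / 500) (18 / 5) ha k238.le (by norm_num) (by norm_num) (by norm_num)
              exact stab_low_box hP hbI hu hu1 hd stab_L_u (by push_cast; linarith) (by push_cast; linarith)
                (by push_cast; linarith) (by push_cast; linarith) (by push_cast; linarith)
                (by push_cast; linarith) (by push_cast; linarith)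
          · rcases lt_or_ge I (11 / 250) with k244 | k244
            · have hX := hP.X_lt (31 / 100) (11 / 250) (94 / 25) ha k244.le (by norm_num) (by norm_num) (by norm_num)
              exact stab_low_box hP hbI hu hu1 hd stab_L_v (by push_cast; linarith) (by push_cast; linarith)
                (by push_cast; linarith) (by push_cast; linarith) (by push_cast; linarith)
                (by push_cast; linarith) (by push_cast; linarith)
            · rcases lt_or_ge I (47 / 1000) with k247 | k247
              · have hX := hP.X_lt (31 / 100) (47 / 1000) (97 / 25) ha k247.le (by norm_num) (by norm_num) (by norm_num)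
                exact stab_low_box hP hbI hu hu1 hd stab_L_w (by push_cast; linarith) (by push_cast; linarith)
                  (by push_cast; linarith) (by push_cast; linarith) (by push_cast; linarith)
                  (by push_cast; linarith) (by push_cast; linarith)
              · have hX := hP.X_lt (31 / 100) (1 / 20) 4 ha hI20 (by norm_num) (by norm_num) (by norm_num)
                exact stab_low_box hP hbI hu hu1 hd stab_L_x (by push_cast; linarith) (by push_cast; linarith)
                  (by push_cast; linarith) (by push_cast; linarith) (by push_cast; linarith)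
                  (by push_cast; linarith) (by push_cast; linarith)

theorem stab_up_box {a b I u X : ℝ} (hP : BandPlace a (1 / 2) I X)
    (hbI : b = 1 - 2 * I - a) (hu : 0 < u) (hu1 : u < 1) (hd : 0 < b - a)
    {u₀ u₁ Xh I₀ I₁ a₀ a₁ : ℤ}
    (c1 : checkFour (stabBox u₀ u₁ Xh I₀ I₁ a₀ a₁) 420 9 3 9 8 eStabU = true)
    (g1 : (u₀ : ℝ) ≤ u * 1000) (g2 : u * 1000 < u₁) (g3 : X * 25 < Xh)
    (g4 : (I₀ : ℝ) ≤ I * 1000) (g5 : I * 1000 < I₁) (g6 : (a₀ : ℝ) ≤ a * 1000)
    (g7 : a * 1000 < a₁) :
      0 < allDen a b u (2 * I * X) (allStabG (allStabUC I a) a b u (2 * I * X)) ∧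
        allDot a b u (2 * I * X) (allStabG (allStabUC I a) a b u (2 * I * X))
          (-allStabGu (allStabUC I a) a b u (2 * I * X)) (-allStabGv a b u) 1 < 0 := by
  obtain ⟨hI0, hI20, hIa, ha, -, -, hXlo, -⟩ := id hP
  have ha0 : 0 < a := by linarith
  obtain ⟨-, -, e1, e2⟩ := eval_stab_coeff (u := u) (X := X) hbI
  obtain ⟨hG, k1, k2⟩ := eval_stab (allStabUC I a) _ _ (x := stabPt u X I a) (by simp [stabPt])
    (by simp [stabPt]) (by simp [stabPt]) (by simp [stabPt]) e1 e2 hbI hu1.le ha0 hd
  have h1 := nonneg_of_checkFour c1 (stab_point hXlo g1 g2 g3 g4 g5 g6 g7)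
  have hX4 : X * 25 < ((100 : ℤ) : ℝ) := by
    have := hP.X_lt (31 / 100) (1 / 20) 4 ha hI20 le_rfl le_rfl (by norm_num)
    push_cast; linarith
  have h2 := nonneg_of_checkFour stab_U_den (stab_point (u := u) (I := I) (a := a) hXlo
    (by push_cast; linarith) (by push_cast; linarith) hX4 (by push_cast; linarith)
    (by push_cast; linarith) (by push_cast; linarith) (by push_cast; linarith))
  rw [eStabU, eval_sub', eval_sub', eval_num', ← k2,
    show (Ex.var 2).eval (stabPt u X I a) = I from rfl] at h1
  rw [eStabUD, eval_sub', eval_num', ← k1] at h2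
  push_cast at h1 h2
  exact ⟨pos_of_mul_pos_left (by linarith) hG.le,
    neg_of_mul_neg_left (by linarith) (pow_pos hG 3).le⟩

/-- The signs on the upper band. -/
theorem stab_up_signs {N a b u v : ℝ} (hb : SlabBoxAll N a b) (h20 : 20 ≤ N) (ha : a ≤ 31 / 100)
    (hu : 0 < u) (hu1 : u < 1) (hv : VRange N a b v) :
    0 < allDen a b u v (allStabUG a b u v) ∧
      allDot a b u v (allStabUG a b u v) (-allStabGu (allStabUC (allStabI a b) a) a b u v)
        (-allStabGv a b u) 1 < 0 := by
  obtain ⟨ha0, hb0, hd, -⟩ := hb.facts
  obtain ⟨I, X, rfl, hbI, hP⟩ :=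
    bandPlace_of (u := 1 / 2) hb h20 ha (by norm_num) (by norm_num) hv
  obtain ⟨hI0, hI20, hIa, -, -, -, hXlo, -⟩ := id hP
  have eI' : allStabI a b = I := by rw [allStabI, hbI]; ring
  simp only [allStabUG, eI']
  rcases lt_or_ge I (3 / 250) with k212 | k212
  · have hX := hP.X_lt (31 / 100) (3 / 250) (72 / 25) ha k212.le (by norm_num) (by norm_num) (by norm_num)
    exact stab_up_box hP hbI hu hu1 hd stab_U_a (by push_cast; linarith) (by push_cast; linarith)
      (by push_cast; linarith) (by push_cast; linarith) (by push_cast; linarith)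
      (by push_cast; linarith) (by push_cast; linarith)
  · rcases lt_or_ge I (1 / 40) with k225 | k225
    · have hX := hP.X_lt (31 / 100) (1 / 40) (16 / 5) ha k225.le (by norm_num) (by norm_num) (by norm_num)
      exact stab_up_box hP hbI hu hu1 hd stab_U_b (by push_cast; linarith) (by push_cast; linarith)
        (by push_cast; linarith) (by push_cast; linarith) (by push_cast; linarith)
        (by push_cast; linarith) (by push_cast; linarith)
    · have hX := hP.X_lt (31 / 100) (1 / 20) 4 ha hI20 (by norm_num) (by norm_num) (by norm_num)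
      exact stab_up_box hP hbI hu hu1 hd stab_U_c (by push_cast; linarith) (by push_cast; linarith)
        (by push_cast; linarith) (by push_cast; linarith) (by push_cast; linarith)
        (by push_cast; linarith) (by push_cast; linarith)

end AllLow

theorem stab_start {N a b v : ℝ} (hb : SlabBoxAll N a b) (h20 : 20 ≤ N) (ha : a ≤ 31 / 100)
    (hv1 : 2 ≤ (N + 2 * a) * v) (hv2 : (N - 2) * ((b - a) * v) < 2) :
    allStabLG a b 0 v ≤ allHc a b v ∧ allHc a b v ≤ allStabUG a b 0 v := by
  obtain ⟨ha0, hb0, hd, -⟩ := hb.facts
  obtain ⟨I, hI⟩ : ∃ I, I = 1 / N := ⟨_, rfl⟩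
  have hN : 0 < N := by linarith
  have hIN : I * N = 1 := by rw [hI]; field_simp
  have hI0 : 0 < I := hI ▸ one_div_pos.2 hN
  have hI20 : I ≤ 1 / 20 := hI ▸ one_div_le_one_div_of_le (by norm_num) h20
  have hbI : b = 1 - 2 * I - a := by
    have : 1 - (a + b) = 2 * I := by
      refine mul_left_cancel₀ hN.ne' ?_
      rw [hb.sum]; linarith
    linarith
  have eI' : allStabI a b = I := by rw [allStabI, hbI]; ring
  have hv0 : 0 < v := pos_of_mul_pos_right (lt_of_lt_of_le two_pos hv1) (by linarith)
  have hlo : 19 / 10 * I ≤ v := by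
    have h1 := mul_le_mul_of_nonneg_left hv1 hI0.le
    have h2 : (I * N + 2 * (I * a)) * v ≤ 20 / 19 * v := by
      refine mul_le_mul_of_nonneg_right ?_ hv0.le
      linarith [mul_le_mul hI20 ha ha0.le (by norm_num : (0 : ℝ) ≤ 1 / 20)]
    linarith
  have hdv1 : 28 / 100 * (19 / 10 * I) ≤ (b - a) * v := by
    refine mul_le_mul (by linarith) hlo (by linarith) hd.le
  have hdv2 : (b - a) * v ≤ 20 / 9 * I := by
    have h1 := mul_lt_mul_of_pos_left hv2 hI0
    have h2 : 9 / 10 * ((b - a) * v) ≤ (I * N - 2 * I) * ((b - a) * v) :=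
      mul_le_mul_of_nonneg_right (by linarith) (by positivity)
    linarith
  obtain ⟨hp, -⟩ := allPole_eq (a := a) (b := b) zero_le_one
  have hk : 0 < 100 * (b * (1 + 2 * I)) := by positivity
  have hk' : 0 < b * (2 - (a + b)) := by rw [show 2 - (a + b) = 1 + 2 * I by linarith]; positivity
  have key : ∀ c : ℝ × ℝ × ℝ × ℝ, allHc a b v - allStabG c a b 0 v =
      I * (-400 - 200 * ((b - a) * v) - c.1 * (1 + 2 * I)) / (100 * (b * (1 + 2 * I))) := fun c => by
    simp only [allStabG, allHc, allStabN, allStabK, hp, eI', zero_mul, mul_zero, sub_zero, add_zero]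
    rw [show 2 - (a + b) = 1 + 2 * I by linarith]
    field_simp
    rw [hbI]
    ring
  constructor <;> rw [← sub_nonneg]
  · rw [allStabLG, key, eI']
    refine div_nonneg (mul_nonneg hI0.le ?_) hk.le
    simp only [allStabLC]
    linarith [mul_le_mul_of_nonneg_left hI20 hI0.le]
  · rw [← neg_sub, allStabUG, key, eI', ← neg_div]
    refine div_nonneg ?_ hk.le
    rw [← mul_neg]
    refine mul_nonneg hI0.le ?_
    simp only [allStabUC]
    linarith [sq_nonneg (I - 43 / 1200)]

variable {N p q : ℝ} {S : Set ℝ} {R x y s dx dy : ℝ → ℝ}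

/-- **The orbit between the bands on the whole chart** for real `N ≥ 20` and `1/(p+1) ≤ 31/100`. -/
theorem orbit_stab_low_all (hf : IsOrbitFns N p q S R x y s dx dy)
    (hb : SlabBoxAll N (1 / (p + 1)) (1 / (q + 1))) (h20 : 20 ≤ N) (ha : 1 / (p + 1) ≤ 31 / 100)
    {w : ℝ} (hw : w ∈ S) (hw0 : 0 < R w) :
    allStabLG (1 / (p + 1)) (1 / (q + 1)) (uOf N (R w) (x w))
        (vOf (1 / (p + 1)) (1 / (q + 1)) (y w / x w)) <
      hOf N (R w) (x w) (y w) w / (1 / (q + 1) - 1 / (p + 1)) := by
  obtain ⟨ha0, hb0, hd, -⟩ := hb.facts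
  have hu1 : uOf N (R w) (x w) ≤ 1 := (orbit_point_all hf hb hw hw0).1.u_lt.le
  set c := allStabLC (allStabI (1 / (p + 1)) (1 / (q + 1))) (1 / (p + 1)) with hc
  obtain ⟨c1, c2, c3⟩ := continuous_allStab ha0 hd c
  have key := band_step_all hf hb (u₁ := 1) (one_mul 1) (hasGradTwo_allStab ha0 hd c) c1 c2 c3
    (fun _ _ => True) (fun _ _ _ _ => trivial) (fun v h1 h2 _ => ?_)
    (fun u v hu hu' _ hv _ => ?_) hw hw0 hu1
  · simp only [allStabLG, ← hc]
    linarith
  · rw [one_mul, sub_nonneg]
    exact (stab_start hb h20 ha h1 h2).1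
  · rw [one_mul]
    exact AllLow.stab_low_signs hb h20 ha hu hu' hv

/-- **The upper band on the whole chart.** -/
theorem orbit_stab_up_all (hf : IsOrbitFns N p q S R x y s dx dy)
    (hb : SlabBoxAll N (1 / (p + 1)) (1 / (q + 1))) (h20 : 20 ≤ N) (ha : 1 / (p + 1) ≤ 31 / 100)
    {w : ℝ} (hw : w ∈ S) (hw0 : 0 < R w) :
    hOf N (R w) (x w) (y w) w / (1 / (q + 1) - 1 / (p + 1)) <
      allStabUG (1 / (p + 1)) (1 / (q + 1)) (uOf N (R w) (x w))
        (vOf (1 / (p + 1)) (1 / (q + 1)) (y w / x w)) := by
  obtain ⟨ha0, hb0, hd, -⟩ := hb.facts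
  have hu1 : uOf N (R w) (x w) ≤ 1 := (orbit_point_all hf hb hw hw0).1.u_lt.le
  set c := allStabUC (allStabI (1 / (p + 1)) (1 / (q + 1))) (1 / (p + 1)) with hc
  obtain ⟨c1, c2, c3⟩ := continuous_allStab ha0 hd c
  have key := band_step_all hf hb (e := -1) (u₁ := 1) (by norm_num)
    (hasGradTwo_allStab ha0 hd c) c1 c2 c3 (fun _ _ => True) (fun _ _ _ _ => trivial)
    (fun v h1 h2 _ => ?_) (fun u v hu hu' _ hv _ => ?_) hw hw0 hu1
  · simp only [allStabUG, ← hc]
    linarith
  · rw [neg_one_mul, neg_nonneg, sub_nonpos]
    exact (stab_start hb h20 ha h1 h2).2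
  · obtain ⟨h1, h2⟩ := AllLow.stab_up_signs hb h20 ha hu hu' hv
    exact ⟨h1, by rw [neg_one_mul, neg_pos]; exact h2⟩

end Vale.Agent.P100.Calib.Band
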