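import Vale.Agent.P100.Calib.SlabAllLowExpr

/-!
# The numerators of the bands on the whole chart in every dimension from twenty on

The bands are `H = (1 + k v + I psi)/(b - u a)`; everything here is a hundred times that.
-/

namespace Vale.Agent.P100.Calib.Band.AllLow

open Pack

local instance allStabAdd : Add Pack.Ex := ⟨Ex.add⟩
local instance allStabSub : Sub Pack.Ex := ⟨Ex.sub⟩
local instance allStabMul : Mul Pack.Ex := ⟨Ex.mul⟩

/-- `Gd`. -/
def eStabGd (I a : Pack.Ex) : Pack.Ex := eN 100 * eW I a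

/-- A hundred times `k`. -/
def eStabK (I a : Pack.Ex) : Pack.Ex :=
  eN 100 * eB I a - eN 5 * (a * eU * (eN 33 - eN 23 * eU))

/-- Its derivative in `u`. -/
def eStabKu (a : Pack.Ex) : Pack.Ex := eN (-5) * (a * (eN 33 - eN 46 * eU))

/-- The linear coefficient of the lower band. -/
def eStabL1 (I a : Pack.Ex) : Pack.Ex :=
  eN 2 - eN 3 * a + eN 5 * a * a - eN 11 * I - eN 22 * a * I - eN 4 * a * a * I

/-- The quadratic coefficient of the lower band. -/
def eStabL2 (I a : Pack.Ex) : Pack.Ex := eN 4 * a - eN 28 * a * a + eN 3 * I - eN 6 * a * I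

/-- The cubic coefficient of the lower band. -/
def eStabL3 (a : Pack.Ex) : Pack.Ex := eN 12 * a * a

/-- The linear coefficient of the upper band. -/
def eStabU1 (I a : Pack.Ex) : Pack.Ex :=
  eN 2 - eN 3 * a + eN 6 * a * a - eN 17 * I + eN 18 * a * I

/-- The quadratic coefficient of the upper band. -/
def eStabU2 (I a : Pack.Ex) : Pack.Ex := eN 4 * a - eN 34 * a * a + eN 7 * I

/-- The cubic coefficient of the upper band. -/
def eStabU3 (a : Pack.Ex) : Pack.Ex := eN 18 * a * a

/-- The lower numerator. -/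
def eStabLN (I a : Pack.Ex) : Pack.Ex :=
  eN 100 + eStabK I a * eV I + I * (eN 450 * I - eN 413 +
    eN 100 * (eU * (eStabL1 I a + eU * (eStabL2 I a + eU * eStabL3 a))))

/-- Its derivative in `u`. -/
def eStabLNu (I a : Pack.Ex) : Pack.Ex :=
  eStabKu a * eV I + I * (eN 100 * (eStabL1 I a +
    eU * (eN 2 * eStabL2 I a + eN 3 * (eU * eStabL3 a))))

/-- The upper numerator. -/
def eStabUN (I a : Pack.Ex) : Pack.Ex :=
  eN 100 + eStabK I a * eV I + I * (eN 600 * I - eN 396 +
    eN 100 * (eU * (eStabU1 I a + eU * (eStabU2 I a + eU * eStabU3 a))))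

/-- Its derivative in `u`. -/
def eStabUNu (I a : Pack.Ex) : Pack.Ex :=
  eStabKu a * eV I + I * (eN 100 * (eStabU1 I a +
    eU * (eN 2 * eStabU2 I a + eN 3 * (eU * eStabU3 a))))

/-- The denominator of `qv`, times `Gd`. -/
def eStabDen (n I a : Pack.Ex) : Pack.Ex :=
  (eN 2 + eDV I a) * eStabGd I a - eU * eD I a * n

/-- The numerator of `ev`, times `Gd`. -/
def eStabEn (n I a : Pack.Ex) : Pack.Ex :=
  (eStabGd I a - eU * eD I a * n) * eQn I a -
    eS I * (eN 1 - eU) * eB I a * eStabDen n I a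

/-- The numerator of the radial speed, times `Gd`. -/
def eStabFlow (n I a : Pack.Ex) : Pack.Ex :=
  eQn I a * n - eS I * (eN 1 - a * eV I) * eStabDen n I a

/-- The flow at a band, times `Gd ^ 3`. -/
def eStabNum (n nu nv I a : Pack.Ex) : Pack.Ex :=
  eN 0 - (eStabGd I a - eU * eD I a * n) *
      (eQn I a * n - eS I * eQ I a * eStabDen n I a) * eStabGd I a -
    n * eStabEn n I a * eStabGd I a -
    eU * (nu * eStabGd I a - n * (eN (-100) * a)) * eStabEn n I a -
    eU * (eN 1 + eDV I a) * nv * eStabGd I a * eStabFlow n I a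

/-- The flow at the lower band, less `I`. -/
def eStabL : Pack.Ex :=
  eStabNum (eStabLN (.var 2) (.var 3)) (eStabLNu (.var 2) (.var 3)) (eStabK (.var 2) (.var 3))
    (.var 2) (.var 3) - .var 2

/-- The flow at the upper band, less `I`. -/
def eStabU : Pack.Ex :=
  eN 0 - eStabNum (eStabUN (.var 2) (.var 3)) (eStabUNu (.var 2) (.var 3))
    (eStabK (.var 2) (.var 3)) (.var 2) (.var 3) - .var 2

/-- The denominator at the lower band, less one. -/
def eStabLD : Pack.Ex := eStabDen (eStabLN (.var 2) (.var 3)) (.var 2) (.var 3) - eN 1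

/-- The denominator at the upper band, less one. -/
def eStabUD : Pack.Ex := eStabDen (eStabUN (.var 2) (.var 3)) (.var 2) (.var 3) - eN 1

/-- A box in thousandths, `X` in twenty-fifths from `24/25`. -/
def stabBox (u₀ u₁ Xh I₀ I₁ a₀ a₁ : ℤ) : ℕ → Chart
  | 0 => ⟨u₀, u₁, 1000, 1000⟩
  | 1 => ⟨24, Xh, 25, 25⟩
  | 2 => ⟨I₀, I₁, 1000, 1000⟩
  | _ => ⟨a₀, a₁, 1000, 1000⟩

theorem stab_L_den : checkFour (stabBox 0 1000 100 0 51 0 311) 220 4 1 3 3 eStabLD = true := by
  decide +kernel

theorem stab_U_den : checkFour (stabBox 0 1000 100 0 51 0 311) 220 4 1 3 3 eStabUD = true := by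
  decide +kernel

end Vale.Agent.P100.Calib.Band.AllLow
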