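import Vale.Agent.P100.Calib.SlabAllEndExpr

/-!
# The numerators of the forward rungs at the end of the tail

On the curve `(S d v - 2 I) 1600 (9 - 20 a) + 2 I g(w) = 0`, `g = A + B w - 1600 R w ^ 2`,
`w = 1 - u`, everything is cleared by `1600 (9 - 20 a) S d`. The charts containing their upper ends
are written backwards.
-/

namespace Vale.Agent.P100.Calib.Band.AllLow

open Pack

local instance allTailAdd : Add Pack.Ex := ⟨Ex.add⟩
local instance allTailSub : Sub Pack.Ex := ⟨Ex.sub⟩
local instance allTailMul : Mul Pack.Ex := ⟨Ex.mul⟩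

/-- The linear coefficient at the end. -/
def eTailQ (I a : Pack.Ex) : Pack.Ex :=
  (eN 65 - eN 22 * a + eN 4500 * (I * a * a)) * (a + eN 2 * I)

/-- The quadratic coefficient. -/
def eTailR (I a : Pack.Ex) : Pack.Ex := eN 420000 * (I * (a * (a * a * a)))

/-- The linear coefficient before the end. -/
def eTailS (I a : Pack.Ex) : Pack.Ex := eN 22 + eN 100 * I - eN 1000 * (I * a * a)

/-- The coefficient `B` at the end. -/
def eTailB (I a : Pack.Ex) : Pack.Ex := eN 1600 * eTailQ I a

/-- The coefficient `A` before the end, lowered by `100 I` for a margin. -/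
def eEntryA (I a : Pack.Ex) : Pack.Ex :=
  eN 40 * eTailQ I a - eTailR I a - eN 40 * eTailS I a - eTailR I a - eN 100 * I

/-- The coefficient `B` before the end. -/
def eEntryB (I a : Pack.Ex) : Pack.Ex := eN 1600 * eTailS I a + eN 80 * eTailR I a

/-- `1600 (9 - 20 a)`. -/
def eTailM (a : Pack.Ex) : Pack.Ex := eN 1600 * (eN 9 - eN 20 * a)

/-- The pole. -/
def eTailDen (I a : Pack.Ex) : Pack.Ex := eS I * eD I a * eTailM a

/-- `v` times the pole. -/
def eTailV (A B I a : Pack.Ex) : Pack.Ex :=
  eN 2 * I * (eTailM a - (A + B * eEndW - eN 1600 * (eTailR I a * (eEndW * eEndW))))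

/-- The derivative of `g` in `w`. -/
def eTailGd (B I a : Pack.Ex) : Pack.Ex := B - eN 3200 * (eTailR I a * eEndW)

/-- The band `allEndLow` times both poles. -/
def eTailN (I a : Pack.Ex) : Pack.Ex := eEndTop I a * eTailDen I a

/-- `qn` times the pole, at `V / den`. -/
def eTailQn (den V I a : Pack.Ex) : Pack.Ex :=
  eB I a * (eN 2 * den + eD I a * V) - eS I * eU * (den + eD I a * V)

/-- The denominator of `qv` at `n / (g den)`, `V / den`. -/
def eTailBig (n g den V I a : Pack.Ex) : Pack.Ex :=
  (eN 2 * den + eD I a * V) * g - eU * eD I a * n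

/-- The numerator of the radial speed at `n / (g den)`, `V / den`. -/
def eTailFlow (n g den V I a : Pack.Ex) : Pack.Ex :=
  eTailQn den V I a * n - eS I * (den - a * V) * eTailBig n g den V I a

/-- The numerator of `ev` at `n / (g den)`, `V / den`. -/
def eTailEn (n g den V I a : Pack.Ex) : Pack.Ex :=
  (g * den - eU * eD I a * n) * eTailQn den V I a -
    eS I * eEndW * eB I a * eTailBig n g den V I a * den

/-- The forward condition on the curve. -/
def eTailP (A B I a : Pack.Ex) : Pack.Ex :=
  (eTailDen I a + eD I a * eTailV A B I a) *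
      eTailFlow (eTailN I a) (eEndG I a) (eTailDen I a) (eTailV A B I a) I a -
    eN 2 * (I * (eTailGd B I a *
      eTailEn (eTailN I a) (eEndG I a) (eTailDen I a) (eTailV A B I a) I a))

/-- The forward condition at the end, less a monomial. -/
def eTailEnd : Pack.Ex :=
  eTailP (eN 0 * .var 3) (eTailB (.var 2) (.var 3)) (.var 2) (.var 3) - .var 2 * .var 2 * eEndW

/-- The forward condition before the end, less a monomial. -/
def eTailEntry : Pack.Ex :=
  eTailP (eEntryA (.var 2) (.var 3)) (eEntryB (.var 2) (.var 3)) (.var 2) (.var 3) -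
    .var 2 * .var 2 * eEndW

/-- The pole of the starting piece. -/
def eStartDen (I a : Pack.Ex) : Pack.Ex := eN 15625 * eTailDen I a

/-- `v` on the starting piece, where `X = 24/25 + t (X₀ - 24/25)` and `X₀` is the curve at
`u = 23/25`, times its pole. -/
def eStartV (I a : Pack.Ex) : Pack.Ex :=
  eN 2 * I * (eN 15000 * eTailDen I a + .var 1 * (eN 25 * (eN 625 * eTailM a -
    (eEntryA I a * eN 625 + eEntryB I a * eN 50 - eN 1600 * (eTailR I a * eN 4))) -
      eN 15000 * eTailDen I a))

/-- The upper band on the starting piece, cleared. -/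
def eStartN (I a : Pack.Ex) : Pack.Ex :=
  (eN 100 + I * (eN 600 * I - eN 396 +
    eN 100 * (eU * (eStabU1 I a + eU * (eStabU2 I a + eU * eStabU3 a))))) * eStartDen I a +
    eStabK I a * eStartV I a

/-- Minus the radial speed at the upper band on the starting piece, less a monomial. -/
def eTailStart : Pack.Ex :=
  eN 0 - eTailFlow (eStartN (.var 2) (.var 3)) (eStabGd (.var 2) (.var 3))
      (eStartDen (.var 2) (.var 3)) (eStartV (.var 2) (.var 3)) (.var 2) (.var 3) -
    .var 2 * .var 2 * eEndW

/-- A chart in thousandths; the second variable runs over `[X₀, X₁)`. -/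
def tailBox (u₀ u₁ X₀ X₁ a₀ a₁ : ℤ) : ℕ → Chart
  | 0 => ⟨u₀, u₁, 1000, 1000⟩
  | 1 => ⟨X₀, X₁, 1000, 1000⟩
  | 2 => ⟨50, 0, 1000, 1000⟩
  | _ => ⟨a₀, a₁, 1000, 1000⟩

theorem tail_end : checkFour (tailBox 975 1000 0 1 310 0) 620 8 0 14 19 eTailEnd = true := by
  decide +kernel

theorem tail_entry_one :
    checkFour (tailBox 947 919 0 1 310 0) 620 8 0 14 19 eTailEntry = true := by
  decide +kernel

theorem tail_entry_two :
    checkFour (tailBox 975 946 0 1 310 0) 620 8 0 14 19 eTailEntry = true := by
  decide +kernel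

theorem tail_start_one :
    checkFour (tailBox 920 916 0 1001 155 0) 480 4 2 9 11 eTailStart = true := by
  decide +kernel

theorem tail_start_two :
    checkFour (tailBox 920 916 0 1001 310 154) 480 4 2 9 11 eTailStart = true := by
  decide +kernel

end Vale.Agent.P100.Calib.Band.AllLow
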