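import Vale.Agent.P100.Calib.SlabAllEnd
import Vale.Agent.P100.Calib.SlabAllExit
import Vale.Agent.P100.Calib.SlabAllTailExpr

/-!
# The signs of the forward rungs at the end of the tail

`allTailF A B a b u v = (S d v - 2 I) 1600 (9 - 20 a) + 2 I (A + B w - 1600 R w ^ 2)`, `w = 1 - u`.
-/

open Set Filter Topology

namespace Vale.Agent.P100.Calib.Band

open Vale.Agent.P100.Bubble Chart

/-- The linear coefficient at the end. -/
def allTailQ (I a : ℝ) : ℝ := (65 - 22 * a + 4500 * (I * a * a)) * (a + 2 * I)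

/-- The quadratic coefficient. -/
def allTailR (I a : ℝ) : ℝ := 420000 * (I * (a * (a * a * a)))

/-- The linear coefficient before the end. -/
def allTailS (I a : ℝ) : ℝ := 22 + 100 * I - 1000 * (I * a * a)

/-- The coefficient `B` at the end. -/
def allTailB (I a : ℝ) : ℝ := 1600 * allTailQ I a

/-- The coefficient `A` before the end. -/
def allEntryA (I a : ℝ) : ℝ :=
  40 * allTailQ I a - allTailR I a - 40 * allTailS I a - allTailR I a - 100 * I

/-- The coefficient `B` before the end. -/
def allEntryB (I a : ℝ) : ℝ := 1600 * allTailS I a + 80 * allTailR I a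

/-- The polynomial in `w`. -/
def allTailG (A B I a w : ℝ) : ℝ := A + B * w - 1600 * (allTailR I a * w ^ 2)

/-- Its derivative. -/
def allTailGd (B I a w : ℝ) : ℝ := B - 3200 * (allTailR I a * w)

/-- The slope in `v`. -/
def allTailDen (a b : ℝ) : ℝ := (a + b) * (b - a) * (1600 * (9 - 20 * a))

/-- **The forward function.** -/
noncomputable def allTailF (A B a b u v : ℝ) : ℝ :=
  allTailDen a b * v - 2 * allStabI a b * (1600 * (9 - 20 * a)) +
    2 * allStabI a b * allTailG A B (allStabI a b) a (1 - u)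

theorem hasGrad_allTail (A B a b : ℝ) :
    HasGrad (fun u v _ => allTailF A B a b u v)
      (fun u _ _ => -(2 * allStabI a b * allTailGd B (allStabI a b) a (1 - u)))
      (fun _ _ _ => allTailDen a b) (fun _ _ _ => 0) := by
  intro u v H du dv dh t hu hv _
  have hw := hu.const_sub 1
  refine (((hv.const_mul (allTailDen a b)).sub_const _).fun_add
    ((((hw.const_mul B).const_add A).fun_sub
      (((hw.fun_pow 2).const_mul (allTailR (allStabI a b) a)).const_mul 1600)).const_mul
        (2 * allStabI a b))).congr_deriv ?_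
  simp only [allTailGd]
  ring

namespace AllLow

open Pack

local instance allTailRealAdd : Add Pack.Ex := ⟨Ex.add⟩
local instance allTailRealSub : Sub Pack.Ex := ⟨Ex.sub⟩
local instance allTailRealMul : Mul Pack.Ex := ⟨Ex.mul⟩

/-- Bounds on the coefficients. -/
theorem tail_bounds {I a : ℝ} (hI0 : 0 ≤ I) (hI20 : I ≤ 1 / 20) (ha0 : 0 ≤ a)
    (ha : a ≤ 31 / 100) :
    58 * a ≤ allTailQ I a ∧ allTailQ I a ≤ 36 ∧ 22 ≤ allTailS I a ∧ allTailS I a ≤ 27 ∧
      0 ≤ allTailR I a ∧ allTailR I a ≤ 194 ∧ allTailR I a ≤ 626 * a := by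
  have h2 : a * a ≤ 31 / 100 * (31 / 100) := mul_le_mul ha ha ha0 (by norm_num)
  have h3 : a * a * a ≤ 31 / 100 * (31 / 100) * (31 / 100) :=
    mul_le_mul h2 ha ha0 (by norm_num)
  have hIa : I * a * a ≤ 1 / 20 * (31 / 100 * (31 / 100)) := by
    rw [mul_assoc]; exact mul_le_mul hI20 h2 (mul_nonneg ha0 ha0) (by norm_num)
  have hIa0 : 0 ≤ I * a * a := by positivity
  refine ⟨?_, ?_, ?_, ?_, ?_, ?_, ?_⟩
  · simp only [allTailQ]
    exact mul_le_mul (by linarith) (by linarith) ha0 (by linarith)
  · simp only [allTailQ]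
    exact le_trans (mul_le_mul (show 65 - 22 * a + 4500 * (I * a * a) ≤ 87 by linarith)
      (show a + 2 * I ≤ 41 / 100 by linarith) (by linarith) (by norm_num)) (by norm_num)
  · simp only [allTailS]
    have : I * a * a ≤ I * (31 / 100 * (31 / 100)) := by
      rw [mul_assoc]; exact mul_le_mul_of_nonneg_left h2 hI0
    linarith
  · simp only [allTailS]; linarith
  · simp only [allTailR]; positivity
  · simp only [allTailR]
    have := mul_le_mul hI20 (mul_le_mul ha h3 (by positivity) (by norm_num)) (by positivity)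
      (by norm_num : (0 : ℝ) ≤ 1 / 20)
    linarith
  · simp only [allTailR]
    have := mul_le_mul_of_nonneg_left (mul_le_mul hI20 h3 (by positivity) (by norm_num)) ha0
    linarith

/-- The forward function is not below `-40000`. -/
theorem tail_low {a b I u v A B : ℝ} (hI : allStabI a b = I) (hI0 : 0 ≤ I) (hI20 : I ≤ 1 / 20)
    (ha0 : 0 ≤ a) (ha : a ≤ 31 / 100) (hD : 0 ≤ allTailDen a b) (hu : 0 ≤ u) (hu1 : u ≤ 1)
    (hv : 0 ≤ v) (hA : -2000 ≤ A) (hB : 0 ≤ B) : -40000 < allTailF A B a b u v := by
  obtain ⟨-, -, -, -, hR0, hR, -⟩ := tail_bounds hI0 hI20 ha0 ha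
  have hw : (1 - u) ^ 2 ≤ 1 := pow_le_one₀ (by linarith) (by linarith)
  have h1 : allTailR I a * (1 - u) ^ 2 ≤ 194 := by
    have := mul_le_mul hR hw (by positivity) (by norm_num)
    linarith
  have h2 : 0 ≤ B * (1 - u) := mul_nonneg hB (by linarith)
  have h3 : -330000 ≤ allTailG A B I a (1 - u) - 1600 * (9 - 20 * a) := by
    simp only [allTailG]; linarith
  simp only [allTailF, hI]
  linarith [mul_le_mul_of_nonneg_left h3 (mul_nonneg two_pos.le hI0), mul_nonneg hD hv]

/-- The value of the packed condition. -/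
theorem eval_tail {a b I u v X A B : ℝ} (tA tB : Pack.Ex) (hA : tA.eval (stabPt u X I a) = A)
    (hB : tB.eval (stabPt u X I a) = B) (hb : b = 1 - 2 * I - a) (hd : b - a ≠ 0)
    (hW : b - u * a ≠ 0) (hD : allTailDen a b ≠ 0)
    (hV : v * allTailDen a b = 2 * I * (1600 * (9 - 20 * a) - allTailG A B I a (1 - u))) :
    (eTailP tA tB (.var 2) (.var 3)).eval (stabPt u X I a) * u =
      allDot a b u v ((100 * (b - a) - I * (1 - u) * allEndC I a (1 - u)) /
          (100 * ((b - a) * (b - u * a))))
        (-(2 * I * allTailGd B I a (1 - u))) (allTailDen a b) 0 *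
      (100 * ((b - a) * (b - u * a)) * allTailDen a b ^ 2) := by
  set x := stabPt u X I a with hx
  have hI : (Ex.var 2).eval x = I := by simp [hx, Ex.eval, stabPt]
  have va : (Ex.var 3).eval x = a := by simp [hx, Ex.eval, stabPt]
  have hu0 : x 0 = u := by simp [hx, stabPt]
  have vU : eU.eval x = u := by simp only [eU, Ex.eval, hu0]
  have vS : (AllLow.eS (.var 2)).eval x = a + b := by
    simp only [AllLow.eS, eval_sub', eval_mul', eval_num', hI]; push_cast; rw [hb]; ring
  have vB : (eB (.var 2) (.var 3)).eval x = b := by simp only [eB, eval_sub', vS, va]; ring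
  have vD : (eD (.var 2) (.var 3)).eval x = b - a := by simp only [eD, eval_sub', vB, va]
  have vw : eEndW.eval x = 1 - u := by simp only [eEndW, eval_sub', eval_num', vU]; norm_num
  obtain ⟨e1, -, e3, -⟩ := eval_end_ends (b := b) (u := u) (x := x) (.var 2) (.var 3) hI va hu0 hb
  rw [Int.cast_one, one_mul] at e3
  have vM : (eTailM (.var 3)).eval x = 1600 * (9 - 20 * a) := by
    simp only [eTailM, eval_sub', eval_mul', eval_num', va]; push_cast; ring
  have vDen : (eTailDen (.var 2) (.var 3)).eval x = allTailDen a b := by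
    simp only [eTailDen, allTailDen, eval_mul', vS, vD, vM]
  have vR : (eTailR (.var 2) (.var 3)).eval x = allTailR I a := by
    simp only [eTailR, allTailR, eval_mul', eval_num', hI, va]; push_cast; ring
  have vV : (eTailV tA tB (.var 2) (.var 3)).eval x = v * allTailDen a b := by
    rw [hV]
    simp only [eTailV, allTailG, eval_add', eval_sub', eval_mul', eval_num', vM, vR, vw, hA, hB, hI]
    push_cast; ring
  have vGd : (eTailGd tB (.var 2) (.var 3)).eval x = allTailGd B I a (1 - u) := by
    simp only [eTailGd, allTailGd, eval_sub', eval_mul', eval_num', vR, vw, hB]; push_cast; ring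
  have vQn : (eTailQn (eTailDen (.var 2) (.var 3)) (eTailV tA tB (.var 2) (.var 3)) (.var 2)
      (.var 3)).eval x = allQn a b u v * allTailDen a b := by
    simp only [eTailQn, allQn, eval_add', eval_sub', eval_mul', eval_num', vS, vB, vD, vDen, vV, vU]
    push_cast; ring
  simp only [eTailP, eTailFlow, eTailEn, eTailBig, eTailN, eval_add', eval_sub', eval_mul',
    eval_num', vQn, vV, vGd, vDen, vS, vB, vD, vw, vU, hI, va, e1, e3, allDot, allEn, allFlow,
    allDen]
  generalize 100 * (b - a) - I * (1 - u) * allEndC I a (1 - u) = n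
  generalize allQn a b u v = Q
  generalize allTailGd B I a (1 - u) = gd
  generalize allTailDen a b = D at hD ⊢
  generalize b - u * a = W at hW ⊢
  generalize b - a = d at hd ⊢
  push_cast
  field_simp
  ring

/-- The dot is least at the lower band. -/
theorem tail_affine {a b u v gu gv H G : ℝ} (ha : 0 ≤ a) (hd : 0 ≤ b - a) (hS : a + b ≤ 2)
    (hv : 0 < v) (hav : a * v ≤ 1) (hu : 0 ≤ u) (hu1 : u ≤ 1) (hgu : gu ≤ 0) (hgv : 0 ≤ gv)
    (hH : G ≤ H) : allDot a b u v G gu gv 0 ≤ allDot a b u v H gu gv 0 := by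
  have h := exit_affine (dl := -gu / v) (den := gv) ha hd hS hv.le hav hu hu1
    (div_nonneg (neg_nonneg.2 hgu) hv.le) hgv hH
  rw [mul_div_cancel₀ _ hv.ne'] at h
  have e : ∀ K, allDot a b u v K (-gu) (-gv) 0 = -allDot a b u v K gu gv 0 := fun K => by
    simp only [allDot]; ring
  rw [e, e] at h
  linarith

theorem back_point {A B : ℤ} {den : ℕ} (hden : 0 < den) {y : ℝ}
    (h1 : (B : ℝ) < y * den) (h2 : y * den ≤ (A : ℝ)) :
    ∃ t : ℝ, 0 ≤ t ∧ 0 < ((den : ℤ) : ℝ) + ((den : ℤ) : ℝ) * t ∧
      (A : ℝ) + B * t = y * (((den : ℤ) : ℝ) + ((den : ℤ) : ℝ) * t) := by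
  have h : 0 < y * den - B := by linarith
  have hd : (0 : ℝ) < den := Nat.cast_pos.2 hden
  have ht : 0 ≤ ((A : ℝ) - y * den) / (y * den - B) := div_nonneg (by linarith) h.le
  refine ⟨_, ht, ?_, ?_⟩ <;> push_cast
  · positivity
  · have := div_mul_cancel₀ ((A : ℝ) - y * den) h.ne'
    linarith

/-- A point of `tailBox`. -/
theorem tail_point {u X I a : ℝ} {u₀ u₁ X₁ a₀ a₁ : ℤ}
    (g1 : ∃ t : ℝ, 0 ≤ t ∧ 0 < (((1000 : ℕ) : ℤ) : ℝ) + (((1000 : ℕ) : ℤ) : ℝ) * t ∧
      (u₀ : ℝ) + u₁ * t = u * ((((1000 : ℕ) : ℤ) : ℝ) + (((1000 : ℕ) : ℤ) : ℝ) * t))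
    (g2 : 0 ≤ X) (g3 : X * 1000 < X₁) (g4 : 0 < I) (g5 : I ≤ 1 / 20) (g6 : (a₁ : ℝ) < a * 1000)
    (g7 : a * 1000 ≤ a₀) :
    ∀ i < 4, ∃ t : ℝ, 0 ≤ t ∧
      0 < ((tailBox u₀ u₁ 0 X₁ a₀ a₁ i).c : ℝ) + (tailBox u₀ u₁ 0 X₁ a₀ a₁ i).d * t ∧
      ((tailBox u₀ u₁ 0 X₁ a₀ a₁ i).a : ℝ) + (tailBox u₀ u₁ 0 X₁ a₀ a₁ i).b * t =
        stabPt u X I a i * (((tailBox u₀ u₁ 0 X₁ a₀ a₁ i).c : ℝ) +
          (tailBox u₀ u₁ 0 X₁ a₀ a₁ i).d * t) := by
  intro i hi
  interval_cases i <;> simp only [tailBox]
  · simpa [stabPt] using g1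
  · exact side_point (den := 1000) (by norm_num) (by simp [stabPt]; linarith)
      (by simpa [stabPt] using g3)
  · exact back_point (den := 1000) (by norm_num) (by simp [stabPt]; linarith)
      (by simp [stabPt]; linarith)
  · exact back_point (den := 1000) (by norm_num) (by simpa [stabPt] using g6)
      (by simpa [stabPt] using g7)

/-- The sign of the flow on the zeros of a forward function. -/
theorem tail_dot {a b I u X H A B : ℝ} (tA tB : Pack.Ex)
    (hA : tA.eval (stabPt u 0 I a) = A) (hB : tB.eval (stabPt u 0 I a) = B)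
    (hP : BandPlace a (1 / 2) I X) (hbI : b = 1 - 2 * I - a) (hu : 0 < u) (hu1 : u < 1)
    (hav : a * (2 * I * X) ≤ 1) (hF : allTailF A B a b u (2 * I * X) = 0)
    (hlow : 0 ≤ allEndLow a b u H) (hg : 0 ≤ allTailGd B I a (1 - u))
    (hc : 0 ≤ (eTailP tA tB (.var 2) (.var 3) - .var 2 * .var 2 * eEndW).eval (stabPt u 0 I a)) :
    0 < allDot a b u (2 * I * X) H (-(2 * allStabI a b * allTailGd B (allStabI a b) a (1 - u)))
      (allTailDen a b) 0 := by
  obtain ⟨hI0, hI20, hIa, ha, -, -, hXlo, -⟩ := id hP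
  have ha0 : 0 < a := by linarith
  have hd : 0 < b - a := by linarith
  have hW : 0 < b - u * a := by linarith [mul_le_mul_of_nonneg_right hu1.le ha0.le]
  have eI' : allStabI a b = I := by rw [allStabI, hbI]; ring
  have hD : 0 < allTailDen a b :=
    mul_pos (mul_pos (by linarith) hd) (mul_pos (by norm_num) (by linarith))
  have hv : 0 < 2 * I * X := mul_pos (mul_pos two_pos hI0) (by linarith)
  rw [eI']
  simp only [allTailF, eI'] at hF
  have k := eval_tail (v := 2 * I * X) tA tB hA hB hbI hd.ne' hW.ne' hD.ne' (by linarith)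
  rw [eval_sub'] at hc
  have hP0 : 0 < (eTailP tA tB (.var 2) (.var 3)).eval (stabPt u 0 I a) := by
    generalize (eTailP tA tB (.var 2) (.var 3)).eval (stabPt u 0 I a) = P at hc ⊢
    simp only [eEndW, eU, eval_sub', eval_num', Ex.eval, stabPt] at hc
    norm_num at hc
    have := mul_pos (mul_pos hI0 hI0) (show 0 < 1 - u by linarith)
    linarith
  refine lt_of_lt_of_le (b := allDot a b u (2 * I * X)
    ((100 * (b - a) - I * (1 - u) * allEndC I a (1 - u)) / (100 * ((b - a) * (b - u * a))))
    (-(2 * I * allTailGd B I a (1 - u))) (allTailDen a b) 0) ?_ ?_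
  · refine pos_of_mul_pos_left (b := 100 * ((b - a) * (b - u * a)) * allTailDen a b ^ 2) ?_
      (by positivity)
    rw [← k]
    exact mul_pos hP0 hu
  · refine tail_affine ha0.le hd.le (by linarith) hv hav hu.le hu1.le
      (neg_nonpos.2 (by positivity)) hD.le ?_
    rw [div_le_iff₀ (by positivity)]
    simp only [allEndLow, eI'] at hlow
    have := mul_le_mul_of_nonneg_left hlow (mul_pos (by norm_num : (0 : ℝ) < 100) hd).le
    rw [mul_add, ← mul_assoc (100 * (b - a)) (I / (100 * (b - a))),
      mul_div_cancel₀ I (mul_pos (by norm_num : (0 : ℝ) < 100) hd).ne', mul_zero] at this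
    linarith

/-- The values of the packed coefficients. -/
theorem eval_coeffs (u X I a : ℝ) :
    (eN 0 * .var 3 : Pack.Ex).eval (stabPt u X I a) = 0 ∧
      (eTailB (.var 2) (.var 3)).eval (stabPt u X I a) = allTailB I a ∧
      (eEntryA (.var 2) (.var 3)).eval (stabPt u X I a) = allEntryA I a ∧
      (eEntryB (.var 2) (.var 3)).eval (stabPt u X I a) = allEntryB I a := by
  refine ⟨?_, ?_, ?_, ?_⟩ <;>
    simp only [eTailB, eEntryA, eEntryB, eTailQ, eTailR, eTailS, allTailB, allEntryA, allEntryB,
      allTailQ, allTailR, allTailS, eval_add', eval_sub', eval_mul', eval_num', Ex.eval,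
      stabPt] <;> norm_num

/-- The sign at the end. -/
theorem end_tail_sign {a b I u X H : ℝ} (hP : BandPlace a (1 / 2) I X) (hbI : b = 1 - 2 * I - a)
    (hu0 : 39 / 40 ≤ u) (hu1 : u < 1) (hav : a * (2 * I * X) ≤ 1)
    (hF : allTailF 0 (allTailB I a) a b u (2 * I * X) = 0) (hlow : 0 ≤ allEndLow a b u H) :
    0 < allDot a b u (2 * I * X) H
      (-(2 * allStabI a b * allTailGd (allTailB I a) (allStabI a b) a (1 - u)))
      (allTailDen a b) 0 := by
  obtain ⟨hI0, hI20, hIa, ha, -, -, -, -⟩ := id hP
  have ha0 : 0 < a := by linarith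
  obtain ⟨e1, e2, -, -⟩ := eval_coeffs u 0 I a
  refine tail_dot _ _ e1 e2 hP hbI (by linarith) hu1 hav hF hlow ?_
    (nonneg_of_checkFour tail_end (tail_point (X := 0)
      (side_point (den := 1000) (by norm_num) (by push_cast; linarith) (by push_cast; linarith))
      le_rfl (by push_cast; norm_num) hI0 hI20 (by push_cast; linarith) (by push_cast; linarith)))
  obtain ⟨hQ, -, -, -, hR0, -, hR⟩ := tail_bounds hI0.le hI20 ha0.le ha
  simp only [allTailGd, allTailB]
  linarith [mul_le_mul_of_nonneg_left (show 1 - u ≤ 1 / 40 by linarith) hR0]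

/-- The sign before the end. -/
theorem entry_tail_sign {a b I u X H : ℝ} (hP : BandPlace a (1 / 2) I X) (hbI : b = 1 - 2 * I - a)
    (hu0 : 23 / 25 ≤ u) (hu1 : u ≤ 39 / 40) (hav : a * (2 * I * X) ≤ 1)
    (hF : allTailF (allEntryA I a) (allEntryB I a) a b u (2 * I * X) = 0)
    (hlow : 0 ≤ allEndLow a b u H) :
    0 < allDot a b u (2 * I * X) H
      (-(2 * allStabI a b * allTailGd (allEntryB I a) (allStabI a b) a (1 - u)))
      (allTailDen a b) 0 := by
  obtain ⟨hI0, hI20, hIa, ha, -, -, -, -⟩ := id hP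
  have ha0 : 0 < a := by linarith
  obtain ⟨-, -, e3, e4⟩ := eval_coeffs u 0 I a
  refine tail_dot _ _ e3 e4 hP hbI (by linarith) (by linarith) hav hF hlow ?_ ?_
  · obtain ⟨-, -, hS, -, hR0, hR, -⟩ := tail_bounds hI0.le hI20 ha0.le ha
    simp only [allTailGd, allEntryB]
    linarith [mul_le_mul_of_nonneg_left (show 1 - u ≤ 2 / 25 by linarith) hR0]
  · rcases le_or_gt u (947 / 1000) with h | h
    · exact nonneg_of_checkFour tail_entry_one (tail_point (X := 0)
        (back_point (den := 1000) (by norm_num) (by push_cast; linarith) (by push_cast; linarith))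
        le_rfl (by push_cast; norm_num) hI0 hI20 (by push_cast; linarith) (by push_cast; linarith))
    · exact nonneg_of_checkFour tail_entry_two (tail_point (X := 0)
        (back_point (den := 1000) (by norm_num) (by push_cast; linarith) (by push_cast; linarith))
        le_rfl (by push_cast; norm_num) hI0 hI20 (by push_cast; linarith) (by push_cast; linarith))

/-- On the starting piece the entry function is positive. -/
theorem entry_start {a b I u X H : ℝ} (hP : BandPlace a (1 / 2) I X) (hbI : b = 1 - 2 * I - a)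
    (hu0 : 917 / 1000 ≤ u) (hu1 : u ≤ 23 / 25) (hav : a * (2 * I * X) ≤ 1)
    (hup : H < allStabUG a b u (2 * I * X)) (hfl : 0 < allFlow a b u (2 * I * X) H) :
    0 < allTailF (allEntryA I a) (allEntryB I a) a b u (2 * I * X) := by
  obtain ⟨hI0, hI20, hIa, ha, -, -, hXlo, -⟩ := id hP
  have ha0 : 0 < a := by linarith
  have hd : 0 < b - a := by linarith
  have hW : 0 < b - u * a := by linarith [mul_le_mul_of_nonneg_right (show u ≤ 1 by linarith) ha0.le]
  have eI' : allStabI a b = I := by rw [allStabI, hbI]; ring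
  have hD : 0 < allTailDen a b :=
    mul_pos (mul_pos (by linarith) hd) (mul_pos (by norm_num) (by linarith))
  refine not_le.1 fun hF => ?_
  obtain ⟨-, -, hS, -, hR0, hR, -⟩ := tail_bounds hI0.le hI20 ha0.le ha
  simp only [allTailF, eI'] at hF
  set Y : ℝ := (1600 * (9 - 20 * a) - allTailG (allEntryA I a) (allEntryB I a) I a (2 / 25)) /
    allTailDen a b with hY
  have hXY : X ≤ Y := by
    have hm : 0 ≤ (1 - u - 2 / 25) *
        (allEntryB I a - 1600 * (allTailR I a * (1 - u + 2 / 25))) := by
      refine mul_nonneg (by linarith) ?_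
      simp only [allEntryB]
      linarith [mul_le_mul_of_nonneg_left (show 1 - u + 2 / 25 ≤ 163 / 1000 by linarith) hR0]
    have h2 : allTailG (allEntryA I a) (allEntryB I a) I a (2 / 25) ≤
        allTailG (allEntryA I a) (allEntryB I a) I a (1 - u) := by
      simp only [allTailG]
      linarith
    have h3 := mul_le_mul_of_nonneg_left h2 (mul_nonneg two_pos.le hI0.le)
    rw [hY, le_div_iff₀ hD]
    refine le_of_mul_le_mul_left ?_ (mul_pos two_pos hI0)
    linarith
  have hY0 : 0 ≤ Y - 24 / 25 := by linarith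
  obtain ⟨τ, hτ⟩ : ∃ τ, τ = (X - 24 / 25) / (Y - 24 / 25) := ⟨_, rfl⟩
  have hτ1 : τ ≤ 1 := by rw [hτ]; exact div_le_one_of_le₀ (by linarith) hY0
  have hτ0 : 0 ≤ τ := by rw [hτ]; exact div_nonneg (by linarith) hY0
  have hτX : X * allTailDen a b = 24 / 25 * allTailDen a b + τ * (1600 * (9 - 20 * a) -
      allTailG (allEntryA I a) (allEntryB I a) I a (2 / 25) - 24 / 25 * allTailDen a b) := by
    have e1 : τ * (Y - 24 / 25) = X - 24 / 25 := by
      rw [hτ]
      exact div_mul_cancel_of_imp fun h => by linarith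
    have e2 : Y * allTailDen a b = 1600 * (9 - 20 * a) -
        allTailG (allEntryA I a) (allEntryB I a) I a (2 / 25) := by
      rw [hY, div_mul_cancel₀ _ hD.ne']
    linear_combination (-allTailDen a b) * e1 + τ * e2
  have hc : 0 ≤ eTailStart.eval (stabPt u τ I a) := by
    rcases le_or_gt a (155 / 1000) with h | h
    · exact nonneg_of_checkFour tail_start_one (tail_point (X := τ)
        (back_point (den := 1000) (by norm_num) (by push_cast; linarith) (by push_cast; linarith))
        hτ0 (by push_cast; linarith) hI0 hI20 (by push_cast; linarith) (by push_cast; linarith))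
    · exact nonneg_of_checkFour tail_start_two (tail_point (X := τ)
        (back_point (den := 1000) (by norm_num) (by push_cast; linarith) (by push_cast; linarith))
        hτ0 (by push_cast; linarith) hI0 hI20 (by push_cast; linarith) (by push_cast; linarith))
  set x := stabPt u τ I a with hx
  have vI : (Ex.var 2).eval x = I := by simp [hx, Ex.eval, stabPt]
  have va : (Ex.var 3).eval x = a := by simp [hx, Ex.eval, stabPt]
  have vT : (Ex.var 1).eval x = τ := by simp [hx, Ex.eval, stabPt]
  have vU : eU.eval x = u := by simp [hx, eU, Ex.eval, stabPt]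
  have vS : (AllLow.eS (.var 2)).eval x = a + b := by
    simp only [AllLow.eS, eval_sub', eval_mul', eval_num', vI]; push_cast; rw [hbI]; ring
  have vB : (eB (.var 2) (.var 3)).eval x = b := by simp only [eB, eval_sub', vS, va]; ring
  have vD : (eD (.var 2) (.var 3)).eval x = b - a := by simp only [eD, eval_sub', vB, va]
  obtain ⟨-, -, vA, vEB⟩ := eval_coeffs u τ I a
  rw [← hx] at vA vEB
  have vR : (eTailR (.var 2) (.var 3)).eval x = allTailR I a := by
    simp only [eTailR, allTailR, eval_mul', eval_num', vI, va]; push_cast; ring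
  have vM : (eTailM (.var 3)).eval x = 1600 * (9 - 20 * a) := by
    simp only [eTailM, eval_sub', eval_mul', eval_num', va]; push_cast; ring
  have vd : (eStartDen (.var 2) (.var 3)).eval x = 15625 * allTailDen a b := by
    simp only [eStartDen, eTailDen, allTailDen, eval_mul', eval_num', vS, vD, vM]; push_cast; ring
  have vV : (eStartV (.var 2) (.var 3)).eval x = 2 * I * X * (15625 * allTailDen a b) := by
    have : 2 * I * X * (15625 * allTailDen a b) = 2 * I * 15625 * (X * allTailDen a b) := by ring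
    rw [this, hτX]
    simp only [eStartV, eTailDen, allTailDen, allTailG, eval_add', eval_sub', eval_mul',
      eval_num', vS, vD, vM, vT, vR, vI, vA, vEB]
    push_cast; ring
  have vG : (eStabGd (.var 2) (.var 3)).eval x = 100 * (b - u * a) := by
    simp only [eStabGd, eW, eval_sub', eval_mul', eval_num', vB, vU, va]; push_cast; ring
  have vN : (eStartN (.var 2) (.var 3)).eval x =
      allStabN (allStabUC I a) I a b u (2 * I * X) * (15625 * allTailDen a b) := by
    simp only [eStartN, eStabK, eStabU1, eStabU2, eStabU3, allStabN, allStabUC, allStabK,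
      eval_add', eval_sub', eval_mul', eval_num', vd, vV, vB, vI, va, vU]
    push_cast; ring
  have hUG : allStabUG a b u (2 * I * X) =
      allStabN (allStabUC I a) I a b u (2 * I * X) / (100 * (b - u * a)) := by
    simp only [allStabUG, allStabG, eI', (allPole_eq (a := a) (b := b)
      (show u ≤ 1 by linarith)).1]
  have key : (eTailFlow (eStartN (.var 2) (.var 3)) (eStabGd (.var 2) (.var 3))
      (eStartDen (.var 2) (.var 3)) (eStartV (.var 2) (.var 3)) (.var 2) (.var 3)).eval x =
      allFlow a b u (2 * I * X) (allStabUG a b u (2 * I * X)) *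
        ((100 * (b - u * a)) * (15625 * allTailDen a b) ^ 2) := by
    rw [hUG]
    simp only [eTailFlow, eTailQn, eTailBig, eval_add', eval_sub', eval_mul', eval_num', vN, vG,
      vd, vV, vS, vB, vD, vU, va, allFlow, allQn, allDen]
    generalize allStabN (allStabUC I a) I a b u (2 * I * X) = n
    generalize (15625 : ℝ) * allTailDen a b = D
    generalize b - u * a = W at hW ⊢
    push_cast
    field_simp
  simp only [eTailStart, eval_sub', eval_mul', eval_num', key] at hc
  simp only [eEndW, eU, eval_sub', eval_num', hx, Ex.eval, stabPt] at hc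
  norm_num at hc
  have hmono : allFlow a b u (2 * I * X) H ≤
      allFlow a b u (2 * I * X) (allStabUG a b u (2 * I * X)) := by
    have hq : 0 ≤ allQn a b u (2 * I * X) + (a + b) * ((1 - a * (2 * I * X)) * (u * (b - a))) := by
      have : 0 ≤ allQn a b u (2 * I * X) := by
        have e : allQn a b u (2 * I * X) = (1 - u) * (b * (2 + (b - a) * (2 * I * X))) +
            u * ((b - a) * (1 - a * (2 * I * X))) := by simp only [allQn]; ring
        rw [e]
        exact add_nonneg (mul_nonneg (by linarith) (mul_nonneg (by linarith) (by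
          linarith [mul_nonneg hd.le (mul_nonneg (mul_nonneg two_pos.le hI0.le)
            (show 0 ≤ X by linarith))])))
          (mul_nonneg (by linarith) (mul_nonneg hd.le (by linarith)))
      exact add_nonneg this (mul_nonneg (by linarith) (mul_nonneg (by linarith)
        (mul_nonneg (by linarith) hd.le)))
    have := mul_le_mul_of_nonneg_left hup.le hq
    simp only [allFlow, allDen]
    linarith
  have hpos : 0 < 100 * (b - u * a) * (15625 * allTailDen a b) ^ 2 := by positivity
  have := mul_pos (mul_pos hI0 hI0) (show 0 < 1 - u by linarith)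
  linarith [mul_pos (lt_of_lt_of_le hfl hmono) hpos]

end AllLow

end Vale.Agent.P100.Calib.Band
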