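import Vale.Agent.P100.Calib.BoxPos
import Vale.Agent.P100.Calib.SlabBands

/-
# The band numerators as expressions in `(u, v, d, S)`
-/

namespace Vale.Agent.P100.Calib.Band

open BoxPos

/-- A rational constant. -/
abbrev eC (n : ℤ) (k : ℕ := 1) : Ex := .cst n k

local instance : Add Ex := ⟨Ex.add⟩
local instance : Sub Ex := ⟨Ex.sub⟩
local instance : Mul Ex := ⟨Ex.mul⟩

variable (a b : Ex) (u v d S : ℝ)

theorem val_add : (a + b).val u v d S = a.val u v d S + b.val u v d S := rfl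

theorem val_sub : (a - b).val u v d S = a.val u v d S - b.val u v d S := rfl

theorem val_mul : (a * b).val u v d S = a.val u v d S * b.val u v d S := rfl

/-- `u`. -/
abbrev eU : Ex := .x₀
/-- `v`. -/
abbrev eV : Ex := .x₁
/-- `d`. -/
abbrev eD : Ex := .x₂
/-- `S`. -/
abbrev eS : Ex := .x₃

/-- `B`. -/
def eB : Ex := eC 1 2 * (eS + eD) * (eC 2 - eS)

/-- `al`. -/
def eA : Ex := eC 1 2 * (eS - eD)

/-- `lieT`. -/
def eLie (c₁ c₂ c₃ : Ex) : Ex :=
  let B := eB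
  let P := c₁ + c₂ * eU + c₃ * (eU * eU)
  let K := eS * (eC 1 + (eC 1 - eA) * eV) + eB * eU * P
  let D := eB * (eC 2 + eD * eV) - eD * eU * K
  let c := eC 1 + (eC 1 - eA) * eV
  let Qn := (eS + eD) * (eC 2 + eD * eV) - eC 2 * eS * eU * (eC 1 + eD * eV)
  let be := eC 1 2 * (eS + eD)
  eC (-2) * B * B * B * (eC 2 + eD * eV) * P +
    B * (eC 4 * eS * (eC 1 + eD * eV) * K - eC 2 * eS * c * eD * K) -
    eD * K * (eC 2 * eS * c * D - eC 2 * Qn * K) -
    eC 2 * eS * be * eD * K * K -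
    eC 2 * eS * be * K * D -
    (c₁ + eC 2 * c₂ * eU + eC 3 * c₃ * (eU * eU)) * B *
      ((B - eU * eD * K) * Qn + eC 2 * eS * (eU - eC 1) * be * D) -
    eS * (eC 1 - eA) * (eC 1 + eD * eV) *
      (Qn * K - eC 2 * eS * (eC 1 - eA * eV) * D)

/-- `exitT`. -/
def eExit : Ex :=
  let G := eC 22 25 - eU
  let Vn := eC 11 10 * G + eC 8 5 * eU
  let B := eB
  let K := eS * (G + (eC 1 - eA) * Vn) + B * (eC (-1) 2 - eC 3 * eD) * eU * G
  let be := eC 1 2 * (eS + eD)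
  let Qn := (eS + eD) * (eC 2 * G + eD * Vn) - eC 2 * eS * eU * (G + eD * Vn)
  let D := B * (eC 2 * G + eD * Vn) - eD * eU * K
  (G + eD * Vn) * (Qn * K - eC 2 * eS * (G - eA * Vn) * D) * G -
    eC 176 125 * ((B * G - eU * eD * K) * Qn + eC 2 * eS * (eU - eC 1) * be * D * G)

/-- The coefficients of the crude band. -/
def eLow : Ex := eLie (eC (-1) 2 - eC 3 * eD) (eC 0) (eC 0)

/-- The lower band. -/
def eLower : Ex := eLie (eC 1 - eC 7 2 * eD) (eC (-6) 5 - eC 3 * eD) (eC 0)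

/-- The upper band, negated. -/
def eUpper : Ex := eC 0 - eLie (eC 8 5 - eC 4 * eD) (eC 3) (eC 6)

/-- The side of `d`. -/
def sideD : Side := ⟨0, 201, 1000⟩

/-- The side of `S`. -/
def sideS : Side := ⟨30420, 30701, 50700⟩

/-- A box in `u` and `v`. -/
def boxUV (a b hv : ℤ) : Box := ⟨⟨a, b, 1000⟩, ⟨330, hv, 1000⟩, sideD, sideS⟩

end Vale.Agent.P100.Calib.Band
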