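import Vale.Agent.P100.Calib.SlabBotSide
import Vale.Agent.P100.Calib.SlabBotData

/-!
# The checks of the piece B1
-/

namespace Vale.Agent.P100.Calib.Closed.Bot

open BoxPos

open Large (PosBox posBox_of_check)

local instance botCheckB1Add : Add Ex := ⟨Ex.add⟩
local instance botCheckB1Sub : Sub Ex := ⟨Ex.sub⟩
local instance botCheckB1Mul : Mul Ex := ⟨Ex.mul⟩

theorem evB1_g : Ev pieceB1.box pieceB1.bd (·.G) := by
  rintro (_ | _)
  · exact (posBox_of_check (c := ⟨430, ⟨2, 4, 10, 7⟩⟩) (by decide +kernel))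
  · exact (posBox_of_check (c := ⟨430, ⟨2, 4, 10, 7⟩⟩) (by decide +kernel))

theorem evB1_h : Ev pieceB1.box pieceB1.bd (·.H) := by
  rintro (_ | _)
  · exact (posBox_of_check (c := ⟨466, ⟨2, 5, 11, 7⟩⟩) (by decide +kernel))
  · exact (posBox_of_check (c := ⟨466, ⟨2, 5, 11, 7⟩⟩) (by decide +kernel))

theorem evB1_n : Ev pieceB1.box pieceB1.bd (·.N) := by
  rintro (_ | _)
  · exact (posBox_of_check (c := ⟨560, ⟨2, 7, 13, 7⟩⟩) (by decide +kernel))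
  · exact (posBox_of_check (c := ⟨560, ⟨2, 7, 13, 7⟩⟩) (by decide +kernel))

theorem evB1_c₁p : Ev pieceB1.box pieceB1.bd Bd.c₁p := by
  rintro (_ | _)
  · exact (posBox_of_check (c := ⟨568, ⟨4, 8, 14, 9⟩⟩) (by decide +kernel))
  · exact (posBox_of_check (c := ⟨568, ⟨4, 8, 14, 9⟩⟩) (by decide +kernel))

theorem evB1_c₁m : Ev pieceB1.box pieceB1.bd Bd.c₁m := by
  rintro (_ | _)
  · exact (posBox_of_check (c := ⟨568, ⟨4, 8, 14, 9⟩⟩) (by decide +kernel))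
  · exact (posBox_of_check (c := ⟨568, ⟨4, 8, 14, 9⟩⟩) (by decide +kernel))

theorem evB1_c₂p : Ev pieceB1.box pieceB1.bd Bd.c₂p := by
  rintro (_ | _)
  · exact (posBox_of_check (c := ⟨550, ⟨4, 6, 13, 9⟩⟩) (by decide +kernel))
  · exact (posBox_of_check (c := ⟨550, ⟨4, 6, 13, 9⟩⟩) (by decide +kernel))

theorem evB1_ePos : Ev pieceB1.box pieceB1.bd Bd.ePos := by
  rintro (_ | _)
  · exact (posBox_of_check (c := ⟨472, ⟨2, 5, 11, 7⟩⟩) (by decide +kernel))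
  · exact (posBox_of_check (c := ⟨472, ⟨2, 5, 11, 7⟩⟩) (by decide +kernel))

theorem evB1_c₃pp : Ev pieceB1.box pieceB1.bd Bd.c₃pp := by
  rintro (_ | _)
  · exact (posBox_of_check (c := ⟨685, ⟨4, 8, 18, 11⟩⟩) (by decide +kernel))
  · exact (posBox_of_check (c := ⟨685, ⟨4, 8, 18, 11⟩⟩) (by decide +kernel))

theorem evB1_c₃mp : Ev pieceB1.box pieceB1.bd Bd.c₃mp := by
  rintro (_ | _)
  · exact (posBox_of_check (c := ⟨685, ⟨4, 8, 18, 11⟩⟩) (by decide +kernel))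
  · exact (posBox_of_check (c := ⟨685, ⟨4, 8, 18, 11⟩⟩) (by decide +kernel))

/-- The signs on the piece B1. -/
theorem signB1 : Signed pieceB1.box pieceB1.bd where
  g := evB1_g
  h := evB1_h
  n := evB1_n
  c₁p := .inl evB1_c₁p
  c₁m := .inl evB1_c₁m
  c₂p := .inl evB1_c₂p
  c₂m := .inr evB1_ePos
  c₃pp := .inl evB1_c₃pp
  c₃pm := .inr (.inr evB1_ePos)
  c₃mp := .inl evB1_c₃mp
  c₃mm := .inr (.inr evB1_ePos)

theorem highB1 : pieceB1.toFrame.Ev pieceB1.grp.mu pieceB1.X₁ :=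
  .inl ⟨rfl, (posBox_of_check (c := ⟨343, ⟨3, 3, 11, 3⟩⟩) (by decide +kernel))⟩

theorem lowB1 : PosBox pieceB1.box pieceB1.sX0 :=
  (posBox_of_check (c := ⟨196, ⟨2, 0, 6, 2⟩⟩) (by decide +kernel))

theorem exitB1 : PosBox pieceB1.box pieceB1.toFrame.sLow :=
  (posBox_of_check (c := ⟨129, ⟨2, 0, 6, 0⟩⟩) (by decide +kernel))

end Vale.Agent.P100.Calib.Closed.Bot
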