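import Vale.Agent.P100.Calib.SlabBotSide
import Vale.Agent.P100.Calib.SlabBotData

/-!
# The checks of the piece DB2
-/

namespace Vale.Agent.P100.Calib.Closed.Bot

open BoxPos

open Large (PosBox posBox_of_check)

local instance botCheckDB2Add : Add Ex := ⟨Ex.add⟩
local instance botCheckDB2Sub : Sub Ex := ⟨Ex.sub⟩
local instance botCheckDB2Mul : Mul Ex := ⟨Ex.mul⟩

theorem evDB2_g : Ev pieceDB2.box (fun j : Bool × Bool => pieceDB2.bd j.1 j.2) (·.G) := by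
  rintro ⟨_ | _, _ | _⟩
  · exact (posBox_of_check (c := ⟨429, ⟨2, 4, 10, 7⟩⟩) (by decide +kernel))
  · exact (posBox_of_check (c := ⟨429, ⟨2, 4, 10, 7⟩⟩) (by decide +kernel))
  · exact (posBox_of_check (c := ⟨429, ⟨2, 4, 10, 7⟩⟩) (by decide +kernel))
  · exact (posBox_of_check (c := ⟨429, ⟨2, 4, 10, 7⟩⟩) (by decide +kernel))

theorem evDB2_h : Ev pieceDB2.box (fun j : Bool × Bool => pieceDB2.bd j.1 j.2) (·.H) := by
  rintro ⟨_ | _, _ | _⟩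
  · exact (posBox_of_check (c := ⟨283, ⟨0, 1, 8, 5⟩⟩) (by decide +kernel))
  · exact (posBox_of_check (c := ⟨285, ⟨0, 1, 8, 5⟩⟩) (by decide +kernel))
  · exact (posBox_of_check (c := ⟨283, ⟨0, 1, 8, 5⟩⟩) (by decide +kernel))
  · exact (posBox_of_check (c := ⟨285, ⟨0, 1, 8, 5⟩⟩) (by decide +kernel))

theorem evDB2_n : Ev pieceDB2.box (fun j : Bool × Bool => pieceDB2.bd j.1 j.2) (·.N) := by
  rintro ⟨_ | _, _ | _⟩
  · exact (posBox_of_check (c := ⟨672, ⟨2, 7, 15, 11⟩⟩) (by decide +kernel))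
  · exact (posBox_of_check (c := ⟨675, ⟨2, 7, 15, 11⟩⟩) (by decide +kernel))
  · exact (posBox_of_check (c := ⟨672, ⟨2, 7, 15, 11⟩⟩) (by decide +kernel))
  · exact (posBox_of_check (c := ⟨675, ⟨2, 7, 15, 11⟩⟩) (by decide +kernel))

theorem evDB2_mNeg : Ev pieceDB2.box (fun j : Bool × Bool => pieceDB2.bd j.1 j.2) Bd.mNeg := by
  rintro ⟨_ | _, _ | _⟩
  · exact (posBox_of_check (c := ⟨449, ⟨1, 4, 11, 7⟩⟩) (by decide +kernel))
  · exact (posBox_of_check (c := ⟨452, ⟨1, 4, 11, 7⟩⟩) (by decide +kernel))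
  · exact (posBox_of_check (c := ⟨449, ⟨1, 4, 11, 7⟩⟩) (by decide +kernel))
  · exact (posBox_of_check (c := ⟨452, ⟨1, 4, 11, 7⟩⟩) (by decide +kernel))

theorem evDB2_c₁m : Ev pieceDB2.box (fun j : Bool × Bool => pieceDB2.bd j.1 j.2) Bd.c₁m := by
  rintro ⟨_ | _, _ | _⟩
  · exact (posBox_of_check (c := ⟨452, ⟨2, 4, 11, 7⟩⟩) (by decide +kernel))
  · exact (posBox_of_check (c := ⟨455, ⟨2, 4, 11, 7⟩⟩) (by decide +kernel))
  · exact (posBox_of_check (c := ⟨452, ⟨2, 4, 11, 7⟩⟩) (by decide +kernel))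
  · exact (posBox_of_check (c := ⟨455, ⟨2, 4, 11, 7⟩⟩) (by decide +kernel))

theorem evDB2_c₂p : Ev pieceDB2.box (fun j : Bool × Bool => pieceDB2.bd j.1 j.2) Bd.c₂p := by
  rintro ⟨_ | _, _ | _⟩
  · exact (posBox_of_check (c := ⟨603, ⟨4, 6, 14, 10⟩⟩) (by decide +kernel))
  · exact (posBox_of_check (c := ⟨603, ⟨4, 6, 14, 10⟩⟩) (by decide +kernel))
  · exact (posBox_of_check (c := ⟨603, ⟨4, 6, 14, 10⟩⟩) (by decide +kernel))
  · exact (posBox_of_check (c := ⟨603, ⟨4, 6, 14, 10⟩⟩) (by decide +kernel))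

theorem evDB2_c₂m : Ev pieceDB2.box (fun j : Bool × Bool => pieceDB2.bd j.1 j.2) Bd.c₂m := by
  rintro ⟨_ | _, _ | _⟩
  · exact (posBox_of_check (c := ⟨603, ⟨4, 6, 14, 10⟩⟩) (by decide +kernel))
  · exact (posBox_of_check (c := ⟨603, ⟨4, 6, 14, 10⟩⟩) (by decide +kernel))
  · exact (posBox_of_check (c := ⟨603, ⟨4, 6, 14, 10⟩⟩) (by decide +kernel))
  · exact (posBox_of_check (c := ⟨603, ⟨4, 6, 14, 10⟩⟩) (by decide +kernel))

theorem evDB2_c₃mp : Ev pieceDB2.box (fun j : Bool × Bool => pieceDB2.bd j.1 j.2) Bd.c₃mp := by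
  rintro ⟨_ | _, _ | _⟩
  · exact (posBox_of_check (c := ⟨738, ⟨4, 8, 19, 13⟩⟩) (by decide +kernel))
  · exact (posBox_of_check (c := ⟨741, ⟨4, 8, 19, 13⟩⟩) (by decide +kernel))
  · exact (posBox_of_check (c := ⟨738, ⟨4, 8, 19, 13⟩⟩) (by decide +kernel))
  · exact (posBox_of_check (c := ⟨741, ⟨4, 8, 19, 13⟩⟩) (by decide +kernel))

theorem evDB2_c₃mm : Ev pieceDB2.box (fun j : Bool × Bool => pieceDB2.bd j.1 j.2) Bd.c₃mm := by
  rintro ⟨_ | _, _ | _⟩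
  · exact (posBox_of_check (c := ⟨738, ⟨4, 8, 19, 13⟩⟩) (by decide +kernel))
  · exact (posBox_of_check (c := ⟨741, ⟨4, 8, 19, 13⟩⟩) (by decide +kernel))
  · exact (posBox_of_check (c := ⟨738, ⟨4, 8, 19, 13⟩⟩) (by decide +kernel))
  · exact (posBox_of_check (c := ⟨741, ⟨4, 8, 19, 13⟩⟩) (by decide +kernel))

/-- The signs on the piece DB2. -/
theorem signDB2 : Signed pieceDB2.box (fun j : Bool × Bool => pieceDB2.bd j.1 j.2) where
  g := evDB2_g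
  h := evDB2_h
  n := evDB2_n
  c₁p := .inr evDB2_mNeg
  c₁m := .inl evDB2_c₁m
  c₂p := .inl evDB2_c₂p
  c₂m := .inl evDB2_c₂m
  c₃pp := .inr (.inl evDB2_mNeg)
  c₃pm := .inr (.inl evDB2_mNeg)
  c₃mp := .inl evDB2_c₃mp
  c₃mm := .inl evDB2_c₃mm

theorem highDB2 : pieceDB2.toFrame.Ev 0 pieceDB2.X₁ :=
  .inl ⟨rfl, (posBox_of_check (c := ⟨343, ⟨3, 3, 11, 3⟩⟩) (by decide +kernel))⟩

theorem topDB2 : PosBox pieceDB2.box pieceDB2.toFrame.sTop :=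
  (posBox_of_check (c := ⟨46, ⟨0, 0, 2, 0⟩⟩) (by decide +kernel))

theorem phiDB2 : PosBox pieceDB2.box pieceDB2.sPhi :=
  (posBox_of_check (c := ⟨287, ⟨3, 0, 9, 3⟩⟩) (by decide +kernel))

end Vale.Agent.P100.Calib.Closed.Bot
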