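import Vale.Agent.P100.Calib.SlabBotSide
import Vale.Agent.P100.Calib.SlabBotData

/-!
# The checks of the piece DF1
-/

namespace Vale.Agent.P100.Calib.Closed.Bot

open BoxPos

open Large (PosBox posBox_of_check)

local instance botCheckDF1Add : Add Ex := ⟨Ex.add⟩
local instance botCheckDF1Sub : Sub Ex := ⟨Ex.sub⟩
local instance botCheckDF1Mul : Mul Ex := ⟨Ex.mul⟩

theorem evDF1_g : Ev pieceDF1.box (fun j : Bool × Bool => pieceDF1.bd j.1 j.2) (·.G) := by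
  rintro ⟨_ | _, _ | _⟩
  · exact (posBox_of_check (c := ⟨430, ⟨2, 4, 10, 7⟩⟩) (by decide +kernel))
  · exact (posBox_of_check (c := ⟨430, ⟨2, 4, 10, 7⟩⟩) (by decide +kernel))
  · exact (posBox_of_check (c := ⟨430, ⟨2, 4, 10, 7⟩⟩) (by decide +kernel))
  · exact (posBox_of_check (c := ⟨430, ⟨2, 4, 10, 7⟩⟩) (by decide +kernel))

theorem evDF1_h : Ev pieceDF1.box (fun j : Bool × Bool => pieceDF1.bd j.1 j.2) (·.H) := by
  rintro ⟨_ | _, _ | _⟩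
  · exact (posBox_of_check (c := ⟨282, ⟨0, 1, 8, 5⟩⟩) (by decide +kernel))
  · exact (posBox_of_check (c := ⟨283, ⟨0, 1, 8, 5⟩⟩) (by decide +kernel))
  · exact (posBox_of_check (c := ⟨282, ⟨0, 1, 8, 5⟩⟩) (by decide +kernel))
  · exact (posBox_of_check (c := ⟨283, ⟨0, 1, 8, 5⟩⟩) (by decide +kernel))

theorem evDF1_n : Ev pieceDF1.box (fun j : Bool × Bool => pieceDF1.bd j.1 j.2) (·.N) := by
  rintro ⟨_ | _, _ | _⟩
  · exact (posBox_of_check (c := ⟨672, ⟨2, 7, 15, 11⟩⟩) (by decide +kernel))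
  · exact (posBox_of_check (c := ⟨674, ⟨2, 7, 15, 11⟩⟩) (by decide +kernel))
  · exact (posBox_of_check (c := ⟨672, ⟨2, 7, 15, 11⟩⟩) (by decide +kernel))
  · exact (posBox_of_check (c := ⟨674, ⟨2, 7, 15, 11⟩⟩) (by decide +kernel))

theorem evDF1_c₁p : Ev pieceDF1.box (fun j : Bool × Bool => pieceDF1.bd j.1 j.2) Bd.c₁p := by
  rintro ⟨_ | _, _ | _⟩
  · exact (posBox_of_check (c := ⟨454, ⟨2, 4, 11, 7⟩⟩) (by decide +kernel))
  · exact (posBox_of_check (c := ⟨455, ⟨2, 4, 11, 7⟩⟩) (by decide +kernel))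
  · exact (posBox_of_check (c := ⟨454, ⟨2, 4, 11, 7⟩⟩) (by decide +kernel))
  · exact (posBox_of_check (c := ⟨455, ⟨2, 4, 11, 7⟩⟩) (by decide +kernel))

theorem evDF1_c₁m : Ev pieceDF1.box (fun j : Bool × Bool => pieceDF1.bd j.1 j.2) Bd.c₁m := by
  rintro ⟨_ | _, _ | _⟩
  · exact (posBox_of_check (c := ⟨454, ⟨2, 4, 11, 7⟩⟩) (by decide +kernel))
  · exact (posBox_of_check (c := ⟨455, ⟨2, 4, 11, 7⟩⟩) (by decide +kernel))
  · exact (posBox_of_check (c := ⟨454, ⟨2, 4, 11, 7⟩⟩) (by decide +kernel))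
  · exact (posBox_of_check (c := ⟨455, ⟨2, 4, 11, 7⟩⟩) (by decide +kernel))

theorem evDF1_c₂p : Ev pieceDF1.box (fun j : Bool × Bool => pieceDF1.bd j.1 j.2) Bd.c₂p := by
  rintro ⟨_ | _, _ | _⟩
  · exact (posBox_of_check (c := ⟨605, ⟨4, 6, 14, 10⟩⟩) (by decide +kernel))
  · exact (posBox_of_check (c := ⟨605, ⟨4, 6, 14, 10⟩⟩) (by decide +kernel))
  · exact (posBox_of_check (c := ⟨605, ⟨4, 6, 14, 10⟩⟩) (by decide +kernel))
  · exact (posBox_of_check (c := ⟨605, ⟨4, 6, 14, 10⟩⟩) (by decide +kernel))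

theorem evDF1_c₂m : Ev pieceDF1.box (fun j : Bool × Bool => pieceDF1.bd j.1 j.2) Bd.c₂m := by
  rintro ⟨_ | _, _ | _⟩
  · exact (posBox_of_check (c := ⟨605, ⟨4, 6, 14, 10⟩⟩) (by decide +kernel))
  · exact (posBox_of_check (c := ⟨605, ⟨4, 6, 14, 10⟩⟩) (by decide +kernel))
  · exact (posBox_of_check (c := ⟨605, ⟨4, 6, 14, 10⟩⟩) (by decide +kernel))
  · exact (posBox_of_check (c := ⟨605, ⟨4, 6, 14, 10⟩⟩) (by decide +kernel))

theorem evDF1_c₃pp : Ev pieceDF1.box (fun j : Bool × Bool => pieceDF1.bd j.1 j.2) Bd.c₃pp := by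
  rintro ⟨_ | _, _ | _⟩
  · exact (posBox_of_check (c := ⟨741, ⟨4, 8, 19, 13⟩⟩) (by decide +kernel))
  · exact (posBox_of_check (c := ⟨743, ⟨4, 8, 19, 13⟩⟩) (by decide +kernel))
  · exact (posBox_of_check (c := ⟨741, ⟨4, 8, 19, 13⟩⟩) (by decide +kernel))
  · exact (posBox_of_check (c := ⟨743, ⟨4, 8, 19, 13⟩⟩) (by decide +kernel))

theorem evDF1_c₃pm : Ev pieceDF1.box (fun j : Bool × Bool => pieceDF1.bd j.1 j.2) Bd.c₃pm := by
  rintro ⟨_ | _, _ | _⟩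
  · exact (posBox_of_check (c := ⟨741, ⟨4, 8, 19, 13⟩⟩) (by decide +kernel))
  · exact (posBox_of_check (c := ⟨743, ⟨4, 8, 19, 13⟩⟩) (by decide +kernel))
  · exact (posBox_of_check (c := ⟨741, ⟨4, 8, 19, 13⟩⟩) (by decide +kernel))
  · exact (posBox_of_check (c := ⟨743, ⟨4, 8, 19, 13⟩⟩) (by decide +kernel))

theorem evDF1_c₃mp : Ev pieceDF1.box (fun j : Bool × Bool => pieceDF1.bd j.1 j.2) Bd.c₃mp := by
  rintro ⟨_ | _, _ | _⟩
  · exact (posBox_of_check (c := ⟨741, ⟨4, 8, 19, 13⟩⟩) (by decide +kernel))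
  · exact (posBox_of_check (c := ⟨743, ⟨4, 8, 19, 13⟩⟩) (by decide +kernel))
  · exact (posBox_of_check (c := ⟨741, ⟨4, 8, 19, 13⟩⟩) (by decide +kernel))
  · exact (posBox_of_check (c := ⟨743, ⟨4, 8, 19, 13⟩⟩) (by decide +kernel))

theorem evDF1_c₃mm : Ev pieceDF1.box (fun j : Bool × Bool => pieceDF1.bd j.1 j.2) Bd.c₃mm := by
  rintro ⟨_ | _, _ | _⟩
  · exact (posBox_of_check (c := ⟨741, ⟨4, 8, 19, 13⟩⟩) (by decide +kernel))
  · exact (posBox_of_check (c := ⟨743, ⟨4, 8, 19, 13⟩⟩) (by decide +kernel))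
  · exact (posBox_of_check (c := ⟨741, ⟨4, 8, 19, 13⟩⟩) (by decide +kernel))
  · exact (posBox_of_check (c := ⟨743, ⟨4, 8, 19, 13⟩⟩) (by decide +kernel))

/-- The signs on the piece DF1. -/
theorem signDF1 : Signed pieceDF1.box (fun j : Bool × Bool => pieceDF1.bd j.1 j.2) where
  g := evDF1_g
  h := evDF1_h
  n := evDF1_n
  c₁p := .inl evDF1_c₁p
  c₁m := .inl evDF1_c₁m
  c₂p := .inl evDF1_c₂p
  c₂m := .inl evDF1_c₂m
  c₃pp := .inl evDF1_c₃pp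
  c₃pm := .inl evDF1_c₃pm
  c₃mp := .inl evDF1_c₃mp
  c₃mm := .inl evDF1_c₃mm

theorem highDF1 : pieceDF1.toFrame.Ev 0 pieceDF1.X₁ :=
  .inr (posBox_of_check (c := ⟨354, ⟨3, 3, 12, 3⟩⟩) (by decide +kernel))

theorem topDF1 : PosBox pieceDF1.box pieceDF1.toFrame.sTop :=
  (posBox_of_check (c := ⟨46, ⟨0, 0, 2, 0⟩⟩) (by decide +kernel))

end Vale.Agent.P100.Calib.Closed.Bot
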