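import Vale.Agent.P100.Calib.SlabBotSide
import Vale.Agent.P100.Calib.SlabBotData

/-!
# The checks of the piece F0
-/

namespace Vale.Agent.P100.Calib.Closed.Bot

open BoxPos

open Large (PosBox posBox_of_check)

local instance botCheckF0Add : Add Ex := ⟨Ex.add⟩
local instance botCheckF0Sub : Sub Ex := ⟨Ex.sub⟩
local instance botCheckF0Mul : Mul Ex := ⟨Ex.mul⟩

theorem evF0_g : Ev pieceF0.box pieceF0.bd (·.G) := by
  rintro (_ | _)
  · exact (posBox_of_check (c := ⟨431, ⟨2, 4, 10, 7⟩⟩) (by decide +kernel))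
  · exact (posBox_of_check (c := ⟨431, ⟨2, 4, 10, 7⟩⟩) (by decide +kernel))

theorem evF0_h : Ev pieceF0.box pieceF0.bd (·.H) := by
  rintro (_ | _)
  · exact (posBox_of_check (c := ⟨467, ⟨2, 5, 11, 7⟩⟩) (by decide +kernel))
  · exact (posBox_of_check (c := ⟨467, ⟨2, 5, 11, 7⟩⟩) (by decide +kernel))

theorem evF0_n : Ev pieceF0.box pieceF0.bd (·.N) := by
  rintro (_ | _)
  · exact (posBox_of_check (c := ⟨561, ⟨2, 7, 13, 7⟩⟩) (by decide +kernel))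
  · exact (posBox_of_check (c := ⟨561, ⟨2, 7, 13, 7⟩⟩) (by decide +kernel))

theorem evF0_c₁p : Ev pieceF0.box pieceF0.bd Bd.c₁p := by
  rintro (_ | _)
  · exact (posBox_of_check (c := ⟨569, ⟨4, 8, 14, 9⟩⟩) (by decide +kernel))
  · exact (posBox_of_check (c := ⟨569, ⟨4, 8, 14, 9⟩⟩) (by decide +kernel))

theorem evF0_c₁m : Ev pieceF0.box pieceF0.bd Bd.c₁m := by
  rintro (_ | _)
  · exact (posBox_of_check (c := ⟨569, ⟨4, 8, 14, 9⟩⟩) (by decide +kernel))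
  · exact (posBox_of_check (c := ⟨569, ⟨4, 8, 14, 9⟩⟩) (by decide +kernel))

theorem evF0_c₂p : Ev pieceF0.box pieceF0.bd Bd.c₂p := by
  rintro (_ | _)
  · exact (posBox_of_check (c := ⟨553, ⟨4, 6, 13, 9⟩⟩) (by decide +kernel))
  · exact (posBox_of_check (c := ⟨553, ⟨4, 6, 13, 9⟩⟩) (by decide +kernel))

theorem evF0_ePos : Ev pieceF0.box pieceF0.bd Bd.ePos := by
  rintro (_ | _)
  · exact (posBox_of_check (c := ⟨473, ⟨2, 5, 11, 7⟩⟩) (by decide +kernel))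
  · exact (posBox_of_check (c := ⟨473, ⟨2, 5, 11, 7⟩⟩) (by decide +kernel))

theorem evF0_c₃pp : Ev pieceF0.box pieceF0.bd Bd.c₃pp := by
  rintro (_ | _)
  · exact (posBox_of_check (c := ⟨688, ⟨4, 8, 18, 11⟩⟩) (by decide +kernel))
  · exact (posBox_of_check (c := ⟨688, ⟨4, 8, 18, 11⟩⟩) (by decide +kernel))

theorem evF0_c₃mp : Ev pieceF0.box pieceF0.bd Bd.c₃mp := by
  rintro (_ | _)
  · exact (posBox_of_check (c := ⟨688, ⟨4, 8, 18, 11⟩⟩) (by decide +kernel))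
  · exact (posBox_of_check (c := ⟨688, ⟨4, 8, 18, 11⟩⟩) (by decide +kernel))

/-- The signs on the piece F0. -/
theorem signF0 : Signed pieceF0.box pieceF0.bd where
  g := evF0_g
  h := evF0_h
  n := evF0_n
  c₁p := .inl evF0_c₁p
  c₁m := .inl evF0_c₁m
  c₂p := .inl evF0_c₂p
  c₂m := .inr evF0_ePos
  c₃pp := .inl evF0_c₃pp
  c₃pm := .inr (.inr evF0_ePos)
  c₃mp := .inl evF0_c₃mp
  c₃mm := .inr (.inr evF0_ePos)

theorem highF0 : pieceF0.toFrame.Ev pieceF0.grp.mu pieceF0.X₁ :=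
  .inr (posBox_of_check (c := ⟨353, ⟨3, 3, 12, 3⟩⟩) (by decide +kernel))

theorem lowF0 : PosBox pieceF0.box pieceF0.sX0 :=
  (posBox_of_check (c := ⟨196, ⟨2, 0, 6, 2⟩⟩) (by decide +kernel))

theorem exitF0 : PosBox pieceF0.box pieceF0.toFrame.sLow :=
  (posBox_of_check (c := ⟨129, ⟨2, 0, 6, 0⟩⟩) (by decide +kernel))

end Vale.Agent.P100.Calib.Closed.Bot
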