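import Vale.Agent.P100.Calib.SlabBotSide
import Vale.Agent.P100.Calib.SlabBotData

/-!
# The checks of the piece F2
-/

namespace Vale.Agent.P100.Calib.Closed.Bot

open BoxPos

open Large (PosBox posBox_of_check)

local instance botCheckF2Add : Add Ex := ⟨Ex.add⟩
local instance botCheckF2Sub : Sub Ex := ⟨Ex.sub⟩
local instance botCheckF2Mul : Mul Ex := ⟨Ex.mul⟩

theorem evF2_g : Ev pieceF2.box pieceF2.bd (·.G) := by
  rintro (_ | _)
  · exact (posBox_of_check (c := ⟨431, ⟨2, 4, 10, 7⟩⟩) (by decide +kernel))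
  · exact (posBox_of_check (c := ⟨431, ⟨2, 4, 10, 7⟩⟩) (by decide +kernel))

theorem evF2_h : Ev pieceF2.box pieceF2.bd (·.H) := by
  rintro (_ | _)
  · exact (posBox_of_check (c := ⟨467, ⟨2, 5, 11, 7⟩⟩) (by decide +kernel))
  · exact (posBox_of_check (c := ⟨467, ⟨2, 5, 11, 7⟩⟩) (by decide +kernel))

theorem evF2_n : Ev pieceF2.box pieceF2.bd (·.N) := by
  rintro (_ | _)
  · exact (posBox_of_check (c := ⟨561, ⟨2, 7, 13, 7⟩⟩) (by decide +kernel))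
  · exact (posBox_of_check (c := ⟨561, ⟨2, 7, 13, 7⟩⟩) (by decide +kernel))

theorem evF2_c₁p : Ev pieceF2.box pieceF2.bd Bd.c₁p := by
  rintro (_ | _)
  · exact (posBox_of_check (c := ⟨569, ⟨4, 8, 14, 9⟩⟩) (by decide +kernel))
  · exact (posBox_of_check (c := ⟨569, ⟨4, 8, 14, 9⟩⟩) (by decide +kernel))

theorem evF2_c₁m : Ev pieceF2.box pieceF2.bd Bd.c₁m := by
  rintro (_ | _)
  · exact (posBox_of_check (c := ⟨569, ⟨4, 8, 14, 9⟩⟩) (by decide +kernel))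
  · exact (posBox_of_check (c := ⟨569, ⟨4, 8, 14, 9⟩⟩) (by decide +kernel))

theorem evF2_c₂p : Ev pieceF2.box pieceF2.bd Bd.c₂p := by
  rintro (_ | _)
  · exact (posBox_of_check (c := ⟨551, ⟨4, 6, 13, 9⟩⟩) (by decide +kernel))
  · exact (posBox_of_check (c := ⟨551, ⟨4, 6, 13, 9⟩⟩) (by decide +kernel))

theorem evF2_ePos : Ev pieceF2.box pieceF2.bd Bd.ePos := by
  rintro (_ | _)
  · exact (posBox_of_check (c := ⟨473, ⟨2, 5, 11, 7⟩⟩) (by decide +kernel))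
  · exact (posBox_of_check (c := ⟨473, ⟨2, 5, 11, 7⟩⟩) (by decide +kernel))

theorem evF2_c₃pp : Ev pieceF2.box pieceF2.bd Bd.c₃pp := by
  rintro (_ | _)
  · exact (posBox_of_check (c := ⟨687, ⟨4, 8, 18, 11⟩⟩) (by decide +kernel))
  · exact (posBox_of_check (c := ⟨687, ⟨4, 8, 18, 11⟩⟩) (by decide +kernel))

theorem evF2_c₃mp : Ev pieceF2.box pieceF2.bd Bd.c₃mp := by
  rintro (_ | _)
  · exact (posBox_of_check (c := ⟨687, ⟨4, 8, 18, 11⟩⟩) (by decide +kernel))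
  · exact (posBox_of_check (c := ⟨687, ⟨4, 8, 18, 11⟩⟩) (by decide +kernel))

/-- The signs on the piece F2. -/
theorem signF2 : Signed pieceF2.box pieceF2.bd where
  g := evF2_g
  h := evF2_h
  n := evF2_n
  c₁p := .inl evF2_c₁p
  c₁m := .inl evF2_c₁m
  c₂p := .inl evF2_c₂p
  c₂m := .inr evF2_ePos
  c₃pp := .inl evF2_c₃pp
  c₃pm := .inr (.inr evF2_ePos)
  c₃mp := .inl evF2_c₃mp
  c₃mm := .inr (.inr evF2_ePos)

theorem highF2 : pieceF2.toFrame.Ev pieceF2.grp.mu pieceF2.X₁ :=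
  .inr (posBox_of_check (c := ⟨353, ⟨3, 3, 12, 3⟩⟩) (by decide +kernel))

theorem lowF2 : PosBox pieceF2.box pieceF2.sX0 :=
  (posBox_of_check (c := ⟨196, ⟨2, 0, 6, 2⟩⟩) (by decide +kernel))

end Vale.Agent.P100.Calib.Closed.Bot
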