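import Vale.Agent.P100.Calib.SlabSignExpr

/-!
# Coefficients of the forms at `g = 1` in `p, e, k, w`

At `g = 1` each form is a quadratic in `(p, e)` and affine in `k` and `w`.
-/

set_option linter.unusedVariables false

namespace Vale.Agent.P100.Calib.Closed.Bot

open BoxPos

local instance botCoefAdd : Add Ex := ⟨Ex.add⟩
local instance botCoefMul : Mul Ex := ⟨Ex.mul⟩

/-- The coefficient of `1` in `TGG`. -/
def eG00 (a d v : Ex) : Ex :=
  (((((((((((((((cC (-80000) 1) * v) * v) * v) * v) * v) * d + (((((cC (-720000) 1) * v) * v) *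
    v) * v)) * d + ((((cC (-1280000) 1) * v) * v) * v)) * d + (((cC (-640000) 1) * v) * v)) * a
    + ((((((((((cC (-360000) 1) * v) * v) * v) * v) * v) * d + ((((((cC (-334400) 1) * v + (cC
    (-2760000) 1)) * v) * v) * v) * v)) * d + (((((cC (-2152000) 1) * v + (cC (-4640000) 1)) *
    v) * v) * v)) * d + ((((cC (-3635200) 1) * v + (cC (-2240000) 1)) * v) * v)) * d + (((cC
    (-1817600) 1) * v) * v))) * a + (((((((((((cC (-660000) 1) * v) * v) * v) * v) * v) * d +
    (((((((cC (-7056) 1) * v + (cC (-1163200) 1)) * v + (cC (-4260000) 1)) * v) * v) * v) * v))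
    * d + ((((((cC (138752) 1) * v + (cC (-6936000) 1)) * v + (cC (-6720000) 1)) * v) * v) * v))
    * d + (((((cC (766656) 1) * v + (cC (-11225600) 1)) * v + (cC (-3120000) 1)) * v) * v)) * d
    + ((((cC (1255808) 1) * v + (cC (-5452800) 1)) * v) * v)) * d + (((cC (627904) 1) * v) *
    v))) * a + ((((((((((((cC (-630000) 1) * v) * v) * v) * v) * v) * d + (((((((cC (-17640) 1)
    * v + (cC (-1566800) 1)) * v + (cC (-3390000) 1)) * v) * v) * v) * v)) * d + (((((((cC
    (-3528) 1) * v + (cC (346880) 1)) * v + (cC (-8474000) 1)) * v + (cC (-4960000) 1)) * v) *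
    v) * v)) * d + ((((((cC (8576) 1) * v + (cC (1996640) 1)) * v + (cC (-13014400) 1)) * v +
    (cC (-2200000) 1)) * v) * v)) * d + (((((cC (159328) 1) * v + (cC (3459520) 1)) * v + (cC
    (-6107200) 1)) * v) * v)) * d + ((((cC (301504) 1) * v + (cC (1969760) 1)) * v) * v)) * d +
    (((cC (150752) 1) * v + (cC (160000) 1)) * v))) * a + (((((((((((((cC (-330000) 1) * v) * v)
    * v) * v) * v) * d + (((((((cC (-14112) 1) * v + (cC (-1021600) 1)) * v + (cC (-1470000) 1))
    * v) * v) * v) * v)) * d + (((((((cC (-7056) 1) * v + (cC (264104) 1)) * v + (cC (-4868000)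
    1)) * v + (cC (-1960000) 1)) * v) * v) * v)) * d + ((((((cC (48752) 1) * v + (cC (1726312)
    1)) * v + (cC (-6972800) 1)) * v + (cC (-820000) 1)) * v) * v)) * d + ((((((cC (-5000) 1) *
    v + (cC (439856) 1)) * v + (cC (3244416) 1)) * v + (cC (-3126400) 1)) * v) * v)) * d +
    (((((cC (-5000) 1) * v + (cC (771808) 1)) * v + (cC (2102208) 1)) * v) * v)) * d + (((cC
    (433504) 1) * v + (cC (320000) 1)) * v)) * d + ((cC (52800) 1) * v))) * a + ((((((((((((((cC
    (-90000) 1) * v) * v) * v) * v) * v) * d + (((((((cC (-3528) 1) * v + (cC (-323600) 1)) * v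
    + (cC (-330000) 1)) * v) * v) * v) * v)) * d + (((((((cC (-3528) 1) * v + (cC (49276) 1)) *
    v + (cC (-1308000) 1)) * v + (cC (-390000) 1)) * v) * v) * v)) * d + ((((((cC (64276) 1) * v
    + (cC (532828) 1)) * v + (cC (-1688800) 1)) * v + (cC (-150000) 1)) * v) * v)) * d +
    ((((((cC (-6700) 1) * v + (cC (412628) 1)) * v + (cC (1167104) 1)) * v + (cC (-704400) 1)) *
    v) * v)) * d + ((((((cC (-2500) 1) * v + (cC (-11900) 1)) * v + (cC (681104) 1)) * v + (cC
    (883552) 1)) * v) * v)) * d + (((((cC (-2500) 1) * v + (cC (-25600) 1)) * v + (cC (411952)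
    1)) * v + (cC (200000) 1)) * v)) * d + (((cC (-34000) 1) * v + (cC (79200) 1)) * v)) * d +
    ((cC (-13600) 1) * v))) * a + (((((((((((((((cC (-10000) 1) * v) * v) * v) * v) * v) * d +
    ((((((cC (-40000) 1) * v + (cC (-30000) 1)) * v) * v) * v) * v)) * d + ((((((cC (-6700) 1) *
    v + (cC (-130000) 1)) * v + (cC (-30000) 1)) * v) * v) * v)) * d + ((((((cC (24100) 1) * v +
    (cC (34000) 1)) * v + (cC (-140000) 1)) * v + (cC (-10000) 1)) * v) * v)) * d + ((((((cC
    (-1700) 1) * v + (cC (127100) 1)) * v + (cC (121400) 1)) * v + (cC (-50000) 1)) * v) * v)) *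
    d + ((((((cC (-2500) 1) * v + (cC (-9400) 1)) * v + (cC (190800) 1)) * v + (cC (120700) 1))
    * v) * v)) * d + (((((cC (-2500) 1) * v + (cC (-40600) 1)) * v + (cC (104200) 1)) * v + (cC
    (40000) 1)) * v)) * d + (((cC (-66500) 1) * v + (cC (16400) 1)) * v)) * d + ((cC (-43600) 1)
    * v)) * d + (cC (-10000) 1))) * a + ((((((((((((cC (-1250) 1) * v) * v) * v) * v) * d +
    (((((cC (-3750) 1) * v + (cC (-2500) 1)) * v) * v) * v)) * d + (((((cC (-3750) 1) * v + (cC
    (-12500) 1)) * v + (cC (-1250) 1)) * v) * v)) * d + (((((cC (-1250) 1) * v + (cC (-17500)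
    1)) * v + (cC (-13750) 1)) * v) * v)) * d + ((((cC (-7500) 1) * v + (cC (-28750) 1)) * v +
    (cC (-5000) 1)) * v)) * d + (((cC (-16250) 1) * v + (cC (-20000) 1)) * v)) * d + ((cC
    (-15000) 1) * v + (cC (-5000) 1))) * d + (cC (-5000) 1))

/-- The coefficient of `p` in `TGG`. -/
def eG10 (a d v : Ex) : Ex :=
  (((((((((((((cC (40000) 1) * v) * v) * v) * v) * d + ((((cC (40000) 1) * v) * v) * v)) * d) *
    d) * a + (((((((((cC (160000) 1) * v) * v) * v) * v) * d + (((((cC (20000) 1) * v + (cC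
    (200000) 1)) * v) * v) * v)) * d + ((((cC (-20000) 1) * v + (cC (40000) 1)) * v) * v)) * d +
    (((cC (-80000) 1) * v) * v)) * d + ((cC (-40000) 1) * v))) * a + ((((((((((cC (250000) 1) *
    v) * v) * v) * v) * d + (((((cC (60000) 1) * v + (cC (370000) 1)) * v) * v) * v)) * d +
    (((((cC (14200) 1) * v + (cC (-60000) 1)) * v + (cC (120000) 1)) * v) * v)) * d + ((((cC
    (1000) 1) * v + (cC (-240000) 1)) * v) * v)) * d + (((cC (-26400) 1) * v + (cC (-120000) 1))
    * v)) * d + ((cC (-13200) 1) * v))) * a + (((((((((((cC (190000) 1) * v) * v) * v) * v) * d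
    + (((((cC (65000) 1) * v + (cC (320000) 1)) * v) * v) * v)) * d + (((((cC (30500) 1) * v +
    (cC (-65000) 1)) * v + (cC (130000) 1)) * v) * v)) * d + (((((cC (7100) 1) * v + (cC
    (-12500) 1)) * v + (cC (-260000) 1)) * v) * v)) * d + ((((cC (10500) 1) * v + (cC (-76000)
    1)) * v + (cC (-130000) 1)) * v)) * d + (((cC (6800) 1) * v + (cC (-33000) 1)) * v)) * d +
    ((cC (3400) 1) * v))) * a + ((((((((((((cC (70000) 1) * v) * v) * v) * v) * d + (((((cC
    (30000) 1) * v + (cC (130000) 1)) * v) * v) * v)) * d + (((((cC (18400) 1) * v + (cC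
    (-30000) 1)) * v + (cC (60000) 1)) * v) * v)) * d + (((((cC (14200) 1) * v + (cC (-25500)
    1)) * v + (cC (-120000) 1)) * v) * v)) * d + ((((cC (23500) 1) * v + (cC (-67800) 1)) * v +
    (cC (-60000) 1)) * v)) * d + (((cC (23600) 1) * v + (cC (-23900) 1)) * v)) * d + ((cC
    (19300) 1) * v)) * d + (cC (5000) 1))) * a + (((((((((((((cC (10000) 1) * v) * v) * v) * v)
    * d + (((((cC (5000) 1) * v + (cC (20000) 1)) * v) * v) * v)) * d + (((((cC (2100) 1) * v +
    (cC (-5000) 1)) * v + (cC (10000) 1)) * v) * v)) * d + (((((cC (7100) 1) * v + (cC (-10750)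
    1)) * v + (cC (-20000) 1)) * v) * v)) * d + ((((cC (15500) 1) * v + (cC (-15700) 1)) * v +
    (cC (-10000) 1)) * v)) * d + ((((cC (1250) 1) * v + (cC (24300) 1)) * v + (cC (-2850) 1)) *
    v)) * d + (((cC (5000) 1) * v + (cC (23400) 1)) * v)) * d + ((cC (6250) 1) * v + (cC (7500)
    1))) * d + (cC (2500) 1))) * a + ((((((((((cC (1250) 1) * v) * v) * v) * d + ((((cC (2500)
    1) * v + (cC (2500) 1)) * v) * v)) * d + ((((cC (1250) 1) * v + (cC (7500) 1)) * v + (cC
    (1250) 1)) * v)) * d + (((cC (5000) 1) * v + (cC (7500) 1)) * v)) * d + ((cC (6250) 1) * v +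
    (cC (2500) 1))) * d + (cC (2500) 1)) * d)

/-- The coefficient of `p ^ 2` in `TGG`. -/
def eG20 (a d v : Ex) : Ex :=
  (((((((((((cC (-5000) 1) * v) * v) * v) * d + (((cC (-5000) 1) * v) * v)) * d) * d) * a +
    ((((((((cC (-17500) 1) * v) * v) * v) * d + ((((cC (-2500) 1) * v + (cC (-17500) 1)) * v) *
    v)) * d + (((cC (-2500) 1) * v) * v)) * d) * d)) * a + (((((((((cC (-22500) 1) * v) * v) *
    v) * d + ((((cC (-7500) 1) * v + (cC (-22500) 1)) * v) * v)) * d + (((cC (-7500) 1) * v) *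
    v)) * d + (((cC (-625) 1) * v) * v)) * d + ((cC (-1250) 1) * v)) * d + (cC (-625) 1))) * a +
    ((((((((((cC (-12500) 1) * v) * v) * v) * d + ((((cC (-7500) 1) * v + (cC (-12500) 1)) * v)
    * v)) * d + (((cC (-7500) 1) * v) * v)) * d + (((cC (-3125) 2) * v) * v)) * d + (((cC (-625)
    2) * v + (cC (-3125) 1)) * v)) * d + ((cC (-625) 1) * v + (cC (-3125) 2))) * d + (cC (-625)
    2))) * a + (((((((((((cC (-2500) 1) * v) * v) * v) * d + ((((cC (-2500) 1) * v + (cC (-2500)
    1)) * v) * v)) * d + (((cC (-2500) 1) * v) * v)) * d + (((cC (-1250) 1) * v) * v)) * d +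
    (((cC (-625) 1) * v + (cC (-2500) 1)) * v)) * d + ((cC (-1250) 1) * v + (cC (-1250) 1))) * d
    + (cC (-625) 1)) * d)) * a + ((((((((cC (-625) 2) * v) * v) * d + (((cC (-625) 2) * v + (cC
    (-625) 1)) * v)) * d + ((cC (-625) 1) * v + (cC (-625) 2))) * d + (cC (-625) 2)) * d) * d)

theorem TGG_coef {ea ed ev : Ex} {o S t u a d v : ℝ} (ha : ea.val o S t u = a)
    (hd : ed.val o S t u = d) (hv : ev.val o S t u = v) (p e k w : ℝ) :
    TGG a d v 1 p w 0 e k =
      (eG00 ea ed ev).val o S t u +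
        (eG10 ea ed ev).val o S t u * p +
        (eG20 ea ed ev).val o S t u * p ^ 2 := by
  simp only [eG00, eG10, eG20, ex_add, ex_mul, Ex.val, ha, hd, hv,
    TGG, LGG, LGGc, LGGv, j1, gG, hG]
  push_cast
  ring

/-- The coefficient of `1` in `TEG`. -/
def eE00 (a d v : Ex) : Ex :=
  (((((((((((((cC (-10752) 1) * v) * v) * v) * v) * d + ((((cC (-17408) 1) * v) * v) * v)) * d +
    (((cC (-17408) 1) * v) * v)) * a + ((((((((cC (-43008) 1) * v) * v) * v) * v) * d + (((((cC
    (-4352) 1) * v + (cC (-105984) 1)) * v) * v) * v)) * d + ((((cC (-4608) 1) * v + (cC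
    (-163840) 1)) * v) * v)) * d + (((cC (-4608) 1) * v + (cC (-68608) 1)) * v))) * a +
    (((((((((cC (-67200) 1) * v) * v) * v) * v) * d + (((((cC (-18432) 1) * v + (cC (-224256)
    1)) * v) * v) * v)) * d + (((((cC (-20992) 1) * v + (cC (-71680) 1)) * v + (cC (-397824) 1))
    * v) * v)) * d + ((((cC (-77568) 1) * v + (cC (-155136) 1)) * v + (cC (-205824) 1)) * v)) *
    d + (((cC (-77568) 1) * v + (cC (-94208) 1)) * v))) * a + ((((((((((cC (-51072) 1) * v) * v)
    * v) * v) * d + (((((cC (-27584) 1) * v + (cC (-220032) 1)) * v) * v) * v)) * d + (((((cC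
    (-44672) 1) * v + (cC (-178816) 1)) * v + (cC (-414464) 1)) * v) * v)) * d + (((((cC (1600)
    1) * v + (cC (-147072) 1)) * v + (cC (-400256) 1)) * v + (cC (-229376) 1)) * v)) * d +
    ((((cC (12800) 1) * v + (cC (-100224) 1)) * v + (cC (-261120) 1)) * v)) * d + (((cC (12800)
    1) * v + (cC (62464) 1)) * v + (cC (-12800) 1)))) * a + (((((((((((cC (-18816) 1) * v) * v)
    * v) * v) * d + (((((cC (-17280) 1) * v + (cC (-105792) 1)) * v) * v) * v)) * d + (((((cC
    (-25568) 1) * v + (cC (-167424) 1)) * v + (cC (-205376) 1)) * v) * v)) * d + (((((cC (1600)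
    1) * v + (cC (-59840) 1)) * v + (cC (-372736) 1)) * v + (cC (-115712) 1)) * v)) * d +
    (((((cC (800) 1) * v + (cC (19200) 1)) * v + (cC (59456) 1)) * v + (cC (-252416) 1)) * v)) *
    d + ((((cC (3200) 1) * v + (cC (16000) 1)) * v + (cC (176128) 1)) * v + (cC (-25600) 1))) *
    d + (((cC (3200) 1) * v + (cC (-6400) 1)) * v + (cC (25600) 1)))) * a + ((((((((((((cC
    (-2688) 1) * v) * v) * v) * v) * d + (((((cC (-3776) 1) * v + (cC (-23040) 1)) * v) * v) *
    v)) * d + (((((cC (-1888) 1) * v + (cC (-63680) 1)) * v + (cC (-45504) 1)) * v) * v)) * d +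
    ((((cC (8064) 1) * v + (cC (-140608) 1)) * v + (cC (-25152) 1)) * v)) * d + (((((cC (800) 1)
    * v + (cC (10400) 1)) * v + (cC (90912) 1)) * v + (cC (-98304) 1)) * v)) * d + ((((cC (1600)
    1) * v + (cC (21600) 1)) * v + (cC (136064) 1)) * v + (cC (-16000) 1))) * d + ((((cC (-800)
    1) * v + (cC (-2400) 1)) * v + (cC (22400) 1)) * v + (cC (38400) 1))) * d + (((cC (-800) 1)
    * v + (cC (-4800) 1)) * v + (cC (16000) 1)))) * a + (((((((((((cC (-1600) 1) * v) * v) * v)
    * d + ((((cC (-8000) 1) * v + (cC (-3200) 1)) * v) * v)) * d + ((((cC (-1600) 1) * v + (cC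
    (-17600) 1)) * v + (cC (-1600) 1)) * v)) * d + ((((cC (4000) 1) * v + (cC (8800) 1)) * v +
    (cC (-12800) 1)) * v)) * d + ((((cC (-1600) 1) * v + (cC (18400) 1)) * v + (cC (22400) 1)) *
    v + (cC (-3200) 1))) * d + ((((cC (-800) 1) * v + (cC (-5600) 1)) * v + (cC (28800) 1)) * v
    + (cC (12800) 1))) * d + (((cC (-800) 1) * v + (cC (-4800) 1)) * v + (cC (16000) 1))) * d))
    * a

/-- The coefficient of `e` in `TEG`. -/
def eE01 (a d v : Ex) : Ex :=
  (((((((((cC (-51200) 1) * v) * v) * d + ((cC (-51200) 1) * v)) * a + ((((((cC (-5376) 1) * v +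
    (cC (-128000) 1)) * v) * v) * d + (((cC (93696) 1) * v + (cC (-128000) 1)) * v)) * d + ((cC
    (93696) 1) * v))) * a + (((((((cC (-10752) 1) * v + (cC (-115200) 1)) * v) * v) * d + (((cC
    (187392) 1) * v + (cC (-115200) 1)) * v)) * d + (((cC (-38400) 1) * v + (cC (187392) 1)) *
    v)) * d + ((cC (-38400) 1) * v))) * a + ((((((((cC (-6720) 1) * v + (cC (-44800) 1)) * v) *
    v) * d + (((cC (113920) 1) * v + (cC (-44800) 1)) * v)) * d + ((((cC (1344) 1) * v + (cC
    (-60800) 1)) * v + (cC (113920) 1)) * v)) * d + (((cC (2176) 1) * v + (cC (-67200) 1)) * v))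
    * d + ((cC (2176) 1) * v + (cC (-6400) 1)))) * a + (((((((((cC (-1344) 1) * v + (cC (-6400)
    1)) * v) * v) * d + (((cC (20224) 1) * v + (cC (-6400) 1)) * v)) * d + ((((cC (1344) 1) * v
    + (cC (-22400) 1)) * v + (cC (20224) 1)) * v)) * d + (((cC (2176) 1) * v + (cC (-28800) 1))
    * v)) * d + ((cC (2176) 1) * v + (cC (-6400) 1))) * d)) * a + ((((((((cC (-800) 1) * v) * v)
    * d + (((cC (-800) 1) * v + (cC (-800) 1)) * v)) * d + (((cC (800) 1) * v + (cC (-2400) 1))
    * v)) * d + (((cC (800) 1) * v + (cC (800) 1)) * v + (cC (-1600) 1))) * d + ((cC (2400) 1) *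
    v)) * d + (cC (1600) 1))) * a

/-- The coefficient of `p` in `TEG`. -/
def eE10 (a d v : Ex) : Ex :=
  (((((((((((cC (1088) 1) * v) * v) * v) * d + (((cC (17152) 1) * v) * v)) * d + ((cC (17152) 1)
    * v)) * a + (((((((cC (3008) 1) * v) * v) * v) * d + ((((cC (-6768) 1) * v + (cC (60032) 1))
    * v) * v)) * d + (((cC (-10272) 1) * v + (cC (64832) 1)) * v)) * d + ((cC (-10272) 1) * v +
    (cC (3200) 1)))) * a + ((((((((cC (2096) 1) * v) * v) * v) * d + ((((cC (-19504) 1) * v +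
    (cC (78784) 1)) * v) * v)) * d + ((((cC (-1536) 1) * v + (cC (-30816) 1)) * v + (cC (93184)
    1)) * v)) * d + (((cC (5856) 1) * v + (cC (-35616) 1)) * v + (cC (9600) 1))) * d + ((cC
    (5856) 1) * v + (cC (-3200) 1)))) * a + (((((((((cC (-880) 1) * v) * v) * v) * d + ((((cC
    (-18988) 1) * v + (cC (46880) 1)) * v) * v)) * d + ((((cC (-3240) 1) * v + (cC (-29552) 1))
    * v + (cC (62480) 1)) * v)) * d + ((((cC (-284) 1) * v + (cC (14440) 1)) * v + (cC (-41552)
    1)) * v + (cC (10400) 1))) * d + (((cC (2264) 1) * v + (cC (10440) 1)) * v + (cC (-8000)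
    1))) * d + ((cC (2264) 1) * v + (cC (-2800) 1)))) * a + ((((((((((cC (-1456) 1) * v) * v) *
    v) * d + ((((cC (-6536) 1) * v + (cC (11776) 1)) * v) * v)) * d + ((((cC (-1872) 1) * v +
    (cC (-7744) 1)) * v + (cC (18976) 1)) * v)) * d + ((((cC (-568) 1) * v + (cC (11112) 1)) * v
    + (cC (-17344) 1)) * v + (cC (4800) 1))) * d + (((cC (4328) 1) * v + (cC (3112) 1)) * v +
    (cC (-6400) 1))) * d + ((cC (3928) 1) * v + (cC (-5600) 1))) * d + (cC (-400) 1))) * a +
    (((((((((((cC (-400) 1) * v) * v) * v) * d + ((((cC (-284) 1) * v + (cC (800) 1)) * v) * v))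
    * d + ((((cC (-168) 1) * v + (cC (1214) 1)) * v + (cC (2000) 1)) * v)) * d + ((((cC (-284)
    1) * v + (cC (2378) 1)) * v + (cC (-1186) 1)) * v + (cC (800) 1))) * d + (((cC (1914) 1) * v
    + (cC (-1722) 1)) * v + (cC (-1600) 1))) * d + (((cC (-50) 1) * v + (cC (1314) 1)) * v + (cC
    (-2900) 1))) * d + ((cC (-150) 1) * v + (cC (-600) 1))) * d + (cC (-100) 1))) * a +
    (((((((((cC (-50) 1) * v) * v) * d + (((cC (-150) 1) * v + (cC (-50) 1)) * v)) * d + (((cC
    (-150) 1) * v + (cC (-250) 1)) * v)) * d + (((cC (-50) 1) * v + (cC (-350) 1)) * v + (cC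
    (-100) 1))) * d + ((cC (-150) 1) * v + (cC (-200) 1))) * d + (cC (-100) 1)) * d)

/-- The coefficient of `p e` in `TEG`. -/
def eE11 (a d v : Ex) : Ex :=
  ((((((cC (1600) 1) * v) * d + (cC (1600) 1)) * a + ((((cC (3200) 1) * v) * d + (cC (3200) 1))
    * d)) * a + (((((cC (2000) 1) * v) * d + (cC (2000) 1)) * d + ((cC (-400) 1) * v)) * d + (cC
    (-400) 1))) * a + ((((((cC (400) 1) * v) * d + (cC (400) 1)) * d + ((cC (-400) 1) * v)) * d
    + (cC (-400) 1)) * d)) * a

/-- The coefficient of `p ^ 2` in `TEG`. -/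
def eE20 (a d v : Ex) : Ex :=
  (((((((((cC (400) 1) * v) * v) * d + ((cC (-800) 1) * v)) * d + (cC (-800) 1)) * a + ((((((cC
    (1400) 1) * v) * v) * d + (((cC (200) 1) * v + (cC (-2800) 1)) * v)) * d + ((cC (-300) 1) *
    v + (cC (-2800) 1))) * d + (cC (-300) 1))) * a + (((((((cC (1800) 1) * v) * v) * d + (((cC
    (600) 1) * v + (cC (-3600) 1)) * v)) * d + ((cC (-900) 1) * v + (cC (-3600) 1))) * d + ((cC
    (100) 1) * v + (cC (-900) 1))) * d + (cC (100) 1))) * a + ((((((((cC (1000) 1) * v) * v) * d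
    + (((cC (600) 1) * v + (cC (-2000) 1)) * v)) * d + ((cC (-875) 1) * v + (cC (-2000) 1))) * d
    + ((cC (250) 1) * v + (cC (-875) 1))) * d + ((cC (25) 1) * v + (cC (250) 1))) * d + (cC (25)
    1))) * a + (((((((((cC (200) 1) * v) * v) * d + (((cC (200) 1) * v + (cC (-400) 1)) * v)) *
    d + ((cC (-250) 1) * v + (cC (-400) 1))) * d + ((cC (200) 1) * v + (cC (-250) 1))) * d +
    ((cC (50) 1) * v + (cC (200) 1))) * d + (cC (50) 1)) * d)) * a + (((((((cC (25) 1) * v) * d
    + ((cC (50) 1) * v + (cC (25) 1))) * d + ((cC (25) 1) * v + (cC (50) 1))) * d + (cC (25) 1))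
    * d) * d)

theorem TEG_coef {ea ed ev : Ex} {o S t u a d v : ℝ} (ha : ea.val o S t u = a)
    (hd : ed.val o S t u = d) (hv : ev.val o S t u = v) (p e k w : ℝ) :
    TEG a d v 1 p w 0 e k =
      (eE00 ea ed ev).val o S t u +
        (eE01 ea ed ev).val o S t u * e +
        (eE10 ea ed ev).val o S t u * p +
        (eE11 ea ed ev).val o S t u * (p * e) +
        (eE20 ea ed ev).val o S t u * p ^ 2 := by
  simp only [eE00, eE01, eE10, eE11, eE20, ex_add, ex_mul, Ex.val, ha, hd, hv,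
    TEG, LEG, LEG1, LEG1_000000_0, LEGc, LEGv, LEGw, j1, gE, gG, hE, hG]
  push_cast
  ring

/-- The coefficient of `w` in `TME`. -/
def eMw (a d v : Ex) : Ex :=
  ((((((cC (50) 1) * v) * v) * d + ((cC (100) 1) * v)) * a + (((((cC (125) 1) * v) * v) * d +
    (((cC (25) 1) * v + (cC (250) 1)) * v)) * d + ((cC (50) 1) * v))) * a + ((((((cC (100) 1) *
    v) * v) * d + (((cC (50) 1) * v + (cC (200) 1)) * v)) * d + ((cC (100) 1) * v)) * d)) * a +
    (((((((cC (25) 1) * v) * v) * d + (((cC (25) 1) * v + (cC (50) 1)) * v)) * d + ((cC (50) 1)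
    * v)) * d) * d)

/-- The coefficient of `k` in `TME`. -/
def eMk (a d v : Ex) : Ex :=
  ((((((cC (-800) 1) * v) * v) * v) * d + (((cC (-1600) 1) * v) * v)) * a + ((((((cC (-400) 1) *
    v) * v) * v) * d + ((((cC (400) 1) * v + (cC (-800) 1)) * v) * v)) * d + (((cC (800) 1) * v)
    * v))) * a

/-- The coefficient of `e` in `TME`. -/
def eM01 (a d v : Ex) : Ex :=
  ((((((cC (800) 1) * v) * v) * d + ((cC (2400) 1) * v)) * d + ((cC (-800) 1) * v + (cC (1600)
    1))) * a + ((((((cC (400) 1) * v) * v) * d + (((cC (-400) 1) * v + (cC (1200) 1)) * v)) * d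
    + ((cC (-1600) 1) * v + (cC (800) 1))) * d + ((cC (400) 1) * v + (cC (-800) 1)))) * a

/-- The coefficient of `p` in `TME`. -/
def eM10 (a d v : Ex) : Ex :=
  (((((((((cC (-84) 1) * v) * v) * v) * d + (((cC (-536) 1) * v) * v)) * d + ((cC (-536) 1) *
    v)) * a + (((((((cC (-210) 1) * v) * v) * v) * d + ((((cC (126) 1) * v + (cC (-1340) 1)) *
    v) * v)) * d + (((cC (504) 1) * v + (cC (-1340) 1)) * v)) * d + ((cC (504) 1) * v))) * a +
    ((((((((cC (-168) 1) * v) * v) * v) * d + ((((cC (252) 1) * v + (cC (-1122) 1)) * v) * v)) *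
    d + (((cC (1008) 1) * v + (cC (-1122) 1)) * v)) * d + (((cC (100) 1) * v + (cC (1008) 1)) *
    v)) * d + ((cC (50) 1) * v))) * a + (((((((((cC (-42) 1) * v) * v) * v) * d + ((((cC (126)
    1) * v + (cC (-343) 1)) * v) * v)) * d + (((cC (504) 1) * v + (cC (-343) 1)) * v)) * d +
    (((cC (150) 1) * v + (cC (504) 1)) * v)) * d + (((cC (25) 1) * v + (cC (75) 1)) * v)) * d))
    * a + ((((((((cC (-25) 1) * v) * v) * d + ((cC (-25) 1) * v)) * d + (((cC (50) 1) * v) * v))
    * d + (((cC (25) 1) * v + (cC (25) 1)) * v)) * d) * d)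

/-- The coefficient of `p e` in `TME`. -/
def eM11 (a d v : Ex) : Ex :=
  (((((cC (-400) 1) * v) * d + (cC (-400) 1)) * a + ((((cC (-600) 1) * v) * d + ((cC (200) 1) *
    v + (cC (-600) 1))) * d + (cC (200) 1))) * a + (((((cC (-200) 1) * v) * d + ((cC (200) 1) *
    v + (cC (-200) 1))) * d + (cC (200) 1)) * d)) * a

theorem TME_coef {ea ed ev : Ex} {o S t u a d v : ℝ} (ha : ea.val o S t u = a)
    (hd : ed.val o S t u = d) (hv : ev.val o S t u = v) (p e k w : ℝ) :
    TME a d v 1 p w e k =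
      (eMw ea ed ev).val o S t u * w +
        (eMk ea ed ev).val o S t u * k +
        (eM01 ea ed ev).val o S t u * e +
        (eM10 ea ed ev).val o S t u * p +
        (eM11 ea ed ev).val o S t u * (p * e) := by
  simp only [eMw, eMk, eM01, eM10, eM11, ex_add, ex_mul, Ex.val, ha, hd, hv,
    TME, TME_010000_0, TME_010000_1]
  push_cast
  ring

/-- The coefficient of `1` in `TMG`. -/
def eN00 (a d v : Ex) : Ex :=
  ((((((((((((((((cC (-112896) 1) * v) * v) * v) * v) * v) * v) * d + ((((((cC (-1760768) 1) *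
    v) * v) * v) * v) * v)) * d + (((((cC (-6357504) 1) * v) * v) * v) * v)) * d + ((((cC
    (-9193472) 1) * v) * v) * v)) * d + (((cC (-4596736) 1) * v) * v)) * a + ((((((((((((cC
    (-338688) 1) * v) * v) * v) * v) * v) * v) * d + (((((((cC (134400) 1) * v + (cC (-4002304)
    1)) * v) * v) * v) * v) * v)) * d + ((((((cC (-268800) 1) * v + (cC (-15232512) 1)) * v) *
    v) * v) * v)) * d + (((((cC (-5414400) 1) * v + (cC (-25020416) 1)) * v) * v) * v)) * d +
    ((((cC (-10291200) 1) * v + (cC (-13790208) 1)) * v) * v)) * d + (((cC (-5145600) 1) * v) *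
    v))) * a + (((((((((((((cC (-338688) 1) * v) * v) * v) * v) * v) * v) * d + (((((((cC
    (268800) 1) * v + (cC (-3576704) 1)) * v) * v) * v) * v) * v)) * d + (((((((cC (-40000) 1) *
    v + (cC (-192000) 1)) * v + (cC (-16944512) 1)) * v) * v) * v) * v)) * d + ((((((cC
    (-425600) 1) * v + (cC (-9120000) 1)) * v + (cC (-33135616) 1)) * v) * v) * v)) * d +
    (((((cC (272000) 1) * v + (cC (-14208000) 1)) * v + (cC (-19767808) 1)) * v) * v)) * d +
    ((((cC (1395200) 1) * v) * v) * v)) * d + (((cC (697600) 1) * v + (cC (5145600) 1)) * v))) *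
    a + ((((((((((((((cC (-112896) 1) * v) * v) * v) * v) * v) * v) * d + (((((((cC (134400) 1)
    * v + (cC (-2189568) 1)) * v) * v) * v) * v) * v)) * d + (((((((cC (-40000) 1) * v + (cC
    (502400) 1)) * v + (cC (-13621504) 1)) * v) * v) * v) * v)) * d + ((((((cC (-451200) 1) * v
    + (cC (-2396800) 1)) * v + (cC (-27983872) 1)) * v) * v) * v)) * d + ((((((cC (80000) 1) * v
    + (cC (1024000) 1)) * v + (cC (1497600) 1)) * v + (cC (-16551936) 1)) * v) * v)) * d +
    (((((cC (560000) 1) * v + (cC (1510400) 1)) * v + (cC (14956800) 1)) * v) * v)) * d + ((((cC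
    (960000) 1) * v + (cC (-1004800) 1)) * v + (cC (10291200) 1)) * v)) * d + (((cC (480000) 1)
    * v + (cC (-960000) 1)) * v))) * a + (((((((((((((cC (-854400) 1) * v) * v) * v) * v) * v) *
    d + ((((((cC (425600) 1) * v + (cC (-5592000) 1)) * v) * v) * v) * v)) * d + ((((((cC
    (-25600) 1) * v + (cC (1228800) 1)) * v + (cC (-10755200) 1)) * v) * v) * v)) * d + ((((((cC
    (80000) 1) * v + (cC (632000) 1)) * v + (cC (5814400) 1)) * v + (cC (-6017600) 1)) * v) *
    v)) * d + (((((cC (800000) 1) * v + (cC (-1004800) 1)) * v + (cC (10771200) 1)) * v) * v)) *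
    d + (((((cC (-40000) 1) * v + (cC (1680000) 1)) * v + (cC (-3542400) 1)) * v + (cC (5625600)
    1)) * v)) * d + ((((cC (-80000) 1) * v + (cC (1120000) 1)) * v + (cC (-1920000) 1)) * v)) *
    d + (((cC (-40000) 1) * v + (cC (160000) 1)) * v + (cC (-160000) 1)))) * a + ((((((((((((cC
    (-40000) 1) * v) * v) * v) * v) * d + (((((cC (-80000) 1) * v + (cC (-80000) 1)) * v) * v) *
    v)) * d + (((((cC (-120000) 1) * v + (cC (400000) 1)) * v + (cC (-40000) 1)) * v) * v)) * d
    + (((((cC (240000) 1) * v + (cC (-1120000) 1)) * v + (cC (960000) 1)) * v) * v)) * d +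
    (((((cC (-40000) 1) * v + (cC (720000) 1)) * v + (cC (-1840000) 1)) * v + (cC (480000) 1)) *
    v)) * d + ((((cC (-80000) 1) * v + (cC (640000) 1)) * v + (cC (-960000) 1)) * v)) * d +
    (((cC (-40000) 1) * v + (cC (160000) 1)) * v + (cC (-160000) 1))) * d)) * a

/-- The coefficient of `w` in `TMG`. -/
def eNw (a d v : Ex) : Ex :=
  ((((((((((cC (-160000) 1) * v) * v) * v) * d + (((cC (-480000) 1) * v) * v)) * d + ((cC
    (-320000) 1) * v)) * a + (((((((cC (-560000) 1) * v) * v) * v) * d + ((((cC (80000) 1) * v +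
    (cC (-1680000) 1)) * v) * v)) * d + (((cC (240000) 1) * v + (cC (-1120000) 1)) * v)) * d +
    ((cC (160000) 1) * v))) * a + ((((((((cC (-720000) 1) * v) * v) * v) * d + ((((cC (240000)
    1) * v + (cC (-2160000) 1)) * v) * v)) * d + (((cC (720000) 1) * v + (cC (-1440000) 1)) *
    v)) * d + ((cC (480000) 1) * v)) * d)) * a + (((((((((cC (-400000) 1) * v) * v) * v) * d +
    ((((cC (240000) 1) * v + (cC (-1200000) 1)) * v) * v)) * d + (((cC (720000) 1) * v + (cC
    (-800000) 1)) * v)) * d + ((cC (480000) 1) * v)) * d) * d)) * a + ((((((((((cC (-80000) 1) *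
    v) * v) * v) * d + ((((cC (80000) 1) * v + (cC (-240000) 1)) * v) * v)) * d + (((cC (240000)
    1) * v + (cC (-160000) 1)) * v)) * d + ((cC (160000) 1) * v)) * d) * d) * d)) * a

/-- The coefficient of `k` in `TMG`. -/
def eNk (a d v : Ex) : Ex :=
  ((((((((((cC (2560000) 1) * v) * v) * v) * v) * d + ((((cC (7680000) 1) * v) * v) * v)) * d +
    (((cC (5120000) 1) * v) * v)) * a + ((((((((cC (3840000) 1) * v) * v) * v) * v) * d +
    (((((cC (-1280000) 1) * v + (cC (11520000) 1)) * v) * v) * v)) * d + ((((cC (-3840000) 1) *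
    v + (cC (7680000) 1)) * v) * v)) * d + (((cC (-2560000) 1) * v) * v))) * a + (((((((((cC
    (1280000) 1) * v) * v) * v) * v) * d + (((((cC (-1280000) 1) * v + (cC (3840000) 1)) * v) *
    v) * v)) * d + ((((cC (-3840000) 1) * v + (cC (2560000) 1)) * v) * v)) * d + (((cC
    (-2560000) 1) * v) * v)) * d)) * a) * a

/-- The coefficient of `e` in `TMG`. -/
def eN01 (a d v : Ex) : Ex :=
  ((((((((((((cC (640000) 1) * v) * v) * v) * v) * d + ((((cC (-4480000) 1) * v) * v) * v)) * d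
    + (((cC (-10240000) 1) * v) * v)) * d + ((cC (-5120000) 1) * v)) * a + (((((((((cC (640000)
    1) * v) * v) * v) * v) * d + (((((cC (-640000) 1) * v + (cC (-10880000) 1)) * v) * v) * v))
    * d + ((((cC (1920000) 1) * v + (cC (-21760000) 1)) * v) * v)) * d + (((cC (7680000) 1) * v
    + (cC (-10240000) 1)) * v)) * d + ((cC (5120000) 1) * v))) * a + ((((((((((cC (-160000) 1) *
    v) * v) * v) * v) * d + (((((cC (-640000) 1) * v + (cC (-8480000) 1)) * v) * v) * v)) * d +
    (((((cC (160000) 1) * v + (cC (3840000) 1)) * v + (cC (-14720000) 1)) * v) * v)) * d +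
    ((((cC (160000) 1) * v + (cC (12160000) 1)) * v + (cC (-6400000) 1)) * v)) * d + (((cC
    (-1280000) 1) * v + (cC (7680000) 1)) * v)) * d + ((cC (-1280000) 1) * v))) * a +
    (((((((((((cC (-160000) 1) * v) * v) * v) * v) * d + ((((cC (-2080000) 1) * v) * v) * v)) *
    d + (((((cC (160000) 1) * v + (cC (1920000) 1)) * v + (cC (-3200000) 1)) * v) * v)) * d +
    ((((cC (160000) 1) * v + (cC (4480000) 1)) * v + (cC (-1280000) 1)) * v)) * d + (((cC
    (-1280000) 1) * v + (cC (2560000) 1)) * v)) * d + ((cC (-1280000) 1) * v)) * d)) * a) * a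

/-- The coefficient of `e ^ 2` in `TMG`. -/
def eN02 (a d v : Ex) : Ex :=
  ((((((((((cC (-320000) 1) * v) * v) * v) * d + (((cC (-320000) 1) * v) * v)) * d) * d) * a +
    ((((((((cC (-320000) 1) * v) * v) * v) * d + ((((cC (320000) 1) * v + (cC (-320000) 1)) * v)
    * v)) * d + (((cC (320000) 1) * v) * v)) * d) * d)) * a + (((((((((cC (-80000) 1) * v) * v)
    * v) * d + ((((cC (160000) 1) * v + (cC (-80000) 1)) * v) * v)) * d + ((((cC (-80000) 1) * v
    + (cC (160000) 1)) * v) * v)) * d + (((cC (-80000) 1) * v) * v)) * d) * d)) * a) * a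

/-- The coefficient of `p` in `TMG`. -/
def eN10 (a d v : Ex) : Ex :=
  (((((((((((((cC (-160000) 1) * v) * v) * v) * v) * d + ((((cC (-160000) 1) * v) * v) * v)) *
    d) * d) * a + ((((((((((cC (-33600) 1) * v + (cC (-640000) 1)) * v) * v) * v) * v) * d +
    (((((cC (-216000) 1) * v + (cC (-800000) 1)) * v) * v) * v)) * d + ((((cC (-1182400) 1) * v
    + (cC (-160000) 1)) * v) * v)) * d + (((cC (-1932800) 1) * v) * v)) * d + ((cC (-966400) 1)
    * v))) * a + (((((((((((cC (-100800) 1) * v + (cC (-1000000) 1)) * v) * v) * v) * v) * d +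
    ((((((cC (20000) 1) * v + (cC (-728000) 1)) * v + (cC (-1480000) 1)) * v) * v) * v)) * d +
    (((((cC (-160000) 1) * v + (cC (-3787200) 1)) * v + (cC (-480000) 1)) * v) * v)) * d +
    ((((cC (-400000) 1) * v + (cC (-5958400) 1)) * v) * v)) * d + (((cC (-320000) 1) * v + (cC
    (-2899200) 1)) * v)) * d + ((cC (-80000) 1) * v))) * a + ((((((((((((cC (-100800) 1) * v +
    (cC (-760000) 1)) * v) * v) * v) * v) * d + ((((((cC (40000) 1) * v + (cC (-818000) 1)) * v
    + (cC (-1280000) 1)) * v) * v) * v)) * d + (((((cC (-280000) 1) * v + (cC (-4157200) 1)) * v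
    + (cC (-520000) 1)) * v) * v)) * d + (((((cC (-50000) 1) * v + (cC (-540000) 1)) * v + (cC
    (-6278400) 1)) * v) * v)) * d + ((((cC (70000) 1) * v + (cC (-360000) 1)) * v + (cC
    (-2939200) 1)) * v)) * d + (((cC (160000) 1) * v) * v)) * d + ((cC (40000) 1) * v + (cC
    (80000) 1)))) * a + (((((((((((((cC (-33600) 1) * v + (cC (-280000) 1)) * v) * v) * v) * v)
    * d + ((((((cC (20000) 1) * v + (cC (-316000) 1)) * v + (cC (-520000) 1)) * v) * v) * v)) *
    d + (((((cC (-80000) 1) * v + (cC (-1682400) 1)) * v + (cC (-240000) 1)) * v) * v)) * d +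
    (((((cC (-100000) 1) * v + (cC (120000) 1)) * v + (cC (-2412800) 1)) * v) * v)) * d + ((((cC
    (140000) 1) * v + (cC (240000) 1)) * v + (cC (-1046400) 1)) * v)) * d + (((cC (320000) 1) *
    v + (cC (240000) 1)) * v)) * d + ((cC (80000) 1) * v + (cC (160000) 1))) * d)) * a +
    (((((((((((((cC (-40000) 1) * v) * v) * v) * v) * d + (((((cC (-10000) 1) * v + (cC (-80000)
    1)) * v) * v) * v)) * d + (((((cC (40000) 1) * v + (cC (-130000) 1)) * v + (cC (-40000) 1))
    * v) * v)) * d + (((((cC (-50000) 1) * v + (cC (260000) 1)) * v + (cC (-160000) 1)) * v) *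
    v)) * d + ((((cC (70000) 1) * v + (cC (280000) 1)) * v + (cC (-40000) 1)) * v)) * d + (((cC
    (160000) 1) * v + (cC (160000) 1)) * v)) * d + ((cC (40000) 1) * v + (cC (80000) 1))) * d) *
    d)) * a

/-- The coefficient of `p e` in `TMG`. -/
def eN11 (a d v : Ex) : Ex :=
  ((((((((((cC (-40000) 1) * v) * v) * v) * d + (((cC (-40000) 1) * v) * v)) * d) * d) * a +
    ((((((((cC (-80000) 1) * v) * v) * v) * d + (((cC (-80000) 1) * v) * v)) * d) * d) * d)) * a
    + (((((((((cC (-50000) 1) * v) * v) * v) * d + (((cC (-50000) 1) * v) * v)) * d + ((((cC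
    (10000) 1) * v) * v) * v)) * d + (((cC (10000) 1) * v) * v)) * d) * d)) * a + ((((((((((cC
    (-10000) 1) * v) * v) * v) * d + (((cC (-10000) 1) * v) * v)) * d + ((((cC (10000) 1) * v) *
    v) * v)) * d + (((cC (10000) 1) * v) * v)) * d) * d) * d)) * a

/-- The coefficient of `p ^ 2` in `TMG`. -/
def eN20 (a d v : Ex) : Ex :=
  ((((((((((((cC (-2500) 1) * v) * v) * v) * v) * d + ((((cC (8750) 1) * v) * v) * v)) * d +
    (((cC (-1250) 1) * v) * v)) * d + ((cC (-20000) 1) * v)) * d + (cC (-10000) 1)) * a +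
    ((((((((((cC (-7500) 1) * v) * v) * v) * v) * d + ((((cC (26250) 1) * v) * v) * v)) * d +
    ((((cC (-1250) 1) * v + (cC (-3750) 1)) * v) * v)) * d + (((cC (-1250) 1) * v + (cC (-60000)
    1)) * v)) * d + (cC (-30000) 1)) * d)) * a + (((((((((((cC (-7500) 1) * v) * v) * v) * v) *
    d + ((((cC (51875) 2) * v) * v) * v)) * d + ((((cC (-3125) 1) * v + (cC (-8125) 2)) * v) *
    v)) * d + ((((cC (-625) 2) * v + (cC (-3125) 1)) * v + (cC (-60000) 1)) * v)) * d + (((cC
    (-625) 2) * v) * v + (cC (-30000) 1))) * d) * d)) * a + ((((((((((((cC (-2500) 1) * v) * v)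
    * v) * v) * d + ((((cC (8125) 1) * v) * v) * v)) * d + ((((cC (-2500) 1) * v + (cC (-1875)
    1)) * v) * v)) * d + ((((cC (-625) 1) * v + (cC (-2500) 1)) * v + (cC (-20000) 1)) * v)) * d
    + (((cC (-625) 1) * v) * v + (cC (-10000) 1))) * d) * d) * d)) * a + (((((((((((cC (-625) 2)
    * v) * v) * v) * d + ((((cC (-625) 1) * v + (cC (-625) 2)) * v) * v)) * d + ((((cC (-625) 2)
    * v + (cC (-625) 1)) * v) * v)) * d + (((cC (-625) 2) * v) * v)) * d) * d) * d) * d)

theorem TMG_coef {ea ed ev : Ex} {o S t u a d v : ℝ} (ha : ea.val o S t u = a)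
    (hd : ed.val o S t u = d) (hv : ev.val o S t u = v) (p e k w : ℝ) :
    TMG a d v 1 p w 0 e k =
      (eN00 ea ed ev).val o S t u +
        (eNw ea ed ev).val o S t u * w +
        (eNk ea ed ev).val o S t u * k +
        (eN01 ea ed ev).val o S t u * e +
        (eN02 ea ed ev).val o S t u * e ^ 2 +
        (eN10 ea ed ev).val o S t u * p +
        (eN11 ea ed ev).val o S t u * (p * e) +
        (eN20 ea ed ev).val o S t u * p ^ 2 := by
  simp only [eN00, eNw, eNk, eN01, eN02, eN10, eN11, eN20, ex_add, ex_mul, Ex.val, ha, hd, hv,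
    TMG, LMG, LMG1, LMG1_000000_0, LMG1_000000_1, LMGc, LMGc_000000_0, LMGc_000000_1, LMGv, LMGw, gramEE, gramMG, j1, gM, gE, gG, hM, hE, hG]
  push_cast
  ring

/-- The coefficient of `1` in `TA`. -/
def eA00 (a d v : Ex) : Ex :=
  (((((((((((((((((cC (-225792) 1) * v) * v) * v) * v) * v) * v) * d + ((((((cC (-3521536) 1) *
    v) * v) * v) * v) * v)) * d + (((((cC (-12715008) 1) * v) * v) * v) * v)) * d + ((((cC
    (-18386944) 1) * v) * v) * v)) * d + (((cC (-9193472) 1) * v) * v)) * a + ((((((((((((cC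
    (-790272) 1) * v) * v) * v) * v) * v) * v) * d + (((((((cC (155904) 1) * v + (cC (-12325376)
    1)) * v) * v) * v) * v) * v)) * d + ((((((cC (-1223168) 1) * v + (cC (-44502528) 1)) * v) *
    v) * v) * v)) * d + (((((cC (-9250304) 1) * v + (cC (-64354304) 1)) * v) * v) * v)) * d +
    ((((cC (-16054272) 1) * v + (cC (-32177152) 1)) * v) * v)) * d + (((cC (-8027136) 1) * v) *
    v))) * a + (((((((((((((cC (-1016064) 1) * v) * v) * v) * v) * v) * v) * d + (((((((cC
    (333312) 1) * v + (cC (-16275712) 1)) * v) * v) * v) * v) * v)) * d + (((((((cC (54400) 1) *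
    v + (cC (-5064704) 1)) * v + (cC (-59361536) 1)) * v) * v) * v) * v)) * d + ((((((cC
    (-1657600) 1) * v + (cC (-32845312) 1)) * v + (cC (-86171648) 1)) * v) * v) * v)) * d +
    (((((cC (-8838400) 1) * v + (cC (-57276416) 1)) * v + (cC (-43085824) 1)) * v) * v)) * d +
    ((((cC (-14361600) 1) * v + (cC (-32657408) 1)) * v) * v)) * d + (((cC (-7180800) 1) * v +
    (cC (-3430400) 1)) * v))) * a + ((((((((((((((cC (-564480) 1) * v) * v) * v) * v) * v) * v)
    * d + (((((((cC (198912) 1) * v + (cC (-9875840) 1)) * v) * v) * v) * v) * v)) * d +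
    (((((((cC (148800) 1) * v + (cC (-7077504) 1)) * v + (cC (-37147520) 1)) * v) * v) * v) *
    v)) * d + (((((((cC (-40000) 1) * v + (cC (-2966400) 1)) * v + (cC (-42442112) 1)) * v + (cC
    (-54543360) 1)) * v) * v) * v)) * d + ((((((cC (-265600) 1) * v + (cC (-12956800) 1)) * v +
    (cC (-75017216) 1)) * v + (cC (-27271680) 1)) * v) * v)) * d + (((((cC (112000) 1) * v + (cC
    (-10867200) 1)) * v + (cC (-47556608) 1)) * v) * v)) * d + ((((cC (755200) 1) * v + (cC
    (10464000) 1)) * v + (cC (-8576000) 1)) * v)) * d + (((cC (377600) 1) * v + (cC (11366400)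
    1)) * v))) * a + (((((((((((((((cC (-112896) 1) * v) * v) * v) * v) * v) * v) * d +
    (((((((cC (21504) 1) * v + (cC (-2618368) 1)) * v) * v) * v) * v) * v)) * d + (((((((cC
    (94400) 1) * v + (cC (-3933568) 1)) * v + (cC (-10725504) 1)) * v) * v) * v) * v)) * d +
    (((((((cC (-40000) 1) * v + (cC (-1280000) 1)) * v + (cC (-23749504) 1)) * v + (cC
    (-16214272) 1)) * v) * v) * v)) * d + ((((((cC (-211200) 1) * v + (cC (-838400) 1)) * v +
    (cC (-43222272) 1)) * v + (cC (-8107136) 1)) * v) * v)) * d + ((((((cC (80000) 1) * v + (cC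
    (1584000) 1)) * v + (cC (18790400) 1)) * v + (cC (-30049536) 1)) * v) * v)) * d + (((((cC
    (480000) 1) * v + (cC (4550400) 1)) * v + (cC (40390400) 1)) * v + (cC (-7180800) 1)) * v))
    * d + ((((cC (800000) 1) * v + (cC (3955200) 1)) * v + (cC (21772800) 1)) * v)) * d + (((cC
    (400000) 1) * v + (cC (1280000) 1)) * v + (cC (-320000) 1)))) * a + ((((((((((((((cC
    (-214400) 1) * v) * v) * v) * v) * v) * d + ((((((cC (-697600) 1) * v + (cC (-1192000) 1)) *
    v) * v) * v) * v)) * d + ((((((cC (28800) 1) * v + (cC (-5182400) 1)) * v + (cC (-1955200)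
    1)) * v) * v) * v)) * d + ((((((cC (54400) 1) * v + (cC (3400000) 1)) * v + (cC (-10067200)
    1)) * v + (cC (-977600) 1)) * v) * v)) * d + ((((((cC (80000) 1) * v + (cC (1752000) 1)) * v
    + (cC (16176000) 1)) * v + (cC (-7643200) 1)) * v) * v)) * d + (((((cC (360000) 1) * v + (cC
    (4675200) 1)) * v + (cC (24105600) 1)) * v + (cC (-2195200) 1)) * v)) * d + (((((cC (-40000)
    1) * v + (cC (160000) 1)) * v + (cC (4457600) 1)) * v + (cC (10886400) 1)) * v)) * d +
    ((((cC (-80000) 1) * v + (cC (-600000) 1)) * v + (cC (1440000) 1)) * v + (cC (-480000) 1)))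
    * d + (((cC (-40000) 1) * v + (cC (-480000) 1)) * v + (cC (-160000) 1)))) * a +
    (((((((((((((cC (-40000) 1) * v) * v) * v) * v) * d + (((((cC (-280000) 1) * v + (cC
    (-80000) 1)) * v) * v) * v)) * d + (((((cC (120000) 1) * v + (cC (-640000) 1)) * v + (cC
    (-40000) 1)) * v) * v)) * d + (((((cC (280000) 1) * v + (cC (880000) 1)) * v + (cC (-520000)
    1)) * v) * v)) * d + (((((cC (-120000) 1) * v + (cC (880000) 1)) * v + (cC (1360000) 1)) * v
    + (cC (-160000) 1)) * v)) * d + (((((cC (-40000) 1) * v + (cC (-640000) 1)) * v + (cC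
    (880000) 1)) * v + (cC (480000) 1)) * v)) * d + ((((cC (-80000) 1) * v + (cC (-1000000) 1))
    * v + (cC (160000) 1)) * v + (cC (-160000) 1))) * d + (((cC (-40000) 1) * v + (cC (-480000)
    1)) * v + (cC (-160000) 1))) * d)) * a

/-- The coefficient of `w` in `TA`. -/
def eAw (a d v : Ex) : Ex :=
  ((((((((((cC (-160000) 1) * v) * v) * v) * d + (((cC (-480000) 1) * v) * v)) * d + ((cC
    (-320000) 1) * v)) * a + (((((((cC (-560000) 1) * v) * v) * v) * d + ((((cC (-80000) 1) * v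
    + (cC (-1680000) 1)) * v) * v)) * d + (((cC (-240000) 1) * v + (cC (-1120000) 1)) * v)) * d
    + ((cC (-160000) 1) * v))) * a + ((((((((cC (-720000) 1) * v) * v) * v) * d + ((((cC
    (-240000) 1) * v + (cC (-2160000) 1)) * v) * v)) * d + (((cC (-720000) 1) * v + (cC
    (-1440000) 1)) * v)) * d + ((cC (-480000) 1) * v)) * d)) * a + (((((((((cC (-400000) 1) * v)
    * v) * v) * d + ((((cC (-240000) 1) * v + (cC (-1200000) 1)) * v) * v)) * d + (((cC
    (-720000) 1) * v + (cC (-800000) 1)) * v)) * d + ((cC (-480000) 1) * v)) * d) * d)) * a +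
    ((((((((((cC (-80000) 1) * v) * v) * v) * d + ((((cC (-80000) 1) * v + (cC (-240000) 1)) *
    v) * v)) * d + (((cC (-240000) 1) * v + (cC (-160000) 1)) * v)) * d + ((cC (-160000) 1) *
    v)) * d) * d) * d)) * a

/-- The coefficient of `k` in `TA`. -/
def eAk (a d v : Ex) : Ex :=
  ((((((((((cC (2560000) 1) * v) * v) * v) * v) * d + ((((cC (7680000) 1) * v) * v) * v)) * d +
    (((cC (5120000) 1) * v) * v)) * a + ((((((((cC (3840000) 1) * v) * v) * v) * v) * d +
    (((((cC (-1280000) 1) * v + (cC (11520000) 1)) * v) * v) * v)) * d + ((((cC (-3840000) 1) *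
    v + (cC (7680000) 1)) * v) * v)) * d + (((cC (-2560000) 1) * v) * v))) * a + (((((((((cC
    (1280000) 1) * v) * v) * v) * v) * d + (((((cC (-1280000) 1) * v + (cC (3840000) 1)) * v) *
    v) * v)) * d + ((((cC (-3840000) 1) * v + (cC (2560000) 1)) * v) * v)) * d + (((cC
    (-2560000) 1) * v) * v)) * d)) * a) * a

/-- The coefficient of `e` in `TA`. -/
def eA01 (a d v : Ex) : Ex :=
  (((((((((((((cC (1280000) 1) * v) * v) * v) * v) * d + ((((cC (1280000) 1) * v) * v) * v)) *
    d) * d) * a + (((((((((cC (3200000) 1) * v) * v) * v) * v) * d + (((((cC (-4480000) 1) * v +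
    (cC (3200000) 1)) * v) * v) * v)) * d + ((((cC (-9600000) 1) * v) * v) * v)) * d + (((cC
    (-10240000) 1) * v) * v)) * d + ((cC (-5120000) 1) * v))) * a + ((((((((((cC (2880000) 1) *
    v) * v) * v) * v) * d + (((((cC (-8320000) 1) * v + (cC (2880000) 1)) * v) * v) * v)) * d +
    (((((cC (1600000) 1) * v + (cC (-17280000) 1)) * v) * v) * v)) * d + ((((cC (4160000) 1) * v
    + (cC (-19200000) 1)) * v) * v)) * d + (((cC (7680000) 1) * v + (cC (-10240000) 1)) * v)) *
    d + ((cC (5120000) 1) * v))) * a + (((((((((((cC (1120000) 1) * v) * v) * v) * v) * d +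
    (((((cC (-4640000) 1) * v + (cC (1120000) 1)) * v) * v) * v)) * d + (((((cC (2080000) 1) * v
    + (cC (-9120000) 1)) * v) * v) * v)) * d + (((((cC (160000) 1) * v + (cC (5280000) 1)) * v +
    (cC (-10880000) 1)) * v) * v)) * d + ((((cC (160000) 1) * v + (cC (10880000) 1)) * v + (cC
    (-6400000) 1)) * v)) * d + (((cC (-1280000) 1) * v + (cC (7680000) 1)) * v)) * d + ((cC
    (-1280000) 1) * v))) * a + ((((((((((((cC (160000) 1) * v) * v) * v) * v) * d + (((((cC
    (-800000) 1) * v + (cC (160000) 1)) * v) * v) * v)) * d + (((((cC (480000) 1) * v + (cC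
    (-1440000) 1)) * v) * v) * v)) * d + (((((cC (160000) 1) * v + (cC (1120000) 1)) * v + (cC
    (-1920000) 1)) * v) * v)) * d + ((((cC (160000) 1) * v + (cC (3200000) 1)) * v + (cC
    (-1280000) 1)) * v)) * d + (((cC (-1280000) 1) * v + (cC (2560000) 1)) * v)) * d + ((cC
    (-1280000) 1) * v)) * d)) * a) * a

/-- The coefficient of `e ^ 2` in `TA`. -/
def eA02 (a d v : Ex) : Ex :=
  (((((((((((cC (-640000) 1) * v) * v) * v) * d + (((cC (-640000) 1) * v) * v)) * d) * d) * a +
    ((((((((cC (-960000) 1) * v) * v) * v) * d + ((((cC (320000) 1) * v + (cC (-960000) 1)) * v)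
    * v)) * d + (((cC (320000) 1) * v) * v)) * d) * d)) * a + (((((((((cC (-480000) 1) * v) * v)
    * v) * d + ((((cC (320000) 1) * v + (cC (-480000) 1)) * v) * v)) * d + ((((cC (160000) 1) *
    v + (cC (320000) 1)) * v) * v)) * d + (((cC (160000) 1) * v) * v)) * d) * d)) * a +
    ((((((((((cC (-80000) 1) * v) * v) * v) * d + ((((cC (80000) 1) * v + (cC (-80000) 1)) * v)
    * v)) * d + ((((cC (80000) 1) * v + (cC (80000) 1)) * v) * v)) * d + ((((cC (-80000) 1) * v
    + (cC (80000) 1)) * v) * v)) * d + (((cC (-80000) 1) * v) * v)) * d) * d)) * a) * a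

/-- The coefficient of `p` in `TA`. -/
def eA10 (a d v : Ex) : Ex :=
  (((((((((((((((cC (-67200) 1) * v) * v) * v) * v) * v) * d + (((((cC (-374400) 1) * v) * v) *
    v) * v)) * d + ((((cC (483200) 1) * v) * v) * v)) * d + (((cC (1715200) 1) * v) * v)) * d +
    ((cC (857600) 1) * v)) * a + (((((((((((cC (-235200) 1) * v) * v) * v) * v) * v) * d +
    ((((((cC (140800) 1) * v + (cC (-1390400) 1)) * v) * v) * v) * v)) * d + (((((cC (-347200)
    1) * v + (cC (1451200) 1)) * v) * v) * v)) * d + ((((cC (-2868800) 1) * v + (cC (5843200)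
    1)) * v) * v)) * d + (((cC (-5043200) 1) * v + (cC (3001600) 1)) * v)) * d + ((cC (-2521600)
    1) * v))) * a + ((((((((((((cC (-302400) 1) * v) * v) * v) * v) * v) * d + ((((((cC (402400)
    1) * v + (cC (-1984800) 1)) * v) * v) * v) * v)) * d + ((((((cC (20000) 1) * v + (cC
    (-1081600) 1)) * v + (cC (1474400) 1)) * v) * v) * v)) * d + (((((cC (-180000) 1) * v + (cC
    (-8526400) 1)) * v + (cC (7398400) 1)) * v) * v)) * d + ((((cC (-660000) 1) * v + (cC
    (-14809600) 1)) * v + (cC (3939200) 1)) * v)) * d + (((cC (-800000) 1) * v + (cC (-7164800)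
    1)) * v)) * d + ((cC (-320000) 1) * v + (cC (160000) 1)))) * a + (((((((((((((cC (-168000)
    1) * v) * v) * v) * v) * v) * d + ((((((cC (382400) 1) * v + (cC (-1346000) 1)) * v) * v) *
    v) * v)) * d + ((((((cC (40000) 1) * v + (cC (-1211600) 1)) * v + (cC (478000) 1)) * v) * v)
    * v)) * d + (((((cC (-450000) 1) * v + (cC (-8636400) 1)) * v + (cC (4168000) 1)) * v) * v))
    * d + (((((cC (-50000) 1) * v + (cC (-1550000) 1)) * v + (cC (-14649600) 1)) * v + (cC
    (2344000) 1)) * v)) * d + ((((cC (-90000) 1) * v + (cC (-1800000) 1)) * v + (cC (-6724800)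
    1)) * v)) * d + ((cC (-600000) 1) * v + (cC (400000) 1))) * d + ((cC (40000) 1) * v + (cC
    (80000) 1)))) * a + ((((((((((((((cC (-33600) 1) * v) * v) * v) * v) * v) * d + ((((((cC
    (120800) 1) * v + (cC (-427200) 1)) * v) * v) * v) * v)) * d + ((((((cC (20000) 1) * v + (cC
    (-567200) 1)) * v + (cC (-78400) 1)) * v) * v) * v)) * d + (((((cC (-360000) 1) * v + (cC
    (-3168800) 1)) * v + (cC (937600) 1)) * v) * v)) * d + (((((cC (-100000) 1) * v + (cC
    (-1120000) 1)) * v + (cC (-5043200) 1)) * v + (cC (588800) 1)) * v)) * d + ((((cC (-180000)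
    1) * v + (cC (-1200000) 1)) * v + (cC (-2041600) 1)) * v)) * d + ((cC (-240000) 1) * v + (cC
    (320000) 1))) * d + ((cC (80000) 1) * v + (cC (160000) 1))) * d)) * a + (((((((((((((cC
    (-50000) 1) * v) * v) * v) * v) * d + (((((cC (-90000) 1) * v + (cC (-50000) 1)) * v) * v) *
    v)) * d + (((((cC (-90000) 1) * v + (cC (-190000) 1)) * v + (cC (40000) 1)) * v) * v)) * d +
    (((((cC (-50000) 1) * v + (cC (-230000) 1)) * v + (cC (-160000) 1)) * v + (cC (40000) 1)) *
    v)) * d + ((((cC (-90000) 1) * v + (cC (-200000) 1)) * v + (cC (40000) 1)) * v)) * d + ((cC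
    (40000) 1) * v + (cC (80000) 1))) * d + ((cC (40000) 1) * v + (cC (80000) 1))) * d) * d)) *
    a

/-- The coefficient of `p e` in `TA`. -/
def eA11 (a d v : Ex) : Ex :=
  (((((((((((cC (-80000) 1) * v) * v) * v) * d + (((cC (-80000) 1) * v) * v)) * d) * d) * a +
    ((((((((cC (-200000) 1) * v) * v) * v) * d + ((((cC (-40000) 1) * v + (cC (-200000) 1)) * v)
    * v)) * d + (((cC (-40000) 1) * v) * v)) * d) * d)) * a + (((((((((cC (-180000) 1) * v) * v)
    * v) * d + ((((cC (-80000) 1) * v + (cC (-180000) 1)) * v) * v)) * d + ((((cC (20000) 1) * v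
    + (cC (-80000) 1)) * v) * v)) * d + (((cC (20000) 1) * v) * v)) * d) * d)) * a +
    ((((((((((cC (-70000) 1) * v) * v) * v) * d + ((((cC (-50000) 1) * v + (cC (-70000) 1)) * v)
    * v)) * d + ((((cC (30000) 1) * v + (cC (-50000) 1)) * v) * v)) * d + ((((cC (10000) 1) * v
    + (cC (30000) 1)) * v) * v)) * d + (((cC (10000) 1) * v) * v)) * d) * d)) * a +
    (((((((((((cC (-10000) 1) * v) * v) * v) * d + ((((cC (-10000) 1) * v + (cC (-10000) 1)) *
    v) * v)) * d + ((((cC (10000) 1) * v + (cC (-10000) 1)) * v) * v)) * d + ((((cC (10000) 1) *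
    v + (cC (10000) 1)) * v) * v)) * d + (((cC (10000) 1) * v) * v)) * d) * d) * d)) * a

/-- The coefficient of `p ^ 2` in `TA`. -/
def eA20 (a d v : Ex) : Ex :=
  (((((((((((((cC (-5000) 1) * v) * v) * v) * v) * d + ((((cC (17500) 1) * v) * v) * v)) * d +
    (((cC (-2500) 1) * v) * v)) * d + ((cC (-40000) 1) * v)) * d + (cC (-20000) 1)) * a +
    ((((((((((cC (-17500) 1) * v) * v) * v) * v) * d + (((((cC (-2500) 1) * v + (cC (61250) 1))
    * v) * v) * v)) * d + ((((cC (6250) 1) * v + (cC (-8750) 1)) * v) * v)) * d + (((cC (-3750)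
    1) * v + (cC (-140000) 1)) * v)) * d + ((cC (-20000) 1) * v + (cC (-70000) 1))) * d + (cC
    (-10000) 1))) * a + (((((((((((cC (-22500) 1) * v) * v) * v) * v) * d + (((((cC (-7500) 1) *
    v + (cC (78125) 1)) * v) * v) * v)) * d + ((((cC (18750) 1) * v + (cC (-11875) 1)) * v) *
    v)) * d + ((((cC (-1875) 1) * v + (cC (-11250) 1)) * v + (cC (-180000) 1)) * v)) * d + (((cC
    (-1875) 1) * v + (cC (-60000) 1)) * v + (cC (-90000) 1))) * d + (cC (-30000) 1)) * d)) * a +
    ((((((((((((cC (-12500) 1) * v) * v) * v) * v) * d + (((((cC (-7500) 1) * v + (cC (84375)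
    2)) * v) * v) * v)) * d + ((((cC (35625) 2) * v + (cC (-15625) 2)) * v) * v)) * d + ((((cC
    (-9375) 2) * v + (cC (-24375) 2)) * v + (cC (-100000) 1)) * v)) * d + ((((cC (-625) 2) * v +
    (cC (-9375) 2)) * v + (cC (-60000) 1)) * v + (cC (-50000) 1))) * d + (((cC (-625) 2) * v) *
    v + (cC (-30000) 1))) * d) * d)) * a + (((((((((((((cC (-2500) 1) * v) * v) * v) * v) * d +
    (((((cC (-2500) 1) * v + (cC (7500) 1)) * v) * v) * v)) * d + ((((cC (4375) 1) * v + (cC
    (-2500) 1)) * v) * v)) * d + ((((cC (-3750) 1) * v + (cC (-5625) 1)) * v + (cC (-20000) 1))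
    * v)) * d + ((((cC (-625) 1) * v + (cC (-3750) 1)) * v + (cC (-20000) 1)) * v + (cC (-10000)
    1))) * d + (((cC (-625) 1) * v) * v + (cC (-10000) 1))) * d) * d) * d)) * a + ((((((((((((cC
    (-625) 2) * v) * v) * v) * d + ((((cC (-1875) 2) * v + (cC (-625) 2)) * v) * v)) * d +
    ((((cC (-1875) 2) * v + (cC (-1875) 2)) * v) * v)) * d + ((((cC (-625) 2) * v + (cC (-1875)
    2)) * v) * v)) * d + (((cC (-625) 2) * v) * v)) * d) * d) * d) * d)

theorem TA_coef {ea ed ev : Ex} {o S t u a d v : ℝ} (ha : ea.val o S t u = a)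
    (hd : ed.val o S t u = d) (hv : ev.val o S t u = v) (p e k w : ℝ) :
    TA a d v 1 p w 0 e k =
      (eA00 ea ed ev).val o S t u +
        (eAw ea ed ev).val o S t u * w +
        (eAk ea ed ev).val o S t u * k +
        (eA01 ea ed ev).val o S t u * e +
        (eA02 ea ed ev).val o S t u * e ^ 2 +
        (eA10 ea ed ev).val o S t u * p +
        (eA11 ea ed ev).val o S t u * (p * e) +
        (eA20 ea ed ev).val o S t u * p ^ 2 := by
  simp only [eA00, eAw, eAk, eA01, eA02, eA10, eA11, eA20, ex_add, ex_mul, Ex.val, ha, hd, hv,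
    TA, TEE, TMG, LEE, LEE1, LEEc, LEEc_000000_0, LEEc_000000_1, LEEc_110000_0, LEEc_110000_1, LEEv, LEEw, LMG, LMG1, LMG1_000000_0, LMG1_000000_1, LMGc, LMGc_000000_0, LMGc_000000_1, LMGv, LMGw, gramEE, gramMG, j1, gM, gE, gG, hM, hE, hG]
  push_cast
  ring

end Vale.Agent.P100.Calib.Closed.Bot
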