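import Vale.Agent.P100.Calib.SlabBotFit
import Vale.Agent.P100.Calib.SlabBotData

/-!
# The surrogates for `3.0 ≤ v ≤ 3.68`, `0.0 ≤ d ≤ 0.05` are within their errors
-/

namespace Vale.Agent.P100.Calib.Closed.Bot

open BoxPos

open Large (PosBox posBox_of_check posBox_join₂)

local instance botFitDAdd : Add Ex := ⟨Ex.add⟩
local instance botFitDSub : Sub Ex := ⟨Ex.sub⟩
local instance botFitDMul : Mul Ex := ⟨Ex.mul⟩

/-- The box of the surrogates. -/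
def boxD : Box := ⟨⟨0, 1, 1⟩, ⟨0, 4168, 1000000⟩, ⟨0, 50001, 1000000⟩, ⟨300000, 368001, 100000⟩⟩

theorem fitDA : T12.Fit boxD (exA' Ex.x₁ Ex.x₂ Ex.x₃) groupDA where
  c010 :=
    ⟨(posBox_of_check (c := ⟨609, ⟨0, 13, 15, 8⟩⟩) (by decide +kernel)),
      (posBox_of_check (c := ⟨609, ⟨0, 13, 15, 8⟩⟩) (by decide +kernel))⟩
  c100 :=
    ⟨(posBox_of_check (c := ⟨459, ⟨0, 11, 11, 5⟩⟩) (by decide +kernel)),
      (posBox_of_check (c := ⟨459, ⟨0, 11, 11, 5⟩⟩) (by decide +kernel))⟩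
  c101 :=
    ⟨(posBox_of_check (c := ⟨480, ⟨0, 11, 11, 6⟩⟩) (by decide +kernel)),
      (posBox_of_check (c := ⟨480, ⟨0, 11, 11, 6⟩⟩) (by decide +kernel))⟩
  c110 :=
    ⟨(posBox_of_check (c := ⟨562, ⟨0, 12, 14, 7⟩⟩) (by decide +kernel)),
      (posBox_of_check (c := ⟨562, ⟨0, 12, 14, 7⟩⟩) (by decide +kernel))⟩
  c111 :=
    ⟨(posBox_of_check (c := ⟨567, ⟨0, 12, 14, 7⟩⟩) (by decide +kernel)),
      (posBox_of_check (c := ⟨567, ⟨0, 12, 14, 7⟩⟩) (by decide +kernel))⟩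
  c120 :=
    ⟨(posBox_of_check (c := ⟨543, ⟨0, 12, 14, 6⟩⟩) (by decide +kernel)),
      (posBox_of_check (c := ⟨543, ⟨0, 12, 14, 6⟩⟩) (by decide +kernel))⟩
  c210 :=
    ⟨(posBox_of_check (c := ⟨511, ⟨0, 11, 13, 6⟩⟩) (by decide +kernel)),
      (posBox_of_check (c := ⟨511, ⟨0, 11, 13, 6⟩⟩) (by decide +kernel))⟩
  c211 :=
    ⟨(posBox_of_check (c := ⟨510, ⟨0, 11, 13, 6⟩⟩) (by decide +kernel)),
      (posBox_of_check (c := ⟨510, ⟨0, 11, 13, 6⟩⟩) (by decide +kernel))⟩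
  c212 :=
    ⟨(posBox_of_check (c := ⟨555, ⟨0, 11, 14, 7⟩⟩) (by decide +kernel)),
      (posBox_of_check (c := ⟨555, ⟨0, 11, 14, 7⟩⟩) (by decide +kernel))⟩
  c220 :=
    ⟨(posBox_of_check (c := ⟨487, ⟨0, 11, 13, 5⟩⟩) (by decide +kernel)),
      (posBox_of_check (c := ⟨487, ⟨0, 11, 13, 5⟩⟩) (by decide +kernel))⟩
  c221 :=
    ⟨(posBox_of_check (c := ⟨532, ⟨0, 11, 14, 6⟩⟩) (by decide +kernel)),
      (posBox_of_check (c := ⟨532, ⟨0, 11, 14, 6⟩⟩) (by decide +kernel))⟩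
  c230 :=
    ⟨(posBox_of_check (c := ⟨510, ⟨0, 11, 14, 5⟩⟩) (by decide +kernel)),
      (posBox_of_check (c := ⟨510, ⟨0, 11, 14, 5⟩⟩) (by decide +kernel))⟩

theorem fitDM : U7.Fit boxD (exM' Ex.x₁ Ex.x₂ Ex.x₃) groupDM where
  m00 :=
    ⟨(posBox_of_check (c := ⟨362, ⟨0, 9, 8, 5⟩⟩) (by decide +kernel)),
      (posBox_of_check (c := ⟨362, ⟨0, 9, 8, 5⟩⟩) (by decide +kernel))⟩
  m01 :=
    ⟨(posBox_of_check (c := ⟨382, ⟨0, 9, 8, 5⟩⟩) (by decide +kernel)),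
      (posBox_of_check (c := ⟨382, ⟨0, 9, 8, 5⟩⟩) (by decide +kernel))⟩
  m10 :=
    ⟨(posBox_of_check (c := ⟨425, ⟨0, 10, 10, 5⟩⟩) (by decide +kernel)),
      (posBox_of_check (c := ⟨425, ⟨0, 10, 10, 5⟩⟩) (by decide +kernel))⟩
  m11 :=
    ⟨(posBox_of_check (c := ⟨402, ⟨0, 8, 9, 5⟩⟩) (by decide +kernel)),
      (posBox_of_check (c := ⟨402, ⟨0, 8, 9, 5⟩⟩) (by decide +kernel))⟩
  m20 :=
    ⟨(posBox_of_check (c := ⟨396, ⟨0, 8, 9, 5⟩⟩) (by decide +kernel)),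
      (posBox_of_check (c := ⟨396, ⟨0, 8, 9, 5⟩⟩) (by decide +kernel))⟩
  n11 :=
    ⟨(posBox_of_check (c := ⟨384, ⟨0, 9, 9, 5⟩⟩) (by decide +kernel)),
      (posBox_of_check (c := ⟨384, ⟨0, 9, 9, 5⟩⟩) (by decide +kernel))⟩
  n20 :=
    ⟨(posBox_of_check (c := ⟨362, ⟨0, 9, 9, 5⟩⟩) (by decide +kernel)),
      (posBox_of_check (c := ⟨362, ⟨0, 9, 9, 5⟩⟩) (by decide +kernel))⟩

theorem fitDG : T3.Fit boxD (0) (exG Ex.x₁ Ex.x₂ Ex.x₃) groupDG where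
  c0 :=
    ⟨(posBox_of_check (c := ⟨568, ⟨0, 13, 14, 8⟩⟩) (by decide +kernel)),
      (posBox_of_check (c := ⟨568, ⟨0, 13, 14, 8⟩⟩) (by decide +kernel))⟩
  c1 :=
    ⟨(posBox_of_check (c := ⟨540, ⟨0, 13, 13, 6⟩⟩) (by decide +kernel)),
      (posBox_of_check (c := ⟨540, ⟨0, 13, 13, 6⟩⟩) (by decide +kernel))⟩
  c2 :=
    ⟨(posBox_of_check (c := ⟨513, ⟨0, 13, 12, 5⟩⟩) (by decide +kernel)),
      (posBox_of_check (c := ⟨513, ⟨0, 13, 12, 5⟩⟩) (by decide +kernel))⟩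

theorem fitDE : E7.Fit boxD (exE' Ex.x₁ Ex.x₂ Ex.x₃) groupDE where
  c000 :=
    ⟨(posBox_of_check (c := ⟨525, ⟨0, 13, 13, 6⟩⟩) (by decide +kernel)),
      (posBox_of_check (c := ⟨525, ⟨0, 13, 13, 6⟩⟩) (by decide +kernel))⟩
  c100 :=
    ⟨(posBox_of_check (c := ⟨479, ⟨0, 12, 12, 5⟩⟩) (by decide +kernel)),
      (posBox_of_check (c := ⟨479, ⟨0, 12, 12, 5⟩⟩) (by decide +kernel))⟩
  c101 :=
    ⟨(posBox_of_check (c := ⟨498, ⟨0, 12, 12, 6⟩⟩) (by decide +kernel)),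
      (posBox_of_check (c := ⟨498, ⟨0, 12, 12, 6⟩⟩) (by decide +kernel))⟩
  c110 :=
    ⟨(posBox_of_check (c := ⟨474, ⟨0, 12, 12, 5⟩⟩) (by decide +kernel)),
      (posBox_of_check (c := ⟨474, ⟨0, 12, 12, 5⟩⟩) (by decide +kernel))⟩
  c200 :=
    ⟨(posBox_of_check (c := ⟨430, ⟨0, 11, 11, 5⟩⟩) (by decide +kernel)),
      (posBox_of_check (c := ⟨430, ⟨0, 11, 11, 5⟩⟩) (by decide +kernel))⟩
  c201 :=
    ⟨(posBox_of_check (c := ⟨411, ⟨0, 10, 10, 5⟩⟩) (by decide +kernel)),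
      (posBox_of_check (c := ⟨411, ⟨0, 10, 10, 5⟩⟩) (by decide +kernel))⟩
  c210 :=
    ⟨(posBox_of_check (c := ⟨388, ⟨0, 10, 10, 5⟩⟩) (by decide +kernel)),
      (posBox_of_check (c := ⟨388, ⟨0, 10, 10, 5⟩⟩) (by decide +kernel))⟩

theorem fitDP : P2.Fit boxD (exP' Ex.x₁ Ex.x₂ Ex.x₃) groupDP where
  c01 :=
    ⟨(posBox_of_check (c := ⟨356, ⟨0, 7, 7, 5⟩⟩) (by decide +kernel)),
      (posBox_of_check (c := ⟨356, ⟨0, 7, 7, 5⟩⟩) (by decide +kernel))⟩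
  c10 :=
    ⟨(posBox_of_check (c := ⟨350, ⟨0, 7, 7, 5⟩⟩) (by decide +kernel)),
      (posBox_of_check (c := ⟨350, ⟨0, 7, 7, 5⟩⟩) (by decide +kernel))⟩

theorem fitDN : T12.Fit boxD (exN' Ex.x₁ Ex.x₂ Ex.x₃) groupDN where
  c010 :=
    ⟨(posBox_of_check (c := ⟨583, ⟨0, 12, 14, 8⟩⟩) (by decide +kernel)),
      (posBox_of_check (c := ⟨583, ⟨0, 12, 14, 8⟩⟩) (by decide +kernel))⟩
  c100 :=
    ⟨(posBox_of_check (c := ⟨459, ⟨0, 11, 11, 5⟩⟩) (by decide +kernel)),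
      (posBox_of_check (c := ⟨459, ⟨0, 11, 11, 5⟩⟩) (by decide +kernel))⟩
  c101 :=
    ⟨(posBox_of_check (c := ⟨479, ⟨0, 11, 11, 6⟩⟩) (by decide +kernel)),
      (posBox_of_check (c := ⟨479, ⟨0, 11, 11, 6⟩⟩) (by decide +kernel))⟩
  c110 :=
    ⟨(posBox_of_check (c := ⟨536, ⟨0, 12, 13, 7⟩⟩) (by decide +kernel)),
      (posBox_of_check (c := ⟨536, ⟨0, 12, 13, 7⟩⟩) (by decide +kernel))⟩
  c111 :=
    ⟨(posBox_of_check (c := ⟨542, ⟨0, 11, 13, 7⟩⟩) (by decide +kernel)),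
      (posBox_of_check (c := ⟨542, ⟨0, 11, 13, 7⟩⟩) (by decide +kernel))⟩
  c120 :=
    ⟨(posBox_of_check (c := ⟨518, ⟨0, 11, 13, 6⟩⟩) (by decide +kernel)),
      (posBox_of_check (c := ⟨518, ⟨0, 11, 13, 6⟩⟩) (by decide +kernel))⟩
  c210 :=
    ⟨(posBox_of_check (c := ⟨485, ⟨0, 10, 12, 6⟩⟩) (by decide +kernel)),
      (posBox_of_check (c := ⟨485, ⟨0, 10, 12, 6⟩⟩) (by decide +kernel))⟩
  c211 :=
    ⟨(posBox_of_check (c := ⟨484, ⟨0, 10, 12, 6⟩⟩) (by decide +kernel)),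
      (posBox_of_check (c := ⟨484, ⟨0, 10, 12, 6⟩⟩) (by decide +kernel))⟩
  c212 :=
    ⟨(posBox_of_check (c := ⟨530, ⟨0, 10, 13, 7⟩⟩) (by decide +kernel)),
      (posBox_of_check (c := ⟨530, ⟨0, 10, 13, 7⟩⟩) (by decide +kernel))⟩
  c220 :=
    ⟨(posBox_of_check (c := ⟨462, ⟨0, 10, 12, 5⟩⟩) (by decide +kernel)),
      (posBox_of_check (c := ⟨462, ⟨0, 10, 12, 5⟩⟩) (by decide +kernel))⟩
  c221 :=
    ⟨(posBox_of_check (c := ⟨507, ⟨0, 10, 13, 6⟩⟩) (by decide +kernel)),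
      (posBox_of_check (c := ⟨507, ⟨0, 10, 13, 6⟩⟩) (by decide +kernel))⟩
  c230 :=
    ⟨(posBox_of_check (c := ⟨484, ⟨0, 10, 13, 5⟩⟩) (by decide +kernel)),
      (posBox_of_check (c := ⟨484, ⟨0, 10, 13, 5⟩⟩) (by decide +kernel))⟩

theorem fitDA₂ : PosBox boxD (cC (-1) * groupD.A.c212.lo Ex.x₁ Ex.x₂ Ex.x₃) :=
  posBox_join₂ (m := 10000) (posBox_of_check (c := ⟨146, ⟨0, 1, 3, 3⟩⟩) (by decide +kernel))
    (posBox_of_check (c := ⟨146, ⟨0, 1, 3, 3⟩⟩) (by decide +kernel))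

theorem fitDN₂ : PosBox boxD (cC (-1) * groupD.N.c212.lo Ex.x₁ Ex.x₂ Ex.x₃) :=
  posBox_join₂ (m := 10000) (posBox_of_check (c := ⟨145, ⟨0, 1, 3, 3⟩⟩) (by decide +kernel))
    (posBox_of_check (c := ⟨145, ⟨0, 1, 3, 3⟩⟩) (by decide +kernel))

/-- The surrogates are within their errors. -/
theorem fitD : groupD.Fit boxD :=
  ⟨fitDA, fitDM, fitDG, fitDE, fitDP, fitDN, fitDA₂, fitDN₂⟩

end Vale.Agent.P100.Calib.Closed.Bot
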