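import Vale.Agent.P100.Calib.SlabBotFit
import Vale.Agent.P100.Calib.SlabBotData

/-!
# The surrogates for `1.4 ≤ v ≤ 2.22`, `0.026 ≤ d ≤ 0.05` are within their errors
-/

namespace Vale.Agent.P100.Calib.Closed.Bot

open BoxPos

open Large (PosBox posBox_of_check posBox_join₂)

local instance botFitEAdd : Add Ex := ⟨Ex.add⟩
local instance botFitESub : Sub Ex := ⟨Ex.sub⟩
local instance botFitEMul : Mul Ex := ⟨Ex.mul⟩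

/-- The box of the surrogates. -/
def boxE : Box := ⟨⟨0, 1, 1⟩, ⟨0, 4168, 1000000⟩, ⟨26000, 50001, 1000000⟩, ⟨140000, 222001, 100000⟩⟩

theorem fitEA : T11.Fit boxE (-1) (exA Ex.x₁ Ex.x₂ Ex.x₃) groupEA where
  c00 :=
    ⟨(posBox_of_check (c := ⟨457, ⟨0, 10, 11, 6⟩⟩) (by decide +kernel)),
      (posBox_of_check (c := ⟨457, ⟨0, 10, 11, 6⟩⟩) (by decide +kernel))⟩
  c10 :=
    ⟨(posBox_of_check (c := ⟨479, ⟨0, 12, 11, 5⟩⟩) (by decide +kernel)),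
      (posBox_of_check (c := ⟨479, ⟨0, 12, 11, 5⟩⟩) (by decide +kernel))⟩
  c01 :=
    ⟨(posBox_of_check (c := ⟨611, ⟨0, 13, 15, 8⟩⟩) (by decide +kernel)),
      (posBox_of_check (c := ⟨611, ⟨0, 13, 15, 8⟩⟩) (by decide +kernel))⟩
  c11 :=
    ⟨(posBox_of_check (c := ⟨582, ⟨0, 13, 14, 7⟩⟩) (by decide +kernel)),
      (posBox_of_check (c := ⟨582, ⟨0, 13, 14, 7⟩⟩) (by decide +kernel))⟩
  c21 :=
    ⟨(posBox_of_check (c := ⟨553, ⟨0, 13, 13, 6⟩⟩) (by decide +kernel)),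
      (posBox_of_check (c := ⟨553, ⟨0, 13, 13, 6⟩⟩) (by decide +kernel))⟩
  c02 :=
    ⟨(posBox_of_check (c := ⟨543, ⟨0, 11, 13, 7⟩⟩) (by decide +kernel)),
      (posBox_of_check (c := ⟨543, ⟨0, 11, 13, 7⟩⟩) (by decide +kernel))⟩
  c12 :=
    ⟨(posBox_of_check (c := ⟨564, ⟨0, 13, 14, 6⟩⟩) (by decide +kernel)),
      (posBox_of_check (c := ⟨564, ⟨0, 13, 14, 6⟩⟩) (by decide +kernel))⟩
  c22 :=
    ⟨(posBox_of_check (c := ⟨529, ⟨0, 13, 13, 5⟩⟩) (by decide +kernel)),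
      (posBox_of_check (c := ⟨529, ⟨0, 13, 13, 5⟩⟩) (by decide +kernel))⟩
  c03 :=
    ⟨(posBox_of_check (c := ⟨508, ⟨0, 9, 12, 7⟩⟩) (by decide +kernel)),
      (posBox_of_check (c := ⟨508, ⟨0, 9, 12, 7⟩⟩) (by decide +kernel))⟩
  c13 :=
    ⟨(posBox_of_check (c := ⟨530, ⟨0, 11, 13, 6⟩⟩) (by decide +kernel)),
      (posBox_of_check (c := ⟨530, ⟨0, 11, 13, 6⟩⟩) (by decide +kernel))⟩
  c23 :=
    ⟨(posBox_of_check (c := ⟨551, ⟨0, 13, 14, 5⟩⟩) (by decide +kernel)),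
      (posBox_of_check (c := ⟨551, ⟨0, 13, 14, 5⟩⟩) (by decide +kernel))⟩

theorem fitEM : T7.Fit boxE (-1) (exM Ex.x₁ Ex.x₂ Ex.x₃) groupEM where
  c00 :=
    ⟨(posBox_of_check (c := ⟨365, ⟨0, 8, 8, 5⟩⟩) (by decide +kernel)),
      (posBox_of_check (c := ⟨365, ⟨0, 8, 8, 5⟩⟩) (by decide +kernel))⟩
  c10 :=
    ⟨(posBox_of_check (c := ⟨383, ⟨0, 10, 8, 5⟩⟩) (by decide +kernel)),
      (posBox_of_check (c := ⟨383, ⟨0, 10, 8, 5⟩⟩) (by decide +kernel))⟩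
  c01 :=
    ⟨(posBox_of_check (c := ⟨381, ⟨0, 8, 9, 5⟩⟩) (by decide +kernel)),
      (posBox_of_check (c := ⟨381, ⟨0, 8, 9, 5⟩⟩) (by decide +kernel))⟩
  c11 :=
    ⟨(posBox_of_check (c := ⟨449, ⟨0, 11, 10, 5⟩⟩) (by decide +kernel)),
      (posBox_of_check (c := ⟨449, ⟨0, 11, 10, 5⟩⟩) (by decide +kernel))⟩
  c02 :=
    ⟨(posBox_of_check (c := ⟨378, ⟨0, 7, 8, 5⟩⟩) (by decide +kernel)),
      (posBox_of_check (c := ⟨378, ⟨0, 7, 8, 5⟩⟩) (by decide +kernel))⟩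
  c12 :=
    ⟨(posBox_of_check (c := ⟨420, ⟨0, 9, 9, 5⟩⟩) (by decide +kernel)),
      (posBox_of_check (c := ⟨420, ⟨0, 9, 9, 5⟩⟩) (by decide +kernel))⟩
  c22 :=
    ⟨(posBox_of_check (c := ⟨404, ⟨0, 11, 9, 5⟩⟩) (by decide +kernel)),
      (posBox_of_check (c := ⟨404, ⟨0, 11, 9, 5⟩⟩) (by decide +kernel))⟩

theorem fitEG : T3.Fit boxE (-1) (exG Ex.x₁ Ex.x₂ Ex.x₃) groupEG where
  c0 :=
    ⟨(posBox_of_check (c := ⟨566, ⟨0, 13, 14, 8⟩⟩) (by decide +kernel)),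
      (posBox_of_check (c := ⟨566, ⟨0, 13, 14, 8⟩⟩) (by decide +kernel))⟩
  c1 :=
    ⟨(posBox_of_check (c := ⟨540, ⟨0, 13, 13, 6⟩⟩) (by decide +kernel)),
      (posBox_of_check (c := ⟨540, ⟨0, 13, 13, 6⟩⟩) (by decide +kernel))⟩
  c2 :=
    ⟨(posBox_of_check (c := ⟨513, ⟨0, 13, 12, 5⟩⟩) (by decide +kernel)),
      (posBox_of_check (c := ⟨513, ⟨0, 13, 12, 5⟩⟩) (by decide +kernel))⟩

theorem fitEE : T6.Fit boxE (-1) (exE Ex.x₁ Ex.x₂ Ex.x₃) groupEE where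
  c00 :=
    ⟨(posBox_of_check (c := ⟨528, ⟨0, 13, 13, 6⟩⟩) (by decide +kernel)),
      (posBox_of_check (c := ⟨528, ⟨0, 13, 13, 6⟩⟩) (by decide +kernel))⟩
  c01 :=
    ⟨(posBox_of_check (c := ⟨474, ⟨0, 11, 11, 6⟩⟩) (by decide +kernel)),
      (posBox_of_check (c := ⟨474, ⟨0, 11, 11, 6⟩⟩) (by decide +kernel))⟩
  c10 :=
    ⟨(posBox_of_check (c := ⟨501, ⟨0, 13, 12, 5⟩⟩) (by decide +kernel)),
      (posBox_of_check (c := ⟨501, ⟨0, 13, 12, 5⟩⟩) (by decide +kernel))⟩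
  c11 :=
    ⟨(posBox_of_check (c := ⟨498, ⟨0, 13, 12, 5⟩⟩) (by decide +kernel)),
      (posBox_of_check (c := ⟨498, ⟨0, 13, 12, 5⟩⟩) (by decide +kernel))⟩
  c20 :=
    ⟨(posBox_of_check (c := ⟨472, ⟨0, 13, 11, 5⟩⟩) (by decide +kernel)),
      (posBox_of_check (c := ⟨472, ⟨0, 13, 11, 5⟩⟩) (by decide +kernel))⟩
  c21 :=
    ⟨(posBox_of_check (c := ⟨431, ⟨0, 12, 10, 5⟩⟩) (by decide +kernel)),
      (posBox_of_check (c := ⟨431, ⟨0, 12, 10, 5⟩⟩) (by decide +kernel))⟩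

theorem fitEP : P3.Fit boxE (-1) (exP Ex.x₁ Ex.x₂ Ex.x₃) groupEP where
  c10 :=
    ⟨(posBox_of_check (c := ⟨358, ⟨0, 7, 7, 5⟩⟩) (by decide +kernel)),
      (posBox_of_check (c := ⟨358, ⟨0, 7, 7, 5⟩⟩) (by decide +kernel))⟩
  c11 :=
    ⟨(posBox_of_check (c := ⟨358, ⟨0, 7, 7, 5⟩⟩) (by decide +kernel)),
      (posBox_of_check (c := ⟨358, ⟨0, 7, 7, 5⟩⟩) (by decide +kernel))⟩
  c21 :=
    ⟨(posBox_of_check (c := ⟨353, ⟨0, 9, 7, 5⟩⟩) (by decide +kernel)),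
      (posBox_of_check (c := ⟨353, ⟨0, 9, 7, 5⟩⟩) (by decide +kernel))⟩

theorem fitEN : T11.Fit boxE (-1) (exN Ex.x₁ Ex.x₂ Ex.x₃) groupEN where
  c00 :=
    ⟨(posBox_of_check (c := ⟨456, ⟨0, 10, 11, 6⟩⟩) (by decide +kernel)),
      (posBox_of_check (c := ⟨456, ⟨0, 10, 11, 6⟩⟩) (by decide +kernel))⟩
  c10 :=
    ⟨(posBox_of_check (c := ⟨479, ⟨0, 12, 11, 5⟩⟩) (by decide +kernel)),
      (posBox_of_check (c := ⟨479, ⟨0, 12, 11, 5⟩⟩) (by decide +kernel))⟩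
  c01 :=
    ⟨(posBox_of_check (c := ⟨586, ⟨0, 12, 14, 8⟩⟩) (by decide +kernel)),
      (posBox_of_check (c := ⟨586, ⟨0, 12, 14, 8⟩⟩) (by decide +kernel))⟩
  c11 :=
    ⟨(posBox_of_check (c := ⟨557, ⟨0, 13, 13, 7⟩⟩) (by decide +kernel)),
      (posBox_of_check (c := ⟨557, ⟨0, 13, 13, 7⟩⟩) (by decide +kernel))⟩
  c21 :=
    ⟨(posBox_of_check (c := ⟨527, ⟨0, 12, 12, 6⟩⟩) (by decide +kernel)),
      (posBox_of_check (c := ⟨527, ⟨0, 12, 12, 6⟩⟩) (by decide +kernel))⟩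
  c02 :=
    ⟨(posBox_of_check (c := ⟨518, ⟨0, 10, 12, 7⟩⟩) (by decide +kernel)),
      (posBox_of_check (c := ⟨518, ⟨0, 10, 12, 7⟩⟩) (by decide +kernel))⟩
  c12 :=
    ⟨(posBox_of_check (c := ⟨539, ⟨0, 12, 13, 6⟩⟩) (by decide +kernel)),
      (posBox_of_check (c := ⟨539, ⟨0, 12, 13, 6⟩⟩) (by decide +kernel))⟩
  c22 :=
    ⟨(posBox_of_check (c := ⟨503, ⟨0, 12, 12, 5⟩⟩) (by decide +kernel)),
      (posBox_of_check (c := ⟨503, ⟨0, 12, 12, 5⟩⟩) (by decide +kernel))⟩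
  c03 :=
    ⟨(posBox_of_check (c := ⟨482, ⟨0, 8, 11, 7⟩⟩) (by decide +kernel)),
      (posBox_of_check (c := ⟨482, ⟨0, 8, 11, 7⟩⟩) (by decide +kernel))⟩
  c13 :=
    ⟨(posBox_of_check (c := ⟨505, ⟨0, 10, 12, 6⟩⟩) (by decide +kernel)),
      (posBox_of_check (c := ⟨505, ⟨0, 10, 12, 6⟩⟩) (by decide +kernel))⟩
  c23 :=
    ⟨(posBox_of_check (c := ⟨525, ⟨0, 12, 13, 5⟩⟩) (by decide +kernel)),
      (posBox_of_check (c := ⟨525, ⟨0, 12, 13, 5⟩⟩) (by decide +kernel))⟩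

/-- The surrogates are within their errors. -/
theorem fitE : groupE.Fit boxE :=
  ⟨fitEA, fitEM, fitEG, fitEE, fitEP, fitEN⟩

end Vale.Agent.P100.Calib.Closed.Bot
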