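import Vale.Agent.P100.Calib.SlabBotFitB
import Vale.Agent.P100.Calib.SlabBotFitC
import Vale.Agent.P100.Calib.SlabBotFitD
import Vale.Agent.P100.Calib.SlabBotFitE
import Vale.Agent.P100.Calib.SlabBotFitF
import Vale.Agent.P100.Calib.SlabBotCheckB1
import Vale.Agent.P100.Calib.SlabBotCheckB2
import Vale.Agent.P100.Calib.SlabBotCheckB3
import Vale.Agent.P100.Calib.SlabBotCheckB4
import Vale.Agent.P100.Calib.SlabBotCheckB5
import Vale.Agent.P100.Calib.SlabBotCheckB6
import Vale.Agent.P100.Calib.SlabBotCheckDB1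
import Vale.Agent.P100.Calib.SlabBotCheckDB2
import Vale.Agent.P100.Calib.SlabBotCheckDF1
import Vale.Agent.P100.Calib.SlabBotCheckDF2
import Vale.Agent.P100.Calib.SlabBotCheckF0
import Vale.Agent.P100.Calib.SlabBotCheckF1
import Vale.Agent.P100.Calib.SlabBotCheckF2
import Vale.Agent.P100.Calib.SlabBotCheckF3

/-!
# The closed signs on the end of the piece `d ≤ 1/20`

`1 - u` is below `67/100 d` and below `1/40`. The pieces split at `d = 374/10000` between the two
bounds, at `v = 11/5` or `19/10`, at `v = 27/10` and at `v = 151/50`; past the last cut `φ = g/X`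
is a variable, in two ranges.
-/

set_option linter.unusedVariables false
set_option linter.unusedSimpArgs false

namespace Vale.Agent.P100.Calib.Closed.Bot

open BoxPos
open Large (PosBox posBox_of_check)

local instance botEndAdd : Add Ex := ⟨Ex.add⟩
local instance botEndSub : Sub Ex := ⟨Ex.sub⟩
local instance botEndMul : Mul Ex := ⟨Ex.mul⟩

/-- The box of `LLG`. -/
def boxLLG : Box := ⟨⟨39, 40, 40⟩, ⟨6000, 6009, 10000⟩, ⟨0, 501, 10000⟩, ⟨99, 369, 100⟩⟩

theorem llgLow : PosBox boxLLG High.hLLGlo :=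
  posBox_of_check (c := ⟨225, ⟨2, 7, 8, 5⟩⟩) (by decide +kernel)

theorem llgHigh : PosBox boxLLG High.hLLGhi :=
  posBox_of_check (c := ⟨194, ⟨2, 5, 8, 4⟩⟩) (by decide +kernel)

theorem okB1 : pieceB1.Ok boxF := ⟨signB1, fitF, lowB1, highB1, by decide, by decide⟩
theorem okB2 : pieceB2.Ok boxB := ⟨signB2, fitB, lowB2, highB2, by decide, by decide⟩
theorem okB3 : pieceB3.Ok boxE := ⟨signB3, fitE, lowB3, highB3, by decide, by decide⟩
theorem okB6 : pieceB6.Ok boxE := ⟨signB6, fitE, lowB6, highB6, by decide, by decide⟩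
theorem okB5 : pieceB5.Ok boxB := ⟨signB5, fitB, lowB5, highB5, by decide, by decide⟩
theorem okB4 : pieceB4.Ok boxC := ⟨signB4, fitC, lowB4, highB4, by decide, by decide⟩
theorem okF0 : pieceF0.Ok boxE := ⟨signF0, fitE, lowF0, highF0, by decide, by decide⟩
theorem okF1 : pieceF1.Ok boxE := ⟨signF1, fitE, lowF1, highF1, by decide, by decide⟩
theorem okF3 : pieceF3.Ok boxB := ⟨signF3, fitB, lowF3, highF3, by decide, by decide⟩
theorem okF2 : pieceF2.Ok boxC := ⟨signF2, fitC, lowF2, highF2, by decide, by decide⟩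
theorem okDB1 : pieceDB1.Ok boxD := ⟨signDB1, fitD, highDB1, by decide⟩
theorem okDB2 : pieceDB2.Ok boxD := ⟨signDB2, fitD, highDB2, by decide⟩
theorem okDF1 : pieceDF1.Ok boxD := ⟨signDF1, fitD, highDF1, by decide⟩
theorem okDF2 : pieceDF2.Ok boxD := ⟨signDF2, fitD, highDF2, by decide⟩

/-- Past `v = 151/50`. -/
theorem signs_far {P Q : PieceD} (hP : P.Ok boxD) (hQ : Q.Ok boxD) (hq : PosBox Q.box Q.sPhi)
    (e₀ : P.F₀ = ⟨0, 15000, 0, 0, 0, 0⟩) (e₁ : Q.F₀ = P.F₁) {d S u v t : ℝ}
    (p : EndPt d S u v t) (h : P.toFrame.Has d u v) (h' : Q.toFrame.Has d u v)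
    (g : InBox boxD (5 * S - 3) d v)
    (L : 0 ≤ LLG ((S - d) / 2) d v (chG d S u v t) (chW d S u v t) (chW1 d S u v t) (chR S u)
      (eVal d v (chW d S u v t) (chR S u)) (kVal d (chW d S u v t) (chR S u))) :
    ChartSigns d S u v t := by
  rcases le_total 1 ((P.F₁.ex Ex.x₂ Ex.x₃).val 0 0 d v * chW d S u v t) with c | c
  · refine PieceD.signs hP p h g L ?_ c
    rw [e₀]
    simp only [Q6.ex, k₄, ex_add, ex_mul, Ex.val]
    push_cast
    linarith [p.phi_low]
  · exact PieceD.signs hQ p h' g L (by rw [e₁]; exact c) (PieceD.phi_le hq p h')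

section
variable {d S u v t : ℝ}

/-- Below `d = 374/10000`. -/
theorem signs_thin (p : EndPt d S u v t) (hu : 1 - 67 / 100 * d ≤ u) (h : d ≤ 374 / 10000) :
    ChartSigns d S u v t := by
  have hd := p.box.pos
  have hr := p.r_le
  have L := p.llg llgLow llgHigh rfl
  have hd2 : d ^ 2 ≤ (374 / 10000) ^ 2 := pow_le_pow_left₀ hd.le h 2
  rcases le_or_gt v (27 / 10) with hv | hv
  · rcases le_or_gt d (140 / 10000) with h1 | h1
    · have lo := Frame.v_exit exitB1 p (by simp [pieceB1]; linarith) (by simp [pieceB1]; linarith)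
      simp only [pieceB1] at lo; push_cast at lo
      have := pow_le_pow_left₀ hd.le h1 2
      refine Piece.signs okB1 p ⟨?_, ?_, ?_, ?_, ?_⟩ ⟨?_, ?_, ?_, ?_⟩ L
      all_goals simp only [pieceB1, boxF, Side.Mem]
      all_goals push_cast
      all_goals first | linarith | (constructor <;> linarith [p.r_nonneg])
    rcases le_or_gt d (260 / 10000) with h2 | h2
    · have lo := Frame.v_exit exitB2 p (by simp [pieceB2]; linarith) (by simp [pieceB2]; linarith)
      simp only [pieceB2] at lo; push_cast at lo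
      have := pow_le_pow_left₀ hd.le h2 2
      refine Piece.signs okB2 p ⟨?_, ?_, ?_, ?_, ?_⟩ ⟨?_, ?_, ?_, ?_⟩ L
      all_goals simp only [pieceB2, boxB, Side.Mem]
      all_goals push_cast
      all_goals first | linarith | (constructor <;> linarith [p.r_nonneg])
    rcases le_or_gt v (11 / 5) with hv' | hv'
    · rcases le_or_gt d (330 / 10000) with h3 | h3
      · have lo := Frame.v_exit exitB3 p (by simp [pieceB3]; linarith) (by simp [pieceB3]; linarith)
        simp only [pieceB3] at lo; push_cast at lo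
        refine Piece.signs okB3 p ⟨?_, ?_, ?_, ?_, ?_⟩ ⟨?_, ?_, ?_, ?_⟩ L
        all_goals simp only [pieceB3, boxE, Side.Mem]
        all_goals push_cast
        all_goals first | linarith | (constructor <;> linarith [p.r_nonneg])
      · have lo := Frame.v_exit exitB6 p (by simp [pieceB6]; linarith) (by simp [pieceB6]; linarith)
        simp only [pieceB6] at lo; push_cast at lo
        refine Piece.signs okB6 p ⟨?_, ?_, ?_, ?_, ?_⟩ ⟨?_, ?_, ?_, ?_⟩ L
        all_goals simp only [pieceB6, boxE, Side.Mem]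
        all_goals push_cast
        all_goals first | linarith | (constructor <;> linarith [p.r_nonneg])
    · refine Piece.signs okB5 p ⟨?_, ?_, ?_, ?_, ?_⟩ ⟨?_, ?_, ?_, ?_⟩ L
      all_goals simp only [pieceB5, boxB, Side.Mem]
      all_goals push_cast
      all_goals first | linarith | (constructor <;> linarith [p.r_nonneg])
  rcases le_or_gt v (151 / 50) with hv' | hv'
  · refine Piece.signs okB4 p ⟨?_, ?_, ?_, ?_, ?_⟩ ⟨?_, ?_, ?_, ?_⟩ L
    all_goals simp only [pieceB4, boxC, Side.Mem]
    all_goals push_cast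
    all_goals first | linarith | (constructor <;> linarith [p.r_nonneg])
  · have hi := Frame.v_top topDB1 p (by simp [pieceDB1]; linarith) (by simp [pieceDB1]; linarith)
    simp only [pieceDB1] at hi; push_cast at hi
    refine signs_far okDB1 okDB2 phiDB2 rfl rfl p ⟨?_, ?_, ?_, ?_, ?_⟩ ⟨?_, ?_, ?_, ?_, ?_⟩
      ⟨?_, ?_, ?_, ?_⟩ L
    all_goals simp only [pieceDB1, pieceDB2, boxD, Side.Mem]
    all_goals push_cast
    all_goals first | linarith | (constructor <;> linarith [p.r_nonneg])

/-- From `d = 374/10000`. -/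
theorem signs_thick (p : EndPt d S u v t) (h : 374 / 10000 ≤ d) : ChartSigns d S u v t := by
  have hd := p.box.pos
  have hd1 := p.d_le
  have hr := p.r_le
  have hu := p.u_ge
  have L := p.llg llgLow llgHigh rfl
  have hd2 : d ^ 2 ≤ (1 / 20) ^ 2 := pow_le_pow_left₀ hd.le hd1 2
  rcases le_or_gt v (27 / 10) with hv | hv
  · rcases le_or_gt v (19 / 10) with hv' | hv'
    · rcases le_or_gt d (410 / 10000) with h1 | h1
      · have lo := Frame.v_exit exitF0 p (by simp [pieceF0]; linarith) (by simp [pieceF0]; linarith)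
        simp only [pieceF0] at lo; push_cast at lo
        have := pow_le_pow_left₀ hd.le h1 2
        refine Piece.signs okF0 p ⟨?_, ?_, ?_, ?_, ?_⟩ ⟨?_, ?_, ?_, ?_⟩ L
        all_goals simp only [pieceF0, boxE, Side.Mem]
        all_goals push_cast
        all_goals first | linarith | (constructor <;> linarith [p.r_nonneg])
      · have lo := Frame.v_exit exitF1 p (by simp [pieceF1]; linarith) (by simp [pieceF1]; linarith)
        simp only [pieceF1] at lo; push_cast at lo
        refine Piece.signs okF1 p ⟨?_, ?_, ?_, ?_, ?_⟩ ⟨?_, ?_, ?_, ?_⟩ L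
        all_goals simp only [pieceF1, boxE, Side.Mem]
        all_goals push_cast
        all_goals first | linarith | (constructor <;> linarith [p.r_nonneg])
    · refine Piece.signs okF3 p ⟨?_, ?_, ?_, ?_, ?_⟩ ⟨?_, ?_, ?_, ?_⟩ L
      all_goals simp only [pieceF3, boxB, Side.Mem]
      all_goals push_cast
      all_goals first | linarith | (constructor <;> linarith [p.r_nonneg])
  rcases le_or_gt v (151 / 50) with hv' | hv'
  · refine Piece.signs okF2 p ⟨?_, ?_, ?_, ?_, ?_⟩ ⟨?_, ?_, ?_, ?_⟩ L
    all_goals simp only [pieceF2, boxC, Side.Mem]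
    all_goals push_cast
    all_goals first | linarith | (constructor <;> linarith [p.r_nonneg])
  · have hi := Frame.v_top topDF1 p (by simp [pieceDF1]; linarith) (by simp [pieceDF1]; linarith)
    simp only [pieceDF1] at hi; push_cast at hi
    refine signs_far okDF1 okDF2 phiDF2 rfl rfl p ⟨?_, ?_, ?_, ?_, ?_⟩ ⟨?_, ?_, ?_, ?_, ?_⟩
      ⟨?_, ?_, ?_, ?_⟩ L
    all_goals simp only [pieceDF1, pieceDF2, boxD, Side.Mem]
    all_goals push_cast
    all_goals first | linarith | (constructor <;> linarith [p.r_nonneg])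

end

/-- **The closed signs on the end for `d ≤ 1/20`.** -/
theorem signsEndBot : SignsEnd bandsBot 0 (1 / 20) := by
  intro d S u v t hB h0 h1 hu hF hv ht hphi
  simp only [bandsBot] at hu hv
  have p : EndPt d S u v t := ⟨hB, hF, h1, le_trans (le_max_left _ _) hu, ht, hv⟩
  rcases le_total d (374 / 10000) with h | h
  · exact signs_thin p (le_trans (le_max_right _ _) hu) h
  · exact signs_thick p h

end Vale.Agent.P100.Calib.Closed.Bot
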