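import Vale.Agent.P100.Calib.BoxPosFast

/-!
# Positivity of an expression on a box, joined from checks on parts
-/

namespace Vale.Agent.P100.Calib.Closed.Large

open BoxPos

/-- The expression is positive on the box. -/
def PosBox (b : Box) (e : Ex) : Prop :=
  ∀ o S d v : ℝ, b.s₀.Mem o → b.s₁.Mem S → b.s₂.Mem d → b.s₃.Mem v → 0 < e.val o S d v

theorem posBox_of_check {e : Ex} {c : Cfg} {b : Box} (h : e.checkQuick c b = true) :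
    PosBox b e :=
  fun _ _ _ _ h₀ h₁ h₂ h₃ => Ex.pos_of_checkQuick h h₀ h₁ h₂ h₃

theorem and_four {a b c d : Bool} (h : (a && b && c && d) = true) :
    a = true ∧ b = true ∧ c = true ∧ d = true := by
  simp only [Bool.and_eq_true] at h
  exact ⟨h.1.1.1, h.1.1.2, h.1.2, h.2⟩

theorem Side.mem_or {a m z : ℤ} {n : ℕ} {x : ℝ} (h : Side.Mem ⟨a, z, n⟩ x) :
    Side.Mem ⟨a, m, n⟩ x ∨ Side.Mem ⟨m, z, n⟩ x := by
  rcases lt_or_ge x ((m : ℝ) / n) with hx | hx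
  · exact .inl ⟨h.1, hx⟩
  · exact .inr ⟨hx, h.2⟩

theorem posBox_join₀ {a m z : ℤ} {n : ℕ} {s t r : Side} {e : Ex}
    (h : PosBox ⟨⟨a, m, n⟩, s, t, r⟩ e) (h' : PosBox ⟨⟨m, z, n⟩, s, t, r⟩ e) :
    PosBox ⟨⟨a, z, n⟩, s, t, r⟩ e := fun o S d v h₀ h₁ h₂ h₃ =>
  (Side.mem_or (m := m) h₀).elim (fun k => h o S d v k h₁ h₂ h₃) fun k => h' o S d v k h₁ h₂ h₃

theorem posBox_join₂ {a m z : ℤ} {n : ℕ} {s t r : Side} {e : Ex}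
    (h : PosBox ⟨s, t, ⟨a, m, n⟩, r⟩ e) (h' : PosBox ⟨s, t, ⟨m, z, n⟩, r⟩ e) :
    PosBox ⟨s, t, ⟨a, z, n⟩, r⟩ e := fun o S d v h₀ h₁ h₂ h₃ =>
  (Side.mem_or (m := m) h₂).elim (fun k => h o S d v h₀ h₁ k h₃) fun k => h' o S d v h₀ h₁ k h₃

theorem posBox_join₃ {a m z : ℤ} {n : ℕ} {s t r : Side} {e : Ex}
    (h : PosBox ⟨s, t, r, ⟨a, m, n⟩⟩ e) (h' : PosBox ⟨s, t, r, ⟨m, z, n⟩⟩ e) :
    PosBox ⟨s, t, r, ⟨a, z, n⟩⟩ e := fun o S d v h₀ h₁ h₂ h₃ =>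
  (Side.mem_or (m := m) h₃).elim (fun k => h o S d v h₀ h₁ h₂ k) fun k => h' o S d v h₀ h₁ h₂ k

end Vale.Agent.P100.Calib.Closed.Large
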