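import Vale.Agent.P100.Calib.SlabBotCoef
import Vale.Agent.P100.Calib.SlabLargeBox

/-!
# Expressions of the end certificate on `d ≤ 1/20`

With `X = g W`, the forms times `u` are polynomials in `(X, u)`, and for small `X`, with
`g = φ X`, in `(X, u, φ)`; their coefficients are rational in `(r, d, v)`, `r = 5 S - 3`. Each
coefficient times `Δ ^ 2`, `Δ = S (1 - S) be (2 + d v)`, is a polynomial, and a surrogate of low
degree with a certified error replaces it.
-/

set_option linter.unusedVariables false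

namespace Vale.Agent.P100.Calib.Closed.Bot

open BoxPos

local instance botExprAdd : Add Ex := ⟨Ex.add⟩
local instance botExprSub : Sub Ex := ⟨Ex.sub⟩
local instance botExprMul : Mul Ex := ⟨Ex.mul⟩

/-- A constant in units of `1/10000`. -/
def k₄ (n : ℤ) : Ex := cC n 10000

/-- `S`. -/
def qS (r : Ex) : Ex := cC 1 5 * (r + cC 3)

/-- `al`. -/
def qA (r d : Ex) : Ex := cC 1 2 * (qS r - d)

/-- `be`. -/
def qB (r d : Ex) : Ex := cC 1 2 * (qS r + d)

/-- `2 + d v`. -/
def qL (d v : Ex) : Ex := cC 2 + d * v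

/-- `1 + d v`. -/
def qP (d v : Ex) : Ex := cC 1 + d * v

/-- `Δ`. -/
def qD (r d v : Ex) : Ex := qS r * (cC 1 - qS r) * qB r d * qL d v

/-- `g E` over `g`, free of `W`. -/
def qY (d v : Ex) : Ex := cC (-1) * (cC 10 + v * (cC 1 20 + d))

/-- `1/20 - 9 d`. -/
def qC (d : Ex) : Ex := cC 1 20 - cC 9 * d

/-- `Δ g` at `u = 0`. -/
def qG0 (r d v : Ex) : Ex := cC 4 * qS r * qB r d * qL d v

/-- `Δ g`, the coefficient of `u`. -/
def qG1 (r d v : Ex) : Ex := cC (-4) * qS r * qS r * qP d v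

/-- `Δ g`, the coefficient of `u X`. -/
def qG2 (r d : Ex) : Ex := qS r * qS r * d * qB r d

/-- `Δ κ`. -/
def qK (r d v : Ex) : Ex := qS r * qS r * qB r d * qL d v

/-- `Δ g E`, the coefficient of `u X`. -/
def qYx (r d v : Ex) : Ex := qY d v * qG2 r d - qC d * qK r d v

/-- `Δ g K`, the coefficient of `u X`. -/
def qQx (r d v : Ex) : Ex := qC d * (qG2 r d - d * qK r d v)

/-- `S (1 - S) (1 - S) be (2 + d v) (1 + (1 - al) v)`. -/
def qV (r d v : Ex) : Ex :=
  qS r * (cC 1 - qS r) * (cC 1 - qS r) * qL d v * (cC 1 + (cC 1 - qA r d) * v)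

/-- `Δ ^ 2 (u g W1)` at `u = 0`. -/
def qW0 (r d v : Ex) : Ex := cC 4 * qB r d * qL d v * qV r d v

/-- `Δ ^ 2 (u g W1)`, the coefficient of `u`. -/
def qW1 (r d v : Ex) : Ex := cC (-4) * qS r * qP d v * qV r d v

/-- `Δ ^ 2 (u g W1)`, minus the coefficient of `X`. -/
def qWk (r d v : Ex) : Ex :=
  (cC 2 - qS r) * qS r * (cC 1 - qS r) * (cC 1 - qS r) * qB r d * qB r d * qL d v * qL d v

/-- `Δ ^ 2 (g W1)` per `X`, the part free of `g`. -/
def qWc (r d v : Ex) : Ex :=
  qS r * qS r * (cC 1 - qS r) * (cC 1 - qS r) * qB r d * qL d v * qL d v *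
    (qA r d - (cC 1 - qA r d) * d * v)

/-- `Δ ^ 2 (u g W1)`, the coefficient of `u X`. -/
def qWx (r d v : Ex) : Ex := qWc r d v + d * qS r * qB r d * qV r d v

/-- `Δ ^ 2 (u g W1)` per `g`. -/
def qWg (r d v : Ex) : Ex := (cC 1 - qS r) * qB r d * qL d v * qV r d v

/-- The data of a form with eleven monomials in `(X, u)`. -/
structure T11 (α : Type) where
  (c00 c10 c01 c11 c21 c02 c12 c22 c03 c13 c23 : α)

/-- The data of `u ME`. -/
structure T7 (α : Type) where
  (c00 c10 c01 c11 c02 c12 c22 : α)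

/-- The data of `GG`. -/
structure T3 (α : Type) where
  (c0 c1 c2 : α)

/-- The data of `EG`. -/
structure T6 (α : Type) where
  (c00 c01 c10 c11 c20 c21 : α)

/-- The data of the product of the signs. -/
structure P3 (α : Type) where
  (c10 c11 c21 : α)

/-- The data of a form with twelve monomials in `(X, u, φ)`. -/
structure T12 (α : Type) where
  (c010 c100 c101 c110 c111 c120 c210 c211 c212 c220 c221 c230 : α)

/-- The data of `u ME / X`. -/
structure U7 (α : Type) where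
  (m00 m01 m10 m11 m20 n11 n20 : α)

/-- The data of `EG`, in `(X, u, φ)`. -/
structure E7 (α : Type) where
  (c000 c100 c101 c110 c200 c201 c210 : α)

/-- The data of the product of the signs over `X ^ 2`. -/
structure P2 (α : Type) where
  (c01 c10 : α)

section
variable {α : Type} [Add α] [Mul α]

/-- The form. -/
def T11.poly (t : T11 α) (x u : α) : α :=
  t.c00 + u * (t.c01 + u * (t.c02 + u * t.c03)) +
    x * (t.c10 + u * (t.c11 + u * (t.c12 + u * t.c13)) +
      x * (u * (t.c21 + u * (t.c22 + u * t.c23))))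

/-- `u ME`. -/
def T7.poly (t : T7 α) (x u : α) : α :=
  t.c00 + u * (t.c01 + u * t.c02) +
    x * (t.c10 + u * (t.c11 + u * t.c12) + x * (u * (u * t.c22)))

/-- `GG`. -/
def T3.poly (t : T3 α) (x : α) : α := t.c0 + x * (t.c1 + x * t.c2)

/-- `EG`. -/
def T6.poly (t : T6 α) (x u : α) : α :=
  t.c00 + u * t.c01 + x * (t.c10 + u * t.c11 + x * (t.c20 + u * t.c21))

/-- The product of the signs. -/
def P3.poly (t : P3 α) (x u : α) : α := x * (t.c10 + u * t.c11 + x * (u * t.c21))

/-- The form in `(X, u, φ)`. -/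
def T12.poly (t : T12 α) (x u f : α) : α :=
  u * t.c010 + x * (t.c100 + f * t.c101 + u * (t.c110 + f * t.c111 + u * t.c120) +
    x * (u * (t.c210 + f * (t.c211 + f * t.c212) + u * (t.c220 + f * t.c221 + u * t.c230))))

/-- `u ME / X`. -/
def U7.poly (t : U7 α) (x u f : α) : α :=
  t.m00 + f * t.m01 + u * (t.m10 + f * t.m11 + u * t.m20) +
    x * (u * (f * t.n11 + u * t.n20))

/-- `EG` in `(X, u, φ)`. -/
def E7.poly (t : E7 α) (x u f : α) : α :=
  t.c000 + x * (t.c100 + f * t.c101 + u * t.c110 + x * (t.c200 + f * t.c201 + u * t.c210))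

/-- The product of the signs over `X ^ 2`. -/
def P2.poly (t : P2 α) (u f : α) : α := f * t.c01 + u * t.c10

end

/-- The exact data of `u TA` or `u TMG` from the coefficients at `g = 1`. -/
def ex11 (c00 c10 c20 c01 c11 c02 ck cw : Ex → Ex → Ex → Ex) (r d v : Ex) : T11 Ex :=
  let a := qA r d
  let D := qD r d v
  let y0 := qY d v * qG0 r d v
  let y1 := qY d v * qG1 r d v
  let yx := qYx r d v
  { c00 := cw a d v * qW0 r d v
    c10 := cC (-1) * cw a d v * qWk r d v
    c01 := c00 a d v * D * D + c01 a d v * D * y0 + c02 a d v * y0 * y0 +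
      ck a d v * D * qC d * qG0 r d v + cw a d v * qW1 r d v
    c11 := c10 a d v * D * D + c11 a d v * D * y0 + cw a d v * qWx r d v
    c21 := c20 a d v * D * D
    c02 := c01 a d v * D * y1 + cC 2 * c02 a d v * y0 * y1 + ck a d v * D * qC d * qG1 r d v
    c12 := c01 a d v * D * yx + c11 a d v * D * y1 + cC 2 * c02 a d v * y0 * yx +
      ck a d v * D * qQx r d v
    c22 := c11 a d v * D * yx
    c03 := c02 a d v * y1 * y1
    c13 := cC 2 * c02 a d v * y1 * yx
    c23 := c02 a d v * yx * yx }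

/-- The exact data of `u TA`. -/
def exA (r d v : Ex) : T11 Ex := ex11 eA00 eA10 eA20 eA01 eA11 eA02 eAk eAw r d v

/-- The exact data of `u TMG`. -/
def exN (r d v : Ex) : T11 Ex := ex11 eN00 eN10 eN20 eN01 eN11 eN02 eNk eNw r d v

/-- The exact data of `u g TME`. -/
def exM (r d v : Ex) : T7 Ex :=
  let a := qA r d
  let D := qD r d v
  let y0 := qY d v * qG0 r d v
  let y1 := qY d v * qG1 r d v
  let yx := qYx r d v
  { c00 := eMw a d v * qW0 r d v
    c10 := cC (-1) * eMw a d v * qWk r d v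
    c01 := eM01 a d v * D * y0 + eMk a d v * D * qC d * qG0 r d v + eMw a d v * qW1 r d v
    c11 := eM10 a d v * D * D + eM11 a d v * D * y0 + eMw a d v * qWx r d v
    c02 := eM01 a d v * D * y1 + eMk a d v * D * qC d * qG1 r d v
    c12 := eM01 a d v * D * yx + eM11 a d v * D * y1 + eMk a d v * D * qQx r d v
    c22 := eM11 a d v * D * yx }

/-- The exact data of `GG`. -/
def exG (r d v : Ex) : T3 Ex :=
  let a := qA r d
  let D := qD r d v
  ⟨eG00 a d v * D * D, eG10 a d v * D * D, eG20 a d v * D * D⟩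

/-- The exact data of `EG`. -/
def exE (r d v : Ex) : T6 Ex :=
  let a := qA r d
  let D := qD r d v
  let y0 := qY d v * qG0 r d v
  let y1 := qY d v * qG1 r d v
  let yx := qYx r d v
  { c00 := eE00 a d v * D * D + eE01 a d v * D * y0
    c01 := eE01 a d v * D * y1
    c10 := eE10 a d v * D * D + eE11 a d v * D * y0
    c11 := eE01 a d v * D * yx + eE11 a d v * D * y1
    c20 := eE20 a d v * D * D
    c21 := eE11 a d v * D * yx }

/-- The exact data of the product of the signs. -/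
def exP (r d v : Ex) : P3 Ex :=
  let o := cC (-1) * (cC 1 - qS r) * qD r d v
  ⟨o * qY d v * qG0 r d v, o * qY d v * qG1 r d v, o * qYx r d v⟩

/-- The exact data of `u TA` or `u TMG` in `(X, u, φ)`. -/
def ex12 (c00 c10 c20 c01 c11 c02 ck cw : Ex → Ex → Ex → Ex) (r d v : Ex) : T12 Ex :=
  let a := qA r d
  let D := qD r d v
  let yf := qY d v * D
  let yu := cC (-1) * qC d * qK r d v
  { c010 := c00 a d v * D * D
    c100 := cC (-1) * cw a d v * qWk r d v
    c101 := cw a d v * qWg r d v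
    c110 := c10 a d v * D * D + cw a d v * qWc r d v
    c111 := c01 a d v * D * yf + ck a d v * D * D * qC d
    c120 := c01 a d v * D * yu + ck a d v * D * d * yu
    c210 := c20 a d v * D * D
    c211 := c11 a d v * D * yf
    c212 := c02 a d v * yf * yf
    c220 := c11 a d v * D * yu
    c221 := cC 2 * c02 a d v * yf * yu
    c230 := c02 a d v * yu * yu }

/-- The exact data of `u TA` in `(X, u, φ)`. -/
def exA' (r d v : Ex) : T12 Ex := ex12 eA00 eA10 eA20 eA01 eA11 eA02 eAk eAw r d v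

/-- The exact data of `u TMG` in `(X, u, φ)`. -/
def exN' (r d v : Ex) : T12 Ex := ex12 eN00 eN10 eN20 eN01 eN11 eN02 eNk eNw r d v

/-- The exact data of `u g TME / X`. -/
def exM' (r d v : Ex) : U7 Ex :=
  let a := qA r d
  let D := qD r d v
  let yf := qY d v * D
  let yu := cC (-1) * qC d * qK r d v
  { m00 := cC (-1) * eMw a d v * qWk r d v
    m01 := eMw a d v * qWg r d v
    m10 := eM10 a d v * D * D + eMw a d v * qWc r d v
    m11 := eM01 a d v * D * yf + eMk a d v * D * D * qC d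
    m20 := eM01 a d v * D * yu + eMk a d v * D * d * yu
    n11 := eM11 a d v * D * yf
    n20 := eM11 a d v * D * yu }

/-- The exact data of `EG` in `(X, u, φ)`. -/
def exE' (r d v : Ex) : E7 Ex :=
  let a := qA r d
  let D := qD r d v
  let yf := qY d v * D
  let yu := cC (-1) * qC d * qK r d v
  { c000 := eE00 a d v * D * D
    c100 := eE10 a d v * D * D
    c101 := eE01 a d v * D * yf
    c110 := eE01 a d v * D * yu
    c200 := eE20 a d v * D * D
    c201 := eE11 a d v * D * yf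
    c210 := eE11 a d v * D * yu }

/-- The exact data of the product of the signs over `X ^ 2`. -/
def exP' (r d v : Ex) : P2 Ex :=
  let o := cC (-1) * (cC 1 - qS r) * qD r d v
  ⟨o * qY d v * qD r d v, cC (-1) * o * qC d * qK r d v⟩

/-- A row of coefficients in `v`. -/
structure C4 where
  (a b c e : ℤ)

/-- A short row of coefficients in `v`. -/
structure C3 where
  (a b c : ℤ)

/-- A surrogate of a coefficient, in units of `1/10000`, affine in `r`, with its error. -/
structure Sur where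
  (p₀ p₁ p₂ p₃ : C4)
  (q₀ q₁ : C3)
  eps : ℤ

/-- The row at `v`. -/
def C4.ex (c : C4) (v : Ex) : Ex := k₄ c.a + v * (k₄ c.b + v * (k₄ c.c + v * k₄ c.e))

/-- The row at `v`. -/
def C3.ex (c : C3) (v : Ex) : Ex := k₄ c.a + v * (k₄ c.b + v * k₄ c.c)

/-- The surrogate less its error. -/
def Sur.lo (s : Sur) (r d v : Ex) : Ex :=
  s.p₀.ex v - k₄ s.eps + d * (s.p₁.ex v + d * (s.p₂.ex v + d * s.p₃.ex v)) +
    r * (s.q₀.ex v + d * s.q₁.ex v)

/-- The surrogate plus its error. -/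
def Sur.hi (s : Sur) (r d v : Ex) : Ex :=
  s.p₀.ex v + k₄ s.eps + d * (s.p₁.ex v + d * (s.p₂.ex v + d * s.p₃.ex v)) +
    r * (s.q₀.ex v + d * s.q₁.ex v)

section
variable {α β : Type} (f : α → β)

/-- Apply to all data. -/
def T11.map (t : T11 α) : T11 β :=
  ⟨f t.c00, f t.c10, f t.c01, f t.c11, f t.c21, f t.c02, f t.c12, f t.c22, f t.c03, f t.c13,
    f t.c23⟩

/-- Apply to all data. -/
def T7.map (t : T7 α) : T7 β :=
  ⟨f t.c00, f t.c10, f t.c01, f t.c11, f t.c02, f t.c12, f t.c22⟩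

/-- Apply to all data. -/
def T3.map (t : T3 α) : T3 β := ⟨f t.c0, f t.c1, f t.c2⟩

/-- Apply to all data. -/
def T6.map (t : T6 α) : T6 β := ⟨f t.c00, f t.c01, f t.c10, f t.c11, f t.c20, f t.c21⟩

/-- Apply to all data. -/
def P3.map (t : P3 α) : P3 β := ⟨f t.c10, f t.c11, f t.c21⟩

/-- Apply to all data. -/
def T12.map (t : T12 α) : T12 β :=
  ⟨f t.c010, f t.c100, f t.c101, f t.c110, f t.c111, f t.c120, f t.c210, f t.c211, f t.c212,
    f t.c220, f t.c221, f t.c230⟩

/-- Apply to all data. -/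
def U7.map (t : U7 α) : U7 β :=
  ⟨f t.m00, f t.m01, f t.m10, f t.m11, f t.m20, f t.n11, f t.n20⟩

/-- Apply to all data. -/
def E7.map (t : E7 α) : E7 β :=
  ⟨f t.c000, f t.c100, f t.c101, f t.c110, f t.c200, f t.c201, f t.c210⟩

/-- Apply to all data. -/
def P2.map (t : P2 α) : P2 β := ⟨f t.c01, f t.c10⟩

end

/-- Surrogates of the forms in `(X, u)`; `X` is in units of `1 + mu r`. -/
structure Group where
  mu : ℤ
  A : T11 Sur
  M : T7 Sur
  G : T3 Sur
  E : T6 Sur
  P : P3 Sur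
  N : T11 Sur

/-- Surrogates of the forms in `(X, u, φ)`. -/
structure GroupD where
  A : T12 Sur
  M : U7 Sur
  G : T3 Sur
  E : E7 Sur
  P : P2 Sur
  N : T12 Sur

/-- Coefficients affine in `d`. -/
structure L2 where
  (c₀ c₁ : ℤ)

/-- Coefficients of a quadratic in `(d, v)`. -/
structure Q6 where
  (c cd cv cvv cdv cdd : ℤ)

/-- Coefficients of a quadratic in `(x, d, v)`. -/
structure Q10 where
  (c cx cd cv cxd cxv cdv cxx cvv cdd : ℤ)

/-- Coefficients of a quadratic in `(θ, x, d, w)`. -/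
structure Q15 where
  (c ct cx cd cw ctt ctx ctd ctw cxx cxd cxw cdd cdw cww : ℤ)

/-- The value. -/
def L2.ex (l : L2) (d : Ex) : Ex := k₄ l.c₀ + d * k₄ l.c₁

/-- The value. -/
def Q6.ex (q : Q6) (d v : Ex) : Ex :=
  k₄ q.c + d * (k₄ q.cd + d * k₄ q.cdd) + v * (k₄ q.cv + k₄ q.cdv * d + v * k₄ q.cvv)

/-- The value. -/
def Q10.ex (q : Q10) (x d v : Ex) : Ex :=
  k₄ q.c + d * (k₄ q.cd + d * k₄ q.cdd) + v * (k₄ q.cv + k₄ q.cdv * d + v * k₄ q.cvv) +
    x * (k₄ q.cx + k₄ q.cxd * d + k₄ q.cxv * v + x * k₄ q.cxx)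

/-- The value at the variables. -/
def Q15.ex (q : Q15) : Ex :=
  k₄ q.c + Ex.x₂ * (k₄ q.cd + Ex.x₂ * k₄ q.cdd) +
    Ex.x₃ * (k₄ q.cw + k₄ q.cdw * Ex.x₂ + Ex.x₃ * k₄ q.cww) +
    Ex.x₁ * (k₄ q.cx + k₄ q.cxd * Ex.x₂ + k₄ q.cxw * Ex.x₃ + Ex.x₁ * k₄ q.cxx) +
    Ex.x₀ * (k₄ q.ct + k₄ q.ctd * Ex.x₂ + k₄ q.ctw * Ex.x₃ + k₄ q.ctx * Ex.x₁ + Ex.x₀ * k₄ q.ctt)

end Vale.Agent.P100.Calib.Closed.Bot
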