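import Vale.Agent.P100.Calib.SlabBotReal

/-!
# Bounds of the forms by their surrogates
-/

set_option linter.unusedVariables false
set_option linter.unusedSimpArgs false

namespace Vale.Agent.P100.Calib.Closed.Bot

open BoxPos
open Large (PosBox)

local instance botFitAdd : Add Ex := ⟨Ex.add⟩
local instance botFitSub : Sub Ex := ⟨Ex.sub⟩
local instance botFitMul : Mul Ex := ⟨Ex.mul⟩

/-- A power of `1 + mu r`. -/
def qF (mu : ℤ) : ℕ → Ex
  | 0 => cC 1
  | n + 1 => qF mu n * (cC 1 + cC mu * Ex.x₁)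

/-- The upper error of a surrogate. -/
def Sur.upEx (s : Sur) (mu : ℤ) (i : ℕ) (C : Ex) : Ex :=
  qD Ex.x₁ Ex.x₂ Ex.x₃ * qD Ex.x₁ Ex.x₂ Ex.x₃ * s.hi Ex.x₁ Ex.x₂ Ex.x₃ - C * qF mu i

/-- The lower error of a surrogate. -/
def Sur.downEx (s : Sur) (mu : ℤ) (i : ℕ) (C : Ex) : Ex :=
  C * qF mu i - qD Ex.x₁ Ex.x₂ Ex.x₃ * qD Ex.x₁ Ex.x₂ Ex.x₃ * s.lo Ex.x₁ Ex.x₂ Ex.x₃

/-- A surrogate approximates a coefficient within its error. -/
structure Sur.Fits (b : Box) (mu : ℤ) (i : ℕ) (C : Ex) (s : Sur) : Prop where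
  up : PosBox b (s.upEx mu i C)
  down : PosBox b (s.downEx mu i C)

/-- The lower value of a surrogate. -/
noncomputable def Sur.loR (s : Sur) (r d v : ℝ) : ℝ := at3 r d v (s.lo Ex.x₁ Ex.x₂ Ex.x₃)

/-- The upper value of a surrogate. -/
noncomputable def Sur.hiR (s : Sur) (r d v : ℝ) : ℝ := at3 r d v (s.hi Ex.x₁ Ex.x₂ Ex.x₃)

theorem Sur.val_lo (s : Sur) (re de ve : Ex) (o x y z : ℝ) :
    (s.lo re de ve).val o x y z = s.loR (re.val o x y z) (de.val o x y z) (ve.val o x y z) := by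
  simp only [Sur.lo, Sur.loR, at3, C4.ex, C3.ex, k₄, ex_add, ex_sub, ex_mul, Ex.val]

theorem Sur.val_hi (s : Sur) (re de ve : Ex) (o x y z : ℝ) :
    (s.hi re de ve).val o x y z = s.hiR (re.val o x y z) (de.val o x y z) (ve.val o x y z) := by
  simp only [Sur.hi, Sur.hiR, at3, C4.ex, C3.ex, k₄, ex_add, ex_sub, ex_mul, Ex.val]

theorem Sur.loR_mix (s : Sur) (t R d v : ℝ) :
    s.loR (t * R) d v = (1 - t) * s.loR 0 d v + t * s.loR R d v := by
  simp only [Sur.loR, at3, Sur.lo, C4.ex, C3.ex, k₄, ex_add, ex_sub, ex_mul, Ex.val]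
  push_cast
  ring

theorem Sur.hiR_mix (s : Sur) (t R d v : ℝ) :
    s.hiR (t * R) d v = (1 - t) * s.hiR 0 d v + t * s.hiR R d v := by
  simp only [Sur.hiR, at3, Sur.hi, C4.ex, C3.ex, k₄, ex_add, ex_sub, ex_mul, Ex.val]
  push_cast
  ring

theorem at3_qF (mu : ℤ) (r d v : ℝ) : ∀ i, at3 r d v (qF mu i) = (1 + mu * r) ^ i
  | 0 => by simp [at3, qF, Ex.val]
  | n + 1 => by
    have h := at3_qF mu r d v n
    simp only [at3] at h
    simp only [at3, qF, ex_add, ex_mul, Ex.val, h]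
    push_cast
    ring

/-- A point of the box of a group. -/
structure InBox (b : Box) (r d v : ℝ) : Prop where
  zero : b.s₀.Mem 0
  hr : b.s₁.Mem r
  hd : b.s₂.Mem d
  hv : b.s₃.Mem v

theorem Sur.Fits.bounds {b : Box} {mu : ℤ} {i : ℕ} {C : Ex} {s : Sur} (h : s.Fits b mu i C)
    {r d v : ℝ} (p : InBox b r d v) :
    rD r d v ^ 2 * s.loR r d v ≤ at3 r d v C * (1 + mu * r) ^ i ∧
      at3 r d v C * (1 + mu * r) ^ i ≤ rD r d v ^ 2 * s.hiR r d v := by
  have h1 := h.up 0 r d v p.zero p.hr p.hd p.hv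
  have h2 := h.down 0 r d v p.zero p.hr p.hd p.hv
  have e := at3_qF mu r d v i
  simp only [at3] at e
  simp only [Sur.upEx, Sur.downEx, ex_sub, ex_mul, e] at h1 h2
  simp only [rD, at3, Sur.loR, Sur.hiR, sq]
  exact ⟨by linarith, by linarith⟩

/-- The surrogates of a form in `(X, u)`. -/
structure T11.Fit (b : Box) (mu : ℤ) (C : T11 Ex) (s : T11 Sur) : Prop where
  c00 : s.c00.Fits b mu 0 C.c00
  c10 : s.c10.Fits b mu 1 C.c10
  c01 : s.c01.Fits b mu 0 C.c01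
  c11 : s.c11.Fits b mu 1 C.c11
  c21 : s.c21.Fits b mu 2 C.c21
  c02 : s.c02.Fits b mu 0 C.c02
  c12 : s.c12.Fits b mu 1 C.c12
  c22 : s.c22.Fits b mu 2 C.c22
  c03 : s.c03.Fits b mu 0 C.c03
  c13 : s.c13.Fits b mu 1 C.c13
  c23 : s.c23.Fits b mu 2 C.c23

/-- The surrogates of `u ME`. -/
structure T7.Fit (b : Box) (mu : ℤ) (C : T7 Ex) (s : T7 Sur) : Prop where
  c00 : s.c00.Fits b mu 0 C.c00
  c10 : s.c10.Fits b mu 1 C.c10
  c01 : s.c01.Fits b mu 0 C.c01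
  c11 : s.c11.Fits b mu 1 C.c11
  c02 : s.c02.Fits b mu 0 C.c02
  c12 : s.c12.Fits b mu 1 C.c12
  c22 : s.c22.Fits b mu 2 C.c22

/-- The surrogates of `GG`. -/
structure T3.Fit (b : Box) (mu : ℤ) (C : T3 Ex) (s : T3 Sur) : Prop where
  c0 : s.c0.Fits b mu 0 C.c0
  c1 : s.c1.Fits b mu 1 C.c1
  c2 : s.c2.Fits b mu 2 C.c2

/-- The surrogates of `EG`. -/
structure T6.Fit (b : Box) (mu : ℤ) (C : T6 Ex) (s : T6 Sur) : Prop where
  c00 : s.c00.Fits b mu 0 C.c00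
  c01 : s.c01.Fits b mu 0 C.c01
  c10 : s.c10.Fits b mu 1 C.c10
  c11 : s.c11.Fits b mu 1 C.c11
  c20 : s.c20.Fits b mu 2 C.c20
  c21 : s.c21.Fits b mu 2 C.c21

/-- The surrogates of the product of the signs. -/
structure P3.Fit (b : Box) (mu : ℤ) (C : P3 Ex) (s : P3 Sur) : Prop where
  c10 : s.c10.Fits b mu 1 C.c10
  c11 : s.c11.Fits b mu 1 C.c11
  c21 : s.c21.Fits b mu 2 C.c21

/-- The surrogates of a form in `(X, u, φ)`. -/
structure T12.Fit (b : Box) (C : T12 Ex) (s : T12 Sur) : Prop where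
  c010 : s.c010.Fits b 0 0 C.c010
  c100 : s.c100.Fits b 0 0 C.c100
  c101 : s.c101.Fits b 0 0 C.c101
  c110 : s.c110.Fits b 0 0 C.c110
  c111 : s.c111.Fits b 0 0 C.c111
  c120 : s.c120.Fits b 0 0 C.c120
  c210 : s.c210.Fits b 0 0 C.c210
  c211 : s.c211.Fits b 0 0 C.c211
  c212 : s.c212.Fits b 0 0 C.c212
  c220 : s.c220.Fits b 0 0 C.c220
  c221 : s.c221.Fits b 0 0 C.c221
  c230 : s.c230.Fits b 0 0 C.c230

/-- The surrogates of `u ME / X`. -/
structure U7.Fit (b : Box) (C : U7 Ex) (s : U7 Sur) : Prop where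
  m00 : s.m00.Fits b 0 0 C.m00
  m01 : s.m01.Fits b 0 0 C.m01
  m10 : s.m10.Fits b 0 0 C.m10
  m11 : s.m11.Fits b 0 0 C.m11
  m20 : s.m20.Fits b 0 0 C.m20
  n11 : s.n11.Fits b 0 0 C.n11
  n20 : s.n20.Fits b 0 0 C.n20

/-- The surrogates of `EG` in `(X, u, φ)`. -/
structure E7.Fit (b : Box) (C : E7 Ex) (s : E7 Sur) : Prop where
  c000 : s.c000.Fits b 0 0 C.c000
  c100 : s.c100.Fits b 0 0 C.c100
  c101 : s.c101.Fits b 0 0 C.c101
  c110 : s.c110.Fits b 0 0 C.c110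
  c200 : s.c200.Fits b 0 0 C.c200
  c201 : s.c201.Fits b 0 0 C.c201
  c210 : s.c210.Fits b 0 0 C.c210

/-- The surrogates of the product of the signs over `X ^ 2`. -/
structure P2.Fit (b : Box) (C : P2 Ex) (s : P2 Sur) : Prop where
  c01 : s.c01.Fits b 0 0 C.c01
  c10 : s.c10.Fits b 0 0 C.c10

/-- The certified surrogates of a group. -/
structure Group.Fit (b : Box) (Gr : Group) : Prop where
  A : T11.Fit b Gr.mu (exA Ex.x₁ Ex.x₂ Ex.x₃) Gr.A
  M : T7.Fit b Gr.mu (exM Ex.x₁ Ex.x₂ Ex.x₃) Gr.M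
  G : T3.Fit b Gr.mu (exG Ex.x₁ Ex.x₂ Ex.x₃) Gr.G
  E : T6.Fit b Gr.mu (exE Ex.x₁ Ex.x₂ Ex.x₃) Gr.E
  P : P3.Fit b Gr.mu (exP Ex.x₁ Ex.x₂ Ex.x₃) Gr.P
  N : T11.Fit b Gr.mu (exN Ex.x₁ Ex.x₂ Ex.x₃) Gr.N

/-- The certified surrogates of a group, with the forms concave in `φ`. -/
structure GroupD.Fit (b : Box) (Gr : GroupD) : Prop where
  A : T12.Fit b (exA' Ex.x₁ Ex.x₂ Ex.x₃) Gr.A
  M : U7.Fit b (exM' Ex.x₁ Ex.x₂ Ex.x₃) Gr.M
  G : T3.Fit b 0 (exG Ex.x₁ Ex.x₂ Ex.x₃) Gr.G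
  E : E7.Fit b (exE' Ex.x₁ Ex.x₂ Ex.x₃) Gr.E
  P : P2.Fit b (exP' Ex.x₁ Ex.x₂ Ex.x₃) Gr.P
  N : T12.Fit b (exN' Ex.x₁ Ex.x₂ Ex.x₃) Gr.N
  A₂ : PosBox b (cC (-1) * Gr.A.c212.lo Ex.x₁ Ex.x₂ Ex.x₃)
  N₂ : PosBox b (cC (-1) * Gr.N.c212.lo Ex.x₁ Ex.x₂ Ex.x₃)

section
variable {b : Box} {mu : ℤ} {r d v X u f : ℝ} (p : InBox b r d v) (hX : 0 ≤ X) (hu : 0 ≤ u)
include p hX hu

theorem T11.Fit.lower {C : T11 Ex} {s : T11 Sur} (h : T11.Fit b mu C s) :
    rD r d v ^ 2 * (s.map fun z => z.loR r d v).poly X u ≤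
      (C.map (at3 r d v)).poly ((1 + mu * r) * X) u := by
  simp only [T11.map, T11.poly]
  have hx1 := mul_nonneg hX hu
  have hx2 := mul_nonneg (sq_nonneg X) hu
  linarith [(h.c00.bounds p).1, mul_le_mul_of_nonneg_right (h.c10.bounds p).1 hX,
    mul_le_mul_of_nonneg_right (h.c01.bounds p).1 hu,
    mul_le_mul_of_nonneg_right (h.c11.bounds p).1 hx1,
    mul_le_mul_of_nonneg_right (h.c21.bounds p).1 hx2,
    mul_le_mul_of_nonneg_right (h.c02.bounds p).1 (sq_nonneg u),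
    mul_le_mul_of_nonneg_right (h.c12.bounds p).1 (mul_nonneg hX (sq_nonneg u)),
    mul_le_mul_of_nonneg_right (h.c22.bounds p).1 (mul_nonneg (sq_nonneg X) (sq_nonneg u)),
    mul_le_mul_of_nonneg_right (h.c03.bounds p).1 (pow_nonneg hu 3),
    mul_le_mul_of_nonneg_right (h.c13.bounds p).1 (mul_nonneg hX (pow_nonneg hu 3)),
    mul_le_mul_of_nonneg_right (h.c23.bounds p).1 (mul_nonneg (sq_nonneg X) (pow_nonneg hu 3))]

theorem T7.Fit.both {C : T7 Ex} {s : T7 Sur} (h : T7.Fit b mu C s) :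
    rD r d v ^ 2 * (s.map fun z => z.loR r d v).poly X u ≤
        (C.map (at3 r d v)).poly ((1 + mu * r) * X) u ∧
      (C.map (at3 r d v)).poly ((1 + mu * r) * X) u ≤
        rD r d v ^ 2 * (s.map fun z => z.hiR r d v).poly X u := by
  simp only [T7.map, T7.poly]
  have hx1 := mul_nonneg hX hu
  constructor
  · linarith [(h.c00.bounds p).1, mul_le_mul_of_nonneg_right (h.c10.bounds p).1 hX,
      mul_le_mul_of_nonneg_right (h.c01.bounds p).1 hu,
      mul_le_mul_of_nonneg_right (h.c11.bounds p).1 hx1,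
      mul_le_mul_of_nonneg_right (h.c02.bounds p).1 (sq_nonneg u),
      mul_le_mul_of_nonneg_right (h.c12.bounds p).1 (mul_nonneg hX (sq_nonneg u)),
      mul_le_mul_of_nonneg_right (h.c22.bounds p).1 (mul_nonneg (sq_nonneg X) (sq_nonneg u))]
  · linarith [(h.c00.bounds p).2, mul_le_mul_of_nonneg_right (h.c10.bounds p).2 hX,
      mul_le_mul_of_nonneg_right (h.c01.bounds p).2 hu,
      mul_le_mul_of_nonneg_right (h.c11.bounds p).2 hx1,
      mul_le_mul_of_nonneg_right (h.c02.bounds p).2 (sq_nonneg u),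
      mul_le_mul_of_nonneg_right (h.c12.bounds p).2 (mul_nonneg hX (sq_nonneg u)),
      mul_le_mul_of_nonneg_right (h.c22.bounds p).2 (mul_nonneg (sq_nonneg X) (sq_nonneg u))]

omit hu in
theorem T3.Fit.lower {C : T3 Ex} {s : T3 Sur} (h : T3.Fit b mu C s) :
    rD r d v ^ 2 * (s.map fun z => z.loR r d v).poly X ≤
      (C.map (at3 r d v)).poly ((1 + mu * r) * X) := by
  simp only [T3.map, T3.poly]
  linarith [(h.c0.bounds p).1, mul_le_mul_of_nonneg_right (h.c1.bounds p).1 hX,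
    mul_le_mul_of_nonneg_right (h.c2.bounds p).1 (sq_nonneg X)]

theorem T6.Fit.both {C : T6 Ex} {s : T6 Sur} (h : T6.Fit b mu C s) :
    rD r d v ^ 2 * (s.map fun z => z.loR r d v).poly X u ≤
        (C.map (at3 r d v)).poly ((1 + mu * r) * X) u ∧
      (C.map (at3 r d v)).poly ((1 + mu * r) * X) u ≤
        rD r d v ^ 2 * (s.map fun z => z.hiR r d v).poly X u := by
  simp only [T6.map, T6.poly]
  have hx1 := mul_nonneg hX hu
  constructor
  · linarith [(h.c00.bounds p).1, mul_le_mul_of_nonneg_right (h.c01.bounds p).1 hu,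
      mul_le_mul_of_nonneg_right (h.c10.bounds p).1 hX,
      mul_le_mul_of_nonneg_right (h.c11.bounds p).1 hx1,
      mul_le_mul_of_nonneg_right (h.c20.bounds p).1 (sq_nonneg X),
      mul_le_mul_of_nonneg_right (h.c21.bounds p).1 (mul_nonneg (sq_nonneg X) hu)]
  · linarith [(h.c00.bounds p).2, mul_le_mul_of_nonneg_right (h.c01.bounds p).2 hu,
      mul_le_mul_of_nonneg_right (h.c10.bounds p).2 hX,
      mul_le_mul_of_nonneg_right (h.c11.bounds p).2 hx1,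
      mul_le_mul_of_nonneg_right (h.c20.bounds p).2 (sq_nonneg X),
      mul_le_mul_of_nonneg_right (h.c21.bounds p).2 (mul_nonneg (sq_nonneg X) hu)]

theorem P3.Fit.lower {C : P3 Ex} {s : P3 Sur} (h : P3.Fit b mu C s) :
    rD r d v ^ 2 * (s.map fun z => z.loR r d v).poly X u ≤
      (C.map (at3 r d v)).poly ((1 + mu * r) * X) u := by
  simp only [P3.map, P3.poly]
  linarith [mul_le_mul_of_nonneg_right (h.c10.bounds p).1 hX,
    mul_le_mul_of_nonneg_right (h.c11.bounds p).1 (mul_nonneg hX hu),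
    mul_le_mul_of_nonneg_right (h.c21.bounds p).1 (mul_nonneg (sq_nonneg X) hu)]

theorem T12.Fit.lower (hf : 0 ≤ f) {C : T12 Ex} {s : T12 Sur} (h : T12.Fit b C s) :
    rD r d v ^ 2 * (s.map fun z => z.loR r d v).poly X u f ≤
      (C.map (at3 r d v)).poly X u f := by
  simp only [T12.map, T12.poly]
  have e : ∀ {z : Sur} {K : Ex}, z.Fits b 0 0 K → rD r d v ^ 2 * z.loR r d v ≤ at3 r d v K :=
    fun hz => by simpa using (hz.bounds p).1
  have hx2 := mul_nonneg (sq_nonneg X) hu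
  have hx1 := mul_nonneg hX hu
  linarith [mul_le_mul_of_nonneg_right (e h.c010) hu, mul_le_mul_of_nonneg_right (e h.c100) hX,
    mul_le_mul_of_nonneg_right (e h.c101) (mul_nonneg hX hf),
    mul_le_mul_of_nonneg_right (e h.c110) hx1,
    mul_le_mul_of_nonneg_right (e h.c111) (mul_nonneg hx1 hf),
    mul_le_mul_of_nonneg_right (e h.c120) (mul_nonneg hX (sq_nonneg u)),
    mul_le_mul_of_nonneg_right (e h.c210) hx2,
    mul_le_mul_of_nonneg_right (e h.c211) (mul_nonneg hx2 hf),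
    mul_le_mul_of_nonneg_right (e h.c212) (mul_nonneg hx2 (sq_nonneg f)),
    mul_le_mul_of_nonneg_right (e h.c220) (mul_nonneg hx2 hu),
    mul_le_mul_of_nonneg_right (e h.c221) (mul_nonneg (mul_nonneg hx2 hu) hf),
    mul_le_mul_of_nonneg_right (e h.c230) (mul_nonneg hx2 (sq_nonneg u))]

theorem U7.Fit.both (hf : 0 ≤ f) {C : U7 Ex} {s : U7 Sur} (h : U7.Fit b C s) :
    rD r d v ^ 2 * (s.map fun z => z.loR r d v).poly X u f ≤ (C.map (at3 r d v)).poly X u f ∧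
      (C.map (at3 r d v)).poly X u f ≤
        rD r d v ^ 2 * (s.map fun z => z.hiR r d v).poly X u f := by
  simp only [U7.map, U7.poly]
  have e : ∀ {z : Sur} {K : Ex}, z.Fits b 0 0 K → rD r d v ^ 2 * z.loR r d v ≤ at3 r d v K ∧
      at3 r d v K ≤ rD r d v ^ 2 * z.hiR r d v := fun hz => by simpa using hz.bounds p
  constructor
  · linarith [(e h.m00).1, mul_le_mul_of_nonneg_right (e h.m01).1 hf,
      mul_le_mul_of_nonneg_right (e h.m10).1 hu,
      mul_le_mul_of_nonneg_right (e h.m11).1 (mul_nonneg hu hf),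
      mul_le_mul_of_nonneg_right (e h.m20).1 (sq_nonneg u),
      mul_le_mul_of_nonneg_right (e h.n11).1 (mul_nonneg (mul_nonneg hX hu) hf),
      mul_le_mul_of_nonneg_right (e h.n20).1 (mul_nonneg hX (sq_nonneg u))]
  · linarith [(e h.m00).2, mul_le_mul_of_nonneg_right (e h.m01).2 hf,
      mul_le_mul_of_nonneg_right (e h.m10).2 hu,
      mul_le_mul_of_nonneg_right (e h.m11).2 (mul_nonneg hu hf),
      mul_le_mul_of_nonneg_right (e h.m20).2 (sq_nonneg u),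
      mul_le_mul_of_nonneg_right (e h.n11).2 (mul_nonneg (mul_nonneg hX hu) hf),
      mul_le_mul_of_nonneg_right (e h.n20).2 (mul_nonneg hX (sq_nonneg u))]

theorem E7.Fit.both (hf : 0 ≤ f) {C : E7 Ex} {s : E7 Sur} (h : E7.Fit b C s) :
    rD r d v ^ 2 * (s.map fun z => z.loR r d v).poly X u f ≤ (C.map (at3 r d v)).poly X u f ∧
      (C.map (at3 r d v)).poly X u f ≤
        rD r d v ^ 2 * (s.map fun z => z.hiR r d v).poly X u f := by
  simp only [E7.map, E7.poly]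
  have e : ∀ {z : Sur} {K : Ex}, z.Fits b 0 0 K → rD r d v ^ 2 * z.loR r d v ≤ at3 r d v K ∧
      at3 r d v K ≤ rD r d v ^ 2 * z.hiR r d v := fun hz => by simpa using hz.bounds p
  constructor
  · linarith [(e h.c000).1, mul_le_mul_of_nonneg_right (e h.c100).1 hX,
      mul_le_mul_of_nonneg_right (e h.c101).1 (mul_nonneg hX hf),
      mul_le_mul_of_nonneg_right (e h.c110).1 (mul_nonneg hX hu),
      mul_le_mul_of_nonneg_right (e h.c200).1 (sq_nonneg X),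
      mul_le_mul_of_nonneg_right (e h.c201).1 (mul_nonneg (sq_nonneg X) hf),
      mul_le_mul_of_nonneg_right (e h.c210).1 (mul_nonneg (sq_nonneg X) hu)]
  · linarith [(e h.c000).2, mul_le_mul_of_nonneg_right (e h.c100).2 hX,
      mul_le_mul_of_nonneg_right (e h.c101).2 (mul_nonneg hX hf),
      mul_le_mul_of_nonneg_right (e h.c110).2 (mul_nonneg hX hu),
      mul_le_mul_of_nonneg_right (e h.c200).2 (sq_nonneg X),
      mul_le_mul_of_nonneg_right (e h.c201).2 (mul_nonneg (sq_nonneg X) hf),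
      mul_le_mul_of_nonneg_right (e h.c210).2 (mul_nonneg (sq_nonneg X) hu)]

omit hX in
theorem P2.Fit.lower (hf : 0 ≤ f) {C : P2 Ex} {s : P2 Sur} (h : P2.Fit b C s) :
    rD r d v ^ 2 * (s.map fun z => z.loR r d v).poly u f ≤ (C.map (at3 r d v)).poly u f := by
  simp only [P2.map, P2.poly]
  have e : ∀ {z : Sur} {K : Ex}, z.Fits b 0 0 K → rD r d v ^ 2 * z.loR r d v ≤ at3 r d v K :=
    fun hz => by simpa using (hz.bounds p).1
  linarith [mul_le_mul_of_nonneg_right (e h.c01) hf, mul_le_mul_of_nonneg_right (e h.c10) hu]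

end

end Vale.Agent.P100.Calib.Closed.Bot
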