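import Vale.Agent.P100.Calib.SlabBotFit
import Vale.Agent.P100.Calib.SlabBotData

/-!
# The surrogates for `1.55 ≤ v ≤ 2.72`, `0.014 ≤ d ≤ 0.05` are within their errors
-/

namespace Vale.Agent.P100.Calib.Closed.Bot

open BoxPos

open Large (PosBox posBox_of_check posBox_join₂)

local instance botFitBAdd : Add Ex := ⟨Ex.add⟩
local instance botFitBSub : Sub Ex := ⟨Ex.sub⟩
local instance botFitBMul : Mul Ex := ⟨Ex.mul⟩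

/-- The box of the surrogates. -/
def boxB : Box := ⟨⟨0, 1, 1⟩, ⟨0, 4168, 1000000⟩, ⟨14000, 50001, 1000000⟩, ⟨155000, 272001, 100000⟩⟩

theorem fitBA : T11.Fit boxB (0) (exA Ex.x₁ Ex.x₂ Ex.x₃) groupBA where
  c00 :=
    ⟨(posBox_of_check (c := ⟨457, ⟨0, 10, 11, 6⟩⟩) (by decide +kernel)),
      (posBox_of_check (c := ⟨457, ⟨0, 10, 11, 6⟩⟩) (by decide +kernel))⟩
  c10 :=
    ⟨(posBox_of_check (c := ⟨479, ⟨0, 12, 11, 5⟩⟩) (by decide +kernel)),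
      (posBox_of_check (c := ⟨479, ⟨0, 12, 11, 5⟩⟩) (by decide +kernel))⟩
  c01 :=
    ⟨(posBox_of_check (c := ⟨611, ⟨0, 13, 15, 8⟩⟩) (by decide +kernel)),
      (posBox_of_check (c := ⟨611, ⟨0, 13, 15, 8⟩⟩) (by decide +kernel))⟩
  c11 :=
    ⟨(posBox_of_check (c := ⟨582, ⟨0, 13, 14, 7⟩⟩) (by decide +kernel)),
      (posBox_of_check (c := ⟨582, ⟨0, 13, 14, 7⟩⟩) (by decide +kernel))⟩
  c21 :=
    ⟨(posBox_of_check (c := ⟨553, ⟨0, 13, 13, 6⟩⟩) (by decide +kernel)),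
      (posBox_of_check (c := ⟨553, ⟨0, 13, 13, 6⟩⟩) (by decide +kernel))⟩
  c02 :=
    ⟨(posBox_of_check (c := ⟨543, ⟨0, 11, 13, 7⟩⟩) (by decide +kernel)),
      (posBox_of_check (c := ⟨543, ⟨0, 11, 13, 7⟩⟩) (by decide +kernel))⟩
  c12 :=
    ⟨(posBox_of_check (c := ⟨564, ⟨0, 13, 14, 6⟩⟩) (by decide +kernel)),
      (posBox_of_check (c := ⟨564, ⟨0, 13, 14, 6⟩⟩) (by decide +kernel))⟩
  c22 :=
    ⟨(posBox_of_check (c := ⟨529, ⟨0, 13, 13, 5⟩⟩) (by decide +kernel)),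
      (posBox_of_check (c := ⟨529, ⟨0, 13, 13, 5⟩⟩) (by decide +kernel))⟩
  c03 :=
    ⟨(posBox_of_check (c := ⟨508, ⟨0, 9, 12, 7⟩⟩) (by decide +kernel)),
      (posBox_of_check (c := ⟨508, ⟨0, 9, 12, 7⟩⟩) (by decide +kernel))⟩
  c13 :=
    ⟨(posBox_of_check (c := ⟨530, ⟨0, 11, 13, 6⟩⟩) (by decide +kernel)),
      (posBox_of_check (c := ⟨530, ⟨0, 11, 13, 6⟩⟩) (by decide +kernel))⟩
  c23 :=
    ⟨(posBox_of_check (c := ⟨550, ⟨0, 13, 14, 5⟩⟩) (by decide +kernel)),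
      (posBox_of_check (c := ⟨550, ⟨0, 13, 14, 5⟩⟩) (by decide +kernel))⟩

theorem fitBM : T7.Fit boxB (0) (exM Ex.x₁ Ex.x₂ Ex.x₃) groupBM where
  c00 :=
    ⟨(posBox_of_check (c := ⟨365, ⟨0, 8, 8, 5⟩⟩) (by decide +kernel)),
      (posBox_of_check (c := ⟨365, ⟨0, 8, 8, 5⟩⟩) (by decide +kernel))⟩
  c10 :=
    ⟨(posBox_of_check (c := ⟨383, ⟨0, 10, 8, 5⟩⟩) (by decide +kernel)),
      (posBox_of_check (c := ⟨383, ⟨0, 10, 8, 5⟩⟩) (by decide +kernel))⟩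
  c01 :=
    ⟨(posBox_of_check (c := ⟨381, ⟨0, 8, 9, 5⟩⟩) (by decide +kernel)),
      (posBox_of_check (c := ⟨381, ⟨0, 8, 9, 5⟩⟩) (by decide +kernel))⟩
  c11 :=
    ⟨(posBox_of_check (c := ⟨449, ⟨0, 11, 10, 5⟩⟩) (by decide +kernel)),
      (posBox_of_check (c := ⟨449, ⟨0, 11, 10, 5⟩⟩) (by decide +kernel))⟩
  c02 :=
    ⟨(posBox_of_check (c := ⟨378, ⟨0, 7, 8, 5⟩⟩) (by decide +kernel)),
      (posBox_of_check (c := ⟨378, ⟨0, 7, 8, 5⟩⟩) (by decide +kernel))⟩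
  c12 :=
    ⟨(posBox_of_check (c := ⟨420, ⟨0, 9, 9, 5⟩⟩) (by decide +kernel)),
      (posBox_of_check (c := ⟨420, ⟨0, 9, 9, 5⟩⟩) (by decide +kernel))⟩
  c22 :=
    ⟨(posBox_of_check (c := ⟨404, ⟨0, 11, 9, 5⟩⟩) (by decide +kernel)),
      (posBox_of_check (c := ⟨404, ⟨0, 11, 9, 5⟩⟩) (by decide +kernel))⟩

theorem fitBG : T3.Fit boxB (0) (exG Ex.x₁ Ex.x₂ Ex.x₃) groupBG where
  c0 :=
    ⟨(posBox_of_check (c := ⟨567, ⟨0, 13, 14, 8⟩⟩) (by decide +kernel)),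
      (posBox_of_check (c := ⟨567, ⟨0, 13, 14, 8⟩⟩) (by decide +kernel))⟩
  c1 :=
    ⟨(posBox_of_check (c := ⟨540, ⟨0, 13, 13, 6⟩⟩) (by decide +kernel)),
      (posBox_of_check (c := ⟨540, ⟨0, 13, 13, 6⟩⟩) (by decide +kernel))⟩
  c2 :=
    ⟨(posBox_of_check (c := ⟨513, ⟨0, 13, 12, 5⟩⟩) (by decide +kernel)),
      (posBox_of_check (c := ⟨513, ⟨0, 13, 12, 5⟩⟩) (by decide +kernel))⟩

theorem fitBE : T6.Fit boxB (0) (exE Ex.x₁ Ex.x₂ Ex.x₃) groupBE where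
  c00 :=
    ⟨(posBox_of_check (c := ⟨528, ⟨0, 13, 13, 6⟩⟩) (by decide +kernel)),
      (posBox_of_check (c := ⟨528, ⟨0, 13, 13, 6⟩⟩) (by decide +kernel))⟩
  c01 :=
    ⟨(posBox_of_check (c := ⟨474, ⟨0, 11, 11, 6⟩⟩) (by decide +kernel)),
      (posBox_of_check (c := ⟨474, ⟨0, 11, 11, 6⟩⟩) (by decide +kernel))⟩
  c10 :=
    ⟨(posBox_of_check (c := ⟨501, ⟨0, 13, 12, 5⟩⟩) (by decide +kernel)),
      (posBox_of_check (c := ⟨501, ⟨0, 13, 12, 5⟩⟩) (by decide +kernel))⟩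
  c11 :=
    ⟨(posBox_of_check (c := ⟨498, ⟨0, 13, 12, 5⟩⟩) (by decide +kernel)),
      (posBox_of_check (c := ⟨498, ⟨0, 13, 12, 5⟩⟩) (by decide +kernel))⟩
  c20 :=
    ⟨(posBox_of_check (c := ⟨472, ⟨0, 13, 11, 5⟩⟩) (by decide +kernel)),
      (posBox_of_check (c := ⟨472, ⟨0, 13, 11, 5⟩⟩) (by decide +kernel))⟩
  c21 :=
    ⟨(posBox_of_check (c := ⟨430, ⟨0, 12, 10, 5⟩⟩) (by decide +kernel)),
      (posBox_of_check (c := ⟨430, ⟨0, 12, 10, 5⟩⟩) (by decide +kernel))⟩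

theorem fitBP : P3.Fit boxB (0) (exP Ex.x₁ Ex.x₂ Ex.x₃) groupBP where
  c10 :=
    ⟨(posBox_of_check (c := ⟨358, ⟨0, 7, 7, 5⟩⟩) (by decide +kernel)),
      (posBox_of_check (c := ⟨358, ⟨0, 7, 7, 5⟩⟩) (by decide +kernel))⟩
  c11 :=
    ⟨(posBox_of_check (c := ⟨358, ⟨0, 7, 7, 5⟩⟩) (by decide +kernel)),
      (posBox_of_check (c := ⟨358, ⟨0, 7, 7, 5⟩⟩) (by decide +kernel))⟩
  c21 :=
    ⟨(posBox_of_check (c := ⟨352, ⟨0, 9, 7, 5⟩⟩) (by decide +kernel)),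
      (posBox_of_check (c := ⟨352, ⟨0, 9, 7, 5⟩⟩) (by decide +kernel))⟩

theorem fitBN : T11.Fit boxB (0) (exN Ex.x₁ Ex.x₂ Ex.x₃) groupBN where
  c00 :=
    ⟨(posBox_of_check (c := ⟨457, ⟨0, 10, 11, 6⟩⟩) (by decide +kernel)),
      (posBox_of_check (c := ⟨457, ⟨0, 10, 11, 6⟩⟩) (by decide +kernel))⟩
  c10 :=
    ⟨(posBox_of_check (c := ⟨479, ⟨0, 12, 11, 5⟩⟩) (by decide +kernel)),
      (posBox_of_check (c := ⟨479, ⟨0, 12, 11, 5⟩⟩) (by decide +kernel))⟩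
  c01 :=
    ⟨(posBox_of_check (c := ⟨586, ⟨0, 12, 14, 8⟩⟩) (by decide +kernel)),
      (posBox_of_check (c := ⟨586, ⟨0, 12, 14, 8⟩⟩) (by decide +kernel))⟩
  c11 :=
    ⟨(posBox_of_check (c := ⟨557, ⟨0, 13, 13, 7⟩⟩) (by decide +kernel)),
      (posBox_of_check (c := ⟨557, ⟨0, 13, 13, 7⟩⟩) (by decide +kernel))⟩
  c21 :=
    ⟨(posBox_of_check (c := ⟨527, ⟨0, 12, 12, 6⟩⟩) (by decide +kernel)),
      (posBox_of_check (c := ⟨527, ⟨0, 12, 12, 6⟩⟩) (by decide +kernel))⟩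
  c02 :=
    ⟨(posBox_of_check (c := ⟨518, ⟨0, 10, 12, 7⟩⟩) (by decide +kernel)),
      (posBox_of_check (c := ⟨518, ⟨0, 10, 12, 7⟩⟩) (by decide +kernel))⟩
  c12 :=
    ⟨(posBox_of_check (c := ⟨539, ⟨0, 12, 13, 6⟩⟩) (by decide +kernel)),
      (posBox_of_check (c := ⟨539, ⟨0, 12, 13, 6⟩⟩) (by decide +kernel))⟩
  c22 :=
    ⟨(posBox_of_check (c := ⟨503, ⟨0, 12, 12, 5⟩⟩) (by decide +kernel)),
      (posBox_of_check (c := ⟨503, ⟨0, 12, 12, 5⟩⟩) (by decide +kernel))⟩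
  c03 :=
    ⟨(posBox_of_check (c := ⟨482, ⟨0, 8, 11, 7⟩⟩) (by decide +kernel)),
      (posBox_of_check (c := ⟨482, ⟨0, 8, 11, 7⟩⟩) (by decide +kernel))⟩
  c13 :=
    ⟨(posBox_of_check (c := ⟨504, ⟨0, 10, 12, 6⟩⟩) (by decide +kernel)),
      (posBox_of_check (c := ⟨504, ⟨0, 10, 12, 6⟩⟩) (by decide +kernel))⟩
  c23 :=
    ⟨(posBox_of_check (c := ⟨525, ⟨0, 12, 13, 5⟩⟩) (by decide +kernel)),
      (posBox_of_check (c := ⟨525, ⟨0, 12, 13, 5⟩⟩) (by decide +kernel))⟩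

/-- The surrogates are within their errors. -/
theorem fitB : groupB.Fit boxB :=
  ⟨fitBA, fitBM, fitBG, fitBE, fitBP, fitBN⟩

end Vale.Agent.P100.Calib.Closed.Bot
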