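import Vale.Agent.P100.Calib.SlabBotPieceExpr
import Vale.Agent.P100.Calib.SlabBotFit

/-!
# The signs on a checked piece of the end certificate

The lower and upper values of the forms are affine in `r`; on a piece in `(X, u, φ)` they are
affine in `φ` or concave in it. So the checks at the ends give the signs between them.
-/

set_option linter.unusedVariables false
set_option linter.unusedSimpArgs false

namespace Vale.Agent.P100.Calib.Closed.Bot

open BoxPos
open Large (PosBox)

local instance botPieceAdd : Add Ex := ⟨Ex.add⟩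
local instance botPieceSub : Sub Ex := ⟨Ex.sub⟩
local instance botPieceMul : Mul Ex := ⟨Ex.mul⟩

/-- Bounds of the forms at a point. -/
structure Vals where
  (T Ml Mh El Eh G H N : ℝ)

/-- The multipliers and the coordinates at a point. -/
structure Wts where
  (k₁ k₂ u v d : ℝ)

/-- The multiplier of `M`, where `M` is positive. -/
def Vals.c₁p (K : Wts) (V : Vals) : ℝ := K.k₁ * K.u * V.H - 4 * V.Mh

/-- The multiplier of `M`, where `M` is negative. -/
def Vals.c₁m (K : Wts) (V : Vals) : ℝ := K.k₁ * K.u * V.H + 4 * V.Ml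

/-- The multiplier of `EG`, where it is positive. -/
def Vals.c₂p (K : Wts) (V : Vals) : ℝ := 4 * K.k₂ * V.G - 625 * (1 + K.d * K.v) * V.Eh

/-- The multiplier of `EG`, where it is negative. -/
def Vals.c₂m (K : Wts) (V : Vals) : ℝ := 4 * K.k₂ * V.G + 625 * (1 + K.d * K.v) * V.El

/-- The weight of `EG`. -/
def Wts.wE (K : Wts) : ℝ := K.k₂ * (K.d * K.v * (K.d * K.v)) * K.u

/-- The split, both positive. -/
def Vals.c₃pp (K : Wts) (V : Vals) : ℝ := V.T - K.k₁ * V.Mh - K.wE * V.Eh

/-- The split, `M` positive and `EG` negative. -/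
def Vals.c₃pm (K : Wts) (V : Vals) : ℝ := V.T - K.k₁ * V.Mh + K.wE * V.El

/-- The split, `M` negative and `EG` positive. -/
def Vals.c₃mp (K : Wts) (V : Vals) : ℝ := V.T + K.k₁ * V.Ml - K.wE * V.Eh

/-- The split, both negative. -/
def Vals.c₃mm (K : Wts) (V : Vals) : ℝ := V.T + K.k₁ * V.Ml + K.wE * V.El

/-- The combination is positive for all indices. -/
def All {ι : Type} (V : ι → Vals) (g : Vals → ℝ) : Prop := ∀ i, 0 < g (V i)

/-- The sign conditions on a family of values, with one case split for all of them. -/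
structure Cond {ι : Type} (K : Wts) (V : ι → Vals) : Prop where
  g : All V (·.G)
  h : All V (·.H)
  n : All V (·.N)
  c₁p : All V (Vals.c₁p K) ∨ All V (fun W => -W.Mh)
  c₁m : All V (Vals.c₁m K) ∨ All V (·.Ml)
  c₂p : All V (Vals.c₂p K) ∨ All V (fun W => -W.Eh)
  c₂m : All V (Vals.c₂m K) ∨ All V (·.El)
  c₃pp : All V (Vals.c₃pp K) ∨ All V (fun W => -W.Mh) ∨ All V (fun W => -W.Eh)
  c₃pm : All V (Vals.c₃pm K) ∨ All V (fun W => -W.Mh) ∨ All V (·.El)
  c₃mp : All V (Vals.c₃mp K) ∨ All V (·.Ml) ∨ All V (fun W => -W.Eh)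
  c₃mm : All V (Vals.c₃mm K) ∨ All V (·.Ml) ∨ All V (·.El)

/-- A mean of two values. -/
def Vals.mix (t : ℝ) (V W : Vals) : Vals :=
  ⟨(1 - t) * V.T + t * W.T, (1 - t) * V.Ml + t * W.Ml, (1 - t) * V.Mh + t * W.Mh,
    (1 - t) * V.El + t * W.El, (1 - t) * V.Eh + t * W.Eh, (1 - t) * V.G + t * W.G,
    (1 - t) * V.H + t * W.H, (1 - t) * V.N + t * W.N⟩

theorem all_mix {γ : Type} {V : Bool × γ → Vals} {t : ℝ} (h0 : 0 ≤ t) (h1 : t ≤ 1)
    {g : Vals → ℝ} (hg : ∀ A B, g (Vals.mix t A B) = (1 - t) * g A + t * g B) (h : All V g) :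
    All (fun j => Vals.mix t (V (false, j)) (V (true, j))) g := by
  intro j
  show 0 < g (Vals.mix t (V (false, j)) (V (true, j)))
  rw [hg]
  rcases eq_or_lt_of_le h0 with rfl | ht
  · simpa using h (false, j)
  · linarith [mul_pos ht (h (true, j)), mul_nonneg (sub_nonneg.2 h1) (h (false, j)).le]

/-- The conditions pass to means. -/
theorem Cond.mix {γ : Type} {K : Wts} {V : Bool × γ → Vals} (c : Cond K V) {t : ℝ} (h0 : 0 ≤ t)
    (h1 : t ≤ 1) : Cond K fun j => Vals.mix t (V (false, j)) (V (true, j)) := by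
  have m : ∀ {g : Vals → ℝ}, (∀ A B, g (Vals.mix t A B) = (1 - t) * g A + t * g B) → All V g →
      All (fun j => Vals.mix t (V (false, j)) (V (true, j))) g := fun hg h => all_mix h0 h1 hg h
  have eMh : ∀ A B, -(Vals.mix t A B).Mh = (1 - t) * -A.Mh + t * -B.Mh := fun A B => by
    simp only [Vals.mix]; ring
  have eEh : ∀ A B, -(Vals.mix t A B).Eh = (1 - t) * -A.Eh + t * -B.Eh := fun A B => by
    simp only [Vals.mix]; ring
  have eMl : ∀ A B, (Vals.mix t A B).Ml = (1 - t) * A.Ml + t * B.Ml := fun _ _ => rfl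
  have eEl : ∀ A B, (Vals.mix t A B).El = (1 - t) * A.El + t * B.El := fun _ _ => rfl
  exact
    { g := m (fun _ _ => rfl) c.g
      h := m (fun _ _ => rfl) c.h
      n := m (fun _ _ => rfl) c.n
      c₁p := c.c₁p.imp (m fun A B => by simp only [Vals.c₁p, Vals.mix]; ring) (m eMh)
      c₁m := c.c₁m.imp (m fun A B => by simp only [Vals.c₁m, Vals.mix]; ring) (m eMl)
      c₂p := c.c₂p.imp (m fun A B => by simp only [Vals.c₂p, Vals.mix]; ring) (m eEh)
      c₂m := c.c₂m.imp (m fun A B => by simp only [Vals.c₂m, Vals.mix]; ring) (m eEl)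
      c₃pp := c.c₃pp.imp (m fun A B => by simp only [Vals.c₃pp, Vals.mix]; ring)
        (Or.imp (m eMh) (m eEh))
      c₃pm := c.c₃pm.imp (m fun A B => by simp only [Vals.c₃pm, Vals.mix]; ring)
        (Or.imp (m eMh) (m eEl))
      c₃mp := c.c₃mp.imp (m fun A B => by simp only [Vals.c₃mp, Vals.mix]; ring)
        (Or.imp (m eMl) (m eEh))
      c₃mm := c.c₃mm.imp (m fun A B => by simp only [Vals.c₃mm, Vals.mix]; ring)
        (Or.imp (m eMl) (m eEl)) }

/-- The conditions and true values between the bounds give the signs. -/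
theorem Cond.core {K : Wts} {V : Unit → Vals} (c : Cond K V) {TA M EG G H N : ℝ} (hu : 0 < K.u)
    (hdv : 0 < 1 + K.d * K.v)
    (hT : (V ()).T ≤ K.u * TA) (hMl : (V ()).Ml ≤ K.u * M) (hMh : K.u * M ≤ (V ()).Mh)
    (hEl : (V ()).El ≤ EG) (hEh : EG ≤ (V ()).Eh) (hG : (V ()).G ≤ G) (hH : (V ()).H ≤ H)
    (hN : (V ()).N ≤ K.u * N) :
    0 < G ∧ 0 < H ∧ 0 < N ∧
      0 < 4 * TA * G * H - 16 * M ^ 2 * G -
        625 * K.d ^ 2 * K.v ^ 2 * (1 + K.d * K.v) * EG ^ 2 * H := by
  have gl := c.g ()
  have hl := c.h ()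
  have nl := c.n ()
  have hG' : 0 < G := lt_of_lt_of_le gl hG
  have hH' : 0 < H := lt_of_lt_of_le hl hH
  refine ⟨hG', hH', pos_of_mul_pos_right (lt_of_lt_of_le nl hN) hu.le, ?_⟩
  set q := K.d ^ 2 * K.v ^ 2 with hqd
  have hq : 0 ≤ q := by positivity
  -- the multiplier of `M`
  have h1 : 4 * |M| ≤ K.k₁ * H ∧ K.u * |M| * K.k₁ ≤ K.k₁ * (if 0 ≤ M then (V ()).Mh else
      -(V ()).Ml) := by
    rcases le_or_gt 0 M with hM | hM
    · rw [abs_of_nonneg hM, if_pos hM]
      have h0 : 0 ≤ (V ()).Mh := le_trans (mul_nonneg hu.le hM) hMh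
      rcases c.c₁p with h | h
      · have := h ()
        simp only [Vals.c₁p] at this
        have hk : 0 < K.k₁ := by
          by_contra hk
          linarith [mul_nonpos_of_nonpos_of_nonneg
            (mul_nonpos_of_nonpos_of_nonneg (not_lt.1 hk) hu.le) hl.le]
        refine ⟨le_of_mul_le_mul_left ?_ hu, by linarith [mul_le_mul_of_nonneg_left hMh hk.le]⟩
        linarith [mul_le_mul_of_nonneg_left hH (mul_nonneg hk.le hu.le)]
      · exact absurd (h ()) (by linarith)
    · rw [abs_of_neg hM, if_neg (not_le.2 hM)]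
      have h0 : (V ()).Ml < 0 := lt_of_le_of_lt hMl (mul_neg_of_pos_of_neg hu hM)
      rcases c.c₁m with h | h
      · have := h ()
        simp only [Vals.c₁m] at this
        have hk : 0 < K.k₁ := by
          by_contra hk
          linarith [mul_nonpos_of_nonpos_of_nonneg
            (mul_nonpos_of_nonpos_of_nonneg (not_lt.1 hk) hu.le) hl.le]
        refine ⟨le_of_mul_le_mul_left ?_ hu, by linarith [mul_le_mul_of_nonneg_left hMl hk.le]⟩
        linarith [mul_le_mul_of_nonneg_left hH (mul_nonneg hk.le hu.le)]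
      · exact absurd (h ()) (by linarith)
  -- the multiplier of `EG`
  have h2 : 625 * (1 + K.d * K.v) * |EG| ≤ 4 * K.k₂ * G ∧
      K.wE * |EG| ≤ K.wE * (if 0 ≤ EG then (V ()).Eh else -(V ()).El) := by
    have hc : 0 < 625 * (1 + K.d * K.v) := mul_pos (by norm_num) hdv
    rcases le_or_gt 0 EG with hE | hE
    · rw [abs_of_nonneg hE, if_pos hE]
      rcases c.c₂p with h | h
      · have := h ()
        simp only [Vals.c₂p] at this
        have e1 := mul_le_mul_of_nonneg_left hEh hc.le
        have hk : 0 < K.k₂ := by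
          by_contra hk
          linarith [mul_nonpos_of_nonpos_of_nonneg (not_lt.1 hk) gl.le, mul_nonneg hc.le hE]
        refine ⟨by linarith [mul_le_mul_of_nonneg_left hG hk.le], ?_⟩
        exact mul_le_mul_of_nonneg_left hEh
          (mul_nonneg (mul_nonneg hk.le (mul_self_nonneg _)) hu.le)
      · exact absurd (h ()) (by linarith)
    · rw [abs_of_neg hE, if_neg (not_le.2 hE)]
      rcases c.c₂m with h | h
      · have := h ()
        simp only [Vals.c₂m] at this
        have e1 := mul_le_mul_of_nonneg_left hEl hc.le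
        have hk : 0 < K.k₂ := by
          by_contra hk
          linarith [mul_nonpos_of_nonpos_of_nonneg (not_lt.1 hk) gl.le,
            mul_neg_of_pos_of_neg hc hE]
        refine ⟨by linarith [mul_le_mul_of_nonneg_left hG hk.le], ?_⟩
        exact mul_le_mul_of_nonneg_left (by linarith)
          (mul_nonneg (mul_nonneg hk.le (mul_self_nonneg _)) hu.le)
      · exact absurd (h ()) (by linarith)
  have h3 : 0 < (V ()).T - K.k₁ * (if 0 ≤ M then (V ()).Mh else -(V ()).Ml) -
      K.wE * (if 0 ≤ EG then (V ()).Eh else -(V ()).El) := by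
    rcases le_or_gt 0 M with hM | hM <;> rcases le_or_gt 0 EG with hE | hE
    · rw [if_pos hM, if_pos hE]
      rcases c.c₃pp with h | h | h
      · simpa [Vals.c₃pp] using h ()
      · exact absurd (h ()) (by linarith [mul_nonneg hu.le hM])
      · exact absurd (h ()) (by linarith)
    · rw [if_pos hM, if_neg (not_le.2 hE)]
      rcases c.c₃pm with h | h | h
      · have := h (); simp only [Vals.c₃pm] at this; linarith
      · exact absurd (h ()) (by linarith [mul_nonneg hu.le hM])
      · exact absurd (h ()) (by linarith)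
    · rw [if_neg (not_le.2 hM), if_pos hE]
      rcases c.c₃mp with h | h | h
      · have := h (); simp only [Vals.c₃mp] at this; linarith
      · exact absurd (h ()) (by linarith [mul_neg_of_pos_of_neg hu hM])
      · exact absurd (h ()) (by linarith)
    · rw [if_neg (not_le.2 hM), if_neg (not_le.2 hE)]
      rcases c.c₃mm with h | h | h
      · have := h (); simp only [Vals.c₃mm] at this; linarith
      · exact absurd (h ()) (by linarith [mul_neg_of_pos_of_neg hu hM])
      · exact absurd (h ()) (by linarith)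
  have hc : 0 ≤ G * H := (mul_pos hG' hH').le
  have e1 : 16 * M ^ 2 * G ≤ 4 * G * H * (K.k₁ * |M|) := by
    have := mul_le_mul_of_nonneg_left h1.1 (mul_nonneg (mul_nonneg (by norm_num : (0:ℝ) ≤ 4)
      (abs_nonneg M)) hG'.le)
    rw [← sq_abs M]
    linarith
  have e2 : 625 * q * (1 + K.d * K.v) * EG ^ 2 * H ≤ 4 * G * H * (K.k₂ * q * |EG|) := by
    have := mul_le_mul_of_nonneg_left h2.1 (mul_nonneg (mul_nonneg hq (abs_nonneg EG)) hH'.le)
    rw [← sq_abs EG]
    linarith
  have e3 : 0 < K.u * (TA - K.k₁ * |M| - K.k₂ * q * |EG|) := by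
    have h5 := h2.2
    simp only [Wts.wE] at h3 h5
    have := h1.2
    rw [hqd]
    linarith
  have e4 := mul_pos (mul_pos hG' hH') (pos_of_mul_pos_right e3 hu.le)
  rw [show (625 : ℝ) * K.d ^ 2 * K.v ^ 2 = 625 * q by rw [hqd]; ring]
  linarith

end Vale.Agent.P100.Calib.Closed.Bot
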