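import Vale.Agent.P100.Calib.SlabBotExpr

/-!
# The checks of a piece of the end certificate on `d ≤ 1/20`

The variables of the checks are `(θ, x, d, w)`: `x` places `u`, `w` places `v`, and `θ` places `X`
between its bounds. The checks are made at both ends of the range of `r = 5 S - 3`.
-/

set_option linter.unusedVariables false

namespace Vale.Agent.P100.Calib.Closed.Bot

open BoxPos

local instance botPieceExprAdd : Add Ex := ⟨Ex.add⟩
local instance botPieceExprSub : Sub Ex := ⟨Ex.sub⟩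
local instance botPieceExprMul : Mul Ex := ⟨Ex.mul⟩

/-- What all pieces share: the range of `d` and `r`, of `v`, of `u`, and the multipliers. -/
structure Frame where
  d₀ : ℤ
  d₁ : ℤ
  rm : ℤ
  vl : L2
  vh : L2
  e₀ : ℤ
  e₁ : ℤ
  k₁ : Q15
  k₂ : Q15

/-- A piece in `(X, u)`. -/
structure Piece extends Frame where
  grp : Group
  X₀ : Q6
  X₁ : Q10

/-- A piece in `(X, u, φ)`. -/
structure PieceD extends Frame where
  grp : GroupD
  X₁ : Q10
  F₀ : Q6
  F₁ : Q6

/-- `v`. -/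
def Frame.xV (F : Frame) : Ex :=
  F.vl.ex Ex.x₂ + Ex.x₃ * (F.vh.ex Ex.x₂ - F.vl.ex Ex.x₂)

/-- `1 - u`. -/
def Frame.xE (F : Frame) : Ex := Ex.x₁ * (k₄ F.e₀ + k₄ F.e₁ * Ex.x₂)

/-- `u`. -/
def Frame.xU (F : Frame) : Ex := cC 1 - F.xE

/-- The box of the checks. -/
def Frame.box (F : Frame) : Box :=
  ⟨⟨0, 10001, 10000⟩, ⟨0, 10001, 10000⟩, ⟨F.d₀, F.d₁ + 1, 10000⟩, ⟨0, 10001, 10000⟩⟩

/-- The end of the range of `r`. -/
def Frame.xR (F : Frame) : Bool → Ex
  | false => cC 0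
  | true => cC F.rm 1000000

/-- `X` in units of `1 + mu r`. -/
def Piece.xX (P : Piece) : Ex :=
  P.X₀.ex Ex.x₂ P.xV + Ex.x₀ * (P.X₁.ex Ex.x₁ Ex.x₂ P.xV - P.X₀.ex Ex.x₂ P.xV)

/-- `X`. -/
def PieceD.xX (P : PieceD) : Ex := Ex.x₀ * P.X₁.ex Ex.x₁ Ex.x₂ P.xV

/-- The signs from bounds of the forms: `T` below, `M` and `E` both sides, `G` and `H` below. -/
structure Bd where
  (T Ml Mh El Eh G H N k₁ k₂ u v : Ex)

/-- The forms of a piece in `(X, u)` at one end of `r`. -/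
def Piece.bd (P : Piece) (b : Bool) : Bd :=
  let r := P.xR b
  let d := Ex.x₂
  let v := P.xV
  let lo := fun s : Sur => s.lo r d v
  let hi := fun s : Sur => s.hi r d v
  { T := (P.grp.A.map lo).poly P.xX P.xU
    Ml := (P.grp.M.map lo).poly P.xX P.xU
    Mh := (P.grp.M.map hi).poly P.xX P.xU
    El := (P.grp.E.map lo).poly P.xX P.xU
    Eh := (P.grp.E.map hi).poly P.xX P.xU
    G := (P.grp.G.map lo).poly P.xX
    H := (P.grp.P.map lo).poly P.xX P.xU
    N := (P.grp.N.map lo).poly P.xX P.xU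
    k₁ := P.k₁.ex
    k₂ := P.k₂.ex
    u := P.xU
    v := v }

/-- The forms of a piece in `(X, u, φ)` at one end of `r` and one end of `φ`. -/
def PieceD.bd (P : PieceD) (b c : Bool) : Bd :=
  let r := P.xR b
  let d := Ex.x₂
  let v := P.xV
  let f := match c with
    | false => P.F₀.ex d v
    | true => P.F₁.ex d v
  let lo := fun s : Sur => s.lo r d v
  let hi := fun s : Sur => s.hi r d v
  { T := (P.grp.A.map lo).poly P.xX P.xU f
    Ml := (P.grp.M.map lo).poly P.xX P.xU f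
    Mh := (P.grp.M.map hi).poly P.xX P.xU f
    El := (P.grp.E.map lo).poly P.xX P.xU f
    Eh := (P.grp.E.map hi).poly P.xX P.xU f
    G := (P.grp.G.map lo).poly P.xX
    H := (P.grp.P.map lo).poly P.xU f
    N := (P.grp.N.map lo).poly P.xX P.xU f
    k₁ := P.k₁.ex
    k₂ := P.k₂.ex
    u := P.xU
    v := v }

/-- `M` is negative. -/
def Bd.mNeg (B : Bd) : Ex := cC (-1) * B.Mh

/-- `M` is positive. -/
def Bd.mPos (B : Bd) : Ex := B.Ml

/-- `EG` is negative. -/
def Bd.eNeg (B : Bd) : Ex := cC (-1) * B.Eh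

/-- `EG` is positive. -/
def Bd.ePos (B : Bd) : Ex := B.El

/-- The multiplier of `M`, where `M` is positive. -/
def Bd.c₁p (B : Bd) : Ex := B.k₁ * B.u * B.H - cC 4 * B.Mh

/-- The multiplier of `M`, where `M` is negative. -/
def Bd.c₁m (B : Bd) : Ex := B.k₁ * B.u * B.H + cC 4 * B.Ml

/-- The multiplier of `EG`, where it is positive. -/
def Bd.c₂p (B : Bd) : Ex := cC 4 * B.k₂ * B.G - cC 625 * qP Ex.x₂ B.v * B.Eh

/-- The multiplier of `EG`, where it is negative. -/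
def Bd.c₂m (B : Bd) : Ex := cC 4 * B.k₂ * B.G + cC 625 * qP Ex.x₂ B.v * B.El

/-- The weight of `EG` in the split. -/
def Bd.wE (B : Bd) : Ex := B.k₂ * (Ex.x₂ * B.v * (Ex.x₂ * B.v)) * B.u

/-- The split, both positive. -/
def Bd.c₃pp (B : Bd) : Ex := B.T - B.k₁ * B.Mh - B.wE * B.Eh

/-- The split, `M` positive and `EG` negative. -/
def Bd.c₃pm (B : Bd) : Ex := B.T - B.k₁ * B.Mh + B.wE * B.El

/-- The split, `M` negative and `EG` positive. -/
def Bd.c₃mp (B : Bd) : Ex := B.T + B.k₁ * B.Ml - B.wE * B.Eh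

/-- The split, both negative. -/
def Bd.c₃mm (B : Bd) : Ex := B.T + B.k₁ * B.Ml + B.wE * B.El

end Vale.Agent.P100.Calib.Closed.Bot
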