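import Vale.Agent.P100.Calib.SlabHighSound

/-!
# The closed signs on a piece of the chart
-/

set_option linter.unusedVariables false

namespace Vale.Agent.P100.Calib.Closed.High

open BoxPos Large

local instance highSignsAdd : Add Ex := ⟨Ex.add⟩
local instance highSignsSub : Sub Ex := ⟨Ex.sub⟩
local instance highSignsMul : Mul Ex := ⟨Ex.mul⟩

/-- `LLG` is affine in `q = W R` and in `R`. -/
theorem LLG_llq (S d v g W W1 R : ℝ) :
    LLG ((S - d) / 2) d v g W W1 R (eVal d v W R) (kVal d W R) =
      (2 * llq S d v 0 1 - llq S d v 0 2) +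
        (2 * llq S d v 1 1 - llq S d v 1 2 - (2 * llq S d v 0 1 - llq S d v 0 2)) * (W * R) +
        R * ((llq S d v 0 2 - llq S d v 0 1) +
          (llq S d v 1 2 - llq S d v 1 1 - (llq S d v 0 2 - llq S d v 0 1)) * (W * R)) := by
  simp only [llq, LLG, LLGc, LLGv, LLGw, eVal, kVal]
  ring

/-- `g E` at a point of the chart. -/
noncomputable def chE (d S u v t : ℝ) : ℝ :=
  chG d S u v t * eVal d v (chW d S u v t) (chR S u)

/-- The bound at a point. -/
noncomputable def Bnd.at' (c : Bnd) (o S d v e p : ℝ) : ℝ :=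
  c.free.val o S d v + c.slope.val o S d v * e + c.slopeP.val o S d v * p

/-- A point within the bounds of a piece. -/
structure Place (P : Piece) (o d S u v t : ℝ) : Prop where
  g_pos : 0 < chG d S u v t
  E_neg : eVal d v (chW d S u v t) (chR S u) < 0
  e_low : P.eL.free.val o S d v ≤ chE d S u v t
  e_high : chE d S u v t < P.eH.free.val o S d v
  p_low : P.pL.free.val o S d v + P.pL.slope.val o S d v * chE d S u v t ≤
    chG d S u v t * chW d S u v t
  p_high : chG d S u v t * chW d S u v t ≤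
    P.pU.free.val o S d v + P.pU.slope.val o S d v * chE d S u v t
  k_low : P.kL.at' o S d v (chE d S u v t) (chG d S u v t * chW d S u v t) ≤
    chG d S u v t * kVal d (chW d S u v t) (chR S u)
  k_high : chG d S u v t * kVal d (chW d S u v t) (chR S u) ≤
    P.kU.at' o S d v (chE d S u v t) (chG d S u v t * chW d S u v t)
  w_low : P.wL.at' o S d v (chE d S u v t) (chG d S u v t * chW d S u v t) ≤
    chG d S u v t * chW1 d S u v t
  w_high : chG d S u v t * chW1 d S u v t ≤
    P.wU.at' o S d v (chE d S u v t) (chG d S u v t * chW d S u v t)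

theorem Mult.nonneg {b : Box} {f : Ex} (h : Mult b f) {o S d v : ℝ} (h₀ : b.s₀.Mem o)
    (h₁ : b.s₁.Mem S) (h₂ : b.s₂.Mem d) (h₃ : b.s₃.Mem v) : 0 ≤ f.val o S d v := by
  rcases h with h | h
  · exact (h o S d v h₀ h₁ h₂ h₃).le
  · simp [h, Ex.val]

/-- Drift and `ev_pos`, at the numerators. -/
theorem num_facts {S d u v t p₀ : ℝ} (hd : 0 < d) (hS0 : 0 < S) (hS : S < 1) (hv : 0 < v)
    (hF : ChartFacts d S u v t) (hGn : 0 < rGn S d v u)
    (h1 : 0 < 4 * (1 - (S - d) / 2 * v) - (S + d) / 2 * p₀) :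
    p₀ * rDn S d v u t 1 ≤ rPn S d v u t 1 ∧ 0 ≤ rEV S d v u t 1 := by
  set B := (S + d) / 2 * (2 - S) with hB
  have hB0 : 0 < B := mul_pos (by linarith) (by linarith)
  set H := chH d S u v t with hH
  have eK : rK S d v u t 1 = B * H := by
    simp only [rK, hH, chH, hB]
    field_simp [show (2 : ℝ) - S ≠ 0 by linarith, show S + d ≠ 0 by linarith]
  set Z := 2 + d * v - d * u * H with hZ
  have hZ0 : 0 < Z := by
    have h1 : d * H * u < 1 := by
      calc d * H * u ≤ d * H * 1 := mul_le_mul_of_nonneg_left hF.u_lt.le (mul_nonneg hd.le hF.H_pos.le)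
        _ < 1 := by rw [mul_one]; exact hF.h_lt
    have : 0 < d * v := mul_pos hd hv
    simp only [hZ]; linarith
  have eY : rY S d v u t 1 = B * Z := by simp only [rY, eK, hZ, ← hB]; ring
  set g := chG d S u v t with hg
  have eg : g = rGn S d v u / ((1 - S) * ((S + d) / 2) * Z) := by simp only [hg, chG, rGn, hZ, hH]
  have hb2 : 0 < (S + d) / 2 := by linarith
  have hg0 : 0 < g := by rw [eg]; exact div_pos hGn (mul_pos (mul_pos (by linarith) hb2) hZ0)
  set W := chW d S u v t with hW
  set R := chR S u with hR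
  set Dn := rDn S d v u t 1 with hDn
  have hDn0 : 0 < Dn := by
    simp only [hDn, rDn, eY]
    have : 0 < 1 - S := by linarith
    positivity
  have hP : g * W * Dn = rPn S d v u t 1 := by
    rw [eg]
    simp only [hW, chW, hDn, rDn, rPn, eY, eK, hB, hH]
    field_simp [hS0.ne', hb2.ne', hZ0.ne', show (1 : ℝ) - S ≠ 0 by linarith]
  set p := g * W with hp
  have hp0 : p₀ ≤ p := by
    have h2 : 4 * (1 - (S - d) / 2 * v) / ((S + d) / 2) < p := by
      have := mul_lt_mul_of_pos_left hF.drift (show 0 < 2 * (1 - S) / S by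
        have : 0 < 1 - S := by linarith
        positivity)
      have e1 : 2 * (1 - S) / S * (2 * S * (1 - (S - d) / 2 * v) / ((1 - S) * ((S + d) / 2))) =
          4 * (1 - (S - d) / 2 * v) / ((S + d) / 2) := by
        field_simp [hS0.ne', hb2.ne', show (1 : ℝ) - S ≠ 0 by linarith]
        ring
      have e2 : 2 * (1 - S) / S * (g * H / 2) = p := by simp only [hp, hW, chW, ← hH]; ring
      rw [← e1, ← e2]; exact this
    rw [div_lt_iff₀ hb2] at h2
    exact (lt_of_mul_lt_mul_left (a := (S + d) / 2) (by linarith) hb2.le).le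
  have hEV : 0 ≤ rEV S d v u t 1 := by
    have h2 := mul_nonneg hF.ev_pos.le (show 0 ≤ 2 * (1 - S) * ((S + d) / 2) * Z * B by
      have : 0 < 1 - S := by linarith
      positivity)
    refine le_of_le_of_eq h2 ?_
    have hne : (1 - S) * ((S + d) / 2) * Z ≠ 0 :=
      (mul_pos (mul_pos (by linarith) hb2) hZ0).ne'
    simp only [rEV, eK, mul_one, ← hB]
    rw [← hg, ← hH, eg]
    generalize rGn S d v u = Gn
    field_simp [hne, show (1 : ℝ) - S ≠ 0 by linarith, hb2.ne', hZ0.ne']
    simp only [hZ, ← hH]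
    ring
  exact ⟨(mul_le_mul_of_nonneg_right hp0 hDn0.le).trans_eq hP, hEV⟩

/-- The multiples of drift and of `ev_pos` are nonnegative. -/
theorem slack_nonneg {P : Piece} {b : Box} (hp : PosBox b P.hP0) {c : Bnd} (hc : c.Ok b)
    {o d S u v t : ℝ} (h₀ : b.s₀.Mem o) (h₁ : b.s₁.Mem S) (h₂ : b.s₂.Mem d) (h₃ : b.s₃.Mem v)
    (hd : 0 < d) (hS0 : 0 < S) (hS : S < 1) (hv : 0 < v) (hF : ChartFacts d S u v t)
    (hGn : 0 < rGn S d v u) : 0 ≤ c.μ.val o S d v *
      (rPn S d v u t 1 - rDn S d v u t 1 * P.p₀.val o S d v) + c.ν.val o S d v * rEV S d v u t 1 := by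
  have h1 := hp o S d v h₀ h₁ h₂ h₃
  simp only [Piece.hP0, val_xA, val_xB, ex_mul, ex_sub, Ex.val] at h1
  push_cast at h1
  obtain ⟨k₁, k₂⟩ := num_facts hd hS0 hS hv hF hGn (p₀ := P.p₀.val o S d v) (by linarith)
  exact add_nonneg (mul_nonneg (hc.1.nonneg h₀ h₁ h₂ h₃) (by linarith))
    (mul_nonneg (hc.2.nonneg h₀ h₁ h₂ h₃) k₂)

/-- The checks of a piece with no point of the chart; `pU` carries the multipliers. -/
structure Piece.Empty (P : Piece) (b : Box) : Prop where
  p0 : PosBox b P.hP0
  den : ∀ i, PosBox b (P.hDen i)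
  gn : PosBox b P.hGn
  ok : P.pU.Ok b
  none : ∀ i, PosBox b (P.hNone i)

/-- **No point of the chart in an empty piece.** -/
theorem Piece.Empty.false {P : Piece} {b : Box} (E : P.Empty b) {o d S u v t : ℝ}
    (h₀ : b.s₀.Mem o) (h₁ : b.s₁.Mem S) (h₂ : b.s₂.Mem d) (h₃ : b.s₃.Mem v) (hd : 0 < d)
    (hS0 : 0 < S) (hS : S < 1) (hv : 0 < v) (hF : ChartFacts d S u v t)
    (hu : P.xU.val o S d v = u)
    (hL : (P.tLn P.xU).val o S d v ≤ t * (P.tLd P.xU).val o S d v)
    (hU : t * (P.tUd P.xU).val o S d v ≤ (P.tUn P.xU).val o S d v) : False := by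
  have hGn := E.gn o S d v h₀ h₁ h₂ h₃
  simp only [Piece.hGn, val_xGn, hu] at hGn
  have h := bound_pos (f := fun n m => -(P.pU.μ.val o S d v *
      (rPn S d v u n m - rDn S d v u n m * P.p₀.val o S d v) +
        P.pU.ν.val o S d v * rEV S d v u n m)) (t := t)
    (fun n m => by
      simp only [Bnd.slack, ex_sub, ex_add, ex_mul, Ex.val, val_xDn, val_xPn, val_xEV, hu]
      push_cast
      ring)
    (fun n m => by simp only [rDn, rPn, rEV, rY, rK]; ring)
    E.none E.den h₀ h₁ h₂ h₃ hL hU
  have := slack_nonneg E.p0 E.ok h₀ h₁ h₂ h₃ hd hS0 hS hv hF hGn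
  linarith

set_option maxHeartbeats 800000 in
/-- **The bounds of a piece hold on the chart.** -/
theorem chart_place {P : Piece} {b : Box} (E : P.Env b) {o d S u v t : ℝ}
    (h₀ : b.s₀.Mem o) (h₁ : b.s₁.Mem S) (h₂ : b.s₂.Mem d) (h₃ : b.s₃.Mem v) (hd : 0 < d)
    (hS0 : 0 < S) (hS : S < 1) (hv : 0 < v) (hF : ChartFacts d S u v t)
    (hu : P.xU.val o S d v = u)
    (hL : (P.tLn P.xU).val o S d v ≤ t * (P.tLd P.xU).val o S d v)
    (hU : t * (P.tUd P.xU).val o S d v ≤ (P.tUn P.xU).val o S d v) :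
    Place P o d S u v t := by
  have ev : ∀ {f : Ex}, PosBox b f → 0 < f.val o S d v := fun h => h o S d v h₀ h₁ h₂ h₃
  set B := (S + d) / 2 * (2 - S) with hB
  have hB0 : 0 < B := mul_pos (by linarith) (by linarith)
  set H := chH d S u v t with hH
  have eK : rK S d v u t 1 = B * H := by
    simp only [rK, hH, chH, hB]
    field_simp [show (2 : ℝ) - S ≠ 0 by linarith, show S + d ≠ 0 by linarith]
  set Z := 2 + d * v - d * u * H with hZ
  have hZ0 : 0 < Z := by
    have h1 : d * H * u < 1 := by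
      calc d * H * u ≤ d * H * 1 := mul_le_mul_of_nonneg_left hF.u_lt.le (mul_nonneg hd.le hF.H_pos.le)
        _ < 1 := by rw [mul_one]; exact hF.h_lt
    have : 0 < d * v := mul_pos hd hv
    simp only [hZ]; linarith
  have eY : rY S d v u t 1 = B * Z := by simp only [rY, eK, hZ, ← hB]; ring
  set g := chG d S u v t with hg
  have hGn : 0 < rGn S d v u := by
    have := ev E.gn
    simpa only [Piece.hGn, val_xGn, hu] using this
  have eg : g = rGn S d v u / ((1 - S) * ((S + d) / 2) * Z) := by simp only [hg, chG, rGn, hZ, hH]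
  have hb2 : 0 < (S + d) / 2 := by linarith
  have hg0 : 0 < g := by rw [eg]; exact div_pos hGn (mul_pos (mul_pos (by linarith) hb2) hZ0)
  set W := chW d S u v t with hW
  set W1 := chW1 d S u v t with hW1
  set R := chR S u with hR
  set E0 := eVal d v W R with hE0
  set K0 := kVal d W R with hK0
  set Dn := rDn S d v u t 1 with hDn
  have hDn0 : 0 < Dn := by
    simp only [hDn, rDn, eY]
    have : 0 < 1 - S := by linarith
    positivity
  have eWR : W * R = u * H := by
    simp only [hW, hR, chW, chR, hH]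
    field_simp [hS0.ne', show (1 : ℝ) - S ≠ 0 by linarith]
  have hP : g * W * Dn = rPn S d v u t 1 := by
    rw [eg]
    simp only [hW, chW, hDn, rDn, rPn, eY, eK, hB, hH]
    field_simp [hS0.ne', hb2.ne', hZ0.ne', show (1 : ℝ) - S ≠ 0 by linarith]
  have hE : g * E0 * Dn = rEn S d v u t 1 := by
    rw [eg]
    simp only [hE0, eVal, mul_comm R W, eWR, hDn, rDn, rEn, rEv, eY, eK, hB]
    field_simp [hS0.ne', hb2.ne', hZ0.ne', show (1 : ℝ) - S ≠ 0 by linarith]
  have hK : g * K0 * Dn = rKn S d v u t 1 := by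
    rw [eg]
    have e1 : R * d * W = d * (u * H) := by rw [← eWR]; ring
    simp only [hK0, kVal, e1, hDn, rDn, rKn, eY, eK, hB]
    field_simp [hS0.ne', hb2.ne', hZ0.ne', show (1 : ℝ) - S ≠ 0 by linarith]
  have hW' : g * W1 * Dn * (S * ((S + d) / 2)) = rWn S d v u t 1 := by
    rw [eg]
    simp only [hW1, chW1, hDn, rDn, rWn, eY, eK, hB, ← hH]
    field_simp [hS0.ne', hb2.ne', hZ0.ne', show (1 : ℝ) - S ≠ 0 by linarith]
  set p := g * W with hp
  set e := g * E0 with he
  set k := g * K0 with hk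
  set w := g * W1 with hw
  have hneg : E0 < 0 := by
    have h := bound_pos (f := fun n m => rEv S d v u n m) (t := t)
      (fun n m => by rw [val_xEv, hu]) (fun n m => by simp only [rEv, rK]; ring)
      E.ev E.den h₀ h₁ h₂ h₃ hL hU
    simp only [rEv, eK, ← hB, mul_one] at h
    have e1 : R * W = u * H := by rw [← eWR]; ring
    have : -E0 * B = (10 + v * (1 / 20 + d)) * B + (1 / 20 - 9 * d) * u * (B * H) := by
      simp only [hE0, eVal, e1]; ring
    have h2 : 0 < -E0 * B := this ▸ h
    exact neg_pos.1 (pos_of_mul_pos_left h2 hB0.le)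
  have low : ∀ {x y : ℝ}, 0 < (x - y) * Dn → y < x := fun h =>
    sub_pos.1 (pos_of_mul_pos_left h hDn0.le)
  have slk : ∀ {c : Bnd}, c.Ok b → 0 ≤ c.μ.val o S d v *
      (p * Dn - Dn * P.p₀.val o S d v) + c.ν.val o S d v * rEV S d v u t 1 := fun {c} h => by
    have := slack_nonneg E.p0 h h₀ h₁ h₂ h₃ hd hS0 hS hv hF hGn
    rw [← hP, ← hDn] at this
    exact this
  have heL : P.eL.free.val o S d v < e := low (by
    have h := bound_pos (f := fun n m => rEn S d v u n m - rDn S d v u n m * P.eL.free.val o S d v -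
        (P.eL.μ.val o S d v * (rPn S d v u n m - rDn S d v u n m * P.p₀.val o S d v) +
          P.eL.ν.val o S d v * rEV S d v u n m)) (t := t)
      (fun n m => by simp only [Bnd.slack, ex_sub, ex_add, ex_mul, Ex.val, val_xEn, val_xDn, val_xPn, val_xEV, hu])
      (fun n m => by simp only [rEn, rEv, rDn, rPn, rEV, rY, rK]; ring)
      E.eL E.den h₀ h₁ h₂ h₃ hL hU
    have := slk E.eL'
    simp only [← hE, ← hP, ← hDn] at h
    linarith only [h, this])
  have heH : e < P.eH.free.val o S d v := low (by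
    have h := bound_pos (f := fun n m => rDn S d v u n m * P.eH.free.val o S d v - rEn S d v u n m -
        (P.eH.μ.val o S d v * (rPn S d v u n m - rDn S d v u n m * P.p₀.val o S d v) +
          P.eH.ν.val o S d v * rEV S d v u n m)) (t := t)
      (fun n m => by simp only [Bnd.slack, ex_sub, ex_add, ex_mul, Ex.val, val_xEn, val_xDn, val_xPn, val_xEV, hu])
      (fun n m => by simp only [rEn, rEv, rDn, rPn, rEV, rY, rK]; ring)
      E.eH E.den h₀ h₁ h₂ h₃ hL hU
    have := slk E.eH'
    simp only [← hE, ← hP, ← hDn] at h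
    linarith only [h, this])
  have hpL : P.pL.free.val o S d v + P.pL.slope.val o S d v * e < p := low (by
    have h := bound_pos (f := fun n m => rPn S d v u n m - (rDn S d v u n m * P.pL.free.val o S d v +
        P.pL.slope.val o S d v * rEn S d v u n m) -
        (P.pL.μ.val o S d v * (rPn S d v u n m - rDn S d v u n m * P.p₀.val o S d v) +
          P.pL.ν.val o S d v * rEV S d v u n m)) (t := t)
      (fun n m => by simp only [Bnd.slack, ex_sub, ex_add, ex_mul, Ex.val, val_xEn, val_xDn, val_xPn, val_xEV, hu])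
      (fun n m => by simp only [rEn, rEv, rDn, rPn, rEV, rY, rK]; ring)
      E.pL E.den h₀ h₁ h₂ h₃ hL hU
    have := slk E.pL'
    simp only [← hE, ← hP, ← hDn] at h
    linarith only [h, this])
  have hpU : p < P.pU.free.val o S d v + P.pU.slope.val o S d v * e := low (by
    have h := bound_pos (f := fun n m => rDn S d v u n m * P.pU.free.val o S d v +
        P.pU.slope.val o S d v * rEn S d v u n m - rPn S d v u n m -
        (P.pU.μ.val o S d v * (rPn S d v u n m - rDn S d v u n m * P.p₀.val o S d v) +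
          P.pU.ν.val o S d v * rEV S d v u n m)) (t := t)
      (fun n m => by simp only [Bnd.slack, ex_sub, ex_add, ex_mul, Ex.val, val_xEn, val_xDn, val_xPn, val_xEV, hu])
      (fun n m => by simp only [rEn, rEv, rDn, rPn, rEV, rY, rK]; ring)
      E.pU E.den h₀ h₁ h₂ h₃ hL hU
    have := slk E.pU'
    simp only [← hE, ← hP, ← hDn] at h
    linarith only [h, this])
  have hkU : k < P.kU.at' o S d v e p := low (by
    have h := bound_pos (f := fun n m => (rDn S d v u n m * P.kU.free.val o S d v +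
        P.kU.slope.val o S d v * rEn S d v u n m + P.kU.slopeP.val o S d v * rPn S d v u n m) - rKn S d v u n m -
        (P.kU.μ.val o S d v * (rPn S d v u n m - rDn S d v u n m * P.p₀.val o S d v) +
          P.kU.ν.val o S d v * rEV S d v u n m)) (t := t)
      (fun n m => by simp only [Bnd.num, Bnd.slack, ex_sub, ex_add, ex_mul, Ex.val, val_xEn, val_xDn, val_xPn, val_xKn, val_xEV, hu])
      (fun n m => by simp only [rEn, rEv, rDn, rPn, rKn, rEV, rY, rK]; ring)
      E.kU E.den h₀ h₁ h₂ h₃ hL hU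
    have := slk E.kU'
    simp only [← hE, ← hP, ← hK, ← hDn] at h
    simp only [Bnd.at']
    linarith only [h, this])
  have hkL : P.kL.at' o S d v e p < k := low (by
    have h := bound_pos (f := fun n m => rKn S d v u n m - (rDn S d v u n m * P.kL.free.val o S d v +
        P.kL.slope.val o S d v * rEn S d v u n m + P.kL.slopeP.val o S d v * rPn S d v u n m) -
        (P.kL.μ.val o S d v * (rPn S d v u n m - rDn S d v u n m * P.p₀.val o S d v) +
          P.kL.ν.val o S d v * rEV S d v u n m)) (t := t)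
      (fun n m => by simp only [Bnd.num, Bnd.slack, ex_sub, ex_add, ex_mul, Ex.val, val_xEn, val_xDn, val_xPn, val_xKn, val_xEV, hu])
      (fun n m => by simp only [rEn, rEv, rDn, rPn, rKn, rEV, rY, rK]; ring)
      E.kL E.den h₀ h₁ h₂ h₃ hL hU
    have := slk E.kL'
    simp only [← hE, ← hP, ← hK, ← hDn] at h
    simp only [Bnd.at']
    linarith only [h, this])
  have hwU : w < P.wU.at' o S d v e p := low (by
    have h := bound_pos (f := fun n m => ((rDn S d v u n m * P.wU.free.val o S d v +
        P.wU.slope.val o S d v * rEn S d v u n m + P.wU.slopeP.val o S d v * rPn S d v u n m) - (P.wU.μ.val o S d v * (rPn S d v u n m - rDn S d v u n m * P.p₀.val o S d v) +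
          P.wU.ν.val o S d v * rEV S d v u n m)) * S * ((S + d) / 2) - rWn S d v u n m) (t := t)
      (fun n m => by simp only [Bnd.num, Bnd.slack, ex_sub, ex_add, ex_mul, Ex.val, val_xEn, val_xDn, val_xPn, val_xWn, val_xEV, val_xB, hu])
      (fun n m => by simp only [rEn, rEv, rDn, rPn, rWn, rEV, rY, rK]; ring)
      E.wU E.den h₀ h₁ h₂ h₃ hL hU
    have := mul_nonneg (slk E.wU') (mul_pos hS0 hb2).le
    simp only [← hE, ← hP, ← hW', ← hDn] at h
    simp only [Bnd.at']
    refine pos_of_mul_pos_left (b := S * ((S + d) / 2)) ?_ (mul_pos hS0 hb2).le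
    linarith only [h, this])
  have hwL : P.wL.at' o S d v e p < w := low (by
    have h := bound_pos (f := fun n m => rWn S d v u n m - ((rDn S d v u n m * P.wL.free.val o S d v +
        P.wL.slope.val o S d v * rEn S d v u n m + P.wL.slopeP.val o S d v * rPn S d v u n m) + (P.wL.μ.val o S d v * (rPn S d v u n m - rDn S d v u n m * P.p₀.val o S d v) +
          P.wL.ν.val o S d v * rEV S d v u n m)) * S * ((S + d) / 2)) (t := t)
      (fun n m => by simp only [Bnd.num, Bnd.slack, ex_sub, ex_add, ex_mul, Ex.val, val_xEn, val_xDn, val_xPn, val_xWn, val_xEV, val_xB, hu])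
      (fun n m => by simp only [rEn, rEv, rDn, rPn, rWn, rEV, rY, rK]; ring)
      E.wL E.den h₀ h₁ h₂ h₃ hL hU
    have := mul_nonneg (slk E.wL') (mul_pos hS0 hb2).le
    simp only [← hE, ← hP, ← hW', ← hDn] at h
    simp only [Bnd.at']
    refine pos_of_mul_pos_left (b := S * ((S + d) / 2)) ?_ (mul_pos hS0 hb2).le
    linarith only [h, this])
  exact
    { g_pos := hg0
      E_neg := hneg
      e_low := heL.le
      e_high := heH
      p_low := hpL.le
      p_high := hpU.le
      k_low := hkL.le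
      k_high := hkU.le
      w_low := hwL.le
      w_high := hwU.le }

set_option maxHeartbeats 800000 in
/-- **The closed signs from the bounds of a piece.** -/
theorem Place.signs {P : Piece} {b : Box} {o d S u v t : ℝ} (L : Place P o d S u v t)
    (C : P.Sign b) (hc : P.consts.all noO = true) (hb : b.s₀ = ⟨0, 1, 1⟩) (h₁ : b.s₁.Mem S)
    (h₂ : b.s₂.Mem d) (h₃ : b.s₃.Mem v) (hd : 0 < d) (hS0 : 0 < S) (hS : S < 1)
    (hv : 0 < v) (hF : ChartFacts d S u v t)
    (hllg : 0 ≤ LLG ((S - d) / 2) d v (chG d S u v t) (chW d S u v t) (chW1 d S u v t) (chR S u)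
      (eVal d v (chW d S u v t) (chR S u)) (kVal d (chW d S u v t) (chR S u))) :
    ChartSigns d S u v t := by
  have hgap : P.eL.free.val o S d v < P.eH.free.val o S d v := L.e_low.trans_lt L.e_high
  have htop := L.e_high
  set g := chG d S u v t with hg
  set W := chW d S u v t with hW
  set W1 := chW1 d S u v t with hW1
  set R := chR S u with hR
  set E0 := eVal d v W R with hE0
  set K0 := kVal d W R with hK0
  set p := g * W with hp
  set k := g * K0 with hk
  set w := g * W1 with hw
  set e := chE d S u v t with he'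
  have he : e = g * E0 := rfl
  set o' := (e - P.eL.free.val o S d v) / (P.eH.free.val o S d v - P.eL.free.val o S d v) with ho
  have hgap' : 0 < P.eH.free.val o S d v - P.eL.free.val o S d v := by linarith
  have hm : b.s₀.Mem o' := by
    rw [hb]
    simp only [Side.Mem]
    push_cast
    refine ⟨?_, ?_⟩
    · rw [zero_div]; exact div_nonneg (sub_nonneg.2 L.e_low) hgap'.le
    · rw [div_one, div_lt_one hgap']; linarith
  have cst : ∀ x ∈ P.consts, x.val o' S d v = x.val o S d v := fun x hx =>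
    val_noO (List.all_eq_true.1 hc x hx) o' o S d v
  simp only [Piece.consts, Bnd.parts, List.cons_append, List.nil_append, List.forall_mem_cons,
    List.not_mem_nil, false_imp_iff, implies_true, and_true] at cst
  obtain ⟨-, eL1, -, -, -, -, eH1, -, -, -, -, pL1, pL2, -, -, -, pU1, pU2, -, -, -, kU1, kU2,
    kU3, -, -, kL1, kL2, kL3, -, -, wU1, wU2, wU3, -, -, wL1, wL2, wL3, -, -⟩ := cst
  have hB' : Bounds P o' S d v p e k w :=
    { e_eq := by rw [eL1, eH1, ho, div_mul_cancel₀ _ hgap'.ne']; ring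
      e_neg := by rw [he]; exact mul_neg_of_pos_of_neg L.g_pos L.E_neg
      p_low := by rw [pL1, pL2]; exact L.p_low
      p_high := by rw [pU1, pU2]; exact L.p_high
      k_low := by rw [kL1, kL2, kL3]; exact L.k_low
      k_high := by rw [kU1, kU2, kU3]; exact L.k_high
      w_low := by rw [wL1, wL2, wL3]; exact L.w_low
      w_high := by rw [wU1, wU2, wU3]; exact L.w_high }
  obtain ⟨s1, s2, s3⟩ := core_signs C hm h₁ h₂ h₃ hS hS0 hd hv hB'
  rw [he] at s1 s2 s3
  refine ⟨?_, ?_, L.E_neg, ?_, ?_, ?_⟩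
  · rw [TGG_scale]; exact s1
  · have : 0 < 1 - S := by linarith
    have := hF.H_pos
    simp only [hW, chW]
    positivity
  · refine pos_of_mul_pos_right (a := g ^ 2) ?_ (sq_nonneg _)
    have e1 : g ^ 2 * TArrow ((S - d) / 2) d v g W W1 R E0 K0 =
        4 * TA ((S - d) / 2) d v 1 p w 0 e k * TMM ((S - d) / 2) d v p e *
            TGG ((S - d) / 2) d v 1 p 0 0 e 0 -
          16 * (1 + d * v) * TME ((S - d) / 2) d v 1 p w e k ^ 2 *
            TGG ((S - d) / 2) d v 1 p 0 0 e 0 -
          625 * d ^ 2 * v ^ 2 * (1 + d * v) * TEG ((S - d) / 2) d v 1 p 0 0 e 0 ^ 2 *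
            TMM ((S - d) / 2) d v p e := by
      rw [TArrow_scale, TA_scale, TGG_scale, TEG_scale, TME_scale]
      simp only [TMM, hp, he, hk, hw]
      rw [show ∀ x y z k', TGG ((S - d) / 2) d v 1 x y 0 z k' = TGG ((S - d) / 2) d v 1 x 0 0 z 0
          from fun _ _ _ _ => rfl,
        show ∀ x y z k', TEG ((S - d) / 2) d v 1 x y 0 z k' = TEG ((S - d) / 2) d v 1 x 0 0 z 0
          from fun _ _ _ _ => rfl]
      ring
    rw [he] at e1
    exact e1 ▸ s3
  · rw [TMG_scale]; exact s2
  · exact hllg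

/-- `LLG` is nonnegative on the chart where the slope is nonnegative. -/
theorem llg_nonneg {b : Box} (hlo : PosBox b hLLGlo) (hhi : PosBox b hLLGhi) {d S u v t : ℝ}
    (h₀ : b.s₀.Mem u) (h₁ : b.s₁.Mem S) (h₂ : b.s₂.Mem d) (h₃ : b.s₃.Mem v) (hd : 0 < d)
    (hS0 : 0 < S) (hS : S < 1) (ht : 0 ≤ t) (hF : ChartFacts d S u v t) :
    0 ≤ LLG ((S - d) / 2) d v (chG d S u v t) (chW d S u v t) (chW1 d S u v t) (chR S u)
      (eVal d v (chW d S u v t) (chR S u)) (kVal d (chW d S u v t) (chR S u)) := by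
  set B := (S + d) / 2 * (2 - S) with hB
  have hB0 : 0 < B := mul_pos (by linarith) (by linarith)
  have hu := hF.u_pos
  set H := chH d S u v t with hH
  set A₀ := 2 * llq S d v 0 1 - llq S d v 0 2 with hA₀
  set B₀ := 2 * llq S d v 1 1 - llq S d v 1 2 - A₀ with hB₀
  set C₀ := llq S d v 0 2 - llq S d v 0 1 with hC₀
  set D₀ := llq S d v 1 2 - llq S d v 1 1 - C₀ with hD₀
  have kl := hlo u S d v h₀ h₁ h₂ h₃
  have kh := hhi u S d v h₀ h₁ h₂ h₃
  simp only [hLLGlo, hLLGhi, xLLG, ex_sub, ex_add, ex_mul, Ex.val, val_xBB, val_xA,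
    val_eLL u S d v 0 1 (by norm_num), val_eLL u S d v 0 2 (by norm_num),
    val_eLL u S d v 1 1 (by norm_num), val_eLL u S d v 1 2 (by norm_num)] at kl kh
  push_cast at kl kh
  have kl' : 0 < (A₀ * (1 - S) + C₀ * S * u) * B +
      (B₀ * (1 - S) + D₀ * S * u) * (u * (S * (1 + (1 - (S - d) / 2) * v))) := by
    simp only [hA₀, hB₀, hC₀, hD₀, hB]; linarith only [kl]
  have kh' : 0 < (A₀ * (1 - S) + C₀ * S * u) * d + (B₀ * (1 - S) + D₀ * S * u) * u := by
    simp only [hA₀, hB₀, hC₀, hD₀]; linarith only [kh]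
  have eR : chR S u * (1 - S) = S * u := by
    simp only [chR]; field_simp [show (1 : ℝ) - S ≠ 0 by linarith]
  have eWR : chW d S u v t * chR S u = u * H := by
    simp only [chW, chR, hH]
    field_simp [hS0.ne', show (1 : ℝ) - S ≠ 0 by linarith]
  have hlow : u * (S * (1 + (1 - (S - d) / 2) * v)) ≤ u * H * B := by
    have e : H * B = S * (1 + (1 - (S - d) / 2) * v) + B * (u * t) := by
      simp only [hH, chH, hB]
      field_simp [show (2 : ℝ) - S ≠ 0 by linarith, show S + d ≠ 0 by linarith]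
    have := mul_nonneg hu.le (mul_nonneg hB0.le (mul_nonneg hu.le ht))
    rw [mul_assoc, e]
    linarith
  have hhigh : u * H * d ≤ u := by
    have := mul_le_mul_of_nonneg_left hF.h_lt.le hu.le
    simp only [← hH] at this
    linarith
  have key : 0 < (A₀ * (1 - S) + C₀ * S * u) + (B₀ * (1 - S) + D₀ * S * u) * (u * H) :=
    between (by linarith only [kl']) (by linarith only [kh']) hB0 hd hlow hhigh
  rw [LLG_llq, eWR]
  refine (pos_of_mul_pos_left (b := 1 - S) ?_ (by linarith)).le
  simp only [hA₀, hB₀, hC₀, hD₀] at key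
  rw [mul_assoc _ S u, mul_assoc _ S u, ← eR] at key
  linarith only [key]

/-- The same piece, `e` below a cut. -/
def Piece.below (P : Piece) (cut : Ex) : Piece := { P with eH := { P.eH with free := cut } }

/-- The piece with the bound `pU'` of `p`, `e` above a cut. -/
def Piece.above (P : Piece) (cut : Ex) (pU' : Bnd) : Piece :=
  { P with eL := { P.eL with free := cut }, pU := pU' }

theorem Place.below {P : Piece} {cut : Ex} {o d S u v t : ℝ} (L : Place P o d S u v t)
    (h : chE d S u v t < cut.val o S d v) : Place (P.below cut) o d S u v t :=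
  { L with e_high := h }

theorem Place.above {P : Piece} {cut : Ex} {pU' : Bnd} {o d S u v t : ℝ}
    (L : Place P o d S u v t) (h : cut.val o S d v ≤ chE d S u v t)
    (hp : chG d S u v t * chW d S u v t ≤
      pU'.free.val o S d v + pU'.slope.val o S d v * chE d S u v t) :
    Place (P.above cut pU') o d S u v t :=
  { L with e_low := h, p_high := hp }

/-- The same checks with another upper bound of `p`. -/
theorem Piece.Env.withU {P : Piece} {b : Box} (E : P.Env b) (c : Bnd)
    (h : ∀ i, PosBox b (({ P with pU := c } : Piece).hPU i)) (hc : c.Ok b) :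
    ({ P with pU := c } : Piece).Env b :=
  ⟨E.p0, E.den, E.gn, E.ev, E.eL, E.eL', E.eH, E.eH', E.pL, E.pL', h, hc, E.kU, E.kU', E.kL,
    E.kL', E.wU, E.wU', E.wL, E.wL'⟩

end Vale.Agent.P100.Calib.Closed.High
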