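import Vale.Agent.P100.Calib.SlabBotSound
import Vale.Agent.P100.Calib.SlabChartHighDefs
import Vale.Agent.P100.Calib.SlabHighSigns

/-!
# The chart in a piece of the end certificate

The trap bounds `X = g W` between the ends of a piece, and `φ = g / X` where it is used. With the
checks of the piece this gives the closed signs at the point.
-/

set_option linter.unusedVariables false
set_option linter.unusedSimpArgs false

namespace Vale.Agent.P100.Calib.Closed.Bot

open BoxPos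
open Large (PosBox)

local instance botSideAdd : Add Ex := ⟨Ex.add⟩
local instance botSideSub : Sub Ex := ⟨Ex.sub⟩
local instance botSideMul : Mul Ex := ⟨Ex.mul⟩

/-- `r`, its place in `[0, 5/3 d ^ 2]` in the first variable. -/
def sR : Ex := cC 5 3 * Ex.x₀ * (Ex.x₂ * Ex.x₂)

/-- The excess of the end bound of `X` over `ev_pos`, times `S d b`. -/
def Frame.evF (F : Frame) (mu : ℤ) (X₁ : Q10) : Ex :=
  let r := sR
  let d := Ex.x₂
  let v := F.xV
  let e := F.xE
  X₁.ex Ex.x₁ d v * (cC 1 + cC mu * r) * (cC 1 - e) * d * qS r * qB r d * qP d v -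
    cC 4 * (d * (cC 1 - qA r d * v) + e * qS r * qP d v - e * qS r * qB r d * qL d v)

/-- The same over `d`, where `1 - u` is a multiple of `d`. -/
def Frame.evB (F : Frame) (mu : ℤ) (X₁ : Q10) : Ex :=
  let r := sR
  let d := Ex.x₂
  let v := F.xV
  let s := Ex.x₁ * k₄ F.e₁
  X₁.ex Ex.x₁ d v * (cC 1 + cC mu * r) * (cC 1 - F.xE) * qS r * qB r d * qP d v -
    cC 4 * (cC 1 - qA r d * v + s * qS r * qP d v - s * qS r * qB r d * qL d v)

/-- The excess of the drift over the lower end of `X`. -/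
def Piece.sX0 (P : Piece) : Ex :=
  cC 4 * (cC 1 - qA sR Ex.x₂ * P.xV) -
    P.X₀.ex Ex.x₂ P.xV * qB sR Ex.x₂ * (cC 1 + cC P.grp.mu * sR)

/-- The excess of the upper end of `φ` over `κ / H`. -/
def PieceD.sPhi (P : PieceD) : Ex :=
  let S := qS sR
  let b := qB sR Ex.x₂
  let a := qA sR Ex.x₂
  P.F₁.ex Ex.x₂ P.xV *
      (S * (cC 1 + (cC 1 - a) * P.xV) + b * (cC 2 - S) * cC 39 160) * (cC 1 - S) -
    S * b * (cC 2 - S)

/-- The excess of the upper end of `v` over the trap. -/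
def Frame.sTop (F : Frame) : Ex := F.vh.ex Ex.x₂ * (cC 3 5 - Ex.x₂) - cC 2

/-- The excess of the exit over the lower end of `v`. -/
def Frame.sLow (F : Frame) : Ex :=
  let S := qS sR
  cC 2 * (cC 1 - S) -
    (F.vl.ex Ex.x₂ - (cC 41 20 - cC 126 5 * Ex.x₂ + cC 130 * (Ex.x₂ * Ex.x₂))) *
      ((S - Ex.x₂) * (cC 1 - S) + cC 2)

/-- The bound of `X` from `ev_pos` holds on a piece. -/
def Frame.Ev (F : Frame) (mu : ℤ) (X₁ : Q10) : Prop :=
  F.e₀ = 0 ∧ PosBox F.box (F.evB mu X₁) ∨ PosBox F.box (F.evF mu X₁)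

/-- What is known at a point of the end. -/
structure EndPt (d S u v t : ℝ) : Prop where
  box : ChartBox d S
  facts : ChartFacts d S u v t
  d_le : d ≤ 1 / 20
  u_ge : 39 / 40 ≤ u
  t_gt : 1 / 4 < t
  v_psi : 2 * (1 - S) / (2 + (S - d) * (1 - S)) + (41 / 20 - 126 / 5 * d + 130 * d ^ 2) < v

/-- The point is in the frame. -/
structure Frame.Has (F : Frame) (d u v : ℝ) : Prop where
  d0 : (F.d₀ : ℝ) / 10000 ≤ d
  d1 : d ≤ (F.d₁ : ℝ) / 10000
  v0 : (F.vl.c₀ : ℝ) / 10000 + d * ((F.vl.c₁ : ℝ) / 10000) ≤ v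
  v1 : v ≤ (F.vh.c₀ : ℝ) / 10000 + d * ((F.vh.c₁ : ℝ) / 10000)
  e : 1 - u ≤ (F.e₀ : ℝ) / 10000 + (F.e₁ : ℝ) / 10000 * d

section
variable {d S u v t : ℝ}

theorem EndPt.S_lo (h : EndPt d S u v t) : 3 / 5 < S := h.box.S_low

theorem EndPt.S_hi (h : EndPt d S u v t) : S < 1 := by linarith [h.box.S_high]

theorem EndPt.v_pos (h : EndPt d S u v t) : 0 < v := by linarith [h.facts.v_low]

theorem EndPt.r_nonneg (h : EndPt d S u v t) : 0 ≤ 5 * S - 3 := by linarith [h.S_lo]

theorem EndPt.r_le (h : EndPt d S u v t) : 5 * S - 3 ≤ 5 / 3 * d ^ 2 := by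
  linarith [h.box.S_le]

theorem EndPt.r_lt (h : EndPt d S u v t) : 5 * S - 3 < 1 := by
  have := pow_le_pow_left₀ h.box.pos.le h.d_le 2
  linarith [h.r_le]

theorem EndPt.av (h : EndPt d S u v t) : (S - d) / 2 * v < 1 := by linarith [h.facts.r_lt]

theorem EndPt.v_hi (h : EndPt d S u v t) : v * (3 / 5 - d) < 2 := by
  have := mul_le_mul_of_nonneg_right (show 3 / 5 - d ≤ S - d by linarith [h.S_lo]) h.v_pos.le
  linarith [h.facts.r_lt]

theorem EndPt.duH (h : EndPt d S u v t) : d * u * chH d S u v t < 1 := by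
  have h1 := mul_le_mul_of_nonneg_left h.facts.u_lt.le
    (mul_pos h.box.pos h.facts.H_pos).le
  linarith [h.facts.h_lt]

theorem EndPt.g_pos (h : EndPt d S u v t) : 0 < chG d S u v t := by
  have hb : 0 < (S + d) / 2 := by linarith [h.S_lo, h.box.pos]
  have h0 : 0 < 2 * S * (1 - (S - d) / 2 * v) / ((1 - S) * ((S + d) / 2)) :=
    div_pos (mul_pos (by linarith [h.S_lo]) (by linarith [h.av]))
      (mul_pos (by linarith [h.S_hi]) hb)
  have h1 : 0 < chG d S u v t * chH d S u v t := by linarith [h.facts.drift]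
  exact pos_of_mul_pos_left h1 h.facts.H_pos.le

theorem EndPt.W_pos (h : EndPt d S u v t) : 0 < chW d S u v t :=
  mul_pos (div_pos (by linarith [h.S_hi]) (by linarith [h.S_lo])) h.facts.H_pos

theorem EndPt.X_pos (h : EndPt d S u v t) : 0 < chG d S u v t * chW d S u v t :=
  mul_pos h.g_pos h.W_pos

theorem EndPt.gH (h : EndPt d S u v t) :
    (1 - S) * (chG d S u v t * chH d S u v t) = S * (chG d S u v t * chW d S u v t) := by
  have : S ≠ 0 := by linarith [h.S_lo]
  simp only [chW]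
  field_simp

theorem EndPt.gD (h : EndPt d S u v t) :
    (1 - S) * ((S + d) / 2) * (2 + d * v) * chG d S u v t =
      4 * ((S + d) / 2) * (2 + d * v) - 4 * S * u * (1 + d * v) +
        d * ((S + d) / 2) * S * (u * (chG d S u v t * chW d S u v t)) := by
  have hS : 1 - S ≠ 0 := by linarith [h.S_hi]
  have hb : (S + d) / 2 ≠ 0 := by linarith [h.S_lo, h.box.pos]
  have hY : 2 + d * v - d * u * chH d S u v t ≠ 0 := by
    linarith [h.duH, mul_pos h.box.pos h.v_pos]
  have eG : chG d S u v t * ((1 - S) * ((S + d) / 2) * (2 + d * v - d * u * chH d S u v t)) =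
      4 * ((2 + d * v) * ((S + d) / 2) - S * u * (1 + d * v)) :=
    div_mul_cancel₀ _ (mul_ne_zero (mul_ne_zero hS hb) hY)
  linear_combination eG + (d * u * ((S + d) / 2)) * h.gH

/-- The drift bounds `X` below. -/
theorem EndPt.X_low (h : EndPt d S u v t) :
    4 * (1 - (S - d) / 2 * v) < chG d S u v t * chW d S u v t * ((S + d) / 2) := by
  have hS : 0 < 1 - S := by linarith [h.S_hi]
  have hb : 0 < (S + d) / 2 := by linarith [h.S_lo, h.box.pos]
  have h1 := h.facts.drift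
  rw [div_lt_iff₀ (mul_pos hS hb)] at h1
  refine lt_of_mul_lt_mul_left ?_ (show 0 ≤ S by linarith [h.S_lo])
  have e : chG d S u v t * chH d S u v t / 2 * ((1 - S) * ((S + d) / 2)) =
      S * (chG d S u v t * chW d S u v t) / 2 * ((S + d) / 2) := by
    linear_combination ((S + d) / 2 / 2) * h.gH
  rw [e] at h1
  linarith

/-- `ev_pos` bounds `X` above. -/
theorem EndPt.X_high (h : EndPt d S u v t) :
    chG d S u v t * chW d S u v t * u * d * S * ((S + d) / 2) * (1 + d * v) <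
      4 * (d * (1 - (S - d) / 2 * v) + (1 - u) * S * (1 + d * v) -
        (1 - u) * S * ((S + d) / 2) * (2 + d * v)) := by
  have hS : 0 < 1 - S := by linarith [h.S_hi]
  have hbL : 0 < ((S + d) / 2) * (2 + d * v) :=
    mul_pos (by linarith [h.S_lo, h.box.pos]) (by linarith [mul_pos h.box.pos h.v_pos])
  have h1 := mul_pos (mul_pos (mul_pos two_pos hS) hbL) h.facts.ev_pos
  have e : 2 * (1 - S) * ((S + d) / 2 * (2 + d * v)) *
      ((1 - d * u * chH d S u v t) * chG d S u v t / 2 + 2 * S / (1 - S) * (u - 1)) =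
      4 * (d * (1 - (S - d) / 2 * v) + (1 - u) * S * (1 + d * v) -
        (1 - u) * S * ((S + d) / 2) * (2 + d * v)) -
      chG d S u v t * chW d S u v t * u * d * S * ((S + d) / 2) * (1 + d * v) := by
    have h2 : 2 * S / (1 - S) * (1 - S) = 2 * S := div_mul_cancel₀ _ hS.ne'
    linear_combination h.gD - ((S + d) / 2 * (2 + d * v) * (d * u)) * h.gH +
      (2 * ((S + d) / 2 * (2 + d * v)) * (u - 1)) * h2
  linarith

/-- `φ` is above `3/2 d`. -/
theorem EndPt.phi_low (h : EndPt d S u v t) :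
    3 / 2 * d * chW d S u v t < 1 := by
  have hS : 0 < 1 - S := by linarith [h.S_hi]
  have hS0 : 0 < S := by linarith [h.S_lo]
  have hdH := mul_pos h.box.pos h.facts.H_pos
  rw [show 3 / 2 * d * chW d S u v t = 3 / 2 * (1 - S) * (d * chH d S u v t) / S by
    simp only [chW]; ring, div_lt_one hS0]
  have h1 := mul_le_mul_of_nonneg_right (show 3 / 2 * (1 - S) ≤ S by linarith [h.S_lo]) hdH.le
  have h2 := mul_lt_mul_of_pos_left h.facts.h_lt hS0
  linarith

/-- The forms give the signs. -/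
theorem EndPt.signs (h : EndPt d S u v t)
    (hllg : 0 ≤ LLG ((S - d) / 2) d v (chG d S u v t) (chW d S u v t) (chW1 d S u v t) (chR S u)
      (eVal d v (chW d S u v t) (chR S u)) (kVal d (chW d S u v t) (chR S u)))
    (hF : Forms (5 * S - 3) d v (chG d S u v t * chW d S u v t)
      (chG d S u v t * eVal d v (chW d S u v t) (chR S u))
      (chG d S u v t * kVal d (chW d S u v t) (chR S u)) (chG d S u v t * chW1 d S u v t)) :
    ChartSigns d S u v t := by
  obtain ⟨hG, hH, hN, hA⟩ := hF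
  have e5 : (3 + (5 * S - 3)) / 5 = S := by ring
  simp only [e5] at hG hH hN hA
  set g := chG d S u v t with hg
  set W := chW d S u v t with hW
  set W1 := chW1 d S u v t with hW1
  set R := chR S u with hR
  set E := eVal d v W R with hE
  set K := kVal d W R with hK
  have hE0 : E < 0 := by
    have h1 : 0 < g * W * -(g * E) := pos_of_mul_pos_right hH (by linarith [h.S_hi])
    have h2 : 0 < -(g * E) := pos_of_mul_pos_right h1 h.X_pos.le
    by_contra hn
    linarith [mul_nonneg h.g_pos.le (not_lt.1 hn)]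
  refine ⟨?_, h.W_pos, hE0, ?_, ?_, hllg⟩
  · rw [High.TGG_scale]; exact hG
  · refine pos_of_mul_pos_right (a := g ^ 2) ?_ (sq_nonneg g)
    rw [TArrow_scale, High.TA_scale, High.TGG_scale, High.TEG_scale, High.TME_scale]
    have hdv : 0 < 1 + d * v := by linarith [mul_pos h.box.pos h.v_pos]
    refine lt_of_lt_of_eq (mul_pos hdv hA) ?_
    ring
  · rw [High.TMG_scale]; exact hN.le

end

/-- The place of a point in a frame. -/
theorem Frame.Has.place {F : Frame} {d S u v t : ℝ} (h : F.Has d u v) (p : EndPt d S u v t) :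
    ∃ x w, 0 ≤ x ∧ x ≤ 1 ∧ 0 ≤ w ∧ w ≤ 1 ∧ ∀ o : ℝ, F.xV.val o x d w = v ∧ F.xU.val o x d w = u ∧
      F.xE.val o x d w = 1 - u ∧ x * ((F.e₀ : ℝ) / 10000 + (F.e₁ : ℝ) / 10000 * d) = 1 - u := by
  set a := (F.vl.c₀ : ℝ) / 10000 + d * ((F.vl.c₁ : ℝ) / 10000) with ha
  set b := (F.vh.c₀ : ℝ) / 10000 + d * ((F.vh.c₁ : ℝ) / 10000) with hb
  set E := (F.e₀ : ℝ) / 10000 + (F.e₁ : ℝ) / 10000 * d with hE
  have hu := p.facts.u_lt
  have hv0 : a ≤ v := h.v0
  have hv1 : v ≤ b := h.v1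
  have he : 1 - u ≤ E := h.e
  have hE0 : 0 < E := by linarith
  obtain ⟨w, w0, w1, ew⟩ : ∃ w, 0 ≤ w ∧ w ≤ 1 ∧ a + w * (b - a) = v := by
    rcases eq_or_lt_of_le (hv0.trans hv1) with h0 | h0
    · exact ⟨0, le_rfl, zero_le_one, by linarith⟩
    · exact ⟨(v - a) / (b - a), div_nonneg (by linarith) (by linarith),
        (div_le_one (by linarith)).2 (by linarith),
        by rw [div_mul_cancel₀ _ (show b - a ≠ 0 by linarith)]; ring⟩
  have ex : (1 - u) / E * E = 1 - u := div_mul_cancel₀ _ hE0.ne'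
  refine ⟨(1 - u) / E, w, div_nonneg (by linarith) hE0.le, (div_le_one hE0).2 he, w0, w1,
    fun o => ⟨?_, ?_, ?_, ex⟩⟩
  all_goals simp only [Frame.xV, Frame.xU, Frame.xE, L2.ex, k₄, ex_add, ex_sub, ex_mul, Ex.val]
  all_goals push_cast
  · rw [← ew, ha, hb]
  · rw [hE] at ex ⊢; linarith
  · rw [hE] at ex ⊢; linarith

theorem val_sR (th x d w : ℝ) : sR.val th x d w = 5 / 3 * th * (d * d) := by
  simp only [sR, ex_mul, Ex.val]; push_cast; ring

theorem EndPt.rho {d S u v t : ℝ} (p : EndPt d S u v t) :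
    ∃ th, 0 ≤ th ∧ th ≤ 1 ∧ ∀ x w, sR.val th x d w = 5 * S - 3 := by
  have hd : (0 : ℝ) < 5 / 3 * (d * d) := by have := p.box.pos; positivity
  refine ⟨(5 * S - 3) / (5 / 3 * (d * d)), div_nonneg p.r_nonneg hd.le,
    (div_le_one hd).2 (by linarith [p.r_le]), fun x w => ?_⟩
  rw [val_sR]
  linear_combination div_mul_cancel₀ (5 * S - 3) hd.ne'

/-- A point of a frame is a point of the box of its checks. -/
theorem Frame.Has.inCheck {F : Frame} {d u v th x w : ℝ} (h : F.Has d u v) (t0 : 0 ≤ th)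
    (t1 : th ≤ 1) (x0 : 0 ≤ x) (x1 : x ≤ 1) (w0 : 0 ≤ w) (w1 : w ≤ 1) : InCheck F th x d w :=
  ⟨t0, t1, x0, x1, h.d0, h.d1, w0, w1⟩

/-- The side checks of `X` from above. -/
theorem Frame.Ev.upper {F : Frame} {mu : ℤ} {X₁ : Q10} {d S u v t th x w : ℝ}
    (h : F.Ev mu X₁) (p : EndPt d S u v t) (c : InCheck F th x d w)
    (er : sR.val th x d w = 5 * S - 3) (ev : F.xV.val th x d w = v)
    (ee : F.xE.val th x d w = 1 - u) :
    chG d S u v t * chW d S u v t <
      (X₁.ex Ex.x₁ Ex.x₂ F.xV).val th x d w * (1 + mu * (5 * S - 3)) := by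
  obtain ⟨m0, m1, m2, m3⟩ := c.mem
  set X := chG d S u v t * chW d S u v t with hX
  set Q := (X₁.ex Ex.x₁ Ex.x₂ F.xV).val th x d w * (1 + mu * (5 * S - 3)) with hQ
  have hd := p.box.pos
  have hk : 0 < u * d * S * ((S + d) / 2) * (1 + d * v) := by
    have := p.S_lo
    have := p.v_pos
    have := p.facts.u_pos
    positivity
  have key : 4 * (d * (1 - (S - d) / 2 * v) + (1 - u) * S * (1 + d * v) -
      (1 - u) * S * ((S + d) / 2) * (2 + d * v)) <
      Q * u * d * S * ((S + d) / 2) * (1 + d * v) := by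
    rcases h with ⟨h0, h⟩ | h
    · have k := h th x d w m0 m1 m2 m3
      have ee' : 1 - u = x * ((F.e₁ : ℝ) / 10000) * d := by
        rw [← ee]; simp only [Frame.xE, k₄, ex_add, ex_mul, Ex.val, h0]; push_cast; ring
      simp only [Frame.evB, qS, qA, qB, qL, qP, k₄, ex_add, ex_sub, ex_mul, Ex.val, er, ev, ee]
        at k
      push_cast at k
      simp only [div_one] at k
      have k2 := mul_pos hd k
      rw [show u = 1 - x * ((F.e₁ : ℝ) / 10000) * d by linarith]
      rw [ee'] at k2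
      simp only [hQ]
      linarith
    · have k := h th x d w m0 m1 m2 m3
      simp only [Frame.evF, qS, qA, qB, qL, qP, k₄, ex_add, ex_sub, ex_mul, Ex.val, er, ev, ee]
        at k
      push_cast at k
      simp only [hQ, div_one] at k ⊢
      linarith
  refine lt_of_mul_lt_mul_right ?_ hk.le
  have := p.X_high
  simp only [← hX] at this
  linarith

/-- What is checked for a piece in `(X, u)`. -/
structure Piece.Ok (P : Piece) (gb : Box) : Prop where
  sign : Signed P.box P.bd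
  fit : P.grp.Fit gb
  low : PosBox P.box P.sX0
  high : P.toFrame.Ev P.grp.mu P.X₁
  mu : -1 ≤ P.grp.mu
  rm : 5 * P.d₁ * P.d₁ ≤ 300 * P.rm

theorem r_le_rm {F : Frame} {d S u v t : ℝ} (p : EndPt d S u v t) (h : F.Has d u v)
    (hr : 5 * F.d₁ * F.d₁ ≤ 300 * F.rm) : 5 * S - 3 ≤ (F.rm : ℝ) / 1000000 := by
  have h1 : (5 : ℝ) * F.d₁ * F.d₁ ≤ 300 * F.rm := by exact_mod_cast hr
  have h2 := pow_le_pow_left₀ p.box.pos.le h.d1 2
  rw [div_pow] at h2
  linarith [p.r_le]

/-- **The closed signs at a point of a checked piece in `(X, u)`.** -/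
theorem Piece.signs {P : Piece} {gb : Box} (hP : P.Ok gb) {d S u v t : ℝ}
    (p : EndPt d S u v t) (h : P.toFrame.Has d u v) (g : InBox gb (5 * S - 3) d v)
    (hllg : 0 ≤ LLG ((S - d) / 2) d v (chG d S u v t) (chW d S u v t) (chW1 d S u v t) (chR S u)
      (eVal d v (chW d S u v t) (chR S u)) (kVal d (chW d S u v t) (chR S u))) :
    ChartSigns d S u v t := by
  obtain ⟨ρ, ρ0, ρ1, er⟩ := p.rho
  obtain ⟨x, w, x0, x1, w0, w1, pl⟩ := h.place p
  set X := chG d S u v t * chW d S u v t with hX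
  set m := 1 + (P.grp.mu : ℝ) * (5 * S - 3) with hm
  have hm0 : 0 < m := by
    have h1 := mul_le_mul_of_nonneg_right (show (-1 : ℝ) ≤ P.grp.mu by exact_mod_cast hP.mu)
      p.r_nonneg
    linarith [p.r_lt]
  have c := h.inCheck ρ0 ρ1 x0 x1 w0 w1
  have up := hP.high.upper p c (er x w) (pl ρ).1 (pl ρ).2.2.1
  set a := (P.X₀.ex Ex.x₂ P.xV).val ρ x d w with ha
  set b := (P.X₁.ex Ex.x₁ Ex.x₂ P.xV).val ρ x d w with hb
  have lo : a * m < X := by
    obtain ⟨m0, m1, m2, m3⟩ := c.mem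
    have k := hP.low ρ x d w m0 m1 m2 m3
    simp only [Piece.sX0, qS, qA, qB, ex_add, ex_sub, ex_mul, Ex.val, er x w, (pl ρ).1, ← ha] at k
    push_cast at k
    simp only [div_one] at k
    refine lt_of_mul_lt_mul_right (a := (S + d) / 2) ?_ (by linarith [p.S_lo, p.box.pos])
    have := p.X_low
    simp only [← hX] at this
    linarith
  have hab : a < b := lt_of_mul_lt_mul_right (lo.trans up) hm0.le
  set th := (X / m - a) / (b - a) with hth
  have t0 : 0 ≤ th := div_nonneg (by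
    have := (le_div_iff₀ hm0).2 lo.le
    linarith) (by linarith)
  have t1 : th ≤ 1 := (div_le_one (by linarith)).2 (by
    have := (div_le_iff₀ hm0).2 up.le
    linarith)
  have indep : ∀ o, (P.X₀.ex Ex.x₂ P.xV).val o x d w = a ∧
      (P.X₁.ex Ex.x₁ Ex.x₂ P.xV).val o x d w = b := fun o => by
    simp only [ha, hb, Q6.ex, Q10.ex, k₄, ex_add, ex_sub, ex_mul, Ex.val, (pl o).1, (pl ρ).1,
      and_self]
  have eX : P.xX.val th x d w = X / m := by
    simp only [Piece.xX, ex_add, ex_sub, ex_mul, Ex.val, (indep th).1, (indep th).2]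
    rw [hth, div_mul_cancel₀ _ (show b - a ≠ 0 by linarith)]
    ring
  have pp := chart_prods (d := d) (S := S) (u := u) (v := v) (t := t) (by linarith [p.S_lo])
    p.S_hi p.box.pos.le (by linarith [p.duH, mul_pos p.box.pos p.v_pos])
  have ev := (pl th).1
  have eu := (pl th).2.1
  have eX' : m * P.xX.val th x d w = X := by rw [eX, mul_div_cancel₀ _ hm0.ne']
  refine p.signs hllg ?_
  simp only [← hX] at pp ⊢
  generalize chG d S u v t * eVal d v (chW d S u v t) (chR S u) = e at pp ⊢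
  generalize chG d S u v t * kVal d (chW d S u v t) (chR S u) = k at pp ⊢
  generalize chG d S u v t * chW1 d S u v t = z at pp ⊢
  rw [← ev, ← eu] at pp
  have := Piece.forms hP.sign hP.fit (h.inCheck t0 t1 x0 x1 w0 w1) (r := 5 * S - 3)
    (by rw [ev]; exact g) p.r_nonneg (r_le_rm p h hP.rm) p.r_lt p.box.pos.le
    (by rw [ev]; exact p.v_pos.le) (by rw [eu]; exact p.facts.u_pos)
    (by rw [eX]; exact div_nonneg p.X_pos.le hm0.le) eX'.symm pp
  rwa [ev] at this

/-- What is checked for a piece in `(X, u, φ)`. -/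
structure PieceD.Ok (P : PieceD) (gb : Box) : Prop where
  sign : Signed P.box fun j : Bool × Bool => P.bd j.1 j.2
  fit : P.grp.Fit gb
  high : P.toFrame.Ev 0 P.X₁
  rm : 5 * P.d₁ * P.d₁ ≤ 300 * P.rm

/-- **The closed signs at a point of a checked piece in `(X, u, φ)`.** -/
theorem PieceD.signs {P : PieceD} {gb : Box} (hP : P.Ok gb) {d S u v t : ℝ}
    (p : EndPt d S u v t) (h : P.toFrame.Has d u v) (g : InBox gb (5 * S - 3) d v)
    (hllg : 0 ≤ LLG ((S - d) / 2) d v (chG d S u v t) (chW d S u v t) (chW1 d S u v t) (chR S u)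
      (eVal d v (chW d S u v t) (chR S u)) (kVal d (chW d S u v t) (chR S u)))
    (f0 : (P.F₀.ex Ex.x₂ Ex.x₃).val 0 0 d v * chW d S u v t ≤ 1)
    (f1 : 1 ≤ (P.F₁.ex Ex.x₂ Ex.x₃).val 0 0 d v * chW d S u v t) :
    ChartSigns d S u v t := by
  obtain ⟨ρ, ρ0, ρ1, er⟩ := p.rho
  obtain ⟨x, w, x0, x1, w0, w1, pl⟩ := h.place p
  set X := chG d S u v t * chW d S u v t with hX
  have c := h.inCheck ρ0 ρ1 x0 x1 w0 w1
  have up := hP.high.upper p c (er x w) (pl ρ).1 (pl ρ).2.2.1
  simp only [Int.cast_zero, zero_mul, add_zero, mul_one] at up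
  set b := (P.X₁.ex Ex.x₁ Ex.x₂ P.xV).val ρ x d w with hb
  have hb0 : 0 < b := lt_trans p.X_pos up
  set th := X / b with hth
  have t0 : 0 ≤ th := div_nonneg p.X_pos.le hb0.le
  have t1 : th ≤ 1 := (div_le_one hb0).2 up.le
  have indep : ∀ (q : Q6) o, (q.ex Ex.x₂ P.xV).val o x d w = (q.ex Ex.x₂ Ex.x₃).val 0 0 d v :=
    fun q o => by simp only [Q6.ex, k₄, ex_add, ex_sub, ex_mul, Ex.val, (pl o).1]
  have eb : (P.X₁.ex Ex.x₁ Ex.x₂ P.xV).val th x d w = b := by
    simp only [hb, Q10.ex, k₄, ex_add, ex_sub, ex_mul, Ex.val, (pl th).1, (pl ρ).1]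
  have eX : P.xX.val th x d w = X := by
    simp only [PieceD.xX, ex_mul, Ex.val, eb, hth]
    exact div_mul_cancel₀ _ hb0.ne'
  have hW := p.W_pos
  set f := (chW d S u v t)⁻¹ with hf
  have ef : chG d S u v t = f * X := by rw [hf, hX]; field_simp
  have hY : 0 < 2 + d * v - d * u * chH d S u v t := by
    linarith [p.duH, mul_pos p.box.pos p.v_pos]
  obtain ⟨he, hk, hw⟩ := chart_prods (d := d) (S := S) (u := u) (v := v) (t := t)
    (by linarith [p.S_lo]) p.S_hi p.box.pos.le hY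
  have gd := p.gD
  simp only [← hX] at he hk hw gd
  rw [show (1 - S) * ((S + d) / 2) * (2 + d * v) * chG d S u v t =
    (1 - S) * ((S + d) / 2) * (2 + d * v) * (f * X) by rw [← ef]] at gd
  have pd : ProdsD (5 * S - 3) d v u X f
      (chG d S u v t * eVal d v (chW d S u v t) (chR S u))
      (chG d S u v t * kVal d (chW d S u v t) (chR S u)) (chG d S u v t * chW1 d S u v t) := by
    have hS : (3 + (5 * S - 3)) / 5 = S := by ring
    constructor
    all_goals
      simp only [rD, at3, qD, qS, qA, qB, qL, qP, qY, qC, qG0, qG1, qG2, qK, qYx, qQx, qV, qW0,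
        qW1, qWk, qWc, qWg, qWx, ex_add, ex_sub, ex_mul, Ex.val, hS] at he hk hw ⊢
      push_cast at he hk hw ⊢
      simp only [div_one, mul_one, one_mul] at he hk hw ⊢
    · linear_combination he + ((10 + v * (1 / 20 + d)) * S) * gd
    · linear_combination hk - (1 / 20 - 9 * d) * S * gd
    · linear_combination hw - (S * (1 - S) * (1 - S) * (2 + d * v) *
        (1 + (1 - (S - d) / 2) * v)) * gd
  have ev := (pl th).1
  have eu := (pl th).2.1
  refine p.signs hllg ?_
  simp only [← hX]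
  generalize chG d S u v t * eVal d v (chW d S u v t) (chR S u) = e at pd ⊢
  generalize chG d S u v t * kVal d (chW d S u v t) (chR S u) = k at pd ⊢
  generalize chG d S u v t * chW1 d S u v t = z at pd ⊢
  rw [← eX, ← ev, ← eu] at pd
  have := PieceD.forms hP.sign hP.fit (h.inCheck t0 t1 x0 x1 w0 w1) (f := f)
    (by rw [ev]; exact g) p.r_nonneg (r_le_rm p h hP.rm) p.r_lt p.box.pos.le
    (by rw [ev]; exact p.v_pos.le) (by rw [eu]; exact p.facts.u_pos)
    (by rw [eX]; exact p.X_pos) (inv_nonneg.2 hW.le)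
    (by rw [indep, hf, ← one_div, le_div_iff₀ hW]; exact f0)
    (by rw [indep, hf, ← one_div, div_le_iff₀ hW]; exact f1)
    pd
  rwa [ev, eX] at this

/-- The upper bound of `φ` on a piece. -/
theorem PieceD.phi_le {P : PieceD} {d S u v t : ℝ} (hc : PosBox P.box P.sPhi)
    (p : EndPt d S u v t) (h : P.toFrame.Has d u v) :
    1 ≤ (P.F₁.ex Ex.x₂ Ex.x₃).val 0 0 d v * chW d S u v t := by
  obtain ⟨ρ, ρ0, ρ1, er⟩ := p.rho
  obtain ⟨x, w, x0, x1, w0, w1, pl⟩ := h.place p
  obtain ⟨m0, m1, m2, m3⟩ := (h.inCheck ρ0 ρ1 x0 x1 w0 w1).mem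
  have k := hc ρ x d w m0 m1 m2 m3
  simp only [PieceD.sPhi, Q6.ex, k₄, qS, qA, qB, ex_add, ex_sub, ex_mul, Ex.val, er x w,
    (pl ρ).1] at k ⊢
  push_cast at k ⊢
  simp only [div_one] at k ⊢
  have hS : 0 < S := by linarith [p.S_lo]
  have hS1 : 0 < 1 - S := by linarith [p.S_hi]
  have hb : 0 < (S + d) / 2 * (2 - S) := mul_pos (by linarith [p.box.pos]) (by linarith [p.S_hi])
  set F := (P.F₁.c : ℝ) / 10000 + d * ((P.F₁.cd : ℝ) / 10000 + d * ((P.F₁.cdd : ℝ) / 10000)) +
    v * ((P.F₁.cv : ℝ) / 10000 + (P.F₁.cdv : ℝ) / 10000 * d + v * ((P.F₁.cvv : ℝ) / 10000)) with hF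
  set T := S * (1 + (1 - (S - d) / 2) * v) with hT
  set B := (S + d) / 2 * (2 - S) with hB
  have k' : S * B < F * (T + B * (39 / 160)) * (1 - S) := by
    simp only [hT, hB]; linarith
  have eH : chH d S u v t * B = T + u * t * B := by
    have : (2 - S) ≠ 0 := by linarith [p.S_hi]
    have : S + d ≠ 0 := by linarith [p.box.pos]
    simp only [chH, hT, hB]; field_simp
  have hT0 : 0 < T := by
    have := p.v_pos
    have : 0 ≤ 1 - (S - d) / 2 := by linarith [p.S_hi, p.box.pos]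
    positivity
  have hF0 : 0 < F := by
    by_contra hn
    linarith [mul_pos hS hb, mul_nonpos_of_nonpos_of_nonneg
      (mul_nonpos_of_nonpos_of_nonneg (not_lt.1 hn)
        (show 0 ≤ T + B * (39 / 160) by linarith)) hS1.le]
  have hut : 39 / 160 ≤ u * t := by
    have := mul_le_mul p.u_ge p.t_gt.le (by norm_num) p.facts.u_pos.le
    linarith
  have h2 : F * (T + B * (39 / 160)) * (1 - S) ≤ F * (chH d S u v t * B) * (1 - S) :=
    mul_le_mul_of_nonneg_right (mul_le_mul_of_nonneg_left (by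
      rw [eH]; linarith [mul_le_mul_of_nonneg_right hut hb.le]) hF0.le) hS1.le
  have h3 : S < F * chH d S u v t * (1 - S) := lt_of_mul_lt_mul_right (by linarith) hb.le
  rw [chW, div_mul_eq_mul_div, ← mul_div_assoc, le_div_iff₀ hS]
  linarith

/-- The upper end of `v` is above the trap. -/
theorem Frame.v_top {F : Frame} {d S u v t : ℝ} (hc : PosBox F.box F.sTop)
    (p : EndPt d S u v t) (d0 : (F.d₀ : ℝ) / 10000 ≤ d) (d1 : d ≤ (F.d₁ : ℝ) / 10000) :
    v ≤ (F.vh.c₀ : ℝ) / 10000 + d * ((F.vh.c₁ : ℝ) / 10000) := by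
  obtain ⟨m0, m1, m2, m3⟩ := (show InCheck F 0 0 d 0 from
    ⟨le_rfl, zero_le_one, le_rfl, zero_le_one, d0, d1, le_rfl, zero_le_one⟩).mem
  have k := hc 0 0 d 0 m0 m1 m2 m3
  simp only [Frame.sTop, L2.ex, k₄, ex_add, ex_sub, ex_mul, Ex.val] at k
  push_cast at k
  simp only [div_one] at k
  refine (lt_of_mul_lt_mul_right (a := 3 / 5 - d) ?_ (by linarith [p.d_le])).le
  linarith [p.v_hi]

/-- The lower end of `v` is below the exit. -/
theorem Frame.v_exit {F : Frame} {d S u v t : ℝ} (hc : PosBox F.box F.sLow)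
    (p : EndPt d S u v t) (d0 : (F.d₀ : ℝ) / 10000 ≤ d) (d1 : d ≤ (F.d₁ : ℝ) / 10000) :
    (F.vl.c₀ : ℝ) / 10000 + d * ((F.vl.c₁ : ℝ) / 10000) ≤ v := by
  obtain ⟨ρ, ρ0, ρ1, er⟩ := p.rho
  obtain ⟨m0, m1, m2, m3⟩ := (show InCheck F ρ 0 d 0 from
    ⟨ρ0, ρ1, le_rfl, zero_le_one, d0, d1, le_rfl, zero_le_one⟩).mem
  have k := hc ρ 0 d 0 m0 m1 m2 m3
  simp only [Frame.sLow, L2.ex, k₄, qS, ex_add, ex_sub, ex_mul, Ex.val, er 0 0] at k
  push_cast at k
  simp only [div_one] at k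
  have hD : 0 < 2 + (S - d) * (1 - S) := by
    linarith [mul_nonneg (show 0 ≤ S - d by linarith [p.S_lo, p.d_le])
      (show 0 ≤ 1 - S by linarith [p.S_hi])]
  have h1 := p.v_psi
  refine le_of_lt (lt_trans ?_ h1)
  rw [← sub_lt_iff_lt_add, lt_div_iff₀ hD]
  linarith

/-- `LLG` on the end. -/
theorem EndPt.llg {b : Box} (hlo : PosBox b High.hLLGlo) (hhi : PosBox b High.hLLGhi)
    (hb : b = ⟨⟨39, 40, 40⟩, ⟨6000, 6009, 10000⟩, ⟨0, 501, 10000⟩, ⟨99, 369, 100⟩⟩)
    {d S u v t : ℝ} (p : EndPt d S u v t) :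
    0 ≤ LLG ((S - d) / 2) d v (chG d S u v t) (chW d S u v t) (chW1 d S u v t) (chR S u)
      (eVal d v (chW d S u v t) (chR S u)) (kVal d (chW d S u v t) (chR S u)) := by
  have hd := p.box.pos
  have hd1 := p.d_le
  have hd2 := pow_le_pow_left₀ hd.le hd1 2
  have hv0 : 99 / 100 ≤ v := by
    have h1 : 0 ≤ 2 * (1 - S) / (2 + (S - d) * (1 - S)) :=
      div_nonneg (by linarith [p.S_hi]) (by
        linarith [mul_nonneg (show 0 ≤ S - d by linarith [p.S_lo])
          (show 0 ≤ 1 - S by linarith [p.S_hi])])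
    nlinarith [p.v_psi, h1, sq_nonneg (d - 1 / 20)]
  have hv1 : v < 369 / 100 := by
    have := mul_le_mul_of_nonneg_left (show (11 / 20 : ℝ) ≤ 3 / 5 - d by linarith) p.v_pos.le
    linarith [p.v_hi]
  subst hb
  refine High.llg_nonneg hlo hhi ?_ ?_ ?_ ?_ hd (by linarith [p.S_lo]) p.S_hi
    (by linarith [p.t_gt]) p.facts
  all_goals simp only [Side.Mem]; push_cast; constructor
  all_goals linarith [p.u_ge, p.facts.u_lt, p.S_lo, p.box.S_le]

end Vale.Agent.P100.Calib.Closed.Bot
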