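import Vale.Agent.P100.Calib.SlabBotPiece

/-!
# Soundness of a checked piece
-/

set_option linter.unusedVariables false
set_option linter.unusedSimpArgs false

namespace Vale.Agent.P100.Calib.Closed.Bot

open BoxPos
open Large (PosBox)

local instance botSoundAdd : Add Ex := ⟨Ex.add⟩
local instance botSoundSub : Sub Ex := ⟨Ex.sub⟩
local instance botSoundMul : Mul Ex := ⟨Ex.mul⟩

/-- The expression is positive on the box for all indices. -/
def Ev {ι : Type} (b : Box) (B : ι → Bd) (g : Bd → Ex) : Prop := ∀ i, PosBox b (g (B i))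

/-- The checks of the signs. -/
structure Signed {ι : Type} (b : Box) (B : ι → Bd) : Prop where
  g : Ev b B (·.G)
  h : Ev b B (·.H)
  n : Ev b B (·.N)
  c₁p : Ev b B Bd.c₁p ∨ Ev b B Bd.mNeg
  c₁m : Ev b B Bd.c₁m ∨ Ev b B Bd.mPos
  c₂p : Ev b B Bd.c₂p ∨ Ev b B Bd.eNeg
  c₂m : Ev b B Bd.c₂m ∨ Ev b B Bd.ePos
  c₃pp : Ev b B Bd.c₃pp ∨ Ev b B Bd.mNeg ∨ Ev b B Bd.eNeg
  c₃pm : Ev b B Bd.c₃pm ∨ Ev b B Bd.mNeg ∨ Ev b B Bd.ePos
  c₃mp : Ev b B Bd.c₃mp ∨ Ev b B Bd.mPos ∨ Ev b B Bd.eNeg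
  c₃mm : Ev b B Bd.c₃mm ∨ Ev b B Bd.mPos ∨ Ev b B Bd.ePos

/-- A point of the box of the checks. -/
structure InCheck (F : Frame) (th x d w : ℝ) : Prop where
  th0 : 0 ≤ th
  th1 : th ≤ 1
  x0 : 0 ≤ x
  x1 : x ≤ 1
  d0 : (F.d₀ : ℝ) / 10000 ≤ d
  d1 : d ≤ (F.d₁ : ℝ) / 10000
  w0 : 0 ≤ w
  w1 : w ≤ 1

section
variable {F : Frame} {th x d w : ℝ}

theorem InCheck.mem (h : InCheck F th x d w) : F.box.s₀.Mem th ∧ F.box.s₁.Mem x ∧
    F.box.s₂.Mem d ∧ F.box.s₃.Mem w := by
  have := h.th0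
  have := h.th1
  have := h.x0
  have := h.x1
  have := h.d0
  have := h.d1
  have := h.w0
  have := h.w1
  simp only [Frame.box, Side.Mem]
  push_cast
  refine ⟨⟨?_, ?_⟩, ⟨?_, ?_⟩, ⟨?_, ?_⟩, ?_, ?_⟩ <;> linarith

/-- The bounds at a point, from their expressions. -/
noncomputable def Bd.valAt (B : Bd) (th x d w : ℝ) : Vals :=
  ⟨B.T.val th x d w, B.Ml.val th x d w, B.Mh.val th x d w, B.El.val th x d w, B.Eh.val th x d w,
    B.G.val th x d w, B.H.val th x d w, B.N.val th x d w⟩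

/-- The weights at a point. -/
noncomputable def Bd.wts (B : Bd) (th x d w : ℝ) : Wts :=
  ⟨B.k₁.val th x d w, B.k₂.val th x d w, B.u.val th x d w, B.v.val th x d w, d⟩

theorem Signed.cond {ι : Type} {B : ι → Bd} (h : Signed F.box B) (p : InCheck F th x d w)
    {K : Wts} (hK : ∀ i, (B i).wts th x d w = K) :
    Cond K fun i => (B i).valAt th x d w := by
  obtain ⟨m0, m1, m2, m3⟩ := p.mem
  have m : ∀ {g : Bd → Ex} {f : Vals → ℝ},
      (∀ i, (g (B i)).val th x d w = f ((B i).valAt th x d w)) → Ev F.box B g →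
        All (fun i => (B i).valAt th x d w) f :=
    fun e hg i => (e i) ▸ hg i th x d w m0 m1 m2 m3
  have kk : ∀ i, (B i).k₁.val th x d w = K.k₁ ∧ (B i).k₂.val th x d w = K.k₂ ∧
      (B i).u.val th x d w = K.u ∧ (B i).v.val th x d w = K.v ∧ d = K.d := fun i => by
    rw [← hK i]; exact ⟨rfl, rfl, rfl, rfl, rfl⟩
  have nM : ∀ i, (B i).mNeg.val th x d w = -((B i).valAt th x d w).Mh := fun i => by
    simp only [Bd.mNeg, Bd.valAt, ex_mul, Ex.val]; push_cast; ring
  have nE : ∀ i, (B i).eNeg.val th x d w = -((B i).valAt th x d w).Eh := fun i => by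
    simp only [Bd.eNeg, Bd.valAt, ex_mul, Ex.val]; push_cast; ring
  have pM : ∀ i, (B i).mPos.val th x d w = ((B i).valAt th x d w).Ml := fun _ => rfl
  have pE : ∀ i, (B i).ePos.val th x d w = ((B i).valAt th x d w).El := fun _ => rfl
  exact
    { g := m (f := (·.G)) (fun _ => rfl) h.g
      h := m (f := (·.H)) (fun _ => rfl) h.h
      n := m (f := (·.N)) (fun _ => rfl) h.n
      c₁p := h.c₁p.imp (m fun i => by
        obtain ⟨a, b, c, e, f⟩ := kk i
        simp only [Bd.c₁p, Vals.c₁p, Bd.valAt, ex_add, ex_sub, ex_mul, Ex.val, a, c]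
        push_cast; ring) (m nM)
      c₁m := h.c₁m.imp (m fun i => by
        obtain ⟨a, b, c, e, f⟩ := kk i
        simp only [Bd.c₁m, Vals.c₁m, Bd.valAt, ex_add, ex_sub, ex_mul, Ex.val, a, c]
        push_cast; ring) (m pM)
      c₂p := h.c₂p.imp (m fun i => by
        obtain ⟨a, b, c, e, f⟩ := kk i
        simp only [Bd.c₂p, Vals.c₂p, Bd.valAt, qP, ex_add, ex_sub, ex_mul, Ex.val, b, e, ← f]
        push_cast; ring) (m nE)
      c₂m := h.c₂m.imp (m fun i => by
        obtain ⟨a, b, c, e, f⟩ := kk i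
        simp only [Bd.c₂m, Vals.c₂m, Bd.valAt, qP, ex_add, ex_sub, ex_mul, Ex.val, b, e, ← f]
        push_cast; ring) (m pE)
      c₃pp := h.c₃pp.imp (m fun i => by
        obtain ⟨a, b, c, e, f⟩ := kk i
        simp only [Bd.c₃pp, Bd.wE, Vals.c₃pp, Wts.wE, Bd.valAt, ex_add, ex_sub, ex_mul, Ex.val,
          a, b, c, e, ← f]) (Or.imp (m nM) (m nE))
      c₃pm := h.c₃pm.imp (m fun i => by
        obtain ⟨a, b, c, e, f⟩ := kk i
        simp only [Bd.c₃pm, Bd.wE, Vals.c₃pm, Wts.wE, Bd.valAt, ex_add, ex_sub, ex_mul, Ex.val,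
          a, b, c, e, ← f]) (Or.imp (m nM) (m pE))
      c₃mp := h.c₃mp.imp (m fun i => by
        obtain ⟨a, b, c, e, f⟩ := kk i
        simp only [Bd.c₃mp, Bd.wE, Vals.c₃mp, Wts.wE, Bd.valAt, ex_add, ex_sub, ex_mul, Ex.val,
          a, b, c, e, ← f]) (Or.imp (m pM) (m nE))
      c₃mm := h.c₃mm.imp (m fun i => by
        obtain ⟨a, b, c, e, f⟩ := kk i
        simp only [Bd.c₃mm, Bd.wE, Vals.c₃mm, Wts.wE, Bd.valAt, ex_add, ex_sub, ex_mul, Ex.val,
          a, b, c, e, ← f]) (Or.imp (m pM) (m pE)) }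

end

/-- The conditions pass to larger `T` and `N`. -/
theorem Cond.raise {ι : Type} {K : Wts} {V W : ι → Vals} (c : Cond K V)
    (hT : ∀ i, (V i).T ≤ (W i).T) (hN : ∀ i, (V i).N ≤ (W i).N)
    (e : ∀ i, (V i).Ml = (W i).Ml ∧ (V i).Mh = (W i).Mh ∧ (V i).El = (W i).El ∧
      (V i).Eh = (W i).Eh ∧ (V i).G = (W i).G ∧ (V i).H = (W i).H) : Cond K W := by
  have m : ∀ {g : Vals → ℝ}, (∀ i, g (V i) ≤ g (W i)) → All V g → All W g :=
    fun hg h i => lt_of_lt_of_le (h i) (hg i)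
  exact
    { g := m (fun i => le_of_eq (e i).2.2.2.2.1) c.g
      h := m (fun i => le_of_eq (e i).2.2.2.2.2) c.h
      n := m hN c.n
      c₁p := c.c₁p.imp (m fun i => by simp only [Vals.c₁p, (e i).2.1, (e i).2.2.2.2.2, le_refl])
        (m fun i => by simp only [(e i).2.1, le_refl])
      c₁m := c.c₁m.imp (m fun i => by simp only [Vals.c₁m, (e i).1, (e i).2.2.2.2.2, le_refl])
        (m fun i => by simp only [(e i).1, le_refl])
      c₂p := c.c₂p.imp
        (m fun i => by simp only [Vals.c₂p, (e i).2.2.2.1, (e i).2.2.2.2.1, le_refl])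
        (m fun i => by simp only [(e i).2.2.2.1, le_refl])
      c₂m := c.c₂m.imp
        (m fun i => by simp only [Vals.c₂m, (e i).2.2.1, (e i).2.2.2.2.1, le_refl])
        (m fun i => by simp only [(e i).2.2.1, le_refl])
      c₃pp := c.c₃pp.imp
        (m fun i => by simp only [Vals.c₃pp, (e i).2.1, (e i).2.2.2.1]; linarith [hT i])
        (Or.imp (m fun i => by simp only [(e i).2.1, le_refl])
          (m fun i => by simp only [(e i).2.2.2.1, le_refl]))
      c₃pm := c.c₃pm.imp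
        (m fun i => by simp only [Vals.c₃pm, (e i).2.1, (e i).2.2.1]; linarith [hT i])
        (Or.imp (m fun i => by simp only [(e i).2.1, le_refl])
          (m fun i => by simp only [(e i).2.2.1, le_refl]))
      c₃mp := c.c₃mp.imp
        (m fun i => by simp only [Vals.c₃mp, (e i).1, (e i).2.2.2.1]; linarith [hT i])
        (Or.imp (m fun i => by simp only [(e i).1, le_refl])
          (m fun i => by simp only [(e i).2.2.2.1, le_refl]))
      c₃mm := c.c₃mm.imp
        (m fun i => by simp only [Vals.c₃mm, (e i).1, (e i).2.2.1]; linarith [hT i])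
        (Or.imp (m fun i => by simp only [(e i).1, le_refl])
          (m fun i => by simp only [(e i).2.2.1, le_refl])) }

/-- The forms at a point in the normalisation `g = 1`. -/
def Forms (r d v X e k w : ℝ) : Prop :=
  let a := ((3 + r) / 5 - d) / 2
  let H := (1 - (3 + r) / 5) * (X * -e)
  0 < TGG a d v 1 X w 0 e k ∧ 0 < H ∧ 0 < TMG a d v 1 X w 0 e k ∧
    0 < 4 * TA a d v 1 X w 0 e k * TGG a d v 1 X w 0 e k * H -
      16 * TME a d v 1 X w e k ^ 2 * TGG a d v 1 X w 0 e k -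
      625 * d ^ 2 * v ^ 2 * (1 + d * v) * TEG a d v 1 X w 0 e k ^ 2 * H

/-- The values at `r` of a piece in `(X, u)`. -/
noncomputable def Piece.vals (P : Piece) (r th x d w : ℝ) : Vals :=
  let v := P.xV.val th x d w
  let X := P.xX.val th x d w
  let u := P.xU.val th x d w
  let lo := fun s : Sur => s.loR r d v
  let hi := fun s : Sur => s.hiR r d v
  ⟨(P.grp.A.map lo).poly X u, (P.grp.M.map lo).poly X u, (P.grp.M.map hi).poly X u,
    (P.grp.E.map lo).poly X u, (P.grp.E.map hi).poly X u, (P.grp.G.map lo).poly X,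
    (P.grp.P.map lo).poly X u, (P.grp.N.map lo).poly X u⟩

/-- The values at `r` and `φ` of a piece in `(X, u, φ)`. -/
noncomputable def PieceD.vals (P : PieceD) (r f th x d w : ℝ) : Vals :=
  let v := P.xV.val th x d w
  let X := P.xX.val th x d w
  let u := P.xU.val th x d w
  let lo := fun s : Sur => s.loR r d v
  let hi := fun s : Sur => s.hiR r d v
  ⟨(P.grp.A.map lo).poly X u f, (P.grp.M.map lo).poly X u f, (P.grp.M.map hi).poly X u f,
    (P.grp.E.map lo).poly X u f, (P.grp.E.map hi).poly X u f, (P.grp.G.map lo).poly X,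
    (P.grp.P.map lo).poly u f, (P.grp.N.map lo).poly X u f⟩

/-- The value of the end of `r`. -/
noncomputable def Frame.rVal (F : Frame) : Bool → ℝ
  | false => 0
  | true => (F.rm : ℝ) / 1000000

theorem Piece.valAt_bd (P : Piece) (b : Bool) (th x d w : ℝ) :
    (P.bd b).valAt th x d w = P.vals (P.rVal b) th x d w := by
  have e : (P.xR b).val th x d w = P.rVal b := by
    cases b <;> simp [Frame.xR, Frame.rVal, Ex.val]
  simp only [Piece.bd, Piece.vals, Bd.valAt, T11.map, T11.poly, T7.map, T7.poly, T3.map, T3.poly,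
    T6.map, T6.poly, P3.map, P3.poly, ex_add, ex_sub, ex_mul, Sur.val_lo, Sur.val_hi, e]
  rfl

theorem PieceD.valAt_bd (P : PieceD) (b c : Bool) (th x d w : ℝ) :
    (P.bd b c).valAt th x d w = P.vals (P.rVal b)
      ((match c with | false => P.F₀.ex Ex.x₂ P.xV | true => P.F₁.ex Ex.x₂ P.xV).val th x d w)
      th x d w := by
  have e : (P.xR b).val th x d w = P.rVal b := by
    cases b <;> simp [Frame.xR, Frame.rVal, Ex.val]
  simp only [PieceD.bd, PieceD.vals, Bd.valAt, T12.map, T12.poly, U7.map, U7.poly, T3.map,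
    T3.poly, E7.map, E7.poly, P2.map, P2.poly, ex_add, ex_sub, ex_mul, Sur.val_lo, Sur.val_hi, e]
  rfl

theorem Piece.vals_mix (P : Piece) (t : ℝ) (R th x d w : ℝ) :
    P.vals (t * R) th x d w = Vals.mix t (P.vals 0 th x d w) (P.vals R th x d w) := by
  simp only [Piece.vals, Vals.mix, T11.map, T11.poly, T7.map, T7.poly, T3.map, T3.poly, T6.map,
    T6.poly, P3.map, P3.poly, Sur.loR_mix, Sur.hiR_mix, Vals.mk.injEq]
  refine ⟨?_, ?_, ?_, ?_, ?_, ?_, ?_, ?_⟩ <;> ring

theorem PieceD.vals_mix (P : PieceD) (t : ℝ) (R f th x d w : ℝ) :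
    P.vals (t * R) f th x d w = Vals.mix t (P.vals 0 f th x d w) (P.vals R f th x d w) := by
  simp only [PieceD.vals, Vals.mix, T12.map, T12.poly, U7.map, U7.poly, T3.map, T3.poly, E7.map,
    E7.poly, P2.map, P2.poly, Sur.loR_mix, Sur.hiR_mix, Vals.mk.injEq]
  refine ⟨?_, ?_, ?_, ?_, ?_, ?_, ?_, ?_⟩ <;> ring

/-- The signs of the forms at a point of a checked piece in `(X, u)`. -/
theorem Piece.forms {P : Piece} {gb : Box} (hS : Signed P.box P.bd) (hF : P.grp.Fit gb)
    {r th x d w X e k z : ℝ} (p : InCheck P.toFrame th x d w)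
    (g : InBox gb r d (P.xV.val th x d w)) (r0 : 0 ≤ r) (r1 : r ≤ (P.rm : ℝ) / 1000000)
    (rlt : r < 1) (hd : 0 ≤ d) (hv : 0 ≤ P.xV.val th x d w) (hu : 0 < P.xU.val th x d w)
    (hX0 : 0 ≤ P.xX.val th x d w) (hX : X = (1 + P.grp.mu * r) * P.xX.val th x d w)
    (h : Prods r d (P.xV.val th x d w) (P.xU.val th x d w) X e k z) :
    Forms r d (P.xV.val th x d w) X e k z := by
  obtain ⟨t, t0, t1, er⟩ : ∃ t, 0 ≤ t ∧ t ≤ 1 ∧ r = t * ((P.rm : ℝ) / 1000000) := by
    rcases eq_or_lt_of_le (le_trans r0 r1) with h0 | h0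
    · exact ⟨0, le_rfl, zero_le_one, by linarith⟩
    · exact ⟨r / ((P.rm : ℝ) / 1000000), div_nonneg r0 h0.le, (div_le_one h0).2 r1,
        (div_mul_cancel₀ _ h0.ne').symm⟩
  set K : Wts := (P.bd false).wts th x d w with hK
  have c0 : Cond K fun j : Bool × Unit => (P.bd j.1).valAt th x d w := by
    have c := hS.cond p (K := K) (fun i => by cases i <;> rfl)
    exact ⟨fun j => c.g j.1, fun j => c.h j.1, fun j => c.n j.1,
      c.c₁p.imp (fun a j => a j.1) (fun a j => a j.1),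
      c.c₁m.imp (fun a j => a j.1) (fun a j => a j.1),
      c.c₂p.imp (fun a j => a j.1) (fun a j => a j.1),
      c.c₂m.imp (fun a j => a j.1) (fun a j => a j.1),
      c.c₃pp.imp (fun a j => a j.1) (Or.imp (fun a j => a j.1) (fun a j => a j.1)),
      c.c₃pm.imp (fun a j => a j.1) (Or.imp (fun a j => a j.1) (fun a j => a j.1)),
      c.c₃mp.imp (fun a j => a j.1) (Or.imp (fun a j => a j.1) (fun a j => a j.1)),
      c.c₃mm.imp (fun a j => a j.1) (Or.imp (fun a j => a j.1) (fun a j => a j.1))⟩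
  have c1 : Cond K fun _ : Unit => P.vals r th x d w := by
    have c := c0.mix t0 t1
    simp only [P.valAt_bd, Frame.rVal, ← P.vals_mix t, ← er] at c
    exact c
  have hD : 0 < rD r d (P.xV.val th x d w) := rD_pos r0 rlt hd hv
  have hD2 : 0 < rD r d (P.xV.val th x d w) ^ 2 := pow_pos hD 2
  have kT := hF.A.lower g hX0 hu.le
  have kM := hF.M.both g hX0 hu.le
  have kE := hF.E.both g hX0 hu.le
  have kG := hF.G.lower g hX0
  have kP := hF.P.lower g hX0 hu.le
  have kN := hF.N.lower g hX0 hu.le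
  rw [← hX] at kT kM kE kG kP kN
  have eA := A_poly h
  have eN := N_poly h
  simp only [ev11] at eA eN
  rw [eA] at kT
  rw [eN] at kN
  rw [M_poly h] at kM
  rw [E_poly h] at kE
  rw [G_poly r d _ X z e k] at kG
  rw [P_poly h] at kP
  exact c1.core hu (add_pos_of_pos_of_nonneg one_pos (mul_nonneg hd hv))
    (le_of_mul_le_mul_left kT hD2) (le_of_mul_le_mul_left kM.1 hD2)
    (le_of_mul_le_mul_left kM.2 hD2) (le_of_mul_le_mul_left kE.1 hD2)
    (le_of_mul_le_mul_left kE.2 hD2) (le_of_mul_le_mul_left kG hD2)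
    (le_of_mul_le_mul_left kP hD2) (le_of_mul_le_mul_left kN hD2)

/-- The signs of the forms at a point of a checked piece in `(X, u, φ)`. -/
theorem PieceD.forms {P : PieceD} {gb : Box}
    (hS : Signed P.box fun j : Bool × Bool => P.bd j.1 j.2) (hF : P.grp.Fit gb)
    {r f th x d w e k z : ℝ} (p : InCheck P.toFrame th x d w)
    (g : InBox gb r d (P.xV.val th x d w)) (r0 : 0 ≤ r) (r1 : r ≤ (P.rm : ℝ) / 1000000)
    (rlt : r < 1) (hd : 0 ≤ d) (hv : 0 ≤ P.xV.val th x d w) (hu : 0 < P.xU.val th x d w)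
    (hX : 0 < P.xX.val th x d w) (hf : 0 ≤ f)
    (f0 : (P.F₀.ex Ex.x₂ P.xV).val th x d w ≤ f) (f1 : f ≤ (P.F₁.ex Ex.x₂ P.xV).val th x d w)
    (h : ProdsD r d (P.xV.val th x d w) (P.xU.val th x d w) (P.xX.val th x d w) f e k z) :
    Forms r d (P.xV.val th x d w) (P.xX.val th x d w) e k z := by
  obtain ⟨t, t0, t1, er⟩ : ∃ t, 0 ≤ t ∧ t ≤ 1 ∧ r = t * ((P.rm : ℝ) / 1000000) := by
    rcases eq_or_lt_of_le (le_trans r0 r1) with h0 | h0
    · exact ⟨0, le_rfl, zero_le_one, by linarith⟩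
    · exact ⟨r / ((P.rm : ℝ) / 1000000), div_nonneg r0 h0.le, (div_le_one h0).2 r1,
        (div_mul_cancel₀ _ h0.ne').symm⟩
  set a := (P.F₀.ex Ex.x₂ P.xV).val th x d w with ha
  set b := (P.F₁.ex Ex.x₂ P.xV).val th x d w with hb
  obtain ⟨s, s0, s1, ef⟩ : ∃ s, 0 ≤ s ∧ s ≤ 1 ∧ f = (1 - s) * a + s * b := by
    rcases eq_or_lt_of_le (le_trans f0 f1) with h0 | h0
    · exact ⟨0, le_rfl, zero_le_one, by linarith⟩
    · refine ⟨(f - a) / (b - a), div_nonneg (by linarith) (by linarith),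
        (div_le_one (by linarith)).2 (by linarith), ?_⟩
      have := div_mul_cancel₀ (f - a) (show b - a ≠ 0 by linarith)
      linear_combination -this
  set K : Wts := (P.bd false false).wts th x d w with hK
  have c0 : Cond K fun j : Bool × Bool => (P.bd j.1 j.2).valAt th x d w :=
    hS.cond p (fun i => by rcases i with ⟨_ | _, _ | _⟩ <;> rfl)
  have c1 : Cond K fun c : Bool => P.vals r (if c then b else a) th x d w := by
    have c := c0.mix t0 t1
    simp only [P.valAt_bd, Frame.rVal, ← P.vals_mix t, ← er] at c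
    convert c using 2 with i
    cases i <;> rfl
  have c2 : Cond K fun _ : Unit =>
      Vals.mix s (P.vals r a th x d w) (P.vals r b th x d w) := by
    have c : Cond K fun j : Bool × Unit => P.vals r (if j.1 then b else a) th x d w :=
      ⟨fun j => c1.g j.1, fun j => c1.h j.1, fun j => c1.n j.1,
        c1.c₁p.imp (fun q j => q j.1) (fun q j => q j.1),
        c1.c₁m.imp (fun q j => q j.1) (fun q j => q j.1),
        c1.c₂p.imp (fun q j => q j.1) (fun q j => q j.1),
        c1.c₂m.imp (fun q j => q j.1) (fun q j => q j.1),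
        c1.c₃pp.imp (fun q j => q j.1) (Or.imp (fun q j => q j.1) (fun q j => q j.1)),
        c1.c₃pm.imp (fun q j => q j.1) (Or.imp (fun q j => q j.1) (fun q j => q j.1)),
        c1.c₃mp.imp (fun q j => q j.1) (Or.imp (fun q j => q j.1) (fun q j => q j.1)),
        c1.c₃mm.imp (fun q j => q j.1) (Or.imp (fun q j => q j.1) (fun q j => q j.1))⟩
    simpa using c.mix s0 s1
  set v := P.xV.val th x d w with hvd
  set X := P.xX.val th x d w with hXd
  set u := P.xU.val th x d w with hud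
  have hA := hF.A₂ 0 r d v g.zero g.hr g.hd g.hv
  have hN := hF.N₂ 0 r d v g.zero g.hr g.hd g.hv
  simp only [ex_mul, Ex.val] at hA hN
  push_cast at hA hN
  have gap : ∀ {c : ℝ}, 0 < -1 / 1 * c →
      c * (X * X * u) * (s * (1 - s) * (b - a) ^ 2) ≤ 0 := fun {c} hc =>
    mul_nonpos_of_nonpos_of_nonneg (mul_nonpos_of_nonpos_of_nonneg (by linarith)
      (mul_nonneg (mul_nonneg hX.le hX.le) hu.le))
      (mul_nonneg (mul_nonneg s0 (by linarith)) (sq_nonneg _))
  have gA := gap hA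
  have gN := gap hN
  have c3 : Cond K fun _ : Unit => P.vals r f th x d w := by
    refine c2.raise (fun _ => ?_) (fun _ => ?_)
      (fun _ => ⟨?_, ?_, ?_, ?_, ?_, ?_⟩)
    all_goals simp only [PieceD.vals, Vals.mix, T12.map, T12.poly, U7.map, U7.poly, T3.map,
      T3.poly, E7.map, E7.poly, P2.map, P2.poly, ← hvd, ← hXd, ← hud, ef]
    · simp only [Sur.loR, at3] at gA ⊢
      linarith
    · simp only [Sur.loR, at3] at gN ⊢
      linarith
    all_goals ring
  have hD2 : 0 < rD r d v ^ 2 := pow_pos (rD_pos r0 rlt hd hv) 2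
  have kT := hF.A.lower g hX.le hu.le hf
  have kM := hF.M.both g hX.le hu.le hf
  have kE := hF.E.both g hX.le hu.le hf
  have kG := hF.G.lower g hX.le
  have kP := hF.P.lower g hu.le hf
  have kN := hF.N.lower g hX.le hu.le hf
  simp only [Int.cast_zero, zero_mul, add_zero, one_mul] at kG
  rw [A'_poly h] at kT
  rw [N'_poly h] at kN
  rw [E'_poly h] at kE
  rw [G_poly r d _ X z e k] at kG
  have eM := M'_poly h
  have eP := P'_poly h
  set a' := ((3 + r) / 5 - d) / 2 with ha'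
  set M' := TME a' d v 1 X z e k with hM'
  set H' := (1 - (3 + r) / 5) * (X * -e) with hH'
  have em : rD r d v ^ 2 * (u * (M' / X)) =
      ((exM' Ex.x₁ Ex.x₂ Ex.x₃).map (at3 r d v)).poly X u f := by
    field_simp
    linarith
  have ep : rD r d v ^ 2 * (H' / X ^ 2) =
      ((exP' Ex.x₁ Ex.x₂ Ex.x₃).map (at3 r d v)).poly u f := by
    field_simp
    linarith
  rw [← em] at kM
  rw [← ep] at kP
  obtain ⟨hG, hH, hN', hA'⟩ := c3.core hu (add_pos_of_pos_of_nonneg one_pos (mul_nonneg hd hv))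
    (le_of_mul_le_mul_left kT hD2) (le_of_mul_le_mul_left kM.1 hD2)
    (le_of_mul_le_mul_left kM.2 hD2) (le_of_mul_le_mul_left kE.1 hD2)
    (le_of_mul_le_mul_left kE.2 hD2) (le_of_mul_le_mul_left kG hD2)
    (le_of_mul_le_mul_left kP hD2) (le_of_mul_le_mul_left kN hD2)
  refine ⟨hG, ?_, hN', ?_⟩
  · have := mul_pos hH (pow_pos hX 2)
    rwa [div_mul_cancel₀ _ (pow_ne_zero 2 hX.ne')] at this
  · have h1 := mul_pos hA' (pow_pos hX 2)
    refine lt_of_lt_of_eq h1 ?_
    simp only [← ha', ← hM', ← hH']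
    simp only [hK, Bd.wts, PieceD.bd, ← hvd]
    field_simp

end Vale.Agent.P100.Calib.Closed.Bot
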