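import Vale.Agent.P100.Calib.SlabCentreChecks
import Vale.Agent.P100.Calib.SlabSmallBands
import Vale.Agent.P100.Calib.SlabLargeBands

/-!
# The centre of the orbit on the slab

At the zero of `R`: `vc ≤ v ≤ 279/500 - d/20`.
-/

open Set Filter Topology

namespace Vale.Agent.P100.Calib.Band

open BoxPos Bubble Chart

variable {N p q : ℝ} {S : Set ℝ} {R x y s dx dy : ℝ → ℝ}

/-- The exit curve down to the centre, small `d`. -/
theorem orbit_phi_cen_small (hf : IsOrbitFns N p q S R x y s dx dy)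
    (hb : SlabBox N (1 / (p + 1)) (1 / (q + 1))) (h0 : 0 ≤ 1 / (q + 1) - 1 / (p + 1))
    (h1 : 1 / (q + 1) - 1 / (p + 1) ≤ 3 / 25)
    {w : ℝ} (hw : w ∈ S) (hw0 : 0 < R w) (hwu : uOf N (R w) (x w) ≤ 3 / 5) :
    vOf (1 / (p + 1)) (1 / (q + 1)) (y w / x w) <
      phiG (279 / 500 - 1 / 20 * (1 / (q + 1) - 1 / (p + 1)))
        (17 / 25 - 33 / 25 * (1 / (q + 1) - 1 / (p + 1))) (67 / 100) 1
        (uOf N (R w) (x w)) := by
  set d := 1 / (q + 1) - 1 / (p + 1) with hdd
  refine exit_step_of (a := 279 / 500 - 1 / 20 * d) (b := 17 / 25 - 33 / 25 * d)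
    (k := 67 / 100) (c := 1) hf hb (u₁ := 3 / 5) (by norm_num) (by norm_num) (by linarith)
    (by norm_num) (phiSmall d)
    (fun w hw hw0 hwu => orbit_phi_small hf hb h0 h1 hw hw0 (hwu.trans (by norm_num)))
    (by norm_num [phiSmall, phiG]; linarith)
    (fun w hw hw0 hwu => orbit_lower_small hf hb h0 h1 hw hw0 (hwu.trans (by norm_num)))
    (bd := 3) (by linarith) (fun u hu hu1 => by nlinarith) (fun u hu hu1 _ _ => ?_)
    (fun u hu hu1 _ _ => ?_) hw hw0 hwu
  · have key : 0 < cenExit₁.val u (33 / 100) d (1 / (p + 1) + 1 / (q + 1)) :=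
      Ex.pos_of_check cen_exit₁ (side_mem (by push_cast; linarith) (by push_cast; linarith))
        (side_mem (by norm_num) (by norm_num))
        (side_mem (by push_cast; linarith) (by push_cast; linarith)) (sideS_mem hb)
    rw [cenExit₁, val_exitG] at key
    simpa [cenA, cenB₁, smallL₁, smallL₂, smallL₃, Ex.val, d, sub_eq_add_neg, neg_div] using key
  · have key : 0 < cenSlope₁.val u (33 / 100) d (1 / (p + 1) + 1 / (q + 1)) :=
      Ex.pos_of_check cen_slope₁ (side_mem (by push_cast; linarith) (by push_cast; linarith))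
        (side_mem (by norm_num) (by norm_num))
        (side_mem (by push_cast; linarith) (by push_cast; linarith)) (sideS_mem hb)
    rw [cenSlope₁, val_slopeB] at key
    exact le_of_lt (by
      simpa [cenA, cenB₁, smallL₁, smallL₂, smallL₃, Ex.val, d, sub_eq_add_neg, neg_div] using key)

/-- The exit curve down to the centre, large `d`. -/
theorem orbit_phi_cen_large (hf : IsOrbitFns N p q S R x y s dx dy)
    (hb : SlabBox N (1 / (p + 1)) (1 / (q + 1))) (h0 : 3 / 25 ≤ 1 / (q + 1) - 1 / (p + 1))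
    (h1 : 1 / (q + 1) - 1 / (p + 1) ≤ 1 / 5)
    {w : ℝ} (hw : w ∈ S) (hw0 : 0 < R w) (hwu : uOf N (R w) (x w) ≤ 7 / 10) :
    vOf (1 / (p + 1)) (1 / (q + 1)) (y w / x w) <
      phiG (279 / 500 - 1 / 20 * (1 / (q + 1) - 1 / (p + 1)))
        (14 / 25 - 1 / 4 * (1 / (q + 1) - 1 / (p + 1))) (17 / 25) (59 / 50)
        (uOf N (R w) (x w)) := by
  set d := 1 / (q + 1) - 1 / (p + 1) with hdd
  refine exit_step_of (a := 279 / 500 - 1 / 20 * d) (b := 14 / 25 - 1 / 4 * d)
    (k := 17 / 25) (c := 59 / 50) hf hb (u₁ := 7 / 10) (by norm_num) (by norm_num) (by linarith)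
    (by norm_num) (phiLarge d)
    (fun w hw hw0 hwu => orbit_phi_large hf hb h0 h1 hw hw0 (hwu.trans (by norm_num)))
    (by norm_num [phiLarge, phiG]; linarith)
    (fun w hw hw0 hwu => orbit_lower_large hf hb h0 h1 hw hw0 (hwu.trans (by norm_num)))
    (bd := 3) (by linarith) (fun u hu hu1 => by nlinarith) (fun u hu hu1 _ _ => ?_)
    (fun u hu hu1 _ _ => ?_) hw hw0 hwu
  · have key : 0 < cenExit₂.val u (33 / 100) d (1 / (p + 1) + 1 / (q + 1)) :=
      Ex.pos_of_check cen_exit₂ (side_mem (by push_cast; linarith) (by push_cast; linarith))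
        (side_mem (by norm_num) (by norm_num))
        (side_mem (by push_cast; linarith) (by push_cast; linarith)) (sideS_mem hb)
    rw [cenExit₂, val_exitG] at key
    simpa [cenA, cenB₂, largeL₁, largeL₂, largeL₃, Ex.val, d, sub_eq_add_neg, neg_div] using key
  · have key : 0 < cenSlope₂.val u (33 / 100) d (1 / (p + 1) + 1 / (q + 1)) :=
      Ex.pos_of_check cen_slope₂ (side_mem (by push_cast; linarith) (by push_cast; linarith))
        (side_mem (by norm_num) (by norm_num))
        (side_mem (by push_cast; linarith) (by push_cast; linarith)) (sideS_mem hb)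
    rw [cenSlope₂, val_slopeB] at key
    exact le_of_lt (by
      simpa [cenA, cenB₂, largeL₁, largeL₂, largeL₃, Ex.val, d, sub_eq_add_neg, neg_div] using key)

/-- **The centre.** -/
theorem orbit_centre (hf : IsOrbitFns N p q S R x y s dx dy)
    (hb : SlabBox N (1 / (p + 1)) (1 / (q + 1))) {z₀ : ℝ} (hz₀ : z₀ ∈ S) (hR₀ : R z₀ = 0) :
    let al := 1 / (p + 1)
    let be := 1 / (q + 1)
    2 / (N + 2 * al) ≤ vOf al be (y z₀ / x z₀) ∧
      vOf al be (y z₀ / x z₀) ≤ 279 / 500 - 1 / 20 * (be - al) := by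
  intro al be
  obtain ⟨hal, hbe, hd, -⟩ := hb.facts
  have cR := hf.smooth.1.continuousOn.continuousAt (hf.isOpen.mem_nhds hz₀)
  have cx := hf.smooth.2.1.continuousOn.continuousAt (hf.isOpen.mem_nhds hz₀)
  have cy := hf.smooth.2.2.1.continuousOn.continuousAt (hf.isOpen.mem_nhds hz₀)
  have hx0 := hf.x_pos z₀ hz₀
  have hleft : ∀ᶠ z in 𝓝[<] z₀, z ∈ S ∧ 0 < R z := by
    filter_upwards [mem_nhdsWithin_of_mem_nhds (hf.isOpen.mem_nhds hz₀), self_mem_nhdsWithin]
      with z hz hlt
    exact ⟨hz, hR₀ ▸ hf.anti hz hz₀ hlt⟩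
  have hright : ∀ᶠ z in 𝓝[>] z₀, z ∈ S ∧ R z < 0 := by
    filter_upwards [mem_nhdsWithin_of_mem_nhds (hf.isOpen.mem_nhds hz₀), self_mem_nhdsWithin]
      with z hz hlt
    exact ⟨hz, hR₀ ▸ hf.anti hz₀ hz hlt⟩
  have cg : ContinuousAt (fun z => x z - z * y z) z₀ := cx.sub (continuousAt_id.mul cy)
  have hzy : x z₀ - z₀ * y z₀ = 0 := le_antisymm
    (le_of_tendsto (cg.tendsto.mono_left (nhdsWithin_le_nhds (s := Ioi z₀))) (hright.mono fun z hz =>
      (sub_neg.2 ((hf.band z hz.1).2.2 hz.2)).le))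
    (ge_of_tendsto (cg.tendsto.mono_left (nhdsWithin_le_nhds (s := Iio z₀))) (hleft.mono fun z hz =>
      (sub_pos.2 ((hf.band z hz.1).2.1 hz.2).1).le))
  have hr : y z₀ / x z₀ = 1 / z₀ := by
    rw [div_eq_div_iff hx0.ne' (hf.pos hz₀).ne']
    linarith
  obtain ⟨hc, -, -⟩ := hf.centre hb.five hb.low z₀ hz₀ hR₀
  refine ⟨?_, ?_⟩
  · rw [← hr] at hc
    simp only [Trap.c0p] at hc
    have hNa : 0 < N + 2 * al := by linarith [hb.five]
    simp only [vOf]
    change 0 < al at hal
    change 0 < be at hbe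
    change 0 < be - al at hd
    change 0 ≤ be * (N + 2 * al) * (y z₀ / x z₀) - al * (N + 2 * be) at hc
    generalize y z₀ / x z₀ = t at hc ⊢
    rw [div_le_div_iff₀ hNa hd, show (be / al * t - 1) * (N + 2 * al) =
      (be * (N + 2 * al) * t - al * (N + 2 * al)) / al by field_simp,
      le_div_iff₀ hal]
    linarith
  · have cv : ContinuousAt (fun z => vOf al be (y z / x z)) z₀ := by
      simp only [vOf]
      exact (((cy.div cx hx0.ne').const_mul (be / al)).sub continuousAt_const).div_const _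
    have cu : ContinuousAt (fun z => uOf N (R z) (x z)) z₀ := by
      simp only [uOf]
      exact ((cR.const_mul 2).mul cx).div_const _
    have hu0 : uOf N (R z₀) (x z₀) = 0 := by simp [uOf, hR₀]
    have hsmall : ∀ᶠ z in 𝓝[<] z₀, uOf N (R z) (x z) < 3 / 5 :=
      (cu.tendsto.mono_left nhdsWithin_le_nhds).eventually (Iio_mem_nhds (by rw [hu0]; norm_num))
    have hphi : ∀ b k c : ℝ, 0 < c → ContinuousAt
        (fun z => phiG (279 / 500 - 1 / 20 * (be - al)) b k c (uOf N (R z) (x z))) z₀ := by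
      intro b k c hc'
      simp only [phiG]
      exact (continuousAt_const.add (continuousAt_const.mul cu)).add
        ((continuousAt_const.mul (cu.pow 2)).div (continuousAt_const.sub cu)
          (by rw [hu0, sub_zero]; exact hc'.ne'))
    rcases le_total (be - al) (3 / 25) with h1 | h1
    · refine le_of_le_of_eq (le_of_tendsto_of_tendsto (cv.tendsto.mono_left nhdsWithin_le_nhds)
        ((hphi (17 / 25 - 33 / 25 * (be - al)) (67 / 100) 1 one_pos).tendsto.mono_left
          (nhdsWithin_le_nhds (s := Iio z₀))) ((hleft.and hsmall).mono fun z hz =>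
            (orbit_phi_cen_small hf hb hd.le h1 hz.1.1 hz.1.2 hz.2.le).le)) ?_
      simp [phiG, hu0]
    · refine le_of_le_of_eq (le_of_tendsto_of_tendsto (cv.tendsto.mono_left nhdsWithin_le_nhds)
        ((hphi (14 / 25 - 1 / 4 * (be - al)) (17 / 25) (59 / 50) (by norm_num)).tendsto.mono_left
          (nhdsWithin_le_nhds (s := Iio z₀))) ((hleft.and hsmall).mono fun z hz =>
            (orbit_phi_cen_large hf hb h1 hb.diff hz.1.1 hz.1.2
              (hz.2.le.trans (by norm_num))).le)) ?_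
      simp [phiG, hu0]

end Vale.Agent.P100.Calib.Band
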