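import Vale.Agent.P100.Calib.SlabLadderExpr
import Vale.Agent.P100.Calib.SlabLadderTwo

/-!
# The slope condition at a band as an expression
-/

namespace Vale.Agent.P100.Calib.Band

open BoxPos

local instance : Add Ex := ⟨Ex.add⟩
local instance : Sub Ex := ⟨Ex.sub⟩
local instance : Mul Ex := ⟨Ex.mul⟩

/-- `slopeB`. -/
def eSlopeB (a b k c c₁ c₂ c₃ : Ex) : Ex :=
  let G := c - eU
  let Vn := (a + b * eU) * G + k * (eU * eU)
  let dN := b * (G * G) + k * (eC 2 * c * eU - eU * eU)
  let B := eB
  let K := eS * (G + (eC 1 - eA) * Vn) + B * (c₁ + c₂ * eU + c₃ * (eU * eU)) * eU * G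
  G * ((G + eD * Vn) * (B * (eC 2 * G + eD * Vn) - eU * eD * K) * G -
    eD * eU * dN * (B * G - eU * eD * K))

theorem val_addB (a b : Ex) (u v d S : ℝ) :
    (a + b).val u v d S = a.val u v d S + b.val u v d S := rfl

theorem val_subB (a b : Ex) (u v d S : ℝ) :
    (a - b).val u v d S = a.val u v d S - b.val u v d S := rfl

theorem val_mulB (a b : Ex) (u v d S : ℝ) :
    (a * b).val u v d S = a.val u v d S * b.val u v d S := rfl

theorem val_slopeB (a b k c c₁ c₂ c₃ : Ex) (u v d S : ℝ) :
    (eSlopeB a b k c c₁ c₂ c₃).val u v d S =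
      slopeB S d u (a.val u v d S) (b.val u v d S) (k.val u v d S) (c.val u v d S)
        (c₁.val u v d S) (c₂.val u v d S) (c₃.val u v d S) := by
  have hB : eB.val u v d S = bandB S d := by
    simp only [eB, val_add, val_sub, val_mul, Ex.val, bandB]
    push_cast
    ring
  have hA : eA.val u v d S = (S - d) / 2 := by
    simp only [eA, val_sub, val_mul, Ex.val]
    push_cast
    ring
  simp only [eSlopeB, val_addB, val_subB, val_mulB, Ex.val, hB, hA, slopeB, Int.cast_one,
    Int.cast_ofNat, Nat.cast_one, div_one, ← pow_two]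

end Vale.Agent.P100.Calib.Band
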