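import Vale.Agent.P100.Calib.SlabRungChecks
import Vale.Agent.P100.Calib.SlabSlopeExpr

/-!
# Certificates of the bands, large difference of the exponents
-/

namespace Vale.Agent.P100.Calib.Band

open BoxPos

/-- A coefficient. -/
def largeL₁ : Ex := Ex.add (eC 4 5) (Ex.mul (eC (-31) 25) eD)

/-- A coefficient. -/
def largeL₂ : Ex := Ex.add (eC 42 25) (Ex.mul (eC (-29) 5) eD)

/-- A coefficient. -/
def largeL₃ : Ex := Ex.add (eC 1 4) (Ex.mul (eC (-9) 2) eD)

/-- A coefficient. -/
def largeA : Ex := Ex.add (eC 67 100) (Ex.mul (eC (-29) 100) eD)

/-- A coefficient. -/
def largeB : Ex := Ex.add (eC 18 25) (Ex.mul (eC (-3) 25) eD)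

/-- A coefficient. -/
def largeK : Ex := Ex.add (eC 13 50) (Ex.mul (eC 3 100) eD)

/-- A coefficient. -/
def largeU₁ : Ex := Ex.add (eC 141 100) (Ex.mul (eC (-16) 5) eD)

/-- A coefficient. -/
def largeU₂ : Ex := Ex.add (eC 1 2) (Ex.mul (eC (-63) 20) eD)

/-- A coefficient. -/
def largeU₃ : Ex := Ex.add (eC 27 10) (Ex.mul (eC (-31) 4) eD)

/-- A numerator. -/
def largeLie : Ex := eLie largeL₁ largeL₂ largeL₃

/-- A numerator. -/
def largeExit : Ex := eExitG largeA largeB largeK (eC 483 500) largeL₁ largeL₂ largeL₃

/-- A numerator. -/
def largeSlope : Ex := eSlopeB largeA largeB largeK (eC 483 500) largeL₁ largeL₂ largeL₃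

/-- A numerator. -/
def largeUpper : Ex := Ex.sub (eC 0) (eLie largeU₁ largeU₂ largeU₃)

/-- The packing for the exit at a band. -/
def largeExitCfg : Cfg := ⟨300, ⟨10, 0, 7, 4⟩⟩

/-- The packing for the slope at a band. -/
def largeSlopeCfg : Cfg := ⟨300, ⟨9, 0, 5, 3⟩⟩

theorem large_lie_0_120 : largeLie.check lieCfg (rBox 0 150 807 120 201) = true := by decide +kernel

theorem large_lie_150_120 : largeLie.check lieCfg (rBox 150 225 873 120 201) = true := by decide +kernel

theorem large_lie_225_120 : largeLie.check lieCfg (rBox 225 300 953 120 201) = true := by decide +kernel

theorem large_lie_300_120 : largeLie.check lieCfg (rBox 300 450 1171 120 201) = true := by decide +kernel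

theorem large_lie_450_120 : largeLie.check lieCfg (rBox 450 600 1536 120 201) = true := by decide +kernel

theorem large_lie_600_120 : largeLie.check lieCfg (rBox 600 700 1953 120 201) = true := by decide +kernel

theorem large_lie_700_120 : largeLie.check lieCfg (rBox 700 800 2703 120 201) = true := by decide +kernel

theorem large_lie_800_120 : largeLie.check lieCfg (rBox 800 830 3060 120 150) = true := by decide +kernel

theorem large_lie_800_150 : largeLie.check lieCfg (rBox 800 830 3060 150 171) = true := by decide +kernel

theorem large_lie_800_171 : largeLie.check lieCfg (rBox 800 830 3060 171 201) = true := by decide +kernel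

theorem large_lie_830_120 : largeLie.check lieCfg (rBox 830 850 3359 120 150) = true := by decide +kernel

theorem large_lie_830_150 : largeLie.check lieCfg (rBox 830 850 3359 150 171) = true := by decide +kernel

theorem large_lie_830_171 : largeLie.check lieCfg (rBox 830 850 3359 171 201) = true := by decide +kernel

theorem large_lie_850_120 : largeLie.check lieCfg (rBox 850 860 3531 120 150) = true := by decide +kernel

theorem large_lie_850_150 : largeLie.check lieCfg (rBox 850 860 3531 150 156) = true := by decide +kernel

theorem large_lie_850_156 : largeLie.check lieCfg (rBox 850 860 3531 156 162) = true := by decide +kernel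

theorem large_lie_850_162 : largeLie.check lieCfg (rBox 850 860 3531 162 171) = true := by decide +kernel

theorem large_lie_850_171 : largeLie.check lieCfg (rBox 850 860 3531 171 180) = true := by decide +kernel

theorem large_lie_850_180 : largeLie.check lieCfg (rBox 850 860 3531 180 190) = true := by decide +kernel

theorem large_lie_850_190 : largeLie.check lieCfg (rBox 850 860 3510 190 201) = true := by decide +kernel

theorem large_lie_860_120 : largeLie.check lieCfg (rBox 860 870 3723 120 150) = true := by decide +kernel

theorem large_lie_860_150 : largeLie.check lieCfg (rBox 860 870 3723 150 156) = true := by decide +kernel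

theorem large_lie_860_156 : largeLie.check lieCfg (rBox 860 870 3723 156 162) = true := by decide +kernel

theorem large_lie_860_162 : largeLie.check lieCfg (rBox 860 870 3723 162 171) = true := by decide +kernel

theorem large_lie_860_171 : largeLie.check lieCfg (rBox 860 870 3723 171 180) = true := by decide +kernel

theorem large_lie_860_180 : largeLie.check lieCfg (rBox 860 870 3705 180 190) = true := by decide +kernel

theorem large_lie_860_190 : largeLie.check lieCfg (rBox 860 870 3510 190 201) = true := by decide +kernel

theorem large_lie_870_120 : largeLie.check lieCfg (rBox 870 880 3938 120 150) = true := by decide +kernel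

theorem large_lie_870_150 : largeLie.check lieCfg (rBox 870 880 3938 150 156) = true := by decide +kernel

theorem large_lie_870_156 : largeLie.check lieCfg (rBox 870 880 3938 156 162) = true := by decide +kernel

theorem large_lie_870_162 : largeLie.check lieCfg (rBox 870 880 3938 162 171) = true := by decide +kernel

theorem large_lie_870_171 : largeLie.check lieCfg (rBox 870 880 3899 171 180) = true := by decide +kernel

theorem large_lie_870_180 : largeLie.check lieCfg (rBox 870 880 3705 180 190) = true := by decide +kernel

theorem large_lie_870_190 : largeLie.check lieCfg (rBox 870 880 3510 190 201) = true := by decide +kernel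

theorem large_lie_880_120 : largeLie.check lieCfg (rBox 880 888 4128 120 150) = true := by decide +kernel

theorem large_lie_880_150 : largeLie.check lieCfg (rBox 880 888 4128 150 156) = true := by decide +kernel

theorem large_lie_880_156 : largeLie.check lieCfg (rBox 880 888 4128 156 162) = true := by decide +kernel

theorem large_lie_880_162 : largeLie.check lieCfg (rBox 880 888 4116 162 171) = true := by decide +kernel

theorem large_lie_880_171 : largeLie.check lieCfg (rBox 880 888 3899 171 180) = true := by decide +kernel

theorem large_lie_880_180 : largeLie.check lieCfg (rBox 880 888 3705 180 190) = true := by decide +kernel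

theorem large_lie_880_190 : largeLie.check lieCfg (rBox 880 888 3510 190 201) = true := by decide +kernel

theorem large_lie_888_120 : largeLie.check lieCfg (rBox 888 895 4311 120 150) = true := by decide +kernel

theorem large_lie_888_150 : largeLie.check lieCfg (rBox 888 895 4311 150 156) = true := by decide +kernel

theorem large_lie_888_156 : largeLie.check lieCfg (rBox 888 895 4275 156 162) = true := by decide +kernel

theorem large_lie_888_162 : largeLie.check lieCfg (rBox 888 895 4116 162 171) = true := by decide +kernel

theorem large_lie_888_171 : largeLie.check lieCfg (rBox 888 895 3899 171 180) = true := by decide +kernel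

theorem large_lie_888_180 : largeLie.check lieCfg (rBox 888 895 3705 180 190) = true := by decide +kernel

theorem large_lie_888_190 : largeLie.check lieCfg (rBox 888 895 3510 190 201) = true := by decide +kernel

theorem large_lie_895_120 : largeLie.check lieCfg (rBox 895 901 4451 120 150) = true := by decide +kernel

theorem large_lie_895_150 : largeLie.check lieCfg (rBox 895 901 4445 150 156) = true := by decide +kernel

theorem large_lie_895_156 : largeLie.check lieCfg (rBox 895 901 4275 156 162) = true := by decide +kernel

theorem large_lie_895_162 : largeLie.check lieCfg (rBox 895 901 4116 162 171) = true := by decide +kernel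

theorem large_lie_895_171 : largeLie.check lieCfg (rBox 895 901 3899 171 180) = true := by decide +kernel

theorem large_lie_895_180 : largeLie.check lieCfg (rBox 895 901 3705 180 190) = true := by decide +kernel

theorem large_lie_895_190 : largeLie.check lieCfg (rBox 895 901 3510 190 201) = true := by decide +kernel

theorem large_exit_0 : largeExit.check largeExitCfg (rBox 0 400 331 120 201) = true := by decide +kernel

theorem large_slope_0 : largeSlope.check largeSlopeCfg (rBox 0 400 331 120 201) = true := by decide +kernel

theorem large_exit_400 : largeExit.check largeExitCfg (rBox 400 600 331 120 201) = true := by decide +kernel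

theorem large_slope_400 : largeSlope.check largeSlopeCfg (rBox 400 600 331 120 201) = true := by decide +kernel

theorem large_exit_600 : largeExit.check largeExitCfg (rBox 600 700 331 120 201) = true := by decide +kernel

theorem large_slope_600 : largeSlope.check largeSlopeCfg (rBox 600 700 331 120 201) = true := by decide +kernel

theorem large_exit_700 : largeExit.check largeExitCfg (rBox 700 800 331 120 201) = true := by decide +kernel

theorem large_slope_700 : largeSlope.check largeSlopeCfg (rBox 700 800 331 120 201) = true := by decide +kernel

theorem large_exit_800 : largeExit.check largeExitCfg (rBox 800 901 331 120 201) = true := by decide +kernel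

theorem large_slope_800 : largeSlope.check largeSlopeCfg (rBox 800 901 331 120 201) = true := by decide +kernel

theorem large_upper_0 : largeUpper.check lieCfg (rBox 0 150 750 120 201) = true := by decide +kernel

theorem large_upper_150 : largeUpper.check lieCfg (rBox 150 300 884 120 201) = true := by decide +kernel

theorem large_upper_300 : largeUpper.check lieCfg (rBox 300 400 993 120 201) = true := by decide +kernel

theorem large_upper_400 : largeUpper.check lieCfg (rBox 400 500 1131 120 201) = true := by decide +kernel

theorem large_upper_500 : largeUpper.check lieCfg (rBox 500 550 1216 120 201) = true := by decide +kernel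

theorem large_upper_550 : largeUpper.check lieCfg (rBox 550 601 1322 120 201) = true := by decide +kernel

end Vale.Agent.P100.Calib.Band
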