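import Vale.Agent.P100.Calib.SlabSmallChecks
import Vale.Agent.P100.Calib.SlabLargeChecks

/-!
# The exit curves down to the centre, checked
-/

namespace Vale.Agent.P100.Calib.Band

open BoxPos

/-- The coefficient `a`. -/
def cenA : Ex := Ex.add (eC 279 500) (Ex.mul (eC (-1) 20) eD)

/-- The coefficient `b`, small `d`. -/
def cenB₁ : Ex := Ex.add (eC 17 25) (Ex.mul (eC (-33) 25) eD)

/-- The coefficient `b`, large `d`. -/
def cenB₂ : Ex := Ex.add (eC 14 25) (Ex.mul (eC (-1) 4) eD)

/-- A numerator. -/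
def cenExit₁ : Ex := eExitG cenA cenB₁ (eC 67 100) (eC 1) smallL₁ smallL₂ smallL₃

/-- A numerator. -/
def cenExit₂ : Ex := eExitG cenA cenB₂ (eC 17 25) (eC 59 50) largeL₁ largeL₂ largeL₃

/-- A numerator. -/
def cenSlope₁ : Ex := eSlopeB cenA cenB₁ (eC 67 100) (eC 1) smallL₁ smallL₂ smallL₃

/-- A numerator. -/
def cenSlope₂ : Ex := eSlopeB cenA cenB₂ (eC 17 25) (eC 59 50) largeL₁ largeL₂ largeL₃

theorem cen_exit₁ : cenExit₁.check smallExitCfg (rBox 0 601 331 0 121) = true := by decide +kernel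

theorem cen_slope₁ : cenSlope₁.check smallSlopeCfg (rBox 0 601 331 0 121) = true := by decide +kernel

theorem cen_exit₂ : cenExit₂.check smallExitCfg (rBox 0 701 331 120 201) = true := by decide +kernel

theorem cen_slope₂ : cenSlope₂.check smallSlopeCfg (rBox 0 701 331 120 201) = true := by decide +kernel

end Vale.Agent.P100.Calib.Band
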