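import Vale.Agent.P100.Calib.SlabRungs
import Vale.Agent.P100.Calib.SlabDenExpr
import Vale.Agent.P100.Calib.SlabChartOrbit

/-!
# `h - hc > d u/4` on the outer orbit

The band of slope `1/4` is a lower barrier on the whole outer orbit of the dimension five slab.
-/

namespace Vale.Agent.P100.Calib.Band

open BoxPos Bubble Chart

variable {N p q : ℝ} {S : Set ℝ} {R x y s dx dy : ℝ → ℝ}

/-- The numerator at slope `1/4`. -/
def eLieQ : Ex := eLie (eC 1 4) (eC 0) (eC 0)

/-- The denominator at slope `1/4`. -/
def eDenQ : Ex := eDen (eC 1 4)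

theorem denQ_check : eDenQ.check lieCfg (rBox 0 1001 4451 0 201) = true := by decide +kernel

theorem tauLow_0 : eLieQ.check lieCfg (rBox 0 200 1287 0 201) = true := by decide +kernel

theorem tauLow_200 : eLieQ.check lieCfg (rBox 200 400 1685 0 201) = true := by decide +kernel

theorem tauLow_400 : eLieQ.check lieCfg (rBox 400 600 2325 0 201) = true := by decide +kernel

theorem tauLow_600_0 : eLieQ.check lieCfg (rBox 600 800 3466 0 150) = true := by decide +kernel

theorem tauLow_600_150 : eLieQ.check lieCfg (rBox 600 800 3466 150 162) = true := by decide +kernel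

theorem tauLow_600_162 : eLieQ.check lieCfg (rBox 600 800 3466 162 171) = true := by decide +kernel

theorem tauLow_600_171 : eLieQ.check lieCfg (rBox 600 800 3466 171 180) = true := by decide +kernel

theorem tauLow_600_180 : eLieQ.check lieCfg (rBox 600 800 3466 180 190) = true := by decide +kernel

theorem tauLow_600_190 : eLieQ.check lieCfg (rBox 600 800 3466 190 201) = true := by decide +kernel

theorem tauLow_800_0 : eLieQ.check lieCfg (rBox 800 1001 4451 0 150) = true := by decide +kernel

theorem tauLow_800_150 : eLieQ.check lieCfg (rBox 800 1001 4445 150 162) = true := by decide +kernel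

theorem tauLow_800_162 : eLieQ.check lieCfg (rBox 800 1001 4116 162 171) = true := by decide +kernel

theorem tauLow_800_171 : eLieQ.check lieCfg (rBox 800 1001 3899 171 180) = true := by decide +kernel

theorem tauLow_800_180 : eLieQ.check lieCfg (rBox 800 1001 3705 180 190) = true := by decide +kernel

theorem tauLow_800_190 : eLieQ.check lieCfg (rBox 800 1001 3510 190 201) = true := by decide +kernel

theorem lieQ_sign {u v d S' : ℝ} (hu0 : 0 ≤ u) (hu : u < 1)
    (hphi : u ≤ 9 / 10 → v < phiOne u)
    (hv : 33 / 100 ≤ v) (hv1 : v ≤ 89 / 20) (hd : 0 ≤ d) (hd1 : d ≤ 1 / 5) (hdv : d * v < 2 / 3)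
    (hS : sideS.Mem S') : 0 < eLieQ.val u v d S' := by
  have hstep : ∀ b c : ℝ, u ≤ b → u ≤ 9 / 10 → b < 13 / 10 → phiOne b ≤ c → v < c :=
    fun b c h1 h0 h2 h3 => lt_of_lt_of_le ((hphi h0).trans_le (phiOne_mono h1 h2)) h3
  have hdvb : ∀ x c : ℝ, 0 < x → x ≤ d → 2 / 3 ≤ x * c → v < c := fun x c hx hxd hxc => by
    by_contra h
    have h1 := mul_le_mul hxd (not_lt.1 h)
      (le_of_not_gt fun hc => by linarith [mul_neg_of_pos_of_neg hx hc]) hd
    linarith
  rcases lt_or_ge u (200 / 1000) with g0 | g0
  · have hvb : v < 1287 / 1000 := hstep (200 / 1000) _ g0.le (by linarith) (by norm_num) (by rw [phiOne_eq (by norm_num)]; norm_num)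
    exact Ex.pos_of_check tauLow_0 (side_mem (by push_cast; linarith) (by push_cast; linarith)) (side_mem (by push_cast; linarith) (by push_cast; linarith)) (side_mem (by push_cast; linarith) (by push_cast; linarith)) hS
  rcases lt_or_ge u (400 / 1000) with g200 | g200
  · have hvb : v < 1685 / 1000 := hstep (400 / 1000) _ g200.le (by linarith) (by norm_num) (by rw [phiOne_eq (by norm_num)]; norm_num)
    exact Ex.pos_of_check tauLow_200 (side_mem (by push_cast; linarith) (by push_cast; linarith)) (side_mem (by push_cast; linarith) (by push_cast; linarith)) (side_mem (by push_cast; linarith) (by push_cast; linarith)) hS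
  rcases lt_or_ge u (600 / 1000) with g400 | g400
  · have hvb : v < 2325 / 1000 := hstep (600 / 1000) _ g400.le (by linarith) (by norm_num) (by rw [phiOne_eq (by norm_num)]; norm_num)
    exact Ex.pos_of_check tauLow_400 (side_mem (by push_cast; linarith) (by push_cast; linarith)) (side_mem (by push_cast; linarith) (by push_cast; linarith)) (side_mem (by push_cast; linarith) (by push_cast; linarith)) hS
  rcases lt_or_ge u (800 / 1000) with g600 | g600
  · have hvb : v < 3466 / 1000 := hstep (800 / 1000) _ g600.le (by linarith) (by norm_num) (by rw [phiOne_eq (by norm_num)]; norm_num)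
    rcases lt_or_ge d (150 / 1000) with k0 | k0
    · exact Ex.pos_of_check tauLow_600_0 (side_mem (by push_cast; linarith) (by push_cast; linarith)) (side_mem (by push_cast; linarith) (by push_cast; linarith)) (side_mem (by push_cast; linarith) (by push_cast; linarith)) hS
    rcases lt_or_ge d (162 / 1000) with k1 | k1
    · exact Ex.pos_of_check tauLow_600_150 (side_mem (by push_cast; linarith) (by push_cast; linarith)) (side_mem (by push_cast; linarith) (by push_cast; linarith)) (side_mem (by push_cast; linarith) (by push_cast; linarith)) hS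
    rcases lt_or_ge d (171 / 1000) with k2 | k2
    · exact Ex.pos_of_check tauLow_600_162 (side_mem (by push_cast; linarith) (by push_cast; linarith)) (side_mem (by push_cast; linarith) (by push_cast; linarith)) (side_mem (by push_cast; linarith) (by push_cast; linarith)) hS
    rcases lt_or_ge d (180 / 1000) with k3 | k3
    · exact Ex.pos_of_check tauLow_600_171 (side_mem (by push_cast; linarith) (by push_cast; linarith)) (side_mem (by push_cast; linarith) (by push_cast; linarith)) (side_mem (by push_cast; linarith) (by push_cast; linarith)) hS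
    rcases lt_or_ge d (190 / 1000) with k4 | k4
    · exact Ex.pos_of_check tauLow_600_180 (side_mem (by push_cast; linarith) (by push_cast; linarith)) (side_mem (by push_cast; linarith) (by push_cast; linarith)) (side_mem (by push_cast; linarith) (by push_cast; linarith)) hS
    exact Ex.pos_of_check tauLow_600_190 (side_mem (by push_cast; linarith) (by push_cast; linarith)) (side_mem (by push_cast; linarith) (by push_cast; linarith)) (side_mem (by push_cast; linarith) (by push_cast; linarith)) hS
  rcases lt_or_ge d (150 / 1000) with k0 | k0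
  · exact Ex.pos_of_check tauLow_800_0 (side_mem (by push_cast; linarith) (by push_cast; linarith)) (side_mem (by push_cast; linarith) (by push_cast; linarith)) (side_mem (by push_cast; linarith) (by push_cast; linarith)) hS
  rcases lt_or_ge d (162 / 1000) with k1 | k1
  · have := hdvb (150 / 1000) (4445 / 1000) (by norm_num) (by linarith) (by norm_num)
    exact Ex.pos_of_check tauLow_800_150 (side_mem (by push_cast; linarith) (by push_cast; linarith)) (side_mem (by push_cast; linarith) (by push_cast; linarith)) (side_mem (by push_cast; linarith) (by push_cast; linarith)) hS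
  rcases lt_or_ge d (171 / 1000) with k2 | k2
  · have := hdvb (162 / 1000) (4116 / 1000) (by norm_num) (by linarith) (by norm_num)
    exact Ex.pos_of_check tauLow_800_162 (side_mem (by push_cast; linarith) (by push_cast; linarith)) (side_mem (by push_cast; linarith) (by push_cast; linarith)) (side_mem (by push_cast; linarith) (by push_cast; linarith)) hS
  rcases lt_or_ge d (180 / 1000) with k3 | k3
  · have := hdvb (171 / 1000) (3899 / 1000) (by norm_num) (by linarith) (by norm_num)
    exact Ex.pos_of_check tauLow_800_171 (side_mem (by push_cast; linarith) (by push_cast; linarith)) (side_mem (by push_cast; linarith) (by push_cast; linarith)) (side_mem (by push_cast; linarith) (by push_cast; linarith)) hS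
  rcases lt_or_ge d (190 / 1000) with k4 | k4
  · have := hdvb (180 / 1000) (3705 / 1000) (by norm_num) (by linarith) (by norm_num)
    exact Ex.pos_of_check tauLow_800_180 (side_mem (by push_cast; linarith) (by push_cast; linarith)) (side_mem (by push_cast; linarith) (by push_cast; linarith)) (side_mem (by push_cast; linarith) (by push_cast; linarith)) hS
  have := hdvb (190 / 1000) (3510 / 1000) (by norm_num) (by linarith) (by norm_num)
  exact Ex.pos_of_check tauLow_800_190 (side_mem (by push_cast; linarith) (by push_cast; linarith)) (side_mem (by push_cast; linarith) (by push_cast; linarith)) (side_mem (by push_cast; linarith) (by push_cast; linarith)) hS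

/-- **`h - hc > d u/4`** on the outer orbit. -/
theorem orbit_slope_low (hf : IsOrbitFns N p q S R x y s dx dy)
    (hb : SlabBox N (1 / (p + 1)) (1 / (q + 1)))
    {w : ℝ} (hw : w ∈ S) (hw0 : 0 < R w) :
    bandL N (1 / (p + 1)) (1 / (q + 1)) (1 / (q + 1) - 1 / (p + 1)) (1 / 4) 0 0
      (uOf N (R w) (x w)) (y w / x w) < hOf N (R w) (x w) (y w) w := by
  have hd : 0 ≤ 1 / (q + 1) - 1 / (p + 1) := hb.facts.2.2.1.le
  have hd1 : 1 / (q + 1) - 1 / (p + 1) ≤ 1 / 5 := hb.diff
  have hu1 : uOf N (R w) (x w) ≤ 1 := (hf.chart hb.five hb.low w hw hw0).2.1.le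
  have hT : ∀ u : ℝ, HasDerivAt (fun _ : ℝ => (1 / 4 : ℝ)) 0 u := fun u => hasDerivAt_const u _
  have := bandT_step hf hb (one_mul 1) (u₁ := 1) hT continuous_const
    (fun u r => (u ≤ 9 / 10 → vOf (1 / (p + 1)) (1 / (q + 1)) r < phiOne u) ∧
      (N - 2) * (1 / (q + 1)) * r < N * (1 / (p + 1)))
    (fun w hw hw0 _ => ⟨fun h => orbit_phiOne hf hb hw hw0 h,
      (hf.chart hb.five hb.low w hw hw0).2.2.2.2.2.2.2.2.1⟩)
    (fun u r hu hu' _ hE _ hv hv1 => ?_) hw hw0 hu1
  · rw [one_mul, sub_pos] at this
    refine lt_of_eq_of_lt ?_ this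
    simp only [bandT, bandL]; ring
  · have hdv := dv_lt hb hE.2
    have hden := Ex.pos_of_check denQ_check (y₀ := u)
      (y₁ := vOf (1 / (p + 1)) (1 / (q + 1)) r)
      (y₂ := 1 / (q + 1) - 1 / (p + 1)) (y₃ := 1 / (p + 1) + 1 / (q + 1))
      (side_mem (by push_cast; linarith) (by push_cast; linarith))
      (side_mem (by push_cast; linarith) (by push_cast; linarith))
      (side_mem (by push_cast; linarith) (by push_cast; linarith)) (sideS_mem hb)
    rw [eDenQ, val_den] at hden
    have key := lieQ_sign hu.le hu' hE.1 hv hv1 hd hd1 hdv (sideS_mem hb)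
    rw [eLieQ, val_lie] at key
    refine ⟨by simpa [Ex.val] using hden, ?_⟩
    rw [one_mul, lieV]
    refine lt_of_lt_of_eq key ?_
    simp only [Ex.val]
    push_cast
    congr 1 <;> ring

/-- `hc < h` on the outer orbit. -/
theorem orbit_hc_lt (hf : IsOrbitFns N p q S R x y s dx dy)
    (hb : SlabBox N (1 / (p + 1)) (1 / (q + 1)))
    {w : ℝ} (hw : w ∈ S) (hw0 : 0 < R w) :
    hc N (1 / (p + 1)) (1 / (q + 1)) (y w / x w) < hOf N (R w) (x w) (y w) w := by
  refine lt_of_le_of_lt ?_ (orbit_slope_low hf hb hw hw0)
  have hu : 0 ≤ uOf N (R w) (x w) := (hf.chart hb.five hb.low w hw hw0).1.le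
  have hd : 0 ≤ 1 / (q + 1) - 1 / (p + 1) := hb.facts.2.2.1.le
  have := mul_nonneg hd hu
  simp only [bandL]
  linarith

/-- The slope of `h - hc` is above `1/4` on the outer orbit. -/
theorem slopeAt_low (hc : IsCrit N p q) (hf : IsOrbitFns N p q S R x y s dx dy)
    (hb : SlabBox N (1 / (p + 1)) (1 / (q + 1)))
    {w : ℝ} (hw : w ∈ S) (hw0 : 0 < R w) :
    1 / 4 < slopeAt N p q R x y dx dy w := by
  have h := orbit_slope_low hf hb hw hw0
  have e := (slopeAt_eq hc hf hb hw hw0.ne').1
  have hu : 0 < uOf N (R w) (x w) := (hf.chart hb.five hb.low w hw hw0).1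
  have hd : 0 < 1 / (q + 1) - 1 / (p + 1) := hb.facts.2.2.1
  refine lt_of_mul_lt_mul_left (a := (1 / (q + 1) - 1 / (p + 1)) * uOf N (R w) (x w)) ?_
    (mul_pos hd hu).le
  simp only [bandL] at h
  linarith

end Vale.Agent.P100.Calib.Band
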