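import Vale.Agent.P100.Calib.SlabTailMidSigns
import Vale.Agent.P100.Calib.SlabSmallBands
import Vale.Agent.P100.Calib.SlabForwardLower

/-!
# The lower band on `[3/5, 79/80]`, `d` in `[1 / 20, 3 / 25]`
-/

namespace Vale.Agent.P100.Calib.Band

open BoxPos Bubble Chart

variable {N p q : ℝ} {S : Set ℝ} {R x y s dx dy : ℝ → ℝ}

/-- **The lower band past `3/5`.** -/
theorem orbit_lower_tail_mid (hf : IsOrbitFns N p q S R x y s dx dy)
    (hb : SlabBox N (1 / (p + 1)) (1 / (q + 1))) (h0 : 1 / 20 ≤ 1 / (q + 1) - 1 / (p + 1))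
    (h1 : 1 / (q + 1) - 1 / (p + 1) ≤ 3 / 25)
    {w : ℝ} (hw : w ∈ S) (hw0 : 0 < R w) (hu : 3 / 5 ≤ uOf N (R w) (x w))
    (hwu : uOf N (R w) (x w) ≤ 79 / 80) :
    bandT N (1 / (p + 1)) (1 / (q + 1)) (1 / (q + 1) - 1 / (p + 1)) (lowTailMid (1 / (q + 1) - 1 / (p + 1)))
      (uOf N (R w) (x w)) (y w / x w) < hOf N (R w) (x w) (y w) w := by
  set al := 1 / (p + 1) with hald
  set be := 1 / (q + 1) with hbed
  set d := be - al with hdd
  have hd : 0 ≤ d := by linarith
  have hT : ∀ u, HasDerivAt (tangentExt (lowTailMid d) (tailD (31755 / 10000 - 75720 / 10000 * d) (1904 / 10000 - 21095 / 10000 * d) (1200 / 10000) (40 / 10000) d) (79 / 80))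
      (if u ≤ 79 / 80 then tailD (31755 / 10000 - 75720 / 10000 * d) (1904 / 10000 - 21095 / 10000 * d) (1200 / 10000) (40 / 10000) d u else tailD (31755 / 10000 - 75720 / 10000 * d) (1904 / 10000 - 21095 / 10000 * d) (1200 / 10000) (40 / 10000) d (79 / 80)) u :=
    hasDerivAt_tangentExt fun u hu => hasDerivAt_tail (by linarith) (by linarith)
  have key := forwardL_step hf hb (u₀ := 3 / 5) (u₁ := 79 / 80) (K := 1) (by norm_num) (by norm_num)
    one_pos hT (L₀ := fun u => (119 / 100 - 67 / 20 * d) + (31 / 20 - 69 / 10 * d) * u + (11 / 20 + 2 / 5 * d) * u ^ 2)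
    (fun u r => (u ≤ 9 / 10 → vOf al be r < phiTwo u) ∧ (N - 2) * be * r < N * al)
    (fun w hw hw0 _ => ⟨fun h => orbit_phiTwo hf hb hw hw0 h,
      (hf.chart hb.five hb.low w hw hw0).2.2.2.2.2.2.2.2.1⟩)
    (fun w hw hw0 hwu => ?_) (fun u hu0 hu => ?_) (fun u r hu hu' _ hr hE hv hv1 he hp => ?_)
    hw hw0 hu hwu
  · refine lt_of_eq_of_lt ?_ key
    simp only [bandT, tangentExt, if_pos hwu]; rfl
  · refine lt_of_eq_of_lt ?_ (orbit_lower_small hf hb (by linarith) h1 hw hw0 (hwu.trans (by norm_num)))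
    simp only [bandT, bandL, ← hald, ← hbed, ← hdd]
    ring
  · rw [one_mul]
    have := mid_tail_before hu0.le hu h0 h1 (sideS_mem hb)
    rw [tangentExt, if_pos (show u ≤ 79 / 80 by linarith)]; exact this
  · have hA := (al_v_lt hb hr).resolve_right (by linarith)
    have hD := dv_lt hb hE.2
    obtain ⟨i, j, hc⟩ := mid_tail_sign (d := d) (S' := al + be) hu hu' hv hv1 hE.1 hA hD h0 h1
      (sideS_mem hb)
    have e1 : tangentExt (lowTailMid d) (tailD (31755 / 10000 - 75720 / 10000 * d) (1904 / 10000 - 21095 / 10000 * d) (1200 / 10000) (40 / 10000) d) (79 / 80) u = lowTailMid d u := if_pos hu'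
    rw [e1] at he hp ⊢
    rw [if_pos hu']
    obtain ⟨eN, eG, eM⟩ := mid_tail_val (u := u) (v := vOf al be r) (d := d) (S' := al + be)
    rw [midTailCond] at hc
    refine lieV_pos_of_cond u (vOf al be r) d (al + be) hc ?_ ?_ ?_ he hp
    · rw [eG]
      exact tailG_pos hd (by linarith) (by linarith)
    · rw [eN, eG]
      exact tailN_eq hd (by linarith) (by linarith)
    · rw [eM, eG]
      exact tailM_eq hd (by linarith) (by linarith)

end Vale.Agent.P100.Calib.Band
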