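import Vale.Agent.P100.Calib.SlabTailMidExitChecks
import Vale.Agent.P100.Calib.SlabTailMidLower
import Vale.Agent.P100.Calib.SlabExitFun

/-!
# The exit curve on `u ≤ 79/80`, `d` in `[1 / 20, 3 / 25]`
-/

namespace Vale.Agent.P100.Calib.Band

open BoxPos Bubble Chart

variable {N p q : ℝ} {S : Set ℝ} {R x y s dx dy : ℝ → ℝ}

/-- The exit curve. -/
noncomputable def phiTailMid (d u : ℝ) : ℝ :=
  curveA (77743 / 10000 - 60214 / 10000 * d) (18134 / 10000 + 2854 / 10000 * d) (55858 / 10000 - 40967 / 10000 * d) (1800 / 10000 + 8000 / 10000 * d + 15000 / 10000 * (d * d)) (173 / 10000) u / curveW (1800 / 10000 + 8000 / 10000 * d + 15000 / 10000 * (d * d)) (173 / 10000) u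

/-- The band below the exit curve. -/
noncomputable def exitBandMid (d u : ℝ) : ℝ :=
  if u < 3 / 5 then (119 / 100 - 67 / 20 * d) + (31 / 20 - 69 / 10 * d) * u + (11 / 20 + 2 / 5 * d) * u ^ 2 else lowTailMid d u

theorem mid_xlow_pos {u d S' : ℝ} (hu : 0 ≤ u) (hu1 : u ≤ 3 / 5) (h0 : 1 / 20 ≤ d) (h1 : d ≤ 3 / 25)
    (hS : sideS.Mem S') : 0 < midXLow.val u (33 / 100) d S' := by
  rcases lt_or_ge u (4000 / 10000) with g0 | g0
  · exact Ex.pos_of_checkQuick mid_xlow_0 (side_mem_four (by push_cast; linarith) (by push_cast; linarith))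
      (side_mem_four (by norm_num) (by norm_num)) (side_mem_four (by push_cast; linarith) (by push_cast; linarith)) hS
  exact Ex.pos_of_checkQuick mid_xlow_4000 (side_mem_four (by push_cast; linarith) (by push_cast; linarith))
      (side_mem_four (by norm_num) (by norm_num)) (side_mem_four (by push_cast; linarith) (by push_cast; linarith)) hS

theorem mid_xhigh_pos {u d S' : ℝ} (hu : 3 / 5 ≤ u) (hu1 : u ≤ 79 / 80) (h0 : 1 / 20 ≤ d) (h1 : d ≤ 3 / 25)
    (hS : sideS.Mem S') : 0 < midXHigh.val u (33 / 100) d S' := by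
  rcases lt_or_ge u (8000 / 10000) with g0 | g0
  · exact Ex.pos_of_checkQuick mid_xhigh_6000 (side_mem_four (by push_cast; linarith) (by push_cast; linarith))
      (side_mem_four (by norm_num) (by norm_num)) (side_mem_four (by push_cast; linarith) (by push_cast; linarith)) hS
  rcases lt_or_ge u (9000 / 10000) with g1 | g1
  · exact Ex.pos_of_checkQuick mid_xhigh_8000 (side_mem_four (by push_cast; linarith) (by push_cast; linarith))
      (side_mem_four (by norm_num) (by norm_num)) (side_mem_four (by push_cast; linarith) (by push_cast; linarith)) hS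
  rcases lt_or_ge u (9500 / 10000) with g2 | g2
  · exact Ex.pos_of_checkQuick mid_xhigh_9000 (side_mem_four (by push_cast; linarith) (by push_cast; linarith))
      (side_mem_four (by norm_num) (by norm_num)) (side_mem_four (by push_cast; linarith) (by push_cast; linarith)) hS
  rcases lt_or_ge u (9750 / 10000) with g3 | g3
  · exact Ex.pos_of_checkQuick mid_xhigh_9500 (side_mem_four (by push_cast; linarith) (by push_cast; linarith))
      (side_mem_four (by norm_num) (by norm_num)) (side_mem_four (by push_cast; linarith) (by push_cast; linarith)) hS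
  exact Ex.pos_of_checkQuick mid_xhigh_9750 (side_mem_four (by push_cast; linarith) (by push_cast; linarith))
      (side_mem_four (by norm_num) (by norm_num)) (side_mem_four (by push_cast; linarith) (by push_cast; linarith)) hS

theorem mid_slow_pos {u d S' : ℝ} (hu : 0 ≤ u) (hu1 : u ≤ 3 / 5) (h0 : 1 / 20 ≤ d) (h1 : d ≤ 3 / 25)
    (hS : sideS.Mem S') : 0 < midSLow.val u (33 / 100) d S' := by
  rcases lt_or_ge u (4000 / 10000) with g0 | g0
  · exact Ex.pos_of_checkQuick mid_slow_0 (side_mem_four (by push_cast; linarith) (by push_cast; linarith))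
      (side_mem_four (by norm_num) (by norm_num)) (side_mem_four (by push_cast; linarith) (by push_cast; linarith)) hS
  exact Ex.pos_of_checkQuick mid_slow_4000 (side_mem_four (by push_cast; linarith) (by push_cast; linarith))
      (side_mem_four (by norm_num) (by norm_num)) (side_mem_four (by push_cast; linarith) (by push_cast; linarith)) hS

theorem mid_shigh_pos {u d S' : ℝ} (hu : 3 / 5 ≤ u) (hu1 : u ≤ 79 / 80) (h0 : 1 / 20 ≤ d) (h1 : d ≤ 3 / 25)
    (hS : sideS.Mem S') : 0 < midSHigh.val u (33 / 100) d S' := by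
  rcases lt_or_ge u (8000 / 10000) with g0 | g0
  · exact Ex.pos_of_checkQuick mid_shigh_6000 (side_mem_four (by push_cast; linarith) (by push_cast; linarith))
      (side_mem_four (by norm_num) (by norm_num)) (side_mem_four (by push_cast; linarith) (by push_cast; linarith)) hS
  rcases lt_or_ge u (9000 / 10000) with g1 | g1
  · exact Ex.pos_of_checkQuick mid_shigh_8000 (side_mem_four (by push_cast; linarith) (by push_cast; linarith))
      (side_mem_four (by norm_num) (by norm_num)) (side_mem_four (by push_cast; linarith) (by push_cast; linarith)) hS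
  rcases lt_or_ge u (9500 / 10000) with g2 | g2
  · exact Ex.pos_of_checkQuick mid_shigh_9000 (side_mem_four (by push_cast; linarith) (by push_cast; linarith))
      (side_mem_four (by norm_num) (by norm_num)) (side_mem_four (by push_cast; linarith) (by push_cast; linarith)) hS
  rcases lt_or_ge u (9750 / 10000) with g3 | g3
  · exact Ex.pos_of_checkQuick mid_shigh_9500 (side_mem_four (by push_cast; linarith) (by push_cast; linarith))
      (side_mem_four (by norm_num) (by norm_num)) (side_mem_four (by push_cast; linarith) (by push_cast; linarith)) hS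
  exact Ex.pos_of_checkQuick mid_shigh_9750 (side_mem_four (by push_cast; linarith) (by push_cast; linarith))
      (side_mem_four (by norm_num) (by norm_num)) (side_mem_four (by push_cast; linarith) (by push_cast; linarith)) hS

theorem mid_coef {d : ℝ} (h0 : 1 / 20 ≤ d) (h1 : d ≤ 3 / 25) :
    0 ≤ (1800 / 10000 + 8000 / 10000 * d + 15000 / 10000 * (d * d)) ∧ (0 : ℝ) ≤ 173 / 10000 ∧ 0 ≤ (18134 / 10000 + 2854 / 10000 * d) ∧ 0 ≤ (55858 / 10000 - 40967 / 10000 * d) := by
  refine ⟨?_, by norm_num, by linarith, by linarith⟩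
  have := mul_le_mul h1 h1 (by linarith) (by norm_num)
  have := mul_self_nonneg d
  linarith

theorem mid_curve_val {u v d S' : ℝ} :
    (eCurveA midCF0 midCF1 midCF3 midCA midCB).val u v d S' = curveA (77743 / 10000 - 60214 / 10000 * d) (18134 / 10000 + 2854 / 10000 * d) (55858 / 10000 - 40967 / 10000 * d) (1800 / 10000 + 8000 / 10000 * d + 15000 / 10000 * (d * d)) (173 / 10000) u ∧
      (eCurveW midCA midCB).val u v d S' = curveW (1800 / 10000 + 8000 / 10000 * d + 15000 / 10000 * (d * d)) (173 / 10000) u ∧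
      (eCurveGW midCF1 midCF3 midCA midCB).val u v d S' = curveGW (18134 / 10000 + 2854 / 10000 * d) (55858 / 10000 - 40967 / 10000 * d) (1800 / 10000 + 8000 / 10000 * d + 15000 / 10000 * (d * d)) (173 / 10000) u ∧
      midCL.val u v d S' = (119 / 100 - 67 / 20 * d) + (31 / 20 - 69 / 10 * d) * u + (11 / 20 + 2 / 5 * d) * u ^ 2 := by
  refine ⟨?_, ?_, ?_, ?_⟩ <;>
    simp only [val_curveA, val_curveW, val_curveGW, midCF0, midCF1, midCF3, midCA, midCB, midCL, Ex.val] <;>
    push_cast <;> ring_nf

/-- **The exit curve up to `79/80`.** -/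
theorem orbit_phi_tail_mid (hf : IsOrbitFns N p q S R x y s dx dy)
    (hb : SlabBox N (1 / (p + 1)) (1 / (q + 1))) (h0 : 1 / 20 ≤ 1 / (q + 1) - 1 / (p + 1))
    (h1 : 1 / (q + 1) - 1 / (p + 1) ≤ 3 / 25)
    {w : ℝ} (hw : w ∈ S) (hw0 : 0 < R w) (hwu : uOf N (R w) (x w) ≤ 79 / 80) :
    vOf (1 / (p + 1)) (1 / (q + 1)) (y w / x w) <
      phiTailMid (1 / (q + 1) - 1 / (p + 1)) (uOf N (R w) (x w)) := by
  set al := 1 / (p + 1) with hald
  set be := 1 / (q + 1) with hbed
  set d := be - al with hdd
  obtain ⟨ha, hb4, hf1, hf3⟩ := mid_coef h0 h1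
  have hWp : ∀ u : ℝ, u ≤ 79 / 80 → 0 < curveW (1800 / 10000 + 8000 / 10000 * d + 15000 / 10000 * (d * d)) (173 / 10000) u := fun u hu =>
    mul_pos (by linarith) (by linarith)
  have key := exitF_step hf hb (u₁ := 79 / 80) (by norm_num)
    (fun u => hasDerivAt_curveA (77743 / 10000 - 60214 / 10000 * d) (18134 / 10000 + 2854 / 10000 * d) (55858 / 10000 - 40967 / 10000 * d) (1800 / 10000 + 8000 / 10000 * d + 15000 / 10000 * (d * d)) (173 / 10000) u) (fun u => hasDerivAt_curveW (1800 / 10000 + 8000 / 10000 * d + 15000 / 10000 * (d * d)) (173 / 10000) u)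
    (fun u _ hu => hWp u hu) (exitBandMid d)
    (fun u r => ∃ h, bandT N al be d (exitBandMid d) u r < h ∧ InChart N al be u r h ∧
      0 < ev N al be u r h)
    (fun w hw hw0 hwu => ⟨_, ?_, hf.chart hb.five hb.low w hw hw0,
      orbit_ev_pos hf hb.five hb.low hb.facts.1 hb.facts.2.1 hw hw0⟩)
    (fun w hw hw0 hwu => ?_) (fun r _ hE hv hv1 => ?_) (fun u r hu0 hu hr _ hv hv1 hG => ?_)
    hw hw0 hwu
  case refine_1 | refine_2 =>
    rcases lt_or_ge (uOf N (R w) (x w)) (3 / 5) with g | g
    · refine lt_of_eq_of_lt ?_ (orbit_lower_small hf hb (by linarith) h1 hw hw0 (by linarith))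
      simp only [bandT, bandL, exitBandMid, if_pos g, ← hald, ← hbed, ← hdd]
      ring
    · refine lt_of_eq_of_lt ?_ (orbit_lower_tail_mid hf hb h0 h1 hw hw0 g hwu)
      simp only [bandT, exitBandMid, if_neg (not_lt.2 g), ← hald, ← hbed, ← hdd]
  · rw [phiTailMid, lt_div_iff₀ (hWp _ hwu), mul_comm]
    exact key
  · have hk := Ex.pos_of_checkQuick mid_end_check (y₀ := 79 / 80) (y₁ := 33 / 100) (y₂ := d)
      (y₃ := al + be) (side_mem_four (by norm_num) (by norm_num))
      (side_mem_four (by norm_num) (by norm_num)) (side_mem_four (by push_cast; linarith) (by push_cast; linarith)) (sideS_mem hb)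
    rw [midEnd] at hk
    simp only [Ex.val, mid_curve_val.1, mid_curve_val.2.1] at hk
    push_cast at hk
    have := mul_le_mul_of_nonneg_left hv1 (hWp (79 / 80) le_rfl).le
    linarith
  · have hS : sideS.Mem (al + be) := sideS_mem hb
    obtain ⟨eA, eW, eg, eL⟩ := mid_curve_val (u := u) (v := 33 / 100) (d := d) (S' := al + be)
    have hd : 0 ≤ d := by linarith
    rcases lt_or_ge u (3 / 5) with g | g
    · have hx := mid_xlow_pos hu0.le g.le h0 h1 hS
      have hs := mid_slow_pos hu0.le g.le h0 h1 hS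
      rw [midXLow, val_exitPH, eA, eW, eg, eL] at hx
      rw [midSLow, val_slopePH, eA, eW, eg, eL] at hs
      simp only [Ex.val, Nat.cast_one, Int.cast_one, div_one] at hx hs
      rw [show exitBandMid d u = (119 / 100 - 67 / 20 * d) + (31 / 20 - 69 / 10 * d) * u + (11 / 20 + 2 / 5 * d) * u ^ 2 from if_pos g]
      exact curve_conds ha hb4 hf1 hf3 (hWp u hu) hG one_pos (mul_one _).symm hx hs
    · have hx := mid_xhigh_pos g hu h0 h1 hS
      have hs := mid_shigh_pos g hu h0 h1 hS
      obtain ⟨eN, eG, -⟩ := mid_tail_val (u := u) (v := 33 / 100) (d := d) (S' := al + be)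
      rw [midXHigh, val_exitPH, eA, eW, eg, eN, eG] at hx
      rw [midSHigh, val_slopePH, eA, eW, eg, eN, eG] at hs
      rw [show exitBandMid d u = lowTailMid d u from if_neg (not_lt.2 g)]
      exact curve_conds ha hb4 hf1 hf3 (hWp u hu) hG (tailG_pos hd (by linarith) (by linarith))
        (tailN_eq hd (by linarith) (by linarith)) hx hs

end Vale.Agent.P100.Calib.Band
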