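import Vale.Agent.P100.Calib.SlabTailTopExitChecks
import Vale.Agent.P100.Calib.SlabTailTopLower
import Vale.Agent.P100.Calib.SlabExitFun

/-!
# The exit curve on `u ≤ 79/80`, `d` in `[3 / 25, 1 / 5]`
-/

namespace Vale.Agent.P100.Calib.Band

open BoxPos Bubble Chart

variable {N p q : ℝ} {S : Set ℝ} {R x y s dx dy : ℝ → ℝ}

/-- The exit curve. -/
noncomputable def phiTailTop (d u : ℝ) : ℝ :=
  curveA (64790 / 10000 - 129110 / 10000 * d) (34317 / 10000 - 68165 / 10000 * d) (34688 / 10000 - 116052 / 10000 * d) (2360 / 10000 - 2752 / 10000 * d - 20835 / 10000 * (d * d)) (258 / 10000) u / curveW (2360 / 10000 - 2752 / 10000 * d - 20835 / 10000 * (d * d)) (258 / 10000) u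

/-- The band below the exit curve. -/
noncomputable def exitBandTop (d u : ℝ) : ℝ :=
  if u < 3 / 5 then (4 / 5 - 31 / 25 * d) + (42 / 25 - 29 / 5 * d) * u + (1 / 4 - 9 / 2 * d) * u ^ 2 else lowTailTop d u

theorem top_xlow_pos {u d S' : ℝ} (hu : 0 ≤ u) (hu1 : u ≤ 3 / 5) (h0 : 3 / 25 ≤ d) (h1 : d ≤ 1 / 5)
    (hS : sideS.Mem S') : 0 < topXLow.val u (33 / 100) d S' := by
  rcases lt_or_ge u (4000 / 10000) with g0 | g0
  · exact Ex.pos_of_checkQuick top_xlow_0 (side_mem_four (by push_cast; linarith) (by push_cast; linarith))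
      (side_mem_four (by norm_num) (by norm_num)) (side_mem_four (by push_cast; linarith) (by push_cast; linarith)) hS
  exact Ex.pos_of_checkQuick top_xlow_4000 (side_mem_four (by push_cast; linarith) (by push_cast; linarith))
      (side_mem_four (by norm_num) (by norm_num)) (side_mem_four (by push_cast; linarith) (by push_cast; linarith)) hS

theorem top_xhigh_pos {u d S' : ℝ} (hu : 3 / 5 ≤ u) (hu1 : u ≤ 79 / 80) (h0 : 3 / 25 ≤ d) (h1 : d ≤ 1 / 5)
    (hS : sideS.Mem S') : 0 < topXHigh.val u (33 / 100) d S' := by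
  rcases lt_or_ge u (8000 / 10000) with g0 | g0
  · exact Ex.pos_of_checkQuick top_xhigh_6000 (side_mem_four (by push_cast; linarith) (by push_cast; linarith))
      (side_mem_four (by norm_num) (by norm_num)) (side_mem_four (by push_cast; linarith) (by push_cast; linarith)) hS
  rcases lt_or_ge u (9000 / 10000) with g1 | g1
  · exact Ex.pos_of_checkQuick top_xhigh_8000 (side_mem_four (by push_cast; linarith) (by push_cast; linarith))
      (side_mem_four (by norm_num) (by norm_num)) (side_mem_four (by push_cast; linarith) (by push_cast; linarith)) hS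
  rcases lt_or_ge u (9500 / 10000) with g2 | g2
  · exact Ex.pos_of_checkQuick top_xhigh_9000 (side_mem_four (by push_cast; linarith) (by push_cast; linarith))
      (side_mem_four (by norm_num) (by norm_num)) (side_mem_four (by push_cast; linarith) (by push_cast; linarith)) hS
  rcases lt_or_ge u (9750 / 10000) with g3 | g3
  · exact Ex.pos_of_checkQuick top_xhigh_9500 (side_mem_four (by push_cast; linarith) (by push_cast; linarith))
      (side_mem_four (by norm_num) (by norm_num)) (side_mem_four (by push_cast; linarith) (by push_cast; linarith)) hS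
  exact Ex.pos_of_checkQuick top_xhigh_9750 (side_mem_four (by push_cast; linarith) (by push_cast; linarith))
      (side_mem_four (by norm_num) (by norm_num)) (side_mem_four (by push_cast; linarith) (by push_cast; linarith)) hS

theorem top_slow_pos {u d S' : ℝ} (hu : 0 ≤ u) (hu1 : u ≤ 3 / 5) (h0 : 3 / 25 ≤ d) (h1 : d ≤ 1 / 5)
    (hS : sideS.Mem S') : 0 < topSLow.val u (33 / 100) d S' := by
  rcases lt_or_ge u (4000 / 10000) with g0 | g0
  · exact Ex.pos_of_checkQuick top_slow_0 (side_mem_four (by push_cast; linarith) (by push_cast; linarith))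
      (side_mem_four (by norm_num) (by norm_num)) (side_mem_four (by push_cast; linarith) (by push_cast; linarith)) hS
  exact Ex.pos_of_checkQuick top_slow_4000 (side_mem_four (by push_cast; linarith) (by push_cast; linarith))
      (side_mem_four (by norm_num) (by norm_num)) (side_mem_four (by push_cast; linarith) (by push_cast; linarith)) hS

theorem top_shigh_pos {u d S' : ℝ} (hu : 3 / 5 ≤ u) (hu1 : u ≤ 79 / 80) (h0 : 3 / 25 ≤ d) (h1 : d ≤ 1 / 5)
    (hS : sideS.Mem S') : 0 < topSHigh.val u (33 / 100) d S' := by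
  rcases lt_or_ge u (8000 / 10000) with g0 | g0
  · exact Ex.pos_of_checkQuick top_shigh_6000 (side_mem_four (by push_cast; linarith) (by push_cast; linarith))
      (side_mem_four (by norm_num) (by norm_num)) (side_mem_four (by push_cast; linarith) (by push_cast; linarith)) hS
  rcases lt_or_ge u (9000 / 10000) with g1 | g1
  · exact Ex.pos_of_checkQuick top_shigh_8000 (side_mem_four (by push_cast; linarith) (by push_cast; linarith))
      (side_mem_four (by norm_num) (by norm_num)) (side_mem_four (by push_cast; linarith) (by push_cast; linarith)) hS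
  rcases lt_or_ge u (9500 / 10000) with g2 | g2
  · exact Ex.pos_of_checkQuick top_shigh_9000 (side_mem_four (by push_cast; linarith) (by push_cast; linarith))
      (side_mem_four (by norm_num) (by norm_num)) (side_mem_four (by push_cast; linarith) (by push_cast; linarith)) hS
  rcases lt_or_ge u (9750 / 10000) with g3 | g3
  · exact Ex.pos_of_checkQuick top_shigh_9500 (side_mem_four (by push_cast; linarith) (by push_cast; linarith))
      (side_mem_four (by norm_num) (by norm_num)) (side_mem_four (by push_cast; linarith) (by push_cast; linarith)) hS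
  exact Ex.pos_of_checkQuick top_shigh_9750 (side_mem_four (by push_cast; linarith) (by push_cast; linarith))
      (side_mem_four (by norm_num) (by norm_num)) (side_mem_four (by push_cast; linarith) (by push_cast; linarith)) hS

theorem top_coef {d : ℝ} (h0 : 3 / 25 ≤ d) (h1 : d ≤ 1 / 5) :
    0 ≤ (2360 / 10000 - 2752 / 10000 * d - 20835 / 10000 * (d * d)) ∧ (0 : ℝ) ≤ 258 / 10000 ∧ 0 ≤ (34317 / 10000 - 68165 / 10000 * d) ∧ 0 ≤ (34688 / 10000 - 116052 / 10000 * d) := by
  refine ⟨?_, by norm_num, by linarith, by linarith⟩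
  have := mul_le_mul h1 h1 (by linarith) (by norm_num)
  have := mul_self_nonneg d
  linarith

theorem top_curve_val {u v d S' : ℝ} :
    (eCurveA topCF0 topCF1 topCF3 topCA topCB).val u v d S' = curveA (64790 / 10000 - 129110 / 10000 * d) (34317 / 10000 - 68165 / 10000 * d) (34688 / 10000 - 116052 / 10000 * d) (2360 / 10000 - 2752 / 10000 * d - 20835 / 10000 * (d * d)) (258 / 10000) u ∧
      (eCurveW topCA topCB).val u v d S' = curveW (2360 / 10000 - 2752 / 10000 * d - 20835 / 10000 * (d * d)) (258 / 10000) u ∧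
      (eCurveGW topCF1 topCF3 topCA topCB).val u v d S' = curveGW (34317 / 10000 - 68165 / 10000 * d) (34688 / 10000 - 116052 / 10000 * d) (2360 / 10000 - 2752 / 10000 * d - 20835 / 10000 * (d * d)) (258 / 10000) u ∧
      topCL.val u v d S' = (4 / 5 - 31 / 25 * d) + (42 / 25 - 29 / 5 * d) * u + (1 / 4 - 9 / 2 * d) * u ^ 2 := by
  refine ⟨?_, ?_, ?_, ?_⟩ <;>
    simp only [val_curveA, val_curveW, val_curveGW, topCF0, topCF1, topCF3, topCA, topCB, topCL, Ex.val] <;>
    push_cast <;> ring_nf

theorem top_end_low {d v : ℝ} (h0 : 3 / 25 ≤ d) (h1 : d ≤ 1 / 5)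
    (hW : 0 < curveW (2360 / 10000 - 2752 / 10000 * d - 20835 / 10000 * (d * d)) (258 / 10000) (79 / 80)) (hv : v < 32000 / 10000) :
    curveW (2360 / 10000 - 2752 / 10000 * d - 20835 / 10000 * (d * d)) (258 / 10000) (79 / 80) * v < curveA (64790 / 10000 - 129110 / 10000 * d) (34317 / 10000 - 68165 / 10000 * d) (34688 / 10000 - 116052 / 10000 * d) (2360 / 10000 - 2752 / 10000 * d - 20835 / 10000 * (d * d)) (258 / 10000) (79 / 80) := by
  refine (mul_lt_mul_of_pos_left hv hW).trans_le ?_
  simp only [curveA, curveW]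
  nlinarith [mul_nonneg (sub_nonneg.2 h0) (sub_nonneg.2 h1), mul_self_nonneg d]

/-- **The exit curve up to `79/80`.** -/
theorem orbit_phi_tail_top (hf : IsOrbitFns N p q S R x y s dx dy)
    (hb : SlabBox N (1 / (p + 1)) (1 / (q + 1))) (h0 : 3 / 25 ≤ 1 / (q + 1) - 1 / (p + 1))
    (h1 : 1 / (q + 1) - 1 / (p + 1) ≤ 1 / 5)
    {w : ℝ} (hw : w ∈ S) (hw0 : 0 < R w) (hwu : uOf N (R w) (x w) ≤ 79 / 80) :
    vOf (1 / (p + 1)) (1 / (q + 1)) (y w / x w) <
      phiTailTop (1 / (q + 1) - 1 / (p + 1)) (uOf N (R w) (x w)) := by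
  set al := 1 / (p + 1) with hald
  set be := 1 / (q + 1) with hbed
  set d := be - al with hdd
  obtain ⟨ha, hb4, hf1, hf3⟩ := top_coef h0 h1
  have hWp : ∀ u : ℝ, u ≤ 79 / 80 → 0 < curveW (2360 / 10000 - 2752 / 10000 * d - 20835 / 10000 * (d * d)) (258 / 10000) u := fun u hu =>
    mul_pos (by linarith) (by linarith)
  have key := exitF_step hf hb (u₁ := 79 / 80) (by norm_num)
    (fun u => hasDerivAt_curveA (64790 / 10000 - 129110 / 10000 * d) (34317 / 10000 - 68165 / 10000 * d) (34688 / 10000 - 116052 / 10000 * d) (2360 / 10000 - 2752 / 10000 * d - 20835 / 10000 * (d * d)) (258 / 10000) u) (fun u => hasDerivAt_curveW (2360 / 10000 - 2752 / 10000 * d - 20835 / 10000 * (d * d)) (258 / 10000) u)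
    (fun u _ hu => hWp u hu) (exitBandTop d)
    (fun u r => ∃ h, bandT N al be d (exitBandTop d) u r < h ∧ InChart N al be u r h ∧
      0 < ev N al be u r h)
    (fun w hw hw0 hwu => ⟨_, ?_, hf.chart hb.five hb.low w hw hw0,
      orbit_ev_pos hf hb.five hb.low hb.facts.1 hb.facts.2.1 hw hw0⟩)
    (fun w hw hw0 hwu => ?_) (fun r _ hE hv hv1 => ?_) (fun u r hu0 hu hr _ hv hv1 hG => ?_)
    hw hw0 hwu
  case refine_1 | refine_2 =>
    rcases lt_or_ge (uOf N (R w) (x w)) (3 / 5) with g | g
    · refine lt_of_eq_of_lt ?_ (orbit_lower_large hf hb h0 h1 hw hw0 (by linarith))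
      simp only [bandT, bandL, exitBandTop, if_pos g, ← hald, ← hbed, ← hdd]
      ring
    · refine lt_of_eq_of_lt ?_ (orbit_lower_tail_top hf hb h0 h1 hw hw0 g hwu)
      simp only [bandT, exitBandTop, if_neg (not_lt.2 g), ← hald, ← hbed, ← hdd]
  · rw [phiTailTop, lt_div_iff₀ (hWp _ hwu), mul_comm]
    exact key
  · obtain ⟨h, hlt, hI, hev⟩ := hE
    by_contra hcon
    have hle := not_lt.1 hcon
    have hb0 : exitBandTop d (79 / 80) = lowTailTop d (79 / 80) := if_neg (by norm_num)
    have he := lieE_pos_of_ev hb hI hlt hev hv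
    rw [hb0] at he
    set v := vOf al be r
    rcases lt_or_ge v (32000 / 10000) with g | g
    · exact absurd hle (not_le.2 (top_end_low h0 h1 (hWp (79 / 80) le_rfl) g))
    have hk := Ex.pos_of_checkQuick top_end_check (y₀ := 79 / 80) (y₁ := v) (y₂ := d)
      (y₃ := al + be) (side_mem_four (by norm_num) (by norm_num))
      (side_mem_four (by push_cast; linarith) (by push_cast; linarith)) (side_mem_four (by push_cast; linarith) (by push_cast; linarith)) (sideS_mem hb)
    have hd : 0 ≤ d := by linarith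
    rw [topEnd] at hk
    simp only [Ex.val, top_curve_val.1, top_curve_val.2.1, val_lieE, top_tail_val.1,
      top_tail_val.2.1] at hk
    push_cast at hk
    set G := tailG (1655 / 10000) (293 / 10000) d (79 / 80) with hGd
    have hG : 0 < G := tailG_pos hd (by norm_num) (by norm_num)
    have hn := tailN_eq (l₀ := (48300 / 10000 - 78000 / 10000 * d)) (l₁ := (-281 / 10000 + 279249 / 10000 * d)) (l₂ := (7517 / 10000 - 70471 / 10000 * d)) (a := 1655 / 10000) (b := 293 / 10000)
      hd (show (79 : ℝ) / 80 < 1 + 1655 / 10000 by norm_num) (by norm_num)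
    rw [hn, ← hGd] at hk
    have e : ∀ t : ℝ, lieE (al + be) d (79 / 80) v (t * G) G =
        G * lieE (al + be) d (79 / 80) v t 1 := fun t => by simp only [lieE]; ring
    rw [e] at hk
    have := mul_pos hG he
    have := mul_nonneg hG.le (sub_nonneg.2 hle)
    simp only [lowTailTop] at *
    linarith
  · have hS : sideS.Mem (al + be) := sideS_mem hb
    obtain ⟨eA, eW, eg, eL⟩ := top_curve_val (u := u) (v := 33 / 100) (d := d) (S' := al + be)
    have hd : 0 ≤ d := by linarith
    rcases lt_or_ge u (3 / 5) with g | g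
    · have hx := top_xlow_pos hu0.le g.le h0 h1 hS
      have hs := top_slow_pos hu0.le g.le h0 h1 hS
      rw [topXLow, val_exitPH, eA, eW, eg, eL] at hx
      rw [topSLow, val_slopePH, eA, eW, eg, eL] at hs
      simp only [Ex.val, Nat.cast_one, Int.cast_one, div_one] at hx hs
      rw [show exitBandTop d u = (4 / 5 - 31 / 25 * d) + (42 / 25 - 29 / 5 * d) * u + (1 / 4 - 9 / 2 * d) * u ^ 2 from if_pos g]
      exact curve_conds ha hb4 hf1 hf3 (hWp u hu) hG one_pos (mul_one _).symm hx hs
    · have hx := top_xhigh_pos g hu h0 h1 hS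
      have hs := top_shigh_pos g hu h0 h1 hS
      obtain ⟨eN, eG, -⟩ := top_tail_val (u := u) (v := 33 / 100) (d := d) (S' := al + be)
      rw [topXHigh, val_exitPH, eA, eW, eg, eN, eG] at hx
      rw [topSHigh, val_slopePH, eA, eW, eg, eN, eG] at hs
      rw [show exitBandTop d u = lowTailTop d u from if_neg (not_lt.2 g)]
      exact curve_conds ha hb4 hf1 hf3 (hWp u hu) hG (tailG_pos hd (by linarith) (by linarith))
        (tailN_eq hd (by linarith) (by linarith)) hx hs

end Vale.Agent.P100.Calib.Band
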