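import Vale.Agent.P100.Calib.SlabChartHighDefs
import Vale.Agent.P100.Calib.SlabAssembly
import Vale.Agent.P100.Calib.SlabPsiPast
import Vale.Agent.P100.Calib.SlabCritSlope
import Vale.Agent.P100.Calib.SlabTailMidExit
import Vale.Agent.P100.Calib.SlabTailTopExit
import Vale.Agent.P100.Calib.SlabUpperMid
import Vale.Agent.P100.Calib.SlabUpperTop

/-!
# The closed signs along the orbit beyond `u = 3/5` from the regions
-/

set_option linter.unusedVariables false

namespace Vale.Agent.P100.Calib.Band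

open Vale.Agent.P100.Bubble Chart Closed

/-- The bands of a piece hold along every orbit. -/
def OrbitHigh (B : HighBands) (d₀ d₁ : ℝ) : Prop :=
  ∀ (N p q : ℝ) (S : Set ℝ) (R x y s dx dy : ℝ → ℝ), IsCrit N p q →
    IsOrbitFns N p q S R x y s dx dy → SlabBox N (1 / (p + 1)) (1 / (q + 1)) →
    ChartBox (1 / (q + 1) - 1 / (p + 1)) (1 / (p + 1) + 1 / (q + 1)) →
    d₀ ≤ 1 / (q + 1) - 1 / (p + 1) → 1 / (q + 1) - 1 / (p + 1) ≤ d₁ →
    ∀ z ∈ S, 0 < R z →
      let d := 1 / (q + 1) - 1 / (p + 1)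
      let σ := 1 / (p + 1) + 1 / (q + 1)
      let u := uOf N (R z) (x z)
      let v := vOf (1 / (p + 1)) (1 / (q + 1)) (y z / x z)
      let t := slopeAt N p q R x y dx dy z
      (3 / 5 ≤ u → u ≤ B.uE d → v < B.phi d u ∧ B.low d u < t) ∧
        (3 / 5 ≤ u → u ≤ B.u₁ d → t < B.up d u + B.tilt d * v) ∧
        (B.u₁ d ≤ u → 2 * (1 - σ) / (2 + (σ - d) * (1 - σ)) + B.psi d < v) ∧
        3 / 5 ≤ B.u₁ d ∧ B.u₁ d ≤ B.uE d

section
variable {N p q : ℝ} {S : Set ℝ} {R x y s dx dy : ℝ → ℝ}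

/-- A band in the chart. -/
theorem bandT_tau (hc : IsCrit N p q) (h : IsOrbitFns N p q S R x y s dx dy)
    (hb : SlabBox N (1 / (p + 1)) (1 / (q + 1))) {z : ℝ} (hz : z ∈ S) (hR : 0 < R z)
    (T : ℝ → ℝ) (b : ℝ) :
    let d := 1 / (q + 1) - 1 / (p + 1)
    let u := uOf N (R z) (x z)
    let r := y z / x z
    (bandT N (1 / (p + 1)) (1 / (q + 1)) d T u r < hOf N (R z) (x z) (y z) z ↔
        T u < slopeAt N p q R x y dx dy z) ∧
      (hOf N (R z) (x z) (y z) z < bandT N (1 / (p + 1)) (1 / (q + 1)) d T u r + d * u * b ↔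
        slopeAt N p q R x y dx dy z < T u + b) := by
  intro d u r
  have hu : 0 < u := div_pos (mul_pos (mul_pos two_pos hR) (h.x_pos z hz)) (by linarith [hb.five])
  have hdu : 0 < d * u := mul_pos (sub_pos.2 hb.lt) hu
  have e := (slopeAt_eq hc h hb hz hR.ne').1
  constructor
  · rw [← mul_lt_mul_iff_of_pos_left hdu (b := T u)]
    simp only [bandT, d, u, r] at *
    constructor <;> intro <;> linarith
  · rw [← mul_lt_mul_iff_of_pos_left hdu (c := T u + b)]
    simp only [bandT, d, u, r] at *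
    constructor <;> intro <;> linarith

end

theorem curve_div {f₀ f₁ f₃ a b u : ℝ} (ha : 0 < 1 - u + a) (hb : 0 < 1 - u + b) :
    curveA f₀ f₁ f₃ a b u / curveW a b u =
      f₀ - f₁ * ((1 - u) / (1 - u + a)) - f₃ * ((1 - u) / (1 - u + b)) := by
  simp only [curveA, curveW]
  field_simp

/-- The bands of the piece `1/20 ≤ d ≤ 3/25`. -/
theorem orbitHigh_mid : OrbitHigh bandsMid (1 / 20) (3 / 25) := by
  intro N p q S R x y s dx dy hc h hb _ h0 h1 z hz hR d σ u v t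
  obtain ⟨ha, -, -, -⟩ := mid_coef h0 h1
  refine ⟨fun hu hu1 => ⟨?_, ?_⟩, fun hu hu1 => ?_, fun hu => ?_, by norm_num [bandsMid],
    by norm_num [bandsMid]⟩
  · have := orbit_phi_tail_mid h hb h0 h1 hz hR hu1
    simp only [bandsMid] at hu1 ⊢
    rwa [phiTailMid, curve_div (by linarith) (by linarith)] at this
  · exact (bandT_tau hc h hb hz hR (lowTailMid d) 0).1.1 (orbit_lower_tail_mid h hb h0 h1 hz hR hu hu1)
  · exact (bandT_tau hc h hb hz hR (upTailMid d) (tiltMid d * v)).2.1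
      (orbit_upper_tail_mid h hb h0 h1 hz hR hu hu1)
  · exact orbit_psi_past h hb h0 (h1.trans (by norm_num)) hz hR hu

/-- The bands of the piece `3/25 ≤ d ≤ 1/5`. -/
theorem orbitHigh_top : OrbitHigh bandsTop (3 / 25) (1 / 5) := by
  intro N p q S R x y s dx dy hc h hb _ h0 h1 z hz hR d σ u v t
  obtain ⟨ha, -, -, -⟩ := top_coef h0 h1
  refine ⟨fun hu hu1 => ⟨?_, ?_⟩, fun hu hu1 => ?_, fun hu => ?_, by norm_num [bandsTop],
    by norm_num [bandsTop]⟩
  · have := orbit_phi_tail_top h hb h0 h1 hz hR hu1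
    simp only [bandsTop] at hu1 ⊢
    rwa [phiTailTop, curve_div (by linarith) (by linarith)] at this
  · exact (bandT_tau hc h hb hz hR (lowTailTop d) 0).1.1 (orbit_lower_tail_top h hb h0 h1 hz hR hu hu1)
  · exact (bandT_tau hc h hb hz hR (upTailTop d) (tiltTop d * v)).2.1
      (orbit_upper_tail_top h hb h0 h1 hz hR hu hu1)
  · exact orbit_psi_past h hb (le_trans (by norm_num) h0) h1 hz hR hu

/-- One piece. -/
theorem signs_piece {B : HighBands} {d₀ d₁ : ℝ} (hB : OrbitHigh B d₀ d₁)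
    (ht : SignsTail B d₀ d₁) (he : SignsEnd B d₀ d₁) {N p q : ℝ} {S : Set ℝ}
    {R x y s dx dy : ℝ → ℝ} (hc : IsCrit N p q) (h : IsOrbitFns N p q S R x y s dx dy)
    (hb : SlabBox N (1 / (p + 1)) (1 / (q + 1)))
    (hcb : ChartBox (1 / (q + 1) - 1 / (p + 1)) (1 / (p + 1) + 1 / (q + 1)))
    (h0 : d₀ ≤ 1 / (q + 1) - 1 / (p + 1)) (h1 : 1 / (q + 1) - 1 / (p + 1) ≤ d₁)
    {z : ℝ} (hz : z ∈ S) (hR : 0 < R z) (hu : 3 / 5 < uOf N (R z) (x z)) :
    ChartSigns (1 / (q + 1) - 1 / (p + 1)) (1 / (p + 1) + 1 / (q + 1)) (uOf N (R z) (x z))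
      (vOf (1 / (p + 1)) (1 / (q + 1)) (y z / x z)) (slopeAt N p q R x y dx dy z) := by
  have hf := chartFacts_orbit hc h hb hz hR
  obtain ⟨b1, b2, b3, e1, e2⟩ := hB N p q S R x y s dx dy hc h hb hcb h0 h1 z hz hR
  rcases le_or_gt (uOf N (R z) (x z)) (B.u₁ (1 / (q + 1) - 1 / (p + 1))) with g | g
  · obtain ⟨p1, p2⟩ := b1 hu.le (g.trans e2)
    exact ht _ _ _ _ _ hcb h0 h1 hu g hf p1 p2 (b2 hu.le g)
  · exact he _ _ _ _ _ hcb h0 h1 g.le hf (b3 g.le) (slopeAt_low hc h hb hz hR)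
      (fun g' => b1 hu.le g')

/-- **The closed signs beyond `u = 3/5` from the regions.** -/
theorem signsHighFive_of {B : HighBands} (hB : OrbitHigh B 0 (1 / 20))
    (tS : SignsTail B 0 (1 / 20)) (eS : SignsEnd B 0 (1 / 20))
    (tM : SignsTail bandsMid (1 / 20) (3 / 25)) (eM : SignsEnd bandsMid (1 / 20) (3 / 25))
    (tT : SignsTail bandsTop (3 / 25) (1 / 5)) (eT : SignsEnd bandsTop (3 / 25) (1 / 5)) :
    SignsHighFive := by
  intro N p q S R x y s dx dy hc h hb hcb z hz hR hu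
  rcases le_total (1 / (q + 1) - 1 / (p + 1)) (1 / 20) with g | g
  · exact signs_piece hB tS eS hc h hb hcb hcb.pos.le g hz hR hu
  rcases le_total (1 / (q + 1) - 1 / (p + 1)) (3 / 25) with g' | g'
  · exact signs_piece orbitHigh_mid tM eM hc h hb hcb g g' hz hR hu
  · exact signs_piece orbitHigh_top tT eT hc h hb hcb g' hcb.diff hz hR hu

end Vale.Agent.P100.Calib.Band
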