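import Vale.Agent.P100.Calib.SlabUpperExpr

/-!
# The chart at the corner `u = 1`, `d = 0`

In the variables `(e, v, ρ, S)` with `u = 1 - e`, `d = ρ e`, and at a band `n / (e g)`, the numerators
`lieE`, `lieA`, `dv` carry the factors `e ^ 2`, `e`, `e`, which are taken out.
-/

namespace Vale.Agent.P100.Calib.Band

open BoxPos

local instance cornAdd : Add Ex := ⟨Ex.add⟩
local instance cornSub : Sub Ex := ⟨Ex.sub⟩
local instance cornMul : Mul Ex := ⟨Ex.mul⟩

/-- `u`. -/
def cU : Ex := eC 1 - .x₀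

/-- `d`. -/
def cD : Ex := .x₂ * .x₀

/-- `B`. -/
def cB : Ex := eC 1 2 * (eS + cD) * (eC 2 - eS)

/-- `al`. -/
def cA : Ex := eC 1 2 * (eS - cD)

/-- `Q / e`. -/
def cQ : Ex := eC 2 * .x₂ + .x₂ * cD * eV - eS * .x₂ * eV + eC 2 * eS * (eC 1 + cD * eV)

/-- `K G`. -/
def cK (n g : Ex) : Ex := eS * (eC 1 + (eC 1 - cA) * eV) * (.x₀ * g) + cB * cU * n

/-- `D G / e`. -/
def cDen (n g : Ex) : Ex := cB * (eC 2 + cD * eV) * g - .x₂ * cU * cK n g

/-- `lieE / e ^ 2`. -/
def cLieE (n g : Ex) : Ex :=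
  (cB * g - cU * .x₂ * cK n g) * cQ - eC 2 * eS * (eC 1 2 * (eS + cD)) * cDen n g

/-- `dv / e`. -/
def cDvH (n g : Ex) : Ex :=
  (eC 1 + cD * eV) * (cQ * cK n g - eC 2 * eS * (eC 1 - cA * eV) * cDen n g)

/-- `lieA / e`. -/
def cLieA (n g : Ex) : Ex :=
  let c := eC 1 + (eC 1 - cA) * eV
  let K := cK n g
  let D := cDen n g
  let be := eC 1 2 * (eS + cD)
  eC (-2) * cB * cB * cB * (eC 2 + cD * eV) * n * g +
    cB * (eC 4 * eS * (eC 1 + cD * eV) - eC 2 * eS * c * cD) * K * g -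
    cD * K * (eC 2 * eS * c * D - eC 2 * cQ * K) - eC 2 * eS * be * .x₂ * K * K -
    eC 2 * eS * be * K * D -
    eS * (eC 1 - cA) * (eC 1 + cD * eV) * g * .x₀ *
      (cQ * K - eC 2 * eS * (eC 1 - cA * eV) * D)

/-- The condition of the tilted upper rung, divided by `e ^ 2`; `g` is the denominator over `e`. -/
def cUpCond (N g M b : Ex) (i j : ℕ) : Ex :=
  let n := N + b * eV * (.x₀ * g)
  .x₀ * cB * b * cU * (g * g) * cDvH n g + cB * cU * M * cLieE n g -
    g * (cLieA n g - n * cB * .x₀ * cLieE n g) -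
    eC i 1000 * (g * g * cLieE n g) - eC j 1000 * (g * g * cDvH n g)

theorem val_addK (a b : Ex) (u v d S : ℝ) :
    (a + b).val u v d S = a.val u v d S + b.val u v d S := rfl

theorem val_subK (a b : Ex) (u v d S : ℝ) :
    (a - b).val u v d S = a.val u v d S - b.val u v d S := rfl

theorem val_mulK (a b : Ex) (u v d S : ℝ) :
    (a * b).val u v d S = a.val u v d S * b.val u v d S := rfl

variable (e v ρ S : ℝ)

theorem val_corn_parts :
    cB.val e v ρ S = bandB S (ρ * e) ∧ cA.val e v ρ S = (S - ρ * e) / 2 ∧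
      e * cQ.val e v ρ S = bandQ S (ρ * e) (1 - e) v := by
  refine ⟨?_, ?_, ?_⟩
  · simp only [cB, cD, val_addK, val_subK, val_mulK, Ex.val, bandB]
    push_cast
    ring
  · simp only [cA, cD, val_subK, val_mulK, Ex.val]
    push_cast
    ring
  · simp only [cQ, cD, val_addK, val_subK, val_mulK, Ex.val, bandQ]
    push_cast
    ring

theorem val_cLieE (n g : Ex) : e ^ 2 * (cLieE n g).val e v ρ S =
    lieE S (ρ * e) (1 - e) v (n.val e v ρ S) (e * g.val e v ρ S) := by
  obtain ⟨hB, hA, hQ⟩ := val_corn_parts e v ρ S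
  simp only [cLieE, cK, cDen, cU, cD, val_addK, val_subK, val_mulK, Ex.val, hB, hA, lieE, ← hQ]
  push_cast
  ring

theorem val_cDvH (n g : Ex) : e * (cDvH n g).val e v ρ S =
    (1 + ρ * e * v) * (bandQ S (ρ * e) (1 - e) v *
      (S * (1 + (1 - (S - ρ * e) / 2) * v) * (e * g.val e v ρ S) +
        bandB S (ρ * e) * (1 - e) * n.val e v ρ S) -
      2 * S * (1 - (S - ρ * e) / 2 * v) * (bandB S (ρ * e) * (2 + ρ * e * v) * (e * g.val e v ρ S) -
        ρ * e * (1 - e) * (S * (1 + (1 - (S - ρ * e) / 2) * v) * (e * g.val e v ρ S) +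
          bandB S (ρ * e) * (1 - e) * n.val e v ρ S))) := by
  obtain ⟨hB, hA, hQ⟩ := val_corn_parts e v ρ S
  simp only [cDvH, cK, cDen, cU, cD, val_addK, val_subK, val_mulK, Ex.val, hB, hA, ← hQ]
  push_cast
  ring

theorem val_cLieA (n g : Ex) : e * (cLieA n g).val e v ρ S =
    lieA S (ρ * e) (1 - e) v (n.val e v ρ S) (e * g.val e v ρ S) := by
  obtain ⟨hB, hA, hQ⟩ := val_corn_parts e v ρ S
  simp only [cLieA, cK, cDen, cU, cD, val_addK, val_subK, val_mulK, Ex.val, hB, hA, lieA, ← hQ]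
  push_cast
  ring

/-- The corner condition gives `upperV > 0` where `lieE` and `dv` are positive. -/
theorem upperV_pos_of_corner {N g M b : Ex} {i j : ℕ} {a a' β : ℝ} (hpe : 0 < e)
    (h : 0 < (cUpCond N g M b i j).val e v ρ S) (hg : 0 < g.val e v ρ S)
    (hn : N.val e v ρ S = a * (e * g.val e v ρ S))
    (hm : M.val e v ρ S = a' * (e * g.val e v ρ S) ^ 2) (hβ : b.val e v ρ S = β)
    (he : 0 < lieE S (ρ * e) (1 - e) v (a + β * v) 1)
    (hp : 0 < exitP S (ρ * e) (1 - e) v (a + β * v) 1 0) :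
    0 < upperV S (ρ * e) (1 - e) v (a + β * v) β a' := by
  have hn' : (N + b * eV * (.x₀ * g)).val e v ρ S = (a + β * v) * (e * g.val e v ρ S) := by
    simp only [val_addK, val_mulK, Ex.val, hn, hβ]
    ring
  have kE := val_cLieE e v ρ S (N + b * eV * (.x₀ * g)) g
  have kX := val_cDvH e v ρ S (N + b * eV * (.x₀ * g)) g
  have kA := val_cLieA e v ρ S (N + b * eV * (.x₀ * g)) g
  rw [hn'] at kE kX kA
  obtain ⟨hB, -, -⟩ := val_corn_parts e v ρ S
  simp only [cUpCond, val_subK, val_mulK, val_addK (.x₀ * cB * b * cU * (g * g) * _), hn', hB,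
    hm, hβ] at h
  simp only [cU, val_subK, Ex.val, Int.cast_natCast, Int.cast_one, Nat.cast_one, div_one,
    Nat.cast_ofNat] at h
  set G := g.val e v ρ S
  set E' := (cLieE (N + b * eV * (.x₀ * g)) g).val e v ρ S
  set X' := (cDvH (N + b * eV * (.x₀ * g)) g).val e v ρ S
  set A' := (cLieA (N + b * eV * (.x₀ * g)) g).val e v ρ S
  set H := e * G with hH
  have hHpos : 0 < H := mul_pos hpe hg
  have e1 : e ^ 2 * E' = H * lieE S (ρ * e) (1 - e) v (a + β * v) 1 := by
    rw [kE]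
    simp only [lieE]
    ring
  have e2 : e * X' = H * exitP S (ρ * e) (1 - e) v (a + β * v) 1 0 := by
    rw [kX]
    simp only [exitP, bandK, bandD]
    ring
  have e3 : e * A' - (a + β * v) * H * bandB S (ρ * e) * (e ^ 2 * E') =
      H ^ 2 * lieT S (ρ * e) (1 - e) v (a + β * v) 0 0 := by
    rw [e1, kA]
    simp only [lieA, lieE, lieT, bandK, bandD]
    generalize bandB S (ρ * e) = B
    generalize bandQ S (ρ * e) (1 - e) v = Q
    ring
  have hE : 0 < E' := pos_of_mul_pos_right (e1 ▸ mul_pos hHpos he) (by positivity)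
  have hX : 0 < X' := pos_of_mul_pos_right (e2 ▸ mul_pos hHpos hp) hpe.le
  have h1 := mul_nonneg (show (0 : ℝ) ≤ i / 1000 by positivity) (mul_nonneg (sq_nonneg G) hE.le)
  have h2 := mul_nonneg (show (0 : ℝ) ≤ j / 1000 by positivity) (mul_nonneg (sq_nonneg G) hX.le)
  have key : 0 < e * bandB S (ρ * e) * β * (1 - e) * (G * G) * X' +
      bandB S (ρ * e) * (1 - e) * (a' * H ^ 2) * E' -
      G * (A' - (a + β * v) * H * bandB S (ρ * e) * e * E') := by linarith
  refine pos_of_mul_pos_right (a := H ^ 3) ?_ (pow_nonneg hHpos.le 3)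
  have k2 := mul_pos (pow_pos hpe 2) key
  have t1 := congrArg (fun t => bandB S (ρ * e) * β * (1 - e) * H ^ 2 * t) e2
  have t2 := congrArg (fun t => bandB S (ρ * e) * (1 - e) * a' * H ^ 2 * t) e1
  have t3 := congrArg (fun t => H * t) e3
  simp only [upperV]
  simp only [hH] at t1 t2 t3 k2 ⊢
  linarith

end Vale.Agent.P100.Calib.Band
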