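import Vale.Agent.P100.Calib.SlabEndData

/-!
# Checks of the end strip, piece `0`
-/

set_option linter.defProp false

namespace Vale.Agent.P100.Calib.Closed.End

open BoxPos
open Large (PosBox posBox_of_check)

local instance endChk0A0Add : Add Ex := ⟨Ex.add⟩
local instance endChk0A0Mul : Mul Ex := ⟨Ex.mul⟩
local instance endChk0A0Sub : Sub Ex := ⟨Ex.sub⟩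

def c0_1 : PosBox ⟨⟨0, 1, 1⟩, ⟨3000, 3011, 5000⟩, ⟨5, 8, 100⟩, ⟨0, 1, 1⟩⟩
    (cF p0.kl p0.v (g0.s₀.t) (g0.u₀) (p0.wh g0.s₀.t) g0.p g0.s₀.phi) :=
  posBox_of_check (c := ⟨505, ⟨0, 12, 28, 9⟩⟩) (by decide +kernel)

def c0_2 : PosBox ⟨⟨0, 1, 1⟩, ⟨3000, 3011, 5000⟩, ⟨5, 8, 100⟩, ⟨0, 1, 1⟩⟩
    (cR p0.kl p0.v (g0.s₀.t) (g0.u₀) (p0.wl g0.s₀.t) (p0.wh g0.s₀.t) g0.p) :=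
  posBox_of_check (c := ⟨347, ⟨0, 9, 19, 6⟩⟩) (by decide +kernel)

def c0_3 : PosBox ⟨⟨0, 1, 1⟩, ⟨3000, 3011, 5000⟩, ⟨5, 8, 100⟩, ⟨0, 1, 1⟩⟩
    (cG p0.kl p0.v (g0.s₀.t) (g0.u₀) (p0.wl g0.s₀.t) (p0.wh g0.s₀.t) g0.p (cC (1) 4)) :=
  posBox_of_check (c := ⟨409, ⟨0, 9, 22, 7⟩⟩) (by decide +kernel)

def c0_11 : PosBox ⟨⟨0, 1, 1⟩, ⟨3000, 3011, 5000⟩, ⟨5, 8, 100⟩, ⟨0, 1, 1⟩⟩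
    (cF p0.kl p0.v (g0.s₀.t) (g0.u₁) (p0.wh g0.s₀.t) g0.p g0.s₀.phi) :=
  posBox_of_check (c := ⟨505, ⟨0, 12, 28, 9⟩⟩) (by decide +kernel)

def c0_12 : PosBox ⟨⟨0, 1, 1⟩, ⟨3000, 3011, 5000⟩, ⟨5, 8, 100⟩, ⟨0, 1, 1⟩⟩
    (cR p0.kl p0.v (g0.s₀.t) (g0.u₁) (p0.wl g0.s₀.t) (p0.wh g0.s₀.t) g0.p) :=
  posBox_of_check (c := ⟨347, ⟨0, 9, 19, 6⟩⟩) (by decide +kernel)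

def c0_13 : PosBox ⟨⟨0, 1, 1⟩, ⟨3000, 3011, 5000⟩, ⟨5, 8, 100⟩, ⟨0, 1, 1⟩⟩
    (cG p0.kl p0.v (g0.s₀.t) (g0.u₁) (p0.wl g0.s₀.t) (p0.wh g0.s₀.t) g0.p (cC (1) 4)) :=
  posBox_of_check (c := ⟨409, ⟨0, 9, 22, 7⟩⟩) (by decide +kernel)

def c0_24 : PosBox ⟨⟨0, 1, 1⟩, ⟨3000, 3011, 5000⟩, ⟨5, 8, 100⟩, ⟨0, 1, 1⟩⟩
    (cF p0.kl p0.v (g0.s₁.t) (g0.u₀) (p0.wh g0.s₁.t) g0.p g0.s₁.phi) :=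
  posBox_of_check (c := ⟨696, ⟨0, 12, 34, 15⟩⟩) (by decide +kernel)

def c0_25 : PosBox ⟨⟨0, 1, 1⟩, ⟨3000, 3011, 5000⟩, ⟨5, 8, 100⟩, ⟨0, 1, 1⟩⟩
    (cF p0.kl p0.v (g0.s₁.t) (g0.u₀) (p0.wl g0.s₁.t) g0.p g0.s₁.phi) :=
  posBox_of_check (c := ⟨740, ⟨0, 12, 34, 15⟩⟩) (by decide +kernel)

def c0_26 : PosBox ⟨⟨0, 1, 1⟩, ⟨3000, 3011, 5000⟩, ⟨5, 8, 100⟩, ⟨0, 1, 1⟩⟩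
    (cG p0.kl p0.v (g0.s₁.t) (g0.u₀) (p0.wl g0.s₁.t) (p0.wh g0.s₁.t) g0.p (cC (1) 4)) :=
  posBox_of_check (c := ⟨537, ⟨0, 9, 26, 11⟩⟩) (by decide +kernel)

def c0_34 : PosBox ⟨⟨0, 1, 1⟩, ⟨3000, 3011, 5000⟩, ⟨5, 8, 100⟩, ⟨0, 1, 1⟩⟩
    (cF p0.kl p0.v (g0.s₁.t) (g0.u₁) (p0.wh g0.s₁.t) g0.p g0.s₁.phi) :=
  posBox_of_check (c := ⟨696, ⟨0, 12, 34, 15⟩⟩) (by decide +kernel)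

def c0_35 : PosBox ⟨⟨0, 1, 1⟩, ⟨3000, 3011, 5000⟩, ⟨5, 8, 100⟩, ⟨0, 1, 1⟩⟩
    (cF p0.kl p0.v (g0.s₁.t) (g0.u₁) (p0.wl g0.s₁.t) g0.p g0.s₁.phi) :=
  posBox_of_check (c := ⟨740, ⟨0, 12, 34, 15⟩⟩) (by decide +kernel)

def c0_36 : PosBox ⟨⟨0, 1, 1⟩, ⟨3000, 3011, 5000⟩, ⟨5, 8, 100⟩, ⟨0, 1, 1⟩⟩
    (cG p0.kl p0.v (g0.s₁.t) (g0.u₁) (p0.wl g0.s₁.t) (p0.wh g0.s₁.t) g0.p (cC (1) 4)) :=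
  posBox_of_check (c := ⟨537, ⟨0, 9, 26, 11⟩⟩) (by decide +kernel)

def c0_50 : PosBox ⟨⟨0, 1, 1⟩, ⟨3000, 3011, 5000⟩, ⟨5, 8, 100⟩, ⟨0, 1, 1⟩⟩
    (cF p0.kl p0.v (g0_0.s₀.t) (g0_0.u₀) (p0.wh g0_0.s₀.t) g0_0.p g0_0.s₀.phi) :=
  posBox_of_check (c := ⟨533, ⟨0, 12, 28, 11⟩⟩) (by decide +kernel)

def c0_51 : PosBox ⟨⟨0, 1, 1⟩, ⟨3000, 3011, 5000⟩, ⟨5, 8, 100⟩, ⟨0, 1, 1⟩⟩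
    (cF p0.kl p0.v (g0_0.s₀.t) (g0_0.u₀) (p0.wl g0_0.s₀.t) g0_0.p g0_0.s₀.phi) :=
  posBox_of_check (c := ⟨577, ⟨0, 12, 28, 11⟩⟩) (by decide +kernel)

def c0_52 : PosBox ⟨⟨0, 1, 1⟩, ⟨3000, 3011, 5000⟩, ⟨5, 8, 100⟩, ⟨0, 1, 1⟩⟩
    (cG p0.kl p0.v (g0_0.s₀.t) (g0_0.u₀) (p0.wl g0_0.s₀.t) (p0.wh g0_0.s₀.t) g0_0.p (cC (1) 4)) :=
  posBox_of_check (c := ⟨435, ⟨0, 9, 22, 9⟩⟩) (by decide +kernel)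

def c0_55 : PosBox ⟨⟨0, 1, 1⟩, ⟨3000, 3011, 5000⟩, ⟨5, 8, 100⟩, ⟨0, 1, 1⟩⟩
    (cF p0.kl p0.v (g0_0.s₀.t) (g0_0.u₁) (p0.wh g0_0.s₀.t) g0_0.p g0_0.s₀.phi) :=
  posBox_of_check (c := ⟨533, ⟨0, 12, 28, 11⟩⟩) (by decide +kernel)

def c0_56 : PosBox ⟨⟨0, 1, 1⟩, ⟨3000, 3011, 5000⟩, ⟨5, 8, 100⟩, ⟨0, 1, 1⟩⟩
    (cF p0.kl p0.v (g0_0.s₀.t) (g0_0.u₁) (p0.wl g0_0.s₀.t) g0_0.p g0_0.s₀.phi) :=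
  posBox_of_check (c := ⟨577, ⟨0, 12, 28, 11⟩⟩) (by decide +kernel)

def c0_57 : PosBox ⟨⟨0, 1, 1⟩, ⟨3000, 3011, 5000⟩, ⟨5, 8, 100⟩, ⟨0, 1, 1⟩⟩
    (cG p0.kl p0.v (g0_0.s₀.t) (g0_0.u₁) (p0.wl g0_0.s₀.t) (p0.wh g0_0.s₀.t) g0_0.p (cC (1) 4)) :=
  posBox_of_check (c := ⟨435, ⟨0, 9, 22, 9⟩⟩) (by decide +kernel)

def c0_63 : PosBox ⟨⟨0, 1, 1⟩, ⟨3000, 3011, 5000⟩, ⟨5, 8, 100⟩, ⟨0, 1, 1⟩⟩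
    (cF p0.kl p0.v (g0_0.s₁.t) (g0_0.u₀) (p0.wh g0_0.s₁.t) g0_0.p g0_0.s₁.phi) :=
  posBox_of_check (c := ⟨716, ⟨0, 12, 34, 17⟩⟩) (by decide +kernel)

def c0_64 : PosBox ⟨⟨0, 1, 1⟩, ⟨3000, 3011, 5000⟩, ⟨5, 8, 100⟩, ⟨0, 1, 1⟩⟩
    (cF p0.kl p0.v (g0_0.s₁.t) (g0_0.u₀) (p0.wl g0_0.s₁.t) g0_0.p g0_0.s₁.phi) :=
  posBox_of_check (c := ⟨760, ⟨0, 12, 34, 17⟩⟩) (by decide +kernel)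

def c0_65 : PosBox ⟨⟨0, 1, 1⟩, ⟨3000, 3011, 5000⟩, ⟨5, 8, 100⟩, ⟨0, 1, 1⟩⟩
    (cG p0.kl p0.v (g0_0.s₁.t) (g0_0.u₀) (p0.wl g0_0.s₁.t) (p0.wh g0_0.s₁.t) g0_0.p (cC (1) 4)) :=
  posBox_of_check (c := ⟨557, ⟨0, 9, 26, 13⟩⟩) (by decide +kernel)

def c0_68 : PosBox ⟨⟨0, 1, 1⟩, ⟨3000, 3011, 5000⟩, ⟨5, 8, 100⟩, ⟨0, 1, 1⟩⟩
    (cF p0.kl p0.v (g0_0.s₁.t) (g0_0.u₁) (p0.wh g0_0.s₁.t) g0_0.p g0_0.s₁.phi) :=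
  posBox_of_check (c := ⟨716, ⟨0, 12, 34, 17⟩⟩) (by decide +kernel)

def c0_69 : PosBox ⟨⟨0, 1, 1⟩, ⟨3000, 3011, 5000⟩, ⟨5, 8, 100⟩, ⟨0, 1, 1⟩⟩
    (cF p0.kl p0.v (g0_0.s₁.t) (g0_0.u₁) (p0.wl g0_0.s₁.t) g0_0.p g0_0.s₁.phi) :=
  posBox_of_check (c := ⟨760, ⟨0, 12, 34, 17⟩⟩) (by decide +kernel)

def c0_70 : PosBox ⟨⟨0, 1, 1⟩, ⟨3000, 3011, 5000⟩, ⟨5, 8, 100⟩, ⟨0, 1, 1⟩⟩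
    (cG p0.kl p0.v (g0_0.s₁.t) (g0_0.u₁) (p0.wl g0_0.s₁.t) (p0.wh g0_0.s₁.t) g0_0.p (cC (1) 4)) :=
  posBox_of_check (c := ⟨557, ⟨0, 9, 26, 13⟩⟩) (by decide +kernel)

def c0_79 : PosBox ⟨⟨0, 1, 1⟩, ⟨3000, 3011, 5000⟩, ⟨5, 8, 100⟩, ⟨0, 1, 1⟩⟩
    (cF p0.kl p0.v (g0_1.s₀.t) (g0_1.u₀) (p0.wh g0_1.s₀.t) g0_1.p g0_1.s₀.phi) :=
  posBox_of_check (c := ⟨601, ⟨0, 12, 34, 11⟩⟩) (by decide +kernel)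

def c0_80 : PosBox ⟨⟨0, 1, 1⟩, ⟨3000, 3011, 5000⟩, ⟨5, 8, 100⟩, ⟨0, 1, 1⟩⟩
    (cR p0.kl p0.v (g0_1.s₀.t) (g0_1.u₀) (p0.wl g0_1.s₀.t) (p0.wh g0_1.s₀.t) g0_1.p) :=
  posBox_of_check (c := ⟨383, ⟨0, 9, 21, 7⟩⟩) (by decide +kernel)

def c0_81 : PosBox ⟨⟨0, 1, 1⟩, ⟨3000, 3011, 5000⟩, ⟨5, 8, 100⟩, ⟨0, 1, 1⟩⟩
    (cG p0.kl p0.v (g0_1.s₀.t) (g0_1.u₀) (p0.wl g0_1.s₀.t) (p0.wh g0_1.s₀.t) g0_1.p (cC (1) 4)) :=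
  posBox_of_check (c := ⟨480, ⟨0, 9, 26, 9⟩⟩) (by decide +kernel)

def c0_84 : PosBox ⟨⟨0, 1, 1⟩, ⟨3000, 3011, 5000⟩, ⟨5, 8, 100⟩, ⟨0, 1, 1⟩⟩
    (cF p0.kl p0.v (g0_1.s₀.t) (g0_1.u₁) (p0.wh g0_1.s₀.t) g0_1.p g0_1.s₀.phi) :=
  posBox_of_check (c := ⟨601, ⟨0, 12, 34, 11⟩⟩) (by decide +kernel)

end Vale.Agent.P100.Calib.Closed.End
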