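import Vale.Agent.P100.Calib.SlabEndData

/-!
# Checks of the end strip, piece `0`
-/

set_option linter.defProp false

namespace Vale.Agent.P100.Calib.Closed.End

open BoxPos
open Large (PosBox posBox_of_check)

local instance endChk0A1Add : Add Ex := ⟨Ex.add⟩
local instance endChk0A1Mul : Mul Ex := ⟨Ex.mul⟩
local instance endChk0A1Sub : Sub Ex := ⟨Ex.sub⟩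

def c0_85 : PosBox ⟨⟨0, 1, 1⟩, ⟨3000, 3011, 5000⟩, ⟨5, 8, 100⟩, ⟨0, 1, 1⟩⟩
    (cR p0.kl p0.v (g0_1.s₀.t) (g0_1.u₁) (p0.wl g0_1.s₀.t) (p0.wh g0_1.s₀.t) g0_1.p) :=
  posBox_of_check (c := ⟨383, ⟨0, 9, 21, 7⟩⟩) (by decide +kernel)

def c0_86 : PosBox ⟨⟨0, 1, 1⟩, ⟨3000, 3011, 5000⟩, ⟨5, 8, 100⟩, ⟨0, 1, 1⟩⟩
    (cG p0.kl p0.v (g0_1.s₀.t) (g0_1.u₁) (p0.wl g0_1.s₀.t) (p0.wh g0_1.s₀.t) g0_1.p (cC (1) 4)) :=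
  posBox_of_check (c := ⟨480, ⟨0, 9, 26, 9⟩⟩) (by decide +kernel)

def c0_92 : PosBox ⟨⟨0, 1, 1⟩, ⟨3000, 3011, 5000⟩, ⟨5, 8, 100⟩, ⟨0, 1, 1⟩⟩
    (cF p0.kl p0.v (g0_1.s₁.t) (g0_1.u₀) (p0.wh g0_1.s₁.t) g0_1.p g0_1.s₁.phi) :=
  posBox_of_check (c := ⟨583, ⟨0, 12, 28, 11⟩⟩) (by decide +kernel)

def c0_93 : PosBox ⟨⟨0, 1, 1⟩, ⟨3000, 3011, 5000⟩, ⟨5, 8, 100⟩, ⟨0, 1, 1⟩⟩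
    (cF p0.kl p0.v (g0_1.s₁.t) (g0_1.u₀) (p0.wl g0_1.s₁.t) g0_1.p g0_1.s₁.phi) :=
  posBox_of_check (c := ⟨627, ⟨0, 12, 28, 11⟩⟩) (by decide +kernel)

def c0_94 : PosBox ⟨⟨0, 1, 1⟩, ⟨3000, 3011, 5000⟩, ⟨5, 8, 100⟩, ⟨0, 1, 1⟩⟩
    (cG p0.kl p0.v (g0_1.s₁.t) (g0_1.u₀) (p0.wl g0_1.s₁.t) (p0.wh g0_1.s₁.t) g0_1.p (cC (1) 4)) :=
  posBox_of_check (c := ⟨468, ⟨0, 9, 22, 9⟩⟩) (by decide +kernel)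

def c0_97 : PosBox ⟨⟨0, 1, 1⟩, ⟨3000, 3011, 5000⟩, ⟨5, 8, 100⟩, ⟨0, 1, 1⟩⟩
    (cF p0.kl p0.v (g0_1.s₁.t) (g0_1.u₁) (p0.wh g0_1.s₁.t) g0_1.p g0_1.s₁.phi) :=
  posBox_of_check (c := ⟨583, ⟨0, 12, 28, 11⟩⟩) (by decide +kernel)

def c0_98 : PosBox ⟨⟨0, 1, 1⟩, ⟨3000, 3011, 5000⟩, ⟨5, 8, 100⟩, ⟨0, 1, 1⟩⟩
    (cF p0.kl p0.v (g0_1.s₁.t) (g0_1.u₁) (p0.wl g0_1.s₁.t) g0_1.p g0_1.s₁.phi) :=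
  posBox_of_check (c := ⟨627, ⟨0, 12, 28, 11⟩⟩) (by decide +kernel)

def c0_99 : PosBox ⟨⟨0, 1, 1⟩, ⟨3000, 3011, 5000⟩, ⟨5, 8, 100⟩, ⟨0, 1, 1⟩⟩
    (cG p0.kl p0.v (g0_1.s₁.t) (g0_1.u₁) (p0.wl g0_1.s₁.t) (p0.wh g0_1.s₁.t) g0_1.p (cC (1) 4)) :=
  posBox_of_check (c := ⟨468, ⟨0, 9, 22, 9⟩⟩) (by decide +kernel)

def c0_108 : PosBox ⟨⟨0, 1, 1⟩, ⟨3000, 3011, 5000⟩, ⟨5, 8, 100⟩, ⟨0, 1, 1⟩⟩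
    (cF p0.kl p0.v (g0_2.s₀.t) (g0_2.u₀) (p0.wh g0_2.s₀.t) g0_2.p g0_2.s₀.phi) :=
  posBox_of_check (c := ⟨592, ⟨0, 12, 34, 11⟩⟩) (by decide +kernel)

def c0_109 : PosBox ⟨⟨0, 1, 1⟩, ⟨3000, 3011, 5000⟩, ⟨5, 8, 100⟩, ⟨0, 1, 1⟩⟩
    (cR p0.kl p0.v (g0_2.s₀.t) (g0_2.u₀) (p0.wl g0_2.s₀.t) (p0.wh g0_2.s₀.t) g0_2.p) :=
  posBox_of_check (c := ⟨380, ⟨0, 9, 21, 7⟩⟩) (by decide +kernel)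

def c0_110 : PosBox ⟨⟨0, 1, 1⟩, ⟨3000, 3011, 5000⟩, ⟨5, 8, 100⟩, ⟨0, 1, 1⟩⟩
    (cG p0.kl p0.v (g0_2.s₀.t) (g0_2.u₀) (p0.wl g0_2.s₀.t) (p0.wh g0_2.s₀.t) g0_2.p (cC (1) 4)) :=
  posBox_of_check (c := ⟨474, ⟨0, 9, 26, 9⟩⟩) (by decide +kernel)

def c0_113 : PosBox ⟨⟨0, 1, 1⟩, ⟨3000, 3011, 5000⟩, ⟨5, 8, 100⟩, ⟨0, 1, 1⟩⟩
    (cF p0.kl p0.v (g0_2.s₀.t) (g0_2.u₁) (p0.wh g0_2.s₀.t) g0_2.p g0_2.s₀.phi) :=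
  posBox_of_check (c := ⟨592, ⟨0, 12, 34, 11⟩⟩) (by decide +kernel)

def c0_114 : PosBox ⟨⟨0, 1, 1⟩, ⟨3000, 3011, 5000⟩, ⟨5, 8, 100⟩, ⟨0, 1, 1⟩⟩
    (cR p0.kl p0.v (g0_2.s₀.t) (g0_2.u₁) (p0.wl g0_2.s₀.t) (p0.wh g0_2.s₀.t) g0_2.p) :=
  posBox_of_check (c := ⟨380, ⟨0, 9, 21, 7⟩⟩) (by decide +kernel)

def c0_115 : PosBox ⟨⟨0, 1, 1⟩, ⟨3000, 3011, 5000⟩, ⟨5, 8, 100⟩, ⟨0, 1, 1⟩⟩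
    (cG p0.kl p0.v (g0_2.s₀.t) (g0_2.u₁) (p0.wl g0_2.s₀.t) (p0.wh g0_2.s₀.t) g0_2.p (cC (1) 4)) :=
  posBox_of_check (c := ⟨474, ⟨0, 9, 26, 9⟩⟩) (by decide +kernel)

def c0_121 : PosBox ⟨⟨0, 1, 1⟩, ⟨3000, 3011, 5000⟩, ⟨5, 8, 100⟩, ⟨0, 1, 1⟩⟩
    (cF p0.kl p0.v (g0_2.s₁.t) (g0_2.u₀) (p0.wh g0_2.s₁.t) g0_2.p g0_2.s₁.phi) :=
  posBox_of_check (c := ⟨652, ⟨0, 12, 34, 11⟩⟩) (by decide +kernel)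

def c0_122 : PosBox ⟨⟨0, 1, 1⟩, ⟨3000, 3011, 5000⟩, ⟨5, 8, 100⟩, ⟨0, 1, 1⟩⟩
    (cR p0.kl p0.v (g0_2.s₁.t) (g0_2.u₀) (p0.wl g0_2.s₁.t) (p0.wh g0_2.s₁.t) g0_2.p) :=
  posBox_of_check (c := ⟨400, ⟨0, 9, 21, 7⟩⟩) (by decide +kernel)

def c0_123 : PosBox ⟨⟨0, 1, 1⟩, ⟨3000, 3011, 5000⟩, ⟨5, 8, 100⟩, ⟨0, 1, 1⟩⟩
    (cG p0.kl p0.v (g0_2.s₁.t) (g0_2.u₀) (p0.wl g0_2.s₁.t) (p0.wh g0_2.s₁.t) g0_2.p (cC (1) 4)) :=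
  posBox_of_check (c := ⟨514, ⟨0, 9, 26, 9⟩⟩) (by decide +kernel)

def c0_126 : PosBox ⟨⟨0, 1, 1⟩, ⟨3000, 3011, 5000⟩, ⟨5, 8, 100⟩, ⟨0, 1, 1⟩⟩
    (cF p0.kl p0.v (g0_2.s₁.t) (g0_2.u₁) (p0.wh g0_2.s₁.t) g0_2.p g0_2.s₁.phi) :=
  posBox_of_check (c := ⟨652, ⟨0, 12, 34, 11⟩⟩) (by decide +kernel)

def c0_127 : PosBox ⟨⟨0, 1, 1⟩, ⟨3000, 3011, 5000⟩, ⟨5, 8, 100⟩, ⟨0, 1, 1⟩⟩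
    (cR p0.kl p0.v (g0_2.s₁.t) (g0_2.u₁) (p0.wl g0_2.s₁.t) (p0.wh g0_2.s₁.t) g0_2.p) :=
  posBox_of_check (c := ⟨400, ⟨0, 9, 21, 7⟩⟩) (by decide +kernel)

def c0_128 : PosBox ⟨⟨0, 1, 1⟩, ⟨3000, 3011, 5000⟩, ⟨5, 8, 100⟩, ⟨0, 1, 1⟩⟩
    (cG p0.kl p0.v (g0_2.s₁.t) (g0_2.u₁) (p0.wl g0_2.s₁.t) (p0.wh g0_2.s₁.t) g0_2.p (cC (1) 4)) :=
  posBox_of_check (c := ⟨514, ⟨0, 9, 26, 9⟩⟩) (by decide +kernel)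

def c0_137 : PosBox ⟨⟨0, 1, 1⟩, ⟨3000, 3011, 5000⟩, ⟨5, 8, 100⟩, ⟨0, 1, 1⟩⟩
    (cF p0.kl p0.v (g0_3.s₀.t) (g0_3.u₀) (p0.wh g0_3.s₀.t) g0_3.p g0_3.s₀.phi) :=
  posBox_of_check (c := ⟨602, ⟨0, 12, 34, 11⟩⟩) (by decide +kernel)

def c0_138 : PosBox ⟨⟨0, 1, 1⟩, ⟨3000, 3011, 5000⟩, ⟨5, 8, 100⟩, ⟨0, 1, 1⟩⟩
    (cR p0.kl p0.v (g0_3.s₀.t) (g0_3.u₀) (p0.wl g0_3.s₀.t) (p0.wh g0_3.s₀.t) g0_3.p) :=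
  posBox_of_check (c := ⟨383, ⟨0, 9, 21, 7⟩⟩) (by decide +kernel)

def c0_139 : PosBox ⟨⟨0, 1, 1⟩, ⟨3000, 3011, 5000⟩, ⟨5, 8, 100⟩, ⟨0, 1, 1⟩⟩
    (cG p0.kl p0.v (g0_3.s₀.t) (g0_3.u₀) (p0.wl g0_3.s₀.t) (p0.wh g0_3.s₀.t) g0_3.p (cC (1) 4)) :=
  posBox_of_check (c := ⟨481, ⟨0, 9, 26, 9⟩⟩) (by decide +kernel)

def c0_142 : PosBox ⟨⟨0, 1, 1⟩, ⟨3000, 3011, 5000⟩, ⟨5, 8, 100⟩, ⟨0, 1, 1⟩⟩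
    (cF p0.kl p0.v (g0_3.s₀.t) (g0_3.u₁) (p0.wh g0_3.s₀.t) g0_3.p g0_3.s₀.phi) :=
  posBox_of_check (c := ⟨602, ⟨0, 12, 34, 11⟩⟩) (by decide +kernel)

def c0_143 : PosBox ⟨⟨0, 1, 1⟩, ⟨3000, 3011, 5000⟩, ⟨5, 8, 100⟩, ⟨0, 1, 1⟩⟩
    (cR p0.kl p0.v (g0_3.s₀.t) (g0_3.u₁) (p0.wl g0_3.s₀.t) (p0.wh g0_3.s₀.t) g0_3.p) :=
  posBox_of_check (c := ⟨383, ⟨0, 9, 21, 7⟩⟩) (by decide +kernel)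

def c0_144 : PosBox ⟨⟨0, 1, 1⟩, ⟨3000, 3011, 5000⟩, ⟨5, 8, 100⟩, ⟨0, 1, 1⟩⟩
    (cG p0.kl p0.v (g0_3.s₀.t) (g0_3.u₁) (p0.wl g0_3.s₀.t) (p0.wh g0_3.s₀.t) g0_3.p (cC (1) 4)) :=
  posBox_of_check (c := ⟨481, ⟨0, 9, 26, 9⟩⟩) (by decide +kernel)

def c0_150 : PosBox ⟨⟨0, 1, 1⟩, ⟨3000, 3011, 5000⟩, ⟨5, 8, 100⟩, ⟨0, 1, 1⟩⟩
    (cF p0.kl p0.v (g0_3.s₁.t) (g0_3.u₀) (p0.wh g0_3.s₁.t) g0_3.p g0_3.s₁.phi) :=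
  posBox_of_check (c := ⟨642, ⟨0, 12, 34, 11⟩⟩) (by decide +kernel)

def c0_151 : PosBox ⟨⟨0, 1, 1⟩, ⟨3000, 3011, 5000⟩, ⟨5, 8, 100⟩, ⟨0, 1, 1⟩⟩
    (cR p0.kl p0.v (g0_3.s₁.t) (g0_3.u₀) (p0.wl g0_3.s₁.t) (p0.wh g0_3.s₁.t) g0_3.p) :=
  posBox_of_check (c := ⟨397, ⟨0, 9, 21, 7⟩⟩) (by decide +kernel)

end Vale.Agent.P100.Calib.Closed.End
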