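import Vale.Agent.P100.Calib.SlabEndData

/-!
# Checks of the end strip, piece `0`
-/

set_option linter.defProp false

namespace Vale.Agent.P100.Calib.Closed.End

open BoxPos
open Large (PosBox posBox_of_check)

local instance endChk0A2Add : Add Ex := ⟨Ex.add⟩
local instance endChk0A2Mul : Mul Ex := ⟨Ex.mul⟩
local instance endChk0A2Sub : Sub Ex := ⟨Ex.sub⟩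

def c0_152 : PosBox ⟨⟨0, 1, 1⟩, ⟨3000, 3011, 5000⟩, ⟨5, 8, 100⟩, ⟨0, 1, 1⟩⟩
    (cG p0.kl p0.v (g0_3.s₁.t) (g0_3.u₀) (p0.wl g0_3.s₁.t) (p0.wh g0_3.s₁.t) g0_3.p (cC (1) 4)) :=
  posBox_of_check (c := ⟨507, ⟨0, 9, 26, 9⟩⟩) (by decide +kernel)

def c0_155 : PosBox ⟨⟨0, 1, 1⟩, ⟨3000, 3011, 5000⟩, ⟨5, 8, 100⟩, ⟨0, 1, 1⟩⟩
    (cF p0.kl p0.v (g0_3.s₁.t) (g0_3.u₁) (p0.wh g0_3.s₁.t) g0_3.p g0_3.s₁.phi) :=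
  posBox_of_check (c := ⟨642, ⟨0, 12, 34, 11⟩⟩) (by decide +kernel)

def c0_156 : PosBox ⟨⟨0, 1, 1⟩, ⟨3000, 3011, 5000⟩, ⟨5, 8, 100⟩, ⟨0, 1, 1⟩⟩
    (cR p0.kl p0.v (g0_3.s₁.t) (g0_3.u₁) (p0.wl g0_3.s₁.t) (p0.wh g0_3.s₁.t) g0_3.p) :=
  posBox_of_check (c := ⟨397, ⟨0, 9, 21, 7⟩⟩) (by decide +kernel)

def c0_157 : PosBox ⟨⟨0, 1, 1⟩, ⟨3000, 3011, 5000⟩, ⟨5, 8, 100⟩, ⟨0, 1, 1⟩⟩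
    (cG p0.kl p0.v (g0_3.s₁.t) (g0_3.u₁) (p0.wl g0_3.s₁.t) (p0.wh g0_3.s₁.t) g0_3.p (cC (1) 4)) :=
  posBox_of_check (c := ⟨507, ⟨0, 9, 26, 9⟩⟩) (by decide +kernel)

def c0_166 : PosBox ⟨⟨0, 1, 1⟩, ⟨3000, 3011, 5000⟩, ⟨5, 8, 100⟩, ⟨0, 1, 1⟩⟩
    (cF p0.kl p0.v (g0_4.s₀.t) (g0_4.u₀) (p0.wh g0_4.s₀.t) g0_4.p g0_4.s₀.phi) :=
  posBox_of_check (c := ⟨598, ⟨0, 12, 34, 11⟩⟩) (by decide +kernel)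

def c0_167 : PosBox ⟨⟨0, 1, 1⟩, ⟨3000, 3011, 5000⟩, ⟨5, 8, 100⟩, ⟨0, 1, 1⟩⟩
    (cR p0.kl p0.v (g0_4.s₀.t) (g0_4.u₀) (p0.wl g0_4.s₀.t) (p0.wh g0_4.s₀.t) g0_4.p) :=
  posBox_of_check (c := ⟨383, ⟨0, 9, 21, 7⟩⟩) (by decide +kernel)

def c0_168 : PosBox ⟨⟨0, 1, 1⟩, ⟨3000, 3011, 5000⟩, ⟨5, 8, 100⟩, ⟨0, 1, 1⟩⟩
    (cG p0.kl p0.v (g0_4.s₀.t) (g0_4.u₀) (p0.wl g0_4.s₀.t) (p0.wh g0_4.s₀.t) g0_4.p (cC (1) 4)) :=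
  posBox_of_check (c := ⟨479, ⟨0, 9, 26, 9⟩⟩) (by decide +kernel)

def c0_171 : PosBox ⟨⟨0, 1, 1⟩, ⟨3000, 3011, 5000⟩, ⟨5, 8, 100⟩, ⟨0, 1, 1⟩⟩
    (cF p0.kl p0.v (g0_4.s₀.t) (g0_4.u₁) (p0.wh g0_4.s₀.t) g0_4.p g0_4.s₀.phi) :=
  posBox_of_check (c := ⟨598, ⟨0, 12, 34, 11⟩⟩) (by decide +kernel)

def c0_172 : PosBox ⟨⟨0, 1, 1⟩, ⟨3000, 3011, 5000⟩, ⟨5, 8, 100⟩, ⟨0, 1, 1⟩⟩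
    (cR p0.kl p0.v (g0_4.s₀.t) (g0_4.u₁) (p0.wl g0_4.s₀.t) (p0.wh g0_4.s₀.t) g0_4.p) :=
  posBox_of_check (c := ⟨383, ⟨0, 9, 21, 7⟩⟩) (by decide +kernel)

def c0_173 : PosBox ⟨⟨0, 1, 1⟩, ⟨3000, 3011, 5000⟩, ⟨5, 8, 100⟩, ⟨0, 1, 1⟩⟩
    (cG p0.kl p0.v (g0_4.s₀.t) (g0_4.u₁) (p0.wl g0_4.s₀.t) (p0.wh g0_4.s₀.t) g0_4.p (cC (1) 4)) :=
  posBox_of_check (c := ⟨479, ⟨0, 9, 26, 9⟩⟩) (by decide +kernel)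

def c0_179 : PosBox ⟨⟨0, 1, 1⟩, ⟨3000, 3011, 5000⟩, ⟨5, 8, 100⟩, ⟨0, 1, 1⟩⟩
    (cF p0.kl p0.v (g0_4.s₁.t) (g0_4.u₀) (p0.wh g0_4.s₁.t) g0_4.p g0_4.s₁.phi) :=
  posBox_of_check (c := ⟨654, ⟨0, 12, 34, 11⟩⟩) (by decide +kernel)

def c0_180 : PosBox ⟨⟨0, 1, 1⟩, ⟨3000, 3011, 5000⟩, ⟨5, 8, 100⟩, ⟨0, 1, 1⟩⟩
    (cR p0.kl p0.v (g0_4.s₁.t) (g0_4.u₀) (p0.wl g0_4.s₁.t) (p0.wh g0_4.s₁.t) g0_4.p) :=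
  posBox_of_check (c := ⟨401, ⟨0, 9, 21, 7⟩⟩) (by decide +kernel)

def c0_181 : PosBox ⟨⟨0, 1, 1⟩, ⟨3000, 3011, 5000⟩, ⟨5, 8, 100⟩, ⟨0, 1, 1⟩⟩
    (cG p0.kl p0.v (g0_4.s₁.t) (g0_4.u₀) (p0.wl g0_4.s₁.t) (p0.wh g0_4.s₁.t) g0_4.p (cC (1) 4)) :=
  posBox_of_check (c := ⟨517, ⟨0, 9, 26, 9⟩⟩) (by decide +kernel)

def c0_184 : PosBox ⟨⟨0, 1, 1⟩, ⟨3000, 3011, 5000⟩, ⟨5, 8, 100⟩, ⟨0, 1, 1⟩⟩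
    (cF p0.kl p0.v (g0_4.s₁.t) (g0_4.u₁) (p0.wh g0_4.s₁.t) g0_4.p g0_4.s₁.phi) :=
  posBox_of_check (c := ⟨654, ⟨0, 12, 34, 11⟩⟩) (by decide +kernel)

def c0_185 : PosBox ⟨⟨0, 1, 1⟩, ⟨3000, 3011, 5000⟩, ⟨5, 8, 100⟩, ⟨0, 1, 1⟩⟩
    (cR p0.kl p0.v (g0_4.s₁.t) (g0_4.u₁) (p0.wl g0_4.s₁.t) (p0.wh g0_4.s₁.t) g0_4.p) :=
  posBox_of_check (c := ⟨401, ⟨0, 9, 21, 7⟩⟩) (by decide +kernel)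

def c0_186 : PosBox ⟨⟨0, 1, 1⟩, ⟨3000, 3011, 5000⟩, ⟨5, 8, 100⟩, ⟨0, 1, 1⟩⟩
    (cG p0.kl p0.v (g0_4.s₁.t) (g0_4.u₁) (p0.wl g0_4.s₁.t) (p0.wh g0_4.s₁.t) g0_4.p (cC (1) 4)) :=
  posBox_of_check (c := ⟨517, ⟨0, 9, 26, 9⟩⟩) (by decide +kernel)

def c0_195 : PosBox ⟨⟨0, 1, 1⟩, ⟨3000, 3011, 5000⟩, ⟨5, 8, 100⟩, ⟨0, 1, 1⟩⟩
    (cF p0.kl p0.v (g0_5.s₀.t) (g0_5.u₀) (p0.wh g0_5.s₀.t) g0_5.p g0_5.s₀.phi) :=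
  posBox_of_check (c := ⟨530, ⟨0, 12, 28, 11⟩⟩) (by decide +kernel)

def c0_196 : PosBox ⟨⟨0, 1, 1⟩, ⟨3000, 3011, 5000⟩, ⟨5, 8, 100⟩, ⟨0, 1, 1⟩⟩
    (cR p0.kl p0.v (g0_5.s₀.t) (g0_5.u₀) (p0.wl g0_5.s₀.t) (p0.wh g0_5.s₀.t) g0_5.p) :=
  posBox_of_check (c := ⟨360, ⟨0, 9, 19, 7⟩⟩) (by decide +kernel)

def c0_197 : PosBox ⟨⟨0, 1, 1⟩, ⟨3000, 3011, 5000⟩, ⟨5, 8, 100⟩, ⟨0, 1, 1⟩⟩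
    (cG p0.kl p0.v (g0_5.s₀.t) (g0_5.u₀) (p0.wl g0_5.s₀.t) (p0.wh g0_5.s₀.t) g0_5.p (cC (1) 4)) :=
  posBox_of_check (c := ⟨434, ⟨0, 9, 22, 9⟩⟩) (by decide +kernel)

def c0_200 : PosBox ⟨⟨0, 1, 1⟩, ⟨3000, 3011, 5000⟩, ⟨5, 8, 100⟩, ⟨0, 1, 1⟩⟩
    (cF p0.kl p0.v (g0_5.s₀.t) (g0_5.u₁) (p0.wh g0_5.s₀.t) g0_5.p g0_5.s₀.phi) :=
  posBox_of_check (c := ⟨530, ⟨0, 12, 28, 11⟩⟩) (by decide +kernel)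

def c0_201 : PosBox ⟨⟨0, 1, 1⟩, ⟨3000, 3011, 5000⟩, ⟨5, 8, 100⟩, ⟨0, 1, 1⟩⟩
    (cR p0.kl p0.v (g0_5.s₀.t) (g0_5.u₁) (p0.wl g0_5.s₀.t) (p0.wh g0_5.s₀.t) g0_5.p) :=
  posBox_of_check (c := ⟨360, ⟨0, 9, 19, 7⟩⟩) (by decide +kernel)

def c0_202 : PosBox ⟨⟨0, 1, 1⟩, ⟨3000, 3011, 5000⟩, ⟨5, 8, 100⟩, ⟨0, 1, 1⟩⟩
    (cG p0.kl p0.v (g0_5.s₀.t) (g0_5.u₁) (p0.wl g0_5.s₀.t) (p0.wh g0_5.s₀.t) g0_5.p (cC (1) 4)) :=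
  posBox_of_check (c := ⟨434, ⟨0, 9, 22, 9⟩⟩) (by decide +kernel)

def c0_208 : PosBox ⟨⟨0, 1, 1⟩, ⟨3000, 3011, 5000⟩, ⟨5, 8, 100⟩, ⟨0, 1, 1⟩⟩
    (cF p0.kl p0.v (g0_5.s₁.t) (g0_5.u₀) (p0.wh g0_5.s₁.t) g0_5.p g0_5.s₁.phi) :=
  posBox_of_check (c := ⟨650, ⟨0, 12, 34, 11⟩⟩) (by decide +kernel)

def c0_209 : PosBox ⟨⟨0, 1, 1⟩, ⟨3000, 3011, 5000⟩, ⟨5, 8, 100⟩, ⟨0, 1, 1⟩⟩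
    (cR p0.kl p0.v (g0_5.s₁.t) (g0_5.u₀) (p0.wl g0_5.s₁.t) (p0.wh g0_5.s₁.t) g0_5.p) :=
  posBox_of_check (c := ⟨400, ⟨0, 9, 21, 7⟩⟩) (by decide +kernel)

def c0_210 : PosBox ⟨⟨0, 1, 1⟩, ⟨3000, 3011, 5000⟩, ⟨5, 8, 100⟩, ⟨0, 1, 1⟩⟩
    (cG p0.kl p0.v (g0_5.s₁.t) (g0_5.u₀) (p0.wl g0_5.s₁.t) (p0.wh g0_5.s₁.t) g0_5.p (cC (1) 4)) :=
  posBox_of_check (c := ⟨514, ⟨0, 9, 26, 9⟩⟩) (by decide +kernel)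

def c0_213 : PosBox ⟨⟨0, 1, 1⟩, ⟨3000, 3011, 5000⟩, ⟨5, 8, 100⟩, ⟨0, 1, 1⟩⟩
    (cF p0.kl p0.v (g0_5.s₁.t) (g0_5.u₁) (p0.wh g0_5.s₁.t) g0_5.p g0_5.s₁.phi) :=
  posBox_of_check (c := ⟨650, ⟨0, 12, 34, 11⟩⟩) (by decide +kernel)

def c0_214 : PosBox ⟨⟨0, 1, 1⟩, ⟨3000, 3011, 5000⟩, ⟨5, 8, 100⟩, ⟨0, 1, 1⟩⟩
    (cR p0.kl p0.v (g0_5.s₁.t) (g0_5.u₁) (p0.wl g0_5.s₁.t) (p0.wh g0_5.s₁.t) g0_5.p) :=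
  posBox_of_check (c := ⟨400, ⟨0, 9, 21, 7⟩⟩) (by decide +kernel)

def c0_215 : PosBox ⟨⟨0, 1, 1⟩, ⟨3000, 3011, 5000⟩, ⟨5, 8, 100⟩, ⟨0, 1, 1⟩⟩
    (cG p0.kl p0.v (g0_5.s₁.t) (g0_5.u₁) (p0.wl g0_5.s₁.t) (p0.wh g0_5.s₁.t) g0_5.p (cC (1) 4)) :=
  posBox_of_check (c := ⟨514, ⟨0, 9, 26, 9⟩⟩) (by decide +kernel)

end Vale.Agent.P100.Calib.Closed.End
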