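import Vale.Agent.P100.Calib.SlabEndData

/-!
# Checks of the end strip, piece `0`
-/

set_option linter.defProp false

namespace Vale.Agent.P100.Calib.Closed.End

open BoxPos
open Large (PosBox posBox_of_check)

local instance endChk0B0Add : Add Ex := ⟨Ex.add⟩
local instance endChk0B0Mul : Mul Ex := ⟨Ex.mul⟩
local instance endChk0B0Sub : Sub Ex := ⟨Ex.sub⟩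

def c0_0 : PosBox ⟨⟨0, 1, 1⟩, ⟨3000, 3011, 5000⟩, ⟨5, 8, 100⟩, ⟨0, 1, 1⟩⟩
    ((p0.wh g0.s₀.t) - (p0.wl g0.s₀.t)) :=
  posBox_of_check (c := ⟨172, ⟨0, 3, 5, 1⟩⟩) (by decide +kernel)

def c0_4 : PosBox ⟨⟨0, 1, 1⟩, ⟨3000, 3011, 5000⟩, ⟨5, 8, 100⟩, ⟨0, 1, 1⟩⟩
    (g0.s₀.eta - cEG p0.kl p0.v (g0.s₀.t) (g0.u₀) g0.p) :=
  posBox_of_check (c := ⟨281, ⟨0, 8, 16, 5⟩⟩) (by decide +kernel)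

def c0_5 : PosBox ⟨⟨0, 1, 1⟩, ⟨3000, 3011, 5000⟩, ⟨5, 8, 100⟩, ⟨0, 1, 1⟩⟩
    (g0.s₀.eta' + cEG p0.kl p0.v (g0.s₀.t) (g0.u₀) g0.p - cSag p0.kl p0.v (g0.s₀.t) (g0.u₀) p0.lo g0_0.p) :=
  posBox_of_check (c := ⟨293, ⟨0, 8, 16, 6⟩⟩) (by decide +kernel)

def c0_6 : PosBox ⟨⟨0, 1, 1⟩, ⟨3000, 3011, 5000⟩, ⟨5, 8, 100⟩, ⟨0, 1, 1⟩⟩
    (g0.s₀.eta' + cEG p0.kl p0.v (g0.s₀.t) (g0.u₀) g0.p - cSag p0.kl p0.v (g0.s₀.t) (g0.u₀) p0.lo g0_1.p) :=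
  posBox_of_check (c := ⟨294, ⟨0, 8, 16, 6⟩⟩) (by decide +kernel)

def c0_7 : PosBox ⟨⟨0, 1, 1⟩, ⟨3000, 3011, 5000⟩, ⟨5, 8, 100⟩, ⟨0, 1, 1⟩⟩
    (g0.s₀.eta' + cEG p0.kl p0.v (g0.s₀.t) (g0.u₀) g0.p - cSag p0.kl p0.v (g0.s₀.t) (g0.u₀) p0.lo g0_2.p) :=
  posBox_of_check (c := ⟨295, ⟨0, 8, 16, 6⟩⟩) (by decide +kernel)

def c0_8 : PosBox ⟨⟨0, 1, 1⟩, ⟨3000, 3011, 5000⟩, ⟨5, 8, 100⟩, ⟨0, 1, 1⟩⟩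
    (g0.s₀.eta' + cEG p0.kl p0.v (g0.s₀.t) (g0.u₀) g0.p - cSag p0.kl p0.v (g0.s₀.t) (g0.u₀) p0.lo g0_3.p) :=
  posBox_of_check (c := ⟨295, ⟨0, 8, 16, 6⟩⟩) (by decide +kernel)

def c0_9 : PosBox ⟨⟨0, 1, 1⟩, ⟨3000, 3011, 5000⟩, ⟨5, 8, 100⟩, ⟨0, 1, 1⟩⟩
    (g0.s₀.eta' + cEG p0.kl p0.v (g0.s₀.t) (g0.u₀) g0.p - cSag p0.kl p0.v (g0.s₀.t) (g0.u₀) p0.lo g0_4.p) :=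
  posBox_of_check (c := ⟨295, ⟨0, 8, 16, 6⟩⟩) (by decide +kernel)

def c0_10 : PosBox ⟨⟨0, 1, 1⟩, ⟨3000, 3011, 5000⟩, ⟨5, 8, 100⟩, ⟨0, 1, 1⟩⟩
    (g0.s₀.eta' + cEG p0.kl p0.v (g0.s₀.t) (g0.u₀) g0.p - cSag p0.kl p0.v (g0.s₀.t) (g0.u₀) p0.lo g0_5.p) :=
  posBox_of_check (c := ⟨297, ⟨0, 8, 16, 6⟩⟩) (by decide +kernel)

def c0_14 : PosBox ⟨⟨0, 1, 1⟩, ⟨3000, 3011, 5000⟩, ⟨5, 8, 100⟩, ⟨0, 1, 1⟩⟩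
    (g0.s₀.eta - cEG p0.kl p0.v (g0.s₀.t) (g0.u₁) g0.p) :=
  posBox_of_check (c := ⟨281, ⟨0, 8, 16, 5⟩⟩) (by decide +kernel)

def c0_15 : PosBox ⟨⟨0, 1, 1⟩, ⟨3000, 3011, 5000⟩, ⟨5, 8, 100⟩, ⟨0, 1, 1⟩⟩
    (g0.s₀.eta' + cEG p0.kl p0.v (g0.s₀.t) (g0.u₁) g0.p - cSag p0.kl p0.v (g0.s₀.t) (g0.u₁) p0.lo g0_0.p) :=
  posBox_of_check (c := ⟨293, ⟨0, 8, 16, 6⟩⟩) (by decide +kernel)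

def c0_16 : PosBox ⟨⟨0, 1, 1⟩, ⟨3000, 3011, 5000⟩, ⟨5, 8, 100⟩, ⟨0, 1, 1⟩⟩
    (g0.s₀.eta' + cEG p0.kl p0.v (g0.s₀.t) (g0.u₁) g0.p - cSag p0.kl p0.v (g0.s₀.t) (g0.u₁) p0.lo g0_1.p) :=
  posBox_of_check (c := ⟨294, ⟨0, 8, 16, 6⟩⟩) (by decide +kernel)

def c0_17 : PosBox ⟨⟨0, 1, 1⟩, ⟨3000, 3011, 5000⟩, ⟨5, 8, 100⟩, ⟨0, 1, 1⟩⟩
    (g0.s₀.eta' + cEG p0.kl p0.v (g0.s₀.t) (g0.u₁) g0.p - cSag p0.kl p0.v (g0.s₀.t) (g0.u₁) p0.lo g0_2.p) :=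
  posBox_of_check (c := ⟨295, ⟨0, 8, 16, 6⟩⟩) (by decide +kernel)

def c0_18 : PosBox ⟨⟨0, 1, 1⟩, ⟨3000, 3011, 5000⟩, ⟨5, 8, 100⟩, ⟨0, 1, 1⟩⟩
    (g0.s₀.eta' + cEG p0.kl p0.v (g0.s₀.t) (g0.u₁) g0.p - cSag p0.kl p0.v (g0.s₀.t) (g0.u₁) p0.lo g0_3.p) :=
  posBox_of_check (c := ⟨295, ⟨0, 8, 16, 6⟩⟩) (by decide +kernel)

def c0_19 : PosBox ⟨⟨0, 1, 1⟩, ⟨3000, 3011, 5000⟩, ⟨5, 8, 100⟩, ⟨0, 1, 1⟩⟩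
    (g0.s₀.eta' + cEG p0.kl p0.v (g0.s₀.t) (g0.u₁) g0.p - cSag p0.kl p0.v (g0.s₀.t) (g0.u₁) p0.lo g0_4.p) :=
  posBox_of_check (c := ⟨295, ⟨0, 8, 16, 6⟩⟩) (by decide +kernel)

def c0_20 : PosBox ⟨⟨0, 1, 1⟩, ⟨3000, 3011, 5000⟩, ⟨5, 8, 100⟩, ⟨0, 1, 1⟩⟩
    (g0.s₀.eta' + cEG p0.kl p0.v (g0.s₀.t) (g0.u₁) g0.p - cSag p0.kl p0.v (g0.s₀.t) (g0.u₁) p0.lo g0_5.p) :=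
  posBox_of_check (c := ⟨297, ⟨0, 8, 16, 6⟩⟩) (by decide +kernel)

def c0_21 : PosBox ⟨⟨0, 1, 1⟩, ⟨3000, 3011, 5000⟩, ⟨5, 8, 100⟩, ⟨0, 1, 1⟩⟩
    (cC (4) 1 * g0.beta * g0.s₀.phi - cC (625) 1 * (cC (1) 1 + Ex.x₂ * p0.v) * g0.s₀.eta * g0.s₀.eta) :=
  posBox_of_check (c := ⟨156, ⟨0, 0, 6, 5⟩⟩) (by decide +kernel)

def c0_22 : PosBox ⟨⟨0, 1, 1⟩, ⟨3000, 3011, 5000⟩, ⟨5, 8, 100⟩, ⟨0, 1, 1⟩⟩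
    (cC (4) 1 * g0.beta * g0.s₀.phi - cC (625) 1 * (cC (1) 1 + Ex.x₂ * p0.v) * g0.s₀.eta' * g0.s₀.eta') :=
  posBox_of_check (c := ⟨152, ⟨0, 0, 6, 5⟩⟩) (by decide +kernel)

def c0_23 : PosBox ⟨⟨0, 1, 1⟩, ⟨3000, 3011, 5000⟩, ⟨5, 8, 100⟩, ⟨0, 1, 1⟩⟩
    ((p0.wh g0.s₁.t) - (p0.wl g0.s₁.t)) :=
  posBox_of_check (c := ⟨236, ⟨0, 3, 7, 3⟩⟩) (by decide +kernel)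

def c0_27 : PosBox ⟨⟨0, 1, 1⟩, ⟨3000, 3011, 5000⟩, ⟨5, 8, 100⟩, ⟨0, 1, 1⟩⟩
    (g0.s₁.eta - cEG p0.kl p0.v (g0.s₁.t) (g0.u₀) g0.p) :=
  posBox_of_check (c := ⟨345, ⟨0, 8, 18, 7⟩⟩) (by decide +kernel)

def c0_28 : PosBox ⟨⟨0, 1, 1⟩, ⟨3000, 3011, 5000⟩, ⟨5, 8, 100⟩, ⟨0, 1, 1⟩⟩
    (g0.s₁.eta' + cEG p0.kl p0.v (g0.s₁.t) (g0.u₀) g0.p - cSag p0.kl p0.v (g0.s₁.t) (g0.u₀) p0.lo g0_0.p) :=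
  posBox_of_check (c := ⟨357, ⟨0, 8, 18, 8⟩⟩) (by decide +kernel)

def c0_29 : PosBox ⟨⟨0, 1, 1⟩, ⟨3000, 3011, 5000⟩, ⟨5, 8, 100⟩, ⟨0, 1, 1⟩⟩
    (g0.s₁.eta' + cEG p0.kl p0.v (g0.s₁.t) (g0.u₀) g0.p - cSag p0.kl p0.v (g0.s₁.t) (g0.u₀) p0.lo g0_1.p) :=
  posBox_of_check (c := ⟨358, ⟨0, 8, 18, 8⟩⟩) (by decide +kernel)

def c0_30 : PosBox ⟨⟨0, 1, 1⟩, ⟨3000, 3011, 5000⟩, ⟨5, 8, 100⟩, ⟨0, 1, 1⟩⟩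
    (g0.s₁.eta' + cEG p0.kl p0.v (g0.s₁.t) (g0.u₀) g0.p - cSag p0.kl p0.v (g0.s₁.t) (g0.u₀) p0.lo g0_2.p) :=
  posBox_of_check (c := ⟨359, ⟨0, 8, 18, 8⟩⟩) (by decide +kernel)

def c0_31 : PosBox ⟨⟨0, 1, 1⟩, ⟨3000, 3011, 5000⟩, ⟨5, 8, 100⟩, ⟨0, 1, 1⟩⟩
    (g0.s₁.eta' + cEG p0.kl p0.v (g0.s₁.t) (g0.u₀) g0.p - cSag p0.kl p0.v (g0.s₁.t) (g0.u₀) p0.lo g0_3.p) :=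
  posBox_of_check (c := ⟨359, ⟨0, 8, 18, 8⟩⟩) (by decide +kernel)

def c0_32 : PosBox ⟨⟨0, 1, 1⟩, ⟨3000, 3011, 5000⟩, ⟨5, 8, 100⟩, ⟨0, 1, 1⟩⟩
    (g0.s₁.eta' + cEG p0.kl p0.v (g0.s₁.t) (g0.u₀) g0.p - cSag p0.kl p0.v (g0.s₁.t) (g0.u₀) p0.lo g0_4.p) :=
  posBox_of_check (c := ⟨359, ⟨0, 8, 18, 8⟩⟩) (by decide +kernel)

def c0_33 : PosBox ⟨⟨0, 1, 1⟩, ⟨3000, 3011, 5000⟩, ⟨5, 8, 100⟩, ⟨0, 1, 1⟩⟩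
    (g0.s₁.eta' + cEG p0.kl p0.v (g0.s₁.t) (g0.u₀) g0.p - cSag p0.kl p0.v (g0.s₁.t) (g0.u₀) p0.lo g0_5.p) :=
  posBox_of_check (c := ⟨361, ⟨0, 8, 18, 8⟩⟩) (by decide +kernel)

def c0_37 : PosBox ⟨⟨0, 1, 1⟩, ⟨3000, 3011, 5000⟩, ⟨5, 8, 100⟩, ⟨0, 1, 1⟩⟩
    (g0.s₁.eta - cEG p0.kl p0.v (g0.s₁.t) (g0.u₁) g0.p) :=
  posBox_of_check (c := ⟨345, ⟨0, 8, 18, 7⟩⟩) (by decide +kernel)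

def c0_38 : PosBox ⟨⟨0, 1, 1⟩, ⟨3000, 3011, 5000⟩, ⟨5, 8, 100⟩, ⟨0, 1, 1⟩⟩
    (g0.s₁.eta' + cEG p0.kl p0.v (g0.s₁.t) (g0.u₁) g0.p - cSag p0.kl p0.v (g0.s₁.t) (g0.u₁) p0.lo g0_0.p) :=
  posBox_of_check (c := ⟨357, ⟨0, 8, 18, 8⟩⟩) (by decide +kernel)

def c0_39 : PosBox ⟨⟨0, 1, 1⟩, ⟨3000, 3011, 5000⟩, ⟨5, 8, 100⟩, ⟨0, 1, 1⟩⟩
    (g0.s₁.eta' + cEG p0.kl p0.v (g0.s₁.t) (g0.u₁) g0.p - cSag p0.kl p0.v (g0.s₁.t) (g0.u₁) p0.lo g0_1.p) :=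
  posBox_of_check (c := ⟨358, ⟨0, 8, 18, 8⟩⟩) (by decide +kernel)

def c0_40 : PosBox ⟨⟨0, 1, 1⟩, ⟨3000, 3011, 5000⟩, ⟨5, 8, 100⟩, ⟨0, 1, 1⟩⟩
    (g0.s₁.eta' + cEG p0.kl p0.v (g0.s₁.t) (g0.u₁) g0.p - cSag p0.kl p0.v (g0.s₁.t) (g0.u₁) p0.lo g0_2.p) :=
  posBox_of_check (c := ⟨359, ⟨0, 8, 18, 8⟩⟩) (by decide +kernel)

def c0_41 : PosBox ⟨⟨0, 1, 1⟩, ⟨3000, 3011, 5000⟩, ⟨5, 8, 100⟩, ⟨0, 1, 1⟩⟩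
    (g0.s₁.eta' + cEG p0.kl p0.v (g0.s₁.t) (g0.u₁) g0.p - cSag p0.kl p0.v (g0.s₁.t) (g0.u₁) p0.lo g0_3.p) :=
  posBox_of_check (c := ⟨359, ⟨0, 8, 18, 8⟩⟩) (by decide +kernel)

def c0_42 : PosBox ⟨⟨0, 1, 1⟩, ⟨3000, 3011, 5000⟩, ⟨5, 8, 100⟩, ⟨0, 1, 1⟩⟩
    (g0.s₁.eta' + cEG p0.kl p0.v (g0.s₁.t) (g0.u₁) g0.p - cSag p0.kl p0.v (g0.s₁.t) (g0.u₁) p0.lo g0_4.p) :=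
  posBox_of_check (c := ⟨359, ⟨0, 8, 18, 8⟩⟩) (by decide +kernel)

def c0_43 : PosBox ⟨⟨0, 1, 1⟩, ⟨3000, 3011, 5000⟩, ⟨5, 8, 100⟩, ⟨0, 1, 1⟩⟩
    (g0.s₁.eta' + cEG p0.kl p0.v (g0.s₁.t) (g0.u₁) g0.p - cSag p0.kl p0.v (g0.s₁.t) (g0.u₁) p0.lo g0_5.p) :=
  posBox_of_check (c := ⟨361, ⟨0, 8, 18, 8⟩⟩) (by decide +kernel)

def c0_44 : PosBox ⟨⟨0, 1, 1⟩, ⟨3000, 3011, 5000⟩, ⟨5, 8, 100⟩, ⟨0, 1, 1⟩⟩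
    (cC (4) 1 * g0.beta * g0.s₁.phi - cC (625) 1 * (cC (1) 1 + Ex.x₂ * p0.v) * g0.s₁.eta * g0.s₁.eta) :=
  posBox_of_check (c := ⟨188, ⟨0, 0, 7, 7⟩⟩) (by decide +kernel)

def c0_45 : PosBox ⟨⟨0, 1, 1⟩, ⟨3000, 3011, 5000⟩, ⟨5, 8, 100⟩, ⟨0, 1, 1⟩⟩
    (cC (4) 1 * g0.beta * g0.s₁.phi - cC (625) 1 * (cC (1) 1 + Ex.x₂ * p0.v) * g0.s₁.eta' * g0.s₁.eta') :=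
  posBox_of_check (c := ⟨188, ⟨0, 0, 7, 7⟩⟩) (by decide +kernel)

def c0_46 : PosBox ⟨⟨0, 1, 1⟩, ⟨3000, 3011, 5000⟩, ⟨5, 8, 100⟩, ⟨0, 1, 1⟩⟩
    (g0.beta) :=
  posBox_of_check (c := ⟨80, ⟨0, 0, 3, 3⟩⟩) (by decide +kernel)

def c0_47 : PosBox ⟨⟨0, 1, 1⟩, ⟨3000, 3011, 5000⟩, ⟨5, 8, 100⟩, ⟨0, 1, 1⟩⟩
    (eTGG cA Ex.x₂ p0.v g0.p - g0.beta) :=
  posBox_of_check (c := ⟨276, ⟨0, 7, 17, 6⟩⟩) (by decide +kernel)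

def c0_48 : PosBox ⟨⟨0, 1, 1⟩, ⟨3000, 3011, 5000⟩, ⟨5, 8, 100⟩, ⟨0, 1, 1⟩⟩
    (g0.p + cC (1) 4) :=
  posBox_of_check (c := ⟨57, ⟨0, 1, 3, 1⟩⟩) (by decide +kernel)

def c0_49 : PosBox ⟨⟨0, 1, 1⟩, ⟨3000, 3011, 5000⟩, ⟨5, 8, 100⟩, ⟨0, 1, 1⟩⟩
    ((p0.wh g0_0.s₀.t) - (p0.wl g0_0.s₀.t)) :=
  posBox_of_check (c := ⟨175, ⟨0, 3, 5, 1⟩⟩) (by decide +kernel)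

def c0_53 : PosBox ⟨⟨0, 1, 1⟩, ⟨3000, 3011, 5000⟩, ⟨5, 8, 100⟩, ⟨0, 1, 1⟩⟩
    (g0_0.s₀.eta - cEG p0.kl p0.v (g0_0.s₀.t) (g0_0.u₀) g0_0.p) :=
  posBox_of_check (c := ⟨294, ⟨0, 8, 16, 6⟩⟩) (by decide +kernel)

def c0_54 : PosBox ⟨⟨0, 1, 1⟩, ⟨3000, 3011, 5000⟩, ⟨5, 8, 100⟩, ⟨0, 1, 1⟩⟩
    (g0_0.s₀.eta' + cEG p0.kl p0.v (g0_0.s₀.t) (g0_0.u₀) g0_0.p - cSag p0.kl p0.v (g0_0.s₀.t) (g0_0.u₀) p0.lo g0_0.p) :=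
  posBox_of_check (c := ⟨297, ⟨0, 8, 16, 6⟩⟩) (by decide +kernel)

def c0_58 : PosBox ⟨⟨0, 1, 1⟩, ⟨3000, 3011, 5000⟩, ⟨5, 8, 100⟩, ⟨0, 1, 1⟩⟩
    (g0_0.s₀.eta - cEG p0.kl p0.v (g0_0.s₀.t) (g0_0.u₁) g0_0.p) :=
  posBox_of_check (c := ⟨294, ⟨0, 8, 16, 6⟩⟩) (by decide +kernel)

def c0_59 : PosBox ⟨⟨0, 1, 1⟩, ⟨3000, 3011, 5000⟩, ⟨5, 8, 100⟩, ⟨0, 1, 1⟩⟩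
    (g0_0.s₀.eta' + cEG p0.kl p0.v (g0_0.s₀.t) (g0_0.u₁) g0_0.p - cSag p0.kl p0.v (g0_0.s₀.t) (g0_0.u₁) p0.lo g0_0.p) :=
  posBox_of_check (c := ⟨297, ⟨0, 8, 16, 6⟩⟩) (by decide +kernel)

def c0_60 : PosBox ⟨⟨0, 1, 1⟩, ⟨3000, 3011, 5000⟩, ⟨5, 8, 100⟩, ⟨0, 1, 1⟩⟩
    (cC (4) 1 * g0_0.beta * g0_0.s₀.phi - cC (625) 1 * (cC (1) 1 + Ex.x₂ * p0.v) * g0_0.s₀.eta * g0_0.s₀.eta) :=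
  posBox_of_check (c := ⟨155, ⟨0, 0, 6, 5⟩⟩) (by decide +kernel)

def c0_61 : PosBox ⟨⟨0, 1, 1⟩, ⟨3000, 3011, 5000⟩, ⟨5, 8, 100⟩, ⟨0, 1, 1⟩⟩
    (cC (4) 1 * g0_0.beta * g0_0.s₀.phi - cC (625) 1 * (cC (1) 1 + Ex.x₂ * p0.v) * g0_0.s₀.eta' * g0_0.s₀.eta') :=
  posBox_of_check (c := ⟨157, ⟨0, 0, 6, 5⟩⟩) (by decide +kernel)

def c0_62 : PosBox ⟨⟨0, 1, 1⟩, ⟨3000, 3011, 5000⟩, ⟨5, 8, 100⟩, ⟨0, 1, 1⟩⟩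
    ((p0.wh g0_0.s₁.t) - (p0.wl g0_0.s₁.t)) :=
  posBox_of_check (c := ⟨236, ⟨0, 3, 7, 3⟩⟩) (by decide +kernel)

def c0_66 : PosBox ⟨⟨0, 1, 1⟩, ⟨3000, 3011, 5000⟩, ⟨5, 8, 100⟩, ⟨0, 1, 1⟩⟩
    (g0_0.s₁.eta - cEG p0.kl p0.v (g0_0.s₁.t) (g0_0.u₀) g0_0.p) :=
  posBox_of_check (c := ⟨355, ⟨0, 8, 18, 8⟩⟩) (by decide +kernel)

def c0_67 : PosBox ⟨⟨0, 1, 1⟩, ⟨3000, 3011, 5000⟩, ⟨5, 8, 100⟩, ⟨0, 1, 1⟩⟩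
    (g0_0.s₁.eta' + cEG p0.kl p0.v (g0_0.s₁.t) (g0_0.u₀) g0_0.p - cSag p0.kl p0.v (g0_0.s₁.t) (g0_0.u₀) p0.lo g0_0.p) :=
  posBox_of_check (c := ⟨358, ⟨0, 8, 18, 8⟩⟩) (by decide +kernel)

def c0_71 : PosBox ⟨⟨0, 1, 1⟩, ⟨3000, 3011, 5000⟩, ⟨5, 8, 100⟩, ⟨0, 1, 1⟩⟩
    (g0_0.s₁.eta - cEG p0.kl p0.v (g0_0.s₁.t) (g0_0.u₁) g0_0.p) :=
  posBox_of_check (c := ⟨355, ⟨0, 8, 18, 8⟩⟩) (by decide +kernel)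

def c0_72 : PosBox ⟨⟨0, 1, 1⟩, ⟨3000, 3011, 5000⟩, ⟨5, 8, 100⟩, ⟨0, 1, 1⟩⟩
    (g0_0.s₁.eta' + cEG p0.kl p0.v (g0_0.s₁.t) (g0_0.u₁) g0_0.p - cSag p0.kl p0.v (g0_0.s₁.t) (g0_0.u₁) p0.lo g0_0.p) :=
  posBox_of_check (c := ⟨358, ⟨0, 8, 18, 8⟩⟩) (by decide +kernel)

def c0_73 : PosBox ⟨⟨0, 1, 1⟩, ⟨3000, 3011, 5000⟩, ⟨5, 8, 100⟩, ⟨0, 1, 1⟩⟩
    (cC (4) 1 * g0_0.beta * g0_0.s₁.phi - cC (625) 1 * (cC (1) 1 + Ex.x₂ * p0.v) * g0_0.s₁.eta * g0_0.s₁.eta) :=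
  posBox_of_check (c := ⟨153, ⟨0, 0, 6, 5⟩⟩) (by decide +kernel)

def c0_74 : PosBox ⟨⟨0, 1, 1⟩, ⟨3000, 3011, 5000⟩, ⟨5, 8, 100⟩, ⟨0, 1, 1⟩⟩
    (cC (4) 1 * g0_0.beta * g0_0.s₁.phi - cC (625) 1 * (cC (1) 1 + Ex.x₂ * p0.v) * g0_0.s₁.eta' * g0_0.s₁.eta') :=
  posBox_of_check (c := ⟨154, ⟨0, 0, 6, 5⟩⟩) (by decide +kernel)

def c0_75 : PosBox ⟨⟨0, 1, 1⟩, ⟨3000, 3011, 5000⟩, ⟨5, 8, 100⟩, ⟨0, 1, 1⟩⟩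
    (g0_0.beta) :=
  posBox_of_check (c := ⟨82, ⟨0, 0, 3, 3⟩⟩) (by decide +kernel)

def c0_76 : PosBox ⟨⟨0, 1, 1⟩, ⟨3000, 3011, 5000⟩, ⟨5, 8, 100⟩, ⟨0, 1, 1⟩⟩
    (eTGG cA Ex.x₂ p0.v g0_0.p - g0_0.beta) :=
  posBox_of_check (c := ⟨294, ⟨0, 7, 17, 7⟩⟩) (by decide +kernel)

def c0_77 : PosBox ⟨⟨0, 1, 1⟩, ⟨3000, 3011, 5000⟩, ⟨5, 8, 100⟩, ⟨0, 1, 1⟩⟩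
    (g0_0.p + cC (1) 4) :=
  posBox_of_check (c := ⟨127, ⟨0, 1, 3, 2⟩⟩) (by decide +kernel)

def c0_78 : PosBox ⟨⟨0, 1, 1⟩, ⟨3000, 3011, 5000⟩, ⟨5, 8, 100⟩, ⟨0, 1, 1⟩⟩
    ((p0.wh g0_1.s₀.t) - (p0.wl g0_1.s₀.t)) :=
  posBox_of_check (c := ⟨197, ⟨0, 3, 7, 1⟩⟩) (by decide +kernel)

def c0_82 : PosBox ⟨⟨0, 1, 1⟩, ⟨3000, 3011, 5000⟩, ⟨5, 8, 100⟩, ⟨0, 1, 1⟩⟩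
    (g0_1.s₀.eta - cEG p0.kl p0.v (g0_1.s₀.t) (g0_1.u₀) g0_1.p) :=
  posBox_of_check (c := ⟨317, ⟨0, 8, 18, 6⟩⟩) (by decide +kernel)

def c0_83 : PosBox ⟨⟨0, 1, 1⟩, ⟨3000, 3011, 5000⟩, ⟨5, 8, 100⟩, ⟨0, 1, 1⟩⟩
    (g0_1.s₀.eta' + cEG p0.kl p0.v (g0_1.s₀.t) (g0_1.u₀) g0_1.p - cSag p0.kl p0.v (g0_1.s₀.t) (g0_1.u₀) p0.lo g0_1.p) :=
  posBox_of_check (c := ⟨320, ⟨0, 8, 18, 6⟩⟩) (by decide +kernel)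

def c0_87 : PosBox ⟨⟨0, 1, 1⟩, ⟨3000, 3011, 5000⟩, ⟨5, 8, 100⟩, ⟨0, 1, 1⟩⟩
    (g0_1.s₀.eta - cEG p0.kl p0.v (g0_1.s₀.t) (g0_1.u₁) g0_1.p) :=
  posBox_of_check (c := ⟨317, ⟨0, 8, 18, 6⟩⟩) (by decide +kernel)

def c0_88 : PosBox ⟨⟨0, 1, 1⟩, ⟨3000, 3011, 5000⟩, ⟨5, 8, 100⟩, ⟨0, 1, 1⟩⟩
    (g0_1.s₀.eta' + cEG p0.kl p0.v (g0_1.s₀.t) (g0_1.u₁) g0_1.p - cSag p0.kl p0.v (g0_1.s₀.t) (g0_1.u₁) p0.lo g0_1.p) :=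
  posBox_of_check (c := ⟨320, ⟨0, 8, 18, 6⟩⟩) (by decide +kernel)

def c0_89 : PosBox ⟨⟨0, 1, 1⟩, ⟨3000, 3011, 5000⟩, ⟨5, 8, 100⟩, ⟨0, 1, 1⟩⟩
    (cC (4) 1 * g0_1.beta * g0_1.s₀.phi - cC (625) 1 * (cC (1) 1 + Ex.x₂ * p0.v) * g0_1.s₀.eta * g0_1.s₀.eta) :=
  posBox_of_check (c := ⟨193, ⟨0, 0, 8, 7⟩⟩) (by decide +kernel)

def c0_90 : PosBox ⟨⟨0, 1, 1⟩, ⟨3000, 3011, 5000⟩, ⟨5, 8, 100⟩, ⟨0, 1, 1⟩⟩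
    (cC (4) 1 * g0_1.beta * g0_1.s₀.phi - cC (625) 1 * (cC (1) 1 + Ex.x₂ * p0.v) * g0_1.s₀.eta' * g0_1.s₀.eta') :=
  posBox_of_check (c := ⟨158, ⟨0, 0, 6, 5⟩⟩) (by decide +kernel)

def c0_91 : PosBox ⟨⟨0, 1, 1⟩, ⟨3000, 3011, 5000⟩, ⟨5, 8, 100⟩, ⟨0, 1, 1⟩⟩
    ((p0.wh g0_1.s₁.t) - (p0.wl g0_1.s₁.t)) :=
  posBox_of_check (c := ⟨192, ⟨0, 3, 5, 1⟩⟩) (by decide +kernel)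

def c0_95 : PosBox ⟨⟨0, 1, 1⟩, ⟨3000, 3011, 5000⟩, ⟨5, 8, 100⟩, ⟨0, 1, 1⟩⟩
    (g0_1.s₁.eta - cEG p0.kl p0.v (g0_1.s₁.t) (g0_1.u₀) g0_1.p) :=
  posBox_of_check (c := ⟨311, ⟨0, 8, 16, 6⟩⟩) (by decide +kernel)

def c0_96 : PosBox ⟨⟨0, 1, 1⟩, ⟨3000, 3011, 5000⟩, ⟨5, 8, 100⟩, ⟨0, 1, 1⟩⟩
    (g0_1.s₁.eta' + cEG p0.kl p0.v (g0_1.s₁.t) (g0_1.u₀) g0_1.p - cSag p0.kl p0.v (g0_1.s₁.t) (g0_1.u₀) p0.lo g0_1.p) :=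
  posBox_of_check (c := ⟨315, ⟨0, 8, 16, 6⟩⟩) (by decide +kernel)

def c0_100 : PosBox ⟨⟨0, 1, 1⟩, ⟨3000, 3011, 5000⟩, ⟨5, 8, 100⟩, ⟨0, 1, 1⟩⟩
    (g0_1.s₁.eta - cEG p0.kl p0.v (g0_1.s₁.t) (g0_1.u₁) g0_1.p) :=
  posBox_of_check (c := ⟨311, ⟨0, 8, 16, 6⟩⟩) (by decide +kernel)

def c0_101 : PosBox ⟨⟨0, 1, 1⟩, ⟨3000, 3011, 5000⟩, ⟨5, 8, 100⟩, ⟨0, 1, 1⟩⟩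
    (g0_1.s₁.eta' + cEG p0.kl p0.v (g0_1.s₁.t) (g0_1.u₁) g0_1.p - cSag p0.kl p0.v (g0_1.s₁.t) (g0_1.u₁) p0.lo g0_1.p) :=
  posBox_of_check (c := ⟨315, ⟨0, 8, 16, 6⟩⟩) (by decide +kernel)

def c0_102 : PosBox ⟨⟨0, 1, 1⟩, ⟨3000, 3011, 5000⟩, ⟨5, 8, 100⟩, ⟨0, 1, 1⟩⟩
    (cC (4) 1 * g0_1.beta * g0_1.s₁.phi - cC (625) 1 * (cC (1) 1 + Ex.x₂ * p0.v) * g0_1.s₁.eta * g0_1.s₁.eta) :=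
  posBox_of_check (c := ⟨159, ⟨0, 0, 6, 5⟩⟩) (by decide +kernel)

def c0_103 : PosBox ⟨⟨0, 1, 1⟩, ⟨3000, 3011, 5000⟩, ⟨5, 8, 100⟩, ⟨0, 1, 1⟩⟩
    (cC (4) 1 * g0_1.beta * g0_1.s₁.phi - cC (625) 1 * (cC (1) 1 + Ex.x₂ * p0.v) * g0_1.s₁.eta' * g0_1.s₁.eta') :=
  posBox_of_check (c := ⟨154, ⟨0, 0, 6, 5⟩⟩) (by decide +kernel)

def c0_104 : PosBox ⟨⟨0, 1, 1⟩, ⟨3000, 3011, 5000⟩, ⟨5, 8, 100⟩, ⟨0, 1, 1⟩⟩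
    (g0_1.beta) :=
  posBox_of_check (c := ⟨79, ⟨0, 0, 3, 3⟩⟩) (by decide +kernel)

def c0_105 : PosBox ⟨⟨0, 1, 1⟩, ⟨3000, 3011, 5000⟩, ⟨5, 8, 100⟩, ⟨0, 1, 1⟩⟩
    (eTGG cA Ex.x₂ p0.v g0_1.p - g0_1.beta) :=
  posBox_of_check (c := ⟨295, ⟨0, 7, 17, 7⟩⟩) (by decide +kernel)

end Vale.Agent.P100.Calib.Closed.End
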