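import Vale.Agent.P100.Calib.SlabEndData

/-!
# Checks of the end strip, piece `0`
-/

set_option linter.defProp false

namespace Vale.Agent.P100.Calib.Closed.End

open BoxPos
open Large (PosBox posBox_of_check)

local instance endChk0B1Add : Add Ex := ⟨Ex.add⟩
local instance endChk0B1Mul : Mul Ex := ⟨Ex.mul⟩
local instance endChk0B1Sub : Sub Ex := ⟨Ex.sub⟩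

def c0_106 : PosBox ⟨⟨0, 1, 1⟩, ⟨3000, 3011, 5000⟩, ⟨5, 8, 100⟩, ⟨0, 1, 1⟩⟩
    (g0_1.p + cC (1) 4) :=
  posBox_of_check (c := ⟨127, ⟨0, 1, 3, 2⟩⟩) (by decide +kernel)

def c0_107 : PosBox ⟨⟨0, 1, 1⟩, ⟨3000, 3011, 5000⟩, ⟨5, 8, 100⟩, ⟨0, 1, 1⟩⟩
    ((p0.wh g0_2.s₀.t) - (p0.wl g0_2.s₀.t)) :=
  posBox_of_check (c := ⟨194, ⟨0, 3, 7, 1⟩⟩) (by decide +kernel)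

def c0_111 : PosBox ⟨⟨0, 1, 1⟩, ⟨3000, 3011, 5000⟩, ⟨5, 8, 100⟩, ⟨0, 1, 1⟩⟩
    (g0_2.s₀.eta - cEG p0.kl p0.v (g0_2.s₀.t) (g0_2.u₀) g0_2.p) :=
  posBox_of_check (c := ⟨315, ⟨0, 8, 18, 6⟩⟩) (by decide +kernel)

def c0_112 : PosBox ⟨⟨0, 1, 1⟩, ⟨3000, 3011, 5000⟩, ⟨5, 8, 100⟩, ⟨0, 1, 1⟩⟩
    (g0_2.s₀.eta' + cEG p0.kl p0.v (g0_2.s₀.t) (g0_2.u₀) g0_2.p - cSag p0.kl p0.v (g0_2.s₀.t) (g0_2.u₀) p0.lo g0_2.p) :=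
  posBox_of_check (c := ⟨318, ⟨0, 8, 18, 6⟩⟩) (by decide +kernel)

def c0_116 : PosBox ⟨⟨0, 1, 1⟩, ⟨3000, 3011, 5000⟩, ⟨5, 8, 100⟩, ⟨0, 1, 1⟩⟩
    (g0_2.s₀.eta - cEG p0.kl p0.v (g0_2.s₀.t) (g0_2.u₁) g0_2.p) :=
  posBox_of_check (c := ⟨315, ⟨0, 8, 18, 6⟩⟩) (by decide +kernel)

def c0_117 : PosBox ⟨⟨0, 1, 1⟩, ⟨3000, 3011, 5000⟩, ⟨5, 8, 100⟩, ⟨0, 1, 1⟩⟩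
    (g0_2.s₀.eta' + cEG p0.kl p0.v (g0_2.s₀.t) (g0_2.u₁) g0_2.p - cSag p0.kl p0.v (g0_2.s₀.t) (g0_2.u₁) p0.lo g0_2.p) :=
  posBox_of_check (c := ⟨318, ⟨0, 8, 18, 6⟩⟩) (by decide +kernel)

def c0_118 : PosBox ⟨⟨0, 1, 1⟩, ⟨3000, 3011, 5000⟩, ⟨5, 8, 100⟩, ⟨0, 1, 1⟩⟩
    (cC (4) 1 * g0_2.beta * g0_2.s₀.phi - cC (625) 1 * (cC (1) 1 + Ex.x₂ * p0.v) * g0_2.s₀.eta * g0_2.s₀.eta) :=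
  posBox_cut₂ (A := ⟨10, 13, 200⟩) (B := ⟨13, 16, 200⟩) (by unfold covers; decide)
    (posBox_of_check (c := ⟨259, ⟨0, 0, 8, 7⟩⟩) (by decide +kernel))
    (posBox_cut₃ (A := ⟨0, 1, 2⟩) (B := ⟨1, 2, 2⟩) (by unfold covers; decide)
      (posBox_of_check (c := ⟨319, ⟨0, 0, 8, 7⟩⟩) (by decide +kernel))
      (posBox_of_check (c := ⟨319, ⟨0, 0, 8, 7⟩⟩) (by decide +kernel)))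

def c0_119 : PosBox ⟨⟨0, 1, 1⟩, ⟨3000, 3011, 5000⟩, ⟨5, 8, 100⟩, ⟨0, 1, 1⟩⟩
    (cC (4) 1 * g0_2.beta * g0_2.s₀.phi - cC (625) 1 * (cC (1) 1 + Ex.x₂ * p0.v) * g0_2.s₀.eta' * g0_2.s₀.eta') :=
  posBox_of_check (c := ⟨170, ⟨0, 0, 6, 6⟩⟩) (by decide +kernel)

def c0_120 : PosBox ⟨⟨0, 1, 1⟩, ⟨3000, 3011, 5000⟩, ⟨5, 8, 100⟩, ⟨0, 1, 1⟩⟩
    ((p0.wh g0_2.s₁.t) - (p0.wl g0_2.s₁.t)) :=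
  posBox_of_check (c := ⟨214, ⟨0, 3, 7, 1⟩⟩) (by decide +kernel)

def c0_124 : PosBox ⟨⟨0, 1, 1⟩, ⟨3000, 3011, 5000⟩, ⟨5, 8, 100⟩, ⟨0, 1, 1⟩⟩
    (g0_2.s₁.eta - cEG p0.kl p0.v (g0_2.s₁.t) (g0_2.u₀) g0_2.p) :=
  posBox_of_check (c := ⟨335, ⟨0, 8, 18, 6⟩⟩) (by decide +kernel)

def c0_125 : PosBox ⟨⟨0, 1, 1⟩, ⟨3000, 3011, 5000⟩, ⟨5, 8, 100⟩, ⟨0, 1, 1⟩⟩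
    (g0_2.s₁.eta' + cEG p0.kl p0.v (g0_2.s₁.t) (g0_2.u₀) g0_2.p - cSag p0.kl p0.v (g0_2.s₁.t) (g0_2.u₀) p0.lo g0_2.p) :=
  posBox_of_check (c := ⟨338, ⟨0, 8, 18, 6⟩⟩) (by decide +kernel)

def c0_129 : PosBox ⟨⟨0, 1, 1⟩, ⟨3000, 3011, 5000⟩, ⟨5, 8, 100⟩, ⟨0, 1, 1⟩⟩
    (g0_2.s₁.eta - cEG p0.kl p0.v (g0_2.s₁.t) (g0_2.u₁) g0_2.p) :=
  posBox_of_check (c := ⟨335, ⟨0, 8, 18, 6⟩⟩) (by decide +kernel)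

def c0_130 : PosBox ⟨⟨0, 1, 1⟩, ⟨3000, 3011, 5000⟩, ⟨5, 8, 100⟩, ⟨0, 1, 1⟩⟩
    (g0_2.s₁.eta' + cEG p0.kl p0.v (g0_2.s₁.t) (g0_2.u₁) g0_2.p - cSag p0.kl p0.v (g0_2.s₁.t) (g0_2.u₁) p0.lo g0_2.p) :=
  posBox_of_check (c := ⟨338, ⟨0, 8, 18, 6⟩⟩) (by decide +kernel)

def c0_131 : PosBox ⟨⟨0, 1, 1⟩, ⟨3000, 3011, 5000⟩, ⟨5, 8, 100⟩, ⟨0, 1, 1⟩⟩
    (cC (4) 1 * g0_2.beta * g0_2.s₁.phi - cC (625) 1 * (cC (1) 1 + Ex.x₂ * p0.v) * g0_2.s₁.eta * g0_2.s₁.eta) :=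
  posBox_cut₂ (A := ⟨10, 13, 200⟩) (B := ⟨13, 16, 200⟩) (by unfold covers; decide)
    (posBox_of_check (c := ⟨217, ⟨0, 0, 6, 5⟩⟩) (by decide +kernel))
    (posBox_cut₃ (A := ⟨0, 1, 2⟩) (B := ⟨1, 2, 2⟩) (by unfold covers; decide)
      (posBox_of_check (c := ⟨277, ⟨0, 0, 6, 5⟩⟩) (by decide +kernel))
      (posBox_of_check (c := ⟨277, ⟨0, 0, 6, 5⟩⟩) (by decide +kernel)))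

def c0_132 : PosBox ⟨⟨0, 1, 1⟩, ⟨3000, 3011, 5000⟩, ⟨5, 8, 100⟩, ⟨0, 1, 1⟩⟩
    (cC (4) 1 * g0_2.beta * g0_2.s₁.phi - cC (625) 1 * (cC (1) 1 + Ex.x₂ * p0.v) * g0_2.s₁.eta' * g0_2.s₁.eta') :=
  posBox_of_check (c := ⟨157, ⟨0, 0, 6, 5⟩⟩) (by decide +kernel)

def c0_133 : PosBox ⟨⟨0, 1, 1⟩, ⟨3000, 3011, 5000⟩, ⟨5, 8, 100⟩, ⟨0, 1, 1⟩⟩
    (g0_2.beta) :=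
  posBox_of_check (c := ⟨83, ⟨0, 0, 3, 3⟩⟩) (by decide +kernel)

def c0_134 : PosBox ⟨⟨0, 1, 1⟩, ⟨3000, 3011, 5000⟩, ⟨5, 8, 100⟩, ⟨0, 1, 1⟩⟩
    (eTGG cA Ex.x₂ p0.v g0_2.p - g0_2.beta) :=
  posBox_of_check (c := ⟨296, ⟨0, 7, 17, 7⟩⟩) (by decide +kernel)

def c0_135 : PosBox ⟨⟨0, 1, 1⟩, ⟨3000, 3011, 5000⟩, ⟨5, 8, 100⟩, ⟨0, 1, 1⟩⟩
    (g0_2.p + cC (1) 4) :=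
  posBox_of_check (c := ⟨128, ⟨0, 1, 3, 2⟩⟩) (by decide +kernel)

def c0_136 : PosBox ⟨⟨0, 1, 1⟩, ⟨3000, 3011, 5000⟩, ⟨5, 8, 100⟩, ⟨0, 1, 1⟩⟩
    ((p0.wh g0_3.s₀.t) - (p0.wl g0_3.s₀.t)) :=
  posBox_of_check (c := ⟨197, ⟨0, 3, 7, 1⟩⟩) (by decide +kernel)

def c0_140 : PosBox ⟨⟨0, 1, 1⟩, ⟨3000, 3011, 5000⟩, ⟨5, 8, 100⟩, ⟨0, 1, 1⟩⟩
    (g0_3.s₀.eta - cEG p0.kl p0.v (g0_3.s₀.t) (g0_3.u₀) g0_3.p) :=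
  posBox_of_check (c := ⟨318, ⟨0, 8, 18, 6⟩⟩) (by decide +kernel)

def c0_141 : PosBox ⟨⟨0, 1, 1⟩, ⟨3000, 3011, 5000⟩, ⟨5, 8, 100⟩, ⟨0, 1, 1⟩⟩
    (g0_3.s₀.eta' + cEG p0.kl p0.v (g0_3.s₀.t) (g0_3.u₀) g0_3.p - cSag p0.kl p0.v (g0_3.s₀.t) (g0_3.u₀) p0.lo g0_3.p) :=
  posBox_of_check (c := ⟨321, ⟨0, 8, 18, 6⟩⟩) (by decide +kernel)

def c0_145 : PosBox ⟨⟨0, 1, 1⟩, ⟨3000, 3011, 5000⟩, ⟨5, 8, 100⟩, ⟨0, 1, 1⟩⟩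
    (g0_3.s₀.eta - cEG p0.kl p0.v (g0_3.s₀.t) (g0_3.u₁) g0_3.p) :=
  posBox_of_check (c := ⟨318, ⟨0, 8, 18, 6⟩⟩) (by decide +kernel)

def c0_146 : PosBox ⟨⟨0, 1, 1⟩, ⟨3000, 3011, 5000⟩, ⟨5, 8, 100⟩, ⟨0, 1, 1⟩⟩
    (g0_3.s₀.eta' + cEG p0.kl p0.v (g0_3.s₀.t) (g0_3.u₁) g0_3.p - cSag p0.kl p0.v (g0_3.s₀.t) (g0_3.u₁) p0.lo g0_3.p) :=
  posBox_of_check (c := ⟨321, ⟨0, 8, 18, 6⟩⟩) (by decide +kernel)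

def c0_147 : PosBox ⟨⟨0, 1, 1⟩, ⟨3000, 3011, 5000⟩, ⟨5, 8, 100⟩, ⟨0, 1, 1⟩⟩
    (cC (4) 1 * g0_3.beta * g0_3.s₀.phi - cC (625) 1 * (cC (1) 1 + Ex.x₂ * p0.v) * g0_3.s₀.eta * g0_3.s₀.eta) :=
  posBox_cut₂ (A := ⟨10, 13, 200⟩) (B := ⟨13, 16, 200⟩) (by unfold covers; decide)
    (posBox_of_check (c := ⟨217, ⟨0, 0, 6, 5⟩⟩) (by decide +kernel))
    (posBox_cut₃ (A := ⟨0, 1, 2⟩) (B := ⟨1, 2, 2⟩) (by unfold covers; decide)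
      (posBox_of_check (c := ⟨277, ⟨0, 0, 6, 5⟩⟩) (by decide +kernel))
      (posBox_of_check (c := ⟨277, ⟨0, 0, 6, 5⟩⟩) (by decide +kernel)))

def c0_148 : PosBox ⟨⟨0, 1, 1⟩, ⟨3000, 3011, 5000⟩, ⟨5, 8, 100⟩, ⟨0, 1, 1⟩⟩
    (cC (4) 1 * g0_3.beta * g0_3.s₀.phi - cC (625) 1 * (cC (1) 1 + Ex.x₂ * p0.v) * g0_3.s₀.eta' * g0_3.s₀.eta') :=
  posBox_of_check (c := ⟨157, ⟨0, 0, 6, 5⟩⟩) (by decide +kernel)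

def c0_149 : PosBox ⟨⟨0, 1, 1⟩, ⟨3000, 3011, 5000⟩, ⟨5, 8, 100⟩, ⟨0, 1, 1⟩⟩
    ((p0.wh g0_3.s₁.t) - (p0.wl g0_3.s₁.t)) :=
  posBox_of_check (c := ⟨211, ⟨0, 3, 7, 1⟩⟩) (by decide +kernel)

def c0_153 : PosBox ⟨⟨0, 1, 1⟩, ⟨3000, 3011, 5000⟩, ⟨5, 8, 100⟩, ⟨0, 1, 1⟩⟩
    (g0_3.s₁.eta - cEG p0.kl p0.v (g0_3.s₁.t) (g0_3.u₀) g0_3.p) :=
  posBox_of_check (c := ⟨332, ⟨0, 8, 18, 6⟩⟩) (by decide +kernel)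

def c0_154 : PosBox ⟨⟨0, 1, 1⟩, ⟨3000, 3011, 5000⟩, ⟨5, 8, 100⟩, ⟨0, 1, 1⟩⟩
    (g0_3.s₁.eta' + cEG p0.kl p0.v (g0_3.s₁.t) (g0_3.u₀) g0_3.p - cSag p0.kl p0.v (g0_3.s₁.t) (g0_3.u₀) p0.lo g0_3.p) :=
  posBox_of_check (c := ⟨335, ⟨0, 8, 18, 6⟩⟩) (by decide +kernel)

def c0_158 : PosBox ⟨⟨0, 1, 1⟩, ⟨3000, 3011, 5000⟩, ⟨5, 8, 100⟩, ⟨0, 1, 1⟩⟩
    (g0_3.s₁.eta - cEG p0.kl p0.v (g0_3.s₁.t) (g0_3.u₁) g0_3.p) :=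
  posBox_of_check (c := ⟨332, ⟨0, 8, 18, 6⟩⟩) (by decide +kernel)

def c0_159 : PosBox ⟨⟨0, 1, 1⟩, ⟨3000, 3011, 5000⟩, ⟨5, 8, 100⟩, ⟨0, 1, 1⟩⟩
    (g0_3.s₁.eta' + cEG p0.kl p0.v (g0_3.s₁.t) (g0_3.u₁) g0_3.p - cSag p0.kl p0.v (g0_3.s₁.t) (g0_3.u₁) p0.lo g0_3.p) :=
  posBox_of_check (c := ⟨335, ⟨0, 8, 18, 6⟩⟩) (by decide +kernel)

def c0_160 : PosBox ⟨⟨0, 1, 1⟩, ⟨3000, 3011, 5000⟩, ⟨5, 8, 100⟩, ⟨0, 1, 1⟩⟩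
    (cC (4) 1 * g0_3.beta * g0_3.s₁.phi - cC (625) 1 * (cC (1) 1 + Ex.x₂ * p0.v) * g0_3.s₁.eta * g0_3.s₁.eta) :=
  posBox_cut₂ (A := ⟨10, 13, 200⟩) (B := ⟨13, 16, 200⟩) (by unfold covers; decide)
    (posBox_of_check (c := ⟨216, ⟨0, 0, 6, 5⟩⟩) (by decide +kernel))
    (posBox_cut₃ (A := ⟨0, 1, 2⟩) (B := ⟨1, 2, 2⟩) (by unfold covers; decide)
      (posBox_of_check (c := ⟨276, ⟨0, 0, 6, 5⟩⟩) (by decide +kernel))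
      (posBox_of_check (c := ⟨276, ⟨0, 0, 6, 5⟩⟩) (by decide +kernel)))

def c0_161 : PosBox ⟨⟨0, 1, 1⟩, ⟨3000, 3011, 5000⟩, ⟨5, 8, 100⟩, ⟨0, 1, 1⟩⟩
    (cC (4) 1 * g0_3.beta * g0_3.s₁.phi - cC (625) 1 * (cC (1) 1 + Ex.x₂ * p0.v) * g0_3.s₁.eta' * g0_3.s₁.eta') :=
  posBox_of_check (c := ⟨159, ⟨0, 0, 6, 5⟩⟩) (by decide +kernel)

def c0_162 : PosBox ⟨⟨0, 1, 1⟩, ⟨3000, 3011, 5000⟩, ⟨5, 8, 100⟩, ⟨0, 1, 1⟩⟩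
    (g0_3.beta) :=
  posBox_of_check (c := ⟨80, ⟨0, 0, 3, 3⟩⟩) (by decide +kernel)

def c0_163 : PosBox ⟨⟨0, 1, 1⟩, ⟨3000, 3011, 5000⟩, ⟨5, 8, 100⟩, ⟨0, 1, 1⟩⟩
    (eTGG cA Ex.x₂ p0.v g0_3.p - g0_3.beta) :=
  posBox_of_check (c := ⟨296, ⟨0, 7, 17, 7⟩⟩) (by decide +kernel)

def c0_164 : PosBox ⟨⟨0, 1, 1⟩, ⟨3000, 3011, 5000⟩, ⟨5, 8, 100⟩, ⟨0, 1, 1⟩⟩
    (g0_3.p + cC (1) 4) :=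
  posBox_of_check (c := ⟨128, ⟨0, 1, 3, 2⟩⟩) (by decide +kernel)

def c0_165 : PosBox ⟨⟨0, 1, 1⟩, ⟨3000, 3011, 5000⟩, ⟨5, 8, 100⟩, ⟨0, 1, 1⟩⟩
    ((p0.wh g0_4.s₀.t) - (p0.wl g0_4.s₀.t)) :=
  posBox_of_check (c := ⟨195, ⟨0, 3, 7, 1⟩⟩) (by decide +kernel)

def c0_169 : PosBox ⟨⟨0, 1, 1⟩, ⟨3000, 3011, 5000⟩, ⟨5, 8, 100⟩, ⟨0, 1, 1⟩⟩
    (g0_4.s₀.eta - cEG p0.kl p0.v (g0_4.s₀.t) (g0_4.u₀) g0_4.p) :=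
  posBox_of_check (c := ⟨317, ⟨0, 8, 18, 6⟩⟩) (by decide +kernel)

def c0_170 : PosBox ⟨⟨0, 1, 1⟩, ⟨3000, 3011, 5000⟩, ⟨5, 8, 100⟩, ⟨0, 1, 1⟩⟩
    (g0_4.s₀.eta' + cEG p0.kl p0.v (g0_4.s₀.t) (g0_4.u₀) g0_4.p - cSag p0.kl p0.v (g0_4.s₀.t) (g0_4.u₀) p0.lo g0_4.p) :=
  posBox_of_check (c := ⟨319, ⟨0, 8, 18, 6⟩⟩) (by decide +kernel)

def c0_174 : PosBox ⟨⟨0, 1, 1⟩, ⟨3000, 3011, 5000⟩, ⟨5, 8, 100⟩, ⟨0, 1, 1⟩⟩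
    (g0_4.s₀.eta - cEG p0.kl p0.v (g0_4.s₀.t) (g0_4.u₁) g0_4.p) :=
  posBox_of_check (c := ⟨317, ⟨0, 8, 18, 6⟩⟩) (by decide +kernel)

def c0_175 : PosBox ⟨⟨0, 1, 1⟩, ⟨3000, 3011, 5000⟩, ⟨5, 8, 100⟩, ⟨0, 1, 1⟩⟩
    (g0_4.s₀.eta' + cEG p0.kl p0.v (g0_4.s₀.t) (g0_4.u₁) g0_4.p - cSag p0.kl p0.v (g0_4.s₀.t) (g0_4.u₁) p0.lo g0_4.p) :=
  posBox_of_check (c := ⟨319, ⟨0, 8, 18, 6⟩⟩) (by decide +kernel)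

def c0_176 : PosBox ⟨⟨0, 1, 1⟩, ⟨3000, 3011, 5000⟩, ⟨5, 8, 100⟩, ⟨0, 1, 1⟩⟩
    (cC (4) 1 * g0_4.beta * g0_4.s₀.phi - cC (625) 1 * (cC (1) 1 + Ex.x₂ * p0.v) * g0_4.s₀.eta * g0_4.s₀.eta) :=
  posBox_cut₂ (A := ⟨10, 13, 200⟩) (B := ⟨13, 16, 200⟩) (by unfold covers; decide)
    (posBox_of_check (c := ⟨218, ⟨0, 0, 6, 5⟩⟩) (by decide +kernel))
    (posBox_cut₃ (A := ⟨0, 1, 2⟩) (B := ⟨1, 2, 2⟩) (by unfold covers; decide)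
      (posBox_of_check (c := ⟨278, ⟨0, 0, 6, 5⟩⟩) (by decide +kernel))
      (posBox_of_check (c := ⟨278, ⟨0, 0, 6, 5⟩⟩) (by decide +kernel)))

def c0_177 : PosBox ⟨⟨0, 1, 1⟩, ⟨3000, 3011, 5000⟩, ⟨5, 8, 100⟩, ⟨0, 1, 1⟩⟩
    (cC (4) 1 * g0_4.beta * g0_4.s₀.phi - cC (625) 1 * (cC (1) 1 + Ex.x₂ * p0.v) * g0_4.s₀.eta' * g0_4.s₀.eta') :=
  posBox_of_check (c := ⟨158, ⟨0, 0, 6, 5⟩⟩) (by decide +kernel)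

def c0_178 : PosBox ⟨⟨0, 1, 1⟩, ⟨3000, 3011, 5000⟩, ⟨5, 8, 100⟩, ⟨0, 1, 1⟩⟩
    ((p0.wh g0_4.s₁.t) - (p0.wl g0_4.s₁.t)) :=
  posBox_of_check (c := ⟨214, ⟨0, 3, 7, 1⟩⟩) (by decide +kernel)

def c0_182 : PosBox ⟨⟨0, 1, 1⟩, ⟨3000, 3011, 5000⟩, ⟨5, 8, 100⟩, ⟨0, 1, 1⟩⟩
    (g0_4.s₁.eta - cEG p0.kl p0.v (g0_4.s₁.t) (g0_4.u₀) g0_4.p) :=
  posBox_of_check (c := ⟨336, ⟨0, 8, 18, 6⟩⟩) (by decide +kernel)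

def c0_183 : PosBox ⟨⟨0, 1, 1⟩, ⟨3000, 3011, 5000⟩, ⟨5, 8, 100⟩, ⟨0, 1, 1⟩⟩
    (g0_4.s₁.eta' + cEG p0.kl p0.v (g0_4.s₁.t) (g0_4.u₀) g0_4.p - cSag p0.kl p0.v (g0_4.s₁.t) (g0_4.u₀) p0.lo g0_4.p) :=
  posBox_of_check (c := ⟨338, ⟨0, 8, 18, 6⟩⟩) (by decide +kernel)

def c0_187 : PosBox ⟨⟨0, 1, 1⟩, ⟨3000, 3011, 5000⟩, ⟨5, 8, 100⟩, ⟨0, 1, 1⟩⟩
    (g0_4.s₁.eta - cEG p0.kl p0.v (g0_4.s₁.t) (g0_4.u₁) g0_4.p) :=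
  posBox_of_check (c := ⟨336, ⟨0, 8, 18, 6⟩⟩) (by decide +kernel)

def c0_188 : PosBox ⟨⟨0, 1, 1⟩, ⟨3000, 3011, 5000⟩, ⟨5, 8, 100⟩, ⟨0, 1, 1⟩⟩
    (g0_4.s₁.eta' + cEG p0.kl p0.v (g0_4.s₁.t) (g0_4.u₁) g0_4.p - cSag p0.kl p0.v (g0_4.s₁.t) (g0_4.u₁) p0.lo g0_4.p) :=
  posBox_of_check (c := ⟨338, ⟨0, 8, 18, 6⟩⟩) (by decide +kernel)

def c0_189 : PosBox ⟨⟨0, 1, 1⟩, ⟨3000, 3011, 5000⟩, ⟨5, 8, 100⟩, ⟨0, 1, 1⟩⟩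
    (cC (4) 1 * g0_4.beta * g0_4.s₁.phi - cC (625) 1 * (cC (1) 1 + Ex.x₂ * p0.v) * g0_4.s₁.eta * g0_4.s₁.eta) :=
  posBox_of_check (c := ⟨158, ⟨0, 0, 6, 5⟩⟩) (by decide +kernel)

def c0_190 : PosBox ⟨⟨0, 1, 1⟩, ⟨3000, 3011, 5000⟩, ⟨5, 8, 100⟩, ⟨0, 1, 1⟩⟩
    (cC (4) 1 * g0_4.beta * g0_4.s₁.phi - cC (625) 1 * (cC (1) 1 + Ex.x₂ * p0.v) * g0_4.s₁.eta' * g0_4.s₁.eta') :=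
  posBox_of_check (c := ⟨158, ⟨0, 0, 6, 5⟩⟩) (by decide +kernel)

def c0_191 : PosBox ⟨⟨0, 1, 1⟩, ⟨3000, 3011, 5000⟩, ⟨5, 8, 100⟩, ⟨0, 1, 1⟩⟩
    (g0_4.beta) :=
  posBox_of_check (c := ⟨82, ⟨0, 0, 3, 3⟩⟩) (by decide +kernel)

def c0_192 : PosBox ⟨⟨0, 1, 1⟩, ⟨3000, 3011, 5000⟩, ⟨5, 8, 100⟩, ⟨0, 1, 1⟩⟩
    (eTGG cA Ex.x₂ p0.v g0_4.p - g0_4.beta) :=
  posBox_of_check (c := ⟨298, ⟨0, 7, 17, 7⟩⟩) (by decide +kernel)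

def c0_193 : PosBox ⟨⟨0, 1, 1⟩, ⟨3000, 3011, 5000⟩, ⟨5, 8, 100⟩, ⟨0, 1, 1⟩⟩
    (g0_4.p + cC (1) 4) :=
  posBox_of_check (c := ⟨129, ⟨0, 1, 3, 2⟩⟩) (by decide +kernel)

def c0_194 : PosBox ⟨⟨0, 1, 1⟩, ⟨3000, 3011, 5000⟩, ⟨5, 8, 100⟩, ⟨0, 1, 1⟩⟩
    ((p0.wh g0_5.s₀.t) - (p0.wl g0_5.s₀.t)) :=
  posBox_of_check (c := ⟨172, ⟨0, 3, 5, 1⟩⟩) (by decide +kernel)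

def c0_198 : PosBox ⟨⟨0, 1, 1⟩, ⟨3000, 3011, 5000⟩, ⟨5, 8, 100⟩, ⟨0, 1, 1⟩⟩
    (g0_5.s₀.eta - cEG p0.kl p0.v (g0_5.s₀.t) (g0_5.u₀) g0_5.p) :=
  posBox_of_check (c := ⟨295, ⟨0, 8, 16, 6⟩⟩) (by decide +kernel)

def c0_199 : PosBox ⟨⟨0, 1, 1⟩, ⟨3000, 3011, 5000⟩, ⟨5, 8, 100⟩, ⟨0, 1, 1⟩⟩
    (g0_5.s₀.eta' + cEG p0.kl p0.v (g0_5.s₀.t) (g0_5.u₀) g0_5.p - cSag p0.kl p0.v (g0_5.s₀.t) (g0_5.u₀) p0.lo g0_5.p) :=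
  posBox_of_check (c := ⟨298, ⟨0, 8, 16, 6⟩⟩) (by decide +kernel)

def c0_203 : PosBox ⟨⟨0, 1, 1⟩, ⟨3000, 3011, 5000⟩, ⟨5, 8, 100⟩, ⟨0, 1, 1⟩⟩
    (g0_5.s₀.eta - cEG p0.kl p0.v (g0_5.s₀.t) (g0_5.u₁) g0_5.p) :=
  posBox_of_check (c := ⟨295, ⟨0, 8, 16, 6⟩⟩) (by decide +kernel)

def c0_204 : PosBox ⟨⟨0, 1, 1⟩, ⟨3000, 3011, 5000⟩, ⟨5, 8, 100⟩, ⟨0, 1, 1⟩⟩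
    (g0_5.s₀.eta' + cEG p0.kl p0.v (g0_5.s₀.t) (g0_5.u₁) g0_5.p - cSag p0.kl p0.v (g0_5.s₀.t) (g0_5.u₁) p0.lo g0_5.p) :=
  posBox_of_check (c := ⟨298, ⟨0, 8, 16, 6⟩⟩) (by decide +kernel)

def c0_205 : PosBox ⟨⟨0, 1, 1⟩, ⟨3000, 3011, 5000⟩, ⟨5, 8, 100⟩, ⟨0, 1, 1⟩⟩
    (cC (4) 1 * g0_5.beta * g0_5.s₀.phi - cC (625) 1 * (cC (1) 1 + Ex.x₂ * p0.v) * g0_5.s₀.eta * g0_5.s₀.eta) :=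
  posBox_of_check (c := ⟨154, ⟨0, 0, 6, 5⟩⟩) (by decide +kernel)

def c0_206 : PosBox ⟨⟨0, 1, 1⟩, ⟨3000, 3011, 5000⟩, ⟨5, 8, 100⟩, ⟨0, 1, 1⟩⟩
    (cC (4) 1 * g0_5.beta * g0_5.s₀.phi - cC (625) 1 * (cC (1) 1 + Ex.x₂ * p0.v) * g0_5.s₀.eta' * g0_5.s₀.eta') :=
  posBox_of_check (c := ⟨158, ⟨0, 0, 6, 5⟩⟩) (by decide +kernel)

def c0_207 : PosBox ⟨⟨0, 1, 1⟩, ⟨3000, 3011, 5000⟩, ⟨5, 8, 100⟩, ⟨0, 1, 1⟩⟩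
    ((p0.wh g0_5.s₁.t) - (p0.wl g0_5.s₁.t)) :=
  posBox_of_check (c := ⟨212, ⟨0, 3, 7, 1⟩⟩) (by decide +kernel)

def c0_211 : PosBox ⟨⟨0, 1, 1⟩, ⟨3000, 3011, 5000⟩, ⟨5, 8, 100⟩, ⟨0, 1, 1⟩⟩
    (g0_5.s₁.eta - cEG p0.kl p0.v (g0_5.s₁.t) (g0_5.u₀) g0_5.p) :=
  posBox_of_check (c := ⟨335, ⟨0, 8, 18, 6⟩⟩) (by decide +kernel)

def c0_212 : PosBox ⟨⟨0, 1, 1⟩, ⟨3000, 3011, 5000⟩, ⟨5, 8, 100⟩, ⟨0, 1, 1⟩⟩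
    (g0_5.s₁.eta' + cEG p0.kl p0.v (g0_5.s₁.t) (g0_5.u₀) g0_5.p - cSag p0.kl p0.v (g0_5.s₁.t) (g0_5.u₀) p0.lo g0_5.p) :=
  posBox_of_check (c := ⟨338, ⟨0, 8, 18, 6⟩⟩) (by decide +kernel)

def c0_216 : PosBox ⟨⟨0, 1, 1⟩, ⟨3000, 3011, 5000⟩, ⟨5, 8, 100⟩, ⟨0, 1, 1⟩⟩
    (g0_5.s₁.eta - cEG p0.kl p0.v (g0_5.s₁.t) (g0_5.u₁) g0_5.p) :=
  posBox_of_check (c := ⟨335, ⟨0, 8, 18, 6⟩⟩) (by decide +kernel)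

def c0_217 : PosBox ⟨⟨0, 1, 1⟩, ⟨3000, 3011, 5000⟩, ⟨5, 8, 100⟩, ⟨0, 1, 1⟩⟩
    (g0_5.s₁.eta' + cEG p0.kl p0.v (g0_5.s₁.t) (g0_5.u₁) g0_5.p - cSag p0.kl p0.v (g0_5.s₁.t) (g0_5.u₁) p0.lo g0_5.p) :=
  posBox_of_check (c := ⟨338, ⟨0, 8, 18, 6⟩⟩) (by decide +kernel)

def c0_218 : PosBox ⟨⟨0, 1, 1⟩, ⟨3000, 3011, 5000⟩, ⟨5, 8, 100⟩, ⟨0, 1, 1⟩⟩
    (cC (4) 1 * g0_5.beta * g0_5.s₁.phi - cC (625) 1 * (cC (1) 1 + Ex.x₂ * p0.v) * g0_5.s₁.eta * g0_5.s₁.eta) :=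
  posBox_of_check (c := ⟨149, ⟨0, 0, 6, 5⟩⟩) (by decide +kernel)

def c0_219 : PosBox ⟨⟨0, 1, 1⟩, ⟨3000, 3011, 5000⟩, ⟨5, 8, 100⟩, ⟨0, 1, 1⟩⟩
    (cC (4) 1 * g0_5.beta * g0_5.s₁.phi - cC (625) 1 * (cC (1) 1 + Ex.x₂ * p0.v) * g0_5.s₁.eta' * g0_5.s₁.eta') :=
  posBox_of_check (c := ⟨151, ⟨0, 0, 6, 5⟩⟩) (by decide +kernel)

def c0_220 : PosBox ⟨⟨0, 1, 1⟩, ⟨3000, 3011, 5000⟩, ⟨5, 8, 100⟩, ⟨0, 1, 1⟩⟩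
    (g0_5.beta) :=
  posBox_of_check (c := ⟨82, ⟨0, 0, 3, 3⟩⟩) (by decide +kernel)

def c0_221 : PosBox ⟨⟨0, 1, 1⟩, ⟨3000, 3011, 5000⟩, ⟨5, 8, 100⟩, ⟨0, 1, 1⟩⟩
    (eTGG cA Ex.x₂ p0.v g0_5.p - g0_5.beta) :=
  posBox_of_check (c := ⟨300, ⟨0, 7, 17, 7⟩⟩) (by decide +kernel)

def c0_222 : PosBox ⟨⟨0, 1, 1⟩, ⟨3000, 3011, 5000⟩, ⟨5, 8, 100⟩, ⟨0, 1, 1⟩⟩
    (g0_5.p + cC (1) 4) :=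
  posBox_of_check (c := ⟨130, ⟨0, 1, 3, 2⟩⟩) (by decide +kernel)

def c0_223 : PosBox ⟨⟨0, 1, 1⟩, ⟨3000, 3011, 5000⟩, ⟨5, 8, 100⟩, ⟨0, 1, 1⟩⟩
    (p0.kl) :=
  posBox_of_check (c := ⟨29, ⟨0, 1, 0, 0⟩⟩) (by decide +kernel)

end Vale.Agent.P100.Calib.Closed.End
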