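import Vale.Agent.P100.Calib.SlabEndData

/-!
# Checks of the end strip, piece `0`
-/

set_option linter.defProp false

namespace Vale.Agent.P100.Calib.Closed.End

open BoxPos
open Large (PosBox posBox_of_check)

local instance endChk0B2Add : Add Ex := ⟨Ex.add⟩
local instance endChk0B2Mul : Mul Ex := ⟨Ex.mul⟩
local instance endChk0B2Sub : Sub Ex := ⟨Ex.sub⟩

def c0_224 : PosBox ⟨⟨0, 1, 1⟩, ⟨3000, 3011, 5000⟩, ⟨5, 8, 100⟩, ⟨0, 1, 1⟩⟩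
    (cEE eTA p0.v) :=
  posBox_of_check (c := ⟨277, ⟨0, 7, 17, 6⟩⟩) (by decide +kernel)

def c0_225 : PosBox ⟨⟨0, 1, 1⟩, ⟨3000, 3011, 5000⟩, ⟨5, 8, 100⟩, ⟨0, 1, 1⟩⟩
    (cEE eTMG p0.v) :=
  posBox_of_check (c := ⟨261, ⟨0, 6, 16, 6⟩⟩) (by decide +kernel)

def c0_226 : PosBox ⟨⟨0, 1, 1⟩, ⟨3000, 3011, 5000⟩, ⟨5, 8, 100⟩, ⟨0, 1, 1⟩⟩
    (cC (-1) 1 * eTGG2 cA Ex.x₂ p0.v) :=
  posBox_of_check (c := ⟨165, ⟨0, 5, 11, 3⟩⟩) (by decide +kernel)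

def c0_227 : PosBox ⟨⟨0, 1, 1⟩, ⟨3000, 3011, 5000⟩, ⟨5, 8, 100⟩, ⟨0, 1, 1⟩⟩
    (eTMGw cA Ex.x₂ p0.v) :=
  posBox_of_check (c := ⟨166, ⟨0, 5, 10, 3⟩⟩) (by decide +kernel)

def c0_228 : PosBox ⟨⟨0, 1, 1⟩, ⟨3000, 3011, 5000⟩, ⟨5, 8, 100⟩, ⟨0, 1, 1⟩⟩
    (cM p0.v (g0.s₀.t) (g0.u₀)) :=
  posBox_of_check (c := ⟨97, ⟨0, 0, 3, 1⟩⟩) (by decide +kernel)

def c0_229 : PosBox ⟨⟨0, 1, 1⟩, ⟨3000, 3011, 5000⟩, ⟨5, 8, 100⟩, ⟨0, 1, 1⟩⟩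
    (cXp eTA p0.v * (p0.kl * cM p0.v (g0.s₀.t) (g0.u₀)) - eTA2 cA Ex.x₂ p0.v) :=
  posBox_of_check (c := ⟨398, ⟨0, 8, 20, 7⟩⟩) (by decide +kernel)

def c0_230 : PosBox ⟨⟨0, 1, 1⟩, ⟨3000, 3011, 5000⟩, ⟨5, 8, 100⟩, ⟨0, 1, 1⟩⟩
    (cXp eTMG p0.v * (p0.kl * cM p0.v (g0.s₀.t) (g0.u₀)) - eTMG2 cA Ex.x₂ p0.v) :=
  posBox_of_check (c := ⟨382, ⟨0, 7, 19, 7⟩⟩) (by decide +kernel)

def c0_231 : PosBox ⟨⟨0, 1, 1⟩, ⟨3000, 3011, 5000⟩, ⟨5, 8, 100⟩, ⟨0, 1, 1⟩⟩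
    (eTEG2 cA Ex.x₂ p0.v - cXe p0.v * (p0.kl * cM p0.v (g0.s₀.t) (g0.u₀))) :=
  posBox_of_check (c := ⟨338, ⟨0, 8, 16, 5⟩⟩) (by decide +kernel)

def c0_232 : PosBox ⟨⟨0, 1, 1⟩, ⟨3000, 3011, 5000⟩, ⟨5, 8, 100⟩, ⟨0, 1, 1⟩⟩
    (cM p0.v (g0.s₀.t) (g0.u₁)) :=
  posBox_of_check (c := ⟨97, ⟨0, 0, 3, 1⟩⟩) (by decide +kernel)

def c0_233 : PosBox ⟨⟨0, 1, 1⟩, ⟨3000, 3011, 5000⟩, ⟨5, 8, 100⟩, ⟨0, 1, 1⟩⟩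
    (cXp eTA p0.v * (p0.kl * cM p0.v (g0.s₀.t) (g0.u₁)) - eTA2 cA Ex.x₂ p0.v) :=
  posBox_of_check (c := ⟨398, ⟨0, 8, 20, 7⟩⟩) (by decide +kernel)

def c0_234 : PosBox ⟨⟨0, 1, 1⟩, ⟨3000, 3011, 5000⟩, ⟨5, 8, 100⟩, ⟨0, 1, 1⟩⟩
    (cXp eTMG p0.v * (p0.kl * cM p0.v (g0.s₀.t) (g0.u₁)) - eTMG2 cA Ex.x₂ p0.v) :=
  posBox_of_check (c := ⟨382, ⟨0, 7, 19, 7⟩⟩) (by decide +kernel)

def c0_235 : PosBox ⟨⟨0, 1, 1⟩, ⟨3000, 3011, 5000⟩, ⟨5, 8, 100⟩, ⟨0, 1, 1⟩⟩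
    (eTEG2 cA Ex.x₂ p0.v - cXe p0.v * (p0.kl * cM p0.v (g0.s₀.t) (g0.u₁))) :=
  posBox_of_check (c := ⟨338, ⟨0, 8, 16, 5⟩⟩) (by decide +kernel)

def c0_236 : PosBox ⟨⟨0, 1, 1⟩, ⟨3000, 3011, 5000⟩, ⟨5, 8, 100⟩, ⟨0, 1, 1⟩⟩
    (cM p0.v (g0.s₁.t) (g0.u₀)) :=
  posBox_of_check (c := ⟨161, ⟨0, 0, 5, 3⟩⟩) (by decide +kernel)

def c0_237 : PosBox ⟨⟨0, 1, 1⟩, ⟨3000, 3011, 5000⟩, ⟨5, 8, 100⟩, ⟨0, 1, 1⟩⟩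
    (cXp eTA p0.v * (p0.kl * cM p0.v (g0.s₁.t) (g0.u₀)) - eTA2 cA Ex.x₂ p0.v) :=
  posBox_of_check (c := ⟨462, ⟨0, 8, 22, 9⟩⟩) (by decide +kernel)

def c0_238 : PosBox ⟨⟨0, 1, 1⟩, ⟨3000, 3011, 5000⟩, ⟨5, 8, 100⟩, ⟨0, 1, 1⟩⟩
    (cXp eTMG p0.v * (p0.kl * cM p0.v (g0.s₁.t) (g0.u₀)) - eTMG2 cA Ex.x₂ p0.v) :=
  posBox_of_check (c := ⟨446, ⟨0, 7, 21, 9⟩⟩) (by decide +kernel)

def c0_239 : PosBox ⟨⟨0, 1, 1⟩, ⟨3000, 3011, 5000⟩, ⟨5, 8, 100⟩, ⟨0, 1, 1⟩⟩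
    (eTEG2 cA Ex.x₂ p0.v - cXe p0.v * (p0.kl * cM p0.v (g0.s₁.t) (g0.u₀))) :=
  posBox_of_check (c := ⟨402, ⟨0, 8, 18, 7⟩⟩) (by decide +kernel)

def c0_240 : PosBox ⟨⟨0, 1, 1⟩, ⟨3000, 3011, 5000⟩, ⟨5, 8, 100⟩, ⟨0, 1, 1⟩⟩
    (cM p0.v (g0.s₁.t) (g0.u₁)) :=
  posBox_of_check (c := ⟨161, ⟨0, 0, 5, 3⟩⟩) (by decide +kernel)

def c0_241 : PosBox ⟨⟨0, 1, 1⟩, ⟨3000, 3011, 5000⟩, ⟨5, 8, 100⟩, ⟨0, 1, 1⟩⟩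
    (cXp eTA p0.v * (p0.kl * cM p0.v (g0.s₁.t) (g0.u₁)) - eTA2 cA Ex.x₂ p0.v) :=
  posBox_of_check (c := ⟨462, ⟨0, 8, 22, 9⟩⟩) (by decide +kernel)

def c0_242 : PosBox ⟨⟨0, 1, 1⟩, ⟨3000, 3011, 5000⟩, ⟨5, 8, 100⟩, ⟨0, 1, 1⟩⟩
    (cXp eTMG p0.v * (p0.kl * cM p0.v (g0.s₁.t) (g0.u₁)) - eTMG2 cA Ex.x₂ p0.v) :=
  posBox_of_check (c := ⟨446, ⟨0, 7, 21, 9⟩⟩) (by decide +kernel)

def c0_243 : PosBox ⟨⟨0, 1, 1⟩, ⟨3000, 3011, 5000⟩, ⟨5, 8, 100⟩, ⟨0, 1, 1⟩⟩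
    (eTEG2 cA Ex.x₂ p0.v - cXe p0.v * (p0.kl * cM p0.v (g0.s₁.t) (g0.u₁))) :=
  posBox_of_check (c := ⟨402, ⟨0, 8, 18, 7⟩⟩) (by decide +kernel)

def c0_244 : PosBox ⟨⟨0, 1, 1⟩, ⟨3000, 3011, 5000⟩, ⟨5, 8, 100⟩, ⟨0, 1, 1⟩⟩
    (cM p0.v (p0.tT) (g0.u₀)) :=
  posBox_of_check (c := ⟨116, ⟨0, 0, 3, 1⟩⟩) (by decide +kernel)

def c0_245 : PosBox ⟨⟨0, 1, 1⟩, ⟨3000, 3011, 5000⟩, ⟨5, 8, 100⟩, ⟨0, 1, 1⟩⟩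
    (cXp eTA p0.v * (p0.kl * cM p0.v (p0.tT) (g0.u₀)) - eTA2 cA Ex.x₂ p0.v) :=
  posBox_of_check (c := ⟨417, ⟨0, 8, 20, 7⟩⟩) (by decide +kernel)

def c0_246 : PosBox ⟨⟨0, 1, 1⟩, ⟨3000, 3011, 5000⟩, ⟨5, 8, 100⟩, ⟨0, 1, 1⟩⟩
    (cXp eTMG p0.v * (p0.kl * cM p0.v (p0.tT) (g0.u₀)) - eTMG2 cA Ex.x₂ p0.v) :=
  posBox_of_check (c := ⟨402, ⟨0, 7, 19, 7⟩⟩) (by decide +kernel)

def c0_247 : PosBox ⟨⟨0, 1, 1⟩, ⟨3000, 3011, 5000⟩, ⟨5, 8, 100⟩, ⟨0, 1, 1⟩⟩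
    (eTEG2 cA Ex.x₂ p0.v - cXe p0.v * (p0.kl * cM p0.v (p0.tT) (g0.u₀))) :=
  posBox_of_check (c := ⟨358, ⟨0, 8, 16, 5⟩⟩) (by decide +kernel)

def c0_248 : PosBox ⟨⟨0, 1, 1⟩, ⟨3000, 3011, 5000⟩, ⟨5, 8, 100⟩, ⟨0, 1, 1⟩⟩
    (cM p0.v (p0.tT) (g0.u₁)) :=
  posBox_of_check (c := ⟨117, ⟨0, 0, 3, 1⟩⟩) (by decide +kernel)

def c0_249 : PosBox ⟨⟨0, 1, 1⟩, ⟨3000, 3011, 5000⟩, ⟨5, 8, 100⟩, ⟨0, 1, 1⟩⟩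
    (cXp eTA p0.v * (p0.kl * cM p0.v (p0.tT) (g0.u₁)) - eTA2 cA Ex.x₂ p0.v) :=
  posBox_of_check (c := ⟨417, ⟨0, 8, 20, 7⟩⟩) (by decide +kernel)

def c0_250 : PosBox ⟨⟨0, 1, 1⟩, ⟨3000, 3011, 5000⟩, ⟨5, 8, 100⟩, ⟨0, 1, 1⟩⟩
    (cXp eTMG p0.v * (p0.kl * cM p0.v (p0.tT) (g0.u₁)) - eTMG2 cA Ex.x₂ p0.v) :=
  posBox_of_check (c := ⟨402, ⟨0, 7, 19, 7⟩⟩) (by decide +kernel)

def c0_251 : PosBox ⟨⟨0, 1, 1⟩, ⟨3000, 3011, 5000⟩, ⟨5, 8, 100⟩, ⟨0, 1, 1⟩⟩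
    (eTEG2 cA Ex.x₂ p0.v - cXe p0.v * (p0.kl * cM p0.v (p0.tT) (g0.u₁))) :=
  posBox_of_check (c := ⟨358, ⟨0, 8, 16, 5⟩⟩) (by decide +kernel)

def c0_252 : PosBox ⟨⟨0, 1, 1⟩, ⟨3000, 3011, 5000⟩, ⟨5, 8, 100⟩, ⟨0, 1, 1⟩⟩
    (p0.bh * cB - cC (1) 1) :=
  posBox_of_check (c := ⟨61, ⟨0, 3, 3, 0⟩⟩) (by decide +kernel)

def c0_253 : PosBox ⟨⟨0, 1, 1⟩, ⟨3000, 3011, 5000⟩, ⟨5, 8, 100⟩, ⟨0, 1, 1⟩⟩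
    (cC (1) 1 - p0.bl * cB) :=
  posBox_of_check (c := ⟨61, ⟨0, 3, 3, 0⟩⟩) (by decide +kernel)

def c0_254 : PosBox ⟨⟨0, 1, 1⟩, ⟨3000, 3011, 5000⟩, ⟨5, 8, 100⟩, ⟨0, 1, 1⟩⟩
    (p0.bl) :=
  posBox_of_check (c := ⟨47, ⟨0, 2, 2, 0⟩⟩) (by decide +kernel)

def c0_255 : PosBox ⟨⟨0, 1, 1⟩, ⟨3000, 3011, 5000⟩, ⟨5, 8, 100⟩, ⟨0, 1, 1⟩⟩
    (p0.eta) :=
  posBox_of_check (c := ⟨67, ⟨0, 0, 0, 0⟩⟩) (by decide +kernel)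

def c0_256 : PosBox ⟨⟨0, 1, 1⟩, ⟨3000, 3011, 5000⟩, ⟨5, 8, 100⟩, ⟨0, 1, 1⟩⟩
    (p0.eta + (p0.bh - p0.bl) * (cA - (cC (1) 1 - cA) * Ex.x₂ * p0.v)) :=
  posBox_of_check (c := ⟨89, ⟨0, 3, 5, 1⟩⟩) (by decide +kernel)

def c0_257 : PosBox ⟨⟨0, 1, 1⟩, ⟨3000, 3011, 5000⟩, ⟨5, 8, 100⟩, ⟨0, 1, 1⟩⟩
    (cC (1) 1 - p0.rl * Ex.x₁) :=
  posBox_of_check (c := ⟨42, ⟨0, 2, 0, 0⟩⟩) (by decide +kernel)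

def c0_258 : PosBox ⟨⟨0, 1, 1⟩, ⟨3000, 3011, 5000⟩, ⟨5, 8, 100⟩, ⟨0, 1, 1⟩⟩
    (p0.rh * Ex.x₁ - cC (1) 1) :=
  posBox_of_check (c := ⟨42, ⟨0, 2, 0, 0⟩⟩) (by decide +kernel)

def c0_259 : PosBox ⟨⟨0, 1, 1⟩, ⟨3000, 3011, 5000⟩, ⟨5, 8, 100⟩, ⟨0, 1, 1⟩⟩
    (Ex.x₁ - p0.kl * (cC (1) 1 - Ex.x₁)) :=
  posBox_of_check (c := ⟨43, ⟨0, 2, 0, 0⟩⟩) (by decide +kernel)

def c0_260 : PosBox ⟨⟨0, 1, 1⟩, ⟨3000, 3011, 5000⟩, ⟨5, 8, 100⟩, ⟨0, 1, 1⟩⟩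
    (p0.rho * p0.kl * (cC (1) 1 - Ex.x₁) - Ex.x₁) :=
  posBox_of_check (c := ⟨60, ⟨0, 2, 0, 0⟩⟩) (by decide +kernel)

def c0_261 : PosBox ⟨⟨0, 1, 1⟩, ⟨3000, 3011, 5000⟩, ⟨5, 8, 100⟩, ⟨0, 1, 1⟩⟩
    (g0.s₁.t * cNum p0.v - p0.rho * cDen) :=
  posBox_cut₂ (A := ⟨10, 13, 200⟩) (B := ⟨13, 16, 200⟩) (by unfold covers; decide)
    (posBox_cut₃ (A := ⟨0, 1, 2⟩) (B := ⟨1, 2, 2⟩) (by unfold covers; decide)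
      (posBox_of_check (c := ⟨241, ⟨0, 2, 5, 3⟩⟩) (by decide +kernel))
      (posBox_of_check (c := ⟨241, ⟨0, 2, 5, 3⟩⟩) (by decide +kernel)))
    (posBox_cut₃ (A := ⟨0, 1, 2⟩) (B := ⟨1, 2, 2⟩) (by unfold covers; decide)
      (posBox_of_check (c := ⟨241, ⟨0, 2, 5, 3⟩⟩) (by decide +kernel))
      (posBox_of_check (c := ⟨241, ⟨0, 2, 5, 3⟩⟩) (by decide +kernel)))

def c0_262 : PosBox ⟨⟨0, 1, 1⟩, ⟨3000, 3011, 5000⟩, ⟨5, 8, 100⟩, ⟨0, 1, 1⟩⟩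
    (cC (4) 1 * (cC (1) 1 - cA * p0.v) - p0.lo * cB) :=
  posBox_of_check (c := ⟨71, ⟨0, 2, 4, 1⟩⟩) (by decide +kernel)

def c0_263 : PosBox ⟨⟨39, 40, 40⟩, ⟨3000, 3011, 5000⟩, ⟨5, 8, 100⟩, ⟨0, 1, 1⟩⟩
    (Ex.x₂ * cL0 p0.kl p0.v + cL1 p0.kl p0.v) :=
  posBox_of_check (c := ⟨204, ⟨2, 4, 12, 4⟩⟩) (by decide +kernel)

def c0_264 : PosBox ⟨⟨39, 40, 40⟩, ⟨3000, 3011, 5000⟩, ⟨5, 8, 100⟩, ⟨0, 1, 1⟩⟩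
    (Ex.x₂ * cL0 (p0.rho * p0.kl) p0.v + cL1 (p0.rho * p0.kl) p0.v) :=
  posBox_of_check (c := ⟨220, ⟨2, 4, 12, 4⟩⟩) (by decide +kernel)

def c0_265 : PosBox ⟨⟨39, 40, 40⟩, ⟨3000, 3011, 5000⟩, ⟨5, 8, 100⟩, ⟨0, 1, 1⟩⟩
    (cDen * cL0 p0.kl p0.v + cNum p0.v * cL1 p0.kl p0.v) :=
  posBox_of_check (c := ⟨246, ⟨2, 6, 13, 5⟩⟩) (by decide +kernel)

def c0_266 : PosBox ⟨⟨39, 40, 40⟩, ⟨3000, 3011, 5000⟩, ⟨5, 8, 100⟩, ⟨0, 1, 1⟩⟩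
    (cDen * cL0 (p0.rho * p0.kl) p0.v + cNum p0.v * cL1 (p0.rho * p0.kl) p0.v) :=
  posBox_of_check (c := ⟨262, ⟨2, 6, 13, 5⟩⟩) (by decide +kernel)

def c0_267 : PosBox ⟨⟨0, 1, 1⟩, ⟨3000, 3011, 5000⟩, ⟨5, 8, 100⟩, ⟨0, 1, 1⟩⟩
    (Ex.x₂ * g0_0.p * Ex.x₁ * cB * ((cC (2) 1 + Ex.x₂ * p0.v) * q0_0 - cC (39) 40) - cC (4) 1 * ((cC (2) 1 + Ex.x₂ * p0.v) * cB - Ex.x₁ * cC (39) 40 * cQ p0.v)) :=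
  posBox_cut₂ (A := ⟨10, 13, 200⟩) (B := ⟨13, 16, 200⟩) (by unfold covers; decide)
    (posBox_cut₃ (A := ⟨0, 1, 2⟩) (B := ⟨1, 2, 2⟩) (by unfold covers; decide)
      (posBox_of_check (c := ⟨309, ⟨0, 3, 7, 3⟩⟩) (by decide +kernel))
      (posBox_cut₂ (A := ⟨20, 23, 400⟩) (B := ⟨23, 26, 400⟩) (by unfold covers; decide)
        (posBox_cut₃ (A := ⟨2, 3, 4⟩) (B := ⟨3, 4, 4⟩) (by unfold covers; decide)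
          (posBox_of_check (c := ⟨429, ⟨0, 3, 7, 3⟩⟩) (by decide +kernel))
          (posBox_of_check (c := ⟨429, ⟨0, 3, 7, 3⟩⟩) (by decide +kernel)))
        (posBox_of_check (c := ⟨369, ⟨0, 3, 7, 3⟩⟩) (by decide +kernel))))
    (posBox_cut₃ (A := ⟨0, 1, 2⟩) (B := ⟨1, 2, 2⟩) (by unfold covers; decide)
      (posBox_of_check (c := ⟨309, ⟨0, 3, 7, 3⟩⟩) (by decide +kernel))
      (posBox_cut₂ (A := ⟨26, 29, 400⟩) (B := ⟨29, 32, 400⟩) (by unfold covers; decide)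
        (posBox_of_check (c := ⟨369, ⟨0, 3, 7, 3⟩⟩) (by decide +kernel))
        (posBox_of_check (c := ⟨369, ⟨0, 3, 7, 3⟩⟩) (by decide +kernel))))

def c0_268 : PosBox ⟨⟨0, 1, 1⟩, ⟨3000, 3011, 5000⟩, ⟨5, 8, 100⟩, ⟨0, 1, 1⟩⟩
    (g0_0.p * Ex.x₁ * cB * ((cC (2) 1 + Ex.x₂ * p0.v) * q0_0 - cC (1) 1) - cC (4) 1 * (cC (1) 1 - cA * p0.v)) :=
  posBox_of_check (c := ⟨184, ⟨0, 3, 6, 3⟩⟩) (by decide +kernel)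

def c0_269 : PosBox ⟨⟨0, 1, 1⟩, ⟨3000, 3011, 5000⟩, ⟨5, 8, 100⟩, ⟨0, 1, 1⟩⟩
    ((cC (2) 1 + Ex.x₂ * p0.v) * q0_0 - cC (1) 1) :=
  posBox_of_check (c := ⟨94, ⟨0, 0, 2, 1⟩⟩) (by decide +kernel)

def c0_270 : PosBox ⟨⟨0, 1, 1⟩, ⟨3000, 3011, 5000⟩, ⟨5, 8, 100⟩, ⟨0, 1, 1⟩⟩
    (q0_1 - cC (1) 1) :=
  posBox_of_check (c := ⟨89, ⟨0, 0, 2, 0⟩⟩) (by decide +kernel)

def c0_271 : PosBox ⟨⟨0, 1, 1⟩, ⟨3000, 3011, 5000⟩, ⟨5, 8, 100⟩, ⟨0, 1, 1⟩⟩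
    (cC (10) 7 - q0_1) :=
  posBox_of_check (c := ⟨92, ⟨0, 0, 2, 0⟩⟩) (by decide +kernel)

def c0_272 : PosBox ⟨⟨0, 1, 1⟩, ⟨3000, 3011, 5000⟩, ⟨5, 8, 100⟩, ⟨0, 1, 1⟩⟩
    (Ex.x₂ * g0_1.p * Ex.x₁ * cB * ((cC (2) 1 + Ex.x₂ * p0.v) * q0_1 - cC (39) 40) - cC (4) 1 * ((cC (2) 1 + Ex.x₂ * p0.v) * cB - Ex.x₁ * cC (39) 40 * cQ p0.v)) :=
  posBox_cut₂ (A := ⟨10, 13, 200⟩) (B := ⟨13, 16, 200⟩) (by unfold covers; decide)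
    (posBox_cut₃ (A := ⟨0, 1, 2⟩) (B := ⟨1, 2, 2⟩) (by unfold covers; decide)
      (posBox_of_check (c := ⟨331, ⟨0, 3, 9, 3⟩⟩) (by decide +kernel))
      (posBox_cut₂ (A := ⟨20, 23, 400⟩) (B := ⟨23, 26, 400⟩) (by unfold covers; decide)
        (posBox_cut₃ (A := ⟨2, 3, 4⟩) (B := ⟨3, 4, 4⟩) (by unfold covers; decide)
          (posBox_of_check (c := ⟨451, ⟨0, 3, 9, 3⟩⟩) (by decide +kernel))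
          (posBox_of_check (c := ⟨451, ⟨0, 3, 9, 3⟩⟩) (by decide +kernel)))
        (posBox_of_check (c := ⟨391, ⟨0, 3, 9, 3⟩⟩) (by decide +kernel))))
    (posBox_cut₃ (A := ⟨0, 1, 2⟩) (B := ⟨1, 2, 2⟩) (by unfold covers; decide)
      (posBox_of_check (c := ⟨331, ⟨0, 3, 9, 3⟩⟩) (by decide +kernel))
      (posBox_cut₂ (A := ⟨26, 29, 400⟩) (B := ⟨29, 32, 400⟩) (by unfold covers; decide)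
        (posBox_cut₃ (A := ⟨2, 3, 4⟩) (B := ⟨3, 4, 4⟩) (by unfold covers; decide)
          (posBox_of_check (c := ⟨451, ⟨0, 3, 9, 3⟩⟩) (by decide +kernel))
          (posBox_of_check (c := ⟨451, ⟨0, 3, 9, 3⟩⟩) (by decide +kernel)))
        (posBox_cut₃ (A := ⟨2, 3, 4⟩) (B := ⟨3, 4, 4⟩) (by unfold covers; decide)
          (posBox_of_check (c := ⟨451, ⟨0, 3, 9, 3⟩⟩) (by decide +kernel))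
          (posBox_of_check (c := ⟨451, ⟨0, 3, 9, 3⟩⟩) (by decide +kernel)))))

def c0_273 : PosBox ⟨⟨0, 1, 1⟩, ⟨3000, 3011, 5000⟩, ⟨5, 8, 100⟩, ⟨0, 1, 1⟩⟩
    (g0_1.p * Ex.x₁ * cB * ((cC (2) 1 + Ex.x₂ * p0.v) * q0_1 - cC (1) 1) - cC (4) 1 * (cC (1) 1 - cA * p0.v)) :=
  posBox_of_check (c := ⟨207, ⟨0, 3, 8, 3⟩⟩) (by decide +kernel)

def c0_274 : PosBox ⟨⟨0, 1, 1⟩, ⟨3000, 3011, 5000⟩, ⟨5, 8, 100⟩, ⟨0, 1, 1⟩⟩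
    ((cC (2) 1 + Ex.x₂ * p0.v) * q0_1 - cC (1) 1) :=
  posBox_of_check (c := ⟨116, ⟨0, 0, 4, 1⟩⟩) (by decide +kernel)

def c0_275 : PosBox ⟨⟨0, 1, 1⟩, ⟨3000, 3011, 5000⟩, ⟨5, 8, 100⟩, ⟨0, 1, 1⟩⟩
    (q0_2 - cC (1) 1) :=
  posBox_of_check (c := ⟨86, ⟨0, 0, 2, 0⟩⟩) (by decide +kernel)

def c0_276 : PosBox ⟨⟨0, 1, 1⟩, ⟨3000, 3011, 5000⟩, ⟨5, 8, 100⟩, ⟨0, 1, 1⟩⟩
    (cC (10) 7 - q0_2) :=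
  posBox_of_check (c := ⟨89, ⟨0, 0, 2, 0⟩⟩) (by decide +kernel)

def c0_277 : PosBox ⟨⟨0, 1, 1⟩, ⟨3000, 3011, 5000⟩, ⟨5, 8, 100⟩, ⟨0, 1, 1⟩⟩
    (cDel p0.v q0_1 g0_2.u₀) :=
  posBox_of_check (c := ⟨131, ⟨0, 1, 5, 1⟩⟩) (by decide +kernel)

def c0_278 : PosBox ⟨⟨0, 1, 1⟩, ⟨3000, 3011, 5000⟩, ⟨5, 8, 100⟩, ⟨0, 1, 1⟩⟩
    (g0_2.p * Ex.x₁ * cDel p0.v q0_1 g0_2.u₀ - cC (4) 1 * (cC (1) 1 - cA * p0.v)) :=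
  posBox_cut₂ (A := ⟨10, 13, 200⟩) (B := ⟨13, 16, 200⟩) (by unfold covers; decide)
    (posBox_cut₃ (A := ⟨0, 1, 2⟩) (B := ⟨1, 2, 2⟩) (by unfold covers; decide)
      (posBox_of_check (c := ⟨329, ⟨0, 3, 8, 3⟩⟩) (by decide +kernel))
      (posBox_of_check (c := ⟨329, ⟨0, 3, 8, 3⟩⟩) (by decide +kernel)))
    (posBox_cut₃ (A := ⟨0, 1, 2⟩) (B := ⟨1, 2, 2⟩) (by unfold covers; decide)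
      (posBox_of_check (c := ⟨329, ⟨0, 3, 8, 3⟩⟩) (by decide +kernel))
      (posBox_cut₂ (A := ⟨26, 29, 400⟩) (B := ⟨29, 32, 400⟩) (by unfold covers; decide)
        (posBox_cut₃ (A := ⟨2, 3, 4⟩) (B := ⟨3, 4, 4⟩) (by unfold covers; decide)
          (posBox_of_check (c := ⟨449, ⟨0, 3, 8, 3⟩⟩) (by decide +kernel))
          (posBox_of_check (c := ⟨449, ⟨0, 3, 8, 3⟩⟩) (by decide +kernel)))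
        (posBox_cut₃ (A := ⟨2, 3, 4⟩) (B := ⟨3, 4, 4⟩) (by unfold covers; decide)
          (posBox_cut₂ (A := ⟨58, 61, 800⟩) (B := ⟨61, 64, 800⟩) (by unfold covers; decide)
            (posBox_of_check (c := ⟨509, ⟨0, 3, 8, 3⟩⟩) (by decide +kernel))
            (posBox_cut₁ (A := ⟨6000, 6011, 10000⟩) (B := ⟨6011, 6022, 10000⟩) (by unfold covers; decide)
              (posBox_cut₃ (A := ⟨4, 5, 8⟩) (B := ⟨5, 6, 8⟩) (by unfold covers; decide)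
                (posBox_of_check (c := ⟨629, ⟨0, 3, 8, 3⟩⟩) (by decide +kernel))
                (posBox_of_check (c := ⟨629, ⟨0, 3, 8, 3⟩⟩) (by decide +kernel)))
              (posBox_of_check (c := ⟨569, ⟨0, 3, 8, 3⟩⟩) (by decide +kernel))))
          (posBox_of_check (c := ⟨449, ⟨0, 3, 8, 3⟩⟩) (by decide +kernel)))))

def c0_279 : PosBox ⟨⟨0, 1, 1⟩, ⟨3000, 3011, 5000⟩, ⟨5, 8, 100⟩, ⟨0, 1, 1⟩⟩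
    (q0_3 - cC (1) 1) :=
  posBox_of_check (c := ⟨89, ⟨0, 0, 2, 0⟩⟩) (by decide +kernel)

def c0_280 : PosBox ⟨⟨0, 1, 1⟩, ⟨3000, 3011, 5000⟩, ⟨5, 8, 100⟩, ⟨0, 1, 1⟩⟩
    (cC (10) 7 - q0_3) :=
  posBox_of_check (c := ⟨92, ⟨0, 0, 2, 0⟩⟩) (by decide +kernel)

def c0_281 : PosBox ⟨⟨0, 1, 1⟩, ⟨3000, 3011, 5000⟩, ⟨5, 8, 100⟩, ⟨0, 1, 1⟩⟩
    (cDel p0.v q0_2 g0_3.u₀) :=
  posBox_of_check (c := ⟨128, ⟨0, 1, 5, 1⟩⟩) (by decide +kernel)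

def c0_282 : PosBox ⟨⟨0, 1, 1⟩, ⟨3000, 3011, 5000⟩, ⟨5, 8, 100⟩, ⟨0, 1, 1⟩⟩
    (g0_3.p * Ex.x₁ * cDel p0.v q0_2 g0_3.u₀ - cC (4) 1 * (cC (1) 1 - cA * p0.v)) :=
  posBox_cut₂ (A := ⟨10, 13, 200⟩) (B := ⟨13, 16, 200⟩) (by unfold covers; decide)
    (posBox_cut₃ (A := ⟨0, 1, 2⟩) (B := ⟨1, 2, 2⟩) (by unfold covers; decide)
      (posBox_of_check (c := ⟨326, ⟨0, 3, 8, 3⟩⟩) (by decide +kernel))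
      (posBox_of_check (c := ⟨326, ⟨0, 3, 8, 3⟩⟩) (by decide +kernel)))
    (posBox_cut₃ (A := ⟨0, 1, 2⟩) (B := ⟨1, 2, 2⟩) (by unfold covers; decide)
      (posBox_of_check (c := ⟨326, ⟨0, 3, 8, 3⟩⟩) (by decide +kernel))
      (posBox_cut₂ (A := ⟨26, 29, 400⟩) (B := ⟨29, 32, 400⟩) (by unfold covers; decide)
        (posBox_cut₃ (A := ⟨2, 3, 4⟩) (B := ⟨3, 4, 4⟩) (by unfold covers; decide)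
          (posBox_of_check (c := ⟨446, ⟨0, 3, 8, 3⟩⟩) (by decide +kernel))
          (posBox_of_check (c := ⟨446, ⟨0, 3, 8, 3⟩⟩) (by decide +kernel)))
        (posBox_cut₃ (A := ⟨2, 3, 4⟩) (B := ⟨3, 4, 4⟩) (by unfold covers; decide)
          (posBox_cut₂ (A := ⟨58, 61, 800⟩) (B := ⟨61, 64, 800⟩) (by unfold covers; decide)
            (posBox_of_check (c := ⟨506, ⟨0, 3, 8, 3⟩⟩) (by decide +kernel))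
            (posBox_cut₁ (A := ⟨6000, 6011, 10000⟩) (B := ⟨6011, 6022, 10000⟩) (by unfold covers; decide)
              (posBox_cut₃ (A := ⟨4, 5, 8⟩) (B := ⟨5, 6, 8⟩) (by unfold covers; decide)
                (posBox_of_check (c := ⟨626, ⟨0, 3, 8, 3⟩⟩) (by decide +kernel))
                (posBox_of_check (c := ⟨626, ⟨0, 3, 8, 3⟩⟩) (by decide +kernel)))
              (posBox_of_check (c := ⟨566, ⟨0, 3, 8, 3⟩⟩) (by decide +kernel))))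
          (posBox_of_check (c := ⟨446, ⟨0, 3, 8, 3⟩⟩) (by decide +kernel)))))

def c0_283 : PosBox ⟨⟨0, 1, 1⟩, ⟨3000, 3011, 5000⟩, ⟨5, 8, 100⟩, ⟨0, 1, 1⟩⟩
    (q0_4 - cC (1) 1) :=
  posBox_of_check (c := ⟨87, ⟨0, 0, 2, 0⟩⟩) (by decide +kernel)

def c0_284 : PosBox ⟨⟨0, 1, 1⟩, ⟨3000, 3011, 5000⟩, ⟨5, 8, 100⟩, ⟨0, 1, 1⟩⟩
    (cC (10) 7 - q0_4) :=
  posBox_of_check (c := ⟨90, ⟨0, 0, 2, 0⟩⟩) (by decide +kernel)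

def c0_285 : PosBox ⟨⟨0, 1, 1⟩, ⟨3000, 3011, 5000⟩, ⟨5, 8, 100⟩, ⟨0, 1, 1⟩⟩
    (cDel p0.v q0_3 g0_4.u₀) :=
  posBox_of_check (c := ⟨131, ⟨0, 1, 5, 1⟩⟩) (by decide +kernel)

def c0_286 : PosBox ⟨⟨0, 1, 1⟩, ⟨3000, 3011, 5000⟩, ⟨5, 8, 100⟩, ⟨0, 1, 1⟩⟩
    (g0_4.p * Ex.x₁ * cDel p0.v q0_3 g0_4.u₀ - cC (4) 1 * (cC (1) 1 - cA * p0.v)) :=
  posBox_cut₂ (A := ⟨10, 13, 200⟩) (B := ⟨13, 16, 200⟩) (by unfold covers; decide)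
    (posBox_cut₃ (A := ⟨0, 1, 2⟩) (B := ⟨1, 2, 2⟩) (by unfold covers; decide)
      (posBox_of_check (c := ⟨330, ⟨0, 3, 8, 3⟩⟩) (by decide +kernel))
      (posBox_of_check (c := ⟨330, ⟨0, 3, 8, 3⟩⟩) (by decide +kernel)))
    (posBox_cut₃ (A := ⟨0, 1, 2⟩) (B := ⟨1, 2, 2⟩) (by unfold covers; decide)
      (posBox_of_check (c := ⟨330, ⟨0, 3, 8, 3⟩⟩) (by decide +kernel))
      (posBox_cut₂ (A := ⟨26, 29, 400⟩) (B := ⟨29, 32, 400⟩) (by unfold covers; decide)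
        (posBox_cut₃ (A := ⟨2, 3, 4⟩) (B := ⟨3, 4, 4⟩) (by unfold covers; decide)
          (posBox_of_check (c := ⟨450, ⟨0, 3, 8, 3⟩⟩) (by decide +kernel))
          (posBox_of_check (c := ⟨450, ⟨0, 3, 8, 3⟩⟩) (by decide +kernel)))
        (posBox_cut₃ (A := ⟨2, 3, 4⟩) (B := ⟨3, 4, 4⟩) (by unfold covers; decide)
          (posBox_cut₂ (A := ⟨58, 61, 800⟩) (B := ⟨61, 64, 800⟩) (by unfold covers; decide)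
            (posBox_of_check (c := ⟨510, ⟨0, 3, 8, 3⟩⟩) (by decide +kernel))
            (posBox_cut₁ (A := ⟨6000, 6011, 10000⟩) (B := ⟨6011, 6022, 10000⟩) (by unfold covers; decide)
              (posBox_cut₃ (A := ⟨4, 5, 8⟩) (B := ⟨5, 6, 8⟩) (by unfold covers; decide)
                (posBox_of_check (c := ⟨630, ⟨0, 3, 8, 3⟩⟩) (by decide +kernel))
                (posBox_of_check (c := ⟨630, ⟨0, 3, 8, 3⟩⟩) (by decide +kernel)))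
              (posBox_of_check (c := ⟨570, ⟨0, 3, 8, 3⟩⟩) (by decide +kernel))))
          (posBox_of_check (c := ⟨450, ⟨0, 3, 8, 3⟩⟩) (by decide +kernel)))))

def c0_287 : PosBox ⟨⟨0, 1, 1⟩, ⟨3000, 3011, 5000⟩, ⟨5, 8, 100⟩, ⟨0, 1, 1⟩⟩
    (cDel p0.v q0_4 g0_5.u₀) :=
  posBox_of_check (c := ⟨129, ⟨0, 1, 5, 1⟩⟩) (by decide +kernel)

def c0_288 : PosBox ⟨⟨0, 1, 1⟩, ⟨3000, 3011, 5000⟩, ⟨5, 8, 100⟩, ⟨0, 1, 1⟩⟩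
    (g0_5.p * Ex.x₁ * cDel p0.v q0_4 g0_5.u₀ - cC (4) 1 * (cC (1) 1 - cA * p0.v)) :=
  posBox_cut₂ (A := ⟨10, 13, 200⟩) (B := ⟨13, 16, 200⟩) (by unfold covers; decide)
    (posBox_cut₃ (A := ⟨0, 1, 2⟩) (B := ⟨1, 2, 2⟩) (by unfold covers; decide)
      (posBox_of_check (c := ⟨329, ⟨0, 3, 8, 3⟩⟩) (by decide +kernel))
      (posBox_of_check (c := ⟨329, ⟨0, 3, 8, 3⟩⟩) (by decide +kernel)))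
    (posBox_cut₃ (A := ⟨0, 1, 2⟩) (B := ⟨1, 2, 2⟩) (by unfold covers; decide)
      (posBox_of_check (c := ⟨329, ⟨0, 3, 8, 3⟩⟩) (by decide +kernel))
      (posBox_cut₂ (A := ⟨26, 29, 400⟩) (B := ⟨29, 32, 400⟩) (by unfold covers; decide)
        (posBox_cut₃ (A := ⟨2, 3, 4⟩) (B := ⟨3, 4, 4⟩) (by unfold covers; decide)
          (posBox_of_check (c := ⟨449, ⟨0, 3, 8, 3⟩⟩) (by decide +kernel))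
          (posBox_of_check (c := ⟨449, ⟨0, 3, 8, 3⟩⟩) (by decide +kernel)))
        (posBox_cut₃ (A := ⟨2, 3, 4⟩) (B := ⟨3, 4, 4⟩) (by unfold covers; decide)
          (posBox_cut₂ (A := ⟨58, 61, 800⟩) (B := ⟨61, 64, 800⟩) (by unfold covers; decide)
            (posBox_of_check (c := ⟨509, ⟨0, 3, 8, 3⟩⟩) (by decide +kernel))
            (posBox_cut₁ (A := ⟨6000, 6011, 10000⟩) (B := ⟨6011, 6022, 10000⟩) (by unfold covers; decide)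
              (posBox_cut₃ (A := ⟨4, 5, 8⟩) (B := ⟨5, 6, 8⟩) (by unfold covers; decide)
                (posBox_of_check (c := ⟨629, ⟨0, 3, 8, 3⟩⟩) (by decide +kernel))
                (posBox_of_check (c := ⟨629, ⟨0, 3, 8, 3⟩⟩) (by decide +kernel)))
              (posBox_of_check (c := ⟨569, ⟨0, 3, 8, 3⟩⟩) (by decide +kernel))))
          (posBox_of_check (c := ⟨449, ⟨0, 3, 8, 3⟩⟩) (by decide +kernel)))))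

def c0_289 : PosBox ⟨⟨0, 1, 1⟩, ⟨3000, 3011, 5000⟩, ⟨5, 8, 100⟩, ⟨0, 1, 1⟩⟩
    (cC (1) 40 - cC (191) 10000) :=
  posBox_of_check (c := ⟨71, ⟨0, 0, 0, 0⟩⟩) (by decide +kernel)

def c0_290 : PosBox ⟨⟨0, 1, 1⟩, ⟨3000, 3011, 5000⟩, ⟨5, 8, 100⟩, ⟨0, 1, 1⟩⟩
    (cDel p0.v q0_4 (cC (39) 40)) :=
  posBox_of_check (c := ⟨129, ⟨0, 1, 5, 1⟩⟩) (by decide +kernel)

def c0_291 : PosBox ⟨⟨0, 1, 1⟩, ⟨3000, 3011, 5000⟩, ⟨5, 8, 100⟩, ⟨0, 1, 1⟩⟩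
    (cC (191) 10000) :=
  posBox_of_check (c := ⟨70, ⟨0, 0, 0, 0⟩⟩) (by decide +kernel)

def c0_292 : PosBox ⟨⟨0, 1, 1⟩, ⟨3000, 3011, 5000⟩, ⟨5, 8, 100⟩, ⟨0, 1, 1⟩⟩
    (cC (191) 10000 * (Ex.x₁ * cDel p0.v q0_4 (cC (39) 40) - Ex.x₂ * (cC (1) 1 - cA * p0.v)) - Ex.x₂ * (cC (1) 1 - cA * p0.v) * (q0_4 - cC (1) 1)) :=
  posBox_of_check (c := ⟨153, ⟨0, 2, 5, 1⟩⟩) (by decide +kernel)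

def c0_293 : PosBox ⟨⟨0, 1, 1⟩, ⟨3000, 3011, 5000⟩, ⟨5, 8, 100⟩, ⟨0, 1, 1⟩⟩
    (cC (2) 1 * (cC (1) 1 - Ex.x₁) - (cC (2) 1 + (Ex.x₁ - Ex.x₂) * (cC (1) 1 - Ex.x₁)) * ((cC (217) 125 + cC (-1139) 200 * Ex.x₂) - (cC (3) 2 - cC (47) 5 * Ex.x₂ + cC (28) 1 * Ex.x₂ * Ex.x₂))) :=
  posBox_cut₂ (A := ⟨10, 13, 200⟩) (B := ⟨13, 16, 200⟩) (by unfold covers; decide)
    (posBox_of_check (c := ⟨110, ⟨0, 2, 3, 0⟩⟩) (by decide +kernel))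
    (posBox_of_check (c := ⟨110, ⟨0, 2, 3, 0⟩⟩) (by decide +kernel))

end Vale.Agent.P100.Calib.Closed.End
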