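import Vale.Agent.P100.Calib.SlabEndData

/-!
# Checks of the end strip, piece `0`
-/

set_option linter.defProp false

namespace Vale.Agent.P100.Calib.Closed.End

open BoxPos
open Large (PosBox posBox_of_check)

local instance endChk0B3Add : Add Ex := ⟨Ex.add⟩
local instance endChk0B3Mul : Mul Ex := ⟨Ex.mul⟩
local instance endChk0B3Sub : Sub Ex := ⟨Ex.sub⟩

def c0_294 : PosBox ⟨⟨0, 1, 1⟩, ⟨3000, 3011, 5000⟩, ⟨5, 8, 100⟩, ⟨0, 1, 1⟩⟩
    ((cC (3287) 1000 + cC (6993) 1000 * Ex.x₂) * (Ex.x₁ - Ex.x₂) - cC (2) 1) :=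
  posBox_of_check (c := ⟨37, ⟨0, 1, 2, 0⟩⟩) (by decide +kernel)

end Vale.Agent.P100.Calib.Closed.End
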