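import Vale.Agent.P100.Calib.SlabEndData

/-!
# Checks of the end strip, piece `1`
-/

set_option linter.defProp false

namespace Vale.Agent.P100.Calib.Closed.End

open BoxPos
open Large (PosBox posBox_of_check)

local instance endChk1A0Add : Add Ex := ⟨Ex.add⟩
local instance endChk1A0Mul : Mul Ex := ⟨Ex.mul⟩
local instance endChk1A0Sub : Sub Ex := ⟨Ex.sub⟩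

def c1_296 : PosBox ⟨⟨0, 1, 1⟩, ⟨375, 378, 625⟩, ⟨2, 3, 25⟩, ⟨0, 1, 1⟩⟩
    (cF p1.kl p1.v (g1.s₀.t) (g1.u₀) (p1.wh g1.s₀.t) g1.p g1.s₀.phi) :=
  posBox_of_check (c := ⟨448, ⟨0, 12, 28, 9⟩⟩) (by decide +kernel)

def c1_297 : PosBox ⟨⟨0, 1, 1⟩, ⟨375, 378, 625⟩, ⟨2, 3, 25⟩, ⟨0, 1, 1⟩⟩
    (cR p1.kl p1.v (g1.s₀.t) (g1.u₀) (p1.wl g1.s₀.t) (p1.wh g1.s₀.t) g1.p) :=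
  posBox_of_check (c := ⟨307, ⟨0, 9, 19, 6⟩⟩) (by decide +kernel)

def c1_298 : PosBox ⟨⟨0, 1, 1⟩, ⟨375, 378, 625⟩, ⟨2, 3, 25⟩, ⟨0, 1, 1⟩⟩
    (cG p1.kl p1.v (g1.s₀.t) (g1.u₀) (p1.wl g1.s₀.t) (p1.wh g1.s₀.t) g1.p (cC (1) 4)) :=
  posBox_of_check (c := ⟨366, ⟨0, 9, 22, 7⟩⟩) (by decide +kernel)

def c1_304 : PosBox ⟨⟨0, 1, 1⟩, ⟨375, 378, 625⟩, ⟨2, 3, 25⟩, ⟨0, 1, 1⟩⟩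
    (cF p1.kl p1.v (g1.s₀.t) (g1.u₁) (p1.wh g1.s₀.t) g1.p g1.s₀.phi) :=
  posBox_of_check (c := ⟨454, ⟨0, 12, 28, 9⟩⟩) (by decide +kernel)

def c1_305 : PosBox ⟨⟨0, 1, 1⟩, ⟨375, 378, 625⟩, ⟨2, 3, 25⟩, ⟨0, 1, 1⟩⟩
    (cR p1.kl p1.v (g1.s₀.t) (g1.u₁) (p1.wl g1.s₀.t) (p1.wh g1.s₀.t) g1.p) :=
  posBox_of_check (c := ⟨309, ⟨0, 9, 19, 6⟩⟩) (by decide +kernel)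

def c1_306 : PosBox ⟨⟨0, 1, 1⟩, ⟨375, 378, 625⟩, ⟨2, 3, 25⟩, ⟨0, 1, 1⟩⟩
    (cG p1.kl p1.v (g1.s₀.t) (g1.u₁) (p1.wl g1.s₀.t) (p1.wh g1.s₀.t) g1.p (cC (1) 4)) :=
  posBox_of_check (c := ⟨370, ⟨0, 9, 22, 7⟩⟩) (by decide +kernel)

def c1_315 : PosBox ⟨⟨0, 1, 1⟩, ⟨375, 378, 625⟩, ⟨2, 3, 25⟩, ⟨0, 1, 1⟩⟩
    (cF p1.kl p1.v (g1.s₁.t) (g1.u₀) (p1.wh g1.s₁.t) g1.p g1.s₁.phi) :=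
  posBox_of_check (c := ⟨636, ⟨0, 12, 34, 15⟩⟩) (by decide +kernel)

def c1_316 : PosBox ⟨⟨0, 1, 1⟩, ⟨375, 378, 625⟩, ⟨2, 3, 25⟩, ⟨0, 1, 1⟩⟩
    (cF p1.kl p1.v (g1.s₁.t) (g1.u₀) (p1.wl g1.s₁.t) g1.p g1.s₁.phi) :=
  posBox_of_check (c := ⟨680, ⟨0, 12, 34, 15⟩⟩) (by decide +kernel)

def c1_317 : PosBox ⟨⟨0, 1, 1⟩, ⟨375, 378, 625⟩, ⟨2, 3, 25⟩, ⟨0, 1, 1⟩⟩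
    (cG p1.kl p1.v (g1.s₁.t) (g1.u₀) (p1.wl g1.s₁.t) (p1.wh g1.s₁.t) g1.p (cC (1) 4)) :=
  posBox_of_check (c := ⟨492, ⟨0, 9, 26, 11⟩⟩) (by decide +kernel)

def c1_323 : PosBox ⟨⟨0, 1, 1⟩, ⟨375, 378, 625⟩, ⟨2, 3, 25⟩, ⟨0, 1, 1⟩⟩
    (cF p1.kl p1.v (g1.s₁.t) (g1.u₁) (p1.wh g1.s₁.t) g1.p g1.s₁.phi) :=
  posBox_of_check (c := ⟨636, ⟨0, 12, 34, 15⟩⟩) (by decide +kernel)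

def c1_324 : PosBox ⟨⟨0, 1, 1⟩, ⟨375, 378, 625⟩, ⟨2, 3, 25⟩, ⟨0, 1, 1⟩⟩
    (cF p1.kl p1.v (g1.s₁.t) (g1.u₁) (p1.wl g1.s₁.t) g1.p g1.s₁.phi) :=
  posBox_of_check (c := ⟨680, ⟨0, 12, 34, 15⟩⟩) (by decide +kernel)

def c1_325 : PosBox ⟨⟨0, 1, 1⟩, ⟨375, 378, 625⟩, ⟨2, 3, 25⟩, ⟨0, 1, 1⟩⟩
    (cG p1.kl p1.v (g1.s₁.t) (g1.u₁) (p1.wl g1.s₁.t) (p1.wh g1.s₁.t) g1.p (cC (1) 4)) :=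
  posBox_of_check (c := ⟨492, ⟨0, 9, 26, 11⟩⟩) (by decide +kernel)

def c1_337 : PosBox ⟨⟨0, 1, 1⟩, ⟨375, 378, 625⟩, ⟨2, 3, 25⟩, ⟨0, 1, 1⟩⟩
    (cF p1.kl p1.v (g1_0.s₀.t) (g1_0.u₀) (p1.wh g1_0.s₀.t) g1_0.p g1_0.s₀.phi) :=
  posBox_of_check (c := ⟨474, ⟨0, 12, 28, 11⟩⟩) (by decide +kernel)

def c1_338 : PosBox ⟨⟨0, 1, 1⟩, ⟨375, 378, 625⟩, ⟨2, 3, 25⟩, ⟨0, 1, 1⟩⟩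
    (cF p1.kl p1.v (g1_0.s₀.t) (g1_0.u₀) (p1.wl g1_0.s₀.t) g1_0.p g1_0.s₀.phi) :=
  posBox_of_check (c := ⟨517, ⟨0, 12, 28, 11⟩⟩) (by decide +kernel)

def c1_339 : PosBox ⟨⟨0, 1, 1⟩, ⟨375, 378, 625⟩, ⟨2, 3, 25⟩, ⟨0, 1, 1⟩⟩
    (cG p1.kl p1.v (g1_0.s₀.t) (g1_0.u₀) (p1.wl g1_0.s₀.t) (p1.wh g1_0.s₀.t) g1_0.p (cC (1) 4)) :=
  posBox_of_check (c := ⟨389, ⟨0, 9, 22, 9⟩⟩) (by decide +kernel)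

def c1_342 : PosBox ⟨⟨0, 1, 1⟩, ⟨375, 378, 625⟩, ⟨2, 3, 25⟩, ⟨0, 1, 1⟩⟩
    (cF p1.kl p1.v (g1_0.s₀.t) (g1_0.u₁) (p1.wh g1_0.s₀.t) g1_0.p g1_0.s₀.phi) :=
  posBox_of_check (c := ⟨480, ⟨0, 12, 28, 11⟩⟩) (by decide +kernel)

def c1_343 : PosBox ⟨⟨0, 1, 1⟩, ⟨375, 378, 625⟩, ⟨2, 3, 25⟩, ⟨0, 1, 1⟩⟩
    (cF p1.kl p1.v (g1_0.s₀.t) (g1_0.u₁) (p1.wl g1_0.s₀.t) g1_0.p g1_0.s₀.phi) :=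
  posBox_of_check (c := ⟨523, ⟨0, 12, 28, 11⟩⟩) (by decide +kernel)

def c1_344 : PosBox ⟨⟨0, 1, 1⟩, ⟨375, 378, 625⟩, ⟨2, 3, 25⟩, ⟨0, 1, 1⟩⟩
    (cG p1.kl p1.v (g1_0.s₀.t) (g1_0.u₁) (p1.wl g1_0.s₀.t) (p1.wh g1_0.s₀.t) g1_0.p (cC (1) 4)) :=
  posBox_of_check (c := ⟨393, ⟨0, 9, 22, 9⟩⟩) (by decide +kernel)

def c1_350 : PosBox ⟨⟨0, 1, 1⟩, ⟨375, 378, 625⟩, ⟨2, 3, 25⟩, ⟨0, 1, 1⟩⟩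
    (cF p1.kl p1.v (g1_0.s₁.t) (g1_0.u₀) (p1.wh g1_0.s₁.t) g1_0.p g1_0.s₁.phi) :=
  posBox_of_check (c := ⟨653, ⟨0, 12, 34, 17⟩⟩) (by decide +kernel)

def c1_351 : PosBox ⟨⟨0, 1, 1⟩, ⟨375, 378, 625⟩, ⟨2, 3, 25⟩, ⟨0, 1, 1⟩⟩
    (cF p1.kl p1.v (g1_0.s₁.t) (g1_0.u₀) (p1.wl g1_0.s₁.t) g1_0.p g1_0.s₁.phi) :=
  posBox_of_check (c := ⟨697, ⟨0, 12, 34, 17⟩⟩) (by decide +kernel)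

def c1_352 : PosBox ⟨⟨0, 1, 1⟩, ⟨375, 378, 625⟩, ⟨2, 3, 25⟩, ⟨0, 1, 1⟩⟩
    (cG p1.kl p1.v (g1_0.s₁.t) (g1_0.u₀) (p1.wl g1_0.s₁.t) (p1.wh g1_0.s₁.t) g1_0.p (cC (1) 4)) :=
  posBox_of_check (c := ⟨509, ⟨0, 9, 26, 13⟩⟩) (by decide +kernel)

def c1_355 : PosBox ⟨⟨0, 1, 1⟩, ⟨375, 378, 625⟩, ⟨2, 3, 25⟩, ⟨0, 1, 1⟩⟩
    (cF p1.kl p1.v (g1_0.s₁.t) (g1_0.u₁) (p1.wh g1_0.s₁.t) g1_0.p g1_0.s₁.phi) :=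
  posBox_of_check (c := ⟨653, ⟨0, 12, 34, 17⟩⟩) (by decide +kernel)

def c1_356 : PosBox ⟨⟨0, 1, 1⟩, ⟨375, 378, 625⟩, ⟨2, 3, 25⟩, ⟨0, 1, 1⟩⟩
    (cF p1.kl p1.v (g1_0.s₁.t) (g1_0.u₁) (p1.wl g1_0.s₁.t) g1_0.p g1_0.s₁.phi) :=
  posBox_of_check (c := ⟨697, ⟨0, 12, 34, 17⟩⟩) (by decide +kernel)

def c1_357 : PosBox ⟨⟨0, 1, 1⟩, ⟨375, 378, 625⟩, ⟨2, 3, 25⟩, ⟨0, 1, 1⟩⟩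
    (cG p1.kl p1.v (g1_0.s₁.t) (g1_0.u₁) (p1.wl g1_0.s₁.t) (p1.wh g1_0.s₁.t) g1_0.p (cC (1) 4)) :=
  posBox_of_check (c := ⟨509, ⟨0, 9, 26, 13⟩⟩) (by decide +kernel)

def c1_366 : PosBox ⟨⟨0, 1, 1⟩, ⟨375, 378, 625⟩, ⟨2, 3, 25⟩, ⟨0, 1, 1⟩⟩
    (cF p1.kl p1.v (g1_1.s₀.t) (g1_1.u₀) (p1.wh g1_1.s₀.t) g1_1.p g1_1.s₀.phi) :=
  posBox_of_check (c := ⟨522, ⟨0, 12, 34, 11⟩⟩) (by decide +kernel)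

def c1_367 : PosBox ⟨⟨0, 1, 1⟩, ⟨375, 378, 625⟩, ⟨2, 3, 25⟩, ⟨0, 1, 1⟩⟩
    (cR p1.kl p1.v (g1_1.s₀.t) (g1_1.u₀) (p1.wl g1_1.s₀.t) (p1.wh g1_1.s₀.t) g1_1.p) :=
  posBox_of_check (c := ⟨335, ⟨0, 9, 21, 7⟩⟩) (by decide +kernel)

def c1_368 : PosBox ⟨⟨0, 1, 1⟩, ⟨375, 378, 625⟩, ⟨2, 3, 25⟩, ⟨0, 1, 1⟩⟩
    (cG p1.kl p1.v (g1_1.s₀.t) (g1_1.u₀) (p1.wl g1_1.s₀.t) (p1.wh g1_1.s₀.t) g1_1.p (cC (1) 4)) :=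
  posBox_of_check (c := ⟨424, ⟨0, 9, 26, 9⟩⟩) (by decide +kernel)

def c1_371 : PosBox ⟨⟨0, 1, 1⟩, ⟨375, 378, 625⟩, ⟨2, 3, 25⟩, ⟨0, 1, 1⟩⟩
    (cF p1.kl p1.v (g1_1.s₀.t) (g1_1.u₁) (p1.wh g1_1.s₀.t) g1_1.p g1_1.s₀.phi) :=
  posBox_of_check (c := ⟨522, ⟨0, 12, 34, 11⟩⟩) (by decide +kernel)

end Vale.Agent.P100.Calib.Closed.End
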