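import Vale.Agent.P100.Calib.SlabEndData

/-!
# Checks of the end strip, piece `2`
-/

set_option linter.defProp false

namespace Vale.Agent.P100.Calib.Closed.End

open BoxPos
open Large (PosBox posBox_of_check)

local instance endChk2A0Add : Add Ex := ⟨Ex.add⟩
local instance endChk2A0Mul : Mul Ex := ⟨Ex.mul⟩
local instance endChk2A0Sub : Sub Ex := ⟨Ex.sub⟩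

def c2_517 : PosBox ⟨⟨0, 1, 1⟩, ⟨1521, 1535, 2535⟩, ⟨12, 15, 100⟩, ⟨0, 1, 1⟩⟩
    (cF p2.kl p2.v (g2.s₀.t) (g2.u₀) (p2.wh g2.s₀.t) g2.p g2.s₀.phi) :=
  posBox_of_check (c := ⟨548, ⟨0, 12, 28, 9⟩⟩) (by decide +kernel)

def c2_518 : PosBox ⟨⟨0, 1, 1⟩, ⟨1521, 1535, 2535⟩, ⟨12, 15, 100⟩, ⟨0, 1, 1⟩⟩
    (cR p2.kl p2.v (g2.s₀.t) (g2.u₀) (p2.wl g2.s₀.t) (p2.wh g2.s₀.t) g2.p) :=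
  posBox_of_check (c := ⟨386, ⟨0, 9, 19, 6⟩⟩) (by decide +kernel)

def c2_519 : PosBox ⟨⟨0, 1, 1⟩, ⟨1521, 1535, 2535⟩, ⟨12, 15, 100⟩, ⟨0, 1, 1⟩⟩
    (cG p2.kl p2.v (g2.s₀.t) (g2.u₀) (p2.wl g2.s₀.t) (p2.wh g2.s₀.t) g2.p (cC (1) 4)) :=
  posBox_of_check (c := ⟨448, ⟨0, 9, 22, 7⟩⟩) (by decide +kernel)

def c2_525 : PosBox ⟨⟨0, 1, 1⟩, ⟨1521, 1535, 2535⟩, ⟨12, 15, 100⟩, ⟨0, 1, 1⟩⟩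
    (cF p2.kl p2.v (g2.s₀.t) (g2.u₁) (p2.wh g2.s₀.t) g2.p g2.s₀.phi) :=
  posBox_of_check (c := ⟨548, ⟨0, 12, 28, 9⟩⟩) (by decide +kernel)

def c2_526 : PosBox ⟨⟨0, 1, 1⟩, ⟨1521, 1535, 2535⟩, ⟨12, 15, 100⟩, ⟨0, 1, 1⟩⟩
    (cR p2.kl p2.v (g2.s₀.t) (g2.u₁) (p2.wl g2.s₀.t) (p2.wh g2.s₀.t) g2.p) :=
  posBox_of_check (c := ⟨386, ⟨0, 9, 19, 6⟩⟩) (by decide +kernel)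

def c2_527 : PosBox ⟨⟨0, 1, 1⟩, ⟨1521, 1535, 2535⟩, ⟨12, 15, 100⟩, ⟨0, 1, 1⟩⟩
    (cG p2.kl p2.v (g2.s₀.t) (g2.u₁) (p2.wl g2.s₀.t) (p2.wh g2.s₀.t) g2.p (cC (1) 4)) :=
  posBox_of_check (c := ⟨448, ⟨0, 9, 22, 7⟩⟩) (by decide +kernel)

def c2_535 : PosBox ⟨⟨0, 1, 1⟩, ⟨1521, 1535, 2535⟩, ⟨12, 15, 100⟩, ⟨0, 1, 1⟩⟩
    (cG p2.kl p2.v (g2.s₁.t) (g2.u₀) (p2.wh g2.s₁.t) (p2.wl g2.s₁.t) g2.p (cC (1) 4)) :=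
  posBox_of_check (c := ⟨635, ⟨0, 9, 26, 11⟩⟩) (by decide +kernel)

def c2_536 : PosBox ⟨⟨0, 1, 1⟩, ⟨1521, 1535, 2535⟩, ⟨12, 15, 100⟩, ⟨0, 1, 1⟩⟩
    (cG p2.kl p2.v (g2.s₁.t) (g2.u₁) (p2.wh g2.s₁.t) (p2.wl g2.s₁.t) g2.p (cC (1) 4)) :=
  posBox_of_check (c := ⟨635, ⟨0, 9, 26, 11⟩⟩) (by decide +kernel)

def c2_537 : PosBox ⟨⟨0, 1, 1⟩, ⟨1521, 1535, 2535⟩, ⟨12, 15, 100⟩, ⟨0, 1, 1⟩⟩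
    (cF p2.kl p2.v (g2.s₁.t) (g2.u₀) (p2.wh g2.s₁.t) g2.p g2.s₁.phi) :=
  posBox_of_check (c := ⟨748, ⟨0, 12, 34, 15⟩⟩) (by decide +kernel)

def c2_538 : PosBox ⟨⟨0, 1, 1⟩, ⟨1521, 1535, 2535⟩, ⟨12, 15, 100⟩, ⟨0, 1, 1⟩⟩
    (cF p2.kl p2.v (g2.s₁.t) (g2.u₀) (p2.wl g2.s₁.t) g2.p g2.s₁.phi) :=
  posBox_of_check (c := ⟨791, ⟨0, 12, 34, 15⟩⟩) (by decide +kernel)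

def c2_539 : PosBox ⟨⟨0, 1, 1⟩, ⟨1521, 1535, 2535⟩, ⟨12, 15, 100⟩, ⟨0, 1, 1⟩⟩
    (cG p2.kl p2.v (g2.s₁.t) (g2.u₀) (p2.wl g2.s₁.t) (p2.wh g2.s₁.t) g2.p (cC (1) 4)) :=
  posBox_of_check (c := ⟨581, ⟨0, 9, 26, 11⟩⟩) (by decide +kernel)

def c2_545 : PosBox ⟨⟨0, 1, 1⟩, ⟨1521, 1535, 2535⟩, ⟨12, 15, 100⟩, ⟨0, 1, 1⟩⟩
    (cF p2.kl p2.v (g2.s₁.t) (g2.u₁) (p2.wh g2.s₁.t) g2.p g2.s₁.phi) :=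
  posBox_of_check (c := ⟨748, ⟨0, 12, 34, 15⟩⟩) (by decide +kernel)

def c2_546 : PosBox ⟨⟨0, 1, 1⟩, ⟨1521, 1535, 2535⟩, ⟨12, 15, 100⟩, ⟨0, 1, 1⟩⟩
    (cF p2.kl p2.v (g2.s₁.t) (g2.u₁) (p2.wl g2.s₁.t) g2.p g2.s₁.phi) :=
  posBox_of_check (c := ⟨791, ⟨0, 12, 34, 15⟩⟩) (by decide +kernel)

def c2_547 : PosBox ⟨⟨0, 1, 1⟩, ⟨1521, 1535, 2535⟩, ⟨12, 15, 100⟩, ⟨0, 1, 1⟩⟩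
    (cG p2.kl p2.v (g2.s₁.t) (g2.u₁) (p2.wl g2.s₁.t) (p2.wh g2.s₁.t) g2.p (cC (1) 4)) :=
  posBox_of_check (c := ⟨581, ⟨0, 9, 26, 11⟩⟩) (by decide +kernel)

def c2_558 : PosBox ⟨⟨0, 1, 1⟩, ⟨1521, 1535, 2535⟩, ⟨12, 15, 100⟩, ⟨0, 1, 1⟩⟩
    (cG p2.kl p2.v (g2_0.s₀.t) (g2_0.u₀) (p2.wh g2_0.s₀.t) (p2.wl g2_0.s₀.t) g2_0.p (cC (1) 4)) :=
  posBox_of_check (c := ⟨536, ⟨0, 9, 22, 9⟩⟩) (by decide +kernel)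

def c2_559 : PosBox ⟨⟨0, 1, 1⟩, ⟨1521, 1535, 2535⟩, ⟨12, 15, 100⟩, ⟨0, 1, 1⟩⟩
    (cG p2.kl p2.v (g2_0.s₀.t) (g2_0.u₁) (p2.wh g2_0.s₀.t) (p2.wl g2_0.s₀.t) g2_0.p (cC (1) 4)) :=
  posBox_of_check (c := ⟨536, ⟨0, 9, 22, 9⟩⟩) (by decide +kernel)

def c2_560 : PosBox ⟨⟨0, 1, 1⟩, ⟨1521, 1535, 2535⟩, ⟨12, 15, 100⟩, ⟨0, 1, 1⟩⟩
    (cF p2.kl p2.v (g2_0.s₀.t) (g2_0.u₀) (p2.wh g2_0.s₀.t) g2_0.p g2_0.s₀.phi) :=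
  posBox_of_check (c := ⟨584, ⟨0, 12, 28, 11⟩⟩) (by decide +kernel)

def c2_561 : PosBox ⟨⟨0, 1, 1⟩, ⟨1521, 1535, 2535⟩, ⟨12, 15, 100⟩, ⟨0, 1, 1⟩⟩
    (cF p2.kl p2.v (g2_0.s₀.t) (g2_0.u₀) (p2.wl g2_0.s₀.t) g2_0.p g2_0.s₀.phi) :=
  posBox_of_check (c := ⟨628, ⟨0, 12, 28, 11⟩⟩) (by decide +kernel)

def c2_562 : PosBox ⟨⟨0, 1, 1⟩, ⟨1521, 1535, 2535⟩, ⟨12, 15, 100⟩, ⟨0, 1, 1⟩⟩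
    (cG p2.kl p2.v (g2_0.s₀.t) (g2_0.u₀) (p2.wl g2_0.s₀.t) (p2.wh g2_0.s₀.t) g2_0.p (cC (1) 4)) :=
  posBox_of_check (c := ⟨481, ⟨0, 9, 22, 9⟩⟩) (by decide +kernel)

def c2_565 : PosBox ⟨⟨0, 1, 1⟩, ⟨1521, 1535, 2535⟩, ⟨12, 15, 100⟩, ⟨0, 1, 1⟩⟩
    (cF p2.kl p2.v (g2_0.s₀.t) (g2_0.u₁) (p2.wh g2_0.s₀.t) g2_0.p g2_0.s₀.phi) :=
  posBox_of_check (c := ⟨584, ⟨0, 12, 28, 11⟩⟩) (by decide +kernel)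

def c2_566 : PosBox ⟨⟨0, 1, 1⟩, ⟨1521, 1535, 2535⟩, ⟨12, 15, 100⟩, ⟨0, 1, 1⟩⟩
    (cF p2.kl p2.v (g2_0.s₀.t) (g2_0.u₁) (p2.wl g2_0.s₀.t) g2_0.p g2_0.s₀.phi) :=
  posBox_of_check (c := ⟨628, ⟨0, 12, 28, 11⟩⟩) (by decide +kernel)

def c2_567 : PosBox ⟨⟨0, 1, 1⟩, ⟨1521, 1535, 2535⟩, ⟨12, 15, 100⟩, ⟨0, 1, 1⟩⟩
    (cG p2.kl p2.v (g2_0.s₀.t) (g2_0.u₁) (p2.wl g2_0.s₀.t) (p2.wh g2_0.s₀.t) g2_0.p (cC (1) 4)) :=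
  posBox_of_check (c := ⟨481, ⟨0, 9, 22, 9⟩⟩) (by decide +kernel)

def c2_572 : PosBox ⟨⟨0, 1, 1⟩, ⟨1521, 1535, 2535⟩, ⟨12, 15, 100⟩, ⟨0, 1, 1⟩⟩
    (cG p2.kl p2.v (g2_0.s₁.t) (g2_0.u₀) (p2.wh g2_0.s₁.t) (p2.wl g2_0.s₁.t) g2_0.p (cC (1) 4)) :=
  posBox_of_check (c := ⟨663, ⟨0, 9, 26, 13⟩⟩) (by decide +kernel)

def c2_573 : PosBox ⟨⟨0, 1, 1⟩, ⟨1521, 1535, 2535⟩, ⟨12, 15, 100⟩, ⟨0, 1, 1⟩⟩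
    (cG p2.kl p2.v (g2_0.s₁.t) (g2_0.u₁) (p2.wh g2_0.s₁.t) (p2.wl g2_0.s₁.t) g2_0.p (cC (1) 4)) :=
  posBox_of_check (c := ⟨663, ⟨0, 9, 26, 13⟩⟩) (by decide +kernel)

def c2_574 : PosBox ⟨⟨0, 1, 1⟩, ⟨1521, 1535, 2535⟩, ⟨12, 15, 100⟩, ⟨0, 1, 1⟩⟩
    (cF p2.kl p2.v (g2_0.s₁.t) (g2_0.u₀) (p2.wh g2_0.s₁.t) g2_0.p g2_0.s₁.phi) :=
  posBox_of_check (c := ⟨775, ⟨0, 12, 34, 17⟩⟩) (by decide +kernel)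

def c2_575 : PosBox ⟨⟨0, 1, 1⟩, ⟨1521, 1535, 2535⟩, ⟨12, 15, 100⟩, ⟨0, 1, 1⟩⟩
    (cF p2.kl p2.v (g2_0.s₁.t) (g2_0.u₀) (p2.wl g2_0.s₁.t) g2_0.p g2_0.s₁.phi) :=
  posBox_of_check (c := ⟨819, ⟨0, 12, 34, 17⟩⟩) (by decide +kernel)

def c2_576 : PosBox ⟨⟨0, 1, 1⟩, ⟨1521, 1535, 2535⟩, ⟨12, 15, 100⟩, ⟨0, 1, 1⟩⟩
    (cG p2.kl p2.v (g2_0.s₁.t) (g2_0.u₀) (p2.wl g2_0.s₁.t) (p2.wh g2_0.s₁.t) g2_0.p (cC (1) 4)) :=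
  posBox_of_check (c := ⟨608, ⟨0, 9, 26, 13⟩⟩) (by decide +kernel)

def c2_579 : PosBox ⟨⟨0, 1, 1⟩, ⟨1521, 1535, 2535⟩, ⟨12, 15, 100⟩, ⟨0, 1, 1⟩⟩
    (cF p2.kl p2.v (g2_0.s₁.t) (g2_0.u₁) (p2.wh g2_0.s₁.t) g2_0.p g2_0.s₁.phi) :=
  posBox_of_check (c := ⟨775, ⟨0, 12, 34, 17⟩⟩) (by decide +kernel)

end Vale.Agent.P100.Calib.Closed.End
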