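import Vale.Agent.P100.Calib.SlabEndData

/-!
# Checks of the end strip, piece `3`
-/

set_option linter.defProp false

namespace Vale.Agent.P100.Calib.Closed.End

open BoxPos
open Large (PosBox posBox_of_check)

local instance endChk3A0Add : Add Ex := ⟨Ex.add⟩
local instance endChk3A0Mul : Mul Ex := ⟨Ex.mul⟩
local instance endChk3A0Sub : Sub Ex := ⟨Ex.sub⟩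

def c3_742 : PosBox ⟨⟨0, 1, 1⟩, ⟨1521, 1535, 2535⟩, ⟨15, 18, 100⟩, ⟨0, 1, 1⟩⟩
    (cF p3.kl p3.v (g3.s₀.t) (g3.u₀) (p3.wh g3.s₀.t) g3.p g3.s₀.phi) :=
  posBox_of_check (c := ⟨557, ⟨0, 12, 28, 9⟩⟩) (by decide +kernel)

def c3_743 : PosBox ⟨⟨0, 1, 1⟩, ⟨1521, 1535, 2535⟩, ⟨15, 18, 100⟩, ⟨0, 1, 1⟩⟩
    (cR p3.kl p3.v (g3.s₀.t) (g3.u₀) (p3.wl g3.s₀.t) (p3.wh g3.s₀.t) g3.p) :=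
  posBox_of_check (c := ⟨391, ⟨0, 9, 19, 6⟩⟩) (by decide +kernel)

def c3_744 : PosBox ⟨⟨0, 1, 1⟩, ⟨1521, 1535, 2535⟩, ⟨15, 18, 100⟩, ⟨0, 1, 1⟩⟩
    (cG p3.kl p3.v (g3.s₀.t) (g3.u₀) (p3.wl g3.s₀.t) (p3.wh g3.s₀.t) g3.p (cC (1) 4)) :=
  posBox_of_check (c := ⟨456, ⟨0, 9, 22, 7⟩⟩) (by decide +kernel)

def c3_750 : PosBox ⟨⟨0, 1, 1⟩, ⟨1521, 1535, 2535⟩, ⟨15, 18, 100⟩, ⟨0, 1, 1⟩⟩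
    (cF p3.kl p3.v (g3.s₀.t) (g3.u₁) (p3.wh g3.s₀.t) g3.p g3.s₀.phi) :=
  posBox_of_check (c := ⟨557, ⟨0, 12, 28, 9⟩⟩) (by decide +kernel)

def c3_751 : PosBox ⟨⟨0, 1, 1⟩, ⟨1521, 1535, 2535⟩, ⟨15, 18, 100⟩, ⟨0, 1, 1⟩⟩
    (cR p3.kl p3.v (g3.s₀.t) (g3.u₁) (p3.wl g3.s₀.t) (p3.wh g3.s₀.t) g3.p) :=
  posBox_of_check (c := ⟨391, ⟨0, 9, 19, 6⟩⟩) (by decide +kernel)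

def c3_752 : PosBox ⟨⟨0, 1, 1⟩, ⟨1521, 1535, 2535⟩, ⟨15, 18, 100⟩, ⟨0, 1, 1⟩⟩
    (cG p3.kl p3.v (g3.s₀.t) (g3.u₁) (p3.wl g3.s₀.t) (p3.wh g3.s₀.t) g3.p (cC (1) 4)) :=
  posBox_of_check (c := ⟨456, ⟨0, 9, 22, 7⟩⟩) (by decide +kernel)

def c3_760 : PosBox ⟨⟨0, 1, 1⟩, ⟨1521, 1535, 2535⟩, ⟨15, 18, 100⟩, ⟨0, 1, 1⟩⟩
    (cG p3.kl p3.v (g3.s₁.t) (g3.u₀) (p3.wh g3.s₁.t) (p3.wl g3.s₁.t) g3.p (cC (1) 4)) :=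
  posBox_of_check (c := ⟨638, ⟨0, 9, 26, 11⟩⟩) (by decide +kernel)

def c3_761 : PosBox ⟨⟨0, 1, 1⟩, ⟨1521, 1535, 2535⟩, ⟨15, 18, 100⟩, ⟨0, 1, 1⟩⟩
    (cG p3.kl p3.v (g3.s₁.t) (g3.u₁) (p3.wh g3.s₁.t) (p3.wl g3.s₁.t) g3.p (cC (1) 4)) :=
  posBox_of_check (c := ⟨638, ⟨0, 9, 26, 11⟩⟩) (by decide +kernel)

def c3_762 : PosBox ⟨⟨0, 1, 1⟩, ⟨1521, 1535, 2535⟩, ⟨15, 18, 100⟩, ⟨0, 1, 1⟩⟩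
    (cF p3.kl p3.v (g3.s₁.t) (g3.u₀) (p3.wh g3.s₁.t) g3.p g3.s₁.phi) :=
  posBox_of_check (c := ⟨748, ⟨0, 12, 34, 15⟩⟩) (by decide +kernel)

def c3_763 : PosBox ⟨⟨0, 1, 1⟩, ⟨1521, 1535, 2535⟩, ⟨15, 18, 100⟩, ⟨0, 1, 1⟩⟩
    (cF p3.kl p3.v (g3.s₁.t) (g3.u₀) (p3.wl g3.s₁.t) g3.p g3.s₁.phi) :=
  posBox_of_check (c := ⟨792, ⟨0, 12, 34, 15⟩⟩) (by decide +kernel)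

def c3_764 : PosBox ⟨⟨0, 1, 1⟩, ⟨1521, 1535, 2535⟩, ⟨15, 18, 100⟩, ⟨0, 1, 1⟩⟩
    (cG p3.kl p3.v (g3.s₁.t) (g3.u₀) (p3.wl g3.s₁.t) (p3.wh g3.s₁.t) g3.p (cC (1) 4)) :=
  posBox_of_check (c := ⟨583, ⟨0, 9, 26, 11⟩⟩) (by decide +kernel)

def c3_770 : PosBox ⟨⟨0, 1, 1⟩, ⟨1521, 1535, 2535⟩, ⟨15, 18, 100⟩, ⟨0, 1, 1⟩⟩
    (cF p3.kl p3.v (g3.s₁.t) (g3.u₁) (p3.wh g3.s₁.t) g3.p g3.s₁.phi) :=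
  posBox_of_check (c := ⟨748, ⟨0, 12, 34, 15⟩⟩) (by decide +kernel)

def c3_771 : PosBox ⟨⟨0, 1, 1⟩, ⟨1521, 1535, 2535⟩, ⟨15, 18, 100⟩, ⟨0, 1, 1⟩⟩
    (cF p3.kl p3.v (g3.s₁.t) (g3.u₁) (p3.wl g3.s₁.t) g3.p g3.s₁.phi) :=
  posBox_of_check (c := ⟨792, ⟨0, 12, 34, 15⟩⟩) (by decide +kernel)

def c3_772 : PosBox ⟨⟨0, 1, 1⟩, ⟨1521, 1535, 2535⟩, ⟨15, 18, 100⟩, ⟨0, 1, 1⟩⟩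
    (cG p3.kl p3.v (g3.s₁.t) (g3.u₁) (p3.wl g3.s₁.t) (p3.wh g3.s₁.t) g3.p (cC (1) 4)) :=
  posBox_of_check (c := ⟨583, ⟨0, 9, 26, 11⟩⟩) (by decide +kernel)

def c3_783 : PosBox ⟨⟨0, 1, 1⟩, ⟨1521, 1535, 2535⟩, ⟨15, 18, 100⟩, ⟨0, 1, 1⟩⟩
    (cG p3.kl p3.v (g3_0.s₀.t) (g3_0.u₀) (p3.wh g3_0.s₀.t) (p3.wl g3_0.s₀.t) g3_0.p (cC (1) 4)) :=
  posBox_of_check (c := ⟨544, ⟨0, 9, 22, 9⟩⟩) (by decide +kernel)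

def c3_784 : PosBox ⟨⟨0, 1, 1⟩, ⟨1521, 1535, 2535⟩, ⟨15, 18, 100⟩, ⟨0, 1, 1⟩⟩
    (cG p3.kl p3.v (g3_0.s₀.t) (g3_0.u₁) (p3.wh g3_0.s₀.t) (p3.wl g3_0.s₀.t) g3_0.p (cC (1) 4)) :=
  posBox_of_check (c := ⟨544, ⟨0, 9, 22, 9⟩⟩) (by decide +kernel)

def c3_785 : PosBox ⟨⟨0, 1, 1⟩, ⟨1521, 1535, 2535⟩, ⟨15, 18, 100⟩, ⟨0, 1, 1⟩⟩
    (cF p3.kl p3.v (g3_0.s₀.t) (g3_0.u₀) (p3.wh g3_0.s₀.t) g3_0.p g3_0.s₀.phi) :=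
  posBox_of_check (c := ⟨594, ⟨0, 12, 28, 11⟩⟩) (by decide +kernel)

def c3_786 : PosBox ⟨⟨0, 1, 1⟩, ⟨1521, 1535, 2535⟩, ⟨15, 18, 100⟩, ⟨0, 1, 1⟩⟩
    (cF p3.kl p3.v (g3_0.s₀.t) (g3_0.u₀) (p3.wl g3_0.s₀.t) g3_0.p g3_0.s₀.phi) :=
  posBox_of_check (c := ⟨638, ⟨0, 12, 28, 11⟩⟩) (by decide +kernel)

def c3_787 : PosBox ⟨⟨0, 1, 1⟩, ⟨1521, 1535, 2535⟩, ⟨15, 18, 100⟩, ⟨0, 1, 1⟩⟩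
    (cG p3.kl p3.v (g3_0.s₀.t) (g3_0.u₀) (p3.wl g3_0.s₀.t) (p3.wh g3_0.s₀.t) g3_0.p (cC (1) 4)) :=
  posBox_of_check (c := ⟨490, ⟨0, 9, 22, 9⟩⟩) (by decide +kernel)

def c3_790 : PosBox ⟨⟨0, 1, 1⟩, ⟨1521, 1535, 2535⟩, ⟨15, 18, 100⟩, ⟨0, 1, 1⟩⟩
    (cF p3.kl p3.v (g3_0.s₀.t) (g3_0.u₁) (p3.wh g3_0.s₀.t) g3_0.p g3_0.s₀.phi) :=
  posBox_of_check (c := ⟨594, ⟨0, 12, 28, 11⟩⟩) (by decide +kernel)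

def c3_791 : PosBox ⟨⟨0, 1, 1⟩, ⟨1521, 1535, 2535⟩, ⟨15, 18, 100⟩, ⟨0, 1, 1⟩⟩
    (cF p3.kl p3.v (g3_0.s₀.t) (g3_0.u₁) (p3.wl g3_0.s₀.t) g3_0.p g3_0.s₀.phi) :=
  posBox_of_check (c := ⟨638, ⟨0, 12, 28, 11⟩⟩) (by decide +kernel)

def c3_792 : PosBox ⟨⟨0, 1, 1⟩, ⟨1521, 1535, 2535⟩, ⟨15, 18, 100⟩, ⟨0, 1, 1⟩⟩
    (cG p3.kl p3.v (g3_0.s₀.t) (g3_0.u₁) (p3.wl g3_0.s₀.t) (p3.wh g3_0.s₀.t) g3_0.p (cC (1) 4)) :=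
  posBox_of_check (c := ⟨490, ⟨0, 9, 22, 9⟩⟩) (by decide +kernel)

def c3_797 : PosBox ⟨⟨0, 1, 1⟩, ⟨1521, 1535, 2535⟩, ⟨15, 18, 100⟩, ⟨0, 1, 1⟩⟩
    (cG p3.kl p3.v (g3_0.s₁.t) (g3_0.u₀) (p3.wh g3_0.s₁.t) (p3.wl g3_0.s₁.t) g3_0.p (cC (1) 4)) :=
  posBox_of_check (c := ⟨665, ⟨0, 9, 26, 13⟩⟩) (by decide +kernel)

def c3_798 : PosBox ⟨⟨0, 1, 1⟩, ⟨1521, 1535, 2535⟩, ⟨15, 18, 100⟩, ⟨0, 1, 1⟩⟩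
    (cG p3.kl p3.v (g3_0.s₁.t) (g3_0.u₁) (p3.wh g3_0.s₁.t) (p3.wl g3_0.s₁.t) g3_0.p (cC (1) 4)) :=
  posBox_of_check (c := ⟨665, ⟨0, 9, 26, 13⟩⟩) (by decide +kernel)

def c3_799 : PosBox ⟨⟨0, 1, 1⟩, ⟨1521, 1535, 2535⟩, ⟨15, 18, 100⟩, ⟨0, 1, 1⟩⟩
    (cF p3.kl p3.v (g3_0.s₁.t) (g3_0.u₀) (p3.wh g3_0.s₁.t) g3_0.p g3_0.s₁.phi) :=
  posBox_of_check (c := ⟨775, ⟨0, 12, 34, 17⟩⟩) (by decide +kernel)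

def c3_800 : PosBox ⟨⟨0, 1, 1⟩, ⟨1521, 1535, 2535⟩, ⟨15, 18, 100⟩, ⟨0, 1, 1⟩⟩
    (cF p3.kl p3.v (g3_0.s₁.t) (g3_0.u₀) (p3.wl g3_0.s₁.t) g3_0.p g3_0.s₁.phi) :=
  posBox_of_check (c := ⟨819, ⟨0, 12, 34, 17⟩⟩) (by decide +kernel)

def c3_801 : PosBox ⟨⟨0, 1, 1⟩, ⟨1521, 1535, 2535⟩, ⟨15, 18, 100⟩, ⟨0, 1, 1⟩⟩
    (cG p3.kl p3.v (g3_0.s₁.t) (g3_0.u₀) (p3.wl g3_0.s₁.t) (p3.wh g3_0.s₁.t) g3_0.p (cC (1) 4)) :=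
  posBox_of_check (c := ⟨611, ⟨0, 9, 26, 13⟩⟩) (by decide +kernel)

def c3_804 : PosBox ⟨⟨0, 1, 1⟩, ⟨1521, 1535, 2535⟩, ⟨15, 18, 100⟩, ⟨0, 1, 1⟩⟩
    (cF p3.kl p3.v (g3_0.s₁.t) (g3_0.u₁) (p3.wh g3_0.s₁.t) g3_0.p g3_0.s₁.phi) :=
  posBox_of_check (c := ⟨775, ⟨0, 12, 34, 17⟩⟩) (by decide +kernel)

end Vale.Agent.P100.Calib.Closed.End
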