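import Vale.Agent.P100.Calib.SlabEndData

/-!
# Checks of the end strip, piece `4`
-/

set_option linter.defProp false

namespace Vale.Agent.P100.Calib.Closed.End

open BoxPos
open Large (PosBox posBox_of_check)

local instance endChk4A0Add : Add Ex := ⟨Ex.add⟩
local instance endChk4A0Mul : Mul Ex := ⟨Ex.mul⟩
local instance endChk4A0Sub : Sub Ex := ⟨Ex.sub⟩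

def c4_967 : PosBox ⟨⟨0, 1, 1⟩, ⟨1521, 1535, 2535⟩, ⟨360, 401, 2000⟩, ⟨0, 1, 1⟩⟩
    (cF p4.kl p4.v (g4.s₀.t) (g4.u₀) (p4.wh g4.s₀.t) g4.p g4.s₀.phi) :=
  posBox_of_check (c := ⟨657, ⟨0, 12, 28, 9⟩⟩) (by decide +kernel)

def c4_968 : PosBox ⟨⟨0, 1, 1⟩, ⟨1521, 1535, 2535⟩, ⟨360, 401, 2000⟩, ⟨0, 1, 1⟩⟩
    (cR p4.kl p4.v (g4.s₀.t) (g4.u₀) (p4.wl g4.s₀.t) (p4.wh g4.s₀.t) g4.p) :=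
  posBox_of_check (c := ⟨458, ⟨0, 9, 19, 6⟩⟩) (by decide +kernel)

def c4_969 : PosBox ⟨⟨0, 1, 1⟩, ⟨1521, 1535, 2535⟩, ⟨360, 401, 2000⟩, ⟨0, 1, 1⟩⟩
    (cG p4.kl p4.v (g4.s₀.t) (g4.u₀) (p4.wl g4.s₀.t) (p4.wh g4.s₀.t) g4.p (cC (1) 4)) :=
  posBox_of_check (c := ⟨535, ⟨0, 9, 22, 7⟩⟩) (by decide +kernel)

def c4_976 : PosBox ⟨⟨0, 1, 1⟩, ⟨1521, 1535, 2535⟩, ⟨360, 401, 2000⟩, ⟨0, 1, 1⟩⟩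
    (cF p4.kl p4.v (g4.s₀.t) (g4.u₁) (p4.wh g4.s₀.t) g4.p g4.s₀.phi) :=
  posBox_of_check (c := ⟨657, ⟨0, 12, 28, 9⟩⟩) (by decide +kernel)

def c4_977 : PosBox ⟨⟨0, 1, 1⟩, ⟨1521, 1535, 2535⟩, ⟨360, 401, 2000⟩, ⟨0, 1, 1⟩⟩
    (cR p4.kl p4.v (g4.s₀.t) (g4.u₁) (p4.wl g4.s₀.t) (p4.wh g4.s₀.t) g4.p) :=
  posBox_of_check (c := ⟨458, ⟨0, 9, 19, 6⟩⟩) (by decide +kernel)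

def c4_978 : PosBox ⟨⟨0, 1, 1⟩, ⟨1521, 1535, 2535⟩, ⟨360, 401, 2000⟩, ⟨0, 1, 1⟩⟩
    (cG p4.kl p4.v (g4.s₀.t) (g4.u₁) (p4.wl g4.s₀.t) (p4.wh g4.s₀.t) g4.p (cC (1) 4)) :=
  posBox_of_check (c := ⟨535, ⟨0, 9, 22, 7⟩⟩) (by decide +kernel)

def c4_988 : PosBox ⟨⟨0, 1, 1⟩, ⟨1521, 1535, 2535⟩, ⟨360, 401, 2000⟩, ⟨0, 1, 1⟩⟩
    (cF p4.kl p4.v (g4.s₁.t) (g4.u₀) (p4.wh g4.s₁.t) g4.p g4.s₁.phi) :=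
  posBox_of_check (c := ⟨867, ⟨0, 12, 34, 15⟩⟩) (by decide +kernel)

def c4_989 : PosBox ⟨⟨0, 1, 1⟩, ⟨1521, 1535, 2535⟩, ⟨360, 401, 2000⟩, ⟨0, 1, 1⟩⟩
    (cF p4.kl p4.v (g4.s₁.t) (g4.u₀) (p4.wl g4.s₁.t) g4.p g4.s₁.phi) :=
  posBox_of_check (c := ⟨911, ⟨0, 12, 34, 15⟩⟩) (by decide +kernel)

def c4_990 : PosBox ⟨⟨0, 1, 1⟩, ⟨1521, 1535, 2535⟩, ⟨360, 401, 2000⟩, ⟨0, 1, 1⟩⟩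
    (cG p4.kl p4.v (g4.s₁.t) (g4.u₀) (p4.wl g4.s₁.t) (p4.wh g4.s₁.t) g4.p (cC (1) 4)) :=
  posBox_of_check (c := ⟨676, ⟨0, 9, 26, 11⟩⟩) (by decide +kernel)

def c4_997 : PosBox ⟨⟨0, 1, 1⟩, ⟨1521, 1535, 2535⟩, ⟨360, 401, 2000⟩, ⟨0, 1, 1⟩⟩
    (cF p4.kl p4.v (g4.s₁.t) (g4.u₁) (p4.wh g4.s₁.t) g4.p g4.s₁.phi) :=
  posBox_of_check (c := ⟨867, ⟨0, 12, 34, 15⟩⟩) (by decide +kernel)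

def c4_998 : PosBox ⟨⟨0, 1, 1⟩, ⟨1521, 1535, 2535⟩, ⟨360, 401, 2000⟩, ⟨0, 1, 1⟩⟩
    (cF p4.kl p4.v (g4.s₁.t) (g4.u₁) (p4.wl g4.s₁.t) g4.p g4.s₁.phi) :=
  posBox_of_check (c := ⟨911, ⟨0, 12, 34, 15⟩⟩) (by decide +kernel)

def c4_999 : PosBox ⟨⟨0, 1, 1⟩, ⟨1521, 1535, 2535⟩, ⟨360, 401, 2000⟩, ⟨0, 1, 1⟩⟩
    (cG p4.kl p4.v (g4.s₁.t) (g4.u₁) (p4.wl g4.s₁.t) (p4.wh g4.s₁.t) g4.p (cC (1) 4)) :=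
  posBox_of_check (c := ⟨676, ⟨0, 9, 26, 11⟩⟩) (by decide +kernel)

def c4_1011 : PosBox ⟨⟨0, 1, 1⟩, ⟨1521, 1535, 2535⟩, ⟨360, 401, 2000⟩, ⟨0, 1, 1⟩⟩
    (cG p4.kl p4.v (g4_0.s₀.t) (g4_0.u₀) (p4.wh g4_0.s₀.t) (p4.wl g4_0.s₀.t) g4_0.p (cC (1) 4)) :=
  posBox_of_check (c := ⟨611, ⟨0, 9, 22, 9⟩⟩) (by decide +kernel)

def c4_1012 : PosBox ⟨⟨0, 1, 1⟩, ⟨1521, 1535, 2535⟩, ⟨360, 401, 2000⟩, ⟨0, 1, 1⟩⟩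
    (cG p4.kl p4.v (g4_0.s₀.t) (g4_0.u₁) (p4.wh g4_0.s₀.t) (p4.wl g4_0.s₀.t) g4_0.p (cC (1) 4)) :=
  posBox_of_check (c := ⟨611, ⟨0, 9, 22, 9⟩⟩) (by decide +kernel)

def c4_1013 : PosBox ⟨⟨0, 1, 1⟩, ⟨1521, 1535, 2535⟩, ⟨360, 401, 2000⟩, ⟨0, 1, 1⟩⟩
    (cF p4.kl p4.v (g4_0.s₀.t) (g4_0.u₀) (p4.wh g4_0.s₀.t) g4_0.p g4_0.s₀.phi) :=
  posBox_of_check (c := ⟨681, ⟨0, 12, 28, 11⟩⟩) (by decide +kernel)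

def c4_1014 : PosBox ⟨⟨0, 1, 1⟩, ⟨1521, 1535, 2535⟩, ⟨360, 401, 2000⟩, ⟨0, 1, 1⟩⟩
    (cF p4.kl p4.v (g4_0.s₀.t) (g4_0.u₀) (p4.wl g4_0.s₀.t) g4_0.p g4_0.s₀.phi) :=
  posBox_of_check (c := ⟨724, ⟨0, 12, 28, 11⟩⟩) (by decide +kernel)

def c4_1015 : PosBox ⟨⟨0, 1, 1⟩, ⟨1521, 1535, 2535⟩, ⟨360, 401, 2000⟩, ⟨0, 1, 1⟩⟩
    (cG p4.kl p4.v (g4_0.s₀.t) (g4_0.u₀) (p4.wl g4_0.s₀.t) (p4.wh g4_0.s₀.t) g4_0.p (cC (1) 4)) :=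
  posBox_of_check (c := ⟨556, ⟨0, 9, 22, 9⟩⟩) (by decide +kernel)

def c4_1018 : PosBox ⟨⟨0, 1, 1⟩, ⟨1521, 1535, 2535⟩, ⟨360, 401, 2000⟩, ⟨0, 1, 1⟩⟩
    (cF p4.kl p4.v (g4_0.s₀.t) (g4_0.u₁) (p4.wh g4_0.s₀.t) g4_0.p g4_0.s₀.phi) :=
  posBox_of_check (c := ⟨681, ⟨0, 12, 28, 11⟩⟩) (by decide +kernel)

def c4_1019 : PosBox ⟨⟨0, 1, 1⟩, ⟨1521, 1535, 2535⟩, ⟨360, 401, 2000⟩, ⟨0, 1, 1⟩⟩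
    (cF p4.kl p4.v (g4_0.s₀.t) (g4_0.u₁) (p4.wl g4_0.s₀.t) g4_0.p g4_0.s₀.phi) :=
  posBox_of_check (c := ⟨724, ⟨0, 12, 28, 11⟩⟩) (by decide +kernel)

def c4_1020 : PosBox ⟨⟨0, 1, 1⟩, ⟨1521, 1535, 2535⟩, ⟨360, 401, 2000⟩, ⟨0, 1, 1⟩⟩
    (cG p4.kl p4.v (g4_0.s₀.t) (g4_0.u₁) (p4.wl g4_0.s₀.t) (p4.wh g4_0.s₀.t) g4_0.p (cC (1) 4)) :=
  posBox_of_check (c := ⟨556, ⟨0, 9, 22, 9⟩⟩) (by decide +kernel)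

def c4_1026 : PosBox ⟨⟨0, 1, 1⟩, ⟨1521, 1535, 2535⟩, ⟨360, 401, 2000⟩, ⟨0, 1, 1⟩⟩
    (cF p4.kl p4.v (g4_0.s₁.t) (g4_0.u₀) (p4.wh g4_0.s₁.t) g4_0.p g4_0.s₁.phi) :=
  posBox_of_check (c := ⟨882, ⟨0, 12, 34, 17⟩⟩) (by decide +kernel)

def c4_1027 : PosBox ⟨⟨0, 1, 1⟩, ⟨1521, 1535, 2535⟩, ⟨360, 401, 2000⟩, ⟨0, 1, 1⟩⟩
    (cF p4.kl p4.v (g4_0.s₁.t) (g4_0.u₀) (p4.wl g4_0.s₁.t) g4_0.p g4_0.s₁.phi) :=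
  posBox_of_check (c := ⟨925, ⟨0, 12, 34, 17⟩⟩) (by decide +kernel)

def c4_1028 : PosBox ⟨⟨0, 1, 1⟩, ⟨1521, 1535, 2535⟩, ⟨360, 401, 2000⟩, ⟨0, 1, 1⟩⟩
    (cG p4.kl p4.v (g4_0.s₁.t) (g4_0.u₀) (p4.wl g4_0.s₁.t) (p4.wh g4_0.s₁.t) g4_0.p (cC (1) 4)) :=
  posBox_of_check (c := ⟨690, ⟨0, 9, 26, 13⟩⟩) (by decide +kernel)

def c4_1031 : PosBox ⟨⟨0, 1, 1⟩, ⟨1521, 1535, 2535⟩, ⟨360, 401, 2000⟩, ⟨0, 1, 1⟩⟩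
    (cF p4.kl p4.v (g4_0.s₁.t) (g4_0.u₁) (p4.wh g4_0.s₁.t) g4_0.p g4_0.s₁.phi) :=
  posBox_of_check (c := ⟨882, ⟨0, 12, 34, 17⟩⟩) (by decide +kernel)

def c4_1032 : PosBox ⟨⟨0, 1, 1⟩, ⟨1521, 1535, 2535⟩, ⟨360, 401, 2000⟩, ⟨0, 1, 1⟩⟩
    (cF p4.kl p4.v (g4_0.s₁.t) (g4_0.u₁) (p4.wl g4_0.s₁.t) g4_0.p g4_0.s₁.phi) :=
  posBox_of_check (c := ⟨925, ⟨0, 12, 34, 17⟩⟩) (by decide +kernel)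

def c4_1033 : PosBox ⟨⟨0, 1, 1⟩, ⟨1521, 1535, 2535⟩, ⟨360, 401, 2000⟩, ⟨0, 1, 1⟩⟩
    (cG p4.kl p4.v (g4_0.s₁.t) (g4_0.u₁) (p4.wl g4_0.s₁.t) (p4.wh g4_0.s₁.t) g4_0.p (cC (1) 4)) :=
  posBox_of_check (c := ⟨690, ⟨0, 9, 26, 13⟩⟩) (by decide +kernel)

def c4_1042 : PosBox ⟨⟨0, 1, 1⟩, ⟨1521, 1535, 2535⟩, ⟨360, 401, 2000⟩, ⟨0, 1, 1⟩⟩
    (cF p4.kl p4.v (g4_1.s₀.t) (g4_1.u₀) (p4.wh g4_1.s₀.t) g4_1.p g4_1.s₀.phi) :=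
  posBox_of_check (c := ⟨777, ⟨0, 12, 34, 11⟩⟩) (by decide +kernel)

def c4_1043 : PosBox ⟨⟨0, 1, 1⟩, ⟨1521, 1535, 2535⟩, ⟨360, 401, 2000⟩, ⟨0, 1, 1⟩⟩
    (cR p4.kl p4.v (g4_1.s₀.t) (g4_1.u₀) (p4.wl g4_1.s₀.t) (p4.wh g4_1.s₀.t) g4_1.p) :=
  posBox_of_check (c := ⟨501, ⟨0, 9, 21, 7⟩⟩) (by decide +kernel)

end Vale.Agent.P100.Calib.Closed.End
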