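import Vale.Agent.P100.Calib.SlabEndSigns

/-!
# The slabs of a piece, cut at values of `d/h`
-/

set_option linter.unusedVariables false
set_option linter.unusedSimpArgs false

namespace Vale.Agent.P100.Calib.Closed.End

open BoxPos
open Large (PosBox)

local instance cutAdd : Add Ex := ⟨Ex.add⟩
local instance cutMul : Mul Ex := ⟨Ex.mul⟩
local instance cutSub : Sub Ex := ⟨Ex.sub⟩

/-- Two sides make up a third. -/
def covers (A B C : BoxPos.Side) : Prop :=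
  A.lo * C.den = C.lo * A.den ∧ A.hi * B.den = B.lo * A.den ∧ B.hi * C.den = C.hi * B.den ∧
    0 < A.den ∧ 0 < B.den ∧ 0 < C.den

theorem covers.mem {A B C : BoxPos.Side} (h : covers A B C) {x : ℝ} (hx : C.Mem x) :
    A.Mem x ∨ B.Mem x := by
  obtain ⟨e0, e1, e2, hA, hB, hC⟩ := h
  have a0 : (0 : ℝ) < A.den := by exact_mod_cast hA
  have b0 : (0 : ℝ) < B.den := by exact_mod_cast hB
  have c0 : (0 : ℝ) < C.den := by exact_mod_cast hC
  have q0 : (A.lo : ℝ) / A.den = C.lo / C.den := by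
    rw [div_eq_div_iff a0.ne' c0.ne']; exact_mod_cast e0
  have q1 : (A.hi : ℝ) / A.den = B.lo / B.den := by
    rw [div_eq_div_iff a0.ne' b0.ne']; exact_mod_cast e1
  have q2 : (B.hi : ℝ) / B.den = C.hi / C.den := by
    rw [div_eq_div_iff b0.ne' c0.ne']; exact_mod_cast e2
  rcases lt_or_ge x ((A.hi : ℝ) / A.den) with k | k
  · exact .inl ⟨q0.trans_le hx.1, k⟩
  · exact .inr ⟨q1 ▸ k, q2 ▸ hx.2⟩

theorem posBox_cut₂ {s t r A B C : BoxPos.Side} {e : Ex} (hc : covers A B C)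
    (h : PosBox ⟨s, t, A, r⟩ e) (h' : PosBox ⟨s, t, B, r⟩ e) : PosBox ⟨s, t, C, r⟩ e :=
  fun o S d v h₀ h₁ h₂ h₃ =>
    (hc.mem h₂).elim (fun k => h o S d v h₀ h₁ k h₃) fun k => h' o S d v h₀ h₁ k h₃

theorem posBox_cut₁ {s t r A B C : BoxPos.Side} {e : Ex} (hc : covers A B C)
    (h : PosBox ⟨s, A, t, r⟩ e) (h' : PosBox ⟨s, B, t, r⟩ e) : PosBox ⟨s, C, t, r⟩ e :=
  fun o S d v h₀ h₁ h₂ h₃ =>
    (hc.mem h₁).elim (fun k => h o S d v h₀ k h₂ h₃) fun k => h' o S d v h₀ k h₂ h₃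

theorem posBox_cut₃ {s t r A B C : BoxPos.Side} {e : Ex} (hc : covers A B C)
    (h : PosBox ⟨s, t, r, A⟩ e) (h' : PosBox ⟨s, t, r, B⟩ e) : PosBox ⟨s, t, r, C⟩ e :=
  fun o S d v h₀ h₁ h₂ h₃ =>
    (hc.mem h₃).elim (fun k => h o S d v h₀ h₁ h₂ k) fun k => h' o S d v h₀ h₁ h₂ k

/-- A cut of `d/h`. -/
def Piece.Cut (P : Piece) (q : Ex) : Prop := ∀ z : P.Pt, 1 ≤ z.val q ∧ z.val q ≤ 10 / 7

theorem Piece.Cut.of_pos {P : Piece} {q : Ex} (h₀ : PosBox P.box (q - cC (1) 1))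
    (h₁ : PosBox P.box (cC (10) 7 - q)) : P.Cut q := fun z => by
  have a := z.pos h₀
  have b := z.pos h₁
  simp only [Piece.Pt.val, ex_sub, Ex.val] at a b ⊢
  push_cast at a b
  constructor <;> linarith

theorem Piece.Cut.one (P : Piece) : P.Cut (cC (1) 1) := fun z => by
  simp only [Piece.Pt.val, Ex.val]; norm_num

theorem Piece.Cut.top (P : Piece) : P.Cut (cC (10) 7) := fun z => by
  simp only [Piece.Pt.val, Ex.val]; norm_num

section
variable {P : Piece} (z : P.Pt) {L U : Group} {bu : Box} {u t : ℝ}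

/-- The signs beyond the first cut. -/
theorem Piece.Pt.signs_top (hB : P.Base L bu) (hU : P.Slab L U) (hu : U.u₀ = cC (39) 40)
    (hs₀ : U.s₀.t = Ex.x₂ * cC (10) 7) (hs₁ : U.s₁.t = L.s₁.t)
    (hp : P.UpperU (cC (10) 7) U.p) (h : z.On u t)
    (hq : z.d * z.val (cC (10) 7) ≤ 1 / chH z.d z.S u z.vv t) :
    ChartSigns z.d z.S u z.vv t := by
  obtain ⟨p, τ, u', ω, c, ht⟩ := z.coord hB.lines hB.ok.kl (hB.inv z) h
  obtain ⟨r1, r2, rk⟩ := z.ratio_mem hB.lines hB.ok.kl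
  have hd := z.d_pos
  have e : z.val (cC (10) 7) = 10 / 7 := by
    simp only [Piece.Pt.val, Ex.val]; norm_num
  have es : z.val U.s₀.t = z.d * (10 / 7) := by
    rw [hs₀, ← e]; rfl
  have eu : z.val U.u₀ = 39 / 40 := by
    rw [hu]; simp only [Piece.Pt.val, Ex.val]; norm_num
  have eT : z.val P.tT = z.val P.rho * z.d * (10 / 7) := by
    rw [hB.tT_eq, ← e]; rfl
  refine z.signs_in hB hU h c ht ⟨by rw [eu], by rw [eu]; exact h.u_low⟩
    (z.upper_U hp h c hq).le ⟨?_, .inr ?_⟩ ?_ ?_ ?_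
  · rw [es]; linarith
  · rw [es, eT]
    exact mul_le_mul_of_nonneg_right (le_mul_of_one_le_left hd.le (le_trans r1 r2)) (by norm_num)
  · rw [hs₁]; exact ⟨le_trans c.t_ge.le ht, .inl le_rfl⟩
  · rw [es, ← e]; exact le_trans hq c.t_over
  · rw [hs₁]; exact ht

theorem Piece.Pt.cut_facts {q q' : Ex} {p τ u' ω : ℝ} (hB : P.Base L bu) (cq : P.Cut q)
    (cq' : P.Cut q') (hs₀ : U.s₀.t = Ex.x₂ * q) (hs₁ : U.s₁.t = P.rho * Ex.x₂ * q')
    (c : z.Coord u t p τ u' ω) (hq : z.d * z.val q ≤ 1 / chH z.d z.S u z.vv t)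
    (hq' : 1 / chH z.d z.S u z.vv t ≤ z.d * z.val q') :
    (z.d ≤ z.val U.s₀.t ∧ (z.val U.s₀.t ≤ z.val L.s₁.t ∨ z.val U.s₀.t ≤ z.val P.tT)) ∧
    (z.d ≤ z.val U.s₁.t ∧ (z.val U.s₁.t ≤ z.val L.s₁.t ∨ z.val U.s₁.t ≤ z.val P.tT)) ∧
    z.val U.s₀.t ≤ τ ∧ τ ≤ z.val U.s₁.t := by
  obtain ⟨r1, r2, rk⟩ := z.ratio_mem hB.lines hB.ok.kl
  have hρ := le_trans r1 r2
  have hd := z.d_pos
  obtain ⟨a1, a2⟩ := cq z
  obtain ⟨b1, b2⟩ := cq' z
  have e : z.val (cC (10) 7) = 10 / 7 := by simp only [Piece.Pt.val, Ex.val]; norm_num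
  have eT : z.val P.tT = z.val P.rho * z.d * (10 / 7) := by rw [hB.tT_eq, ← e]; rfl
  have e0 : z.val U.s₀.t = z.d * z.val q := by rw [hs₀]; rfl
  have e1 : z.val U.s₁.t = z.val P.rho * z.d * z.val q' := by rw [hs₁]; rfl
  have hρd : z.d ≤ z.val P.rho * z.d := le_mul_of_one_le_left hd.le hρ
  refine ⟨⟨?_, .inr ?_⟩, ⟨?_, .inr ?_⟩, ?_, ?_⟩
  · rw [e0]; exact le_mul_of_one_le_right hd.le a1
  · rw [e0, eT]; exact mul_le_mul hρd a2 (by linarith) (by linarith)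
  · rw [e1]; exact le_trans hρd (le_mul_of_one_le_right (by linarith) b1)
  · rw [e1, eT]; exact mul_le_mul_of_nonneg_left b2 (by linarith)
  · rw [e0]; exact le_trans hq c.t_over
  · rw [e1, mul_assoc]
    exact le_trans c.t_under (mul_le_mul_of_nonneg_left hq' (by linarith))

/-- The signs of a slab where `p` is bounded at its lower cut. -/
theorem Piece.Pt.signs_U {q q' : Ex} (hB : P.Base L bu) (hU : P.Slab L U)
    (hu : U.u₀ = cC (39) 40) (cq : P.Cut q) (cq' : P.Cut q') (hs₀ : U.s₀.t = Ex.x₂ * q)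
    (hs₁ : U.s₁.t = P.rho * Ex.x₂ * q') (hp : P.UpperU q U.p) (h : z.On u t)
    (hq : z.d * z.val q ≤ 1 / chH z.d z.S u z.vv t)
    (hq' : 1 / chH z.d z.S u z.vv t ≤ z.d * z.val q') : ChartSigns z.d z.S u z.vv t := by
  obtain ⟨p, τ, u', ω, c, ht⟩ := z.coord hB.lines hB.ok.kl (hB.inv z) h
  obtain ⟨i0, i1, a0, a1⟩ := z.cut_facts hB cq cq' hs₀ hs₁ c hq hq'
  have eu : z.val U.u₀ = 39 / 40 := by
    rw [hu]; simp only [Piece.Pt.val, Ex.val]; norm_num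
  exact z.signs_in hB hU h c ht ⟨by rw [eu], by rw [eu]; exact h.u_low⟩
    (z.upper_U hp h c hq).le i0 i1 a0 a1

/-- The signs of a slab where `p` is bounded at its upper cut, `uu ≤ u`. -/
theorem Piece.Pt.signs_E {q q' : Ex} (hB : P.Base L bu) (hU : P.Slab L U)
    (cq : P.Cut q) (cq' : P.Cut q') (hs₀ : U.s₀.t = Ex.x₂ * q)
    (hs₁ : U.s₁.t = P.rho * Ex.x₂ * q') (hp : P.UpperE q' U.p U.u₀) (h : z.On u t)
    (hu : 39 / 40 ≤ z.val U.u₀ ∧ z.val U.u₀ ≤ u)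
    (hq : z.d * z.val q ≤ 1 / chH z.d z.S u z.vv t)
    (hq' : 1 / chH z.d z.S u z.vv t ≤ z.d * z.val q') : ChartSigns z.d z.S u z.vv t := by
  obtain ⟨p, τ, u', ω, c, ht⟩ := z.coord hB.lines hB.ok.kl (hB.inv z) h
  obtain ⟨i0, i1, a0, a1⟩ := z.cut_facts hB cq cq' hs₀ hs₁ c hq hq'
  exact z.signs_in hB hU h c ht hu (z.upper_E hp h c hq' hu.2).le i0 i1 a0 a1

theorem Piece.Pt.u_fix {e : Ex} (he : e = cC (39) 40) (h : z.On u t) :
    39 / 40 ≤ z.val e ∧ z.val e ≤ u := by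
  have eu : z.val e = 39 / 40 := by rw [he]; simp only [Piece.Pt.val, Ex.val]; norm_num
  exact ⟨by rw [eu], by rw [eu]; exact h.u_low⟩

theorem Piece.Pt.u_em {e em q : Ex} (he : e = cC (1) 1 - em)
    (hm : PosBox P.box (cC (1) 40 - em)) (hE : P.EmOk q em) (h : z.On u t)
    (hq : 1 / chH z.d z.S u z.vv t ≤ z.d * z.val q) :
    39 / 40 ≤ z.val e ∧ z.val e ≤ u := by
  have a := z.pos hm
  have b := z.em_le hE h hq
  have eu : z.val e = 1 - z.val em := by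
    rw [he]; simp only [Piece.Pt.val, ex_sub, Ex.val]; norm_num
  simp only [Piece.Pt.val, ex_sub, Ex.val] at a
  push_cast at a
  rw [eu]
  exact ⟨by simp only [Piece.Pt.val]; linarith, b⟩

theorem Piece.Pt.last_cut (h : z.On u t) :
    z.d * z.val (cC (1) 1) ≤ 1 / chH z.d z.S u z.vv t := by
  have e : z.val (cC (1) 1) = 1 := by simp only [Piece.Pt.val, Ex.val]; norm_num
  rw [e, mul_one, le_div_iff₀ h.facts.H_pos]
  exact h.facts.h_lt.le

end

/-- A point of the strip as a point of the piece. -/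
theorem Piece.signs_of {P : Piece} {d S u v t vl vt : ℝ} (box : ChartBox d S)
    (hu : 39 / 40 ≤ u) (f : ChartFacts d S u v t) (ht : 1 / 4 < t)
    (h₀ : P.box.s₀ = ⟨0, 1, 1⟩) (h₁ : P.box.s₁.Mem S) (h₂ : P.box.s₂.Mem d)
    (h₃ : P.box.s₃ = ⟨0, 1, 1⟩)
    (hv : ∀ s, P.v.val 0 S d s = vl + s * (vt - vl)) (hl : vl ≤ v) (hh : v < vt)
    (main : ∀ z : P.Pt, z.On u t → ChartSigns z.d z.S u z.vv t) :
    ChartSigns d S u v t := by
  have w : 0 < vt - vl := by linarith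
  have ev : P.v.val 0 S d ((v - vl) / (vt - vl)) = v := by
    rw [hv, div_mul_cancel₀ _ w.ne']; ring
  have m3 : P.box.s₃.Mem ((v - vl) / (vt - vl)) := by
    rw [h₃]
    refine ⟨?_, ?_⟩
    · have := div_nonneg (show 0 ≤ v - vl by linarith) w.le
      push_cast; linarith
    · have := (div_lt_one w).2 (show v - vl < vt - vl by linarith)
      push_cast; linarith
  have m0 : P.box.s₀.Mem 0 := by rw [h₀]; constructor <;> norm_num
  have hS := box.S_high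
  have main' := main ⟨0, S, d, (v - vl) / (vt - vl), m0, h₁, h₂, m3, by linarith, box.pos,
    by rw [ev]; linarith [f.v_low]⟩
  simp only [Piece.Pt.vv, Piece.Pt.val, ev] at main'
  exact main' ⟨box.S_low, box.tri, by linarith [box.diff], hu,
    by simpa only [Piece.Pt.vv, Piece.Pt.val, ev] using f, ht⟩

end Vale.Agent.P100.Calib.Closed.End
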