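import Vale.Agent.P100.Calib.SlabEndCut

/-!
# The data of the end strip
-/

namespace Vale.Agent.P100.Calib.Closed.End

open BoxPos

local instance dataAdd : Add Ex := ⟨Ex.add⟩
local instance dataMul : Mul Ex := ⟨Ex.mul⟩
local instance dataSub : Sub Ex := ⟨Ex.sub⟩

/-- `v` of the piece. -/
def v0 : Ex :=
  (cC (217) 125 + cC (-1139) 200 * Ex.x₂) + Ex.x₃ * ((cC (3287) 1000 + cC (6993) 1000 * Ex.x₂) - (cC (217) 125 + cC (-1139) 200 * Ex.x₂))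

/-- The lower bound of `p`. -/
def lo0 : Ex :=
  (cC (133177) 10000 + cC (-13483) 625 * Ex.x₂ + cC (-7983) 2000 * v0 + cC (129561) 10000 * Ex.x₂ * v0 + cC (67603) 2500 * Ex.x₂ * Ex.x₂ + cC (-162623) 10000 * Ex.x₂ * Ex.x₂ * v0 + cC (-192103) 10000 * (Ex.x₁ - cC (3) 5) + cC (-2363) 2000 * v0 * (Ex.x₁ - cC (3) 5) + cC (18493) 1000 * Ex.x₂ * (Ex.x₁ - cC (3) 5))

/-- The upper bound of `p` on a slab. -/
def hi0_0 : Ex :=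
  (cC (201519) 10000 + cC (-315493) 2000 * Ex.x₂ + cC (-36933) 10000 * v0 + cC (46987) 5000 * Ex.x₂ * v0 + cC (3719623) 5000 * Ex.x₂ * Ex.x₂ + cC (87) 2000 * v0 * v0 + cC (-335109) 10000 * Ex.x₂ * Ex.x₂ * v0 + cC (1373) 1250 * Ex.x₂ * v0 * v0 + cC (-54023) 1250 * (Ex.x₁ - cC (3) 5) + cC (8369) 2000 * v0 * (Ex.x₁ - cC (3) 5) + cC (270603) 2500 * Ex.x₂ * (Ex.x₁ - cC (3) 5))

/-- The upper bound of `p` on a slab. -/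
def hi0_1 : Ex :=
  (cC (288643) 10000 + cC (-1031441) 5000 * Ex.x₂ + cC (-10561) 2000 * v0 + cC (32381) 5000 * Ex.x₂ * v0 + cC (2541833) 2500 * Ex.x₂ * Ex.x₂ + cC (633) 10000 * v0 * v0 + cC (-87571) 2500 * Ex.x₂ * Ex.x₂ * v0 + cC (4221) 2000 * Ex.x₂ * v0 * v0 + cC (-632763) 10000 * (Ex.x₁ - cC (3) 5) + cC (6493) 1000 * v0 * (Ex.x₁ - cC (3) 5) + cC (1342147) 10000 * Ex.x₂ * (Ex.x₁ - cC (3) 5))

/-- The upper bound of `p` on a slab. -/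
def hi0_2 : Ex :=
  (cC (301951) 10000 + cC (-1272109) 10000 * Ex.x₂ + cC (-23479) 2500 * v0 + cC (415431) 10000 * Ex.x₂ * v0 + cC (1994917) 5000 * Ex.x₂ * Ex.x₂ + cC (1207) 10000 * v0 * v0 + cC (-2567) 16 * Ex.x₂ * Ex.x₂ * v0 + cC (4989) 2000 * Ex.x₂ * v0 * v0 + cC (-509857) 5000 * (Ex.x₁ - cC (3) 5) + cC (17241) 1250 * v0 * (Ex.x₁ - cC (3) 5) + cC (1084937) 5000 * Ex.x₂ * (Ex.x₁ - cC (3) 5))

/-- The upper bound of `p` on a slab. -/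
def hi0_3 : Ex :=
  (cC (148729) 5000 + cC (-1232337) 10000 * Ex.x₂ + cC (-23151) 2500 * v0 + cC (402199) 10000 * Ex.x₂ * v0 + cC (3855187) 10000 * Ex.x₂ * Ex.x₂ + cC (303) 2500 * v0 * v0 + cC (-1557041) 10000 * Ex.x₂ * Ex.x₂ * v0 + cC (4983) 2000 * Ex.x₂ * v0 * v0 + cC (-198619) 2000 * (Ex.x₁ - cC (3) 5) + cC (133427) 10000 * v0 * (Ex.x₁ - cC (3) 5) + cC (522343) 2500 * Ex.x₂ * (Ex.x₁ - cC (3) 5))

/-- The upper bound of `p` on a slab. -/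
def hi0_4 : Ex :=
  (cC (72331) 2500 + cC (-290393) 2500 * Ex.x₂ + cC (-45109) 5000 * v0 + cC (378571) 10000 * Ex.x₂ * v0 + cC (3618257) 10000 * Ex.x₂ * Ex.x₂ + cC (609) 5000 * v0 * v0 + cC (-184173) 1250 * Ex.x₂ * Ex.x₂ * v0 + cC (12431) 5000 * Ex.x₂ * v0 * v0 + cC (-945431) 10000 * (Ex.x₁ - cC (3) 5) + cC (25071) 2000 * v0 * (Ex.x₁ - cC (3) 5) + cC (1948077) 10000 * Ex.x₂ * (Ex.x₁ - cC (3) 5))

/-- The upper bound of `p` on a slab. -/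
def hi0_5 : Ex :=
  (cC (34361) 1250 + cC (-209477) 2000 * Ex.x₂ + cC (-85929) 10000 * v0 + cC (21269) 625 * Ex.x₂ * v0 + cC (3244173) 10000 * Ex.x₂ * Ex.x₂ + cC (607) 5000 * v0 * v0 + cC (-66959) 500 * Ex.x₂ * Ex.x₂ * v0 + cC (24637) 10000 * Ex.x₂ * v0 * v0 + cC (-866997) 10000 * (Ex.x₁ - cC (3) 5) + cC (22453) 2000 * v0 * (Ex.x₁ - cC (3) 5) + cC (1727223) 10000 * Ex.x₂ * (Ex.x₁ - cC (3) 5))

/-- The lower line of `S/(1 - S)`. -/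
def k0 : Ex :=
  (cC (-22709) 10000 + cC (12569) 2000 * Ex.x₁)

/-- The upper bound of the time. -/
def t0 : Ex :=
  cC (100021) 100000 * (cC (12) 25 + cC (141) 200 * Ex.x₂ + cC (-129) 1000 * v0 + cC (-249) 1000 * Ex.x₂ * v0 + cC (353) 1000 * Ex.x₂ * Ex.x₂ + cC (7) 500 * v0 * v0 + cC (-93) 500 * Ex.x₂ * Ex.x₂ * v0 + cC (3) 100 * Ex.x₂ * v0 * v0)

/-- The lower bound of `1/be`. -/
def b0l : Ex :=
  (cC (45051) 5000 + cC (-27059) 2000 * (Ex.x₁ + Ex.x₂) + cC (16927) 2500 * (Ex.x₁ + Ex.x₂) * (Ex.x₁ + Ex.x₂))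

/-- The upper bound of `1/be`. -/
def b0h : Ex :=
  (cC (90107) 10000 + cC (-27059) 2000 * (Ex.x₁ + Ex.x₂) + cC (16927) 2500 * (Ex.x₁ + Ex.x₂) * (Ex.x₁ + Ex.x₂))

/-- The lower bound of `1/S`. -/
def r0l : Ex :=
  (cC (4159) 1250 + cC (-6919) 2500 * Ex.x₁)

/-- The upper bound of `1/S`. -/
def r0h : Ex :=
  (cC (33273) 10000 + cC (-6919) 2500 * Ex.x₁)

/-- The cut `0` of `d/h`. -/
def q0_0 : Ex :=
  cC (10) 7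

/-- The cut `1` of `d/h`. -/
def q0_1 : Ex :=
  (cC (144) 125 + cC (-379) 500 * Ex.x₂ + cC (1139) 1000 * Ex.x₂ * Ex.x₂)

/-- The cut `2` of `d/h`. -/
def q0_2 : Ex :=
  (cC (1143) 1000 + cC (-94) 125 * Ex.x₂ + cC (113) 100 * Ex.x₂ * Ex.x₂)

/-- The cut `3` of `d/h`. -/
def q0_3 : Ex :=
  (cC (563) 500 + cC (-741) 1000 * Ex.x₂ + cC (1113) 1000 * Ex.x₂ * Ex.x₂)

/-- The cut `4` of `d/h`. -/
def q0_4 : Ex :=
  (cC (138) 125 + cC (-727) 1000 * Ex.x₂ + cC (273) 250 * Ex.x₂ * Ex.x₂)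

/-- The cut `5` of `d/h`. -/
def q0_5 : Ex :=
  cC (1) 1

/-- The piece from `1/20` to `2/25`. -/
def p0 : Piece where
  box := ⟨⟨0, 1, 1⟩, ⟨3000, 3011, 5000⟩, ⟨5, 8, 100⟩, ⟨0, 1, 1⟩⟩
  v := v0
  kl := k0
  lo := lo0
  bl := b0l
  bh := b0h
  rl := r0l
  rh := r0h
  eta := cC (17) 100000
  rho := cC (100021) 100000
  rinv := cC (100000) 100021
  tT := cC (100021) 100000 * Ex.x₂ * cC (10) 7

/-- An end of `p` on the piece. -/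
def g0 : Group where
  p := lo0
  beta := (cC (-45647) 25 + cC (175378) 5 * Ex.x₂ + cC (230457) 100 * v0 + cC (-412033) 10 * Ex.x₂ * v0 + cC (-9638517) 100 * Ex.x₂ * Ex.x₂ + cC (2409) 50 * v0 * v0 + cC (3649757) 100 * Ex.x₂ * Ex.x₂ * Ex.x₂ + cC (6431) 50 * v0 * v0 * v0 + cC (222798) 5 * Ex.x₂ * Ex.x₂ * v0 + cC (319653) 20 * Ex.x₂ * v0 * v0)
  s₀ := {
    t := Ex.x₂
    phi := (cC (9074401) 25 + cC (16615914) 25 * Ex.x₂ + cC (-20326961) 100 * v0 + cC (-3395303) 20 * Ex.x₂ * v0 + cC (-11961349) 100 * Ex.x₂ * Ex.x₂ + cC (2917067) 100 * v0 * v0)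
    eta := (cC (-1461) 100 + cC (-200469) 100 * Ex.x₂ + cC (157789) 100 * v0 + cC (34181) 10 * Ex.x₂ * v0 + cC (-488347) 100 * Ex.x₂ * Ex.x₂ + cC (-47511) 100 * v0 * v0)
    eta' := (cC (2276) 5 + cC (52841) 50 * Ex.x₂ + cC (-168863) 100 * v0 + cC (-88184) 25 * Ex.x₂ * v0 + cC (299956) 25 * Ex.x₂ * Ex.x₂ + cC (1985) 4 * v0 * v0) }
  s₁ := {
    t := t0
    phi := (cC (64467263) 20 + cC (-320580767) 100 * v0 + cC (42884189) 50 * v0 * v0 + cC (183443) 100 * v0 * v0 * v0 + cC (-359981) 25 * v0 * v0 * v0 * v0 + cC (-1606571809) 50 * Ex.x₂ + cC (1215862399) 25 * Ex.x₂ * v0 + cC (-1905352351) 100 * Ex.x₂ * v0 * v0 + cC (43640338) 25 * Ex.x₂ * v0 * v0 * v0 + cC (-14570572613) 50 * Ex.x₂ * Ex.x₂ + cC (10019624963) 100 * Ex.x₂ * Ex.x₂ * v0 + cC (3178242053) 100 * Ex.x₂ * Ex.x₂ * v0 * v0 + cC (118855862261) 100 * Ex.x₂ * Ex.x₂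 * Ex.x₂ + cC (-39189123868) 25 * Ex.x₂ * Ex.x₂ * Ex.x₂ * v0 + cC (1504778435617) 100 * Ex.x₂ * Ex.x₂ * Ex.x₂ * Ex.x₂)
    eta := (cC (-41143) 20 + cC (543957) 100 * Ex.x₂ + cC (42272) 25 * v0 + cC (-105129) 100 * Ex.x₂ * v0 + cC (1265357) 100 * Ex.x₂ * Ex.x₂ + cC (-7987) 25 * v0 * v0)
    eta' := (cC (148749) 20 + cC (-3026589) 50 * Ex.x₂ + cC (-163421) 50 * v0 + cC (15778) 5 * Ex.x₂ * v0 + cC (27752383) 100 * Ex.x₂ * Ex.x₂ + cC (10581) 20 * v0 * v0) }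
  u₀ := cC (39) 40
  u₁ := cC (100021) 100000

/-- An end of `p` on the piece. -/
def g0_0 : Group where
  p := hi0_0
  beta := (cC (-104941) 20 + cC (1296049) 10 * Ex.x₂ + cC (528927) 100 * v0 + cC (-8173487) 100 * Ex.x₂ * v0 + cC (-27965203) 25 * Ex.x₂ * Ex.x₂ + cC (-12324) 25 * v0 * v0 + cC (455423653) 100 * Ex.x₂ * Ex.x₂ * Ex.x₂ + cC (22319) 100 * v0 * v0 * v0 + cC (2708823) 20 * Ex.x₂ * Ex.x₂ * v0 + cC (2043853) 100 * Ex.x₂ * v0 * v0)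
  s₀ := {
    t := Ex.x₂ * q0_0
    phi := (cC (31872239) 100 + cC (-10498321) 25 * Ex.x₂ + cC (-14861659) 100 * v0 + cC (4888561) 100 * Ex.x₂ * v0 + cC (37098642) 25 * Ex.x₂ * Ex.x₂ + cC (919371) 50 * v0 * v0)
    eta := (cC (13031) 25 + cC (-1319331) 100 * Ex.x₂ + cC (152827) 100 * v0 + cC (2051) 10 * Ex.x₂ * v0 + cC (7084797) 100 * Ex.x₂ * Ex.x₂ + cC (-18883) 50 * v0 * v0)
    eta' := (cC (-20981) 100 + cC (116363) 10 * Ex.x₂ + cC (-155861) 100 * v0 + cC (-8186) 25 * Ex.x₂ * v0 + cC (-1479202) 25 * Ex.x₂ * Ex.x₂ + cC (38777) 100 * v0 * v0) }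
  s₁ := {
    t := t0
    phi := (cC (45890057) 100 + cC (-145301687) 50 * Ex.x₂ + cC (-2872749) 20 * v0 + cC (42086757) 50 * Ex.x₂ * v0 + cC (-41387644) 25 * Ex.x₂ * Ex.x₂ + cC (528377) 50 * v0 * v0)
    eta := (cC (578549) 100 + cC (-11806301) 100 * Ex.x₂ + cC (5814) 25 * v0 + cC (335081) 25 * Ex.x₂ * v0 + cC (47255491) 100 * Ex.x₂ * Ex.x₂ + cC (-5679) 20 * v0 * v0)
    eta' := (cC (-103676) 25 + cC (8679169) 100 * Ex.x₂ + cC (-19143) 100 * v0 + cC (-347172) 25 * Ex.x₂ * v0 + cC (-13110959) 50 * Ex.x₂ * Ex.x₂ + cC (7102) 25 * v0 * v0) }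
  u₀ := cC (39) 40
  u₁ := cC (100021) 100000

/-- An end of `p` on the piece. -/
def g0_1 : Group where
  p := hi0_1
  beta := (cC (-1349411) 100 + cC (26105503) 100 * Ex.x₂ + cC (881667) 100 * v0 + cC (-2604061) 25 * Ex.x₂ * v0 + cC (-100845039) 50 * Ex.x₂ * Ex.x₂ + cC (-7759) 10 * v0 * v0 + cC (114217779) 20 * Ex.x₂ * Ex.x₂ * Ex.x₂ + cC (2129) 10 * v0 * v0 * v0 + cC (1327423) 4 * Ex.x₂ * Ex.x₂ * v0 + cC (1851833) 100 * Ex.x₂ * v0 * v0)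
  s₀ := {
    t := Ex.x₂ * q0_1
    phi := (cC (54716637) 100 + cC (25393209) 100 * Ex.x₂ + cC (-27415759) 100 * v0 + cC (6696204) 25 * Ex.x₂ * v0 + cC (-10444057) 1 * Ex.x₂ * Ex.x₂ + cC (3392789) 100 * v0 * v0)
    eta := (cC (-71699) 10 + cC (6605482) 25 * Ex.x₂ + cC (413639) 100 * v0 + cC (-4012769) 100 * Ex.x₂ * v0 + cC (-87216901) 25 * Ex.x₂ * Ex.x₂ + cC (-76959) 100 * v0 * v0 + cC (79839643) 5 * Ex.x₂ * Ex.x₂ * Ex.x₂ + cC (417) 25 * v0 * v0 * v0 + cC (19912767) 100 * Ex.x₂ * Ex.x₂ * v0 + cC (49289) 20 * Ex.x₂ * v0 * v0)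
    eta' := (cC (47009) 100 + cC (203504) 25 * Ex.x₂ + cC (-114599) 50 * v0 + cC (88159) 50 * Ex.x₂ * v0 + cC (-4031097) 50 * Ex.x₂ * Ex.x₂ + cC (49733) 100 * v0 * v0) }
  s₁ := {
    t := cC (100021) 100000 * Ex.x₂ * q0_0
    phi := (cC (102394979) 100 + cC (-152203087) 50 * Ex.x₂ + cC (-49001259) 100 * v0 + cC (12289551) 20 * Ex.x₂ * v0 + cC (160564771) 25 * Ex.x₂ * Ex.x₂ + cC (314968) 5 * v0 * v0)
    eta := (cC (70871) 50 + cC (-418943) 25 * Ex.x₂ + cC (165423) 100 * v0 + cC (-259383) 100 * Ex.x₂ * v0 + cC (3440626) 25 * Ex.x₂ * Ex.x₂ + cC (-40111) 100 * v0 * v0)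
    eta' := (cC (-14534) 25 + cC (538529) 50 * Ex.x₂ + cC (-35663) 20 * v0 + cC (25509) 10 * Ex.x₂ * v0 + cC (-2488499) 25 * Ex.x₂ * Ex.x₂ + cC (8443) 20 * v0 * v0) }
  u₀ := cC (39) 40
  u₁ := cC (100021) 100000

/-- An end of `p` on the piece. -/
def g0_2 : Group where
  p := hi0_2
  beta := (cC (-668629) 50 + cC (2494343) 25 * Ex.x₂ + cC (1320861) 100 * v0 + cC (-448772) 5 * Ex.x₂ * v0 + cC (-3330881) 25 * Ex.x₂ * Ex.x₂ + cC (-223029) 100 * v0 * v0 + cC (-10931694) 25 * Ex.x₂ * Ex.x₂ * Ex.x₂ + cC (15371) 100 * v0 * v0 * v0 + cC (88782) 1 * Ex.x₂ * Ex.x₂ * v0 + cC (2534113) 100 * Ex.x₂ * v0 * v0)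
  s₀ := {
    t := Ex.x₂ * q0_2
    phi := (cC (-45599043) 100 + cC (1289925797) 25 * Ex.x₂ + cC (-40837197) 100 * v0 + cC (-276047689) 25 * Ex.x₂ * v0 + cC (-28763324761) 50 * Ex.x₂ * Ex.x₂ + cC (22957989) 100 * v0 * v0 + cC (59903555562) 25 * Ex.x₂ * Ex.x₂ * Ex.x₂ + cC (-862046) 25 * v0 * v0 * v0 + cC (878015303) 25 * Ex.x₂ * Ex.x₂ * v0 + cC (63113401) 50 * Ex.x₂ * v0 * v0)
    eta := (cC (-648033) 100 + cC (4190828) 25 * Ex.x₂ + cC (598251) 100 * v0 + cC (-4813777) 100 * Ex.x₂ * v0 + cC (-43177872) 25 * Ex.x₂ * Ex.x₂ + cC (-15603) 10 * v0 * v0 + cC (324120567) 50 * Ex.x₂ * Ex.x₂ * Ex.x₂ + cC (8637) 100 * v0 * v0 * v0 + cC (19769753) 100 * Ex.x₂ * Ex.x₂ * v0 + cC (507939) 100 * Ex.x₂ * v0 * v0)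
    eta' := (cC (22769) 50 + cC (17951) 25 * Ex.x₂ + cC (-20557) 10 * v0 + cC (-333611) 100 * Ex.x₂ * v0 + cC (13898) 1 * Ex.x₂ * Ex.x₂ + cC (14846) 25 * v0 * v0) }
  s₁ := {
    t := cC (100021) 100000 * Ex.x₂ * q0_1
    phi := (cC (30759323) 50 + cC (563598399) 100 * Ex.x₂ + cC (-2341227) 5 * v0 + cC (-32541249) 50 * Ex.x₂ * v0 + cC (-2911258557) 100 * Ex.x₂ * Ex.x₂ + cC (8069823) 100 * v0 * v0)
    eta := (cC (-42919) 100 + cC (66631) 5 * Ex.x₂ + cC (102927) 50 * v0 + cC (104193) 50 * Ex.x₂ * v0 + cC (-10007793) 100 * Ex.x₂ * Ex.x₂ + cC (-14653) 25 * v0 * v0)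
    eta' := (cC (41663) 100 + cC (14197) 25 * Ex.x₂ + cC (-202593) 100 * v0 + cC (-66019) 20 * Ex.x₂ * v0 + cC (72436) 5 * Ex.x₂ * Ex.x₂ + cC (29429) 50 * v0 * v0) }
  u₀ := cC (39) 40
  u₁ := cC (100021) 100000

/-- An end of `p` on the piece. -/
def g0_3 : Group where
  p := hi0_3
  beta := (cC (-128167) 10 + cC (9518371) 100 * Ex.x₂ + cC (1282959) 100 * v0 + cC (-8683839) 100 * Ex.x₂ * v0 + cC (-12176729) 100 * Ex.x₂ * Ex.x₂ + cC (-54633) 25 * v0 * v0 + cC (-42892151) 100 * Ex.x₂ * Ex.x₂ * Ex.x₂ + cC (3169) 20 * v0 * v0 * v0 + cC (8291247) 100 * Ex.x₂ * Ex.x₂ * v0 + cC (2492169) 100 * Ex.x₂ * v0 * v0)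
  s₀ := {
    t := Ex.x₂ * q0_3
    phi := (cC (62566281) 100 + cC (246798777) 100 * Ex.x₂ + cC (-41043697) 100 * v0 + cC (-8819873) 25 * Ex.x₂ * v0 + cC (-223961401) 20 * Ex.x₂ * Ex.x₂ + cC (6736999) 100 * v0 * v0)
    eta := (cC (-22391) 100 + cC (131547) 25 * Ex.x₂ + cC (202227) 100 * v0 + cC (301917) 100 * Ex.x₂ * v0 + cC (-2726227) 50 * Ex.x₂ * Ex.x₂ + cC (-14656) 25 * v0 * v0)
    eta' := (cC (50537) 100 + cC (36584) 25 * Ex.x₂ + cC (-104763) 50 * v0 + cC (-69231) 20 * Ex.x₂ * v0 + cC (1047513) 100 * Ex.x₂ * Ex.x₂ + cC (15009) 25 * v0 * v0) }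
  s₁ := {
    t := cC (100021) 100000 * Ex.x₂ * q0_2
    phi := (cC (34473227) 50 + cC (39535757) 50 * Ex.x₂ + cC (-4190031) 10 * v0 + cC (-36154441) 100 * Ex.x₂ * v0 + cC (160572271) 100 * Ex.x₂ * Ex.x₂ + cC (690209) 10 * v0 * v0)
    eta := (cC (4087) 50 + cC (74991) 50 * Ex.x₂ + cC (92687) 50 * v0 + cC (61379) 20 * Ex.x₂ * v0 + cC (-2747141) 100 * Ex.x₂ * Ex.x₂ + cC (-13886) 25 * v0 * v0)
    eta' := (cC (43413) 100 + cC (63311) 50 * Ex.x₂ + cC (-102097) 50 * v0 + cC (-169809) 50 * Ex.x₂ * v0 + cC (1090899) 100 * Ex.x₂ * Ex.x₂ + cC (59089) 100 * v0 * v0) }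
  u₀ := cC (39) 40
  u₁ := cC (100021) 100000

/-- An end of `p` on the piece. -/
def g0_4 : Group where
  p := hi0_4
  beta := (cC (-296772) 25 + cC (4413719) 50 * Ex.x₂ + cC (1216817) 100 * v0 + cC (-4106839) 50 * Ex.x₂ * v0 + cC (-2256459) 20 * Ex.x₂ * Ex.x₂ + cC (-52591) 25 * v0 * v0 + cC (-18917083) 50 * Ex.x₂ * Ex.x₂ * Ex.x₂ + cC (8331) 50 * v0 * v0 * v0 + cC (1501727) 20 * Ex.x₂ * Ex.x₂ * v0 + cC (96779) 4 * Ex.x₂ * v0 * v0)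
  s₀ := {
    t := Ex.x₂ * q0_4
    phi := (cC (55819493) 100 + cC (49383883) 100 * Ex.x₂ + cC (-32362873) 100 * v0 + cC (-4719187) 20 * Ex.x₂ * v0 + cC (167983281) 100 * Ex.x₂ * Ex.x₂ + cC (5070697) 100 * v0 * v0)
    eta := (cC (-1167) 20 + cC (-4556) 5 * Ex.x₂ + cC (196663) 100 * v0 + cC (79861) 25 * Ex.x₂ * v0 + cC (-282994) 25 * Ex.x₂ * Ex.x₂ + cC (-57207) 100 * v0 * v0)
    eta' := (cC (14166) 25 + cC (56142) 25 * Ex.x₂ + cC (-106771) 50 * v0 + cC (-181033) 50 * Ex.x₂ * v0 + cC (367229) 50 * Ex.x₂ * Ex.x₂ + cC (60639) 100 * v0 * v0) }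
  s₁ := {
    t := cC (100021) 100000 * Ex.x₂ * q0_3
    phi := (cC (28392219) 50 + cC (15048071) 25 * Ex.x₂ + cC (-331459) 1 * v0 + cC (-6853762) 25 * Ex.x₂ * v0 + cC (88040887) 50 * Ex.x₂ * Ex.x₂ + cC (2612433) 50 * v0 * v0)
    eta := (cC (3847) 100 + cC (-65419) 100 * Ex.x₂ + cC (94767) 50 * v0 + cC (154703) 50 * Ex.x₂ * v0 + cC (-57146) 5 * Ex.x₂ * Ex.x₂ + cC (-55929) 100 * v0 * v0)
    eta' := (cC (48679) 100 + cC (45866) 25 * Ex.x₂ + cC (-51773) 25 * v0 + cC (-70497) 20 * Ex.x₂ * v0 + cC (447347) 50 * Ex.x₂ * Ex.x₂ + cC (59467) 100 * v0 * v0) }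
  u₀ := cC (39) 40
  u₁ := cC (100021) 100000

/-- An end of `p` on the piece. -/
def g0_5 : Group where
  p := hi0_5
  beta := (cC (-1031271) 100 + cC (7876443) 100 * Ex.x₂ + cC (275846) 25 * v0 + cC (-300913) 4 * Ex.x₂ * v0 + cC (-11115331) 100 * Ex.x₂ * Ex.x₂ + cC (-97631) 50 * v0 * v0 + cC (-12601911) 50 * Ex.x₂ * Ex.x₂ * Ex.x₂ + cC (8963) 50 * v0 * v0 * v0 + cC (6437411) 100 * Ex.x₂ * Ex.x₂ * v0 + cC (576813) 25 * Ex.x₂ * v0 * v0)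
  s₀ := {
    t := Ex.x₂ * q0_5
    phi := (cC (39580241) 100 + cC (31144737) 100 * Ex.x₂ + cC (-5254478) 25 * v0 + cC (-10679393) 100 * Ex.x₂ * v0 + cC (26819956) 25 * Ex.x₂ * Ex.x₂ + cC (1464497) 50 * v0 * v0)
    eta := (cC (-18307) 50 + cC (-109673) 50 * Ex.x₂ + cC (215729) 100 * v0 + cC (319257) 100 * Ex.x₂ * v0 + cC (43637) 100 * Ex.x₂ * Ex.x₂ + cC (-14979) 25 * v0 * v0)
    eta' := (cC (79681) 100 + cC (139187) 50 * Ex.x₂ + cC (-22697) 10 * v0 + cC (-90284) 25 * Ex.x₂ * v0 + cC (27981) 20 * Ex.x₂ * Ex.x₂ + cC (62459) 100 * v0 * v0) }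
  s₁ := {
    t := cC (100021) 100000 * Ex.x₂ * q0_4
    phi := (cC (11193379) 25 + cC (9529167) 20 * Ex.x₂ + cC (-25014543) 100 * v0 + cC (-3489407) 25 * Ex.x₂ * v0 + cC (30558973) 100 * Ex.x₂ * Ex.x₂ + cC (918576) 25 * v0 * v0)
    eta := (cC (-2106) 25 + cC (-182227) 100 * Ex.x₂ + cC (195093) 100 * v0 + cC (84252) 25 * Ex.x₂ * v0 + cC (-705047) 100 * Ex.x₂ * Ex.x₂ + cC (-567) 1 * v0 * v0)
    eta' := (cC (13513) 25 + cC (50001) 20 * Ex.x₂ + cC (-104399) 50 * v0 + cC (-183491) 50 * Ex.x₂ * v0 + cC (660671) 100 * Ex.x₂ * Ex.x₂ + cC (5949) 10 * v0 * v0) }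
  u₀ := cC (1) 1 - cC (191) 10000
  u₁ := cC (100021) 100000

/-- `v` of the piece. -/
def v1 : Ex :=
  (cC (393) 250 + cC (-747) 200 * Ex.x₂) + Ex.x₃ * ((cC (1603) 500 + cC (8013) 1000 * Ex.x₂) - (cC (393) 250 + cC (-747) 200 * Ex.x₂))

/-- The lower bound of `p`. -/
def lo1 : Ex :=
  (cC (66423) 5000 + cC (-52193) 2500 * Ex.x₂ + cC (-19867) 5000 * v1 + cC (125527) 10000 * Ex.x₂ * v1 + cC (230537) 10000 * Ex.x₂ * Ex.x₂ + cC (-69479) 5000 * Ex.x₂ * Ex.x₂ * v1 + cC (-17931) 1000 * (Ex.x₁ - cC (3) 5) + cC (-16309) 10000 * v1 * (Ex.x₁ - cC (3) 5) + cC (173477) 10000 * Ex.x₂ * (Ex.x₁ - cC (3) 5))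

/-- The upper bound of `p` on a slab. -/
def hi1_0 : Ex :=
  (cC (34577) 2000 + cC (-814377) 10000 * Ex.x₂ + cC (-19239) 5000 * v1 + cC (21489) 2000 * Ex.x₂ * v1 + cC (2349413) 10000 * Ex.x₂ * Ex.x₂ + cC (52) 625 * v1 * v1 + cC (-66367) 2500 * Ex.x₂ * Ex.x₂ * v1 + cC (611) 1000 * Ex.x₂ * v1 * v1 + cC (-378069) 10000 * (Ex.x₁ - cC (3) 5) + cC (35487) 10000 * v1 * (Ex.x₁ - cC (3) 5) + cC (615691) 10000 * Ex.x₂ * (Ex.x₁ - cC (3) 5))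

/-- The upper bound of `p` on a slab. -/
def hi1_1 : Ex :=
  (cC (63757) 2500 + cC (-204619) 2000 * Ex.x₂ + cC (-7137) 1250 * v1 + cC (24339) 2500 * Ex.x₂ * v1 + cC (774507) 2500 * Ex.x₂ * Ex.x₂ + cC (1333) 10000 * v1 * v1 + cC (-29487) 1000 * Ex.x₂ * Ex.x₂ * v1 + cC (13461) 10000 * Ex.x₂ * v1 * v1 + cC (-288531) 5000 * (Ex.x₁ - cC (3) 5) + cC (2949) 500 * v1 * (Ex.x₁ - cC (3) 5) + cC (373987) 5000 * Ex.x₂ * (Ex.x₁ - cC (3) 5))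

/-- The upper bound of `p` on a slab. -/
def hi1_2 : Ex :=
  (cC (73033) 2500 + cC (-1077247) 10000 * Ex.x₂ + cC (-46789) 5000 * v1 + cC (376661) 10000 * Ex.x₂ * v1 + cC (2540501) 10000 * Ex.x₂ * Ex.x₂ + cC (449) 2000 * v1 * v1 + cC (-513477) 5000 * Ex.x₂ * Ex.x₂ * v1 + cC (12151) 10000 * Ex.x₂ * v1 * v1 + cC (-17039) 200 * (Ex.x₁ - cC (3) 5) + cC (99233) 10000 * v1 * (Ex.x₁ - cC (3) 5) + cC (188307) 1250 * Ex.x₂ * (Ex.x₁ - cC (3) 5))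

/-- The upper bound of `p` on a slab. -/
def hi1_3 : Ex :=
  (cC (13961) 500 + cC (-24619) 250 * Ex.x₂ + cC (-44913) 5000 * v1 + cC (1731) 50 * Ex.x₂ * v1 + cC (461289) 2000 * Ex.x₂ * Ex.x₂ + cC (561) 2500 * v1 * v1 + cC (-945499) 10000 * Ex.x₂ * Ex.x₂ * v1 + cC (12117) 10000 * Ex.x₂ * v1 * v1 + cC (-395087) 5000 * (Ex.x₁ - cC (3) 5) + cC (5652) 625 * v1 * (Ex.x₁ - cC (3) 5) + cC (67553) 500 * Ex.x₂ * (Ex.x₁ - cC (3) 5))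

/-- The lower line of `S/(1 - S)`. -/
def k1 : Ex :=
  (cC (-22957) 10000 + cC (31629) 5000 * Ex.x₁)

/-- The upper bound of the time. -/
def t1 : Ex :=
  cC (100021) 100000 * (cC (501) 1000 + cC (601) 1000 * Ex.x₂ + cC (-137) 1000 * v1 + cC (-83) 500 * Ex.x₂ * v1 + cC (29) 125 * Ex.x₂ * Ex.x₂ + cC (3) 200 * v1 * v1 + cC (-109) 1000 * Ex.x₂ * Ex.x₂ * v1 + cC (3) 250 * Ex.x₂ * v1 * v1)

/-- The lower bound of `1/be`. -/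
def b1l : Ex :=
  (cC (85463) 10000 + cC (-24343) 2000 * (Ex.x₁ + Ex.x₂) + cC (57767) 10000 * (Ex.x₁ + Ex.x₂) * (Ex.x₁ + Ex.x₂))

/-- The upper bound of `1/be`. -/
def b1h : Ex :=
  (cC (85469) 10000 + cC (-24343) 2000 * (Ex.x₁ + Ex.x₂) + cC (57767) 10000 * (Ex.x₁ + Ex.x₂) * (Ex.x₁ + Ex.x₂))

/-- The lower bound of `1/S`. -/
def r1l : Ex :=
  (cC (83) 25 + cC (-27557) 10000 * Ex.x₁)

/-- The upper bound of `1/S`. -/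
def r1h : Ex :=
  (cC (33201) 10000 + cC (-27557) 10000 * Ex.x₁)

/-- The cut `0` of `d/h`. -/
def q1_0 : Ex :=
  cC (10) 7

/-- The cut `1` of `d/h`. -/
def q1_1 : Ex :=
  (cC (1137) 1000 + cC (-187) 250 * Ex.x₂ + cC (9) 8 * Ex.x₂ * Ex.x₂)

/-- The cut `2` of `d/h`. -/
def q1_2 : Ex :=
  (cC (1109) 1000 + cC (-73) 100 * Ex.x₂ + cC (1097) 1000 * Ex.x₂ * Ex.x₂)

/-- The cut `3` of `d/h`. -/
def q1_3 : Ex :=
  cC (1) 1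

/-- The piece from `2/25` to `3/25`. -/
def p1 : Piece where
  box := ⟨⟨0, 1, 1⟩, ⟨375, 378, 625⟩, ⟨2, 3, 25⟩, ⟨0, 1, 1⟩⟩
  v := v1
  kl := k1
  lo := lo1
  bl := b1l
  bh := b1h
  rl := r1l
  rh := r1h
  eta := cC (1) 5000
  rho := cC (100021) 100000
  rinv := cC (100000) 100021
  tT := cC (100021) 100000 * Ex.x₂ * cC (10) 7

/-- An end of `p` on the piece. -/
def g1 : Group where
  p := lo1
  beta := (cC (-245199) 100 + cC (295269) 10 * Ex.x₂ + cC (333521) 100 * v1 + cC (-1981069) 50 * Ex.x₂ * v1 + cC (-1595953) 50 * Ex.x₂ * Ex.x₂ + cC (-45791) 100 * v1 * v1 + cC (-5939769) 100 * Ex.x₂ * Ex.x₂ * Ex.x₂ + cC (787) 4 * v1 * v1 * v1 + cC (944893) 50 * Ex.x₂ * Ex.x₂ * v1 + cC (1645701) 100 * Ex.x₂ * v1 * v1)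
  s₀ := {
    t := Ex.x₂
    phi := (cC (19719399) 50 + cC (29248071) 50 * Ex.x₂ + cC (-5272664) 25 * v1 + cC (-2527081) 20 * Ex.x₂ * v1 + cC (-28858127) 100 * Ex.x₂ * Ex.x₂ + cC (290211) 10 * v1 * v1)
    eta := (cC (3081) 50 + cC (-6042) 5 * Ex.x₂ + cC (37938) 25 * v1 + cC (355953) 100 * Ex.x₂ * v1 + cC (-1120941) 100 * Ex.x₂ * Ex.x₂ + cC (-46777) 100 * v1 * v1)
    eta' := (cC (21981) 50 + cC (179403) 100 * Ex.x₂ + cC (-84299) 50 * v1 + cC (-344517) 100 * Ex.x₂ * v1 + cC (329979) 50 * Ex.x₂ * Ex.x₂ + cC (49723) 100 * v1 * v1) }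
  s₁ := {
    t := t1
    phi := (cC (341770971) 100 + cC (-209444079) 100 * v1 + cC (20823458) 25 * v1 * v1 + cC (-4376279) 25 * v1 * v1 * v1 + cC (272934) 25 * v1 * v1 * v1 * v1 + cC (-6555992549) 100 * Ex.x₂ + cC (1124712063) 100 * Ex.x₂ * v1 + cC (-6435569) 25 * Ex.x₂ * v1 * v1 + cC (35790171) 100 * Ex.x₂ * v1 * v1 * v1 + cC (73747545059) 100 * Ex.x₂ * Ex.x₂ + cC (-9773847201) 100 * Ex.x₂ * Ex.x₂ * v1 + cC (-1505713047) 100 * Ex.x₂ * Ex.x₂ * v1 * v1 + cC (-351754718183) 100 * Ex.x₂ * Ex.x₂ * Ex.x₂ + cC (14850072139) 25 * Ex.x₂ * Ex.x₂ * Ex.x₂ * v1 + cC (37264136473) 10 * Ex.x₂ * Ex.x₂ * Ex.x₂ * Ex.x₂)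
    eta := (cC (-180059) 100 + cC (162677) 100 * Ex.x₂ + cC (165981) 100 * v1 + cC (14719) 20 * Ex.x₂ * v1 + cC (97807) 25 * Ex.x₂ * Ex.x₂ + cC (-3423) 10 * v1 * v1)
    eta' := (cC (563693) 100 + cC (-2027459) 100 * Ex.x₂ + cC (-151069) 50 * v1 + cC (173733) 100 * Ex.x₂ * v1 + cC (3140097) 100 * Ex.x₂ * Ex.x₂ + cC (50329) 100 * v1 * v1) }
  u₀ := cC (39) 40
  u₁ := cC (100021) 100000

/-- An end of `p` on the piece. -/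
def g1_0 : Group where
  p := hi1_0
  beta := (cC (21089) 100 + cC (-31441) 100 * v1 + cC (7749) 5 * v1 * v1 + cC (-2103) 25 * v1 * v1 * v1 + cC (27) 10 * v1 * v1 * v1 * v1 + cC (-152009) 100 * Ex.x₂ + cC (295693) 25 * Ex.x₂ * v1 + cC (-146987) 20 * Ex.x₂ * v1 * v1 + cC (40031) 10 * Ex.x₂ * v1 * v1 * v1 + cC (-223602) 25 * Ex.x₂ * Ex.x₂ + cC (-11332879) 100 * Ex.x₂ * Ex.x₂ * v1 + cC (3238) 25 * Ex.x₂ * Ex.x₂ * v1 * v1 + cC (-3704607) 50 * Ex.x₂ * Ex.x₂ * Ex.x₂ + cC (7118247) 25 * Ex.x₂ * Ex.x₂ * Ex.x₂ * v1 + cC (100070471) 100 * Ex.x₂ * Ex.x₂ * Ex.x₂ * Ex.x₂)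
  s₀ := {
    t := Ex.x₂ * q1_0
    phi := (cC (30627123) 100 + cC (-3613269) 50 * Ex.x₂ + cC (-7403163) 50 * v1 + cC (1566507) 100 * Ex.x₂ * v1 + cC (-409169) 25 * Ex.x₂ * Ex.x₂ + cC (1873033) 100 * v1 * v1)
    eta := (cC (53387) 100 + cC (-645149) 100 * Ex.x₂ + cC (65623) 50 * v1 + cC (16627) 10 * Ex.x₂ * v1 + cC (7763) 2 * Ex.x₂ * Ex.x₂ + cC (-8986) 25 * v1 * v1)
    eta' := (cC (-29883) 100 + cC (5916) 1 * Ex.x₂ + cC (-65047) 50 * v1 + cC (-222717) 100 * Ex.x₂ * v1 + cC (56649) 10 * Ex.x₂ * Ex.x₂ + cC (1857) 5 * v1 * v1) }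
  s₁ := {
    t := t1
    phi := (cC (4090807) 50 + cC (-6354499) 50 * Ex.x₂ + cC (-1240943) 50 * v1 + cC (-361918) 25 * Ex.x₂ * v1 + cC (90474953) 100 * Ex.x₂ * Ex.x₂ + cC (358627) 100 * v1 * v1)
    eta := (cC (9611) 10 + cC (-883811) 25 * Ex.x₂ + cC (27163) 20 * v1 + cC (550071) 100 * Ex.x₂ * v1 + cC (4340931) 50 * Ex.x₂ * Ex.x₂ + cC (-1856) 5 * v1 * v1)
    eta' := (cC (-9202) 25 + cC (3118539) 100 * Ex.x₂ + cC (-136057) 100 * v1 + cC (-23037) 4 * Ex.x₂ * v1 + cC (-6502389) 100 * Ex.x₂ * Ex.x₂ + cC (38111) 100 * v1 * v1) }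
  u₀ := cC (39) 40
  u₁ := cC (100021) 100000

/-- An end of `p` on the piece. -/
def g1_1 : Group where
  p := hi1_1
  beta := (cC (-19793) 4 + cC (70409) 25 * v1 + cC (107219) 100 * v1 * v1 + cC (-77) 1 * v1 * v1 * v1 + cC (24) 5 * v1 * v1 * v1 * v1 + cC (1244867) 50 * Ex.x₂ + cC (707519) 50 * Ex.x₂ * v1 + cC (-347389) 50 * Ex.x₂ * v1 * v1 + cC (87752) 25 * Ex.x₂ * v1 * v1 * v1 + cC (1690857) 100 * Ex.x₂ * Ex.x₂ + cC (-8681111) 50 * Ex.x₂ * Ex.x₂ * v1 + cC (367501) 50 * Ex.x₂ * Ex.x₂ * v1 * v1 + cC (-63622139) 100 * Ex.x₂ * Ex.x₂ * Ex.x₂ + cC (72401743) 100 * Ex.x₂ * Ex.x₂ * Ex.x₂ * v1 + cC (11250291) 50 * Ex.x₂ * Ex.x₂ * Ex.x₂ * Ex.x₂)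
  s₀ := {
    t := Ex.x₂ * q1_1
    phi := (cC (11194357) 20 + cC (-75810717) 50 * Ex.x₂ + cC (-4537399) 20 * v1 + cC (-5979021) 100 * Ex.x₂ * v1 + cC (377250533) 50 * Ex.x₂ * Ex.x₂ + cC (3015351) 100 * v1 * v1)
    eta := (cC (22829) 100 + cC (-483153) 100 * Ex.x₂ + cC (189811) 100 * v1 + cC (4501) 5 * Ex.x₂ * v1 + cC (38503) 2 * Ex.x₂ * Ex.x₂ + cC (-46267) 100 * v1 * v1)
    eta' := (cC (21579) 50 + cC (26557) 10 * Ex.x₂ + cC (-205733) 100 * v1 + cC (-22953) 25 * Ex.x₂ * v1 + cC (-1026333) 100 * Ex.x₂ * Ex.x₂ + cC (12324) 25 * v1 * v1) }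
  s₁ := {
    t := cC (100021) 100000 * Ex.x₂ * q1_0
    phi := (cC (20599196) 25 + cC (18047514) 25 * Ex.x₂ + cC (-41778033) 100 * v1 + cC (-15980323) 25 * Ex.x₂ * v1 + cC (113634142) 25 * Ex.x₂ * Ex.x₂ + cC (342109) 5 * v1 * v1)
    eta := (cC (157593) 100 + cC (-82352) 25 * Ex.x₂ + cC (114811) 100 * v1 + cC (-17183) 25 * Ex.x₂ * v1 + cC (921997) 50 * Ex.x₂ * Ex.x₂ + cC (-33417) 100 * v1 * v1)
    eta' := (cC (-82523) 100 + cC (10091) 5 * Ex.x₂ + cC (-65799) 50 * v1 + cC (13988) 25 * Ex.x₂ * v1 + cC (-601003) 50 * Ex.x₂ * Ex.x₂ + cC (36569) 100 * v1 * v1) }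
  u₀ := cC (39) 40
  u₁ := cC (100021) 100000

/-- An end of `p` on the piece. -/
def g1_2 : Group where
  p := hi1_2
  beta := (cC (-258706) 25 + cC (234644) 25 * v1 + cC (-30583) 50 * v1 * v1 + cC (-4353) 50 * v1 * v1 * v1 + cC (263) 50 * v1 * v1 * v1 * v1 + cC (3848519) 50 * Ex.x₂ + cC (-5084881) 100 * Ex.x₂ * v1 + cC (666641) 100 * Ex.x₂ * v1 * v1 + cC (280421) 100 * Ex.x₂ * v1 * v1 * v1 + cC (-20115303) 50 * Ex.x₂ * Ex.x₂ + cC (21077823) 100 * Ex.x₂ * Ex.x₂ * v1 + cC (-432498) 25 * Ex.x₂ * Ex.x₂ * v1 * v1 + cC (138818283) 100 * Ex.x₂ * Ex.x₂ * Ex.x₂ + cC (-23070827) 50 * Ex.x₂ * Ex.x₂ * Ex.x₂ * v1 + cC (-22060821) 10 * Ex.x₂ * Ex.x₂ * Ex.x₂ * Ex.x₂)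
  s₀ := {
    t := Ex.x₂ * q1_2
    phi := (cC (16305063) 25 + cC (16010667) 100 * Ex.x₂ + cC (-35901941) 100 * v1 + cC (2310489) 100 * Ex.x₂ * v1 + cC (-39708601) 25 * Ex.x₂ * Ex.x₂ + cC (519403) 10 * v1 * v1)
    eta := (cC (-129921) 100 + cC (1346501) 100 * Ex.x₂ + cC (63963) 20 * v1 + cC (-22527) 20 * Ex.x₂ * v1 + cC (-11043237) 100 * Ex.x₂ * Ex.x₂ + cC (-25929) 25 * v1 * v1 + cC (13980563) 50 * Ex.x₂ * Ex.x₂ * Ex.x₂ + cC (1087) 20 * v1 * v1 * v1 + cC (156703) 50 * Ex.x₂ * Ex.x₂ * v1 + cC (20969) 25 * Ex.x₂ * v1 * v1)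
    eta' := (cC (3629) 10 + cC (153359) 100 * Ex.x₂ + cC (-95541) 50 * v1 + cC (-88958) 25 * Ex.x₂ * v1 + cC (1197069) 100 * Ex.x₂ * Ex.x₂ + cC (56131) 100 * v1 * v1) }
  s₁ := {
    t := cC (100021) 100000 * Ex.x₂ * q1_1
    phi := (cC (17955381) 25 + cC (24975603) 50 * Ex.x₂ + cC (-4100081) 10 * v1 + cC (-883597) 50 * Ex.x₂ * v1 + cC (-138776189) 50 * Ex.x₂ * Ex.x₂ + cC (3052709) 50 * v1 * v1)
    eta := (cC (34121) 100 + cC (-84843) 100 * Ex.x₂ + cC (42192) 25 * v1 + cC (389541) 100 * Ex.x₂ * v1 + cC (-1042297) 50 * Ex.x₂ * Ex.x₂ + cC (-53083) 100 * v1 * v1)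
    eta' := (cC (23153) 100 + cC (114531) 100 * Ex.x₂ + cC (-90531) 50 * v1 + cC (-347611) 100 * Ex.x₂ * v1 + cC (683699) 50 * Ex.x₂ * Ex.x₂ + cC (13594) 25 * v1 * v1) }
  u₀ := cC (39) 40
  u₁ := cC (100021) 100000

/-- An end of `p` on the piece. -/
def g1_3 : Group where
  p := hi1_3
  beta := (cC (-172477) 20 + cC (805083) 100 * v1 + cC (-8879) 25 * v1 * v1 + cC (-4717) 50 * v1 * v1 * v1 + cC (27) 4 * v1 * v1 * v1 * v1 + cC (3133767) 50 * Ex.x₂ + cC (-4000311) 100 * Ex.x₂ * v1 + cC (403351) 100 * Ex.x₂ * v1 * v1 + cC (290943) 100 * Ex.x₂ * v1 * v1 * v1 + cC (-3628139) 10 * Ex.x₂ * Ex.x₂ + cC (18932589) 100 * Ex.x₂ * Ex.x₂ * v1 + cC (-1207423) 100 * Ex.x₂ * Ex.x₂ * v1 * v1 + cC (136836433) 100 * Ex.x₂ * Ex.x₂ * Ex.x₂ + cC (-24795303) 50 * Ex.x₂ * Ex.x₂ * Ex.x₂ * v1 + cC (-51614639) 25 * Ex.x₂ * Ex.x₂ * Ex.x₂ * Ex.x₂)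
  s₀ := {
    t := Ex.x₂ * q1_3
    phi := (cC (1916023) 4 + cC (46081177) 100 * Ex.x₂ + cC (-6365623) 25 * v1 + cC (126808) 25 * Ex.x₂ * v1 + cC (-19024493) 10 * Ex.x₂ * Ex.x₂ + cC (3403773) 100 * v1 * v1)
    eta := (cC (-28693) 100 + cC (-3969) 20 * Ex.x₂ + cC (42029) 20 * v1 + cC (315163) 100 * Ex.x₂ * v1 + cC (-657791) 50 * Ex.x₂ * Ex.x₂ + cC (-14586) 25 * v1 * v1)
    eta' := (cC (672) 1 + cC (27341) 20 * Ex.x₂ + cC (-207933) 100 * v1 + cC (-333669) 100 * Ex.x₂ * v1 + cC (193178) 25 * Ex.x₂ * Ex.x₂ + cC (58219) 100 * v1 * v1) }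
  s₁ := {
    t := cC (100021) 100000 * Ex.x₂ * q1_2
    phi := (cC (51496757) 100 + cC (65503397) 100 * Ex.x₂ + cC (-28526649) 100 * v1 + cC (-624931) 10 * Ex.x₂ * v1 + cC (-11076089) 5 * Ex.x₂ * Ex.x₂ + cC (4082123) 100 * v1 * v1)
    eta := (cC (2979) 25 + cC (16993) 50 * Ex.x₂ + cC (34351) 20 * v1 + cC (348187) 100 * Ex.x₂ * v1 + cC (-535599) 25 * Ex.x₂ * Ex.x₂ + cC (-13028) 25 * v1 * v1)
    eta' := (cC (3489) 10 + cC (180809) 100 * Ex.x₂ + cC (-188263) 100 * v1 + cC (-177843) 50 * Ex.x₂ * v1 + cC (1049459) 100 * Ex.x₂ * Ex.x₂ + cC (2769) 5 * v1 * v1) }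
  u₀ := cC (1) 1 - cC (237) 10000
  u₁ := cC (100021) 100000

/-- `v` of the piece. -/
def v2 : Ex :=
  (cC (1341) 1000 + cC (-71) 40 * Ex.x₂) + Ex.x₃ * ((cC (382) 125 + cC (9259) 1000 * Ex.x₂) - (cC (1341) 1000 + cC (-71) 40 * Ex.x₂))

/-- The lower bound of `p`. -/
def lo2 : Ex :=
  (cC (132371) 10000 + cC (-100613) 5000 * Ex.x₂ + cC (-39457) 10000 * v2 + cC (121031) 10000 * Ex.x₂ * v2 + cC (39821) 2000 * Ex.x₂ * Ex.x₂ + cC (-3001) 250 * Ex.x₂ * Ex.x₂ * v2 + cC (-84199) 5000 * (Ex.x₁ - cC (3) 5) + cC (-19873) 10000 * v2 * (Ex.x₁ - cC (3) 5) + cC (79491) 5000 * Ex.x₂ * (Ex.x₁ - cC (3) 5))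

/-- The upper bound of `p` on a slab. -/
def hi2_0 : Ex :=
  (cC (19911) 1250 + cC (-110941) 2000 * Ex.x₂ + cC (-40029) 10000 * v2 + cC (56819) 5000 * Ex.x₂ * v2 + cC (1124849) 10000 * Ex.x₂ * Ex.x₂ + cC (321) 2500 * v2 * v2 + cC (-51523) 2500 * Ex.x₂ * Ex.x₂ * v2 + cC (459) 2000 * Ex.x₂ * v2 * v2 + cC (-343687) 10000 * (Ex.x₁ - cC (3) 5) + cC (30329) 10000 * v2 * (Ex.x₁ - cC (3) 5) + cC (218113) 5000 * Ex.x₂ * (Ex.x₁ - cC (3) 5))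

/-- The upper bound of `p` on a slab. -/
def hi2_1 : Ex :=
  (cC (237243) 10000 + cC (-333399) 5000 * Ex.x₂ + cC (-15193) 2500 * v2 + cC (24159) 2000 * Ex.x₂ * v2 + cC (1362033) 10000 * Ex.x₂ * Ex.x₂ + cC (1101) 5000 * v2 * v2 + cC (-229961) 10000 * Ex.x₂ * Ex.x₂ * v2 + cC (6137) 10000 * Ex.x₂ * v2 * v2 + cC (-66849) 1250 * (Ex.x₁ - cC (3) 5) + cC (52417) 10000 * v2 * (Ex.x₁ - cC (3) 5) + cC (532773) 10000 * Ex.x₂ * (Ex.x₁ - cC (3) 5))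

/-- The upper bound of `p` on a slab. -/
def hi2_2 : Ex :=
  (cC (143927) 5000 + cC (-2374) 25 * Ex.x₂ + cC (-94909) 10000 * v2 + cC (70129) 2000 * Ex.x₂ * v2 + cC (883121) 5000 * Ex.x₂ * Ex.x₂ + cC (3349) 10000 * v2 * v2 + cC (-707223) 10000 * Ex.x₂ * Ex.x₂ * v2 + cC (2811) 10000 * Ex.x₂ * v2 * v2 + cC (-377143) 5000 * (Ex.x₁ - cC (3) 5) + cC (78359) 10000 * v2 * (Ex.x₁ - cC (3) 5) + cC (565939) 5000 * Ex.x₂ * (Ex.x₁ - cC (3) 5))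

/-- The upper bound of `p` on a slab. -/
def hi2_3 : Ex :=
  (cC (55227) 2000 + cC (-876977) 10000 * Ex.x₂ + cC (-22891) 2500 * v2 + cC (327181) 10000 * Ex.x₂ * v2 + cC (1617147) 10000 * Ex.x₂ * Ex.x₂ + cC (209) 625 * v2 * v2 + cC (-32823) 500 * Ex.x₂ * Ex.x₂ * v2 + cC (2817) 10000 * Ex.x₂ * v2 * v2 + cC (-705379) 10000 * (Ex.x₁ - cC (3) 5) + cC (72351) 10000 * v2 * (Ex.x₁ - cC (3) 5) + cC (256357) 2500 * Ex.x₂ * (Ex.x₁ - cC (3) 5))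

/-- The lower line of `S/(1 - S)`. -/
def k2 : Ex :=
  (cC (-23027) 10000 + cC (31687) 5000 * Ex.x₁)

/-- The upper bound of the time. -/
def t2 : Ex :=
  cC (100021) 100000 * (cC (509) 1000 + cC (523) 1000 * Ex.x₂ + cC (-37) 250 * v2 + cC (-21) 250 * Ex.x₂ * v2 + cC (-89) 1000 * Ex.x₂ * Ex.x₂ + cC (9) 500 * v2 * v2 + cC (6) 125 * Ex.x₂ * Ex.x₂ * v2 + cC (-9) 1000 * Ex.x₂ * v2 * v2)

/-- The lower bound of `1/be`. -/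
def b2l : Ex :=
  (cC (81349) 10000 + cC (-110287) 10000 * (Ex.x₁ + Ex.x₂) + cC (6229) 1250 * (Ex.x₁ + Ex.x₂) * (Ex.x₁ + Ex.x₂))

/-- The upper bound of `1/be`. -/
def b2h : Ex :=
  (cC (40677) 5000 + cC (-110287) 10000 * (Ex.x₁ + Ex.x₂) + cC (6229) 1250 * (Ex.x₁ + Ex.x₂) * (Ex.x₁ + Ex.x₂))

/-- The lower bound of `1/S`. -/
def r2l : Ex :=
  (cC (1659) 500 + cC (-6881) 2500 * Ex.x₁)

/-- The upper bound of `1/S`. -/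
def r2h : Ex :=
  (cC (16591) 5000 + cC (-6881) 2500 * Ex.x₁)

/-- The cut `0` of `d/h`. -/
def q2_0 : Ex :=
  cC (10) 7

/-- The cut `1` of `d/h`. -/
def q2_1 : Ex :=
  (cC (1137) 1000 + cC (-187) 250 * Ex.x₂ + cC (9) 8 * Ex.x₂ * Ex.x₂)

/-- The cut `2` of `d/h`. -/
def q2_2 : Ex :=
  (cC (1109) 1000 + cC (-73) 100 * Ex.x₂ + cC (1097) 1000 * Ex.x₂ * Ex.x₂)

/-- The cut `3` of `d/h`. -/
def q2_3 : Ex :=
  cC (1) 1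

/-- The piece from `3/25` to `3/20`. -/
def p2 : Piece where
  box := ⟨⟨0, 1, 1⟩, ⟨1521, 1535, 2535⟩, ⟨12, 15, 100⟩, ⟨0, 1, 1⟩⟩
  v := v2
  kl := k2
  lo := lo2
  bl := b2l
  bh := b2h
  rl := r2l
  rh := r2h
  eta := cC (17) 100000
  rho := cC (100021) 100000
  rinv := cC (100000) 100021
  tT := cC (100021) 100000 * Ex.x₂ * cC (10) 7

/-- An end of `p` on the piece. -/
def g2 : Group where
  p := lo2
  beta := (cC (-65977) 50 + cC (128747) 50 * v2 + cC (-12074) 25 * v2 * v2 + cC (39437) 100 * v2 * v2 * v2 + cC (-4093) 100 * v2 * v2 * v2 * v2 + cC (643003) 100 * Ex.x₂ + cC (-1663933) 100 * Ex.x₂ * v2 + cC (86923) 20 * Ex.x₂ * v2 * v2 + cC (174033) 100 * Ex.x₂ * v2 * v2 * v2 + cC (1230723) 50 * Ex.x₂ * Ex.x₂ + cC (995561) 25 * Ex.x₂ * Ex.x₂ * v2 + cC (111423) 20 * Ex.x₂ * Ex.x₂ * v2 * v2 + cC (-19586971) 100 * Ex.x₂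 * Ex.x₂ * Ex.x₂ + cC (-9518141) 50 * Ex.x₂ * Ex.x₂ * Ex.x₂ * v2 + cC (16358412) 25 * Ex.x₂ * Ex.x₂ * Ex.x₂ * Ex.x₂)
  s₀ := {
    t := Ex.x₂
    phi := (cC (35759017) 100 + cC (95446247) 100 * Ex.x₂ + cC (-20023173) 100 * v2 + cC (-14669081) 100 * Ex.x₂ * v2 + cC (-139398087) 100 * Ex.x₂ * Ex.x₂ + cC (1374177) 50 * v2 * v2)
    eta := (cC (2301) 50 + cC (-21319) 25 * Ex.x₂ + cC (152671) 100 * v2 + cC (325289) 100 * Ex.x₂ * v2 + cC (-981239) 100 * Ex.x₂ * Ex.x₂ + cC (-11556) 25 * v2 * v2)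
    eta' := (cC (24607) 50 + cC (90007) 100 * Ex.x₂ + cC (-167709) 100 * v2 + cC (-163569) 50 * Ex.x₂ * v2 + cC (19275) 2 * Ex.x₂ * Ex.x₂ + cC (12298) 25 * v2 * v2) }
  s₁ := {
    t := t2
    phi := (cC (20882633) 50 + cC (-195603239) 100 * Ex.x₂ + cC (-10888583) 100 * v2 + cC (16162041) 100 * Ex.x₂ * v2 + cC (492657261) 100 * Ex.x₂ * Ex.x₂ + cC (1196193) 100 * v2 * v2)
    eta := (cC (-42462) 25 + cC (225207) 100 * Ex.x₂ + cC (159983) 100 * v2 + cC (41389) 25 * Ex.x₂ * v2 + cC (-131401) 20 * Ex.x₂ * Ex.x₂ + cC (-35703) 100 * v2 * v2)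
    eta' := (cC (25284) 5 + cC (-1531339) 100 * Ex.x₂ + cC (-276017) 100 * v2 + cC (69189) 100 * Ex.x₂ * v2 + cC (2219653) 100 * Ex.x₂ * Ex.x₂ + cC (9607) 20 * v2 * v2) }
  u₀ := cC (39) 40
  u₁ := cC (100021) 100000

/-- An end of `p` on the piece. -/
def g2_0 : Group where
  p := hi2_0
  beta := (cC (-20747) 50 + cC (14833) 100 * v2 + cC (31029) 20 * v2 * v2 + cC (-14457) 100 * v2 * v2 * v2 + cC (651) 100 * v2 * v2 * v2 * v2 + cC (434904) 25 * Ex.x₂ + cC (-930397) 100 * Ex.x₂ * v2 + cC (-378939) 100 * Ex.x₂ * v2 * v2 + cC (211001) 50 * Ex.x₂ * v2 * v2 * v2 + cC (-8388121) 50 * Ex.x₂ * Ex.x₂ + cC (2021671) 25 * Ex.x₂ * Ex.x₂ * v2 + cC (-2208989) 100 * Ex.x₂ * Ex.x₂ * v2 * v2 + cC (22439397) 50 * Ex.x₂ * Ex.x₂ * Ex.x₂ + cC (-10783751) 50 * Ex.x₂ * Ex.x₂ * Ex.x₂ * v2 + cC (3588163) 100 * Ex.x₂ * Ex.x₂ * Ex.x₂ * Ex.x₂)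
  s₀ := {
    t := Ex.x₂ * q2_0
    phi := (cC (5857243) 20 + cC (598063) 5 * Ex.x₂ + cC (-7163601) 50 * v2 + cC (-168002) 25 * Ex.x₂ * v2 + cC (-48253593) 100 * Ex.x₂ * Ex.x₂ + cC (367273) 20 * v2 * v2)
    eta := (cC (39791) 100 + cC (-82446) 25 * Ex.x₂ + cC (63851) 50 * v2 + cC (152829) 100 * Ex.x₂ * v2 + cC (-184729) 20 * Ex.x₂ * Ex.x₂ + cC (-1744) 5 * v2 * v2)
    eta' := (cC (9963) 50 + cC (-98517) 50 * Ex.x₂ + cC (-64057) 50 * v2 + cC (-180943) 100 * Ex.x₂ * v2 + cC (3193459) 100 * Ex.x₂ * Ex.x₂ + cC (3591) 10 * v2 * v2) }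
  s₁ := {
    t := t2
    phi := (cC (10957389) 100 + cC (120723967) 100 * Ex.x₂ + cC (-6814801) 100 * v2 + cC (-2156993) 20 * Ex.x₂ * v2 + cC (-299789853) 100 * Ex.x₂ * Ex.x₂ + cC (1187717) 100 * v2 * v2)
    eta := (cC (-23387) 100 + cC (-2500029) 100 * Ex.x₂ + cC (48206) 25 * v2 + cC (274149) 100 * Ex.x₂ * v2 + cC (1692147) 25 * Ex.x₂ * Ex.x₂ + cC (-4201) 10 * v2 * v2)
    eta' := (cC (145151) 100 + cC (307757) 25 * Ex.x₂ + cC (-190333) 100 * v2 + cC (-73609) 25 * Ex.x₂ * v2 + cC (-474447) 25 * Ex.x₂ * Ex.x₂ + cC (42323) 100 * v2 * v2) }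
  u₀ := cC (39) 40
  u₁ := cC (100021) 100000

/-- An end of `p` on the piece. -/
def g2_1 : Group where
  p := hi2_1
  beta := (cC (-398971) 100 + cC (303543) 100 * v2 + cC (4235) 4 * v2 * v2 + cC (-14641) 100 * v2 * v2 * v2 + cC (593) 50 * v2 * v2 * v2 * v2 + cC (86037) 5 * Ex.x₂ + cC (-526071) 100 * Ex.x₂ * v2 + cC (-272587) 100 * Ex.x₂ * v2 * v2 + cC (88318) 25 * Ex.x₂ * v2 * v2 * v2 + cC (-3297651) 100 * Ex.x₂ * Ex.x₂ + cC (221536) 5 * Ex.x₂ * Ex.x₂ * v2 + cC (-1151941) 100 * Ex.x₂ * Ex.x₂ * v2 * v2 + cC (-5175958) 25 * Ex.x₂ * Ex.x₂ * Ex.x₂ + cC (-878109) 20 * Ex.x₂ * Ex.x₂ * Ex.x₂ * v2 + cC (57889269) 100 * Ex.x₂ * Ex.x₂ * Ex.x₂ * Ex.x₂)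
  s₀ := {
    t := Ex.x₂ * q2_1
    phi := (cC (24460327) 50 + cC (-2871323) 50 * Ex.x₂ + cC (-22178253) 100 * v2 + cC (-343431) 50 * Ex.x₂ * v2 + cC (-20193433) 100 * Ex.x₂ * Ex.x₂ + cC (2769103) 100 * v2 * v2)
    eta := (cC (54) 25 + cC (139769) 100 * Ex.x₂ + cC (175919) 100 * v2 + cC (159247) 100 * Ex.x₂ * v2 + cC (-1314497) 100 * Ex.x₂ * Ex.x₂ + cC (-45017) 100 * v2 * v2)
    eta' := (cC (2091) 5 + cC (9949) 20 * Ex.x₂ + cC (-95861) 50 * v2 + cC (-7792) 5 * Ex.x₂ * v2 + cC (121913) 25 * Ex.x₂ * Ex.x₂ + cC (11997) 25 * v2 * v2) }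
  s₁ := {
    t := cC (100021) 100000 * Ex.x₂ * q2_0
    phi := (cC (46317689) 50 + cC (-605037) 50 * Ex.x₂ + cC (-41427201) 100 * v2 + cC (-7785413) 20 * Ex.x₂ * v2 + cC (271254507) 100 * Ex.x₂ * Ex.x₂ + cC (3112851) 50 * v2 * v2)
    eta := (cC (160017) 100 + cC (197519) 100 * Ex.x₂ + cC (21838) 25 * v2 + cC (-25573) 50 * Ex.x₂ * v2 + cC (-952531) 100 * Ex.x₂ * Ex.x₂ + cC (-28223) 100 * v2 * v2)
    eta' := (cC (-2193) 4 + cC (-844867) 100 * Ex.x₂ + cC (-101439) 100 * v2 + cC (7873) 100 * Ex.x₂ * v2 + cC (3721293) 100 * Ex.x₂ * Ex.x₂ + cC (15929) 50 * v2 * v2) }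
  u₀ := cC (39) 40
  u₁ := cC (100021) 100000

/-- An end of `p` on the piece. -/
def g2_2 : Group where
  p := hi2_2
  beta := (cC (-613587) 50 + cC (1017433) 100 * v2 + cC (-12748) 25 * v2 * v2 + cC (-17357) 100 * v2 * v2 * v2 + cC (1363) 100 * v2 * v2 * v2 * v2 + cC (12767949) 100 * Ex.x₂ + cC (-1479857) 20 * Ex.x₂ * v2 + cC (245409) 25 * Ex.x₂ * v2 * v2 + cC (143543) 50 * Ex.x₂ * v2 * v2 * v2 + cC (-83509829) 100 * Ex.x₂ * Ex.x₂ + cC (34827689) 100 * Ex.x₂ * Ex.x₂ * v2 + cC (-1614719) 50 * Ex.x₂ * Ex.x₂ * v2 * v2 + cC (287734351) 100 * Ex.x₂ * Ex.x₂ * Ex.x₂ + cC (-33146273) 50 * Ex.x₂ * Ex.x₂ * Ex.x₂ * v2 + cC (-194043801) 50 * Ex.x₂ * Ex.x₂ * Ex.x₂ * Ex.x₂)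
  s₀ := {
    t := Ex.x₂ * q2_2
    phi := (cC (72878913) 100 + cC (-2148723) 2 * Ex.x₂ + cC (-34080181) 100 * v2 + cC (12694621) 50 * Ex.x₂ * v2 + cC (9411241) 50 * Ex.x₂ * Ex.x₂ + cC (1067417) 25 * v2 * v2)
    eta := (cC (-31853) 25 + cC (221309) 20 * Ex.x₂ + cC (308017) 100 * v2 + cC (-101307) 100 * Ex.x₂ * v2 + cC (-6539277) 100 * Ex.x₂ * Ex.x₂ + cC (-4829) 5 * v2 * v2 + cC (3642486) 25 * Ex.x₂ * Ex.x₂ * Ex.x₂ + cC (3261) 100 * v2 * v2 * v2 + cC (-451043) 50 * Ex.x₂ * Ex.x₂ * v2 + cC (14477) 10 * Ex.x₂ * v2 * v2)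
    eta' := (cC (24177) 100 + cC (25319) 25 * Ex.x₂ + cC (-44188) 25 * v2 + cC (-331481) 100 * Ex.x₂ * v2 + cC (314071) 25 * Ex.x₂ * Ex.x₂ + cC (52513) 100 * v2 * v2) }
  s₁ := {
    t := cC (100021) 100000 * Ex.x₂ * q2_1
    phi := (cC (38336103) 50 + cC (-30292863) 50 * Ex.x₂ + cC (-9530139) 25 * v2 + cC (5898471) 20 * Ex.x₂ * v2 + cC (-49523599) 25 * Ex.x₂ * Ex.x₂ + cC (239109) 5 * v2 * v2)
    eta := (cC (-17128) 25 + cC (173737) 20 * Ex.x₂ + cC (257121) 100 * v2 + cC (47483) 50 * Ex.x₂ * v2 + cC (-6564851) 100 * Ex.x₂ * Ex.x₂ + cC (-4247) 5 * v2 * v2 + cC (14282277) 100 * Ex.x₂ * Ex.x₂ * Ex.x₂ + cC (3099) 100 * v2 * v2 * v2 + cC (-663019) 100 * Ex.x₂ * Ex.x₂ * v2 + cC (88293) 100 * Ex.x₂ * v2 * v2)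
    eta' := (cC (2164) 25 + cC (86667) 100 * Ex.x₂ + cC (-41578) 25 * v2 + cC (-321399) 100 * Ex.x₂ * v2 + cC (266577) 20 * Ex.x₂ * Ex.x₂ + cC (50641) 100 * v2 * v2) }
  u₀ := cC (39) 40
  u₁ := cC (100021) 100000

/-- An end of `p` on the piece. -/
def g2_3 : Group where
  p := hi2_3
  beta := (cC (-196241) 20 + cC (87591) 10 * v2 + cC (-14219) 50 * v2 * v2 + cC (-4488) 25 * v2 * v2 * v2 + cC (1519) 100 * v2 * v2 * v2 * v2 + cC (2278132) 25 * Ex.x₂ + cC (-604893) 10 * Ex.x₂ * v2 + cC (7793) 1 * Ex.x₂ * v2 * v2 + cC (14764) 5 * Ex.x₂ * v2 * v2 * v2 + cC (-27291911) 50 * Ex.x₂ * Ex.x₂ + cC (29412257) 100 * Ex.x₂ * Ex.x₂ * v2 + cC (-2951903) 100 * Ex.x₂ * Ex.x₂ * v2 * v2 + cC (83735481) 50 * Ex.x₂ * Ex.x₂ * Ex.x₂ + cC (-14198493) 25 * Ex.x₂ * Ex.x₂ * Ex.x₂ * v2 + cC (-47049888) 25 * Ex.x₂ * Ex.x₂ * Ex.x₂ * Ex.x₂)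
  s₀ := {
    t := Ex.x₂ * q2_3
    phi := (cC (8122897) 20 + cC (79292793) 100 * Ex.x₂ + cC (-21826577) 100 * v2 + cC (11605567) 100 * Ex.x₂ * v2 + cC (-224910127) 50 * Ex.x₂ * Ex.x₂ + cC (101833) 4 * v2 * v2)
    eta := (cC (-143827) 100 + cC (186957) 20 * Ex.x₂ + cC (154157) 50 * v2 + cC (-19717) 10 * Ex.x₂ * v2 + cC (-143947) 4 * Ex.x₂ * Ex.x₂ + cC (-4486) 5 * v2 * v2 + cC (6398129) 100 * Ex.x₂ * Ex.x₂ * Ex.x₂ + cC (1017) 50 * v2 * v2 * v2 + cC (-203922) 25 * Ex.x₂ * Ex.x₂ * v2 + cC (76521) 50 * Ex.x₂ * v2 * v2)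
    eta' := (cC (66633) 100 + cC (-155017) 100 * Ex.x₂ + cC (-95193) 50 * v2 + cC (-77106) 25 * Ex.x₂ * v2 + cC (90309) 5 * Ex.x₂ * Ex.x₂ + cC (26989) 50 * v2 * v2) }
  s₁ := {
    t := cC (100021) 100000 * Ex.x₂ * q2_2
    phi := (cC (63311389) 100 + cC (5415471) 100 * Ex.x₂ + cC (-3407637) 10 * v2 + cC (44791849) 100 * Ex.x₂ * v2 + cC (-95713657) 20 * Ex.x₂ * Ex.x₂ + cC (3768531) 100 * v2 * v2)
    eta := (cC (8247) 25 + cC (-191639) 100 * Ex.x₂ + cC (83167) 50 * v2 + cC (358053) 100 * Ex.x₂ * v2 + cC (-319584) 25 * Ex.x₂ * Ex.x₂ + cC (-50969) 100 * v2 * v2)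
    eta' := (cC (29541) 100 + cC (7901) 25 * Ex.x₂ + cC (-174919) 100 * v2 + cC (-329201) 100 * Ex.x₂ * v2 + cC (743007) 50 * Ex.x₂ * Ex.x₂ + cC (51967) 100 * v2 * v2) }
  u₀ := cC (1) 1 - cC (237) 10000
  u₁ := cC (100021) 100000

/-- `v` of the piece. -/
def v3 : Ex :=
  (cC (1089) 1000 + cC (-47) 500 * Ex.x₂) + Ex.x₃ * ((cC (8149) 1000 + cC (-24691) 1000 * Ex.x₂) - (cC (1089) 1000 + cC (-47) 500 * Ex.x₂))

/-- The lower bound of `p`. -/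
def lo3 : Ex :=
  (cC (131871) 10000 + cC (-2434) 125 * Ex.x₂ + cC (-7831) 2000 * v3 + cC (117077) 10000 * Ex.x₂ * v3 + cC (17729) 1000 * Ex.x₂ * Ex.x₂ + cC (-21363) 2000 * Ex.x₂ * Ex.x₂ * v3 + cC (-163189) 10000 * (Ex.x₁ - cC (3) 5) + cC (-11131) 5000 * v3 * (Ex.x₁ - cC (3) 5) + cC (164939) 10000 * Ex.x₂ * (Ex.x₁ - cC (3) 5))

/-- The upper bound of `p` on a slab. -/
def hi3_0 : Ex :=
  (cC (143233) 10000 + cC (-362231) 10000 * Ex.x₂ + cC (-6653) 2000 * v3 + cC (9701) 2000 * Ex.x₂ * v3 + cC (553231) 10000 * Ex.x₂ * Ex.x₂ + cC (453) 10000 * v3 * v3 + cC (-35197) 5000 * Ex.x₂ * Ex.x₂ * v3 + cC (7783) 10000 * Ex.x₂ * v3 * v3 + cC (-42047) 1250 * (Ex.x₁ - cC (3) 5) + cC (27709) 10000 * v3 * (Ex.x₁ - cC (3) 5) + cC (431717) 10000 * Ex.x₂ * (Ex.x₁ - cC (3) 5))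

/-- The upper bound of `p` on a slab. -/
def hi3_1 : Ex :=
  (cC (208161) 10000 + cC (-330691) 10000 * Ex.x₂ + cC (-46063) 10000 * v3 + cC (-8451) 5000 * Ex.x₂ * v3 + cC (205009) 5000 * Ex.x₂ * Ex.x₂ + cC (279) 10000 * v3 * v3 + cC (38607) 10000 * Ex.x₂ * Ex.x₂ * v3 + cC (377) 200 * Ex.x₂ * v3 * v3 + cC (-26821) 500 * (Ex.x₁ - cC (3) 5) + cC (49521) 10000 * v3 * (Ex.x₁ - cC (3) 5) + cC (118461) 2000 * Ex.x₂ * (Ex.x₁ - cC (3) 5))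

/-- The upper bound of `p` on a slab. -/
def hi3_2 : Ex :=
  (cC (51809) 2000 + cC (-39289) 625 * Ex.x₂ + cC (-3001) 400 * v3 + cC (9682) 625 * Ex.x₂ * v3 + cC (901573) 10000 * Ex.x₂ * Ex.x₂ + cC (1059) 10000 * v3 * v3 + cC (-70091) 2500 * Ex.x₂ * Ex.x₂ * v3 + cC (17957) 10000 * Ex.x₂ * v3 * v3 + cC (-364737) 5000 * (Ex.x₁ - cC (3) 5) + cC (8579) 1250 * v3 * (Ex.x₁ - cC (3) 5) + cC (1131933) 10000 * Ex.x₂ * (Ex.x₁ - cC (3) 5))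

/-- The upper bound of `p` on a slab. -/
def hi3_3 : Ex :=
  (cC (61539) 2500 + cC (-557509) 10000 * Ex.x₂ + cC (-569) 80 * v3 + cC (130369) 10000 * Ex.x₂ * v3 + cC (388203) 5000 * Ex.x₂ * Ex.x₂ + cC (49) 500 * v3 * v3 + cC (-118299) 5000 * Ex.x₂ * Ex.x₂ * v3 + cC (18387) 10000 * Ex.x₂ * v3 * v3 + cC (-679927) 10000 * (Ex.x₁ - cC (3) 5) + cC (3962) 625 * v3 * (Ex.x₁ - cC (3) 5) + cC (1025501) 10000 * Ex.x₂ * (Ex.x₁ - cC (3) 5))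

/-- The lower line of `S/(1 - S)`. -/
def k3 : Ex :=
  (cC (-23027) 10000 + cC (31687) 5000 * Ex.x₁)

/-- The upper bound of the time. -/
def t3 : Ex :=
  cC (100021) 100000 * (cC (163) 500 + cC (223) 100 * Ex.x₂ + cC (11) 1000 * v3 + cC (-1431) 1000 * Ex.x₂ * v3 + cC (-837) 250 * Ex.x₂ * Ex.x₂ + cC (-7) 1000 * v3 * v3 + cC (1947) 1000 * Ex.x₂ * Ex.x₂ * v3 + cC (4) 25 * Ex.x₂ * v3 * v3)

/-- The lower bound of `1/be`. -/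
def b3l : Ex :=
  (cC (9771) 1250 + cC (-101833) 10000 * (Ex.x₁ + Ex.x₂) + cC (22107) 5000 * (Ex.x₁ + Ex.x₂) * (Ex.x₁ + Ex.x₂))

/-- The upper bound of `1/be`. -/
def b3h : Ex :=
  (cC (39087) 5000 + cC (-101833) 10000 * (Ex.x₁ + Ex.x₂) + cC (22107) 5000 * (Ex.x₁ + Ex.x₂) * (Ex.x₁ + Ex.x₂))

/-- The lower bound of `1/S`. -/
def r3l : Ex :=
  (cC (1659) 500 + cC (-6881) 2500 * Ex.x₁)

/-- The upper bound of `1/S`. -/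
def r3h : Ex :=
  (cC (16591) 5000 + cC (-6881) 2500 * Ex.x₁)

/-- The cut `0` of `d/h`. -/
def q3_0 : Ex :=
  cC (10) 7

/-- The cut `1` of `d/h`. -/
def q3_1 : Ex :=
  (cC (1137) 1000 + cC (-187) 250 * Ex.x₂ + cC (9) 8 * Ex.x₂ * Ex.x₂)

/-- The cut `2` of `d/h`. -/
def q3_2 : Ex :=
  (cC (1109) 1000 + cC (-73) 100 * Ex.x₂ + cC (1097) 1000 * Ex.x₂ * Ex.x₂)

/-- The cut `3` of `d/h`. -/
def q3_3 : Ex :=
  cC (1) 1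

/-- The piece from `3/20` to `9/50`. -/
def p3 : Piece where
  box := ⟨⟨0, 1, 1⟩, ⟨1521, 1535, 2535⟩, ⟨15, 18, 100⟩, ⟨0, 1, 1⟩⟩
  v := v3
  kl := k3
  lo := lo3
  bl := b3l
  bh := b3h
  rl := r3l
  rh := r3h
  eta := cC (1) 5000
  rho := cC (100021) 100000
  rinv := cC (100000) 100021
  tT := cC (100021) 100000 * Ex.x₂ * cC (10) 7

/-- An end of `p` on the piece. -/
def g3 : Group where
  p := lo3
  beta := (cC (-93923) 100 + cC (394669) 100 * v3 + cC (25101) 100 * v3 * v3 + cC (8999) 25 * v3 * v3 * v3 + cC (-5023) 100 * v3 * v3 * v3 * v3 + cC (-643209) 100 * Ex.x₂ + cC (-1141763) 20 * Ex.x₂ * v3 + cC (-102163) 25 * Ex.x₂ * v3 * v3 + cC (257289) 100 * Ex.x₂ * v3 * v3 * v3 + cC (12339687) 50 * Ex.x₂ * Ex.x₂ + cC (19207679) 50 * Ex.x₂ * Ex.x₂ * v3 + cC (77998) 5 * Ex.x₂ * Ex.x₂ * v3 * v3 + cC (-9275691) 5 * Ex.x₂ *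 Ex.x₂ * Ex.x₂ + cC (-48471913) 50 * Ex.x₂ * Ex.x₂ * Ex.x₂ * v3 + cC (22658429) 5 * Ex.x₂ * Ex.x₂ * Ex.x₂ * Ex.x₂)
  s₀ := {
    t := Ex.x₂
    phi := (cC (40472267) 100 + cC (34613717) 100 * Ex.x₂ + cC (-19350509) 100 * v3 + cC (-15174919) 100 * Ex.x₂ * v3 + cC (6406751) 25 * Ex.x₂ * Ex.x₂ + cC (2635009) 100 * v3 * v3)
    eta := (cC (293) 100 + cC (131083) 100 * Ex.x₂ + cC (34702) 25 * v3 + cC (350647) 100 * Ex.x₂ * v3 + cC (-178379) 10 * Ex.x₂ * Ex.x₂ + cC (-22031) 50 * v3 * v3)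
    eta' := (cC (55287) 100 + cC (-268997) 100 * Ex.x₂ + cC (-5925) 4 * v3 + cC (-77317) 20 * Ex.x₂ * v3 + cC (2629373) 100 * Ex.x₂ * Ex.x₂ + cC (23667) 50 * v3 * v3) }
  s₁ := {
    t := t3
    phi := (cC (11690231) 25 + cC (-152175239) 50 * Ex.x₂ + cC (-2117727) 20 * v3 + cC (29878801) 100 * Ex.x₂ * v3 + cC (337198259) 50 * Ex.x₂ * Ex.x₂ + cC (791677) 100 * v3 * v3)
    eta := (cC (-135307) 100 + cC (177979) 100 * Ex.x₂ + cC (61973) 50 * v3 + cC (13423) 4 * Ex.x₂ * v3 + cC (-376494) 25 * Ex.x₂ * Ex.x₂ + cC (-33839) 100 * v3 * v3)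
    eta' := (cC (181447) 50 + cC (-527537) 100 * Ex.x₂ + cC (-45703) 20 * v3 + cC (-28851) 20 * Ex.x₂ * v3 + cC (834457) 100 * Ex.x₂ * Ex.x₂ + cC (22687) 50 * v3 * v3) }
  u₀ := cC (39) 40
  u₁ := cC (100021) 100000

/-- An end of `p` on the piece. -/
def g3_0 : Group where
  p := hi3_0
  beta := (cC (-76349) 100 + cC (2399) 10 * v3 + cC (96743) 50 * v3 * v3 + cC (-30137) 100 * v3 * v3 * v3 + cC (563) 50 * v3 * v3 * v3 * v3 + cC (1115461) 50 * Ex.x₂ + cC (-403597) 20 * Ex.x₂ * v3 + cC (-310831) 100 * Ex.x₂ * v3 * v3 + cC (24833) 5 * Ex.x₂ * v3 * v3 * v3 + cC (-7837081) 50 * Ex.x₂ * Ex.x₂ + cC (15164617) 100 * Ex.x₂ * Ex.x₂ * v3 + cC (-744531) 20 * Ex.x₂ * Ex.x₂ * v3 * v3 + cC (1288077) 5 * Ex.x₂ * Ex.x₂ * Ex.x₂ + cC (-14353153) 50 * Ex.x₂ * Ex.x₂ * Ex.x₂ * v3 + cC (5138149) 25 * Ex.x₂ * Ex.x₂ * Ex.x₂ * Ex.x₂)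
  s₀ := {
    t := Ex.x₂ * q3_0
    phi := (cC (10773701) 25 + cC (-1068643) 2 * Ex.x₂ + cC (-19286107) 100 * v3 + cC (3425923) 25 * Ex.x₂ * v3 + cC (3947317) 25 * Ex.x₂ * Ex.x₂ + cC (561036) 25 * v3 * v3)
    eta := (cC (16867) 50 + cC (-32323) 25 * Ex.x₂ + cC (121479) 100 * v3 + cC (124957) 100 * Ex.x₂ * v3 + cC (-369869) 25 * Ex.x₂ * Ex.x₂ + cC (-6571) 20 * v3 * v3)
    eta' := (cC (327) 25 + cC (-141843) 100 * Ex.x₂ + cC (-5704) 5 * v3 + cC (-47233) 25 * Ex.x₂ * v3 + cC (2983417) 100 * Ex.x₂ * Ex.x₂ + cC (33747) 100 * v3 * v3) }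
  s₁ := {
    t := t3
    phi := (cC (50594907) 50 + cC (-255582813) 50 * Ex.x₂ + cC (-30233261) 100 * v3 + cC (69518573) 100 * Ex.x₂ * v3 + cC (910084349) 100 * Ex.x₂ * Ex.x₂ + cC (2788603) 100 * v3 * v3)
    eta := (cC (-29946) 25 + cC (-1144271) 100 * Ex.x₂ + cC (182949) 100 * v3 + cC (326013) 100 * Ex.x₂ * v3 + cC (395037) 20 * Ex.x₂ * Ex.x₂ + cC (-10398) 25 * v3 * v3)
    eta' := (cC (40103) 50 + cC (444111) 25 * Ex.x₂ + cC (-83377) 50 * v3 + cC (-399011) 100 * Ex.x₂ * v3 + cC (-798563) 25 * Ex.x₂ * Ex.x₂ + cC (20527) 50 * v3 * v3) }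
  u₀ := cC (39) 40
  u₁ := cC (100021) 100000

/-- An end of `p` on the piece. -/
def g3_1 : Group where
  p := hi3_1
  beta := (cC (-100699) 50 + cC (-13267) 25 * v3 + cC (160737) 50 * v3 * v3 + cC (-25661) 50 * v3 * v3 * v3 + cC (943) 50 * v3 * v3 * v3 * v3 + cC (1527507) 100 * Ex.x₂ + cC (1010567) 100 * Ex.x₂ * v3 + cC (-828163) 50 * Ex.x₂ * v3 * v3 + cC (552201) 100 * Ex.x₂ * v3 * v3 * v3 + cC (-9444773) 50 * Ex.x₂ * Ex.x₂ + cC (2639647) 20 * Ex.x₂ * Ex.x₂ * v3 + cC (-95209) 20 * Ex.x₂ * Ex.x₂ * v3 * v3 + cC (12079897) 25 * Ex.x₂ * Ex.x₂ * Ex.x₂ + cC (-8733253) 25 * Ex.x₂ * Ex.x₂ * Ex.x₂ * v3 + cC (-3164809) 25 * Ex.x₂ * Ex.x₂ * Ex.x₂ * Ex.x₂)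
  s₀ := {
    t := Ex.x₂ * q3_1
    phi := (cC (4900177) 10 + cC (42158231) 50 * Ex.x₂ + cC (-5539473) 20 * v3 + cC (40524267) 100 * Ex.x₂ * v3 + cC (-643975939) 100 * Ex.x₂ * Ex.x₂ + cC (1287997) 50 * v3 * v3)
    eta := (cC (-37893) 100 + cC (157773) 20 * Ex.x₂ + cC (81303) 50 * v3 + cC (2147) 1 * Ex.x₂ * v3 + cC (-187552) 5 * Ex.x₂ * Ex.x₂ + cC (-10957) 25 * v3 * v3)
    eta' := (cC (11311) 25 + cC (-265463) 100 * Ex.x₂ + cC (-173491) 100 * v3 + cC (-51507) 25 * Ex.x₂ * v3 + cC (1954647) 100 * Ex.x₂ * Ex.x₂ + cC (46033) 100 * v3 * v3) }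
  s₁ := {
    t := cC (100021) 100000 * Ex.x₂ * q3_0
    phi := (cC (151957683) 100 + cC (-57077521) 20 * Ex.x₂ + cC (-33602249) 50 * v3 + cC (15580471) 20 * Ex.x₂ * v3 + cC (40600353) 100 * Ex.x₂ * Ex.x₂ + cC (7460693) 100 * v3 * v3)
    eta := (cC (58739) 50 + cC (1112709) 100 * Ex.x₂ + cC (12017) 20 * v3 + cC (-48221) 100 * Ex.x₂ * v3 + cC (-1962909) 50 * Ex.x₂ * Ex.x₂ + cC (-4543) 20 * v3 * v3)
    eta' := (cC (3679) 10 + cC (-2284819) 100 * Ex.x₂ + cC (-38123) 50 * v3 + cC (129) 50 * Ex.x₂ * v3 + cC (8053673) 100 * Ex.x₂ * Ex.x₂ + cC (6876) 25 * v3 * v3) }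
  u₀ := cC (39) 40
  u₁ := cC (100021) 100000

/-- An end of `p` on the piece. -/
def g3_2 : Group where
  p := hi3_2
  beta := (cC (-754677) 100 + cC (114417) 25 * v3 + cC (136941) 50 * v3 * v3 + cC (-33207) 50 * v3 * v3 * v3 + cC (2009) 100 * v3 * v3 * v3 * v3 + cC (6177609) 100 * Ex.x₂ + cC (-1821447) 50 * Ex.x₂ * v3 + cC (-676689) 50 * Ex.x₂ * v3 * v3 + cC (572027) 100 * Ex.x₂ * v3 * v3 * v3 + cC (-8811623) 25 * Ex.x₂ * Ex.x₂ + cC (17294091) 50 * Ex.x₂ * Ex.x₂ * v3 + cC (-283089) 25 * Ex.x₂ * Ex.x₂ * v3 * v3 + cC (29260863) 50 * Ex.x₂ * Ex.x₂ * Ex.x₂ + cC (-14949317) 20 * Ex.x₂ * Ex.x₂ * Ex.x₂ * v3 + cC (10692538) 25 * Ex.x₂ * Ex.x₂ * Ex.x₂ * Ex.x₂)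
  s₀ := {
    t := Ex.x₂ * q3_2
    phi := (cC (46219837) 50 + cC (-87010932) 25 * Ex.x₂ + cC (-35488437) 100 * v3 + cC (30147997) 50 * Ex.x₂ * v3 + cC (132741286) 25 * Ex.x₂ * Ex.x₂ + cC (3550783) 100 * v3 * v3)
    eta := (cC (-230759) 50 + cC (336901) 50 * v3 + cC (-239017) 100 * v3 * v3 + cC (4993) 20 * v3 * v3 * v3 + cC (-529) 100 * v3 * v3 * v3 * v3 + cC (5748091) 100 * Ex.x₂ + cC (-906654) 25 * Ex.x₂ * v3 + cC (533353) 50 * Ex.x₂ * v3 * v3 + cC (-59733) 50 * Ex.x₂ * v3 * v3 * v3 + cC (-6850147) 20 * Ex.x₂ * Ex.x₂ + cC (10248831) 100 * Ex.x₂ * Ex.x₂ * v3 + cC (-159173) 100 * Ex.x₂ * Ex.x₂ * v3 * v3 + cC (107936839) 100 * Ex.x₂ * Ex.x₂ * Ex.x₂ + cC (-6188434) 25 * Ex.x₂ * Ex.x₂ * Ex.x₂ * v3 + cC (-27554948) 25 * Ex.x₂ * Ex.x₂ * Ex.x₂ * Ex.x₂)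
    eta' := (cC (36739) 50 + cC (-648821) 100 * Ex.x₂ + cC (-165211) 100 * v3 + cC (-150531) 50 * Ex.x₂ * v3 + cC (3407759) 100 * Ex.x₂ * Ex.x₂ + cC (24611) 50 * v3 * v3) }
  s₁ := {
    t := cC (100021) 100000 * Ex.x₂ * q3_1
    phi := (cC (107386591) 100 + cC (-73000911) 20 * Ex.x₂ + cC (-11099233) 25 * v3 + cC (39376559) 50 * Ex.x₂ * v3 + cC (112170447) 25 * Ex.x₂ * Ex.x₂ + cC (4496609) 100 * v3 * v3)
    eta := (cC (3326) 25 + cC (151291) 100 * Ex.x₂ + cC (43756) 25 * v3 + cC (94307) 50 * Ex.x₂ * v3 + cC (-836689) 50 * Ex.x₂ * Ex.x₂ + cC (-47691) 100 * v3 * v3)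
    eta' := (cC (60957) 100 + cC (-699003) 100 * Ex.x₂ + cC (-155151) 100 * v3 + cC (-287601) 100 * Ex.x₂ * v3 + cC (3581077) 100 * Ex.x₂ * Ex.x₂ + cC (11828) 25 * v3 * v3) }
  u₀ := cC (39) 40
  u₁ := cC (100021) 100000

/-- An end of `p` on the piece. -/
def g3_3 : Group where
  p := hi3_3
  beta := (cC (-59697) 10 + cC (336117) 100 * v3 + cC (74514) 25 * v3 * v3 + cC (-13607) 20 * v3 * v3 * v3 + cC (569) 25 * v3 * v3 * v3 * v3 + cC (5074843) 100 * Ex.x₂ + cC (-717251) 25 * Ex.x₂ * v3 + cC (-76326) 5 * Ex.x₂ * v3 * v3 + cC (581701) 100 * Ex.x₂ * v3 * v3 * v3 + cC (-31425949) 100 * Ex.x₂ * Ex.x₂ + cC (16416897) 50 * Ex.x₂ * Ex.x₂ * v3 + cC (-978557) 100 * Ex.x₂ * Ex.x₂ * v3 * v3 + cC (49916549) 100 * Ex.x₂ * Ex.x₂ * Ex.x₂ + cC (-73130543) 100 * Ex.x₂ * Ex.x₂ * Ex.x₂ * v3 + cC (10691729) 20 * Ex.x₂ * Ex.x₂ * Ex.x₂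 * Ex.x₂)
  s₀ := {
    t := Ex.x₂ * q3_3
    phi := (cC (59894559) 100 + cC (-108085771) 100 * Ex.x₂ + cC (-26120689) 100 * v3 + cC (3922133) 10 * Ex.x₂ * v3 + cC (-2553923) 100 * Ex.x₂ * Ex.x₂ + cC (24476) 1 * v3 * v3)
    eta := (cC (-10489) 20 + cC (498711) 100 * Ex.x₂ + cC (1940) 1 * v3 + cC (35172) 25 * Ex.x₂ * v3 + cC (-2283873) 100 * Ex.x₂ * Ex.x₂ + cC (-2426) 5 * v3 * v3)
    eta' := (cC (56577) 50 + cC (-9156) 1 * Ex.x₂ + cC (-43751) 25 * v3 + cC (-70859) 25 * Ex.x₂ * v3 + cC (1999483) 50 * Ex.x₂ * Ex.x₂ + cC (25081) 50 * v3 * v3) }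
  s₁ := {
    t := cC (100021) 100000 * Ex.x₂ * q3_2
    phi := (cC (77339113) 100 + cC (-224371081) 100 * Ex.x₂ + cC (-30991369) 100 * v3 + cC (11113197) 20 * Ex.x₂ * v3 + cC (193220367) 100 * Ex.x₂ * Ex.x₂ + cC (2827013) 100 * v3 * v3)
    eta := (cC (767) 20 + cC (148959) 100 * Ex.x₂ + cC (170529) 100 * v3 + cC (250619) 100 * Ex.x₂ * v3 + cC (-1907853) 100 * Ex.x₂ * Ex.x₂ + cC (-4807) 10 * v3 * v3)
    eta' := (cC (18814) 25 + cC (-134031) 20 * Ex.x₂ + cC (-40607) 25 * v3 + cC (-61349) 20 * Ex.x₂ * v3 + cC (34959) 1 * Ex.x₂ * Ex.x₂ + cC (2437) 5 * v3 * v3) }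
  u₀ := cC (1) 1 - cC (211) 10000
  u₁ := cC (100021) 100000

/-- `v` of the piece. -/
def v4 : Ex :=
  (cC (419) 500 + cC (33) 25 * Ex.x₂) + Ex.x₃ * ((cC (7029) 1000 + cC (-2309) 125 * Ex.x₂) - (cC (419) 500 + cC (33) 25 * Ex.x₂))

/-- The lower bound of `p`. -/
def lo4 : Ex :=
  (cC (65671) 5000 + cC (-188827) 10000 * Ex.x₂ + cC (-19417) 5000 * v4 + cC (56759) 5000 * Ex.x₂ * v4 + cC (80303) 5000 * Ex.x₂ * Ex.x₂ + cC (-96793) 10000 * Ex.x₂ * Ex.x₂ * v4 + cC (-40171) 2500 * (Ex.x₁ - cC (3) 5) + cC (-483) 200 * v4 * (Ex.x₁ - cC (3) 5) + cC (35079) 2000 * Ex.x₂ * (Ex.x₁ - cC (3) 5))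

/-- The upper bound of `p` on a slab. -/
def hi4_0 : Ex :=
  (cC (69971) 5000 + cC (-80301) 2500 * Ex.x₂ + cC (-6833) 2000 * v4 + cC (53753) 10000 * Ex.x₂ * v4 + cC (42463) 1000 * Ex.x₂ * Ex.x₂ + cC (41) 625 * v4 * v4 + cC (-4499) 625 * Ex.x₂ * Ex.x₂ * v4 + cC (3333) 5000 * Ex.x₂ * v4 * v4 + cC (-6561) 200 * (Ex.x₁ - cC (3) 5) + cC (13277) 5000 * v4 * (Ex.x₁ - cC (3) 5) + cC (400103) 10000 * Ex.x₂ * (Ex.x₁ - cC (3) 5))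

/-- The upper bound of `p` on a slab. -/
def hi4_1 : Ex :=
  (cC (12804) 625 + cC (-11721) 400 * Ex.x₂ + cC (-48309) 10000 * v4 + cC (1717) 10000 * Ex.x₂ * v4 + cC (56729) 2000 * Ex.x₂ * Ex.x₂ + cC (159) 2500 * v4 * v4 + cC (8549) 10000 * Ex.x₂ * Ex.x₂ * v4 + cC (2103) 1250 * Ex.x₂ * v4 * v4 + cC (-529797) 10000 * (Ex.x₁ - cC (3) 5) + cC (48911) 10000 * v4 * (Ex.x₁ - cC (3) 5) + cC (113621) 2000 * Ex.x₂ * (Ex.x₁ - cC (3) 5))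

/-- The upper bound of `p` on a slab. -/
def hi4_2 : Ex :=
  (cC (257613) 10000 + cC (-120111) 2000 * Ex.x₂ + cC (-18977) 2500 * v4 + cC (76563) 5000 * Ex.x₂ * v4 + cC (790023) 10000 * Ex.x₂ * Ex.x₂ + cC (303) 2000 * v4 * v4 + cC (-122463) 5000 * Ex.x₂ * Ex.x₂ * v4 + cC (15457) 10000 * Ex.x₂ * v4 * v4 + cC (-703127) 10000 * (Ex.x₁ - cC (3) 5) + cC (4032) 625 * v4 * (Ex.x₁ - cC (3) 5) + cC (64524) 625 * Ex.x₂ * (Ex.x₁ - cC (3) 5))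

/-- The upper bound of `p` on a slab. -/
def hi4_3 : Ex :=
  (cC (251447) 10000 + cC (-567741) 10000 * Ex.x₂ + cC (-2963) 400 * v4 + cC (141843) 10000 * Ex.x₂ * v4 + cC (147693) 2000 * Ex.x₂ * Ex.x₂ + cC (1473) 10000 * v4 * v4 + cC (-22731) 1000 * Ex.x₂ * Ex.x₂ * v4 + cC (3149) 2000 * Ex.x₂ * v4 * v4 + cC (-169737) 2500 * (Ex.x₁ - cC (3) 5) + cC (7777) 1250 * v4 * (Ex.x₁ - cC (3) 5) + cC (980539) 10000 * Ex.x₂ * (Ex.x₁ - cC (3) 5))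

/-- The upper bound of `p` on a slab. -/
def hi4_4 : Ex :=
  (cC (238399) 10000 + cC (-509513) 10000 * Ex.x₂ + cC (-70173) 10000 * v4 + cC (122361) 10000 * Ex.x₂ * v4 + cC (324973) 5000 * Ex.x₂ * Ex.x₂ + cC (69) 500 * v4 * v4 + cC (-9859) 500 * Ex.x₂ * Ex.x₂ * v4 + cC (8001) 5000 * Ex.x₂ * v4 * v4 + cC (-316187) 5000 * (Ex.x₁ - cC (3) 5) + cC (722) 125 * v4 * (Ex.x₁ - cC (3) 5) + cC (444271) 5000 * Ex.x₂ * (Ex.x₁ - cC (3) 5))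

/-- The lower line of `S/(1 - S)`. -/
def k4 : Ex :=
  (cC (-23027) 10000 + cC (31687) 5000 * Ex.x₁)

/-- The upper bound of the time. -/
def t4 : Ex :=
  cC (100021) 100000 * (cC (383) 1000 + cC (1621) 1000 * Ex.x₂ + cC (-11) 500 * v4 + cC (-221) 200 * Ex.x₂ * v4 + cC (-44) 25 * Ex.x₂ * Ex.x₂ + cC (-1) 200 * v4 * v4 + cC (1149) 1000 * Ex.x₂ * Ex.x₂ * v4 + cC (37) 250 * Ex.x₂ * v4 * v4)

/-- The lower bound of `1/be`. -/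
def b4l : Ex :=
  (cC (75669) 10000 + cC (-95431) 10000 * (Ex.x₁ + Ex.x₂) + cC (20057) 5000 * (Ex.x₁ + Ex.x₂) * (Ex.x₁ + Ex.x₂))

/-- The upper bound of `1/be`. -/
def b4h : Ex :=
  (cC (37837) 5000 + cC (-95431) 10000 * (Ex.x₁ + Ex.x₂) + cC (20057) 5000 * (Ex.x₁ + Ex.x₂) * (Ex.x₁ + Ex.x₂))

/-- The lower bound of `1/S`. -/
def r4l : Ex :=
  (cC (1659) 500 + cC (-6881) 2500 * Ex.x₁)

/-- The upper bound of `1/S`. -/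
def r4h : Ex :=
  (cC (16591) 5000 + cC (-6881) 2500 * Ex.x₁)

/-- The cut `0` of `d/h`. -/
def q4_0 : Ex :=
  cC (10) 7

/-- The cut `1` of `d/h`. -/
def q4_1 : Ex :=
  (cC (1139) 1000 + cC (-3) 4 * Ex.x₂ + cC (1127) 1000 * Ex.x₂ * Ex.x₂)

/-- The cut `2` of `d/h`. -/
def q4_2 : Ex :=
  (cC (1121) 1000 + cC (-369) 500 * Ex.x₂ + cC (1109) 1000 * Ex.x₂ * Ex.x₂)

/-- The cut `3` of `d/h`. -/
def q4_3 : Ex :=
  (cC (553) 500 + cC (-91) 125 * Ex.x₂ + cC (547) 500 * Ex.x₂ * Ex.x₂)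

/-- The cut `4` of `d/h`. -/
def q4_4 : Ex :=
  cC (1) 1

/-- The piece from `9/50` to `401/2000`. -/
def p4 : Piece where
  box := ⟨⟨0, 1, 1⟩, ⟨1521, 1535, 2535⟩, ⟨360, 401, 2000⟩, ⟨0, 1, 1⟩⟩
  v := v4
  kl := k4
  lo := lo4
  bl := b4l
  bh := b4h
  rl := r4l
  rh := r4h
  eta := cC (9) 50000
  rho := cC (100021) 100000
  rinv := cC (100000) 100021
  tT := cC (100021) 100000 * Ex.x₂ * cC (10) 7

/-- An end of `p` on the piece. -/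
def g4 : Group where
  p := lo4
  beta := (cC (-247269) 100 + cC (3043) 1 * v4 + cC (7428) 25 * v4 * v4 + cC (5417) 20 * v4 * v4 * v4 + cC (-5621) 100 * v4 * v4 * v4 * v4 + cC (1740491) 50 * Ex.x₂ + cC (-1940333) 50 * Ex.x₂ * v4 + cC (-132239) 100 * Ex.x₂ * v4 * v4 + cC (337313) 100 * Ex.x₂ * v4 * v4 * v4 + cC (-17572699) 100 * Ex.x₂ * Ex.x₂ + cC (22773809) 100 * Ex.x₂ * Ex.x₂ * v4 + cC (-132807) 20 * Ex.x₂ * Ex.x₂ * v4 * v4 + cC (20665847) 100 * Ex.x₂ * Ex.x₂ * Ex.x₂ + cC (-46911559) 100 * Ex.x₂ * Ex.x₂ * Ex.x₂ * v4 + cC (41297919) 100 * Ex.x₂ * Ex.x₂ * Ex.x₂ * Ex.x₂)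
  s₀ := {
    t := Ex.x₂
    phi := (cC (1859649) 5 + cC (114247729) 100 * Ex.x₂ + cC (-22262857) 100 * v4 + cC (-841299) 25 * Ex.x₂ * v4 + cC (-76419742) 25 * Ex.x₂ * Ex.x₂ + cC (2823147) 100 * v4 * v4)
    eta := (cC (-2348) 1 + cC (1190763) 50 * Ex.x₂ + cC (42191) 25 * v4 + cC (80557) 50 * Ex.x₂ * v4 + cC (-6979793) 100 * Ex.x₂ * Ex.x₂ + cC (-42857) 100 * v4 * v4)
    eta' := (cC (78611) 100 + cC (-536163) 100 * Ex.x₂ + cC (-147031) 100 * v4 + cC (-28481) 10 * Ex.x₂ * v4 + cC (2696163) 100 * Ex.x₂ * Ex.x₂ + cC (21483) 50 * v4 * v4) }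
  s₁ := {
    t := t4
    phi := (cC (8761029) 25 + cC (-10567977) 5 * Ex.x₂ + cC (-1767651) 20 * v4 + cC (36830079) 100 * Ex.x₂ * v4 + cC (35545301) 10 * Ex.x₂ * Ex.x₂ + cC (20789) 10 * v4 * v4)
    eta := (cC (-36593) 50 + cC (-63019) 25 * Ex.x₂ + cC (94493) 100 * v4 + cC (94312) 25 * Ex.x₂ * v4 + cC (-119201) 25 * Ex.x₂ * Ex.x₂ + cC (-28429) 100 * v4 * v4)
    eta' := (cC (63779) 20 + cC (-562541) 100 * Ex.x₂ + cC (-184869) 100 * v4 + cC (-103779) 50 * Ex.x₂ * v4 + cC (1322329) 100 * Ex.x₂ * Ex.x₂ + cC (38063) 100 * v4 * v4) }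
  u₀ := cC (39) 40
  u₁ := cC (100021) 100000

/-- An end of `p` on the piece. -/
def g4_0 : Group where
  p := hi4_0
  beta := (cC (-53809) 25 + cC (266157) 100 * v4 + cC (62413) 50 * v4 * v4 + cC (-36339) 100 * v4 * v4 * v4 + cC (2071) 100 * v4 * v4 * v4 * v4 + cC (1755023) 50 * Ex.x₂ + cC (-51229) 1 * Ex.x₂ * v4 + cC (661331) 100 * Ex.x₂ * v4 * v4 + cC (24386) 5 * Ex.x₂ * v4 * v4 * v4 + cC (-7510297) 50 * Ex.x₂ * Ex.x₂ + cC (24996197) 100 * Ex.x₂ * Ex.x₂ * v4 + cC (-3156659) 50 * Ex.x₂ * Ex.x₂ * v4 * v4 + cC (3552903) 100 * Ex.x₂ * Ex.x₂ * Ex.x₂ + cC (-8427569) 25 * Ex.x₂ * Ex.x₂ * Ex.x₂ * v4 + cC (48423311) 100 * Ex.x₂ * Ex.x₂ * Ex.x₂ * Ex.x₂)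
  s₀ := {
    t := Ex.x₂ * q4_0
    phi := (cC (52711643) 100 + cC (-15028329) 20 * Ex.x₂ + cC (-6553129) 25 * v4 + cC (164047) 1 * Ex.x₂ * v4 + cC (3336838) 5 * Ex.x₂ * Ex.x₂ + cC (3536143) 100 * v4 * v4)
    eta := (cC (4088) 25 + cC (20271) 50 * Ex.x₂ + cC (123947) 100 * v4 + cC (267) 1 * Ex.x₂ * v4 + cC (-384487) 25 * Ex.x₂ * Ex.x₂ + cC (-14619) 50 * v4 * v4)
    eta' := (cC (24087) 100 + cC (-372137) 100 * Ex.x₂ + cC (-28642) 25 * v4 + cC (-38303) 100 * Ex.x₂ * v4 + cC (2708857) 100 * Ex.x₂ * Ex.x₂ + cC (6908) 25 * v4 * v4) }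
  s₁ := {
    t := t4
    phi := (cC (33079309) 25 + cC (-69439613) 20 * Ex.x₂ + cC (-57917183) 100 * v4 + cC (24395752) 25 * Ex.x₂ * v4 + cC (99628773) 50 * Ex.x₂ * Ex.x₂ + cC (6608321) 100 * v4 * v4)
    eta := (cC (-116377) 50 + cC (-134281) 50 * Ex.x₂ + cC (233717) 100 * v4 + cC (43314) 25 * Ex.x₂ * v4 + cC (131207) 50 * Ex.x₂ * Ex.x₂ + cC (-46949) 100 * v4 * v4)
    eta' := (cC (104057) 50 + cC (727707) 100 * Ex.x₂ + cC (-101503) 50 * v4 + cC (-37144) 25 * Ex.x₂ * v4 + cC (-329641) 25 * Ex.x₂ * Ex.x₂ + cC (39073) 100 * v4 * v4) }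
  u₀ := cC (39) 40
  u₁ := cC (100021) 100000

/-- An end of `p` on the piece. -/
def g4_1 : Group where
  p := hi4_1
  beta := (cC (-148013) 100 + cC (-371323) 10 * Ex.x₂ + cC (470153) 100 * v4 + cC (689876) 25 * Ex.x₂ * v4 + cC (7302423) 50 * Ex.x₂ * Ex.x₂ + cC (-299533) 100 * v4 * v4 + cC (975398) 25 * Ex.x₂ * Ex.x₂ * Ex.x₂ + cC (17083) 25 * v4 * v4 * v4 + cC (-635247) 4 * Ex.x₂ * Ex.x₂ * v4 + cC (651789) 50 * Ex.x₂ * v4 * v4)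
  s₀ := {
    t := Ex.x₂ * q4_1
    phi := (cC (1490960213) 100 + cC (-1868129959) 100 * v4 + cC (47520269) 25 * v4 * v4 + cC (-8035521) 50 * v4 * v4 * v4 + cC (7818081) 100 * v4 * v4 * v4 * v4 + cC (-388161) 100 * v4 * v4 * v4 * v4 * v4 + cC (-8795188603) 100 * Ex.x₂ + cC (10083992567) 50 * Ex.x₂ * v4 + cC (-1035483393) 50 * Ex.x₂ * v4 * v4 + cC (-253865013) 100 * Ex.x₂ * v4 * v4 * v4 + cC (-12282937) 100 * Ex.x₂ * v4 * v4 * v4 * v4 + cC (16494467793) 100 * Ex.x₂ * Ex.x₂ + cC (-31196788149) 100 * Ex.x₂ * Ex.x₂ * v4 + cC (14500222229) 100 * Ex.x₂ * Ex.x₂ * v4 * v4 + cC (938677519) 100 * Ex.x₂ * Ex.x₂ * v4 * v4 * v4 + cC (-150701500429) 20 * Ex.x₂ * Ex.x₂ * Ex.x₂ + cC (-339038127323) 100 * Ex.x₂ * Ex.x₂ * Ex.x₂ * v4 + cC (-17192538113) 50 * Ex.x₂ * Ex.x₂ * Ex.x₂ * v4 * v4 + cC (3172116046397) 50 * Ex.x₂ * Ex.x₂ * Ex.x₂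 * Ex.x₂ + cC (522980648247) 50 * Ex.x₂ * Ex.x₂ * Ex.x₂ * Ex.x₂ * v4 + cC (-3455339782692) 25 * Ex.x₂ * Ex.x₂ * Ex.x₂ * Ex.x₂ * Ex.x₂)
    eta := (cC (-347611) 100 + cC (185627) 5 * Ex.x₂ + cC (202269) 100 * v4 + cC (-59171) 100 * Ex.x₂ * v4 + cC (-10199833) 100 * Ex.x₂ * Ex.x₂ + cC (-41379) 100 * v4 * v4)
    eta' := (cC (108107) 100 + cC (-524091) 50 * Ex.x₂ + cC (-40773) 25 * v4 + cC (-164739) 100 * Ex.x₂ * v4 + cC (375147) 10 * Ex.x₂ * Ex.x₂ + cC (42203) 100 * v4 * v4) }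
  s₁ := {
    t := cC (100021) 100000 * Ex.x₂ * q4_0
    phi := (cC (8400841) 5 + cC (-104972891) 50 * Ex.x₂ + cC (-97004039) 100 * v4 + cC (155436101) 100 * Ex.x₂ * v4 + cC (-509118301) 100 * Ex.x₂ * Ex.x₂ + cC (11159583) 100 * v4 * v4)
    eta := (cC (56229) 50 + cC (122909) 10 * Ex.x₂ + cC (54389) 100 * v4 + cC (-37249) 20 * Ex.x₂ * v4 + cC (-3766643) 100 * Ex.x₂ * Ex.x₂ + cC (-3911) 25 * v4 * v4)
    eta' := (cC (3587) 5 + cC (-641141) 25 * Ex.x₂ + cC (-70667) 100 * v4 + cC (43031) 25 * Ex.x₂ * v4 + cC (1853239) 25 * Ex.x₂ * Ex.x₂ + cC (19341) 100 * v4 * v4) }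
  u₀ := cC (39) 40
  u₁ := cC (100021) 100000

/-- An end of `p` on the piece. -/
def g4_2 : Group where
  p := hi4_2
  beta := (cC (-128994) 25 + cC (-2062179) 100 * Ex.x₂ + cC (188647) 25 * v4 + cC (1060411) 50 * Ex.x₂ * v4 + cC (5911677) 50 * Ex.x₂ * Ex.x₂ + cC (-87022) 25 * v4 * v4 + cC (8309353) 100 * Ex.x₂ * Ex.x₂ * Ex.x₂ + cC (2888) 5 * v4 * v4 * v4 + cC (-16715153) 100 * Ex.x₂ * Ex.x₂ * v4 + cC (368779) 25 * Ex.x₂ * v4 * v4)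
  s₀ := {
    t := Ex.x₂ * q4_2
    phi := (cC (27610269) 25 + cC (-112266133) 25 * Ex.x₂ + cC (-9932337) 25 * v4 + cC (15592449) 20 * Ex.x₂ * v4 + cC (307759537) 50 * Ex.x₂ * Ex.x₂ + cC (3621077) 100 * v4 * v4)
    eta := (cC (-1489) 2 + cC (196371) 20 * Ex.x₂ + cC (89933) 50 * v4 + cC (24919) 50 * Ex.x₂ * v4 + cC (-667121) 20 * Ex.x₂ * Ex.x₂ + cC (-4161) 10 * v4 * v4)
    eta' := (cC (29473) 25 + cC (-1218011) 100 * Ex.x₂ + cC (-77687) 50 * v4 + cC (-224359) 100 * Ex.x₂ * v4 + cC (4370227) 100 * Ex.x₂ * Ex.x₂ + cC (44289) 100 * v4 * v4) }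
  s₁ := {
    t := cC (100021) 100000 * Ex.x₂ * q4_1
    phi := (cC (27004563) 20 + cC (-60466347) 10 * Ex.x₂ + cC (-12225283) 25 * v4 + cC (51630183) 50 * Ex.x₂ * v4 + cC (449765299) 50 * Ex.x₂ * Ex.x₂ + cC (1126968) 25 * v4 * v4)
    eta := (cC (-909) 10 + cC (430657) 100 * Ex.x₂ + cC (169637) 100 * v4 + cC (20249) 20 * Ex.x₂ * v4 + cC (-528694) 25 * Ex.x₂ * Ex.x₂ + cC (-42227) 100 * v4 * v4)
    eta' := (cC (28121) 25 + cC (-318318) 25 * Ex.x₂ + cC (-149153) 100 * v4 + cC (-42403) 20 * Ex.x₂ * v4 + cC (2259143) 50 * Ex.x₂ * Ex.x₂ + cC (42939) 100 * v4 * v4) }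
  u₀ := cC (39) 40
  u₁ := cC (100021) 100000

/-- An end of `p` on the piece. -/
def g4_3 : Group where
  p := hi4_3
  beta := (cC (-113804) 25 + cC (-1207107) 50 * Ex.x₂ + cC (361047) 50 * v4 + cC (572513) 25 * Ex.x₂ * v4 + cC (3142898) 25 * Ex.x₂ * Ex.x₂ + cC (-86993) 25 * v4 * v4 + cC (1548349) 20 * Ex.x₂ * Ex.x₂ * Ex.x₂ + cC (59069) 100 * v4 * v4 * v4 + cC (-3379179) 20 * Ex.x₂ * Ex.x₂ * v4 + cC (722203) 50 * Ex.x₂ * v4 * v4)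
  s₀ := {
    t := Ex.x₂ * q4_3
    phi := (cC (3202650379) 25 + cC (-175536793) 50 * v4 + cC (139402673) 100 * v4 * v4 + cC (-20049481) 100 * v4 * v4 * v4 + cC (795431) 100 * v4 * v4 * v4 * v4 + cC (-262748574603) 100 * Ex.x₂ + cC (949632989) 50 * Ex.x₂ * v4 + cC (-128026141) 20 * Ex.x₂ * v4 * v4 + cC (14941424) 25 * Ex.x₂ * v4 * v4 * v4 + cC (2044865617203) 100 * Ex.x₂ * Ex.x₂ + cC (-247257573) 10 * Ex.x₂ * Ex.x₂ * v4 + cC (50695119) 10 * Ex.x₂ * Ex.x₂ * v4 * v4 + cC (-3549171052001) 50 * Ex.x₂ * Ex.x₂ * Ex.x₂ + cC (49698523) 5 * Ex.x₂ * Ex.x₂ * Ex.x₂ * v4 + cC (4622183873663) 50 * Ex.x₂ * Ex.x₂ * Ex.x₂ * Ex.x₂)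
    eta := (cC (4599) 25 + cC (-8599) 10 * Ex.x₂ + cC (34891) 20 * v4 + cC (86587) 100 * Ex.x₂ * v4 + cC (-525451) 100 * Ex.x₂ * Ex.x₂ + cC (-21017) 50 * v4 * v4)
    eta' := (cC (50929) 100 + cC (-464649) 100 * Ex.x₂ + cC (-31387) 20 * v4 + cC (-57323) 25 * Ex.x₂ * v4 + cC (2290651) 100 * Ex.x₂ * Ex.x₂ + cC (44487) 100 * v4 * v4) }
  s₁ := {
    t := cC (100021) 100000 * Ex.x₂ * q4_2
    phi := (cC (51145147) 50 + cC (-96028686) 25 * Ex.x₂ + cC (-1952562) 5 * v4 + cC (83983871) 100 * Ex.x₂ * v4 + cC (436683433) 100 * Ex.x₂ * Ex.x₂ + cC (1623401) 50 * v4 * v4)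
    eta := (cC (-29961) 100 + cC (554381) 100 * Ex.x₂ + cC (173889) 100 * v4 + cC (44751) 50 * Ex.x₂ * v4 + cC (-2382139) 100 * Ex.x₂ * Ex.x₂ + cC (-10503) 25 * v4 * v4)
    eta' := (cC (6039) 5 + cC (-49757) 4 * Ex.x₂ + cC (-38546) 25 * v4 + cC (-112457) 50 * Ex.x₂ * v4 + cC (4432627) 100 * Ex.x₂ * Ex.x₂ + cC (11006) 25 * v4 * v4) }
  u₀ := cC (39) 40
  u₁ := cC (100021) 100000

/-- An end of `p` on the piece. -/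
def g4_4 : Group where
  p := hi4_4
  beta := (cC (-331231) 100 + cC (-30286) 1 * Ex.x₂ + cC (648283) 100 * v4 + cC (2602321) 100 * Ex.x₂ * v4 + cC (13919171) 100 * Ex.x₂ * Ex.x₂ + cC (-345033) 100 * v4 * v4 + cC (6816453) 100 * Ex.x₂ * Ex.x₂ * Ex.x₂ + cC (30811) 50 * v4 * v4 * v4 + cC (-4336524) 25 * Ex.x₂ * Ex.x₂ * v4 + cC (692383) 50 * Ex.x₂ * v4 * v4)
  s₀ := {
    t := Ex.x₂ * q4_4
    phi := (cC (2823399) 20 + cC (161852971) 20 * Ex.x₂ + cC (-14997766) 25 * v4 + cC (218515301) 100 * Ex.x₂ * v4 + cC (-1043016419) 20 * Ex.x₂ * Ex.x₂ + cC (2985057) 25 * v4 * v4 + cC (4356110887) 50 * Ex.x₂ * Ex.x₂ * Ex.x₂ + cC (-209781) 50 * v4 * v4 * v4 + cC (-99717899) 100 * Ex.x₂ * Ex.x₂ * v4 + cC (-18832017) 50 * Ex.x₂ * v4 * v4)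
    eta := (cC (-43103) 25 + cC (844657) 50 * Ex.x₂ + cC (203211) 100 * v4 + cC (-19119) 100 * Ex.x₂ * v4 + cC (-4839379) 100 * Ex.x₂ * Ex.x₂ + cC (-21729) 50 * v4 * v4)
    eta' := (cC (39748) 25 + cC (-1452729) 100 * Ex.x₂ + cC (-41212) 25 * v4 + cC (-112323) 50 * Ex.x₂ * v4 + cC (4899467) 100 * Ex.x₂ * Ex.x₂ + cC (22761) 50 * v4 * v4) }
  s₁ := {
    t := cC (100021) 100000 * Ex.x₂ * q4_3
    phi := (cC (21081311) 25 + cC (-91362401) 25 * Ex.x₂ + cC (-246100) 1 * v4 + cC (46355377) 100 * Ex.x₂ * v4 + cC (594087719) 100 * Ex.x₂ * Ex.x₂ + cC (178199) 10 * v4 * v4)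
    eta := (cC (-115069) 100 + cC (1319147) 100 * Ex.x₂ + cC (9078) 5 * v4 + cC (8659) 10 * Ex.x₂ * v4 + cC (-4389023) 100 * Ex.x₂ * Ex.x₂ + cC (-432) 1 * v4 * v4)
    eta' := (cC (117151) 100 + cC (-559561) 50 * Ex.x₂ + cC (-6207) 4 * v4 + cC (-255551) 100 * Ex.x₂ * v4 + cC (1045888) 25 * Ex.x₂ * Ex.x₂ + cC (1795) 4 * v4 * v4) }
  u₀ := cC (1) 1 - cC (29) 2500
  u₁ := cC (100021) 100000

end Vale.Agent.P100.Calib.Closed.End
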