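import Vale.Agent.P100.Calib.SlabSignAlgebra

/-!
# Quadratic forms of the end certificate

With `p = g W`, the closed forms are functions of `p` and of `e = g E/p`, `κ = g K/p`,
`ω = g W₁/p`; on the chart `e`, `κ`, `ω` are affine in the time and in `u`. A form with the shape of
`Form.at` and the two concavity conditions is positive on a box when it is positive at the corners.
-/

set_option linter.unusedVariables false
set_option linter.unusedSimpArgs false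

namespace Vale.Agent.P100.Calib.Closed.End

/-- Coefficients of a form in `(p, e, κ, ω)`. -/
structure Form where
  a₀ : ℝ
  a₁ : ℝ
  a₂ : ℝ
  b₀ : ℝ
  b₁ : ℝ
  c : ℝ
  k : ℝ
  w : ℝ
  e₁ : ℝ
  k₁ : ℝ
  w₁ : ℝ

/-- The value of a form. -/
def Form.at (F : Form) (p e κ ω : ℝ) : ℝ :=
  F.a₀ + F.a₁ * p + F.a₂ * p ^ 2 + (F.b₀ + F.b₁ * p) * (p * e) + F.c * (p * e) ^ 2 +
    F.k * (p * κ) + F.w * (p * ω) + F.e₁ * e + F.k₁ * κ + F.w₁ * ω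

/-- The coefficient of `p ^ 2`. -/
def Form.sq (F : Form) (e : ℝ) : ℝ := F.a₂ + F.b₁ * e + F.c * e ^ 2

/-- A form is concave along a line in `(e, κ, ω)`. -/
theorem Form.line {F : Form} (hc : F.c ≤ 0) {p e₀ e' κ₀ κ' ω₀ ω' x y t : ℝ}
    (hx : x ≤ t) (hy : t ≤ y)
    (fx : 0 < F.at p (e₀ + e' * x) (κ₀ + κ' * x) (ω₀ + ω' * x))
    (fy : 0 < F.at p (e₀ + e' * y) (κ₀ + κ' * y) (ω₀ + ω' * y)) :
    0 < F.at p (e₀ + e' * t) (κ₀ + κ' * t) (ω₀ + ω' * t) :=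
  concave_pos (f := fun z => F.at p (e₀ + e' * z) (κ₀ + κ' * z) (ω₀ + ω' * z))
    (c₀ := F.at p e₀ κ₀ ω₀)
    (c₁ := (F.b₀ + F.b₁ * p) * (p * e') + 2 * F.c * p ^ 2 * e₀ * e' + F.k * (p * κ') +
      F.w * (p * ω') + F.e₁ * e' + F.k₁ * κ' + F.w₁ * ω')
    (c₂ := F.c * (p * e') ^ 2) (fun z => by simp only [Form.at]; ring)
    (mul_nonpos_of_nonpos_of_nonneg hc (sq_nonneg _)) hx hy fx fy

/-- A form is concave in `p`. -/
theorem Form.along {F : Form} {p l r e κ ω : ℝ} (h2 : F.sq e ≤ 0) (hl : l ≤ p) (hr : p ≤ r)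
    (fl : 0 < F.at l e κ ω) (fr : 0 < F.at r e κ ω) : 0 < F.at p e κ ω :=
  concave_pos (f := fun z => F.at z e κ ω) (c₀ := F.a₀ + F.e₁ * e + F.k₁ * κ + F.w₁ * ω)
    (c₁ := F.a₁ + F.b₀ * e + F.k * κ + F.w * ω) (c₂ := F.sq e)
    (fun z => by simp only [Form.at, Form.sq]; ring) h2 hl hr fl fr

/-- The affine maps of the chart: a time, `u`, and the line of `ω` between its two bounds. -/
structure Chart where
  k0 : ℝ
  A : ℝ
  c0 : ℝ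
  d : ℝ
  hi₀ : ℝ
  hi₁ : ℝ
  lo₀ : ℝ
  lo₁ : ℝ

/-- `e/p`. -/
def Chart.e (C : Chart) (τ u : ℝ) : ℝ := -1 * C.k0 * (C.A * τ + u * C.c0)

/-- `κ`. -/
def Chart.κ (C : Chart) (τ u : ℝ) : ℝ := C.k0 * (C.c0 * (τ - u * C.d))

/-- The upper bound of `ω`. -/
def Chart.wh (C : Chart) (τ : ℝ) : ℝ := C.hi₀ + C.hi₁ * τ

/-- The lower bound of `ω`. -/
def Chart.wl (C : Chart) (τ : ℝ) : ℝ := C.lo₀ + C.lo₁ * τ

/-- A form is positive at the four corners of a time, for both bounds of `ω`. -/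
def Chart.Corner (C : Chart) (F : Form) (p τ u : ℝ) : Prop :=
  0 < F.at p (C.e τ u) (C.κ τ u) (C.wh τ) ∧ 0 < F.at p (C.e τ u) (C.κ τ u) (C.wl τ)

/-- A form positive at the corners of the box is positive on it. -/
theorem Chart.pos_box (C : Chart) {F : Form} (hc : F.c ≤ 0) {p t₀ t₁ u₀ u₁ τ u ω : ℝ}
    (ht₀ : t₀ ≤ τ) (ht₁ : τ ≤ t₁) (hu₀ : u₀ ≤ u) (hu₁ : u ≤ u₁)
    (hl : C.wl τ ≤ ω) (hh : ω ≤ C.wh τ)
    (h00 : C.Corner F p t₀ u₀) (h01 : C.Corner F p t₀ u₁)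
    (h10 : C.Corner F p t₁ u₀) (h11 : C.Corner F p t₁ u₁) :
    0 < F.at p (C.e τ u) (C.κ τ u) ω := by
  have side : ∀ (z₀ z₁ : ℝ),
      0 < F.at p (C.e t₀ u₀) (C.κ t₀ u₀) (z₀ + z₁ * t₀) →
      0 < F.at p (C.e t₀ u₁) (C.κ t₀ u₁) (z₀ + z₁ * t₀) →
      0 < F.at p (C.e t₁ u₀) (C.κ t₁ u₀) (z₀ + z₁ * t₁) →
      0 < F.at p (C.e t₁ u₁) (C.κ t₁ u₁) (z₀ + z₁ * t₁) →
      0 < F.at p (C.e τ u) (C.κ τ u) (z₀ + z₁ * τ) := by
    intro z₀ z₁ q00 q01 q10 q11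
    have inT : ∀ v, 0 < F.at p (C.e t₀ v) (C.κ t₀ v) (z₀ + z₁ * t₀) →
        0 < F.at p (C.e t₁ v) (C.κ t₁ v) (z₀ + z₁ * t₁) →
        0 < F.at p (C.e τ v) (C.κ τ v) (z₀ + z₁ * τ) := by
      intro v a b
      have ee : ∀ z, C.e z v = -1 * C.k0 * (v * C.c0) + (-1 * C.k0 * C.A) * z := fun z => by
        simp only [Chart.e]; ring
      have ek : ∀ z, C.κ z v = -1 * C.k0 * C.c0 * (v * C.d) + C.k0 * C.c0 * z := fun z => by
        simp only [Chart.κ]; ring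
      rw [ee, ek] at a b ⊢
      exact Form.line hc ht₀ ht₁ a b
    have a := inT u₀ q00 q10
    have b := inT u₁ q01 q11
    have ee : ∀ v, C.e τ v = -1 * C.k0 * (C.A * τ) + (-1 * C.k0 * C.c0) * v := fun v => by
      simp only [Chart.e]; ring
    have ek : ∀ v, C.κ τ v = C.k0 * C.c0 * τ + (-1 * C.k0 * C.c0 * C.d) * v := fun v => by
      simp only [Chart.κ]; ring
    rw [ee, ek] at a b ⊢
    have e0 : ∀ v : ℝ, z₀ + z₁ * τ = z₀ + z₁ * τ + 0 * v := fun v => by ring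
    rw [e0 u₀] at a
    rw [e0 u₁] at b
    rw [e0 u]
    exact Form.line hc hu₀ hu₁ a b
  have H := side C.hi₀ C.hi₁ h00.1 h01.1 h10.1 h11.1
  have L := side C.lo₀ C.lo₁ h00.2 h01.2 h10.2 h11.2
  have e1 : ∀ z, F.at p (C.e τ u) (C.κ τ u) z =
      F.at p (C.e τ u) (C.κ τ u) 0 + (F.w * p + F.w₁) * z := fun z => by
    simp only [Form.at]; ring
  change 0 < F.at p _ _ (C.wh τ) at H
  change 0 < F.at p _ _ (C.wl τ) at L
  rw [e1] at H L ⊢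
  rcases le_total 0 (F.w * p + F.w₁) with h | h
  · have := mul_le_mul_of_nonneg_left hl h; linarith
  · have := mul_le_mul_of_nonpos_left hh h; linarith

section
variable (a d v : ℝ)

/-- `TA` as a form. -/
noncomputable def fTA : Form where
  a₀ := TA a d v 1 0 0 0 0 0
  a₁ := (TA a d v 1 1 0 0 0 0 - TA a d v 1 (-1) 0 0 0 0) / 2
  a₂ := (TA a d v 1 1 0 0 0 0 + TA a d v 1 (-1) 0 0 0 0 - 2 * TA a d v 1 0 0 0 0 0) / 2
  b₀ := (TA a d v 1 0 0 0 1 0 - TA a d v 1 0 0 0 (-1) 0) / 2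
  b₁ := TA a d v 1 1 0 0 1 0 - TA a d v 1 1 0 0 0 0 - TA a d v 1 0 0 0 1 0 + TA a d v 1 0 0 0 0 0
  c := (TA a d v 1 0 0 0 1 0 + TA a d v 1 0 0 0 (-1) 0 - 2 * TA a d v 1 0 0 0 0 0) / 2
  k := TA a d v 1 0 0 0 0 1 - TA a d v 1 0 0 0 0 0
  w := TA a d v 1 0 1 0 0 0 - TA a d v 1 0 0 0 0 0
  e₁ := 0
  k₁ := 0
  w₁ := 0

/-- `TMG` as a form. -/
noncomputable def fMG : Form where
  a₀ := TMG a d v 1 0 0 0 0 0
  a₁ := (TMG a d v 1 1 0 0 0 0 - TMG a d v 1 (-1) 0 0 0 0) / 2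
  a₂ := (TMG a d v 1 1 0 0 0 0 + TMG a d v 1 (-1) 0 0 0 0 - 2 * TMG a d v 1 0 0 0 0 0) / 2
  b₀ := (TMG a d v 1 0 0 0 1 0 - TMG a d v 1 0 0 0 (-1) 0) / 2
  b₁ := TMG a d v 1 1 0 0 1 0 - TMG a d v 1 1 0 0 0 0 - TMG a d v 1 0 0 0 1 0 +
    TMG a d v 1 0 0 0 0 0
  c := (TMG a d v 1 0 0 0 1 0 + TMG a d v 1 0 0 0 (-1) 0 - 2 * TMG a d v 1 0 0 0 0 0) / 2
  k := TMG a d v 1 0 0 0 0 1 - TMG a d v 1 0 0 0 0 0
  w := TMG a d v 1 0 1 0 0 0 - TMG a d v 1 0 0 0 0 0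
  e₁ := 0
  k₁ := 0
  w₁ := 0

/-- `TEG` as a form. -/
noncomputable def fEG : Form where
  a₀ := TEG a d v 1 0 0 0 0 0
  a₁ := (TEG a d v 1 1 0 0 0 0 - TEG a d v 1 (-1) 0 0 0 0) / 2
  a₂ := (TEG a d v 1 1 0 0 0 0 + TEG a d v 1 (-1) 0 0 0 0 - 2 * TEG a d v 1 0 0 0 0 0) / 2
  b₀ := TEG a d v 1 0 0 0 1 0 - TEG a d v 1 0 0 0 0 0
  b₁ := TEG a d v 1 1 0 0 1 0 - TEG a d v 1 1 0 0 0 0 - TEG a d v 1 0 0 0 1 0 +
    TEG a d v 1 0 0 0 0 0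
  c := 0
  k := 0
  w := 0
  e₁ := 0
  k₁ := 0
  w₁ := 0

/-- `TGG` as a form. -/
noncomputable def fGG : Form where
  a₀ := TGG a d v 1 0 0 0 0 0
  a₁ := (TGG a d v 1 1 0 0 0 0 - TGG a d v 1 (-1) 0 0 0 0) / 2
  a₂ := (TGG a d v 1 1 0 0 0 0 + TGG a d v 1 (-1) 0 0 0 0 - 2 * TGG a d v 1 0 0 0 0 0) / 2
  b₀ := 0
  b₁ := 0
  c := 0
  k := 0
  w := 0
  e₁ := 0
  k₁ := 0
  w₁ := 0

/-- `TME` over `p` as a form. -/
noncomputable def fME : Form where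
  a₀ := TME a d v 1 1 0 0 0
  a₁ := 0
  a₂ := 0
  b₀ := TME a d v 1 1 0 1 0 - TME a d v 1 1 0 0 0 - TME a d v 1 0 0 1 0 + TME a d v 1 0 0 0 0
  b₁ := 0
  c := 0
  k := 0
  w := 0
  e₁ := TME a d v 1 0 0 1 0 - TME a d v 1 0 0 0 0
  k₁ := TME a d v 1 1 0 0 1 - TME a d v 1 1 0 0 0
  w₁ := TME a d v 1 1 1 0 0 - TME a d v 1 1 0 0 0

variable (g W W1 R E K p e κ ω : ℝ)

theorem fTA_at : (fTA a d v).at p e κ ω = TA a d v 1 p (p * ω) 0 (p * e) (p * κ) := by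
  simp only [fTA, Form.at, TA, TEE, TMG, LEE, LEE1, LEEc, LEEc_000000_0, LEEc_000000_1,
    LEEc_110000_0, LEEc_110000_1, LEEv, LEEw, LMG, LMG1, LMG1_000000_0, LMG1_000000_1, LMGc,
    LMGc_000000_0, LMGc_000000_1, LMGv, LMGw, gramEE, gramMG, j1, gM, gE, gG, hM, hE, hG]
  ring

theorem fMG_at : (fMG a d v).at p e κ ω = TMG a d v 1 p (p * ω) 0 (p * e) (p * κ) := by
  simp only [fMG, Form.at, TMG, LMG, LMG1, LMG1_000000_0, LMG1_000000_1, LMGc, LMGc_000000_0,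
    LMGc_000000_1, LMGv, LMGw, gramEE, gramMG, gM, gE, gG, hM, hE, hG, j1]
  ring

theorem fEG_at : (fEG a d v).at p e κ ω = TEG a d v 1 p W1 R (p * e) K := by
  simp only [fEG, Form.at, TEG, LEG, LEG1, LEG1_000000_0, LEGc, LEGv, LEGw, j1, gE, gG, hE, hG]
  ring

theorem fGG_at : (fGG a d v).at p e κ ω = TGG a d v 1 p W1 R E K := by
  simp only [fGG, Form.at, TGG, LGG, LGGc, LGGv, gG, hG]
  ring

theorem fME_at : (fME a d v).at p e κ ω = TME a d v 1 1 ω e κ + (p - 1) * e * (fME a d v).b₀ := by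
  simp only [fME, Form.at, TME, TME_010000_0, TME_010000_1]
  ring

theorem fTA_chart (h : g * W = p) (he : g * E = p * e) (hk : g * K = p * κ)
    (hw : g * W1 = p * ω) : TA a d v g W W1 R E K = (fTA a d v).at p e κ ω := by
  rw [fTA_at, TA_expand, TA_expand a d v 1 p, h, he, hk, hw]
  simp only [one_mul]

theorem fMG_chart (h : g * W = p) (he : g * E = p * e) (hk : g * K = p * κ)
    (hw : g * W1 = p * ω) : TMG a d v g W W1 R E K = (fMG a d v).at p e κ ω := by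
  rw [fMG_at, TMG_expand, TMG_expand a d v 1 p, h, he, hk, hw]
  simp only [one_mul]

theorem fEG_chart (h : g * W = p) (he : g * E = p * e) :
    TEG a d v g W W1 R E K = (fEG a d v).at p e κ ω := by
  rw [fEG_at a d v W1 R K, TEG_expand, TEG_expand a d v 1 p, h, he]
  simp only [one_mul]

theorem fGG_chart (h : g * W = p) : TGG a d v g W W1 R E K = (fGG a d v).at p e κ ω := by
  rw [fGG_at a d v W1 R E K, TGG_expand, TGG_expand a d v 1 p, h]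
  simp only [one_mul]

theorem fME_chart (h : g * W = p) (he : g * E = p * e) (hk : g * K = p * κ)
    (hw : g * W1 = p * ω) : g * TME a d v g W W1 E K = p * (fME a d v).at p e κ ω := by
  rw [TME_expand, h, he, hk, hw, fME_at]
  simp only [fME, TME, TME_010000_0, TME_010000_1]
  ring

end

end Vale.Agent.P100.Calib.Closed.End
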