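import Vale.Agent.P100.Calib.SlabSignCoef

/-!
# Corner expressions of the certificate of the end strip `39/40 ≤ u`

`x₁`, `x₂` are `S`, `d`; `v` is an expression in them and `x₃`. A time `t` stands for `d/h` times
the ratio of `S/(1 - S)` over its lower line `kl`, and `u` is scaled by the same ratio.
-/

set_option linter.unusedVariables false

namespace Vale.Agent.P100.Calib.Closed.End

open BoxPos

local instance formExAdd : Add Ex := ⟨Ex.add⟩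
local instance formExMul : Mul Ex := ⟨Ex.mul⟩
local instance formExSub : Sub Ex := ⟨Ex.sub⟩

/-- `al`. -/
def cA : Ex := cC (1) 2 * (Ex.x₁ - Ex.x₂)

/-- `be`. -/
def cB : Ex := cC (1) 2 * (Ex.x₁ + Ex.x₂)

/-- `1 + d v`. -/
def cQ (v : Ex) : Ex := cC (1) 1 + Ex.x₂ * v

/-- `-e/p` over the line of `S/(1 - S)`. -/
def cM (v t u : Ex) : Ex :=
  (cC (10) 1 + v * (cC (1) 20 + Ex.x₂)) * t + u * (cC (1) 20 - cC (9) 1 * Ex.x₂)

/-- `k/p` over the line of `S/(1 - S)`. -/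
def cN (t u : Ex) : Ex := (cC (1) 20 - cC (9) 1 * Ex.x₂) * (t - u * Ex.x₂)

/-- `e` at a corner. -/
def cE (kl v t u p : Ex) : Ex := cC (-1) 1 * p * kl * cM v t u

/-- The entry `EG` at `p`. -/
def cEG (kl v t u p : Ex) : Ex := eTEG cA Ex.x₂ v p (cE kl v t u p)

/-- The sag of `EG` between two values of `p`. -/
def cSag (kl v t u l r : Ex) : Ex :=
  cC (1) 2 * (cEG kl v t u l + cEG kl v t u r) - cEG kl v t u (cC (1) 2 * (l + r))

/-- The coefficient of `p e` in `TME`. -/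
def cMeX (v : Ex) : Ex :=
  cA * ((cC (-400) 1 * v * Ex.x₂ + cC (-400) 1) * cA * cA +
    ((cC (-600) 1 * v * Ex.x₂ + (cC (200) 1 * v + cC (-600) 1)) * Ex.x₂ + cC (200) 1) * cA +
    ((cC (-200) 1 * v * Ex.x₂ + (cC (200) 1 * v + cC (-200) 1)) * Ex.x₂ + cC (200) 1) * Ex.x₂)

/-- The entry `ME` over `p` at a corner. -/
def cMe (kl v t u w p : Ex) : Ex :=
  eTME cA Ex.x₂ v (cC (1) 1) (cC (-1) 1 * kl * cM v t u) (kl * cN t u) w +
    (p - cC (1) 1) * (cC (-1) 1 * kl * cM v t u) * cMeX v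

/-- The entry `MM` over `p ^ 2` at a corner. -/
def cMM (kl v t u : Ex) : Ex := (cC (1) 1 - Ex.x₁) * cQ v * (kl * cM v t u)

/-- The arrow at a corner, with a bound `phi` for the term of `EG`. -/
def cF (kl v t u w p phi : Ex) : Ex :=
  cMM kl v t u * (eTA cA Ex.x₂ v p (p * (cC (-1) 1 * kl * cM v t u)) (p * (kl * cN t u)) (p * w) -
    Ex.x₂ * Ex.x₂ * v * v * phi) - cC (4) 1 * cQ v * cMe kl v t u w p * cMe kl v t u w p

/-- The drop of the arrow between two values of `w`, over their distance. -/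
def cR (kl v t u w₀ w₁ p : Ex) : Ex :=
  cC (4) 1 * cQ v * eTMEw cA Ex.x₂ v * (cMe kl v t u w₀ p + cMe kl v t u w₁ p) -
    eTAw cA Ex.x₂ v * p * cMM kl v t u

/-- The entry `MG` at a corner, less room `ka` for the other end of `w`. -/
def cG (kl v t u w₀ w₁ p ka : Ex) : Ex :=
  eTMG cA Ex.x₂ v p (cE kl v t u p) (p * (kl * cN t u)) (p * w₀) -
    ka * eTMGw cA Ex.x₂ v * (w₁ - w₀)

/-- The coefficient of `p e` in a form of `(p, e, k, w)`. -/
def cXp (f : Ex → Ex → Ex → Ex → Ex → Ex → Ex → Ex) (v : Ex) : Ex :=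
  f cA Ex.x₂ v (cC (1) 1) (cC (1) 1) (cC (0) 1) (cC (0) 1) -
    f cA Ex.x₂ v (cC (1) 1) (cC (0) 1) (cC (0) 1) (cC (0) 1) -
    f cA Ex.x₂ v (cC (0) 1) (cC (1) 1) (cC (0) 1) (cC (0) 1) +
    f cA Ex.x₂ v (cC (0) 1) (cC (0) 1) (cC (0) 1) (cC (0) 1)

/-- The coefficient of `p e` in `eTEG`. -/
def cXe (v : Ex) : Ex :=
  eTEG cA Ex.x₂ v (cC (1) 1) (cC (1) 1) - eTEG cA Ex.x₂ v (cC (1) 1) (cC (0) 1) -
    eTEG cA Ex.x₂ v (cC (0) 1) (cC (1) 1) + eTEG cA Ex.x₂ v (cC (0) 1) (cC (0) 1)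

/-- The second difference in `e` of a form of `(p, e, k, w)`, with the sign changed. -/
def cEE (f : Ex → Ex → Ex → Ex → Ex → Ex → Ex → Ex) (v : Ex) : Ex :=
  cC (2) 1 * f cA Ex.x₂ v (cC (0) 1) (cC (0) 1) (cC (0) 1) (cC (0) 1) -
    f cA Ex.x₂ v (cC (0) 1) (cC (1) 1) (cC (0) 1) (cC (0) 1) -
    f cA Ex.x₂ v (cC (0) 1) (cC (-1) 1) (cC (0) 1) (cC (0) 1)

end Vale.Agent.P100.Calib.Closed.End
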