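import Vale.Agent.P100.Calib.SlabEndPiece

/-!
# The signs inside a slab of a piece
-/

set_option linter.unusedVariables false
set_option linter.unusedSimpArgs false

namespace Vale.Agent.P100.Calib.Closed.End

open BoxPos
open Large (PosBox)

local instance insideAdd : Add Ex := ⟨Ex.add⟩
local instance insideMul : Mul Ex := ⟨Ex.mul⟩
local instance insideSub : Sub Ex := ⟨Ex.sub⟩

/-- The checks of a piece at both ranges of time: `[t₀, t₁]` of the lower end, and up to `tT`. -/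
structure Piece.Wide (P : Piece) (L : Group) : Prop where
  r0 : P.RangeOk P.tT L.u₀
  r1 : P.RangeOk P.tT L.u₁

/-- An affine function of `e` as a form. -/
def lin (a b : ℝ) : Form where
  a₀ := a
  a₁ := 0
  a₂ := 0
  b₀ := 0
  b₁ := 0
  c := 0
  k := 0
  w := 0
  e₁ := b
  k₁ := 0
  w₁ := 0

theorem lin_at (a b p e κ ω : ℝ) : (lin a b).at p e κ ω = a + b * e := by
  simp only [lin, Form.at]; ring

section
variable {P : Piece} (z : P.Pt)

/-- `τ` and `u` lie where the range checks apply. -/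
def Piece.Pt.InRange (L : Group) (τ u : ℝ) : Prop :=
  z.val L.s₀.t ≤ τ ∧ (τ ≤ z.val L.s₁.t ∨ τ ≤ z.val P.tT) ∧ z.val L.u₀ ≤ u ∧ u ≤ z.val L.u₁

/-- An affine function of `e` is positive in the range. -/
theorem Piece.Pt.lin_pos {L : Group} {a b τ u : ℝ} (h : z.InRange L τ u)
    (hc : ∀ t u, P.RangeOk t u → 0 < a + b * z.chart.e (z.val t) (z.val u))
    (hP : P.Ok L) (hW : P.Wide L) : 0 < a + b * z.chart.e τ u := by
  set C : Chart := { z.chart with hi₀ := 0, hi₁ := 0, lo₀ := 0, lo₁ := 0 } with hC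
  have ee : ∀ τ u, C.e τ u = z.chart.e τ u := fun _ _ => rfl
  have go : ∀ t u, P.RangeOk t u → C.Corner (lin a b) 0 (z.val t) (z.val u) := fun t u hr => by
    constructor <;> rw [lin_at, ee] <;> exact hc t u hr
  have : ∀ {t₁ : Ex}, P.RangeOk t₁ L.u₀ → P.RangeOk t₁ L.u₁ → τ ≤ z.val t₁ →
      0 < (lin a b).at 0 (C.e τ u) (C.κ τ u) 0 := fun r0 r1 ht =>
    C.pos_box (le_of_eq rfl) h.1 ht h.2.2.1 h.2.2.2 (by simp [C, Chart.wl])
      (by simp [C, Chart.wh]) (go _ _ hP.r00) (go _ _ hP.r01) (go _ _ r0) (go _ _ r1)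
  rcases h.2.1 with ht | ht
  · simpa only [lin_at, ee] using this hP.r10 hP.r11 ht
  · simpa only [lin_at, ee] using this hW.r0 hW.r1 ht

/-- The facts at a time and `u` in the range. -/
theorem Piece.Pt.range {L : Group} {τ u : ℝ} (h : z.InRange L τ u) (hP : P.Ok L)
    (hW : P.Wide L) :
    0 < z.arrow.o * -z.chart.e τ u ∧ 0 ≤ z.arrow.E.sq (z.chart.e τ u) ∧
      z.arrow.A.sq (z.chart.e τ u) ≤ 0 ∧
      (fMG ((z.S - z.d) / 2) z.d z.vv).sq (z.chart.e τ u) ≤ 0 := by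
  have hq := z.q_pos
  have hS : 0 < 1 - z.S := by linarith [z.S_lt]
  have hk := z.pos hP.kl
  have hA := z.val_cA
  simp only [Piece.Pt.val] at hA
  have hM : 0 < (0 : ℝ) + -1 * z.chart.e τ u := by
    refine z.lin_pos h (fun t u r => ?_) hP hW
    rw [z.val_e]
    have := mul_pos hk (z.pos r.m)
    linarith
  have hA' : 0 < -z.arrow.A.a₂ + -z.arrow.A.b₁ * z.chart.e τ u := by
    refine z.lin_pos h (fun t u r => ?_) hP hW
    rw [z.val_e]
    have := z.pos r.ta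
    have g := val_eTA2 cA Ex.x₂ P.v z.o z.S z.d z.s 0 0 0
    simp only [Piece.Pt.val, cXp, ex_mul, ex_sub, ex_add, val_eTA, Ex.val, hA] at this g ⊢
    push_cast at this g
    simp only [Piece.Pt.arrow, fTA, Piece.Pt.vv, Piece.Pt.val]
    linarith
  have hG' : 0 < -(fMG ((z.S - z.d) / 2) z.d z.vv).a₂ +
      -(fMG ((z.S - z.d) / 2) z.d z.vv).b₁ * z.chart.e τ u := by
    refine z.lin_pos h (fun t u r => ?_) hP hW
    rw [z.val_e]
    have := z.pos r.mg
    have g := val_eTMG2 cA Ex.x₂ P.v z.o z.S z.d z.s 0 0 0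
    simp only [Piece.Pt.val, cXp, ex_mul, ex_sub, ex_add, val_eTMG, Ex.val, hA] at this g ⊢
    push_cast at this g
    simp only [fMG, Piece.Pt.vv, Piece.Pt.val]
    linarith
  have hE : 0 < z.arrow.E.a₂ + z.arrow.E.b₁ * z.chart.e τ u := by
    refine z.lin_pos h (fun t u r => ?_) hP hW
    rw [z.val_e]
    have := z.pos r.eg
    have g := val_eTEG2 cA Ex.x₂ P.v z.o z.S z.d z.s 0 0 0
    simp only [Piece.Pt.val, cXe, ex_mul, ex_sub, ex_add, val_eTEG _ _ _ _ _ _ _ _ _ (0 : ℝ) 0,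
      Ex.val, hA] at this g ⊢
    push_cast at this g
    simp only [Piece.Pt.arrow, fEG, Piece.Pt.vv, Piece.Pt.val]
    linarith
  have a := (z.good hP).Ac
  have m : (fMG ((z.S - z.d) / 2) z.d z.vv).c ≤ 0 := by
    have := z.pos hP.mee
    simp only [Piece.Pt.val, cEE, ex_mul, ex_sub, val_eTMG, Ex.val, hA] at this
    push_cast at this
    simp only [fMG, Piece.Pt.vv, Piece.Pt.val]
    linarith
  refine ⟨mul_pos (mul_pos hS hq) (by linarith), ?_, ?_, ?_⟩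
  · simp only [Form.sq, show z.arrow.E.c = 0 from rfl]; linarith
  · have := mul_nonpos_of_nonpos_of_nonneg a (sq_nonneg (z.chart.e τ u))
    simp only [Form.sq]; linarith
  · have := mul_nonpos_of_nonpos_of_nonneg m (sq_nonneg (z.chart.e τ u))
    simp only [Form.sq]; linarith

/-- The four corners of an end lie in the range, in order. -/
def Piece.Pt.EndIn (L G : Group) : Prop :=
  z.InRange L (z.val G.s₀.t) (z.val G.u₀) ∧ z.InRange L (z.val G.s₀.t) (z.val G.u₁) ∧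
    z.InRange L (z.val G.s₁.t) (z.val G.u₀) ∧ z.InRange L (z.val G.s₁.t) (z.val G.u₁)

theorem Piece.Pt.box_pos {L G : Group} {r : Ex} (hP : P.Ok L) (hW : P.Wide L)
    (hG : P.GroupOk G) (hs : P.GroupSag G r) (hi : z.EndIn L G)
    (he : z.val G.p = z.val P.lo ∨ z.val G.p = z.val r) :
    z.arrow.BoxPos z.chart (z.val P.lo) (z.val r) (z.val G.p) (z.val G.s₀.t) (z.val G.s₁.t)
      (z.val G.u₀) (z.val G.u₁) :=
  ⟨z.corner hP hG hG.s₀.u₀ hG.s₀.plus hG.s₀.minus hs.c00 (z.range hi.1 hP hW).1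
      (z.range hi.1 hP hW).2.1 he,
    z.corner hP hG hG.s₀.u₁ hG.s₀.plus hG.s₀.minus hs.c01 (z.range hi.2.1 hP hW).1
      (z.range hi.2.1 hP hW).2.1 he,
    z.corner hP hG hG.s₁.u₀ hG.s₁.plus hG.s₁.minus hs.c10 (z.range hi.2.2.1 hP hW).1
      (z.range hi.2.2.1 hP hW).2.1 he,
    z.corner hP hG hG.s₁.u₁ hG.s₁.plus hG.s₁.minus hs.c11 (z.range hi.2.2.2 hP hW).1
      (z.range hi.2.2.2 hP hW).2.1 he⟩

/-- The signs at a point of a slab. -/
theorem Piece.Pt.signs {L U : Group} {p τ u ω : ℝ} (hP : P.Ok L) (hW : P.Wide L)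
    (hL : P.GroupOk L) (hU : P.GroupOk U) (hLs : P.GroupSag L U.p) (hUs : P.GroupSag U U.p)
    (hp : L.p = P.lo) (hwL : P.Ord L L.s₀ ∧ P.Ord L L.s₁)
    (hwU : P.Ord U U.s₀ ∧ P.Ord U U.s₁)
    (iL : z.EndIn L L) (iU : z.EndIn L U)
    (aL : z.chart.In (z.val L.s₀.t) (z.val L.s₁.t) (z.val L.u₀) (z.val L.u₁) τ u ω)
    (aU : z.chart.In (z.val U.s₀.t) (z.val U.s₁.t) (z.val U.u₀) (z.val U.u₁) τ u ω)
    (hl : z.val P.lo ≤ p) (hr : p ≤ z.val U.p) :
    0 < z.arrow.G.at p (z.chart.e τ u) (z.chart.κ τ u) ω ∧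
    0 < (fMG ((z.S - z.d) / 2) z.d z.vv).at p (z.chart.e τ u) (z.chart.κ τ u) ω ∧
    0 < 4 * z.arrow.A.at p (z.chart.e τ u) (z.chart.κ τ u) ω * (z.arrow.o * -z.chart.e τ u) *
        z.arrow.G.at p (z.chart.e τ u) (z.chart.κ τ u) ω -
      16 * z.arrow.q * z.arrow.M.at p (z.chart.e τ u) (z.chart.κ τ u) ω ^ 2 *
        z.arrow.G.at p (z.chart.e τ u) (z.chart.κ τ u) ω -
      z.arrow.c * z.arrow.E.at p (z.chart.e τ u) (z.chart.κ τ u) ω ^ 2 *
        (z.arrow.o * -z.chart.e τ u) := by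
  obtain ⟨hM, hE, hA, hS⟩ := z.range ⟨aL.t_ge, .inl aL.t_le, aL.u_ge, aL.u_le⟩ hP hW
  have hgood := z.good hP
  have gE : ∀ {G : Group}, P.GroupOk G →
      0 < z.arrow.G.at (z.val G.p) (z.chart.e τ u) (z.chart.κ τ u) ω := fun {G} hG => by
    have h := z.pos hG.gg
    have b := z.pos hG.beta
    have hA := z.val_cA
    simp only [Piece.Pt.val] at hA
    simp only [Piece.Pt.val, ex_sub, val_eTGG _ _ _ _ _ _ _ _ (0 : ℝ) 0 0, hA, Ex.val] at h b
    simp only [Piece.Pt.arrow, fGG_at _ _ _ 0 0 0 0, Piece.Pt.vv, Piece.Pt.val]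
    linarith
  have hGG : 0 < z.arrow.G.at p (z.chart.e τ u) (z.chart.κ τ u) ω := by
    refine Form.along ?_ hl hr (by have := gE hL; rwa [hp] at this) (gE hU)
    simp only [Form.sq, show z.arrow.G.b₁ = 0 from rfl, show z.arrow.G.c = 0 from rfl]
    linarith [hgood.Ga₂]
  refine ⟨hGG, ?_, Arrow.inside hgood hl hr aL aU hA hE hM hGG ?_
    (z.box_pos hP hW hU hUs iU (.inr rfl))⟩
  · have mc : (fMG ((z.S - z.d) / 2) z.d z.vv).c ≤ 0 := by
      have hA := z.val_cA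
      simp only [Piece.Pt.val] at hA
      have := z.pos hP.mee
      simp only [Piece.Pt.val, cEE, ex_mul, ex_sub, val_eTMG, Ex.val, hA] at this
      push_cast at this
      simp only [fMG, Piece.Pt.vv, Piece.Pt.val]
      linarith
    refine Form.inside mc hS hl hr aL aU ?_ ⟨z.corner_MG hP hU hU.s₀.u₀ (.inl rfl) hwU.1,
      z.corner_MG hP hU hU.s₀.u₁ (.inr rfl) hwU.1, z.corner_MG hP hU hU.s₁.u₀ (.inl rfl) hwU.2,
      z.corner_MG hP hU hU.s₁.u₁ (.inr rfl) hwU.2⟩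
    rw [← hp]
    exact ⟨z.corner_MG hP hL hL.s₀.u₀ (.inl rfl) hwL.1, z.corner_MG hP hL hL.s₀.u₁ (.inr rfl) hwL.1,
      z.corner_MG hP hL hL.s₁.u₀ (.inl rfl) hwL.2, z.corner_MG hP hL hL.s₁.u₁ (.inr rfl) hwL.2⟩
  · have := z.box_pos hP hW hL hLs iL (.inl (by rw [hp]))
    rwa [hp] at this

end

end Vale.Agent.P100.Calib.Closed.End
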