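import Vale.Agent.P100.Calib.SlabEndForm

/-!
# The arrow on a box from its corners

For numbers `α`, `γ` the arrow form is at least a form affine in the entries `ME`, `MM`, `EG`, `GG`;
that form is concave, so its positivity at corners gives the arrow inside.
-/

set_option linter.unusedVariables false

namespace Vale.Agent.P100.Calib.Closed.End

/-- The chord of a form in `p` between `l` and `r`, less its sag. -/
noncomputable def Form.low (F : Form) (l r : ℝ) : Form where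
  a₀ := F.a₀ - F.a₂ * ((l + r) / 2) ^ 2
  a₁ := F.a₁ + F.a₂ * (l + r)
  a₂ := 0
  b₀ := F.b₀ + F.b₁ * (l + r)
  b₁ := 0
  c := 0
  k := F.k
  w := F.w
  e₁ := F.e₁ - F.b₁ * ((l + r) / 2) ^ 2
  k₁ := F.k₁
  w₁ := F.w₁

theorem Form.low_at {F : Form} (hc : F.c = 0) (l r p e κ ω : ℝ) :
    (F.low l r).at p e κ ω = F.at p e κ ω - F.sq e * (p - (l + r) / 2) ^ 2 := by
  simp only [Form.low, Form.at, Form.sq, hc]; ring

/-- The forms of the arrow: the entries, `-MM/e`, `1 + d v` and the weight of `EG ^ 2`. -/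
structure Arrow where
  A : Form
  M : Form
  E : Form
  G : Form
  o : ℝ
  q : ℝ
  c : ℝ

/-- The linear split, for an entry `E` of `EG`. -/
def Arrow.mix (T : Arrow) (E : Form) (α γ : ℝ) : Form where
  a₀ := T.A.a₀ - 4 * T.q * (2 * α * T.M.a₀) - T.c * (2 * γ * E.a₀ - 4 * γ ^ 2 * T.G.a₀)
  a₁ := T.A.a₁ - 4 * T.q * (2 * α * T.M.a₁) - T.c * (2 * γ * E.a₁ - 4 * γ ^ 2 * T.G.a₁)
  a₂ := T.A.a₂ - 4 * T.q * (2 * α * T.M.a₂) - T.c * (2 * γ * E.a₂ - 4 * γ ^ 2 * T.G.a₂)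
  b₀ := T.A.b₀ - 4 * T.q * (2 * α * T.M.b₀) - T.c * (2 * γ * E.b₀ - 4 * γ ^ 2 * T.G.b₀)
  b₁ := T.A.b₁ - 4 * T.q * (2 * α * T.M.b₁) - T.c * (2 * γ * E.b₁ - 4 * γ ^ 2 * T.G.b₁)
  c := T.A.c - 4 * T.q * (2 * α * T.M.c) - T.c * (2 * γ * E.c - 4 * γ ^ 2 * T.G.c)
  k := T.A.k - 4 * T.q * (2 * α * T.M.k) - T.c * (2 * γ * E.k - 4 * γ ^ 2 * T.G.k)
  w := T.A.w - 4 * T.q * (2 * α * T.M.w) - T.c * (2 * γ * E.w - 4 * γ ^ 2 * T.G.w)
  e₁ := T.A.e₁ - 4 * T.q * (2 * α * T.M.e₁ - α ^ 2 * -T.o) -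
    T.c * (2 * γ * E.e₁ - 4 * γ ^ 2 * T.G.e₁)
  k₁ := T.A.k₁ - 4 * T.q * (2 * α * T.M.k₁) - T.c * (2 * γ * E.k₁ - 4 * γ ^ 2 * T.G.k₁)
  w₁ := T.A.w₁ - 4 * T.q * (2 * α * T.M.w₁) - T.c * (2 * γ * E.w₁ - 4 * γ ^ 2 * T.G.w₁)

theorem Arrow.mix_at (T : Arrow) (E : Form) (α γ p e κ ω : ℝ) :
    (T.mix E α γ).at p e κ ω = T.A.at p e κ ω -
      4 * T.q * (2 * α * T.M.at p e κ ω - α ^ 2 * (T.o * -e)) -
      T.c * (2 * γ * E.at p e κ ω - 4 * γ ^ 2 * T.G.at p e κ ω) := by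
  simp only [Arrow.mix, Form.at]; ring

/-- What the forms of the closed signs satisfy. -/
structure Arrow.Good (T : Arrow) : Prop where
  q_pos : 0 < T.q
  c_nonneg : 0 ≤ T.c
  Ac : T.A.c ≤ 0
  Ec : T.E.c = 0
  Gc : T.G.c = 0
  Mc : T.M.c = 0
  Ma₂ : T.M.a₂ = 0
  Mb₁ : T.M.b₁ = 0
  Gb₁ : T.G.b₁ = 0
  Ga₂ : T.G.a₂ ≤ 0

/-- A corner of the split, for both bounds of `EG` between `l` and `r`. -/
def Arrow.CornerPos (T : Arrow) (C : Chart) (l r p τ u : ℝ) : Prop :=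
  ∀ α γ, C.Corner (T.mix T.E α γ) p τ u ∧ C.Corner (T.mix (T.E.low l r) α γ) p τ u

/-- A corner from the entries there. -/
theorem Arrow.corner_of {T : Arrow} (hT : T.Good) {C : Chart} {l r p τ u D β η η' : ℝ}
    (hM : 0 < T.o * -C.e τ u)
    (hh : 0 < T.o * -C.e τ u * (T.A.at p (C.e τ u) (C.κ τ u) (C.wh τ) - D) -
      4 * T.q * T.M.at p (C.e τ u) (C.κ τ u) (C.wh τ) ^ 2)
    (hl : 0 < T.o * -C.e τ u * (T.A.at p (C.e τ u) (C.κ τ u) (C.wl τ) - D) -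
      4 * T.q * T.M.at p (C.e τ u) (C.κ τ u) (C.wl τ) ^ 2)
    (hβ : 0 < β) (hG : ∀ ω, β ≤ T.G.at p (C.e τ u) (C.κ τ u) ω)
    (hη : ∀ ω, T.E.at p (C.e τ u) (C.κ τ u) ω ≤ η)
    (hη' : ∀ ω, -η' ≤ T.E.at p (C.e τ u) (C.κ τ u) ω - T.E.sq (C.e τ u) * (p - (l + r) / 2) ^ 2)
    (hsq : 0 ≤ T.E.sq (C.e τ u))
    (hb : T.c * η ^ 2 ≤ 4 * β * D) (hb' : T.c * η' ^ 2 ≤ 4 * β * D) :
    T.CornerPos C l r p τ u := by
  intro α γ
  set e := C.e τ u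
  set κ := C.κ τ u
  have key : ∀ ω E, (-η' ≤ E ∧ E ≤ η) →
      0 < T.o * -e * (T.A.at p e κ ω - D) - 4 * T.q * T.M.at p e κ ω ^ 2 →
      0 < T.A.at p e κ ω - 4 * T.q * (2 * α * T.M.at p e κ ω - α ^ 2 * (T.o * -e)) -
        T.c * (2 * γ * E - 4 * γ ^ 2 * T.G.at p e κ ω) := by
    intro ω E ⟨E0, E1⟩ hF
    set m := T.M.at p e κ ω
    set G := T.G.at p e κ ω
    have hE : T.c * E ^ 2 ≤ 4 * β * D := by
      rcases le_total 0 E with h | h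
      · exact le_trans (mul_le_mul_of_nonneg_left (pow_le_pow_left₀ h E1 2) hT.c_nonneg) hb
      · refine le_trans (mul_le_mul_of_nonneg_left ?_ hT.c_nonneg) hb'
        have := pow_le_pow_left₀ (neg_nonneg.2 h) (show -E ≤ η' by linarith) 2
        nlinarith
    have hG0 : 0 < G := lt_of_lt_of_le hβ (hG ω)
    have h0 : 0 ≤ T.c * E ^ 2 := mul_nonneg hT.c_nonneg (sq_nonneg E)
    have hD : 0 ≤ D := by
      by_contra hn
      nlinarith [mul_pos hβ (neg_pos.2 (not_le.1 hn))]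
    have h2 : T.c * (2 * γ * E - 4 * γ ^ 2 * G) * (4 * G) ≤ D * (4 * G) := by
      have a := mul_nonneg hT.c_nonneg (sq_nonneg (4 * γ * G - E))
      have b := mul_le_mul_of_nonneg_right (hG ω) hD
      nlinarith
    have h2' := le_of_mul_le_mul_right h2 (by linarith)
    have h1 : 4 * T.q * (2 * α * m - α ^ 2 * (T.o * -e)) * (T.o * -e) ≤ 4 * T.q * m ^ 2 := by
      have a := mul_nonneg hT.q_pos.le (sq_nonneg (α * (T.o * -e) - m))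
      nlinarith
    by_contra hn
    have : (T.A.at p e κ ω - D) * (T.o * -e) ≤
        4 * T.q * (2 * α * m - α ^ 2 * (T.o * -e)) * (T.o * -e) :=
      mul_le_mul_of_nonneg_right (by linarith [not_lt.1 hn]) hM.le
    nlinarith
  have up : ∀ ω, -η' ≤ T.E.at p e κ ω ∧ T.E.at p e κ ω ≤ η := fun ω =>
    ⟨by nlinarith [hη' ω, mul_nonneg hsq (sq_nonneg (p - (l + r) / 2))], hη ω⟩
  have lw : ∀ ω, -η' ≤ (T.E.low l r).at p e κ ω ∧ (T.E.low l r).at p e κ ω ≤ η := fun ω => by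
    rw [Form.low_at hT.Ec]
    exact ⟨hη' ω, by nlinarith [hη ω, mul_nonneg hsq (sq_nonneg (p - (l + r) / 2))]⟩
  constructor <;> constructor <;> rw [Arrow.mix_at]
  · exact key _ _ (up _) hh
  · exact key _ _ (up _) hl
  · exact key _ _ (lw _) hh
  · exact key _ _ (lw _) hl

/-- A point of a slab: ranges at both ends of `p`, and inside the bounds of `ω`. -/
structure Chart.In (C : Chart) (t₀ t₁ u₀ u₁ τ u ω : ℝ) : Prop where
  t_ge : t₀ ≤ τ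
  t_le : τ ≤ t₁
  u_ge : u₀ ≤ u
  u_le : u ≤ u₁
  w_ge : C.wl τ ≤ ω
  w_le : ω ≤ C.wh τ

/-- The four corners of a box. -/
def Arrow.BoxPos (T : Arrow) (C : Chart) (l r p t₀ t₁ u₀ u₁ : ℝ) : Prop :=
  T.CornerPos C l r p t₀ u₀ ∧ T.CornerPos C l r p t₀ u₁ ∧
    T.CornerPos C l r p t₁ u₀ ∧ T.CornerPos C l r p t₁ u₁

/-- The arrow inside. -/
theorem Arrow.inside {T : Arrow} (hT : T.Good) {C : Chart}
    {l r a₀ a₁ a₂ a₃ b₀ b₁ b₂ b₃ p τ u ω : ℝ}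
    (hl : l ≤ p) (hr : p ≤ r) (ha : C.In a₀ a₁ a₂ a₃ τ u ω) (hb : C.In b₀ b₁ b₂ b₃ τ u ω)
    (hA : T.A.sq (C.e τ u) ≤ 0) (hE : 0 ≤ T.E.sq (C.e τ u)) (hM : 0 < T.o * -C.e τ u)
    (hG : 0 < T.G.at p (C.e τ u) (C.κ τ u) ω)
    (L : T.BoxPos C l r l a₀ a₁ a₂ a₃) (R : T.BoxPos C l r r b₀ b₁ b₂ b₃) :
    0 < 4 * T.A.at p (C.e τ u) (C.κ τ u) ω * (T.o * -C.e τ u) *
        T.G.at p (C.e τ u) (C.κ τ u) ω -
      16 * T.q * T.M.at p (C.e τ u) (C.κ τ u) ω ^ 2 * T.G.at p (C.e τ u) (C.κ τ u) ω -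
      T.c * T.E.at p (C.e τ u) (C.κ τ u) ω ^ 2 * (T.o * -C.e τ u) := by
  set e := C.e τ u
  set κ := C.κ τ u
  set m := T.M.at p e κ ω
  set N := T.o * -e
  set G := T.G.at p e κ ω
  set Ev := T.E.at p e κ ω
  set α := m / N with hα
  set γ := Ev / (4 * G) with hγ
  have side : ∀ E : Form, E.c = 0 →
      (E = T.E ∨ E = T.E.low l r) →
      (T.mix E α γ).sq e ≤ 0 → 0 < (T.mix E α γ).at p e κ ω := by
    intro E hEc hE' hs
    have hc : (T.mix E α γ).c ≤ 0 := by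
      simp only [Arrow.mix, hEc, hT.Gc, hT.Mc]; linarith [hT.Ac]
    have get : ∀ {x t₀ t₁ v₀ v₁}, C.In t₀ t₁ v₀ v₁ τ u ω →
        T.BoxPos C l r x t₀ t₁ v₀ v₁ → 0 < (T.mix E α γ).at x e κ ω := by
      intro x t₀ t₁ v₀ v₁ hi hB
      rcases hE' with rfl | rfl
      · exact C.pos_box hc hi.t_ge hi.t_le hi.u_ge hi.u_le hi.w_ge hi.w_le (hB.1 α γ).1
          (hB.2.1 α γ).1 (hB.2.2.1 α γ).1 (hB.2.2.2 α γ).1
      · exact C.pos_box hc hi.t_ge hi.t_le hi.u_ge hi.u_le hi.w_ge hi.w_le (hB.1 α γ).2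
          (hB.2.1 α γ).2 (hB.2.2.1 α γ).2 (hB.2.2.2 α γ).2
    exact Form.along hs hl hr (get ha L) (get hb R)
  have hGa : T.c * γ ^ 2 * T.G.a₂ ≤ 0 :=
    mul_nonpos_of_nonneg_of_nonpos (mul_nonneg hT.c_nonneg (sq_nonneg γ)) hT.Ga₂
  have pos : 0 < (T.mix T.E α γ).at p e κ ω := by
    rcases le_total 0 γ with h | h
    · refine side _ hT.Ec (.inl rfl) ?_
      have hs : (T.mix T.E α γ).sq e =
          T.A.sq e - 2 * (T.c * γ * T.E.sq e) + 4 * (T.c * γ ^ 2 * T.G.a₂) := by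
        simp only [Arrow.mix, Form.sq, hT.Mc, hT.Ma₂, hT.Mb₁, hT.Gb₁, hT.Gc]; ring
      rw [hs]
      have := mul_nonneg (mul_nonneg hT.c_nonneg h) hE
      linarith
    · have hs : (T.mix (T.E.low l r) α γ).sq e = T.A.sq e + 4 * (T.c * γ ^ 2 * T.G.a₂) := by
        simp only [Arrow.mix, Form.low, Form.sq, hT.Mc, hT.Ma₂, hT.Mb₁, hT.Gb₁, hT.Gc]; ring
      have q := side (T.E.low l r) rfl (.inr rfl) (by rw [hs]; linarith)
      rw [Arrow.mix_at, Form.low_at hT.Ec] at q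
      rw [Arrow.mix_at]
      have := mul_nonneg (mul_nonneg hT.c_nonneg (neg_nonneg.2 h))
        (mul_nonneg hE (sq_nonneg (p - (l + r) / 2)))
      linarith
  rw [Arrow.mix_at] at pos
  have e1 : α * N = m := by rw [hα, div_mul_cancel₀ _ hM.ne']
  have e2 : γ * (4 * G) = Ev := by rw [hγ, div_mul_cancel₀ _ (by linarith)]
  have := mul_pos pos (mul_pos hM (show (0 : ℝ) < 4 * G by linarith))
  calc (0 : ℝ) < _ := this
    _ = _ := by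
      linear_combination (-4 * T.q * 4 * G * (m - α * N)) * e1 +
        (-T.c * N * (Ev - 4 * γ * G)) * e2

/-- A form concave on a box is positive inside. -/
theorem Form.inside {F : Form} {C : Chart} {l r a₀ a₁ a₂ a₃ b₀ b₁ b₂ b₃ p τ u ω : ℝ}
    (hc : F.c ≤ 0) (hs : F.sq (C.e τ u) ≤ 0) (hl : l ≤ p) (hr : p ≤ r)
    (ha : C.In a₀ a₁ a₂ a₃ τ u ω) (hb : C.In b₀ b₁ b₂ b₃ τ u ω)
    (L : C.Corner F l a₀ a₂ ∧ C.Corner F l a₀ a₃ ∧ C.Corner F l a₁ a₂ ∧ C.Corner F l a₁ a₃)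
    (R : C.Corner F r b₀ b₂ ∧ C.Corner F r b₀ b₃ ∧ C.Corner F r b₁ b₂ ∧ C.Corner F r b₁ b₃) :
    0 < F.at p (C.e τ u) (C.κ τ u) ω :=
  Form.along hs hl hr
    (C.pos_box hc ha.t_ge ha.t_le ha.u_ge ha.u_le ha.w_ge ha.w_le L.1 L.2.1 L.2.2.1 L.2.2.2)
    (C.pos_box hc hb.t_ge hb.t_le hb.u_ge hb.u_le hb.w_ge hb.w_le R.1 R.2.1 R.2.2.1 R.2.2.2)

end Vale.Agent.P100.Calib.Closed.End
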