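import Vale.Agent.P100.Calib.SlabEndFormEx
import Vale.Agent.P100.Calib.SlabEndSplit
import Vale.Agent.P100.Calib.SlabLargeBox

/-!
# A piece of the end certificate: its checks, and the signs inside
-/

set_option linter.unusedVariables false
set_option linter.unusedSimpArgs false

namespace Vale.Agent.P100.Calib.Closed.End

open BoxPos
open Large (PosBox)

local instance pieceAdd : Add Ex := ⟨Ex.add⟩
local instance pieceMul : Mul Ex := ⟨Ex.mul⟩
local instance pieceSub : Sub Ex := ⟨Ex.sub⟩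

/-- The data of a piece of `d`: `v`, the lines of the chart, the lower bound of `p`. -/
structure Piece where
  box : Box
  v : Ex
  kl : Ex
  lo : Ex
  bl : Ex
  bh : Ex
  rl : Ex
  rh : Ex
  eta : Ex
  rho : Ex
  rinv : Ex
  tT : Ex

/-- The upper bound of `ω` at a time. -/
def Piece.wh (P : Piece) (t : Ex) : Ex :=
  P.bh * ((cA - (cC (1) 1 - cA) * Ex.x₂ * P.v) + t * (cC (1) 1 + (cC (1) 1 - cA) * P.v)) + P.eta -
    (cC (2) 1 - Ex.x₁) * P.rl

/-- The lower bound of `ω` at a time. -/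
def Piece.wl (P : Piece) (t : Ex) : Ex :=
  P.bl * ((cA - (cC (1) 1 - cA) * Ex.x₂ * P.v) +
      cC (40) 39 * P.rinv * t * (cC (1) 1 + (cC (1) 1 - cA) * P.v)) - P.eta -
    cC (40) 39 * (cC (2) 1 - Ex.x₁) * P.rh

/-- A corner time with its envelope of `EG`. -/
structure Side where
  t : Ex
  phi : Ex
  eta : Ex
  eta' : Ex

/-- An end of `p` with its range of time and of `u`. -/
structure Group where
  p : Ex
  beta : Ex
  s₀ : Side
  s₁ : Side
  u₀ : Ex
  u₁ : Ex

/-- The checks of the arrow at a corner. -/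
structure Piece.ArrowOk (P : Piece) (G : Group) (s : Side) (u : Ex) : Prop where
  high : PosBox P.box (cF P.kl P.v s.t u (P.wh s.t) G.p s.phi)
  low : PosBox P.box (cF P.kl P.v s.t u (P.wl s.t) G.p s.phi) ∨
    (PosBox P.box (cR P.kl P.v s.t u (P.wl s.t) (P.wh s.t) G.p) ∧
      PosBox P.box (P.wh s.t - P.wl s.t))
  room : PosBox P.box (cG P.kl P.v s.t u (P.wl s.t) (P.wh s.t) G.p (cC (1) 4))
  above : PosBox P.box (s.eta - cEG P.kl P.v s.t u G.p)

/-- The checks of the sag at a corner, against the other end `r`. -/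
def Piece.SagOk (P : Piece) (G : Group) (s : Side) (u r : Ex) : Prop :=
  PosBox P.box (s.eta' + cEG P.kl P.v s.t u G.p - cSag P.kl P.v s.t u P.lo r)

/-- The checks of a time: the envelope squared is below `phi`. -/
structure Piece.SideOk (P : Piece) (G : Group) (s : Side) : Prop where
  plus : PosBox P.box
    (cC (4) 1 * G.beta * s.phi - cC (625) 1 * (cC (1) 1 + Ex.x₂ * P.v) * s.eta * s.eta)
  minus : PosBox P.box
    (cC (4) 1 * G.beta * s.phi - cC (625) 1 * (cC (1) 1 + Ex.x₂ * P.v) * s.eta' * s.eta')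
  u₀ : P.ArrowOk G s G.u₀
  u₁ : P.ArrowOk G s G.u₁

/-- The two bounds of `ω` are in order at a time, or `MG` is checked from either end. -/
def Piece.Ord (P : Piece) (G : Group) (s : Side) : Prop :=
  PosBox P.box (P.wh s.t - P.wl s.t) ∨
    (PosBox P.box (cG P.kl P.v s.t G.u₀ (P.wh s.t) (P.wl s.t) G.p (cC (1) 4)) ∧
      PosBox P.box (cG P.kl P.v s.t G.u₁ (P.wh s.t) (P.wl s.t) G.p (cC (1) 4)))

/-- The checks of an end, but the sag. -/
structure Piece.GroupOk (P : Piece) (G : Group) : Prop where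
  beta : PosBox P.box G.beta
  gg : PosBox P.box (eTGG cA Ex.x₂ P.v G.p - G.beta)
  room : PosBox P.box (G.p + cC (1) 4)
  s₀ : P.SideOk G G.s₀
  s₁ : P.SideOk G G.s₁

/-- The checks of the sag at an end. -/
structure Piece.GroupSag (P : Piece) (G : Group) (r : Ex) : Prop where
  c00 : P.SagOk G G.s₀ G.u₀ r
  c01 : P.SagOk G G.s₀ G.u₁ r
  c10 : P.SagOk G G.s₁ G.u₀ r
  c11 : P.SagOk G G.s₁ G.u₁ r

/-- The checks at a corner of the range of time and `u`. -/
structure Piece.RangeOk (P : Piece) (t u : Ex) : Prop where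
  m : PosBox P.box (cM P.v t u)
  ta : PosBox P.box (cXp eTA P.v * (P.kl * cM P.v t u) - eTA2 cA Ex.x₂ P.v)
  mg : PosBox P.box (cXp eTMG P.v * (P.kl * cM P.v t u) - eTMG2 cA Ex.x₂ P.v)
  eg : PosBox P.box (eTEG2 cA Ex.x₂ P.v - cXe P.v * (P.kl * cM P.v t u))

/-- The checks of a piece free of the slab. -/
structure Piece.Ok (P : Piece) (L : Group) : Prop where
  kl : PosBox P.box P.kl
  aee : PosBox P.box (cEE eTA P.v)
  mee : PosBox P.box (cEE eTMG P.v)
  gpp : PosBox P.box (cC (-1) 1 * eTGG2 cA Ex.x₂ P.v)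
  gw : PosBox P.box (eTMGw cA Ex.x₂ P.v)
  r00 : P.RangeOk L.s₀.t L.u₀
  r01 : P.RangeOk L.s₀.t L.u₁
  r10 : P.RangeOk L.s₁.t L.u₀
  r11 : P.RangeOk L.s₁.t L.u₁

/-- A point of the box. -/
structure Piece.Pt (P : Piece) where
  o : ℝ
  S : ℝ
  d : ℝ
  s : ℝ
  mem₀ : P.box.s₀.Mem o
  mem₁ : P.box.s₁.Mem S
  mem₂ : P.box.s₂.Mem d
  mem₃ : P.box.s₃.Mem s
  S_lt : S < 1
  d_pos : 0 < d
  v_pos : 0 < P.v.val o S d s

section
variable {P : Piece} (z : P.Pt)

/-- The value of an expression at the point. -/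
noncomputable def Piece.Pt.val (e : Ex) : ℝ := e.val z.o z.S z.d z.s

/-- `v` at the point. -/
noncomputable def Piece.Pt.vv : ℝ := z.val P.v

/-- The affine maps at the point. -/
noncomputable def Piece.Pt.chart : Chart where
  k0 := z.val P.kl
  A := 10 + z.vv * (1 / 20 + z.d)
  c0 := 1 / 20 - 9 * z.d
  d := z.d
  hi₀ := z.val (P.wh (cC (0) 1))
  hi₁ := z.val (P.wh (cC (1) 1)) - z.val (P.wh (cC (0) 1))
  lo₀ := z.val (P.wl (cC (0) 1))
  lo₁ := z.val (P.wl (cC (1) 1)) - z.val (P.wl (cC (0) 1))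

/-- The forms at the point. -/
noncomputable def Piece.Pt.arrow : Arrow where
  A := fTA ((z.S - z.d) / 2) z.d z.vv
  M := fME ((z.S - z.d) / 2) z.d z.vv
  E := fEG ((z.S - z.d) / 2) z.d z.vv
  G := fGG ((z.S - z.d) / 2) z.d z.vv
  o := (1 - z.S) * (1 + z.d * z.vv)
  q := 1 + z.d * z.vv
  c := 625 * z.d ^ 2 * z.vv ^ 2 * (1 + z.d * z.vv)

/-- A check at the point. -/
theorem Piece.Pt.pos {e : Ex} (h : PosBox P.box e) : 0 < z.val e :=
  h z.o z.S z.d z.s z.mem₀ z.mem₁ z.mem₂ z.mem₃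

theorem Piece.Pt.q_pos : 0 < 1 + z.d * z.vv := by
  have := mul_pos z.d_pos z.v_pos
  simp only [Piece.Pt.vv, Piece.Pt.val]
  linarith

theorem Piece.Pt.val_cA : z.val cA = (z.S - z.d) / 2 := by
  simp only [Piece.Pt.val, cA, ex_mul, ex_sub, Ex.val]; push_cast; ring

theorem Piece.Pt.val_wh (t : Ex) : z.val (P.wh t) = z.chart.wh (z.val t) := by
  simp only [Chart.wh, Piece.Pt.chart, Piece.Pt.val, Piece.wh, ex_mul, ex_add, ex_sub, Ex.val]
  push_cast; ring

theorem Piece.Pt.val_wl (t : Ex) : z.val (P.wl t) = z.chart.wl (z.val t) := by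
  simp only [Chart.wl, Piece.Pt.chart, Piece.Pt.val, Piece.wl, ex_mul, ex_add, ex_sub, Ex.val]
  push_cast; ring

theorem Piece.Pt.val_e (t u : Ex) :
    z.chart.e (z.val t) (z.val u) = -1 * (z.val P.kl * z.val (cM P.v t u)) := by
  simp only [Chart.e, Piece.Pt.chart, Piece.Pt.val, Piece.Pt.vv, cM, ex_mul, ex_add, ex_sub,
    Ex.val]
  push_cast; ring

theorem Piece.Pt.val_κ (t u : Ex) :
    z.chart.κ (z.val t) (z.val u) = z.val P.kl * z.val (cN t u) := by
  simp only [Chart.κ, Piece.Pt.chart, Piece.Pt.val, cN, ex_mul, ex_add, ex_sub, Ex.val]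
  push_cast; ring

theorem Piece.Pt.val_EG (t u p : Ex) (κ ω : ℝ) : z.val (cEG P.kl P.v t u p) =
    z.arrow.E.at (z.val p) (z.chart.e (z.val t) (z.val u)) κ ω := by
  rw [Piece.Pt.arrow, fEG_at _ _ _ 0 0 0, ← z.val_cA, z.val_e]
  simp only [Piece.Pt.val, Piece.Pt.vv, cEG, val_eTEG _ _ _ _ _ _ _ _ _ (0 : ℝ) 0, cE, ex_mul,
    Ex.val]
  congr 1
  push_cast; ring

theorem Piece.Pt.val_sag (t u l r : Ex) : z.val (cSag P.kl P.v t u l r) =
    z.arrow.E.sq (z.chart.e (z.val t) (z.val u)) * ((z.val l - z.val r) / 2) ^ 2 := by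
  have h := fun p => z.val_EG t u p 0 0
  simp only [Piece.Pt.val] at h ⊢
  simp only [cSag, ex_sub, ex_mul, ex_add, Ex.val, h]
  simp only [Piece.Pt.arrow, fEG, Form.at, Form.sq]
  push_cast; ring

theorem Piece.Pt.val_ME (t u w p : Ex) : z.val (cMe P.kl P.v t u w p) =
    z.arrow.M.at (z.val p) (z.chart.e (z.val t) (z.val u)) (z.chart.κ (z.val t) (z.val u))
      (z.val w) := by
  rw [Piece.Pt.arrow, fME_at, z.val_e, z.val_κ, ← z.val_cA]
  simp only [Piece.Pt.val, Piece.Pt.vv, cMe, cMeX, ex_mul, ex_add, ex_sub, val_eTME, fME, Ex.val]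
  simp only [TME, TME_010000_0, TME_010000_1]
  push_cast; ring

theorem Piece.Pt.val_MM (t u : Ex) : z.val (cMM P.kl P.v t u) =
    z.arrow.o * -z.chart.e (z.val t) (z.val u) := by
  rw [z.val_e]
  simp only [Piece.Pt.arrow, Piece.Pt.val, Piece.Pt.vv, cMM, cQ, ex_mul, ex_add, ex_sub, Ex.val]
  push_cast; ring

theorem Piece.Pt.val_F (t u w p phi : Ex) : z.val (cF P.kl P.v t u w p phi) =
    z.arrow.o * -z.chart.e (z.val t) (z.val u) *
        (z.arrow.A.at (z.val p) (z.chart.e (z.val t) (z.val u)) (z.chart.κ (z.val t) (z.val u))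
          (z.val w) - z.d ^ 2 * z.vv ^ 2 * z.val phi) -
      4 * z.arrow.q * z.arrow.M.at (z.val p) (z.chart.e (z.val t) (z.val u))
        (z.chart.κ (z.val t) (z.val u)) (z.val w) ^ 2 := by
  rw [← z.val_MM, ← z.val_ME]
  simp only [Piece.Pt.arrow, fTA_at, ← z.val_cA, z.val_e, z.val_κ]
  simp only [Piece.Pt.val, Piece.Pt.vv, cF, cQ, ex_mul, ex_add, ex_sub, val_eTA, Ex.val]
  push_cast
  ring_nf

theorem Piece.Pt.val_R (t u w₀ w₁ p : Ex) : z.val (cR P.kl P.v t u w₀ w₁ p) =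
    4 * z.arrow.q * z.arrow.M.w₁ * (z.val (cMe P.kl P.v t u w₀ p) + z.val (cMe P.kl P.v t u w₁ p))
      - z.arrow.A.w * z.val p * z.val (cMM P.kl P.v t u) := by
  simp only [Piece.Pt.arrow, fTA, fME, ← z.val_cA]
  simp only [Piece.Pt.val, Piece.Pt.vv, cR, cQ, ex_mul, ex_add, ex_sub,
    val_eTAw _ _ _ _ _ _ _ (0 : ℝ) 0 0, val_eTMEw _ _ _ _ _ _ _ (1 : ℝ) 0 0, Ex.val]
  push_cast; ring

theorem Piece.Pt.val_MG (t u w₀ w₁ p : Ex) :
    z.val (cG P.kl P.v t u w₀ w₁ p (cC (1) 4)) =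
      (fMG ((z.S - z.d) / 2) z.d z.vv).at (z.val p) (z.chart.e (z.val t) (z.val u))
          (z.chart.κ (z.val t) (z.val u)) (z.val w₀) -
        1 / 4 * (fMG ((z.S - z.d) / 2) z.d z.vv).w * (z.val w₁ - z.val w₀) := by
  rw [fMG_at, z.val_e, z.val_κ, ← z.val_cA]
  simp only [Piece.Pt.val, Piece.Pt.vv, cG, cE, fMG, ex_mul, ex_sub, val_eTMG,
    val_eTMGw _ _ _ _ _ _ _ (0 : ℝ) 0 0, Ex.val]
  push_cast
  ring_nf

theorem Piece.Pt.good {L : Group} (hP : P.Ok L) : z.arrow.Good := by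
  have hq := z.q_pos
  have a := z.pos hP.aee
  have g := z.pos hP.gpp
  simp only [Piece.Pt.val, cEE, ex_mul, ex_sub, val_eTA, Ex.val] at a
  simp only [Piece.Pt.val, ex_mul, Ex.val] at g
  have g' := val_eTGG2 cA Ex.x₂ P.v z.o z.S z.d z.s 0 0 0
  have hA := z.val_cA
  simp only [Piece.Pt.val] at hA
  rw [hA] at a g'
  simp only [Ex.val] at a g'
  push_cast at a g
  refine ⟨hq, mul_nonneg (mul_nonneg (mul_nonneg (by norm_num) (sq_nonneg _)) (sq_nonneg _)) hq.le,
    ?_, rfl, rfl, rfl, rfl, rfl, rfl, ?_⟩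
  · simp only [Piece.Pt.arrow, fTA, Piece.Pt.vv, Piece.Pt.val]
    linarith
  · simp only [Piece.Pt.arrow, fGG, Piece.Pt.vv, Piece.Pt.val]
    linarith

/-- A corner of the arrow. -/
theorem Piece.Pt.corner {L G : Group} {s : Side} {u r : Ex} (hP : P.Ok L) (hG : P.GroupOk G)
    (hA : P.ArrowOk G s u) (hp : PosBox P.box (cC (4) 1 * G.beta * s.phi -
      cC (625) 1 * (cC (1) 1 + Ex.x₂ * P.v) * s.eta * s.eta))
    (hm : PosBox P.box (cC (4) 1 * G.beta * s.phi -
      cC (625) 1 * (cC (1) 1 + Ex.x₂ * P.v) * s.eta' * s.eta'))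
    (hs : P.SagOk G s u r) (hM : 0 < z.arrow.o * -z.chart.e (z.val s.t) (z.val u))
    (hsq : 0 ≤ z.arrow.E.sq (z.chart.e (z.val s.t) (z.val u)))
    (he : z.val G.p = z.val P.lo ∨ z.val G.p = z.val r) :
    z.arrow.CornerPos z.chart (z.val P.lo) (z.val r) (z.val G.p) (z.val s.t) (z.val u) := by
  have hh := z.pos hA.high
  rw [z.val_F, z.val_wh] at hh
  have hl : 0 < z.arrow.o * -z.chart.e (z.val s.t) (z.val u) *
      (z.arrow.A.at (z.val G.p) (z.chart.e (z.val s.t) (z.val u))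
          (z.chart.κ (z.val s.t) (z.val u)) (z.chart.wl (z.val s.t)) -
        z.d ^ 2 * z.vv ^ 2 * z.val s.phi) -
      4 * z.arrow.q * z.arrow.M.at (z.val G.p) (z.chart.e (z.val s.t) (z.val u))
        (z.chart.κ (z.val s.t) (z.val u)) (z.chart.wl (z.val s.t)) ^ 2 := by
    rcases hA.low with h | ⟨h, h'⟩
    · have := z.pos h
      rwa [z.val_F, z.val_wl] at this
    · have a := z.pos h
      have b := z.pos h'
      rw [z.val_R, z.val_ME, z.val_ME, z.val_MM, z.val_wh, z.val_wl] at a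
      have b' : 0 < z.chart.wh (z.val s.t) - z.chart.wl (z.val s.t) := by
        rw [← z.val_wh, ← z.val_wl]
        simpa only [Piece.Pt.val, ex_sub] using b
      have c := mul_pos a b'
      have hM0 : z.arrow.M.a₂ = 0 ∧ z.arrow.M.c = 0 ∧ z.arrow.M.w = 0 := ⟨rfl, rfl, rfl⟩
      simp only [Form.at] at hh c ⊢
      simp only [hM0.2.2, show z.arrow.A.w₁ = 0 from rfl] at hh c ⊢
      linear_combination hh + c
  have hβ := z.pos hG.beta
  have hq := z.q_pos
  have hd : 0 ≤ z.d ^ 2 * z.vv ^ 2 := mul_nonneg (sq_nonneg _) (sq_nonneg _)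
  refine Arrow.corner_of (z.good hP) (β := z.val G.beta)
    (D := z.d ^ 2 * z.vv ^ 2 * z.val s.phi) (η := z.val s.eta) (η' := z.val s.eta')
    hM hh hl hβ (fun ω => ?_) (fun ω => ?_) (fun ω => ?_) hsq ?_ ?_
  · have h := z.pos hG.gg
    simp only [Piece.Pt.arrow, fGG_at _ _ _ 0 0 0 0, ← z.val_cA]
    simp only [Piece.Pt.val, Piece.Pt.vv, ex_sub, val_eTGG _ _ _ _ _ _ _ _ (0 : ℝ) 0 0] at h ⊢
    exact (sub_pos.1 h).le
  · have h := z.pos hA.above
    rw [← z.val_EG]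
    simp only [Piece.Pt.val, ex_sub] at h ⊢
    linarith
  · have h := z.pos hs
    have e := z.val_sag s.t u P.lo r
    have e' : ((z.val P.lo - z.val r) / 2) ^ 2 =
        (z.val G.p - (z.val P.lo + z.val r) / 2) ^ 2 := by
      rcases he with he | he <;> rw [he] <;> ring
    rw [← z.val_EG, ← e', ← e]
    simp only [Piece.Pt.val, ex_sub, ex_add] at h ⊢
    linarith
  · have h := z.pos hp
    simp only [Piece.Pt.val, ex_sub, ex_mul, ex_add, Ex.val] at h
    simp only [Piece.Pt.arrow, Piece.Pt.vv, Piece.Pt.val] at hd ⊢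
    push_cast at h
    linear_combination mul_nonneg hd h.le
  · have h := z.pos hm
    simp only [Piece.Pt.val, ex_sub, ex_mul, ex_add, Ex.val] at h
    simp only [Piece.Pt.arrow, Piece.Pt.vv, Piece.Pt.val] at hd ⊢
    push_cast at h
    linear_combination mul_nonneg hd h.le

/-- A corner of `TMG`. -/
theorem Piece.Pt.corner_MG {L G : Group} {s : Side} {u : Ex} (hP : P.Ok L) (hG : P.GroupOk G)
    (hA : P.ArrowOk G s u) (hu : u = G.u₀ ∨ u = G.u₁) (ho : P.Ord G s) :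
    z.chart.Corner (fMG ((z.S - z.d) / 2) z.d z.vv) (z.val G.p) (z.val s.t) (z.val u) := by
  have h := z.pos hA.room
  rw [z.val_MG, z.val_wh, z.val_wl] at h
  have hp := z.pos hG.room
  simp only [Piece.Pt.val, ex_add, Ex.val] at hp
  push_cast at hp
  have hW : 0 < (fMG ((z.S - z.d) / 2) z.d z.vv).w := by
    have := z.pos hP.gw
    simp only [Piece.Pt.val, val_eTMGw _ _ _ _ _ _ _ (0 : ℝ) 0 0] at this
    simp only [fMG, ← z.val_cA]
    exact this
  have hp' : 0 ≤ z.val G.p + 1 / 4 := by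
    simp only [Piece.Pt.val]; linarith
  simp only [Chart.Corner, Form.at] at h ⊢
  simp only [show (fMG ((z.S - z.d) / 2) z.d z.vv).w₁ = 0 from rfl] at h ⊢
  rcases le_total (z.chart.wl (z.val s.t)) (z.chart.wh (z.val s.t)) with hle | hle
  · have h0 := mul_nonneg hW.le (sub_nonneg.2 hle)
    have h1 := mul_nonneg h0 hp'
    exact ⟨by linarith, by linarith⟩
  · have hr : PosBox P.box (P.wh s.t - P.wl s.t) ∨
        PosBox P.box (cG P.kl P.v s.t u (P.wh s.t) (P.wl s.t) G.p (cC (1) 4)) :=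
      ho.imp id fun q => hu.elim (fun e => e ▸ q.1) fun e => e ▸ q.2
    rcases hr with q | q
    · have := z.pos q
      simp only [Piece.Pt.val, ex_sub] at this
      rw [← z.val_wh, ← z.val_wl] at hle
      simp only [Piece.Pt.val] at hle
      linarith
    · have h' := z.pos q
      rw [z.val_MG, z.val_wh, z.val_wl] at h'
      simp only [Form.at] at h'
      simp only [show (fMG ((z.S - z.d) / 2) z.d z.vv).w₁ = 0 from rfl] at h'
      have h0 := mul_nonneg hW.le (sub_nonneg.2 hle)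
      have h1 := mul_nonneg h0 hp'
      exact ⟨by linarith, by linarith⟩

end

end Vale.Agent.P100.Calib.Closed.End
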