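import Vale.Agent.P100.Calib.SlabEndCheck0A0
import Vale.Agent.P100.Calib.SlabEndCheck0A1
import Vale.Agent.P100.Calib.SlabEndCheck0A2
import Vale.Agent.P100.Calib.SlabEndCheck0B0
import Vale.Agent.P100.Calib.SlabEndCheck0B1
import Vale.Agent.P100.Calib.SlabEndCheck0B2
import Vale.Agent.P100.Calib.SlabEndCheck0B3

/-!
# The signs on the piece `0` of the end strip
-/

namespace Vale.Agent.P100.Calib.Closed.End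

open BoxPos
open Large (PosBox)

local instance endPiece0Add : Add Ex := ⟨Ex.add⟩
local instance endPiece0Mul : Mul Ex := ⟨Ex.mul⟩
local instance endPiece0Sub : Sub Ex := ⟨Ex.sub⟩

/-- The checks of the piece `0`. -/
theorem base0 : p0.Base g0 ⟨⟨39, 40, 40⟩, ⟨3000, 3011, 5000⟩, ⟨5, 8, 100⟩, ⟨0, 1, 1⟩⟩ where
  ok := ⟨c0_223, c0_224, c0_225, c0_226, c0_227, ⟨c0_228, c0_229, c0_230, c0_231⟩, ⟨c0_232, c0_233, c0_234, c0_235⟩, ⟨c0_236, c0_237, c0_238, c0_239⟩, ⟨c0_240, c0_241, c0_242, c0_243⟩⟩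
  wide := ⟨⟨c0_244, c0_245, c0_246, c0_247⟩,
    ⟨c0_248, c0_249, c0_250, c0_251⟩⟩
  lines := ⟨c0_252, c0_253, c0_254, c0_255, c0_256, c0_257, c0_258, c0_259, c0_260, c0_261, c0_262, ⟨fun _ _ _ _ _ => rfl, fun _ _ _ _ _ => rfl, fun _ _ _ _ _ => rfl⟩, c0_263, c0_264, c0_265, c0_266⟩
  low := ⟨c0_46, c0_47, c0_48,
      ⟨c0_21, c0_22, ⟨c0_1, .inr ⟨c0_2, c0_0⟩, c0_3, c0_4⟩, ⟨c0_11, .inr ⟨c0_12, c0_0⟩, c0_13, c0_14⟩⟩,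
      ⟨c0_44, c0_45, ⟨c0_24, .inl c0_25, c0_26, c0_27⟩, ⟨c0_34, .inl c0_35, c0_36, c0_37⟩⟩⟩
  w₀ := (.inl c0_0)
  w₁ := (.inl c0_23)
  inv := fun z => by simp only [Piece.Pt.val, p0, Ex.val]; norm_num
  p_eq := rfl
  s₀_eq := rfl
  u₀_eq := rfl
  u₁_eq := rfl
  tT_eq := rfl
  bu_eq := rfl

/-- The checks of the slab `0`. -/
theorem slab0_0 : p0.Slab g0 g0_0 :=
  ⟨⟨c0_75, c0_76, c0_77,
      ⟨c0_60, c0_61, ⟨c0_50, .inl c0_51, c0_52, c0_53⟩, ⟨c0_55, .inl c0_56, c0_57, c0_58⟩⟩,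
      ⟨c0_73, c0_74, ⟨c0_63, .inl c0_64, c0_65, c0_66⟩, ⟨c0_68, .inl c0_69, c0_70, c0_71⟩⟩⟩,
    ⟨c0_5, c0_15, c0_28, c0_38⟩, ⟨c0_54, c0_59, c0_67, c0_72⟩, (.inl c0_49), (.inl c0_62), rfl⟩

theorem cut0_0 : p0.Cut q0_0 := Piece.Cut.top p0

/-- The checks of the slab `1`. -/
theorem slab0_1 : p0.Slab g0 g0_1 :=
  ⟨⟨c0_104, c0_105, c0_106,
      ⟨c0_89, c0_90, ⟨c0_79, .inr ⟨c0_80, c0_78⟩, c0_81, c0_82⟩, ⟨c0_84, .inr ⟨c0_85, c0_78⟩, c0_86, c0_87⟩⟩,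
      ⟨c0_102, c0_103, ⟨c0_92, .inl c0_93, c0_94, c0_95⟩, ⟨c0_97, .inl c0_98, c0_99, c0_100⟩⟩⟩,
    ⟨c0_6, c0_16, c0_29, c0_39⟩, ⟨c0_83, c0_88, c0_96, c0_101⟩, (.inl c0_78), (.inl c0_91), rfl⟩

theorem cut0_1 : p0.Cut q0_1 := Piece.Cut.of_pos c0_270 c0_271

/-- The checks of the slab `2`. -/
theorem slab0_2 : p0.Slab g0 g0_2 :=
  ⟨⟨c0_133, c0_134, c0_135,
      ⟨c0_118, c0_119, ⟨c0_108, .inr ⟨c0_109, c0_107⟩, c0_110, c0_111⟩, ⟨c0_113, .inr ⟨c0_114, c0_107⟩, c0_115, c0_116⟩⟩,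
      ⟨c0_131, c0_132, ⟨c0_121, .inr ⟨c0_122, c0_120⟩, c0_123, c0_124⟩, ⟨c0_126, .inr ⟨c0_127, c0_120⟩, c0_128, c0_129⟩⟩⟩,
    ⟨c0_7, c0_17, c0_30, c0_40⟩, ⟨c0_112, c0_117, c0_125, c0_130⟩, (.inl c0_107), (.inl c0_120), rfl⟩

theorem cut0_2 : p0.Cut q0_2 := Piece.Cut.of_pos c0_275 c0_276

/-- The checks of the slab `3`. -/
theorem slab0_3 : p0.Slab g0 g0_3 :=
  ⟨⟨c0_162, c0_163, c0_164,
      ⟨c0_147, c0_148, ⟨c0_137, .inr ⟨c0_138, c0_136⟩, c0_139, c0_140⟩, ⟨c0_142, .inr ⟨c0_143, c0_136⟩, c0_144, c0_145⟩⟩,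
      ⟨c0_160, c0_161, ⟨c0_150, .inr ⟨c0_151, c0_149⟩, c0_152, c0_153⟩, ⟨c0_155, .inr ⟨c0_156, c0_149⟩, c0_157, c0_158⟩⟩⟩,
    ⟨c0_8, c0_18, c0_31, c0_41⟩, ⟨c0_141, c0_146, c0_154, c0_159⟩, (.inl c0_136), (.inl c0_149), rfl⟩

theorem cut0_3 : p0.Cut q0_3 := Piece.Cut.of_pos c0_279 c0_280

/-- The checks of the slab `4`. -/
theorem slab0_4 : p0.Slab g0 g0_4 :=
  ⟨⟨c0_191, c0_192, c0_193,
      ⟨c0_176, c0_177, ⟨c0_166, .inr ⟨c0_167, c0_165⟩, c0_168, c0_169⟩, ⟨c0_171, .inr ⟨c0_172, c0_165⟩, c0_173, c0_174⟩⟩,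
      ⟨c0_189, c0_190, ⟨c0_179, .inr ⟨c0_180, c0_178⟩, c0_181, c0_182⟩, ⟨c0_184, .inr ⟨c0_185, c0_178⟩, c0_186, c0_187⟩⟩⟩,
    ⟨c0_9, c0_19, c0_32, c0_42⟩, ⟨c0_170, c0_175, c0_183, c0_188⟩, (.inl c0_165), (.inl c0_178), rfl⟩

theorem cut0_4 : p0.Cut q0_4 := Piece.Cut.of_pos c0_283 c0_284

/-- The checks of the slab `5`. -/
theorem slab0_5 : p0.Slab g0 g0_5 :=
  ⟨⟨c0_220, c0_221, c0_222,
      ⟨c0_205, c0_206, ⟨c0_195, .inr ⟨c0_196, c0_194⟩, c0_197, c0_198⟩, ⟨c0_200, .inr ⟨c0_201, c0_194⟩, c0_202, c0_203⟩⟩,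
      ⟨c0_218, c0_219, ⟨c0_208, .inr ⟨c0_209, c0_207⟩, c0_210, c0_211⟩, ⟨c0_213, .inr ⟨c0_214, c0_207⟩, c0_215, c0_216⟩⟩⟩,
    ⟨c0_10, c0_20, c0_33, c0_43⟩, ⟨c0_199, c0_204, c0_212, c0_217⟩, (.inl c0_194), (.inl c0_207), rfl⟩

theorem cut0_5 : p0.Cut q0_5 := Piece.Cut.one p0

/-- The signs on the piece. -/
theorem signs0 (z : p0.Pt) (u t : ℝ) (h : z.On u t) : ChartSigns z.d z.S u z.vv t := by
  rcases le_total (z.d * z.val q0_0) (1 / chH z.d z.S u z.vv t) with h0 | h0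
  · exact z.signs_top base0 slab0_0 rfl rfl rfl ⟨c0_267, c0_268, c0_269⟩ h h0
  rcases le_total (z.d * z.val q0_1) (1 / chH z.d z.S u z.vv t) with h1 | h1
  · exact z.signs_U base0 slab0_1 rfl cut0_1 cut0_0 rfl rfl ⟨c0_272, c0_273, c0_274⟩ h h1 h0
  rcases le_total (z.d * z.val q0_2) (1 / chH z.d z.S u z.vv t) with h2 | h2
  · exact z.signs_E base0 slab0_2 cut0_2 cut0_1 rfl rfl ⟨c0_277, c0_278⟩ h (z.u_fix rfl h) h2 h1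
  rcases le_total (z.d * z.val q0_3) (1 / chH z.d z.S u z.vv t) with h3 | h3
  · exact z.signs_E base0 slab0_3 cut0_3 cut0_2 rfl rfl ⟨c0_281, c0_282⟩ h (z.u_fix rfl h) h3 h2
  rcases le_total (z.d * z.val q0_4) (1 / chH z.d z.S u z.vv t) with h4 | h4
  · exact z.signs_E base0 slab0_4 cut0_4 cut0_3 rfl rfl ⟨c0_285, c0_286⟩ h (z.u_fix rfl h) h4 h3
  exact z.signs_E base0 slab0_5 cut0_5 cut0_4 rfl rfl ⟨c0_287, c0_288⟩ h (z.u_em (em := cC (191) 10000) rfl c0_289 ⟨c0_290, c0_291, c0_292⟩ h h4) (z.last_cut h) h4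

end Vale.Agent.P100.Calib.Closed.End
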