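import Vale.Agent.P100.Calib.SlabEndInside
import Vale.Agent.P100.Calib.SlabChart

/-!
# A point of the chart in the variables of the end certificate
-/

set_option linter.unusedVariables false
set_option linter.unusedSimpArgs false

namespace Vale.Agent.P100.Calib.Closed.End

open BoxPos
open Large (PosBox)

local instance pointAdd : Add Ex := ⟨Ex.add⟩
local instance pointMul : Mul Ex := ⟨Ex.mul⟩
local instance pointSub : Sub Ex := ⟨Ex.sub⟩

/-- `b (2 - S)`. -/
def cDen : Ex := cB * (cC (2) 1 - Ex.x₁)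

/-- `b (2 - S) (hc + 39 d/160)/d`. -/
def cNum (v : Ex) : Ex :=
  Ex.x₁ * (cC (1) 1 + (cC (1) 1 - cA) * v) + cC (39) 160 * cDen

/-- The coefficient free of `h/d` in the line of `LLG`. -/
def cL0 (kl v : Ex) : Ex :=
  eLLG cA Ex.x₂ v (cC (0) 1) (kl * Ex.x₀) (cC (-1) 1 * (cC (10) 1 + v * (cC (1) 20 + Ex.x₂)))
    (cC (1) 20 - cC (9) 1 * Ex.x₂)

/-- The slope in `h/d` of the line of `LLG`. -/
def cL1 (kl v : Ex) : Ex :=
  eLLG cA Ex.x₂ v Ex.x₀ (kl * Ex.x₀)
      (cC (-1) 1 * ((cC (10) 1 + v * (cC (1) 20 + Ex.x₂)) +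
        Ex.x₀ * (cC (1) 20 - cC (9) 1 * Ex.x₂)))
      ((cC (1) 20 - cC (9) 1 * Ex.x₂) * (cC (1) 1 - Ex.x₂ * Ex.x₀)) -
    cL0 kl v

/-- `q` times the lower bound of `be (1 + d v + w) - w (1 + d v)`, for `h = 1/q` and `u = uu`. -/
def cDel (v q uu : Ex) : Ex :=
  cB * (cQ v * q + q - uu) - (q - uu) * cQ v

/-- The checks of the lines of a piece. -/
structure Piece.Lines (P : Piece) (L : Group) (bu : Box) : Prop where
  bh : PosBox P.box (P.bh * cB - cC (1) 1)
  bl : PosBox P.box (cC (1) 1 - P.bl * cB)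
  bp : PosBox P.box P.bl
  etap : PosBox P.box P.eta
  eta : PosBox P.box (P.eta + (P.bh - P.bl) * (cA - (cC (1) 1 - cA) * Ex.x₂ * P.v))
  rl : PosBox P.box (cC (1) 1 - P.rl * Ex.x₁)
  rh : PosBox P.box (P.rh * Ex.x₁ - cC (1) 1)
  klo : PosBox P.box (Ex.x₁ - P.kl * (cC (1) 1 - Ex.x₁))
  khi : PosBox P.box (P.rho * P.kl * (cC (1) 1 - Ex.x₁) - Ex.x₁)
  time : PosBox P.box (L.s₁.t * cNum P.v - P.rho * cDen)
  lo : PosBox P.box (cC (4) 1 * (cC (1) 1 - cA * P.v) - P.lo * cB)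
  free : (∀ S d t o o' : ℝ, P.kl.val o S d t = P.kl.val o' S d t) ∧
    (∀ S d t o o' : ℝ, P.v.val o S d t = P.v.val o' S d t) ∧
    ∀ S d t o o' : ℝ, P.rho.val o S d t = P.rho.val o' S d t
  topA : PosBox bu (Ex.x₂ * cL0 P.kl P.v + cL1 P.kl P.v)
  topB : PosBox bu (Ex.x₂ * cL0 (P.rho * P.kl) P.v + cL1 (P.rho * P.kl) P.v)
  lowA : PosBox bu (cDen * cL0 P.kl P.v + cNum P.v * cL1 P.kl P.v)
  lowB : PosBox bu (cDen * cL0 (P.rho * P.kl) P.v + cNum P.v * cL1 (P.rho * P.kl) P.v)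

section
variable {P : Piece} (z : P.Pt)

/-- What holds at a point of the end strip. -/
structure Piece.Pt.On (u t : ℝ) : Prop where
  S_low : 3 / 5 < z.S
  d_le : z.d ≤ 2 - 3 * z.S
  d_top : z.d < 1 / 4
  u_low : 39 / 40 ≤ u
  facts : ChartFacts z.d z.S u z.vv t
  slope : 1 / 4 < t

/-- The chart variables `p, τ, u, ω` of a point. -/
structure Piece.Pt.Coord (u t p τ u' ω : ℝ) : Prop where
  p_pos : 0 < p
  p_low : z.val P.lo < p
  t_ge : z.d < τ
  t_over : 1 / chH z.d z.S u z.vv t ≤ τ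
  t_under : τ ≤ z.val P.rho * (1 / chH z.d z.S u z.vv t)
  u_ge : u ≤ u'
  u_le : u' ≤ z.val P.rho
  w_ge : z.chart.wl τ ≤ ω
  w_le : ω ≤ z.chart.wh τ
  eW : chG z.d z.S u z.vv t * chW z.d z.S u z.vv t = p
  eE : chG z.d z.S u z.vv t * eVal z.d z.vv (chW z.d z.S u z.vv t) (chR z.S u) =
    p * z.chart.e τ u'
  eK : chG z.d z.S u z.vv t * kVal z.d (chW z.d z.S u z.vv t) (chR z.S u) = p * z.chart.κ τ u'
  eW1 : chG z.d z.S u z.vv t * chW1 z.d z.S u z.vv t = p * ω
  p_eq : p * (z.S * ((z.S + z.d) / 2) *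
      (2 + z.d * z.vv - z.d * u * chH z.d z.S u z.vv t)) =
    4 * chH z.d z.S u z.vv t *
      ((2 + z.d * z.vv) * ((z.S + z.d) / 2) - z.S * u * (1 + z.d * z.vv))

/-- The ratio of `S/(1 - S)` over its lower line. -/
noncomputable def Piece.Pt.ratio : ℝ := z.S / ((1 - z.S) * z.val P.kl)

theorem Piece.Pt.ratio_mem {L : Group} {bu : Box} (hL : P.Lines L bu) (hk : PosBox P.box P.kl) :
    1 ≤ z.ratio ∧ z.ratio ≤ z.val P.rho ∧ z.ratio * z.val P.kl = z.S / (1 - z.S) := by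
  have hS1 : 0 < 1 - z.S := by linarith [z.S_lt]
  have k0 := z.pos hk
  have k1 := z.pos hL.klo
  have k2 := z.pos hL.khi
  simp only [Piece.Pt.val, ex_mul, ex_sub, Ex.val] at k1 k2 k0
  push_cast at k1 k2
  have hden : 0 < (1 - z.S) * P.kl.val z.o z.S z.d z.s := mul_pos hS1 k0
  simp only [Piece.Pt.ratio, Piece.Pt.val]
  refine ⟨by rw [le_div_iff₀ hden]; linarith, by rw [div_le_iff₀ hden]; linarith, ?_⟩
  rw [div_mul_eq_div_div, div_mul_cancel₀ _ k0.ne']

/-- `1/be` between its lines. -/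
theorem Piece.Pt.inv_be {L : Group} {bu : Box} (hL : P.Lines L bu) (hb : 0 < (z.S + z.d) / 2)
    {x : ℝ} (hx : (z.S - z.d) / 2 - (1 - (z.S - z.d) / 2) * z.d * z.vv ≤ x) :
    x / ((z.S + z.d) / 2) ≤ z.val P.bh * x + z.val P.eta ∧
      z.val P.bl * x - z.val P.eta ≤ x / ((z.S + z.d) / 2) := by
  have bb := z.pos hL.bh
  have bb' := z.pos hL.bl
  have η0 := z.pos hL.etap
  have be := z.pos hL.eta
  have hA := z.val_cA
  simp only [Piece.Pt.val] at hA
  simp only [Piece.Pt.val, Piece.Pt.vv, cB, ex_mul, ex_sub, ex_add, Ex.val, hA] at bb bb' be η0 hx ⊢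
  push_cast at bb bb' be
  generalize P.bh.val z.o z.S z.d z.s = bH at *
  generalize P.bl.val z.o z.S z.d z.s = bL at *
  generalize P.eta.val z.o z.S z.d z.s = η at *
  generalize P.v.val z.o z.S z.d z.s = v at *
  have q : x / ((z.S + z.d) / 2) * ((z.S + z.d) / 2) = x := div_mul_cancel₀ _ hb.ne'
  set y := x / ((z.S + z.d) / 2)
  have hbb : bL ≤ bH := by
    by_contra hn
    have := mul_lt_mul_of_pos_right (not_le.1 hn) hb
    linarith
  have k0 := mul_le_mul_of_nonneg_left hx (show 0 ≤ bH - bL by linarith)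
  have a1 : (1 : ℝ) ≤ bH * ((z.S + z.d) / 2) := by linarith
  have b1 : bL * ((z.S + z.d) / 2) ≤ 1 := by linarith
  have e1 : y * (bH * ((z.S + z.d) / 2)) = bH * x := by rw [← q]; ring
  have e2 : y * (bL * ((z.S + z.d) / 2)) = bL * x := by rw [← q]; ring
  rcases le_total 0 x with hx0 | hx0
  · have hy : 0 ≤ y := div_nonneg hx0 hb.le
    have a := mul_le_mul_of_nonneg_left a1 hy
    have b := mul_le_mul_of_nonneg_left b1 hy
    constructor <;> linarith
  · have hy : y ≤ 0 := div_nonpos_of_nonpos_of_nonneg hx0 hb.le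
    have a := mul_le_mul_of_nonpos_left a1 hy
    have b := mul_le_mul_of_nonpos_left b1 hy
    constructor <;> linarith

/-- `ω` between its two affine bounds. -/
theorem Piece.Pt.omega {L : Group} {bu : Box} (hL : P.Lines L bu) {u H τ : ℝ}
    (hS0 : 0 < z.S) (hb : 0 < (z.S + z.d) / 2)
    (hD : 0 < 1 + (1 - (z.S - z.d) / 2) * z.vv)
    (hu : 39 / 40 ≤ u) (hu1 : u < 1) (hH : 0 < H)
    (hslope : 1 / H * (1 + (1 - (z.S - z.d) / 2) * z.vv) / ((z.S + z.d) / 2) ≤
      (2 - z.S) / z.S)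
    (hτ1 : 1 / H ≤ τ) (hτ2 : z.val P.rinv * τ ≤ 1 / H) (hri : 0 < z.val P.rinv) :
    z.chart.wl τ ≤ (((z.S - z.d) / 2 - (1 - (z.S - z.d) / 2) * z.d * z.vv) +
        1 / u * (1 / H) * (1 + (1 - (z.S - z.d) / 2) * z.vv)) / ((z.S + z.d) / 2) -
        1 / u * (2 - z.S) / z.S ∧
      (((z.S - z.d) / 2 - (1 - (z.S - z.d) / 2) * z.d * z.vv) +
        1 / u * (1 / H) * (1 + (1 - (z.S - z.d) / 2) * z.vv)) / ((z.S + z.d) / 2) -
        1 / u * (2 - z.S) / z.S ≤ z.chart.wh τ := by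
  have hf1 : 1 ≤ 1 / u := by rw [le_div_iff₀ (by linarith)]; linarith
  have hf2 : 1 / u ≤ 40 / 39 := by rw [div_le_iff₀ (by linarith)]; linarith
  have hS2 : 0 < 2 - z.S := by linarith [z.S_lt]
  have hiH : 0 < 1 / H := one_div_pos.2 hH
  have hτ : 0 < τ := lt_of_lt_of_le hiH hτ1
  have rl := z.pos hL.rl
  have rh := z.pos hL.rh
  have hA := z.val_cA
  simp only [Piece.Pt.val] at hA
  have eh : z.chart.wh τ = z.val P.bh * (((z.S - z.d) / 2 - (1 - (z.S - z.d) / 2) * z.d * z.vv) +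
      τ * (1 + (1 - (z.S - z.d) / 2) * z.vv)) + z.val P.eta - (2 - z.S) * z.val P.rl := by
    simp only [Chart.wh, Piece.Pt.chart, Piece.Pt.val, Piece.wh, ex_mul, ex_add, ex_sub, Ex.val,
      hA, Piece.Pt.vv]
    push_cast; ring
  have el : z.chart.wl τ = z.val P.bl * (((z.S - z.d) / 2 - (1 - (z.S - z.d) / 2) * z.d * z.vv) +
      40 / 39 * z.val P.rinv * τ * (1 + (1 - (z.S - z.d) / 2) * z.vv)) - z.val P.eta -
      40 / 39 * (2 - z.S) * z.val P.rh := by
    simp only [Chart.wl, Piece.Pt.chart, Piece.Pt.val, Piece.wl, ex_mul, ex_add, ex_sub, Ex.val,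
      hA, Piece.Pt.vv]
    push_cast; ring
  have ih := fun x hx => (z.inv_be hL hb (x := x) hx).1
  have il := fun x hx => (z.inv_be hL hb (x := x) hx).2
  rw [eh, el]
  simp only [Piece.Pt.val, ex_mul, ex_sub, Ex.val] at rl rh ⊢
  push_cast at rl rh
  simp only [Piece.Pt.val] at hτ2 hri ih il
  generalize P.bh.val z.o z.S z.d z.s = bH at *
  generalize P.bl.val z.o z.S z.d z.s = bL at *
  generalize P.eta.val z.o z.S z.d z.s = η at *
  generalize P.rinv.val z.o z.S z.d z.s = ri at *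
  generalize P.rl.val z.o z.S z.d z.s = r₀ at *
  generalize P.rh.val z.o z.S z.d z.s = r₁ at *
  generalize (z.S - z.d) / 2 - (1 - (z.S - z.d) / 2) * z.d * z.vv = N at *
  generalize 1 + (1 - (z.S - z.d) / 2) * z.vv = D at *
  generalize (z.S + z.d) / 2 = b at *
  have key : ∀ f : ℝ, (N + f * (1 / H) * D) / b - f * (2 - z.S) / z.S =
      N / b + f * (1 / H * D / b - (2 - z.S) / z.S) := fun f => by ring
  constructor
  · have a := mul_le_mul_of_nonpos_right hf2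
      (show 1 / H * D / b - (2 - z.S) / z.S ≤ 0 by linarith)
    have hx0 : 0 ≤ 40 / 39 * ri * τ * D := by positivity
    have bnd := il (N + 40 / 39 * ri * τ * D) (by linarith)
    have c : (N + 40 / 39 * ri * τ * D) / b ≤ (N + 40 / 39 * (1 / H) * D) / b :=
      (div_le_div_iff_of_pos_right hb).2 (by
        have := mul_le_mul_of_nonneg_right hτ2 hD.le; linarith)
    have e : 40 / 39 * (2 - z.S) / z.S ≤ 40 / 39 * (2 - z.S) * r₁ := by
      rw [div_le_iff₀ hS0]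
      have := mul_le_mul_of_nonneg_left (show 1 ≤ r₁ * z.S by linarith)
        (show 0 ≤ 40 / 39 * (2 - z.S) by linarith)
      linarith
    have k := key (40 / 39)
    rw [key (1 / u)]
    linarith
  · have a := mul_le_mul_of_nonpos_right hf1
      (show 1 / H * D / b - (2 - z.S) / z.S ≤ 0 by linarith)
    have bnd := ih (N + τ * D) (by have := mul_pos hτ hD; linarith)
    have c : (N + 1 / H * D) / b ≤ (N + τ * D) / b :=
      (div_le_div_iff_of_pos_right hb).2 (by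
        have := mul_le_mul_of_nonneg_right hτ1 hD.le; linarith)
    have e : (2 - z.S) * r₀ ≤ (2 - z.S) / z.S := by
      rw [le_div_iff₀ hS0]
      have := mul_le_mul_of_nonneg_left (show r₀ * z.S ≤ 1 by linarith) hS2.le
      linarith
    have k := key 1
    simp only [one_mul] at k a
    rw [key (1 / u)]
    linarith

/-- `H` times `be (2 - S)`. -/
theorem Piece.Pt.H_mul (u t : ℝ) (hb : 0 < (z.S + z.d) / 2 * (2 - z.S)) :
    chH z.d z.S u z.vv t * ((z.S + z.d) / 2 * (2 - z.S)) =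
      z.S * (1 + (1 - (z.S - z.d) / 2) * z.vv) + u * t * ((z.S + z.d) / 2 * (2 - z.S)) := by
  rw [chH, add_mul, div_mul_cancel₀ _ hb.ne']

/-- The time is below the upper time. -/
theorem Piece.Pt.time_le {L : Group} {bu : Box} (hL : P.Lines L bu) {u t τ : ℝ}
    (hb : 0 < (z.S + z.d) / 2) (hS0 : 0 < z.S)
    (hD : 0 < 1 + (1 - (z.S - z.d) / 2) * z.vv) (hu : 39 / 40 ≤ u) (ht : 1 / 4 < t)
    (hτ : 0 ≤ τ) (hτ3 : τ * chH z.d z.S u z.vv t ≤ z.val P.rho) :
    τ ≤ z.val L.s₁.t := by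
  have hS2 : 0 < 2 - z.S := by linarith [z.S_lt]
  have hden := mul_pos hb hS2
  have e := z.H_mul u t hden
  have T := z.pos hL.time
  have hA := z.val_cA
  simp only [Piece.Pt.val] at hA
  simp only [Piece.Pt.val, Piece.Pt.vv, cNum, cDen, cB, ex_mul, ex_add, ex_sub, Ex.val, hA]
    at T hτ3 hD e ⊢
  push_cast at T
  generalize L.s₁.t.val z.o z.S z.d z.s = T₁ at *
  generalize P.rho.val z.o z.S z.d z.s = ρ at *
  generalize P.v.val z.o z.S z.d z.s = v at *
  generalize chH z.d z.S u v t = H at *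
  have hut : 39 / 160 ≤ u * t :=
    le_trans (by norm_num) (mul_le_mul hu ht.le (by norm_num) (by linarith))
  have hnum0 : 0 < z.S * (1 + (1 - (z.S - z.d) / 2) * v) +
      39 / 160 * ((z.S + z.d) / 2 * (2 - z.S)) := by
    have := mul_pos hS0 hD
    positivity
  have a := mul_le_mul_of_nonneg_left
    (mul_le_mul_of_nonneg_right hut hden.le) hτ
  have b := mul_le_mul_of_nonneg_right hτ3 hden.le
  have c : τ * (H * ((z.S + z.d) / 2 * (2 - z.S))) =
      τ * (z.S * (1 + (1 - (z.S - z.d) / 2) * v) + u * t * ((z.S + z.d) / 2 * (2 - z.S))) := by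
    rw [e]
  refine le_of_lt (lt_of_mul_lt_mul_right ?_ hnum0.le)
  linarith

/-- The slope is below `(2 - S)/S`. -/
theorem Piece.Pt.slope_le {u t : ℝ} (hb : 0 < (z.S + z.d) / 2) (hS0 : 0 < z.S) (hu : 0 < u)
    (ht : 0 < t) (hH : 0 < chH z.d z.S u z.vv t) :
    1 / chH z.d z.S u z.vv t * (1 + (1 - (z.S - z.d) / 2) * z.vv) / ((z.S + z.d) / 2) ≤
      (2 - z.S) / z.S := by
  have hS2 : 0 < 2 - z.S := by linarith [z.S_lt]
  have e := z.H_mul u t (mul_pos hb hS2)
  have p := mul_nonneg (mul_pos hu ht).le (mul_pos hb hS2).le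
  generalize chH z.d z.S u z.vv t = H at *
  generalize 1 + (1 - (z.S - z.d) / 2) * z.vv = D at *
  rw [div_le_div_iff₀ hb hS0, one_div_mul_eq_div, div_mul_eq_mul_div, div_le_iff₀ hH]
  linarith

/-- `ω` in the chart. -/
theorem Piece.Pt.omega_eq {u t : ℝ} (hb : 0 < (z.S + z.d) / 2) (hS0 : 0 < z.S) (hu : u ≠ 0)
    (hH : 0 < chH z.d z.S u z.vv t) :
    chW1 z.d z.S u z.vv t = chW z.d z.S u z.vv t *
      ((((z.S - z.d) / 2 - (1 - (z.S - z.d) / 2) * z.d * z.vv) +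
        1 / u * (1 / chH z.d z.S u z.vv t) * (1 + (1 - (z.S - z.d) / 2) * z.vv)) /
          ((z.S + z.d) / 2) - 1 / u * (2 - z.S) / z.S) := by
  have hS2 : 0 < 2 - z.S := by linarith [z.S_lt]
  have e := z.H_mul u t (mul_pos hb hS2)
  rw [chW1, chW]
  generalize chH z.d z.S u z.vv t = H at *
  generalize (1 - z.S) / z.S = k at *
  have hne : (z.S + z.d) ≠ 0 := by linarith
  field_simp at e ⊢
  linear_combination k * e

theorem Piece.Pt.coord {L : Group} {bu : Box} {u t : ℝ} (hL : P.Lines L bu) (hk : PosBox P.box P.kl)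
    (hr : z.val P.rho * z.val P.rinv = 1) (h : z.On u t) :
    ∃ p τ u' ω, z.Coord u t p τ u' ω ∧ τ ≤ z.val L.s₁.t := by
  have f := h.facts
  have hd := z.d_pos
  have hv : 0 < z.vv := by linarith [f.v_low]
  have hS0 : 0 < z.S := by linarith [h.S_low]
  have hS1 : 0 < 1 - z.S := by linarith [z.S_lt]
  have hb : 0 < (z.S + z.d) / 2 := by linarith
  have hH := f.H_pos
  have hu := f.u_pos
  have hD : 0 < 1 + (1 - (z.S - z.d) / 2) * z.vv := by
    have := mul_pos (show 0 < 1 - (z.S - z.d) / 2 by linarith) hv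
    linarith
  have hh := f.h_lt
  have hY : 0 < 2 + z.d * z.vv - z.d * u * chH z.d z.S u z.vv t := by
    have a := mul_pos hd hv
    have b := mul_lt_mul_of_pos_left hh hu
    linarith [f.u_lt]
  have hg : chG z.d z.S u z.vv t * ((1 - z.S) * ((z.S + z.d) / 2) *
      (2 + z.d * z.vv - z.d * u * chH z.d z.S u z.vv t)) =
      4 * ((2 + z.d * z.vv) * ((z.S + z.d) / 2) - z.S * u * (1 + z.d * z.vv)) :=
    div_mul_cancel₀ _ (mul_pos (mul_pos hS1 hb) hY).ne'
  have hW : chW z.d z.S u z.vv t = (1 - z.S) / z.S * chH z.d z.S u z.vv t := rfl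
  obtain ⟨r1, r2, rk⟩ := z.ratio_mem hL hk
  have hdr := f.drift
  rw [div_lt_iff₀ (mul_pos hS1 hb)] at hdr
  have hsl := z.slope_le hb hS0 hu (by linarith [h.slope]) hH
  have eω := z.omega_eq hb hS0 hu.ne' hH
  have hiH : 0 < 1 / chH z.d z.S u z.vv t := one_div_pos.2 hH
  have hτ1 : 1 / chH z.d z.S u z.vv t ≤ z.ratio * (1 / chH z.d z.S u z.vv t) :=
    le_mul_of_one_le_left hiH.le r1
  have hri : 0 < z.val P.rinv := by
    refine pos_of_mul_pos_right (a := z.val P.rho) (by rw [hr]; norm_num) (by linarith)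
  have hτ2 : z.val P.rinv * (z.ratio * (1 / chH z.d z.S u z.vv t)) ≤
      1 / chH z.d z.S u z.vv t := by
    refine le_trans (mul_le_mul_of_nonneg_left (mul_le_mul_of_nonneg_right r2 hiH.le) hri.le) ?_
    rw [← mul_assoc, mul_comm (z.val P.rinv), hr, one_mul]
  obtain ⟨w1, w2⟩ := z.omega hL hS0 hb hD h.u_low f.u_lt hH hsl hτ1 hτ2 hri
  have htime := z.time_le hL hb hS0 hD h.u_low h.slope (le_trans hiH.le hτ1)
    (by rw [mul_assoc, one_div_mul_cancel hH.ne', mul_one]; exact r2)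
  have hav : 0 < 1 - (z.S - z.d) / 2 * z.vv := by linarith [f.r_lt]
  have hp0 : 4 * (1 - (z.S - z.d) / 2 * z.vv) <
      chG z.d z.S u z.vv t * ((1 - z.S) / z.S * chH z.d z.S u z.vv t) *
        ((z.S + z.d) / 2) := by
    rw [show chG z.d z.S u z.vv t * ((1 - z.S) / z.S * chH z.d z.S u z.vv t) *
      ((z.S + z.d) / 2) = chG z.d z.S u z.vv t * chH z.d z.S u z.vv t / 2 *
        ((1 - z.S) * ((z.S + z.d) / 2)) * 2 / z.S by ring, lt_div_iff₀ hS0]
    linarith
  have hpp : 0 < chG z.d z.S u z.vv t * ((1 - z.S) / z.S * chH z.d z.S u z.vv t) :=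
    pos_of_mul_pos_left (by linarith) hb.le
  have hlo : z.val P.lo < chG z.d z.S u z.vv t * ((1 - z.S) / z.S * chH z.d z.S u z.vv t) := by
    have T := z.pos hL.lo
    have hA := z.val_cA
    simp only [Piece.Pt.val] at hA
    simp only [Piece.Pt.val, Piece.Pt.vv, cB, ex_mul, ex_sub, ex_add, Ex.val, hA] at T hp0 ⊢
    push_cast at T
    refine lt_of_mul_lt_mul_right ?_ hb.le
    linarith
  refine ⟨_, z.ratio * (1 / chH z.d z.S u z.vv t), z.ratio * u, _, ⟨hpp, hlo, ?_, hτ1, ?_, ?_, ?_,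
    w1, w2, by rw [hW], ?_, ?_, ?_, ?_⟩, htime⟩
  · refine lt_of_lt_of_le ?_ hτ1
    rw [lt_div_iff₀ hH]; exact hh
  · exact mul_le_mul_of_nonneg_right r2 hiH.le
  · exact le_mul_of_one_le_left hu.le r1
  · exact le_trans (mul_le_of_le_one_right (by linarith) f.u_lt.le) r2
  · have e : z.chart.e (z.ratio * (1 / chH z.d z.S u z.vv t)) (z.ratio * u) =
        -(z.ratio * z.val P.kl) * ((10 + z.vv * (1 / 20 + z.d)) * (1 / chH z.d z.S u z.vv t) +
          u * (1 / 20 - 9 * z.d)) := by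
      simp only [Chart.e, Piece.Pt.chart]; ring
    rw [e, rk, eVal, chR, hW]
    field_simp
  · have e : z.chart.κ (z.ratio * (1 / chH z.d z.S u z.vv t)) (z.ratio * u) =
        (z.ratio * z.val P.kl) * ((1 / 20 - 9 * z.d) *
          (1 / chH z.d z.S u z.vv t - u * z.d)) := by
      simp only [Chart.κ, Piece.Pt.chart]; ring
    rw [e, rk, kVal, chR, hW]
    field_simp
  · rw [eω, hW]; ring
  · rw [show chG z.d z.S u z.vv t * ((1 - z.S) / z.S * chH z.d z.S u z.vv t) *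
      (z.S * ((z.S + z.d) / 2) * (2 + z.d * z.vv - z.d * u * chH z.d z.S u z.vv t)) =
      chH z.d z.S u z.vv t * (chG z.d z.S u z.vv t * ((1 - z.S) * ((z.S + z.d) / 2) *
        (2 + z.d * z.vv - z.d * u * chH z.d z.S u z.vv t))) by field_simp, hg]
    ring

end

end Vale.Agent.P100.Calib.Closed.End
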