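import Vale.Agent.P100.Calib.SlabEndPoint

/-!
# The signs at a point of the end strip from the checks of its piece
-/

set_option linter.unusedVariables false
set_option linter.unusedSimpArgs false

namespace Vale.Agent.P100.Calib.Closed.End

open BoxPos
open Large (PosBox)

local instance signsAdd : Add Ex := ⟨Ex.add⟩
local instance signsMul : Mul Ex := ⟨Ex.mul⟩
local instance signsSub : Sub Ex := ⟨Ex.sub⟩

/-- `LLG` at the ray `k` and at `h/d = H`. -/
noncomputable def llgAt (a d v u k H : ℝ) : ℝ :=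
  LLG a d v 0 (H / k) 0 (k * u) (-(10 + v * (1 / 20 + d) + H * u * (1 / 20 - 9 * d)))
    ((1 / 20 - 9 * d) * (1 - d * (H * u)))

theorem LLG_at {a d v g W W1 R k u H : ℝ} (hk : k ≠ 0) (hW : W = H / k) (hR : R = k * u) :
    LLG a d v g W W1 R (eVal d v W R) (kVal d W R) = llgAt a d v u k H := by
  have e : R * W = H * u := by subst hW hR; field_simp
  have e' : R * d * W = d * (H * u) := by rw [← e]; ring
  simp only [llgAt, eVal, kVal, e, e', ← hW, ← hR, LLG]

theorem llgAt_line {a d v u k : ℝ} (hk : k ≠ 0) (H : ℝ) :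
    llgAt a d v u k H = llgAt a d v u k 0 + H * (llgAt a d v u k 1 - llgAt a d v u k 0) := by
  have e : ∀ z : ℝ, z / k * (k * u) = z * u := fun z => by field_simp
  simp only [llgAt, LLG, LLGc, LLGv, LLGw, e]
  ring

theorem llgAt_ray {a d v u k₀ k₁ k : ℝ} (h0 : k₀ ≠ 0) (h1 : k₁ ≠ 0) (hk : k ≠ 0) (H : ℝ) :
    (k₁ - k₀) * llgAt a d v u k H =
      (k₁ - k) * llgAt a d v u k₀ H + (k - k₀) * llgAt a d v u k₁ H := by
  have e : ∀ c : ℝ, c ≠ 0 → H / c * (c * u) = H * u := fun c hc => by field_simp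
  simp only [llgAt, LLG, LLGc, LLGv, LLGw, e _ h0, e _ h1, e _ hk]
  ring

/-- An affine function positive at both ends of its range. -/
theorem line_pos {l₀ l₁ n m d H : ℝ} (hm : 0 < m) (hd : 0 < d) (hn : n ≤ H * m) (hH : d * H < 1)
    (h0 : 0 < m * l₀ + n * l₁) (h1 : 0 < d * l₀ + l₁) : 0 < l₀ + H * l₁ := by
  rcases le_total 0 l₁ with h | h
  · have := mul_le_mul_of_nonneg_right hn h
    refine pos_of_mul_pos_right (a := m) ?_ hm.le
    linarith
  · have := mul_le_mul_of_nonpos_right hH.le h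
    refine pos_of_mul_pos_right (a := d) ?_ hd.le
    linarith

/-- The checks of `p < hi` on a slab that ends at `d/h = q`. -/
structure Piece.UpperU (P : Piece) (q hi : Ex) : Prop where
  low : PosBox P.box (Ex.x₂ * hi * Ex.x₁ * cB * ((cC (2) 1 + Ex.x₂ * P.v) * q - cC (39) 40) -
    cC (4) 1 * ((cC (2) 1 + Ex.x₂ * P.v) * cB - Ex.x₁ * cC (39) 40 * cQ P.v))
  top : PosBox P.box (hi * Ex.x₁ * cB * ((cC (2) 1 + Ex.x₂ * P.v) * q - cC (1) 1) -
    cC (4) 1 * (cC (1) 1 - cA * P.v))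
  den : PosBox P.box ((cC (2) 1 + Ex.x₂ * P.v) * q - cC (1) 1)

/-- The checks of `p < hi` on a slab that starts at `d/h = q`. -/
structure Piece.UpperE (P : Piece) (q hi uu : Ex) : Prop where
  pos : PosBox P.box (cDel P.v q uu)
  bound : PosBox P.box (hi * Ex.x₁ * cDel P.v q uu - cC (4) 1 * (cC (1) 1 - cA * P.v))

/-- The checks of `1 - em ≤ u` on a slab that starts at `d/h = q`. -/
structure Piece.EmOk (P : Piece) (q em : Ex) : Prop where
  pos : PosBox P.box (cDel P.v q (cC (39) 40))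
  eps : PosBox P.box em
  bound : PosBox P.box (em * (Ex.x₁ * cDel P.v q (cC (39) 40) -
      Ex.x₂ * (cC (1) 1 - cA * P.v)) - Ex.x₂ * (cC (1) 1 - cA * P.v) * (q - cC (1) 1))

/-- The checks of a piece free of the slab. -/
structure Piece.Base (P : Piece) (L : Group) (bu : Box) : Prop where
  ok : P.Ok L
  wide : P.Wide L
  lines : P.Lines L bu
  low : P.GroupOk L
  w₀ : P.Ord L L.s₀
  w₁ : P.Ord L L.s₁
  inv : ∀ z : P.Pt, z.val P.rho * z.val P.rinv = 1
  p_eq : L.p = P.lo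
  s₀_eq : L.s₀.t = Ex.x₂
  u₀_eq : L.u₀ = cC (39) 40
  u₁_eq : L.u₁ = P.rho
  tT_eq : P.tT = P.rho * Ex.x₂ * cC (10) 7
  bu_eq : bu = { P.box with s₀ := ⟨39, 40, 40⟩ }

/-- The checks of a slab. -/
structure Piece.Slab (P : Piece) (L U : Group) : Prop where
  up : P.GroupOk U
  sagL : P.GroupSag L U.p
  sagU : P.GroupSag U U.p
  w₀ : P.Ord U U.s₀
  w₁ : P.Ord U U.s₁
  u₁_eq : U.u₁ = P.rho

section
variable {P : Piece} (z : P.Pt)

/-- What the point gives besides the drift. -/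
theorem Piece.Pt.basic {u t : ℝ} (h : z.On u t) :
    0 < z.S ∧ 0 < (z.S + z.d) / 2 ∧ 0 < z.vv ∧ 0 < 1 - (z.S - z.d) / 2 * z.vv ∧
      0 < 1 + z.d * z.vv ∧ 0 < 2 + z.d * z.vv - z.d * u * chH z.d z.S u z.vv t ∧
      u * (z.d * chH z.d z.S u z.vv t) < 1 := by
  have f := h.facts
  have hd := z.d_pos
  have hv : 0 < z.vv := by linarith [f.v_low]
  have hS0 : 0 < z.S := by linarith [h.S_low]
  have a := mul_pos hd hv
  have b := mul_lt_mul_of_pos_left f.h_lt f.u_pos
  have c := f.u_lt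
  exact ⟨hS0, by linarith, hv, by linarith [f.r_lt], by linarith, by linarith, by linarith⟩

theorem Piece.Pt.upper_U {u t p τ u' ω : ℝ} {q hi : Ex} (hU : P.UpperU q hi) (h : z.On u t)
    (c : z.Coord u t p τ u' ω) (hq : z.d * z.val q ≤ 1 / chH z.d z.S u z.vv t) :
    p < z.val hi := by
  obtain ⟨hS0, hb, hv, hav, hQ, hY, huh⟩ := z.basic h
  have k0 := z.pos hU.low
  have k1 := z.pos hU.top
  have k2 := z.pos hU.den
  have hd := z.d_pos
  have hu0 := h.u_low
  have hu1 := h.facts.u_lt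
  have hH := h.facts.H_pos
  have e := c.p_eq
  rw [le_div_iff₀ hH] at hq
  have hA := z.val_cA
  simp only [Piece.Pt.val] at hA
  simp only [Piece.Pt.val, Piece.Pt.vv, cB, cQ, ex_mul, ex_sub, ex_add, Ex.val, hA]
    at k0 k1 k2 hS0 hb hv hav hQ hY huh hq hH e ⊢
  push_cast at k0 k1 k2
  generalize P.v.val z.o z.S z.d z.s = v at *
  generalize q.val z.o z.S z.d z.s = Q at *
  generalize hi.val z.o z.S z.d z.s = X at *
  generalize chH z.d z.S u v t = H at *
  generalize z.S = S at *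
  generalize z.d = d at *
  have G : 0 < d * X * S * ((S + d) / 2) * ((2 + d * v) * Q - u) -
      4 * ((2 + d * v) * ((S + d) / 2) - S * u * (1 + d * v)) := by
    have a := mul_nonneg (show 0 ≤ 1 - u by linarith) k0.le
    have b := mul_pos (show 0 < u - 39 / 40 + 1 / 1000000 by linarith) (mul_pos hd k1)
    have a' := mul_pos hd k1
    rcases eq_or_lt_of_le hu0 with hh | hh
    · subst hh; linarith
    · have b := mul_pos (show 0 < u - 39 / 40 by linarith) a'
      linarith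
  have hN : 0 < (2 + d * v) * ((S + d) / 2) - S * u * (1 + d * v) := by
    have := mul_pos (mul_pos hS0 hQ) (show 0 < 1 - u by linarith)
    have := mul_pos hd hav
    linarith
  have hC : 0 < (2 + d * v) * Q - u := by linarith
  have hX : 0 < X := by
    by_contra hn
    have := mul_nonpos_of_nonneg_of_nonpos
      (mul_nonneg (mul_nonneg (mul_nonneg hd.le hS0.le) hb.le) hC.le) (not_lt.1 hn)
    linarith
  have hW : 0 < d * S * ((S + d) / 2) * X := by positivity
  have s1 := mul_lt_mul_of_pos_left (sub_pos.1 G) (mul_pos hd hH)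
  have s2 := mul_nonneg (mul_nonneg hW.le (show 0 ≤ 2 + d * v by linarith))
    (show 0 ≤ 1 - d * Q * H by linarith)
  refine lt_of_mul_lt_mul_right (a := d * (S * ((S + d) / 2) * (2 + d * v - d * u * H))) ?_
    (by positivity)
  have e' : p * (d * (S * ((S + d) / 2) * (2 + d * v - d * u * H))) =
      d * (4 * H * ((2 + d * v) * ((S + d) / 2) - S * u * (1 + d * v))) := by
    rw [← e]; ring
  linarith

/-- The gap between `N (1 - u h)` and `(1 - u) S b Y`. -/
theorem Piece.Pt.gap {u t : ℝ} (h : z.On u t) :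
    (1 - u) * (z.S * ((z.S + z.d) / 2 * (2 + z.d * z.vv - u * (z.d * chH z.d z.S u z.vv t)))) <
      (1 - u * (z.d * chH z.d z.S u z.vv t)) *
        ((2 + z.d * z.vv) * ((z.S + z.d) / 2) - z.S * u * (1 + z.d * z.vv)) := by
  obtain ⟨hS0, hb, hv, hav, hQ, hY, huh⟩ := z.basic h
  have hS1 : 0 < 1 - z.S := by linarith [z.S_lt]
  have hev := h.facts.ev_pos
  have hg : chG z.d z.S u z.vv t * ((1 - z.S) * ((z.S + z.d) / 2) *
      (2 + z.d * z.vv - z.d * u * chH z.d z.S u z.vv t)) =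
      4 * ((2 + z.d * z.vv) * ((z.S + z.d) / 2) - z.S * u * (1 + z.d * z.vv)) :=
    div_mul_cancel₀ _ (mul_pos (mul_pos hS1 hb) hY).ne'
  generalize chG z.d z.S u z.vv t = g at *
  generalize chH z.d z.S u z.vv t = H at *
  have e : (2 * z.S / (1 - z.S)) * (1 - z.S) = 2 * z.S := div_mul_cancel₀ _ hS1.ne'
  generalize 2 * z.S / (1 - z.S) = k at *
  have a := mul_pos hev (mul_pos (mul_pos hS1 hb) hY)
  have e1 : (1 - z.d * u * H) * (g * ((1 - z.S) * ((z.S + z.d) / 2) *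
      (2 + z.d * z.vv - z.d * u * H))) = (1 - z.d * u * H) *
      (4 * ((2 + z.d * z.vv) * ((z.S + z.d) / 2) - z.S * u * (1 + z.d * z.vv))) := by rw [hg]
  have e2 : k * (1 - z.S) * ((u - 1) * ((z.S + z.d) / 2) *
      (2 + z.d * z.vv - z.d * u * H)) = 2 * z.S * ((u - 1) * ((z.S + z.d) / 2) *
      (2 + z.d * z.vv - z.d * u * H)) := by rw [e]
  linarith

theorem Piece.Pt.upper_E {u t p τ u' ω : ℝ} {q hi uu : Ex} (hE : P.UpperE q hi uu) (h : z.On u t)
    (c : z.Coord u t p τ u' ω) (hq : 1 / chH z.d z.S u z.vv t ≤ z.d * z.val q)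
    (hu : z.val uu ≤ u) : p < z.val hi := by
  obtain ⟨hS0, hb, hv, hav, hQ, hY, huh⟩ := z.basic h
  have hg := z.gap h
  have k0 := z.pos hE.pos
  have k1 := z.pos hE.bound
  have hd := z.d_pos
  have hS1 := z.S_lt
  have hd4 := h.d_top
  have hd3 := h.d_le
  have hu1 := h.facts.u_lt
  have hp := c.p_pos
  have hH := h.facts.H_pos
  have e := c.p_eq
  rw [div_le_iff₀ hH] at hq
  have hA := z.val_cA
  simp only [Piece.Pt.val] at hA
  simp only [Piece.Pt.val, Piece.Pt.vv, cDel, cB, cQ, ex_mul, ex_sub, ex_add, Ex.val, hA]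
    at k0 k1 hS0 hb hv hav hQ hY huh hg hq hu hH e ⊢
  push_cast at k0 k1
  generalize P.v.val z.o z.S z.d z.s = v at *
  generalize q.val z.o z.S z.d z.s = Q at *
  generalize hi.val z.o z.S z.d z.s = X at *
  generalize uu.val z.o z.S z.d z.s = U at *
  generalize chH z.d z.S u v t = H at *
  generalize z.S = S at *
  generalize z.d = d at *
  set b := (S + d) / 2 with hb'
  set del := b * ((1 + d * v) * Q + Q - U) - (Q - U) * (1 + d * v) with hdel
  replace k0 : 0 < del := by simp only [hdel, hb']; linarith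
  replace k1 : 0 < X * S * del - 4 * (1 - (S - d) / 2 * v) := by
    simp only [hdel, hb']; linarith
  have hC : b * (2 + d * v) - (1 + d * v) ≤ 0 := by
    have := mul_nonneg (mul_pos hd hv).le (show 0 ≤ 1 - b by linarith)
    linarith
  have hQb : 0 ≤ 1 + d * v - b := by linarith [mul_pos hd hv]
  set δ := b * (2 + d * v - u * (d * H)) - (1 - u * (d * H)) * (1 + d * v) with hδ
  have dlow : d * H * del ≤ δ := by
    have a := mul_nonneg_of_nonpos_of_nonpos hC (show 1 - Q * (d * H) ≤ 0 by linarith)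
    have b' := mul_nonneg (mul_nonneg (mul_pos hd hH).le (show 0 ≤ u - U by linarith)) hQb
    simp only [hdel, hδ]
    linarith
  have hδ0 : 0 < δ := lt_of_lt_of_le (mul_pos (mul_pos hd hH) k0) dlow
  have s1 : (1 - u) * S * δ < d * (1 - (S - d) / 2 * v) * (1 - u * (d * H)) := by
    simp only [hδ, hb'] at hg ⊢
    linarith
  have s2 := mul_lt_mul_of_pos_left s1 hQ
  have hbY : 0 < b * (2 + d * v - d * u * H) := mul_pos hb hY
  have s3 : ((2 + d * v) * b - S * u * (1 + d * v)) * δ <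
      d * (1 - (S - d) / 2 * v) * (b * (2 + d * v - d * u * H)) := by
    simp only [hδ, hb'] at s2 ⊢
    linarith
  have s4 : p * S * δ < 4 * (d * H) * (1 - (S - d) / 2 * v) := by
    refine lt_of_mul_lt_mul_right (a := b * (2 + d * v - d * u * H)) ?_ hbY.le
    have a := mul_lt_mul_of_pos_left s3 (mul_pos (show (0 : ℝ) < 4 by norm_num) hH)
    have e' : p * S * δ * (b * (2 + d * v - d * u * H)) =
        4 * H * ((2 + d * v) * b - S * u * (1 + d * v)) * δ := by rw [← e]; ring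
    linarith
  have s5 := mul_le_mul_of_nonneg_left dlow (mul_pos hp hS0).le
  have s6 : p * S * del < X * S * del := by
    have : p * S * del < 4 * (1 - (S - d) / 2 * v) := by
      refine lt_of_mul_lt_mul_right (a := d * H) ?_ (mul_pos hd hH).le
      linarith
    linarith
  refine lt_of_mul_lt_mul_right (a := S * del) ?_ (mul_pos hS0 k0).le
  linarith

theorem Piece.Pt.em_le {u t : ℝ} {q em : Ex} (hE : P.EmOk q em) (h : z.On u t)
    (hq : 1 / chH z.d z.S u z.vv t ≤ z.d * z.val q) : 1 - z.val em ≤ u := by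
  obtain ⟨hS0, hb, hv, hav, hQ, hY, huh⟩ := z.basic h
  have hg := z.gap h
  have k0 := z.pos hE.pos
  have k1 := z.pos hE.bound
  have k2 := z.pos hE.eps
  have hd := z.d_pos
  have hS1 := z.S_lt
  have hd4 := h.d_top
  have hd3 := h.d_le
  have hu0 := h.u_low
  have hu1 := h.facts.u_lt
  have hH := h.facts.H_pos
  have hh := h.facts.h_lt
  rw [div_le_iff₀ hH] at hq
  have hA := z.val_cA
  simp only [Piece.Pt.val] at hA
  simp only [Piece.Pt.val, Piece.Pt.vv, cDel, cB, cQ, ex_mul, ex_sub, ex_add, Ex.val, hA]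
    at k0 k1 k2 hS0 hb hv hav hQ hY huh hg hq hH hh ⊢
  push_cast at k0 k1
  generalize P.v.val z.o z.S z.d z.s = v at *
  generalize q.val z.o z.S z.d z.s = Q at *
  generalize em.val z.o z.S z.d z.s = m at *
  generalize chH z.d z.S u v t = H at *
  generalize z.S = S at *
  generalize z.d = d at *
  set b := (S + d) / 2 with hb'
  set del := b * ((1 + d * v) * Q + Q - 39 / 40) - (Q - 39 / 40) * (1 + d * v) with hdel
  replace k0 : 0 < del := by simp only [hdel, hb']; linarith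
  replace k1 : 0 < m * (S * del - d * (1 - (S - d) / 2 * v)) -
      d * (1 - (S - d) / 2 * v) * (Q - 1) := by
    simp only [hdel, hb']; linarith
  have hC : b * (2 + d * v) - (1 + d * v) ≤ 0 := by
    have := mul_nonneg (mul_pos hd hv).le (show 0 ≤ 1 - b by linarith)
    linarith
  have hQb : 0 ≤ 1 + d * v - b := by linarith [mul_pos hd hv]
  set δ := b * (2 + d * v - u * (d * H)) - (1 - u * (d * H)) * (1 + d * v) with hδ
  have hdH := mul_pos hd hH
  have dlow : d * H * del ≤ δ := by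
    have a := mul_nonneg_of_nonpos_of_nonpos hC (show 1 - Q * (d * H) ≤ 0 by linarith)
    have b' := mul_nonneg (mul_nonneg hdH.le (show 0 ≤ u - 39 / 40 by linarith)) hQb
    simp only [hdel, hδ]
    linarith
  have s1 : (1 - u) * S * δ < d * (1 - (S - d) / 2 * v) * (1 - u * (d * H)) := by
    simp only [hδ, hb'] at hg ⊢
    linarith
  have hQ1 : 1 < Q := lt_of_mul_lt_mul_right (a := d * H) (by linarith) hdH.le
  set Z := d * (1 - (S - d) / 2 * v) with hZ
  have hZ0 : 0 < Z := mul_pos hd hav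
  have s2 := mul_le_mul_of_nonneg_left dlow (mul_nonneg (show 0 ≤ 1 - u by linarith) hS0.le)
  have s3 := mul_le_mul_of_nonneg_left (show 1 - u * (d * H) ≤ d * H * (Q - u) by linarith) hZ0.le
  have s4 : (1 - u) * S * del < Z * (Q - u) :=
    lt_of_mul_lt_mul_right (a := d * H) (by linarith) hdH.le
  have hpos : 0 < S * del - Z := by
    have := mul_pos hZ0 (show 0 < Q - 1 by linarith)
    exact pos_of_mul_pos_right (a := m) (by linarith) k2.le
  by_contra hn
  have := mul_lt_mul_of_pos_right (show m < 1 - u by linarith [not_le.1 hn]) hpos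
  linarith

theorem Piece.Pt.llg {L : Group} {bu : Box} {u t : ℝ} (hB : P.Base L bu) (h : z.On u t) :
    0 ≤ llgAt ((z.S - z.d) / 2) z.d z.vv u (z.S / (1 - z.S)) (chH z.d z.S u z.vv t) := by
  obtain ⟨hS0, hb, hv, hav, hQ, hY, huh⟩ := z.basic h
  obtain ⟨r1, r2, rk⟩ := z.ratio_mem hB.lines hB.ok.kl
  have hS1 : 0 < 1 - z.S := by linarith [z.S_lt]
  have hS2 : 0 < 2 - z.S := by linarith
  have hd := z.d_pos
  have k0 := z.pos hB.ok.kl
  have hden := mul_pos hb hS2
  have hn : z.S * (1 + (1 - (z.S - z.d) / 2) * z.vv) + 39 / 160 * ((z.S + z.d) / 2 * (2 - z.S)) ≤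
      chH z.d z.S u z.vv t * ((z.S + z.d) / 2 * (2 - z.S)) := by
    rw [z.H_mul u t hden]
    have := mul_le_mul_of_nonneg_right (show 39 / 160 ≤ u * t from le_trans (by norm_num)
      (mul_le_mul h.u_low h.slope.le (by norm_num) h.facts.u_pos.le)) hden.le
    linarith
  have m0 : bu.s₀.Mem u := by
    rw [hB.bu_eq]
    refine ⟨?_, ?_⟩ <;> push_cast <;> linarith [h.u_low, h.facts.u_lt]
  have hbu : ∀ {e : Ex}, PosBox bu e → 0 < e.val u z.S z.d z.s := fun {e} he =>
    he u z.S z.d z.s m0 (by rw [hB.bu_eq]; exact z.mem₁) (by rw [hB.bu_eq]; exact z.mem₂)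
      (by rw [hB.bu_eq]; exact z.mem₃)
  have ray : ∀ k : Ex, 0 < z.val k → k.val u z.S z.d z.s = z.val k →
      P.v.val u z.S z.d z.s = z.vv →
      PosBox bu (Ex.x₂ * cL0 k P.v + cL1 k P.v) →
      PosBox bu (cDen * cL0 k P.v + cNum P.v * cL1 k P.v) →
      0 < llgAt ((z.S - z.d) / 2) z.d z.vv u (z.val k) (chH z.d z.S u z.vv t) := by
    intro k hk ek ev hT hL
    have T := hbu hT
    have B := hbu hL
    have hA : cA.val u z.S z.d z.s = (z.S - z.d) / 2 := by
      simp only [cA, ex_mul, ex_sub, Ex.val]; push_cast; ring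
    have e0 : (cL0 k P.v).val u z.S z.d z.s =
        llgAt ((z.S - z.d) / 2) z.d z.vv u (z.val k) 0 := by
      simp only [cL0, llgAt]
      rw [val_eLLG cA Ex.x₂ P.v _ _ _ _ u z.S z.d z.s 0 (0 / z.val k) 0 (z.val k * u)
        (by simp only [Ex.val]; push_cast; simp) (by simp only [ex_mul, Ex.val, ek])]
      simp only [hA, ev, ex_mul, ex_add, ex_sub, Ex.val]
      push_cast
      ring_nf
    have e1 : (cL1 k P.v).val u z.S z.d z.s =
        llgAt ((z.S - z.d) / 2) z.d z.vv u (z.val k) 1 -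
          llgAt ((z.S - z.d) / 2) z.d z.vv u (z.val k) 0 := by
      rw [← e0]
      simp only [cL1, llgAt, ex_sub]
      rw [val_eLLG cA Ex.x₂ P.v _ _ _ _ u z.S z.d z.s 0 (1 / z.val k) 0 (z.val k * u)
        (by simp only [Ex.val]; field_simp) (by simp only [ex_mul, Ex.val, ek])]
      simp only [hA, ev, ex_mul, ex_add, ex_sub, Ex.val]
      push_cast
      ring_nf
    simp only [ex_add, ex_mul, cDen, cNum, cB, hA, ev, Ex.val, ex_sub, e0, e1] at T B
    push_cast at B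
    rw [llgAt_line hk.ne']
    exact line_pos hden hd hn h.facts.h_lt (by linarith) T
  have A0 := ray P.kl k0 (hB.lines.free.1 z.S z.d z.s u z.o) (hB.lines.free.2.1 z.S z.d z.s u z.o)
    hB.lines.topA hB.lines.lowA
  have kρ : z.val (P.rho * P.kl) = z.val P.rho * z.val P.kl := rfl
  have hρ : 1 ≤ z.val P.rho := le_trans r1 r2
  have k1 : 0 < z.val P.rho * z.val P.kl := mul_pos (by linarith) k0
  have A1 := ray (P.rho * P.kl) (kρ ▸ k1)
    (by
      show P.rho.val u z.S z.d z.s * P.kl.val u z.S z.d z.s = _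
      rw [hB.lines.free.2.2 z.S z.d z.s u z.o, hB.lines.free.1 z.S z.d z.s u z.o]; rfl)
    (hB.lines.free.2.1 z.S z.d z.s u z.o) hB.lines.topB hB.lines.lowB
  rw [kρ] at A1
  have hk := mul_le_mul_of_nonneg_right r1 k0.le
  have hk' := mul_le_mul_of_nonneg_right r2 k0.le
  rw [rk] at hk hk'
  rw [one_mul] at hk
  rcases eq_or_lt_of_le hk with e | hlt
  · rw [← e]; exact A0.le
  have e := llgAt_ray (a := (z.S - z.d) / 2) (d := z.d) (v := z.vv) (u := u) k0.ne' k1.ne'
    (lt_trans k0 hlt).ne' (chH z.d z.S u z.vv t)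
  refine (pos_of_mul_pos_right (a := z.val P.rho * z.val P.kl - z.val P.kl) ?_ (by linarith)).le
  rw [e]
  have a := mul_nonneg (show 0 ≤ z.val P.rho * z.val P.kl - z.S / (1 - z.S) by linarith) A0.le
  have b := mul_pos (show 0 < z.S / (1 - z.S) - z.val P.kl by linarith) A1
  linarith

theorem Piece.Pt.signs_in {L U : Group} {bu : Box} {u t p τ u' ω : ℝ} (hB : P.Base L bu)
    (hU : P.Slab L U) (h : z.On u t) (c : z.Coord u t p τ u' ω) (ht : τ ≤ z.val L.s₁.t)
    (hu : 39 / 40 ≤ z.val U.u₀ ∧ z.val U.u₀ ≤ u) (hp : p ≤ z.val U.p)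
    (h0 : z.d ≤ z.val U.s₀.t ∧ (z.val U.s₀.t ≤ z.val L.s₁.t ∨ z.val U.s₀.t ≤ z.val P.tT))
    (h1 : z.d ≤ z.val U.s₁.t ∧ (z.val U.s₁.t ≤ z.val L.s₁.t ∨ z.val U.s₁.t ≤ z.val P.tT))
    (a0 : z.val U.s₀.t ≤ τ) (a1 : τ ≤ z.val U.s₁.t) :
    ChartSigns z.d z.S u z.vv t := by
  have e0 : z.val L.s₀.t = z.d := by rw [hB.s₀_eq]; rfl
  have eu : z.val L.u₀ = 39 / 40 := by
    rw [hB.u₀_eq]; simp only [Piece.Pt.val, Ex.val]; norm_num
  have eρ : z.val L.u₁ = z.val P.rho := by rw [hB.u₁_eq]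
  have eρ' : z.val U.u₁ = z.val P.rho := by rw [hU.u₁_eq]
  obtain ⟨r1, r2, rk⟩ := z.ratio_mem hB.lines hB.ok.kl
  have hρ : (39 : ℝ) / 40 ≤ z.val P.rho := le_trans (by norm_num) (le_trans r1 r2)
  have hle : z.val U.u₀ ≤ z.val P.rho := le_trans (le_trans hu.2 c.u_ge) c.u_le
  have hdt : z.d ≤ z.val L.s₁.t := le_trans c.t_ge.le ht
  have iL : z.EndIn L L := by
    refine ⟨⟨le_rfl, .inl (e0 ▸ hdt), le_rfl, ?_⟩, ⟨le_rfl, .inl (e0 ▸ hdt), ?_, le_rfl⟩,
      ⟨e0 ▸ hdt, .inl le_rfl, le_rfl, ?_⟩, ⟨e0 ▸ hdt, .inl le_rfl, ?_, le_rfl⟩⟩ <;>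
    rw [eu, eρ] <;> exact hρ
  have iU : z.EndIn L U :=
    ⟨⟨e0 ▸ h0.1, h0.2, eu ▸ hu.1, eρ ▸ hle⟩, ⟨e0 ▸ h0.1, h0.2, by rw [eu, eρ']; exact hρ,
      by rw [eρ, eρ']⟩, ⟨e0 ▸ h1.1, h1.2, eu ▸ hu.1, eρ ▸ hle⟩,
      ⟨e0 ▸ h1.1, h1.2, by rw [eu, eρ']; exact hρ, by rw [eρ, eρ']⟩⟩
  obtain ⟨gG, gM, gA⟩ := z.signs hB.ok hB.wide hB.low hU.up hU.sagL hU.sagU hB.p_eq
    ⟨hB.w₀, hB.w₁⟩ ⟨hU.w₀, hU.w₁⟩ iL iU
    ⟨e0 ▸ c.t_ge.le, ht, eu ▸ (le_trans h.u_low c.u_ge), eρ ▸ c.u_le, c.w_ge, c.w_le⟩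
    ⟨a0, a1, le_trans hu.2 c.u_ge, eρ' ▸ c.u_le, c.w_ge, c.w_le⟩ c.p_low.le hp
  obtain ⟨hM, hE, hA, hS'⟩ := z.range (L := L)
    ⟨e0 ▸ c.t_ge.le, .inl ht, eu ▸ (le_trans h.u_low c.u_ge), eρ ▸ c.u_le⟩ hB.ok hB.wide
  obtain ⟨hS0, hb, hv, hav, hQ, hY, huh⟩ := z.basic h
  have hS1 : 0 < 1 - z.S := by linarith [z.S_lt]
  have hWp : 0 < chW z.d z.S u z.vv t := mul_pos (div_pos hS1 hS0) h.facts.H_pos
  have hll := z.llg hB h
  have eW := c.eW
  have hp0 := c.p_pos
  have hg : 0 < chG z.d z.S u z.vv t := pos_of_mul_pos_left (by rw [eW]; exact hp0) hWp.le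
  have he0 : z.chart.e τ u' < 0 := by
    have := pos_of_mul_pos_right hM (mul_pos hS1 hQ).le
    linarith
  have hL' := LLG_at (a := (z.S - z.d) / 2) (d := z.d) (v := z.vv)
    (g := chG z.d z.S u z.vv t) (W1 := chW1 z.d z.S u z.vv t) (k := z.S / (1 - z.S)) (u := u)
    (H := chH z.d z.S u z.vv t) (div_pos hS0 hS1).ne'
    (show chW z.d z.S u z.vv t = _ by rw [chW]; field_simp)
    (show chR z.S u = _ by rw [chR]; ring)
  unfold ChartSigns Signs
  refine ⟨?_, hWp, ?_, ?_, ?_, hL' ▸ hll⟩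
  · rw [fGG_chart (a := (z.S - z.d) / 2) (d := z.d) (v := z.vv) (p := p) (e := z.chart.e τ u')
      (κ := z.chart.κ τ u') (ω := ω) (h := eW)]
    exact gG
  · refine neg_of_mul_neg_right (a := chG z.d z.S u z.vv t) ?_ hg.le
    rw [c.eE]
    exact mul_neg_of_pos_of_neg hp0 he0
  · refine pos_of_mul_pos_right (a := chG z.d z.S u z.vv t ^ 2) ?_ (sq_nonneg _)
    rw [TArrow]
    have tA := fTA_chart (a := (z.S - z.d) / 2) (d := z.d) (v := z.vv) (R := chR z.S u)
      (h := eW) (he := c.eE) (hk := c.eK) (hw := c.eW1)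
    have tG := fGG_chart (a := (z.S - z.d) / 2) (d := z.d) (v := z.vv) (W1 := chW1 z.d z.S u z.vv t)
      (R := chR z.S u) (E := eVal z.d z.vv (chW z.d z.S u z.vv t) (chR z.S u))
      (K := kVal z.d (chW z.d z.S u z.vv t) (chR z.S u)) (e := z.chart.e τ u')
      (κ := z.chart.κ τ u') (ω := ω) (h := eW)
    have tE := fEG_chart (a := (z.S - z.d) / 2) (d := z.d) (v := z.vv)
      (W1 := chW1 z.d z.S u z.vv t)
      (R := chR z.S u) (K := kVal z.d (chW z.d z.S u z.vv t) (chR z.S u))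
      (κ := z.chart.κ τ u') (ω := ω) (h := eW) (he := c.eE)
    have tM := fME_chart (a := (z.S - z.d) / 2) (d := z.d) (v := z.vv)
      (h := eW) (he := c.eE) (hk := c.eK) (hw := c.eW1)
    have eE := c.eE
    rw [tA, tG, tE, TMM]
    simp only [Piece.Pt.arrow] at gA
    generalize chG z.d z.S u z.vv t = g at *
    generalize chW z.d z.S u z.vv t = W at *
    generalize eVal z.d z.vv W (chR z.S u) = E at *
    generalize TME _ _ _ _ _ _ _ _ = T at *
    have := mul_pos (mul_pos hp0 hp0) gA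
    have q1 : g ^ 2 * (E * W) = p * (p * z.chart.e τ u') := by
      rw [← eE, ← eW]; ring
    have q2 : (g * T) ^ 2 = p ^ 2 * (fME ((z.S - z.d) / 2) z.d z.vv).at p (z.chart.e τ u')
        (z.chart.κ τ u') ω ^ 2 := by rw [tM]; ring
    generalize (fTA ((z.S - z.d) / 2) z.d z.vv).at p (z.chart.e τ u') (z.chart.κ τ u') ω = A at *
    generalize (fGG ((z.S - z.d) / 2) z.d z.vv).at p (z.chart.e τ u') (z.chart.κ τ u') ω = G at *
    generalize (fEG ((z.S - z.d) / 2) z.d z.vv).at p (z.chart.e τ u') (z.chart.κ τ u') ω = F at *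
    linear_combination this + (4 * A * G - 625 * z.d ^ 2 * z.vv ^ 2 * (1 + z.d * z.vv) * F ^ 2) *
      ((1 - (2 * ((z.S - z.d) / 2)) - z.d) * (1 + z.d * z.vv)) * q1 +
      16 * (1 + z.d * z.vv) * G * q2
  · rw [fMG_chart (h := eW) (he := c.eE) (hk := c.eK) (hw := c.eW1)]
    exact gM.le

end

end Vale.Agent.P100.Calib.Closed.End
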