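import Vale.Agent.P100.Calib.SlabRatExpr

/-!
# Exit numerators at `v = A / W`, `t = n / G`
-/

namespace Vale.Agent.P100.Calib.Band

open BoxPos

local instance exitRatAdd : Add Ex := ⟨Ex.add⟩
local instance exitRatSub : Sub Ex := ⟨Ex.sub⟩
local instance exitRatMul : Mul Ex := ⟨Ex.mul⟩

/-- The exit numerator at `v = A / W`, `t = n / G`, `g = gW / W`. -/
noncomputable def exitPH (S d u A W gW n G : ℝ) : ℝ :=
  let B := bandB S d;
  let al := (S - d) / 2;
  let K := S * (W + (1 - al) * A) * G + B * u * n * W;
  let D := B * (2 * W + d * A) * G - d * u * K;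
  let Q := (S + d) * (2 * W + d * A) - 2 * S * u * (W + d * A);
  W * (W + d * A) * (Q * K - 2 * S * (W - al * A) * D) -
    gW * ((B * G * W - u * d * K) * Q + 2 * S * (u - 1) * ((S + d) / 2) * D * W)

/-- The slope condition at `v = A / W`, `t = n / G`, `g = gW / W`. -/
noncomputable def slopePH (S d u A W gW n G : ℝ) : ℝ :=
  let B := bandB S d;
  let K := S * (W + (1 - (S - d) / 2) * A) * G + B * u * n * W;
  let D := B * (2 * W + d * A) * G - d * u * K;
  W * (W + d * A) * D - d * u * gW * (B * G * W - u * d * K)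

theorem exitPH_eq {S d u v t A W g gW n G : ℝ} (hA : A = v * W) (hg : gW = g * W)
    (hn : n = t * G) : exitPH S d u A W gW n G = W ^ 3 * G * exitP S d u v t W g := by
  subst hA hg hn
  simp only [exitPH, exitP, bandK, bandD, bandQ]
  generalize bandB S d = B
  ring

theorem slopePH_eq {S d u v t A W g gW n G : ℝ} (hA : A = v * W) (hg : gW = g * W)
    (hn : n = t * G) : slopePH S d u A W gW n G =
      W ^ 2 * G * (W * (1 + d * v) * denV S d u v t -
        d * u * g * (bandB S d - u * d * bandK S d u v t 0 0)) := by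
  subst hA hg hn
  simp only [slopePH, denV, bandK, bandD]
  generalize bandB S d = B
  ring

/-- `exitPH`. -/
def eExitPH (A W gW n G : Ex) : Ex :=
  let B := eB
  let al := eA
  let K := eS * (W + (eC 1 - al) * A) * G + B * eU * n * W
  let D := B * (eC 2 * W + eD * A) * G - eD * eU * K
  let Q := (eS + eD) * (eC 2 * W + eD * A) - eC 2 * eS * eU * (W + eD * A)
  W * (W + eD * A) * (Q * K - eC 2 * eS * (W - al * A) * D) -
    gW * ((B * G * W - eU * eD * K) * Q +
      eC 2 * eS * (eU - eC 1) * (eC 1 2 * (eS + eD)) * D * W)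

/-- `slopePH`. -/
def eSlopePH (A W gW n G : Ex) : Ex :=
  let B := eB
  let K := eS * (W + (eC 1 - eA) * A) * G + B * eU * n * W
  let D := B * (eC 2 * W + eD * A) * G - eD * eU * K
  W * (W + eD * A) * D - eD * eU * gW * (B * G * W - eU * eD * K)

theorem val_addP (a b : Ex) (u v d S : ℝ) :
    (a + b).val u v d S = a.val u v d S + b.val u v d S := rfl

theorem val_subP (a b : Ex) (u v d S : ℝ) :
    (a - b).val u v d S = a.val u v d S - b.val u v d S := rfl

theorem val_mulP (a b : Ex) (u v d S : ℝ) :
    (a * b).val u v d S = a.val u v d S * b.val u v d S := rfl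

theorem val_exitPH (A W gW n G : Ex) (u v d S : ℝ) :
    (eExitPH A W gW n G).val u v d S = exitPH S d u (A.val u v d S) (W.val u v d S)
      (gW.val u v d S) (n.val u v d S) (G.val u v d S) := by
  obtain ⟨hB, hA, -⟩ := val_rat_parts u v d S
  simp only [eExitPH, val_addP, val_subP, val_mulP, Ex.val, hB, hA, exitPH]
  push_cast
  ring

theorem val_slopePH (A W gW n G : Ex) (u v d S : ℝ) :
    (eSlopePH A W gW n G).val u v d S = slopePH S d u (A.val u v d S) (W.val u v d S)
      (gW.val u v d S) (n.val u v d S) (G.val u v d S) := by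
  obtain ⟨hB, hA, -⟩ := val_rat_parts u v d S
  simp only [eSlopePH, val_addP, val_subP, val_mulP, Ex.val, hB, hA, slopePH]
  push_cast
  ring

end Vale.Agent.P100.Calib.Band
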