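import Vale.Agent.P100.Calib.SlabRungChecks
import Vale.Agent.P100.Calib.SlabSlopeExpr

/-!
# Certificates of the exit curves from `u = 19/20`
-/

namespace Vale.Agent.P100.Calib.Band

open BoxPos

/-- The packing. -/
def farExitCfg : Cfg := ⟨300, ⟨10, 0, 7, 4⟩⟩

/-- A coefficient. -/
def lowFarA : Ex := Ex.add (eC 1205 1000) (Ex.mul (eC 62 1000) eD)

/-- A coefficient. -/
def lowFarB : Ex := Ex.add (eC 586 1000) (Ex.mul (eC (-1622) 1000) eD)

/-- A coefficient. -/
def lowFarK : Ex := Ex.add (eC 251 1000) (Ex.mul (eC 944 1000) eD)

/-- A numerator. -/
def lowFarExit : Ex := eExitG lowFarA lowFarB lowFarK (eC 1085 1000) cA₁ cB₁ (eC 0)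

/-- A numerator. -/
def lowFarSlope : Ex := eSlopeB lowFarA lowFarB lowFarK (eC 1085 1000) cA₁ cB₁ (eC 0)

theorem low_far_exit_0_0 : lowFarExit.check farExitCfg (rBox 0 600 331 0 61) = true := by
  decide +kernel

theorem low_far_slope_0_0 : lowFarSlope.check farExitCfg (rBox 0 600 331 0 61) = true := by
  decide +kernel

theorem low_far_exit_600_0 : lowFarExit.check farExitCfg (rBox 600 800 331 0 61) = true := by
  decide +kernel

theorem low_far_slope_600_0 : lowFarSlope.check farExitCfg (rBox 600 800 331 0 61) = true := by
  decide +kernel

theorem low_far_exit_800_0 : lowFarExit.check farExitCfg (rBox 800 900 331 0 61) = true := by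
  decide +kernel

theorem low_far_slope_800_0 : lowFarSlope.check farExitCfg (rBox 800 900 331 0 61) = true := by
  decide +kernel

theorem low_far_exit_900_0 : lowFarExit.check farExitCfg (rBox 900 940 331 0 61) = true := by
  decide +kernel

theorem low_far_slope_900_0 : lowFarSlope.check farExitCfg (rBox 900 940 331 0 61) = true := by
  decide +kernel

theorem low_far_exit_940_0 : lowFarExit.check farExitCfg (rBox 940 951 331 0 61) = true := by
  decide +kernel

theorem low_far_slope_940_0 : lowFarSlope.check farExitCfg (rBox 940 951 331 0 61) = true := by
  decide +kernel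

/-- A coefficient. -/
def midFarA : Ex := Ex.add (eC 1408 1000) (Ex.mul (eC (-817) 1000) eD)

/-- A coefficient. -/
def midFarB : Ex := Ex.add (eC 620 1000) (Ex.mul (eC 313 1000) eD)

/-- A coefficient. -/
def midFarK : Ex := Ex.add (eC 103 1000) (Ex.mul (eC 70 1000) eD)

/-- A numerator. -/
def midFarExit : Ex := eExitG midFarA midFarB midFarK (eC 995 1000) cA₁ cB₁ (eC 0)

/-- A numerator. -/
def midFarSlope : Ex := eSlopeB midFarA midFarB midFarK (eC 995 1000) cA₁ cB₁ (eC 0)

theorem mid_far_exit_0_60 : midFarExit.check farExitCfg (rBox 0 600 331 60 121) = true := by
  decide +kernel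

theorem mid_far_slope_0_60 : midFarSlope.check farExitCfg (rBox 0 600 331 60 121) = true := by
  decide +kernel

theorem mid_far_exit_600_60 : midFarExit.check farExitCfg (rBox 600 800 331 60 121) = true := by
  decide +kernel

theorem mid_far_slope_600_60 : midFarSlope.check farExitCfg (rBox 600 800 331 60 121) = true := by
  decide +kernel

theorem mid_far_exit_800_60 : midFarExit.check farExitCfg (rBox 800 900 331 60 121) = true := by
  decide +kernel

theorem mid_far_slope_800_60 : midFarSlope.check farExitCfg (rBox 800 900 331 60 121) = true := by
  decide +kernel

theorem mid_far_exit_900_60 : midFarExit.check farExitCfg (rBox 900 940 331 60 121) = true := by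
  decide +kernel

theorem mid_far_slope_900_60 : midFarSlope.check farExitCfg (rBox 900 940 331 60 121) = true := by
  decide +kernel

theorem mid_far_exit_940_60 : midFarExit.check farExitCfg (rBox 940 951 331 60 121) = true := by
  decide +kernel

theorem mid_far_slope_940_60 : midFarSlope.check farExitCfg (rBox 940 951 331 60 121) = true := by
  decide +kernel

/-- A coefficient. -/
def topFarA : Ex := Ex.add (eC 1480 1000) (Ex.mul (eC (-812) 1000) eD)

/-- A coefficient. -/
def topFarB : Ex := Ex.add (eC 787 1000) (Ex.mul (eC (-773) 1000) eD)

/-- A coefficient. -/
def topFarK : Ex := Ex.add (eC 70 1000) (Ex.mul (eC 80 1000) eD)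

/-- A numerator. -/
def topFarExit : Ex := eExitG topFarA topFarB topFarK (eC 980 1000) cA₁ cB₁ (eC 0)

/-- A numerator. -/
def topFarSlope : Ex := eSlopeB topFarA topFarB topFarK (eC 980 1000) cA₁ cB₁ (eC 0)

theorem top_far_exit_0_120 : topFarExit.check farExitCfg (rBox 0 600 331 120 150) = true := by
  decide +kernel

theorem top_far_slope_0_120 : topFarSlope.check farExitCfg (rBox 0 600 331 120 150) = true := by
  decide +kernel

theorem top_far_exit_0_150 : topFarExit.check farExitCfg (rBox 0 600 331 150 175) = true := by
  decide +kernel

theorem top_far_slope_0_150 : topFarSlope.check farExitCfg (rBox 0 600 331 150 175) = true := by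
  decide +kernel

theorem top_far_exit_0_175 : topFarExit.check farExitCfg (rBox 0 600 331 175 201) = true := by
  decide +kernel

theorem top_far_slope_0_175 : topFarSlope.check farExitCfg (rBox 0 600 331 175 201) = true := by
  decide +kernel

theorem top_far_exit_600_120 : topFarExit.check farExitCfg (rBox 600 800 331 120 150) = true := by
  decide +kernel

theorem top_far_slope_600_120 : topFarSlope.check farExitCfg (rBox 600 800 331 120 150) = true := by
  decide +kernel

theorem top_far_exit_600_150 : topFarExit.check farExitCfg (rBox 600 800 331 150 175) = true := by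
  decide +kernel

theorem top_far_slope_600_150 : topFarSlope.check farExitCfg (rBox 600 800 331 150 175) = true := by
  decide +kernel

theorem top_far_exit_600_175 : topFarExit.check farExitCfg (rBox 600 800 331 175 201) = true := by
  decide +kernel

theorem top_far_slope_600_175 : topFarSlope.check farExitCfg (rBox 600 800 331 175 201) = true := by
  decide +kernel

theorem top_far_exit_800_120 : topFarExit.check farExitCfg (rBox 800 900 331 120 150) = true := by
  decide +kernel

theorem top_far_slope_800_120 : topFarSlope.check farExitCfg (rBox 800 900 331 120 150) = true := by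
  decide +kernel

theorem top_far_exit_800_150 : topFarExit.check farExitCfg (rBox 800 900 331 150 175) = true := by
  decide +kernel

theorem top_far_slope_800_150 : topFarSlope.check farExitCfg (rBox 800 900 331 150 175) = true := by
  decide +kernel

theorem top_far_exit_800_175 : topFarExit.check farExitCfg (rBox 800 900 331 175 201) = true := by
  decide +kernel

theorem top_far_slope_800_175 : topFarSlope.check farExitCfg (rBox 800 900 331 175 201) = true := by
  decide +kernel

theorem top_far_exit_900_120 : topFarExit.check farExitCfg (rBox 900 920 331 120 150) = true := by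
  decide +kernel

theorem top_far_slope_900_120 : topFarSlope.check farExitCfg (rBox 900 920 331 120 150) = true := by
  decide +kernel

theorem top_far_exit_900_150 : topFarExit.check farExitCfg (rBox 900 920 331 150 175) = true := by
  decide +kernel

theorem top_far_slope_900_150 : topFarSlope.check farExitCfg (rBox 900 920 331 150 175) = true := by
  decide +kernel

theorem top_far_exit_900_175 : topFarExit.check farExitCfg (rBox 900 920 331 175 201) = true := by
  decide +kernel

theorem top_far_slope_900_175 : topFarSlope.check farExitCfg (rBox 900 920 331 175 201) = true := by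
  decide +kernel

theorem top_far_exit_920_120 : topFarExit.check farExitCfg (rBox 920 940 331 120 150) = true := by
  decide +kernel

theorem top_far_slope_920_120 : topFarSlope.check farExitCfg (rBox 920 940 331 120 150) = true := by
  decide +kernel

theorem top_far_exit_920_150 : topFarExit.check farExitCfg (rBox 920 940 331 150 175) = true := by
  decide +kernel

theorem top_far_slope_920_150 : topFarSlope.check farExitCfg (rBox 920 940 331 150 175) = true := by
  decide +kernel

theorem top_far_exit_920_175 : topFarExit.check farExitCfg (rBox 920 940 331 175 201) = true := by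
  decide +kernel

theorem top_far_slope_920_175 : topFarSlope.check farExitCfg (rBox 920 940 331 175 201) = true := by
  decide +kernel

theorem top_far_exit_940_120 : topFarExit.check farExitCfg (rBox 940 951 331 120 150) = true := by
  decide +kernel

theorem top_far_slope_940_120 : topFarSlope.check farExitCfg (rBox 940 951 331 120 150) = true := by
  decide +kernel

theorem top_far_exit_940_150 : topFarExit.check farExitCfg (rBox 940 951 331 150 175) = true := by
  decide +kernel

theorem top_far_slope_940_150 : topFarSlope.check farExitCfg (rBox 940 951 331 150 175) = true := by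
  decide +kernel

theorem top_far_exit_940_175 : topFarExit.check farExitCfg (rBox 940 951 331 175 201) = true := by
  decide +kernel

theorem top_far_slope_940_175 : topFarSlope.check farExitCfg (rBox 940 951 331 175 201) = true := by
  decide +kernel

end Vale.Agent.P100.Calib.Band
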