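import Vale.Agent.P100.Calib.SlabTailExit

/-!
# A forward upper band tilted in `v`

`h < hc r + d u (T u + b v)` on `[u₀, u₁]` from an earlier upper band `U₀` on `u ≤ u₀`, if `upperV > 0`
at the points of the band with `ev > 0` and `dv > 0`.
-/

namespace Vale.Agent.P100.Calib.Band

open Vale.Agent.P100.Bubble Chart

variable {N p q : ℝ} {S : Set ℝ} {R x y s dx dy : ℝ → ℝ}

/-- The numerator of the upper rung at `t`, with `b` the tilt and `t'` the slope of the band. -/
noncomputable def upperV (S d u v t b t' : ℝ) : ℝ :=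
  -lieT S d u v t 0 0 + bandB S d * b * u * exitP S d u v t 1 0 +
    bandB S d * u * t' * lieE S d u v t 1

theorem exitM_upper_eq (S d u v t b t' : ℝ) :
    exitM S d u v t (-(d * b) * u) (d * u * t') 1 = -(d * upperV S d u v t b t') := by
  simp only [exitM, exitP, upperV, lieT, lieE, bandK, bandD]
  generalize bandB S d = B
  generalize bandQ S d u v = Q
  ring

/-- **A forward upper rung**, tilted. -/
theorem forwardU_step (hf : IsOrbitFns N p q S R x y s dx dy)
    (hb : SlabBox N (1 / (p + 1)) (1 / (q + 1))) {u₀ u₁ K b : ℝ} (hu₀ : 0 < u₀) (hK : 0 < K)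
    (hb0 : 0 ≤ b) {T T' U₀ : ℝ → ℝ} (hT : ∀ u, HasDerivAt T (T' u) u) (E : ℝ → ℝ → Prop)
    (hE : ∀ w ∈ S, 0 < R w → uOf N (R w) (x w) ≤ u₁ → E (uOf N (R w) (x w)) (y w / x w))
    (hup : ∀ w ∈ S, 0 < R w → uOf N (R w) (x w) ≤ u₀ →
      hOf N (R w) (x w) (y w) w < bandT N (1 / (p + 1)) (1 / (q + 1))
        (1 / (q + 1) - 1 / (p + 1)) U₀ (uOf N (R w) (x w)) (y w / x w))
    (hbefore : ∀ u, 0 < u → u ≤ u₀ →
      (1 / (q + 1) - 1 / (p + 1)) * (u * (U₀ u - T u - b * (33 / 100))) ≤ K * (u₀ - u) ^ 2)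
    (hsign : ∀ u r, u₀ ≤ u → u ≤ u₁ → u < 1 → r < 1 → E u r →
      33 / 100 ≤ vOf (1 / (p + 1)) (1 / (q + 1)) r →
      vOf (1 / (p + 1)) (1 / (q + 1)) r ≤ 89 / 20 →
      0 < lieE (1 / (p + 1) + 1 / (q + 1)) (1 / (q + 1) - 1 / (p + 1)) u
          (vOf (1 / (p + 1)) (1 / (q + 1)) r)
          (T u + b * vOf (1 / (p + 1)) (1 / (q + 1)) r) 1 →
      0 < exitP (1 / (p + 1) + 1 / (q + 1)) (1 / (q + 1) - 1 / (p + 1)) u
          (vOf (1 / (p + 1)) (1 / (q + 1)) r)
          (T u + b * vOf (1 / (p + 1)) (1 / (q + 1)) r) 1 0 →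
      0 < upperV (1 / (p + 1) + 1 / (q + 1)) (1 / (q + 1) - 1 / (p + 1)) u
          (vOf (1 / (p + 1)) (1 / (q + 1)) r)
          (T u + b * vOf (1 / (p + 1)) (1 / (q + 1)) r) b (T' u))
    {w : ℝ} (hw : w ∈ S) (hw0 : 0 < R w) (hw0u : u₀ ≤ uOf N (R w) (x w))
    (hwu : uOf N (R w) (x w) ≤ u₁) :
    hOf N (R w) (x w) (y w) w < bandT N (1 / (p + 1)) (1 / (q + 1)) (1 / (q + 1) - 1 / (p + 1)) T
        (uOf N (R w) (x w)) (y w / x w) +
      (1 / (q + 1) - 1 / (p + 1)) * uOf N (R w) (x w) *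
        (b * vOf (1 / (p + 1)) (1 / (q + 1)) (y w / x w)) := by
  obtain ⟨hal, hbe, hd, hS1, hS2, -, -⟩ := hb.facts
  set al := 1 / (p + 1) with hald
  set be := 1 / (q + 1) with hbed
  set d := be - al with hdd
  have hW : ∀ u : ℝ, HasDerivAt (fun u => -(d * b) * u) (-(d * b)) u := fun u => by
    simpa using (hasDerivAt_id u).const_mul (-(d * b))
  have key := forwardT_step hf hb (u₁ := u₁) (K := K) hu₀.le hT (A := fun _ => 0) (A' := fun _ => 0)
    (W := fun u => -(d * b) * u) (W' := fun _ => -(d * b)) (m := fun _ => 1) (m' := fun _ => 0)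
    (fun u => hasDerivAt_const u 0) hW (fun u => hasDerivAt_const u 1)
    (fun u r h => E u r ∧ (u ≤ u₀ → h < bandT N al be d U₀ u r) ∧ 0 < ev N al be u r h)
    (fun w' hw' hw'0 hw'u => ⟨hE w' hw' hw'0 hw'u, fun h => hup w' hw' hw'0 h,
      orbit_ev_pos hf hb.five hb.low hal hbe hw' hw'0⟩)
    (fun r _ _ _ => ?_) (fun u r h hI hu hE' hv _ => ?_)
    (fun u r h hI hu hu' hE' hv hv1 hG => ?_) hw hw0 hwu hw0u
  · linarith
  · simpa using mul_pos hK (pow_pos hu₀ 2)
  · obtain ⟨hu0, -, -, -, -, -, -, -, -, -⟩ := hI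
    have h1 := hE'.2.1 hu
    have h2 := hbefore u hu0 hu
    have h3 := mul_le_mul_of_nonneg_left hv (mul_nonneg (mul_nonneg hd.le hb0) hu0.le)
    simp only [tauOf, bandT, ← hald, ← hbed, ← hdd] at h1 h2 h3 ⊢
    have e : d * u * ((h - hc N al be r) / (d * u) - T u) =
        h - hc N al be r - d * (u * T u) := by field_simp
    rw [one_mul, e]
    linarith
  obtain ⟨hu0, hu1, -, hr1, hh0, hh1, -, -, -, hflow⟩ := hI
  set v := vOf al be r with hvd
  set Sg := al + be with hSg
  have hτ : tauOf N al be d u r h = T u + b * v := by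
    have e : d * u * (tauOf N al be d u r h - (T u + b * v)) = 0 := by linarith
    exact sub_eq_zero.1 ((mul_eq_zero.1 e).resolve_left (mul_pos hd hu0).ne')
  have hr : al / be * (1 + d * v) = r := hb.r_eq r
  have hh : h = d * bandK Sg d u v (T u + b * v) 0 0 / bandB Sg d := by
    have := band_value (u := u) (v := v) (c₁ := T u + b * v) (c₂ := 0) (c₃ := 0)
      hb.sum rfl rfl hal.ne' hbe.ne' hS1 hS2
    rw [hr] at this
    rw [← this]
    have e : d * u * tauOf N al be d u r h = h - hc N al be r := by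
      have := mul_pos hd hu0
      simp only [tauOf]
      field_simp
    rw [hτ] at e
    have e2 : bandL N al be d (T u + b * v) 0 0 u r =
        hc N al be r + d * u * (T u + b * v) := by
      simp only [bandL]
      ring
    rw [← hdd, e2]
    linarith
  have hB : 0 < bandB Sg d := by
    unfold bandB; exact mul_pos (by linarith) (by linarith [hb.S_high])
  have huh : u * h < 1 := lt_of_le_of_lt (mul_le_of_le_one_right hu0.le hh1.le) hu1
  have hdv : 0 < d * v := mul_pos hd (lt_of_lt_of_le (by norm_num) hv)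
  have hD : 0 < denV Sg d u v (T u + b * v) := by
    have e : denV Sg d u v (T u + b * v) = bandB Sg d * (2 + d * v - u * h) := by
      rw [hh]
      simp only [denV, bandD]
      field_simp
    rw [e]
    exact mul_pos hB (by linarith)
  have hX : 0 < (1 - Sg) * be * denV Sg d u v (T u + b * v) :=
    mul_pos (mul_pos (by linarith [hb.S_high]) hbe) hD
  have he : 0 < lieE Sg d u v (T u + b * v) 1 := by
    have := exitP_band (u := u) (v := v) (t := T u + b * v) (W := 0) (g := -1)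
      hb.sum rfl rfl hal.ne' hbe.ne' hS1 hS2 hD.ne'
    rw [← hh, hr, exitP_zero_eq] at this
    refine pos_of_mul_pos_right (this ▸ mul_pos ?_ hX) hd.le
    have := mul_pos hd hE'.2.2
    linarith
  have hp : 0 < exitP Sg d u v (T u + b * v) 1 0 := by
    have := exitP_band (u := u) (v := v) (t := T u + b * v) (W := 1) (g := 0)
      hb.sum rfl rfl hal.ne' hbe.ne' hS1 hS2 hD.ne'
    rw [← hh, hr] at this
    refine pos_of_mul_pos_right (this ▸ mul_pos ?_ hX) hd.le
    have := mul_pos (show 0 < 1 + d * v by linarith) (sub_pos.2 hflow)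
    linarith
  have hs := hsign u r hu hu' hu1 hr1 hE'.1 hv hv1 he hp
  rw [hτ]
  have e : (0 : ℝ) - -(d * b) * v - 0 * (d * u * (T u + b * v - T u)) +
      1 * d * (T u + u * T' u - (T u + b * v)) = d * u * T' u := by ring
  rw [e, exitM_upper_eq]
  exact neg_neg_of_pos (mul_pos hd hs)

end Vale.Agent.P100.Calib.Band
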