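import Vale.Agent.P100.Calib.SlabSignAlgebra

/-!
# Identities for the closed signs: scaling, secants in `p`, the dependence on `g K` and `g W1`
-/

set_option linter.unusedVariables false

namespace Vale.Agent.P100.Calib.Closed.High

variable (a d v g W W1 R E K p₀ p₁ s e k₀ k₁ w₀ w₁ p k w : ℝ)

theorem TGG_scale : TGG a d v g W W1 R E K = TGG a d v 1 (g * W) (g * W1) 0 (g * E) (g * K) := by
  rw [TGG_expand, TGG_expand a d v 1 (g * W) (g * W1) 0 (g * E) (g * K)]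
  simp only [one_mul]

theorem TEG_scale : TEG a d v g W W1 R E K = TEG a d v 1 (g * W) (g * W1) 0 (g * E) (g * K) := by
  rw [TEG_expand, TEG_expand a d v 1 (g * W) (g * W1) 0 (g * E) (g * K)]
  simp only [one_mul]

theorem TA_scale : TA a d v g W W1 R E K = TA a d v 1 (g * W) (g * W1) 0 (g * E) (g * K) := by
  rw [TA_expand, TA_expand a d v 1 (g * W) (g * W1) 0 (g * E) (g * K)]
  simp only [one_mul]

theorem TMG_scale : TMG a d v g W W1 R E K = TMG a d v 1 (g * W) (g * W1) 0 (g * E) (g * K) := by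
  rw [TMG_expand, TMG_expand a d v 1 (g * W) (g * W1) 0 (g * E) (g * K)]
  simp only [one_mul]

theorem TME_scale :
    g * TME a d v g W W1 E K = TME a d v 1 (g * W) (g * W1) (g * E) (g * K) := by
  have h := TME_expand a d v 1 (g * W) (g * W1) (g * E) (g * K)
  simp only [one_mul] at h
  rw [TME_expand, h]

theorem TMM_scale : g ^ 2 * TMM a d v W E = TMM a d v (g * W) (g * E) := by
  simp only [TMM]
  ring

theorem TA_affine : TA a d v 1 p w 0 e k = TA a d v 1 p w₀ 0 e k₀ +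
    (k - k₀) * (TA a d v 1 p 0 0 e 1 - TA a d v 1 p 0 0 e 0) +
    (w - w₀) * (TA a d v 1 p 1 0 e 0 - TA a d v 1 p 0 0 e 0) := by
  rw [TA_expand a d v 1 p w 0 e k, TA_expand a d v 1 p w₀ 0 e k₀, TA_expand a d v 1 p 0 0 e 1,
    TA_expand a d v 1 p 1 0 e 0, TA_expand a d v 1 p 0 0 e 0]
  simp only [one_mul]
  ring

theorem TMG_affine : TMG a d v 1 p w 0 e k = TMG a d v 1 p w₀ 0 e k₀ +
    (k - k₀) * (TMG a d v 1 p 0 0 e 1 - TMG a d v 1 p 0 0 e 0) +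
    (w - w₀) * (TMG a d v 1 p 1 0 e 0 - TMG a d v 1 p 0 0 e 0) := by
  rw [TMG_expand a d v 1 p w 0 e k, TMG_expand a d v 1 p w₀ 0 e k₀,
    TMG_expand a d v 1 p 0 0 e 1, TMG_expand a d v 1 p 1 0 e 0, TMG_expand a d v 1 p 0 0 e 0]
  simp only [one_mul]
  ring

theorem TME_affine : TME a d v 1 p w e k = TME a d v 1 p w₀ e k₀ +
    (k - k₀) * (TME a d v 1 p 0 e 1 - TME a d v 1 p 0 e 0) +
    (w - w₀) * (TME a d v 1 p 1 e 0 - TME a d v 1 p 0 e 0) := by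
  simp only [TME]
  ring

/-- A point between two ends. -/
def mix (x y : ℝ) : ℝ := (1 - s) * x + s * y

/-- The second coefficient in `p` of a function of `p`. -/
noncomputable def two (f : ℝ → ℝ) : ℝ := (f 1 + f (-1) - 2 * f 0) / 2

theorem TGG_secant : TGG a d v 1 (mix s p₀ p₁) 0 0 e 0 =
    mix s (TGG a d v 1 p₀ 0 0 e 0) (TGG a d v 1 p₁ 0 0 e 0) -
      s * (1 - s) * (p₁ - p₀) ^ 2 * two fun p => TGG a d v 1 p 0 0 e 0 := by
  unfold two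
  rw [TGG_expand a d v 1 (mix s p₀ p₁) 0 0 e 0,
    TGG_expand a d v 1 p₀ 0 0 e 0,
    TGG_expand a d v 1 p₁ 0 0 e 0]
  simp only [one_mul, mix]
  rw [show ∀ x, TGG a d v 1 x 0 0 e 0 = TGG a d v 1 x 0 0 0 0 from fun x => rfl,
    show TGG a d v 1 (-1) 0 0 e 0 = TGG a d v 1 (-1) 0 0 0 0 from rfl,
    show TGG a d v 1 0 0 0 e 0 = TGG a d v 1 0 0 0 0 0 from rfl]
  ring

theorem TEG_secant : TEG a d v 1 (mix s p₀ p₁) 0 0 e 0 =
    mix s (TEG a d v 1 p₀ 0 0 e 0) (TEG a d v 1 p₁ 0 0 e 0) -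
      s * (1 - s) * (p₁ - p₀) ^ 2 * two fun p => TEG a d v 1 p 0 0 e 0 := by
  unfold two
  rw [TEG_expand a d v 1 (mix s p₀ p₁) 0 0 e 0,
    TEG_expand a d v 1 p₀ 0 0 e 0,
    TEG_expand a d v 1 p₁ 0 0 e 0]
  simp only [one_mul, mix]
  ring

theorem TA_secant : TA a d v 1 (mix s p₀ p₁) (mix s w₀ w₁) 0 e (mix s k₀ k₁) =
    mix s (TA a d v 1 p₀ w₀ 0 e k₀) (TA a d v 1 p₁ w₁ 0 e k₁) -
      s * (1 - s) * (p₁ - p₀) ^ 2 * two fun p => TA a d v 1 p 0 0 e 0 := by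
  unfold two
  rw [TA_expand a d v 1 (mix s p₀ p₁) (mix s w₀ w₁) 0 e (mix s k₀ k₁),
    TA_expand a d v 1 p₀ w₀ 0 e k₀,
    TA_expand a d v 1 p₁ w₁ 0 e k₁]
  simp only [one_mul, mix]
  ring

theorem TMG_secant : TMG a d v 1 (mix s p₀ p₁) (mix s w₀ w₁) 0 e (mix s k₀ k₁) =
    mix s (TMG a d v 1 p₀ w₀ 0 e k₀) (TMG a d v 1 p₁ w₁ 0 e k₁) -
      s * (1 - s) * (p₁ - p₀) ^ 2 * two fun p => TMG a d v 1 p 0 0 e 0 := by
  unfold two
  rw [TMG_expand a d v 1 (mix s p₀ p₁) (mix s w₀ w₁) 0 e (mix s k₀ k₁),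
    TMG_expand a d v 1 p₀ w₀ 0 e k₀,
    TMG_expand a d v 1 p₁ w₁ 0 e k₁]
  simp only [one_mul, mix]
  ring

theorem TME_secant : TME a d v 1 (mix s p₀ p₁) (mix s w₀ w₁) e (mix s k₀ k₁) =
    mix s (TME a d v 1 p₀ w₀ e k₀) (TME a d v 1 p₁ w₁ e k₁) := by
  simp only [TME, mix]
  ring

end Vale.Agent.P100.Calib.Closed.High
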