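import Vale.Agent.P100.Calib.SlabHighSigns

/-!
# The bands of the tail, as fractions
-/

namespace Vale.Agent.P100.Calib.Closed.High

open BoxPos Large

local instance highBandsAdd : Add Ex := ⟨Ex.add⟩
local instance highBandsSub : Sub Ex := ⟨Ex.sub⟩
local instance highBandsMul : Mul Ex := ⟨Ex.mul⟩


/-- The numerator of `low`. -/
def midTn (u : Ex) : Ex :=
  (cC (25153) 10000 + cC (186684) 10000 * xD) * ((cC 1 - u + cC (1200) 10000) * (cC 1 - u + cC (40) 10000)) + (u - cC (3) 5) * ((cC (31755) 10000 + cC (-75720) 10000 * xD) * (cC 1 - u + cC (40) 10000) + (cC (1904) 10000 + cC (-21095) 10000 * xD) * (cC 1 - u + cC (1200) 10000))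

/-- The denominator of `low`. -/
def midTd (u : Ex) : Ex :=
  (cC 1 + cC (66) 5 * xD + cC (292) 5 * (xD * xD)) * ((cC 1 - u + cC (1200) 10000) * (cC 1 - u + cC (40) 10000))

/-- The numerator of the upper band. -/
def midUn (u : Ex) : Ex :=
  cC (6366) 10000 * (cC 1 - u + cC (1000) 10000) + (cC 1 + cC (74368) 10000 * xD + cC (64) 10000 * (xD * xD)) * (cC 1 - u + cC (8381) 10000 * xD) * ((cC (17465) 10000 + cC (-76155) 10000 * xD + (cC (17704) 10000 + cC (-84200) 10000 * xD) * xV) * (cC 1 - u + cC (1000) 10000) + (cC (-4805) 10000 + cC (22219) 10000 * xD) * (u - cC (3) 5))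

/-- The denominator of the upper band. -/
def midUd (u : Ex) : Ex :=
  (cC 1 + cC (74368) 10000 * xD + cC (64) 10000 * (xD * xD)) * ((cC 1 - u + cC (8381) 10000 * xD) * (cC 1 - u + cC (1000) 10000))

/-- The excess of `V` over `phi`, times its denominator. -/
def midPhi (u V : Ex) : Ex :=
  V * ((cC 1 - u + (cC (1800) 10000 + cC (8000) 10000 * xD + cC (15000) 10000 * (xD * xD))) * (cC 1 - u + cC (173) 10000)) - ((cC (77743) 10000 + cC (-60214) 10000 * xD) * ((cC 1 - u + (cC (1800) 10000 + cC (8000) 10000 * xD + cC (15000) 10000 * (xD * xD))) * (cC 1 - u + cC (173) 10000)) - (cC 1 - u) * ((cC (18134) 10000 + cC (2854) 10000 * xD) * (cC 1 - u + cC (173) 10000) + (cC (55858) 10000 + cC (-40967) 10000 * xD) * (cC 1 - u + (cC (1800) 10000 + cC (8000) 10000 * xD + cC (15000) 10000 * (xD * xD)))))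

/-- The numerator of `low`. -/
def topTn (u : Ex) : Ex :=
  (cC (48300) 10000 + cC (-78000) 10000 * xD) * ((cC 1 - u + cC (1655) 10000) * (cC 1 - u + cC (293) 10000)) + (u - cC (3) 5) * ((cC (-281) 10000 + cC (279249) 10000 * xD) * (cC 1 - u + cC (293) 10000) + (cC (7517) 10000 + cC (-70471) 10000 * xD) * (cC 1 - u + cC (1655) 10000))

/-- The denominator of `low`. -/
def topTd (u : Ex) : Ex :=
  (cC 1 + cC (66) 5 * xD + cC (292) 5 * (xD * xD)) * ((cC 1 - u + cC (1655) 10000) * (cC 1 - u + cC (293) 10000))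

/-- The numerator of the upper band. -/
def topUn (u : Ex) : Ex :=
  cC (6546) 10000 * (cC 1 - u + cC (1779) 10000) + (cC 1 + cC (139779) 10000 * xD + cC (-118) 10000 * (xD * xD)) * (cC 1 - u + cC (8235) 10000 * xD) * ((cC (13788) 10000 + cC (-29695) 10000 * xD + (cC (17039) 10000 + cC (-75663) 10000 * xD) * xV) * (cC 1 - u + cC (1779) 10000) + (cC (-2055) 10000 + cC (10384) 10000 * xD) * (u - cC (3) 5))

/-- The denominator of the upper band. -/
def topUd (u : Ex) : Ex :=
  (cC 1 + cC (139779) 10000 * xD + cC (-118) 10000 * (xD * xD)) * ((cC 1 - u + cC (8235) 10000 * xD) * (cC 1 - u + cC (1779) 10000))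

/-- The excess of `V` over `phi`, times its denominator. -/
def topPhi (u V : Ex) : Ex :=
  V * ((cC 1 - u + (cC (2360) 10000 + cC (-2752) 10000 * xD + cC (-20835) 10000 * (xD * xD))) * (cC 1 - u + cC (258) 10000)) - ((cC (64790) 10000 + cC (-129110) 10000 * xD) * ((cC 1 - u + (cC (2360) 10000 + cC (-2752) 10000 * xD + cC (-20835) 10000 * (xD * xD))) * (cC 1 - u + cC (258) 10000)) - (cC 1 - u) * ((cC (34317) 10000 + cC (-68165) 10000 * xD) * (cC 1 - u + cC (258) 10000) + (cC (34688) 10000 + cC (-116052) 10000 * xD) * (cC 1 - u + (cC (2360) 10000 + cC (-2752) 10000 * xD + cC (-20835) 10000 * (xD * xD)))))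

/-- The numerator of the slope at `ev = 0`. -/
def evN (u : Ex) : Ex :=
  xBB * (xGn u - cC 4 * xS * xB * (cC 1 - u) * (cC 2 + xD * xV)) -
    xD * u * (xS * (cC 1 + (cC 1 - xA) * xV)) * (xGn u - cC 4 * xS * xB * (cC 1 - u))

/-- The denominator of the slope at `ev = 0`. -/
def evD (u : Ex) : Ex :=
  xD * u * u * xBB * (xGn u - cC 4 * xS * xB * (cC 1 - u))

end Vale.Agent.P100.Calib.Closed.High
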