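import Vale.Agent.P100.Calib.SlabHighBands

/-!
# The bands of the tail at `d ≤ 1/20`, as fractions
-/

namespace Vale.Agent.P100.Calib.Closed.High

open BoxPos Large

local instance highBotBandsAdd : Add Ex := ⟨Ex.add⟩
local instance highBotBandsSub : Sub Ex := ⟨Ex.sub⟩
local instance highBotBandsMul : Mul Ex := ⟨Ex.mul⟩


/-- The numerator of `low`. -/
def botTn (u : Ex) : Ex :=
  (cC (195400) 100000 + cC (2274220) 100000 * xD + cC (1130090) 100000 * (xD * xD)) * ((cC 1 - u + cC (13730) 100000) * (cC 1 - u + cC (3620) 100000)) + (u - cC (3) 5) * ((cC (374000) 100000 + cC (1143420) 100000 * xD + cC (-24211640) 100000 * (xD * xD)) * (cC 1 - u + cC (3620) 100000) + (cC (67930) 100000 + cC (-1256000) 100000 * xD + cC (10399340) 100000 * (xD * xD)) * (cC 1 - u + cC (13730) 100000))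

/-- The denominator of `low`. -/
def botTd (u : Ex) : Ex :=
  (cC 1 + cC (66) 5 * xD + cC (292) 5 * (xD * xD)) * ((cC 1 - u + cC (13730) 100000) * (cC 1 - u + cC (3620) 100000))

/-- The numerator of the upper band. -/
def botUn (u : Ex) : Ex :=
  (cC (2752) 100000 + cC (-591490) 100000 * xD + cC (3423010) 100000 * (xD * xD)) * ((cC 1 - u + cC (7140) 100000) * (cC 1 - u + cC (24) 100000)) + (cC 1 - u + cC (210030) 100000 * xD) * ((cC (282030) 100000 + cC (122000) 100000 * xD + cC (-16799600) 100000 * (xD * xD) + (cC (250920) 100000 + cC (-350660) 100000 * xD + cC (299620) 100000 * (xD * xD)) * xV) * ((cC 1 - u + cC (7140) 100000) * (cC 1 - u + cC (24) 100000)) + (u - cC (3) 5) * ((cC (149060) 100000 + cC (-1480160) 100000 * xD + cC (3437790) 100000 * (xD * xD)) * (cC 1 - u + cC (24) 100000) + (cC (64910) 100000 + cC (-1960570) 100000 * xD + cC (16293510) 100000 * (xD * xD)) * (cC 1 - u + cC (7140) 100000)))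

/-- The denominator of the upper band. -/
def botUd (u : Ex) : Ex :=
  (cC 1 - u + cC (210030) 100000 * xD) * ((cC 1 - u + cC (7140) 100000) * (cC 1 - u + cC (24) 100000))

/-- The excess of `V` over `phi`, times its denominator. -/
def botPhi (u V : Ex) : Ex :=
  V * ((cC 1 - u + (cC (13690) 100000 + cC (43750) 100000 * xD + cC (137040) 100000 * (xD * xD))) * (cC 1 - u + cC (960) 100000)) - ((cC (363680) 100000 + cC (1815640) 100000 * xD + cC (66690500) 100000 * (xD * xD)) * ((cC 1 - u + (cC (13690) 100000 + cC (43750) 100000 * xD + cC (137040) 100000 * (xD * xD))) * (cC 1 - u + cC (960) 100000)) - (cC 1 - u) * ((cC (238820) 100000 + cC (-198140) 100000 * xD + cC (-17431460) 100000 * (xD * xD)) * (cC 1 - u + cC (960) 100000) + (cC (56230) 100000 + cC (2748240) 100000 * xD + cC (76289200) 100000 * (xD * xD)) * (cC 1 - u + (cC (13690) 100000 + cC (43750) 100000 * xD + cC (137040) 100000 * (xD * xD)))))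

end Vale.Agent.P100.Calib.Closed.High
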