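import Vale.Agent.P100.Calib.SlabHighBotBands

/-!
# The pieces of the certificate on the tail
-/

namespace Vale.Agent.P100.Calib.Closed.High

open BoxPos Large

local instance highBotDataAdd : Add Ex := ⟨Ex.add⟩
local instance highBotDataSub : Sub Ex := ⟨Ex.sub⟩
local instance highBotDataMul : Mul Ex := ⟨Ex.mul⟩

/-- A piece: `0.35 ≤ v < 0.4`. -/
def bot0 : Piece where
  u₀ := cC (4) 5
  u₁ := cC (120) 200
  tLn := botTn
  tLd := botTd
  tUn := botUn
  tUd := botUd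
  p₀ := cC (258383) 10000 + cC (-108031) 5000 * xD + cC (-997) 250 * xV + cC (120793) 10000 * (xD * xV) + cC (242647) 10000 * (xD * xD) + cC (-208711) 10000 * xS
  k2p := fun _ => cC 0
  k2m := fun _ => cC 0
  kapL := fun _ => cC 0
  kapU := fun _ => cC 0
  eL := ⟨cC 0, cC 0, cC 0, cC 0, cC 0⟩
  eH := ⟨cC 0, cC 0, cC 0, cC 0, cC 0⟩
  pL := ⟨cC 0, cC 0, cC 0, cC 0, cC 0⟩
  pU := ⟨cC 0, cC 0, cC 0, cC 1, cC 0⟩
  kU := ⟨cC 0, cC 0, cC 0, cC 0, cC 0⟩
  kL := ⟨cC 0, cC 0, cC 0, cC 0, cC 0⟩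
  wU := ⟨cC 0, cC 0, cC 0, cC 0, cC 0⟩
  wL := ⟨cC 0, cC 0, cC 0, cC 0, cC 0⟩

/-- A piece: `0.4 ≤ v < 0.9`. -/
def bot1 : Piece where
  u₀ := cC (4) 5
  u₁ := cC (120) 200
  tLn := botTn
  tLd := botTd
  tUn := botUn
  tUd := botUd
  p₀ := cC (128569) 5000 + cC (-1079) 50 * xD + cC (-39977) 10000 * xV + cC (122679) 10000 * (xD * xV) + cC (28223) 1250 * (xD * xD) + cC (-206573) 10000 * xS
  k2p := fun e => cC (-3440607) 250000 + cC (3957) 250 * xD + cC (27357) 2500 * xV + cC (-2627) 10000 * e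
  k2m := fun e => cC (-241) 2500 + cC (411) 2500 * xD + cC (387) 5000 * xV + cC (-19) 10000 * e
  kapL := fun e => cC (-11857) 2000 + cC (173109) 10000 * xD + cC (104191) 5000 * xV + cC (-57) 625 * e
  kapU := fun e => cC (-171093) 5000 + cC (16007) 200 * xD + cC (21799) 400 * xV + cC (-5303) 10000 * e
  eL := ⟨cC (199449) 10000 + cC (-332491) 5000 * xD + cC (-2587) 5000 * xV + cC (383993) 10000 * (xD * xV) + cC (-47) 5000 * (xV * xV) + cC (-62926) 625 * xS,
    cC 0,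
    cC 0,
    cC (7) 2500,
    cC 0⟩
  eH := ⟨cC (-67253) 2000 + cC (-572381) 10000 * xD + cC (149199) 5000 * xV + cC (1083321) 10000 * (xD * xV) + cC (18019) 2000 * (xV * xV) + cC (-16124) 625 * xS,
    cC 0,
    cC 0,
    cC (6223) 1250,
    cC 0⟩
  pL := ⟨cC (256919) 10000 + cC (-213179) 10000 * xD + cC (-39983) 10000 * xV + cC (122929) 10000 * (xD * xV) + cC (-206573) 10000 * xS,
    cC (7) 10000 + cC (-67) 2500 * xD,
    cC 0,
    cC 1,
    cC 0⟩
  pU := ⟨cC (354029) 10000 + cC (-95591) 2500 * xD + cC (-89999) 5000 * xV + cC (384531) 10000 * (xD * xV) + cC (22437) 2500 * (xV * xV) + cC (-326883) 10000 * xS,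
    cC (69) 1000 + cC (-1767) 10000 * xD + cC (-2993) 10000 * xV,
    cC 0,
    cC 0,
    cC 0⟩
  kU := ⟨cC (109) 10000 + cC (1701) 5000 * xD + cC (-3) 5000 * xV + cC (847) 2500 * (xD * xV) + cC (-3) 10000 * (xV * xV) + cC (-129) 10000 * xS,
    cC (-1) 200 + cC (4543) 5000 * xD,
    cC (-1) 2500 + cC (52) 625 * xD + cC (1) 10000 * xV,
    cC 0,
    cC 0⟩
  kL := ⟨cC (-767) 10000 + cC (2641) 5000 * xD + cC (-29) 2000 * xV + cC (863) 1250 * (xD * xV) + cC (21) 5000 * (xV * xV) + cC (261) 2500 * xS,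
    cC (-11) 2500 + cC (2219) 2500 * xD + cC (-1) 10000 * xV,
    cC (3) 1000 + cC (-259) 10000 * xD + cC (-9) 10000 * xV,
    cC 0,
    cC 0⟩
  wU := ⟨cC (61309) 5000 + cC (25857) 10000 * xD + cC (-7413) 500 * xV + cC (-168341) 10000 * (xD * xV) + cC (-569) 400 * (xV * xV) + cC (25341) 1250 * xS,
    cC (1) 125 + cC (71) 80 * xD + cC (-149) 500 * xV,
    cC (-2378) 625 + cC (10247) 5000 * xD + cC (14559) 10000 * xV,
    cC 0,
    cC 0⟩
  wL := ⟨cC (-17924) 625 + cC (134363) 2500 * xD + cC (47037) 10000 * xV + cC (-100929) 10000 * (xD * xV) + cC (2319) 2000 * (xV * xV) + cC (528887) 10000 * xS,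
    cC (-73) 2500 + cC (4313) 5000 * xD + cC (-37) 5000 * xV,
    cC (-3299) 2000 + cC (-25773) 10000 * xD + cC (-2923) 10000 * xV,
    cC 0,
    cC 0⟩

/-- A piece: `0.9 ≤ v < 1.04`. -/
def bot2 : Piece where
  u₀ := cC (4) 5
  u₁ := cC (120) 200
  tLn := botTn
  tLd := botTd
  tUn := botUn
  tUd := botUd
  p₀ := cC (258617) 10000 + cC (-210719) 10000 * xD + cC (-39941) 10000 * xV + cC (30571) 2500 * (xD * xV) + cC (66441) 5000 * (xD * xD) + cC (-209083) 10000 * xS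
  k2p := fun _ => cC (279) 500000 + cC (9441) 50 * xD
  k2m := fun _ => cC (1) 1250 + cC (17507) 10000 * xD
  kapL := fun e => cC (-10917) 2000 + cC (78781) 2500 * xD + cC (224837) 10000 * xV + cC (-47) 10000 * e
  kapU := fun e => cC (-26063) 1250 + cC (630523) 10000 * xD + cC (460409) 10000 * xV + cC (-1953) 5000 * e
  eL := ⟨cC (189493) 10000 + cC (-13029) 200 * xD + cC (-21) 2500 * xV + cC (183017) 5000 * (xD * xV) + cC (-2507) 10000 * (xV * xV) + cC (-497203) 5000 * xS,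
    cC 0,
    cC 0,
    cC 0,
    cC 0⟩
  eH := ⟨cC (106571) 10000 + cC (-458717) 5000 * xD + cC (-1811) 10000 * xV + cC (13523) 250 * (xD * xV) + cC (-1291) 25 * xS,
    cC 0,
    cC 0,
    cC 0,
    cC 0⟩
  pL := ⟨cC (64583) 2500 + cC (-209267) 10000 * xD + cC (-7989) 2000 * xV + cC (7652) 625 * (xD * xV) + cC (-209083) 10000 * xS,
    cC (1) 2500 + cC (-2) 125 * xD,
    cC 0,
    cC 1,
    cC 0⟩
  pU := ⟨cC (6901) 250 + cC (2266) 625 * xD + cC (6341) 10000 * xV + cC (32111) 1250 * (xD * xV) + cC (1257) 5000 * (xV * xV) + cC (-92957) 2500 * xS,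
    cC (-119) 1250 + cC (429) 500 * xD + cC (-279) 2000 * xV,
    cC 0,
    cC 0,
    cC 0⟩
  kU := ⟨cC (19) 2000 + cC (126) 625 * xD + cC (-39) 10000 * xV + cC (731) 2500 * (xD * xV) + cC (1) 500 * (xV * xV) + cC (-23) 2000 * xS,
    cC (-49) 10000 + cC (4531) 5000 * xD + cC (-1) 10000 * xV,
    cC (1) 10000 + cC (919) 10000 * xD + cC (-3) 10000 * xV,
    cC 0,
    cC 0⟩
  kL := ⟨cC (-119) 5000 + cC (-3049) 10000 * xD + cC (-119) 10000 * xV + cC (5179) 10000 * (xD * xV) + cC (-1) 10000 * (xV * xV) + cC (597) 10000 * xS,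
    cC (-9) 2000 + cC (2219) 2500 * xD + cC (-1) 10000 * xV,
    cC (-3) 10000 + cC (36) 625 * xD,
    cC 0,
    cC 0⟩
  wU := ⟨cC (-50891) 10000 + cC (-20819) 10000 * xD + cC (12493) 2500 * xV + cC (-315289) 10000 * (xD * xV) + cC (2447) 10000 * (xV * xV) + cC (102819) 5000 * xS,
    cC (-1333) 10000 + cC (53) 80 * xD + cC (-297) 2500 * xV,
    cC (-6389) 2500 + cC (3017) 1000 * xD + cC (-187) 2500 * xV,
    cC 0,
    cC 0⟩
  wL := ⟨cC (72087) 5000 + cC (8069) 200 * xD + cC (417) 2000 * xV + cC (-71733) 5000 * (xD * xV) + cC (51) 2500 * (xV * xV) + cC (-829) 100 * xS,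
    cC (-23) 200 + cC (1871) 2500 * xD + cC (-2519) 10000 * xV,
    cC (-563) 200 + cC (-23077) 10000 * xD + cC (-433) 10000 * xV,
    cC 0,
    cC 0⟩

/-- A piece: `1.04 ≤ v < 1.25`. -/
def bot3 : Piece where
  u₀ := cC (4) 5
  u₁ := cC (120) 200
  tLn := botTn
  tLd := botTd
  tUn := botUn
  tUd := botUd
  p₀ := cC (262783) 10000 + cC (-216079) 10000 * xD + cC (-19997) 5000 * xV + cC (12787) 1000 * (xD * xV) + cC (119171) 10000 * (xD * xD) + cC (-215911) 10000 * xS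
  k2p := fun _ => cC (6) 15625 + cC (1022041) 10000 * xD
  k2m := fun _ => cC (1) 1000 + cC (103) 1250 * xD
  kapL := fun e => cC (-130639) 2500 + cC (1261477) 10000 * xD + cC (557401) 10000 * xV + cC (-1921) 5000 * e
  kapU := fun e => cC (-35559) 5000 + cC (1068119) 10000 * xD + cC (3757) 100 * xV + cC (-2393) 10000 * e
  eL := ⟨cC (210559) 10000 + cC (-135571) 2000 * xD + cC (-4927) 10000 * xV + cC (102213) 2500 * (xD * xV) + cC (-33) 10000 * (xV * xV) + cC (-2051) 20 * xS,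
    cC 0,
    cC 0,
    cC 0,
    cC 0⟩
  eH := ⟨cC (106463) 10000 + cC (-474953) 5000 * xD + cC (-903) 5000 * xV + cC (495619) 10000 * (xD * xV) + cC (-516239) 10000 * xS,
    cC 0,
    cC 0,
    cC 0,
    cC 0⟩
  pL := ⟨cC (39671) 2000 + cC (-42219) 10000 * xD + cC (7) 20 * xV + cC (-718) 625 * (xD * xV) + cC (-261) 1250 * (xV * xV) + cC (-217369) 10000 * xS,
    cC (39) 10000 + cC (-3323) 10000 * xD + cC (-137) 2000 * xV,
    cC 0,
    cC 0,
    cC 0⟩
  pU := ⟨cC (74351) 2500 + cC (61537) 2500 * xD + cC (5173) 2000 * xV + cC (257079) 10000 * (xD * xV) + cC (419) 10000 * (xV * xV) + cC (-205017) 5000 * xS,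
    cC (-221) 2500 + cC (11017) 10000 * xD + cC (-941) 10000 * xV,
    cC 0,
    cC 0,
    cC 0⟩
  kU := ⟨cC (73) 10000 + cC (102) 625 * xD + cC (-7) 5000 * xV + cC (1129) 5000 * (xD * xV) + cC (1) 2000 * (xV * xV) + cC (-113) 10000 * xS,
    cC (-1) 200 + cC (4521) 5000 * xD,
    cC (-1) 10000 + cC (617) 10000 * xD + cC (-1) 10000 * xV,
    cC 0,
    cC 0⟩
  kL := ⟨cC (-17) 2000 + cC (-1151) 5000 * xD + cC (-33) 10000 * xV + cC (571) 2000 * (xD * xV) + cC (103) 5000 * xS,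
    cC (-49) 10000 + cC (1789) 2000 * xD,
    cC (-1) 2500 + cC (311) 5000 * xD,
    cC 0,
    cC 0⟩
  wU := ⟨cC (-2541) 1000 + cC (778747) 10000 * xD + cC (34707) 10000 * xV + cC (-2403) 125 * (xD * xV) + cC (3211) 10000 * (xV * xV) + cC (190507) 10000 * xS,
    cC (-307) 2500 + cC (17697) 10000 * xD + cC (-321) 2500 * xV,
    cC (-133) 50 + cC (-8523) 5000 * xD + cC (153) 10000 * xV,
    cC 0,
    cC 0⟩
  wL := ⟨cC (20211) 1250 + cC (451823) 10000 * xD + cC (1811) 10000 * xV + cC (-31211) 2000 * (xD * xV) + cC (-69) 5000 * (xV * xV) + cC (-111239) 10000 * xS,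
    cC (-559) 5000 + cC (8807) 10000 * xD + cC (-2563) 10000 * xV,
    cC (-14091) 5000 + cC (-22543) 10000 * xD + cC (-419) 10000 * xV,
    cC 0,
    cC 0⟩

/-- The cut of `bot3`. -/
def bot3Cut : Ex :=
  cC (-123249) 5000 + cC (-2546853) 5000 * xD + cC (-42309) 10000 * xV + cC (3298727) 10000 * (xD * xV) + cC (259) 10000 * (xV * xV) + cC (-79061) 10000 * xS

/-- The bound of `p` above the cut. -/
def bot3PU : Bnd :=
  ⟨cC (18973) 625 + cC (-29083) 2500 * xD + cC (7741) 5000 * xV + cC (68363) 2500 * (xD * xV) + cC (411) 10000 * (xV * xV) + cC (-206299) 5000 * xS,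
    cC (-777) 10000 + cC (661) 2500 * xD + cC (-611) 5000 * xV,
    cC 0,
    cC 0,
    cC 0⟩

/-- `bot3` below the cut. -/
def bot3A : Piece :=
  bot3.below bot3Cut

/-- `bot3` above the cut. -/
def bot3B : Piece :=
  { bot3.above bot3Cut bot3PU with
    k2p := fun e => cC (-11993) 10000 + cC (30049) 5000 * xD + cC (-13) 1250 * xV + cC (-59) 1000 * e
    k2m := fun _ => cC (1) 1000 + cC (103) 1250 * xD
    kapL := fun e => cC (-114653) 2000 + cC (221787) 2000 * xD + cC (115261) 2000 * xV + cC (-1193) 2500 * e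
    kapU := fun e => cC (-3387) 250 + cC (1125353) 10000 * xD + cC (39319) 1000 * xV + cC (-871) 2500 * e }

/-- A piece: `1.25 ≤ v < 1.5`. -/
def bot4 : Piece where
  u₀ := cC (4) 5
  u₁ := cC (-358) 1000 + cC (1834) 1000 * xD + cC (722) 1000 * xV
  tLn := botTn
  tLd := botTd
  tUn := botUn
  tUd := botUd
  p₀ := cC (32891) 1250 + cC (-107529) 5000 * xD + cC (-7999) 2000 * xV + cC (1599) 125 * (xD * xV) + cC (76351) 10000 * (xD * xD) + cC (-21647) 1000 * xS
  k2p := fun e => cC (5359721) 200000 + cC (51917) 500 * xD + cC (-70577) 5000 * xV + cC (1957) 10000 * e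
  k2m := fun _ => cC (1) 1000 + cC (297) 2500 * xD
  kapL := fun e => cC (-486169) 10000 + cC (580589) 5000 * xD + cC (105043) 2000 * xV + cC (-4013) 10000 * e
  kapU := fun e => cC (-9271) 5000 + cC (514369) 5000 * xD + cC (333327) 10000 * xV + cC (-611) 2500 * e
  eL := ⟨cC (-200959) 2500 + cC (1721529) 10000 * xD + cC (360609) 5000 * xV + cC (-29709) 10000 * (xD * xV) + cC (-940783) 10000 * xS,
    cC 0,
    cC 0,
    cC 0,
    cC 0⟩
  eH := ⟨cC (106939) 10000 + cC (-948749) 10000 * xD + cC (-361) 2000 * xV + cC (98939) 2000 * (xD * xV) + cC (-517161) 10000 * xS,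
    cC 0,
    cC 0,
    cC 0,
    cC 0⟩
  pL := ⟨cC (208813) 10000 + cC (1717) 10000 * xD + cC (-866) 625 * xV + cC (-26393) 5000 * (xD * xV) + cC (49) 2500 * (xV * xV) + cC (-223331) 2500 * (xD * xD) + cC (-50683) 2500 * xS,
    cC (207) 2500 + cC (-233) 500 * xD + cC (-51) 400 * xV,
    cC 0,
    cC 0,
    cC 0⟩
  pU := ⟨cC (771521) 10000 + cC (-382743) 2500 * xD + cC (-118641) 2500 * xV + cC (480767) 5000 * (xD * xV) + cC (62787) 5000 * (xV * xV) + cC (31449) 5000 * (xD * xD) + cC (-451407) 10000 * xS,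
    cC (2491) 5000 + cC (-1399) 1250 * xD + cC (-5251) 10000 * xV,
    cC 0,
    cC 0,
    cC 0⟩
  kU := ⟨cC (-113) 10000 + cC (-337) 1000 * xD + cC (-3) 1250 * xV + cC (1929) 10000 * (xD * xV) + cC (1) 5000 * (xV * xV) + cC (17869) 1000 * (xD * xD) + cC (119) 5000 * xS,
    cC (-51) 10000 + cC (1131) 1250 * xD,
    cC (-3) 5000 + cC (697) 10000 * xD + cC (1) 5000 * xV,
    cC 0,
    cC 0⟩
  kL := ⟨cC (-23) 1000 + cC (-2231) 10000 * xD + cC (9) 2000 * xV + cC (411) 2500 * (xD * xV) + cC (-7) 2500 * (xV * xV) + cC (135877) 10000 * (xD * xD) + cC (177) 5000 * xS,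
    cC (-1) 200 + cC (9033) 10000 * xD,
    cC (-7) 10000 + cC (667) 10000 * xD + cC (1) 5000 * xV,
    cC 0,
    cC 0⟩
  wU := ⟨cC (47051) 5000 + cC (58967) 625 * xD + cC (2481) 625 * xV + cC (-64363) 1000 * (xD * xV) + cC (-19701) 2500 * (xV * xV) + cC (-309433) 5000 * (xD * xD) + cC (18671) 1000 * xS,
    cC (-1463) 2500 + cC (2657) 1000 * xD + cC (501) 2500 * xV,
    cC (-53871) 10000 + cC (6131) 2000 * xD + cC (10711) 5000 * xV,
    cC 0,
    cC 0⟩
  wL := ⟨cC (18251) 625 + cC (86431) 2000 * xD + cC (67827) 10000 * xV + cC (-652131) 10000 * (xD * xV) + cC (-123619) 10000 * (xV * xV) + cC (-556607) 10000 * (xD * xD) + cC (-22097) 2000 * xS,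
    cC (-809) 2500 + cC (14777) 10000 * xD + cC (-791) 10000 * xV,
    cC (-1841) 250 + cC (17803) 2500 * xD + cC (3417) 1000 * xV,
    cC 0,
    cC 0⟩

/-- The cut of `bot4`. -/
def bot4Cut : Ex :=
  cC (-1393483) 10000 + cC (243443) 625 * xD + cC (44359) 1250 * xV + cC (-142548) 625 * (xD * xV) + cC (40323) 400 * xS

/-- The bound of `p` above the cut. -/
def bot4PU : Bnd :=
  ⟨cC (90111) 2500 + cC (-468443) 10000 * xD + cC (-7633) 1250 * xV + cC (71981) 2000 * (xD * xV) + cC (6191) 5000 * (xV * xV) + cC (-9809) 10000 * (xD * xD) + cC (-396337) 10000 * xS,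
    cC (101) 1000 + cC (-2579) 5000 * xD + cC (-733) 2500 * xV,
    cC 0,
    cC 0,
    cC 0⟩

/-- `bot4` below the cut. -/
def bot4A : Piece :=
  bot4.below bot4Cut

/-- `bot4` above the cut. -/
def bot4B : Piece :=
  { bot4.above bot4Cut bot4PU with
    k2p := fun e => cC (35439) 10000 + cC (5537) 400 * xD + cC (-8873) 5000 * xV + cC (43) 1250 * e
    k2m := fun _ => cC (1) 1000 + cC (297) 2500 * xD
    kapL := fun e => cC (-264871) 5000 + cC (201927) 2000 * xD + cC (13481) 250 * xV + cC (-619) 1250 * e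
    kapU := fun e => cC (813847) 10000 + cC (-77111) 5000 * xD + cC (-40133) 10000 * xV + cC (2053) 2500 * e }

/-- A piece: `1.5 ≤ v < 1.69`. -/
def bot5 : Piece where
  u₀ := cC (4) 5
  u₁ := cC (138) 1000 + cC (0) 1000 * xD + cC (391) 1000 * xV
  tLn := botTn
  tLd := botTd
  tUn := botUn
  tUd := botUd
  p₀ := cC (52707) 2000 + cC (-213829) 10000 * xD + cC (-7999) 2000 * xV + cC (127951) 10000 * (xD * xV) + cC (203) 80 * (xD * xD) + cC (-13571) 625 * xS
  k2p := fun e => cC (-83281) 1000000 + cC (16247) 625 * xD + cC (-7) 10000 * xV + cC (-41) 10000 * e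
  k2m := fun _ => cC (1) 1000 + cC (151) 1000 * xD
  kapL := fun e => cC (-118833) 2500 + cC (1061081) 10000 * xD + cC (500681) 10000 * xV + cC (-2527) 5000 * e
  kapU := fun e => cC (-93619) 10000 + cC (129677) 1000 * xD + cC (84523) 2500 * xV + cC (-2149) 5000 * e
  eL := ⟨cC (-778934) 15625 + cC (-229069) 10000 * xD + cC (386029) 10000 * xV + cC (59939) 10000 * (xD * xV) + cC (2447) 10000 * (xV * xV) + cC (-620233) 10000 * xS,
    cC 0,
    cC 0,
    cC 0,
    cC 0⟩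
  eH := ⟨cC (6716) 625 + cC (-473583) 5000 * xD + cC (-903) 5000 * xV + cC (493637) 10000 * (xD * xV) + cC (-518259) 10000 * xS,
    cC 0,
    cC 0,
    cC 0,
    cC 0⟩
  pL := ⟨cC (223603) 10000 + cC (31409) 5000 * xD + cC (-9373) 5000 * xV + cC (-48283) 10000 * (xD * xV) + cC (-7) 250 * (xV * xV) + cC (-21553) 1000 * xS,
    cC (611) 5000 + cC (-207) 5000 * xD + cC (-1581) 10000 * xV,
    cC 0,
    cC 0,
    cC 0⟩
  pU := ⟨cC (421611) 10000 + cC (-439883) 10000 * xD + cC (-46599) 5000 * xV + cC (22451) 625 * (xD * xV) + cC (9097) 5000 * (xV * xV) + cC (-107707) 2500 * xS,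
    cC (1901) 10000 + cC (-3949) 10000 * xD + cC (-1687) 5000 * xV,
    cC 0,
    cC 0,
    cC 0⟩
  kU := ⟨cC (41) 5000 + cC (-191) 10000 * xD + cC (-1) 5000 * xV + cC (1561) 10000 * (xD * xV) + cC (3) 10000 * (xV * xV) + cC (-33) 2500 * xS,
    cC (-1) 200 + cC (9003) 10000 * xD,
    cC (-1) 5000 + cC (189) 2500 * xD + cC (-1) 10000 * xV,
    cC 0,
    cC 0⟩
  kL := ⟨cC (-1) 1250 + cC (-3481) 5000 * xD + cC (-63) 10000 * xV + cC (4201) 10000 * (xD * xV) + cC (-3) 10000 * (xV * xV) + cC (21) 1000 * xS,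
    cC (-1) 200 + cC (2261) 2500 * xD,
    cC (-13) 10000 + cC (213) 2000 * xD + cC (1) 5000 * xV,
    cC 0,
    cC 0⟩
  wU := ⟨cC (-33561) 10000 + cC (281031) 2500 * xD + cC (6773) 2500 * xV + cC (-430117) 10000 * (xD * xV) + cC (-106) 25 * (xV * xV) + cC (287493) 10000 * xS,
    cC (-859) 2500 + cC (2127) 1250 * xD + cC (331) 10000 * xV,
    cC (-3933) 1000 + cC (-22233) 10000 * xD + cC (2957) 2500 * xV,
    cC 0,
    cC 0⟩
  wL := ⟨cC (208327) 10000 + cC (120583) 2500 * xD + cC (-58441) 10000 * xV + cC (-42819) 2500 * (xD * xV) + cC (-369) 200 * (xV * xV) + cC (-36823) 10000 * xS,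
    cC (-379) 2000 + cC (11757) 10000 * xD + cC (-1409) 10000 * xV,
    cC (-43257) 10000 + cC (-7889) 5000 * xD + cC (2819) 2000 * xV,
    cC 0,
    cC 0⟩

/-- A piece: `1.04 ≤ v < 1.16`. -/
def bot6 : Piece where
  u₀ := cC (4) 5
  u₁ := cC (120) 200
  tLn := botTn
  tLd := botTd
  tUn := botUn
  tUd := botUd
  p₀ := cC (257033) 10000 + cC (-102879) 5000 * xD + cC (-19901) 5000 * xV + cC (30053) 2500 * (xD * xV) + cC (87153) 10000 * (xD * xD) + cC (-206729) 10000 * xS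
  k2p := fun e => cC (-81021) 2500 + cC (318423) 2000 * xD + cC (290937) 10000 * xV + cC (101) 5000 * e
  k2m := fun _ => cC (-47) 5000 + cC (771) 5000 * xD + cC (19) 2500 * xV
  kapL := fun e => cC (-536653) 10000 + cC (65428) 625 * xD + cC (564727) 10000 * xV + cC (-1033) 2500 * e
  kapU := fun e => cC (-58133) 5000 + cC (33627) 400 * xD + cC (410339) 10000 * xV + cC (-2663) 10000 * e
  eL := ⟨cC (94613) 5000 + cC (-311717) 5000 * xD + cC (-229) 1000 * xV + cC (313843) 10000 * (xD * xV) + cC (-127) 10000 * (xV * xV) + cC (-992701) 10000 * xS,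
    cC 0,
    cC 0,
    cC 0,
    cC 0⟩
  eH := ⟨cC (11013) 1250 + cC (-446899) 5000 * xD + cC (-3757) 10000 * xV + cC (57787) 1000 * (xD * xV) + cC (-1) 200 * (xV * xV) + cC (-244027) 5000 * xS,
    cC 0,
    cC 0,
    cC 0,
    cC 0⟩
  pL := ⟨cC (46847) 2500 + cC (-8453) 1000 * xD + cC (-271) 10000 * xV + cC (5073) 10000 * (xD * xV) + cC (-1157) 10000 * (xV * xV) + cC (-192957) 10000 * xS,
    cC (19) 2500 + cC (-3111) 10000 * xD + cC (-361) 5000 * xV,
    cC 0,
    cC 0,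
    cC 0⟩
  pU := ⟨cC (289813) 10000 + cC (61157) 5000 * xD + cC (12467) 5000 * xV + cC (116059) 5000 * (xD * xV) + cC (947) 5000 * (xV * xV) + cC (-200627) 5000 * xS,
    cC (-1017) 10000 + cC (8867) 10000 * xD + cC (-893) 10000 * xV,
    cC 0,
    cC 0,
    cC 0⟩
  kU := ⟨cC (-1003) 10000 + cC (3173) 10000 * xD + cC (-43) 5000 * xV + cC (1937) 5000 * (xD * xV) + cC (11) 10000 * (xV * xV) + cC (841) 5000 * xS,
    cC (-51) 10000 + cC (2271) 2500 * xD,
    cC (-11) 10000 + cC (991) 10000 * xD,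
    cC 0,
    cC 0⟩
  kL := ⟨cC (-549) 10000 + cC (-451) 10000 * xD + cC (-127) 10000 * xV + cC (1109) 2500 * (xD * xV) + cC (-1) 10000 * (xV * xV) + cC (1063) 10000 * xS,
    cC (-47) 10000 + cC (2247) 2500 * xD + cC (-1) 5000 * xV,
    cC (-13) 10000 + cC (941) 10000 * xD,
    cC 0,
    cC 0⟩
  wU := ⟨cC (-37603) 5000 + cC (679759) 10000 * xD + cC (7473) 1250 * xV + cC (-93823) 5000 * (xD * xV) + cC (521) 2500 * (xV * xV) + cC (11529) 500 * xS,
    cC (-1587) 10000 + cC (7219) 5000 * xD + cC (-227) 2500 * xV,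
    cC (-5133) 2000 + cC (-4653) 2500 * xD + cC (-591) 10000 * xV,
    cC 0,
    cC 0⟩
  wL := ⟨cC (169991) 10000 + cC (195691) 5000 * xD + cC (109) 400 * xV + cC (-37633) 2500 * (xD * xV) + cC (-7) 2500 * (xV * xV) + cC (-124897) 10000 * xS,
    cC (-1101) 10000 + cC (697) 1000 * xD + cC (-507) 2000 * xV,
    cC (-28101) 10000 + cC (-22741) 10000 * xD + cC (-19) 400 * xV,
    cC 0,
    cC 0⟩

/-- The cut of `bot6`. -/
def bot6Cut : Ex :=
  cC (-156961) 10000 + cC (-546727) 2000 * xD + cC (-19199) 5000 * xV + cC (1614243) 10000 * (xD * xV) + cC (139) 2000 * (xV * xV) + cC (-227579) 10000 * xS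

/-- The bound of `p` above the cut. -/
def bot6PU : Bnd :=
  ⟨cC (148277) 5000 + cC (-6451) 5000 * xD + cC (6683) 5000 * xV + cC (265001) 10000 * (xD * xV) + cC (2269) 10000 * (xV * xV) + cC (-51167) 1250 * xS,
    cC (-64) 625 + cC (7133) 10000 * xD + cC (-1173) 10000 * xV,
    cC 0,
    cC 0,
    cC 0⟩

/-- `bot6` below the cut. -/
def bot6A : Piece :=
  bot6.below bot6Cut

/-- `bot6` above the cut. -/
def bot6B : Piece :=
  { bot6.above bot6Cut bot6PU with
    k2p := fun e => cC (-22111) 5000 + cC (114533) 10000 * xD + cC (1477) 1250 * xV + cC (-351) 2500 * e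
    k2m := fun _ => cC (-27) 5000 + cC (1921) 10000 * xD + cC (29) 10000 * xV
    kapL := fun e => cC (-292891) 5000 + cC (884989) 10000 * xD + cC (116413) 2000 * xV + cC (-5181) 10000 * e
    kapU := fun e => cC (-185661) 10000 + cC (433321) 5000 * xD + cC (215871) 5000 * xV + cC (-1909) 5000 * e }

/-- A piece: `1.16 ≤ v < 1.3`. -/
def bot7 : Piece where
  u₀ := cC (4) 5
  u₁ := cC (-280) 1000 + cC (2334) 1000 * xD + cC (680) 1000 * xV
  tLn := botTn
  tLd := botTd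
  tUn := botUn
  tUd := botUd
  p₀ := cC (257369) 10000 + cC (-204109) 10000 * xD + cC (-199) 50 * xV + cC (120169) 10000 * (xD * xV) + cC (12449) 2000 * (xD * xD) + cC (-103663) 5000 * xS
  k2p := fun e => cC (17706937) 250000 + cC (544391) 5000 * xD + cC (-28388) 625 * xV + cC (47) 125 * e
  k2m := fun _ => cC (-7) 1000 + cC (2419) 10000 * xD + cC (2) 625 * xV
  kapL := fun e => cC (-260447) 5000 + cC (1054437) 10000 * xD + cC (550993) 10000 * xV + cC (-33) 80 * e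
  kapU := fun e => cC (-80267) 10000 + cC (771601) 10000 * xD + cC (47419) 1250 * xV + cC (-273) 1000 * e
  eL := ⟨cC (-182217) 2500 + cC (107071) 500 * xD + cC (333933) 5000 * xV + cC (-42717) 5000 * (xD * xV) + cC (4891) 10000 * (xV * xV) + cC (-919291) 10000 * xS,
    cC 0,
    cC 0,
    cC 0,
    cC 0⟩
  eH := ⟨cC (42879) 5000 + cC (-891903) 10000 * xD + cC (-232) 625 * xV + cC (115223) 2000 * (xD * xV) + cC (-1) 200 * (xV * xV) + cC (-242149) 5000 * xS,
    cC 0,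
    cC 0,
    cC 0,
    cC 0⟩
  pL := ⟨cC (203117) 10000 + cC (-83539) 10000 * xD + cC (-1939) 2000 * xV + cC (-5991) 5000 * (xD * xV) + cC (129) 2000 * (xV * xV) + cC (-50923) 2500 * xS,
    cC (423) 10000 + cC (-79) 200 * xD + cC (-991) 10000 * xV,
    cC 0,
    cC 0,
    cC 0⟩
  pU := ⟨cC (724837) 10000 + cC (-186971) 1000 * xD + cC (-223469) 5000 * xV + cC (240873) 2000 * (xD * xV) + cC (120319) 10000 * (xV * xV) + cC (-213769) 5000 * xS,
    cC (1127) 2500 + cC (-12611) 10000 * xD + cC (-4987) 10000 * xV,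
    cC 0,
    cC 0,
    cC 0⟩
  kU := ⟨cC (-443) 10000 + cC (149) 1000 * xD + cC (-33) 2500 * xV + cC (3437) 10000 * (xD * xV) + cC (-9) 5000 * (xV * xV) + cC (1001) 10000 * xS,
    cC (-1) 200 + cC (4531) 5000 * xD + cC (-1) 10000 * xV,
    cC (-3) 1250 + cC (277) 2500 * xD + cC (1) 1250 * xV,
    cC 0,
    cC 0⟩
  kL := ⟨cC (-527) 10000 + cC (31) 80 * xD + cC (-93) 5000 * xV + cC (253) 1000 * (xD * xV) + cC (-13) 5000 * (xV * xV) + cC (217) 2000 * xS,
    cC (-1) 200 + cC (9079) 10000 * xD + cC (-1) 5000 * xV,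
    cC (-1) 250 + cC (509) 5000 * xD + cC (21) 10000 * xV,
    cC 0,
    cC 0⟩
  wU := ⟨cC (7242) 625 + cC (357671) 10000 * xD + cC (2729) 2000 * xV + cC (-512897) 10000 * (xD * xV) + cC (-1817) 200 * (xV * xV) + cC (64129) 2500 * xS,
    cC (-1099) 2500 + cC (12443) 5000 * xD + cC (1169) 10000 * xV,
    cC (-28099) 5000 + cC (6669) 1250 * xD + cC (23279) 10000 * xV,
    cC 0,
    cC 0⟩
  wL := ⟨cC (8688) 625 + cC (1023237) 10000 * xD + cC (60611) 2000 * xV + cC (-718931) 5000 * (xD * xV) + cC (-108003) 5000 * (xV * xV) + cC (-114001) 10000 * xS,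
    cC (-4873) 10000 + cC (17351) 10000 * xD + cC (201) 5000 * xV,
    cC (-38503) 5000 + cC (55367) 5000 * xD + cC (9323) 2500 * xV,
    cC 0,
    cC 0⟩

/-- The cut of `bot7`. -/
def bot7Cut : Ex :=
  cC (-380133) 2500 + cC (2815073) 5000 * xD + cC (1381419) 10000 * xV + cC (-1486863) 5000 * (xD * xV) + cC (-63967) 2000 * (xV * xV) + cC (-165231) 10000 * xS

/-- The bound of `p` above the cut. -/
def bot7PU : Bnd :=
  ⟨cC (139097) 2500 + cC (-1345191) 10000 * xD + cC (-250741) 10000 * xV + cC (43301) 500 * (xD * xV) + cC (64483) 10000 * (xV * xV) + cC (-431717) 10000 * xS,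
    cC (747) 2500 + cC (-5621) 5000 * xD + cC (-101) 250 * xV,
    cC 0,
    cC 0,
    cC 0⟩

/-- `bot7` below the cut. -/
def bot7A : Piece :=
  bot7.below bot7Cut

/-- `bot7` above the cut. -/
def bot7B : Piece :=
  { bot7.above bot7Cut bot7PU with
    k2p := fun e => cC (-17009) 5000 + cC (422307) 5000 * xD + cC (653) 2500 * xV + cC (-271) 5000 * e
    k2m := fun _ => cC (-3) 250 + cC (1921) 10000 * xD + cC (43) 5000 * xV
    kapL := fun e => cC (-564687) 10000 + cC (179809) 2000 * xD + cC (566123) 10000 * xV + cC (-1267) 2500 * e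
    kapU := fun e => cC (-7457) 625 + cC (183149) 2000 * xD + cC (193249) 5000 * xV + cC (-3421) 10000 * e }

/-- A piece: `1.3 ≤ v < 1.6`. -/
def bot8 : Piece where
  u₀ := cC (4) 5
  u₁ := cC (243) 1000 + cC (1364) 1000 * xD + cC (305) 1000 * xV
  tLn := botTn
  tLd := botTd
  tUn := botUn
  tUd := botUd
  p₀ := cC (256461) 10000 + cC (-196467) 10000 * xD + cC (-39713) 10000 * xV + cC (117629) 10000 * (xD * xV) + cC (8259) 10000 * (xD * xD) + cC (-206133) 10000 * xS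
  k2p := fun e => cC (141007) 10000 + cC (391177) 10000 * xD + cC (-3957) 500 * xV + cC (773) 10000 * e
  k2m := fun _ => cC (-127) 10000 + cC (219) 500 * xD + cC (19) 5000 * xV
  kapL := fun e => cC (-266039) 5000 + cC (833963) 10000 * xD + cC (133619) 2500 * xV + cC (-221) 400 * e
  kapU := fun e => cC (-183597) 10000 + cC (96741) 1000 * xD + cC (40009) 1000 * xV + cC (-4743) 10000 * e
  eL := ⟨cC (-2981) 80 + cC (225417) 2500 * xD + cC (7567) 250 * xV + cC (5513) 400 * (xD * xV) + cC (153) 1250 * (xV * xV) + cC (-653449) 10000 * xS,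
    cC 0,
    cC 0,
    cC 0,
    cC 0⟩
  eH := ⟨cC (16143) 2000 + cC (-439673) 5000 * xD + cC (-3811) 10000 * xV + cC (29007) 500 * (xD * xV) + cC (-51) 10000 * (xV * xV) + cC (-476653) 10000 * xS,
    cC 0,
    cC 0,
    cC 0,
    cC 0⟩
  pL := ⟨cC (107661) 5000 + cC (-22363) 2500 * xD + cC (-1419) 1250 * xV + cC (181) 2000 * (xD * xV) + cC (349) 5000 * (xV * xV) + cC (-221499) 10000 * xS,
    cC (457) 10000 + cC (-409) 1250 * xD + cC (-13) 125 * xV,
    cC 0,
    cC 0,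
    cC 0⟩
  pU := ⟨cC (201047) 5000 + cC (-212411) 2500 * xD + cC (-16723) 2500 * xV + cC (34646) 625 * (xD * xV) + cC (1253) 1000 * (xV * xV) + cC (-54649) 1250 * xS,
    cC (1121) 10000 + cC (-67) 80 * xD + cC (-2769) 10000 * xV,
    cC 0,
    cC 0,
    cC 0⟩
  kU := ⟨cC (-1) 20 + cC (611) 10000 * xD + cC (-89) 10000 * xV + cC (553) 2000 * (xD * xV) + cC (-1) 1000 * (xV * xV) + cC (209) 2000 * xS,
    cC (-49) 10000 + cC (1129) 1250 * xD + cC (-1) 10000 * xV,
    cC (-1) 400 + cC (269) 2000 * xD + cC (1) 2500 * xV,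
    cC 0,
    cC 0⟩
  kL := ⟨cC (-371) 2500 + cC (7219) 5000 * xD + cC (6) 625 * xV + cC (-221) 625 * (xD * xV) + cC (-9) 10000 * (xV * xV) + cC (371) 2000 * xS,
    cC (-3) 500 + cC (9389) 10000 * xD + cC (-1) 5000 * xV,
    cC (-23) 5000 + cC (343) 2000 * xD + cC (1) 1250 * xV,
    cC 0,
    cC 0⟩
  wU := ⟨cC (-86647) 10000 + cC (100013) 2000 * xD + cC (51049) 10000 * xV + cC (-98851) 2500 * (xD * xV) + cC (-39079) 10000 * (xV * xV) + cC (317753) 10000 * xS,
    cC (-177) 625 + cC (2133) 1250 * xD + cC (-43) 5000 * xV,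
    cC (-17509) 5000 + cC (4393) 2500 * xD + cC (8561) 10000 * xV,
    cC 0,
    cC 0⟩
  wL := ⟨cC (11414) 625 + cC (1399) 200 * xD + cC (-2688) 625 * xV + cC (-23413) 1000 * (xD * xV) + cC (-3463) 2000 * (xV * xV) + cC (-22053) 10000 * xS,
    cC (-769) 5000 + cC (10069) 10000 * xD + cC (-167) 1000 * xV,
    cC (-2526) 625 + cC (9003) 2500 * xD + cC (2299) 2000 * xV,
    cC 0,
    cC 0⟩

/-- A piece: `1.04 ≤ v < 1.085`. -/
def bot9 : Piece where
  u₀ := cC (127) 200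
  u₁ := cC (120) 200
  tLn := botTn
  tLd := botTd
  tUn := botUn
  tUd := botUd
  p₀ := cC (126791) 5000 + cC (-100321) 5000 * xD + cC (-3967) 1000 * xV + cC (4663) 400 * (xD * xV) + cC (80481) 10000 * (xD * xD) + cC (-201279) 10000 * xS
  k2p := fun e => cC (-391281) 10000 + cC (1316701) 5000 * xD + cC (425831) 10000 * xV + cC (293) 1000 * e
  k2m := fun _ => cC (-127) 10000 + cC (2447) 10000 * xD + cC (37) 5000 * xV
  kapL := fun e => cC (-33576) 625 + cC (949747) 10000 * xD + cC (285369) 5000 * xV + cC (-4121) 10000 * e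
  kapU := fun e => cC (-28727) 2000 + cC (550621) 10000 * xD + cC (443079) 10000 * xV + cC (-1373) 5000 * e
  eL := ⟨cC (11084) 625 + cC (-93113) 2000 * xD + cC (4701) 10000 * xV + cC (18813) 1000 * (xD * xV) + cC (-761) 10000 * (xV * xV) + cC (-984829) 10000 * xS,
    cC 0,
    cC 0,
    cC 0,
    cC 0⟩
  eH := ⟨cC (155103) 10000 + cC (-650383) 10000 * xD + cC (-2851) 5000 * xV + cC (532773) 10000 * (xD * xV) + cC (7) 1000 * (xV * xV) + cC (-875057) 10000 * xS,
    cC 0,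
    cC 0,
    cC 0,
    cC 0⟩
  pL := ⟨cC (205131) 10000 + cC (-8984) 625 * xD + cC (1131) 10000 * xV + cC (4301) 2000 * (xD * xV) + cC (-7) 80 * (xV * xV) + cC (-43971) 2000 * xS,
    cC (9) 1250 + cC (-3797) 10000 * xD + cC (-659) 10000 * xV,
    cC 0,
    cC 0,
    cC 0⟩
  pU := ⟨cC (52157) 2000 + cC (661717) 10000 * xD + cC (22729) 10000 * xV + cC (38841) 2000 * (xD * xV) + cC (269) 500 * (xV * xV) + cC (-198717) 5000 * xS,
    cC (-901) 5000 + cC (23041) 10000 * xD + cC (-161) 2000 * xV,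
    cC 0,
    cC 0,
    cC 0⟩
  kU := ⟨cC (-67) 500 + cC (2953) 10000 * xD + cC (-43) 5000 * xV + cC (5263) 10000 * (xD * xV) + cC (-3) 10000 * (xV * xV) + cC (1153) 5000 * xS,
    cC (-1) 200 + cC (9077) 10000 * xD,
    cC (-11) 5000 + cC (74) 625 * xD,
    cC 0,
    cC 0⟩
  kL := ⟨cC (-63) 5000 + cC (-18967) 10000 * xD + cC (-263) 10000 * xV + cC (5979) 10000 * (xD * xV) + cC (3) 10000 * (xV * xV) + cC (2057) 10000 * xS,
    cC (-1) 500 + cC (4241) 5000 * xD + cC (-3) 10000 * xV,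
    cC (-11) 10000 + cC (481) 5000 * xD,
    cC 0,
    cC 0⟩
  wU := ⟨cC (-41189) 2500 + cC (486613) 10000 * xD + cC (125093) 10000 * xV + cC (-24741) 1250 * (xD * xV) + cC (-79) 250 * (xV * xV) + cC (216543) 5000 * xS,
    cC (-1077) 10000 + cC (6853) 10000 * xD + cC (237) 10000 * xV,
    cC (-14121) 5000 + cC (-23413) 10000 * xD + cC (-559) 10000 * xV,
    cC 0,
    cC 0⟩
  wL := ⟨cC (269521) 10000 + cC (11247) 1000 * xD + cC (9013) 10000 * xV + cC (-153733) 10000 * (xD * xV) + cC (-953) 10000 * (xV * xV) + cC (-17394) 625 * xS,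
    cC (-999) 10000 + cC (19) 1250 * xD + cC (-471) 2000 * xV,
    cC (-28389) 10000 + cC (-11141) 5000 * xD + cC (-133) 5000 * xV,
    cC 0,
    cC 0⟩

/-- A piece: `1.085 ≤ v < 1.14`. -/
def bot10 : Piece where
  u₀ := cC (127) 200
  u₁ := cC (120) 200
  tLn := botTn
  tLd := botTd
  tUn := botUn
  tUd := botUd
  p₀ := cC (63459) 2500 + cC (-199903) 10000 * xD + cC (-3967) 1000 * xV + cC (4663) 400 * (xD * xV) + cC (17883) 2500 * (xD * xD) + cC (-50431) 2500 * xS
  k2p := fun e => cC (-106271) 5000 + cC (2904219) 10000 * xD + cC (226933) 5000 * xV + cC (2171) 2500 * e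
  k2m := fun _ => cC (-183) 10000 + cC (2447) 10000 * xD + cC (1) 80 * xV
  kapL := fun e => cC (-60989) 2000 + cC (-99241) 2500 * xD + cC (281583) 5000 * xV + cC (-59) 10000 * e
  kapU := fun e => cC (-706923) 10000 + cC (556421) 10000 * xD + cC (453109) 10000 * xV + cC (-8031) 5000 * e
  eL := ⟨cC (11669) 625 + cC (-137239) 2000 * xD + cC (-761) 1250 * xV + cC (391729) 10000 * (xD * xV) + cC (-196487) 2000 * xS,
    cC 0,
    cC 0,
    cC 0,
    cC 0⟩
  eH := ⟨cC (159743) 10000 + cC (-650081) 10000 * xD + cC (-1391) 2500 * xV + cC (66643) 1250 * (xD * xV) + cC (-220737) 2500 * xS,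
    cC 0,
    cC 0,
    cC 0,
    cC 0⟩
  pL := ⟨cC (66561) 10000 + cC (804643) 2500 * xD + cC (-4611) 10000 * xV + cC (25789) 2000 * (xD * xV) + cC (-7791) 10000 * (xV * xV) + cC (458423) 10000 * (xD * xD) + cC (-98897) 5000 * xS,
    cC (-1557) 5000 + cC (43527) 5000 * xD + cC (-1067) 10000 * xV,
    cC 0,
    cC 0,
    cC 0⟩
  pU := ⟨cC (-557591) 5000 + cC (8005513) 10000 * xD + cC (14249) 2500 * xV + cC (-891589) 2500 * (xD * xV) + cC (7589) 10000 * (xV * xV) + cC (-3120241) 5000 * (xD * xD) + cC (6635541) 10000 * xS,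
    cC (68761) 10000 + cC (15581) 2000 * xD + cC (-897) 10000 * xV,
    cC 0,
    cC 0,
    cC 0⟩
  kU := ⟨cC (-1149) 10000 + cC (-423) 625 * xD + cC (-21) 2000 * xV + cC (343) 625 * (xD * xV) + cC (19363) 1250 * (xD * xD) + cC (2239) 10000 * xS,
    cC (-53) 10000 + cC (4583) 5000 * xD,
    cC (-1) 500 + cC (557) 5000 * xD + cC (1) 10000 * xV,
    cC 0,
    cC 0⟩
  kL := ⟨cC (-1041) 10000 + cC (-2411) 2500 * xD + cC (-17) 1000 * xV + cC (5371) 10000 * (xD * xV) + cC (-1) 1000 * (xV * xV) + cC (72511) 5000 * (xD * xD) + cC (2219) 10000 * xS,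
    cC (-49) 10000 + cC (9067) 10000 * xD + cC (-1) 5000 * xV,
    cC (-19) 10000 + cC (1087) 10000 * xD + cC (1) 10000 * xV,
    cC 0,
    cC 0⟩
  wU := ⟨cC (84279) 5000 + cC (127733) 10000 * xD + cC (48127) 5000 * xV + cC (-118881) 5000 * (xD * xV) + cC (-1539) 5000 * (xV * xV) + cC (-237689) 10000 * (xD * xD) + cC (-261) 80 * xS,
    cC (27) 2500 + cC (-2123) 10000 * xD + cC (-39) 1000 * xV,
    cC (-3607) 1250 + cC (-9327) 5000 * xD + cC (-179) 10000 * xV,
    cC 0,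
    cC 0⟩
  wL := ⟨cC (266851) 10000 + cC (281027) 5000 * xD + cC (3831) 2500 * xV + cC (-200273) 10000 * (xD * xV) + cC (-577) 2500 * (xV * xV) + cC (266719) 10000 * (xD * xD) + cC (-19893) 625 * xS,
    cC (-1689) 10000 + cC (6323) 5000 * xD + cC (-579) 2500 * xV,
    cC (-5749) 2000 + cC (-16459) 10000 * xD + cC (-27) 1250 * xV,
    cC 0,
    cC 0⟩

/-- The cut of `bot10`. -/
def bot10Cut : Ex :=
  cC (86987) 5000 + cC (-298799) 5000 * xD + cC (-2617) 5000 * xV + cC (499891) 10000 * (xD * xV) + cC (-965993) 10000 * xS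

/-- The bound of `p` above the cut. -/
def bot10PU : Bnd :=
  ⟨cC (293849) 10000 + cC (233467) 10000 * xD + cC (23291) 10000 * xV + cC (1021) 50 * (xD * xV) + cC (3831) 10000 * (xV * xV) + cC (-3166153) 10000 * (xD * xD) + cC (-10121) 250 * xS,
    cC (-903) 10000 + cC (1087) 2000 * xD + cC (-853) 10000 * xV,
    cC 0,
    cC 0,
    cC 0⟩

/-- `bot10` below the cut. -/
def bot10A : Piece :=
  bot10.below bot10Cut

/-- `bot10` above the cut. -/
def bot10B : Piece :=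
  { bot10.above bot10Cut bot10PU with
    k2p := fun e => cC (-50929) 2000 + cC (536851) 1250 * xD + cC (216969) 10000 * xV + cC (1403) 5000 * e
    k2m := fun _ => cC (-183) 10000 + cC (2447) 10000 * xD + cC (1) 80 * xV
    kapL := fun e => cC (-528223) 10000 + cC (1233747) 10000 * xD + cC (561151) 10000 * xV + cC (-3869) 10000 * e
    kapU := fun e => cC (-12751) 1000 + cC (322223) 5000 * xD + cC (213931) 5000 * xV + cC (-663) 2500 * e }

/-- A piece: `1.14 ≤ v < 1.22`. -/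
def bot11 : Piece where
  u₀ := cC (127) 200
  u₁ := cC (33) 1000 + cC (1449) 1000 * xD + cC (433) 1000 * xV
  tLn := botTn
  tLd := botTd
  tUn := botUn
  tUd := botUd
  p₀ := cC (254187) 10000 + cC (-99429) 5000 * xD + cC (-3967) 1000 * xV + cC (4663) 400 * (xD * xV) + cC (11773) 2000 * (xD * xD) + cC (-10117) 500 * xS
  k2p := fun e => cC (1143293) 10000 + cC (145749) 2500 * xD + cC (-132179) 2000 * xV + cC (789) 1000 * e
  k2m := fun _ => cC (-81) 5000 + cC (621) 2000 * xD + cC (41) 5000 * xV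
  kapL := fun e => cC (-340897) 10000 + cC (-159323) 5000 * xD + cC (123257) 2500 * xV + cC (-709) 2500 * e
  kapU := fun e => cC (-1420423) 10000 + cC (602131) 2500 * xD + cC (199631) 2000 * xV + cC (-16019) 10000 * e
  eL := ⟨cC (-5009) 125 + cC (144653) 1250 * xD + cC (217757) 5000 * xV + cC (883) 625 * (xD * xV) + cC (-137) 2000 * (xV * xV) + cC (33579) 5000 * (xD * xD) + cC (-120061) 1250 * xS,
    cC 0,
    cC 0,
    cC 0,
    cC 0⟩
  eH := ⟨cC (155411) 10000 + cC (-709873) 10000 * xD + cC (-1169) 2000 * xV + cC (534019) 10000 * (xD * xV) + cC (53) 5000 * (xV * xV) + cC (642749) 10000 * (xD * xD) + cC (-873227) 10000 * xS,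
    cC 0,
    cC 0,
    cC 0,
    cC 0⟩
  pL := ⟨cC (-131189) 2000 + cC (12034883) 10000 * xD + cC (370209) 5000 * xV + cC (-1236633) 2500 * (xD * xV) + cC (-40261) 2500 * (xV * xV) + cC (-16705751) 5000 * (xD * xD) + cC (-4189) 200 * xS,
    cC (-7997) 10000 + cC (42011) 5000 * xD + cC (123) 400 * xV,
    cC 0,
    cC 0,
    cC 0⟩
  pU := ⟨cC (5681917) 10000 + cC (-16705751) 5000 * xD + cC (-5636361) 10000 * xV + cC (10606037) 10000 * (xD * xV) + cC (131123) 2000 * (xV * xV) + cC (16705751) 5000 * (xD * xD) + cC (6599161) 10000 * xS,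
    cC (18757) 2000 + cC (-23763) 1250 * xD + cC (-2403) 2000 * xV,
    cC 0,
    cC 0,
    cC 0⟩
  kU := ⟨cC (-613) 10000 + cC (-781) 625 * xD + cC (-13) 625 * xV + cC (5019) 10000 * (xD * xV) + cC (-23) 2500 * (xV * xV) + cC (78531) 5000 * (xD * xD) + cC (2233) 10000 * xS,
    cC (-47) 10000 + cC (9063) 10000 * xD + cC (-1) 10000 * xV,
    cC (-23) 5000 + cC (78) 625 * xD + cC (9) 5000 * xV,
    cC 0,
    cC 0⟩
  kL := ⟨cC (-437) 5000 + cC (-10739) 10000 * xD + cC (-91) 5000 * xV + cC (203) 400 * (xD * xV) + cC (-93) 10000 * (xV * xV) + cC (36893) 2500 * (xD * xD) + cC (2237) 10000 * xS,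
    cC (-49) 10000 + cC (1813) 2000 * xD + cC (-1) 5000 * xV,
    cC (-49) 10000 + cC (1197) 10000 * xD + cC (23) 10000 * xV,
    cC 0,
    cC 0⟩
  wU := ⟨cC (13999) 625 + cC (611587) 10000 * xD + cC (227291) 10000 * xV + cC (-49468) 625 * (xD * xV) + cC (-167667) 10000 * (xV * xV) + cC (82837) 5000 * (xD * xD) + cC (7) 100 * xS,
    cC (-271) 625 + cC (23797) 10000 * xD + cC (609) 2500 * xV,
    cC (-7467) 1250 + cC (51033) 10000 * xD + cC (23757) 10000 * xV,
    cC 0,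
    cC 0⟩
  wL := ⟨cC (22893) 625 + cC (663663) 10000 * xD + cC (41539) 5000 * xV + cC (-420927) 5000 * (xD * xV) + cC (-29181) 2500 * (xV * xV) + cC (-95049) 2000 * (xD * xD) + cC (-305883) 10000 * xS,
    cC (-807) 2500 + cC (3557) 2000 * xD + cC (-231) 2000 * xV,
    cC (-63907) 10000 + cC (73693) 10000 * xD + cC (5327) 2000 * xV,
    cC 0,
    cC 0⟩

/-- The cut of `bot11`. -/
def bot11Cut : Ex :=
  cC (-450897) 10000 + cC (100281) 625 * xD + cC (32318) 625 * xV + cC (-32069) 5000 * (xD * xV) + cC (-31257) 10000 * (xV * xV) + cC (-89444) 625 * (xD * xD) + cC (-60921) 625 * xS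

/-- The bound of `p` above the cut. -/
def bot11PU : Bnd :=
  ⟨cC (435769) 10000 + cC (-73223) 5000 * xD + cC (-113287) 10000 * xV + cC (44009) 1250 * (xD * xV) + cC (14783) 5000 * (xV * xV) + cC (-2982933) 10000 * (xD * xD) + cC (-209753) 5000 * xS,
    cC (1313) 10000 + cC (87) 1250 * xD + cC (-2573) 10000 * xV,
    cC 0,
    cC 0,
    cC 0⟩

/-- `bot11` below the cut. -/
def bot11A : Piece :=
  bot11.below bot11Cut

/-- `bot11` above the cut. -/
def bot11B : Piece :=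
  { bot11.above bot11Cut bot11PU with
    k2p := fun e => cC (590969) 10000 + cC (1627847) 10000 * xD + cC (-84457) 2000 * xV + cC (2349) 10000 * e
    k2m := fun _ => cC (-81) 5000 + cC (621) 2000 * xD + cC (41) 5000 * xV
    kapL := fun e => cC (-84923) 2500 + cC (103779) 5000 * xD + cC (96931) 2000 * xV + cC (-617) 2500 * e
    kapU := fun e => cC (-91867) 10000 + cC (28613) 500 * xD + cC (25054) 625 * xV + cC (-1311) 5000 * e }

/-- A piece: `1.04 ≤ v < 1.14`. -/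
def bot12 : Piece where
  u₀ := cC (4) 5
  u₁ := cC (127) 200
  tLn := botTn
  tLd := botTd
  tUn := botUn
  tUd := botUd
  p₀ := cC (253717) 10000 + cC (-25003) 1250 * xD + cC (-39667) 10000 * xV + cC (116513) 10000 * (xD * xV) + cC (73857) 10000 * (xD * xD) + cC (-100763) 5000 * xS
  k2p := fun e => cC (-116233) 10000 + cC (57317) 5000 * xD + cC (25701) 10000 * xV + cC (-4001) 10000 * e
  k2m := fun _ => cC (-17) 1000 + cC (449) 2000 * xD + cC (61) 5000 * xV
  kapL := fun e => cC (-73647) 1250 + cC (786253) 10000 * xD + cC (291903) 5000 * xV + cC (-2691) 5000 * e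
  kapU := fun e => cC (-95357) 5000 + cC (615327) 10000 * xD + cC (435129) 10000 * xV + cC (-4181) 10000 * e
  eL := ⟨cC (41567) 2500 + cC (-681143) 10000 * xD + cC (-1711) 5000 * xV + cC (73873) 2000 * (xD * xV) + cC (-343) 10000 * (xV * xV) + cC (-447581) 5000 * xS,
    cC 0,
    cC 0,
    cC 0,
    cC 0⟩
  eH := ⟨cC (927) 125 + cC (-54676) 625 * xD + cC (-273) 625 * xV + cC (59711) 1000 * (xD * xV) + cC (-17) 1250 * (xV * xV) + cC (-466267) 10000 * xS,
    cC 0,
    cC 0,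
    cC 0,
    cC 0⟩
  pL := ⟨cC (12008) 625 + cC (-50667) 5000 * xD + cC (-339) 1000 * xV + cC (3513) 2500 * (xD * xV) + cC (-111) 5000 * (xV * xV) + cC (-196849) 10000 * xS,
    cC (87) 10000 + cC (-719) 2500 * xD + cC (-187) 2500 * xV,
    cC 0,
    cC 0,
    cC 0⟩
  pU := ⟨cC (35509) 1250 + cC (-43561) 10000 * xD + cC (4709) 10000 * xV + cC (141963) 5000 * (xD * xV) + cC (1003) 2500 * (xV * xV) + cC (-19659) 500 * xS,
    cC (-629) 5000 + cC (2267) 2500 * xD + cC (-333) 2500 * xV,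
    cC 0,
    cC 0,
    cC 0⟩
  kU := ⟨cC (-74) 625 + cC (2957) 10000 * xD + cC (-71) 5000 * xV + cC (873) 2000 * (xD * xV) + cC (9) 5000 * (xV * xV) + cC (249) 1250 * xS,
    cC (-51) 10000 + cC (2273) 2500 * xD + cC (-1) 10000 * xV,
    cC (-11) 5000 + cC (167) 1250 * xD + cC (-1) 10000 * xV,
    cC 0,
    cC 0⟩
  kL := ⟨cC (-989) 10000 + cC (211) 5000 * xD + cC (-41) 2000 * xV + cC (103) 200 * (xD * xV) + cC (-1) 5000 * (xV * xV) + cC (1773) 10000 * xS,
    cC (-47) 10000 + cC (9009) 10000 * xD + cC (-3) 10000 * xV,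
    cC (-23) 10000 + cC (607) 5000 * xD + cC (1) 10000 * xV,
    cC 0,
    cC 0⟩
  wU := ⟨cC (-114149) 10000 + cC (217839) 5000 * xD + cC (12061) 2500 * xV + cC (-40751) 2500 * (xD * xV) + cC (1727) 5000 * (xV * xV) + cC (32343) 1250 * xS,
    cC (-817) 5000 + cC (2091) 2000 * xD + cC (-957) 10000 * xV,
    cC (-5661) 2500 + cC (-788) 625 * xD + cC (-1137) 10000 * xV,
    cC 0,
    cC 0⟩
  wL := ⟨cC (126913) 10000 + cC (33081) 1000 * xD + cC (113) 200 * xV + cC (-131051) 10000 * (xD * xV) + cC (-1601) 10000 * (xV * xV) + cC (-18927) 2500 * xS,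
    cC (-219) 2000 + cC (1293) 2000 * xD + cC (-2349) 10000 * xV,
    cC (-6559) 2500 + cC (-9973) 5000 * xD + cC (-9) 250 * xV,
    cC 0,
    cC 0⟩

/-- A piece: `1.14 ≤ v < 1.18`. -/
def bot13 : Piece where
  u₀ := cC (4) 5
  u₁ := cC (127) 200
  tLn := botTn
  tLd := botTd
  tUn := botUn
  tUd := botUd
  p₀ := cC (63533) 2500 + cC (-99697) 5000 * xD + cC (-39677) 10000 * xV + cC (14593) 1250 * (xD * xV) + cC (62939) 10000 * (xD * xD) + cC (-12639) 625 * xS
  k2p := fun e => cC (-98913) 5000 + cC (806459) 2500 * xD + cC (70091) 5000 * xV + cC (789) 5000 * e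
  k2m := fun _ => cC (-153) 10000 + cC (2901) 10000 * xD + cC (81) 10000 * xV
  kapL := fun e => cC (-133619) 2500 + cC (891127) 10000 * xD + cC (556899) 10000 * xV + cC (-449) 1000 * e
  kapU := fun e => cC (-71821) 5000 + cC (717177) 10000 * xD + cC (422079) 10000 * xV + cC (-621) 2000 * e
  eL := ⟨cC (80929) 5000 + cC (-311347) 5000 * xD + cC (-71) 2500 * xV + cC (6281) 200 * (xD * xV) + cC (-611) 10000 * (xV * xV) + cC (-892841) 10000 * xS,
    cC 0,
    cC 0,
    cC 0,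
    cC 0⟩
  eH := ⟨cC (70443) 10000 + cC (-437259) 5000 * xD + cC (-271) 625 * xV + cC (37272) 625 * (xD * xV) + cC (-137) 10000 * (xV * xV) + cC (-230049) 5000 * xS,
    cC 0,
    cC 0,
    cC 0,
    cC 0⟩
  pL := ⟨cC (24057) 1250 + cC (-2643) 250 * xD + cC (-563) 5000 * xV + cC (8043) 5000 * (xD * xV) + cC (-303) 2500 * (xV * xV) + cC (-9971) 500 * xS,
    cC (23) 2500 + cC (-2951) 10000 * xD + cC (-749) 10000 * xV,
    cC 0,
    cC 0,
    cC 0⟩
  pU := ⟨cC (11603) 400 + cC (117983) 10000 * xD + cC (9769) 5000 * xV + cC (117601) 5000 * (xD * xV) + cC (2519) 10000 * (xV * xV) + cC (-409779) 10000 * xS,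
    cC (-1241) 10000 + cC (2767) 2500 * xD + cC (-63) 625 * xV,
    cC 0,
    cC 0,
    cC 0⟩
  kU := ⟨cC (-161) 1250 + cC (3859) 10000 * xD + cC (-131) 10000 * xV + cC (589) 1250 * (xD * xV) + cC (3) 5000 * (xV * xV) + cC (1069) 5000 * xS,
    cC (-51) 10000 + cC (9107) 10000 * xD + cC (-1) 10000 * xV,
    cC (-11) 5000 + cC (1267) 10000 * xD,
    cC 0,
    cC 0⟩
  kL := ⟨cC (-1079) 10000 + cC (501) 2500 * xD + cC (-31) 2500 * xV + cC (669) 2000 * (xD * xV) + cC (-1) 5000 * (xV * xV) + cC (229) 1250 * xS,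
    cC (-23) 5000 + cC (4499) 5000 * xD + cC (-3) 10000 * xV,
    cC (-23) 10000 + cC (1219) 10000 * xD + cC (1) 10000 * xV,
    cC 0,
    cC 0⟩
  wU := ⟨cC (-123971) 10000 + cC (135889) 2000 * xD + cC (64337) 10000 * xV + cC (-180953) 10000 * (xD * xV) + cC (33) 2000 * (xV * xV) + cC (281861) 10000 * xS,
    cC (-1683) 10000 + cC (818) 625 * xD + cC (-353) 5000 * xV,
    cC (-1507) 625 + cC (-23227) 10000 * xD + cC (-43) 625 * xV,
    cC 0,
    cC 0⟩
  wL := ⟨cC (134299) 10000 + cC (384459) 10000 * xD + cC (1263) 2500 * xV + cC (-33961) 2000 * (xD * xV) + cC (-127) 5000 * (xV * xV) + cC (-90509) 10000 * xS,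
    cC (-1151) 10000 + cC (88) 125 * xD + cC (-581) 2500 * xV,
    cC (-13151) 5000 + cC (-4817) 2500 * xD + cC (-167) 5000 * xV,
    cC 0,
    cC 0⟩

/-- The cut of `bot13`. -/
def bot13Cut : Ex :=
  cC (-3937) 400 + cC (-615613) 2500 * xD + cC (-98383) 5000 * xV + cC (1242781) 10000 * (xD * xV) + cC (18293) 2500 * (xV * xV) + cC (-112253) 10000 * xS

/-- The bound of `p` above the cut. -/
def bot13PU : Bnd :=
  ⟨cC (72971) 2500 + cC (1489) 80 * xD + cC (3617) 10000 * xV + cC (23933) 1000 * (xD * xV) + cC (6001) 10000 * (xV * xV) + cC (-206627) 5000 * xS,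
    cC (-351) 2500 + cC (2829) 2000 * xD + cC (-1259) 10000 * xV,
    cC 0,
    cC 0,
    cC 0⟩

/-- `bot13` below the cut. -/
def bot13A : Piece :=
  bot13.below bot13Cut

/-- `bot13` above the cut. -/
def bot13B : Piece :=
  { bot13.above bot13Cut bot13PU with
    k2p := fun e => cC (-72263) 10000 + cC (51121) 2000 * xD + cC (10333) 5000 * xV + cC (-391) 2000 * e
    k2m := fun _ => cC (-153) 10000 + cC (2901) 10000 * xD + cC (81) 10000 * xV
    kapL := fun e => cC (-581503) 10000 + cC (748281) 10000 * xD + cC (573327) 10000 * xV + cC (-279) 500 * e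
    kapU := fun e => cC (-2586) 125 + cC (367401) 5000 * xD + cC (443801) 10000 * xV + cC (-1037) 2500 * e }

/-- A piece: `1.18 ≤ v < 1.22`. -/
def bot14 : Piece where
  u₀ := cC (4) 5
  u₁ := cC (-271) 1000 + cC (1328) 1000 * xD + cC (708) 1000 * xV
  tLn := botTn
  tLd := botTd
  tUn := botUn
  tUd := botUd
  p₀ := cC (254329) 10000 + cC (-198843) 10000 * xD + cC (-39677) 10000 * xV + cC (14593) 1250 * (xD * xV) + cC (56187) 10000 * (xD * xD) + cC (-25321) 1250 * xS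
  k2p := fun e => cC (722219) 10000 + cC (2220649) 10000 * xD + cC (-56311) 1000 * xV + cC (299) 1250 * e
  k2m := fun _ => cC (-33) 2000 + cC (621) 2000 * xD + cC (21) 2500 * xV
  kapL := fun e => cC (-21533) 400 + cC (922437) 10000 * xD + cC (112229) 2000 * xV + cC (-276) 625 * e
  kapU := fun e => cC (-114713) 10000 + cC (139757) 2000 * xD + cC (99567) 2500 * xV + cC (-779) 2500 * e
  eL := ⟨cC (-779031) 10000 + cC (651921) 5000 * xD + cC (187893) 2500 * xV + cC (-105531) 5000 * (xD * xV) + cC (-16069) 10000 * (xV * xV) + cC (-441539) 5000 * xS,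
    cC 0,
    cC 0,
    cC 0,
    cC 0⟩
  eH := ⟨cC (37409) 5000 + cC (-436649) 5000 * xD + cC (-1079) 2500 * xV + cC (595877) 10000 * (xD * xV) + cC (-137) 10000 * (xV * xV) + cC (-116871) 2500 * xS,
    cC 0,
    cC 0,
    cC 0,
    cC 0⟩
  pL := ⟨cC (202221) 10000 + cC (-25219) 2500 * xD + cC (-9943) 10000 * xV + cC (3943) 10000 * (xD * xV) + cC (783) 10000 * (xV * xV) + cC (-8089) 400 * xS,
    cC (9) 250 + cC (-3371) 10000 * xD + cC (-959) 10000 * xV,
    cC 0,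
    cC 0,
    cC 0⟩
  pU := ⟨cC (749809) 10000 + cC (-729313) 5000 * xD + cC (-63257) 1250 * xV + cC (203567) 2000 * (xD * xV) + cC (142669) 10000 * (xV * xV) + cC (-51823) 1250 * xS,
    cC (4661) 10000 + cC (-6581) 10000 * xD + cC (-2641) 5000 * xV,
    cC 0,
    cC 0,
    cC 0⟩
  kU := ⟨cC (-967) 10000 + cC (793) 2000 * xD + cC (-26) 625 * xV + cC (381) 1000 * (xD * xV) + cC (41) 10000 * (xV * xV) + cC (539) 2500 * xS,
    cC (-51) 10000 + cC (91) 100 * xD + cC (-1) 10000 * xV,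
    cC (-23) 5000 + cC (331) 2500 * xD + cC (9) 5000 * xV,
    cC 0,
    cC 0⟩
  kL := ⟨cC (-881) 10000 + cC (1047) 2500 * xD + cC (-169) 5000 * xV + cC (837) 2500 * (xD * xV) + cC (-23) 5000 * (xV * xV) + cC (1843) 10000 * xS,
    cC (-1) 200 + cC (2269) 2500 * xD + cC (-3) 10000 * xV,
    cC (-69) 10000 + cC (1251) 10000 * xD + cC (19) 5000 * xV,
    cC 0,
    cC 0⟩
  wU := ⟨cC (9131) 625 + cC (22861) 10000 * xD + cC (-40819) 10000 * xV + cC (-27667) 2000 * (xD * xV) + cC (-42673) 5000 * (xV * xV) + cC (72589) 2500 * xS,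
    cC (-3703) 10000 + cC (7867) 5000 * xD + cC (221) 2500 * xV,
    cC (-11293) 2000 + cC (25603) 10000 * xD + cC (12269) 5000 * xV,
    cC 0,
    cC 0⟩
  wL := ⟨cC (-23523) 10000 + cC (862697) 10000 * xD + cC (267757) 5000 * xV + cC (-489709) 5000 * (xD * xV) + cC (-158481) 5000 * (xV * xV) + cC (-93453) 10000 * xS,
    cC (-577) 1000 + cC (3533) 2500 * xD + cC (1273) 10000 * xV,
    cC (-19263) 2500 + cC (27819) 5000 * xD + cC (39307) 10000 * xV,
    cC 0,
    cC 0⟩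

/-- The cut of `bot14`. -/
def bot14Cut : Ex :=
  cC (-287489) 1000 + cC (-861) 2000 * xD + cC (3702773) 10000 * xV + cC (1020959) 5000 * (xD * xV) + cC (-340243) 2500 * (xV * xV) + cC (-103923) 10000 * xS

/-- The bound of `p` above the cut. -/
def bot14PU : Bnd :=
  ⟨cC (120079) 2000 + cC (-1041707) 5000 * xD + cC (-18034) 625 * xV + cC (1284479) 10000 * (xD * xV) + cC (34839) 5000 * (xV * xV) + cC (-416851) 10000 * xS,
    cC (861) 2500 + cC (-8607) 5000 * xD + cC (-2039) 5000 * xV,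
    cC 0,
    cC 0,
    cC 0⟩

/-- `bot14` below the cut. -/
def bot14A : Piece :=
  bot14.below bot14Cut

/-- `bot14` above the cut. -/
def bot14B : Piece :=
  { bot14.above bot14Cut bot14PU with
    k2p := fun e => cC (-2801) 2500 + cC (920239) 10000 * xD + cC (-39287) 10000 * xV + cC (-317) 2500 * e
    k2m := fun _ => cC (-217) 10000 + cC (2901) 10000 * xD + cC (27) 2000 * xV
    kapL := fun e => cC (-115379) 2000 + cC (196813) 2500 * xD + cC (572889) 10000 * xV + cC (-537) 1000 * e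
    kapU := fun e => cC (-27237) 2000 + cC (849369) 10000 * xD + cC (9847) 250 * xV + cC (-919) 2500 * e }

/-- A piece: `1.22 ≤ v < 1.3`. -/
def bot15 : Piece where
  u₀ := cC (4) 5
  u₁ := cC (-131) 1000 + cC (1221) 1000 * xD + cC (598) 1000 * xV
  tLn := botTn
  tLd := botTd
  tUn := botUn
  tUd := botUd
  p₀ := cC (12729) 500 + cC (-197743) 10000 * xD + cC (-3967) 1000 * xV + cC (4663) 400 * (xD * xV) + cC (45361) 10000 * (xD * xD) + cC (-50757) 2500 * xS
  k2p := fun e => cC (107673) 5000 + cC (2195769) 10000 * xD + cC (-222987) 10000 * xV + cC (-127) 5000 * e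
  k2m := fun _ => cC (-187) 10000 + cC (1767) 5000 * xD + cC (11) 1250 * xV
  kapL := fun e => cC (-35302) 625 + cC (779093) 10000 * xD + cC (35171) 625 * xV + cC (-5399) 10000 * e
  kapU := fun e => cC (-177229) 10000 + cC (406763) 5000 * xD + cC (51743) 1250 * xV + cC (-2119) 5000 * e
  eL := ⟨cC (-346533) 5000 + cC (1088591) 10000 * xD + cC (619789) 10000 * xV + cC (-115793) 10000 * (xD * xV) + cC (-689) 1000 * (xV * xV) + cC (-154433) 2000 * xS,
    cC 0,
    cC 0,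
    cC 0,
    cC 0⟩
  eH := ⟨cC (13467) 2000 + cC (-436887) 5000 * xD + cC (-2147) 5000 * xV + cC (148841) 2500 * (xD * xV) + cC (-69) 5000 * (xV * xV) + cC (-113767) 2500 * xS,
    cC 0,
    cC 0,
    cC 0,
    cC 0⟩
  pL := ⟨cC (103949) 5000 + cC (-97603) 10000 * xD + cC (-3017) 2500 * xV + cC (663) 2000 * (xD * xV) + cC (23) 250 * (xV * xV) + cC (-12989) 625 * xS,
    cC (227) 5000 + cC (-163) 500 * xD + cC (-1039) 10000 * xV,
    cC 0,
    cC 0,
    cC 0⟩
  pU := ⟨cC (11401) 250 + cC (-399729) 5000 * xD + cC (-9492) 625 * xV + cC (118407) 2000 * (xD * xV) + cC (4587) 1250 * (xV * xV) + cC (-416327) 10000 * xS,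
    cC (389) 2000 + cC (-4113) 10000 * xD + cC (-3511) 10000 * xV,
    cC 0,
    cC 0,
    cC 0⟩
  kU := ⟨cC (-13) 125 + cC (187) 1250 * xD + cC (-179) 10000 * xV + cC (4087) 10000 * (xD * xV) + cC (-11) 2500 * (xV * xV) + cC (211) 1000 * xS,
    cC (-1) 200 + cC (9073) 10000 * xD + cC (-1) 10000 * xV,
    cC (-11) 2500 + cC (1433) 10000 * xD + cC (7) 5000 * xV,
    cC 0,
    cC 0⟩
  kL := ⟨cC (-827) 10000 + cC (2071) 5000 * xD + cC (-287) 10000 * xV + cC (147) 500 * (xD * xV) + cC (-39) 10000 * (xV * xV) + cC (1697) 10000 * xS,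
    cC (-1) 200 + cC (4543) 5000 * xD + cC (-3) 10000 * xV,
    cC (-13) 2000 + cC (167) 1250 * xD + cC (2) 625 * xV,
    cC 0,
    cC 0⟩
  wU := ⟨cC (63971) 10000 + cC (43204) 625 * xD + cC (-61931) 10000 * xV + cC (-40373) 1000 * (xD * xV) + cC (-20049) 5000 * (xV * xV) + cC (74241) 2500 * xS,
    cC (-3129) 10000 + cC (4507) 2500 * xD + cC (43) 5000 * xV,
    cC (-231) 50 + cC (2503) 5000 * xD + cC (8847) 5000 * xV,
    cC 0,
    cC 0⟩
  wL := ⟨cC (45781) 5000 + cC (144019) 2500 * xD + cC (117813) 5000 * xV + cC (-646251) 10000 * (xD * xV) + cC (-2057) 125 * (xV * xV) + cC (-62879) 10000 * xS,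
    cC (-4291) 10000 + cC (2609) 2000 * xD + cC (141) 10000 * xV,
    cC (-7943) 1250 + cC (5417) 1250 * xD + cC (5761) 2000 * xV,
    cC 0,
    cC 0⟩

/-- A piece: `0.35 ≤ v < 0.7`. -/
def bot16 : Piece where
  u₀ := cC (160) 200
  u₁ := cC 1 - cC (499) 1000 * xD
  tLn := botTn
  tLd := botTd
  tUn := botUn
  tUd := botUd
  p₀ := cC (64231) 2500 + cC (-216169) 10000 * xD + cC (-7993) 2000 * xV + cC (61257) 5000 * (xD * xV) + cC (234749) 10000 * (xD * xD) + cC (-206233) 10000 * xS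
  k2p := fun _ => cC 0
  k2m := fun _ => cC 0
  kapL := fun _ => cC 0
  kapU := fun _ => cC 0
  eL := ⟨cC 0, cC 0, cC 0, cC 0, cC 0⟩
  eH := ⟨cC 0, cC 0, cC 0, cC 0, cC 0⟩
  pL := ⟨cC 0, cC 0, cC 0, cC 0, cC 0⟩
  pU := ⟨cC 0, cC 0, cC 0, cC 1, cC 0⟩
  kU := ⟨cC 0, cC 0, cC 0, cC 0, cC 0⟩
  kL := ⟨cC 0, cC 0, cC 0, cC 0, cC 0⟩
  wU := ⟨cC 0, cC 0, cC 0, cC 0, cC 0⟩
  wL := ⟨cC 0, cC 0, cC 0, cC 0, cC 0⟩

/-- A piece: `0.7 ≤ v < 1.6`. -/
def bot17 : Piece where
  u₀ := cC (160) 200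
  u₁ := cC 1 - cC (499) 1000 * xD
  tLn := botTn
  tLd := botTd
  tUn := botUn
  tUd := botUd
  p₀ := cC (257799) 10000 + cC (-40581) 2000 * xD + cC (-9961) 2500 * xV + cC (24303) 2000 * (xD * xV) + cC (11031) 10000 * (xD * xD) + cC (-8321) 400 * xS
  k2p := fun e => cC (-6913) 10000 + cC (34063) 2500 * xD + cC (2843) 10000 * xV + cC (-38) 625 * e
  k2m := fun _ => cC (1) 1000 + cC (2867) 10000 * xD
  kapL := fun e => cC (44083) 2000 + cC (239511) 2000 * xD + cC (60837) 2000 * xV + cC (3961) 2500 * e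
  kapU := fun e => cC (55907) 10000 + cC (1457107) 10000 * xD + cC (193087) 5000 * xV + cC (6509) 10000 * e
  eL := ⟨cC (96951) 10000 + cC (-55622) 625 * xD + cC (-747) 2500 * xV + cC (215469) 5000 * (xD * xV) + cC (-100699) 2000 * xS,
    cC 0,
    cC 0,
    cC 0,
    cC 0⟩
  eH := ⟨cC (-73901) 10000 + cC (-607867) 2000 * xD + cC (46727) 10000 * xV + cC (1139983) 5000 * (xD * xV) + cC (-66487) 10000 * xS,
    cC 0,
    cC 0,
    cC (26541) 10000,
    cC 0⟩
  pL := ⟨cC (32199) 1250 + cC (-40581) 2000 * xD + cC (-9961) 2500 * xV + cC (24303) 2000 * (xD * xV) + cC (11031) 10000 * (xD * xD) + cC (-8321) 400 * xS,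
    cC 0,
    cC 0,
    cC 1,
    cC 0⟩
  pU := ⟨cC (175797) 5000 + cC (-16533) 400 * xD + cC (-10183) 1000 * xV + cC (198613) 5000 * (xD * xV) + cC (19807) 10000 * (xV * xV) + cC (-3887) 5000 * (xD * xD) + cC (-76647) 2500 * xS,
    cC (293) 1000 + cC (-579) 5000 * xD + cC (-4203) 10000 * xV,
    cC 0,
    cC 0,
    cC 0⟩
  kU := ⟨cC (103) 10000 + cC (-4647) 5000 * xD + cC (-113) 10000 * xV + cC (571) 5000 * (xD * xV) + cC (-9) 5000 * (xV * xV) + cC (40263) 2500 * (xD * xD) + cC (369) 10000 * xS,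
    cC (-27) 5000 + cC (4537) 5000 * xD,
    cC (-23) 5000 + cC (1391) 10000 * xD + cC (19) 10000 * xV,
    cC 0,
    cC 0⟩
  kL := ⟨cC (-903) 10000 + cC (-151) 250 * xD + cC (61) 10000 * xV + cC (383) 10000 * (xD * xV) + cC (-1) 1000 * (xV * xV) + cC (144209) 10000 * (xD * xD) + cC (1361) 10000 * xS,
    cC (-1) 200 + cC (4533) 5000 * xD + cC (1) 5000 * xV,
    cC (3) 5000 + cC (1199) 10000 * xD + cC (-1) 2500 * xV,
    cC 0,
    cC 0⟩
  wU := ⟨cC (716409) 1000000 + cC (32247) 10000 * xD + cC (-131) 25 * xV + cC (-4538) 625 * (xD * xV) + cC (-136) 125 * (xV * xV) + cC (-2936) 625 * (xD * xD) + cC (12883) 625 * xS,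
    cC (-139) 625 + cC (10143) 10000 * xD + cC (-213) 2500 * xV,
    cC (-1301) 400 + cC (15543) 10000 * xD + cC (10047) 10000 * xV,
    cC 0,
    cC 0⟩
  wL := ⟨cC (-13945107) 500000 + cC (282003) 5000 * xD + cC (3659) 5000 * xV + cC (-58359) 10000 * (xD * xV) + cC (-139) 1250 * (xV * xV) + cC (1366) 25 * (xD * xD) + cC (55747) 1250 * xS,
    cC (-42) 625 + cC (-527) 5000 * xD + cC (-337) 5000 * xV,
    cC (-2401) 2000 + cC (-12511) 2000 * xD + cC (-159) 2500 * xV,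
    cC 0,
    cC 0⟩

/-- A piece: `1.6 ≤ v < 2.3`. -/
def bot18 : Piece where
  u₀ := cC (413) 1000 + cC (128) 1000 * xD + cC (222) 1000 * xV
  u₁ := cC 1 - cC (499) 1000 * xD
  tLn := botTn
  tLd := botTd
  tUn := botUn
  tUd := botUd
  p₀ := cC (16281) 625 + cC (-39079) 2000 * xD + cC (-39847) 10000 * xV + cC (30413) 2500 * (xD * xV) + cC (-125417) 10000 * (xD * xD) + cC (-106317) 5000 * xS
  k2p := fun e => cC (131181) 10000 + cC (129579) 10000 * xD + cC (-52413) 10000 * xV + cC (1241) 10000 * e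
  k2m := fun _ => cC (-177) 5000 + cC (2867) 10000 * xD + cC (227) 10000 * xV
  kapL := fun e => cC (-653017) 10000 + cC (276879) 2500 * xD + cC (118827) 2000 * xV + cC (-196) 625 * e
  kapU := fun e => cC (-96651) 10000 + cC (255107) 2000 * xD + cC (327799) 10000 * xV + cC (-5231) 10000 * e
  eL := ⟨cC (-92321) 2500 + cC (-13869) 625 * xD + cC (29707) 1250 * xV + cC (2423) 200 * (xD * xV) + cC (-3037) 10000 * (xV * xV) + cC (-410741) 10000 * xS,
    cC 0,
    cC 0,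
    cC 0,
    cC 0⟩
  eH := ⟨cC (-719349) 1000000 + cC (-380467) 2500 * xD + cC (3759) 10000 * xV + cC (207737) 5000 * (xD * xV) + cC (-59) 5000 * (xV * xV) + cC (-7481) 10000 * xS,
    cC 0,
    cC 0,
    cC (553) 5000,
    cC 0⟩
  pL := ⟨cC (49237) 2000 + cC (16173) 5000 * xD + cC (-18751) 5000 * xV + cC (48197) 10000 * (xD * xV) + cC (567) 10000 * (xV * xV) + cC (-21101) 1000 * xS,
    cC (63) 2500 + cC (143) 250 * xD + cC (-11) 250 * xV,
    cC 0,
    cC (8857) 10000,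
    cC 0⟩
  pU := ⟨cC (3808409) 100000 + cC (-463963) 10000 * xD + cC (-23179) 5000 * xV + cC (95153) 2500 * (xD * xV) + cC (1089) 2500 * (xV * xV) + cC (-107531) 2500 * xS,
    cC (231) 1000 + cC (-1821) 5000 * xD + cC (-228) 625 * xV,
    cC 0,
    cC 0,
    cC 0⟩
  kU := ⟨cC (3) 400 + cC (-93) 1250 * xD + cC (-9) 2000 * xV + cC (913) 10000 * (xD * xV) + cC (13) 10000 * (xV * xV) + cC (-49) 10000 * xS,
    cC (-47) 10000 + cC (112) 125 * xD + cC (-1) 5000 * xV,
    cC (1) 10000 + cC (639) 5000 * xD + cC (-3) 10000 * xV,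
    cC 0,
    cC 0⟩
  kL := ⟨cC (-113) 10000 + cC (311) 5000 * xD + cC (-21) 5000 * xV + cC (57) 5000 * (xD * xV) + cC (1) 2000 * (xV * xV) + cC (267) 10000 * xS,
    cC (-53) 10000 + cC (9161) 10000 * xD + cC (-1) 10000 * xV,
    cC (-31) 10000 + cC (157) 1000 * xD + cC (1) 2000 * xV,
    cC 0,
    cC 0⟩
  wU := ⟨cC (-88019) 10000 + cC (271509) 10000 * xD + cC (-30101) 10000 * xV + cC (-113799) 10000 * (xD * xV) + cC (687) 2000 * (xV * xV) + cC (122013) 5000 * xS,
    cC (-56) 625 + cC (10327) 10000 * xD + cC (-843) 5000 * xV,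
    cC (-19779) 10000 + cC (-3011) 5000 * xD + cC (209) 1000 * xV,
    cC 0,
    cC 0⟩
  wL := ⟨cC (-9621) 1250 + cC (141501) 1000 * xD + cC (-3) 10000 * xV + cC (-514379) 10000 * (xD * xV) + cC (1) 10000 * (xV * xV) + cC (31931) 2500 * xS,
    cC (-577) 10000 + cC (11669) 5000 * xD + cC (-41) 200 * xV,
    cC (-5507) 2500 + cC (-25001) 10000 * xD + cC (3131) 10000 * xV,
    cC 0,
    cC 0⟩

/-- The cut of `bot18`. -/
def bot18Cut : Ex :=
  cC (-14351) 500 + cC (1221321) 10000 * xD + cC (201791) 10000 * xV + cC (-160753) 2500 * (xD * xV) + cC (-17807) 10000 * (xV * xV) + cC (-107393) 5000 * xS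

/-- The bound of `p` above the cut. -/
def bot18PU : Bnd :=
  ⟨cC (81273) 2500 + cC (-1683901) 10000 * xD + cC (-104871) 10000 * xV + cC (765003) 10000 * (xD * xV) + cC (8247) 5000 * (xV * xV) + cC (-8639) 400 * xS,
    cC (3143) 10000 + cC (-20467) 5000 * xD + cC (-1951) 5000 * xV,
    cC 0,
    cC 0,
    cC 0⟩

/-- `bot18` below the cut. -/
def bot18A : Piece :=
  bot18.below bot18Cut

/-- `bot18` above the cut. -/
def bot18B : Piece :=
  { bot18.above bot18Cut bot18PU with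
    k2p := fun _ => cC (1203) 10000 + cC (55539) 5000 * xD + cC (-519) 10000 * xV
    k2m := fun _ => cC (1) 1000 + cC (6043) 10000 * xD
    kapL := fun e => cC (-168796129) 1000000 + cC (-1100703201) 1000000 * xD + cC (160170381) 1000000 * xV + cC (-66519) 62500 * e
    kapU := fun e => cC (314098393) 1000000 + cC (-7898773) 50000 * xD + cC (-54265121) 1000000 * xV + cC (11984909) 1000000 * e }

/-- A piece: `2.3 ≤ v < 2.58`. -/
def bot19 : Piece where
  u₀ := cC (688) 1000 + cC (-63) 1000 * xD + cC (103) 1000 * xV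
  u₁ := cC 1 - cC (499) 1000 * xD
  tLn := botTn
  tLd := botTd
  tUn := botUn
  tUd := botUd
  p₀ := cC (3288) 125 + cC (-99591) 5000 * xD + cC (-39999) 10000 * xV + cC (123377) 10000 * (xD * xV) + cC (-66277) 5000 * (xD * xD) + cC (-108127) 5000 * xS
  k2p := fun e => cC (2178919) 1000000 + cC (74703) 5000 * xD + cC (-6827) 10000 * xV + cC (157) 2500 * e
  k2m := fun _ => cC (9) 10000 + cC (7691) 10000 * xD
  kapL := fun e => cC (-22528691) 100000 + cC (2205699) 50000 * xD + cC (62476071) 500000 * xV + cC (-30549) 20000 * e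
  kapU := fun e => cC (-60091) 1000 + cC (112147) 10000 * xD + cC (510203) 10000 * xV + cC (-17191) 10000 * e
  eL := ⟨cC (-132501) 5000 + cC (-381249) 10000 * xD + cC (5447) 400 * xV + cC (4009) 400 * (xD * xV) + cC (-2823) 5000 * (xV * xV) + cC (-83989) 5000 * xS,
    cC 0,
    cC 0,
    cC 0,
    cC 0⟩
  eH := ⟨cC (-9133) 5000 + cC (-1431063) 10000 * xD + cC (3) 10 * xV + cC (14223) 400 * (xD * xV) + cC (174) 125 * xS,
    cC 0,
    cC 0,
    cC (747) 10000,
    cC 0⟩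
  pL := ⟨cC (158163) 10000 + cC (483481) 2500 * xD + cC (-18137) 5000 * xV + cC (-11087) 200 * (xD * xV) + cC (7427) 10000 * (xV * xV) + cC (-47571) 2500 * xS,
    cC (4929) 10000 + cC (77043) 10000 * xD + cC (-1111) 2000 * xV,
    cC 0,
    cC 0,
    cC 0⟩
  pU := ⟨cC (2184937) 100000 + cC (943659) 2500 * xD + cC (451) 2000 * xV + cC (-13524) 125 * (xD * xV) + cC (-99) 625 * (xV * xV) + cC (-298561) 10000 * xS,
    cC (111) 1250 + cC (21317) 2000 * xD + cC (-369) 1000 * xV,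
    cC 0,
    cC 0,
    cC 0⟩
  kU := ⟨cC (27) 5000 + cC (-427) 5000 * xD + cC (-43) 10000 * xV + cC (139) 2500 * (xD * xV) + cC (9) 10000 * (xV * xV),
    cC (-9) 2000 + cC (4443) 5000 * xD + cC (-1) 5000 * xV,
    cC (1) 5000 + cC (333) 2500 * xD + cC (-1) 5000 * xV,
    cC 0,
    cC 0⟩
  kL := ⟨cC (-1971) 50000 + cC (103) 1000 * xD + cC (-3) 2500 * xV + cC (-7) 200 * (xD * xV) + cC (1) 5000 * (xV * xV) + cC (667) 10000 * xS,
    cC (-27) 5000 + cC (574) 625 * xD + cC (-1) 10000 * xV,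
    cC (-31) 10000 + cC (1757) 10000 * xD + cC (3) 10000 * xV,
    cC 0,
    cC 0⟩
  wU := ⟨cC (-48811) 10000 + cC (81541) 2000 * xD + cC (-3417) 1000 * xV + cC (-8361) 625 * (xD * xV) + cC (5289) 10000 * (xV * xV) + cC (8723) 500 * xS,
    cC (-347) 10000 + cC (14349) 10000 * xD + cC (-1977) 10000 * xV,
    cC (-17643) 10000 + cC (-968) 625 * xD + cC (31) 250 * xV,
    cC 0,
    cC 0⟩
  wL := ⟨cC (-74241) 5000 + cC (877759) 10000 * xD + cC (4657) 10000 * xV + cC (-3559) 125 * (xD * xV) + cC (-14) 125 * (xV * xV) + cC (47767) 2000 * xS,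
    cC (-613) 2000 + cC (26217) 10000 * xD + cC (-283) 2500 * xV,
    cC (-20341) 10000 + cC (-19639) 10000 * xD + cC (1129) 5000 * xV,
    cC 0,
    cC 0⟩

/-- The cut of `bot19`. -/
def bot19Cut : Ex :=
  cC (-2931049) 5000 + cC (-95909) 2000 * xD + cC (18839) 5000 * xV + cC (15047) 1250 * (xD * xV) + cC (869) 2000 * (xV * xV) + cC (9497969) 10000 * xS

/-- The bound of `p` above the cut. -/
def bot19PU : Bnd :=
  ⟨cC (26024339) 1000000 + cC (-1531309) 10000 * xD + cC (-6821) 2500 * xV + cC (130667) 2000 * (xD * xV) + cC (9) 10000 * (xV * xV) + cC (-51563) 2000 * xS,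
    cC (299) 1000 + cC (-27759) 5000 * xD + cC (-467) 1250 * xV,
    cC 0,
    cC 0,
    cC 0⟩

/-- `bot19` below the cut. -/
def bot19A : Piece :=
  bot19.below bot19Cut

/-- `bot19` above the cut. -/
def bot19B : Piece :=
  { bot19.above bot19Cut bot19PU with
    k2p := fun e => cC (-216) 625 + cC (60557) 10000 * xD + cC (727) 5000 * xV + cC (-191) 5000 * e
    k2m := fun _ => cC (9) 10000 + cC (7691) 10000 * xD
    kapL := fun e => cC (4094818139) 1000000 + cC (-442324699) 250000 * xD + cC (-1082040211) 1000000 * xV + cC (56432357) 250000 * e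
    kapU := fun e => cC (74688883) 250000 + cC (-701953443) 500000 * xD + cC (671313) 25000 * xV + cC (3465093) 100000 * e }

/-- A piece: `2.58 ≤ v < 3.05`. -/
def bot20 : Piece where
  u₀ := cC (790) 1000 + cC (-110) 1000 * xD + cC (63) 1000 * xV
  u₁ := cC 1 - cC (499) 1000 * xD
  tLn := botTn
  tLd := botTd
  tUn := botUn
  tUd := botUd
  p₀ := cC (266547) 10000 + cC (-221017) 10000 * xD + cC (-4) * xV + cC (1063) 80 * (xD * xV) + cC (-210869) 10000 * (xD * xD) + cC (-111029) 5000 * xS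
  alt := true
  k2p := fun _ => cC (17) 10000 + cC (2009) 10000 * xD + cC (-1) 5000 * xV
  k2m := fun _ => cC (1) 1000 + cC (403) 10000 * xD
  kapL := fun e => cC (1769351331) 1000000 + cC (1898641717) 1000000 * xD + cC (-423060247) 1000000 * xV + cC (100698131) 1000000 * e
  kapU := fun e => cC (2552315183) 1000000 + cC (1537633851) 1000000 * xD + cC (-557393137) 1000000 * xV + cC (165059647) 1000000 * e
  eL := ⟨cC (-159361) 10000 + cC (-641077) 10000 * xD + cC (53169) 10000 * xV + cC (205121) 10000 * (xD * xV) + cC (103) 400 * (xV * xV) + cC (-10013) 1250 * xS,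
    cC 0,
    cC 0,
    cC 0,
    cC 0⟩
  eH := ⟨cC (-17397) 10000 + cC (-151923) 1000 * xD + cC (3157) 10000 * xV + cC (85571) 2500 * (xD * xV) + cC (1) 10000 * (xV * xV) + cC (11469) 10000 * xS,
    cC 0,
    cC 0,
    cC (791) 10000,
    cC 0⟩
  pL := ⟨cC (133263) 5000 + cC (-11073) 500 * xD + cC (-4) * xV + cC (1063) 80 * (xD * xV) + cC (-111029) 5000 * xS,
    cC 0,
    cC 0,
    cC 1,
    cC 0⟩
  pU := ⟨cC (22968819) 500000 + cC (1873603) 2000 * xD + cC (-215789) 10000 * xV + cC (-2369221) 10000 * (xD * xV) + cC (8603) 2500 * (xV * xV) + cC (-172059) 10000 * xS,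
    cC (6211) 5000 + cC (654351) 10000 * xD + cC (-3981) 5000 * xV,
    cC 0,
    cC 0,
    cC 0⟩
  kU := ⟨cC (1) 1250 + cC (-83) 10000 * xD + cC (1) 400 * (xD * xV) + cC (-3) 2500 * xS,
    cC (-51) 10000 + cC (2243) 2500 * xD,
    cC (-1) 2500 + cC (163) 2500 * xD,
    cC 0,
    cC 0⟩
  kL := ⟨cC (11) 10000 + cC (-437) 5000 * xD + cC (1) 5000 * xV + cC (137) 5000 * (xD * xV) + cC (-41) 10000 * xS,
    cC (-1) 200 + cC (4441) 5000 * xD,
    cC (-3) 10000 + cC (63) 1000 * xD,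
    cC 0,
    cC 0⟩
  wU := ⟨cC (-439867) 500000 + cC (224421) 2500 * xD + cC (-2663) 1250 * xV + cC (-255987) 10000 * (xD * xV) + cC (3099) 10000 * (xV * xV) + cC (15169) 2000 * xS,
    cC (147) 10000 + cC (11947) 10000 * xD + cC (-27) 125 * xV,
    cC (-8063) 5000 + cC (-13969) 2500 * xD + cC (703) 10000 * xV,
    cC 0,
    cC 0⟩
  wL := ⟨cC (-80627) 10000 + cC (23927) 500 * xD + cC (-227) 5000 * xV + cC (-17179) 1250 * (xD * xV) + cC (81) 10000 * (xV * xV) + cC (16921) 1250 * xS,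
    cC (1739) 10000 + cC (15903) 10000 * xD + cC (-101) 400 * xV,
    cC (-13229) 10000 + cC (-2719) 1000 * xD + cC (-179) 10000 * xV,
    cC 0,
    cC 0⟩

/-- A piece: `3.05 ≤ v < 3.31`. -/
def bot21 : Piece where
  u₀ := cC (877) 1000 + cC (-218) 1000 * xD + cC (35) 1000 * xV
  u₁ := cC 1 - cC (499) 1000 * xD
  tLn := botTn
  tLd := botTd
  tUn := botUn
  tUd := botUd
  p₀ := cC (66663) 2500 + cC (-110437) 5000 * xD + cC (-4) * xV + cC (132891) 10000 * (xD * xV) + cC (-153073) 5000 * (xD * xD) + cC (-222209) 10000 * xS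
  alt := true
  k2p := fun _ => cC (1) 1000 + cC (1773) 10000 * xD
  k2m := fun e => cC (2136903) 1250 + cC (361211) 400 * xD + cC (-300924) 625 * xV + cC (1222759) 10000 * e
  kapL := fun e => cC (-2588561) 10000 + cC (164251) 2000 * xD + cC (139371) 1250 * xV + cC (-338229) 10000 * e
  kapU := fun e => cC (-746601) 2500 + cC (-37645123) 2000 * xD + cC (1178777) 5000 * xV + cC (1135711) 10000 * e
  eL := ⟨cC (-116077) 10000 + cC (-41707) 400 * xD + cC (38791) 10000 * xV + cC (292697) 10000 * (xD * xV) + cC (-36323) 10000 * xS,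
    cC 0,
    cC 0,
    cC 0,
    cC 0⟩
  eH := ⟨cC (-4207) 2500 + cC (-270657) 1250 * xD + cC (101) 400 * xV + cC (245699) 5000 * (xD * xV) + cC (1403) 1000 * xS,
    cC 0,
    cC 0,
    cC (631) 10000,
    cC 0⟩
  pL := ⟨cC (22569) 5000 + cC (1315593) 10000 * xD + cC (-429) 2000 * xV + cC (-374329) 10000 * (xD * xV) + cC (67) 2000 * (xV * xV) + cC (50187) 2500 * (xD * xD) + cC (-69551) 10000 * xS,
    cC (2599) 10000 + cC (55639) 10000 * xD + cC (-971) 2000 * xV,
    cC 0,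
    cC 0,
    cC 0⟩
  pU := ⟨cC (354069) 10000 + cC (8304713) 10000 * xD + cC (-159631) 10000 * xV + cC (-2379929) 10000 * (xD * xV) + cC (23041) 10000 * (xV * xV) + cC (8304713) 10000 * (xD * xD) + cC (-102709) 10000 * xS,
    cC (21277) 10000 + cC (19163) 400 * xD + cC (-10501) 10000 * xV,
    cC 0,
    cC 0,
    cC 0⟩
  kU := ⟨cC (1) 5000 + cC (-107) 10000 * xD + cC (27) 10000 * (xD * xV) + cC (697) 1000 * (xD * xD) + cC (-1) 5000 * xS,
    cC (-51) 10000 + cC (4451) 5000 * xD,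
    cC (-1) 2500 + cC (619) 10000 * xD,
    cC 0,
    cC 0⟩
  kL := ⟨cC (3) 5000 + cC (-53) 5000 * xD + cC (21) 10000 * (xD * xV) + cC (9627) 5000 * (xD * xD) + cC (-3) 2500 * xS,
    cC (-1) 200 + cC (2219) 2500 * xD,
    cC (-1) 2500 + cC (153) 2500 * xD,
    cC 0,
    cC 0⟩
  wU := ⟨cC (-2809) 2000 + cC (333867) 10000 * xD + cC (-363) 1250 * xV + cC (-19079) 2000 * (xD * xV) + cC (407) 10000 * (xV * xV) + cC (80343) 400 * (xD * xD) + cC (16041) 5000 * xS,
    cC (-363) 5000 + cC (4937) 1000 * xD + cC (-1929) 10000 * xV,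
    cC (-13949) 10000 + cC (-4759) 2500 * xD + cC (1) 625 * xV,
    cC 0,
    cC 0⟩
  wL := ⟨cC (-1639) 10000 + cC (38407) 1250 * xD + cC (-18) 625 * xV + cC (-5191) 625 * (xD * xV) + cC (9) 2000 * (xV * xV) + cC (12517) 625 * (xD * xD) + cC (3463) 10000 * xS,
    cC (997) 10000 + cC (11707) 10000 * xD + cC (-1153) 5000 * xV,
    cC (-13261) 10000 + cC (-68) 25 * xD + cC (-43) 2500 * xV,
    cC 0,
    cC 0⟩

/-- The cut of `bot21`. -/
def bot21Cut : Ex :=
  cC (-1967) 2500 + cC (-1904681) 10000 * xD + cC (279) 2000 * xV + cC (426673) 10000 * (xD * xV) + cC (807) 2500 * xS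

/-- The bound of `p` above the cut. -/
def bot21PU : Bnd :=
  ⟨cC (23147747) 500000 + cC (8304713) 10000 * xD + cC (-3148) 125 * xV + cC (-4884111) 10000 * (xD * xV) + cC (187) 50 * (xV * xV) + cC (-8304713) 10000 * (xD * xD) + cC (-64153) 10000 * xS,
    cC (75579) 2500 + cC (-8304713) 10000 * xD + cC (-13271) 1000 * xV,
    cC 0,
    cC 0,
    cC 0⟩

/-- `bot21` below the cut. -/
def bot21A : Piece :=
  bot21.below bot21Cut

/-- `bot21` above the cut. -/
def bot21B : Piece :=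
  { bot21.above bot21Cut bot21PU with
    k2p := fun _ => cC (1) 1000 + cC (1381) 10000 * xD
    k2m := fun _ => cC (1) 1000 + cC (113) 2500 * xD
    kapL := fun e => cC (2260619) 5000 + cC (660124477) 10000 * xD + cC (-283337) 5000 * xV + cC (11431339) 10000 * e
    kapU := fun e => cC (715301697) 250000 + cC (129047000299) 500000 * xD + cC (-30148113) 62500 * xV + cC (2922667959) 500000 * e }

/-- A piece: `3.31 ≤ v < 3.3445`. -/
def bot22 : Piece where
  u₀ := cC (907) 1000 + cC (-227) 1000 * xD + cC (26) 1000 * xV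
  u₁ := cC 1 - cC (499) 1000 * xD
  tLn := botTn
  tLd := botTd
  tUn := botUn
  tUd := botUd
  p₀ := cC (266643) 10000 + cC (-220701) 10000 * xD + cC (-4) * xV + cC (132873) 10000 * (xD * xV) + cC (-45451) 1250 * (xD * xD) + cC (-44437) 2000 * xS
  alt := true
  k2p := fun e => cC (1373) 1000000 + cC (56441) 1000000 * xD + cC (71811) 125000 * xV + cC (-9) 100000 * e
  k2m := fun _ => cC (8951) 200000 * xD + cC (574903) 1000000 * xV
  kapL := fun e => cC (2829634247) 1000000 + cC (-17220056357) 250000 * xD + cC (-175910239) 250000 * xV + cC (143665321) 1000000 * e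
  kapU := fun e => cC (2545429391) 500000 + cC (-77220067461) 1000000 * xD + cC (-240884129) 200000 * xV + cC (26491367) 31250 * e
  eL := ⟨cC (-53101) 5000 + cC (-86787) 10000 * xD + cC (14651) 5000 * xV,
    cC 0,
    cC 0,
    cC 0,
    cC 0⟩
  eH := ⟨cC (-69909) 1250 * xD,
    cC 0,
    cC 0,
    cC 0,
    cC 0⟩
  pL := ⟨cC (38597) 10000 * xD,
    cC (-3381) 2500,
    cC 0,
    cC 0,
    cC 0⟩
  pU := ⟨cC (1894537) 1000000 + cC (-16683) 10000 * xD + cC (-641) 10000 * xV,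
    cC (-6567) 5000,
    cC 0,
    cC 0,
    cC 0⟩
  kU := ⟨cC (19) 2000 * xD,
    cC (-2421) 500000,
    cC (-3) 10000,
    cC 0,
    cC 0⟩
  kL := ⟨cC (-1013) 10000 * xD,
    cC (-2) 625,
    cC (-121) 500000,
    cC 0,
    cC 0⟩
  wU := ⟨cC (81) 500 * xD,
    cC (-1457) 2000,
    cC (-1393583) 1000000 + cC (1) 500 * xV,
    cC 0,
    cC 0⟩
  wL := ⟨cC (731) 250 * xD,
    cC (-6707) 10000,
    cC (-7801) 5000 + cC (511) 10000 * xV,
    cC 0,
    cC 0⟩

/-- The cut of `bot22`. -/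
def bot22Cut : Ex :=
  cC (-7517) 10000 + cC (188351) 10000 * xD + cC (349) 2000 * xV

/-- The bound of `p` above the cut. -/
def bot22PU : Bnd :=
  ⟨cC (637171) 1250 * xD,
    cC (-67) 5,
    cC 0,
    cC 0,
    cC 0⟩

/-- `bot22` below the cut. -/
def bot22A : Piece :=
  bot22.below bot22Cut

/-- `bot22` above the cut. -/
def bot22B : Piece :=
  { bot22.above bot22Cut bot22PU with
    k2p := fun e => cC (1237) 1000000 + cC (-2093463941) 1000000 * xD + cC (190931) 1000000 * xV + cC (-37433431) 1000000 * e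
    k2m := fun _ => cC (8951) 200000 * xD + cC (191301) 1000000 * xV
    kapL := fun e => cC (39242989113) 1000000 + cC (-200000) * xD + cC (-11561378819) 1000000 * xV + cC (342134357) 1000000 * e
    kapU := fun e => cC (567862711) 200000 + cC 200000 * xD + cC (-513025437) 1000000 * xV + cC (1823725523) 500000 * e }

/-- A piece: `2.58 ≤ v < 3.05`. -/
def bot23 : Piece where
  u₀ := cC (846) 1000 + cC (-73) 1000 * xD + cC (42) 1000 * xV
  u₁ := cC 1 - cC (499) 1000 * xD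
  tLn := botTn
  tLd := botTd
  tUn := botUn
  tUd := botUd
  p₀ := cC (263869) 10000 + cC (-98883) 5000 * xD + cC (-39939) 10000 * xV + cC (12503) 1000 * (xD * xV) + cC (-265639) 10000 * (xD * xD) + cC (-108957) 5000 * xS
  k2p := fun e => cC (-97) 5000 + cC (82707) 10000 * xD + cC (1) 250 * xV + cC (-309) 10000 * e
  k2m := fun _ => cC (-897) 10000 + cC (7983) 10000 * xD + cC (69) 2000 * xV
  kapL := fun e => cC (33029883) 10000 + cC (1848277) 5000 * xD + cC (-1082809) 1250 * xV + cC (171929) 1000 * e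
  kapU := fun e => cC (490795277) 500000 + cC (-280869087) 250000 * xD + cC (-21097833) 100000 * xV + cC (13100217) 250000 * e
  eL := ⟨cC (-134777) 10000 + cC (-37478) 625 * xD + cC (62609) 10000 * xV + cC (181339) 10000 * (xD * xV) + cC (-3067) 10000 * (xV * xV) + cC (-19243) 2000 * xS,
    cC 0,
    cC 0,
    cC 0,
    cC 0⟩
  eH := ⟨cC (-1797) 5000 + cC (-919857) 10000 * xD + cC (379) 5000 * xV + cC (143697) 10000 * (xD * xV) + cC (9) 10000 * (xV * xV) + cC (157) 1250 * xS,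
    cC 0,
    cC 0,
    cC 0,
    cC (-299) 2000 + cC (29973) 400 * xD + cC (-137) 10000 * (xD * xV)⟩
  pL := ⟨cC (81131) 10000 + cC (1475139) 10000 * xD + cC (-10793) 10000 * xV + cC (-379197) 10000 * (xD * xV) + cC (1667) 10000 * (xV * xV) + cC (-859) 80 * xS,
    cC (1021) 5000 + cC (74441) 10000 * xD + cC (-2207) 5000 * xV,
    cC 0,
    cC 0,
    cC 0⟩
  pU := ⟨cC (365858) 15625 + cC (45364) 625 * xD + cC (-37407) 10000 * xV + cC (-21279) 2500 * (xD * xV) + cC (1667) 5000 * (xV * xV) + cC (-212151) 10000 * xS,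
    cC (1897) 2500 + cC (11073) 10000 * xD + cC (-5867) 10000 * xV,
    cC 0,
    cC 0,
    cC 0⟩
  kU := ⟨cC (3) 10000 + cC (-813) 10000 * xD + cC (77) 2000 * (xD * xV) + cC (-1) 5000 * xS,
    cC (-1) 200 + cC (8827) 10000 * xD,
    cC (-1) 2000 + cC (279) 2000 * xD,
    cC 0,
    cC 0⟩
  kL := ⟨cC (-47) 2000 + cC (133) 1000 * xD + cC (-1) 1000 * xV + cC (-453) 10000 * (xD * xV) + cC (1) 10000 * (xV * xV) + cC (107) 2500 * xS,
    cC (-17) 10000 + cC (536) 625 * xD + cC (-1) 1250 * xV,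
    cC (-19) 10000 + cC (749) 5000 * xD,
    cC 0,
    cC 0⟩
  wU := ⟨cC (-3896527) 500000 + cC (291083) 10000 * xD + cC (-683) 2000 * xV + cC (-19519) 2500 * (xD * xV) + cC (247) 5000 * (xV * xV) + cC (35213) 2500 * xS,
    cC (-179) 2500 + cC (15733) 10000 * xD + cC (-1879) 10000 * xV,
    cC (-13827) 10000 + cC (-5633) 2500 * xD + cC (-87) 10000 * xV,
    cC 0,
    cC 0⟩
  wL := ⟨cC (-71947) 10000 + cC (87389) 2000 * xD + cC (-3663) 10000 * xV + cC (-112843) 10000 * (xD * xV) + cC (34) 625 * (xV * xV) + cC (129337) 10000 * xS,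
    cC (233) 2500 + cC (-2387) 10000 * xD + cC (-53) 250 * xV,
    cC (-13901) 10000 + cC (-38379) 10000 * xD + cC (107) 10000 * xV,
    cC 0,
    cC 0⟩

/-- The cut of `bot23`. -/
def bot23Cut : Ex :=
  cC (-57173) 5000 + cC (-244077) 625 * xD + cC (79393) 10000 * xV + cC (560773) 5000 * (xD * xV) + cC (-15309) 10000 * (xV * xV) + cC (9411) 5000 * xS

/-- The bound of `p` above the cut. -/
def bot23PU : Bnd :=
  ⟨cC (3052157) 125000 + cC (-76299) 2000 * xD + cC (-41451) 10000 * xV + cC (193951) 10000 * (xD * xV) + cC (1507) 5000 * (xV * xV) + cC (-10273) 500 * xS,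
    cC (1673) 1250 + cC (-1351) 2500 * xD + cC (-9093) 10000 * xV,
    cC 0,
    cC 0,
    cC (841) 5000 + cC (-167849) 2000 * xD + cC (-651) 10000 * xV + cC (325289) 10000 * (xD * xV)⟩

/-- `bot23` below the cut. -/
def bot23A : Piece :=
  bot23.below bot23Cut

/-- `bot23` above the cut. -/
def bot23B : Piece :=
  { bot23.above bot23Cut bot23PU with
    k2p := fun e => cC (-109) 5000 + cC (74533) 10000 * xD + cC (17) 5000 * xV + cC (-22) 625 * e
    k2m := fun e => cC (-81) 10000 + cC (14453) 10000 * xD + cC (3) 1000 * xV + cC (4) 625 * e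
    kapL := fun e => cC (5288321) 10000 + cC (-168913957) 5000 * xD + cC (4741707) 10000 * xV + cC (-52469) 10000 * e
    kapU := fun e => cC (165557771) 500000 + cC (-246782319) 20000 * xD + cC (11841231) 100000 * xV + cC (-1551267) 125000 * e }

/-- A piece: `3.05 ≤ v < 3.45`. -/
def bot24 : Piece where
  u₀ := cC (954) 1000 + cC (-275) 1000 * xD + cC (10) 1000 * xV
  u₁ := cC 1 - cC (499) 1000 * xD
  tLn := botTn
  tLd := botTd
  tUn := botUn
  tUd := botUd
  p₀ := cC (266089) 10000 + cC (-38691) 2000 * xD + cC (-39931) 10000 * xV + cC (12461) 1000 * (xD * xV) + cC (-170063) 5000 * (xD * xD) + cC (-55417) 2500 * xS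
  alt := true
  k2p := fun e => cC (-8) 625 + cC (20437) 2500 * xD + cC (-3) 5000 * xV + cC (-1) 5000 * e
  k2m := fun _ => cC (-11) 5000 + cC (3691) 2500 * xD + cC (1) 10000 * xV
  kapL := fun e => cC (-495103) 10000 + cC (666007) 10000 * xD + cC (670287) 10000 * xV + cC (-50171) 5000 * e
  kapU := fun e => cC (671915791) 200000 + cC (1282604721) 125000 * xD + cC (-728061593) 1000000 * xV + cC (222215151) 500000 * e
  eL := ⟨cC (-39037) 5000 + cC (-1059561) 10000 * xD + cC (10709) 5000 * xV + cC (259477) 10000 * (xD * xV) + cC (-307) 2000 * (xV * xV) + cC (6869) 5000 * xS,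
    cC 0,
    cC 0,
    cC 0,
    cC 0⟩
  eH := ⟨cC (-8661) 10000 + cC (-91277) 1000 * xD + cC (4803) 10000 * xV + cC (17669) 1250 * (xD * xV) + cC (-147) 2500 * (xV * xV) + cC (-393) 2500 * xS,
    cC 0,
    cC 0,
    cC 0,
    cC (-23753) 2000 + cC (182291) 625 * xD + cC (38449) 10000 * xV + cC (-142151) 2000 * (xD * xV)⟩
  pL := ⟨cC (24133) 2500 + cC (414937) 5000 * xD + cC (-10383) 10000 * xV + cC (-12043) 625 * (xD * xV) + cC (1361) 10000 * (xV * xV) + cC (-64719) 5000 * xS,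
    cC (-763) 10000 + cC (51927) 10000 * xD + cC (-3531) 10000 * xV,
    cC 0,
    cC 0,
    cC 0⟩
  pU := ⟨cC (990191) 31250 + cC (9623021) 10000 * xD + cC (-7041) 2000 * xV + cC (-2794729) 10000 * (xD * xV) + cC (299) 1000 * (xV * xV) + cC (-360609) 10000 * xS,
    cC (98113) 10000 + cC (35509) 1250 * xD + cC (-8899) 2500 * xV,
    cC 0,
    cC 0,
    cC (-1156619) 10000 + cC (3119927) 10000 * xD + cC (23637) 625 * xV + cC (-254429) 5000 * (xD * xV)⟩
  kU := ⟨cC (1) 500 + cC (-9269) 10000 * xD + cC (-37) 10000 * xV + cC (1899) 10000 * (xD * xV) + cC (3) 10000 * (xV * xV) + cC (167) 10000 * xS,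
    cC (-3) 625 + cC (1631) 2000 * xD + cC (-3) 10000 * xV,
    cC (-23) 10000 + cC (1831) 10000 * xD + cC (1) 5000 * xV,
    cC 0,
    cC 0⟩
  kL := ⟨cC (-287) 10000 + cC (-2191) 10000 * xD + cC (17) 10000 * xV + cC (36) 625 * (xD * xV) + cC (-3) 10000 * (xV * xV) + cC (221) 5000 * xS,
    cC (-1) 5000 + cC (7611) 10000 * xD + cC (-1) 2500 * xV,
    cC (3) 5000 + cC (1061) 10000 * xD + cC (-3) 10000 * xV,
    cC 0,
    cC 0⟩
  wU := ⟨cC (-63049) 10000 + cC (45407) 2500 * xD + cC (-79) 200 * xV + cC (-46119) 10000 * (xD * xV) + cC (7) 125 * (xV * xV) + cC (58849) 5000 * xS,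
    cC (-519) 5000 + cC (12627) 10000 * xD + cC (-1753) 10000 * xV,
    cC (-13563) 10000 + cC (-22069) 10000 * xD + cC (-77) 5000 * xV,
    cC 0,
    cC 0⟩
  wL := ⟨cC (-55609) 10000 + cC (29707) 1250 * xD + cC (-1299) 5000 * xV + cC (-57847) 10000 * (xD * xV) + cC (197) 5000 * (xV * xV) + cC (9941) 1000 * xS,
    cC (-1089) 10000 + cC (1193) 10000 * xD + cC (-1617) 10000 * xV,
    cC (-1383) 1000 + cC (-31423) 10000 * xD + cC (1) 1250 * xV,
    cC 0,
    cC 0⟩

end Vale.Agent.P100.Calib.Closed.High
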