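import Vale.Agent.P100.Calib.SlabHighBotData

/-!
# Checks of the bounds of a piece of the tail
-/

set_option linter.defProp false

namespace Vale.Agent.P100.Calib.Closed.High

open BoxPos Large

def bot0_p0 : PosBox ⟨⟨0, 1, 1⟩, ⟨600, 601, 1000⟩, ⟨0, 501, 10000⟩, ⟨3500, 4000, 10000⟩⟩ (bot0.hP0) :=
  posBox_of_check (c := ⟨69, ⟨0, 2, 3, 1⟩⟩) (by decide +kernel)

def bot0_gn : PosBox ⟨⟨0, 1, 1⟩, ⟨600, 601, 1000⟩, ⟨0, 501, 10000⟩, ⟨3500, 4000, 10000⟩⟩ (bot0.hGn) :=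
  posBox_of_check (c := ⟨56, ⟨1, 1, 2, 1⟩⟩) (by decide +kernel)

def bot0_den0 : PosBox ⟨⟨0, 1, 1⟩, ⟨600, 601, 1000⟩, ⟨0, 501, 10000⟩, ⟨3500, 4000, 10000⟩⟩ (bot0.hDen false) :=
  posBox_of_check (c := ⟨74, ⟨2, 0, 2, 0⟩⟩) (by decide +kernel)

def bot0_den1 : PosBox ⟨⟨0, 1, 1⟩, ⟨600, 601, 1000⟩, ⟨0, 501, 10000⟩, ⟨3500, 4000, 10000⟩⟩ (bot0.hDen true) :=
  posBox_of_check (c := ⟨76, ⟨3, 0, 1, 0⟩⟩) (by decide +kernel)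

def bot0_none0 : PosBox ⟨⟨0, 1, 1⟩, ⟨600, 601, 1000⟩, ⟨0, 501, 10000⟩, ⟨3500, 4000, 10000⟩⟩ (bot0.hNone false) :=
  posBox_of_check (c := ⟨238, ⟨5, 6, 7, 2⟩⟩) (by decide +kernel)

def bot0_none1_0 : PosBox ⟨⟨0, 1, 1⟩, ⟨600, 601, 1000⟩, ⟨0, 250, 10000⟩, ⟨3500, 4000, 10000⟩⟩ (bot0.hNone true) :=
  posBox_of_check (c := ⟨284, ⟨6, 6, 8, 2⟩⟩) (by decide +kernel)

def bot0_none1_1 : PosBox ⟨⟨0, 1, 1⟩, ⟨600, 601, 1000⟩, ⟨250, 501, 10000⟩, ⟨3500, 4000, 10000⟩⟩ (bot0.hNone true) :=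
  posBox_of_check (c := ⟨284, ⟨6, 6, 8, 2⟩⟩) (by decide +kernel)

theorem bot0_none1 : PosBox ⟨⟨0, 1, 1⟩, ⟨600, 601, 1000⟩, ⟨0, 501, 10000⟩, ⟨3500, 4000, 10000⟩⟩ (bot0.hNone true) :=
  posBox_join₂ bot0_none1_0 bot0_none1_1

def bot0_mupU : PosBox ⟨⟨0, 1, 1⟩, ⟨600, 601, 1000⟩, ⟨0, 501, 10000⟩, ⟨3500, 4000, 10000⟩⟩ (bot0.pU.μ) :=
  posBox_of_check (c := ⟨5, ⟨0, 0, 0, 0⟩⟩) (by decide +kernel)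

/-- No point in the piece. -/
theorem bot0_empty : bot0.Empty ⟨⟨0, 1, 1⟩, ⟨600, 601, 1000⟩, ⟨0, 501, 10000⟩, ⟨3500, 4000, 10000⟩⟩ :=
  ⟨bot0_p0, Bool.forall_bool.2 ⟨bot0_den0, bot0_den1⟩, bot0_gn, ⟨.inl bot0_mupU, .inr rfl⟩, Bool.forall_bool.2 ⟨bot0_none0, bot0_none1⟩⟩

end Vale.Agent.P100.Calib.Closed.High
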