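import Vale.Agent.P100.Calib.SlabHighBotData

/-!
# Checks of the bounds of a piece of the tail
-/

set_option linter.defProp false

namespace Vale.Agent.P100.Calib.Closed.High

open BoxPos Large

def bot1_p0 : PosBox ⟨⟨0, 1, 1⟩, ⟨600, 601, 1000⟩, ⟨0, 501, 10000⟩, ⟨4000, 9000, 10000⟩⟩ (bot1.hP0) :=
  posBox_of_check (c := ⟨69, ⟨0, 2, 3, 1⟩⟩) (by decide +kernel)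

def bot1_gn : PosBox ⟨⟨0, 1, 1⟩, ⟨600, 601, 1000⟩, ⟨0, 501, 10000⟩, ⟨4000, 9000, 10000⟩⟩ (bot1.hGn) :=
  posBox_of_check (c := ⟨56, ⟨1, 1, 2, 1⟩⟩) (by decide +kernel)

def bot1_den0 : PosBox ⟨⟨0, 1, 1⟩, ⟨600, 601, 1000⟩, ⟨0, 501, 10000⟩, ⟨4000, 9000, 10000⟩⟩ (bot1.hDen false) :=
  posBox_of_check (c := ⟨74, ⟨2, 0, 2, 0⟩⟩) (by decide +kernel)

def bot1_den1 : PosBox ⟨⟨0, 1, 1⟩, ⟨600, 601, 1000⟩, ⟨0, 501, 10000⟩, ⟨4000, 9000, 10000⟩⟩ (bot1.hDen true) :=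
  posBox_of_check (c := ⟨76, ⟨3, 0, 1, 0⟩⟩) (by decide +kernel)

def bot1_ev0 : PosBox ⟨⟨0, 1, 1⟩, ⟨600, 601, 1000⟩, ⟨0, 501, 10000⟩, ⟨4000, 9000, 10000⟩⟩ (bot1.hEv false) :=
  posBox_of_check (c := ⟨151, ⟨4, 2, 4, 1⟩⟩) (by decide +kernel)

def bot1_eL0 : PosBox ⟨⟨0, 1, 1⟩, ⟨600, 601, 1000⟩, ⟨0, 501, 10000⟩, ⟨4000, 9000, 10000⟩⟩ (bot1.hEL false) :=
  posBox_of_check (c := ⟨250, ⟨5, 6, 7, 3⟩⟩) (by decide +kernel)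

def bot1_eH0 : PosBox ⟨⟨0, 1, 1⟩, ⟨600, 601, 1000⟩, ⟨0, 501, 10000⟩, ⟨4000, 9000, 10000⟩⟩ (bot1.hEH false) :=
  posBox_of_check (c := ⟨251, ⟨5, 6, 7, 3⟩⟩) (by decide +kernel)

def bot1_pL0 : PosBox ⟨⟨0, 1, 1⟩, ⟨600, 601, 1000⟩, ⟨0, 501, 10000⟩, ⟨4000, 9000, 10000⟩⟩ (bot1.hPL false) :=
  posBox_of_check (c := ⟨243, ⟨5, 6, 7, 2⟩⟩) (by decide +kernel)

def bot1_pU0 : PosBox ⟨⟨0, 1, 1⟩, ⟨600, 601, 1000⟩, ⟨0, 501, 10000⟩, ⟨4000, 9000, 10000⟩⟩ (bot1.hPU false) :=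
  posBox_of_check (c := ⟨246, ⟨5, 6, 7, 3⟩⟩) (by decide +kernel)

def bot1_kU0 : PosBox ⟨⟨0, 1, 1⟩, ⟨600, 601, 1000⟩, ⟨0, 501, 10000⟩, ⟨4000, 9000, 10000⟩⟩ (bot1.hKU false) :=
  posBox_of_check (c := ⟨239, ⟨5, 6, 7, 3⟩⟩) (by decide +kernel)

def bot1_kL0 : PosBox ⟨⟨0, 1, 1⟩, ⟨600, 601, 1000⟩, ⟨0, 501, 10000⟩, ⟨4000, 9000, 10000⟩⟩ (bot1.hKL false) :=
  posBox_of_check (c := ⟨240, ⟨5, 6, 7, 3⟩⟩) (by decide +kernel)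

def bot1_wU0_0 : PosBox ⟨⟨0, 1, 1⟩, ⟨600, 601, 1000⟩, ⟨0, 501, 10000⟩, ⟨4000, 6500, 10000⟩⟩ (bot1.hWU false) :=
  posBox_of_check (c := ⟨270, ⟨5, 8, 8, 3⟩⟩) (by decide +kernel)

def bot1_wU0_1 : PosBox ⟨⟨0, 1, 1⟩, ⟨600, 601, 1000⟩, ⟨0, 501, 10000⟩, ⟨6500, 9000, 10000⟩⟩ (bot1.hWU false) :=
  posBox_of_check (c := ⟨270, ⟨5, 8, 8, 3⟩⟩) (by decide +kernel)

theorem bot1_wU0 : PosBox ⟨⟨0, 1, 1⟩, ⟨600, 601, 1000⟩, ⟨0, 501, 10000⟩, ⟨4000, 9000, 10000⟩⟩ (bot1.hWU false) :=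
  posBox_join₃ bot1_wU0_0 bot1_wU0_1

def bot1_wL0 : PosBox ⟨⟨0, 1, 1⟩, ⟨600, 601, 1000⟩, ⟨0, 501, 10000⟩, ⟨4000, 9000, 10000⟩⟩ (bot1.hWL false) :=
  posBox_of_check (c := ⟨271, ⟨5, 8, 8, 3⟩⟩) (by decide +kernel)

def bot1_ev1 : PosBox ⟨⟨0, 1, 1⟩, ⟨600, 601, 1000⟩, ⟨0, 501, 10000⟩, ⟨4000, 9000, 10000⟩⟩ (bot1.hEv true) :=
  posBox_of_check (c := ⟨198, ⟨5, 2, 5, 1⟩⟩) (by decide +kernel)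

def bot1_eL1 : PosBox ⟨⟨0, 1, 1⟩, ⟨600, 601, 1000⟩, ⟨0, 501, 10000⟩, ⟨4000, 9000, 10000⟩⟩ (bot1.hEL true) :=
  posBox_of_check (c := ⟨296, ⟨6, 6, 8, 3⟩⟩) (by decide +kernel)

def bot1_eH1_0_0_0 : PosBox ⟨⟨0, 1, 2⟩, ⟨600, 601, 1000⟩, ⟨0, 501, 10000⟩, ⟨4000, 5250, 10000⟩⟩ (bot1.hEH true) :=
  posBox_of_check (c := ⟨299, ⟨6, 6, 8, 3⟩⟩) (by decide +kernel)

def bot1_eH1_0_0_1_0 : PosBox ⟨⟨0, 1, 2⟩, ⟨600, 601, 1000⟩, ⟨0, 250, 10000⟩, ⟨5250, 6500, 10000⟩⟩ (bot1.hEH true) :=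
  posBox_of_check (c := ⟨299, ⟨6, 6, 8, 3⟩⟩) (by decide +kernel)

def bot1_eH1_0_0_1_1 : PosBox ⟨⟨0, 1, 2⟩, ⟨600, 601, 1000⟩, ⟨250, 501, 10000⟩, ⟨5250, 6500, 10000⟩⟩ (bot1.hEH true) :=
  posBox_of_check (c := ⟨299, ⟨6, 6, 8, 3⟩⟩) (by decide +kernel)

theorem bot1_eH1_0_0_1 : PosBox ⟨⟨0, 1, 2⟩, ⟨600, 601, 1000⟩, ⟨0, 501, 10000⟩, ⟨5250, 6500, 10000⟩⟩ (bot1.hEH true) :=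
  posBox_join₂ bot1_eH1_0_0_1_0 bot1_eH1_0_0_1_1

theorem bot1_eH1_0_0 : PosBox ⟨⟨0, 1, 2⟩, ⟨600, 601, 1000⟩, ⟨0, 501, 10000⟩, ⟨4000, 6500, 10000⟩⟩ (bot1.hEH true) :=
  posBox_join₃ bot1_eH1_0_0_0 bot1_eH1_0_0_1

def bot1_eH1_0_1_0_0 : PosBox ⟨⟨0, 1, 2⟩, ⟨600, 601, 1000⟩, ⟨0, 250, 10000⟩, ⟨6500, 7750, 10000⟩⟩ (bot1.hEH true) :=
  posBox_of_check (c := ⟨299, ⟨6, 6, 8, 3⟩⟩) (by decide +kernel)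

def bot1_eH1_0_1_0_1 : PosBox ⟨⟨0, 1, 2⟩, ⟨600, 601, 1000⟩, ⟨0, 250, 10000⟩, ⟨7750, 9000, 10000⟩⟩ (bot1.hEH true) :=
  posBox_of_check (c := ⟨299, ⟨6, 6, 8, 3⟩⟩) (by decide +kernel)

theorem bot1_eH1_0_1_0 : PosBox ⟨⟨0, 1, 2⟩, ⟨600, 601, 1000⟩, ⟨0, 250, 10000⟩, ⟨6500, 9000, 10000⟩⟩ (bot1.hEH true) :=
  posBox_join₃ bot1_eH1_0_1_0_0 bot1_eH1_0_1_0_1

def bot1_eH1_0_1_1_0 : PosBox ⟨⟨0, 1, 4⟩, ⟨600, 601, 1000⟩, ⟨250, 501, 10000⟩, ⟨6500, 9000, 10000⟩⟩ (bot1.hEH true) :=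
  posBox_of_check (c := ⟨300, ⟨6, 6, 8, 3⟩⟩) (by decide +kernel)

def bot1_eH1_0_1_1_1_0 : PosBox ⟨⟨1, 2, 4⟩, ⟨600, 601, 1000⟩, ⟨250, 501, 10000⟩, ⟨6500, 7750, 10000⟩⟩ (bot1.hEH true) :=
  posBox_of_check (c := ⟨302, ⟨6, 6, 8, 3⟩⟩) (by decide +kernel)

def bot1_eH1_0_1_1_1_1 : PosBox ⟨⟨1, 2, 4⟩, ⟨600, 601, 1000⟩, ⟨250, 501, 10000⟩, ⟨7750, 9000, 10000⟩⟩ (bot1.hEH true) :=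
  posBox_of_check (c := ⟨302, ⟨6, 6, 8, 3⟩⟩) (by decide +kernel)

theorem bot1_eH1_0_1_1_1 : PosBox ⟨⟨1, 2, 4⟩, ⟨600, 601, 1000⟩, ⟨250, 501, 10000⟩, ⟨6500, 9000, 10000⟩⟩ (bot1.hEH true) :=
  posBox_join₃ bot1_eH1_0_1_1_1_0 bot1_eH1_0_1_1_1_1

def bot1_eH1_0_1_1 : PosBox ⟨⟨0, 1, 2⟩, ⟨600, 601, 1000⟩, ⟨250, 501, 10000⟩, ⟨6500, 9000, 10000⟩⟩ (bot1.hEH true) :=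
  posBox_units (b := ⟨⟨0, 2, 4⟩, ⟨600, 601, 1000⟩, ⟨250, 501, 10000⟩, ⟨6500, 9000, 10000⟩⟩) (by decide +kernel) (posBox_join₀ bot1_eH1_0_1_1_0 bot1_eH1_0_1_1_1)

theorem bot1_eH1_0_1 : PosBox ⟨⟨0, 1, 2⟩, ⟨600, 601, 1000⟩, ⟨0, 501, 10000⟩, ⟨6500, 9000, 10000⟩⟩ (bot1.hEH true) :=
  posBox_join₂ bot1_eH1_0_1_0 bot1_eH1_0_1_1

theorem bot1_eH1_0 : PosBox ⟨⟨0, 1, 2⟩, ⟨600, 601, 1000⟩, ⟨0, 501, 10000⟩, ⟨4000, 9000, 10000⟩⟩ (bot1.hEH true) :=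
  posBox_join₃ bot1_eH1_0_0 bot1_eH1_0_1

def bot1_eH1_1_0 : PosBox ⟨⟨1, 2, 2⟩, ⟨600, 601, 1000⟩, ⟨0, 250, 10000⟩, ⟨4000, 9000, 10000⟩⟩ (bot1.hEH true) :=
  posBox_of_check (c := ⟨301, ⟨6, 6, 8, 3⟩⟩) (by decide +kernel)

def bot1_eH1_1_1 : PosBox ⟨⟨1, 2, 2⟩, ⟨600, 601, 1000⟩, ⟨250, 501, 10000⟩, ⟨4000, 9000, 10000⟩⟩ (bot1.hEH true) :=
  posBox_of_check (c := ⟨301, ⟨6, 6, 8, 3⟩⟩) (by decide +kernel)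

theorem bot1_eH1_1 : PosBox ⟨⟨1, 2, 2⟩, ⟨600, 601, 1000⟩, ⟨0, 501, 10000⟩, ⟨4000, 9000, 10000⟩⟩ (bot1.hEH true) :=
  posBox_join₂ bot1_eH1_1_0 bot1_eH1_1_1

def bot1_eH1 : PosBox ⟨⟨0, 1, 1⟩, ⟨600, 601, 1000⟩, ⟨0, 501, 10000⟩, ⟨4000, 9000, 10000⟩⟩ (bot1.hEH true) :=
  posBox_units (b := ⟨⟨0, 2, 2⟩, ⟨600, 601, 1000⟩, ⟨0, 501, 10000⟩, ⟨4000, 9000, 10000⟩⟩) (by decide +kernel) (posBox_join₀ bot1_eH1_0 bot1_eH1_1)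

def bot1_pL1 : PosBox ⟨⟨0, 1, 1⟩, ⟨600, 601, 1000⟩, ⟨0, 501, 10000⟩, ⟨4000, 9000, 10000⟩⟩ (bot1.hPL true) :=
  posBox_of_check (c := ⟨290, ⟨6, 6, 8, 2⟩⟩) (by decide +kernel)

def bot1_pU1_0_0 : PosBox ⟨⟨0, 1, 1⟩, ⟨600, 601, 1000⟩, ⟨0, 250, 10000⟩, ⟨4000, 6500, 10000⟩⟩ (bot1.hPU true) :=
  posBox_of_check (c := ⟨292, ⟨6, 6, 8, 3⟩⟩) (by decide +kernel)

def bot1_pU1_0_1_0 : PosBox ⟨⟨0, 1, 2⟩, ⟨600, 601, 1000⟩, ⟨250, 501, 10000⟩, ⟨4000, 6500, 10000⟩⟩ (bot1.hPU true) :=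
  posBox_of_check (c := ⟨294, ⟨6, 6, 8, 3⟩⟩) (by decide +kernel)

def bot1_pU1_0_1_1 : PosBox ⟨⟨1, 2, 2⟩, ⟨600, 601, 1000⟩, ⟨250, 501, 10000⟩, ⟨4000, 6500, 10000⟩⟩ (bot1.hPU true) :=
  posBox_of_check (c := ⟨296, ⟨6, 6, 8, 3⟩⟩) (by decide +kernel)

def bot1_pU1_0_1 : PosBox ⟨⟨0, 1, 1⟩, ⟨600, 601, 1000⟩, ⟨250, 501, 10000⟩, ⟨4000, 6500, 10000⟩⟩ (bot1.hPU true) :=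
  posBox_units (b := ⟨⟨0, 2, 2⟩, ⟨600, 601, 1000⟩, ⟨250, 501, 10000⟩, ⟨4000, 6500, 10000⟩⟩) (by decide +kernel) (posBox_join₀ bot1_pU1_0_1_0 bot1_pU1_0_1_1)

theorem bot1_pU1_0 : PosBox ⟨⟨0, 1, 1⟩, ⟨600, 601, 1000⟩, ⟨0, 501, 10000⟩, ⟨4000, 6500, 10000⟩⟩ (bot1.hPU true) :=
  posBox_join₂ bot1_pU1_0_0 bot1_pU1_0_1

def bot1_pU1_1_0_0 : PosBox ⟨⟨0, 1, 2⟩, ⟨600, 601, 1000⟩, ⟨0, 501, 10000⟩, ⟨6500, 7750, 10000⟩⟩ (bot1.hPU true) :=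
  posBox_of_check (c := ⟨294, ⟨6, 6, 8, 3⟩⟩) (by decide +kernel)

def bot1_pU1_1_0_1_0_0 : PosBox ⟨⟨1, 2, 2⟩, ⟨600, 601, 1000⟩, ⟨0, 250, 10000⟩, ⟨6500, 7125, 10000⟩⟩ (bot1.hPU true) :=
  posBox_of_check (c := ⟨296, ⟨6, 6, 8, 3⟩⟩) (by decide +kernel)

def bot1_pU1_1_0_1_0_1 : PosBox ⟨⟨1, 2, 2⟩, ⟨600, 601, 1000⟩, ⟨0, 250, 10000⟩, ⟨7125, 7750, 10000⟩⟩ (bot1.hPU true) :=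
  posBox_of_check (c := ⟨296, ⟨6, 6, 8, 3⟩⟩) (by decide +kernel)

theorem bot1_pU1_1_0_1_0 : PosBox ⟨⟨1, 2, 2⟩, ⟨600, 601, 1000⟩, ⟨0, 250, 10000⟩, ⟨6500, 7750, 10000⟩⟩ (bot1.hPU true) :=
  posBox_join₃ bot1_pU1_1_0_1_0_0 bot1_pU1_1_0_1_0_1

def bot1_pU1_1_0_1_1_0_0 : PosBox ⟨⟨2, 3, 4⟩, ⟨600, 601, 1000⟩, ⟨250, 501, 10000⟩, ⟨6500, 7125, 10000⟩⟩ (bot1.hPU true) :=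
  posBox_of_check (c := ⟨299, ⟨6, 6, 8, 3⟩⟩) (by decide +kernel)

def bot1_pU1_1_0_1_1_0_1 : PosBox ⟨⟨3, 4, 4⟩, ⟨600, 601, 1000⟩, ⟨250, 501, 10000⟩, ⟨6500, 7125, 10000⟩⟩ (bot1.hPU true) :=
  posBox_of_check (c := ⟨300, ⟨6, 6, 8, 3⟩⟩) (by decide +kernel)

def bot1_pU1_1_0_1_1_0 : PosBox ⟨⟨1, 2, 2⟩, ⟨600, 601, 1000⟩, ⟨250, 501, 10000⟩, ⟨6500, 7125, 10000⟩⟩ (bot1.hPU true) :=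
  posBox_units (b := ⟨⟨2, 4, 4⟩, ⟨600, 601, 1000⟩, ⟨250, 501, 10000⟩, ⟨6500, 7125, 10000⟩⟩) (by decide +kernel) (posBox_join₀ bot1_pU1_1_0_1_1_0_0 bot1_pU1_1_0_1_1_0_1)

def bot1_pU1_1_0_1_1_1 : PosBox ⟨⟨1, 2, 2⟩, ⟨600, 601, 1000⟩, ⟨250, 501, 10000⟩, ⟨7125, 7750, 10000⟩⟩ (bot1.hPU true) :=
  posBox_of_check (c := ⟨296, ⟨6, 6, 8, 3⟩⟩) (by decide +kernel)

theorem bot1_pU1_1_0_1_1 : PosBox ⟨⟨1, 2, 2⟩, ⟨600, 601, 1000⟩, ⟨250, 501, 10000⟩, ⟨6500, 7750, 10000⟩⟩ (bot1.hPU true) :=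
  posBox_join₃ bot1_pU1_1_0_1_1_0 bot1_pU1_1_0_1_1_1

theorem bot1_pU1_1_0_1 : PosBox ⟨⟨1, 2, 2⟩, ⟨600, 601, 1000⟩, ⟨0, 501, 10000⟩, ⟨6500, 7750, 10000⟩⟩ (bot1.hPU true) :=
  posBox_join₂ bot1_pU1_1_0_1_0 bot1_pU1_1_0_1_1

def bot1_pU1_1_0 : PosBox ⟨⟨0, 1, 1⟩, ⟨600, 601, 1000⟩, ⟨0, 501, 10000⟩, ⟨6500, 7750, 10000⟩⟩ (bot1.hPU true) :=
  posBox_units (b := ⟨⟨0, 2, 2⟩, ⟨600, 601, 1000⟩, ⟨0, 501, 10000⟩, ⟨6500, 7750, 10000⟩⟩) (by decide +kernel) (posBox_join₀ bot1_pU1_1_0_0 bot1_pU1_1_0_1)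

def bot1_pU1_1_1_0 : PosBox ⟨⟨0, 1, 2⟩, ⟨600, 601, 1000⟩, ⟨0, 501, 10000⟩, ⟨7750, 9000, 10000⟩⟩ (bot1.hPU true) :=
  posBox_of_check (c := ⟨294, ⟨6, 6, 8, 3⟩⟩) (by decide +kernel)

def bot1_pU1_1_1_1 : PosBox ⟨⟨1, 2, 2⟩, ⟨600, 601, 1000⟩, ⟨0, 501, 10000⟩, ⟨7750, 9000, 10000⟩⟩ (bot1.hPU true) :=
  posBox_of_check (c := ⟨296, ⟨6, 6, 8, 3⟩⟩) (by decide +kernel)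

def bot1_pU1_1_1 : PosBox ⟨⟨0, 1, 1⟩, ⟨600, 601, 1000⟩, ⟨0, 501, 10000⟩, ⟨7750, 9000, 10000⟩⟩ (bot1.hPU true) :=
  posBox_units (b := ⟨⟨0, 2, 2⟩, ⟨600, 601, 1000⟩, ⟨0, 501, 10000⟩, ⟨7750, 9000, 10000⟩⟩) (by decide +kernel) (posBox_join₀ bot1_pU1_1_1_0 bot1_pU1_1_1_1)

theorem bot1_pU1_1 : PosBox ⟨⟨0, 1, 1⟩, ⟨600, 601, 1000⟩, ⟨0, 501, 10000⟩, ⟨6500, 9000, 10000⟩⟩ (bot1.hPU true) :=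
  posBox_join₃ bot1_pU1_1_0 bot1_pU1_1_1

theorem bot1_pU1 : PosBox ⟨⟨0, 1, 1⟩, ⟨600, 601, 1000⟩, ⟨0, 501, 10000⟩, ⟨4000, 9000, 10000⟩⟩ (bot1.hPU true) :=
  posBox_join₃ bot1_pU1_0 bot1_pU1_1

def bot1_kU1 : PosBox ⟨⟨0, 1, 1⟩, ⟨600, 601, 1000⟩, ⟨0, 501, 10000⟩, ⟨4000, 9000, 10000⟩⟩ (bot1.hKU true) :=
  posBox_of_check (c := ⟨285, ⟨6, 6, 8, 3⟩⟩) (by decide +kernel)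

def bot1_kL1 : PosBox ⟨⟨0, 1, 1⟩, ⟨600, 601, 1000⟩, ⟨0, 501, 10000⟩, ⟨4000, 9000, 10000⟩⟩ (bot1.hKL true) :=
  posBox_of_check (c := ⟨286, ⟨6, 6, 8, 3⟩⟩) (by decide +kernel)

def bot1_wU1_0_0_0 : PosBox ⟨⟨0, 1, 2⟩, ⟨600, 601, 1000⟩, ⟨0, 501, 10000⟩, ⟨4000, 5250, 10000⟩⟩ (bot1.hWU true) :=
  posBox_of_check (c := ⟨319, ⟨6, 8, 9, 3⟩⟩) (by decide +kernel)

def bot1_wU1_0_0_1 : PosBox ⟨⟨0, 1, 2⟩, ⟨600, 601, 1000⟩, ⟨0, 501, 10000⟩, ⟨5250, 6500, 10000⟩⟩ (bot1.hWU true) :=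
  posBox_of_check (c := ⟨319, ⟨6, 8, 9, 3⟩⟩) (by decide +kernel)

theorem bot1_wU1_0_0 : PosBox ⟨⟨0, 1, 2⟩, ⟨600, 601, 1000⟩, ⟨0, 501, 10000⟩, ⟨4000, 6500, 10000⟩⟩ (bot1.hWU true) :=
  posBox_join₃ bot1_wU1_0_0_0 bot1_wU1_0_0_1

def bot1_wU1_0_1_0_0_0 : PosBox ⟨⟨2, 3, 4⟩, ⟨600, 601, 1000⟩, ⟨0, 501, 10000⟩, ⟨4000, 4625, 10000⟩⟩ (bot1.hWU true) :=
  posBox_of_check (c := ⟨323, ⟨6, 8, 9, 3⟩⟩) (by decide +kernel)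

def bot1_wU1_0_1_0_0_1 : PosBox ⟨⟨2, 3, 4⟩, ⟨600, 601, 1000⟩, ⟨0, 501, 10000⟩, ⟨4625, 5250, 10000⟩⟩ (bot1.hWU true) :=
  posBox_of_check (c := ⟨323, ⟨6, 8, 9, 3⟩⟩) (by decide +kernel)

theorem bot1_wU1_0_1_0_0 : PosBox ⟨⟨2, 3, 4⟩, ⟨600, 601, 1000⟩, ⟨0, 501, 10000⟩, ⟨4000, 5250, 10000⟩⟩ (bot1.hWU true) :=
  posBox_join₃ bot1_wU1_0_1_0_0_0 bot1_wU1_0_1_0_0_1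

def bot1_wU1_0_1_0_1_0 : PosBox ⟨⟨3, 4, 4⟩, ⟨600, 601, 1000⟩, ⟨0, 501, 10000⟩, ⟨4000, 4625, 10000⟩⟩ (bot1.hWU true) :=
  posBox_of_check (c := ⟨324, ⟨6, 8, 9, 3⟩⟩) (by decide +kernel)

def bot1_wU1_0_1_0_1_1 : PosBox ⟨⟨3, 4, 4⟩, ⟨600, 601, 1000⟩, ⟨0, 501, 10000⟩, ⟨4625, 5250, 10000⟩⟩ (bot1.hWU true) :=
  posBox_of_check (c := ⟨324, ⟨6, 8, 9, 3⟩⟩) (by decide +kernel)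

theorem bot1_wU1_0_1_0_1 : PosBox ⟨⟨3, 4, 4⟩, ⟨600, 601, 1000⟩, ⟨0, 501, 10000⟩, ⟨4000, 5250, 10000⟩⟩ (bot1.hWU true) :=
  posBox_join₃ bot1_wU1_0_1_0_1_0 bot1_wU1_0_1_0_1_1

def bot1_wU1_0_1_0 : PosBox ⟨⟨1, 2, 2⟩, ⟨600, 601, 1000⟩, ⟨0, 501, 10000⟩, ⟨4000, 5250, 10000⟩⟩ (bot1.hWU true) :=
  posBox_units (b := ⟨⟨2, 4, 4⟩, ⟨600, 601, 1000⟩, ⟨0, 501, 10000⟩, ⟨4000, 5250, 10000⟩⟩) (by decide +kernel) (posBox_join₀ bot1_wU1_0_1_0_0 bot1_wU1_0_1_0_1)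

def bot1_wU1_0_1_1_0_0_0 : PosBox ⟨⟨4, 5, 8⟩, ⟨600, 601, 1000⟩, ⟨0, 501, 10000⟩, ⟨5250, 5875, 10000⟩⟩ (bot1.hWU true) :=
  posBox_of_check (c := ⟨328, ⟨6, 8, 9, 3⟩⟩) (by decide +kernel)

def bot1_wU1_0_1_1_0_0_1 : PosBox ⟨⟨5, 6, 8⟩, ⟨600, 601, 1000⟩, ⟨0, 501, 10000⟩, ⟨5250, 5875, 10000⟩⟩ (bot1.hWU true) :=
  posBox_of_check (c := ⟨329, ⟨6, 8, 9, 3⟩⟩) (by decide +kernel)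

def bot1_wU1_0_1_1_0_0 : PosBox ⟨⟨2, 3, 4⟩, ⟨600, 601, 1000⟩, ⟨0, 501, 10000⟩, ⟨5250, 5875, 10000⟩⟩ (bot1.hWU true) :=
  posBox_units (b := ⟨⟨4, 6, 8⟩, ⟨600, 601, 1000⟩, ⟨0, 501, 10000⟩, ⟨5250, 5875, 10000⟩⟩) (by decide +kernel) (posBox_join₀ bot1_wU1_0_1_1_0_0_0 bot1_wU1_0_1_1_0_0_1)

def bot1_wU1_0_1_1_0_1 : PosBox ⟨⟨2, 3, 4⟩, ⟨600, 601, 1000⟩, ⟨0, 501, 10000⟩, ⟨5875, 6500, 10000⟩⟩ (bot1.hWU true) :=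
  posBox_of_check (c := ⟨323, ⟨6, 8, 9, 3⟩⟩) (by decide +kernel)

theorem bot1_wU1_0_1_1_0 : PosBox ⟨⟨2, 3, 4⟩, ⟨600, 601, 1000⟩, ⟨0, 501, 10000⟩, ⟨5250, 6500, 10000⟩⟩ (bot1.hWU true) :=
  posBox_join₃ bot1_wU1_0_1_1_0_0 bot1_wU1_0_1_1_0_1

def bot1_wU1_0_1_1_1 : PosBox ⟨⟨3, 4, 4⟩, ⟨600, 601, 1000⟩, ⟨0, 501, 10000⟩, ⟨5250, 6500, 10000⟩⟩ (bot1.hWU true) :=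
  posBox_of_check (c := ⟨324, ⟨6, 8, 9, 3⟩⟩) (by decide +kernel)

def bot1_wU1_0_1_1 : PosBox ⟨⟨1, 2, 2⟩, ⟨600, 601, 1000⟩, ⟨0, 501, 10000⟩, ⟨5250, 6500, 10000⟩⟩ (bot1.hWU true) :=
  posBox_units (b := ⟨⟨2, 4, 4⟩, ⟨600, 601, 1000⟩, ⟨0, 501, 10000⟩, ⟨5250, 6500, 10000⟩⟩) (by decide +kernel) (posBox_join₀ bot1_wU1_0_1_1_0 bot1_wU1_0_1_1_1)

theorem bot1_wU1_0_1 : PosBox ⟨⟨1, 2, 2⟩, ⟨600, 601, 1000⟩, ⟨0, 501, 10000⟩, ⟨4000, 6500, 10000⟩⟩ (bot1.hWU true) :=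
  posBox_join₃ bot1_wU1_0_1_0 bot1_wU1_0_1_1

def bot1_wU1_0 : PosBox ⟨⟨0, 1, 1⟩, ⟨600, 601, 1000⟩, ⟨0, 501, 10000⟩, ⟨4000, 6500, 10000⟩⟩ (bot1.hWU true) :=
  posBox_units (b := ⟨⟨0, 2, 2⟩, ⟨600, 601, 1000⟩, ⟨0, 501, 10000⟩, ⟨4000, 6500, 10000⟩⟩) (by decide +kernel) (posBox_join₀ bot1_wU1_0_0 bot1_wU1_0_1)

def bot1_wU1_1_0_0_0 : PosBox ⟨⟨0, 1, 4⟩, ⟨600, 601, 1000⟩, ⟨0, 501, 10000⟩, ⟨6500, 7750, 10000⟩⟩ (bot1.hWU true) :=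
  posBox_of_check (c := ⟨321, ⟨6, 8, 9, 3⟩⟩) (by decide +kernel)

def bot1_wU1_1_0_0_1 : PosBox ⟨⟨1, 2, 4⟩, ⟨600, 601, 1000⟩, ⟨0, 501, 10000⟩, ⟨6500, 7750, 10000⟩⟩ (bot1.hWU true) :=
  posBox_of_check (c := ⟨322, ⟨6, 8, 9, 3⟩⟩) (by decide +kernel)

def bot1_wU1_1_0_0 : PosBox ⟨⟨0, 1, 2⟩, ⟨600, 601, 1000⟩, ⟨0, 501, 10000⟩, ⟨6500, 7750, 10000⟩⟩ (bot1.hWU true) :=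
  posBox_units (b := ⟨⟨0, 2, 4⟩, ⟨600, 601, 1000⟩, ⟨0, 501, 10000⟩, ⟨6500, 7750, 10000⟩⟩) (by decide +kernel) (posBox_join₀ bot1_wU1_1_0_0_0 bot1_wU1_1_0_0_1)

def bot1_wU1_1_0_1_0 : PosBox ⟨⟨0, 1, 4⟩, ⟨600, 601, 1000⟩, ⟨0, 501, 10000⟩, ⟨7750, 9000, 10000⟩⟩ (bot1.hWU true) :=
  posBox_of_check (c := ⟨321, ⟨6, 8, 9, 3⟩⟩) (by decide +kernel)

def bot1_wU1_1_0_1_1 : PosBox ⟨⟨1, 2, 4⟩, ⟨600, 601, 1000⟩, ⟨0, 501, 10000⟩, ⟨7750, 9000, 10000⟩⟩ (bot1.hWU true) :=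
  posBox_of_check (c := ⟨323, ⟨6, 8, 9, 3⟩⟩) (by decide +kernel)

def bot1_wU1_1_0_1 : PosBox ⟨⟨0, 1, 2⟩, ⟨600, 601, 1000⟩, ⟨0, 501, 10000⟩, ⟨7750, 9000, 10000⟩⟩ (bot1.hWU true) :=
  posBox_units (b := ⟨⟨0, 2, 4⟩, ⟨600, 601, 1000⟩, ⟨0, 501, 10000⟩, ⟨7750, 9000, 10000⟩⟩) (by decide +kernel) (posBox_join₀ bot1_wU1_1_0_1_0 bot1_wU1_1_0_1_1)

theorem bot1_wU1_1_0 : PosBox ⟨⟨0, 1, 2⟩, ⟨600, 601, 1000⟩, ⟨0, 501, 10000⟩, ⟨6500, 9000, 10000⟩⟩ (bot1.hWU true) :=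
  posBox_join₃ bot1_wU1_1_0_0 bot1_wU1_1_0_1

def bot1_wU1_1_1 : PosBox ⟨⟨1, 2, 2⟩, ⟨600, 601, 1000⟩, ⟨0, 501, 10000⟩, ⟨6500, 9000, 10000⟩⟩ (bot1.hWU true) :=
  posBox_of_check (c := ⟨321, ⟨6, 8, 9, 3⟩⟩) (by decide +kernel)

def bot1_wU1_1 : PosBox ⟨⟨0, 1, 1⟩, ⟨600, 601, 1000⟩, ⟨0, 501, 10000⟩, ⟨6500, 9000, 10000⟩⟩ (bot1.hWU true) :=
  posBox_units (b := ⟨⟨0, 2, 2⟩, ⟨600, 601, 1000⟩, ⟨0, 501, 10000⟩, ⟨6500, 9000, 10000⟩⟩) (by decide +kernel) (posBox_join₀ bot1_wU1_1_0 bot1_wU1_1_1)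

theorem bot1_wU1 : PosBox ⟨⟨0, 1, 1⟩, ⟨600, 601, 1000⟩, ⟨0, 501, 10000⟩, ⟨4000, 9000, 10000⟩⟩ (bot1.hWU true) :=
  posBox_join₃ bot1_wU1_0 bot1_wU1_1

def bot1_wL1_0 : PosBox ⟨⟨0, 1, 1⟩, ⟨600, 601, 1000⟩, ⟨0, 501, 10000⟩, ⟨4000, 6500, 10000⟩⟩ (bot1.hWL true) :=
  posBox_of_check (c := ⟨318, ⟨6, 8, 9, 3⟩⟩) (by decide +kernel)

def bot1_wL1_1 : PosBox ⟨⟨0, 1, 1⟩, ⟨600, 601, 1000⟩, ⟨0, 501, 10000⟩, ⟨6500, 9000, 10000⟩⟩ (bot1.hWL true) :=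
  posBox_of_check (c := ⟨318, ⟨6, 8, 9, 3⟩⟩) (by decide +kernel)

theorem bot1_wL1 : PosBox ⟨⟨0, 1, 1⟩, ⟨600, 601, 1000⟩, ⟨0, 501, 10000⟩, ⟨4000, 9000, 10000⟩⟩ (bot1.hWL true) :=
  posBox_join₃ bot1_wL1_0 bot1_wL1_1

def bot1_mueL : PosBox ⟨⟨0, 1, 1⟩, ⟨600, 601, 1000⟩, ⟨0, 501, 10000⟩, ⟨4000, 9000, 10000⟩⟩ (bot1.eL.μ) :=
  posBox_of_check (c := ⟨7, ⟨0, 0, 0, 0⟩⟩) (by decide +kernel)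

def bot1_mueH : PosBox ⟨⟨0, 1, 1⟩, ⟨600, 601, 1000⟩, ⟨0, 501, 10000⟩, ⟨4000, 9000, 10000⟩⟩ (bot1.eH.μ) :=
  posBox_of_check (c := ⟨17, ⟨0, 0, 0, 0⟩⟩) (by decide +kernel)

def bot1_mupL : PosBox ⟨⟨0, 1, 1⟩, ⟨600, 601, 1000⟩, ⟨0, 501, 10000⟩, ⟨4000, 9000, 10000⟩⟩ (bot1.pL.μ) :=
  posBox_of_check (c := ⟨5, ⟨0, 0, 0, 0⟩⟩) (by decide +kernel)

/-- The checks on the bounds. -/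
theorem bot1_env : bot1.Env ⟨⟨0, 1, 1⟩, ⟨600, 601, 1000⟩, ⟨0, 501, 10000⟩, ⟨4000, 9000, 10000⟩⟩ where
  p0 := bot1_p0
  den := Bool.forall_bool.2 ⟨bot1_den0, bot1_den1⟩
  gn := bot1_gn
  ev := Bool.forall_bool.2 ⟨bot1_ev0, bot1_ev1⟩
  eL := Bool.forall_bool.2 ⟨bot1_eL0, bot1_eL1⟩
  eL' := ⟨.inl bot1_mueL, .inr rfl⟩
  eH := Bool.forall_bool.2 ⟨bot1_eH0, bot1_eH1⟩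
  eH' := ⟨.inl bot1_mueH, .inr rfl⟩
  pL := Bool.forall_bool.2 ⟨bot1_pL0, bot1_pL1⟩
  pL' := ⟨.inl bot1_mupL, .inr rfl⟩
  pU := Bool.forall_bool.2 ⟨bot1_pU0, bot1_pU1⟩
  pU' := ⟨.inr rfl, .inr rfl⟩
  kU := Bool.forall_bool.2 ⟨bot1_kU0, bot1_kU1⟩
  kU' := ⟨.inr rfl, .inr rfl⟩
  kL := Bool.forall_bool.2 ⟨bot1_kL0, bot1_kL1⟩
  kL' := ⟨.inr rfl, .inr rfl⟩
  wU := Bool.forall_bool.2 ⟨bot1_wU0, bot1_wU1⟩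
  wU' := ⟨.inr rfl, .inr rfl⟩
  wL := Bool.forall_bool.2 ⟨bot1_wL0, bot1_wL1⟩
  wL' := ⟨.inr rfl, .inr rfl⟩

end Vale.Agent.P100.Calib.Closed.High
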