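import Vale.Agent.P100.Calib.SlabHighBotData

/-!
# Checks of the bounds of a piece of the tail
-/

set_option linter.defProp false

namespace Vale.Agent.P100.Calib.Closed.High

open BoxPos Large

def bot10_p0 : PosBox ⟨⟨0, 1, 1⟩, ⟨600, 601, 1000⟩, ⟨400, 501, 10000⟩, ⟨10850, 11400, 10000⟩⟩ (bot10.hP0) :=
  posBox_of_check (c := ⟨69, ⟨0, 2, 3, 1⟩⟩) (by decide +kernel)

def bot10_gn : PosBox ⟨⟨0, 1, 1⟩, ⟨600, 601, 1000⟩, ⟨400, 501, 10000⟩, ⟨10850, 11400, 10000⟩⟩ (bot10.hGn) :=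
  posBox_of_check (c := ⟨56, ⟨1, 1, 2, 1⟩⟩) (by decide +kernel)

def bot10_den0 : PosBox ⟨⟨0, 1, 1⟩, ⟨600, 601, 1000⟩, ⟨400, 501, 10000⟩, ⟨10850, 11400, 10000⟩⟩ (bot10.hDen false) :=
  posBox_of_check (c := ⟨74, ⟨2, 0, 2, 0⟩⟩) (by decide +kernel)

def bot10_den1 : PosBox ⟨⟨0, 1, 1⟩, ⟨600, 601, 1000⟩, ⟨400, 501, 10000⟩, ⟨10850, 11400, 10000⟩⟩ (bot10.hDen true) :=
  posBox_of_check (c := ⟨75, ⟨3, 0, 1, 0⟩⟩) (by decide +kernel)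

def bot10_ev0 : PosBox ⟨⟨0, 1, 1⟩, ⟨600, 601, 1000⟩, ⟨400, 501, 10000⟩, ⟨10850, 11400, 10000⟩⟩ (bot10.hEv false) :=
  posBox_of_check (c := ⟨152, ⟨4, 2, 4, 1⟩⟩) (by decide +kernel)

def bot10_eL0 : PosBox ⟨⟨0, 1, 1⟩, ⟨600, 601, 1000⟩, ⟨400, 501, 10000⟩, ⟨10850, 11400, 10000⟩⟩ (bot10.hEL false) :=
  posBox_of_check (c := ⟨238, ⟨5, 6, 7, 2⟩⟩) (by decide +kernel)

def bot10_eH0 : PosBox ⟨⟨0, 1, 1⟩, ⟨600, 601, 1000⟩, ⟨400, 501, 10000⟩, ⟨10850, 11400, 10000⟩⟩ (bot10.hEH false) :=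
  posBox_of_check (c := ⟨238, ⟨5, 6, 7, 2⟩⟩) (by decide +kernel)

def bot10_pL0 : PosBox ⟨⟨0, 1, 1⟩, ⟨600, 601, 1000⟩, ⟨400, 501, 10000⟩, ⟨10850, 11400, 10000⟩⟩ (bot10.hPL false) :=
  posBox_of_check (c := ⟨246, ⟨5, 6, 7, 3⟩⟩) (by decide +kernel)

def bot10_pU0 : PosBox ⟨⟨0, 1, 1⟩, ⟨600, 601, 1000⟩, ⟨400, 501, 10000⟩, ⟨10850, 11400, 10000⟩⟩ (bot10.hPU false) :=
  posBox_of_check (c := ⟨248, ⟨5, 6, 7, 3⟩⟩) (by decide +kernel)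

def bot10_kU0 : PosBox ⟨⟨0, 1, 1⟩, ⟨600, 601, 1000⟩, ⟨400, 501, 10000⟩, ⟨10850, 11400, 10000⟩⟩ (bot10.hKU false) :=
  posBox_of_check (c := ⟨240, ⟨5, 6, 7, 3⟩⟩) (by decide +kernel)

def bot10_kL0 : PosBox ⟨⟨0, 1, 1⟩, ⟨600, 601, 1000⟩, ⟨400, 501, 10000⟩, ⟨10850, 11400, 10000⟩⟩ (bot10.hKL false) :=
  posBox_of_check (c := ⟨241, ⟨5, 6, 7, 3⟩⟩) (by decide +kernel)

def bot10_wU0 : PosBox ⟨⟨0, 1, 1⟩, ⟨600, 601, 1000⟩, ⟨400, 501, 10000⟩, ⟨10850, 11400, 10000⟩⟩ (bot10.hWU false) :=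
  posBox_of_check (c := ⟨272, ⟨5, 8, 8, 3⟩⟩) (by decide +kernel)

def bot10_wL0 : PosBox ⟨⟨0, 1, 1⟩, ⟨600, 601, 1000⟩, ⟨400, 501, 10000⟩, ⟨10850, 11400, 10000⟩⟩ (bot10.hWL false) :=
  posBox_of_check (c := ⟨271, ⟨5, 8, 8, 3⟩⟩) (by decide +kernel)

def bot10_pV0 : PosBox ⟨⟨0, 1, 1⟩, ⟨600, 601, 1000⟩, ⟨400, 501, 10000⟩, ⟨10850, 11400, 10000⟩⟩ (({ bot10 with pU := bot10PU } : Piece).hPU false) :=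
  posBox_of_check (c := ⟨245, ⟨5, 6, 7, 3⟩⟩) (by decide +kernel)

def bot10_ev1 : PosBox ⟨⟨0, 1, 1⟩, ⟨600, 601, 1000⟩, ⟨400, 501, 10000⟩, ⟨10850, 11400, 10000⟩⟩ (bot10.hEv true) :=
  posBox_of_check (c := ⟨197, ⟨5, 2, 5, 1⟩⟩) (by decide +kernel)

def bot10_eL1 : PosBox ⟨⟨0, 1, 1⟩, ⟨600, 601, 1000⟩, ⟨400, 501, 10000⟩, ⟨10850, 11400, 10000⟩⟩ (bot10.hEL true) :=
  posBox_of_check (c := ⟨283, ⟨6, 6, 8, 2⟩⟩) (by decide +kernel)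

def bot10_eH1 : PosBox ⟨⟨0, 1, 1⟩, ⟨600, 601, 1000⟩, ⟨400, 501, 10000⟩, ⟨10850, 11400, 10000⟩⟩ (bot10.hEH true) :=
  posBox_of_check (c := ⟨283, ⟨6, 6, 8, 2⟩⟩) (by decide +kernel)

def bot10_pL1 : PosBox ⟨⟨0, 1, 1⟩, ⟨600, 601, 1000⟩, ⟨400, 501, 10000⟩, ⟨10850, 11400, 10000⟩⟩ (bot10.hPL true) :=
  posBox_of_check (c := ⟨292, ⟨6, 6, 8, 3⟩⟩) (by decide +kernel)

def bot10_pU1 : PosBox ⟨⟨0, 1, 1⟩, ⟨600, 601, 1000⟩, ⟨400, 501, 10000⟩, ⟨10850, 11400, 10000⟩⟩ (bot10.hPU true) :=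
  posBox_of_check (c := ⟨294, ⟨6, 6, 8, 3⟩⟩) (by decide +kernel)

def bot10_kU1 : PosBox ⟨⟨0, 1, 1⟩, ⟨600, 601, 1000⟩, ⟨400, 501, 10000⟩, ⟨10850, 11400, 10000⟩⟩ (bot10.hKU true) :=
  posBox_of_check (c := ⟨286, ⟨6, 6, 8, 3⟩⟩) (by decide +kernel)

def bot10_kL1 : PosBox ⟨⟨0, 1, 1⟩, ⟨600, 601, 1000⟩, ⟨400, 501, 10000⟩, ⟨10850, 11400, 10000⟩⟩ (bot10.hKL true) :=
  posBox_of_check (c := ⟨287, ⟨6, 6, 8, 3⟩⟩) (by decide +kernel)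

def bot10_wU1 : PosBox ⟨⟨0, 1, 1⟩, ⟨600, 601, 1000⟩, ⟨400, 501, 10000⟩, ⟨10850, 11400, 10000⟩⟩ (bot10.hWU true) :=
  posBox_of_check (c := ⟨319, ⟨6, 8, 9, 3⟩⟩) (by decide +kernel)

def bot10_wL1 : PosBox ⟨⟨0, 1, 1⟩, ⟨600, 601, 1000⟩, ⟨400, 501, 10000⟩, ⟨10850, 11400, 10000⟩⟩ (bot10.hWL true) :=
  posBox_of_check (c := ⟨318, ⟨6, 8, 9, 3⟩⟩) (by decide +kernel)

def bot10_pV1 : PosBox ⟨⟨0, 1, 1⟩, ⟨600, 601, 1000⟩, ⟨400, 501, 10000⟩, ⟨10850, 11400, 10000⟩⟩ (({ bot10 with pU := bot10PU } : Piece).hPU true) :=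
  posBox_of_check (c := ⟨292, ⟨6, 6, 8, 3⟩⟩) (by decide +kernel)

/-- The checks on the bounds. -/
theorem bot10_env : bot10.Env ⟨⟨0, 1, 1⟩, ⟨600, 601, 1000⟩, ⟨400, 501, 10000⟩, ⟨10850, 11400, 10000⟩⟩ where
  p0 := bot10_p0
  den := Bool.forall_bool.2 ⟨bot10_den0, bot10_den1⟩
  gn := bot10_gn
  ev := Bool.forall_bool.2 ⟨bot10_ev0, bot10_ev1⟩
  eL := Bool.forall_bool.2 ⟨bot10_eL0, bot10_eL1⟩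
  eL' := ⟨.inr rfl, .inr rfl⟩
  eH := Bool.forall_bool.2 ⟨bot10_eH0, bot10_eH1⟩
  eH' := ⟨.inr rfl, .inr rfl⟩
  pL := Bool.forall_bool.2 ⟨bot10_pL0, bot10_pL1⟩
  pL' := ⟨.inr rfl, .inr rfl⟩
  pU := Bool.forall_bool.2 ⟨bot10_pU0, bot10_pU1⟩
  pU' := ⟨.inr rfl, .inr rfl⟩
  kU := Bool.forall_bool.2 ⟨bot10_kU0, bot10_kU1⟩
  kU' := ⟨.inr rfl, .inr rfl⟩
  kL := Bool.forall_bool.2 ⟨bot10_kL0, bot10_kL1⟩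
  kL' := ⟨.inr rfl, .inr rfl⟩
  wU := Bool.forall_bool.2 ⟨bot10_wU0, bot10_wU1⟩
  wU' := ⟨.inr rfl, .inr rfl⟩
  wL := Bool.forall_bool.2 ⟨bot10_wL0, bot10_wL1⟩
  wL' := ⟨.inr rfl, .inr rfl⟩

/-- The checks with the bound above the cut. -/
theorem bot10_envU : ({ bot10 with pU := bot10PU } : Piece).Env ⟨⟨0, 1, 1⟩, ⟨600, 601, 1000⟩, ⟨400, 501, 10000⟩, ⟨10850, 11400, 10000⟩⟩ :=
  bot10_env.withU bot10PU (Bool.forall_bool.2 ⟨bot10_pV0, bot10_pV1⟩) ⟨.inr rfl, .inr rfl⟩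

end Vale.Agent.P100.Calib.Closed.High
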