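import Vale.Agent.P100.Calib.SlabHighBotData

/-!
# Checks of the bounds of a piece of the tail
-/

set_option linter.defProp false

namespace Vale.Agent.P100.Calib.Closed.High

open BoxPos Large

def bot11_p0 : PosBox ⟨⟨0, 1, 1⟩, ⟨600, 601, 1000⟩, ⟨400, 501, 10000⟩, ⟨11400, 12200, 10000⟩⟩ (bot11.hP0) :=
  posBox_of_check (c := ⟨67, ⟨0, 2, 3, 1⟩⟩) (by decide +kernel)

def bot11_gn : PosBox ⟨⟨0, 1, 1⟩, ⟨600, 601, 1000⟩, ⟨400, 501, 10000⟩, ⟨11400, 12200, 10000⟩⟩ (bot11.hGn) :=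
  posBox_of_check (c := ⟨73, ⟨1, 1, 2, 2⟩⟩) (by decide +kernel)

def bot11_phi : PosBox ⟨⟨0, 1, 1⟩, ⟨600, 601, 1000⟩, ⟨400, 501, 10000⟩, ⟨11400, 12200, 10000⟩⟩ (botPhi bot11.u₁ xV) :=
  posBox_of_check (c := ⟨127, ⟨0, 0, 5, 3⟩⟩) (by decide +kernel)

def bot11_den0 : PosBox ⟨⟨0, 1, 1⟩, ⟨600, 601, 1000⟩, ⟨400, 501, 10000⟩, ⟨11400, 12200, 10000⟩⟩ (bot11.hDen false) :=
  posBox_of_check (c := ⟨91, ⟨2, 0, 4, 2⟩⟩) (by decide +kernel)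

def bot11_den1 : PosBox ⟨⟨0, 1, 1⟩, ⟨600, 601, 1000⟩, ⟨400, 501, 10000⟩, ⟨11400, 12200, 10000⟩⟩ (bot11.hDen true) :=
  posBox_of_check (c := ⟨94, ⟨3, 0, 3, 3⟩⟩) (by decide +kernel)

def bot11_ev0 : PosBox ⟨⟨0, 1, 1⟩, ⟨600, 601, 1000⟩, ⟨400, 501, 10000⟩, ⟨11400, 12200, 10000⟩⟩ (bot11.hEv false) :=
  posBox_of_check (c := ⟨203, ⟨4, 2, 8, 4⟩⟩) (by decide +kernel)

def bot11_eL0 : PosBox ⟨⟨0, 1, 1⟩, ⟨600, 601, 1000⟩, ⟨400, 501, 10000⟩, ⟨11400, 12200, 10000⟩⟩ (bot11.hEL false) :=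
  posBox_of_check (c := ⟨291, ⟨5, 6, 11, 6⟩⟩) (by decide +kernel)

def bot11_eH0 : PosBox ⟨⟨0, 1, 1⟩, ⟨600, 601, 1000⟩, ⟨400, 501, 10000⟩, ⟨11400, 12200, 10000⟩⟩ (bot11.hEH false) :=
  posBox_of_check (c := ⟨290, ⟨5, 6, 11, 6⟩⟩) (by decide +kernel)

def bot11_pL0 : PosBox ⟨⟨0, 1, 1⟩, ⟨600, 601, 1000⟩, ⟨400, 501, 10000⟩, ⟨11400, 12200, 10000⟩⟩ (bot11.hPL false) :=
  posBox_of_check (c := ⟨315, ⟨5, 6, 11, 7⟩⟩) (by decide +kernel)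

def bot11_pU0 : PosBox ⟨⟨0, 1, 1⟩, ⟨600, 601, 1000⟩, ⟨400, 501, 10000⟩, ⟨11400, 12200, 10000⟩⟩ (bot11.hPU false) :=
  posBox_of_check (c := ⟨318, ⟨5, 6, 11, 7⟩⟩) (by decide +kernel)

def bot11_kU0 : PosBox ⟨⟨0, 1, 1⟩, ⟨600, 601, 1000⟩, ⟨400, 501, 10000⟩, ⟨11400, 12200, 10000⟩⟩ (bot11.hKU false) :=
  posBox_of_check (c := ⟨309, ⟨5, 6, 11, 7⟩⟩) (by decide +kernel)

def bot11_kL0 : PosBox ⟨⟨0, 1, 1⟩, ⟨600, 601, 1000⟩, ⟨400, 501, 10000⟩, ⟨11400, 12200, 10000⟩⟩ (bot11.hKL false) :=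
  posBox_of_check (c := ⟨309, ⟨5, 6, 11, 7⟩⟩) (by decide +kernel)

def bot11_wU0 : PosBox ⟨⟨0, 1, 1⟩, ⟨600, 601, 1000⟩, ⟨400, 501, 10000⟩, ⟨11400, 12200, 10000⟩⟩ (bot11.hWU false) :=
  posBox_of_check (c := ⟨341, ⟨5, 8, 12, 7⟩⟩) (by decide +kernel)

def bot11_wL0 : PosBox ⟨⟨0, 1, 1⟩, ⟨600, 601, 1000⟩, ⟨400, 501, 10000⟩, ⟨11400, 12200, 10000⟩⟩ (bot11.hWL false) :=
  posBox_of_check (c := ⟨339, ⟨5, 8, 12, 7⟩⟩) (by decide +kernel)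

def bot11_pV0 : PosBox ⟨⟨0, 1, 1⟩, ⟨600, 601, 1000⟩, ⟨400, 501, 10000⟩, ⟨11400, 12200, 10000⟩⟩ (({ bot11 with pU := bot11PU } : Piece).hPU false) :=
  posBox_of_check (c := ⟨314, ⟨5, 6, 11, 7⟩⟩) (by decide +kernel)

def bot11_ev1 : PosBox ⟨⟨0, 1, 1⟩, ⟨600, 601, 1000⟩, ⟨400, 501, 10000⟩, ⟨11400, 12200, 10000⟩⟩ (bot11.hEv true) :=
  posBox_of_check (c := ⟨251, ⟨5, 2, 9, 6⟩⟩) (by decide +kernel)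

def bot11_eL1 : PosBox ⟨⟨0, 1, 1⟩, ⟨600, 601, 1000⟩, ⟨400, 501, 10000⟩, ⟨11400, 12200, 10000⟩⟩ (bot11.hEL true) :=
  posBox_of_check (c := ⟨339, ⟨6, 6, 12, 8⟩⟩) (by decide +kernel)

def bot11_eH1 : PosBox ⟨⟨0, 1, 1⟩, ⟨600, 601, 1000⟩, ⟨400, 501, 10000⟩, ⟨11400, 12200, 10000⟩⟩ (bot11.hEH true) :=
  posBox_of_check (c := ⟨338, ⟨6, 6, 12, 8⟩⟩) (by decide +kernel)

def bot11_pL1 : PosBox ⟨⟨0, 1, 1⟩, ⟨600, 601, 1000⟩, ⟨400, 501, 10000⟩, ⟨11400, 12200, 10000⟩⟩ (bot11.hPL true) :=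
  posBox_of_check (c := ⟨363, ⟨6, 6, 12, 9⟩⟩) (by decide +kernel)

def bot11_pU1 : PosBox ⟨⟨0, 1, 1⟩, ⟨600, 601, 1000⟩, ⟨400, 501, 10000⟩, ⟨11400, 12200, 10000⟩⟩ (bot11.hPU true) :=
  posBox_of_check (c := ⟨365, ⟨6, 6, 12, 9⟩⟩) (by decide +kernel)

def bot11_kU1 : PosBox ⟨⟨0, 1, 1⟩, ⟨600, 601, 1000⟩, ⟨400, 501, 10000⟩, ⟨11400, 12200, 10000⟩⟩ (bot11.hKU true) :=
  posBox_of_check (c := ⟨357, ⟨6, 6, 12, 9⟩⟩) (by decide +kernel)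

def bot11_kL1 : PosBox ⟨⟨0, 1, 1⟩, ⟨600, 601, 1000⟩, ⟨400, 501, 10000⟩, ⟨11400, 12200, 10000⟩⟩ (bot11.hKL true) :=
  posBox_of_check (c := ⟨357, ⟨6, 6, 12, 9⟩⟩) (by decide +kernel)

def bot11_wU1 : PosBox ⟨⟨0, 1, 1⟩, ⟨600, 601, 1000⟩, ⟨400, 501, 10000⟩, ⟨11400, 12200, 10000⟩⟩ (bot11.hWU true) :=
  posBox_of_check (c := ⟨390, ⟨6, 8, 13, 9⟩⟩) (by decide +kernel)

def bot11_wL1 : PosBox ⟨⟨0, 1, 1⟩, ⟨600, 601, 1000⟩, ⟨400, 501, 10000⟩, ⟨11400, 12200, 10000⟩⟩ (bot11.hWL true) :=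
  posBox_of_check (c := ⟨388, ⟨6, 8, 13, 9⟩⟩) (by decide +kernel)

def bot11_pV1 : PosBox ⟨⟨0, 1, 1⟩, ⟨600, 601, 1000⟩, ⟨400, 501, 10000⟩, ⟨11400, 12200, 10000⟩⟩ (({ bot11 with pU := bot11PU } : Piece).hPU true) :=
  posBox_of_check (c := ⟨362, ⟨6, 6, 12, 9⟩⟩) (by decide +kernel)

/-- The checks on the bounds. -/
theorem bot11_env : bot11.Env ⟨⟨0, 1, 1⟩, ⟨600, 601, 1000⟩, ⟨400, 501, 10000⟩, ⟨11400, 12200, 10000⟩⟩ where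
  p0 := bot11_p0
  den := Bool.forall_bool.2 ⟨bot11_den0, bot11_den1⟩
  gn := bot11_gn
  ev := Bool.forall_bool.2 ⟨bot11_ev0, bot11_ev1⟩
  eL := Bool.forall_bool.2 ⟨bot11_eL0, bot11_eL1⟩
  eL' := ⟨.inr rfl, .inr rfl⟩
  eH := Bool.forall_bool.2 ⟨bot11_eH0, bot11_eH1⟩
  eH' := ⟨.inr rfl, .inr rfl⟩
  pL := Bool.forall_bool.2 ⟨bot11_pL0, bot11_pL1⟩
  pL' := ⟨.inr rfl, .inr rfl⟩
  pU := Bool.forall_bool.2 ⟨bot11_pU0, bot11_pU1⟩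
  pU' := ⟨.inr rfl, .inr rfl⟩
  kU := Bool.forall_bool.2 ⟨bot11_kU0, bot11_kU1⟩
  kU' := ⟨.inr rfl, .inr rfl⟩
  kL := Bool.forall_bool.2 ⟨bot11_kL0, bot11_kL1⟩
  kL' := ⟨.inr rfl, .inr rfl⟩
  wU := Bool.forall_bool.2 ⟨bot11_wU0, bot11_wU1⟩
  wU' := ⟨.inr rfl, .inr rfl⟩
  wL := Bool.forall_bool.2 ⟨bot11_wL0, bot11_wL1⟩
  wL' := ⟨.inr rfl, .inr rfl⟩

/-- The checks with the bound above the cut. -/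
theorem bot11_envU : ({ bot11 with pU := bot11PU } : Piece).Env ⟨⟨0, 1, 1⟩, ⟨600, 601, 1000⟩, ⟨400, 501, 10000⟩, ⟨11400, 12200, 10000⟩⟩ :=
  bot11_env.withU bot11PU (Bool.forall_bool.2 ⟨bot11_pV0, bot11_pV1⟩) ⟨.inr rfl, .inr rfl⟩

end Vale.Agent.P100.Calib.Closed.High
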