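import Vale.Agent.P100.Calib.SlabHighBotData

/-!
# Checks of the bounds of a piece of the tail
-/

set_option linter.defProp false

namespace Vale.Agent.P100.Calib.Closed.High

open BoxPos Large

def bot12_p0 : PosBox ⟨⟨0, 1, 1⟩, ⟨600, 601, 1000⟩, ⟨400, 501, 10000⟩, ⟨10400, 11400, 10000⟩⟩ (bot12.hP0) :=
  posBox_of_check (c := ⟨69, ⟨0, 2, 3, 1⟩⟩) (by decide +kernel)

def bot12_gn : PosBox ⟨⟨0, 1, 1⟩, ⟨600, 601, 1000⟩, ⟨400, 501, 10000⟩, ⟨10400, 11400, 10000⟩⟩ (bot12.hGn) :=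
  posBox_of_check (c := ⟨56, ⟨1, 1, 2, 1⟩⟩) (by decide +kernel)

def bot12_den0 : PosBox ⟨⟨0, 1, 1⟩, ⟨600, 601, 1000⟩, ⟨400, 501, 10000⟩, ⟨10400, 11400, 10000⟩⟩ (bot12.hDen false) :=
  posBox_of_check (c := ⟨74, ⟨2, 0, 2, 0⟩⟩) (by decide +kernel)

def bot12_den1 : PosBox ⟨⟨0, 1, 1⟩, ⟨600, 601, 1000⟩, ⟨400, 501, 10000⟩, ⟨10400, 11400, 10000⟩⟩ (bot12.hDen true) :=
  posBox_of_check (c := ⟨76, ⟨3, 0, 1, 0⟩⟩) (by decide +kernel)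

def bot12_ev0 : PosBox ⟨⟨0, 1, 1⟩, ⟨600, 601, 1000⟩, ⟨400, 501, 10000⟩, ⟨10400, 11400, 10000⟩⟩ (bot12.hEv false) :=
  posBox_of_check (c := ⟨152, ⟨4, 2, 4, 1⟩⟩) (by decide +kernel)

def bot12_eL0 : PosBox ⟨⟨0, 1, 1⟩, ⟨600, 601, 1000⟩, ⟨400, 501, 10000⟩, ⟨10400, 11400, 10000⟩⟩ (bot12.hEL false) :=
  posBox_of_check (c := ⟨239, ⟨5, 6, 7, 3⟩⟩) (by decide +kernel)

def bot12_eH0 : PosBox ⟨⟨0, 1, 1⟩, ⟨600, 601, 1000⟩, ⟨400, 501, 10000⟩, ⟨10400, 11400, 10000⟩⟩ (bot12.hEH false) :=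
  posBox_of_check (c := ⟨239, ⟨5, 6, 7, 3⟩⟩) (by decide +kernel)

def bot12_pL0 : PosBox ⟨⟨0, 1, 1⟩, ⟨600, 601, 1000⟩, ⟨400, 501, 10000⟩, ⟨10400, 11400, 10000⟩⟩ (bot12.hPL false) :=
  posBox_of_check (c := ⟨244, ⟨5, 6, 7, 3⟩⟩) (by decide +kernel)

def bot12_pU0 : PosBox ⟨⟨0, 1, 1⟩, ⟨600, 601, 1000⟩, ⟨400, 501, 10000⟩, ⟨10400, 11400, 10000⟩⟩ (bot12.hPU false) :=
  posBox_of_check (c := ⟨244, ⟨5, 6, 7, 3⟩⟩) (by decide +kernel)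

def bot12_kU0 : PosBox ⟨⟨0, 1, 1⟩, ⟨600, 601, 1000⟩, ⟨400, 501, 10000⟩, ⟨10400, 11400, 10000⟩⟩ (bot12.hKU false) :=
  posBox_of_check (c := ⟨241, ⟨5, 6, 7, 3⟩⟩) (by decide +kernel)

def bot12_kL0 : PosBox ⟨⟨0, 1, 1⟩, ⟨600, 601, 1000⟩, ⟨400, 501, 10000⟩, ⟨10400, 11400, 10000⟩⟩ (bot12.hKL false) :=
  posBox_of_check (c := ⟨241, ⟨5, 6, 7, 3⟩⟩) (by decide +kernel)

def bot12_wU0 : PosBox ⟨⟨0, 1, 1⟩, ⟨600, 601, 1000⟩, ⟨400, 501, 10000⟩, ⟨10400, 11400, 10000⟩⟩ (bot12.hWU false) :=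
  posBox_of_check (c := ⟨273, ⟨5, 8, 8, 3⟩⟩) (by decide +kernel)

def bot12_wL0 : PosBox ⟨⟨0, 1, 1⟩, ⟨600, 601, 1000⟩, ⟨400, 501, 10000⟩, ⟨10400, 11400, 10000⟩⟩ (bot12.hWL false) :=
  posBox_of_check (c := ⟨273, ⟨5, 8, 8, 3⟩⟩) (by decide +kernel)

def bot12_ev1 : PosBox ⟨⟨0, 1, 1⟩, ⟨600, 601, 1000⟩, ⟨400, 501, 10000⟩, ⟨10400, 11400, 10000⟩⟩ (bot12.hEv true) :=
  posBox_of_check (c := ⟨198, ⟨5, 2, 5, 1⟩⟩) (by decide +kernel)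

def bot12_eL1 : PosBox ⟨⟨0, 1, 1⟩, ⟨600, 601, 1000⟩, ⟨400, 501, 10000⟩, ⟨10400, 11400, 10000⟩⟩ (bot12.hEL true) :=
  posBox_of_check (c := ⟨285, ⟨6, 6, 8, 3⟩⟩) (by decide +kernel)

def bot12_eH1 : PosBox ⟨⟨0, 1, 1⟩, ⟨600, 601, 1000⟩, ⟨400, 501, 10000⟩, ⟨10400, 11400, 10000⟩⟩ (bot12.hEH true) :=
  posBox_of_check (c := ⟨285, ⟨6, 6, 8, 3⟩⟩) (by decide +kernel)

def bot12_pL1 : PosBox ⟨⟨0, 1, 1⟩, ⟨600, 601, 1000⟩, ⟨400, 501, 10000⟩, ⟨10400, 11400, 10000⟩⟩ (bot12.hPL true) :=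
  posBox_of_check (c := ⟨290, ⟨6, 6, 8, 3⟩⟩) (by decide +kernel)

def bot12_pU1_0 : PosBox ⟨⟨0, 1, 2⟩, ⟨600, 601, 1000⟩, ⟨400, 501, 10000⟩, ⟨10400, 11400, 10000⟩⟩ (bot12.hPU true) :=
  posBox_of_check (c := ⟨292, ⟨6, 6, 8, 3⟩⟩) (by decide +kernel)

def bot12_pU1_1 : PosBox ⟨⟨1, 2, 2⟩, ⟨600, 601, 1000⟩, ⟨400, 501, 10000⟩, ⟨10400, 11400, 10000⟩⟩ (bot12.hPU true) :=
  posBox_of_check (c := ⟨294, ⟨6, 6, 8, 3⟩⟩) (by decide +kernel)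

def bot12_pU1 : PosBox ⟨⟨0, 1, 1⟩, ⟨600, 601, 1000⟩, ⟨400, 501, 10000⟩, ⟨10400, 11400, 10000⟩⟩ (bot12.hPU true) :=
  posBox_units (b := ⟨⟨0, 2, 2⟩, ⟨600, 601, 1000⟩, ⟨400, 501, 10000⟩, ⟨10400, 11400, 10000⟩⟩) (by decide +kernel) (posBox_join₀ bot12_pU1_0 bot12_pU1_1)

def bot12_kU1 : PosBox ⟨⟨0, 1, 1⟩, ⟨600, 601, 1000⟩, ⟨400, 501, 10000⟩, ⟨10400, 11400, 10000⟩⟩ (bot12.hKU true) :=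
  posBox_of_check (c := ⟨288, ⟨6, 6, 8, 3⟩⟩) (by decide +kernel)

def bot12_kL1 : PosBox ⟨⟨0, 1, 1⟩, ⟨600, 601, 1000⟩, ⟨400, 501, 10000⟩, ⟨10400, 11400, 10000⟩⟩ (bot12.hKL true) :=
  posBox_of_check (c := ⟨288, ⟨6, 6, 8, 3⟩⟩) (by decide +kernel)

def bot12_wU1_0 : PosBox ⟨⟨0, 1, 2⟩, ⟨600, 601, 1000⟩, ⟨400, 501, 10000⟩, ⟨10400, 11400, 10000⟩⟩ (bot12.hWU true) :=
  posBox_of_check (c := ⟨321, ⟨6, 8, 9, 3⟩⟩) (by decide +kernel)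

def bot12_wU1_1 : PosBox ⟨⟨1, 2, 2⟩, ⟨600, 601, 1000⟩, ⟨400, 501, 10000⟩, ⟨10400, 11400, 10000⟩⟩ (bot12.hWU true) :=
  posBox_of_check (c := ⟨323, ⟨6, 8, 9, 3⟩⟩) (by decide +kernel)

def bot12_wU1 : PosBox ⟨⟨0, 1, 1⟩, ⟨600, 601, 1000⟩, ⟨400, 501, 10000⟩, ⟨10400, 11400, 10000⟩⟩ (bot12.hWU true) :=
  posBox_units (b := ⟨⟨0, 2, 2⟩, ⟨600, 601, 1000⟩, ⟨400, 501, 10000⟩, ⟨10400, 11400, 10000⟩⟩) (by decide +kernel) (posBox_join₀ bot12_wU1_0 bot12_wU1_1)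

def bot12_wL1 : PosBox ⟨⟨0, 1, 1⟩, ⟨600, 601, 1000⟩, ⟨400, 501, 10000⟩, ⟨10400, 11400, 10000⟩⟩ (bot12.hWL true) :=
  posBox_of_check (c := ⟨320, ⟨6, 8, 9, 3⟩⟩) (by decide +kernel)

/-- The checks on the bounds. -/
theorem bot12_env : bot12.Env ⟨⟨0, 1, 1⟩, ⟨600, 601, 1000⟩, ⟨400, 501, 10000⟩, ⟨10400, 11400, 10000⟩⟩ where
  p0 := bot12_p0
  den := Bool.forall_bool.2 ⟨bot12_den0, bot12_den1⟩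
  gn := bot12_gn
  ev := Bool.forall_bool.2 ⟨bot12_ev0, bot12_ev1⟩
  eL := Bool.forall_bool.2 ⟨bot12_eL0, bot12_eL1⟩
  eL' := ⟨.inr rfl, .inr rfl⟩
  eH := Bool.forall_bool.2 ⟨bot12_eH0, bot12_eH1⟩
  eH' := ⟨.inr rfl, .inr rfl⟩
  pL := Bool.forall_bool.2 ⟨bot12_pL0, bot12_pL1⟩
  pL' := ⟨.inr rfl, .inr rfl⟩
  pU := Bool.forall_bool.2 ⟨bot12_pU0, bot12_pU1⟩
  pU' := ⟨.inr rfl, .inr rfl⟩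
  kU := Bool.forall_bool.2 ⟨bot12_kU0, bot12_kU1⟩
  kU' := ⟨.inr rfl, .inr rfl⟩
  kL := Bool.forall_bool.2 ⟨bot12_kL0, bot12_kL1⟩
  kL' := ⟨.inr rfl, .inr rfl⟩
  wU := Bool.forall_bool.2 ⟨bot12_wU0, bot12_wU1⟩
  wU' := ⟨.inr rfl, .inr rfl⟩
  wL := Bool.forall_bool.2 ⟨bot12_wL0, bot12_wL1⟩
  wL' := ⟨.inr rfl, .inr rfl⟩

end Vale.Agent.P100.Calib.Closed.High
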