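import Vale.Agent.P100.Calib.SlabHighBotData

/-!
# Checks of the bounds of a piece of the tail
-/

set_option linter.defProp false

namespace Vale.Agent.P100.Calib.Closed.High

open BoxPos Large

def bot13_p0 : PosBox ⟨⟨0, 1, 1⟩, ⟨600, 601, 1000⟩, ⟨400, 501, 10000⟩, ⟨11400, 11800, 10000⟩⟩ (bot13.hP0) :=
  posBox_of_check (c := ⟨69, ⟨0, 2, 3, 1⟩⟩) (by decide +kernel)

def bot13_gn : PosBox ⟨⟨0, 1, 1⟩, ⟨600, 601, 1000⟩, ⟨400, 501, 10000⟩, ⟨11400, 11800, 10000⟩⟩ (bot13.hGn) :=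
  posBox_of_check (c := ⟨56, ⟨1, 1, 2, 1⟩⟩) (by decide +kernel)

def bot13_den0 : PosBox ⟨⟨0, 1, 1⟩, ⟨600, 601, 1000⟩, ⟨400, 501, 10000⟩, ⟨11400, 11800, 10000⟩⟩ (bot13.hDen false) :=
  posBox_of_check (c := ⟨74, ⟨2, 0, 2, 0⟩⟩) (by decide +kernel)

def bot13_den1 : PosBox ⟨⟨0, 1, 1⟩, ⟨600, 601, 1000⟩, ⟨400, 501, 10000⟩, ⟨11400, 11800, 10000⟩⟩ (bot13.hDen true) :=
  posBox_of_check (c := ⟨76, ⟨3, 0, 1, 0⟩⟩) (by decide +kernel)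

def bot13_ev0 : PosBox ⟨⟨0, 1, 1⟩, ⟨600, 601, 1000⟩, ⟨400, 501, 10000⟩, ⟨11400, 11800, 10000⟩⟩ (bot13.hEv false) :=
  posBox_of_check (c := ⟨152, ⟨4, 2, 4, 1⟩⟩) (by decide +kernel)

def bot13_eL0 : PosBox ⟨⟨0, 1, 1⟩, ⟨600, 601, 1000⟩, ⟨400, 501, 10000⟩, ⟨11400, 11800, 10000⟩⟩ (bot13.hEL false) :=
  posBox_of_check (c := ⟨239, ⟨5, 6, 7, 3⟩⟩) (by decide +kernel)

def bot13_eH0 : PosBox ⟨⟨0, 1, 1⟩, ⟨600, 601, 1000⟩, ⟨400, 501, 10000⟩, ⟨11400, 11800, 10000⟩⟩ (bot13.hEH false) :=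
  posBox_of_check (c := ⟨239, ⟨5, 6, 7, 3⟩⟩) (by decide +kernel)

def bot13_pL0 : PosBox ⟨⟨0, 1, 1⟩, ⟨600, 601, 1000⟩, ⟨400, 501, 10000⟩, ⟨11400, 11800, 10000⟩⟩ (bot13.hPL false) :=
  posBox_of_check (c := ⟨246, ⟨5, 6, 7, 3⟩⟩) (by decide +kernel)

def bot13_pU0 : PosBox ⟨⟨0, 1, 1⟩, ⟨600, 601, 1000⟩, ⟨400, 501, 10000⟩, ⟨11400, 11800, 10000⟩⟩ (bot13.hPU false) :=
  posBox_of_check (c := ⟨244, ⟨5, 6, 7, 3⟩⟩) (by decide +kernel)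

def bot13_kU0 : PosBox ⟨⟨0, 1, 1⟩, ⟨600, 601, 1000⟩, ⟨400, 501, 10000⟩, ⟨11400, 11800, 10000⟩⟩ (bot13.hKU false) :=
  posBox_of_check (c := ⟨242, ⟨5, 6, 7, 3⟩⟩) (by decide +kernel)

def bot13_kL0 : PosBox ⟨⟨0, 1, 1⟩, ⟨600, 601, 1000⟩, ⟨400, 501, 10000⟩, ⟨11400, 11800, 10000⟩⟩ (bot13.hKL false) :=
  posBox_of_check (c := ⟨241, ⟨5, 6, 7, 3⟩⟩) (by decide +kernel)

def bot13_wU0 : PosBox ⟨⟨0, 1, 1⟩, ⟨600, 601, 1000⟩, ⟨400, 501, 10000⟩, ⟨11400, 11800, 10000⟩⟩ (bot13.hWU false) :=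
  posBox_of_check (c := ⟨272, ⟨5, 8, 8, 3⟩⟩) (by decide +kernel)

def bot13_wL0 : PosBox ⟨⟨0, 1, 1⟩, ⟨600, 601, 1000⟩, ⟨400, 501, 10000⟩, ⟨11400, 11800, 10000⟩⟩ (bot13.hWL false) :=
  posBox_of_check (c := ⟨271, ⟨5, 8, 8, 3⟩⟩) (by decide +kernel)

def bot13_pV0 : PosBox ⟨⟨0, 1, 1⟩, ⟨600, 601, 1000⟩, ⟨400, 501, 10000⟩, ⟨11400, 11800, 10000⟩⟩ (({ bot13 with pU := bot13PU } : Piece).hPU false) :=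
  posBox_of_check (c := ⟨246, ⟨5, 6, 7, 3⟩⟩) (by decide +kernel)

def bot13_ev1 : PosBox ⟨⟨0, 1, 1⟩, ⟨600, 601, 1000⟩, ⟨400, 501, 10000⟩, ⟨11400, 11800, 10000⟩⟩ (bot13.hEv true) :=
  posBox_of_check (c := ⟨198, ⟨5, 2, 5, 1⟩⟩) (by decide +kernel)

def bot13_eL1 : PosBox ⟨⟨0, 1, 1⟩, ⟨600, 601, 1000⟩, ⟨400, 501, 10000⟩, ⟨11400, 11800, 10000⟩⟩ (bot13.hEL true) :=
  posBox_of_check (c := ⟨285, ⟨6, 6, 8, 3⟩⟩) (by decide +kernel)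

def bot13_eH1 : PosBox ⟨⟨0, 1, 1⟩, ⟨600, 601, 1000⟩, ⟨400, 501, 10000⟩, ⟨11400, 11800, 10000⟩⟩ (bot13.hEH true) :=
  posBox_of_check (c := ⟨285, ⟨6, 6, 8, 3⟩⟩) (by decide +kernel)

def bot13_pL1 : PosBox ⟨⟨0, 1, 1⟩, ⟨600, 601, 1000⟩, ⟨400, 501, 10000⟩, ⟨11400, 11800, 10000⟩⟩ (bot13.hPL true) :=
  posBox_of_check (c := ⟨292, ⟨6, 6, 8, 3⟩⟩) (by decide +kernel)

def bot13_pU1 : PosBox ⟨⟨0, 1, 1⟩, ⟨600, 601, 1000⟩, ⟨400, 501, 10000⟩, ⟨11400, 11800, 10000⟩⟩ (bot13.hPU true) :=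
  posBox_of_check (c := ⟨290, ⟨6, 6, 8, 3⟩⟩) (by decide +kernel)

def bot13_kU1 : PosBox ⟨⟨0, 1, 1⟩, ⟨600, 601, 1000⟩, ⟨400, 501, 10000⟩, ⟨11400, 11800, 10000⟩⟩ (bot13.hKU true) :=
  posBox_of_check (c := ⟨288, ⟨6, 6, 8, 3⟩⟩) (by decide +kernel)

def bot13_kL1 : PosBox ⟨⟨0, 1, 1⟩, ⟨600, 601, 1000⟩, ⟨400, 501, 10000⟩, ⟨11400, 11800, 10000⟩⟩ (bot13.hKL true) :=
  posBox_of_check (c := ⟨288, ⟨6, 6, 8, 3⟩⟩) (by decide +kernel)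

def bot13_wU1_0_0 : PosBox ⟨⟨0, 1, 4⟩, ⟨600, 601, 1000⟩, ⟨400, 501, 10000⟩, ⟨11400, 11800, 10000⟩⟩ (bot13.hWU true) :=
  posBox_of_check (c := ⟨323, ⟨6, 8, 9, 3⟩⟩) (by decide +kernel)

def bot13_wU1_0_1 : PosBox ⟨⟨1, 2, 4⟩, ⟨600, 601, 1000⟩, ⟨400, 501, 10000⟩, ⟨11400, 11800, 10000⟩⟩ (bot13.hWU true) :=
  posBox_of_check (c := ⟨324, ⟨6, 8, 9, 3⟩⟩) (by decide +kernel)

def bot13_wU1_0 : PosBox ⟨⟨0, 1, 2⟩, ⟨600, 601, 1000⟩, ⟨400, 501, 10000⟩, ⟨11400, 11800, 10000⟩⟩ (bot13.hWU true) :=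
  posBox_units (b := ⟨⟨0, 2, 4⟩, ⟨600, 601, 1000⟩, ⟨400, 501, 10000⟩, ⟨11400, 11800, 10000⟩⟩) (by decide +kernel) (posBox_join₀ bot13_wU1_0_0 bot13_wU1_0_1)

def bot13_wU1_1 : PosBox ⟨⟨1, 2, 2⟩, ⟨600, 601, 1000⟩, ⟨400, 501, 10000⟩, ⟨11400, 11800, 10000⟩⟩ (bot13.hWU true) :=
  posBox_of_check (c := ⟨322, ⟨6, 8, 9, 3⟩⟩) (by decide +kernel)

def bot13_wU1 : PosBox ⟨⟨0, 1, 1⟩, ⟨600, 601, 1000⟩, ⟨400, 501, 10000⟩, ⟨11400, 11800, 10000⟩⟩ (bot13.hWU true) :=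
  posBox_units (b := ⟨⟨0, 2, 2⟩, ⟨600, 601, 1000⟩, ⟨400, 501, 10000⟩, ⟨11400, 11800, 10000⟩⟩) (by decide +kernel) (posBox_join₀ bot13_wU1_0 bot13_wU1_1)

def bot13_wL1 : PosBox ⟨⟨0, 1, 1⟩, ⟨600, 601, 1000⟩, ⟨400, 501, 10000⟩, ⟨11400, 11800, 10000⟩⟩ (bot13.hWL true) :=
  posBox_of_check (c := ⟨318, ⟨6, 8, 9, 3⟩⟩) (by decide +kernel)

def bot13_pV1_0 : PosBox ⟨⟨0, 1, 2⟩, ⟨600, 601, 1000⟩, ⟨400, 501, 10000⟩, ⟨11400, 11800, 10000⟩⟩ (({ bot13 with pU := bot13PU } : Piece).hPU true) :=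
  posBox_of_check (c := ⟨294, ⟨6, 6, 8, 3⟩⟩) (by decide +kernel)

def bot13_pV1_1 : PosBox ⟨⟨1, 2, 2⟩, ⟨600, 601, 1000⟩, ⟨400, 501, 10000⟩, ⟨11400, 11800, 10000⟩⟩ (({ bot13 with pU := bot13PU } : Piece).hPU true) :=
  posBox_of_check (c := ⟨297, ⟨6, 6, 8, 3⟩⟩) (by decide +kernel)

def bot13_pV1 : PosBox ⟨⟨0, 1, 1⟩, ⟨600, 601, 1000⟩, ⟨400, 501, 10000⟩, ⟨11400, 11800, 10000⟩⟩ (({ bot13 with pU := bot13PU } : Piece).hPU true) :=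
  posBox_units (b := ⟨⟨0, 2, 2⟩, ⟨600, 601, 1000⟩, ⟨400, 501, 10000⟩, ⟨11400, 11800, 10000⟩⟩) (by decide +kernel) (posBox_join₀ bot13_pV1_0 bot13_pV1_1)

/-- The checks on the bounds. -/
theorem bot13_env : bot13.Env ⟨⟨0, 1, 1⟩, ⟨600, 601, 1000⟩, ⟨400, 501, 10000⟩, ⟨11400, 11800, 10000⟩⟩ where
  p0 := bot13_p0
  den := Bool.forall_bool.2 ⟨bot13_den0, bot13_den1⟩
  gn := bot13_gn
  ev := Bool.forall_bool.2 ⟨bot13_ev0, bot13_ev1⟩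
  eL := Bool.forall_bool.2 ⟨bot13_eL0, bot13_eL1⟩
  eL' := ⟨.inr rfl, .inr rfl⟩
  eH := Bool.forall_bool.2 ⟨bot13_eH0, bot13_eH1⟩
  eH' := ⟨.inr rfl, .inr rfl⟩
  pL := Bool.forall_bool.2 ⟨bot13_pL0, bot13_pL1⟩
  pL' := ⟨.inr rfl, .inr rfl⟩
  pU := Bool.forall_bool.2 ⟨bot13_pU0, bot13_pU1⟩
  pU' := ⟨.inr rfl, .inr rfl⟩
  kU := Bool.forall_bool.2 ⟨bot13_kU0, bot13_kU1⟩
  kU' := ⟨.inr rfl, .inr rfl⟩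
  kL := Bool.forall_bool.2 ⟨bot13_kL0, bot13_kL1⟩
  kL' := ⟨.inr rfl, .inr rfl⟩
  wU := Bool.forall_bool.2 ⟨bot13_wU0, bot13_wU1⟩
  wU' := ⟨.inr rfl, .inr rfl⟩
  wL := Bool.forall_bool.2 ⟨bot13_wL0, bot13_wL1⟩
  wL' := ⟨.inr rfl, .inr rfl⟩

/-- The checks with the bound above the cut. -/
theorem bot13_envU : ({ bot13 with pU := bot13PU } : Piece).Env ⟨⟨0, 1, 1⟩, ⟨600, 601, 1000⟩, ⟨400, 501, 10000⟩, ⟨11400, 11800, 10000⟩⟩ :=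
  bot13_env.withU bot13PU (Bool.forall_bool.2 ⟨bot13_pV0, bot13_pV1⟩) ⟨.inr rfl, .inr rfl⟩

end Vale.Agent.P100.Calib.Closed.High
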