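import Vale.Agent.P100.Calib.SlabHighBotData

/-!
# Checks of the bounds of a piece of the tail
-/

set_option linter.defProp false

namespace Vale.Agent.P100.Calib.Closed.High

open BoxPos Large

def bot14_p0 : PosBox ⟨⟨0, 1, 1⟩, ⟨600, 601, 1000⟩, ⟨400, 501, 10000⟩, ⟨11800, 12200, 10000⟩⟩ (bot14.hP0) :=
  posBox_of_check (c := ⟨69, ⟨0, 2, 3, 1⟩⟩) (by decide +kernel)

def bot14_gn : PosBox ⟨⟨0, 1, 1⟩, ⟨600, 601, 1000⟩, ⟨400, 501, 10000⟩, ⟨11800, 12200, 10000⟩⟩ (bot14.hGn) :=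
  posBox_of_check (c := ⟨73, ⟨1, 1, 2, 2⟩⟩) (by decide +kernel)

def bot14_phi : PosBox ⟨⟨0, 1, 1⟩, ⟨600, 601, 1000⟩, ⟨400, 501, 10000⟩, ⟨11800, 12200, 10000⟩⟩ (botPhi bot14.u₁ xV) :=
  posBox_of_check (c := ⟨128, ⟨0, 0, 5, 3⟩⟩) (by decide +kernel)

def bot14_den0 : PosBox ⟨⟨0, 1, 1⟩, ⟨600, 601, 1000⟩, ⟨400, 501, 10000⟩, ⟨11800, 12200, 10000⟩⟩ (bot14.hDen false) :=
  posBox_of_check (c := ⟨92, ⟨2, 0, 4, 2⟩⟩) (by decide +kernel)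

def bot14_den1 : PosBox ⟨⟨0, 1, 1⟩, ⟨600, 601, 1000⟩, ⟨400, 501, 10000⟩, ⟨11800, 12200, 10000⟩⟩ (bot14.hDen true) :=
  posBox_of_check (c := ⟨94, ⟨3, 0, 3, 3⟩⟩) (by decide +kernel)

def bot14_ev0 : PosBox ⟨⟨0, 1, 1⟩, ⟨600, 601, 1000⟩, ⟨400, 501, 10000⟩, ⟨11800, 12200, 10000⟩⟩ (bot14.hEv false) :=
  posBox_of_check (c := ⟨204, ⟨4, 2, 8, 4⟩⟩) (by decide +kernel)

def bot14_eL0 : PosBox ⟨⟨0, 1, 1⟩, ⟨600, 601, 1000⟩, ⟨400, 501, 10000⟩, ⟨11800, 12200, 10000⟩⟩ (bot14.hEL false) :=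
  posBox_of_check (c := ⟨292, ⟨5, 6, 11, 6⟩⟩) (by decide +kernel)

def bot14_eH0 : PosBox ⟨⟨0, 1, 1⟩, ⟨600, 601, 1000⟩, ⟨400, 501, 10000⟩, ⟨11800, 12200, 10000⟩⟩ (bot14.hEH false) :=
  posBox_of_check (c := ⟨291, ⟨5, 6, 11, 6⟩⟩) (by decide +kernel)

def bot14_pL0 : PosBox ⟨⟨0, 1, 1⟩, ⟨600, 601, 1000⟩, ⟨400, 501, 10000⟩, ⟨11800, 12200, 10000⟩⟩ (bot14.hPL false) :=
  posBox_of_check (c := ⟨314, ⟨5, 6, 11, 7⟩⟩) (by decide +kernel)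

def bot14_pU0 : PosBox ⟨⟨0, 1, 1⟩, ⟨600, 601, 1000⟩, ⟨400, 501, 10000⟩, ⟨11800, 12200, 10000⟩⟩ (bot14.hPU false) :=
  posBox_of_check (c := ⟨316, ⟨5, 6, 11, 7⟩⟩) (by decide +kernel)

def bot14_kU0 : PosBox ⟨⟨0, 1, 1⟩, ⟨600, 601, 1000⟩, ⟨400, 501, 10000⟩, ⟨11800, 12200, 10000⟩⟩ (bot14.hKU false) :=
  posBox_of_check (c := ⟨310, ⟨5, 6, 11, 7⟩⟩) (by decide +kernel)

def bot14_kL0 : PosBox ⟨⟨0, 1, 1⟩, ⟨600, 601, 1000⟩, ⟨400, 501, 10000⟩, ⟨11800, 12200, 10000⟩⟩ (bot14.hKL false) :=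
  posBox_of_check (c := ⟨310, ⟨5, 6, 11, 7⟩⟩) (by decide +kernel)

def bot14_wU0 : PosBox ⟨⟨0, 1, 1⟩, ⟨600, 601, 1000⟩, ⟨400, 501, 10000⟩, ⟨11800, 12200, 10000⟩⟩ (bot14.hWU false) :=
  posBox_of_check (c := ⟨342, ⟨5, 8, 12, 7⟩⟩) (by decide +kernel)

def bot14_wL0 : PosBox ⟨⟨0, 1, 1⟩, ⟨600, 601, 1000⟩, ⟨400, 501, 10000⟩, ⟨11800, 12200, 10000⟩⟩ (bot14.hWL false) :=
  posBox_of_check (c := ⟨343, ⟨5, 8, 12, 7⟩⟩) (by decide +kernel)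

def bot14_pV0 : PosBox ⟨⟨0, 1, 1⟩, ⟨600, 601, 1000⟩, ⟨400, 501, 10000⟩, ⟨11800, 12200, 10000⟩⟩ (({ bot14 with pU := bot14PU } : Piece).hPU false) :=
  posBox_of_check (c := ⟨314, ⟨5, 6, 11, 7⟩⟩) (by decide +kernel)

def bot14_ev1 : PosBox ⟨⟨0, 1, 1⟩, ⟨600, 601, 1000⟩, ⟨400, 501, 10000⟩, ⟨11800, 12200, 10000⟩⟩ (bot14.hEv true) :=
  posBox_of_check (c := ⟨252, ⟨5, 2, 9, 6⟩⟩) (by decide +kernel)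

def bot14_eL1 : PosBox ⟨⟨0, 1, 1⟩, ⟨600, 601, 1000⟩, ⟨400, 501, 10000⟩, ⟨11800, 12200, 10000⟩⟩ (bot14.hEL true) :=
  posBox_of_check (c := ⟨340, ⟨6, 6, 12, 8⟩⟩) (by decide +kernel)

def bot14_eH1 : PosBox ⟨⟨0, 1, 1⟩, ⟨600, 601, 1000⟩, ⟨400, 501, 10000⟩, ⟨11800, 12200, 10000⟩⟩ (bot14.hEH true) :=
  posBox_of_check (c := ⟨339, ⟨6, 6, 12, 8⟩⟩) (by decide +kernel)

def bot14_pL1 : PosBox ⟨⟨0, 1, 1⟩, ⟨600, 601, 1000⟩, ⟨400, 501, 10000⟩, ⟨11800, 12200, 10000⟩⟩ (bot14.hPL true) :=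
  posBox_of_check (c := ⟨363, ⟨6, 6, 12, 9⟩⟩) (by decide +kernel)

def bot14_pU1 : PosBox ⟨⟨0, 1, 1⟩, ⟨600, 601, 1000⟩, ⟨400, 501, 10000⟩, ⟨11800, 12200, 10000⟩⟩ (bot14.hPU true) :=
  posBox_of_check (c := ⟨364, ⟨6, 6, 12, 9⟩⟩) (by decide +kernel)

def bot14_kU1 : PosBox ⟨⟨0, 1, 1⟩, ⟨600, 601, 1000⟩, ⟨400, 501, 10000⟩, ⟨11800, 12200, 10000⟩⟩ (bot14.hKU true) :=
  posBox_of_check (c := ⟨359, ⟨6, 6, 12, 9⟩⟩) (by decide +kernel)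

def bot14_kL1 : PosBox ⟨⟨0, 1, 1⟩, ⟨600, 601, 1000⟩, ⟨400, 501, 10000⟩, ⟨11800, 12200, 10000⟩⟩ (bot14.hKL true) :=
  posBox_of_check (c := ⟨359, ⟨6, 6, 12, 9⟩⟩) (by decide +kernel)

def bot14_wU1_0_0 : PosBox ⟨⟨0, 1, 4⟩, ⟨600, 601, 1000⟩, ⟨400, 501, 10000⟩, ⟨11800, 12200, 10000⟩⟩ (bot14.hWU true) :=
  posBox_of_check (c := ⟨398, ⟨6, 8, 13, 9⟩⟩) (by decide +kernel)

def bot14_wU1_0_1 : PosBox ⟨⟨1, 2, 4⟩, ⟨600, 601, 1000⟩, ⟨400, 501, 10000⟩, ⟨11800, 12200, 10000⟩⟩ (bot14.hWU true) :=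
  posBox_of_check (c := ⟨400, ⟨6, 8, 13, 9⟩⟩) (by decide +kernel)

def bot14_wU1_0 : PosBox ⟨⟨0, 1, 2⟩, ⟨600, 601, 1000⟩, ⟨400, 501, 10000⟩, ⟨11800, 12200, 10000⟩⟩ (bot14.hWU true) :=
  posBox_units (b := ⟨⟨0, 2, 4⟩, ⟨600, 601, 1000⟩, ⟨400, 501, 10000⟩, ⟨11800, 12200, 10000⟩⟩) (by decide +kernel) (posBox_join₀ bot14_wU1_0_0 bot14_wU1_0_1)

def bot14_wU1_1 : PosBox ⟨⟨1, 2, 2⟩, ⟨600, 601, 1000⟩, ⟨400, 501, 10000⟩, ⟨11800, 12200, 10000⟩⟩ (bot14.hWU true) :=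
  posBox_of_check (c := ⟨397, ⟨6, 8, 13, 9⟩⟩) (by decide +kernel)

def bot14_wU1 : PosBox ⟨⟨0, 1, 1⟩, ⟨600, 601, 1000⟩, ⟨400, 501, 10000⟩, ⟨11800, 12200, 10000⟩⟩ (bot14.hWU true) :=
  posBox_units (b := ⟨⟨0, 2, 2⟩, ⟨600, 601, 1000⟩, ⟨400, 501, 10000⟩, ⟨11800, 12200, 10000⟩⟩) (by decide +kernel) (posBox_join₀ bot14_wU1_0 bot14_wU1_1)

def bot14_wL1 : PosBox ⟨⟨0, 1, 1⟩, ⟨600, 601, 1000⟩, ⟨400, 501, 10000⟩, ⟨11800, 12200, 10000⟩⟩ (bot14.hWL true) :=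
  posBox_of_check (c := ⟨392, ⟨6, 8, 13, 9⟩⟩) (by decide +kernel)

def bot14_pV1_0 : PosBox ⟨⟨0, 1, 2⟩, ⟨600, 601, 1000⟩, ⟨400, 501, 10000⟩, ⟨11800, 12200, 10000⟩⟩ (({ bot14 with pU := bot14PU } : Piece).hPU true) :=
  posBox_of_check (c := ⟨367, ⟨6, 6, 12, 9⟩⟩) (by decide +kernel)

def bot14_pV1_1 : PosBox ⟨⟨1, 2, 2⟩, ⟨600, 601, 1000⟩, ⟨400, 501, 10000⟩, ⟨11800, 12200, 10000⟩⟩ (({ bot14 with pU := bot14PU } : Piece).hPU true) :=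
  posBox_of_check (c := ⟨369, ⟨6, 6, 12, 9⟩⟩) (by decide +kernel)

def bot14_pV1 : PosBox ⟨⟨0, 1, 1⟩, ⟨600, 601, 1000⟩, ⟨400, 501, 10000⟩, ⟨11800, 12200, 10000⟩⟩ (({ bot14 with pU := bot14PU } : Piece).hPU true) :=
  posBox_units (b := ⟨⟨0, 2, 2⟩, ⟨600, 601, 1000⟩, ⟨400, 501, 10000⟩, ⟨11800, 12200, 10000⟩⟩) (by decide +kernel) (posBox_join₀ bot14_pV1_0 bot14_pV1_1)

/-- The checks on the bounds. -/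
theorem bot14_env : bot14.Env ⟨⟨0, 1, 1⟩, ⟨600, 601, 1000⟩, ⟨400, 501, 10000⟩, ⟨11800, 12200, 10000⟩⟩ where
  p0 := bot14_p0
  den := Bool.forall_bool.2 ⟨bot14_den0, bot14_den1⟩
  gn := bot14_gn
  ev := Bool.forall_bool.2 ⟨bot14_ev0, bot14_ev1⟩
  eL := Bool.forall_bool.2 ⟨bot14_eL0, bot14_eL1⟩
  eL' := ⟨.inr rfl, .inr rfl⟩
  eH := Bool.forall_bool.2 ⟨bot14_eH0, bot14_eH1⟩
  eH' := ⟨.inr rfl, .inr rfl⟩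
  pL := Bool.forall_bool.2 ⟨bot14_pL0, bot14_pL1⟩
  pL' := ⟨.inr rfl, .inr rfl⟩
  pU := Bool.forall_bool.2 ⟨bot14_pU0, bot14_pU1⟩
  pU' := ⟨.inr rfl, .inr rfl⟩
  kU := Bool.forall_bool.2 ⟨bot14_kU0, bot14_kU1⟩
  kU' := ⟨.inr rfl, .inr rfl⟩
  kL := Bool.forall_bool.2 ⟨bot14_kL0, bot14_kL1⟩
  kL' := ⟨.inr rfl, .inr rfl⟩
  wU := Bool.forall_bool.2 ⟨bot14_wU0, bot14_wU1⟩
  wU' := ⟨.inr rfl, .inr rfl⟩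
  wL := Bool.forall_bool.2 ⟨bot14_wL0, bot14_wL1⟩
  wL' := ⟨.inr rfl, .inr rfl⟩

/-- The checks with the bound above the cut. -/
theorem bot14_envU : ({ bot14 with pU := bot14PU } : Piece).Env ⟨⟨0, 1, 1⟩, ⟨600, 601, 1000⟩, ⟨400, 501, 10000⟩, ⟨11800, 12200, 10000⟩⟩ :=
  bot14_env.withU bot14PU (Bool.forall_bool.2 ⟨bot14_pV0, bot14_pV1⟩) ⟨.inr rfl, .inr rfl⟩

end Vale.Agent.P100.Calib.Closed.High
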