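import Vale.Agent.P100.Calib.SlabHighBotData

/-!
# Checks of the bounds of a piece of the tail
-/

set_option linter.defProp false

namespace Vale.Agent.P100.Calib.Closed.High

open BoxPos Large

def bot15_p0 : PosBox ⟨⟨0, 1, 1⟩, ⟨600, 601, 1000⟩, ⟨400, 501, 10000⟩, ⟨12200, 13000, 10000⟩⟩ (bot15.hP0) :=
  posBox_of_check (c := ⟨69, ⟨0, 2, 3, 1⟩⟩) (by decide +kernel)

def bot15_gn : PosBox ⟨⟨0, 1, 1⟩, ⟨600, 601, 1000⟩, ⟨400, 501, 10000⟩, ⟨12200, 13000, 10000⟩⟩ (bot15.hGn) :=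
  posBox_of_check (c := ⟨73, ⟨1, 1, 2, 2⟩⟩) (by decide +kernel)

def bot15_phi : PosBox ⟨⟨0, 1, 1⟩, ⟨600, 601, 1000⟩, ⟨400, 501, 10000⟩, ⟨12200, 13000, 10000⟩⟩ (botPhi bot15.u₁ xV) :=
  posBox_of_check (c := ⟨128, ⟨0, 0, 5, 3⟩⟩) (by decide +kernel)

def bot15_den0 : PosBox ⟨⟨0, 1, 1⟩, ⟨600, 601, 1000⟩, ⟨400, 501, 10000⟩, ⟨12200, 13000, 10000⟩⟩ (bot15.hDen false) :=
  posBox_of_check (c := ⟨92, ⟨2, 0, 4, 2⟩⟩) (by decide +kernel)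

def bot15_den1 : PosBox ⟨⟨0, 1, 1⟩, ⟨600, 601, 1000⟩, ⟨400, 501, 10000⟩, ⟨12200, 13000, 10000⟩⟩ (bot15.hDen true) :=
  posBox_of_check (c := ⟨94, ⟨3, 0, 3, 3⟩⟩) (by decide +kernel)

def bot15_ev0 : PosBox ⟨⟨0, 1, 1⟩, ⟨600, 601, 1000⟩, ⟨400, 501, 10000⟩, ⟨12200, 13000, 10000⟩⟩ (bot15.hEv false) :=
  posBox_of_check (c := ⟨204, ⟨4, 2, 8, 4⟩⟩) (by decide +kernel)

def bot15_eL0 : PosBox ⟨⟨0, 1, 1⟩, ⟨600, 601, 1000⟩, ⟨400, 501, 10000⟩, ⟨12200, 13000, 10000⟩⟩ (bot15.hEL false) :=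
  posBox_of_check (c := ⟨292, ⟨5, 6, 11, 6⟩⟩) (by decide +kernel)

def bot15_eH0 : PosBox ⟨⟨0, 1, 1⟩, ⟨600, 601, 1000⟩, ⟨400, 501, 10000⟩, ⟨12200, 13000, 10000⟩⟩ (bot15.hEH false) :=
  posBox_of_check (c := ⟨291, ⟨5, 6, 11, 6⟩⟩) (by decide +kernel)

def bot15_pL0 : PosBox ⟨⟨0, 1, 1⟩, ⟨600, 601, 1000⟩, ⟨400, 501, 10000⟩, ⟨12200, 13000, 10000⟩⟩ (bot15.hPL false) :=
  posBox_of_check (c := ⟨314, ⟨5, 6, 11, 7⟩⟩) (by decide +kernel)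

def bot15_pU0 : PosBox ⟨⟨0, 1, 1⟩, ⟨600, 601, 1000⟩, ⟨400, 501, 10000⟩, ⟨12200, 13000, 10000⟩⟩ (bot15.hPU false) :=
  posBox_of_check (c := ⟨315, ⟨5, 6, 11, 7⟩⟩) (by decide +kernel)

def bot15_kU0 : PosBox ⟨⟨0, 1, 1⟩, ⟨600, 601, 1000⟩, ⟨400, 501, 10000⟩, ⟨12200, 13000, 10000⟩⟩ (bot15.hKU false) :=
  posBox_of_check (c := ⟨310, ⟨5, 6, 11, 7⟩⟩) (by decide +kernel)

def bot15_kL0 : PosBox ⟨⟨0, 1, 1⟩, ⟨600, 601, 1000⟩, ⟨400, 501, 10000⟩, ⟨12200, 13000, 10000⟩⟩ (bot15.hKL false) :=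
  posBox_of_check (c := ⟨310, ⟨5, 6, 11, 7⟩⟩) (by decide +kernel)

def bot15_wU0 : PosBox ⟨⟨0, 1, 1⟩, ⟨600, 601, 1000⟩, ⟨400, 501, 10000⟩, ⟨12200, 13000, 10000⟩⟩ (bot15.hWU false) :=
  posBox_of_check (c := ⟨341, ⟨5, 8, 12, 7⟩⟩) (by decide +kernel)

def bot15_wL0 : PosBox ⟨⟨0, 1, 1⟩, ⟨600, 601, 1000⟩, ⟨400, 501, 10000⟩, ⟨12200, 13000, 10000⟩⟩ (bot15.hWL false) :=
  posBox_of_check (c := ⟨343, ⟨5, 8, 12, 7⟩⟩) (by decide +kernel)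

def bot15_ev1 : PosBox ⟨⟨0, 1, 1⟩, ⟨600, 601, 1000⟩, ⟨400, 501, 10000⟩, ⟨12200, 13000, 10000⟩⟩ (bot15.hEv true) :=
  posBox_of_check (c := ⟨252, ⟨5, 2, 9, 6⟩⟩) (by decide +kernel)

def bot15_eL1 : PosBox ⟨⟨0, 1, 1⟩, ⟨600, 601, 1000⟩, ⟨400, 501, 10000⟩, ⟨12200, 13000, 10000⟩⟩ (bot15.hEL true) :=
  posBox_of_check (c := ⟨340, ⟨6, 6, 12, 8⟩⟩) (by decide +kernel)

def bot15_eH1 : PosBox ⟨⟨0, 1, 1⟩, ⟨600, 601, 1000⟩, ⟨400, 501, 10000⟩, ⟨12200, 13000, 10000⟩⟩ (bot15.hEH true) :=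
  posBox_of_check (c := ⟨339, ⟨6, 6, 12, 8⟩⟩) (by decide +kernel)

def bot15_pL1 : PosBox ⟨⟨0, 1, 1⟩, ⟨600, 601, 1000⟩, ⟨400, 501, 10000⟩, ⟨12200, 13000, 10000⟩⟩ (bot15.hPL true) :=
  posBox_of_check (c := ⟨363, ⟨6, 6, 12, 9⟩⟩) (by decide +kernel)

def bot15_pU1_0 : PosBox ⟨⟨0, 1, 2⟩, ⟨600, 601, 1000⟩, ⟨400, 501, 10000⟩, ⟨12200, 13000, 10000⟩⟩ (bot15.hPU true) :=
  posBox_of_check (c := ⟨367, ⟨6, 6, 12, 9⟩⟩) (by decide +kernel)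

def bot15_pU1_1 : PosBox ⟨⟨1, 2, 2⟩, ⟨600, 601, 1000⟩, ⟨400, 501, 10000⟩, ⟨12200, 13000, 10000⟩⟩ (bot15.hPU true) :=
  posBox_of_check (c := ⟨370, ⟨6, 6, 12, 9⟩⟩) (by decide +kernel)

def bot15_pU1 : PosBox ⟨⟨0, 1, 1⟩, ⟨600, 601, 1000⟩, ⟨400, 501, 10000⟩, ⟨12200, 13000, 10000⟩⟩ (bot15.hPU true) :=
  posBox_units (b := ⟨⟨0, 2, 2⟩, ⟨600, 601, 1000⟩, ⟨400, 501, 10000⟩, ⟨12200, 13000, 10000⟩⟩) (by decide +kernel) (posBox_join₀ bot15_pU1_0 bot15_pU1_1)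

def bot15_kU1 : PosBox ⟨⟨0, 1, 1⟩, ⟨600, 601, 1000⟩, ⟨400, 501, 10000⟩, ⟨12200, 13000, 10000⟩⟩ (bot15.hKU true) :=
  posBox_of_check (c := ⟨358, ⟨6, 6, 12, 9⟩⟩) (by decide +kernel)

def bot15_kL1 : PosBox ⟨⟨0, 1, 1⟩, ⟨600, 601, 1000⟩, ⟨400, 501, 10000⟩, ⟨12200, 13000, 10000⟩⟩ (bot15.hKL true) :=
  posBox_of_check (c := ⟨359, ⟨6, 6, 12, 9⟩⟩) (by decide +kernel)

def bot15_wU1_0 : PosBox ⟨⟨0, 1, 2⟩, ⟨600, 601, 1000⟩, ⟨400, 501, 10000⟩, ⟨12200, 13000, 10000⟩⟩ (bot15.hWU true) :=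
  posBox_of_check (c := ⟨394, ⟨6, 8, 13, 9⟩⟩) (by decide +kernel)

def bot15_wU1_1 : PosBox ⟨⟨1, 2, 2⟩, ⟨600, 601, 1000⟩, ⟨400, 501, 10000⟩, ⟨12200, 13000, 10000⟩⟩ (bot15.hWU true) :=
  posBox_of_check (c := ⟨396, ⟨6, 8, 13, 9⟩⟩) (by decide +kernel)

def bot15_wU1 : PosBox ⟨⟨0, 1, 1⟩, ⟨600, 601, 1000⟩, ⟨400, 501, 10000⟩, ⟨12200, 13000, 10000⟩⟩ (bot15.hWU true) :=
  posBox_units (b := ⟨⟨0, 2, 2⟩, ⟨600, 601, 1000⟩, ⟨400, 501, 10000⟩, ⟨12200, 13000, 10000⟩⟩) (by decide +kernel) (posBox_join₀ bot15_wU1_0 bot15_wU1_1)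

def bot15_wL1 : PosBox ⟨⟨0, 1, 1⟩, ⟨600, 601, 1000⟩, ⟨400, 501, 10000⟩, ⟨12200, 13000, 10000⟩⟩ (bot15.hWL true) :=
  posBox_of_check (c := ⟨391, ⟨6, 8, 13, 9⟩⟩) (by decide +kernel)

/-- The checks on the bounds. -/
theorem bot15_env : bot15.Env ⟨⟨0, 1, 1⟩, ⟨600, 601, 1000⟩, ⟨400, 501, 10000⟩, ⟨12200, 13000, 10000⟩⟩ where
  p0 := bot15_p0
  den := Bool.forall_bool.2 ⟨bot15_den0, bot15_den1⟩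
  gn := bot15_gn
  ev := Bool.forall_bool.2 ⟨bot15_ev0, bot15_ev1⟩
  eL := Bool.forall_bool.2 ⟨bot15_eL0, bot15_eL1⟩
  eL' := ⟨.inr rfl, .inr rfl⟩
  eH := Bool.forall_bool.2 ⟨bot15_eH0, bot15_eH1⟩
  eH' := ⟨.inr rfl, .inr rfl⟩
  pL := Bool.forall_bool.2 ⟨bot15_pL0, bot15_pL1⟩
  pL' := ⟨.inr rfl, .inr rfl⟩
  pU := Bool.forall_bool.2 ⟨bot15_pU0, bot15_pU1⟩
  pU' := ⟨.inr rfl, .inr rfl⟩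
  kU := Bool.forall_bool.2 ⟨bot15_kU0, bot15_kU1⟩
  kU' := ⟨.inr rfl, .inr rfl⟩
  kL := Bool.forall_bool.2 ⟨bot15_kL0, bot15_kL1⟩
  kL' := ⟨.inr rfl, .inr rfl⟩
  wU := Bool.forall_bool.2 ⟨bot15_wU0, bot15_wU1⟩
  wU' := ⟨.inr rfl, .inr rfl⟩
  wL := Bool.forall_bool.2 ⟨bot15_wL0, bot15_wL1⟩
  wL' := ⟨.inr rfl, .inr rfl⟩

end Vale.Agent.P100.Calib.Closed.High
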