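import Vale.Agent.P100.Calib.SlabHighBotData

/-!
# Checks of the bounds of a piece of the tail
-/

set_option linter.defProp false

namespace Vale.Agent.P100.Calib.Closed.High

open BoxPos Large

def bot2_p0 : PosBox ⟨⟨0, 1, 1⟩, ⟨600, 601, 1000⟩, ⟨0, 501, 10000⟩, ⟨9000, 10400, 10000⟩⟩ (bot2.hP0) :=
  posBox_of_check (c := ⟨68, ⟨0, 2, 3, 1⟩⟩) (by decide +kernel)

def bot2_gn : PosBox ⟨⟨0, 1, 1⟩, ⟨600, 601, 1000⟩, ⟨0, 501, 10000⟩, ⟨9000, 10400, 10000⟩⟩ (bot2.hGn) :=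
  posBox_of_check (c := ⟨56, ⟨1, 1, 2, 1⟩⟩) (by decide +kernel)

def bot2_den0 : PosBox ⟨⟨0, 1, 1⟩, ⟨600, 601, 1000⟩, ⟨0, 501, 10000⟩, ⟨9000, 10400, 10000⟩⟩ (bot2.hDen false) :=
  posBox_of_check (c := ⟨74, ⟨2, 0, 2, 0⟩⟩) (by decide +kernel)

def bot2_den1 : PosBox ⟨⟨0, 1, 1⟩, ⟨600, 601, 1000⟩, ⟨0, 501, 10000⟩, ⟨9000, 10400, 10000⟩⟩ (bot2.hDen true) :=
  posBox_of_check (c := ⟨76, ⟨3, 0, 1, 0⟩⟩) (by decide +kernel)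

def bot2_ev0 : PosBox ⟨⟨0, 1, 1⟩, ⟨600, 601, 1000⟩, ⟨0, 501, 10000⟩, ⟨9000, 10400, 10000⟩⟩ (bot2.hEv false) :=
  posBox_of_check (c := ⟨151, ⟨4, 2, 4, 1⟩⟩) (by decide +kernel)

def bot2_eL0 : PosBox ⟨⟨0, 1, 1⟩, ⟨600, 601, 1000⟩, ⟨0, 501, 10000⟩, ⟨9000, 10400, 10000⟩⟩ (bot2.hEL false) :=
  posBox_of_check (c := ⟨238, ⟨5, 6, 7, 3⟩⟩) (by decide +kernel)

def bot2_eH0 : PosBox ⟨⟨0, 1, 1⟩, ⟨600, 601, 1000⟩, ⟨0, 501, 10000⟩, ⟨9000, 10400, 10000⟩⟩ (bot2.hEH false) :=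
  posBox_of_check (c := ⟨236, ⟨5, 6, 7, 2⟩⟩) (by decide +kernel)

def bot2_pL0 : PosBox ⟨⟨0, 1, 1⟩, ⟨600, 601, 1000⟩, ⟨0, 501, 10000⟩, ⟨9000, 10400, 10000⟩⟩ (bot2.hPL false) :=
  posBox_of_check (c := ⟨240, ⟨5, 6, 7, 2⟩⟩) (by decide +kernel)

def bot2_pU0 : PosBox ⟨⟨0, 1, 1⟩, ⟨600, 601, 1000⟩, ⟨0, 501, 10000⟩, ⟨9000, 10400, 10000⟩⟩ (bot2.hPU false) :=
  posBox_of_check (c := ⟨243, ⟨5, 6, 7, 3⟩⟩) (by decide +kernel)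

def bot2_kU0 : PosBox ⟨⟨0, 1, 1⟩, ⟨600, 601, 1000⟩, ⟨0, 501, 10000⟩, ⟨9000, 10400, 10000⟩⟩ (bot2.hKU false) :=
  posBox_of_check (c := ⟨240, ⟨5, 6, 7, 3⟩⟩) (by decide +kernel)

def bot2_kL0 : PosBox ⟨⟨0, 1, 1⟩, ⟨600, 601, 1000⟩, ⟨0, 501, 10000⟩, ⟨9000, 10400, 10000⟩⟩ (bot2.hKL false) :=
  posBox_of_check (c := ⟨240, ⟨5, 6, 7, 3⟩⟩) (by decide +kernel)

def bot2_wU0 : PosBox ⟨⟨0, 1, 1⟩, ⟨600, 601, 1000⟩, ⟨0, 501, 10000⟩, ⟨9000, 10400, 10000⟩⟩ (bot2.hWU false) :=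
  posBox_of_check (c := ⟨272, ⟨5, 8, 8, 3⟩⟩) (by decide +kernel)

def bot2_wL0_0 : PosBox ⟨⟨0, 1, 2⟩, ⟨600, 601, 1000⟩, ⟨0, 501, 10000⟩, ⟨9000, 10400, 10000⟩⟩ (bot2.hWL false) :=
  posBox_of_check (c := ⟨275, ⟨5, 8, 8, 3⟩⟩) (by decide +kernel)

def bot2_wL0_1 : PosBox ⟨⟨1, 2, 2⟩, ⟨600, 601, 1000⟩, ⟨0, 501, 10000⟩, ⟨9000, 10400, 10000⟩⟩ (bot2.hWL false) :=
  posBox_of_check (c := ⟨276, ⟨5, 8, 8, 3⟩⟩) (by decide +kernel)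

def bot2_wL0 : PosBox ⟨⟨0, 1, 1⟩, ⟨600, 601, 1000⟩, ⟨0, 501, 10000⟩, ⟨9000, 10400, 10000⟩⟩ (bot2.hWL false) :=
  posBox_units (b := ⟨⟨0, 2, 2⟩, ⟨600, 601, 1000⟩, ⟨0, 501, 10000⟩, ⟨9000, 10400, 10000⟩⟩) (by decide +kernel) (posBox_join₀ bot2_wL0_0 bot2_wL0_1)

def bot2_ev1 : PosBox ⟨⟨0, 1, 1⟩, ⟨600, 601, 1000⟩, ⟨0, 501, 10000⟩, ⟨9000, 10400, 10000⟩⟩ (bot2.hEv true) :=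
  posBox_of_check (c := ⟨198, ⟨5, 2, 5, 1⟩⟩) (by decide +kernel)

def bot2_eL1 : PosBox ⟨⟨0, 1, 1⟩, ⟨600, 601, 1000⟩, ⟨0, 501, 10000⟩, ⟨9000, 10400, 10000⟩⟩ (bot2.hEL true) :=
  posBox_of_check (c := ⟨285, ⟨6, 6, 8, 3⟩⟩) (by decide +kernel)

def bot2_eH1 : PosBox ⟨⟨0, 1, 1⟩, ⟨600, 601, 1000⟩, ⟨0, 501, 10000⟩, ⟨9000, 10400, 10000⟩⟩ (bot2.hEH true) :=
  posBox_of_check (c := ⟨282, ⟨6, 6, 8, 2⟩⟩) (by decide +kernel)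

def bot2_pL1 : PosBox ⟨⟨0, 1, 1⟩, ⟨600, 601, 1000⟩, ⟨0, 501, 10000⟩, ⟨9000, 10400, 10000⟩⟩ (bot2.hPL true) :=
  posBox_of_check (c := ⟨286, ⟨6, 6, 8, 2⟩⟩) (by decide +kernel)

def bot2_pU1_0 : PosBox ⟨⟨0, 1, 2⟩, ⟨600, 601, 1000⟩, ⟨0, 501, 10000⟩, ⟨9000, 10400, 10000⟩⟩ (bot2.hPU true) :=
  posBox_of_check (c := ⟨292, ⟨6, 6, 8, 3⟩⟩) (by decide +kernel)

def bot2_pU1_1 : PosBox ⟨⟨1, 2, 2⟩, ⟨600, 601, 1000⟩, ⟨0, 501, 10000⟩, ⟨9000, 10400, 10000⟩⟩ (bot2.hPU true) :=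
  posBox_of_check (c := ⟨294, ⟨6, 6, 8, 3⟩⟩) (by decide +kernel)

def bot2_pU1 : PosBox ⟨⟨0, 1, 1⟩, ⟨600, 601, 1000⟩, ⟨0, 501, 10000⟩, ⟨9000, 10400, 10000⟩⟩ (bot2.hPU true) :=
  posBox_units (b := ⟨⟨0, 2, 2⟩, ⟨600, 601, 1000⟩, ⟨0, 501, 10000⟩, ⟨9000, 10400, 10000⟩⟩) (by decide +kernel) (posBox_join₀ bot2_pU1_0 bot2_pU1_1)

def bot2_kU1 : PosBox ⟨⟨0, 1, 1⟩, ⟨600, 601, 1000⟩, ⟨0, 501, 10000⟩, ⟨9000, 10400, 10000⟩⟩ (bot2.hKU true) :=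
  posBox_of_check (c := ⟨286, ⟨6, 6, 8, 3⟩⟩) (by decide +kernel)

def bot2_kL1 : PosBox ⟨⟨0, 1, 1⟩, ⟨600, 601, 1000⟩, ⟨0, 501, 10000⟩, ⟨9000, 10400, 10000⟩⟩ (bot2.hKL true) :=
  posBox_of_check (c := ⟨286, ⟨6, 6, 8, 3⟩⟩) (by decide +kernel)

def bot2_wU1_0_0 : PosBox ⟨⟨0, 1, 4⟩, ⟨600, 601, 1000⟩, ⟨0, 501, 10000⟩, ⟨9000, 10400, 10000⟩⟩ (bot2.hWU true) :=
  posBox_of_check (c := ⟨323, ⟨6, 8, 9, 3⟩⟩) (by decide +kernel)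

def bot2_wU1_0_1 : PosBox ⟨⟨1, 2, 4⟩, ⟨600, 601, 1000⟩, ⟨0, 501, 10000⟩, ⟨9000, 10400, 10000⟩⟩ (bot2.hWU true) :=
  posBox_of_check (c := ⟨325, ⟨6, 8, 9, 3⟩⟩) (by decide +kernel)

def bot2_wU1_0 : PosBox ⟨⟨0, 1, 2⟩, ⟨600, 601, 1000⟩, ⟨0, 501, 10000⟩, ⟨9000, 10400, 10000⟩⟩ (bot2.hWU true) :=
  posBox_units (b := ⟨⟨0, 2, 4⟩, ⟨600, 601, 1000⟩, ⟨0, 501, 10000⟩, ⟨9000, 10400, 10000⟩⟩) (by decide +kernel) (posBox_join₀ bot2_wU1_0_0 bot2_wU1_0_1)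

def bot2_wU1_1 : PosBox ⟨⟨1, 2, 2⟩, ⟨600, 601, 1000⟩, ⟨0, 501, 10000⟩, ⟨9000, 10400, 10000⟩⟩ (bot2.hWU true) :=
  posBox_of_check (c := ⟨323, ⟨6, 8, 9, 3⟩⟩) (by decide +kernel)

def bot2_wU1 : PosBox ⟨⟨0, 1, 1⟩, ⟨600, 601, 1000⟩, ⟨0, 501, 10000⟩, ⟨9000, 10400, 10000⟩⟩ (bot2.hWU true) :=
  posBox_units (b := ⟨⟨0, 2, 2⟩, ⟨600, 601, 1000⟩, ⟨0, 501, 10000⟩, ⟨9000, 10400, 10000⟩⟩) (by decide +kernel) (posBox_join₀ bot2_wU1_0 bot2_wU1_1)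

def bot2_wL1 : PosBox ⟨⟨0, 1, 1⟩, ⟨600, 601, 1000⟩, ⟨0, 501, 10000⟩, ⟨9000, 10400, 10000⟩⟩ (bot2.hWL true) :=
  posBox_of_check (c := ⟨319, ⟨6, 8, 9, 3⟩⟩) (by decide +kernel)

def bot2_mupL : PosBox ⟨⟨0, 1, 1⟩, ⟨600, 601, 1000⟩, ⟨0, 501, 10000⟩, ⟨9000, 10400, 10000⟩⟩ (bot2.pL.μ) :=
  posBox_of_check (c := ⟨5, ⟨0, 0, 0, 0⟩⟩) (by decide +kernel)

/-- The checks on the bounds. -/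
theorem bot2_env : bot2.Env ⟨⟨0, 1, 1⟩, ⟨600, 601, 1000⟩, ⟨0, 501, 10000⟩, ⟨9000, 10400, 10000⟩⟩ where
  p0 := bot2_p0
  den := Bool.forall_bool.2 ⟨bot2_den0, bot2_den1⟩
  gn := bot2_gn
  ev := Bool.forall_bool.2 ⟨bot2_ev0, bot2_ev1⟩
  eL := Bool.forall_bool.2 ⟨bot2_eL0, bot2_eL1⟩
  eL' := ⟨.inr rfl, .inr rfl⟩
  eH := Bool.forall_bool.2 ⟨bot2_eH0, bot2_eH1⟩
  eH' := ⟨.inr rfl, .inr rfl⟩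
  pL := Bool.forall_bool.2 ⟨bot2_pL0, bot2_pL1⟩
  pL' := ⟨.inl bot2_mupL, .inr rfl⟩
  pU := Bool.forall_bool.2 ⟨bot2_pU0, bot2_pU1⟩
  pU' := ⟨.inr rfl, .inr rfl⟩
  kU := Bool.forall_bool.2 ⟨bot2_kU0, bot2_kU1⟩
  kU' := ⟨.inr rfl, .inr rfl⟩
  kL := Bool.forall_bool.2 ⟨bot2_kL0, bot2_kL1⟩
  kL' := ⟨.inr rfl, .inr rfl⟩
  wU := Bool.forall_bool.2 ⟨bot2_wU0, bot2_wU1⟩
  wU' := ⟨.inr rfl, .inr rfl⟩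
  wL := Bool.forall_bool.2 ⟨bot2_wL0, bot2_wL1⟩
  wL' := ⟨.inr rfl, .inr rfl⟩

end Vale.Agent.P100.Calib.Closed.High
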