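import Vale.Agent.P100.Calib.SlabHighBotData

/-!
# Checks of the bounds of a piece of the tail
-/

set_option linter.defProp false

namespace Vale.Agent.P100.Calib.Closed.High

open BoxPos Large

def bot3_p0 : PosBox ⟨⟨0, 1, 1⟩, ⟨600, 601, 1000⟩, ⟨0, 250, 10000⟩, ⟨10400, 12500, 10000⟩⟩ (bot3.hP0) :=
  posBox_of_check (c := ⟨69, ⟨0, 2, 3, 1⟩⟩) (by decide +kernel)

def bot3_gn : PosBox ⟨⟨0, 1, 1⟩, ⟨600, 601, 1000⟩, ⟨0, 250, 10000⟩, ⟨10400, 12500, 10000⟩⟩ (bot3.hGn) :=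
  posBox_of_check (c := ⟨56, ⟨1, 1, 2, 1⟩⟩) (by decide +kernel)

def bot3_den0 : PosBox ⟨⟨0, 1, 1⟩, ⟨600, 601, 1000⟩, ⟨0, 250, 10000⟩, ⟨10400, 12500, 10000⟩⟩ (bot3.hDen false) :=
  posBox_of_check (c := ⟨74, ⟨2, 0, 2, 0⟩⟩) (by decide +kernel)

def bot3_den1 : PosBox ⟨⟨0, 1, 1⟩, ⟨600, 601, 1000⟩, ⟨0, 250, 10000⟩, ⟨10400, 12500, 10000⟩⟩ (bot3.hDen true) :=
  posBox_of_check (c := ⟨76, ⟨3, 0, 1, 0⟩⟩) (by decide +kernel)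

def bot3_ev0 : PosBox ⟨⟨0, 1, 1⟩, ⟨600, 601, 1000⟩, ⟨0, 250, 10000⟩, ⟨10400, 12500, 10000⟩⟩ (bot3.hEv false) :=
  posBox_of_check (c := ⟨151, ⟨4, 2, 4, 1⟩⟩) (by decide +kernel)

def bot3_eL0 : PosBox ⟨⟨0, 1, 1⟩, ⟨600, 601, 1000⟩, ⟨0, 250, 10000⟩, ⟨10400, 12500, 10000⟩⟩ (bot3.hEL false) :=
  posBox_of_check (c := ⟨238, ⟨5, 6, 7, 3⟩⟩) (by decide +kernel)

def bot3_eH0 : PosBox ⟨⟨0, 1, 1⟩, ⟨600, 601, 1000⟩, ⟨0, 250, 10000⟩, ⟨10400, 12500, 10000⟩⟩ (bot3.hEH false) :=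
  posBox_of_check (c := ⟨237, ⟨5, 6, 7, 2⟩⟩) (by decide +kernel)

def bot3_pL0 : PosBox ⟨⟨0, 1, 1⟩, ⟨600, 601, 1000⟩, ⟨0, 250, 10000⟩, ⟨10400, 12500, 10000⟩⟩ (bot3.hPL false) :=
  posBox_of_check (c := ⟨245, ⟨5, 6, 7, 3⟩⟩) (by decide +kernel)

def bot3_pU0 : PosBox ⟨⟨0, 1, 1⟩, ⟨600, 601, 1000⟩, ⟨0, 250, 10000⟩, ⟨10400, 12500, 10000⟩⟩ (bot3.hPU false) :=
  posBox_of_check (c := ⟨245, ⟨5, 6, 7, 3⟩⟩) (by decide +kernel)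

def bot3_kU0 : PosBox ⟨⟨0, 1, 1⟩, ⟨600, 601, 1000⟩, ⟨0, 250, 10000⟩, ⟨10400, 12500, 10000⟩⟩ (bot3.hKU false) :=
  posBox_of_check (c := ⟨238, ⟨5, 6, 7, 3⟩⟩) (by decide +kernel)

def bot3_kL0 : PosBox ⟨⟨0, 1, 1⟩, ⟨600, 601, 1000⟩, ⟨0, 250, 10000⟩, ⟨10400, 12500, 10000⟩⟩ (bot3.hKL false) :=
  posBox_of_check (c := ⟨235, ⟨5, 6, 7, 2⟩⟩) (by decide +kernel)

def bot3_wU0 : PosBox ⟨⟨0, 1, 1⟩, ⟨600, 601, 1000⟩, ⟨0, 250, 10000⟩, ⟨10400, 12500, 10000⟩⟩ (bot3.hWU false) :=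
  posBox_of_check (c := ⟨272, ⟨5, 8, 8, 3⟩⟩) (by decide +kernel)

def bot3_wL0_0 : PosBox ⟨⟨0, 1, 2⟩, ⟨600, 601, 1000⟩, ⟨0, 250, 10000⟩, ⟨10400, 12500, 10000⟩⟩ (bot3.hWL false) :=
  posBox_of_check (c := ⟨274, ⟨5, 8, 8, 3⟩⟩) (by decide +kernel)

def bot3_wL0_1 : PosBox ⟨⟨1, 2, 2⟩, ⟨600, 601, 1000⟩, ⟨0, 250, 10000⟩, ⟨10400, 12500, 10000⟩⟩ (bot3.hWL false) :=
  posBox_of_check (c := ⟨276, ⟨5, 8, 8, 3⟩⟩) (by decide +kernel)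

def bot3_wL0 : PosBox ⟨⟨0, 1, 1⟩, ⟨600, 601, 1000⟩, ⟨0, 250, 10000⟩, ⟨10400, 12500, 10000⟩⟩ (bot3.hWL false) :=
  posBox_units (b := ⟨⟨0, 2, 2⟩, ⟨600, 601, 1000⟩, ⟨0, 250, 10000⟩, ⟨10400, 12500, 10000⟩⟩) (by decide +kernel) (posBox_join₀ bot3_wL0_0 bot3_wL0_1)

def bot3_pV0 : PosBox ⟨⟨0, 1, 1⟩, ⟨600, 601, 1000⟩, ⟨0, 250, 10000⟩, ⟨10400, 12500, 10000⟩⟩ (({ bot3 with pU := bot3PU } : Piece).hPU false) :=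
  posBox_of_check (c := ⟨244, ⟨5, 6, 7, 3⟩⟩) (by decide +kernel)

def bot3_ev1 : PosBox ⟨⟨0, 1, 1⟩, ⟨600, 601, 1000⟩, ⟨0, 250, 10000⟩, ⟨10400, 12500, 10000⟩⟩ (bot3.hEv true) :=
  posBox_of_check (c := ⟨197, ⟨5, 2, 5, 1⟩⟩) (by decide +kernel)

def bot3_eL1 : PosBox ⟨⟨0, 1, 1⟩, ⟨600, 601, 1000⟩, ⟨0, 250, 10000⟩, ⟨10400, 12500, 10000⟩⟩ (bot3.hEL true) :=
  posBox_of_check (c := ⟨284, ⟨6, 6, 8, 3⟩⟩) (by decide +kernel)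

def bot3_eH1 : PosBox ⟨⟨0, 1, 1⟩, ⟨600, 601, 1000⟩, ⟨0, 250, 10000⟩, ⟨10400, 12500, 10000⟩⟩ (bot3.hEH true) :=
  posBox_of_check (c := ⟨283, ⟨6, 6, 8, 2⟩⟩) (by decide +kernel)

def bot3_pL1 : PosBox ⟨⟨0, 1, 1⟩, ⟨600, 601, 1000⟩, ⟨0, 250, 10000⟩, ⟨10400, 12500, 10000⟩⟩ (bot3.hPL true) :=
  posBox_of_check (c := ⟨292, ⟨6, 6, 8, 3⟩⟩) (by decide +kernel)

def bot3_pU1_0 : PosBox ⟨⟨0, 1, 2⟩, ⟨600, 601, 1000⟩, ⟨0, 250, 10000⟩, ⟨10400, 12500, 10000⟩⟩ (bot3.hPU true) :=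
  posBox_of_check (c := ⟨294, ⟨6, 6, 8, 3⟩⟩) (by decide +kernel)

def bot3_pU1_1 : PosBox ⟨⟨1, 2, 2⟩, ⟨600, 601, 1000⟩, ⟨0, 250, 10000⟩, ⟨10400, 12500, 10000⟩⟩ (bot3.hPU true) :=
  posBox_of_check (c := ⟨296, ⟨6, 6, 8, 3⟩⟩) (by decide +kernel)

def bot3_pU1 : PosBox ⟨⟨0, 1, 1⟩, ⟨600, 601, 1000⟩, ⟨0, 250, 10000⟩, ⟨10400, 12500, 10000⟩⟩ (bot3.hPU true) :=
  posBox_units (b := ⟨⟨0, 2, 2⟩, ⟨600, 601, 1000⟩, ⟨0, 250, 10000⟩, ⟨10400, 12500, 10000⟩⟩) (by decide +kernel) (posBox_join₀ bot3_pU1_0 bot3_pU1_1)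

def bot3_kU1 : PosBox ⟨⟨0, 1, 1⟩, ⟨600, 601, 1000⟩, ⟨0, 250, 10000⟩, ⟨10400, 12500, 10000⟩⟩ (bot3.hKU true) :=
  posBox_of_check (c := ⟨284, ⟨6, 6, 8, 3⟩⟩) (by decide +kernel)

def bot3_kL1 : PosBox ⟨⟨0, 1, 1⟩, ⟨600, 601, 1000⟩, ⟨0, 250, 10000⟩, ⟨10400, 12500, 10000⟩⟩ (bot3.hKL true) :=
  posBox_of_check (c := ⟨282, ⟨6, 6, 8, 2⟩⟩) (by decide +kernel)

def bot3_wU1_0_0 : PosBox ⟨⟨0, 1, 4⟩, ⟨600, 601, 1000⟩, ⟨0, 250, 10000⟩, ⟨10400, 12500, 10000⟩⟩ (bot3.hWU true) :=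
  posBox_of_check (c := ⟨323, ⟨6, 8, 9, 3⟩⟩) (by decide +kernel)

def bot3_wU1_0_1_0 : PosBox ⟨⟨2, 3, 8⟩, ⟨600, 601, 1000⟩, ⟨0, 250, 10000⟩, ⟨10400, 12500, 10000⟩⟩ (bot3.hWU true) :=
  posBox_of_check (c := ⟨329, ⟨6, 8, 9, 3⟩⟩) (by decide +kernel)

def bot3_wU1_0_1_1 : PosBox ⟨⟨3, 4, 8⟩, ⟨600, 601, 1000⟩, ⟨0, 250, 10000⟩, ⟨10400, 12500, 10000⟩⟩ (bot3.hWU true) :=
  posBox_of_check (c := ⟨330, ⟨6, 8, 9, 3⟩⟩) (by decide +kernel)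

def bot3_wU1_0_1 : PosBox ⟨⟨1, 2, 4⟩, ⟨600, 601, 1000⟩, ⟨0, 250, 10000⟩, ⟨10400, 12500, 10000⟩⟩ (bot3.hWU true) :=
  posBox_units (b := ⟨⟨2, 4, 8⟩, ⟨600, 601, 1000⟩, ⟨0, 250, 10000⟩, ⟨10400, 12500, 10000⟩⟩) (by decide +kernel) (posBox_join₀ bot3_wU1_0_1_0 bot3_wU1_0_1_1)

def bot3_wU1_0 : PosBox ⟨⟨0, 1, 2⟩, ⟨600, 601, 1000⟩, ⟨0, 250, 10000⟩, ⟨10400, 12500, 10000⟩⟩ (bot3.hWU true) :=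
  posBox_units (b := ⟨⟨0, 2, 4⟩, ⟨600, 601, 1000⟩, ⟨0, 250, 10000⟩, ⟨10400, 12500, 10000⟩⟩) (by decide +kernel) (posBox_join₀ bot3_wU1_0_0 bot3_wU1_0_1)

def bot3_wU1_1 : PosBox ⟨⟨1, 2, 2⟩, ⟨600, 601, 1000⟩, ⟨0, 250, 10000⟩, ⟨10400, 12500, 10000⟩⟩ (bot3.hWU true) :=
  posBox_of_check (c := ⟨323, ⟨6, 8, 9, 3⟩⟩) (by decide +kernel)

def bot3_wU1 : PosBox ⟨⟨0, 1, 1⟩, ⟨600, 601, 1000⟩, ⟨0, 250, 10000⟩, ⟨10400, 12500, 10000⟩⟩ (bot3.hWU true) :=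
  posBox_units (b := ⟨⟨0, 2, 2⟩, ⟨600, 601, 1000⟩, ⟨0, 250, 10000⟩, ⟨10400, 12500, 10000⟩⟩) (by decide +kernel) (posBox_join₀ bot3_wU1_0 bot3_wU1_1)

def bot3_wL1 : PosBox ⟨⟨0, 1, 1⟩, ⟨600, 601, 1000⟩, ⟨0, 250, 10000⟩, ⟨10400, 12500, 10000⟩⟩ (bot3.hWL true) :=
  posBox_of_check (c := ⟨319, ⟨6, 8, 9, 3⟩⟩) (by decide +kernel)

def bot3_pV1_0 : PosBox ⟨⟨0, 1, 2⟩, ⟨600, 601, 1000⟩, ⟨0, 250, 10000⟩, ⟨10400, 12500, 10000⟩⟩ (({ bot3 with pU := bot3PU } : Piece).hPU true) :=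
  posBox_of_check (c := ⟨293, ⟨6, 6, 8, 3⟩⟩) (by decide +kernel)

def bot3_pV1_1 : PosBox ⟨⟨1, 2, 2⟩, ⟨600, 601, 1000⟩, ⟨0, 250, 10000⟩, ⟨10400, 12500, 10000⟩⟩ (({ bot3 with pU := bot3PU } : Piece).hPU true) :=
  posBox_of_check (c := ⟨295, ⟨6, 6, 8, 3⟩⟩) (by decide +kernel)

def bot3_pV1 : PosBox ⟨⟨0, 1, 1⟩, ⟨600, 601, 1000⟩, ⟨0, 250, 10000⟩, ⟨10400, 12500, 10000⟩⟩ (({ bot3 with pU := bot3PU } : Piece).hPU true) :=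
  posBox_units (b := ⟨⟨0, 2, 2⟩, ⟨600, 601, 1000⟩, ⟨0, 250, 10000⟩, ⟨10400, 12500, 10000⟩⟩) (by decide +kernel) (posBox_join₀ bot3_pV1_0 bot3_pV1_1)

/-- The checks on the bounds. -/
theorem bot3_env : bot3.Env ⟨⟨0, 1, 1⟩, ⟨600, 601, 1000⟩, ⟨0, 250, 10000⟩, ⟨10400, 12500, 10000⟩⟩ where
  p0 := bot3_p0
  den := Bool.forall_bool.2 ⟨bot3_den0, bot3_den1⟩
  gn := bot3_gn
  ev := Bool.forall_bool.2 ⟨bot3_ev0, bot3_ev1⟩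
  eL := Bool.forall_bool.2 ⟨bot3_eL0, bot3_eL1⟩
  eL' := ⟨.inr rfl, .inr rfl⟩
  eH := Bool.forall_bool.2 ⟨bot3_eH0, bot3_eH1⟩
  eH' := ⟨.inr rfl, .inr rfl⟩
  pL := Bool.forall_bool.2 ⟨bot3_pL0, bot3_pL1⟩
  pL' := ⟨.inr rfl, .inr rfl⟩
  pU := Bool.forall_bool.2 ⟨bot3_pU0, bot3_pU1⟩
  pU' := ⟨.inr rfl, .inr rfl⟩
  kU := Bool.forall_bool.2 ⟨bot3_kU0, bot3_kU1⟩
  kU' := ⟨.inr rfl, .inr rfl⟩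
  kL := Bool.forall_bool.2 ⟨bot3_kL0, bot3_kL1⟩
  kL' := ⟨.inr rfl, .inr rfl⟩
  wU := Bool.forall_bool.2 ⟨bot3_wU0, bot3_wU1⟩
  wU' := ⟨.inr rfl, .inr rfl⟩
  wL := Bool.forall_bool.2 ⟨bot3_wL0, bot3_wL1⟩
  wL' := ⟨.inr rfl, .inr rfl⟩

/-- The checks with the bound above the cut. -/
theorem bot3_envU : ({ bot3 with pU := bot3PU } : Piece).Env ⟨⟨0, 1, 1⟩, ⟨600, 601, 1000⟩, ⟨0, 250, 10000⟩, ⟨10400, 12500, 10000⟩⟩ :=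
  bot3_env.withU bot3PU (Bool.forall_bool.2 ⟨bot3_pV0, bot3_pV1⟩) ⟨.inr rfl, .inr rfl⟩

end Vale.Agent.P100.Calib.Closed.High
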