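import Vale.Agent.P100.Calib.SlabHighBotData

/-!
# Checks of the bounds of a piece of the tail
-/

set_option linter.defProp false

namespace Vale.Agent.P100.Calib.Closed.High

open BoxPos Large

def bot4_p0 : PosBox ⟨⟨0, 1, 1⟩, ⟨600, 601, 1000⟩, ⟨0, 250, 10000⟩, ⟨12500, 15000, 10000⟩⟩ (bot4.hP0) :=
  posBox_of_check (c := ⟨69, ⟨0, 2, 3, 1⟩⟩) (by decide +kernel)

def bot4_gn : PosBox ⟨⟨0, 1, 1⟩, ⟨600, 601, 1000⟩, ⟨0, 250, 10000⟩, ⟨12500, 15000, 10000⟩⟩ (bot4.hGn) :=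
  posBox_of_check (c := ⟨73, ⟨1, 1, 2, 2⟩⟩) (by decide +kernel)

def bot4_phi : PosBox ⟨⟨0, 1, 1⟩, ⟨600, 601, 1000⟩, ⟨0, 250, 10000⟩, ⟨12500, 15000, 10000⟩⟩ (botPhi bot4.u₁ xV) :=
  posBox_of_check (c := ⟨128, ⟨0, 0, 5, 3⟩⟩) (by decide +kernel)

def bot4_den0 : PosBox ⟨⟨0, 1, 1⟩, ⟨600, 601, 1000⟩, ⟨0, 250, 10000⟩, ⟨12500, 15000, 10000⟩⟩ (bot4.hDen false) :=
  posBox_of_check (c := ⟨91, ⟨2, 0, 4, 2⟩⟩) (by decide +kernel)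

def bot4_den1 : PosBox ⟨⟨0, 1, 1⟩, ⟨600, 601, 1000⟩, ⟨0, 250, 10000⟩, ⟨12500, 15000, 10000⟩⟩ (bot4.hDen true) :=
  posBox_of_check (c := ⟨95, ⟨3, 0, 3, 3⟩⟩) (by decide +kernel)

def bot4_ev0 : PosBox ⟨⟨0, 1, 1⟩, ⟨600, 601, 1000⟩, ⟨0, 250, 10000⟩, ⟨12500, 15000, 10000⟩⟩ (bot4.hEv false) :=
  posBox_of_check (c := ⟨203, ⟨4, 2, 8, 4⟩⟩) (by decide +kernel)

def bot4_eL0 : PosBox ⟨⟨0, 1, 1⟩, ⟨600, 601, 1000⟩, ⟨0, 250, 10000⟩, ⟨12500, 15000, 10000⟩⟩ (bot4.hEL false) :=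
  posBox_of_check (c := ⟨291, ⟨5, 6, 11, 6⟩⟩) (by decide +kernel)

def bot4_eH0 : PosBox ⟨⟨0, 1, 1⟩, ⟨600, 601, 1000⟩, ⟨0, 250, 10000⟩, ⟨12500, 15000, 10000⟩⟩ (bot4.hEH false) :=
  posBox_of_check (c := ⟨290, ⟨5, 6, 11, 6⟩⟩) (by decide +kernel)

def bot4_pL0 : PosBox ⟨⟨0, 1, 1⟩, ⟨600, 601, 1000⟩, ⟨0, 250, 10000⟩, ⟨12500, 15000, 10000⟩⟩ (bot4.hPL false) :=
  posBox_of_check (c := ⟨312, ⟨5, 6, 11, 7⟩⟩) (by decide +kernel)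

def bot4_pU0 : PosBox ⟨⟨0, 1, 1⟩, ⟨600, 601, 1000⟩, ⟨0, 250, 10000⟩, ⟨12500, 15000, 10000⟩⟩ (bot4.hPU false) :=
  posBox_of_check (c := ⟨315, ⟨5, 6, 11, 7⟩⟩) (by decide +kernel)

def bot4_kU0 : PosBox ⟨⟨0, 1, 1⟩, ⟨600, 601, 1000⟩, ⟨0, 250, 10000⟩, ⟨12500, 15000, 10000⟩⟩ (bot4.hKU false) :=
  posBox_of_check (c := ⟨304, ⟨5, 6, 11, 6⟩⟩) (by decide +kernel)

def bot4_kL0 : PosBox ⟨⟨0, 1, 1⟩, ⟨600, 601, 1000⟩, ⟨0, 250, 10000⟩, ⟨12500, 15000, 10000⟩⟩ (bot4.hKL false) :=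
  posBox_of_check (c := ⟨307, ⟨5, 6, 11, 6⟩⟩) (by decide +kernel)

def bot4_wU0 : PosBox ⟨⟨0, 1, 1⟩, ⟨600, 601, 1000⟩, ⟨0, 250, 10000⟩, ⟨12500, 15000, 10000⟩⟩ (bot4.hWU false) :=
  posBox_of_check (c := ⟨341, ⟨5, 8, 12, 7⟩⟩) (by decide +kernel)

def bot4_wL0_0 : PosBox ⟨⟨0, 1, 1⟩, ⟨600, 601, 1000⟩, ⟨0, 250, 10000⟩, ⟨12500, 13750, 10000⟩⟩ (bot4.hWL false) :=
  posBox_of_check (c := ⟨342, ⟨5, 8, 12, 7⟩⟩) (by decide +kernel)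

def bot4_wL0_1 : PosBox ⟨⟨0, 1, 1⟩, ⟨600, 601, 1000⟩, ⟨0, 250, 10000⟩, ⟨13750, 15000, 10000⟩⟩ (bot4.hWL false) :=
  posBox_of_check (c := ⟨343, ⟨5, 8, 12, 7⟩⟩) (by decide +kernel)

theorem bot4_wL0 : PosBox ⟨⟨0, 1, 1⟩, ⟨600, 601, 1000⟩, ⟨0, 250, 10000⟩, ⟨12500, 15000, 10000⟩⟩ (bot4.hWL false) :=
  posBox_join₃ bot4_wL0_0 bot4_wL0_1

def bot4_pV0 : PosBox ⟨⟨0, 1, 1⟩, ⟨600, 601, 1000⟩, ⟨0, 250, 10000⟩, ⟨12500, 15000, 10000⟩⟩ (({ bot4 with pU := bot4PU } : Piece).hPU false) :=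
  posBox_of_check (c := ⟨313, ⟨5, 6, 11, 7⟩⟩) (by decide +kernel)

def bot4_ev1 : PosBox ⟨⟨0, 1, 1⟩, ⟨600, 601, 1000⟩, ⟨0, 250, 10000⟩, ⟨12500, 15000, 10000⟩⟩ (bot4.hEv true) :=
  posBox_of_check (c := ⟨252, ⟨5, 2, 9, 6⟩⟩) (by decide +kernel)

def bot4_eL1 : PosBox ⟨⟨0, 1, 1⟩, ⟨600, 601, 1000⟩, ⟨0, 250, 10000⟩, ⟨12500, 15000, 10000⟩⟩ (bot4.hEL true) :=
  posBox_of_check (c := ⟨340, ⟨6, 6, 12, 8⟩⟩) (by decide +kernel)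

def bot4_eH1 : PosBox ⟨⟨0, 1, 1⟩, ⟨600, 601, 1000⟩, ⟨0, 250, 10000⟩, ⟨12500, 15000, 10000⟩⟩ (bot4.hEH true) :=
  posBox_of_check (c := ⟨338, ⟨6, 6, 12, 8⟩⟩) (by decide +kernel)

def bot4_pL1 : PosBox ⟨⟨0, 1, 1⟩, ⟨600, 601, 1000⟩, ⟨0, 250, 10000⟩, ⟨12500, 15000, 10000⟩⟩ (bot4.hPL true) :=
  posBox_of_check (c := ⟨361, ⟨6, 6, 12, 9⟩⟩) (by decide +kernel)

def bot4_pU1_0 : PosBox ⟨⟨0, 1, 2⟩, ⟨600, 601, 1000⟩, ⟨0, 250, 10000⟩, ⟨12500, 15000, 10000⟩⟩ (bot4.hPU true) :=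
  posBox_of_check (c := ⟨367, ⟨6, 6, 12, 9⟩⟩) (by decide +kernel)

def bot4_pU1_1 : PosBox ⟨⟨1, 2, 2⟩, ⟨600, 601, 1000⟩, ⟨0, 250, 10000⟩, ⟨12500, 15000, 10000⟩⟩ (bot4.hPU true) :=
  posBox_of_check (c := ⟨370, ⟨6, 6, 12, 9⟩⟩) (by decide +kernel)

def bot4_pU1 : PosBox ⟨⟨0, 1, 1⟩, ⟨600, 601, 1000⟩, ⟨0, 250, 10000⟩, ⟨12500, 15000, 10000⟩⟩ (bot4.hPU true) :=
  posBox_units (b := ⟨⟨0, 2, 2⟩, ⟨600, 601, 1000⟩, ⟨0, 250, 10000⟩, ⟨12500, 15000, 10000⟩⟩) (by decide +kernel) (posBox_join₀ bot4_pU1_0 bot4_pU1_1)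

def bot4_kU1 : PosBox ⟨⟨0, 1, 1⟩, ⟨600, 601, 1000⟩, ⟨0, 250, 10000⟩, ⟨12500, 15000, 10000⟩⟩ (bot4.hKU true) :=
  posBox_of_check (c := ⟨352, ⟨6, 6, 12, 8⟩⟩) (by decide +kernel)

def bot4_kL1 : PosBox ⟨⟨0, 1, 1⟩, ⟨600, 601, 1000⟩, ⟨0, 250, 10000⟩, ⟨12500, 15000, 10000⟩⟩ (bot4.hKL true) :=
  posBox_of_check (c := ⟨355, ⟨6, 6, 12, 8⟩⟩) (by decide +kernel)

def bot4_wU1_0_0 : PosBox ⟨⟨0, 1, 4⟩, ⟨600, 601, 1000⟩, ⟨0, 250, 10000⟩, ⟨12500, 15000, 10000⟩⟩ (bot4.hWU true) :=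
  posBox_of_check (c := ⟨398, ⟨6, 8, 13, 9⟩⟩) (by decide +kernel)

def bot4_wU1_0_1 : PosBox ⟨⟨1, 2, 4⟩, ⟨600, 601, 1000⟩, ⟨0, 250, 10000⟩, ⟨12500, 15000, 10000⟩⟩ (bot4.hWU true) :=
  posBox_of_check (c := ⟨399, ⟨6, 8, 13, 9⟩⟩) (by decide +kernel)

def bot4_wU1_0 : PosBox ⟨⟨0, 1, 2⟩, ⟨600, 601, 1000⟩, ⟨0, 250, 10000⟩, ⟨12500, 15000, 10000⟩⟩ (bot4.hWU true) :=
  posBox_units (b := ⟨⟨0, 2, 4⟩, ⟨600, 601, 1000⟩, ⟨0, 250, 10000⟩, ⟨12500, 15000, 10000⟩⟩) (by decide +kernel) (posBox_join₀ bot4_wU1_0_0 bot4_wU1_0_1)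

def bot4_wU1_1 : PosBox ⟨⟨1, 2, 2⟩, ⟨600, 601, 1000⟩, ⟨0, 250, 10000⟩, ⟨12500, 15000, 10000⟩⟩ (bot4.hWU true) :=
  posBox_of_check (c := ⟨396, ⟨6, 8, 13, 9⟩⟩) (by decide +kernel)

def bot4_wU1 : PosBox ⟨⟨0, 1, 1⟩, ⟨600, 601, 1000⟩, ⟨0, 250, 10000⟩, ⟨12500, 15000, 10000⟩⟩ (bot4.hWU true) :=
  posBox_units (b := ⟨⟨0, 2, 2⟩, ⟨600, 601, 1000⟩, ⟨0, 250, 10000⟩, ⟨12500, 15000, 10000⟩⟩) (by decide +kernel) (posBox_join₀ bot4_wU1_0 bot4_wU1_1)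

def bot4_wL1 : PosBox ⟨⟨0, 1, 1⟩, ⟨600, 601, 1000⟩, ⟨0, 250, 10000⟩, ⟨12500, 15000, 10000⟩⟩ (bot4.hWL true) :=
  posBox_of_check (c := ⟨392, ⟨6, 8, 13, 9⟩⟩) (by decide +kernel)

def bot4_pV1_0 : PosBox ⟨⟨0, 1, 2⟩, ⟨600, 601, 1000⟩, ⟨0, 250, 10000⟩, ⟨12500, 15000, 10000⟩⟩ (({ bot4 with pU := bot4PU } : Piece).hPU true) :=
  posBox_of_check (c := ⟨366, ⟨6, 6, 12, 9⟩⟩) (by decide +kernel)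

def bot4_pV1_1 : PosBox ⟨⟨1, 2, 2⟩, ⟨600, 601, 1000⟩, ⟨0, 250, 10000⟩, ⟨12500, 15000, 10000⟩⟩ (({ bot4 with pU := bot4PU } : Piece).hPU true) :=
  posBox_of_check (c := ⟨369, ⟨6, 6, 12, 9⟩⟩) (by decide +kernel)

def bot4_pV1 : PosBox ⟨⟨0, 1, 1⟩, ⟨600, 601, 1000⟩, ⟨0, 250, 10000⟩, ⟨12500, 15000, 10000⟩⟩ (({ bot4 with pU := bot4PU } : Piece).hPU true) :=
  posBox_units (b := ⟨⟨0, 2, 2⟩, ⟨600, 601, 1000⟩, ⟨0, 250, 10000⟩, ⟨12500, 15000, 10000⟩⟩) (by decide +kernel) (posBox_join₀ bot4_pV1_0 bot4_pV1_1)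

/-- The checks on the bounds. -/
theorem bot4_env : bot4.Env ⟨⟨0, 1, 1⟩, ⟨600, 601, 1000⟩, ⟨0, 250, 10000⟩, ⟨12500, 15000, 10000⟩⟩ where
  p0 := bot4_p0
  den := Bool.forall_bool.2 ⟨bot4_den0, bot4_den1⟩
  gn := bot4_gn
  ev := Bool.forall_bool.2 ⟨bot4_ev0, bot4_ev1⟩
  eL := Bool.forall_bool.2 ⟨bot4_eL0, bot4_eL1⟩
  eL' := ⟨.inr rfl, .inr rfl⟩
  eH := Bool.forall_bool.2 ⟨bot4_eH0, bot4_eH1⟩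
  eH' := ⟨.inr rfl, .inr rfl⟩
  pL := Bool.forall_bool.2 ⟨bot4_pL0, bot4_pL1⟩
  pL' := ⟨.inr rfl, .inr rfl⟩
  pU := Bool.forall_bool.2 ⟨bot4_pU0, bot4_pU1⟩
  pU' := ⟨.inr rfl, .inr rfl⟩
  kU := Bool.forall_bool.2 ⟨bot4_kU0, bot4_kU1⟩
  kU' := ⟨.inr rfl, .inr rfl⟩
  kL := Bool.forall_bool.2 ⟨bot4_kL0, bot4_kL1⟩
  kL' := ⟨.inr rfl, .inr rfl⟩
  wU := Bool.forall_bool.2 ⟨bot4_wU0, bot4_wU1⟩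
  wU' := ⟨.inr rfl, .inr rfl⟩
  wL := Bool.forall_bool.2 ⟨bot4_wL0, bot4_wL1⟩
  wL' := ⟨.inr rfl, .inr rfl⟩

/-- The checks with the bound above the cut. -/
theorem bot4_envU : ({ bot4 with pU := bot4PU } : Piece).Env ⟨⟨0, 1, 1⟩, ⟨600, 601, 1000⟩, ⟨0, 250, 10000⟩, ⟨12500, 15000, 10000⟩⟩ :=
  bot4_env.withU bot4PU (Bool.forall_bool.2 ⟨bot4_pV0, bot4_pV1⟩) ⟨.inr rfl, .inr rfl⟩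

end Vale.Agent.P100.Calib.Closed.High
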