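import Vale.Agent.P100.Calib.SlabHighBotData

/-!
# Checks of the bounds of a piece of the tail
-/

set_option linter.defProp false

namespace Vale.Agent.P100.Calib.Closed.High

open BoxPos Large

def bot5_p0 : PosBox ⟨⟨0, 1, 1⟩, ⟨600, 601, 1000⟩, ⟨0, 250, 10000⟩, ⟨15000, 16900, 10000⟩⟩ (bot5.hP0) :=
  posBox_of_check (c := ⟨69, ⟨0, 2, 3, 1⟩⟩) (by decide +kernel)

def bot5_gn : PosBox ⟨⟨0, 1, 1⟩, ⟨600, 601, 1000⟩, ⟨0, 250, 10000⟩, ⟨15000, 16900, 10000⟩⟩ (bot5.hGn) :=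
  posBox_of_check (c := ⟨73, ⟨1, 1, 2, 2⟩⟩) (by decide +kernel)

def bot5_phi : PosBox ⟨⟨0, 1, 1⟩, ⟨600, 601, 1000⟩, ⟨0, 250, 10000⟩, ⟨15000, 16900, 10000⟩⟩ (botPhi bot5.u₁ xV) :=
  posBox_of_check (c := ⟨127, ⟨0, 0, 5, 3⟩⟩) (by decide +kernel)

def bot5_den0 : PosBox ⟨⟨0, 1, 1⟩, ⟨600, 601, 1000⟩, ⟨0, 250, 10000⟩, ⟨15000, 16900, 10000⟩⟩ (bot5.hDen false) :=
  posBox_of_check (c := ⟨91, ⟨2, 0, 4, 2⟩⟩) (by decide +kernel)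

def bot5_den1 : PosBox ⟨⟨0, 1, 1⟩, ⟨600, 601, 1000⟩, ⟨0, 250, 10000⟩, ⟨15000, 16900, 10000⟩⟩ (bot5.hDen true) :=
  posBox_of_check (c := ⟨94, ⟨3, 0, 3, 3⟩⟩) (by decide +kernel)

def bot5_ev0 : PosBox ⟨⟨0, 1, 1⟩, ⟨600, 601, 1000⟩, ⟨0, 250, 10000⟩, ⟨15000, 16900, 10000⟩⟩ (bot5.hEv false) :=
  posBox_of_check (c := ⟨203, ⟨4, 2, 8, 4⟩⟩) (by decide +kernel)

def bot5_eL0 : PosBox ⟨⟨0, 1, 1⟩, ⟨600, 601, 1000⟩, ⟨0, 250, 10000⟩, ⟨15000, 16900, 10000⟩⟩ (bot5.hEL false) :=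
  posBox_of_check (c := ⟨290, ⟨5, 6, 11, 6⟩⟩) (by decide +kernel)

def bot5_eH0 : PosBox ⟨⟨0, 1, 1⟩, ⟨600, 601, 1000⟩, ⟨0, 250, 10000⟩, ⟨15000, 16900, 10000⟩⟩ (bot5.hEH false) :=
  posBox_of_check (c := ⟨289, ⟨5, 6, 11, 6⟩⟩) (by decide +kernel)

def bot5_pL0 : PosBox ⟨⟨0, 1, 1⟩, ⟨600, 601, 1000⟩, ⟨0, 250, 10000⟩, ⟨15000, 16900, 10000⟩⟩ (bot5.hPL false) :=
  posBox_of_check (c := ⟨314, ⟨5, 6, 11, 7⟩⟩) (by decide +kernel)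

def bot5_pU0 : PosBox ⟨⟨0, 1, 1⟩, ⟨600, 601, 1000⟩, ⟨0, 250, 10000⟩, ⟨15000, 16900, 10000⟩⟩ (bot5.hPU false) :=
  posBox_of_check (c := ⟨314, ⟨5, 6, 11, 7⟩⟩) (by decide +kernel)

def bot5_kU0 : PosBox ⟨⟨0, 1, 1⟩, ⟨600, 601, 1000⟩, ⟨0, 250, 10000⟩, ⟨15000, 16900, 10000⟩⟩ (bot5.hKU false) :=
  posBox_of_check (c := ⟨306, ⟨5, 6, 11, 6⟩⟩) (by decide +kernel)

def bot5_kL0 : PosBox ⟨⟨0, 1, 1⟩, ⟨600, 601, 1000⟩, ⟨0, 250, 10000⟩, ⟨15000, 16900, 10000⟩⟩ (bot5.hKL false) :=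
  posBox_of_check (c := ⟨304, ⟨5, 6, 11, 6⟩⟩) (by decide +kernel)

def bot5_wU0 : PosBox ⟨⟨0, 1, 1⟩, ⟨600, 601, 1000⟩, ⟨0, 250, 10000⟩, ⟨15000, 16900, 10000⟩⟩ (bot5.hWU false) :=
  posBox_of_check (c := ⟨341, ⟨5, 8, 12, 7⟩⟩) (by decide +kernel)

def bot5_wL0 : PosBox ⟨⟨0, 1, 1⟩, ⟨600, 601, 1000⟩, ⟨0, 250, 10000⟩, ⟨15000, 16900, 10000⟩⟩ (bot5.hWL false) :=
  posBox_of_check (c := ⟨341, ⟨5, 8, 12, 7⟩⟩) (by decide +kernel)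

def bot5_ev1 : PosBox ⟨⟨0, 1, 1⟩, ⟨600, 601, 1000⟩, ⟨0, 250, 10000⟩, ⟨15000, 16900, 10000⟩⟩ (bot5.hEv true) :=
  posBox_of_check (c := ⟨251, ⟨5, 2, 9, 6⟩⟩) (by decide +kernel)

def bot5_eL1 : PosBox ⟨⟨0, 1, 1⟩, ⟨600, 601, 1000⟩, ⟨0, 250, 10000⟩, ⟨15000, 16900, 10000⟩⟩ (bot5.hEL true) :=
  posBox_of_check (c := ⟨339, ⟨6, 6, 12, 8⟩⟩) (by decide +kernel)

def bot5_eH1 : PosBox ⟨⟨0, 1, 1⟩, ⟨600, 601, 1000⟩, ⟨0, 250, 10000⟩, ⟨15000, 16900, 10000⟩⟩ (bot5.hEH true) :=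
  posBox_of_check (c := ⟨338, ⟨6, 6, 12, 8⟩⟩) (by decide +kernel)

def bot5_pL1 : PosBox ⟨⟨0, 1, 1⟩, ⟨600, 601, 1000⟩, ⟨0, 250, 10000⟩, ⟨15000, 16900, 10000⟩⟩ (bot5.hPL true) :=
  posBox_of_check (c := ⟨362, ⟨6, 6, 12, 9⟩⟩) (by decide +kernel)

def bot5_pU1 : PosBox ⟨⟨0, 1, 1⟩, ⟨600, 601, 1000⟩, ⟨0, 250, 10000⟩, ⟨15000, 16900, 10000⟩⟩ (bot5.hPU true) :=
  posBox_of_check (c := ⟨363, ⟨6, 6, 12, 9⟩⟩) (by decide +kernel)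

def bot5_kU1 : PosBox ⟨⟨0, 1, 1⟩, ⟨600, 601, 1000⟩, ⟨0, 250, 10000⟩, ⟨15000, 16900, 10000⟩⟩ (bot5.hKU true) :=
  posBox_of_check (c := ⟨355, ⟨6, 6, 12, 8⟩⟩) (by decide +kernel)

def bot5_kL1 : PosBox ⟨⟨0, 1, 1⟩, ⟨600, 601, 1000⟩, ⟨0, 250, 10000⟩, ⟨15000, 16900, 10000⟩⟩ (bot5.hKL true) :=
  posBox_of_check (c := ⟨353, ⟨6, 6, 12, 8⟩⟩) (by decide +kernel)

def bot5_wU1 : PosBox ⟨⟨0, 1, 1⟩, ⟨600, 601, 1000⟩, ⟨0, 250, 10000⟩, ⟨15000, 16900, 10000⟩⟩ (bot5.hWU true) :=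
  posBox_of_check (c := ⟨390, ⟨6, 8, 13, 9⟩⟩) (by decide +kernel)

def bot5_wL1 : PosBox ⟨⟨0, 1, 1⟩, ⟨600, 601, 1000⟩, ⟨0, 250, 10000⟩, ⟨15000, 16900, 10000⟩⟩ (bot5.hWL true) :=
  posBox_of_check (c := ⟨390, ⟨6, 8, 13, 9⟩⟩) (by decide +kernel)

/-- The checks on the bounds. -/
theorem bot5_env : bot5.Env ⟨⟨0, 1, 1⟩, ⟨600, 601, 1000⟩, ⟨0, 250, 10000⟩, ⟨15000, 16900, 10000⟩⟩ where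
  p0 := bot5_p0
  den := Bool.forall_bool.2 ⟨bot5_den0, bot5_den1⟩
  gn := bot5_gn
  ev := Bool.forall_bool.2 ⟨bot5_ev0, bot5_ev1⟩
  eL := Bool.forall_bool.2 ⟨bot5_eL0, bot5_eL1⟩
  eL' := ⟨.inr rfl, .inr rfl⟩
  eH := Bool.forall_bool.2 ⟨bot5_eH0, bot5_eH1⟩
  eH' := ⟨.inr rfl, .inr rfl⟩
  pL := Bool.forall_bool.2 ⟨bot5_pL0, bot5_pL1⟩
  pL' := ⟨.inr rfl, .inr rfl⟩
  pU := Bool.forall_bool.2 ⟨bot5_pU0, bot5_pU1⟩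
  pU' := ⟨.inr rfl, .inr rfl⟩
  kU := Bool.forall_bool.2 ⟨bot5_kU0, bot5_kU1⟩
  kU' := ⟨.inr rfl, .inr rfl⟩
  kL := Bool.forall_bool.2 ⟨bot5_kL0, bot5_kL1⟩
  kL' := ⟨.inr rfl, .inr rfl⟩
  wU := Bool.forall_bool.2 ⟨bot5_wU0, bot5_wU1⟩
  wU' := ⟨.inr rfl, .inr rfl⟩
  wL := Bool.forall_bool.2 ⟨bot5_wL0, bot5_wL1⟩
  wL' := ⟨.inr rfl, .inr rfl⟩

end Vale.Agent.P100.Calib.Closed.High
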