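import Vale.Agent.P100.Calib.SlabHighBotData

/-!
# Checks of the bounds of a piece of the tail
-/

set_option linter.defProp false

namespace Vale.Agent.P100.Calib.Closed.High

open BoxPos Large

def bot7_p0 : PosBox ⟨⟨0, 1, 1⟩, ⟨600, 601, 1000⟩, ⟨250, 400, 10000⟩, ⟨11600, 13000, 10000⟩⟩ (bot7.hP0) :=
  posBox_of_check (c := ⟨69, ⟨0, 2, 3, 1⟩⟩) (by decide +kernel)

def bot7_gn : PosBox ⟨⟨0, 1, 1⟩, ⟨600, 601, 1000⟩, ⟨250, 400, 10000⟩, ⟨11600, 13000, 10000⟩⟩ (bot7.hGn) :=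
  posBox_of_check (c := ⟨73, ⟨1, 1, 2, 2⟩⟩) (by decide +kernel)

def bot7_phi : PosBox ⟨⟨0, 1, 1⟩, ⟨600, 601, 1000⟩, ⟨250, 400, 10000⟩, ⟨11600, 13000, 10000⟩⟩ (botPhi bot7.u₁ xV) :=
  posBox_of_check (c := ⟨128, ⟨0, 0, 5, 3⟩⟩) (by decide +kernel)

def bot7_den0 : PosBox ⟨⟨0, 1, 1⟩, ⟨600, 601, 1000⟩, ⟨250, 400, 10000⟩, ⟨11600, 13000, 10000⟩⟩ (bot7.hDen false) :=
  posBox_of_check (c := ⟨92, ⟨2, 0, 4, 2⟩⟩) (by decide +kernel)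

def bot7_den1 : PosBox ⟨⟨0, 1, 1⟩, ⟨600, 601, 1000⟩, ⟨250, 400, 10000⟩, ⟨11600, 13000, 10000⟩⟩ (bot7.hDen true) :=
  posBox_of_check (c := ⟨94, ⟨3, 0, 3, 3⟩⟩) (by decide +kernel)

def bot7_ev0 : PosBox ⟨⟨0, 1, 1⟩, ⟨600, 601, 1000⟩, ⟨250, 400, 10000⟩, ⟨11600, 13000, 10000⟩⟩ (bot7.hEv false) :=
  posBox_of_check (c := ⟨204, ⟨4, 2, 8, 4⟩⟩) (by decide +kernel)

def bot7_eL0 : PosBox ⟨⟨0, 1, 1⟩, ⟨600, 601, 1000⟩, ⟨250, 400, 10000⟩, ⟨11600, 13000, 10000⟩⟩ (bot7.hEL false) :=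
  posBox_of_check (c := ⟨292, ⟨5, 6, 11, 6⟩⟩) (by decide +kernel)

def bot7_eH0 : PosBox ⟨⟨0, 1, 1⟩, ⟨600, 601, 1000⟩, ⟨250, 400, 10000⟩, ⟨11600, 13000, 10000⟩⟩ (bot7.hEH false) :=
  posBox_of_check (c := ⟨290, ⟨5, 6, 11, 6⟩⟩) (by decide +kernel)

def bot7_pL0 : PosBox ⟨⟨0, 1, 1⟩, ⟨600, 601, 1000⟩, ⟨250, 400, 10000⟩, ⟨11600, 13000, 10000⟩⟩ (bot7.hPL false) :=
  posBox_of_check (c := ⟨314, ⟨5, 6, 11, 7⟩⟩) (by decide +kernel)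

def bot7_pU0 : PosBox ⟨⟨0, 1, 1⟩, ⟨600, 601, 1000⟩, ⟨250, 400, 10000⟩, ⟨11600, 13000, 10000⟩⟩ (bot7.hPU false) :=
  posBox_of_check (c := ⟨315, ⟨5, 6, 11, 7⟩⟩) (by decide +kernel)

def bot7_kU0 : PosBox ⟨⟨0, 1, 1⟩, ⟨600, 601, 1000⟩, ⟨250, 400, 10000⟩, ⟨11600, 13000, 10000⟩⟩ (bot7.hKU false) :=
  posBox_of_check (c := ⟨309, ⟨5, 6, 11, 7⟩⟩) (by decide +kernel)

def bot7_kL0 : PosBox ⟨⟨0, 1, 1⟩, ⟨600, 601, 1000⟩, ⟨250, 400, 10000⟩, ⟨11600, 13000, 10000⟩⟩ (bot7.hKL false) :=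
  posBox_of_check (c := ⟨310, ⟨5, 6, 11, 7⟩⟩) (by decide +kernel)

def bot7_wU0 : PosBox ⟨⟨0, 1, 1⟩, ⟨600, 601, 1000⟩, ⟨250, 400, 10000⟩, ⟨11600, 13000, 10000⟩⟩ (bot7.hWU false) :=
  posBox_of_check (c := ⟨342, ⟨5, 8, 12, 7⟩⟩) (by decide +kernel)

def bot7_wL0 : PosBox ⟨⟨0, 1, 1⟩, ⟨600, 601, 1000⟩, ⟨250, 400, 10000⟩, ⟨11600, 13000, 10000⟩⟩ (bot7.hWL false) :=
  posBox_of_check (c := ⟨343, ⟨5, 8, 12, 7⟩⟩) (by decide +kernel)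

def bot7_pV0 : PosBox ⟨⟨0, 1, 1⟩, ⟨600, 601, 1000⟩, ⟨250, 400, 10000⟩, ⟨11600, 13000, 10000⟩⟩ (({ bot7 with pU := bot7PU } : Piece).hPU false) :=
  posBox_of_check (c := ⟨314, ⟨5, 6, 11, 7⟩⟩) (by decide +kernel)

def bot7_ev1 : PosBox ⟨⟨0, 1, 1⟩, ⟨600, 601, 1000⟩, ⟨250, 400, 10000⟩, ⟨11600, 13000, 10000⟩⟩ (bot7.hEv true) :=
  posBox_of_check (c := ⟨252, ⟨5, 2, 9, 6⟩⟩) (by decide +kernel)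

def bot7_eL1 : PosBox ⟨⟨0, 1, 1⟩, ⟨600, 601, 1000⟩, ⟨250, 400, 10000⟩, ⟨11600, 13000, 10000⟩⟩ (bot7.hEL true) :=
  posBox_of_check (c := ⟨340, ⟨6, 6, 12, 8⟩⟩) (by decide +kernel)

def bot7_eH1 : PosBox ⟨⟨0, 1, 1⟩, ⟨600, 601, 1000⟩, ⟨250, 400, 10000⟩, ⟨11600, 13000, 10000⟩⟩ (bot7.hEH true) :=
  posBox_of_check (c := ⟨339, ⟨6, 6, 12, 8⟩⟩) (by decide +kernel)

def bot7_pL1 : PosBox ⟨⟨0, 1, 1⟩, ⟨600, 601, 1000⟩, ⟨250, 400, 10000⟩, ⟨11600, 13000, 10000⟩⟩ (bot7.hPL true) :=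
  posBox_of_check (c := ⟨363, ⟨6, 6, 12, 9⟩⟩) (by decide +kernel)

def bot7_pU1_0 : PosBox ⟨⟨0, 1, 2⟩, ⟨600, 601, 1000⟩, ⟨250, 400, 10000⟩, ⟨11600, 13000, 10000⟩⟩ (bot7.hPU true) :=
  posBox_of_check (c := ⟨368, ⟨6, 6, 12, 9⟩⟩) (by decide +kernel)

def bot7_pU1_1 : PosBox ⟨⟨1, 2, 2⟩, ⟨600, 601, 1000⟩, ⟨250, 400, 10000⟩, ⟨11600, 13000, 10000⟩⟩ (bot7.hPU true) :=
  posBox_of_check (c := ⟨370, ⟨6, 6, 12, 9⟩⟩) (by decide +kernel)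

def bot7_pU1 : PosBox ⟨⟨0, 1, 1⟩, ⟨600, 601, 1000⟩, ⟨250, 400, 10000⟩, ⟨11600, 13000, 10000⟩⟩ (bot7.hPU true) :=
  posBox_units (b := ⟨⟨0, 2, 2⟩, ⟨600, 601, 1000⟩, ⟨250, 400, 10000⟩, ⟨11600, 13000, 10000⟩⟩) (by decide +kernel) (posBox_join₀ bot7_pU1_0 bot7_pU1_1)

def bot7_kU1 : PosBox ⟨⟨0, 1, 1⟩, ⟨600, 601, 1000⟩, ⟨250, 400, 10000⟩, ⟨11600, 13000, 10000⟩⟩ (bot7.hKU true) :=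
  posBox_of_check (c := ⟨358, ⟨6, 6, 12, 9⟩⟩) (by decide +kernel)

def bot7_kL1 : PosBox ⟨⟨0, 1, 1⟩, ⟨600, 601, 1000⟩, ⟨250, 400, 10000⟩, ⟨11600, 13000, 10000⟩⟩ (bot7.hKL true) :=
  posBox_of_check (c := ⟨358, ⟨6, 6, 12, 9⟩⟩) (by decide +kernel)

def bot7_wU1_0_0 : PosBox ⟨⟨0, 1, 4⟩, ⟨600, 601, 1000⟩, ⟨250, 400, 10000⟩, ⟨11600, 13000, 10000⟩⟩ (bot7.hWU true) :=
  posBox_of_check (c := ⟨399, ⟨6, 8, 13, 9⟩⟩) (by decide +kernel)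

def bot7_wU1_0_1 : PosBox ⟨⟨1, 2, 4⟩, ⟨600, 601, 1000⟩, ⟨250, 400, 10000⟩, ⟨11600, 13000, 10000⟩⟩ (bot7.hWU true) :=
  posBox_of_check (c := ⟨401, ⟨6, 8, 13, 9⟩⟩) (by decide +kernel)

def bot7_wU1_0 : PosBox ⟨⟨0, 1, 2⟩, ⟨600, 601, 1000⟩, ⟨250, 400, 10000⟩, ⟨11600, 13000, 10000⟩⟩ (bot7.hWU true) :=
  posBox_units (b := ⟨⟨0, 2, 4⟩, ⟨600, 601, 1000⟩, ⟨250, 400, 10000⟩, ⟨11600, 13000, 10000⟩⟩) (by decide +kernel) (posBox_join₀ bot7_wU1_0_0 bot7_wU1_0_1)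

def bot7_wU1_1 : PosBox ⟨⟨1, 2, 2⟩, ⟨600, 601, 1000⟩, ⟨250, 400, 10000⟩, ⟨11600, 13000, 10000⟩⟩ (bot7.hWU true) :=
  posBox_of_check (c := ⟨397, ⟨6, 8, 13, 9⟩⟩) (by decide +kernel)

def bot7_wU1 : PosBox ⟨⟨0, 1, 1⟩, ⟨600, 601, 1000⟩, ⟨250, 400, 10000⟩, ⟨11600, 13000, 10000⟩⟩ (bot7.hWU true) :=
  posBox_units (b := ⟨⟨0, 2, 2⟩, ⟨600, 601, 1000⟩, ⟨250, 400, 10000⟩, ⟨11600, 13000, 10000⟩⟩) (by decide +kernel) (posBox_join₀ bot7_wU1_0 bot7_wU1_1)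

def bot7_wL1 : PosBox ⟨⟨0, 1, 1⟩, ⟨600, 601, 1000⟩, ⟨250, 400, 10000⟩, ⟨11600, 13000, 10000⟩⟩ (bot7.hWL true) :=
  posBox_of_check (c := ⟨392, ⟨6, 8, 13, 9⟩⟩) (by decide +kernel)

def bot7_pV1_0 : PosBox ⟨⟨0, 1, 2⟩, ⟨600, 601, 1000⟩, ⟨250, 400, 10000⟩, ⟨11600, 13000, 10000⟩⟩ (({ bot7 with pU := bot7PU } : Piece).hPU true) :=
  posBox_of_check (c := ⟨366, ⟨6, 6, 12, 9⟩⟩) (by decide +kernel)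

def bot7_pV1_1 : PosBox ⟨⟨1, 2, 2⟩, ⟨600, 601, 1000⟩, ⟨250, 400, 10000⟩, ⟨11600, 13000, 10000⟩⟩ (({ bot7 with pU := bot7PU } : Piece).hPU true) :=
  posBox_of_check (c := ⟨369, ⟨6, 6, 12, 9⟩⟩) (by decide +kernel)

def bot7_pV1 : PosBox ⟨⟨0, 1, 1⟩, ⟨600, 601, 1000⟩, ⟨250, 400, 10000⟩, ⟨11600, 13000, 10000⟩⟩ (({ bot7 with pU := bot7PU } : Piece).hPU true) :=
  posBox_units (b := ⟨⟨0, 2, 2⟩, ⟨600, 601, 1000⟩, ⟨250, 400, 10000⟩, ⟨11600, 13000, 10000⟩⟩) (by decide +kernel) (posBox_join₀ bot7_pV1_0 bot7_pV1_1)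

/-- The checks on the bounds. -/
theorem bot7_env : bot7.Env ⟨⟨0, 1, 1⟩, ⟨600, 601, 1000⟩, ⟨250, 400, 10000⟩, ⟨11600, 13000, 10000⟩⟩ where
  p0 := bot7_p0
  den := Bool.forall_bool.2 ⟨bot7_den0, bot7_den1⟩
  gn := bot7_gn
  ev := Bool.forall_bool.2 ⟨bot7_ev0, bot7_ev1⟩
  eL := Bool.forall_bool.2 ⟨bot7_eL0, bot7_eL1⟩
  eL' := ⟨.inr rfl, .inr rfl⟩
  eH := Bool.forall_bool.2 ⟨bot7_eH0, bot7_eH1⟩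
  eH' := ⟨.inr rfl, .inr rfl⟩
  pL := Bool.forall_bool.2 ⟨bot7_pL0, bot7_pL1⟩
  pL' := ⟨.inr rfl, .inr rfl⟩
  pU := Bool.forall_bool.2 ⟨bot7_pU0, bot7_pU1⟩
  pU' := ⟨.inr rfl, .inr rfl⟩
  kU := Bool.forall_bool.2 ⟨bot7_kU0, bot7_kU1⟩
  kU' := ⟨.inr rfl, .inr rfl⟩
  kL := Bool.forall_bool.2 ⟨bot7_kL0, bot7_kL1⟩
  kL' := ⟨.inr rfl, .inr rfl⟩
  wU := Bool.forall_bool.2 ⟨bot7_wU0, bot7_wU1⟩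
  wU' := ⟨.inr rfl, .inr rfl⟩
  wL := Bool.forall_bool.2 ⟨bot7_wL0, bot7_wL1⟩
  wL' := ⟨.inr rfl, .inr rfl⟩

/-- The checks with the bound above the cut. -/
theorem bot7_envU : ({ bot7 with pU := bot7PU } : Piece).Env ⟨⟨0, 1, 1⟩, ⟨600, 601, 1000⟩, ⟨250, 400, 10000⟩, ⟨11600, 13000, 10000⟩⟩ :=
  bot7_env.withU bot7PU (Bool.forall_bool.2 ⟨bot7_pV0, bot7_pV1⟩) ⟨.inr rfl, .inr rfl⟩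

end Vale.Agent.P100.Calib.Closed.High
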