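import Vale.Agent.P100.Calib.SlabHighBotData

/-!
# Checks of the bounds of a piece of the tail
-/

set_option linter.defProp false

namespace Vale.Agent.P100.Calib.Closed.High

open BoxPos Large

def bot8_p0 : PosBox ⟨⟨0, 1, 1⟩, ⟨600, 601, 1000⟩, ⟨250, 501, 10000⟩, ⟨13000, 16000, 10000⟩⟩ (bot8.hP0) :=
  posBox_of_check (c := ⟨69, ⟨0, 2, 3, 1⟩⟩) (by decide +kernel)

def bot8_gn : PosBox ⟨⟨0, 1, 1⟩, ⟨600, 601, 1000⟩, ⟨250, 501, 10000⟩, ⟨13000, 16000, 10000⟩⟩ (bot8.hGn) :=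
  posBox_of_check (c := ⟨73, ⟨1, 1, 2, 2⟩⟩) (by decide +kernel)

def bot8_phi : PosBox ⟨⟨0, 1, 1⟩, ⟨600, 601, 1000⟩, ⟨250, 501, 10000⟩, ⟨13000, 16000, 10000⟩⟩ (botPhi bot8.u₁ xV) :=
  posBox_of_check (c := ⟨127, ⟨0, 0, 5, 3⟩⟩) (by decide +kernel)

def bot8_den0 : PosBox ⟨⟨0, 1, 1⟩, ⟨600, 601, 1000⟩, ⟨250, 501, 10000⟩, ⟨13000, 16000, 10000⟩⟩ (bot8.hDen false) :=
  posBox_of_check (c := ⟨91, ⟨2, 0, 4, 2⟩⟩) (by decide +kernel)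

def bot8_den1 : PosBox ⟨⟨0, 1, 1⟩, ⟨600, 601, 1000⟩, ⟨250, 501, 10000⟩, ⟨13000, 16000, 10000⟩⟩ (bot8.hDen true) :=
  posBox_of_check (c := ⟨94, ⟨3, 0, 3, 3⟩⟩) (by decide +kernel)

def bot8_ev0 : PosBox ⟨⟨0, 1, 1⟩, ⟨600, 601, 1000⟩, ⟨250, 501, 10000⟩, ⟨13000, 16000, 10000⟩⟩ (bot8.hEv false) :=
  posBox_of_check (c := ⟨203, ⟨4, 2, 8, 4⟩⟩) (by decide +kernel)

def bot8_eL0 : PosBox ⟨⟨0, 1, 1⟩, ⟨600, 601, 1000⟩, ⟨250, 501, 10000⟩, ⟨13000, 16000, 10000⟩⟩ (bot8.hEL false) :=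
  posBox_of_check (c := ⟨291, ⟨5, 6, 11, 6⟩⟩) (by decide +kernel)

def bot8_eH0 : PosBox ⟨⟨0, 1, 1⟩, ⟨600, 601, 1000⟩, ⟨250, 501, 10000⟩, ⟨13000, 16000, 10000⟩⟩ (bot8.hEH false) :=
  posBox_of_check (c := ⟨290, ⟨5, 6, 11, 6⟩⟩) (by decide +kernel)

def bot8_pL0 : PosBox ⟨⟨0, 1, 1⟩, ⟨600, 601, 1000⟩, ⟨250, 501, 10000⟩, ⟨13000, 16000, 10000⟩⟩ (bot8.hPL false) :=
  posBox_of_check (c := ⟨311, ⟨5, 6, 11, 7⟩⟩) (by decide +kernel)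

def bot8_pU0 : PosBox ⟨⟨0, 1, 1⟩, ⟨600, 601, 1000⟩, ⟨250, 501, 10000⟩, ⟨13000, 16000, 10000⟩⟩ (bot8.hPU false) :=
  posBox_of_check (c := ⟨314, ⟨5, 6, 11, 7⟩⟩) (by decide +kernel)

def bot8_kU0 : PosBox ⟨⟨0, 1, 1⟩, ⟨600, 601, 1000⟩, ⟨250, 501, 10000⟩, ⟨13000, 16000, 10000⟩⟩ (bot8.hKU false) :=
  posBox_of_check (c := ⟨309, ⟨5, 6, 11, 7⟩⟩) (by decide +kernel)

def bot8_kL0 : PosBox ⟨⟨0, 1, 1⟩, ⟨600, 601, 1000⟩, ⟨250, 501, 10000⟩, ⟨13000, 16000, 10000⟩⟩ (bot8.hKL false) :=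
  posBox_of_check (c := ⟨309, ⟨5, 6, 11, 7⟩⟩) (by decide +kernel)

def bot8_wU0 : PosBox ⟨⟨0, 1, 1⟩, ⟨600, 601, 1000⟩, ⟨250, 501, 10000⟩, ⟨13000, 16000, 10000⟩⟩ (bot8.hWU false) :=
  posBox_of_check (c := ⟨340, ⟨5, 8, 12, 7⟩⟩) (by decide +kernel)

def bot8_wL0 : PosBox ⟨⟨0, 1, 1⟩, ⟨600, 601, 1000⟩, ⟨250, 501, 10000⟩, ⟨13000, 16000, 10000⟩⟩ (bot8.hWL false) :=
  posBox_of_check (c := ⟨342, ⟨5, 8, 12, 7⟩⟩) (by decide +kernel)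

def bot8_ev1 : PosBox ⟨⟨0, 1, 1⟩, ⟨600, 601, 1000⟩, ⟨250, 501, 10000⟩, ⟨13000, 16000, 10000⟩⟩ (bot8.hEv true) :=
  posBox_of_check (c := ⟨252, ⟨5, 2, 9, 6⟩⟩) (by decide +kernel)

def bot8_eL1 : PosBox ⟨⟨0, 1, 1⟩, ⟨600, 601, 1000⟩, ⟨250, 501, 10000⟩, ⟨13000, 16000, 10000⟩⟩ (bot8.hEL true) :=
  posBox_of_check (c := ⟨339, ⟨6, 6, 12, 8⟩⟩) (by decide +kernel)

def bot8_eH1 : PosBox ⟨⟨0, 1, 1⟩, ⟨600, 601, 1000⟩, ⟨250, 501, 10000⟩, ⟨13000, 16000, 10000⟩⟩ (bot8.hEH true) :=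
  posBox_of_check (c := ⟨338, ⟨6, 6, 12, 8⟩⟩) (by decide +kernel)

def bot8_pL1 : PosBox ⟨⟨0, 1, 1⟩, ⟨600, 601, 1000⟩, ⟨250, 501, 10000⟩, ⟨13000, 16000, 10000⟩⟩ (bot8.hPL true) :=
  posBox_of_check (c := ⟨360, ⟨6, 6, 12, 9⟩⟩) (by decide +kernel)

def bot8_pU1 : PosBox ⟨⟨0, 1, 1⟩, ⟨600, 601, 1000⟩, ⟨250, 501, 10000⟩, ⟨13000, 16000, 10000⟩⟩ (bot8.hPU true) :=
  posBox_of_check (c := ⟨363, ⟨6, 6, 12, 9⟩⟩) (by decide +kernel)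

def bot8_kU1 : PosBox ⟨⟨0, 1, 1⟩, ⟨600, 601, 1000⟩, ⟨250, 501, 10000⟩, ⟨13000, 16000, 10000⟩⟩ (bot8.hKU true) :=
  posBox_of_check (c := ⟨358, ⟨6, 6, 12, 9⟩⟩) (by decide +kernel)

def bot8_kL1 : PosBox ⟨⟨0, 1, 1⟩, ⟨600, 601, 1000⟩, ⟨250, 501, 10000⟩, ⟨13000, 16000, 10000⟩⟩ (bot8.hKL true) :=
  posBox_of_check (c := ⟨358, ⟨6, 6, 12, 9⟩⟩) (by decide +kernel)

def bot8_wU1_0 : PosBox ⟨⟨0, 1, 2⟩, ⟨600, 601, 1000⟩, ⟨250, 501, 10000⟩, ⟨13000, 16000, 10000⟩⟩ (bot8.hWU true) :=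
  posBox_of_check (c := ⟨393, ⟨6, 8, 13, 9⟩⟩) (by decide +kernel)

def bot8_wU1_1 : PosBox ⟨⟨1, 2, 2⟩, ⟨600, 601, 1000⟩, ⟨250, 501, 10000⟩, ⟨13000, 16000, 10000⟩⟩ (bot8.hWU true) :=
  posBox_of_check (c := ⟨395, ⟨6, 8, 13, 9⟩⟩) (by decide +kernel)

def bot8_wU1 : PosBox ⟨⟨0, 1, 1⟩, ⟨600, 601, 1000⟩, ⟨250, 501, 10000⟩, ⟨13000, 16000, 10000⟩⟩ (bot8.hWU true) :=
  posBox_units (b := ⟨⟨0, 2, 2⟩, ⟨600, 601, 1000⟩, ⟨250, 501, 10000⟩, ⟨13000, 16000, 10000⟩⟩) (by decide +kernel) (posBox_join₀ bot8_wU1_0 bot8_wU1_1)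

def bot8_wL1 : PosBox ⟨⟨0, 1, 1⟩, ⟨600, 601, 1000⟩, ⟨250, 501, 10000⟩, ⟨13000, 16000, 10000⟩⟩ (bot8.hWL true) :=
  posBox_of_check (c := ⟨390, ⟨6, 8, 13, 9⟩⟩) (by decide +kernel)

/-- The checks on the bounds. -/
theorem bot8_env : bot8.Env ⟨⟨0, 1, 1⟩, ⟨600, 601, 1000⟩, ⟨250, 501, 10000⟩, ⟨13000, 16000, 10000⟩⟩ where
  p0 := bot8_p0
  den := Bool.forall_bool.2 ⟨bot8_den0, bot8_den1⟩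
  gn := bot8_gn
  ev := Bool.forall_bool.2 ⟨bot8_ev0, bot8_ev1⟩
  eL := Bool.forall_bool.2 ⟨bot8_eL0, bot8_eL1⟩
  eL' := ⟨.inr rfl, .inr rfl⟩
  eH := Bool.forall_bool.2 ⟨bot8_eH0, bot8_eH1⟩
  eH' := ⟨.inr rfl, .inr rfl⟩
  pL := Bool.forall_bool.2 ⟨bot8_pL0, bot8_pL1⟩
  pL' := ⟨.inr rfl, .inr rfl⟩
  pU := Bool.forall_bool.2 ⟨bot8_pU0, bot8_pU1⟩
  pU' := ⟨.inr rfl, .inr rfl⟩
  kU := Bool.forall_bool.2 ⟨bot8_kU0, bot8_kU1⟩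
  kU' := ⟨.inr rfl, .inr rfl⟩
  kL := Bool.forall_bool.2 ⟨bot8_kL0, bot8_kL1⟩
  kL' := ⟨.inr rfl, .inr rfl⟩
  wU := Bool.forall_bool.2 ⟨bot8_wU0, bot8_wU1⟩
  wU' := ⟨.inr rfl, .inr rfl⟩
  wL := Bool.forall_bool.2 ⟨bot8_wL0, bot8_wL1⟩
  wL' := ⟨.inr rfl, .inr rfl⟩

end Vale.Agent.P100.Calib.Closed.High
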