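import Vale.Agent.P100.Calib.SlabHighBotData

/-!
# Checks of the bounds of a piece of the tail
-/

set_option linter.defProp false

namespace Vale.Agent.P100.Calib.Closed.High

open BoxPos Large

def bot9_p0 : PosBox ⟨⟨0, 1, 1⟩, ⟨600, 601, 1000⟩, ⟨400, 501, 10000⟩, ⟨10400, 10850, 10000⟩⟩ (bot9.hP0) :=
  posBox_of_check (c := ⟨69, ⟨0, 2, 3, 1⟩⟩) (by decide +kernel)

def bot9_gn : PosBox ⟨⟨0, 1, 1⟩, ⟨600, 601, 1000⟩, ⟨400, 501, 10000⟩, ⟨10400, 10850, 10000⟩⟩ (bot9.hGn) :=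
  posBox_of_check (c := ⟨56, ⟨1, 1, 2, 1⟩⟩) (by decide +kernel)

def bot9_den0 : PosBox ⟨⟨0, 1, 1⟩, ⟨600, 601, 1000⟩, ⟨400, 501, 10000⟩, ⟨10400, 10850, 10000⟩⟩ (bot9.hDen false) :=
  posBox_of_check (c := ⟨74, ⟨2, 0, 2, 0⟩⟩) (by decide +kernel)

def bot9_den1 : PosBox ⟨⟨0, 1, 1⟩, ⟨600, 601, 1000⟩, ⟨400, 501, 10000⟩, ⟨10400, 10850, 10000⟩⟩ (bot9.hDen true) :=
  posBox_of_check (c := ⟨75, ⟨3, 0, 1, 0⟩⟩) (by decide +kernel)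

def bot9_ev0 : PosBox ⟨⟨0, 1, 1⟩, ⟨600, 601, 1000⟩, ⟨400, 501, 10000⟩, ⟨10400, 10850, 10000⟩⟩ (bot9.hEv false) :=
  posBox_of_check (c := ⟨152, ⟨4, 2, 4, 1⟩⟩) (by decide +kernel)

def bot9_eL0 : PosBox ⟨⟨0, 1, 1⟩, ⟨600, 601, 1000⟩, ⟨400, 501, 10000⟩, ⟨10400, 10850, 10000⟩⟩ (bot9.hEL false) :=
  posBox_of_check (c := ⟨239, ⟨5, 6, 7, 3⟩⟩) (by decide +kernel)

def bot9_eH0 : PosBox ⟨⟨0, 1, 1⟩, ⟨600, 601, 1000⟩, ⟨400, 501, 10000⟩, ⟨10400, 10850, 10000⟩⟩ (bot9.hEH false) :=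
  posBox_of_check (c := ⟨239, ⟨5, 6, 7, 3⟩⟩) (by decide +kernel)

def bot9_pL0 : PosBox ⟨⟨0, 1, 1⟩, ⟨600, 601, 1000⟩, ⟨400, 501, 10000⟩, ⟨10400, 10850, 10000⟩⟩ (bot9.hPL false) :=
  posBox_of_check (c := ⟨245, ⟨5, 6, 7, 3⟩⟩) (by decide +kernel)

def bot9_pU0 : PosBox ⟨⟨0, 1, 1⟩, ⟨600, 601, 1000⟩, ⟨400, 501, 10000⟩, ⟨10400, 10850, 10000⟩⟩ (bot9.hPU false) :=
  posBox_of_check (c := ⟨245, ⟨5, 6, 7, 3⟩⟩) (by decide +kernel)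

def bot9_kU0 : PosBox ⟨⟨0, 1, 1⟩, ⟨600, 601, 1000⟩, ⟨400, 501, 10000⟩, ⟨10400, 10850, 10000⟩⟩ (bot9.hKU false) :=
  posBox_of_check (c := ⟨241, ⟨5, 6, 7, 3⟩⟩) (by decide +kernel)

def bot9_kL0 : PosBox ⟨⟨0, 1, 1⟩, ⟨600, 601, 1000⟩, ⟨400, 501, 10000⟩, ⟨10400, 10850, 10000⟩⟩ (bot9.hKL false) :=
  posBox_of_check (c := ⟨241, ⟨5, 6, 7, 3⟩⟩) (by decide +kernel)

def bot9_wU0 : PosBox ⟨⟨0, 1, 1⟩, ⟨600, 601, 1000⟩, ⟨400, 501, 10000⟩, ⟨10400, 10850, 10000⟩⟩ (bot9.hWU false) :=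
  posBox_of_check (c := ⟨272, ⟨5, 8, 8, 3⟩⟩) (by decide +kernel)

def bot9_wL0 : PosBox ⟨⟨0, 1, 1⟩, ⟨600, 601, 1000⟩, ⟨400, 501, 10000⟩, ⟨10400, 10850, 10000⟩⟩ (bot9.hWL false) :=
  posBox_of_check (c := ⟨272, ⟨5, 8, 8, 3⟩⟩) (by decide +kernel)

def bot9_ev1 : PosBox ⟨⟨0, 1, 1⟩, ⟨600, 601, 1000⟩, ⟨400, 501, 10000⟩, ⟨10400, 10850, 10000⟩⟩ (bot9.hEv true) :=
  posBox_of_check (c := ⟨197, ⟨5, 2, 5, 1⟩⟩) (by decide +kernel)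

def bot9_eL1 : PosBox ⟨⟨0, 1, 1⟩, ⟨600, 601, 1000⟩, ⟨400, 501, 10000⟩, ⟨10400, 10850, 10000⟩⟩ (bot9.hEL true) :=
  posBox_of_check (c := ⟨284, ⟨6, 6, 8, 3⟩⟩) (by decide +kernel)

def bot9_eH1 : PosBox ⟨⟨0, 1, 1⟩, ⟨600, 601, 1000⟩, ⟨400, 501, 10000⟩, ⟨10400, 10850, 10000⟩⟩ (bot9.hEH true) :=
  posBox_of_check (c := ⟨284, ⟨6, 6, 8, 3⟩⟩) (by decide +kernel)

def bot9_pL1 : PosBox ⟨⟨0, 1, 1⟩, ⟨600, 601, 1000⟩, ⟨400, 501, 10000⟩, ⟨10400, 10850, 10000⟩⟩ (bot9.hPL true) :=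
  posBox_of_check (c := ⟨291, ⟨6, 6, 8, 3⟩⟩) (by decide +kernel)

def bot9_pU1 : PosBox ⟨⟨0, 1, 1⟩, ⟨600, 601, 1000⟩, ⟨400, 501, 10000⟩, ⟨10400, 10850, 10000⟩⟩ (bot9.hPU true) :=
  posBox_of_check (c := ⟨292, ⟨6, 6, 8, 3⟩⟩) (by decide +kernel)

def bot9_kU1 : PosBox ⟨⟨0, 1, 1⟩, ⟨600, 601, 1000⟩, ⟨400, 501, 10000⟩, ⟨10400, 10850, 10000⟩⟩ (bot9.hKU true) :=
  posBox_of_check (c := ⟨287, ⟨6, 6, 8, 3⟩⟩) (by decide +kernel)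

def bot9_kL1 : PosBox ⟨⟨0, 1, 1⟩, ⟨600, 601, 1000⟩, ⟨400, 501, 10000⟩, ⟨10400, 10850, 10000⟩⟩ (bot9.hKL true) :=
  posBox_of_check (c := ⟨287, ⟨6, 6, 8, 3⟩⟩) (by decide +kernel)

def bot9_wU1 : PosBox ⟨⟨0, 1, 1⟩, ⟨600, 601, 1000⟩, ⟨400, 501, 10000⟩, ⟨10400, 10850, 10000⟩⟩ (bot9.hWU true) :=
  posBox_of_check (c := ⟨319, ⟨6, 8, 9, 3⟩⟩) (by decide +kernel)

def bot9_wL1 : PosBox ⟨⟨0, 1, 1⟩, ⟨600, 601, 1000⟩, ⟨400, 501, 10000⟩, ⟨10400, 10850, 10000⟩⟩ (bot9.hWL true) :=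
  posBox_of_check (c := ⟨319, ⟨6, 8, 9, 3⟩⟩) (by decide +kernel)

/-- The checks on the bounds. -/
theorem bot9_env : bot9.Env ⟨⟨0, 1, 1⟩, ⟨600, 601, 1000⟩, ⟨400, 501, 10000⟩, ⟨10400, 10850, 10000⟩⟩ where
  p0 := bot9_p0
  den := Bool.forall_bool.2 ⟨bot9_den0, bot9_den1⟩
  gn := bot9_gn
  ev := Bool.forall_bool.2 ⟨bot9_ev0, bot9_ev1⟩
  eL := Bool.forall_bool.2 ⟨bot9_eL0, bot9_eL1⟩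
  eL' := ⟨.inr rfl, .inr rfl⟩
  eH := Bool.forall_bool.2 ⟨bot9_eH0, bot9_eH1⟩
  eH' := ⟨.inr rfl, .inr rfl⟩
  pL := Bool.forall_bool.2 ⟨bot9_pL0, bot9_pL1⟩
  pL' := ⟨.inr rfl, .inr rfl⟩
  pU := Bool.forall_bool.2 ⟨bot9_pU0, bot9_pU1⟩
  pU' := ⟨.inr rfl, .inr rfl⟩
  kU := Bool.forall_bool.2 ⟨bot9_kU0, bot9_kU1⟩
  kU' := ⟨.inr rfl, .inr rfl⟩
  kL := Bool.forall_bool.2 ⟨bot9_kL0, bot9_kL1⟩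
  kL' := ⟨.inr rfl, .inr rfl⟩
  wU := Bool.forall_bool.2 ⟨bot9_wU0, bot9_wU1⟩
  wU' := ⟨.inr rfl, .inr rfl⟩
  wL := Bool.forall_bool.2 ⟨bot9_wL0, bot9_wL1⟩
  wL' := ⟨.inr rfl, .inr rfl⟩

end Vale.Agent.P100.Calib.Closed.High
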