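import Vale.Agent.P100.Calib.SlabHighBotData

/-!
# Checks shared by the pieces of the tail at `d ≤ 1/20`
-/

namespace Vale.Agent.P100.Calib.Closed.High

open BoxPos Large

local instance highBotGlobalAdd : Add Ex := ⟨Ex.add⟩
local instance highBotGlobalSub : Sub Ex := ⟨Ex.sub⟩
local instance highBotGlobalMul : Mul Ex := ⟨Ex.mul⟩

theorem botLlgLo : PosBox ⟨⟨600, 1000, 1000⟩, ⟨600, 601, 1000⟩, ⟨0, 501, 10000⟩, ⟨35, 345, 100⟩⟩ (hLLGlo) :=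
  posBox_of_check (c := ⟨229, ⟨2, 7, 8, 5⟩⟩) (by decide +kernel)

theorem botLlgHi : PosBox ⟨⟨600, 1000, 1000⟩, ⟨600, 601, 1000⟩, ⟨0, 501, 10000⟩, ⟨35, 345, 100⟩⟩ (hLLGhi) :=
  posBox_of_check (c := ⟨197, ⟨2, 5, 8, 4⟩⟩) (by decide +kernel)

theorem botTn_pos : PosBox ⟨⟨600, 1000, 1000⟩, ⟨600, 601, 1000⟩, ⟨0, 501, 10000⟩, ⟨35, 345, 100⟩⟩ (botTn xO) :=
  posBox_of_check (c := ⟨89, ⟨2, 0, 2, 0⟩⟩) (by decide +kernel)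

theorem botTd_pos : PosBox ⟨⟨600, 1000, 1000⟩, ⟨600, 601, 1000⟩, ⟨0, 501, 10000⟩, ⟨35, 345, 100⟩⟩ (botTd xO) :=
  posBox_of_check (c := ⟨73, ⟨2, 0, 2, 0⟩⟩) (by decide +kernel)

theorem botPhi_A : PosBox ⟨⟨0, 1, 1⟩, ⟨600, 601, 1000⟩, ⟨0, 250, 10000⟩, ⟨35, 345, 100⟩⟩ (botPhi (cC 4 5) (cC 169 100)) :=
  posBox_of_check (c := ⟨116, ⟨0, 0, 4, 0⟩⟩) (by decide +kernel)

theorem botPhi_B : PosBox ⟨⟨0, 1, 1⟩, ⟨600, 601, 1000⟩, ⟨250, 501, 10000⟩, ⟨35, 345, 100⟩⟩ (botPhi (cC 4 5) (cC 8 5)) :=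
  posBox_of_check (c := ⟨117, ⟨0, 0, 4, 0⟩⟩) (by decide +kernel)

theorem botPhi_hiA : PosBox ⟨⟨0, 1, 1⟩, ⟨600, 601, 1000⟩, ⟨180, 501, 10000⟩, ⟨35, 345, 100⟩⟩ (botPhi (cC 39 40) (cC 69 20)) :=
  posBox_of_check (c := ⟨117, ⟨0, 0, 4, 0⟩⟩) (by decide +kernel)

theorem botPhi_hiB : PosBox ⟨⟨0, 1, 1⟩, ⟨600, 601, 1000⟩, ⟨180, 501, 10000⟩, ⟨35, 345, 100⟩⟩ (botPhi (cC 1 - cC 67 100 * xD) (cC 69 20)) :=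
  posBox_of_check (c := ⟨122, ⟨0, 0, 5, 0⟩⟩) (by decide +kernel)

end Vale.Agent.P100.Calib.Closed.High
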