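import Vale.Agent.P100.Calib.SlabHighBotData

/-!
# Checks of the signs of a piece of the tail
-/

set_option linter.defProp false

namespace Vale.Agent.P100.Calib.Closed.High

open BoxPos Large

def bot1_vG : PosBox ⟨⟨0, 1, 1⟩, ⟨600, 601, 1000⟩, ⟨0, 501, 10000⟩, ⟨4000, 9000, 10000⟩⟩ (hVG) :=
  posBox_of_check (c := ⟨178, ⟨0, 5, 8, 3⟩⟩) (by decide +kernel)

def bot1_vMG : PosBox ⟨⟨0, 1, 1⟩, ⟨600, 601, 1000⟩, ⟨0, 501, 10000⟩, ⟨4000, 9000, 10000⟩⟩ (hVMG) :=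
  posBox_of_check (c := ⟨191, ⟨0, 4, 8, 4⟩⟩) (by decide +kernel)

def bot1_ak : PosBox ⟨⟨0, 1, 1⟩, ⟨600, 601, 1000⟩, ⟨0, 501, 10000⟩, ⟨4000, 9000, 10000⟩⟩ (hAk) :=
  posBox_of_check (c := ⟨171, ⟨0, 4, 6, 4⟩⟩) (by decide +kernel)

def bot1_aw : PosBox ⟨⟨0, 1, 1⟩, ⟨600, 601, 1000⟩, ⟨0, 501, 10000⟩, ⟨4000, 9000, 10000⟩⟩ (hAw) :=
  posBox_of_check (c := ⟨168, ⟨0, 5, 7, 3⟩⟩) (by decide +kernel)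

def bot1_gk : PosBox ⟨⟨0, 1, 1⟩, ⟨600, 601, 1000⟩, ⟨0, 501, 10000⟩, ⟨4000, 9000, 10000⟩⟩ (hGk) :=
  posBox_of_check (c := ⟨171, ⟨0, 4, 6, 4⟩⟩) (by decide +kernel)

def bot1_gw : PosBox ⟨⟨0, 1, 1⟩, ⟨600, 601, 1000⟩, ⟨0, 501, 10000⟩, ⟨4000, 9000, 10000⟩⟩ (hGw) :=
  posBox_of_check (c := ⟨168, ⟨0, 5, 7, 3⟩⟩) (by decide +kernel)

def bot1_ek : PosBox ⟨⟨0, 1, 1⟩, ⟨600, 601, 1000⟩, ⟨0, 501, 10000⟩, ⟨4000, 9000, 10000⟩⟩ (hMk) :=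
  posBox_of_check (c := ⟨102, ⟨0, 2, 3, 3⟩⟩) (by decide +kernel)

def bot1_ew : PosBox ⟨⟨0, 1, 1⟩, ⟨600, 601, 1000⟩, ⟨0, 501, 10000⟩, ⟨4000, 9000, 10000⟩⟩ (hMw) :=
  posBox_of_check (c := ⟨99, ⟨0, 3, 4, 2⟩⟩) (by decide +kernel)

def bot1_pp : PosBox ⟨⟨0, 1, 1⟩, ⟨600, 601, 1000⟩, ⟨0, 501, 10000⟩, ⟨4000, 9000, 10000⟩⟩ (bot1.xPL) :=
  posBox_of_check (c := ⟨80, ⟨1, 1, 2, 2⟩⟩) (by decide +kernel)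

def bot1_k2p : PosBox ⟨⟨0, 1, 1⟩, ⟨600, 601, 1000⟩, ⟨0, 501, 10000⟩, ⟨4000, 9000, 10000⟩⟩ (bot1.k2p bot1.xE) :=
  posBox_of_check (c := ⟨69, ⟨1, 1, 1, 2⟩⟩) (by decide +kernel)

def bot1_k2m : PosBox ⟨⟨0, 1, 1⟩, ⟨600, 601, 1000⟩, ⟨0, 501, 10000⟩, ⟨4000, 9000, 10000⟩⟩ (bot1.k2m bot1.xE) :=
  posBox_of_check (c := ⟨62, ⟨1, 1, 1, 2⟩⟩) (by decide +kernel)

def bot1_v2p : PosBox ⟨⟨0, 1, 1⟩, ⟨600, 601, 1000⟩, ⟨0, 501, 10000⟩, ⟨4000, 9000, 10000⟩⟩ (bot1.hV2p) :=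
  posBox_of_check (c := ⟨245, ⟨1, 6, 10, 5⟩⟩) (by decide +kernel)

def bot1_v2m : PosBox ⟨⟨0, 1, 1⟩, ⟨600, 601, 1000⟩, ⟨0, 501, 10000⟩, ⟨4000, 9000, 10000⟩⟩ (bot1.hV2m) :=
  posBox_of_check (c := ⟨238, ⟨1, 6, 10, 5⟩⟩) (by decide +kernel)

def bot1_v3p : PosBox ⟨⟨0, 1, 1⟩, ⟨600, 601, 1000⟩, ⟨0, 501, 10000⟩, ⟨4000, 9000, 10000⟩⟩ (bot1.hV3p) :=
  posBox_of_check (c := ⟨212, ⟨1, 6, 9, 4⟩⟩) (by decide +kernel)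

def bot1_v3m : PosBox ⟨⟨0, 1, 1⟩, ⟨600, 601, 1000⟩, ⟨0, 501, 10000⟩, ⟨4000, 9000, 10000⟩⟩ (bot1.hV3m) :=
  posBox_of_check (c := ⟨210, ⟨1, 6, 9, 4⟩⟩) (by decide +kernel)

def bot1_kap0 : PosBox ⟨⟨0, 1, 1⟩, ⟨600, 601, 1000⟩, ⟨0, 501, 10000⟩, ⟨4000, 9000, 10000⟩⟩ (bot1.kap false) :=
  posBox_of_check (c := ⟨64, ⟨1, 1, 1, 2⟩⟩) (by decide +kernel)

def bot1_tg0 : PosBox ⟨⟨0, 1, 1⟩, ⟨600, 601, 1000⟩, ⟨0, 501, 10000⟩, ⟨4000, 9000, 10000⟩⟩ (bot1.hG (bot1.pEnd false)) :=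
  posBox_of_check (c := ⟨330, ⟨2, 7, 12, 7⟩⟩) (by decide +kernel)

def bot1_c2p0 : PosBox ⟨⟨0, 1, 1⟩, ⟨600, 601, 1000⟩, ⟨0, 501, 10000⟩, ⟨4000, 9000, 10000⟩⟩ (bot1.hC2p (bot1.pEnd false)) :=
  posBox_of_check (c := ⟨397, ⟨3, 8, 14, 9⟩⟩) (by decide +kernel)

def bot1_c2m0 : PosBox ⟨⟨0, 1, 1⟩, ⟨600, 601, 1000⟩, ⟨0, 501, 10000⟩, ⟨4000, 9000, 10000⟩⟩ (bot1.hC2m (bot1.pEnd false)) :=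
  posBox_of_check (c := ⟨391, ⟨3, 8, 14, 9⟩⟩) (by decide +kernel)

def bot1_c10_0 : PosBox ⟨⟨0, 1, 2⟩, ⟨600, 601, 1000⟩, ⟨0, 501, 10000⟩, ⟨4000, 9000, 10000⟩⟩ (bot1.hC1 false) :=
  posBox_of_check (c := ⟨236, ⟨3, 5, 8, 6⟩⟩) (by decide +kernel)

def bot1_c10_1 : PosBox ⟨⟨1, 2, 2⟩, ⟨600, 601, 1000⟩, ⟨0, 501, 10000⟩, ⟨4000, 9000, 10000⟩⟩ (bot1.hC1 false) :=
  posBox_of_check (c := ⟨237, ⟨3, 5, 8, 6⟩⟩) (by decide +kernel)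

def bot1_c10 : PosBox ⟨⟨0, 1, 1⟩, ⟨600, 601, 1000⟩, ⟨0, 501, 10000⟩, ⟨4000, 9000, 10000⟩⟩ (bot1.hC1 false) :=
  posBox_units (b := ⟨⟨0, 2, 2⟩, ⟨600, 601, 1000⟩, ⟨0, 501, 10000⟩, ⟨4000, 9000, 10000⟩⟩) (by decide +kernel) (posBox_join₀ bot1_c10_0 bot1_c10_1)

def bot1_c3p0 : PosBox ⟨⟨0, 1, 1⟩, ⟨600, 601, 1000⟩, ⟨0, 501, 10000⟩, ⟨4000, 9000, 10000⟩⟩ (bot1.hC3p false) :=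
  posBox_of_check (c := ⟨369, ⟨3, 8, 13, 8⟩⟩) (by decide +kernel)

def bot1_c3m0 : PosBox ⟨⟨0, 1, 1⟩, ⟨600, 601, 1000⟩, ⟨0, 501, 10000⟩, ⟨4000, 9000, 10000⟩⟩ (bot1.hC3m false) :=
  posBox_of_check (c := ⟨368, ⟨3, 8, 13, 8⟩⟩) (by decide +kernel)

def bot1_tmg0 : PosBox ⟨⟨0, 1, 1⟩, ⟨600, 601, 1000⟩, ⟨0, 501, 10000⟩, ⟨4000, 9000, 10000⟩⟩ (bot1.hTMG (bot1.pEnd false)) :=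
  posBox_of_check (c := ⟨350, ⟨2, 7, 12, 8⟩⟩) (by decide +kernel)

def bot1_neg0 : PosBox ⟨⟨0, 1, 1⟩, ⟨600, 601, 1000⟩, ⟨0, 501, 10000⟩, ⟨4000, 9000, 10000⟩⟩ (bot1.hNeg (bot1.pEnd false)) :=
  posBox_of_check (c := ⟨232, ⟨2, 5, 8, 6⟩⟩) (by decide +kernel)

def bot1_neglo0 : PosBox ⟨⟨0, 1, 1⟩, ⟨600, 601, 1000⟩, ⟨0, 501, 10000⟩, ⟨4000, 9000, 10000⟩⟩ (bot1.hNegLo (bot1.pEnd false)) :=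
  posBox_of_check (c := ⟨232, ⟨2, 5, 8, 6⟩⟩) (by decide +kernel)

def bot1_kap1 : PosBox ⟨⟨0, 1, 1⟩, ⟨600, 601, 1000⟩, ⟨0, 501, 10000⟩, ⟨4000, 9000, 10000⟩⟩ (bot1.kap true) :=
  posBox_of_check (c := ⟨70, ⟨1, 1, 1, 2⟩⟩) (by decide +kernel)

def bot1_tg1 : PosBox ⟨⟨0, 1, 1⟩, ⟨600, 601, 1000⟩, ⟨0, 501, 10000⟩, ⟨4000, 9000, 10000⟩⟩ (bot1.hG (bot1.pEnd true)) :=
  posBox_of_check (c := ⟨339, ⟨2, 7, 12, 9⟩⟩) (by decide +kernel)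

def bot1_c2p1 : PosBox ⟨⟨0, 1, 1⟩, ⟨600, 601, 1000⟩, ⟨0, 501, 10000⟩, ⟨4000, 9000, 10000⟩⟩ (bot1.hC2p (bot1.pEnd true)) :=
  posBox_of_check (c := ⟨406, ⟨3, 8, 14, 11⟩⟩) (by decide +kernel)

def bot1_c2m1 : PosBox ⟨⟨0, 1, 1⟩, ⟨600, 601, 1000⟩, ⟨0, 501, 10000⟩, ⟨4000, 9000, 10000⟩⟩ (bot1.hC2m (bot1.pEnd true)) :=
  posBox_of_check (c := ⟨399, ⟨3, 8, 14, 11⟩⟩) (by decide +kernel)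

def bot1_c11_0 : PosBox ⟨⟨0, 1, 2⟩, ⟨600, 601, 1000⟩, ⟨0, 501, 10000⟩, ⟨4000, 9000, 10000⟩⟩ (bot1.hC1 true) :=
  posBox_of_check (c := ⟨241, ⟨3, 5, 8, 7⟩⟩) (by decide +kernel)

def bot1_c11_1 : PosBox ⟨⟨1, 2, 2⟩, ⟨600, 601, 1000⟩, ⟨0, 501, 10000⟩, ⟨4000, 9000, 10000⟩⟩ (bot1.hC1 true) :=
  posBox_of_check (c := ⟨242, ⟨3, 5, 8, 7⟩⟩) (by decide +kernel)

def bot1_c11 : PosBox ⟨⟨0, 1, 1⟩, ⟨600, 601, 1000⟩, ⟨0, 501, 10000⟩, ⟨4000, 9000, 10000⟩⟩ (bot1.hC1 true) :=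
  posBox_units (b := ⟨⟨0, 2, 2⟩, ⟨600, 601, 1000⟩, ⟨0, 501, 10000⟩, ⟨4000, 9000, 10000⟩⟩) (by decide +kernel) (posBox_join₀ bot1_c11_0 bot1_c11_1)

def bot1_c3p1 : PosBox ⟨⟨0, 1, 1⟩, ⟨600, 601, 1000⟩, ⟨0, 501, 10000⟩, ⟨4000, 9000, 10000⟩⟩ (bot1.hC3p true) :=
  posBox_of_check (c := ⟨377, ⟨3, 8, 13, 10⟩⟩) (by decide +kernel)

def bot1_c3m1 : PosBox ⟨⟨0, 1, 1⟩, ⟨600, 601, 1000⟩, ⟨0, 501, 10000⟩, ⟨4000, 9000, 10000⟩⟩ (bot1.hC3m true) :=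
  posBox_of_check (c := ⟨376, ⟨3, 8, 13, 10⟩⟩) (by decide +kernel)

def bot1_tmg1 : PosBox ⟨⟨0, 1, 1⟩, ⟨600, 601, 1000⟩, ⟨0, 501, 10000⟩, ⟨4000, 9000, 10000⟩⟩ (bot1.hTMG (bot1.pEnd true)) :=
  posBox_of_check (c := ⟨356, ⟨2, 7, 12, 10⟩⟩) (by decide +kernel)

def bot1_neg1 : PosBox ⟨⟨0, 1, 1⟩, ⟨600, 601, 1000⟩, ⟨0, 501, 10000⟩, ⟨4000, 9000, 10000⟩⟩ (bot1.hNeg (bot1.pEnd true)) :=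
  posBox_of_check (c := ⟨236, ⟨2, 5, 8, 7⟩⟩) (by decide +kernel)

def bot1_neglo1 : PosBox ⟨⟨0, 1, 1⟩, ⟨600, 601, 1000⟩, ⟨0, 501, 10000⟩, ⟨4000, 9000, 10000⟩⟩ (bot1.hNegLo (bot1.pEnd true)) :=
  posBox_of_check (c := ⟨236, ⟨2, 5, 8, 7⟩⟩) (by decide +kernel)

/-- The checks on the signs. -/
theorem bot1_sign : bot1.Sign ⟨⟨0, 1, 1⟩, ⟨600, 601, 1000⟩, ⟨0, 501, 10000⟩, ⟨4000, 9000, 10000⟩⟩ where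
  pp := bot1_pp
  k2p := bot1_k2p
  k2m := bot1_k2m
  v2p := bot1_v2p
  v2m := bot1_v2m
  v3p := bot1_v3p
  v3m := bot1_v3m
  tg := Bool.forall_bool.2 ⟨bot1_tg0, bot1_tg1⟩
  c2p := Bool.forall_bool.2 ⟨bot1_c2p0, bot1_c2p1⟩
  c2m := Bool.forall_bool.2 ⟨bot1_c2m0, bot1_c2m1⟩
  kap := Bool.forall_bool.2 ⟨bot1_kap0, bot1_kap1⟩
  c1 := Bool.forall_bool.2 ⟨bot1_c10, bot1_c11⟩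
  c3p := Bool.forall_bool.2 ⟨bot1_c3p0, bot1_c3p1⟩
  c3m := Bool.forall_bool.2 ⟨bot1_c3m0, bot1_c3m1⟩
  tmg := Bool.forall_bool.2 ⟨bot1_tmg0, bot1_tmg1⟩
  high := .inl (Bool.forall_bool.2 ⟨⟨bot1_neg0, bot1_neglo0⟩, ⟨bot1_neg1, bot1_neglo1⟩⟩)
  vG := bot1_vG
  vMG := bot1_vMG
  ak := bot1_ak
  aw := bot1_aw
  gk := bot1_gk
  gw := bot1_gw
  ek := bot1_ek
  ew := bot1_ew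

end Vale.Agent.P100.Calib.Closed.High
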