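import Vale.Agent.P100.Calib.SlabHighBotData

/-!
# Checks of the signs of a piece of the tail
-/

set_option linter.defProp false

namespace Vale.Agent.P100.Calib.Closed.High

open BoxPos Large

def bot15_vG : PosBox ⟨⟨0, 1, 1⟩, ⟨600, 601, 1000⟩, ⟨400, 501, 10000⟩, ⟨12200, 13000, 10000⟩⟩ (hVG) :=
  posBox_of_check (c := ⟨178, ⟨0, 5, 8, 3⟩⟩) (by decide +kernel)

def bot15_vMG : PosBox ⟨⟨0, 1, 1⟩, ⟨600, 601, 1000⟩, ⟨400, 501, 10000⟩, ⟨12200, 13000, 10000⟩⟩ (hVMG) :=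
  posBox_of_check (c := ⟨191, ⟨0, 4, 8, 4⟩⟩) (by decide +kernel)

def bot15_ak : PosBox ⟨⟨0, 1, 1⟩, ⟨600, 601, 1000⟩, ⟨400, 501, 10000⟩, ⟨12200, 13000, 10000⟩⟩ (hAk) :=
  posBox_of_check (c := ⟨174, ⟨0, 4, 6, 4⟩⟩) (by decide +kernel)

def bot15_aw : PosBox ⟨⟨0, 1, 1⟩, ⟨600, 601, 1000⟩, ⟨400, 501, 10000⟩, ⟨12200, 13000, 10000⟩⟩ (hAw) :=
  posBox_of_check (c := ⟨170, ⟨0, 5, 7, 3⟩⟩) (by decide +kernel)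

def bot15_gk : PosBox ⟨⟨0, 1, 1⟩, ⟨600, 601, 1000⟩, ⟨400, 501, 10000⟩, ⟨12200, 13000, 10000⟩⟩ (hGk) :=
  posBox_of_check (c := ⟨174, ⟨0, 4, 6, 4⟩⟩) (by decide +kernel)

def bot15_gw : PosBox ⟨⟨0, 1, 1⟩, ⟨600, 601, 1000⟩, ⟨400, 501, 10000⟩, ⟨12200, 13000, 10000⟩⟩ (hGw) :=
  posBox_of_check (c := ⟨170, ⟨0, 5, 7, 3⟩⟩) (by decide +kernel)

def bot15_ek : PosBox ⟨⟨0, 1, 1⟩, ⟨600, 601, 1000⟩, ⟨400, 501, 10000⟩, ⟨12200, 13000, 10000⟩⟩ (hMk) :=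
  posBox_of_check (c := ⟨104, ⟨0, 2, 3, 3⟩⟩) (by decide +kernel)

def bot15_ew : PosBox ⟨⟨0, 1, 1⟩, ⟨600, 601, 1000⟩, ⟨400, 501, 10000⟩, ⟨12200, 13000, 10000⟩⟩ (hMw) :=
  posBox_of_check (c := ⟨100, ⟨0, 3, 4, 2⟩⟩) (by decide +kernel)

def bot15_pp : PosBox ⟨⟨0, 1, 1⟩, ⟨600, 601, 1000⟩, ⟨400, 501, 10000⟩, ⟨12200, 13000, 10000⟩⟩ (bot15.xPL) :=
  posBox_of_check (c := ⟨85, ⟨1, 1, 2, 3⟩⟩) (by decide +kernel)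

def bot15_k2p : PosBox ⟨⟨0, 1, 1⟩, ⟨600, 601, 1000⟩, ⟨400, 501, 10000⟩, ⟨12200, 13000, 10000⟩⟩ (bot15.k2p bot15.xE) :=
  posBox_of_check (c := ⟨68, ⟨1, 1, 1, 2⟩⟩) (by decide +kernel)

def bot15_k2m : PosBox ⟨⟨0, 1, 1⟩, ⟨600, 601, 1000⟩, ⟨400, 501, 10000⟩, ⟨12200, 13000, 10000⟩⟩ (bot15.k2m bot15.xE) :=
  posBox_of_check (c := ⟨28, ⟨0, 0, 1, 1⟩⟩) (by decide +kernel)

def bot15_v2p : PosBox ⟨⟨0, 1, 1⟩, ⟨600, 601, 1000⟩, ⟨400, 501, 10000⟩, ⟨12200, 13000, 10000⟩⟩ (bot15.hV2p) :=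
  posBox_of_check (c := ⟨245, ⟨1, 6, 10, 5⟩⟩) (by decide +kernel)

def bot15_v2m : PosBox ⟨⟨0, 1, 1⟩, ⟨600, 601, 1000⟩, ⟨400, 501, 10000⟩, ⟨12200, 13000, 10000⟩⟩ (bot15.hV2m) :=
  posBox_of_check (c := ⟨235, ⟨0, 5, 10, 5⟩⟩) (by decide +kernel)

def bot15_v3p : PosBox ⟨⟨0, 1, 1⟩, ⟨600, 601, 1000⟩, ⟨400, 501, 10000⟩, ⟨12200, 13000, 10000⟩⟩ (bot15.hV3p) :=
  posBox_of_check (c := ⟨213, ⟨1, 6, 9, 4⟩⟩) (by decide +kernel)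

def bot15_v3m : PosBox ⟨⟨0, 1, 1⟩, ⟨600, 601, 1000⟩, ⟨400, 501, 10000⟩, ⟨12200, 13000, 10000⟩⟩ (bot15.hV3m) :=
  posBox_of_check (c := ⟨208, ⟨0, 5, 9, 4⟩⟩) (by decide +kernel)

def bot15_kap0 : PosBox ⟨⟨0, 1, 1⟩, ⟨600, 601, 1000⟩, ⟨400, 501, 10000⟩, ⟨12200, 13000, 10000⟩⟩ (bot15.kap false) :=
  posBox_of_check (c := ⟨71, ⟨1, 1, 1, 2⟩⟩) (by decide +kernel)

def bot15_tg0 : PosBox ⟨⟨0, 1, 1⟩, ⟨600, 601, 1000⟩, ⟨400, 501, 10000⟩, ⟨12200, 13000, 10000⟩⟩ (bot15.hG (bot15.pEnd false)) :=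
  posBox_of_check (c := ⟨339, ⟨2, 7, 12, 9⟩⟩) (by decide +kernel)

def bot15_c2p0 : PosBox ⟨⟨0, 1, 1⟩, ⟨600, 601, 1000⟩, ⟨400, 501, 10000⟩, ⟨12200, 13000, 10000⟩⟩ (bot15.hC2p (bot15.pEnd false)) :=
  posBox_of_check (c := ⟨406, ⟨3, 8, 14, 11⟩⟩) (by decide +kernel)

def bot15_c2m0 : PosBox ⟨⟨0, 1, 1⟩, ⟨600, 601, 1000⟩, ⟨400, 501, 10000⟩, ⟨12200, 13000, 10000⟩⟩ (bot15.hC2m (bot15.pEnd false)) :=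
  posBox_of_check (c := ⟨398, ⟨2, 7, 14, 11⟩⟩) (by decide +kernel)

def bot15_c10 : PosBox ⟨⟨0, 1, 1⟩, ⟨600, 601, 1000⟩, ⟨400, 501, 10000⟩, ⟨12200, 13000, 10000⟩⟩ (bot15.hC1 false) :=
  posBox_of_check (c := ⟨242, ⟨3, 5, 8, 7⟩⟩) (by decide +kernel)

def bot15_c3p0 : PosBox ⟨⟨0, 1, 1⟩, ⟨600, 601, 1000⟩, ⟨400, 501, 10000⟩, ⟨12200, 13000, 10000⟩⟩ (bot15.hC3p false) :=
  posBox_of_check (c := ⟨379, ⟨3, 8, 13, 10⟩⟩) (by decide +kernel)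

def bot15_c3m0 : PosBox ⟨⟨0, 1, 1⟩, ⟨600, 601, 1000⟩, ⟨400, 501, 10000⟩, ⟨12200, 13000, 10000⟩⟩ (bot15.hC3m false) :=
  posBox_of_check (c := ⟨377, ⟨3, 7, 13, 10⟩⟩) (by decide +kernel)

def bot15_tmg0 : PosBox ⟨⟨0, 1, 1⟩, ⟨600, 601, 1000⟩, ⟨400, 501, 10000⟩, ⟨12200, 13000, 10000⟩⟩ (bot15.hTMG (bot15.pEnd false)) :=
  posBox_of_check (c := ⟨358, ⟨2, 7, 12, 10⟩⟩) (by decide +kernel)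

def bot15_neg0 : PosBox ⟨⟨0, 1, 1⟩, ⟨600, 601, 1000⟩, ⟨400, 501, 10000⟩, ⟨12200, 13000, 10000⟩⟩ (bot15.hNeg (bot15.pEnd false)) :=
  posBox_of_check (c := ⟨237, ⟨2, 5, 8, 7⟩⟩) (by decide +kernel)

def bot15_neglo0 : PosBox ⟨⟨0, 1, 1⟩, ⟨600, 601, 1000⟩, ⟨400, 501, 10000⟩, ⟨12200, 13000, 10000⟩⟩ (bot15.hNegLo (bot15.pEnd false)) :=
  posBox_of_check (c := ⟨237, ⟨2, 5, 8, 7⟩⟩) (by decide +kernel)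

def bot15_kap1 : PosBox ⟨⟨0, 1, 1⟩, ⟨600, 601, 1000⟩, ⟨400, 501, 10000⟩, ⟨12200, 13000, 10000⟩⟩ (bot15.kap true) :=
  posBox_of_check (c := ⟨69, ⟨1, 1, 1, 2⟩⟩) (by decide +kernel)

def bot15_tg1 : PosBox ⟨⟨0, 1, 1⟩, ⟨600, 601, 1000⟩, ⟨400, 501, 10000⟩, ⟨12200, 13000, 10000⟩⟩ (bot15.hG (bot15.pEnd true)) :=
  posBox_of_check (c := ⟨342, ⟨2, 7, 12, 9⟩⟩) (by decide +kernel)

def bot15_c2p1 : PosBox ⟨⟨0, 1, 1⟩, ⟨600, 601, 1000⟩, ⟨400, 501, 10000⟩, ⟨12200, 13000, 10000⟩⟩ (bot15.hC2p (bot15.pEnd true)) :=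
  posBox_of_check (c := ⟨409, ⟨3, 8, 14, 11⟩⟩) (by decide +kernel)

def bot15_c2m1 : PosBox ⟨⟨0, 1, 1⟩, ⟨600, 601, 1000⟩, ⟨400, 501, 10000⟩, ⟨12200, 13000, 10000⟩⟩ (bot15.hC2m (bot15.pEnd true)) :=
  posBox_of_check (c := ⟨400, ⟨2, 7, 14, 11⟩⟩) (by decide +kernel)

def bot15_c11 : PosBox ⟨⟨0, 1, 1⟩, ⟨600, 601, 1000⟩, ⟨400, 501, 10000⟩, ⟨12200, 13000, 10000⟩⟩ (bot15.hC1 true) :=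
  posBox_of_check (c := ⟨243, ⟨3, 5, 8, 7⟩⟩) (by decide +kernel)

def bot15_c3p1 : PosBox ⟨⟨0, 1, 1⟩, ⟨600, 601, 1000⟩, ⟨400, 501, 10000⟩, ⟨12200, 13000, 10000⟩⟩ (bot15.hC3p true) :=
  posBox_of_check (c := ⟨380, ⟨3, 8, 13, 10⟩⟩) (by decide +kernel)

def bot15_c3m1 : PosBox ⟨⟨0, 1, 1⟩, ⟨600, 601, 1000⟩, ⟨400, 501, 10000⟩, ⟨12200, 13000, 10000⟩⟩ (bot15.hC3m true) :=
  posBox_of_check (c := ⟨378, ⟨3, 7, 13, 10⟩⟩) (by decide +kernel)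

def bot15_tmg1 : PosBox ⟨⟨0, 1, 1⟩, ⟨600, 601, 1000⟩, ⟨400, 501, 10000⟩, ⟨12200, 13000, 10000⟩⟩ (bot15.hTMG (bot15.pEnd true)) :=
  posBox_of_check (c := ⟨359, ⟨2, 7, 12, 10⟩⟩) (by decide +kernel)

def bot15_neg1 : PosBox ⟨⟨0, 1, 1⟩, ⟨600, 601, 1000⟩, ⟨400, 501, 10000⟩, ⟨12200, 13000, 10000⟩⟩ (bot15.hNeg (bot15.pEnd true)) :=
  posBox_of_check (c := ⟨239, ⟨2, 5, 8, 7⟩⟩) (by decide +kernel)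

def bot15_neglo1 : PosBox ⟨⟨0, 1, 1⟩, ⟨600, 601, 1000⟩, ⟨400, 501, 10000⟩, ⟨12200, 13000, 10000⟩⟩ (bot15.hNegLo (bot15.pEnd true)) :=
  posBox_of_check (c := ⟨239, ⟨2, 5, 8, 7⟩⟩) (by decide +kernel)

/-- The checks on the signs. -/
theorem bot15_sign : bot15.Sign ⟨⟨0, 1, 1⟩, ⟨600, 601, 1000⟩, ⟨400, 501, 10000⟩, ⟨12200, 13000, 10000⟩⟩ where
  pp := bot15_pp
  k2p := bot15_k2p
  k2m := bot15_k2m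
  v2p := bot15_v2p
  v2m := bot15_v2m
  v3p := bot15_v3p
  v3m := bot15_v3m
  tg := Bool.forall_bool.2 ⟨bot15_tg0, bot15_tg1⟩
  c2p := Bool.forall_bool.2 ⟨bot15_c2p0, bot15_c2p1⟩
  c2m := Bool.forall_bool.2 ⟨bot15_c2m0, bot15_c2m1⟩
  kap := Bool.forall_bool.2 ⟨bot15_kap0, bot15_kap1⟩
  c1 := Bool.forall_bool.2 ⟨bot15_c10, bot15_c11⟩
  c3p := Bool.forall_bool.2 ⟨bot15_c3p0, bot15_c3p1⟩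
  c3m := Bool.forall_bool.2 ⟨bot15_c3m0, bot15_c3m1⟩
  tmg := Bool.forall_bool.2 ⟨bot15_tmg0, bot15_tmg1⟩
  high := .inl (Bool.forall_bool.2 ⟨⟨bot15_neg0, bot15_neglo0⟩, ⟨bot15_neg1, bot15_neglo1⟩⟩)
  vG := bot15_vG
  vMG := bot15_vMG
  ak := bot15_ak
  aw := bot15_aw
  gk := bot15_gk
  gw := bot15_gw
  ek := bot15_ek
  ew := bot15_ew

end Vale.Agent.P100.Calib.Closed.High
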