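import Vale.Agent.P100.Calib.SlabHighBotData

/-!
# Checks of the signs of a piece of the tail
-/

set_option linter.defProp false

namespace Vale.Agent.P100.Calib.Closed.High

open BoxPos Large

def bot2_vG : PosBox ⟨⟨0, 1, 1⟩, ⟨600, 601, 1000⟩, ⟨0, 501, 10000⟩, ⟨9000, 10400, 10000⟩⟩ (hVG) :=
  posBox_of_check (c := ⟨178, ⟨0, 5, 8, 3⟩⟩) (by decide +kernel)

def bot2_vMG : PosBox ⟨⟨0, 1, 1⟩, ⟨600, 601, 1000⟩, ⟨0, 501, 10000⟩, ⟨9000, 10400, 10000⟩⟩ (hVMG) :=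
  posBox_of_check (c := ⟨191, ⟨0, 4, 8, 4⟩⟩) (by decide +kernel)

def bot2_ak : PosBox ⟨⟨0, 1, 1⟩, ⟨600, 601, 1000⟩, ⟨0, 501, 10000⟩, ⟨9000, 10400, 10000⟩⟩ (hAk) :=
  posBox_of_check (c := ⟨172, ⟨0, 4, 6, 4⟩⟩) (by decide +kernel)

def bot2_aw : PosBox ⟨⟨0, 1, 1⟩, ⟨600, 601, 1000⟩, ⟨0, 501, 10000⟩, ⟨9000, 10400, 10000⟩⟩ (hAw) :=
  posBox_of_check (c := ⟨169, ⟨0, 5, 7, 3⟩⟩) (by decide +kernel)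

def bot2_gk : PosBox ⟨⟨0, 1, 1⟩, ⟨600, 601, 1000⟩, ⟨0, 501, 10000⟩, ⟨9000, 10400, 10000⟩⟩ (hGk) :=
  posBox_of_check (c := ⟨172, ⟨0, 4, 6, 4⟩⟩) (by decide +kernel)

def bot2_gw : PosBox ⟨⟨0, 1, 1⟩, ⟨600, 601, 1000⟩, ⟨0, 501, 10000⟩, ⟨9000, 10400, 10000⟩⟩ (hGw) :=
  posBox_of_check (c := ⟨169, ⟨0, 5, 7, 3⟩⟩) (by decide +kernel)

def bot2_ek : PosBox ⟨⟨0, 1, 1⟩, ⟨600, 601, 1000⟩, ⟨0, 501, 10000⟩, ⟨9000, 10400, 10000⟩⟩ (hMk) :=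
  posBox_of_check (c := ⟨103, ⟨0, 2, 3, 3⟩⟩) (by decide +kernel)

def bot2_ew : PosBox ⟨⟨0, 1, 1⟩, ⟨600, 601, 1000⟩, ⟨0, 501, 10000⟩, ⟨9000, 10400, 10000⟩⟩ (hMw) :=
  posBox_of_check (c := ⟨99, ⟨0, 3, 4, 2⟩⟩) (by decide +kernel)

def bot2_pp : PosBox ⟨⟨0, 1, 1⟩, ⟨600, 601, 1000⟩, ⟨0, 501, 10000⟩, ⟨9000, 10400, 10000⟩⟩ (bot2.xPL) :=
  posBox_of_check (c := ⟨76, ⟨1, 1, 2, 2⟩⟩) (by decide +kernel)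

def bot2_k2p : PosBox ⟨⟨0, 1, 1⟩, ⟨600, 601, 1000⟩, ⟨0, 501, 10000⟩, ⟨9000, 10400, 10000⟩⟩ (bot2.k2p bot2.xE) :=
  posBox_of_check (c := ⟨27, ⟨0, 0, 1, 0⟩⟩) (by decide +kernel)

def bot2_k2m : PosBox ⟨⟨0, 1, 1⟩, ⟨600, 601, 1000⟩, ⟨0, 501, 10000⟩, ⟨9000, 10400, 10000⟩⟩ (bot2.k2m bot2.xE) :=
  posBox_of_check (c := ⟨28, ⟨0, 0, 1, 0⟩⟩) (by decide +kernel)

def bot2_v2p : PosBox ⟨⟨0, 1, 1⟩, ⟨600, 601, 1000⟩, ⟨0, 501, 10000⟩, ⟨9000, 10400, 10000⟩⟩ (bot2.hV2p) :=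
  posBox_of_check (c := ⟨239, ⟨0, 5, 10, 5⟩⟩) (by decide +kernel)

def bot2_v2m : PosBox ⟨⟨0, 1, 1⟩, ⟨600, 601, 1000⟩, ⟨0, 501, 10000⟩, ⟨9000, 10400, 10000⟩⟩ (bot2.hV2m) :=
  posBox_of_check (c := ⟨233, ⟨0, 5, 10, 5⟩⟩) (by decide +kernel)

def bot2_v3p : PosBox ⟨⟨0, 1, 1⟩, ⟨600, 601, 1000⟩, ⟨0, 501, 10000⟩, ⟨9000, 10400, 10000⟩⟩ (bot2.hV3p) :=
  posBox_of_check (c := ⟨208, ⟨0, 5, 9, 4⟩⟩) (by decide +kernel)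

def bot2_v3m : PosBox ⟨⟨0, 1, 1⟩, ⟨600, 601, 1000⟩, ⟨0, 501, 10000⟩, ⟨9000, 10400, 10000⟩⟩ (bot2.hV3m) :=
  posBox_of_check (c := ⟨208, ⟨0, 5, 9, 4⟩⟩) (by decide +kernel)

def bot2_kap0 : PosBox ⟨⟨0, 1, 1⟩, ⟨600, 601, 1000⟩, ⟨0, 501, 10000⟩, ⟨9000, 10400, 10000⟩⟩ (bot2.kap false) :=
  posBox_of_check (c := ⟨67, ⟨1, 1, 1, 2⟩⟩) (by decide +kernel)

def bot2_tg0 : PosBox ⟨⟨0, 1, 1⟩, ⟨600, 601, 1000⟩, ⟨0, 501, 10000⟩, ⟨9000, 10400, 10000⟩⟩ (bot2.hG (bot2.pEnd false)) :=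
  posBox_of_check (c := ⟨322, ⟨2, 7, 12, 7⟩⟩) (by decide +kernel)

def bot2_c2p0 : PosBox ⟨⟨0, 1, 1⟩, ⟨600, 601, 1000⟩, ⟨0, 501, 10000⟩, ⟨9000, 10400, 10000⟩⟩ (bot2.hC2p (bot2.pEnd false)) :=
  posBox_of_check (c := ⟨383, ⟨2, 7, 14, 9⟩⟩) (by decide +kernel)

def bot2_c2m0 : PosBox ⟨⟨0, 1, 1⟩, ⟨600, 601, 1000⟩, ⟨0, 501, 10000⟩, ⟨9000, 10400, 10000⟩⟩ (bot2.hC2m (bot2.pEnd false)) :=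
  posBox_of_check (c := ⟨379, ⟨2, 7, 14, 9⟩⟩) (by decide +kernel)

def bot2_c10 : PosBox ⟨⟨0, 1, 1⟩, ⟨600, 601, 1000⟩, ⟨0, 501, 10000⟩, ⟨9000, 10400, 10000⟩⟩ (bot2.hC1 false) :=
  posBox_of_check (c := ⟨231, ⟨3, 5, 8, 6⟩⟩) (by decide +kernel)

def bot2_c3p0 : PosBox ⟨⟨0, 1, 1⟩, ⟨600, 601, 1000⟩, ⟨0, 501, 10000⟩, ⟨9000, 10400, 10000⟩⟩ (bot2.hC3p false) :=
  posBox_of_check (c := ⟨358, ⟨3, 7, 13, 8⟩⟩) (by decide +kernel)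

def bot2_c3m0 : PosBox ⟨⟨0, 1, 1⟩, ⟨600, 601, 1000⟩, ⟨0, 501, 10000⟩, ⟨9000, 10400, 10000⟩⟩ (bot2.hC3m false) :=
  posBox_of_check (c := ⟨358, ⟨3, 7, 13, 8⟩⟩) (by decide +kernel)

def bot2_tmg0 : PosBox ⟨⟨0, 1, 1⟩, ⟨600, 601, 1000⟩, ⟨0, 501, 10000⟩, ⟨9000, 10400, 10000⟩⟩ (bot2.hTMG (bot2.pEnd false)) :=
  posBox_of_check (c := ⟨341, ⟨2, 7, 12, 8⟩⟩) (by decide +kernel)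

def bot2_neg0 : PosBox ⟨⟨0, 1, 1⟩, ⟨600, 601, 1000⟩, ⟨0, 501, 10000⟩, ⟨9000, 10400, 10000⟩⟩ (bot2.hNeg (bot2.pEnd false)) :=
  posBox_of_check (c := ⟨227, ⟨2, 5, 8, 6⟩⟩) (by decide +kernel)

def bot2_neglo0 : PosBox ⟨⟨0, 1, 1⟩, ⟨600, 601, 1000⟩, ⟨0, 501, 10000⟩, ⟨9000, 10400, 10000⟩⟩ (bot2.hNegLo (bot2.pEnd false)) :=
  posBox_of_check (c := ⟨227, ⟨2, 5, 8, 6⟩⟩) (by decide +kernel)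

def bot2_kap1 : PosBox ⟨⟨0, 1, 1⟩, ⟨600, 601, 1000⟩, ⟨0, 501, 10000⟩, ⟨9000, 10400, 10000⟩⟩ (bot2.kap true) :=
  posBox_of_check (c := ⟨69, ⟨1, 1, 1, 2⟩⟩) (by decide +kernel)

def bot2_tg1 : PosBox ⟨⟨0, 1, 1⟩, ⟨600, 601, 1000⟩, ⟨0, 501, 10000⟩, ⟨9000, 10400, 10000⟩⟩ (bot2.hG (bot2.pEnd true)) :=
  posBox_of_check (c := ⟨333, ⟨2, 7, 12, 9⟩⟩) (by decide +kernel)

def bot2_c2p1 : PosBox ⟨⟨0, 1, 1⟩, ⟨600, 601, 1000⟩, ⟨0, 501, 10000⟩, ⟨9000, 10400, 10000⟩⟩ (bot2.hC2p (bot2.pEnd true)) :=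
  posBox_of_check (c := ⟨395, ⟨2, 7, 14, 11⟩⟩) (by decide +kernel)

def bot2_c2m1 : PosBox ⟨⟨0, 1, 1⟩, ⟨600, 601, 1000⟩, ⟨0, 501, 10000⟩, ⟨9000, 10400, 10000⟩⟩ (bot2.hC2m (bot2.pEnd true)) :=
  posBox_of_check (c := ⟨390, ⟨2, 7, 14, 11⟩⟩) (by decide +kernel)

def bot2_c11 : PosBox ⟨⟨0, 1, 1⟩, ⟨600, 601, 1000⟩, ⟨0, 501, 10000⟩, ⟨9000, 10400, 10000⟩⟩ (bot2.hC1 true) :=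
  posBox_of_check (c := ⟨237, ⟨3, 5, 8, 7⟩⟩) (by decide +kernel)

def bot2_c3p1 : PosBox ⟨⟨0, 1, 1⟩, ⟨600, 601, 1000⟩, ⟨0, 501, 10000⟩, ⟨9000, 10400, 10000⟩⟩ (bot2.hC3p true) :=
  posBox_of_check (c := ⟨370, ⟨3, 7, 13, 10⟩⟩) (by decide +kernel)

def bot2_c3m1 : PosBox ⟨⟨0, 1, 1⟩, ⟨600, 601, 1000⟩, ⟨0, 501, 10000⟩, ⟨9000, 10400, 10000⟩⟩ (bot2.hC3m true) :=
  posBox_of_check (c := ⟨370, ⟨3, 7, 13, 10⟩⟩) (by decide +kernel)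

def bot2_tmg1 : PosBox ⟨⟨0, 1, 1⟩, ⟨600, 601, 1000⟩, ⟨0, 501, 10000⟩, ⟨9000, 10400, 10000⟩⟩ (bot2.hTMG (bot2.pEnd true)) :=
  posBox_of_check (c := ⟨351, ⟨2, 7, 12, 10⟩⟩) (by decide +kernel)

def bot2_neg1 : PosBox ⟨⟨0, 1, 1⟩, ⟨600, 601, 1000⟩, ⟨0, 501, 10000⟩, ⟨9000, 10400, 10000⟩⟩ (bot2.hNeg (bot2.pEnd true)) :=
  posBox_of_check (c := ⟨233, ⟨2, 5, 8, 7⟩⟩) (by decide +kernel)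

def bot2_neglo1 : PosBox ⟨⟨0, 1, 1⟩, ⟨600, 601, 1000⟩, ⟨0, 501, 10000⟩, ⟨9000, 10400, 10000⟩⟩ (bot2.hNegLo (bot2.pEnd true)) :=
  posBox_of_check (c := ⟨232, ⟨2, 5, 8, 6⟩⟩) (by decide +kernel)

/-- The checks on the signs. -/
theorem bot2_sign : bot2.Sign ⟨⟨0, 1, 1⟩, ⟨600, 601, 1000⟩, ⟨0, 501, 10000⟩, ⟨9000, 10400, 10000⟩⟩ where
  pp := bot2_pp
  k2p := bot2_k2p
  k2m := bot2_k2m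
  v2p := bot2_v2p
  v2m := bot2_v2m
  v3p := bot2_v3p
  v3m := bot2_v3m
  tg := Bool.forall_bool.2 ⟨bot2_tg0, bot2_tg1⟩
  c2p := Bool.forall_bool.2 ⟨bot2_c2p0, bot2_c2p1⟩
  c2m := Bool.forall_bool.2 ⟨bot2_c2m0, bot2_c2m1⟩
  kap := Bool.forall_bool.2 ⟨bot2_kap0, bot2_kap1⟩
  c1 := Bool.forall_bool.2 ⟨bot2_c10, bot2_c11⟩
  c3p := Bool.forall_bool.2 ⟨bot2_c3p0, bot2_c3p1⟩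
  c3m := Bool.forall_bool.2 ⟨bot2_c3m0, bot2_c3m1⟩
  tmg := Bool.forall_bool.2 ⟨bot2_tmg0, bot2_tmg1⟩
  high := .inl (Bool.forall_bool.2 ⟨⟨bot2_neg0, bot2_neglo0⟩, ⟨bot2_neg1, bot2_neglo1⟩⟩)
  vG := bot2_vG
  vMG := bot2_vMG
  ak := bot2_ak
  aw := bot2_aw
  gk := bot2_gk
  gw := bot2_gw
  ek := bot2_ek
  ew := bot2_ew

end Vale.Agent.P100.Calib.Closed.High
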