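import Vale.Agent.P100.Calib.SlabHighBotData

/-!
# Checks of the signs of a piece of the tail
-/

set_option linter.defProp false

namespace Vale.Agent.P100.Calib.Closed.High

open BoxPos Large

def bot24_vG : PosBox ⟨⟨0, 1, 1⟩, ⟨600, 601, 1000⟩, ⟨20, 501, 10000⟩, ⟨30500, 34500, 10000⟩⟩ (hVG) :=
  posBox_of_check (c := ⟨178, ⟨0, 5, 8, 3⟩⟩) (by decide +kernel)

def bot24_vMG : PosBox ⟨⟨0, 1, 1⟩, ⟨600, 601, 1000⟩, ⟨20, 501, 10000⟩, ⟨30500, 34500, 10000⟩⟩ (hVMG) :=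
  posBox_of_check (c := ⟨191, ⟨0, 4, 8, 4⟩⟩) (by decide +kernel)

def bot24_ak : PosBox ⟨⟨0, 1, 1⟩, ⟨600, 601, 1000⟩, ⟨20, 501, 10000⟩, ⟨30500, 34500, 10000⟩⟩ (hAk) :=
  posBox_of_check (c := ⟨176, ⟨0, 4, 6, 4⟩⟩) (by decide +kernel)

def bot24_aw : PosBox ⟨⟨0, 1, 1⟩, ⟨600, 601, 1000⟩, ⟨20, 501, 10000⟩, ⟨30500, 34500, 10000⟩⟩ (hAw) :=
  posBox_of_check (c := ⟨171, ⟨0, 5, 7, 3⟩⟩) (by decide +kernel)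

def bot24_gk : PosBox ⟨⟨0, 1, 1⟩, ⟨600, 601, 1000⟩, ⟨20, 501, 10000⟩, ⟨30500, 34500, 10000⟩⟩ (hGk) :=
  posBox_of_check (c := ⟨176, ⟨0, 4, 6, 4⟩⟩) (by decide +kernel)

def bot24_gw : PosBox ⟨⟨0, 1, 1⟩, ⟨600, 601, 1000⟩, ⟨20, 501, 10000⟩, ⟨30500, 34500, 10000⟩⟩ (hGw) :=
  posBox_of_check (c := ⟨171, ⟨0, 5, 7, 3⟩⟩) (by decide +kernel)

def bot24_ek : PosBox ⟨⟨0, 1, 1⟩, ⟨600, 601, 1000⟩, ⟨20, 501, 10000⟩, ⟨30500, 34500, 10000⟩⟩ (hMk) :=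
  posBox_of_check (c := ⟨106, ⟨0, 2, 3, 3⟩⟩) (by decide +kernel)

def bot24_ew : PosBox ⟨⟨0, 1, 1⟩, ⟨600, 601, 1000⟩, ⟨20, 501, 10000⟩, ⟨30500, 34500, 10000⟩⟩ (hMw) :=
  posBox_of_check (c := ⟨101, ⟨0, 3, 4, 2⟩⟩) (by decide +kernel)

def bot24_pp : PosBox ⟨⟨0, 1, 1⟩, ⟨600, 601, 1000⟩, ⟨20, 501, 10000⟩, ⟨30500, 34500, 10000⟩⟩ (bot24.xPL) :=
  posBox_of_check (c := ⟨84, ⟨1, 1, 2, 3⟩⟩) (by decide +kernel)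

def bot24_k2p : PosBox ⟨⟨0, 1, 1⟩, ⟨600, 601, 1000⟩, ⟨20, 501, 10000⟩, ⟨30500, 34500, 10000⟩⟩ (bot24.k2p bot24.xE) :=
  posBox_of_check (c := ⟨60, ⟨1, 1, 1, 2⟩⟩) (by decide +kernel)

def bot24_k2m : PosBox ⟨⟨0, 1, 1⟩, ⟨600, 601, 1000⟩, ⟨20, 501, 10000⟩, ⟨30500, 34500, 10000⟩⟩ (bot24.k2m bot24.xE) :=
  posBox_of_check (c := ⟨28, ⟨0, 0, 1, 1⟩⟩) (by decide +kernel)

def bot24_v2p : PosBox ⟨⟨0, 1, 1⟩, ⟨600, 601, 1000⟩, ⟨20, 501, 10000⟩, ⟨30500, 34500, 10000⟩⟩ (bot24.hV2p) :=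
  posBox_of_check (c := ⟨238, ⟨1, 6, 10, 5⟩⟩) (by decide +kernel)

def bot24_v2m : PosBox ⟨⟨0, 1, 1⟩, ⟨600, 601, 1000⟩, ⟨20, 501, 10000⟩, ⟨30500, 34500, 10000⟩⟩ (bot24.hV2m) :=
  posBox_of_check (c := ⟨235, ⟨0, 5, 10, 5⟩⟩) (by decide +kernel)

def bot24_v3p : PosBox ⟨⟨0, 1, 1⟩, ⟨600, 601, 1000⟩, ⟨20, 501, 10000⟩, ⟨30500, 34500, 10000⟩⟩ (bot24.hV3p) :=
  posBox_of_check (c := ⟨210, ⟨1, 6, 9, 4⟩⟩) (by decide +kernel)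

def bot24_v3m : PosBox ⟨⟨0, 1, 1⟩, ⟨600, 601, 1000⟩, ⟨20, 501, 10000⟩, ⟨30500, 34500, 10000⟩⟩ (bot24.hV3m) :=
  posBox_of_check (c := ⟨208, ⟨0, 5, 9, 4⟩⟩) (by decide +kernel)

def bot24_kap0 : PosBox ⟨⟨0, 1, 1⟩, ⟨600, 601, 1000⟩, ⟨20, 501, 10000⟩, ⟨30500, 34500, 10000⟩⟩ (bot24.kap false) :=
  posBox_of_check (c := ⟨71, ⟨1, 1, 1, 2⟩⟩) (by decide +kernel)

def bot24_tg0 : PosBox ⟨⟨0, 1, 1⟩, ⟨600, 601, 1000⟩, ⟨20, 501, 10000⟩, ⟨30500, 34500, 10000⟩⟩ (bot24.hG (bot24.pEnd false)) :=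
  posBox_of_check (c := ⟨338, ⟨2, 7, 12, 9⟩⟩) (by decide +kernel)

def bot24_c2p0 : PosBox ⟨⟨0, 1, 1⟩, ⟨600, 601, 1000⟩, ⟨20, 501, 10000⟩, ⟨30500, 34500, 10000⟩⟩ (bot24.hC2p (bot24.pEnd false)) :=
  posBox_of_check (c := ⟨399, ⟨3, 8, 14, 11⟩⟩) (by decide +kernel)

def bot24_c2m0 : PosBox ⟨⟨0, 1, 1⟩, ⟨600, 601, 1000⟩, ⟨20, 501, 10000⟩, ⟨30500, 34500, 10000⟩⟩ (bot24.hC2m (bot24.pEnd false)) :=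
  posBox_of_check (c := ⟨397, ⟨2, 7, 14, 11⟩⟩) (by decide +kernel)

def bot24_c10 : PosBox ⟨⟨0, 1, 1⟩, ⟨600, 601, 1000⟩, ⟨20, 501, 10000⟩, ⟨30500, 34500, 10000⟩⟩ (bot24.hC1 false) :=
  posBox_of_check (c := ⟨236, ⟨2, 5, 8, 7⟩⟩) (by decide +kernel)

def bot24_c3p0 : PosBox ⟨⟨0, 1, 1⟩, ⟨600, 601, 1000⟩, ⟨20, 501, 10000⟩, ⟨30500, 34500, 10000⟩⟩ (bot24.hC3p false) :=
  posBox_of_check (c := ⟨471, ⟨4, 10, 16, 13⟩⟩) (by decide +kernel)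

def bot24_c3m0 : PosBox ⟨⟨0, 1, 1⟩, ⟨600, 601, 1000⟩, ⟨20, 501, 10000⟩, ⟨30500, 34500, 10000⟩⟩ (bot24.hC3m false) :=
  posBox_of_check (c := ⟨469, ⟨3, 9, 16, 13⟩⟩) (by decide +kernel)

def bot24_tmg0 : PosBox ⟨⟨0, 1, 1⟩, ⟨600, 601, 1000⟩, ⟨20, 501, 10000⟩, ⟨30500, 34500, 10000⟩⟩ (bot24.hTMG (bot24.pEnd false)) :=
  posBox_of_check (c := ⟨356, ⟨2, 7, 12, 10⟩⟩) (by decide +kernel)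

def bot24_c1h0 : PosBox ⟨⟨0, 1, 1⟩, ⟨600, 601, 1000⟩, ⟨20, 501, 10000⟩, ⟨30500, 34500, 10000⟩⟩ (bot24.hC1' false) :=
  posBox_of_check (c := ⟨236, ⟨2, 5, 8, 7⟩⟩) (by decide +kernel)

def bot24_c3ph0 : PosBox ⟨⟨0, 1, 1⟩, ⟨600, 601, 1000⟩, ⟨20, 501, 10000⟩, ⟨30500, 34500, 10000⟩⟩ (bot24.hC3p' false) :=
  posBox_of_check (c := ⟨471, ⟨4, 10, 16, 13⟩⟩) (by decide +kernel)

def bot24_c3mh0 : PosBox ⟨⟨0, 1, 1⟩, ⟨600, 601, 1000⟩, ⟨20, 501, 10000⟩, ⟨30500, 34500, 10000⟩⟩ (bot24.hC3m' false) :=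
  posBox_of_check (c := ⟨469, ⟨3, 9, 16, 13⟩⟩) (by decide +kernel)

def bot24_up0 : PosBox ⟨⟨0, 1, 1⟩, ⟨600, 601, 1000⟩, ⟨20, 501, 10000⟩, ⟨30500, 34500, 10000⟩⟩ (bot24.hUp false) :=
  posBox_of_check (c := ⟨374, ⟨3, 8, 13, 10⟩⟩) (by decide +kernel)

def bot24_um0 : PosBox ⟨⟨0, 1, 1⟩, ⟨600, 601, 1000⟩, ⟨20, 501, 10000⟩, ⟨30500, 34500, 10000⟩⟩ (bot24.hUm false) :=
  posBox_of_check (c := ⟨372, ⟨2, 7, 13, 10⟩⟩) (by decide +kernel)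

def bot24_kap1 : PosBox ⟨⟨0, 1, 1⟩, ⟨600, 601, 1000⟩, ⟨20, 501, 10000⟩, ⟨30500, 34500, 10000⟩⟩ (bot24.kap true) :=
  posBox_of_check (c := ⟨83, ⟨1, 1, 1, 2⟩⟩) (by decide +kernel)

def bot24_tg1 : PosBox ⟨⟨0, 1, 1⟩, ⟨600, 601, 1000⟩, ⟨20, 501, 10000⟩, ⟨30500, 34500, 10000⟩⟩ (bot24.hG (bot24.pEnd true)) :=
  posBox_of_check (c := ⟨340, ⟨2, 7, 12, 9⟩⟩) (by decide +kernel)

def bot24_c2p1 : PosBox ⟨⟨0, 1, 1⟩, ⟨600, 601, 1000⟩, ⟨20, 501, 10000⟩, ⟨30500, 34500, 10000⟩⟩ (bot24.hC2p (bot24.pEnd true)) :=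
  posBox_of_check (c := ⟨401, ⟨3, 8, 14, 11⟩⟩) (by decide +kernel)

def bot24_c2m1 : PosBox ⟨⟨0, 1, 1⟩, ⟨600, 601, 1000⟩, ⟨20, 501, 10000⟩, ⟨30500, 34500, 10000⟩⟩ (bot24.hC2m (bot24.pEnd true)) :=
  posBox_of_check (c := ⟨398, ⟨2, 7, 14, 11⟩⟩) (by decide +kernel)

def bot24_c11 : PosBox ⟨⟨0, 1, 1⟩, ⟨600, 601, 1000⟩, ⟨20, 501, 10000⟩, ⟨30500, 34500, 10000⟩⟩ (bot24.hC1 true) :=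
  posBox_of_check (c := ⟨237, ⟨2, 5, 8, 7⟩⟩) (by decide +kernel)

def bot24_c3p1 : PosBox ⟨⟨0, 1, 1⟩, ⟨600, 601, 1000⟩, ⟨20, 501, 10000⟩, ⟨30500, 34500, 10000⟩⟩ (bot24.hC3p true) :=
  posBox_of_check (c := ⟨472, ⟨4, 10, 16, 13⟩⟩) (by decide +kernel)

def bot24_c3m1 : PosBox ⟨⟨0, 1, 1⟩, ⟨600, 601, 1000⟩, ⟨20, 501, 10000⟩, ⟨30500, 34500, 10000⟩⟩ (bot24.hC3m true) :=
  posBox_of_check (c := ⟨470, ⟨3, 9, 16, 13⟩⟩) (by decide +kernel)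

def bot24_tmg1 : PosBox ⟨⟨0, 1, 1⟩, ⟨600, 601, 1000⟩, ⟨20, 501, 10000⟩, ⟨30500, 34500, 10000⟩⟩ (bot24.hTMG (bot24.pEnd true)) :=
  posBox_of_check (c := ⟨355, ⟨2, 7, 12, 10⟩⟩) (by decide +kernel)

def bot24_c1h1 : PosBox ⟨⟨0, 1, 1⟩, ⟨600, 601, 1000⟩, ⟨20, 501, 10000⟩, ⟨30500, 34500, 10000⟩⟩ (bot24.hC1' true) :=
  posBox_of_check (c := ⟨237, ⟨2, 5, 8, 7⟩⟩) (by decide +kernel)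

def bot24_c3ph1 : PosBox ⟨⟨0, 1, 1⟩, ⟨600, 601, 1000⟩, ⟨20, 501, 10000⟩, ⟨30500, 34500, 10000⟩⟩ (bot24.hC3p' true) :=
  posBox_of_check (c := ⟨472, ⟨4, 10, 16, 13⟩⟩) (by decide +kernel)

def bot24_c3mh1 : PosBox ⟨⟨0, 1, 1⟩, ⟨600, 601, 1000⟩, ⟨20, 501, 10000⟩, ⟨30500, 34500, 10000⟩⟩ (bot24.hC3m' true) :=
  posBox_of_check (c := ⟨470, ⟨3, 9, 16, 13⟩⟩) (by decide +kernel)

def bot24_up1 : PosBox ⟨⟨0, 1, 1⟩, ⟨600, 601, 1000⟩, ⟨20, 501, 10000⟩, ⟨30500, 34500, 10000⟩⟩ (bot24.hUp true) :=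
  posBox_of_check (c := ⟨373, ⟨3, 8, 13, 10⟩⟩) (by decide +kernel)

def bot24_um1 : PosBox ⟨⟨0, 1, 1⟩, ⟨600, 601, 1000⟩, ⟨20, 501, 10000⟩, ⟨30500, 34500, 10000⟩⟩ (bot24.hUm true) :=
  posBox_of_check (c := ⟨371, ⟨2, 7, 13, 10⟩⟩) (by decide +kernel)

/-- The checks on the signs. -/
theorem bot24_sign : bot24.Sign ⟨⟨0, 1, 1⟩, ⟨600, 601, 1000⟩, ⟨20, 501, 10000⟩, ⟨30500, 34500, 10000⟩⟩ where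
  pp := bot24_pp
  k2p := bot24_k2p
  k2m := bot24_k2m
  v2p := bot24_v2p
  v2m := bot24_v2m
  v3p := bot24_v3p
  v3m := bot24_v3m
  tg := Bool.forall_bool.2 ⟨bot24_tg0, bot24_tg1⟩
  c2p := Bool.forall_bool.2 ⟨bot24_c2p0, bot24_c2p1⟩
  c2m := Bool.forall_bool.2 ⟨bot24_c2m0, bot24_c2m1⟩
  kap := Bool.forall_bool.2 ⟨bot24_kap0, bot24_kap1⟩
  c1 := Bool.forall_bool.2 ⟨bot24_c10, bot24_c11⟩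
  c3p := Bool.forall_bool.2 ⟨bot24_c3p0, bot24_c3p1⟩
  c3m := Bool.forall_bool.2 ⟨bot24_c3m0, bot24_c3m1⟩
  tmg := Bool.forall_bool.2 ⟨bot24_tmg0, bot24_tmg1⟩
  high := .inr (Bool.forall_bool.2 ⟨⟨bot24_c1h0, bot24_c3ph0, bot24_c3mh0, bot24_up0, bot24_um0⟩, ⟨bot24_c1h1, bot24_c3ph1, bot24_c3mh1, bot24_up1, bot24_um1⟩⟩)
  vG := bot24_vG
  vMG := bot24_vMG
  ak := bot24_ak
  aw := bot24_aw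
  gk := bot24_gk
  gw := bot24_gw
  ek := bot24_ek
  ew := bot24_ew

end Vale.Agent.P100.Calib.Closed.High
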