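import Vale.Agent.P100.Calib.SlabHighBotData

/-!
# Checks of the signs of a piece of the tail
-/

set_option linter.defProp false

namespace Vale.Agent.P100.Calib.Closed.High

open BoxPos Large

def bot5_vG : PosBox ⟨⟨0, 1, 1⟩, ⟨600, 601, 1000⟩, ⟨0, 250, 10000⟩, ⟨15000, 16900, 10000⟩⟩ (hVG) :=
  posBox_of_check (c := ⟨177, ⟨0, 5, 8, 3⟩⟩) (by decide +kernel)

def bot5_vMG : PosBox ⟨⟨0, 1, 1⟩, ⟨600, 601, 1000⟩, ⟨0, 250, 10000⟩, ⟨15000, 16900, 10000⟩⟩ (hVMG) :=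
  posBox_of_check (c := ⟨191, ⟨0, 4, 8, 4⟩⟩) (by decide +kernel)

def bot5_ak : PosBox ⟨⟨0, 1, 1⟩, ⟨600, 601, 1000⟩, ⟨0, 250, 10000⟩, ⟨15000, 16900, 10000⟩⟩ (hAk) :=
  posBox_of_check (c := ⟨174, ⟨0, 4, 6, 4⟩⟩) (by decide +kernel)

def bot5_aw : PosBox ⟨⟨0, 1, 1⟩, ⟨600, 601, 1000⟩, ⟨0, 250, 10000⟩, ⟨15000, 16900, 10000⟩⟩ (hAw) :=
  posBox_of_check (c := ⟨169, ⟨0, 5, 7, 3⟩⟩) (by decide +kernel)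

def bot5_gk : PosBox ⟨⟨0, 1, 1⟩, ⟨600, 601, 1000⟩, ⟨0, 250, 10000⟩, ⟨15000, 16900, 10000⟩⟩ (hGk) :=
  posBox_of_check (c := ⟨174, ⟨0, 4, 6, 4⟩⟩) (by decide +kernel)

def bot5_gw : PosBox ⟨⟨0, 1, 1⟩, ⟨600, 601, 1000⟩, ⟨0, 250, 10000⟩, ⟨15000, 16900, 10000⟩⟩ (hGw) :=
  posBox_of_check (c := ⟨169, ⟨0, 5, 7, 3⟩⟩) (by decide +kernel)

def bot5_ek : PosBox ⟨⟨0, 1, 1⟩, ⟨600, 601, 1000⟩, ⟨0, 250, 10000⟩, ⟨15000, 16900, 10000⟩⟩ (hMk) :=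
  posBox_of_check (c := ⟨104, ⟨0, 2, 3, 3⟩⟩) (by decide +kernel)

def bot5_ew : PosBox ⟨⟨0, 1, 1⟩, ⟨600, 601, 1000⟩, ⟨0, 250, 10000⟩, ⟨15000, 16900, 10000⟩⟩ (hMw) :=
  posBox_of_check (c := ⟨100, ⟨0, 3, 4, 2⟩⟩) (by decide +kernel)

def bot5_pp : PosBox ⟨⟨0, 1, 1⟩, ⟨600, 601, 1000⟩, ⟨0, 250, 10000⟩, ⟨15000, 16900, 10000⟩⟩ (bot5.xPL) :=
  posBox_of_check (c := ⟨85, ⟨1, 1, 2, 3⟩⟩) (by decide +kernel)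

def bot5_k2p : PosBox ⟨⟨0, 1, 1⟩, ⟨600, 601, 1000⟩, ⟨0, 250, 10000⟩, ⟨15000, 16900, 10000⟩⟩ (bot5.k2p bot5.xE) :=
  posBox_of_check (c := ⟨63, ⟨1, 1, 1, 2⟩⟩) (by decide +kernel)

def bot5_k2m : PosBox ⟨⟨0, 1, 1⟩, ⟨600, 601, 1000⟩, ⟨0, 250, 10000⟩, ⟨15000, 16900, 10000⟩⟩ (bot5.k2m bot5.xE) :=
  posBox_of_check (c := ⟨20, ⟨0, 0, 1, 0⟩⟩) (by decide +kernel)

def bot5_v2p : PosBox ⟨⟨0, 1, 1⟩, ⟨600, 601, 1000⟩, ⟨0, 250, 10000⟩, ⟨15000, 16900, 10000⟩⟩ (bot5.hV2p) :=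
  posBox_of_check (c := ⟨239, ⟨1, 6, 10, 5⟩⟩) (by decide +kernel)

def bot5_v2m : PosBox ⟨⟨0, 1, 1⟩, ⟨600, 601, 1000⟩, ⟨0, 250, 10000⟩, ⟨15000, 16900, 10000⟩⟩ (bot5.hV2m) :=
  posBox_of_check (c := ⟨231, ⟨0, 5, 10, 5⟩⟩) (by decide +kernel)

def bot5_v3p : PosBox ⟨⟨0, 1, 1⟩, ⟨600, 601, 1000⟩, ⟨0, 250, 10000⟩, ⟨15000, 16900, 10000⟩⟩ (bot5.hV3p) :=
  posBox_of_check (c := ⟨210, ⟨1, 6, 9, 4⟩⟩) (by decide +kernel)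

def bot5_v3m : PosBox ⟨⟨0, 1, 1⟩, ⟨600, 601, 1000⟩, ⟨0, 250, 10000⟩, ⟨15000, 16900, 10000⟩⟩ (bot5.hV3m) :=
  posBox_of_check (c := ⟨208, ⟨0, 5, 9, 4⟩⟩) (by decide +kernel)

def bot5_kap0 : PosBox ⟨⟨0, 1, 1⟩, ⟨600, 601, 1000⟩, ⟨0, 250, 10000⟩, ⟨15000, 16900, 10000⟩⟩ (bot5.kap false) :=
  posBox_of_check (c := ⟨70, ⟨1, 1, 1, 2⟩⟩) (by decide +kernel)

def bot5_tg0 : PosBox ⟨⟨0, 1, 1⟩, ⟨600, 601, 1000⟩, ⟨0, 250, 10000⟩, ⟨15000, 16900, 10000⟩⟩ (bot5.hG (bot5.pEnd false)) :=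
  posBox_of_check (c := ⟨339, ⟨2, 7, 12, 9⟩⟩) (by decide +kernel)

def bot5_c2p0 : PosBox ⟨⟨0, 1, 1⟩, ⟨600, 601, 1000⟩, ⟨0, 250, 10000⟩, ⟨15000, 16900, 10000⟩⟩ (bot5.hC2p (bot5.pEnd false)) :=
  posBox_of_check (c := ⟨401, ⟨3, 8, 14, 11⟩⟩) (by decide +kernel)

def bot5_c2m0 : PosBox ⟨⟨0, 1, 1⟩, ⟨600, 601, 1000⟩, ⟨0, 250, 10000⟩, ⟨15000, 16900, 10000⟩⟩ (bot5.hC2m (bot5.pEnd false)) :=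
  posBox_of_check (c := ⟨395, ⟨2, 7, 14, 11⟩⟩) (by decide +kernel)

def bot5_c10 : PosBox ⟨⟨0, 1, 1⟩, ⟨600, 601, 1000⟩, ⟨0, 250, 10000⟩, ⟨15000, 16900, 10000⟩⟩ (bot5.hC1 false) :=
  posBox_of_check (c := ⟨242, ⟨3, 5, 8, 7⟩⟩) (by decide +kernel)

def bot5_c3p0 : PosBox ⟨⟨0, 1, 1⟩, ⟨600, 601, 1000⟩, ⟨0, 250, 10000⟩, ⟨15000, 16900, 10000⟩⟩ (bot5.hC3p false) :=
  posBox_of_check (c := ⟨378, ⟨3, 8, 13, 10⟩⟩) (by decide +kernel)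

def bot5_c3m0 : PosBox ⟨⟨0, 1, 1⟩, ⟨600, 601, 1000⟩, ⟨0, 250, 10000⟩, ⟨15000, 16900, 10000⟩⟩ (bot5.hC3m false) :=
  posBox_of_check (c := ⟨377, ⟨3, 7, 13, 10⟩⟩) (by decide +kernel)

def bot5_tmg0 : PosBox ⟨⟨0, 1, 1⟩, ⟨600, 601, 1000⟩, ⟨0, 250, 10000⟩, ⟨15000, 16900, 10000⟩⟩ (bot5.hTMG (bot5.pEnd false)) :=
  posBox_of_check (c := ⟨357, ⟨2, 7, 12, 10⟩⟩) (by decide +kernel)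

def bot5_neg0 : PosBox ⟨⟨0, 1, 1⟩, ⟨600, 601, 1000⟩, ⟨0, 250, 10000⟩, ⟨15000, 16900, 10000⟩⟩ (bot5.hNeg (bot5.pEnd false)) :=
  posBox_of_check (c := ⟨237, ⟨2, 5, 8, 7⟩⟩) (by decide +kernel)

def bot5_neglo0 : PosBox ⟨⟨0, 1, 1⟩, ⟨600, 601, 1000⟩, ⟨0, 250, 10000⟩, ⟨15000, 16900, 10000⟩⟩ (bot5.hNegLo (bot5.pEnd false)) :=
  posBox_of_check (c := ⟨237, ⟨2, 5, 8, 7⟩⟩) (by decide +kernel)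

def bot5_kap1 : PosBox ⟨⟨0, 1, 1⟩, ⟨600, 601, 1000⟩, ⟨0, 250, 10000⟩, ⟨15000, 16900, 10000⟩⟩ (bot5.kap true) :=
  posBox_of_check (c := ⟨69, ⟨1, 1, 1, 2⟩⟩) (by decide +kernel)

def bot5_tg1 : PosBox ⟨⟨0, 1, 1⟩, ⟨600, 601, 1000⟩, ⟨0, 250, 10000⟩, ⟨15000, 16900, 10000⟩⟩ (bot5.hG (bot5.pEnd true)) :=
  posBox_of_check (c := ⟨341, ⟨2, 7, 12, 9⟩⟩) (by decide +kernel)

def bot5_c2p1 : PosBox ⟨⟨0, 1, 1⟩, ⟨600, 601, 1000⟩, ⟨0, 250, 10000⟩, ⟨15000, 16900, 10000⟩⟩ (bot5.hC2p (bot5.pEnd true)) :=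
  posBox_of_check (c := ⟨402, ⟨3, 8, 14, 11⟩⟩) (by decide +kernel)

def bot5_c2m1 : PosBox ⟨⟨0, 1, 1⟩, ⟨600, 601, 1000⟩, ⟨0, 250, 10000⟩, ⟨15000, 16900, 10000⟩⟩ (bot5.hC2m (bot5.pEnd true)) :=
  posBox_of_check (c := ⟨396, ⟨2, 7, 14, 11⟩⟩) (by decide +kernel)

def bot5_c11 : PosBox ⟨⟨0, 1, 1⟩, ⟨600, 601, 1000⟩, ⟨0, 250, 10000⟩, ⟨15000, 16900, 10000⟩⟩ (bot5.hC1 true) :=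
  posBox_of_check (c := ⟨242, ⟨3, 5, 8, 7⟩⟩) (by decide +kernel)

def bot5_c3p1 : PosBox ⟨⟨0, 1, 1⟩, ⟨600, 601, 1000⟩, ⟨0, 250, 10000⟩, ⟨15000, 16900, 10000⟩⟩ (bot5.hC3p true) :=
  posBox_of_check (c := ⟨378, ⟨3, 8, 13, 10⟩⟩) (by decide +kernel)

def bot5_c3m1 : PosBox ⟨⟨0, 1, 1⟩, ⟨600, 601, 1000⟩, ⟨0, 250, 10000⟩, ⟨15000, 16900, 10000⟩⟩ (bot5.hC3m true) :=
  posBox_of_check (c := ⟨377, ⟨3, 7, 13, 10⟩⟩) (by decide +kernel)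

def bot5_tmg1 : PosBox ⟨⟨0, 1, 1⟩, ⟨600, 601, 1000⟩, ⟨0, 250, 10000⟩, ⟨15000, 16900, 10000⟩⟩ (bot5.hTMG (bot5.pEnd true)) :=
  posBox_of_check (c := ⟨358, ⟨2, 7, 12, 10⟩⟩) (by decide +kernel)

def bot5_neg1 : PosBox ⟨⟨0, 1, 1⟩, ⟨600, 601, 1000⟩, ⟨0, 250, 10000⟩, ⟨15000, 16900, 10000⟩⟩ (bot5.hNeg (bot5.pEnd true)) :=
  posBox_of_check (c := ⟨238, ⟨2, 5, 8, 7⟩⟩) (by decide +kernel)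

def bot5_neglo1 : PosBox ⟨⟨0, 1, 1⟩, ⟨600, 601, 1000⟩, ⟨0, 250, 10000⟩, ⟨15000, 16900, 10000⟩⟩ (bot5.hNegLo (bot5.pEnd true)) :=
  posBox_of_check (c := ⟨238, ⟨2, 5, 8, 7⟩⟩) (by decide +kernel)

/-- The checks on the signs. -/
theorem bot5_sign : bot5.Sign ⟨⟨0, 1, 1⟩, ⟨600, 601, 1000⟩, ⟨0, 250, 10000⟩, ⟨15000, 16900, 10000⟩⟩ where
  pp := bot5_pp
  k2p := bot5_k2p
  k2m := bot5_k2m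
  v2p := bot5_v2p
  v2m := bot5_v2m
  v3p := bot5_v3p
  v3m := bot5_v3m
  tg := Bool.forall_bool.2 ⟨bot5_tg0, bot5_tg1⟩
  c2p := Bool.forall_bool.2 ⟨bot5_c2p0, bot5_c2p1⟩
  c2m := Bool.forall_bool.2 ⟨bot5_c2m0, bot5_c2m1⟩
  kap := Bool.forall_bool.2 ⟨bot5_kap0, bot5_kap1⟩
  c1 := Bool.forall_bool.2 ⟨bot5_c10, bot5_c11⟩
  c3p := Bool.forall_bool.2 ⟨bot5_c3p0, bot5_c3p1⟩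
  c3m := Bool.forall_bool.2 ⟨bot5_c3m0, bot5_c3m1⟩
  tmg := Bool.forall_bool.2 ⟨bot5_tmg0, bot5_tmg1⟩
  high := .inl (Bool.forall_bool.2 ⟨⟨bot5_neg0, bot5_neglo0⟩, ⟨bot5_neg1, bot5_neglo1⟩⟩)
  vG := bot5_vG
  vMG := bot5_vMG
  ak := bot5_ak
  aw := bot5_aw
  gk := bot5_gk
  gw := bot5_gw
  ek := bot5_ek
  ew := bot5_ew

end Vale.Agent.P100.Calib.Closed.High
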