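import Vale.Agent.P100.Calib.SlabHighBotData

/-!
# Checks of the signs of a piece of the tail
-/

set_option linter.defProp false

namespace Vale.Agent.P100.Calib.Closed.High

open BoxPos Large

def bot6B_vG : PosBox ⟨⟨0, 1, 1⟩, ⟨600, 601, 1000⟩, ⟨250, 400, 10000⟩, ⟨10400, 11600, 10000⟩⟩ (hVG) :=
  posBox_of_check (c := ⟨178, ⟨0, 5, 8, 3⟩⟩) (by decide +kernel)

def bot6B_vMG : PosBox ⟨⟨0, 1, 1⟩, ⟨600, 601, 1000⟩, ⟨250, 400, 10000⟩, ⟨10400, 11600, 10000⟩⟩ (hVMG) :=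
  posBox_of_check (c := ⟨191, ⟨0, 4, 8, 4⟩⟩) (by decide +kernel)

def bot6B_ak : PosBox ⟨⟨0, 1, 1⟩, ⟨600, 601, 1000⟩, ⟨250, 400, 10000⟩, ⟨10400, 11600, 10000⟩⟩ (hAk) :=
  posBox_of_check (c := ⟨173, ⟨0, 4, 6, 4⟩⟩) (by decide +kernel)

def bot6B_aw : PosBox ⟨⟨0, 1, 1⟩, ⟨600, 601, 1000⟩, ⟨250, 400, 10000⟩, ⟨10400, 11600, 10000⟩⟩ (hAw) :=
  posBox_of_check (c := ⟨169, ⟨0, 5, 7, 3⟩⟩) (by decide +kernel)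

def bot6B_gk : PosBox ⟨⟨0, 1, 1⟩, ⟨600, 601, 1000⟩, ⟨250, 400, 10000⟩, ⟨10400, 11600, 10000⟩⟩ (hGk) :=
  posBox_of_check (c := ⟨173, ⟨0, 4, 6, 4⟩⟩) (by decide +kernel)

def bot6B_gw : PosBox ⟨⟨0, 1, 1⟩, ⟨600, 601, 1000⟩, ⟨250, 400, 10000⟩, ⟨10400, 11600, 10000⟩⟩ (hGw) :=
  posBox_of_check (c := ⟨169, ⟨0, 5, 7, 3⟩⟩) (by decide +kernel)

def bot6B_ek : PosBox ⟨⟨0, 1, 1⟩, ⟨600, 601, 1000⟩, ⟨250, 400, 10000⟩, ⟨10400, 11600, 10000⟩⟩ (hMk) :=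
  posBox_of_check (c := ⟨103, ⟨0, 2, 3, 3⟩⟩) (by decide +kernel)

def bot6B_ew : PosBox ⟨⟨0, 1, 1⟩, ⟨600, 601, 1000⟩, ⟨250, 400, 10000⟩, ⟨10400, 11600, 10000⟩⟩ (hMw) :=
  posBox_of_check (c := ⟨100, ⟨0, 3, 4, 2⟩⟩) (by decide +kernel)

def bot6B_pp : PosBox ⟨⟨0, 1, 1⟩, ⟨600, 601, 1000⟩, ⟨250, 400, 10000⟩, ⟨10400, 11600, 10000⟩⟩ (bot6B.xPL) :=
  posBox_of_check (c := ⟨83, ⟨1, 1, 2, 3⟩⟩) (by decide +kernel)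

def bot6B_k2p : PosBox ⟨⟨0, 1, 1⟩, ⟨600, 601, 1000⟩, ⟨250, 400, 10000⟩, ⟨10400, 11600, 10000⟩⟩ (bot6B.k2p bot6B.xE) :=
  posBox_of_check (c := ⟨65, ⟨1, 1, 1, 2⟩⟩) (by decide +kernel)

def bot6B_k2m : PosBox ⟨⟨0, 1, 1⟩, ⟨600, 601, 1000⟩, ⟨250, 400, 10000⟩, ⟨10400, 11600, 10000⟩⟩ (bot6B.k2m bot6B.xE) :=
  posBox_of_check (c := ⟨27, ⟨0, 0, 1, 1⟩⟩) (by decide +kernel)

def bot6B_v2p : PosBox ⟨⟨0, 1, 1⟩, ⟨600, 601, 1000⟩, ⟨250, 400, 10000⟩, ⟨10400, 11600, 10000⟩⟩ (bot6B.hV2p) :=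
  posBox_of_check (c := ⟨243, ⟨1, 6, 10, 5⟩⟩) (by decide +kernel)

def bot6B_v2m : PosBox ⟨⟨0, 1, 1⟩, ⟨600, 601, 1000⟩, ⟨250, 400, 10000⟩, ⟨10400, 11600, 10000⟩⟩ (bot6B.hV2m) :=
  posBox_of_check (c := ⟨233, ⟨0, 5, 10, 5⟩⟩) (by decide +kernel)

def bot6B_v3p : PosBox ⟨⟨0, 1, 1⟩, ⟨600, 601, 1000⟩, ⟨250, 400, 10000⟩, ⟨10400, 11600, 10000⟩⟩ (bot6B.hV3p) :=
  posBox_of_check (c := ⟨211, ⟨1, 6, 9, 4⟩⟩) (by decide +kernel)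

def bot6B_v3m : PosBox ⟨⟨0, 1, 1⟩, ⟨600, 601, 1000⟩, ⟨250, 400, 10000⟩, ⟨10400, 11600, 10000⟩⟩ (bot6B.hV3m) :=
  posBox_of_check (c := ⟨208, ⟨0, 5, 9, 4⟩⟩) (by decide +kernel)

def bot6B_kap0 : PosBox ⟨⟨0, 1, 1⟩, ⟨600, 601, 1000⟩, ⟨250, 400, 10000⟩, ⟨10400, 11600, 10000⟩⟩ (bot6B.kap false) :=
  posBox_of_check (c := ⟨70, ⟨1, 1, 1, 2⟩⟩) (by decide +kernel)

def bot6B_tg0 : PosBox ⟨⟨0, 1, 1⟩, ⟨600, 601, 1000⟩, ⟨250, 400, 10000⟩, ⟨10400, 11600, 10000⟩⟩ (bot6B.hG (bot6B.pEnd false)) :=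
  posBox_of_check (c := ⟨336, ⟨2, 7, 12, 9⟩⟩) (by decide +kernel)

def bot6B_c2p0 : PosBox ⟨⟨0, 1, 1⟩, ⟨600, 601, 1000⟩, ⟨250, 400, 10000⟩, ⟨10400, 11600, 10000⟩⟩ (bot6B.hC2p (bot6B.pEnd false)) :=
  posBox_of_check (c := ⟨402, ⟨3, 8, 14, 11⟩⟩) (by decide +kernel)

def bot6B_c2m0 : PosBox ⟨⟨0, 1, 1⟩, ⟨600, 601, 1000⟩, ⟨250, 400, 10000⟩, ⟨10400, 11600, 10000⟩⟩ (bot6B.hC2m (bot6B.pEnd false)) :=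
  posBox_of_check (c := ⟨394, ⟨2, 7, 14, 11⟩⟩) (by decide +kernel)

def bot6B_c10 : PosBox ⟨⟨0, 1, 1⟩, ⟨600, 601, 1000⟩, ⟨250, 400, 10000⟩, ⟨10400, 11600, 10000⟩⟩ (bot6B.hC1 false) :=
  posBox_of_check (c := ⟨238, ⟨3, 5, 8, 7⟩⟩) (by decide +kernel)

def bot6B_c3p0 : PosBox ⟨⟨0, 1, 1⟩, ⟨600, 601, 1000⟩, ⟨250, 400, 10000⟩, ⟨10400, 11600, 10000⟩⟩ (bot6B.hC3p false) :=
  posBox_of_check (c := ⟨375, ⟨3, 8, 13, 10⟩⟩) (by decide +kernel)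

def bot6B_c3m0 : PosBox ⟨⟨0, 1, 1⟩, ⟨600, 601, 1000⟩, ⟨250, 400, 10000⟩, ⟨10400, 11600, 10000⟩⟩ (bot6B.hC3m false) :=
  posBox_of_check (c := ⟨374, ⟨3, 7, 13, 10⟩⟩) (by decide +kernel)

def bot6B_tmg0 : PosBox ⟨⟨0, 1, 1⟩, ⟨600, 601, 1000⟩, ⟨250, 400, 10000⟩, ⟨10400, 11600, 10000⟩⟩ (bot6B.hTMG (bot6B.pEnd false)) :=
  posBox_of_check (c := ⟨356, ⟨2, 7, 12, 10⟩⟩) (by decide +kernel)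

def bot6B_neg0 : PosBox ⟨⟨0, 1, 1⟩, ⟨600, 601, 1000⟩, ⟨250, 400, 10000⟩, ⟨10400, 11600, 10000⟩⟩ (bot6B.hNeg (bot6B.pEnd false)) :=
  posBox_of_check (c := ⟨233, ⟨2, 5, 8, 6⟩⟩) (by decide +kernel)

def bot6B_neglo0 : PosBox ⟨⟨0, 1, 1⟩, ⟨600, 601, 1000⟩, ⟨250, 400, 10000⟩, ⟨10400, 11600, 10000⟩⟩ (bot6B.hNegLo (bot6B.pEnd false)) :=
  posBox_of_check (c := ⟨233, ⟨2, 5, 8, 6⟩⟩) (by decide +kernel)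

def bot6B_kap1 : PosBox ⟨⟨0, 1, 1⟩, ⟨600, 601, 1000⟩, ⟨250, 400, 10000⟩, ⟨10400, 11600, 10000⟩⟩ (bot6B.kap true) :=
  posBox_of_check (c := ⟨68, ⟨1, 1, 1, 2⟩⟩) (by decide +kernel)

def bot6B_tg1 : PosBox ⟨⟨0, 1, 1⟩, ⟨600, 601, 1000⟩, ⟨250, 400, 10000⟩, ⟨10400, 11600, 10000⟩⟩ (bot6B.hG (bot6B.pEnd true)) :=
  posBox_of_check (c := ⟨338, ⟨2, 7, 12, 9⟩⟩) (by decide +kernel)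

def bot6B_c2p1 : PosBox ⟨⟨0, 1, 1⟩, ⟨600, 601, 1000⟩, ⟨250, 400, 10000⟩, ⟨10400, 11600, 10000⟩⟩ (bot6B.hC2p (bot6B.pEnd true)) :=
  posBox_of_check (c := ⟨403, ⟨3, 8, 14, 11⟩⟩) (by decide +kernel)

def bot6B_c2m1 : PosBox ⟨⟨0, 1, 1⟩, ⟨600, 601, 1000⟩, ⟨250, 400, 10000⟩, ⟨10400, 11600, 10000⟩⟩ (bot6B.hC2m (bot6B.pEnd true)) :=
  posBox_of_check (c := ⟨395, ⟨2, 7, 14, 11⟩⟩) (by decide +kernel)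

def bot6B_c11 : PosBox ⟨⟨0, 1, 1⟩, ⟨600, 601, 1000⟩, ⟨250, 400, 10000⟩, ⟨10400, 11600, 10000⟩⟩ (bot6B.hC1 true) :=
  posBox_of_check (c := ⟨239, ⟨3, 5, 8, 7⟩⟩) (by decide +kernel)

def bot6B_c3p1 : PosBox ⟨⟨0, 1, 1⟩, ⟨600, 601, 1000⟩, ⟨250, 400, 10000⟩, ⟨10400, 11600, 10000⟩⟩ (bot6B.hC3p true) :=
  posBox_of_check (c := ⟨375, ⟨3, 8, 13, 10⟩⟩) (by decide +kernel)

def bot6B_c3m1 : PosBox ⟨⟨0, 1, 1⟩, ⟨600, 601, 1000⟩, ⟨250, 400, 10000⟩, ⟨10400, 11600, 10000⟩⟩ (bot6B.hC3m true) :=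
  posBox_of_check (c := ⟨374, ⟨3, 7, 13, 10⟩⟩) (by decide +kernel)

def bot6B_tmg1 : PosBox ⟨⟨0, 1, 1⟩, ⟨600, 601, 1000⟩, ⟨250, 400, 10000⟩, ⟨10400, 11600, 10000⟩⟩ (bot6B.hTMG (bot6B.pEnd true)) :=
  posBox_of_check (c := ⟨356, ⟨2, 7, 12, 10⟩⟩) (by decide +kernel)

def bot6B_neg1 : PosBox ⟨⟨0, 1, 1⟩, ⟨600, 601, 1000⟩, ⟨250, 400, 10000⟩, ⟨10400, 11600, 10000⟩⟩ (bot6B.hNeg (bot6B.pEnd true)) :=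
  posBox_of_check (c := ⟨234, ⟨2, 5, 8, 6⟩⟩) (by decide +kernel)

def bot6B_neglo1 : PosBox ⟨⟨0, 1, 1⟩, ⟨600, 601, 1000⟩, ⟨250, 400, 10000⟩, ⟨10400, 11600, 10000⟩⟩ (bot6B.hNegLo (bot6B.pEnd true)) :=
  posBox_of_check (c := ⟨234, ⟨2, 5, 8, 6⟩⟩) (by decide +kernel)

/-- The checks on the signs. -/
theorem bot6B_sign : bot6B.Sign ⟨⟨0, 1, 1⟩, ⟨600, 601, 1000⟩, ⟨250, 400, 10000⟩, ⟨10400, 11600, 10000⟩⟩ where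
  pp := bot6B_pp
  k2p := bot6B_k2p
  k2m := bot6B_k2m
  v2p := bot6B_v2p
  v2m := bot6B_v2m
  v3p := bot6B_v3p
  v3m := bot6B_v3m
  tg := Bool.forall_bool.2 ⟨bot6B_tg0, bot6B_tg1⟩
  c2p := Bool.forall_bool.2 ⟨bot6B_c2p0, bot6B_c2p1⟩
  c2m := Bool.forall_bool.2 ⟨bot6B_c2m0, bot6B_c2m1⟩
  kap := Bool.forall_bool.2 ⟨bot6B_kap0, bot6B_kap1⟩
  c1 := Bool.forall_bool.2 ⟨bot6B_c10, bot6B_c11⟩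
  c3p := Bool.forall_bool.2 ⟨bot6B_c3p0, bot6B_c3p1⟩
  c3m := Bool.forall_bool.2 ⟨bot6B_c3m0, bot6B_c3m1⟩
  tmg := Bool.forall_bool.2 ⟨bot6B_tmg0, bot6B_tmg1⟩
  high := .inl (Bool.forall_bool.2 ⟨⟨bot6B_neg0, bot6B_neglo0⟩, ⟨bot6B_neg1, bot6B_neglo1⟩⟩)
  vG := bot6B_vG
  vMG := bot6B_vMG
  ak := bot6B_ak
  aw := bot6B_aw
  gk := bot6B_gk
  gw := bot6B_gw
  ek := bot6B_ek
  ew := bot6B_ew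

end Vale.Agent.P100.Calib.Closed.High
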