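import Vale.Agent.P100.Calib.SlabHighBotData

/-!
# Checks of the signs of a piece of the tail
-/

set_option linter.defProp false

namespace Vale.Agent.P100.Calib.Closed.High

open BoxPos Large

def bot7B_vG : PosBox ⟨⟨0, 1, 1⟩, ⟨600, 601, 1000⟩, ⟨250, 400, 10000⟩, ⟨11600, 13000, 10000⟩⟩ (hVG) :=
  posBox_of_check (c := ⟨178, ⟨0, 5, 8, 3⟩⟩) (by decide +kernel)

def bot7B_vMG : PosBox ⟨⟨0, 1, 1⟩, ⟨600, 601, 1000⟩, ⟨250, 400, 10000⟩, ⟨11600, 13000, 10000⟩⟩ (hVMG) :=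
  posBox_of_check (c := ⟨191, ⟨0, 4, 8, 4⟩⟩) (by decide +kernel)

def bot7B_ak : PosBox ⟨⟨0, 1, 1⟩, ⟨600, 601, 1000⟩, ⟨250, 400, 10000⟩, ⟨11600, 13000, 10000⟩⟩ (hAk) :=
  posBox_of_check (c := ⟨173, ⟨0, 4, 6, 4⟩⟩) (by decide +kernel)

def bot7B_aw : PosBox ⟨⟨0, 1, 1⟩, ⟨600, 601, 1000⟩, ⟨250, 400, 10000⟩, ⟨11600, 13000, 10000⟩⟩ (hAw) :=
  posBox_of_check (c := ⟨170, ⟨0, 5, 7, 3⟩⟩) (by decide +kernel)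

def bot7B_gk : PosBox ⟨⟨0, 1, 1⟩, ⟨600, 601, 1000⟩, ⟨250, 400, 10000⟩, ⟨11600, 13000, 10000⟩⟩ (hGk) :=
  posBox_of_check (c := ⟨173, ⟨0, 4, 6, 4⟩⟩) (by decide +kernel)

def bot7B_gw : PosBox ⟨⟨0, 1, 1⟩, ⟨600, 601, 1000⟩, ⟨250, 400, 10000⟩, ⟨11600, 13000, 10000⟩⟩ (hGw) :=
  posBox_of_check (c := ⟨170, ⟨0, 5, 7, 3⟩⟩) (by decide +kernel)

def bot7B_ek : PosBox ⟨⟨0, 1, 1⟩, ⟨600, 601, 1000⟩, ⟨250, 400, 10000⟩, ⟨11600, 13000, 10000⟩⟩ (hMk) :=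
  posBox_of_check (c := ⟨104, ⟨0, 2, 3, 3⟩⟩) (by decide +kernel)

def bot7B_ew : PosBox ⟨⟨0, 1, 1⟩, ⟨600, 601, 1000⟩, ⟨250, 400, 10000⟩, ⟨11600, 13000, 10000⟩⟩ (hMw) :=
  posBox_of_check (c := ⟨100, ⟨0, 3, 4, 2⟩⟩) (by decide +kernel)

def bot7B_pp : PosBox ⟨⟨0, 1, 1⟩, ⟨600, 601, 1000⟩, ⟨250, 400, 10000⟩, ⟨11600, 13000, 10000⟩⟩ (bot7B.xPL) :=
  posBox_of_check (c := ⟨85, ⟨1, 1, 2, 3⟩⟩) (by decide +kernel)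

def bot7B_k2p : PosBox ⟨⟨0, 1, 1⟩, ⟨600, 601, 1000⟩, ⟨250, 400, 10000⟩, ⟨11600, 13000, 10000⟩⟩ (bot7B.k2p bot7B.xE) :=
  posBox_of_check (c := ⟨67, ⟨1, 1, 1, 2⟩⟩) (by decide +kernel)

def bot7B_k2m : PosBox ⟨⟨0, 1, 1⟩, ⟨600, 601, 1000⟩, ⟨250, 400, 10000⟩, ⟨11600, 13000, 10000⟩⟩ (bot7B.k2m bot7B.xE) :=
  posBox_of_check (c := ⟨28, ⟨0, 0, 1, 1⟩⟩) (by decide +kernel)

def bot7B_v2p : PosBox ⟨⟨0, 1, 1⟩, ⟨600, 601, 1000⟩, ⟨250, 400, 10000⟩, ⟨11600, 13000, 10000⟩⟩ (bot7B.hV2p) :=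
  posBox_of_check (c := ⟨244, ⟨1, 6, 10, 5⟩⟩) (by decide +kernel)

def bot7B_v2m : PosBox ⟨⟨0, 1, 1⟩, ⟨600, 601, 1000⟩, ⟨250, 400, 10000⟩, ⟨11600, 13000, 10000⟩⟩ (bot7B.hV2m) :=
  posBox_of_check (c := ⟨233, ⟨0, 5, 10, 5⟩⟩) (by decide +kernel)

def bot7B_v3p : PosBox ⟨⟨0, 1, 1⟩, ⟨600, 601, 1000⟩, ⟨250, 400, 10000⟩, ⟨11600, 13000, 10000⟩⟩ (bot7B.hV3p) :=
  posBox_of_check (c := ⟨212, ⟨1, 6, 9, 4⟩⟩) (by decide +kernel)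

def bot7B_v3m : PosBox ⟨⟨0, 1, 1⟩, ⟨600, 601, 1000⟩, ⟨250, 400, 10000⟩, ⟨11600, 13000, 10000⟩⟩ (bot7B.hV3m) :=
  posBox_of_check (c := ⟨208, ⟨0, 5, 9, 4⟩⟩) (by decide +kernel)

def bot7B_kap0 : PosBox ⟨⟨0, 1, 1⟩, ⟨600, 601, 1000⟩, ⟨250, 400, 10000⟩, ⟨11600, 13000, 10000⟩⟩ (bot7B.kap false) :=
  posBox_of_check (c := ⟨69, ⟨1, 1, 1, 2⟩⟩) (by decide +kernel)

def bot7B_tg0 : PosBox ⟨⟨0, 1, 1⟩, ⟨600, 601, 1000⟩, ⟨250, 400, 10000⟩, ⟨11600, 13000, 10000⟩⟩ (bot7B.hG (bot7B.pEnd false)) :=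
  posBox_of_check (c := ⟨339, ⟨2, 7, 12, 9⟩⟩) (by decide +kernel)

def bot7B_c2p0 : PosBox ⟨⟨0, 1, 1⟩, ⟨600, 601, 1000⟩, ⟨250, 400, 10000⟩, ⟨11600, 13000, 10000⟩⟩ (bot7B.hC2p (bot7B.pEnd false)) :=
  posBox_of_check (c := ⟨406, ⟨3, 8, 14, 11⟩⟩) (by decide +kernel)

def bot7B_c2m0 : PosBox ⟨⟨0, 1, 1⟩, ⟨600, 601, 1000⟩, ⟨250, 400, 10000⟩, ⟨11600, 13000, 10000⟩⟩ (bot7B.hC2m (bot7B.pEnd false)) :=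
  posBox_of_check (c := ⟨399, ⟨2, 7, 14, 11⟩⟩) (by decide +kernel)

def bot7B_c10 : PosBox ⟨⟨0, 1, 1⟩, ⟨600, 601, 1000⟩, ⟨250, 400, 10000⟩, ⟨11600, 13000, 10000⟩⟩ (bot7B.hC1 false) :=
  posBox_of_check (c := ⟨244, ⟨3, 5, 8, 7⟩⟩) (by decide +kernel)

def bot7B_c3p0 : PosBox ⟨⟨0, 1, 1⟩, ⟨600, 601, 1000⟩, ⟨250, 400, 10000⟩, ⟨11600, 13000, 10000⟩⟩ (bot7B.hC3p false) :=
  posBox_of_check (c := ⟨380, ⟨3, 8, 13, 10⟩⟩) (by decide +kernel)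

def bot7B_c3m0 : PosBox ⟨⟨0, 1, 1⟩, ⟨600, 601, 1000⟩, ⟨250, 400, 10000⟩, ⟨11600, 13000, 10000⟩⟩ (bot7B.hC3m false) :=
  posBox_of_check (c := ⟨379, ⟨3, 7, 13, 10⟩⟩) (by decide +kernel)

def bot7B_tmg0 : PosBox ⟨⟨0, 1, 1⟩, ⟨600, 601, 1000⟩, ⟨250, 400, 10000⟩, ⟨11600, 13000, 10000⟩⟩ (bot7B.hTMG (bot7B.pEnd false)) :=
  posBox_of_check (c := ⟨359, ⟨2, 7, 12, 10⟩⟩) (by decide +kernel)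

def bot7B_neg0 : PosBox ⟨⟨0, 1, 1⟩, ⟨600, 601, 1000⟩, ⟨250, 400, 10000⟩, ⟨11600, 13000, 10000⟩⟩ (bot7B.hNeg (bot7B.pEnd false)) :=
  posBox_of_check (c := ⟨238, ⟨2, 5, 8, 7⟩⟩) (by decide +kernel)

def bot7B_neglo0 : PosBox ⟨⟨0, 1, 1⟩, ⟨600, 601, 1000⟩, ⟨250, 400, 10000⟩, ⟨11600, 13000, 10000⟩⟩ (bot7B.hNegLo (bot7B.pEnd false)) :=
  posBox_of_check (c := ⟨238, ⟨2, 5, 8, 7⟩⟩) (by decide +kernel)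

def bot7B_kap1 : PosBox ⟨⟨0, 1, 1⟩, ⟨600, 601, 1000⟩, ⟨250, 400, 10000⟩, ⟨11600, 13000, 10000⟩⟩ (bot7B.kap true) :=
  posBox_of_check (c := ⟨71, ⟨1, 1, 1, 2⟩⟩) (by decide +kernel)

def bot7B_tg1 : PosBox ⟨⟨0, 1, 1⟩, ⟨600, 601, 1000⟩, ⟨250, 400, 10000⟩, ⟨11600, 13000, 10000⟩⟩ (bot7B.hG (bot7B.pEnd true)) :=
  posBox_of_check (c := ⟨341, ⟨2, 7, 12, 9⟩⟩) (by decide +kernel)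

def bot7B_c2p1 : PosBox ⟨⟨0, 1, 1⟩, ⟨600, 601, 1000⟩, ⟨250, 400, 10000⟩, ⟨11600, 13000, 10000⟩⟩ (bot7B.hC2p (bot7B.pEnd true)) :=
  posBox_of_check (c := ⟨408, ⟨3, 8, 14, 11⟩⟩) (by decide +kernel)

def bot7B_c2m1 : PosBox ⟨⟨0, 1, 1⟩, ⟨600, 601, 1000⟩, ⟨250, 400, 10000⟩, ⟨11600, 13000, 10000⟩⟩ (bot7B.hC2m (bot7B.pEnd true)) :=
  posBox_of_check (c := ⟨399, ⟨2, 7, 14, 11⟩⟩) (by decide +kernel)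

def bot7B_c11 : PosBox ⟨⟨0, 1, 1⟩, ⟨600, 601, 1000⟩, ⟨250, 400, 10000⟩, ⟨11600, 13000, 10000⟩⟩ (bot7B.hC1 true) :=
  posBox_of_check (c := ⟨245, ⟨3, 5, 8, 7⟩⟩) (by decide +kernel)

def bot7B_c3p1 : PosBox ⟨⟨0, 1, 1⟩, ⟨600, 601, 1000⟩, ⟨250, 400, 10000⟩, ⟨11600, 13000, 10000⟩⟩ (bot7B.hC3p true) :=
  posBox_of_check (c := ⟨380, ⟨3, 8, 13, 10⟩⟩) (by decide +kernel)

def bot7B_c3m1 : PosBox ⟨⟨0, 1, 1⟩, ⟨600, 601, 1000⟩, ⟨250, 400, 10000⟩, ⟨11600, 13000, 10000⟩⟩ (bot7B.hC3m true) :=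
  posBox_of_check (c := ⟨378, ⟨3, 7, 13, 10⟩⟩) (by decide +kernel)

def bot7B_tmg1 : PosBox ⟨⟨0, 1, 1⟩, ⟨600, 601, 1000⟩, ⟨250, 400, 10000⟩, ⟨11600, 13000, 10000⟩⟩ (bot7B.hTMG (bot7B.pEnd true)) :=
  posBox_of_check (c := ⟨358, ⟨2, 7, 12, 10⟩⟩) (by decide +kernel)

def bot7B_neg1 : PosBox ⟨⟨0, 1, 1⟩, ⟨600, 601, 1000⟩, ⟨250, 400, 10000⟩, ⟨11600, 13000, 10000⟩⟩ (bot7B.hNeg (bot7B.pEnd true)) :=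
  posBox_of_check (c := ⟨240, ⟨2, 5, 8, 7⟩⟩) (by decide +kernel)

def bot7B_neglo1 : PosBox ⟨⟨0, 1, 1⟩, ⟨600, 601, 1000⟩, ⟨250, 400, 10000⟩, ⟨11600, 13000, 10000⟩⟩ (bot7B.hNegLo (bot7B.pEnd true)) :=
  posBox_of_check (c := ⟨240, ⟨2, 5, 8, 7⟩⟩) (by decide +kernel)

/-- The checks on the signs. -/
theorem bot7B_sign : bot7B.Sign ⟨⟨0, 1, 1⟩, ⟨600, 601, 1000⟩, ⟨250, 400, 10000⟩, ⟨11600, 13000, 10000⟩⟩ where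
  pp := bot7B_pp
  k2p := bot7B_k2p
  k2m := bot7B_k2m
  v2p := bot7B_v2p
  v2m := bot7B_v2m
  v3p := bot7B_v3p
  v3m := bot7B_v3m
  tg := Bool.forall_bool.2 ⟨bot7B_tg0, bot7B_tg1⟩
  c2p := Bool.forall_bool.2 ⟨bot7B_c2p0, bot7B_c2p1⟩
  c2m := Bool.forall_bool.2 ⟨bot7B_c2m0, bot7B_c2m1⟩
  kap := Bool.forall_bool.2 ⟨bot7B_kap0, bot7B_kap1⟩
  c1 := Bool.forall_bool.2 ⟨bot7B_c10, bot7B_c11⟩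
  c3p := Bool.forall_bool.2 ⟨bot7B_c3p0, bot7B_c3p1⟩
  c3m := Bool.forall_bool.2 ⟨bot7B_c3m0, bot7B_c3m1⟩
  tmg := Bool.forall_bool.2 ⟨bot7B_tmg0, bot7B_tmg1⟩
  high := .inl (Bool.forall_bool.2 ⟨⟨bot7B_neg0, bot7B_neglo0⟩, ⟨bot7B_neg1, bot7B_neglo1⟩⟩)
  vG := bot7B_vG
  vMG := bot7B_vMG
  ak := bot7B_ak
  aw := bot7B_aw
  gk := bot7B_gk
  gw := bot7B_gw
  ek := bot7B_ek
  ew := bot7B_ew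

end Vale.Agent.P100.Calib.Closed.High
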