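import Vale.Agent.P100.Calib.SlabHighBotData

/-!
# Checks of the signs of a piece of the tail
-/

set_option linter.defProp false

namespace Vale.Agent.P100.Calib.Closed.High

open BoxPos Large

def bot8_vG : PosBox ⟨⟨0, 1, 1⟩, ⟨600, 601, 1000⟩, ⟨250, 501, 10000⟩, ⟨13000, 16000, 10000⟩⟩ (hVG) :=
  posBox_of_check (c := ⟨178, ⟨0, 5, 8, 3⟩⟩) (by decide +kernel)

def bot8_vMG : PosBox ⟨⟨0, 1, 1⟩, ⟨600, 601, 1000⟩, ⟨250, 501, 10000⟩, ⟨13000, 16000, 10000⟩⟩ (hVMG) :=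
  posBox_of_check (c := ⟨191, ⟨0, 4, 8, 4⟩⟩) (by decide +kernel)

def bot8_ak : PosBox ⟨⟨0, 1, 1⟩, ⟨600, 601, 1000⟩, ⟨250, 501, 10000⟩, ⟨13000, 16000, 10000⟩⟩ (hAk) :=
  posBox_of_check (c := ⟨174, ⟨0, 4, 6, 4⟩⟩) (by decide +kernel)

def bot8_aw : PosBox ⟨⟨0, 1, 1⟩, ⟨600, 601, 1000⟩, ⟨250, 501, 10000⟩, ⟨13000, 16000, 10000⟩⟩ (hAw) :=
  posBox_of_check (c := ⟨170, ⟨0, 5, 7, 3⟩⟩) (by decide +kernel)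

def bot8_gk : PosBox ⟨⟨0, 1, 1⟩, ⟨600, 601, 1000⟩, ⟨250, 501, 10000⟩, ⟨13000, 16000, 10000⟩⟩ (hGk) :=
  posBox_of_check (c := ⟨174, ⟨0, 4, 6, 4⟩⟩) (by decide +kernel)

def bot8_gw : PosBox ⟨⟨0, 1, 1⟩, ⟨600, 601, 1000⟩, ⟨250, 501, 10000⟩, ⟨13000, 16000, 10000⟩⟩ (hGw) :=
  posBox_of_check (c := ⟨170, ⟨0, 5, 7, 3⟩⟩) (by decide +kernel)

def bot8_ek : PosBox ⟨⟨0, 1, 1⟩, ⟨600, 601, 1000⟩, ⟨250, 501, 10000⟩, ⟨13000, 16000, 10000⟩⟩ (hMk) :=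
  posBox_of_check (c := ⟨104, ⟨0, 2, 3, 3⟩⟩) (by decide +kernel)

def bot8_ew : PosBox ⟨⟨0, 1, 1⟩, ⟨600, 601, 1000⟩, ⟨250, 501, 10000⟩, ⟨13000, 16000, 10000⟩⟩ (hMw) :=
  posBox_of_check (c := ⟨100, ⟨0, 3, 4, 2⟩⟩) (by decide +kernel)

def bot8_pp : PosBox ⟨⟨0, 1, 1⟩, ⟨600, 601, 1000⟩, ⟨250, 501, 10000⟩, ⟨13000, 16000, 10000⟩⟩ (bot8.xPL) :=
  posBox_of_check (c := ⟨81, ⟨1, 1, 2, 3⟩⟩) (by decide +kernel)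

def bot8_k2p : PosBox ⟨⟨0, 1, 1⟩, ⟨600, 601, 1000⟩, ⟨250, 501, 10000⟩, ⟨13000, 16000, 10000⟩⟩ (bot8.k2p bot8.xE) :=
  posBox_of_check (c := ⟨68, ⟨1, 1, 1, 2⟩⟩) (by decide +kernel)

def bot8_k2m : PosBox ⟨⟨0, 1, 1⟩, ⟨600, 601, 1000⟩, ⟨250, 501, 10000⟩, ⟨13000, 16000, 10000⟩⟩ (bot8.k2m bot8.xE) :=
  posBox_of_check (c := ⟨27, ⟨0, 0, 1, 1⟩⟩) (by decide +kernel)

def bot8_v2p : PosBox ⟨⟨0, 1, 1⟩, ⟨600, 601, 1000⟩, ⟨250, 501, 10000⟩, ⟨13000, 16000, 10000⟩⟩ (bot8.hV2p) :=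
  posBox_of_check (c := ⟨244, ⟨1, 6, 10, 5⟩⟩) (by decide +kernel)

def bot8_v2m : PosBox ⟨⟨0, 1, 1⟩, ⟨600, 601, 1000⟩, ⟨250, 501, 10000⟩, ⟨13000, 16000, 10000⟩⟩ (bot8.hV2m) :=
  posBox_of_check (c := ⟨234, ⟨0, 5, 10, 5⟩⟩) (by decide +kernel)

def bot8_v3p : PosBox ⟨⟨0, 1, 1⟩, ⟨600, 601, 1000⟩, ⟨250, 501, 10000⟩, ⟨13000, 16000, 10000⟩⟩ (bot8.hV3p) :=
  posBox_of_check (c := ⟨212, ⟨1, 6, 9, 4⟩⟩) (by decide +kernel)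

def bot8_v3m : PosBox ⟨⟨0, 1, 1⟩, ⟨600, 601, 1000⟩, ⟨250, 501, 10000⟩, ⟨13000, 16000, 10000⟩⟩ (bot8.hV3m) :=
  posBox_of_check (c := ⟨208, ⟨0, 5, 9, 4⟩⟩) (by decide +kernel)

def bot8_kap0 : PosBox ⟨⟨0, 1, 1⟩, ⟨600, 601, 1000⟩, ⟨250, 501, 10000⟩, ⟨13000, 16000, 10000⟩⟩ (bot8.kap false) :=
  posBox_of_check (c := ⟨66, ⟨1, 1, 1, 2⟩⟩) (by decide +kernel)

def bot8_tg0 : PosBox ⟨⟨0, 1, 1⟩, ⟨600, 601, 1000⟩, ⟨250, 501, 10000⟩, ⟨13000, 16000, 10000⟩⟩ (bot8.hG (bot8.pEnd false)) :=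
  posBox_of_check (c := ⟨332, ⟨2, 7, 12, 9⟩⟩) (by decide +kernel)

def bot8_c2p0 : PosBox ⟨⟨0, 1, 1⟩, ⟨600, 601, 1000⟩, ⟨250, 501, 10000⟩, ⟨13000, 16000, 10000⟩⟩ (bot8.hC2p (bot8.pEnd false)) :=
  posBox_of_check (c := ⟨399, ⟨3, 8, 14, 11⟩⟩) (by decide +kernel)

def bot8_c2m0 : PosBox ⟨⟨0, 1, 1⟩, ⟨600, 601, 1000⟩, ⟨250, 501, 10000⟩, ⟨13000, 16000, 10000⟩⟩ (bot8.hC2m (bot8.pEnd false)) :=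
  posBox_of_check (c := ⟨392, ⟨2, 7, 14, 11⟩⟩) (by decide +kernel)

def bot8_c10 : PosBox ⟨⟨0, 1, 1⟩, ⟨600, 601, 1000⟩, ⟨250, 501, 10000⟩, ⟨13000, 16000, 10000⟩⟩ (bot8.hC1 false) :=
  posBox_of_check (c := ⟨238, ⟨3, 5, 8, 7⟩⟩) (by decide +kernel)

def bot8_c3p0 : PosBox ⟨⟨0, 1, 1⟩, ⟨600, 601, 1000⟩, ⟨250, 501, 10000⟩, ⟨13000, 16000, 10000⟩⟩ (bot8.hC3p false) :=
  posBox_of_check (c := ⟨372, ⟨3, 8, 13, 10⟩⟩) (by decide +kernel)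

def bot8_c3m0 : PosBox ⟨⟨0, 1, 1⟩, ⟨600, 601, 1000⟩, ⟨250, 501, 10000⟩, ⟨13000, 16000, 10000⟩⟩ (bot8.hC3m false) :=
  posBox_of_check (c := ⟨370, ⟨3, 7, 13, 10⟩⟩) (by decide +kernel)

def bot8_tmg0 : PosBox ⟨⟨0, 1, 1⟩, ⟨600, 601, 1000⟩, ⟨250, 501, 10000⟩, ⟨13000, 16000, 10000⟩⟩ (bot8.hTMG (bot8.pEnd false)) :=
  posBox_of_check (c := ⟨352, ⟨2, 7, 12, 10⟩⟩) (by decide +kernel)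

def bot8_neg0 : PosBox ⟨⟨0, 1, 1⟩, ⟨600, 601, 1000⟩, ⟨250, 501, 10000⟩, ⟨13000, 16000, 10000⟩⟩ (bot8.hNeg (bot8.pEnd false)) :=
  posBox_of_check (c := ⟨233, ⟨2, 5, 8, 7⟩⟩) (by decide +kernel)

def bot8_neglo0 : PosBox ⟨⟨0, 1, 1⟩, ⟨600, 601, 1000⟩, ⟨250, 501, 10000⟩, ⟨13000, 16000, 10000⟩⟩ (bot8.hNegLo (bot8.pEnd false)) :=
  posBox_of_check (c := ⟨233, ⟨2, 5, 8, 7⟩⟩) (by decide +kernel)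

def bot8_kap1 : PosBox ⟨⟨0, 1, 1⟩, ⟨600, 601, 1000⟩, ⟨250, 501, 10000⟩, ⟨13000, 16000, 10000⟩⟩ (bot8.kap true) :=
  posBox_of_check (c := ⟨70, ⟨1, 1, 1, 2⟩⟩) (by decide +kernel)

def bot8_tg1 : PosBox ⟨⟨0, 1, 1⟩, ⟨600, 601, 1000⟩, ⟨250, 501, 10000⟩, ⟨13000, 16000, 10000⟩⟩ (bot8.hG (bot8.pEnd true)) :=
  posBox_of_check (c := ⟨340, ⟨2, 7, 12, 9⟩⟩) (by decide +kernel)

def bot8_c2p1 : PosBox ⟨⟨0, 1, 1⟩, ⟨600, 601, 1000⟩, ⟨250, 501, 10000⟩, ⟨13000, 16000, 10000⟩⟩ (bot8.hC2p (bot8.pEnd true)) :=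
  posBox_of_check (c := ⟨407, ⟨3, 8, 14, 11⟩⟩) (by decide +kernel)

def bot8_c2m1 : PosBox ⟨⟨0, 1, 1⟩, ⟨600, 601, 1000⟩, ⟨250, 501, 10000⟩, ⟨13000, 16000, 10000⟩⟩ (bot8.hC2m (bot8.pEnd true)) :=
  posBox_of_check (c := ⟨399, ⟨2, 7, 14, 11⟩⟩) (by decide +kernel)

def bot8_c11 : PosBox ⟨⟨0, 1, 1⟩, ⟨600, 601, 1000⟩, ⟨250, 501, 10000⟩, ⟨13000, 16000, 10000⟩⟩ (bot8.hC1 true) :=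
  posBox_of_check (c := ⟨242, ⟨3, 5, 8, 7⟩⟩) (by decide +kernel)

def bot8_c3p1 : PosBox ⟨⟨0, 1, 1⟩, ⟨600, 601, 1000⟩, ⟨250, 501, 10000⟩, ⟨13000, 16000, 10000⟩⟩ (bot8.hC3p true) :=
  posBox_of_check (c := ⟨378, ⟨3, 8, 13, 10⟩⟩) (by decide +kernel)

def bot8_c3m1 : PosBox ⟨⟨0, 1, 1⟩, ⟨600, 601, 1000⟩, ⟨250, 501, 10000⟩, ⟨13000, 16000, 10000⟩⟩ (bot8.hC3m true) :=
  posBox_of_check (c := ⟨377, ⟨3, 7, 13, 10⟩⟩) (by decide +kernel)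

def bot8_tmg1 : PosBox ⟨⟨0, 1, 1⟩, ⟨600, 601, 1000⟩, ⟨250, 501, 10000⟩, ⟨13000, 16000, 10000⟩⟩ (bot8.hTMG (bot8.pEnd true)) :=
  posBox_of_check (c := ⟨358, ⟨2, 7, 12, 10⟩⟩) (by decide +kernel)

def bot8_neg1 : PosBox ⟨⟨0, 1, 1⟩, ⟨600, 601, 1000⟩, ⟨250, 501, 10000⟩, ⟨13000, 16000, 10000⟩⟩ (bot8.hNeg (bot8.pEnd true)) :=
  posBox_of_check (c := ⟨237, ⟨2, 5, 8, 7⟩⟩) (by decide +kernel)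

def bot8_neglo1 : PosBox ⟨⟨0, 1, 1⟩, ⟨600, 601, 1000⟩, ⟨250, 501, 10000⟩, ⟨13000, 16000, 10000⟩⟩ (bot8.hNegLo (bot8.pEnd true)) :=
  posBox_of_check (c := ⟨237, ⟨2, 5, 8, 7⟩⟩) (by decide +kernel)

/-- The checks on the signs. -/
theorem bot8_sign : bot8.Sign ⟨⟨0, 1, 1⟩, ⟨600, 601, 1000⟩, ⟨250, 501, 10000⟩, ⟨13000, 16000, 10000⟩⟩ where
  pp := bot8_pp
  k2p := bot8_k2p
  k2m := bot8_k2m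
  v2p := bot8_v2p
  v2m := bot8_v2m
  v3p := bot8_v3p
  v3m := bot8_v3m
  tg := Bool.forall_bool.2 ⟨bot8_tg0, bot8_tg1⟩
  c2p := Bool.forall_bool.2 ⟨bot8_c2p0, bot8_c2p1⟩
  c2m := Bool.forall_bool.2 ⟨bot8_c2m0, bot8_c2m1⟩
  kap := Bool.forall_bool.2 ⟨bot8_kap0, bot8_kap1⟩
  c1 := Bool.forall_bool.2 ⟨bot8_c10, bot8_c11⟩
  c3p := Bool.forall_bool.2 ⟨bot8_c3p0, bot8_c3p1⟩
  c3m := Bool.forall_bool.2 ⟨bot8_c3m0, bot8_c3m1⟩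
  tmg := Bool.forall_bool.2 ⟨bot8_tmg0, bot8_tmg1⟩
  high := .inl (Bool.forall_bool.2 ⟨⟨bot8_neg0, bot8_neglo0⟩, ⟨bot8_neg1, bot8_neglo1⟩⟩)
  vG := bot8_vG
  vMG := bot8_vMG
  ak := bot8_ak
  aw := bot8_aw
  gk := bot8_gk
  gw := bot8_gw
  ek := bot8_ek
  ew := bot8_ew

end Vale.Agent.P100.Calib.Closed.High
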