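import Vale.Agent.P100.Calib.SlabHighTail
import Vale.Agent.P100.Calib.SlabHighBotBands

/-!
# From the bands of the tail at `d ≤ 1/20` to the pieces of its certificate
-/

set_option linter.unusedVariables false

namespace Vale.Agent.P100.Calib.Closed.High

open BoxPos Large

/-- A point of the chart of the tail at `d ≤ 1/20`. -/
structure BotPt (d S u v t : ℝ) : Prop where
  dpos : 0 < d
  S_pos : 0 < S
  S_lt : S < 1
  facts : ChartFacts d S u v t
  llg : 0 ≤ LLG ((S - d) / 2) d v (chG d S u v t) (chW d S u v t) (chW1 d S u v t) (chR S u)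
    (eVal d v (chW d S u v t) (chR S u)) (kVal d (chW d S u v t) (chR S u))

theorem BotPt.v_pos {d S u v t : ℝ} (T : BotPt d S u v t) : 0 < v := by
  have := T.facts.v_low
  linarith

/-- `u` is placed between the ends of a piece, the upper end excluded. -/
theorem xU_place' {P : Piece} {S d v u : ℝ} (h₀ : noO P.u₀ = true) (h₁ : noO P.u₁ = true)
    (hlo : P.u₀.val 0 S d v ≤ u) (hhi : u < P.u₁.val 0 S d v) :
    ∃ o : ℝ, (⟨0, 1, 1⟩ : Side).Mem o ∧ P.xU.val o S d v = u := by
  set L := P.u₀.val 0 S d v with hL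
  set U := P.u₁.val 0 S d v with hU
  have hg : 0 < U - L := by linarith
  refine ⟨(u - L) / (U - L), ?_, ?_⟩
  · simp only [Side.Mem]
    push_cast
    refine ⟨?_, ?_⟩
    · rw [zero_div]; exact div_nonneg (by linarith) hg.le
    · rw [div_one, div_lt_one hg]; linarith
  · simp only [Piece.xU, ex_add, ex_mul, ex_sub, Ex.val, val_noO h₀ _ 0, val_noO h₁ _ 0, ← hU, ← hL]
    field_simp
    ring

/-- No point of the chart in an empty piece. -/
theorem bot_none {P : Piece} {b : Box} (E : P.Empty b) (hb₀ : b.s₀ = ⟨0, 1, 1⟩) {d S u v t : ℝ}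
    (T : BotPt d S u v t) (mS : b.s₁.Mem S) (md : b.s₂.Mem d) (mv : b.s₃.Mem v)
    (hu : ∃ o : ℝ, (⟨0, 1, 1⟩ : Side).Mem o ∧ P.xU.val o S d v = u)
    (hL : ∀ o, P.xU.val o S d v = u → (P.tLn P.xU).val o S d v ≤ t * (P.tLd P.xU).val o S d v)
    (hU : ∀ o, P.xU.val o S d v = u → t * (P.tUd P.xU).val o S d v ≤ (P.tUn P.xU).val o S d v) :
    False := by
  obtain ⟨o, mo, hu⟩ := hu
  rw [← hb₀] at mo
  exact E.false mo mS md mv T.dpos T.S_pos T.S_lt T.v_pos T.facts hu (hL o hu) (hU o hu)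

/-- The closed signs on a piece. -/
theorem bot_piece {P : Piece} {b : Box} (E : P.Env b) (C : P.Sign b) (hb₀ : b.s₀ = ⟨0, 1, 1⟩)
    (hc : P.consts.all noO = true) {d S u v t : ℝ} (T : BotPt d S u v t) (mS : b.s₁.Mem S)
    (md : b.s₂.Mem d) (mv : b.s₃.Mem v)
    (hu : ∃ o : ℝ, (⟨0, 1, 1⟩ : Side).Mem o ∧ P.xU.val o S d v = u)
    (hL : ∀ o, P.xU.val o S d v = u → (P.tLn P.xU).val o S d v ≤ t * (P.tLd P.xU).val o S d v)
    (hU : ∀ o, P.xU.val o S d v = u → t * (P.tUd P.xU).val o S d v ≤ (P.tUn P.xU).val o S d v) :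
    ChartSigns d S u v t := by
  obtain ⟨o, mo, hu⟩ := hu
  rw [← hb₀] at mo
  exact (chart_place E mo mS md mv T.dpos T.S_pos T.S_lt T.v_pos T.facts hu (hL o hu)
    (hU o hu)).signs C hc hb₀ mS md mv T.dpos T.S_pos T.S_lt T.v_pos T.facts T.llg

/-- The closed signs on a piece cut in `e`. -/
theorem bot_cut {P : Piece} {b : Box} {cut : Ex} {pU' : Bnd} {f g h k : Ex → Ex}
    (E : P.Env b) (E' : ({ P with pU := pU' } : Piece).Env b) (CA : (P.below cut).Sign b)
    (CB : ({ P.above cut pU' with k2p := f, k2m := g, kapL := h, kapU := k } : Piece).Sign b)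
    (hb₀ : b.s₀ = ⟨0, 1, 1⟩) (hcA : (P.below cut).consts.all noO = true)
    (hcB : (P.above cut pU').consts.all noO = true) {d S u v t : ℝ} (T : BotPt d S u v t)
    (mS : b.s₁.Mem S) (md : b.s₂.Mem d) (mv : b.s₃.Mem v)
    (hu : ∃ o : ℝ, (⟨0, 1, 1⟩ : Side).Mem o ∧ P.xU.val o S d v = u)
    (hL : ∀ o, P.xU.val o S d v = u → (P.tLn P.xU).val o S d v ≤ t * (P.tLd P.xU).val o S d v)
    (hU : ∀ o, P.xU.val o S d v = u → t * (P.tUd P.xU).val o S d v ≤ (P.tUn P.xU).val o S d v) :
    ChartSigns d S u v t := by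
  obtain ⟨o, mo, hu⟩ := hu
  rw [← hb₀] at mo
  have L := chart_place E mo mS md mv T.dpos T.S_pos T.S_lt T.v_pos T.facts hu (hL o hu) (hU o hu)
  rcases lt_or_ge (chE d S u v t) (cut.val o S d v) with hc | hc
  · exact (L.below hc).signs CA hcA hb₀ mS md mv T.dpos T.S_pos T.S_lt T.v_pos T.facts T.llg
  · have L' := chart_place E' mo mS md mv T.dpos T.S_pos T.S_lt T.v_pos T.facts hu (hL o hu)
      (hU o hu)
    exact ((L.above hc L'.p_high).mults f g h k).signs CB hcB hb₀ mS md mv T.dpos T.S_pos T.S_lt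
      T.v_pos T.facts T.llg

section
variable {d S u v t o : ℝ} {x V : Ex}

theorem botPhi_lt (h : 0 < (botPhi x V).val o S d v) (hd0 : 0 ≤ d) (hd1 : d ≤ 1 / 20)
    (hx : x.val o S d v ≤ 1) (hu : u ≤ x.val o S d v) : bandsBot.phi d u < V.val o S d v := by
  simp only [botPhi, ex_sub, ex_add, ex_mul, Ex.val] at h
  push_cast at h
  simp only [div_one] at h
  simp only [bandsBot]
  have hd2 : d * d ≤ d * (1 / 20) := mul_le_mul_of_nonneg_left hd1 hd0
  have hc : (0 : ℝ) < 1369 / 10000 + 4375 / 10000 * d + 13704 / 10000 * (d * d) := by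
    nlinarith [mul_self_nonneg d]
  refine (exit_mono (by linarith) (by nlinarith [mul_self_nonneg d]) hc (by norm_num)
    (show (0 : ℝ) ≤ 1 - x.val o S d v by linarith) (by linarith)).trans_lt
    (exit_lt (by linarith) (by linarith) ?_)
  linarith only [h]

theorem bot_low_le (hu : u ≤ 1) (hd0 : 0 ≤ d) (h : bandsBot.low d u < t)
    (hx : x.val o S d v = u) : (botTn x).val o S d v ≤ t * (botTd x).val o S d v := by
  have ha : (0 : ℝ) < 1 - u + 1373 / 10000 := by linarith
  have hb : (0 : ℝ) < 1 - u + 362 / 10000 := by linarith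
  have hQ : (0 : ℝ) < 1 + 66 / 5 * d + 292 / 5 * d ^ 2 := by positivity
  have hpos := mul_pos hQ (mul_pos ha hb)
  have key := mul_le_mul_of_nonneg_right h.le hpos.le
  simp only [botTn, botTd, ex_sub, ex_add, ex_mul, Ex.val, hx]
  push_cast
  simp only [div_one]
  simp only [bandsBot] at key
  rw [low_frac ha.ne' hb.ne' hQ.ne'] at key
  linarith only [key]

theorem bot_up_frac {A B C D T x a b c : ℝ} (ha : a ≠ 0) (hb : b ≠ 0) (hc : c ≠ 0) :
    (A / a + B + C * (x / b) + D * (x / c) + T * v) * (a * (b * c)) =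
      A * (b * c) + a * ((B + T * v) * (b * c) + x * (C * c + D * b)) := by
  field_simp
  ring

theorem bot_up_le (hu : u < 1) (hd0 : 0 ≤ d) (h : t < bandsBot.up d u + bandsBot.tilt d * v)
    (hx : x.val o S d v = u) : t * (botUd x).val o S d v ≤ (botUn x).val o S d v := by
  have ha : (0 : ℝ) < 1 - u + 21003 / 10000 * d := by linarith
  have hb : (0 : ℝ) < 1 - u + 714 / 10000 := by linarith
  have hc : (0 : ℝ) < 1 - u + 24 / 100000 := by linarith
  have hpos := mul_pos ha (mul_pos hb hc)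
  have key := mul_le_mul_of_nonneg_right h.le hpos.le
  simp only [botUn, botUd, ex_sub, ex_add, ex_mul, Ex.val, hx]
  push_cast
  simp only [div_one]
  simp only [bandsBot] at key
  rw [bot_up_frac ha.ne' hb.ne' hc.ne'] at key
  linarith only [key]

end

end Vale.Agent.P100.Calib.Closed.High
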