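import Vale.Agent.P100.Calib.SlabHighBands

/-!
# The pieces of the certificate on the tail
-/

namespace Vale.Agent.P100.Calib.Closed.High

open BoxPos Large

local instance highDataAdd : Add Ex := ⟨Ex.add⟩
local instance highDataSub : Sub Ex := ⟨Ex.sub⟩
local instance highDataMul : Mul Ex := ⟨Ex.mul⟩

/-- A piece: `0.35 ≤ v < 0.4`. -/
def mid0 : Piece where
  u₀ := cC (39) 40
  u₁ := cC (3) 5
  tLn := midTn
  tLd := midTd
  tUn := midUn
  tUd := midUd
  p₀ := cC (238409) 10000 + cC (-197687) 10000 * xD + cC (-39003) 10000 * xV + cC (104021) 10000 * (xD * xV) + cC (161355) 10000 * (xD * xD) + cC (-176771) 10000 * xS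
  k2p := fun _ => cC 0
  k2m := fun _ => cC 0
  kapL := fun _ => cC 0
  kapU := fun _ => cC 0
  eL := ⟨cC 0, cC 0, cC 0, cC 0, cC 0⟩
  eH := ⟨cC 0, cC 0, cC 0, cC 0, cC 0⟩
  pL := ⟨cC 0, cC 0, cC 0, cC 0, cC 0⟩
  pU := ⟨cC 0, cC 0, cC 0, cC 1, cC 0⟩
  kU := ⟨cC 0, cC 0, cC 0, cC 0, cC 0⟩
  kL := ⟨cC 0, cC 0, cC 0, cC 0, cC 0⟩
  wU := ⟨cC 0, cC 0, cC 0, cC 0, cC 0⟩
  wL := ⟨cC 0, cC 0, cC 0, cC 0, cC 0⟩

/-- A piece: `0.4 ≤ v < 1.1`. -/
def mid1 : Piece where
  u₀ := cC (39) 40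
  u₁ := cC (3) 5
  tLn := midTn
  tLd := midTd
  tUn := midUn
  tUd := midUd
  p₀ := cC (236459) 10000 + cC (-188218) 10000 * xD + cC (-38957) 10000 * xV + cC (102686) 10000 * (xD * xV) + cC (112062) 10000 * (xD * xD) + cC (-174193) 10000 * xS
  k2p := fun e => cC (-123754) 10000 + cC (574167) 10000 * xD + cC (76624) 10000 * xV + cC (-2333) 10000 * e
  k2m := fun e => cC (-7496) 10000 + cC (433) 10000 * xD + cC (5817) 10000 * xV + cC (-184) 10000 * e
  kapL := fun e => cC (-80469) 10000 + cC (65311) 10000 * xD + cC (271024) 10000 * xV + cC (-826) 10000 * e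
  kapU := fun e => cC (-226851) 10000 + cC (-218668) 10000 * xD + cC (485231) 10000 * xV + cC (-4511) 10000 * e
  eL := ⟨cC (191646) 10000 + cC (-486167) 10000 * xD + cC (-422) 10000 * xV + cC (283003) 10000 * (xD * xV) + cC (-1009956) 10000 * xS,
    cC 0,
    cC 0,
    cC 0,
    cC 0⟩
  eH := ⟨cC (-233970) 10000 + cC (329030) 10000 * xD + cC (355919) 10000 * xV + cC (-875567) 10000 * (xD * xV) + cC (-313152) 10000 * xS,
    cC 0,
    cC 0,
    cC (57460) 10000,
    cC 0⟩
  pL := ⟨cC (236137) 10000 + cC (-188218) 10000 * xD + cC (-38957) 10000 * xV + cC (102686) 10000 * (xD * xV) + cC (112062) 10000 * (xD * xD) + cC (-174193) 10000 * xS,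
    cC 0,
    cC 0,
    cC (10000) 10000,
    cC 0⟩
  pU := ⟨cC (304381) 10000 + cC (5385) 10000 * xD + cC (-114502) 10000 * xV + cC (-147343) 10000 * (xD * xV) + cC (55232) 10000 * (xV * xV) + cC (119159) 10000 * (xD * xD) + cC (-270569) 10000 * xS,
    cC (425) 10000 + cC (3348) 10000 * xD + cC (-2221) 10000 * xV,
    cC 0,
    cC 0,
    cC 0⟩
  kU := ⟨cC (11223) 10000 + cC (-47671) 10000 * xD + cC (-1381) 10000 * xV + cC (16478) 10000 * (xD * xV) + cC (-3924) 10000 * (xV * xV) + cC (182677) 10000 * (xD * xD) + cC (-4598) 10000 * xS,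
    cC (-180) 10000 + cC (9626) 10000 * xD + cC (59) 10000 * xV,
    cC (-1352) 10000 + cC (4338) 10000 * xD + cC (936) 10000 * xV,
    cC 0,
    cC 0⟩
  kL := ⟨cC (-16890) 10000 + cC (-7363) 10000 * xD + cC (-687) 10000 * xV + cC (-2583) 10000 * (xD * xV) + cC (4547) 10000 * (xV * xV) + cC (157885) 10000 * (xD * xD) + cC (18996) 10000 * xS,
    cC (71) 10000 + cC (8805) 10000 * xD + cC (-71) 10000 * xV,
    cC (1146) 10000 + cC (1212) 10000 * xD + cC (-926) 10000 * xV,
    cC 0,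
    cC 0⟩
  wU := ⟨cC (1875158) 10000 + cC (-2067329) 10000 * xD + cC (-156539) 10000 * xV + cC (1324316) 10000 * (xD * xV) + cC (-583313) 10000 * (xV * xV) + cC (117692) 10000 * (xD * xD) + cC (-1372352) 10000 * xS,
    cC (-17831) 10000 + cC (48202) 10000 * xD + cC (9052) 10000 * xV,
    cC (-197516) 10000 + cC (138488) 10000 * xD + cC (143452) 10000 * xV,
    cC 0,
    cC 0⟩
  wL := ⟨cC (-548348) 10000 + cC (540847) 10000 * xD + cC (3765) 10000 * xV + cC (-130601) 10000 * (xD * xV) + cC (79241) 10000 * (xV * xV) + cC (50817) 10000 * (xD * xD) + cC (717941) 10000 * xS,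
    cC (2649) 10000 + cC (-12566) 10000 * xD + cC (-1673) 10000 * xV,
    cC (10953) 10000 + cC (-60373) 10000 * xD + cC (-18102) 10000 * xV,
    cC 0,
    cC 0⟩

/-- A piece: `1.1 ≤ v < 1.4`. -/
def mid2 : Piece where
  u₀ := cC (39) 40
  u₁ := cC (38) 1000 + cC (328) 1000 * xD + cC (469) 1000 * xV
  tLn := midTn
  tLd := midTd
  tUn := midUn
  tUd := midUd
  p₀ := cC (242317) 10000 + cC (-174580) 10000 * xD + cC (-38921) 10000 * xV + cC (102825) 10000 * (xD * xV) + cC (27285) 10000 * (xD * xD) + cC (-184748) 10000 * xS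
  k2p := fun e => cC (114218) 10000 + cC (745792) 10000 * xD + cC (-102954) 10000 * xV + cC (-688) 10000 * e
  k2m := fun _ => cC (-612) 10000 + cC (10685) 10000 * xD + cC (140) 10000 * xV
  kapL := fun e => cC (-694797) 10000 + cC (344125) 10000 * xD + cC (621973) 10000 * xV + cC (-8269) 10000 * e
  kapU := fun e => cC (-241644) 10000 + cC (28894) 10000 * xD + cC (496426) 10000 * xV + cC (-3994) 10000 * e
  eL := ⟨cC (-380577) 10000 + cC (199902) 10000 * xD + cC (474124) 10000 * xV + cC (-49305) 10000 * (xD * xV) + cC (-1000416) 10000 * xS,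
    cC 0,
    cC 0,
    cC 0,
    cC 0⟩
  eH := ⟨cC (-161301) 10000 + cC (696833) 10000 * xD + cC (202384) 10000 * xV + cC (-513272) 10000 * (xD * xV) + cC (-281082) 10000 * xS,
    cC 0,
    cC 0,
    cC (38460) 10000,
    cC 0⟩
  pL := ⟨cC (173858) 10000 + cC (272239) 10000 * xD + cC (-19464) 10000 * xV + cC (13129) 10000 * (xD * xV) + cC (1890) 10000 * (xV * xV) + cC (-1324508) 10000 * (xD * xD) + cC (-198498) 10000 * xS,
    cC (-18) 10000 + cC (2890) 10000 * xD + cC (-1350) 10000 * xV,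
    cC 0,
    cC 0,
    cC 0⟩
  pU := ⟨cC (299793) 10000 + cC (274085) 10000 * xD + cC (-71359) 10000 * xV + cC (-10264) 10000 * (xD * xV) + cC (24714) 10000 * (xV * xV) + cC (-1303513) 10000 * (xD * xD) + cC (-322252) 10000 * xS,
    cC (34) 10000 + cC (7409) 10000 * xD + cC (-2133) 10000 * xV,
    cC 0,
    cC 0,
    cC 0⟩
  kU := ⟨cC (-1045) 10000 + cC (-29755) 10000 * xD + cC (-1039) 10000 * xV + cC (6104) 10000 * (xD * xV) + cC (94) 10000 * (xV * xV) + cC (184608) 10000 * (xD * xD) + cC (5253) 10000 * xS,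
    cC (-46) 10000 + cC (9104) 10000 * xD + cC (-7) 10000 * xV,
    cC (-143) 10000 + cC (2595) 10000 * xD + cC (42) 10000 * xV,
    cC 0,
    cC 0⟩
  kL := ⟨cC (-2325) 10000 + cC (-14491) 10000 * xD + cC (336) 10000 * xV + cC (2854) 10000 * (xD * xV) + cC (-408) 10000 * (xV * xV) + cC (122031) 10000 * (xD * xD) + cC (4837) 10000 * xS,
    cC (-48) 10000 + cC (9060) 10000 * xD + cC (-7) 10000 * xV,
    cC (-185) 10000 + cC (2221) 10000 * xD + cC (80) 10000 * xV,
    cC 0,
    cC 0⟩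
  wU := ⟨cC (-4048) 10000 + cC (406953) 10000 * xD + cC (-66755) 10000 * xV + cC (-131362) 10000 * (xD * xV) + cC (58) 10000 * (xV * xV) + cC (-253703) 10000 * (xD * xD) + cC (204618) 10000 * xS,
    cC (-1293) 10000 + cC (6669) 10000 * xD + cC (-1368) 10000 * xV,
    cC (-28365) 10000 + cC (-20079) 10000 * xD + cC (8018) 10000 * xV,
    cC 0,
    cC 0⟩
  wL := ⟨cC (89156) 10000 + cC (740144) 10000 * xD + cC (55877) 10000 * xV + cC (-190781) 10000 * (xD * xV) + cC (-65592) 10000 * (xV * xV) + cC (-1757051) 10000 * (xD * xD) + cC (-26076) 10000 * xS,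
    cC (-2974) 10000 + cC (5782) 10000 * xD + cC (-938) 10000 * xV,
    cC (-49798) 10000 + cC (-17945) 10000 * xD + cC (19863) 10000 * xV,
    cC 0,
    cC 0⟩

/-- A piece: `1.4 ≤ v < 2.15`. -/
def mid3 : Piece where
  u₀ := cC (39) 40
  u₁ := cC (425) 1000 + cC (150) 1000 * xD + cC (207) 1000 * xV
  tLn := midTn
  tLd := midTd
  tUn := midUn
  tUd := midUd
  p₀ := cC (245667) 10000 + cC (-154564) 10000 * xD + cC (-38739) 10000 * xV + cC (101209) 10000 * (xD * xV) + cC (-71393) 10000 * (xD * xD) + cC (-192005) 10000 * xS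
  k2p := fun e => cC (58777) 10000 + cC (528219) 10000 * xD + cC (-39126) 10000 * xV + cC (-800) 10000 * e
  k2m := fun _ => cC (-1517) 10000 + cC (27001) 10000 * xD + cC (204) 10000 * xV
  kapL := fun e => cC (-931223) 10000 + cC (282072) 10000 * xD + cC (668243) 10000 * xV + cC (-17064) 10000 * e
  kapU := fun e => cC (-180570) 10000 + cC (195733) 10000 * xD + cC (367560) 10000 * xV + cC (-10241) 10000 * e
  eL := ⟨cC (-372525) 10000 + cC (-207672) 10000 * xD + cC (245540) 10000 * xV + cC (82043) 10000 * (xD * xV) + cC (-8325) 10000 * (xV * xV) + cC (501742) 10000 * (xD * xD) + cC (-421738) 10000 * xS,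
    cC 0,
    cC 0,
    cC 0,
    cC 0⟩
  eH := ⟨cC (-50798) 10000 + cC (-805962) 10000 * xD + cC (18616) 10000 * xV + cC (314800) 10000 * (xD * xV) + cC (-4233) 10000 * (xV * xV) + cC (467759) 10000 * (xD * xD) + cC (-5585) 10000 * xS,
    cC 0,
    cC 0,
    cC 0,
    cC 0⟩
  pL := ⟨cC (182534) 10000 + cC (175109) 10000 * xD + cC (-24426) 10000 * xV + cC (9767) 10000 * (xD * xV) + cC (2511) 10000 * (xV * xV) + cC (-686534) 10000 * (xD * xD) + cC (-198708) 10000 * xS,
    cC (472) 10000 + cC (4042) 10000 * xD + cC (-1770) 10000 * xV,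
    cC 0,
    cC 0,
    cC 0⟩
  pU := ⟨cC (309280) 10000 + cC (251721) 10000 * xD + cC (-73569) 10000 * xV + cC (122511) 10000 * (xD * xV) + cC (14634) 10000 * (xV * xV) + cC (-2117704) 10000 * (xD * xD) + cC (-312064) 10000 * xS,
    cC (1171) 10000 + cC (7921) 10000 * xD + cC (-2965) 10000 * xV,
    cC 0,
    cC 0,
    cC 0⟩
  kU := ⟨cC (-1044) 10000 + cC (-34165) 10000 * xD + cC (-509) 10000 * xV + cC (3894) 10000 * (xD * xV) + cC (25) 10000 * (xV * xV) + cC (195295) 10000 * (xD * xD) + cC (4939) 10000 * xS,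
    cC (-43) 10000 + cC (9042) 10000 * xD + cC (-8) 10000 * xV,
    cC (-147) 10000 + cC (3060) 10000 * xD + cC (20) 10000 * xV,
    cC 0,
    cC 0⟩
  kL := ⟨cC (-2592) 10000 + cC (-17965) 10000 * xD + cC (-222) 10000 * xV + cC (1130) 10000 * (xD * xV) + cC (-32) 10000 * (xV * xV) + cC (131221) 10000 * (xD * xD) + cC (6037) 10000 * xS,
    cC (-58) 10000 + cC (9142) 10000 * xD + cC (-5) 10000 * xV,
    cC (-205) 10000 + cC (3049) 10000 * xD + cC (47) 10000 * xV,
    cC 0,
    cC 0⟩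
  wU := ⟨cC (-102620) 10000 + cC (380671) 10000 * xD + cC (-18716) 10000 * xV + cC (-127371) 10000 * (xD * xV) + cC (944) 10000 * (xV * xV) + cC (-68221) 10000 * (xD * xD) + cC (251517) 10000 * xS,
    cC (-1270) 10000 + cC (7796) 10000 * xD + cC (-1450) 10000 * xV,
    cC (-20004) 10000 + cC (-18748) 10000 * xD + cC (2201) 10000 * xV,
    cC 0,
    cC 0⟩
  wL := ⟨cC (31108) 10000 + cC (376938) 10000 * xD + cC (-30815) 10000 * xV + cC (-138229) 10000 * (xD * xV) + cC (1059) 10000 * (xV * xV) + cC (-63543) 10000 * (xD * xD) + cC (66517) 10000 * xS,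
    cC (-1692) 10000 + cC (6925) 10000 * xD + cC (-1621) 10000 * xV,
    cC (-28302) 10000 + cC (-15149) 10000 * xD + cC (5375) 10000 * xV,
    cC 0,
    cC 0⟩

/-- A piece: `2.15 ≤ v < 3.15`. -/
def mid4 : Piece where
  u₀ := cC (39) 40
  u₁ := cC (732) 1000 + cC (95) 1000 * xD + cC (67) 1000 * xV
  tLn := midTn
  tLd := midTd
  tUn := midUn
  tUd := midUd
  p₀ := cC (252791) 10000 + cC (-143030) 10000 * xD + cC (-39111) 10000 * xV + cC (105438) 10000 * (xD * xV) + cC (-214170) 10000 * (xD * xD) + cC (-203615) 10000 * xS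
  k2p := fun e => cC (-276296) 10000 + cC (542648) 10000 * xD + cC (66688) 10000 * xV + cC (-10131) 10000 * e
  k2m := fun e => cC (-27667) 10000 + cC (52145) 10000 * xD + cC (7445) 10000 * xV + cC (-727) 10000 * e
  kapL := fun e => cC (-1346621) 10000 + cC (-106737) 10000 * xD + cC (868676) 10000 * xV + cC (-18523) 10000 * e
  kapU := fun e => cC (-7572025) 10000 + cC (3122337) 10000 * xD + cC (2288567) 10000 * xV + cC (-279776) 10000 * e
  eL := ⟨cC (-308208) 10000 + cC (-32801) 10000 * xD + cC (120760) 10000 * xV + cC (48398) 10000 * (xD * xV) + cC (-7502) 10000 * (xV * xV) + cC (-202615) 10000 * (xD * xD) + cC (-93324) 10000 * xS,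
    cC 0,
    cC 0,
    cC 0,
    cC 0⟩
  eH := ⟨cC (-136459) 10000 + cC (232726) 10000 * xD + cC (65755) 10000 * xV + cC (-56391) 10000 * (xD * xV) + cC (-8944) 10000 * (xV * xV) + cC (-875785) 10000 * (xD * xD) + cC (-10003) 10000 * xS,
    cC 0,
    cC 0,
    cC 0,
    cC (-123588) 10000 + cC (1002085) 10000 * xD + cC (48037) 10000 * xV + cC (-277145) 10000 * (xD * xV)⟩
  pL := ⟨cC (194394) 10000 + cC (22325) 10000 * xD + cC (-29334) 10000 * xV + cC (13254) 10000 * (xD * xV) + cC (2659) 10000 * (xV * xV) + cC (129237) 10000 * (xD * xD) + cC (-194653) 10000 * xS,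
    cC (2014) 10000 + cC (4480) 10000 * xD + cC (-2623) 10000 * xV,
    cC 0,
    cC 0,
    cC 0⟩
  pU := ⟨cC (1488469) 10000 + cC (-6857181) 10000 * xD + cC (-399690) 10000 * xV + cC (1497578) 10000 * (xD * xV) + cC (10105) 10000 * (xV * xV) + cC (5392637) 10000 * (xD * xD) + cC (-55821) 10000 * xS,
    cC (39870) 10000 + cC (-184204) 10000 * xD + cC (-1157) 10000 * xV,
    cC 0,
    cC 0,
    cC 0⟩
  kU := ⟨cC (-1140) 10000 + cC (-29392) 10000 * xD + cC (-73) 10000 * xV + cC (1438) 10000 * (xD * xV) + cC (-3) 10000 * (xV * xV) + cC (170787) 10000 * (xD * xD) + cC (3891) 10000 * xS,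
    cC (-27) 10000 + cC (8915) 10000 * xD + cC (-10) 10000 * xV,
    cC (-117) 10000 + cC (3503) 10000 * xD + cC (-2) 10000 * xV,
    cC 0,
    cC 0⟩
  kL := ⟨cC (-1544) 10000 + cC (-16569) 10000 * xD + cC (-200) 10000 * xV + cC (374) 10000 * (xD * xV) + cC (6) 10000 * (xV * xV) + cC (117516) 10000 * (xD * xD) + cC (4193) 10000 * xS,
    cC (-20) 10000 + cC (8780) 10000 * xD + cC (-12) 10000 * xV,
    cC (-178) 10000 + cC (3105) 10000 * xD + cC (27) 10000 * xV,
    cC 0,
    cC 0⟩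
  wU := ⟨cC (-20811) 10000 + cC (128341) 10000 * xD + cC (-19844) 10000 * xV + cC (-50405) 10000 * (xD * xV) + cC (2004) 10000 * (xV * xV) + cC (64023) 10000 * (xD * xD) + cC (120682) 10000 * xS,
    cC (-780) 10000 + cC (7507) 10000 * xD + cC (-1615) 10000 * xV,
    cC (-17256) 10000 + cC (-11484) 10000 * xD + cC (667) 10000 * xV,
    cC 0,
    cC (815) 10000 + cC (-16272) 10000 * xD + cC (-378) 10000 * xV + cC (7568) 10000 * (xD * xV)⟩
  wL := ⟨cC (-21204) 10000 + cC (274305) 10000 * xD + cC (-18480) 10000 * xV + cC (-78393) 10000 * (xD * xV) + cC (2248) 10000 * (xV * xV) + cC (-62497) 10000 * (xD * xD) + cC (98367) 10000 * xS,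
    cC (-2044) 10000 + cC (8686) 10000 * xD + cC (-1471) 10000 * xV,
    cC (-19985) 10000 + cC (-16291) 10000 * xD + cC (1582) 10000 * xV,
    cC 0,
    cC 0⟩

/-- The cut of `mid4`. -/
def mid4Cut : Ex :=
  cC (-402312) 10000 + cC (1249677) 10000 * xD + cC (193879) 10000 * xV + cC (-223204) 10000 * (xD * xV) + cC (-18775) 10000 * (xV * xV) + cC (-2958163) 10000 * (xD * xD) + cC (-145921) 10000 * xS

/-- The bound of `p` above the cut. -/
def mid4PU : Bnd :=
  ⟨cC (199420) 10000 + cC (1974805) 10000 * xD + cC (60183) 10000 * xV + cC (-479169) 10000 * (xD * xV) + cC (-10534) 10000 * (xV * xV) + cC (-4082423) 10000 * (xD * xD) + cC (-443300) 10000 * xS,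
    cC (6431) 10000 + cC (13441) 10000 * xD + cC (-5592) 10000 * xV,
    cC 0,
    cC 0,
    cC (-69479) 10000 + cC (-960507) 10000 * xD + cC (29143) 10000 * xV + cC (510225) 10000 * (xD * xV)⟩

/-- `mid4` below the cut. -/
def mid4A : Piece :=
  mid4.below mid4Cut

/-- `mid4` above the cut. -/
def mid4B : Piece :=
  { mid4.above mid4Cut mid4PU with
    k2p := fun e => cC (-3834) 10000 + cC (392482) 10000 * xD + cC (-4448) 10000 * xV + cC (-695) 10000 * e
    k2m := fun _ => cC (-3637) 10000 + cC (64386) 10000 * xD + cC (321) 10000 * xV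
    kapL := fun e => cC (-1878526) 10000 + cC (-1294305) 10000 * xD + cC (1061952) 10000 * xV + cC (-45866) 10000 * e
    kapU := fun e => cC (-216010) 10000 + cC (-882399) 10000 * xD + cC (349296) 10000 * xV + cC (-28067) 10000 * e }

/-- A piece: `3.15 ≤ v < 3.76`. -/
def mid5 : Piece where
  u₀ := cC (39) 40
  u₁ := cC (858) 1000 + cC (73) 1000 * xD + cC (28) 1000 * xV
  tLn := midTn
  tLd := midTd
  tUn := evN
  tUd := evD
  p₀ := cC (259705) 10000 + cC (-129748) 10000 * xD + cC (-39113) 10000 * xV + cC (105252) 10000 * (xD * xV) + cC (-301265) 10000 * (xD * xD) + cC (-215714) 10000 * xS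
  k2p := fun e => cC (62473) 10000 + cC (226962) 10000 * xD + cC (-17113) 10000 * xV + cC (3284) 10000 * e
  k2m := fun e => cC (-56111) 10000 + cC (78354) 10000 * xD + cC (12559) 10000 * xV + cC (-2792) 10000 * e
  kapL := fun e => cC (11095157) 10000 + cC (-593474) 10000 * xD + cC (-1220103) 10000 * xV + cC (1118525) 10000 * e
  kapU := fun e => cC (-30098496) 10000 + cC (-23043) 10000 * xD + cC (7848143) 10000 * xV + cC (-1385543) 10000 * e
  eL := ⟨cC (-218546) 10000 + cC (432847) 10000 * xD + cC (66692) 10000 * xV + cC (-119492) 10000 * (xD * xV) + cC (-2884) 10000 * (xV * xV) + cC (-26867) 10000 * xS,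
    cC 0,
    cC 0,
    cC 0,
    cC (607200) 10000 + cC (-12143961) 10000 * xD + cC (-192761) 10000 * xV + cC (3855226) 10000 * (xD * xV)⟩
  eH := ⟨cC (-38266) 10000 + cC (-130692) 10000 * xD + cC (8662) 10000 * xV + cC (12983) 10000 * (xD * xV) + cC (-12732) 10000 * xS,
    cC 0,
    cC 0,
    cC 0,
    cC (944475) 10000 + cC (-16695828) 10000 * xD + cC (-290288) 10000 * xV + cC (5222348) 10000 * (xD * xV)⟩
  pL := ⟨cC (-59356) 10000 + cC (918998) 10000 * xD + cC (165976) 10000 * xV + cC (-230593) 10000 * (xD * xV) + cC (-24967) 10000 * (xV * xV) + cC (-355144) 10000 * xS,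
    cC (729) 10000 + cC (35616) 10000 * xD + cC (-2961) 10000 * xV,
    cC 0,
    cC 0,
    cC 0⟩
  pU := ⟨cC (1658202) 10000 + cC (-10927103) 10000 * xD + cC (-342020) 10000 * xV + cC (2449915) 10000 * (xD * xV) + cC (2257) 10000 * (xV * xV) + cC (-303311) 10000 * xS,
    cC (72514) 10000 + cC (-648974) 10000 * xD + cC (526) 10000 * xV,
    cC 0,
    cC 0,
    cC (690129) 10000 + cC (-13802520) 10000 * xD + cC (-229399) 10000 * xV + cC (4587978) 10000 * (xD * xV)⟩
  kU := ⟨cC (-957) 10000 + cC (18551) 10000 * xD + cC (73) 10000 * xV + cC (-4091) 10000 * (xD * xV) + cC (16) 10000 * (xV * xV) + cC (549) 10000 * xS,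
    cC (21) 10000 + cC (7827) 10000 * xD + cC (-7) 10000 * xV,
    cC (-60) 10000 + cC (2218) 10000 * xD + cC (5) 10000 * xV,
    cC 0,
    cC (66944) 10000 + cC (-1338783) 10000 * xD + cC (-21251) 10000 * xV + cC (425010) 10000 * (xD * xV)⟩
  kL := ⟨cC (-258) 10000 + cC (18579) 10000 * xD + cC (-1635) 10000 * xV + cC (-4657) 10000 * (xD * xV) + cC (283) 10000 * (xV * xV) + cC (3779) 10000 * xS,
    cC (72) 10000 + cC (5741) 10000 * xD + cC (42) 10000 * xV,
    cC (-222) 10000 + cC (939) 10000 * xD + cC (99) 10000 * xV,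
    cC 0,
    cC (-10452) 10000 + cC (85340) 10000 * xD + cC (3319) 10000 * xV + cC (-27092) 10000 * (xD * xV)⟩
  wU := ⟨cC (37958) 10000 + cC (169851) 10000 * xD + cC (-40701) 10000 * xV + cC (-43023) 10000 * (xD * xV) + cC (5390) 10000 * (xV * xV) + cC (65912) 10000 * xS,
    cC (17) 10000 + cC (4088) 10000 * xD + cC (-1876) 10000 * xV,
    cC (-15689) 10000 + cC (-24533) 10000 * xD + cC (508) 10000 * xV,
    cC 0,
    cC (65286) 10000 + cC (-1305686) 10000 * xD + cC (-20725) 10000 * xV + cC (414504) 10000 * (xD * xV)⟩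
  wL := ⟨cC (27034) 10000 + cC (160763) 10000 * xD + cC (-35170) 10000 * xV + cC (-40261) 10000 * (xD * xV) + cC (4558) 10000 * (xV * xV) + cC (67129) 10000 * xS,
    cC (-2824) 10000 + cC (13209) 10000 * xD + cC (-1330) 10000 * xV,
    cC (-19173) 10000 + cC (-15350) 10000 * xD + cC (1280) 10000 * xV,
    cC 0,
    cC (26790) 10000 + cC (-535740) 10000 * xD + cC (-8504) 10000 * xV + cC (170076) 10000 * (xD * xV)⟩

/-- The cut of `mid5`. -/
def mid5Cut : Ex :=
  cC (-289330) 10000 + cC (265875) 10000 * xD + cC (113729) 10000 * xV + cC (-77896) 10000 * (xD * xV) + cC (-10356) 10000 * (xV * xV) + cC (-24584) 10000 * xS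

/-- The bound of `p` above the cut. -/
def mid5PU : Bnd :=
  ⟨cC (419970) 10000 + cC (-372071) 10000 * xD + cC (-61502) 10000 * xV + cC (161359) 10000 * (xD * xV) + cC (2336) 10000 * (xV * xV) + cC (-397978) 10000 * xS,
    cC (-21445) 10000 + cC (115559) 10000 * xD + cC (686) 10000 * xV,
    cC 0,
    cC 0,
    cC (968005) 10000 + cC (-14704485) 10000 * xD + cC (-214223) 10000 * xV + cC (4100681) 10000 * (xD * xV)⟩

/-- `mid5` below the cut. -/
def mid5A : Piece :=
  mid5.below mid5Cut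

/-- `mid5` above the cut. -/
def mid5B : Piece :=
  { mid5.above mid5Cut mid5PU with
    k2p := fun e => cC (1397) 10000 + cC (225462) 10000 * xD + cC (-3653) 10000 * xV + cC (-836) 10000 * e
    k2m := fun _ => cC (-16574) 10000 + cC (64386) 10000 * xD + cC (4428) 10000 * xV
    kapL := fun e => cC (-14704210) 10000 + cC (-11825549) 10000 * xD + cC (5371750) 10000 * xV + cC (-85952) 10000 * e
    kapU := fun e => cC (2938982) 10000 + cC (-1170216) 10000 * xD + cC (918849) 10000 * xV + cC (1001739) 10000 * e }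

/-- A piece: `3.76 ≤ v < 4.12`. -/
def mid6 : Piece where
  u₀ := cC (39) 40
  u₁ := cC (937) 1000 + cC (57) 1000 * xD + cC (7) 1000 * xV
  tLn := midTn
  tLd := midTd
  tUn := midUn
  tUd := midUd
  p₀ := cC (263687) 10000 + cC (-116378) 10000 * xD + cC (-39023) 10000 * xV + cC (102450) 10000 * (xD * xV) + cC (-319801) 10000 * (xD * xD) + cC (-222991) 10000 * xS
  k2p := fun _ => cC 0
  k2m := fun _ => cC 0
  kapL := fun _ => cC 0
  kapU := fun _ => cC 0
  eL := ⟨cC 0, cC 0, cC 0, cC 0, cC 0⟩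
  eH := ⟨cC 0, cC 0, cC 0, cC 0, cC 0⟩
  pL := ⟨cC 0, cC 0, cC 0, cC 0, cC 0⟩
  pU := ⟨cC 0, cC 0, cC 0, cC 0, cC (10000) 10000⟩
  kU := ⟨cC 0, cC 0, cC 0, cC 0, cC 0⟩
  kL := ⟨cC 0, cC 0, cC 0, cC 0, cC 0⟩
  wU := ⟨cC 0, cC 0, cC 0, cC 0, cC 0⟩
  wL := ⟨cC 0, cC 0, cC 0, cC 0, cC 0⟩

/-- A piece: `0.35 ≤ v < 0.41`. -/
def top7 : Piece where
  u₀ := cC (4) 5
  u₁ := cC (3) 5
  tLn := topTn
  tLd := topTd
  tUn := topUn
  tUd := topUd
  p₀ := cC (219624) 10000 + cC (-177230) 10000 * xD + cC (-37011) 10000 * xV + cC (85882) 10000 * (xD * xV) + cC (119403) 10000 * (xD * xD) + cC (-148531) 10000 * xS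
  k2p := fun _ => cC 0
  k2m := fun _ => cC 0
  kapL := fun _ => cC 0
  kapU := fun _ => cC 0
  eL := ⟨cC 0, cC 0, cC 0, cC 0, cC 0⟩
  eH := ⟨cC 0, cC 0, cC 0, cC 0, cC 0⟩
  pL := ⟨cC 0, cC 0, cC 0, cC 0, cC 0⟩
  pU := ⟨cC 0, cC 0, cC 0, cC 1, cC 0⟩
  kU := ⟨cC 0, cC 0, cC 0, cC 0, cC 0⟩
  kL := ⟨cC 0, cC 0, cC 0, cC 0, cC 0⟩
  wU := ⟨cC 0, cC 0, cC 0, cC 0, cC 0⟩
  wL := ⟨cC 0, cC 0, cC 0, cC 0, cC 0⟩

/-- A piece: `0.41 ≤ v < 0.83`. -/
def top8 : Piece where
  u₀ := cC (4) 5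
  u₁ := cC (3) 5
  tLn := topTn
  tLd := topTd
  tUn := topUn
  tUd := topUd
  p₀ := cC (217376) 10000 + cC (-166148) 10000 * xD + cC (-36764) 10000 * xV + cC (84125) 10000 * (xD * xV) + cC (88214) 10000 * (xD * xD) + cC (-146365) 10000 * xS
  k2p := fun e => cC (-174341) 10000 + cC (553892) 10000 * xD + cC (134049) 10000 * xV + cC (-1123) 10000 * e
  k2m := fun e => cC (-51310) 10000 + cC (182138) 10000 * xD + cC (29928) 10000 * xV + cC (-420) 10000 * e
  kapL := fun e => cC (-282124) 10000 + cC (-240145) 10000 * xD + cC (567126) 10000 * xV + cC (-2905) 10000 * e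
  kapU := fun e => cC (-355394) 10000 + cC (-454063) 10000 * xD + cC (685091) 10000 * xV + cC (-4231) 10000 * e
  eL := ⟨cC (-19366) 10000 + cC (96659) 10000 * xD + cC (437386) 10000 * xV + cC (-498973) 10000 * (xD * xV) + cC (-230410) 10000 * (xV * xV) + cC (-993665) 10000 * xS,
    cC 0,
    cC 0,
    cC (4054) 10000,
    cC 0⟩
  eH := ⟨cC (-744430) 10000 + cC (2062281) 10000 * xD + cC (1191202) 10000 * xV + cC (-3974172) 10000 * (xD * xV) + cC (131903) 10000 * (xV * xV) + cC (-505935) 10000 * xS,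
    cC 0,
    cC 0,
    cC (115432) 10000,
    cC 0⟩
  pL := ⟨cC (215887) 10000 + cC (-144787) 10000 * xD + cC (-36904) 10000 * xV + cC (84997) 10000 * (xD * xV) + cC (-146365) 10000 * xS,
    cC (28) 10000 + cC (-173) 10000 * xD,
    cC 0,
    cC (10000) 10000,
    cC 0⟩
  pU := ⟨cC (165409) 10000 + cC (222667) 10000 * xD + cC (837) 10000 * xV + cC (-372760) 10000 * (xD * xV) + cC (56350) 10000 * (xV * xV) + cC (-191777) 10000 * xS,
    cC (-827) 10000 + cC (3114) 10000 * xD + cC (-535) 10000 * xV,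
    cC 0,
    cC 0,
    cC 0⟩
  kU := ⟨cC (726130) 10000 + cC (-679018) 10000 * xD + cC (-325374) 10000 * xV + cC (1017090) 10000 * (xD * xV) + cC (-319462) 10000 * (xV * xV) + cC (-435133) 10000 * xS,
    cC (-4707) 10000 + cC (13692) 10000 * xD + cC (4511) 10000 * xV,
    cC (-71019) 10000 + cC (876) 10000 * xD + cC (85944) 10000 * xV,
    cC 0,
    cC 0⟩
  kL := ⟨cC (-343129) 10000 + cC (367253) 10000 * xD + cC (122125) 10000 * xV + cC (-348573) 10000 * (xD * xV) + cC (137598) 10000 * (xV * xV) + cC (220800) 10000 * xS,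
    cC (2186) 10000 + cC (5902) 10000 * xD + cC (-1888) 10000 * xV,
    cC (33015) 10000 + cC (-10979) 10000 * xD + cC (-36455) 10000 * xV,
    cC 0,
    cC 0⟩
  wU := ⟨cC (6360660) 10000 + cC (-6551682) 10000 * xD + cC (-2774579) 10000 * xV + cC (8896697) 10000 * (xD * xV) + cC (-2780794) 10000 * (xV * xV) + cC (-3585760) 10000 * xS,
    cC (-37402) 10000 + cC (28137) 10000 * xD + cC (36189) 10000 * xV,
    cC (-628146) 10000 + cC (-30438) 10000 * xD + cC (730360) 10000 * xV,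
    cC 0,
    cC 0⟩
  wL := ⟨cC (-9524618) 10000 + cC (8982240) 10000 * xD + cC (3941513) 10000 * xV + cC (-11888594) 10000 * (xD * xV) + cC (4042755) 10000 * (xV * xV) + cC (6155328) 10000 * xS,
    cC (63402) 10000 + cC (-76939) 10000 * xD + cC (-58777) 10000 * xV,
    cC (908861) 10000 + cC (-125930) 10000 * xD + cC (-1091305) 10000 * xV,
    cC 0,
    cC 0⟩

/-- A piece: `0.83 ≤ v < 1.15`. -/
def top9 : Piece where
  u₀ := cC (4) 5
  u₁ := cC (3) 5
  tLn := topTn
  tLd := topTd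
  tUn := topUn
  tUd := topUd
  p₀ := cC (222407) 10000 + cC (-154886) 10000 * xD + cC (-36790) 10000 * xV + cC (84309) 10000 * (xD * xV) + cC (50707) 10000 * (xD * xD) + cC (-156042) 10000 * xS
  k2p := fun e => cC (-307026) 10000 + cC (325044) 10000 * xD + cC (257448) 10000 * xV + cC (-2701) 10000 * e
  k2m := fun _ => cC (1546029) 10000 + cC (22122) 10000 * xD + cC (-1346189) 10000 * xV
  kapL := fun e => cC (-624608) 10000 + cC (-153093) 10000 * xD + cC (676729) 10000 * xV + cC (-5626) 10000 * e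
  kapU := fun e => cC (-188896) 10000 + cC (-492749) 10000 * xD + cC (531586) 10000 * xV + cC (-3237) 10000 * e
  eL := ⟨cC (137070) 10000 + cC (-445785) 10000 * xD + cC (12608) 10000 * xV + cC (240843) 10000 * (xD * xV) + cC (-3897) 10000 * (xV * xV) + cC (-940026) 10000 * xS,
    cC 0,
    cC 0,
    cC 0,
    cC 0⟩
  eH := ⟨cC (16052) 10000 + cC (-516456) 10000 * xD + cC (17747) 10000 * xV + cC (301554) 10000 * (xD * xV) + cC (-552) 10000 * (xV * xV) + cC (-418859) 10000 * xS,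
    cC 0,
    cC 0,
    cC 0,
    cC 0⟩
  pL := ⟨cC (160116) 10000 + cC (-5523) 10000 * xD + cC (-3225) 10000 * xV + cC (31199) 10000 * (xD * xV) + cC (532) 10000 * (xV * xV) + cC (-172285) 10000 * xS,
    cC (-542) 10000 + cC (3028) 10000 * xD + cC (-660) 10000 * xV,
    cC 0,
    cC 0,
    cC 0⟩
  pU := ⟨cC (149313) 10000 + cC (272128) 10000 * xD + cC (50564) 10000 * xV + cC (-188975) 10000 * (xD * xV) + cC (3057) 10000 * (xV * xV) + cC (-236549) 10000 * xS,
    cC (-1791) 10000 + cC (7863) 10000 * xD + cC (-466) 10000 * xV,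
    cC 0,
    cC 0,
    cC 0⟩
  kU := ⟨cC (-7231) 10000 + cC (13143) 10000 * xD + cC (-1789) 10000 * xV + cC (16486) 10000 * (xD * xV) + cC (-46) 10000 * (xV * xV) + cC (11365) 10000 * xS,
    cC (-57) 10000 + cC (9236) 10000 * xD + cC (-9) 10000 * xV,
    cC (-236) 10000 + cC (3348) 10000 * xD + cC (26) 10000 * xV,
    cC 0,
    cC 0⟩
  kL := ⟨cC (-9852) 10000 + cC (7232) 10000 * xD + cC (-4653) 10000 * xV + cC (32679) 10000 * (xD * xV) + cC (-58) 10000 * (xV * xV) + cC (16620) 10000 * xS,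
    cC (32) 10000 + cC (8701) 10000 * xD + cC (-15) 10000 * xV,
    cC (264) 10000 + cC (140) 10000 * xD + cC (21) 10000 * xV,
    cC 0,
    cC 0⟩
  wU := ⟨cC (90013) 10000 + cC (-100824) 10000 * xD + cC (49314) 10000 * xV + cC (-179901) 10000 * (xD * xV) + cC (-7231) 10000 * (xV * xV) + cC (62807) 10000 * xS,
    cC (-502) 10000 + cC (-665) 10000 * xD + cC (-1340) 10000 * xV,
    cC (-29155) 10000 + cC (3840) 10000 * xD + cC (508) 10000 * xV,
    cC 0,
    cC 0⟩
  wL := ⟨cC (136762) 10000 + cC (88521) 10000 * xD + cC (33731) 10000 * xV + cC (-26521) 10000 * (xD * xV) + cC (-11318) 10000 * (xV * xV) + cC (-102637) 10000 * xS,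
    cC (-1148) 10000 + cC (671) 10000 * xD + cC (-1380) 10000 * xV,
    cC (-25543) 10000 + cC (-24262) 10000 * xD + cC (158) 10000 * xV,
    cC 0,
    cC 0⟩

/-- A piece: `1.15 ≤ v < 1.27`. -/
def top10 : Piece where
  u₀ := cC (4) 5
  u₁ := cC (-196) 1000 + cC (151) 1000 * xD + cC (660) 1000 * xV
  tLn := topTn
  tLd := topTd
  tUn := topUn
  tUd := topUd
  p₀ := cC (227345) 10000 + cC (-150317) 10000 * xD + cC (-36930) 10000 * xV + cC (85305) 10000 * (xD * xV) + cC (30675) 10000 * (xD * xD) + cC (-164587) 10000 * xS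
  k2p := fun e => cC (791203) 10000 + cC (383545) 10000 * xD + cC (-467832) 10000 * xV + cC (3075) 10000 * e
  k2m := fun _ => cC (-7342) 10000 + cC (22122) 10000 * xD + cC (4568) 10000 * xV
  kapL := fun e => cC (-579003) 10000 + cC (-208225) 10000 * xD + cC (665715) 10000 * xV + cC (-4819) 10000 * e
  kapU := fun e => cC (-140352) 10000 + cC (-516381) 10000 * xD + cC (511550) 10000 * xV + cC (-2711) 10000 * e
  eL := ⟨cC (-784006) 10000 + cC (-190476) 10000 * xD + cC (805140) 10000 * xV + cC (32065) 10000 * (xD * xV) + cC (-62178) 10000 * (xV * xV) + cC (390428) 10000 * (xD * xD) + cC (-837032) 10000 * xS,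
    cC 0,
    cC 0,
    cC 0,
    cC 0⟩
  eH := ⟨cC (-30588) 10000 + cC (-241222) 10000 * xD + cC (21182) 10000 * xV + cC (283782) 10000 * (xD * xV) + cC (-1734) 10000 * (xV * xV) + cC (-879076) 10000 * (xD * xD) + cC (-375669) 10000 * xS,
    cC 0,
    cC 0,
    cC 0,
    cC 0⟩
  pL := ⟨cC (176122) 10000 + cC (-58766) 10000 * xD + cC (-6755) 10000 * xV + cC (28015) 10000 * (xD * xV) + cC (674) 10000 * (xV * xV) + cC (344705) 10000 * (xD * xD) + cC (-191873) 10000 * xS,
    cC (-681) 10000 + cC (4828) 10000 * xD + cC (-788) 10000 * xV,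
    cC 0,
    cC 0,
    cC 0⟩
  pU := ⟨cC (275243) 10000 + cC (296443) 10000 * xD + cC (-66870) 10000 * xV + cC (-160061) 10000 * (xD * xV) + cC (33346) 10000 * (xV * xV) + cC (-693079) 10000 * (xD * xD) + cC (-264924) 10000 * xS,
    cC (242) 10000 + cC (3108) 10000 * xD + cC (-1454) 10000 * xV,
    cC 0,
    cC 0,
    cC 0⟩
  kU := ⟨cC (-1426) 10000 + cC (-56967) 10000 * xD + cC (-5499) 10000 * xV + cC (18322) 10000 * (xD * xV) + cC (269) 10000 * (xV * xV) + cC (195466) 10000 * (xD * xD) + cC (17731) 10000 * xS,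
    cC (-31) 10000 + cC (9197) 10000 * xD + cC (-25) 10000 * xV,
    cC (-526) 10000 + cC (3646) 10000 * xD + cC (221) 10000 * xV,
    cC 0,
    cC 0⟩
  kL := ⟨cC (-6487) 10000 + cC (-43448) 10000 * xD + cC (1) 10000 * xV + cC (16944) 10000 * (xD * xV) + cC (-1844) 10000 * (xV * xV) + cC (161578) 10000 * (xD * xD) + cC (17570) 10000 * xS,
    cC (-20) 10000 + cC (9125) 10000 * xD + cC (-33) 10000 * xV,
    cC (-513) 10000 + cC (3209) 10000 * xD + cC (248) 10000 * xV,
    cC 0,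
    cC 0⟩
  wU := ⟨cC (427150) 10000 + cC (-1002876) 10000 * xD + cC (-106207) 10000 * xV + cC (487285) 10000 * (xD * xV) + cC (-81079) 10000 * (xV * xV) + cC (185974) 10000 * (xD * xD) + cC (40633) 10000 * xS,
    cC (-2396) 10000 + cC (-2197) 10000 * xD + cC (622) 10000 * xV,
    cC (-60770) 10000 + cC (-142) 10000 * xD + cC (26458) 10000 * xV,
    cC 0,
    cC 0⟩
  wL := ⟨cC (210228) 10000 + cC (10049) 10000 * xD + cC (179751) 10000 * xV + cC (-31044) 10000 * (xD * xV) + cC (-164489) 10000 * (xV * xV) + cC (196545) 10000 * (xD * xD) + cC (-142924) 10000 * xS,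
    cC (-4672) 10000 + cC (6089) 10000 * xD + cC (516) 10000 * xV,
    cC (-70322) 10000 + cC (-5786) 10000 * xD + cC (34465) 10000 * xV,
    cC 0,
    cC 0⟩

/-- The cut of `top10`. -/
def top10Cut : Ex :=
  cC (-1943175) 10000 + cC (-1237452) 10000 * xD + cC (1872490) 10000 * xV + cC (2288982) 10000 * (xD * xV) + cC (-751989) 10000 * (xV * xV) + cC (-4788361) 10000 * (xD * xD) + cC (467195) 10000 * xS

/-- The bound of `p` above the cut. -/
def top10PU : Bnd :=
  ⟨cC (232788) 10000 + cC (328112) 10000 * xD + cC (-20777) 10000 * xV + cC (-166154) 10000 * (xD * xV) + cC (19651) 10000 * (xV * xV) + cC (-715774) 10000 * (xD * xD) + cC (-262840) 10000 * xS,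
    cC (-195) 10000 + cC (3557) 10000 * xD + cC (-1200) 10000 * xV,
    cC 0,
    cC 0,
    cC 0⟩

/-- `top10` below the cut. -/
def top10A : Piece :=
  top10.below top10Cut

/-- `top10` above the cut. -/
def top10B : Piece :=
  { top10.above top10Cut top10PU with
    k2p := fun e => cC (329186) 10000 + cC (413841) 10000 * xD + cC (-173177) 10000 * xV + cC (1700) 10000 * e
    k2m := fun _ => cC (-3928) 10000 + cC (27274) 10000 * xD + cC (1062) 10000 * xV
    kapL := fun e => cC (-634555) 10000 + cC (-28656) 10000 * xD + cC (646529) 10000 * xV + cC (-6247) 10000 * e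
    kapU := fun e => cC (769747) 10000 + cC (-362806) 10000 * xD + cC (61680) 10000 * xV + cC (7652) 10000 * e }

/-- A piece: `1.27 ≤ v < 1.69`. -/
def top11 : Piece where
  u₀ := cC (4) 5
  u₁ := cC (258) 1000 + cC (136) 1000 * xD + cC (304) 1000 * xV
  tLn := topTn
  tLd := topTd
  tUn := topUn
  tUd := topUd
  p₀ := cC (227324) 10000 + cC (-141958) 10000 * xD + cC (-36855) 10000 * xV + cC (84514) 10000 * (xD * xV) + cC (7579) 10000 * (xD * xD) + cC (-165652) 10000 * xS
  k2p := fun e => cC (167427) 10000 + cC (502311) 10000 * xD + cC (-87839) 10000 * xV + cC (-337) 10000 * e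
  k2m := fun _ => cC (-9980) 10000 + cC (27274) 10000 * xD + cC (5827) 10000 * xV
  kapL := fun e => cC (-667363) 10000 + cC (72793) 10000 * xD + cC (633236) 10000 * xV + cC (-7419) 10000 * e
  kapU := fun e => cC (-206193) 10000 + cC (-417134) 10000 * xD + cC (494345) 10000 * xV + cC (-4748) 10000 * e
  eL := ⟨cC (-313154) 10000 + cC (-296606) 10000 * xD + cC (295639) 10000 * xV + cC (201014) 10000 * (xD * xV) + cC (-723251) 10000 * xS,
    cC 0,
    cC 0,
    cC 0,
    cC 0⟩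
  eH := ⟨cC (-5304) 10000 + cC (-660474) 10000 * xD + cC (1865) 10000 * xV + cC (375716) 10000 * (xD * xV) + cC (-338922) 10000 * xS,
    cC 0,
    cC 0,
    cC 0,
    cC 0⟩
  pL := ⟨cC (181953) 10000 + cC (-45865) 10000 * xD + cC (-8676) 10000 * xV + cC (32540) 10000 * (xD * xV) + cC (1198) 10000 * (xV * xV) + cC (341456) 10000 * (xD * xD) + cC (-203436) 10000 * xS,
    cC (-763) 10000 + cC (5508) 10000 * xD + cC (-804) 10000 * xV,
    cC 0,
    cC 0,
    cC 0⟩
  pU := ⟨cC (197991) 10000 + cC (544052) 10000 * xD + cC (6660) 10000 * xV + cC (-152107) 10000 * (xD * xV) + cC (9278) 10000 * (xV * xV) + cC (-1221662) 10000 * (xD * xD) + cC (-284549) 10000 * xS,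
    cC (-830) 10000 + cC (5680) 10000 * xD + cC (-1112) 10000 * xV,
    cC 0,
    cC 0,
    cC 0⟩
  kU := ⟨cC (-2955) 10000 + cC (-67611) 10000 * xD + cC (-2494) 10000 * xV + cC (13943) 10000 * (xD * xV) + cC (-112) 10000 * (xV * xV) + cC (218704) 10000 * (xD * xD) + cC (17764) 10000 * xS,
    cC (-34) 10000 + cC (9132) 10000 * xD + cC (-17) 10000 * xV,
    cC (-483) 10000 + cC (4338) 10000 * xD + cC (112) 10000 * xV,
    cC 0,
    cC 0⟩
  kL := ⟨cC (-7093) 10000 + cC (-49269) 10000 * xD + cC (-1603) 10000 * xV + cC (11299) 10000 * (xD * xV) + cC (-206) 10000 * (xV * xV) + cC (189155) 10000 * (xD * xD) + cC (19725) 10000 * xS,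
    cC (-52) 10000 + cC (9253) 10000 * xD + cC (-19) 10000 * xV,
    cC (-451) 10000 + cC (4117) 10000 * xD + cC (108) 10000 * xV,
    cC 0,
    cC 0⟩
  wU := ⟨cC (87517) 10000 + cC (-108426) 10000 * xD + cC (10484) 10000 * xV + cC (42804) 10000 * (xD * xV) + cC (-33190) 10000 * (xV * xV) + cC (36277) 10000 * (xD * xD) + cC (127197) 10000 * xS,
    cC (-1938) 10000 + cC (1186) 10000 * xD + cC (-282) 10000 * xV,
    cC (-35402) 10000 + cC (-16111) 10000 * xD + cC (8983) 10000 * xV,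
    cC 0,
    cC 0⟩
  wL := ⟨cC (119561) 10000 + cC (99880) 10000 * xD + cC (-14624) 10000 * xV + cC (-70424) 10000 * (xD * xV) + cC (-15557) 10000 * (xV * xV) + cC (44576) 10000 * (xD * xD) + cC (18822) 10000 * xS,
    cC (-1135) 10000 + cC (1722) 10000 * xD + cC (-1259) 10000 * xV,
    cC (-33947) 10000 + cC (-15322) 10000 * xD + cC (8232) 10000 * xV,
    cC 0,
    cC 0⟩

/-- A piece: `0.35 ≤ v < 0.65`. -/
def top12 : Piece where
  u₀ := cC (39) 40
  u₁ := cC (4) 5
  tLn := topTn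
  tLd := topTd
  tUn := topUn
  tUd := topUd
  p₀ := cC (217698) 10000 + cC (-170987) 10000 * xD + cC (-36779) 10000 * xV + cC (84233) 10000 * (xD * xV) + cC (102840) 10000 * (xD * xD) + cC (-146256) 10000 * xS
  k2p := fun _ => cC 0
  k2m := fun _ => cC 0
  kapL := fun _ => cC 0
  kapU := fun _ => cC 0
  eL := ⟨cC 0, cC 0, cC 0, cC 0, cC 0⟩
  eH := ⟨cC 0, cC 0, cC 0, cC 0, cC 0⟩
  pL := ⟨cC 0, cC 0, cC 0, cC 0, cC 0⟩
  pU := ⟨cC 0, cC 0, cC 0, cC 1, cC 0⟩
  kU := ⟨cC 0, cC 0, cC 0, cC 0, cC 0⟩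
  kL := ⟨cC 0, cC 0, cC 0, cC 0, cC 0⟩
  wU := ⟨cC 0, cC 0, cC 0, cC 0, cC 0⟩
  wL := ⟨cC 0, cC 0, cC 0, cC 0, cC 0⟩

/-- A piece: `0.65 ≤ v < 1.4`. -/
def top13 : Piece where
  u₀ := cC (39) 40
  u₁ := cC (4) 5
  tLn := topTn
  tLd := topTd
  tUn := topUn
  tUd := topUd
  p₀ := cC (225183) 10000 + cC (-170655) 10000 * xD + cC (-36928) 10000 * xV + cC (84583) 10000 * (xD * xV) + cC (98152) 10000 * (xD * xD) + cC (-158426) 10000 * xS
  k2p := fun e => cC (-110309) 10000 + cC (284588) 10000 * xD + cC (96066) 10000 * xV + cC (-1174) 10000 * e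
  k2m := fun _ => cC (-4420) 10000 + cC (33553) 10000 * xD + cC (886) 10000 * xV
  kapL := fun e => cC (-177802) 10000 + cC (-18970) 10000 * xD + cC (333588) 10000 * xV + cC (-3332) 10000 * e
  kapU := fun e => cC (-257250) 10000 + cC (-493634) 10000 * xD + cC (483433) 10000 * xV + cC (-7948) 10000 * e
  eL := ⟨cC (65033) 10000 + cC (-588061) 10000 * xD + cC (-14947) 10000 * xV + cC (323897) 10000 * (xD * xV) + cC (-3571) 10000 * (xV * xV) + cC (-452678) 10000 * xS,
    cC 0,
    cC 0,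
    cC (6174) 10000,
    cC 0⟩
  eH := ⟨cC (-261345) 10000 + cC (561530) 10000 * xD + cC (388229) 10000 * xV + cC (-700829) 10000 * (xD * xV) + cC (-27688) 10000 * (xV * xV) + cC (-329740) 10000 * xS,
    cC 0,
    cC 0,
    cC (49927) 10000,
    cC 0⟩
  pL := ⟨cC (223226) 10000 + cC (-144630) 10000 * xD + cC (-37146) 10000 * xV + cC (85938) 10000 * (xD * xV) + cC (-158426) 10000 * xS,
    cC (36) 10000 + cC (-223) 10000 * xD,
    cC 0,
    cC (10000) 10000,
    cC 0⟩
  pU := ⟨cC (258019) 10000 + cC (123765) 10000 * xD + cC (-89189) 10000 * xV + cC (-146232) 10000 * (xD * xV) + cC (41939) 10000 * (xV * xV) + cC (-225755) 10000 * xS,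
    cC (415) 10000 + cC (5424) 10000 * xD + cC (-2335) 10000 * xV,
    cC 0,
    cC 0,
    cC 0⟩
  kU := ⟨cC (3981) 10000 + cC (5039) 10000 * xD + cC (-6073) 10000 * xV + cC (11068) 10000 * (xD * xV) + cC (-2055) 10000 * (xV * xV) + cC (9908) 10000 * xS,
    cC (-255) 10000 + cC (9597) 10000 * xD + cC (66) 10000 * xV,
    cC (-2207) 10000 + cC (4953) 10000 * xD + cC (1369) 10000 * xV,
    cC 0,
    cC 0⟩
  kL := ⟨cC (-19018) 10000 + cC (29787) 10000 * xD + cC (-768) 10000 * xV + cC (11640) 10000 * (xD * xV) + cC (555) 10000 * (xV * xV) + cC (20790) 10000 * xS,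
    cC (151) 10000 + cC (8264) 10000 * xD + cC (-47) 10000 * xV,
    cC (944) 10000 + cC (-293) 10000 * xD + cC (-326) 10000 * xV,
    cC 0,
    cC 0⟩
  wU := ⟨cC (127010) 10000 + cC (-164921) 10000 * xD + cC (-67870) 10000 * xV + cC (22110) 10000 * (xD * xV) + cC (-19714) 10000 * (xV * xV) + cC (103723) 10000 * xS,
    cC (-2196) 10000 + cC (5350) 10000 * xD + cC (-627) 10000 * xV,
    cC (-39002) 10000 + cC (14536) 10000 * xD + cC (13373) 10000 * xV,
    cC 0,
    cC 0⟩
  wL := ⟨cC (-163085) 10000 + cC (167433) 10000 * xD + cC (15948) 10000 * xV + cC (-54690) 10000 * (xD * xV) + cC (-1344) 10000 * (xV * xV) + cC (267155) 10000 * xS,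
    cC (-228) 10000 + cC (-224) 10000 * xD + cC (-797) 10000 * xV,
    cC (-11330) 10000 + cC (-17781) 10000 * xD + cC (-2029) 10000 * xV,
    cC 0,
    cC 0⟩

/-- A piece: `1.4 ≤ v < 1.88`. -/
def top14 : Piece where
  u₀ := cC (39) 40
  u₁ := cC (256) 1000 + cC (620) 1000 * xD + cC (268) 1000 * xV
  tLn := topTn
  tLd := topTd
  tUn := topUn
  tUd := topUd
  p₀ := cC (230439) 10000 + cC (-143275) 10000 * xD + cC (-36955) 10000 * xV + cC (84849) 10000 * (xD * xV) + cC (8630) 10000 * (xD * xD) + cC (-170385) 10000 * xS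
  k2p := fun e => cC (626805) 10000 + cC (182269) 10000 * xD + cC (-262116) 10000 * xV + cC (6069) 10000 * e
  k2m := fun _ => cC (-12447) 10000 + cC (33553) 10000 * xD + cC (6620) 10000 * xV
  kapL := fun e => cC (-734909) 10000 + cC (107028) 10000 * xD + cC (643648) 10000 * xV + cC (-9139) 10000 * e
  kapU := fun e => cC (1168032) 10000 + cC (-1108953) 10000 * xD + cC (-80519) 10000 * xV + cC (10080) 10000 * e
  eL := ⟨cC (-571669) 10000 + cC (171116) 10000 * xD + cC (320674) 10000 * xV + cC (201113) 10000 * (xD * xV) + cC (-17578) 10000 * (xV * xV) + cC (-381023) 10000 * xS,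
    cC 0,
    cC 0,
    cC 0,
    cC 0⟩
  eH := ⟨cC (-101162) 10000 + cC (-504499) 10000 * xD + cC (38831) 10000 * xV + cC (237212) 10000 * (xD * xV) + cC (-7317) 10000 * (xV * xV) + cC (14715) 10000 * xS,
    cC 0,
    cC 0,
    cC 0,
    cC 0⟩
  pL := ⟨cC (191695) 10000 + cC (82091) 10000 * xD + cC (-32499) 10000 * xV + cC (43346) 10000 * (xD * xV) + cC (4038) 10000 * (xV * xV) + cC (-206320) 10000 * xS,
    cC (-99) 10000 + cC (7194) 10000 * xD + cC (-1575) 10000 * xV,
    cC 0,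
    cC 0,
    cC 0⟩
  pU := ⟨cC (-20146) 10000 + cC (1486467) 10000 * xD + cC (405959) 10000 * xV + cC (-951591) 10000 * (xD * xV) + cC (-138521) 10000 * (xV * xV) + cC (109672) 10000 * xS,
    cC (-2694) 10000 + cC (29571) 10000 * xD + cC (4599) 10000 * xV,
    cC 0,
    cC 0,
    cC 0⟩
  kU := ⟨cC (-13726) 10000 + cC (-793) 10000 * xD + cC (-2207) 10000 * xV + cC (10145) 10000 * (xD * xV) + cC (92) 10000 * (xV * xV) + cC (26556) 10000 * xS,
    cC (-20) 10000 + cC (9052) 10000 * xD + cC (-22) 10000 * xV,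
    cC (-493) 10000 + cC (5114) 10000 * xD + cC (74) 10000 * xV,
    cC 0,
    cC 0⟩
  kL := ⟨cC (-10647) 10000 + cC (22579) 10000 * xD + cC (-1807) 10000 * xV + cC (3139) 10000 * (xD * xV) + cC (79) 10000 * (xV * xV) + cC (16522) 10000 * xS,
    cC (-62) 10000 + cC (9311) 10000 * xD + cC (-31) 10000 * xV,
    cC (-576) 10000 + cC (4234) 10000 * xD + cC (182) 10000 * xV,
    cC 0,
    cC 0⟩
  wU := ⟨cC (63414) 10000 + cC (136377) 10000 * xD + cC (-55881) 10000 * xV + cC (-70012) 10000 * (xD * xV) + cC (-2630) 10000 * (xV * xV) + cC (148477) 10000 * xS,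
    cC (-1825) 10000 + cC (4903) 10000 * xD + cC (-905) 10000 * xV,
    cC (-31274) 10000 + cC (-11465) 10000 * xD + cC (7436) 10000 * xV,
    cC 0,
    cC 0⟩
  wL := ⟨cC (35559) 10000 + cC (400722) 10000 * xD + cC (4552) 10000 * xV + cC (-199895) 10000 * (xD * xV) + cC (-12303) 10000 * (xV * xV) + cC (42670) 10000 * xS,
    cC (-3741) 10000 + cC (10453) 10000 * xD + cC (-780) 10000 * xV,
    cC (-38122) 10000 + cC (1908) 10000 * xD + cC (9524) 10000 * xV,
    cC 0,
    cC 0⟩

/-- The cut of `top14`. -/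
def top14Cut : Ex :=
  cC (-786352) 10000 + cC (856969) 10000 * xD + cC (467679) 10000 * xV + cC (-217589) 10000 * (xD * xV) + cC (-43034) 10000 * (xV * xV) + cC (-269911) 10000 * xS

/-- The bound of `p` above the cut. -/
def top14PU : Bnd :=
  ⟨cC (258797) 10000 + cC (-61667) 10000 * xD + cC (-29932) 10000 * xV + cC (-17435) 10000 * (xD * xV) + cC (9627) 10000 * (xV * xV) + cC (-260773) 10000 * xS,
    cC (1232) 10000 + cC (1378) 10000 * xD + cC (-2458) 10000 * xV,
    cC 0,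
    cC 0,
    cC 0⟩

/-- `top14` below the cut. -/
def top14A : Piece :=
  top14.below top14Cut

/-- `top14` above the cut. -/
def top14B : Piece :=
  { top14.above top14Cut top14PU with
    k2p := fun e => cC (524776) 10000 + cC (207086) 10000 * xD + cC (-219991) 10000 * xV + cC (4766) 10000 * e
    k2m := fun _ => cC (-8907) 10000 + cC (63504) 10000 * xD + cC (1524) 10000 * xV
    kapL := fun e => cC (-740998) 10000 + cC (-196600) 10000 * xD + cC (609194) 10000 * xV + cC (-15386) 10000 * e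
    kapU := fun e => cC (2266207) 10000 + cC (-1869883) 10000 * xD + cC (-484253) 10000 * xV + cC (24383) 10000 * e }

/-- A piece: `1.88 ≤ v < 2.4`. -/
def top15 : Piece where
  u₀ := cC (39) 40
  u₁ := cC (536) 1000 + cC (452) 1000 * xD + cC (132) 1000 * xV
  tLn := topTn
  tLd := topTd
  tUn := topUn
  tUd := topUd
  p₀ := cC (240331) 10000 + cC (-131108) 10000 * xD + cC (-37854) 10000 * xV + cC (92300) 10000 * (xD * xV) + cC (-89532) 10000 * (xD * xD) + cC (-186746) 10000 * xS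
  k2p := fun e => cC (203446) 10000 + cC (328967) 10000 * xD + cC (-75925) 10000 * xV + cC (2721) 10000 * e
  k2m := fun _ => cC (-10192) 10000 + cC (41684) 10000 * xD + cC (3600) 10000 * xV
  kapL := fun e => cC (-790266) 10000 + cC (-289233) 10000 * xD + cC (629142) 10000 * xV + cC (-16991) 10000 * e
  kapU := fun e => cC (-1290357) 10000 + cC (540987) 10000 * xD + cC (680609) 10000 * xV + cC (-42082) 10000 * e
  eL := ⟨cC (-472107) 10000 + cC (121686) 10000 * xD + cC (213862) 10000 * xV + cC (80394) 10000 * (xD * xV) + cC (-16027) 10000 * (xV * xV) + cC (344943) 10000 * (xD * xD) + cC (-166289) 10000 * xS,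
    cC 0,
    cC 0,
    cC 0,
    cC 0⟩
  eH := ⟨cC (-411945) 10000 + cC (554342) 10000 * xD + cC (292191) 10000 * xV + cC (-274402) 10000 * (xD * xV) + cC (-53972) 10000 * (xV * xV) + cC (-156528) 10000 * (xD * xD) + cC (-2864) 10000 * xS,
    cC 0,
    cC 0,
    cC 0,
    cC (-193262) 10000 + cC (315022) 10000 * xD + cC (96614) 10000 * xV + cC (-116011) 10000 * (xD * xV)⟩
  pL := ⟨cC (197630) 10000 + cC (58895) 10000 * xD + cC (-35009) 10000 * xV + cC (37558) 10000 * (xD * xV) + cC (3498) 10000 * (xV * xV) + cC (172439) 10000 * (xD * xD) + cC (-205840) 10000 * xS,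
    cC (850) 10000 + cC (8778) 10000 * xD + cC (-2251) 10000 * xV,
    cC 0,
    cC 0,
    cC 0⟩
  pU := ⟨cC (1992364) 10000 + cC (-8342488) 10000 * xD + cC (-632129) 10000 * xV + cC (1959750) 10000 * (xD * xV) + cC (25307) 10000 * (xV * xV) + cC (6937884) 10000 * (xD * xD) + cC (-84146) 10000 * xS,
    cC (33191) 10000 + cC (-120835) 10000 * xD + cC (-1561) 10000 * xV,
    cC 0,
    cC 0,
    cC 0⟩
  kU := ⟨cC (-213) 10000 + cC (-70161) 10000 * xD + cC (-1472) 10000 * xV + cC (6045) 10000 * (xD * xV) + cC (71) 10000 * (xV * xV) + cC (234887) 10000 * (xD * xD) + cC (11633) 10000 * xS,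
    cC (3) 10000 + cC (8896) 10000 * xD + cC (-24) 10000 * xV,
    cC (-480) 10000 + cC (5285) 10000 * xD + cC (55) 10000 * xV,
    cC 0,
    cC 0⟩
  kL := ⟨cC (-2211) 10000 + cC (-36095) 10000 * xD + cC (-917) 10000 * xV + cC (3142) 10000 * (xD * xV) + cC (12) 10000 * (xV * xV) + cC (146908) 10000 * (xD * xD) + cC (9674) 10000 * xS,
    cC (-14) 10000 + cC (8933) 10000 * xD + cC (-23) 10000 * xV,
    cC (-488) 10000 + cC (4769) 10000 * xD + cC (85) 10000 * xV,
    cC 0,
    cC 0⟩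
  wU := ⟨cC (-17156) 10000 + cC (195680) 10000 * xD + cC (-21813) 10000 * xV + cC (-89957) 10000 * (xD * xV) + cC (1302) 10000 * (xV * xV) + cC (23822) 10000 * (xD * xD) + cC (142014) 10000 * xS,
    cC (-1603) 10000 + cC (7340) 10000 * xD + cC (-1228) 10000 * xV,
    cC (-21139) 10000 + cC (-9193) 10000 * xD + cC (2016) 10000 * xV,
    cC 0,
    cC 0⟩
  wL := ⟨cC (-36464) 10000 + cC (531030) 10000 * xD + cC (-5129) 10000 * xV + cC (-162239) 10000 * (xD * xV) + cC (-178) 10000 * (xV * xV) + cC (-350495) 10000 * (xD * xD) + cC (88683) 10000 * xS,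
    cC (-3094) 10000 + cC (11650) 10000 * xD + cC (-1177) 10000 * xV,
    cC (-25306) 10000 + cC (-7579) 10000 * xD + cC (3406) 10000 * xV,
    cC 0,
    cC 0⟩

/-- The cut of `top15`. -/
def top15Cut : Ex :=
  cC (-908681) 10000 + cC (1941157) 10000 * xD + cC (551994) 10000 * xV + cC (-467007) 10000 * (xD * xV) + cC (-79862) 10000 * (xV * xV) + cC (-2122758) 10000 * (xD * xD) + cC (-185148) 10000 * xS

/-- The bound of `p` above the cut. -/
def top15PU : Bnd :=
  ⟨cC (-183972) 10000 + cC (1580184) 10000 * xD + cC (411850) 10000 * xV + cC (-606434) 10000 * (xD * xV) + cC (-82934) 10000 * (xV * xV) + cC (-1542543) 10000 * (xD * xD) + cC (-435082) 10000 * xS,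
    cC (3324) 10000 + cC (4338) 10000 * xD + cC (-3771) 10000 * xV,
    cC 0,
    cC 0,
    cC (-146128) 10000 + cC (-357402) 10000 * xD + cC (77729) 10000 * xV + cC (190108) 10000 * (xD * xV)⟩

/-- `top15` below the cut. -/
def top15A : Piece :=
  top15.below top15Cut

/-- `top15` above the cut. -/
def top15B : Piece :=
  { top15.above top15Cut top15PU with
    k2p := fun e => cC (142333) 10000 + cC (402901) 10000 * xD + cC (-58408) 10000 * xV + cC (1536) 10000 * e
    k2m := fun _ => cC (-11093) 10000 + cC (72129) 10000 * xD + cC (2137) 10000 * xV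
    kapL := fun e => cC (-832302) 10000 + cC (-2310839) 10000 * xD + cC (630695) 10000 * xV + cC (-48266) 10000 * e
    kapU := fun e => cC (-69986) 10000 + cC (-764272) 10000 * xD + cC (312417) 10000 * xV + cC (-19944) 10000 * e }

/-- A piece: `2.4 ≤ v < 2.6`. -/
def top16 : Piece where
  u₀ := cC (39) 40
  u₁ := cC (652) 1000 + cC (405) 1000 * xD + cC (86) 1000 * xV
  tLn := topTn
  tLd := topTd
  tUn := topUn
  tUd := topUd
  p₀ := cC (246134) 10000 + cC (-128711) 10000 * xD + cC (-38004) 10000 * xV + cC (93550) 10000 * (xD * xV) + cC (-113406) 10000 * (xD * xD) + cC (-196213) 10000 * xS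
  k2p := fun e => cC (210043) 10000 + cC (283290) 10000 * xD + cC (-66024) 10000 * xV + cC (5575) 10000 * e
  k2m := fun _ => cC (-14018) 10000 + cC (86653) 10000 * xD + cC (2629) 10000 * xV
  kapL := fun e => cC (-520717) 10000 + cC (-2843158) 10000 * xD + cC (567599) 10000 * xV + cC (-37848) 10000 * e
  kapU := fun e => cC (-2607294) 10000 + cC (-177091) 10000 * xD + cC (1010659) 10000 * xV + cC (-107417) 10000 * e
  eL := ⟨cC (-509702) 10000 + cC (445228) 10000 * xD + cC (199837) 10000 * xV + cC (-27434) 10000 * (xD * xV) + cC (-17867) 10000 * (xV * xV) + cC (-35000) 10000 * xS,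
    cC 0,
    cC 0,
    cC 0,
    cC 0⟩
  eH := ⟨cC (-31230) 10000 + cC (-195907) 10000 * xD + cC (10437) 10000 * xV + cC (20927) 10000 * (xD * xV) + cC (-422) 10000 * (xV * xV) + cC (-20061) 10000 * xS,
    cC 0,
    cC 0,
    cC 0,
    cC (54585) 10000 + cC (-100791) 10000 * xD + cC (-6547) 10000 * xV + cC (56462) 10000 * (xD * xV)⟩
  pL := ⟨cC (241644) 10000 + cC (-93652) 10000 * xD + cC (-57647) 10000 * xV + cC (94750) 10000 * (xD * xV) + cC (5512) 10000 * (xV * xV) + cC (-199409) 10000 * xS,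
    cC (4755) 10000 + cC (-2029) 10000 * xD + cC (-3400) 10000 * xV,
    cC 0,
    cC 0,
    cC 0⟩
  pU := ⟨cC (1479674) 10000 + cC (-4871454) 10000 * xD + cC (-399940) 10000 * xV + cC (1307735) 10000 * (xD * xV) + cC (9685) 10000 * (xV * xV) + cC (-225271) 10000 * xS,
    cC (31314) 10000 + cC (-119748) 10000 * xD + cC (-896) 10000 * xV,
    cC 0,
    cC 0,
    cC 0⟩
  kU := ⟨cC (-3759) 10000 + cC (-6699) 10000 * xD + cC (-1278) 10000 * xV + cC (4159) 10000 * (xD * xV) + cC (86) 10000 * (xV * xV) + cC (10391) 10000 * xS,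
    cC (22) 10000 + cC (8772) 10000 * xD + cC (-26) 10000 * xV,
    cC (-508) 10000 + cC (5622) 10000 * xD + cC (52) 10000 * xV,
    cC 0,
    cC 0⟩
  kL := ⟨cC (-5890) 10000 + cC (9431) 10000 * xD + cC (-739) 10000 * xV + cC (568) 10000 * (xD * xV) + cC (65) 10000 * (xV * xV) + cC (10206) 10000 * xS,
    cC (-5) 10000 + cC (8937) 10000 * xD + cC (-28) 10000 * xV,
    cC (-453) 10000 + cC (4765) 10000 * xD + cC (70) 10000 * xV,
    cC 0,
    cC 0⟩
  wU := ⟨cC (-50978) 10000 + cC (207018) 10000 * xD + cC (-20619) 10000 * xV + cC (-69196) 10000 * (xD * xV) + cC (3218) 10000 * (xV * xV) + cC (152748) 10000 * xS,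
    cC (-1225) 10000 + cC (8965) 10000 * xD + cC (-1507) 10000 * xV,
    cC (-15826) 10000 + cC (-14131) 10000 * xD + cC (343) 10000 * xV,
    cC 0,
    cC 0⟩
  wL := ⟨cC (-42310) 10000 + cC (392995) 10000 * xD + cC (-11656) 10000 * xV + cC (-126778) 10000 * (xD * xV) + cC (1966) 10000 * (xV * xV) + cC (106038) 10000 * xS,
    cC (-2879) 10000 + cC (12788) 10000 * xD + cC (-1320) 10000 * xV,
    cC (-21301) 10000 + cC (-11199) 10000 * xD + cC (1924) 10000 * xV,
    cC 0,
    cC 0⟩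

/-- The cut of `top16`. -/
def top16Cut : Ex :=
  cC (-146867) 10000 + cC (-29833) 10000 * xD + cC (60872) 10000 * xV + cC (78170) 10000 * (xD * xV) + cC (470) 10000 * (xV * xV) + cC (-182223) 10000 * xS

/-- The bound of `p` above the cut. -/
def top16PU : Bnd :=
  ⟨cC (570280) 10000 + cC (-567226) 10000 * xD + cC (-90214) 10000 * xV + cC (222718) 10000 * (xD * xV) + cC (5826) 10000 * (xV * xV) + cC (-551081) 10000 * xS,
    cC (-12738) 10000 + cC (42885) 10000 * xD + cC (838) 10000 * xV,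
    cC 0,
    cC 0,
    cC (238035) 10000 + cC (-967201) 10000 * xD + cC (-26615) 10000 * xV + cC (108275) 10000 * (xD * xV)⟩

/-- `top16` below the cut. -/
def top16A : Piece :=
  top16.below top16Cut

/-- `top16` above the cut. -/
def top16B : Piece :=
  { top16.above top16Cut top16PU with
    k2p := fun e => cC (-21002) 10000 + cC (459219) 10000 * xD + cC (-5743) 10000 * xV + cC (-1813) 10000 * e
    k2m := fun _ => cC (-16632) 10000 + cC (72129) 10000 * xD + cC (4445) 10000 * xV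
    kapL := fun e => cC (-762200) 10000 + cC (-4887939) 10000 * xD + cC (634219) 10000 * xV + cC (-85964) 10000 * e
    kapU := fun e => cC (-390834) 10000 + cC (-1257827) 10000 * xD + cC (409897) 10000 * xV + cC (-35356) 10000 * e }

/-- A piece: `1.88 ≤ v < 2.3`. -/
def top17 : Piece where
  u₀ := cC (39) 40
  u₁ := cC (519) 1000 + cC (619) 1000 * xD + cC (128) 1000 * xV
  tLn := topTn
  tLd := topTd
  tUn := topUn
  tUd := topUd
  p₀ := cC (235294) 10000 + cC (-128541) 10000 * xD + cC (-36548) 10000 * xV + cC (82710) 10000 * (xD * xV) + cC (-28101) 10000 * (xD * xD) + cC (-180850) 10000 * xS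
  k2p := fun e => cC (330934) 10000 + cC (263496) 10000 * xD + cC (-116150) 10000 * xV + cC (5444) 10000 * e
  k2m := fun _ => cC (-24968) 10000 + cC (73130) 10000 * xD + cC (9035) 10000 * xV
  kapL := fun e => cC (-638043) 10000 + cC (-1113100) 10000 * xD + cC (557121) 10000 * xV + cC (-27159) 10000 * e
  kapU := fun e => cC (-571205) 10000 + cC (-650587) 10000 * xD + cC (473566) 10000 * xV + cC (-32136) 10000 * e
  eL := ⟨cC (-556448) 10000 + cC (283354) 10000 * xD + cC (242248) 10000 * xV + cC (52790) 10000 * (xD * xV) + cC (-22194) 10000 * (xV * xV) + cC (554154) 10000 * (xD * xD) + cC (-114019) 10000 * xS,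
    cC 0,
    cC 0,
    cC 0,
    cC 0⟩
  eH := ⟨cC (-65019) 10000 + cC (-75429) 10000 * xD + cC (46214) 10000 * xV + cC (-4930) 10000 * (xD * xV) + cC (-7808) 10000 * (xV * xV) + cC (-208523) 10000 * (xD * xD) + cC (-42914) 10000 * xS,
    cC 0,
    cC 0,
    cC 0,
    cC (5045) 10000 + cC (89242) 10000 * xD + cC (15482) 10000 * xV + cC (-28476) 10000 * (xD * xV)⟩
  pL := ⟨cC (244870) 10000 + cC (-126859) 10000 * xD + cC (-57724) 10000 * xV + cC (100605) 10000 * (xD * xV) + cC (6095) 10000 * (xV * xV) + cC (148623) 10000 * (xD * xD) + cC (-208538) 10000 * xS,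
    cC (2864) 10000 + cC (892) 10000 * xD + cC (-2697) 10000 * xV,
    cC 0,
    cC 0,
    cC 0⟩
  pU := ⟨cC (1708570) 10000 + cC (-6153845) 10000 * xD + cC (-495724) 10000 * xV + cC (1314753) 10000 * (xD * xV) + cC (17874) 10000 * (xV * xV) + cC (5100601) 10000 * (xD * xD) + cC (-171712) 10000 * xS,
    cC (26086) 10000 + cC (-79181) 10000 * xD + cC (-1137) 10000 * xV,
    cC 0,
    cC 0,
    cC 0⟩
  kU := ⟨cC (-252) 10000 + cC (-89337) 10000 * xD + cC (-2511) 10000 * xV + cC (8522) 10000 * (xD * xV) + cC (130) 10000 * (xV * xV) + cC (236502) 10000 * (xD * xD) + cC (18452) 10000 * xS,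
    cC (28) 10000 + cC (8878) 10000 * xD + cC (-34) 10000 * xV,
    cC (-774) 10000 + cC (6668) 10000 * xD + cC (92) 10000 * xV,
    cC 0,
    cC 0⟩
  kL := ⟨cC (-4887) 10000 + cC (-60313) 10000 * xD + cC (-1751) 10000 * xV + cC (6011) 10000 * (xD * xV) + cC (-8) 10000 * (xV * xV) + cC (185141) 10000 * (xD * xD) + cC (20042) 10000 * xS,
    cC (20) 10000 + cC (8880) 10000 * xD + cC (-37) 10000 * xV,
    cC (-775) 10000 + cC (5968) 10000 * xD + cC (141) 10000 * xV,
    cC 0,
    cC 0⟩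
  wU := ⟨cC (-42550) 10000 + cC (-87930) 10000 * xD + cC (-14418) 10000 * xV + cC (-37464) 10000 * (xD * xV) + cC (-6) 10000 * (xV * xV) + cC (145754) 10000 * (xD * xD) + cC (210566) 10000 * xS,
    cC (-1667) 10000 + cC (5397) 10000 * xD + cC (-1066) 10000 * xV,
    cC (-21180) 10000 + cC (3339) 10000 * xD + cC (967) 10000 * xV,
    cC 0,
    cC 0⟩
  wL := ⟨cC (-67267) 10000 + cC (438106) 10000 * xD + cC (-3821) 10000 * xV + cC (-131706) 10000 * (xD * xV) + cC (-798) 10000 * (xV * xV) + cC (-292568) 10000 * (xD * xD) + cC (144008) 10000 * xS,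
    cC (-2926) 10000 + cC (10240) 10000 * xD + cC (-1147) 10000 * xV,
    cC (-24768) 10000 + cC (-5997) 10000 * xD + cC (3071) 10000 * xV,
    cC 0,
    cC 0⟩

/-- The cut of `top17`. -/
def top17Cut : Ex :=
  cC (-1114743) 10000 + cC (2318002) 10000 * xD + cC (699690) 10000 * xV + cC (-481569) 10000 * (xD * xV) + cC (-114835) 10000 * (xV * xV) + cC (-2755531) 10000 * (xD * xD) + cC (-163570) 10000 * xS

/-- The bound of `p` above the cut. -/
def top17PU : Bnd :=
  ⟨cC (-300106) 10000 + cC (685605) 10000 * xD + cC (540200) 10000 * xV + cC (-335586) 10000 * (xD * xV) + cC (-119672) 10000 * (xV * xV) + cC (-761157) 10000 * (xD * xD) + cC (-350607) 10000 * xS,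
    cC (123) 10000 + cC (633) 10000 * xD + cC (-1543) 10000 * xV,
    cC 0,
    cC 0,
    cC (-112607) 10000 + cC (-560942) 10000 * xD + cC (59899) 10000 * xV + cC (298373) 10000 * (xD * xV)⟩

/-- `top17` below the cut. -/
def top17A : Piece :=
  top17.below top17Cut

/-- `top17` above the cut. -/
def top17B : Piece :=
  { top17.above top17Cut top17PU with
    k2p := fun e => cC (150543) 10000 + cC (357862) 10000 * xD + cC (-60033) 10000 * xV + cC (1374) 10000 * e
    k2m := fun _ => cC (-20500) 10000 + cC (114254) 10000 * xD + cC (3486) 10000 * xV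
    kapL := fun e => cC (-960484) 10000 + cC (-1610965) 10000 * xD + cC (606312) 10000 * xV + cC (-58574) 10000 * e
    kapU := fun e => cC (-36106) 10000 + cC (-1160633) 10000 * xD + cC (312804) 10000 * xV + cC (-21726) 10000 * e }

/-- A piece: `2.3 ≤ v < 2.6`. -/
def top18 : Piece where
  u₀ := cC (39) 40
  u₁ := cC (650) 1000 + cC (488) 1000 * xD + cC (81) 1000 * xV
  tLn := topTn
  tLd := topTd
  tUn := topUn
  tUd := topUd
  p₀ := cC (238573) 10000 + cC (-112519) 10000 * xD + cC (-36587) 10000 * xV + cC (82979) 10000 * (xD * xV) + cC (-78749) 10000 * (xD * xD) + cC (-188324) 10000 * xS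
  k2p := fun e => cC (-58757) 10000 + cC (612198) 10000 * xD + cC (-555) 10000 * xV + cC (-2502) 10000 * e
  k2m := fun _ => cC (-27679) 10000 + cC (150500) 10000 * xD + cC (4323) 10000 * xV
  kapL := fun e => cC (-702495) 10000 + cC (-4761954) 10000 * xD + cC (512288) 10000 * xV + cC (-123936) 10000 * e
  kapU := fun e => cC (677325) 10000 + cC (-2210271) 10000 * xD + cC (147279) 10000 * xV + cC (-5614) 10000 * e
  eL := ⟨cC (-513809) 10000 + cC (125416) 10000 * xD + cC (181555) 10000 * xV + cC (27234) 10000 * (xD * xV) + cC (-16439) 10000 * (xV * xV) + cC (898274) 10000 * (xD * xD) + cC (41912) 10000 * xS,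
    cC 0,
    cC 0,
    cC 0,
    cC (158548) 10000 + cC (-1093427) 10000 * xD + cC (-68933) 10000 * xV + cC (475403) 10000 * (xD * xV)⟩
  eH := ⟨cC (-30466) 10000 + cC (-108810) 10000 * xD + cC (9913) 10000 * xV + cC (2531) 10000 * (xD * xV) + cC (204) 10000 * (xV * xV) + cC (-160204) 10000 * (xD * xD) + cC (-30002) 10000 * xS,
    cC 0,
    cC 0,
    cC 0,
    cC (54033) 10000 + cC (-80855) 10000 * xD + cC (-5752) 10000 * xV + cC (44650) 10000 * (xD * xV)⟩
  pL := ⟨cC (-253845) 10000 + cC (1760338) 10000 * xD + cC (219165) 10000 * xV + cC (-426193) 10000 * (xD * xV) + cC (-32682) 10000 * (xV * xV) + cC (-1645425) 10000 * (xD * xD) + cC (-206170) 10000 * xS,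
    cC (1630) 10000 + cC (3359) 10000 * xD + cC (-2515) 10000 * xV,
    cC 0,
    cC 0,
    cC 0⟩
  pU := ⟨cC (446683) 10000 + cC (-574918) 10000 * xD + cC (-67198) 10000 * xV + cC (107051) 10000 * (xD * xV) + cC (4434) 10000 * (xV * xV) + cC (843453) 10000 * (xD * xD) + cC (-386265) 10000 * xS,
    cC (-10514) 10000 + cC (26973) 10000 * xD + cC (834) 10000 * xV,
    cC 0,
    cC 0,
    cC (200635) 10000 + cC (-703228) 10000 * xD + cC (-28315) 10000 * xV + cC (120620) 10000 * (xD * xV)⟩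
  kU := ⟨cC (-2251) 10000 + cC (-73864) 10000 * xD + cC (-981) 10000 * xV + cC (3858) 10000 * (xD * xV) + cC (37) 10000 * (xV * xV) + cC (187191) 10000 * (xD * xD) + cC (17146) 10000 * xS,
    cC (-60) 10000 + cC (9417) 10000 * xD + cC (-30) 10000 * xV,
    cC (-993) 10000 + cC (8942) 10000 * xD + cC (48) 10000 * xV,
    cC 0,
    cC 0⟩
  kL := ⟨cC (-2362) 10000 + cC (-65625) 10000 * xD + cC (-1704) 10000 * xV + cC (6187) 10000 * (xD * xV) + cC (47) 10000 * (xV * xV) + cC (193588) 10000 * (xD * xD) + cC (16320) 10000 * xS,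
    cC (198) 10000 + cC (8352) 10000 * xD + cC (-75) 10000 * xV,
    cC (-548) 10000 + cC (5643) 10000 * xD + cC (63) 10000 * xV,
    cC 0,
    cC 0⟩
  wU := ⟨cC (-71254) 10000 + cC (189193) 10000 * xD + cC (-19847) 10000 * xV + cC (-66020) 10000 * (xD * xV) + cC (3178) 10000 * (xV * xV) + cC (-41504) 10000 * (xD * xD) + cC (187359) 10000 * xS,
    cC (-1425) 10000 + cC (9348) 10000 * xD + cC (-1465) 10000 * xV,
    cC (-16250) 10000 + cC (-10320) 10000 * xD + cC (282) 10000 * xV,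
    cC 0,
    cC (22499) 10000 + cC (-155143) 10000 * xD + cC (-9781) 10000 * xV + cC (67453) 10000 * (xD * xV)⟩
  wL := ⟨cC (-62468) 10000 + cC (277858) 10000 * xD + cC (-17363) 10000 * xV + cC (-79412) 10000 * (xD * xV) + cC (2122) 10000 * (xV * xV) + cC (128634) 10000 * (xD * xD) + cC (156054) 10000 * xS,
    cC (-1616) 10000 + cC (4568) 10000 * xD + cC (-1355) 10000 * xV,
    cC (-18378) 10000 + cC (-26719) 10000 * xD + cC (1648) 10000 * xV,
    cC 0,
    cC (8048) 10000 + cC (-55482) 10000 * xD + cC (-3498) 10000 * xV + cC (24123) 10000 * (xD * xV)⟩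

/-- A piece: `2.6 ≤ v < 3.58`. -/
def top19 : Piece where
  u₀ := cC (39) 40
  u₁ := cC (830) 1000 + cC (378) 1000 * xD + cC (19) 1000 * xV
  tLn := topTn
  tLd := topTd
  tUn := evN
  tUd := evD
  p₀ := cC (253107) 10000 + cC (-106515) 10000 * xD + cC (-36751) 10000 * xV + cC (83729) 10000 * (xD * xV) + cC (-104680) 10000 * (xD * xD) + cC (-212741) 10000 * xS
  k2p := fun e => cC (652863) 10000 + cC (-402519) 10000 * xD + cC (-110439) 10000 * xV + cC (32800) 10000 * e
  k2m := fun _ => cC (-38850) 10000 + cC (273419) 10000 * xD + cC (3560) 10000 * xV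
  kapL := fun e => cC (-1507964) 10000 + cC (-11457585) 10000 * xD + cC (1205065) 10000 * xV + cC (-166538) 10000 * e
  kapU := fun e => cC (-2663034) 10000 + cC (-754787) 10000 * xD + cC (1292900) 10000 * xV + cC (-27901) 10000 * e
  eL := ⟨cC (-363882) 10000 + cC (660991) 10000 * xD + cC (136252) 10000 * xV + cC (-156015) 10000 * (xD * xV) + cC (-13100) 10000 * (xV * xV) + cC (-31446) 10000 * xS,
    cC 0,
    cC 0,
    cC 0,
    cC (974592) 10000 + cC (-8121583) 10000 * xD + cC (-374842) 10000 * xV + cC (3123686) 10000 * (xD * xV)⟩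
  eH := ⟨cC (-41955) 10000 + cC (-150614) 10000 * xD + cC (9776) 10000 * xV + cC (888) 10000 * (xD * xV) + cC (250) 10000 * (xV * xV) + cC (-4594) 10000 * xS,
    cC 0,
    cC 0,
    cC 0,
    cC (610814) 10000 + cC (-5574957) 10000 * xD + cC (-250018) 10000 * xV + cC (2297244) 10000 * (xD * xV)⟩
  pL := ⟨cC (69999) 10000 + cC (641971) 10000 * xD + cC (73360) 10000 * xV + cC (-173808) 10000 * (xD * xV) + cC (-10628) 10000 * (xV * xV) + cC (-307591) 10000 * xS,
    cC (-5408) 10000 + cC (22216) 10000 * xD + cC (-669) 10000 * xV,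
    cC 0,
    cC 0,
    cC (974592) 10000 + cC (-8121583) 10000 * xD + cC (-374842) 10000 * xV + cC (3123686) 10000 * (xD * xV)⟩
  pU := ⟨cC (367450) 10000 + cC (-263405) 10000 * xD + cC (-56725) 10000 * xV + cC (105935) 10000 * (xD * xV) + cC (2562) 10000 * (xV * xV) + cC (-327191) 10000 * xS,
    cC (-11274) 10000 + cC (33015) 10000 * xD + cC (555) 10000 * xV,
    cC 0,
    cC 0,
    cC (679179) 10000 + cC (-5775191) 10000 * xD + cC (-227272) 10000 * xV + cC (2145690) 10000 * (xD * xV)⟩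
  kU := ⟨cC (-6845) 10000 + cC (43698) 10000 * xD + cC (454) 10000 * xV + cC (-7453) 10000 * (xD * xV) + cC (47) 10000 * (xV * xV) + cC (4563) 10000 * xS,
    cC (231) 10000 + cC (6988) 10000 * xD + cC (-24) 10000 * xV,
    cC (-58) 10000 + cC (2290) 10000 * xD + cC (34) 10000 * xV,
    cC 0,
    cC (136522) 10000 + cC (-1137670) 10000 * xD + cC (-53553) 10000 * xV + cC (446279) 10000 * (xD * xV)⟩
  kL := ⟨cC (-37314) 10000 + cC (192029) 10000 * xD + cC (17259) 10000 * xV + cC (-43794) 10000 * (xD * xV) + cC (-1628) 10000 * (xV * xV) + cC (-12659) 10000 * xS,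
    cC (999) 10000 + cC (4044) 10000 * xD + cC (-176) 10000 * xV,
    cC (2638) 10000 + cC (-8507) 10000 * xD + cC (-417) 10000 * xV,
    cC 0,
    cC (15987) 10000 + cC (-133216) 10000 * xD + cC (-6148) 10000 * xV + cC (51237) 10000 * (xD * xV)⟩
  wU := ⟨cC (28480) 10000 + cC (71557) 10000 * xD + cC (-53908) 10000 * xV + cC (-22671) 10000 * (xD * xV) + cC (7168) 10000 * (xV * xV) + cC (124843) 10000 * xS,
    cC (-1863) 10000 + cC (5436) 10000 * xD + cC (-1152) 10000 * xV,
    cC (-19674) 10000 + cC (-13536) 10000 * xD + cC (1673) 10000 * xV,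
    cC 0,
    cC (127402) 10000 + cC (-1061655) 10000 * xD + cC (-49650) 10000 * xV + cC (413748) 10000 * (xD * xV)⟩
  wL := ⟨cC (-8470) 10000 + cC (124100) 10000 * xD + cC (-25883) 10000 * xV + cC (-36623) 10000 * (xD * xV) + cC (3235) 10000 * (xV * xV) + cC (104240) 10000 * xS,
    cC (-1421) 10000 + cC (8758) 10000 * xD + cC (-1594) 10000 * xV,
    cC (-17824) 10000 + cC (-11255) 10000 * xD + cC (662) 10000 * xV,
    cC 0,
    cC (251859) 10000 + cC (-2171922) 10000 * xD + cC (-96868) 10000 * xV + cC (835355) 10000 * (xD * xV)⟩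

end Vale.Agent.P100.Calib.Closed.High
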