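import Vale.Agent.P100.Calib.SlabHighData

/-!
# Checks of the bounds of a piece of the tail
-/

set_option linter.defProp false

namespace Vale.Agent.P100.Calib.Closed.High

open BoxPos Large

def top8_p0 : PosBox ⟨⟨0, 1, 1⟩, ⟨99, 100, 165⟩, ⟨72, 121, 600⟩, ⟨41, 83, 100⟩⟩ (top8.hP0) :=
  posBox_of_check (c := ⟨64, ⟨0, 2, 3, 1⟩⟩) (by decide +kernel)

def top8_gn : PosBox ⟨⟨0, 1, 1⟩, ⟨99, 100, 165⟩, ⟨72, 121, 600⟩, ⟨41, 83, 100⟩⟩ (top8.hGn) :=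
  posBox_of_check (c := ⟨42, ⟨1, 1, 2, 1⟩⟩) (by decide +kernel)

def top8_den0 : PosBox ⟨⟨0, 1, 1⟩, ⟨99, 100, 165⟩, ⟨72, 121, 600⟩, ⟨41, 83, 100⟩⟩ (top8.hDen false) :=
  posBox_of_check (c := ⟨61, ⟨2, 0, 2, 0⟩⟩) (by decide +kernel)

def top8_den1 : PosBox ⟨⟨0, 1, 1⟩, ⟨99, 100, 165⟩, ⟨72, 121, 600⟩, ⟨41, 83, 100⟩⟩ (top8.hDen true) :=
  posBox_of_check (c := ⟨82, ⟨2, 0, 3, 0⟩⟩) (by decide +kernel)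

def top8_ev0 : PosBox ⟨⟨0, 1, 1⟩, ⟨99, 100, 165⟩, ⟨72, 121, 600⟩, ⟨41, 83, 100⟩⟩ (top8.hEv false) :=
  posBox_of_check (c := ⟨111, ⟨4, 2, 4, 1⟩⟩) (by decide +kernel)

def top8_eL0_0 : PosBox ⟨⟨0, 1, 1⟩, ⟨99, 100, 165⟩, ⟨72, 121, 600⟩, ⟨41, 62, 100⟩⟩ (top8.hEL false) :=
  posBox_of_check (c := ⟨202, ⟨5, 6, 7, 3⟩⟩) (by decide +kernel)

def top8_eL0_1 : PosBox ⟨⟨0, 1, 1⟩, ⟨99, 100, 165⟩, ⟨72, 121, 600⟩, ⟨62, 83, 100⟩⟩ (top8.hEL false) :=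
  posBox_of_check (c := ⟨202, ⟨5, 6, 7, 3⟩⟩) (by decide +kernel)

theorem top8_eL0 : PosBox ⟨⟨0, 1, 1⟩, ⟨99, 100, 165⟩, ⟨72, 121, 600⟩, ⟨41, 83, 100⟩⟩ (top8.hEL false) :=
  posBox_join₃ top8_eL0_0 top8_eL0_1

def top8_eH0 : PosBox ⟨⟨0, 1, 1⟩, ⟨99, 100, 165⟩, ⟨72, 121, 600⟩, ⟨41, 83, 100⟩⟩ (top8.hEH false) :=
  posBox_of_check (c := ⟨205, ⟨5, 6, 7, 3⟩⟩) (by decide +kernel)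

def top8_pL0 : PosBox ⟨⟨0, 1, 1⟩, ⟨99, 100, 165⟩, ⟨72, 121, 600⟩, ⟨41, 83, 100⟩⟩ (top8.hPL false) :=
  posBox_of_check (c := ⟨201, ⟨5, 6, 7, 2⟩⟩) (by decide +kernel)

def top8_pU0 : PosBox ⟨⟨0, 1, 1⟩, ⟨99, 100, 165⟩, ⟨72, 121, 600⟩, ⟨41, 83, 100⟩⟩ (top8.hPU false) :=
  posBox_of_check (c := ⟨192, ⟨5, 6, 7, 3⟩⟩) (by decide +kernel)

def top8_kU0 : PosBox ⟨⟨0, 1, 1⟩, ⟨99, 100, 165⟩, ⟨72, 121, 600⟩, ⟨41, 83, 100⟩⟩ (top8.hKU false) :=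
  posBox_of_check (c := ⟨195, ⟨5, 6, 7, 3⟩⟩) (by decide +kernel)

def top8_kL0 : PosBox ⟨⟨0, 1, 1⟩, ⟨99, 100, 165⟩, ⟨72, 121, 600⟩, ⟨41, 83, 100⟩⟩ (top8.hKL false) :=
  posBox_of_check (c := ⟨194, ⟨5, 6, 7, 3⟩⟩) (by decide +kernel)

def top8_wU0 : PosBox ⟨⟨0, 1, 1⟩, ⟨99, 100, 165⟩, ⟨72, 121, 600⟩, ⟨41, 83, 100⟩⟩ (top8.hWU false) :=
  posBox_of_check (c := ⟨220, ⟨5, 8, 8, 3⟩⟩) (by decide +kernel)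

def top8_wL0 : PosBox ⟨⟨0, 1, 1⟩, ⟨99, 100, 165⟩, ⟨72, 121, 600⟩, ⟨41, 83, 100⟩⟩ (top8.hWL false) :=
  posBox_of_check (c := ⟨221, ⟨5, 8, 8, 3⟩⟩) (by decide +kernel)

def top8_ev1 : PosBox ⟨⟨0, 1, 1⟩, ⟨99, 100, 165⟩, ⟨72, 121, 600⟩, ⟨41, 83, 100⟩⟩ (top8.hEv true) :=
  posBox_of_check (c := ⟨158, ⟨4, 2, 6, 1⟩⟩) (by decide +kernel)

def top8_eL1 : PosBox ⟨⟨0, 1, 1⟩, ⟨99, 100, 165⟩, ⟨72, 121, 600⟩, ⟨41, 83, 100⟩⟩ (top8.hEL true) :=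
  posBox_of_check (c := ⟨249, ⟨5, 6, 9, 3⟩⟩) (by decide +kernel)

def top8_eH1_0_0_0 : PosBox ⟨⟨0, 1, 2⟩, ⟨99, 100, 165⟩, ⟨72, 96, 600⟩, ⟨41, 62, 100⟩⟩ (top8.hEH true) :=
  posBox_of_check (c := ⟨252, ⟨5, 6, 9, 3⟩⟩) (by decide +kernel)

def top8_eH1_0_0_1 : PosBox ⟨⟨0, 1, 2⟩, ⟨99, 100, 165⟩, ⟨96, 121, 600⟩, ⟨41, 62, 100⟩⟩ (top8.hEH true) :=
  posBox_of_check (c := ⟨253, ⟨5, 6, 9, 3⟩⟩) (by decide +kernel)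

theorem top8_eH1_0_0 : PosBox ⟨⟨0, 1, 2⟩, ⟨99, 100, 165⟩, ⟨72, 121, 600⟩, ⟨41, 62, 100⟩⟩ (top8.hEH true) :=
  posBox_join₂ top8_eH1_0_0_0 top8_eH1_0_0_1

def top8_eH1_0_1_0 : PosBox ⟨⟨0, 1, 2⟩, ⟨99, 100, 165⟩, ⟨72, 96, 600⟩, ⟨62, 83, 100⟩⟩ (top8.hEH true) :=
  posBox_of_check (c := ⟨253, ⟨5, 6, 9, 3⟩⟩) (by decide +kernel)

def top8_eH1_0_1_1 : PosBox ⟨⟨0, 1, 2⟩, ⟨99, 100, 165⟩, ⟨96, 121, 600⟩, ⟨62, 83, 100⟩⟩ (top8.hEH true) :=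
  posBox_of_check (c := ⟨253, ⟨5, 6, 9, 3⟩⟩) (by decide +kernel)

theorem top8_eH1_0_1 : PosBox ⟨⟨0, 1, 2⟩, ⟨99, 100, 165⟩, ⟨72, 121, 600⟩, ⟨62, 83, 100⟩⟩ (top8.hEH true) :=
  posBox_join₂ top8_eH1_0_1_0 top8_eH1_0_1_1

theorem top8_eH1_0 : PosBox ⟨⟨0, 1, 2⟩, ⟨99, 100, 165⟩, ⟨72, 121, 600⟩, ⟨41, 83, 100⟩⟩ (top8.hEH true) :=
  posBox_join₃ top8_eH1_0_0 top8_eH1_0_1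

def top8_eH1_1_0 : PosBox ⟨⟨1, 2, 2⟩, ⟨99, 100, 165⟩, ⟨72, 121, 600⟩, ⟨41, 62, 100⟩⟩ (top8.hEH true) :=
  posBox_of_check (c := ⟨254, ⟨5, 6, 9, 3⟩⟩) (by decide +kernel)

def top8_eH1_1_1_0_0 : PosBox ⟨⟨1, 2, 2⟩, ⟨99, 100, 165⟩, ⟨72, 96, 600⟩, ⟨62, 72, 100⟩⟩ (top8.hEH true) :=
  posBox_of_check (c := ⟨254, ⟨5, 6, 9, 3⟩⟩) (by decide +kernel)

def top8_eH1_1_1_0_1 : PosBox ⟨⟨1, 2, 2⟩, ⟨99, 100, 165⟩, ⟨72, 96, 600⟩, ⟨72, 83, 100⟩⟩ (top8.hEH true) :=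
  posBox_of_check (c := ⟨254, ⟨5, 6, 9, 3⟩⟩) (by decide +kernel)

theorem top8_eH1_1_1_0 : PosBox ⟨⟨1, 2, 2⟩, ⟨99, 100, 165⟩, ⟨72, 96, 600⟩, ⟨62, 83, 100⟩⟩ (top8.hEH true) :=
  posBox_join₃ top8_eH1_1_1_0_0 top8_eH1_1_1_0_1

def top8_eH1_1_1_1 : PosBox ⟨⟨1, 2, 2⟩, ⟨99, 100, 165⟩, ⟨96, 121, 600⟩, ⟨62, 83, 100⟩⟩ (top8.hEH true) :=
  posBox_of_check (c := ⟨255, ⟨5, 6, 9, 3⟩⟩) (by decide +kernel)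

theorem top8_eH1_1_1 : PosBox ⟨⟨1, 2, 2⟩, ⟨99, 100, 165⟩, ⟨72, 121, 600⟩, ⟨62, 83, 100⟩⟩ (top8.hEH true) :=
  posBox_join₂ top8_eH1_1_1_0 top8_eH1_1_1_1

theorem top8_eH1_1 : PosBox ⟨⟨1, 2, 2⟩, ⟨99, 100, 165⟩, ⟨72, 121, 600⟩, ⟨41, 83, 100⟩⟩ (top8.hEH true) :=
  posBox_join₃ top8_eH1_1_0 top8_eH1_1_1

def top8_eH1 : PosBox ⟨⟨0, 1, 1⟩, ⟨99, 100, 165⟩, ⟨72, 121, 600⟩, ⟨41, 83, 100⟩⟩ (top8.hEH true) :=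
  posBox_units (b := ⟨⟨0, 2, 2⟩, ⟨99, 100, 165⟩, ⟨72, 121, 600⟩, ⟨41, 83, 100⟩⟩) (by decide +kernel) (posBox_join₀ top8_eH1_0 top8_eH1_1)

def top8_pL1 : PosBox ⟨⟨0, 1, 1⟩, ⟨99, 100, 165⟩, ⟨72, 121, 600⟩, ⟨41, 83, 100⟩⟩ (top8.hPL true) :=
  posBox_of_check (c := ⟨248, ⟨5, 6, 9, 2⟩⟩) (by decide +kernel)

def top8_pU1_0 : PosBox ⟨⟨0, 1, 1⟩, ⟨99, 100, 165⟩, ⟨72, 121, 600⟩, ⟨41, 62, 100⟩⟩ (top8.hPU true) :=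
  posBox_of_check (c := ⟨239, ⟨5, 6, 9, 3⟩⟩) (by decide +kernel)

def top8_pU1_1_0 : PosBox ⟨⟨0, 1, 1⟩, ⟨99, 100, 165⟩, ⟨72, 121, 600⟩, ⟨62, 72, 100⟩⟩ (top8.hPU true) :=
  posBox_of_check (c := ⟨239, ⟨5, 6, 9, 3⟩⟩) (by decide +kernel)

def top8_pU1_1_1_0 : PosBox ⟨⟨0, 1, 2⟩, ⟨99, 100, 165⟩, ⟨72, 121, 600⟩, ⟨72, 83, 100⟩⟩ (top8.hPU true) :=
  posBox_of_check (c := ⟨240, ⟨5, 6, 9, 3⟩⟩) (by decide +kernel)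

def top8_pU1_1_1_1 : PosBox ⟨⟨1, 2, 2⟩, ⟨99, 100, 165⟩, ⟨72, 121, 600⟩, ⟨72, 83, 100⟩⟩ (top8.hPU true) :=
  posBox_of_check (c := ⟨242, ⟨5, 6, 9, 3⟩⟩) (by decide +kernel)

def top8_pU1_1_1 : PosBox ⟨⟨0, 1, 1⟩, ⟨99, 100, 165⟩, ⟨72, 121, 600⟩, ⟨72, 83, 100⟩⟩ (top8.hPU true) :=
  posBox_units (b := ⟨⟨0, 2, 2⟩, ⟨99, 100, 165⟩, ⟨72, 121, 600⟩, ⟨72, 83, 100⟩⟩) (by decide +kernel) (posBox_join₀ top8_pU1_1_1_0 top8_pU1_1_1_1)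

theorem top8_pU1_1 : PosBox ⟨⟨0, 1, 1⟩, ⟨99, 100, 165⟩, ⟨72, 121, 600⟩, ⟨62, 83, 100⟩⟩ (top8.hPU true) :=
  posBox_join₃ top8_pU1_1_0 top8_pU1_1_1

theorem top8_pU1 : PosBox ⟨⟨0, 1, 1⟩, ⟨99, 100, 165⟩, ⟨72, 121, 600⟩, ⟨41, 83, 100⟩⟩ (top8.hPU true) :=
  posBox_join₃ top8_pU1_0 top8_pU1_1

def top8_kU1 : PosBox ⟨⟨0, 1, 1⟩, ⟨99, 100, 165⟩, ⟨72, 121, 600⟩, ⟨41, 83, 100⟩⟩ (top8.hKU true) :=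
  posBox_of_check (c := ⟨242, ⟨5, 6, 9, 3⟩⟩) (by decide +kernel)

def top8_kL1_0 : PosBox ⟨⟨0, 1, 1⟩, ⟨99, 100, 165⟩, ⟨72, 121, 600⟩, ⟨41, 62, 100⟩⟩ (top8.hKL true) :=
  posBox_of_check (c := ⟨241, ⟨5, 6, 9, 3⟩⟩) (by decide +kernel)

def top8_kL1_1 : PosBox ⟨⟨0, 1, 1⟩, ⟨99, 100, 165⟩, ⟨72, 121, 600⟩, ⟨62, 83, 100⟩⟩ (top8.hKL true) :=
  posBox_of_check (c := ⟨241, ⟨5, 6, 9, 3⟩⟩) (by decide +kernel)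

theorem top8_kL1 : PosBox ⟨⟨0, 1, 1⟩, ⟨99, 100, 165⟩, ⟨72, 121, 600⟩, ⟨41, 83, 100⟩⟩ (top8.hKL true) :=
  posBox_join₃ top8_kL1_0 top8_kL1_1

def top8_wU1 : PosBox ⟨⟨0, 1, 1⟩, ⟨99, 100, 165⟩, ⟨72, 121, 600⟩, ⟨41, 83, 100⟩⟩ (top8.hWU true) :=
  posBox_of_check (c := ⟨267, ⟨5, 8, 10, 3⟩⟩) (by decide +kernel)

def top8_wL1_0 : PosBox ⟨⟨0, 1, 2⟩, ⟨99, 100, 165⟩, ⟨72, 121, 600⟩, ⟨41, 83, 100⟩⟩ (top8.hWL true) :=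
  posBox_of_check (c := ⟨269, ⟨5, 8, 10, 3⟩⟩) (by decide +kernel)

def top8_wL1_1_0_0_0 : PosBox ⟨⟨1, 2, 2⟩, ⟨99, 100, 165⟩, ⟨72, 96, 600⟩, ⟨41, 51, 100⟩⟩ (top8.hWL true) :=
  posBox_of_check (c := ⟨270, ⟨5, 8, 10, 3⟩⟩) (by decide +kernel)

def top8_wL1_1_0_0_1 : PosBox ⟨⟨1, 2, 2⟩, ⟨99, 100, 165⟩, ⟨96, 121, 600⟩, ⟨41, 51, 100⟩⟩ (top8.hWL true) :=
  posBox_of_check (c := ⟨270, ⟨5, 8, 10, 3⟩⟩) (by decide +kernel)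

theorem top8_wL1_1_0_0 : PosBox ⟨⟨1, 2, 2⟩, ⟨99, 100, 165⟩, ⟨72, 121, 600⟩, ⟨41, 51, 100⟩⟩ (top8.hWL true) :=
  posBox_join₂ top8_wL1_1_0_0_0 top8_wL1_1_0_0_1

def top8_wL1_1_0_1_0 : PosBox ⟨⟨2, 3, 4⟩, ⟨99, 100, 165⟩, ⟨72, 121, 600⟩, ⟨51, 62, 100⟩⟩ (top8.hWL true) :=
  posBox_of_check (c := ⟨272, ⟨5, 8, 10, 3⟩⟩) (by decide +kernel)

def top8_wL1_1_0_1_1_0 : PosBox ⟨⟨3, 4, 4⟩, ⟨99, 100, 165⟩, ⟨72, 96, 600⟩, ⟨51, 62, 100⟩⟩ (top8.hWL true) :=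
  posBox_of_check (c := ⟨272, ⟨5, 8, 10, 3⟩⟩) (by decide +kernel)

def top8_wL1_1_0_1_1_1 : PosBox ⟨⟨3, 4, 4⟩, ⟨99, 100, 165⟩, ⟨96, 121, 600⟩, ⟨51, 62, 100⟩⟩ (top8.hWL true) :=
  posBox_of_check (c := ⟨273, ⟨5, 8, 10, 3⟩⟩) (by decide +kernel)

theorem top8_wL1_1_0_1_1 : PosBox ⟨⟨3, 4, 4⟩, ⟨99, 100, 165⟩, ⟨72, 121, 600⟩, ⟨51, 62, 100⟩⟩ (top8.hWL true) :=
  posBox_join₂ top8_wL1_1_0_1_1_0 top8_wL1_1_0_1_1_1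

def top8_wL1_1_0_1 : PosBox ⟨⟨1, 2, 2⟩, ⟨99, 100, 165⟩, ⟨72, 121, 600⟩, ⟨51, 62, 100⟩⟩ (top8.hWL true) :=
  posBox_units (b := ⟨⟨2, 4, 4⟩, ⟨99, 100, 165⟩, ⟨72, 121, 600⟩, ⟨51, 62, 100⟩⟩) (by decide +kernel) (posBox_join₀ top8_wL1_1_0_1_0 top8_wL1_1_0_1_1)

theorem top8_wL1_1_0 : PosBox ⟨⟨1, 2, 2⟩, ⟨99, 100, 165⟩, ⟨72, 121, 600⟩, ⟨41, 62, 100⟩⟩ (top8.hWL true) :=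
  posBox_join₃ top8_wL1_1_0_0 top8_wL1_1_0_1

def top8_wL1_1_1 : PosBox ⟨⟨1, 2, 2⟩, ⟨99, 100, 165⟩, ⟨72, 121, 600⟩, ⟨62, 83, 100⟩⟩ (top8.hWL true) :=
  posBox_of_check (c := ⟨271, ⟨5, 8, 10, 3⟩⟩) (by decide +kernel)

theorem top8_wL1_1 : PosBox ⟨⟨1, 2, 2⟩, ⟨99, 100, 165⟩, ⟨72, 121, 600⟩, ⟨41, 83, 100⟩⟩ (top8.hWL true) :=
  posBox_join₃ top8_wL1_1_0 top8_wL1_1_1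

def top8_wL1 : PosBox ⟨⟨0, 1, 1⟩, ⟨99, 100, 165⟩, ⟨72, 121, 600⟩, ⟨41, 83, 100⟩⟩ (top8.hWL true) :=
  posBox_units (b := ⟨⟨0, 2, 2⟩, ⟨99, 100, 165⟩, ⟨72, 121, 600⟩, ⟨41, 83, 100⟩⟩) (by decide +kernel) (posBox_join₀ top8_wL1_0 top8_wL1_1)

def top8_mueL : PosBox ⟨⟨0, 1, 1⟩, ⟨99, 100, 165⟩, ⟨72, 121, 600⟩, ⟨41, 83, 100⟩⟩ (top8.eL.μ) :=
  posBox_of_check (c := ⟨16, ⟨0, 0, 0, 0⟩⟩) (by decide +kernel)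

def top8_mueH : PosBox ⟨⟨0, 1, 1⟩, ⟨99, 100, 165⟩, ⟨72, 121, 600⟩, ⟨41, 83, 100⟩⟩ (top8.eH.μ) :=
  posBox_of_check (c := ⟨21, ⟨0, 0, 0, 0⟩⟩) (by decide +kernel)

def top8_mupL : PosBox ⟨⟨0, 1, 1⟩, ⟨99, 100, 165⟩, ⟨72, 121, 600⟩, ⟨41, 83, 100⟩⟩ (top8.pL.μ) :=
  posBox_of_check (c := ⟨18, ⟨0, 0, 0, 0⟩⟩) (by decide +kernel)

/-- The checks on the bounds. -/
theorem top8_env : top8.Env ⟨⟨0, 1, 1⟩, ⟨99, 100, 165⟩, ⟨72, 121, 600⟩, ⟨41, 83, 100⟩⟩ where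
  p0 := top8_p0
  den := Bool.forall_bool.2 ⟨top8_den0, top8_den1⟩
  gn := top8_gn
  ev := Bool.forall_bool.2 ⟨top8_ev0, top8_ev1⟩
  eL := Bool.forall_bool.2 ⟨top8_eL0, top8_eL1⟩
  eL' := ⟨.inl top8_mueL, .inr rfl⟩
  eH := Bool.forall_bool.2 ⟨top8_eH0, top8_eH1⟩
  eH' := ⟨.inl top8_mueH, .inr rfl⟩
  pL := Bool.forall_bool.2 ⟨top8_pL0, top8_pL1⟩
  pL' := ⟨.inl top8_mupL, .inr rfl⟩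
  pU := Bool.forall_bool.2 ⟨top8_pU0, top8_pU1⟩
  pU' := ⟨.inr rfl, .inr rfl⟩
  kU := Bool.forall_bool.2 ⟨top8_kU0, top8_kU1⟩
  kU' := ⟨.inr rfl, .inr rfl⟩
  kL := Bool.forall_bool.2 ⟨top8_kL0, top8_kL1⟩
  kL' := ⟨.inr rfl, .inr rfl⟩
  wU := Bool.forall_bool.2 ⟨top8_wU0, top8_wU1⟩
  wU' := ⟨.inr rfl, .inr rfl⟩
  wL := Bool.forall_bool.2 ⟨top8_wL0, top8_wL1⟩
  wL' := ⟨.inr rfl, .inr rfl⟩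

end Vale.Agent.P100.Calib.Closed.High
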