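import Vale.Agent.P100.Calib.SlabSignExpr

/-!
# Coefficients of the closed signs at `g = 1`, and the ray gap
-/

set_option linter.unusedVariables false
set_option linter.unusedSimpArgs false

namespace Vale.Agent.P100.Calib.Closed

open BoxPos

local instance signCoefAdd : Add Ex := ⟨Ex.add⟩
local instance signCoefMul : Mul Ex := ⟨Ex.mul⟩


/-- The coefficient of `p^2` in `eTGG`. -/
def eTGG2 (a d v : Ex) : Ex :=
  (((((cC (-5000) 1 * v * v * v * d + cC (-5000) 1 * v * v) * d * d * a + ((cC (-17500) 1 * v *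
    v * v * d + (cC (-2500) 1 * v + cC (-17500) 1) * v * v) * d + cC (-2500) 1 * v * v) * d * d)
    * a + (((((cC (-22500) 1 * v * v * v * d + (cC (-7500) 1 * v + cC (-22500) 1) * v * v) * d +
    cC (-7500) 1 * v * v) * d + cC (-625) 1 * v * v) * d + cC (-1250) 1 * v) * d + cC (-625) 1))
    * a + ((((((cC (-12500) 1 * v * v * v * d + (cC (-7500) 1 * v + cC (-12500) 1) * v * v) * d
    + cC (-7500) 1 * v * v) * d + cC (-3125) 2 * v * v) * d + (cC (-625) 2 * v + cC (-3125) 1) *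
    v) * d + (cC (-625) 1 * v + cC (-3125) 2)) * d + cC (-625) 2)) * a + ((((((cC (-2500) 1 * v
    * v * v * d + (cC (-2500) 1 * v + cC (-2500) 1) * v * v) * d + cC (-2500) 1 * v * v) * d +
    cC (-1250) 1 * v * v) * d + (cC (-625) 1 * v + cC (-2500) 1) * v) * d + (cC (-1250) 1 * v +
    cC (-1250) 1)) * d + cC (-625) 1) * d) * a + (((cC (-625) 2 * v * v * d + (cC (-625) 2 * v +
    cC (-625) 1) * v) * d + (cC (-625) 1 * v + cC (-625) 2)) * d + cC (-625) 2) * d * d

theorem val_eTGG2 (a d v : Ex) (o S t u e k w : ℝ) :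
    2 * (eTGG2 a d v).val o S t u =
      TGG (a.val o S t u) (d.val o S t u) (v.val o S t u) 1 1 w 0 e k + TGG (a.val o S t
      u) (d.val o S t u) (v.val o S t u) 1 (-1) w 0 e k - 2 * TGG (a.val o S t u) (d.val o
      S t u) (v.val o S t u) 1 0 w 0 e k := by
  simp only [eTGG2, ex_add, ex_mul, Ex.val, TGG, LGG, LGGc, LGGv, j1, gG, hG]
  push_cast
  ring

/-- The coefficient of `p^2` in `eTEG`. -/
def eTEG2 (a d v : Ex) : Ex :=
  ((((((cC 400 * v * v * d + cC (-800) 1 * v) * d + cC (-800) 1) * a + (((cC 1400 * v * v * d +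
    (cC 200 * v + cC (-2800) 1) * v) * d + (cC (-300) 1 * v + cC (-2800) 1)) * d + cC (-300) 1))
    * a + ((((cC 1800 * v * v * d + (cC 600 * v + cC (-3600) 1) * v) * d + (cC (-900) 1 * v + cC
    (-3600) 1)) * d + (cC 100 * v + cC (-900) 1)) * d + cC 100)) * a + (((((cC 1000 * v * v * d
    + (cC 600 * v + cC (-2000) 1) * v) * d + (cC (-875) 1 * v + cC (-2000) 1)) * d + (cC 250 * v
    + cC (-875) 1)) * d + (cC 25 * v + cC 250)) * d + cC 25)) * a + (((((cC 200 * v * v * d +
    (cC 200 * v + cC (-400) 1) * v) * d + (cC (-250) 1 * v + cC (-400) 1)) * d + (cC 200 * v +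
    cC (-250) 1)) * d + (cC 50 * v + cC 200)) * d + cC 50) * d) * a + (((cC 25 * v * d + (cC 50
    * v + cC 25)) * d + (cC 25 * v + cC 50)) * d + cC 25) * d * d

theorem val_eTEG2 (a d v : Ex) (o S t u e k w : ℝ) :
    2 * (eTEG2 a d v).val o S t u =
      TEG (a.val o S t u) (d.val o S t u) (v.val o S t u) 1 1 w 0 e k + TEG (a.val o S t
      u) (d.val o S t u) (v.val o S t u) 1 (-1) w 0 e k - 2 * TEG (a.val o S t u) (d.val o
      S t u) (v.val o S t u) 1 0 w 0 e k := by
  simp only [eTEG2, ex_add, ex_mul, Ex.val, TEG, LEG, LEG1, LEG1_000000_0, LEGc, LEGv, LEGw, j1, gE, gG, hE, hG]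
  push_cast
  ring

/-- The coefficient of `p^2` in `eTA`. -/
def eTA2 (a d v : Ex) : Ex :=
  ((((((((cC (-5000) 1 * v * v * v * v * d + cC 17500 * v * v * v) * d + cC (-2500) 1 * v * v) *
    d + cC (-40000) 1 * v) * d + cC (-20000) 1) * a + (((((cC (-17500) 1 * v * v * v * v * d +
    (cC (-2500) 1 * v + cC 61250) * v * v * v) * d + (cC 6250 * v + cC (-8750) 1) * v * v) * d +
    (cC (-3750) 1 * v + cC (-140000) 1) * v) * d + (cC (-20000) 1 * v + cC (-70000) 1)) * d + cC
    (-10000) 1)) * a + (((((cC (-22500) 1 * v * v * v * v * d + (cC (-7500) 1 * v + cC 78125) *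
    v * v * v) * d + (cC 18750 * v + cC (-11875) 1) * v * v) * d + ((cC (-1875) 1 * v + cC
    (-11250) 1) * v + cC (-180000) 1) * v) * d + ((cC (-1875) 1 * v + cC (-60000) 1) * v + cC
    (-90000) 1)) * d + cC (-30000) 1) * d) * a + (((((cC (-12500) 1 * v * v * v * v * d + (cC
    (-7500) 1 * v + cC (84375) 2) * v * v * v) * d + (cC (35625) 2 * v + cC (-15625) 2) * v * v)
    * d + ((cC (-9375) 2 * v + cC (-24375) 2) * v + cC (-100000) 1) * v) * d + (((cC (-625) 2 *
    v + cC (-9375) 2) * v + cC (-60000) 1) * v + cC (-50000) 1)) * d + (cC (-625) 2 * v * v + cC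
    (-30000) 1)) * d * d) * a + (((((cC (-2500) 1 * v * v * v * v * d + (cC (-2500) 1 * v + cC
    7500) * v * v * v) * d + (cC 4375 * v + cC (-2500) 1) * v * v) * d + ((cC (-3750) 1 * v + cC
    (-5625) 1) * v + cC (-20000) 1) * v) * d + (((cC (-625) 1 * v + cC (-3750) 1) * v + cC
    (-20000) 1) * v + cC (-10000) 1)) * d + (cC (-625) 1 * v * v + cC (-10000) 1)) * d * d * d)
    * a + ((((cC (-625) 2 * v * v * v * d + (cC (-1875) 2 * v + cC (-625) 2) * v * v) * d + (cC
    (-1875) 2 * v + cC (-1875) 2) * v * v) * d + (cC (-625) 2 * v + cC (-1875) 2) * v * v) * d +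
    cC (-625) 2 * v * v) * d * d * d * d

theorem val_eTA2 (a d v : Ex) (o S t u e k w : ℝ) :
    2 * (eTA2 a d v).val o S t u =
      TA (a.val o S t u) (d.val o S t u) (v.val o S t u) 1 1 w 0 e k + TA (a.val o S t u)
      (d.val o S t u) (v.val o S t u) 1 (-1) w 0 e k - 2 * TA (a.val o S t u) (d.val o S t
      u) (v.val o S t u) 1 0 w 0 e k := by
  simp only [eTA2, ex_add, ex_mul, Ex.val, TA, TEE, TMG, LEE, LEE1, LEEc, LEEc_000000_0, LEEc_000000_1, LEEc_110000_0, LEEc_110000_1, LEEv, LEEw, LMG, LMG1, LMG1_000000_0, LMG1_000000_1, LMGc, LMGc_000000_0, LMGc_000000_1, LMGv, LMGw, gramEE, gramMG, j1, gM, gE, gG, hM, hE, hG]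
  push_cast
  ring

/-- The coefficient of `p^2` in `eTMG`. -/
def eTMG2 (a d v : Ex) : Ex :=
  (((((((cC (-2500) 1 * v * v * v * v * d + cC 8750 * v * v * v) * d + cC (-1250) 1 * v * v) * d
    + cC (-20000) 1 * v) * d + cC (-10000) 1) * a + ((((cC (-7500) 1 * v * v * v * v * d + cC
    26250 * v * v * v) * d + (cC (-1250) 1 * v + cC (-3750) 1) * v * v) * d + (cC (-1250) 1 * v
    + cC (-60000) 1) * v) * d + cC (-30000) 1) * d) * a + ((((cC (-7500) 1 * v * v * v * v * d +
    cC (51875) 2 * v * v * v) * d + (cC (-3125) 1 * v + cC (-8125) 2) * v * v) * d + ((cC (-625)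
    2 * v + cC (-3125) 1) * v + cC (-60000) 1) * v) * d + (cC (-625) 2 * v * v + cC (-30000) 1))
    * d * d) * a + ((((cC (-2500) 1 * v * v * v * v * d + cC 8125 * v * v * v) * d + (cC (-2500)
    1 * v + cC (-1875) 1) * v * v) * d + ((cC (-625) 1 * v + cC (-2500) 1) * v + cC (-20000) 1)
    * v) * d + (cC (-625) 1 * v * v + cC (-10000) 1)) * d * d * d) * a + (((cC (-625) 2 * v * v
    * v * d + (cC (-625) 1 * v + cC (-625) 2) * v * v) * d + (cC (-625) 2 * v + cC (-625) 1) * v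
    * v) * d + cC (-625) 2 * v * v) * d * d * d * d

theorem val_eTMG2 (a d v : Ex) (o S t u e k w : ℝ) :
    2 * (eTMG2 a d v).val o S t u =
      TMG (a.val o S t u) (d.val o S t u) (v.val o S t u) 1 1 w 0 e k + TMG (a.val o S t
      u) (d.val o S t u) (v.val o S t u) 1 (-1) w 0 e k - 2 * TMG (a.val o S t u) (d.val o
      S t u) (v.val o S t u) 1 0 w 0 e k := by
  simp only [eTMG2, ex_add, ex_mul, Ex.val, TMG, LMG, LMG1, LMG1_000000_0, LMG1_000000_1, LMGc, LMGc_000000_0, LMGc_000000_1, LMGv, LMGw, gramEE, gramMG, j1, gM, gE, gG, hM, hE, hG]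
  push_cast
  ring

/-- The coefficient of `k` in `eTA`. -/
def eTAk (a d v : Ex) : Ex :=
  ((((cC 2560000 * v * v * v * v * d + cC 7680000 * v * v * v) * d + cC 5120000 * v * v) * a +
    (((cC 3840000 * v * v * v * v * d + (cC (-1280000) 1 * v + cC 11520000) * v * v * v) * d +
    (cC (-3840000) 1 * v + cC 7680000) * v * v) * d + cC (-2560000) 1 * v * v)) * a + (((cC
    1280000 * v * v * v * v * d + (cC (-1280000) 1 * v + cC 3840000) * v * v * v) * d + (cC
    (-3840000) 1 * v + cC 2560000) * v * v) * d + cC (-2560000) 1 * v * v) * d) * a * a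

theorem val_eTAk (a d v : Ex) (o S t u p e w : ℝ) :
    (eTAk a d v).val o S t u =
      TA (a.val o S t u) (d.val o S t u) (v.val o S t u) 1 p w 0 e 1 - TA (a.val o S t u)
      (d.val o S t u) (v.val o S t u) 1 p w 0 e 0 := by
  simp only [eTAk, ex_add, ex_mul, Ex.val, TA, TEE, TMG, LEE, LEE1, LEEc, LEEc_000000_0, LEEc_000000_1, LEEc_110000_0, LEEc_110000_1, LEEv, LEEw, LMG, LMG1, LMG1_000000_0, LMG1_000000_1, LMGc, LMGc_000000_0, LMGc_000000_1, LMGv, LMGw, gramEE, gramMG, j1, gM, gE, gG, hM, hE, hG]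
  push_cast
  ring

/-- The coefficient of `w` in `eTA`. -/
def eTAw (a d v : Ex) : Ex :=
  ((((((cC (-160000) 1 * v * v * v * d + cC (-480000) 1 * v * v) * d + cC (-320000) 1 * v) * a +
    (((cC (-560000) 1 * v * v * v * d + (cC (-80000) 1 * v + cC (-1680000) 1) * v * v) * d + (cC
    (-240000) 1 * v + cC (-1120000) 1) * v) * d + cC (-160000) 1 * v)) * a + (((cC (-720000) 1 *
    v * v * v * d + (cC (-240000) 1 * v + cC (-2160000) 1) * v * v) * d + (cC (-720000) 1 * v +
    cC (-1440000) 1) * v) * d + cC (-480000) 1 * v) * d) * a + (((cC (-400000) 1 * v * v * v * d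
    + (cC (-240000) 1 * v + cC (-1200000) 1) * v * v) * d + (cC (-720000) 1 * v + cC (-800000)
    1) * v) * d + cC (-480000) 1 * v) * d * d) * a + (((cC (-80000) 1 * v * v * v * d + (cC
    (-80000) 1 * v + cC (-240000) 1) * v * v) * d + (cC (-240000) 1 * v + cC (-160000) 1) * v) *
    d + cC (-160000) 1 * v) * d * d * d) * a

theorem val_eTAw (a d v : Ex) (o S t u p e k : ℝ) :
    (eTAw a d v).val o S t u =
      TA (a.val o S t u) (d.val o S t u) (v.val o S t u) 1 p 1 0 e k - TA (a.val o S t u)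
      (d.val o S t u) (v.val o S t u) 1 p 0 0 e k := by
  simp only [eTAw, ex_add, ex_mul, Ex.val, TA, TEE, TMG, LEE, LEE1, LEEc, LEEc_000000_0, LEEc_000000_1, LEEc_110000_0, LEEc_110000_1, LEEv, LEEw, LMG, LMG1, LMG1_000000_0, LMG1_000000_1, LMGc, LMGc_000000_0, LMGc_000000_1, LMGv, LMGw, gramEE, gramMG, j1, gM, gE, gG, hM, hE, hG]
  push_cast
  ring

/-- The coefficient of `k` in `eTMG`. -/
def eTMGk (a d v : Ex) : Ex :=
  ((((cC 2560000 * v * v * v * v * d + cC 7680000 * v * v * v) * d + cC 5120000 * v * v) * a +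
    (((cC 3840000 * v * v * v * v * d + (cC (-1280000) 1 * v + cC 11520000) * v * v * v) * d +
    (cC (-3840000) 1 * v + cC 7680000) * v * v) * d + cC (-2560000) 1 * v * v)) * a + (((cC
    1280000 * v * v * v * v * d + (cC (-1280000) 1 * v + cC 3840000) * v * v * v) * d + (cC
    (-3840000) 1 * v + cC 2560000) * v * v) * d + cC (-2560000) 1 * v * v) * d) * a * a

theorem val_eTMGk (a d v : Ex) (o S t u p e w : ℝ) :
    (eTMGk a d v).val o S t u =
      TMG (a.val o S t u) (d.val o S t u) (v.val o S t u) 1 p w 0 e 1 - TMG (a.val o S t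
      u) (d.val o S t u) (v.val o S t u) 1 p w 0 e 0 := by
  simp only [eTMGk, ex_add, ex_mul, Ex.val, TMG, LMG, LMG1, LMG1_000000_0, LMG1_000000_1, LMGc, LMGc_000000_0, LMGc_000000_1, LMGv, LMGw, gramEE, gramMG, j1, gM, gE, gG, hM, hE, hG]
  push_cast
  ring

/-- The coefficient of `w` in `eTMG`. -/
def eTMGw (a d v : Ex) : Ex :=
  ((((((cC (-160000) 1 * v * v * v * d + cC (-480000) 1 * v * v) * d + cC (-320000) 1 * v) * a +
    (((cC (-560000) 1 * v * v * v * d + (cC 80000 * v + cC (-1680000) 1) * v * v) * d + (cC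
    240000 * v + cC (-1120000) 1) * v) * d + cC 160000 * v)) * a + (((cC (-720000) 1 * v * v * v
    * d + (cC 240000 * v + cC (-2160000) 1) * v * v) * d + (cC 720000 * v + cC (-1440000) 1) *
    v) * d + cC 480000 * v) * d) * a + (((cC (-400000) 1 * v * v * v * d + (cC 240000 * v + cC
    (-1200000) 1) * v * v) * d + (cC 720000 * v + cC (-800000) 1) * v) * d + cC 480000 * v) * d
    * d) * a + (((cC (-80000) 1 * v * v * v * d + (cC 80000 * v + cC (-240000) 1) * v * v) * d +
    (cC 240000 * v + cC (-160000) 1) * v) * d + cC 160000 * v) * d * d * d) * a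

theorem val_eTMGw (a d v : Ex) (o S t u p e k : ℝ) :
    (eTMGw a d v).val o S t u =
      TMG (a.val o S t u) (d.val o S t u) (v.val o S t u) 1 p 1 0 e k - TMG (a.val o S t
      u) (d.val o S t u) (v.val o S t u) 1 p 0 0 e k := by
  simp only [eTMGw, ex_add, ex_mul, Ex.val, TMG, LMG, LMG1, LMG1_000000_0, LMG1_000000_1, LMGc, LMGc_000000_0, LMGc_000000_1, LMGv, LMGw, gramEE, gramMG, j1, gM, gE, gG, hM, hE, hG]
  push_cast
  ring

/-- The coefficient of `k` in `eTME`. -/
def eTMEk (a d v : Ex) : Ex :=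
  ((cC (-800) 1 * v * v * v * d + cC (-1600) 1 * v * v) * a + ((cC (-400) 1 * v * v * v * d +
    (cC 400 * v + cC (-800) 1) * v * v) * d + cC 800 * v * v)) * a

theorem val_eTMEk (a d v : Ex) (o S t u p e w : ℝ) :
    (eTMEk a d v).val o S t u =
      TME (a.val o S t u) (d.val o S t u) (v.val o S t u) 1 p w e 1 - TME (a.val o S t u)
      (d.val o S t u) (v.val o S t u) 1 p w e 0 := by
  simp only [eTMEk, ex_add, ex_mul, Ex.val, TME, TME_010000_0, TME_010000_1]
  push_cast
  ring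

/-- The coefficient of `w` in `eTME`. -/
def eTMEw (a d v : Ex) : Ex :=
  (((cC 50 * v * v * d + cC 100 * v) * a + ((cC 125 * v * v * d + (cC 25 * v + cC 250) * v) * d
    + cC 50 * v)) * a + ((cC 100 * v * v * d + (cC 50 * v + cC 200) * v) * d + cC 100 * v) * d)
    * a + ((cC 25 * v * v * d + (cC 25 * v + cC 50) * v) * d + cC 50 * v) * d * d

theorem val_eTMEw (a d v : Ex) (o S t u p e k : ℝ) :
    (eTMEw a d v).val o S t u =
      TME (a.val o S t u) (d.val o S t u) (v.val o S t u) 1 p 1 e k - TME (a.val o S t u)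
      (d.val o S t u) (v.val o S t u) 1 p 0 e k := by
  simp only [eTMEw, ex_add, ex_mul, Ex.val, TME, TME_010000_0, TME_010000_1]
  push_cast
  ring

/-- `LLG` with `q` for `W R`. -/
def eLLG (a d v q r e k : Ex) : Ex :=
  ((((((cC (-84) 1 * v * v * v * v * d + cC (-704) 1 * v * v * v) * d + cC (-1608) 1 * v * v) *
    d + cC (-1072) 1 * v) * a + ((((cC (-210) 1 * v * v * v * v * d + (cC 42 * v + cC (-1760) 1)
    * v * v * v) * d + (cC 252 * v + cC (-4020) 1) * v * v) * d + (cC 504 * v + cC (-2680) 1) *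
    v) * d + cC 336 * v)) * a + (((((cC (-168) 1 * v * v * v * v * d + (cC 84 * v + cC (-1458)
    1) * v * v * v) * d + (cC 504 * v + cC (-3366) 1) * v * v) * d + ((cC 150 * v + cC 1008) * v
    + cC (-2244) 1) * v) * d + (cC 450 * v + cC 672) * v) * d + cC 300 * v)) * a + ((((((cC
    (-42) 1 * v * v * v * v * d + (cC 42 * v + cC (-427) 1) * v * v * v) * d + (cC 252 * v + cC
    (-1029) 1) * v * v) * d + ((cC 225 * v + cC 504) * v + cC (-686) 1) * v) * d + ((cC 50 * v +
    cC 675) * v + cC 336) * v) * d + (cC 150 * v + cC 450) * v) * d + cC 100 * v)) * a + (((((cC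
    (-25) 1 * v * v * v * d + cC (-75) 1 * v * v) * d + (cC 75 * v * v + cC (-50) 1) * v) * d +
    (cC 50 * v + cC 225) * v * v) * d + (cC 150 * v + cC 150) * v) * d + cC 100 * v) * d +
    ((((cC 1600 * v * v * d + cC 4800 * v) * d + cC 3200) * a + (((cC 2400 * v * v * d + (cC
    (-800) 1 * v + cC 7200) * v) * d + (cC (-2400) 1 * v + cC 4800)) * d + cC (-1600) 1)) * a +
    (((cC 800 * v * v * d + (cC (-800) 1 * v + cC 2400) * v) * d + (cC (-2400) 1 * v + cC 1600))
    * d + cC (-1600) 1) * d) * a * e + (((cC (-1600) 1 * v * v * v * d + cC (-4800) 1 * v * v) *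
    d + cC (-3200) 1 * v) * a + (((cC (-800) 1 * v * v * v * d + (cC 800 * v + cC (-2400) 1) * v
    * v) * d + (cC 2400 * v + cC (-1600) 1) * v) * d + cC 1600 * v)) * a * r * k + ((((cC 3200 *
    v * v * d + cC 6400 * v) * d + cC 3200) * a + ((((cC (-400) 1 * v * v * v * d + (cC 400 * v
    + cC 2000) * v * v) * d + (cC (-1200) 1 * v + cC 5600) * v) * d + (cC (-4800) 1 * v + cC
    3200)) * d + cC (-3200) 1)) * a + (((((cC (-200) 1 * v * v * v * d + (cC 400 * v + cC 200) *
    v * v) * d + (cC (-200) 1 * v * v + cC 1200) * v) * d + ((cC (-200) 1 * v + cC (-2000) 1) *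
    v + cC 800)) * d + (cC 800 * v + cC (-1600) 1)) * d + cC 800)) * a * r * e + ((((((cC 184 *
    v * v * v * d + cC 636 * v * v) * d + cC 536 * v) * d * a + (((cC 510 * v * v * v * d + (cC
    (-42) 1 * v + cC 1740) * v * v) * d + (cC (-168) 1 * v + cC 1440) * v) * d + cC (-168) 1 *
    v) * d) * a + ((((cC 493 * v * v * v * d + (cC (-134) 1 * v + cC 1647) * v * v) * d + ((cC
    (-75) 1 * v + cC (-486) 1) * v + cC 1322) * v) * d + (cC (-225) 1 * v + cC (-436) 1) * v) *
    d + cC (-150) 1 * v) * d) * a + (((((cC 192 * v * v * v * d + (cC (-117) 1 * v + cC 618) * v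
    * v) * d + ((cC (-150) 1 * v + cC (-393) 1) * v + cC 468) * v) * d + ((cC (-25) 1 * v + cC
    (-450) 1) * v + cC (-318) 1) * v) * d + (cC (-75) 1 * v + cC (-300) 1) * v) * d + cC (-50) 1
    * v) * d) * a + (((((cC 25 * v * v * v * d + (cC (-25) 1 * v + cC 75) * v * v) * d + ((cC
    (-75) 1 * v + cC (-75) 1) * v + cC 50) * v) * d + ((cC (-25) 1 * v + cC (-225) 1) * v + cC
    (-50) 1) * v) * d + (cC (-75) 1 * v + cC (-150) 1) * v) * d + cC (-50) 1 * v) * d * d) * q

theorem val_eLLG (a d v q r e k : Ex) (o S t u g W W1 R : ℝ)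
    (hq : q.val o S t u = W * R) (hr : r.val o S t u = R) :
    (eLLG a d v q r e k).val o S t u = LLG (a.val o S t u) (d.val o S t u) (v.val o S t u) g W
      W1 R (e.val o S t u) (k.val o S t u) := by
  simp only [eLLG, ex_add, ex_mul, Ex.val, hq, hr, LLG, LLGc, LLGv, LLGw]
  push_cast
  ring

end Vale.Agent.P100.Calib.Closed
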