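import Vale.Agent.P100.Calib.BoxPos
import Vale.Agent.P100.Calib.SlabClosed

/-!
# The closed signs at `g = 1` as expressions

The closed forms are homogeneous in `(g, g W, g E, g K, g W1)`; here `p, e, k, w` stand for
`g W, g E, g K, g W1`. The coefficients are in Horner form in `a`, `d`, `v`.
-/

set_option linter.unusedVariables false
set_option linter.unusedSimpArgs false

namespace Vale.Agent.P100.Calib.Closed

open BoxPos

/-- A rational constant. -/
abbrev cC (n : ℤ) (k : ℕ := 1) : Ex := .cst n k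

local instance signExprAdd : Add Ex := ⟨Ex.add⟩
local instance signExprMul : Mul Ex := ⟨Ex.mul⟩
local instance signExprSub : Sub Ex := ⟨Ex.sub⟩

theorem ex_add (a b : Ex) (w S d v : ℝ) :
    (a + b).val w S d v = a.val w S d v + b.val w S d v := rfl

theorem ex_sub (a b : Ex) (w S d v : ℝ) :
    (a - b).val w S d v = a.val w S d v - b.val w S d v := rfl

theorem ex_mul (a b : Ex) (w S d v : ℝ) :
    (a * b).val w S d v = a.val w S d v * b.val w S d v := rfl

/-- `TGG` at `g = 1`. -/
def eTGG (a d v p : Ex) : Ex :=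
  (((((((((cC (-80000) 1 * v * v * v * v * v * d + cC (-720000) 1 * v * v * v * v) * d + cC
    (-1280000) 1 * v * v * v) * d + cC (-640000) 1 * v * v) * a + ((((cC (-360000) 1 * v * v * v
    * v * v * d + (cC (-334400) 1 * v + cC (-2760000) 1) * v * v * v * v) * d + (cC (-2152000) 1
    * v + cC (-4640000) 1) * v * v * v) * d + (cC (-3635200) 1 * v + cC (-2240000) 1) * v * v) *
    d + cC (-1817600) 1 * v * v)) * a + (((((cC (-660000) 1 * v * v * v * v * v * d + ((cC
    (-7056) 1 * v + cC (-1163200) 1) * v + cC (-4260000) 1) * v * v * v * v) * d + ((cC 138752 *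
    v + cC (-6936000) 1) * v + cC (-6720000) 1) * v * v * v) * d + ((cC 766656 * v + cC
    (-11225600) 1) * v + cC (-3120000) 1) * v * v) * d + (cC 1255808 * v + cC (-5452800) 1) * v
    * v) * d + cC 627904 * v * v)) * a + ((((((cC (-630000) 1 * v * v * v * v * v * d + ((cC
    (-17640) 1 * v + cC (-1566800) 1) * v + cC (-3390000) 1) * v * v * v * v) * d + (((cC
    (-3528) 1 * v + cC 346880) * v + cC (-8474000) 1) * v + cC (-4960000) 1) * v * v * v) * d +
    (((cC 8576 * v + cC 1996640) * v + cC (-13014400) 1) * v + cC (-2200000) 1) * v * v) * d +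
    ((cC 159328 * v + cC 3459520) * v + cC (-6107200) 1) * v * v) * d + (cC 301504 * v + cC
    1969760) * v * v) * d + (cC 150752 * v + cC 160000) * v)) * a + (((((((cC (-330000) 1 * v *
    v * v * v * v * d + ((cC (-14112) 1 * v + cC (-1021600) 1) * v + cC (-1470000) 1) * v * v *
    v * v) * d + (((cC (-7056) 1 * v + cC 264104) * v + cC (-4868000) 1) * v + cC (-1960000) 1)
    * v * v * v) * d + (((cC 48752 * v + cC 1726312) * v + cC (-6972800) 1) * v + cC (-820000)
    1) * v * v) * d + (((cC (-5000) 1 * v + cC 439856) * v + cC 3244416) * v + cC (-3126400) 1)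
    * v * v) * d + ((cC (-5000) 1 * v + cC 771808) * v + cC 2102208) * v * v) * d + (cC 433504 *
    v + cC 320000) * v) * d + cC 52800 * v)) * a + ((((((((cC (-90000) 1 * v * v * v * v * v * d
    + ((cC (-3528) 1 * v + cC (-323600) 1) * v + cC (-330000) 1) * v * v * v * v) * d + (((cC
    (-3528) 1 * v + cC 49276) * v + cC (-1308000) 1) * v + cC (-390000) 1) * v * v * v) * d +
    (((cC 64276 * v + cC 532828) * v + cC (-1688800) 1) * v + cC (-150000) 1) * v * v) * d +
    (((cC (-6700) 1 * v + cC 412628) * v + cC 1167104) * v + cC (-704400) 1) * v * v) * d +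
    (((cC (-2500) 1 * v + cC (-11900) 1) * v + cC 681104) * v + cC 883552) * v * v) * d + (((cC
    (-2500) 1 * v + cC (-25600) 1) * v + cC 411952) * v + cC 200000) * v) * d + (cC (-34000) 1 *
    v + cC 79200) * v) * d + cC (-13600) 1 * v)) * a + (((((((((cC (-10000) 1 * v * v * v * v *
    v * d + (cC (-40000) 1 * v + cC (-30000) 1) * v * v * v * v) * d + ((cC (-6700) 1 * v + cC
    (-130000) 1) * v + cC (-30000) 1) * v * v * v) * d + (((cC 24100 * v + cC 34000) * v + cC
    (-140000) 1) * v + cC (-10000) 1) * v * v) * d + (((cC (-1700) 1 * v + cC 127100) * v + cC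
    121400) * v + cC (-50000) 1) * v * v) * d + (((cC (-2500) 1 * v + cC (-9400) 1) * v + cC
    190800) * v + cC 120700) * v * v) * d + (((cC (-2500) 1 * v + cC (-40600) 1) * v + cC
    104200) * v + cC 40000) * v) * d + (cC (-66500) 1 * v + cC 16400) * v) * d + cC (-43600) 1 *
    v) * d + cC (-10000) 1)) * a + (((((((cC (-1250) 1 * v * v * v * v * d + (cC (-3750) 1 * v +
    cC (-2500) 1) * v * v * v) * d + ((cC (-3750) 1 * v + cC (-12500) 1) * v + cC (-1250) 1) * v
    * v) * d + ((cC (-1250) 1 * v + cC (-17500) 1) * v + cC (-13750) 1) * v * v) * d + ((cC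
    (-7500) 1 * v + cC (-28750) 1) * v + cC (-5000) 1) * v) * d + (cC (-16250) 1 * v + cC
    (-20000) 1) * v) * d + (cC (-15000) 1 * v + cC (-5000) 1)) * d + cC (-5000) 1) + (((((((cC
    40000 * v * v * v * v * d + cC 40000 * v * v * v) * d * d * a + ((((cC 160000 * v * v * v *
    v * d + (cC 20000 * v + cC 200000) * v * v * v) * d + (cC (-20000) 1 * v + cC 40000) * v *
    v) * d + cC (-80000) 1 * v * v) * d + cC (-40000) 1 * v)) * a + (((((cC 250000 * v * v * v *
    v * d + (cC 60000 * v + cC 370000) * v * v * v) * d + ((cC 14200 * v + cC (-60000) 1) * v +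
    cC 120000) * v * v) * d + (cC 1000 * v + cC (-240000) 1) * v * v) * d + (cC (-26400) 1 * v +
    cC (-120000) 1) * v) * d + cC (-13200) 1 * v)) * a + ((((((cC 190000 * v * v * v * v * d +
    (cC 65000 * v + cC 320000) * v * v * v) * d + ((cC 30500 * v + cC (-65000) 1) * v + cC
    130000) * v * v) * d + ((cC 7100 * v + cC (-12500) 1) * v + cC (-260000) 1) * v * v) * d +
    ((cC 10500 * v + cC (-76000) 1) * v + cC (-130000) 1) * v) * d + (cC 6800 * v + cC (-33000)
    1) * v) * d + cC 3400 * v)) * a + (((((((cC 70000 * v * v * v * v * d + (cC 30000 * v + cC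
    130000) * v * v * v) * d + ((cC 18400 * v + cC (-30000) 1) * v + cC 60000) * v * v) * d +
    ((cC 14200 * v + cC (-25500) 1) * v + cC (-120000) 1) * v * v) * d + ((cC 23500 * v + cC
    (-67800) 1) * v + cC (-60000) 1) * v) * d + (cC 23600 * v + cC (-23900) 1) * v) * d + cC
    19300 * v) * d + cC 5000)) * a + ((((((((cC 10000 * v * v * v * v * d + (cC 5000 * v + cC
    20000) * v * v * v) * d + ((cC 2100 * v + cC (-5000) 1) * v + cC 10000) * v * v) * d + ((cC
    7100 * v + cC (-10750) 1) * v + cC (-20000) 1) * v * v) * d + ((cC 15500 * v + cC (-15700)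
    1) * v + cC (-10000) 1) * v) * d + ((cC 1250 * v + cC 24300) * v + cC (-2850) 1) * v) * d +
    (cC 5000 * v + cC 23400) * v) * d + (cC 6250 * v + cC 7500)) * d + cC 2500)) * a + (((((cC
    1250 * v * v * v * d + (cC 2500 * v + cC 2500) * v * v) * d + ((cC 1250 * v + cC 7500) * v +
    cC 1250) * v) * d + (cC 5000 * v + cC 7500) * v) * d + (cC 6250 * v + cC 2500)) * d + cC
    2500) * d) * p + ((((((cC (-5000) 1 * v * v * v * d + cC (-5000) 1 * v * v) * d * d * a +
    ((cC (-17500) 1 * v * v * v * d + (cC (-2500) 1 * v + cC (-17500) 1) * v * v) * d + cC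
    (-2500) 1 * v * v) * d * d) * a + (((((cC (-22500) 1 * v * v * v * d + (cC (-7500) 1 * v +
    cC (-22500) 1) * v * v) * d + cC (-7500) 1 * v * v) * d + cC (-625) 1 * v * v) * d + cC
    (-1250) 1 * v) * d + cC (-625) 1)) * a + ((((((cC (-12500) 1 * v * v * v * d + (cC (-7500) 1
    * v + cC (-12500) 1) * v * v) * d + cC (-7500) 1 * v * v) * d + cC (-3125) 2 * v * v) * d +
    (cC (-625) 2 * v + cC (-3125) 1) * v) * d + (cC (-625) 1 * v + cC (-3125) 2)) * d + cC
    (-625) 2)) * a + ((((((cC (-2500) 1 * v * v * v * d + (cC (-2500) 1 * v + cC (-2500) 1) * v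
    * v) * d + cC (-2500) 1 * v * v) * d + cC (-1250) 1 * v * v) * d + (cC (-625) 1 * v + cC
    (-2500) 1) * v) * d + (cC (-1250) 1 * v + cC (-1250) 1)) * d + cC (-625) 1) * d) * a + (((cC
    (-625) 2 * v * v * d + (cC (-625) 2 * v + cC (-625) 1) * v) * d + (cC (-625) 1 * v + cC
    (-625) 2)) * d + cC (-625) 2) * d * d) * p * p

/-- `TEG` at `g = 1`. -/
def eTEG (a d v p e : Ex) : Ex :=
  ((((((((cC (-10752) 1 * v * v * v * v * d + cC (-17408) 1 * v * v * v) * d + cC (-17408) 1 * v
    * v) * a + (((cC (-43008) 1 * v * v * v * v * d + (cC (-4352) 1 * v + cC (-105984) 1) * v *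
    v * v) * d + (cC (-4608) 1 * v + cC (-163840) 1) * v * v) * d + (cC (-4608) 1 * v + cC
    (-68608) 1) * v)) * a + ((((cC (-67200) 1 * v * v * v * v * d + (cC (-18432) 1 * v + cC
    (-224256) 1) * v * v * v) * d + ((cC (-20992) 1 * v + cC (-71680) 1) * v + cC (-397824) 1) *
    v * v) * d + ((cC (-77568) 1 * v + cC (-155136) 1) * v + cC (-205824) 1) * v) * d + (cC
    (-77568) 1 * v + cC (-94208) 1) * v)) * a + (((((cC (-51072) 1 * v * v * v * v * d + (cC
    (-27584) 1 * v + cC (-220032) 1) * v * v * v) * d + ((cC (-44672) 1 * v + cC (-178816) 1) *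
    v + cC (-414464) 1) * v * v) * d + (((cC 1600 * v + cC (-147072) 1) * v + cC (-400256) 1) *
    v + cC (-229376) 1) * v) * d + ((cC 12800 * v + cC (-100224) 1) * v + cC (-261120) 1) * v) *
    d + ((cC 12800 * v + cC 62464) * v + cC (-12800) 1))) * a + ((((((cC (-18816) 1 * v * v * v
    * v * d + (cC (-17280) 1 * v + cC (-105792) 1) * v * v * v) * d + ((cC (-25568) 1 * v + cC
    (-167424) 1) * v + cC (-205376) 1) * v * v) * d + (((cC 1600 * v + cC (-59840) 1) * v + cC
    (-372736) 1) * v + cC (-115712) 1) * v) * d + (((cC 800 * v + cC 19200) * v + cC 59456) * v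
    + cC (-252416) 1) * v) * d + (((cC 3200 * v + cC 16000) * v + cC 176128) * v + cC (-25600)
    1)) * d + ((cC 3200 * v + cC (-6400) 1) * v + cC 25600))) * a + (((((((cC (-2688) 1 * v * v
    * v * v * d + (cC (-3776) 1 * v + cC (-23040) 1) * v * v * v) * d + ((cC (-1888) 1 * v + cC
    (-63680) 1) * v + cC (-45504) 1) * v * v) * d + ((cC 8064 * v + cC (-140608) 1) * v + cC
    (-25152) 1) * v) * d + (((cC 800 * v + cC 10400) * v + cC 90912) * v + cC (-98304) 1) * v) *
    d + (((cC 1600 * v + cC 21600) * v + cC 136064) * v + cC (-16000) 1)) * d + (((cC (-800) 1 *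
    v + cC (-2400) 1) * v + cC 22400) * v + cC 38400)) * d + ((cC (-800) 1 * v + cC (-4800) 1) *
    v + cC 16000))) * a + ((((((cC (-1600) 1 * v * v * v * d + (cC (-8000) 1 * v + cC (-3200) 1)
    * v * v) * d + ((cC (-1600) 1 * v + cC (-17600) 1) * v + cC (-1600) 1) * v) * d + ((cC 4000
    * v + cC 8800) * v + cC (-12800) 1) * v) * d + (((cC (-1600) 1 * v + cC 18400) * v + cC
    22400) * v + cC (-3200) 1)) * d + (((cC (-800) 1 * v + cC (-5600) 1) * v + cC 28800) * v +
    cC 12800)) * d + ((cC (-800) 1 * v + cC (-4800) 1) * v + cC 16000)) * d) * a + ((((((cC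
    (-51200) 1 * v * v * d + cC (-51200) 1 * v) * a + (((cC (-5376) 1 * v + cC (-128000) 1) * v
    * v * d + (cC 93696 * v + cC (-128000) 1) * v) * d + cC 93696 * v)) * a + ((((cC (-10752) 1
    * v + cC (-115200) 1) * v * v * d + (cC 187392 * v + cC (-115200) 1) * v) * d + (cC (-38400)
    1 * v + cC 187392) * v) * d + cC (-38400) 1 * v)) * a + (((((cC (-6720) 1 * v + cC (-44800)
    1) * v * v * d + (cC 113920 * v + cC (-44800) 1) * v) * d + ((cC 1344 * v + cC (-60800) 1) *
    v + cC 113920) * v) * d + (cC 2176 * v + cC (-67200) 1) * v) * d + (cC 2176 * v + cC (-6400)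
    1))) * a + (((((cC (-1344) 1 * v + cC (-6400) 1) * v * v * d + (cC 20224 * v + cC (-6400) 1)
    * v) * d + ((cC 1344 * v + cC (-22400) 1) * v + cC 20224) * v) * d + (cC 2176 * v + cC
    (-28800) 1) * v) * d + (cC 2176 * v + cC (-6400) 1)) * d) * a + (((((cC (-800) 1 * v * v * d
    + (cC (-800) 1 * v + cC (-800) 1) * v) * d + (cC 800 * v + cC (-2400) 1) * v) * d + ((cC 800
    * v + cC 800) * v + cC (-1600) 1)) * d + cC 2400 * v) * d + cC 1600)) * a * e + ((((((((cC
    1088 * v * v * v * d + cC 17152 * v * v) * d + cC 17152 * v) * a + (((cC 3008 * v * v * v *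
    d + (cC (-6768) 1 * v + cC 60032) * v * v) * d + (cC (-10272) 1 * v + cC 64832) * v) * d +
    (cC (-10272) 1 * v + cC 3200))) * a + ((((cC 2096 * v * v * v * d + (cC (-19504) 1 * v + cC
    78784) * v * v) * d + ((cC (-1536) 1 * v + cC (-30816) 1) * v + cC 93184) * v) * d + ((cC
    5856 * v + cC (-35616) 1) * v + cC 9600)) * d + (cC 5856 * v + cC (-3200) 1))) * a + (((((cC
    (-880) 1 * v * v * v * d + (cC (-18988) 1 * v + cC 46880) * v * v) * d + ((cC (-3240) 1 * v
    + cC (-29552) 1) * v + cC 62480) * v) * d + (((cC (-284) 1 * v + cC 14440) * v + cC (-41552)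
    1) * v + cC 10400)) * d + ((cC 2264 * v + cC 10440) * v + cC (-8000) 1)) * d + (cC 2264 * v
    + cC (-2800) 1))) * a + ((((((cC (-1456) 1 * v * v * v * d + (cC (-6536) 1 * v + cC 11776) *
    v * v) * d + ((cC (-1872) 1 * v + cC (-7744) 1) * v + cC 18976) * v) * d + (((cC (-568) 1 *
    v + cC 11112) * v + cC (-17344) 1) * v + cC 4800)) * d + ((cC 4328 * v + cC 3112) * v + cC
    (-6400) 1)) * d + (cC 3928 * v + cC (-5600) 1)) * d + cC (-400) 1)) * a + (((((((cC (-400) 1
    * v * v * v * d + (cC (-284) 1 * v + cC 800) * v * v) * d + ((cC (-168) 1 * v + cC 1214) * v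
    + cC 2000) * v) * d + (((cC (-284) 1 * v + cC 2378) * v + cC (-1186) 1) * v + cC 800)) * d +
    ((cC 1914 * v + cC (-1722) 1) * v + cC (-1600) 1)) * d + ((cC (-50) 1 * v + cC 1314) * v +
    cC (-2900) 1)) * d + (cC (-150) 1 * v + cC (-600) 1)) * d + cC (-100) 1)) * a + (((((cC
    (-50) 1 * v * v * d + (cC (-150) 1 * v + cC (-50) 1) * v) * d + (cC (-150) 1 * v + cC (-250)
    1) * v) * d + ((cC (-50) 1 * v + cC (-350) 1) * v + cC (-100) 1)) * d + (cC (-150) 1 * v +
    cC (-200) 1)) * d + cC (-100) 1) * d) * p + ((((cC 1600 * v * d + cC 1600) * a + (cC 3200 *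
    v * d + cC 3200) * d) * a + (((cC 2000 * v * d + cC 2000) * d + cC (-400) 1 * v) * d + cC
    (-400) 1)) * a + (((cC 400 * v * d + cC 400) * d + cC (-400) 1 * v) * d + cC (-400) 1) * d)
    * a * p * e + (((((((cC 400 * v * v * d + cC (-800) 1 * v) * d + cC (-800) 1) * a + (((cC
    1400 * v * v * d + (cC 200 * v + cC (-2800) 1) * v) * d + (cC (-300) 1 * v + cC (-2800) 1))
    * d + cC (-300) 1)) * a + ((((cC 1800 * v * v * d + (cC 600 * v + cC (-3600) 1) * v) * d +
    (cC (-900) 1 * v + cC (-3600) 1)) * d + (cC 100 * v + cC (-900) 1)) * d + cC 100)) * a +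
    (((((cC 1000 * v * v * d + (cC 600 * v + cC (-2000) 1) * v) * d + (cC (-875) 1 * v + cC
    (-2000) 1)) * d + (cC 250 * v + cC (-875) 1)) * d + (cC 25 * v + cC 250)) * d + cC 25)) * a
    + (((((cC 200 * v * v * d + (cC 200 * v + cC (-400) 1) * v) * d + (cC (-250) 1 * v + cC
    (-400) 1)) * d + (cC 200 * v + cC (-250) 1)) * d + (cC 50 * v + cC 200)) * d + cC 50) * d) *
    a + (((cC 25 * v * d + (cC 50 * v + cC 25)) * d + (cC 25 * v + cC 50)) * d + cC 25) * d * d)
    * p * p

/-- `TA` at `g = 1`. -/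
def eTA (a d v p e k w : Ex) : Ex :=
  ((((((((((cC (-225792) 1 * v * v * v * v * v * v * d + cC (-3521536) 1 * v * v * v * v * v) *
    d + cC (-12715008) 1 * v * v * v * v) * d + cC (-18386944) 1 * v * v * v) * d + cC
    (-9193472) 1 * v * v) * a + (((((cC (-790272) 1 * v * v * v * v * v * v * d + (cC 155904 * v
    + cC (-12325376) 1) * v * v * v * v * v) * d + (cC (-1223168) 1 * v + cC (-44502528) 1) * v
    * v * v * v) * d + (cC (-9250304) 1 * v + cC (-64354304) 1) * v * v * v) * d + (cC
    (-16054272) 1 * v + cC (-32177152) 1) * v * v) * d + cC (-8027136) 1 * v * v)) * a +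
    ((((((cC (-1016064) 1 * v * v * v * v * v * v * d + (cC 333312 * v + cC (-16275712) 1) * v *
    v * v * v * v) * d + ((cC 54400 * v + cC (-5064704) 1) * v + cC (-59361536) 1) * v * v * v *
    v) * d + ((cC (-1657600) 1 * v + cC (-32845312) 1) * v + cC (-86171648) 1) * v * v * v) * d
    + ((cC (-8838400) 1 * v + cC (-57276416) 1) * v + cC (-43085824) 1) * v * v) * d + (cC
    (-14361600) 1 * v + cC (-32657408) 1) * v * v) * d + (cC (-7180800) 1 * v + cC (-3430400) 1)
    * v)) * a + (((((((cC (-564480) 1 * v * v * v * v * v * v * d + (cC 198912 * v + cC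
    (-9875840) 1) * v * v * v * v * v) * d + ((cC 148800 * v + cC (-7077504) 1) * v + cC
    (-37147520) 1) * v * v * v * v) * d + (((cC (-40000) 1 * v + cC (-2966400) 1) * v + cC
    (-42442112) 1) * v + cC (-54543360) 1) * v * v * v) * d + (((cC (-265600) 1 * v + cC
    (-12956800) 1) * v + cC (-75017216) 1) * v + cC (-27271680) 1) * v * v) * d + ((cC 112000 *
    v + cC (-10867200) 1) * v + cC (-47556608) 1) * v * v) * d + ((cC 755200 * v + cC 10464000)
    * v + cC (-8576000) 1) * v) * d + (cC 377600 * v + cC 11366400) * v)) * a + ((((((((cC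
    (-112896) 1 * v * v * v * v * v * v * d + (cC 21504 * v + cC (-2618368) 1) * v * v * v * v *
    v) * d + ((cC 94400 * v + cC (-3933568) 1) * v + cC (-10725504) 1) * v * v * v * v) * d +
    (((cC (-40000) 1 * v + cC (-1280000) 1) * v + cC (-23749504) 1) * v + cC (-16214272) 1) * v
    * v * v) * d + (((cC (-211200) 1 * v + cC (-838400) 1) * v + cC (-43222272) 1) * v + cC
    (-8107136) 1) * v * v) * d + (((cC 80000 * v + cC 1584000) * v + cC 18790400) * v + cC
    (-30049536) 1) * v * v) * d + (((cC 480000 * v + cC 4550400) * v + cC 40390400) * v + cC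
    (-7180800) 1) * v) * d + ((cC 800000 * v + cC 3955200) * v + cC 21772800) * v) * d + ((cC
    400000 * v + cC 1280000) * v + cC (-320000) 1))) * a + ((((((((cC (-214400) 1 * v * v * v *
    v * v * d + (cC (-697600) 1 * v + cC (-1192000) 1) * v * v * v * v) * d + ((cC 28800 * v +
    cC (-5182400) 1) * v + cC (-1955200) 1) * v * v * v) * d + (((cC 54400 * v + cC 3400000) * v
    + cC (-10067200) 1) * v + cC (-977600) 1) * v * v) * d + (((cC 80000 * v + cC 1752000) * v +
    cC 16176000) * v + cC (-7643200) 1) * v * v) * d + (((cC 360000 * v + cC 4675200) * v + cC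
    24105600) * v + cC (-2195200) 1) * v) * d + (((cC (-40000) 1 * v + cC 160000) * v + cC
    4457600) * v + cC 10886400) * v) * d + (((cC (-80000) 1 * v + cC (-600000) 1) * v + cC
    1440000) * v + cC (-480000) 1)) * d + ((cC (-40000) 1 * v + cC (-480000) 1) * v + cC
    (-160000) 1))) * a + (((((((cC (-40000) 1 * v * v * v * v * d + (cC (-280000) 1 * v + cC
    (-80000) 1) * v * v * v) * d + ((cC 120000 * v + cC (-640000) 1) * v + cC (-40000) 1) * v *
    v) * d + ((cC 280000 * v + cC 880000) * v + cC (-520000) 1) * v * v) * d + (((cC (-120000) 1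
    * v + cC 880000) * v + cC 1360000) * v + cC (-160000) 1) * v) * d + (((cC (-40000) 1 * v +
    cC (-640000) 1) * v + cC 880000) * v + cC 480000) * v) * d + (((cC (-80000) 1 * v + cC
    (-1000000) 1) * v + cC 160000) * v + cC (-160000) 1)) * d + ((cC (-40000) 1 * v + cC
    (-480000) 1) * v + cC (-160000) 1)) * d) * a + ((((((cC (-160000) 1 * v * v * v * d + cC
    (-480000) 1 * v * v) * d + cC (-320000) 1 * v) * a + (((cC (-560000) 1 * v * v * v * d + (cC
    (-80000) 1 * v + cC (-1680000) 1) * v * v) * d + (cC (-240000) 1 * v + cC (-1120000) 1) * v)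
    * d + cC (-160000) 1 * v)) * a + (((cC (-720000) 1 * v * v * v * d + (cC (-240000) 1 * v +
    cC (-2160000) 1) * v * v) * d + (cC (-720000) 1 * v + cC (-1440000) 1) * v) * d + cC
    (-480000) 1 * v) * d) * a + (((cC (-400000) 1 * v * v * v * d + (cC (-240000) 1 * v + cC
    (-1200000) 1) * v * v) * d + (cC (-720000) 1 * v + cC (-800000) 1) * v) * d + cC (-480000) 1
    * v) * d * d) * a + (((cC (-80000) 1 * v * v * v * d + (cC (-80000) 1 * v + cC (-240000) 1)
    * v * v) * d + (cC (-240000) 1 * v + cC (-160000) 1) * v) * d + cC (-160000) 1 * v) * d * d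
    * d) * a * w + ((((cC 2560000 * v * v * v * v * d + cC 7680000 * v * v * v) * d + cC 5120000
    * v * v) * a + (((cC 3840000 * v * v * v * v * d + (cC (-1280000) 1 * v + cC 11520000) * v *
    v * v) * d + (cC (-3840000) 1 * v + cC 7680000) * v * v) * d + cC (-2560000) 1 * v * v)) * a
    + (((cC 1280000 * v * v * v * v * d + (cC (-1280000) 1 * v + cC 3840000) * v * v * v) * d +
    (cC (-3840000) 1 * v + cC 2560000) * v * v) * d + cC (-2560000) 1 * v * v) * d) * a * a * k
    + (((((cC 1280000 * v * v * v * v * d + cC 1280000 * v * v * v) * d * d * a + ((((cC 3200000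
    * v * v * v * v * d + (cC (-4480000) 1 * v + cC 3200000) * v * v * v) * d + cC (-9600000) 1
    * v * v * v) * d + cC (-10240000) 1 * v * v) * d + cC (-5120000) 1 * v)) * a + (((((cC
    2880000 * v * v * v * v * d + (cC (-8320000) 1 * v + cC 2880000) * v * v * v) * d + (cC
    1600000 * v + cC (-17280000) 1) * v * v * v) * d + (cC 4160000 * v + cC (-19200000) 1) * v *
    v) * d + (cC 7680000 * v + cC (-10240000) 1) * v) * d + cC 5120000 * v)) * a + ((((((cC
    1120000 * v * v * v * v * d + (cC (-4640000) 1 * v + cC 1120000) * v * v * v) * d + (cC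
    2080000 * v + cC (-9120000) 1) * v * v * v) * d + ((cC 160000 * v + cC 5280000) * v + cC
    (-10880000) 1) * v * v) * d + ((cC 160000 * v + cC 10880000) * v + cC (-6400000) 1) * v) * d
    + (cC (-1280000) 1 * v + cC 7680000) * v) * d + cC (-1280000) 1 * v)) * a + ((((((cC 160000
    * v * v * v * v * d + (cC (-800000) 1 * v + cC 160000) * v * v * v) * d + (cC 480000 * v +
    cC (-1440000) 1) * v * v * v) * d + ((cC 160000 * v + cC 1120000) * v + cC (-1920000) 1) * v
    * v) * d + ((cC 160000 * v + cC 3200000) * v + cC (-1280000) 1) * v) * d + (cC (-1280000) 1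
    * v + cC 2560000) * v) * d + cC (-1280000) 1 * v) * d) * a * a * e + ((((cC (-640000) 1 * v
    * v * v * d + cC (-640000) 1 * v * v) * d * d * a + ((cC (-960000) 1 * v * v * v * d + (cC
    320000 * v + cC (-960000) 1) * v * v) * d + cC 320000 * v * v) * d * d) * a + (((cC
    (-480000) 1 * v * v * v * d + (cC 320000 * v + cC (-480000) 1) * v * v) * d + (cC 160000 * v
    + cC 320000) * v * v) * d + cC 160000 * v * v) * d * d) * a + ((((cC (-80000) 1 * v * v * v
    * d + (cC 80000 * v + cC (-80000) 1) * v * v) * d + (cC 80000 * v + cC 80000) * v * v) * d +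
    (cC (-80000) 1 * v + cC 80000) * v * v) * d + cC (-80000) 1 * v * v) * d * d) * a * a * e *
    e + (((((((((cC (-67200) 1 * v * v * v * v * v * d + cC (-374400) 1 * v * v * v * v) * d +
    cC 483200 * v * v * v) * d + cC 1715200 * v * v) * d + cC 857600 * v) * a + (((((cC
    (-235200) 1 * v * v * v * v * v * d + (cC 140800 * v + cC (-1390400) 1) * v * v * v * v) * d
    + (cC (-347200) 1 * v + cC 1451200) * v * v * v) * d + (cC (-2868800) 1 * v + cC 5843200) *
    v * v) * d + (cC (-5043200) 1 * v + cC 3001600) * v) * d + cC (-2521600) 1 * v)) * a +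
    ((((((cC (-302400) 1 * v * v * v * v * v * d + (cC 402400 * v + cC (-1984800) 1) * v * v * v
    * v) * d + ((cC 20000 * v + cC (-1081600) 1) * v + cC 1474400) * v * v * v) * d + ((cC
    (-180000) 1 * v + cC (-8526400) 1) * v + cC 7398400) * v * v) * d + ((cC (-660000) 1 * v +
    cC (-14809600) 1) * v + cC 3939200) * v) * d + (cC (-800000) 1 * v + cC (-7164800) 1) * v) *
    d + (cC (-320000) 1 * v + cC 160000))) * a + (((((((cC (-168000) 1 * v * v * v * v * v * d +
    (cC 382400 * v + cC (-1346000) 1) * v * v * v * v) * d + ((cC 40000 * v + cC (-1211600) 1) *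
    v + cC 478000) * v * v * v) * d + ((cC (-450000) 1 * v + cC (-8636400) 1) * v + cC 4168000)
    * v * v) * d + (((cC (-50000) 1 * v + cC (-1550000) 1) * v + cC (-14649600) 1) * v + cC
    2344000) * v) * d + ((cC (-90000) 1 * v + cC (-1800000) 1) * v + cC (-6724800) 1) * v) * d +
    (cC (-600000) 1 * v + cC 400000)) * d + (cC 40000 * v + cC 80000))) * a + (((((((cC (-33600)
    1 * v * v * v * v * v * d + (cC 120800 * v + cC (-427200) 1) * v * v * v * v) * d + ((cC
    20000 * v + cC (-567200) 1) * v + cC (-78400) 1) * v * v * v) * d + ((cC (-360000) 1 * v +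
    cC (-3168800) 1) * v + cC 937600) * v * v) * d + (((cC (-100000) 1 * v + cC (-1120000) 1) *
    v + cC (-5043200) 1) * v + cC 588800) * v) * d + ((cC (-180000) 1 * v + cC (-1200000) 1) * v
    + cC (-2041600) 1) * v) * d + (cC (-240000) 1 * v + cC 320000)) * d + (cC 80000 * v + cC
    160000)) * d) * a + ((((((cC (-50000) 1 * v * v * v * v * d + (cC (-90000) 1 * v + cC
    (-50000) 1) * v * v * v) * d + ((cC (-90000) 1 * v + cC (-190000) 1) * v + cC 40000) * v *
    v) * d + (((cC (-50000) 1 * v + cC (-230000) 1) * v + cC (-160000) 1) * v + cC 40000) * v) *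
    d + ((cC (-90000) 1 * v + cC (-200000) 1) * v + cC 40000) * v) * d + (cC 40000 * v + cC
    80000)) * d + (cC 40000 * v + cC 80000)) * d * d) * a * p + (((((cC (-80000) 1 * v * v * v *
    d + cC (-80000) 1 * v * v) * d * d * a + ((cC (-200000) 1 * v * v * v * d + (cC (-40000) 1 *
    v + cC (-200000) 1) * v * v) * d + cC (-40000) 1 * v * v) * d * d) * a + (((cC (-180000) 1 *
    v * v * v * d + (cC (-80000) 1 * v + cC (-180000) 1) * v * v) * d + (cC 20000 * v + cC
    (-80000) 1) * v * v) * d + cC 20000 * v * v) * d * d) * a + ((((cC (-70000) 1 * v * v * v *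
    d + (cC (-50000) 1 * v + cC (-70000) 1) * v * v) * d + (cC 30000 * v + cC (-50000) 1) * v *
    v) * d + (cC 10000 * v + cC 30000) * v * v) * d + cC 10000 * v * v) * d * d) * a + ((((cC
    (-10000) 1 * v * v * v * d + (cC (-10000) 1 * v + cC (-10000) 1) * v * v) * d + (cC 10000 *
    v + cC (-10000) 1) * v * v) * d + (cC 10000 * v + cC 10000) * v * v) * d + cC 10000 * v * v)
    * d * d * d) * a * p * e + (((((((((cC (-5000) 1 * v * v * v * v * d + cC 17500 * v * v * v)
    * d + cC (-2500) 1 * v * v) * d + cC (-40000) 1 * v) * d + cC (-20000) 1) * a + (((((cC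
    (-17500) 1 * v * v * v * v * d + (cC (-2500) 1 * v + cC 61250) * v * v * v) * d + (cC 6250 *
    v + cC (-8750) 1) * v * v) * d + (cC (-3750) 1 * v + cC (-140000) 1) * v) * d + (cC (-20000)
    1 * v + cC (-70000) 1)) * d + cC (-10000) 1)) * a + (((((cC (-22500) 1 * v * v * v * v * d +
    (cC (-7500) 1 * v + cC 78125) * v * v * v) * d + (cC 18750 * v + cC (-11875) 1) * v * v) * d
    + ((cC (-1875) 1 * v + cC (-11250) 1) * v + cC (-180000) 1) * v) * d + ((cC (-1875) 1 * v +
    cC (-60000) 1) * v + cC (-90000) 1)) * d + cC (-30000) 1) * d) * a + (((((cC (-12500) 1 * v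
    * v * v * v * d + (cC (-7500) 1 * v + cC (84375) 2) * v * v * v) * d + (cC (35625) 2 * v +
    cC (-15625) 2) * v * v) * d + ((cC (-9375) 2 * v + cC (-24375) 2) * v + cC (-100000) 1) * v)
    * d + (((cC (-625) 2 * v + cC (-9375) 2) * v + cC (-60000) 1) * v + cC (-50000) 1)) * d +
    (cC (-625) 2 * v * v + cC (-30000) 1)) * d * d) * a + (((((cC (-2500) 1 * v * v * v * v * d
    + (cC (-2500) 1 * v + cC 7500) * v * v * v) * d + (cC 4375 * v + cC (-2500) 1) * v * v) * d
    + ((cC (-3750) 1 * v + cC (-5625) 1) * v + cC (-20000) 1) * v) * d + (((cC (-625) 1 * v + cC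
    (-3750) 1) * v + cC (-20000) 1) * v + cC (-10000) 1)) * d + (cC (-625) 1 * v * v + cC
    (-10000) 1)) * d * d * d) * a + ((((cC (-625) 2 * v * v * v * d + (cC (-1875) 2 * v + cC
    (-625) 2) * v * v) * d + (cC (-1875) 2 * v + cC (-1875) 2) * v * v) * d + (cC (-625) 2 * v +
    cC (-1875) 2) * v * v) * d + cC (-625) 2 * v * v) * d * d * d * d) * p * p

/-- `TMG` at `g = 1`. -/
def eTMG (a d v p e k w : Ex) : Ex :=
  (((((((((cC (-112896) 1 * v * v * v * v * v * v * d + cC (-1760768) 1 * v * v * v * v * v) * d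
    + cC (-6357504) 1 * v * v * v * v) * d + cC (-9193472) 1 * v * v * v) * d + cC (-4596736) 1
    * v * v) * a + (((((cC (-338688) 1 * v * v * v * v * v * v * d + (cC 134400 * v + cC
    (-4002304) 1) * v * v * v * v * v) * d + (cC (-268800) 1 * v + cC (-15232512) 1) * v * v * v
    * v) * d + (cC (-5414400) 1 * v + cC (-25020416) 1) * v * v * v) * d + (cC (-10291200) 1 * v
    + cC (-13790208) 1) * v * v) * d + cC (-5145600) 1 * v * v)) * a + ((((((cC (-338688) 1 * v
    * v * v * v * v * v * d + (cC 268800 * v + cC (-3576704) 1) * v * v * v * v * v) * d + ((cC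
    (-40000) 1 * v + cC (-192000) 1) * v + cC (-16944512) 1) * v * v * v * v) * d + ((cC
    (-425600) 1 * v + cC (-9120000) 1) * v + cC (-33135616) 1) * v * v * v) * d + ((cC 272000 *
    v + cC (-14208000) 1) * v + cC (-19767808) 1) * v * v) * d + cC 1395200 * v * v * v) * d +
    (cC 697600 * v + cC 5145600) * v)) * a + (((((((cC (-112896) 1 * v * v * v * v * v * v * d +
    (cC 134400 * v + cC (-2189568) 1) * v * v * v * v * v) * d + ((cC (-40000) 1 * v + cC
    502400) * v + cC (-13621504) 1) * v * v * v * v) * d + ((cC (-451200) 1 * v + cC (-2396800)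
    1) * v + cC (-27983872) 1) * v * v * v) * d + (((cC 80000 * v + cC 1024000) * v + cC
    1497600) * v + cC (-16551936) 1) * v * v) * d + ((cC 560000 * v + cC 1510400) * v + cC
    14956800) * v * v) * d + ((cC 960000 * v + cC (-1004800) 1) * v + cC 10291200) * v) * d +
    (cC 480000 * v + cC (-960000) 1) * v)) * a + (((((((cC (-854400) 1 * v * v * v * v * v * d +
    (cC 425600 * v + cC (-5592000) 1) * v * v * v * v) * d + ((cC (-25600) 1 * v + cC 1228800) *
    v + cC (-10755200) 1) * v * v * v) * d + (((cC 80000 * v + cC 632000) * v + cC 5814400) * v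
    + cC (-6017600) 1) * v * v) * d + ((cC 800000 * v + cC (-1004800) 1) * v + cC 10771200) * v
    * v) * d + (((cC (-40000) 1 * v + cC 1680000) * v + cC (-3542400) 1) * v + cC 5625600) * v)
    * d + ((cC (-80000) 1 * v + cC 1120000) * v + cC (-1920000) 1) * v) * d + ((cC (-40000) 1 *
    v + cC 160000) * v + cC (-160000) 1))) * a + ((((((cC (-40000) 1 * v * v * v * v * d + (cC
    (-80000) 1 * v + cC (-80000) 1) * v * v * v) * d + ((cC (-120000) 1 * v + cC 400000) * v +
    cC (-40000) 1) * v * v) * d + ((cC 240000 * v + cC (-1120000) 1) * v + cC 960000) * v * v) *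
    d + (((cC (-40000) 1 * v + cC 720000) * v + cC (-1840000) 1) * v + cC 480000) * v) * d +
    ((cC (-80000) 1 * v + cC 640000) * v + cC (-960000) 1) * v) * d + ((cC (-40000) 1 * v + cC
    160000) * v + cC (-160000) 1)) * d) * a + ((((((cC (-160000) 1 * v * v * v * d + cC
    (-480000) 1 * v * v) * d + cC (-320000) 1 * v) * a + (((cC (-560000) 1 * v * v * v * d + (cC
    80000 * v + cC (-1680000) 1) * v * v) * d + (cC 240000 * v + cC (-1120000) 1) * v) * d + cC
    160000 * v)) * a + (((cC (-720000) 1 * v * v * v * d + (cC 240000 * v + cC (-2160000) 1) * v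
    * v) * d + (cC 720000 * v + cC (-1440000) 1) * v) * d + cC 480000 * v) * d) * a + (((cC
    (-400000) 1 * v * v * v * d + (cC 240000 * v + cC (-1200000) 1) * v * v) * d + (cC 720000 *
    v + cC (-800000) 1) * v) * d + cC 480000 * v) * d * d) * a + (((cC (-80000) 1 * v * v * v *
    d + (cC 80000 * v + cC (-240000) 1) * v * v) * d + (cC 240000 * v + cC (-160000) 1) * v) * d
    + cC 160000 * v) * d * d * d) * a * w + ((((cC 2560000 * v * v * v * v * d + cC 7680000 * v
    * v * v) * d + cC 5120000 * v * v) * a + (((cC 3840000 * v * v * v * v * d + (cC (-1280000)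
    1 * v + cC 11520000) * v * v * v) * d + (cC (-3840000) 1 * v + cC 7680000) * v * v) * d + cC
    (-2560000) 1 * v * v)) * a + (((cC 1280000 * v * v * v * v * d + (cC (-1280000) 1 * v + cC
    3840000) * v * v * v) * d + (cC (-3840000) 1 * v + cC 2560000) * v * v) * d + cC (-2560000)
    1 * v * v) * d) * a * a * k + ((((((cC 640000 * v * v * v * v * d + cC (-4480000) 1 * v * v
    * v) * d + cC (-10240000) 1 * v * v) * d + cC (-5120000) 1 * v) * a + ((((cC 640000 * v * v
    * v * v * d + (cC (-640000) 1 * v + cC (-10880000) 1) * v * v * v) * d + (cC 1920000 * v +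
    cC (-21760000) 1) * v * v) * d + (cC 7680000 * v + cC (-10240000) 1) * v) * d + cC 5120000 *
    v)) * a + (((((cC (-160000) 1 * v * v * v * v * d + (cC (-640000) 1 * v + cC (-8480000) 1) *
    v * v * v) * d + ((cC 160000 * v + cC 3840000) * v + cC (-14720000) 1) * v * v) * d + ((cC
    160000 * v + cC 12160000) * v + cC (-6400000) 1) * v) * d + (cC (-1280000) 1 * v + cC
    7680000) * v) * d + cC (-1280000) 1 * v)) * a + (((((cC (-160000) 1 * v * v * v * v * d + cC
    (-2080000) 1 * v * v * v) * d + ((cC 160000 * v + cC 1920000) * v + cC (-3200000) 1) * v *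
    v) * d + ((cC 160000 * v + cC 4480000) * v + cC (-1280000) 1) * v) * d + (cC (-1280000) 1 *
    v + cC 2560000) * v) * d + cC (-1280000) 1 * v) * d) * a * a * e + (((cC (-320000) 1 * v * v
    * v * d + cC (-320000) 1 * v * v) * d * d * a + ((cC (-320000) 1 * v * v * v * d + (cC
    320000 * v + cC (-320000) 1) * v * v) * d + cC 320000 * v * v) * d * d) * a + (((cC (-80000)
    1 * v * v * v * d + (cC 160000 * v + cC (-80000) 1) * v * v) * d + (cC (-80000) 1 * v + cC
    160000) * v * v) * d + cC (-80000) 1 * v * v) * d * d) * a * a * e * e + ((((((cC (-160000)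
    1 * v * v * v * v * d + cC (-160000) 1 * v * v * v) * d * d * a + (((((cC (-33600) 1 * v +
    cC (-640000) 1) * v * v * v * v * d + (cC (-216000) 1 * v + cC (-800000) 1) * v * v * v) * d
    + (cC (-1182400) 1 * v + cC (-160000) 1) * v * v) * d + cC (-1932800) 1 * v * v) * d + cC
    (-966400) 1 * v)) * a + ((((((cC (-100800) 1 * v + cC (-1000000) 1) * v * v * v * v * d +
    ((cC 20000 * v + cC (-728000) 1) * v + cC (-1480000) 1) * v * v * v) * d + ((cC (-160000) 1
    * v + cC (-3787200) 1) * v + cC (-480000) 1) * v * v) * d + (cC (-400000) 1 * v + cC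
    (-5958400) 1) * v * v) * d + (cC (-320000) 1 * v + cC (-2899200) 1) * v) * d + cC (-80000) 1
    * v)) * a + (((((((cC (-100800) 1 * v + cC (-760000) 1) * v * v * v * v * d + ((cC 40000 * v
    + cC (-818000) 1) * v + cC (-1280000) 1) * v * v * v) * d + ((cC (-280000) 1 * v + cC
    (-4157200) 1) * v + cC (-520000) 1) * v * v) * d + ((cC (-50000) 1 * v + cC (-540000) 1) * v
    + cC (-6278400) 1) * v * v) * d + ((cC 70000 * v + cC (-360000) 1) * v + cC (-2939200) 1) *
    v) * d + cC 160000 * v * v) * d + (cC 40000 * v + cC 80000))) * a + (((((((cC (-33600) 1 * v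
    + cC (-280000) 1) * v * v * v * v * d + ((cC 20000 * v + cC (-316000) 1) * v + cC (-520000)
    1) * v * v * v) * d + ((cC (-80000) 1 * v + cC (-1682400) 1) * v + cC (-240000) 1) * v * v)
    * d + ((cC (-100000) 1 * v + cC 120000) * v + cC (-2412800) 1) * v * v) * d + ((cC 140000 *
    v + cC 240000) * v + cC (-1046400) 1) * v) * d + (cC 320000 * v + cC 240000) * v) * d + (cC
    80000 * v + cC 160000)) * d) * a + ((((((cC (-40000) 1 * v * v * v * v * d + (cC (-10000) 1
    * v + cC (-80000) 1) * v * v * v) * d + ((cC 40000 * v + cC (-130000) 1) * v + cC (-40000)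
    1) * v * v) * d + ((cC (-50000) 1 * v + cC 260000) * v + cC (-160000) 1) * v * v) * d + ((cC
    70000 * v + cC 280000) * v + cC (-40000) 1) * v) * d + (cC 160000 * v + cC 160000) * v) * d
    + (cC 40000 * v + cC 80000)) * d * d) * a * p + ((((cC (-40000) 1 * v * v * v * d + cC
    (-40000) 1 * v * v) * d * d * a + (cC (-80000) 1 * v * v * v * d + cC (-80000) 1 * v * v) *
    d * d * d) * a + (((cC (-50000) 1 * v * v * v * d + cC (-50000) 1 * v * v) * d + cC 10000 *
    v * v * v) * d + cC 10000 * v * v) * d * d) * a + (((cC (-10000) 1 * v * v * v * d + cC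
    (-10000) 1 * v * v) * d + cC 10000 * v * v * v) * d + cC 10000 * v * v) * d * d * d) * a * p
    * e + ((((((((cC (-2500) 1 * v * v * v * v * d + cC 8750 * v * v * v) * d + cC (-1250) 1 * v
    * v) * d + cC (-20000) 1 * v) * d + cC (-10000) 1) * a + ((((cC (-7500) 1 * v * v * v * v *
    d + cC 26250 * v * v * v) * d + (cC (-1250) 1 * v + cC (-3750) 1) * v * v) * d + (cC (-1250)
    1 * v + cC (-60000) 1) * v) * d + cC (-30000) 1) * d) * a + ((((cC (-7500) 1 * v * v * v * v
    * d + cC (51875) 2 * v * v * v) * d + (cC (-3125) 1 * v + cC (-8125) 2) * v * v) * d + ((cC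
    (-625) 2 * v + cC (-3125) 1) * v + cC (-60000) 1) * v) * d + (cC (-625) 2 * v * v + cC
    (-30000) 1)) * d * d) * a + ((((cC (-2500) 1 * v * v * v * v * d + cC 8125 * v * v * v) * d
    + (cC (-2500) 1 * v + cC (-1875) 1) * v * v) * d + ((cC (-625) 1 * v + cC (-2500) 1) * v +
    cC (-20000) 1) * v) * d + (cC (-625) 1 * v * v + cC (-10000) 1)) * d * d * d) * a + (((cC
    (-625) 2 * v * v * v * d + (cC (-625) 1 * v + cC (-625) 2) * v * v) * d + (cC (-625) 2 * v +
    cC (-625) 1) * v * v) * d + cC (-625) 2 * v * v) * d * d * d * d) * p * p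

/-- `TME` at `g = 1`. -/
def eTME (a d v p e k w : Ex) : Ex :=
  ((((cC 50 * v * v * d + cC 100 * v) * a + ((cC 125 * v * v * d + (cC 25 * v + cC 250) * v) * d
    + cC 50 * v)) * a + ((cC 100 * v * v * d + (cC 50 * v + cC 200) * v) * d + cC 100 * v) * d)
    * a + ((cC 25 * v * v * d + (cC 25 * v + cC 50) * v) * d + cC 50 * v) * d * d) * w + ((cC
    (-800) 1 * v * v * v * d + cC (-1600) 1 * v * v) * a + ((cC (-400) 1 * v * v * v * d + (cC
    400 * v + cC (-800) 1) * v * v) * d + cC 800 * v * v)) * a * k + (((cC 800 * v * v * d + cC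
    2400 * v) * d + (cC (-800) 1 * v + cC 1600)) * a + (((cC 400 * v * v * d + (cC (-400) 1 * v
    + cC 1200) * v) * d + (cC (-1600) 1 * v + cC 800)) * d + (cC 400 * v + cC (-800) 1))) * a *
    e + ((((((cC (-84) 1 * v * v * v * d + cC (-536) 1 * v * v) * d + cC (-536) 1 * v) * a +
    (((cC (-210) 1 * v * v * v * d + (cC 126 * v + cC (-1340) 1) * v * v) * d + (cC 504 * v + cC
    (-1340) 1) * v) * d + cC 504 * v)) * a + ((((cC (-168) 1 * v * v * v * d + (cC 252 * v + cC
    (-1122) 1) * v * v) * d + (cC 1008 * v + cC (-1122) 1) * v) * d + (cC 100 * v + cC 1008) *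
    v) * d + cC 50 * v)) * a + ((((cC (-42) 1 * v * v * v * d + (cC 126 * v + cC (-343) 1) * v *
    v) * d + (cC 504 * v + cC (-343) 1) * v) * d + (cC 150 * v + cC 504) * v) * d + (cC 25 * v +
    cC 75) * v) * d) * a + (((cC (-25) 1 * v * v * d + cC (-25) 1 * v) * d + cC 50 * v * v) * d
    + (cC 25 * v + cC 25) * v) * d * d) * p + (((cC (-400) 1 * v * d + cC (-400) 1) * a + ((cC
    (-600) 1 * v * d + (cC 200 * v + cC (-600) 1)) * d + cC 200)) * a + ((cC (-200) 1 * v * d +
    (cC 200 * v + cC (-200) 1)) * d + cC 200) * d) * a * p * e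

section
variable (o S t u : ℝ)

theorem val_eTGG (a d v p : Ex) (w e k : ℝ) :
    (eTGG a d v p).val o S t u = TGG (a.val o S t u) (d.val o S t u) (v.val o S t u) 1 (p.val o S t u) w 0 e k := by
  simp only [eTGG, ex_add, ex_mul, Ex.val, TGG, LGG, LGGc, LGGv, j1, gG, hG]
  push_cast
  ring

theorem val_eTEG (a d v p e : Ex) (w k : ℝ) :
    (eTEG a d v p e).val o S t u = TEG (a.val o S t u) (d.val o S t u) (v.val o S t u) 1 (p.val o S t u) w 0 (e.val
      o S t u) k := by
  simp only [eTEG, ex_add, ex_mul, Ex.val, TEG, LEG, LEG1, LEG1_000000_0, LEGc, LEGv, LEGw, j1, gE, gG, hE, hG]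
  push_cast
  ring

theorem val_eTA (a d v p e k w : Ex) :
    (eTA a d v p e k w).val o S t u = TA (a.val o S t u) (d.val o S t u) (v.val o S t u) 1 (p.val o S t u) (w.val o S
      t u) 0 (e.val o S t u) (k.val o S t u) := by
  simp only [eTA, ex_add, ex_mul, Ex.val, TA, TEE, TMG, LEE, LEE1, LEEc, LEEc_000000_0, LEEc_000000_1, LEEc_110000_0, LEEc_110000_1, LEEv, LEEw, LMG, LMG1, LMG1_000000_0, LMG1_000000_1, LMGc, LMGc_000000_0, LMGc_000000_1, LMGv, LMGw, gramEE, gramMG, j1, gM, gE, gG, hM, hE, hG]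
  push_cast
  ring

theorem val_eTMG (a d v p e k w : Ex) :
    (eTMG a d v p e k w).val o S t u = TMG (a.val o S t u) (d.val o S t u) (v.val o S t u) 1 (p.val o S t u) (w.val o S
      t u) 0 (e.val o S t u) (k.val o S t u) := by
  simp only [eTMG, ex_add, ex_mul, Ex.val, TMG, LMG, LMG1, LMG1_000000_0, LMG1_000000_1, LMGc, LMGc_000000_0, LMGc_000000_1, LMGv, LMGw, gramEE, gramMG, j1, gM, gE, gG, hM, hE, hG]
  push_cast
  ring

theorem val_eTME (a d v p e k w : Ex) :
    (eTME a d v p e k w).val o S t u = TME (a.val o S t u) (d.val o S t u) (v.val o S t u) 1 (p.val o S t u) (w.val o S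
      t u) (e.val o S t u) (k.val o S t u) := by
  simp only [eTME, ex_add, ex_mul, Ex.val, TME, TME_010000_0, TME_010000_1]
  push_cast
  ring

end

end Vale.Agent.P100.Calib.Closed
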