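import Vale.Agent.P100.Calib.SlabHighData

/-!
# Checks shared by the pieces of the tail
-/

namespace Vale.Agent.P100.Calib.Closed.High

open BoxPos Large

theorem llgLo_0 : PosBox ⟨⟨60, 98, 100⟩, ⟨99, 100, 165⟩, ⟨30, 121, 600⟩, ⟨35, 223, 100⟩⟩ (hLLGlo) :=
  posBox_of_check (c := ⟨203, ⟨2, 7, 8, 5⟩⟩) (by decide +kernel)

theorem llgLo_1 : PosBox ⟨⟨60, 98, 100⟩, ⟨99, 100, 165⟩, ⟨30, 121, 600⟩, ⟨223, 412, 100⟩⟩ (hLLGlo) :=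
  posBox_of_check (c := ⟨204, ⟨2, 7, 8, 5⟩⟩) (by decide +kernel)

theorem llgLo : PosBox ⟨⟨60, 98, 100⟩, ⟨99, 100, 165⟩, ⟨30, 121, 600⟩, ⟨35, 412, 100⟩⟩ (hLLGlo) :=
  posBox_join₃ llgLo_0 llgLo_1

theorem llgHi : PosBox ⟨⟨60, 98, 100⟩, ⟨99, 100, 165⟩, ⟨30, 121, 600⟩, ⟨35, 412, 100⟩⟩ (hLLGhi) :=
  posBox_of_check (c := ⟨174, ⟨2, 5, 8, 4⟩⟩) (by decide +kernel)

theorem midTn_pos : PosBox ⟨⟨60, 98, 100⟩, ⟨99, 100, 165⟩, ⟨20, 49, 400⟩, ⟨35, 412, 100⟩⟩ (midTn xO) :=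
  posBox_of_check (c := ⟨61, ⟨2, 0, 1, 0⟩⟩) (by decide +kernel)

theorem midTd_pos : PosBox ⟨⟨60, 98, 100⟩, ⟨99, 100, 165⟩, ⟨20, 49, 400⟩, ⟨35, 412, 100⟩⟩ (midTd xO) :=
  posBox_of_check (c := ⟨58, ⟨2, 0, 2, 0⟩⟩) (by decide +kernel)

theorem midPhi_top0 : PosBox ⟨⟨0, 1, 1⟩, ⟨99, 100, 165⟩, ⟨20, 49, 400⟩, ⟨35, 412, 100⟩⟩ (midPhi (cC 39 40) (cC 103 25)) :=
  posBox_of_check (c := ⟨80, ⟨0, 0, 3, 0⟩⟩) (by decide +kernel)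

theorem topTn_pos : PosBox ⟨⟨60, 98, 100⟩, ⟨99, 100, 165⟩, ⟨72, 121, 600⟩, ⟨35, 412, 100⟩⟩ (topTn xO) :=
  posBox_of_check (c := ⟨62, ⟨2, 0, 1, 0⟩⟩) (by decide +kernel)

theorem topTd_pos : PosBox ⟨⟨60, 98, 100⟩, ⟨99, 100, 165⟩, ⟨72, 121, 600⟩, ⟨35, 412, 100⟩⟩ (topTd xO) :=
  posBox_of_check (c := ⟨60, ⟨2, 0, 2, 0⟩⟩) (by decide +kernel)

theorem topPhi_top0 : PosBox ⟨⟨0, 1, 1⟩, ⟨99, 100, 165⟩, ⟨72, 121, 600⟩, ⟨35, 412, 100⟩⟩ (topPhi (cC 39 40) (cC 179 50)) :=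
  posBox_of_check (c := ⟨82, ⟨0, 0, 3, 0⟩⟩) (by decide +kernel)

theorem topPhi_top1 : PosBox ⟨⟨0, 1, 1⟩, ⟨99, 100, 165⟩, ⟨72, 121, 600⟩, ⟨35, 412, 100⟩⟩ (topPhi (cC 4 5) (cC 169 100)) :=
  posBox_of_check (c := ⟨81, ⟨0, 0, 3, 0⟩⟩) (by decide +kernel)

end Vale.Agent.P100.Calib.Closed.High
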