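import Vale.Agent.P100.Calib.SlabHighReal
import Vale.Agent.P100.Calib.SlabLargeBox

/-!
# What the checks of a piece state
-/

namespace Vale.Agent.P100.Calib.Closed.High

open BoxPos Large

/-- The expression does not mention `o`. -/
def noO : Ex → Bool
  | .x₀ => false
  | .add a b => noO a && noO b
  | .sub a b => noO a && noO b
  | .mul a b => noO a && noO b
  | _ => true

theorem val_noO {e : Ex} (h : noO e = true) (o o' S d v : ℝ) :
    e.val o S d v = e.val o' S d v := by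
  induction e with
  | x₀ => simp [noO] at h
  | add a b ha hb => simp only [noO, Bool.and_eq_true] at h; simp [Ex.val, ha h.1, hb h.2]
  | sub a b ha hb => simp only [noO, Bool.and_eq_true] at h; simp [Ex.val, ha h.1, hb h.2]
  | mul a b ha hb => simp only [noO, Bool.and_eq_true] at h; simp [Ex.val, ha h.1, hb h.2]
  | _ => simp [Ex.val]

/-- The parts of a bound free of `o`. -/
def Bnd.parts (c : Bnd) : List Ex := [c.free, c.slope, c.slopeP, c.μ, c.ν]

/-- The parts of a piece free of `o`. -/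
def Piece.consts (P : Piece) : List Ex :=
  P.p₀ :: (P.eL.parts ++ P.eH.parts ++ P.pL.parts ++ P.pU.parts ++ P.kU.parts ++ P.kL.parts ++
    P.wU.parts ++ P.wL.parts)

/-- A multiplier: positive, or absent. -/
def Mult (b : Box) (f : Ex) : Prop := PosBox b f ∨ f = cC 0

/-- The multipliers of a bound. -/
def Bnd.Ok (c : Bnd) (b : Box) : Prop := Mult b c.μ ∧ Mult b c.ν

/-- `g TME` negative at all its ends, or the conditions at the high ends. -/
def Piece.HighEnd (P : Piece) (b : Box) : Prop :=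
  (∀ i, PosBox b (P.hNeg (P.pEnd i)) ∧ PosBox b (P.hNegLo (P.pEnd i))) ∨
    ∀ i, PosBox b (P.hC1' i) ∧ PosBox b (P.hC3p' i) ∧ PosBox b (P.hC3m' i) ∧
      PosBox b (P.hUp i) ∧ PosBox b (P.hUm i)

/-- The checks on the bounds of a piece: `o` places `u`. -/
structure Piece.Env (P : Piece) (b : Box) : Prop where
  p0 : PosBox b P.hP0
  den : ∀ i, PosBox b (P.hDen i)
  gn : PosBox b P.hGn
  ev : ∀ i, PosBox b (P.hEv i)
  eL : ∀ i, PosBox b (P.hEL i)
  eL' : P.eL.Ok b
  eH : ∀ i, PosBox b (P.hEH i)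
  eH' : P.eH.Ok b
  pL : ∀ i, PosBox b (P.hPL i)
  pL' : P.pL.Ok b
  pU : ∀ i, PosBox b (P.hPU i)
  pU' : P.pU.Ok b
  kU : ∀ i, PosBox b (P.hKU i)
  kU' : P.kU.Ok b
  kL : ∀ i, PosBox b (P.hKL i)
  kL' : P.kL.Ok b
  wU : ∀ i, PosBox b (P.hWU i)
  wU' : P.wU.Ok b
  wL : ∀ i, PosBox b (P.hWL i)
  wL' : P.wL.Ok b

/-- The checks on the signs of a piece: `o` places `e`. -/
structure Piece.Sign (P : Piece) (b : Box) : Prop where
  pp : PosBox b P.xPL
  k2p : PosBox b (P.k2p P.xE)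
  k2m : PosBox b (P.k2m P.xE)
  tg : ∀ i, PosBox b (P.hG (P.pEnd i))
  c2p : ∀ i, PosBox b (P.hC2p (P.pEnd i))
  c2m : ∀ i, PosBox b (P.hC2m (P.pEnd i))
  kap : ∀ i, PosBox b (P.kap i)
  c1 : ∀ i, PosBox b (P.hC1 i)
  c3p : ∀ i, PosBox b (P.hC3p i)
  c3m : ∀ i, PosBox b (P.hC3m i)
  tmg : ∀ i, PosBox b (P.hTMG (P.pEnd i))
  high : P.HighEnd b
  v2p : PosBox b P.hV2p
  v2m : PosBox b P.hV2m
  v3p : PosBox b P.hV3p
  v3m : PosBox b P.hV3m
  vG : PosBox b hVG
  vMG : PosBox b hVMG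
  ak : PosBox b hAk
  aw : PosBox b hAw
  gk : PosBox b hGk
  gw : PosBox b hGw
  ek : PosBox b hMk
  ew : PosBox b hMw

/-- The same side in other units. -/
def sameSide (s t : Side) : Bool :=
  decide (0 < s.den) && decide (0 < t.den) && decide (s.lo * t.den = t.lo * s.den) &&
    decide (s.hi * t.den = t.hi * s.den)

/-- The same box in other units. -/
def sameBox (b b' : Box) : Bool :=
  sameSide b.s₀ b'.s₀ && sameSide b.s₁ b'.s₁ && sameSide b.s₂ b'.s₂ && sameSide b.s₃ b'.s₃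

theorem sameSide_mem {s t : Side} (h : sameSide s t = true) {x : ℝ} (hx : t.Mem x) : s.Mem x := by
  simp only [sameSide, Bool.and_eq_true, decide_eq_true_eq] at h
  obtain ⟨⟨⟨hs, ht⟩, hl⟩, hh⟩ := h
  have hs' : (0 : ℝ) < s.den := by exact_mod_cast hs
  have ht' : (0 : ℝ) < t.den := by exact_mod_cast ht
  have hl' : (s.lo : ℝ) / s.den = (t.lo : ℝ) / t.den := by
    rw [div_eq_div_iff hs'.ne' ht'.ne']; exact_mod_cast hl
  have hh' : (s.hi : ℝ) / s.den = (t.hi : ℝ) / t.den := by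
    rw [div_eq_div_iff hs'.ne' ht'.ne']; exact_mod_cast hh
  exact ⟨hl' ▸ hx.1, hh' ▸ hx.2⟩

theorem posBox_units {b b' : Box} {e : Ex} (h : sameBox b b' = true) (hb : PosBox b e) :
    PosBox b' e := by
  simp only [sameBox, Bool.and_eq_true] at h
  intro o S d v h₀ h₁ h₂ h₃
  exact hb o S d v (sameSide_mem h.1.1.1 h₀) (sameSide_mem h.1.1.2 h₁) (sameSide_mem h.1.2 h₂)
    (sameSide_mem h.2 h₃)

end Vale.Agent.P100.Calib.Closed.High
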