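import Vale.Agent.P100.Calib.SlabHighExpr
import Vale.Agent.P100.Calib.SlabChart

/-!
# The numerators of the chart and their expressions
-/

set_option linter.unusedVariables false

namespace Vale.Agent.P100.Calib.Closed.High

open BoxPos

local instance highRealAdd : Add Ex := ⟨Ex.add⟩
local instance highRealSub : Sub Ex := ⟨Ex.sub⟩
local instance highRealMul : Mul Ex := ⟨Ex.mul⟩

section
variable (S d v u n m : ℝ)

/-- The value of `xK`. -/
noncomputable def rK : ℝ :=
  S * (1 + (1 - (S - d) / 2) * v) * m + (S + d) / 2 * (2 - S) * u * n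

/-- The value of `xY`. -/
noncomputable def rY : ℝ := (2 + d * v) * ((S + d) / 2 * (2 - S)) * m - d * u * rK S d v u n m

/-- The value of `xGn`. -/
noncomputable def rGn : ℝ := 4 * ((2 + d * v) * ((S + d) / 2) - S * u * (1 + d * v))

/-- The value of `xDn`. -/
noncomputable def rDn : ℝ := (1 - S) * S * ((S + d) / 2) * rY S d v u n m

/-- The value of `xPn`. -/
noncomputable def rPn : ℝ := rGn S d v u * rK S d v u n m * (1 - S)

/-- The value of `xEv`. -/
noncomputable def rEv : ℝ :=
  (10 + v * (1 / 20 + d)) * ((S + d) / 2 * (2 - S)) * m + (1 / 20 - 9 * d) * u * rK S d v u n m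

/-- The value of `xEn`. -/
noncomputable def rEn : ℝ :=
  -1 * rGn S d v u * rEv S d v u n m * S

/-- The value of `xKn`. -/
noncomputable def rKn : ℝ :=
  (1 / 20 - 9 * d) * rGn S d v u *
    ((S + d) / 2 * (2 - S) * m - d * u * rK S d v u n m) * S

/-- The value of `xWn`. -/
noncomputable def rWn : ℝ :=
  rGn S d v u * (1 - S) * (rK S d v u n m * ((S - d) / 2 - (1 - (S - d) / 2) * d * v) * S -
    (S + d) / 2 * ((S + d) / 2) * (2 - S) * (2 - S) * n)

/-- The value of `xEV`. -/
noncomputable def rEV : ℝ :=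
  (S + d) / 2 * (2 - S) * m * (rGn S d v u - 4 * S * ((S + d) / 2) * (1 - u) * (2 + d * v)) -
    d * u * rK S d v u n m * (rGn S d v u - 4 * S * ((S + d) / 2) * (1 - u))

end

section
variable (o S d v : ℝ) (u n m : Ex)

theorem val_xA : xA.val o S d v = (S - d) / 2 := by
  simp only [xA, ex_mul, ex_sub, Ex.val]; push_cast; ring

theorem val_xB : xB.val o S d v = (S + d) / 2 := by
  simp only [xB, ex_mul, ex_add, Ex.val]; push_cast; ring

theorem val_xC : xC.val o S d v = 1 / 20 - 9 * d := by
  simp only [xC, ex_mul, ex_sub, Ex.val]; push_cast; ring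

theorem val_xBB : xBB.val o S d v = (S + d) / 2 * (2 - S) := by
  simp only [xBB, val_xB, ex_mul, ex_sub, Ex.val]; push_cast; ring

theorem val_xK : (xK u n m).val o S d v =
    rK S d v (u.val o S d v) (n.val o S d v) (m.val o S d v) := by
  simp only [xK, rK, val_xBB, val_xA, ex_mul, ex_add, ex_sub, Ex.val]; push_cast; ring

theorem val_xY : (xY u n m).val o S d v =
    rY S d v (u.val o S d v) (n.val o S d v) (m.val o S d v) := by
  simp only [xY, rY, val_xK, val_xBB, ex_mul, ex_add, ex_sub, Ex.val]; push_cast; ring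

theorem val_xGn : (xGn u).val o S d v = rGn S d v (u.val o S d v) := by
  simp only [xGn, rGn, val_xB, ex_mul, ex_add, ex_sub, Ex.val]; push_cast; ring

theorem val_xDn : (xDn u n m).val o S d v =
    rDn S d v (u.val o S d v) (n.val o S d v) (m.val o S d v) := by
  simp only [xDn, rDn, val_xY, val_xB, ex_mul, ex_sub, Ex.val]; push_cast; ring

theorem val_xPn : (xPn u n m).val o S d v =
    rPn S d v (u.val o S d v) (n.val o S d v) (m.val o S d v) := by
  simp only [xPn, rPn, val_xGn, val_xK, val_xB, ex_mul, ex_sub, Ex.val]; push_cast; ring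

theorem val_xEv : (xEv u n m).val o S d v =
    rEv S d v (u.val o S d v) (n.val o S d v) (m.val o S d v) := by
  simp only [xEv, rEv, val_xK, val_xBB, val_xC, ex_mul, ex_add, Ex.val]; push_cast; ring

theorem val_xEn : (xEn u n m).val o S d v =
    rEn S d v (u.val o S d v) (n.val o S d v) (m.val o S d v) := by
  simp only [xEn, rEn, val_xGn, val_xEv, val_xB, ex_mul, Ex.val]; push_cast; ring

theorem val_xKn : (xKn u n m).val o S d v =
    rKn S d v (u.val o S d v) (n.val o S d v) (m.val o S d v) := by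
  simp only [xKn, rKn, val_xGn, val_xK, val_xB, val_xBB, val_xC, ex_mul, ex_sub, Ex.val]
  all_goals (push_cast; ring)

theorem val_xWn : (xWn u n m).val o S d v =
    rWn S d v (u.val o S d v) (n.val o S d v) (m.val o S d v) := by
  simp only [xWn, rWn, val_xGn, val_xK, val_xA, val_xB, ex_mul, ex_sub, Ex.val]; push_cast; ring

theorem val_xEV : (xEV u n m).val o S d v =
    rEV S d v (u.val o S d v) (n.val o S d v) (m.val o S d v) := by
  simp only [xEV, rEV, val_xGn, val_xK, val_xB, val_xBB, ex_mul, ex_add, ex_sub, Ex.val]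
  push_cast; ring

end

/-- `LLG` with `q` for `W R`, at the multiplier of the family. -/
noncomputable def llq (S d v q r : ℝ) : ℝ :=
  LLG ((S - d) / 2) d v 1 (q / r) 0 r (eVal d v (q / r) r) (kVal d (q / r) r)

theorem val_eLL (o S d v : ℝ) (q r : ℤ) (hr : (r : ℝ) ≠ 0) :
    (eLL (cC q) (cC r)).val o S d v = llq S d v q r := by
  rw [eLL, val_eLLG xA xD xV (cC q) (cC r) _ _ o S d v 1 ((q : ℝ) / r) 0 r
    (by simp only [Ex.val, Nat.cast_one, div_one]; field_simp)
    (by simp only [Ex.val, Nat.cast_one, div_one])]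
  simp only [llq, val_xA, val_xC, eVal, kVal, ex_mul, ex_add, ex_sub, Ex.val]
  push_cast
  congr 1 <;> field_simp <;> ring

/-- A function affine in two homogeneous variables is positive between two ends. -/
theorem between {A B nL mL nU mU t : ℝ} (hL : 0 < A * mL + B * nL) (hU : 0 < A * mU + B * nU)
    (h0 : 0 < mL) (h1 : 0 < mU) (h2 : nL ≤ t * mL) (h3 : t * mU ≤ nU) : 0 < A + B * t := by
  rcases le_or_gt 0 B with hB | hB
  · refine pos_of_mul_pos_left ?_ h0.le
    nlinarith [mul_le_mul_of_nonneg_left h2 hB]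
  · refine pos_of_mul_pos_left ?_ h1.le
    nlinarith [mul_le_mul_of_nonpos_left h3 hB.le]

end Vale.Agent.P100.Calib.Closed.High
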