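import Vale.Agent.P100.Calib.SlabHighData

/-!
# Checks of the signs of a piece of the tail
-/

set_option linter.defProp false

namespace Vale.Agent.P100.Calib.Closed.High

open BoxPos Large

def mid4B_vG : PosBox ⟨⟨0, 1, 1⟩, ⟨99, 100, 165⟩, ⟨20, 49, 400⟩, ⟨215, 315, 100⟩⟩ (hVG) :=
  posBox_of_check (c := ⟨147, ⟨0, 5, 8, 3⟩⟩) (by decide +kernel)

def mid4B_vMG : PosBox ⟨⟨0, 1, 1⟩, ⟨99, 100, 165⟩, ⟨20, 49, 400⟩, ⟨215, 315, 100⟩⟩ (hVMG) :=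
  posBox_of_check (c := ⟨149, ⟨0, 4, 8, 4⟩⟩) (by decide +kernel)

def mid4B_ak : PosBox ⟨⟨0, 1, 1⟩, ⟨99, 100, 165⟩, ⟨20, 49, 400⟩, ⟨215, 315, 100⟩⟩ (hAk) :=
  posBox_of_check (c := ⟨142, ⟨0, 4, 6, 4⟩⟩) (by decide +kernel)

def mid4B_aw : PosBox ⟨⟨0, 1, 1⟩, ⟨99, 100, 165⟩, ⟨20, 49, 400⟩, ⟨215, 315, 100⟩⟩ (hAw) :=
  posBox_of_check (c := ⟨145, ⟨0, 5, 7, 3⟩⟩) (by decide +kernel)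

def mid4B_gk : PosBox ⟨⟨0, 1, 1⟩, ⟨99, 100, 165⟩, ⟨20, 49, 400⟩, ⟨215, 315, 100⟩⟩ (hGk) :=
  posBox_of_check (c := ⟨142, ⟨0, 4, 6, 4⟩⟩) (by decide +kernel)

def mid4B_gw : PosBox ⟨⟨0, 1, 1⟩, ⟨99, 100, 165⟩, ⟨20, 49, 400⟩, ⟨215, 315, 100⟩⟩ (hGw) :=
  posBox_of_check (c := ⟨145, ⟨0, 5, 7, 3⟩⟩) (by decide +kernel)

def mid4B_ek : PosBox ⟨⟨0, 1, 1⟩, ⟨99, 100, 165⟩, ⟨20, 49, 400⟩, ⟨215, 315, 100⟩⟩ (hMk) :=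
  posBox_of_check (c := ⟨82, ⟨0, 2, 3, 3⟩⟩) (by decide +kernel)

def mid4B_ew : PosBox ⟨⟨0, 1, 1⟩, ⟨99, 100, 165⟩, ⟨20, 49, 400⟩, ⟨215, 315, 100⟩⟩ (hMw) :=
  posBox_of_check (c := ⟨85, ⟨0, 3, 4, 2⟩⟩) (by decide +kernel)

def mid4B_pp : PosBox ⟨⟨0, 1, 1⟩, ⟨99, 100, 165⟩, ⟨20, 49, 400⟩, ⟨215, 315, 100⟩⟩ (mid4B.xPL) :=
  posBox_of_check (c := ⟨78, ⟨1, 1, 3, 3⟩⟩) (by decide +kernel)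

def mid4B_k2p : PosBox ⟨⟨0, 1, 1⟩, ⟨99, 100, 165⟩, ⟨20, 49, 400⟩, ⟨215, 315, 100⟩⟩ (mid4B.k2p mid4B.xE) :=
  posBox_of_check (c := ⟨64, ⟨1, 1, 2, 2⟩⟩) (by decide +kernel)

def mid4B_k2m : PosBox ⟨⟨0, 1, 1⟩, ⟨99, 100, 165⟩, ⟨20, 49, 400⟩, ⟨215, 315, 100⟩⟩ (mid4B.k2m mid4B.xE) :=
  posBox_of_check (c := ⟨28, ⟨0, 0, 1, 1⟩⟩) (by decide +kernel)

def mid4B_v2p : PosBox ⟨⟨0, 1, 1⟩, ⟨99, 100, 165⟩, ⟨20, 49, 400⟩, ⟨215, 315, 100⟩⟩ (mid4B.hV2p) :=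
  posBox_of_check (c := ⟨209, ⟨1, 6, 10, 5⟩⟩) (by decide +kernel)

def mid4B_v2m : PosBox ⟨⟨0, 1, 1⟩, ⟨99, 100, 165⟩, ⟨20, 49, 400⟩, ⟨215, 315, 100⟩⟩ (mid4B.hV2m) :=
  posBox_of_check (c := ⟨185, ⟨0, 5, 10, 5⟩⟩) (by decide +kernel)

def mid4B_v3p : PosBox ⟨⟨0, 1, 1⟩, ⟨99, 100, 165⟩, ⟨20, 49, 400⟩, ⟨215, 315, 100⟩⟩ (mid4B.hV3p) :=
  posBox_of_check (c := ⟨188, ⟨1, 6, 9, 4⟩⟩) (by decide +kernel)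

def mid4B_v3m : PosBox ⟨⟨0, 1, 1⟩, ⟨99, 100, 165⟩, ⟨20, 49, 400⟩, ⟨215, 315, 100⟩⟩ (mid4B.hV3m) :=
  posBox_of_check (c := ⟨167, ⟨0, 5, 9, 4⟩⟩) (by decide +kernel)

def mid4B_kap0 : PosBox ⟨⟨0, 1, 1⟩, ⟨99, 100, 165⟩, ⟨20, 49, 400⟩, ⟨215, 315, 100⟩⟩ (mid4B.kap false) :=
  posBox_of_check (c := ⟨70, ⟨1, 1, 2, 2⟩⟩) (by decide +kernel)

def mid4B_tg0 : PosBox ⟨⟨0, 1, 1⟩, ⟨99, 100, 165⟩, ⟨20, 49, 400⟩, ⟨215, 315, 100⟩⟩ (mid4B.hG (mid4B.pEnd false)) :=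
  posBox_of_check (c := ⟨294, ⟨2, 7, 14, 9⟩⟩) (by decide +kernel)

def mid4B_c2p0 : PosBox ⟨⟨0, 1, 1⟩, ⟨99, 100, 165⟩, ⟨20, 49, 400⟩, ⟨215, 315, 100⟩⟩ (mid4B.hC2p (mid4B.pEnd false)) :=
  posBox_of_check (c := ⟨356, ⟨3, 8, 16, 11⟩⟩) (by decide +kernel)

def mid4B_c2m0 : PosBox ⟨⟨0, 1, 1⟩, ⟨99, 100, 165⟩, ⟨20, 49, 400⟩, ⟨215, 315, 100⟩⟩ (mid4B.hC2m (mid4B.pEnd false)) :=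
  posBox_of_check (c := ⟨334, ⟨2, 7, 16, 11⟩⟩) (by decide +kernel)

def mid4B_c10_0 : PosBox ⟨⟨0, 1, 2⟩, ⟨99, 100, 165⟩, ⟨20, 49, 400⟩, ⟨215, 315, 100⟩⟩ (mid4B.hC1 false) :=
  posBox_of_check (c := ⟨220, ⟨3, 5, 9, 7⟩⟩) (by decide +kernel)

def mid4B_c10_1 : PosBox ⟨⟨1, 2, 2⟩, ⟨99, 100, 165⟩, ⟨20, 49, 400⟩, ⟨215, 315, 100⟩⟩ (mid4B.hC1 false) :=
  posBox_of_check (c := ⟨221, ⟨3, 5, 9, 7⟩⟩) (by decide +kernel)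

def mid4B_c10 : PosBox ⟨⟨0, 1, 1⟩, ⟨99, 100, 165⟩, ⟨20, 49, 400⟩, ⟨215, 315, 100⟩⟩ (mid4B.hC1 false) :=
  posBox_units (b := ⟨⟨0, 2, 2⟩, ⟨99, 100, 165⟩, ⟨20, 49, 400⟩, ⟨215, 315, 100⟩⟩) (by decide +kernel) (posBox_join₀ mid4B_c10_0 mid4B_c10_1)

def mid4B_c3p0 : PosBox ⟨⟨0, 1, 1⟩, ⟨99, 100, 165⟩, ⟨20, 49, 400⟩, ⟨215, 315, 100⟩⟩ (mid4B.hC3p false) :=
  posBox_of_check (c := ⟨341, ⟨3, 8, 15, 10⟩⟩) (by decide +kernel)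

def mid4B_c3m0 : PosBox ⟨⟨0, 1, 1⟩, ⟨99, 100, 165⟩, ⟨20, 49, 400⟩, ⟨215, 315, 100⟩⟩ (mid4B.hC3m false) :=
  posBox_of_check (c := ⟨322, ⟨3, 7, 15, 10⟩⟩) (by decide +kernel)

def mid4B_tmg0 : PosBox ⟨⟨0, 1, 1⟩, ⟨99, 100, 165⟩, ⟨20, 49, 400⟩, ⟨215, 315, 100⟩⟩ (mid4B.hTMG (mid4B.pEnd false)) :=
  posBox_of_check (c := ⟨306, ⟨2, 7, 14, 10⟩⟩) (by decide +kernel)

def mid4B_neg0 : PosBox ⟨⟨0, 1, 1⟩, ⟨99, 100, 165⟩, ⟨20, 49, 400⟩, ⟨215, 315, 100⟩⟩ (mid4B.hNeg (mid4B.pEnd false)) :=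
  posBox_of_check (c := ⟨203, ⟨2, 5, 9, 7⟩⟩) (by decide +kernel)

def mid4B_neglo0 : PosBox ⟨⟨0, 1, 1⟩, ⟨99, 100, 165⟩, ⟨20, 49, 400⟩, ⟨215, 315, 100⟩⟩ (mid4B.hNegLo (mid4B.pEnd false)) :=
  posBox_of_check (c := ⟨203, ⟨2, 5, 9, 7⟩⟩) (by decide +kernel)

def mid4B_kap1 : PosBox ⟨⟨0, 1, 1⟩, ⟨99, 100, 165⟩, ⟨20, 49, 400⟩, ⟨215, 315, 100⟩⟩ (mid4B.kap true) :=
  posBox_of_check (c := ⟨69, ⟨1, 1, 2, 2⟩⟩) (by decide +kernel)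

def mid4B_tg1 : PosBox ⟨⟨0, 1, 1⟩, ⟨99, 100, 165⟩, ⟨20, 49, 400⟩, ⟨215, 315, 100⟩⟩ (mid4B.hG (mid4B.pEnd true)) :=
  posBox_of_check (c := ⟨297, ⟨2, 7, 14, 9⟩⟩) (by decide +kernel)

def mid4B_c2p1 : PosBox ⟨⟨0, 1, 1⟩, ⟨99, 100, 165⟩, ⟨20, 49, 400⟩, ⟨215, 315, 100⟩⟩ (mid4B.hC2p (mid4B.pEnd true)) :=
  posBox_of_check (c := ⟨358, ⟨3, 8, 16, 11⟩⟩) (by decide +kernel)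

def mid4B_c2m1 : PosBox ⟨⟨0, 1, 1⟩, ⟨99, 100, 165⟩, ⟨20, 49, 400⟩, ⟨215, 315, 100⟩⟩ (mid4B.hC2m (mid4B.pEnd true)) :=
  posBox_of_check (c := ⟨336, ⟨2, 7, 16, 11⟩⟩) (by decide +kernel)

def mid4B_c11_0 : PosBox ⟨⟨0, 1, 2⟩, ⟨99, 100, 165⟩, ⟨20, 49, 400⟩, ⟨215, 315, 100⟩⟩ (mid4B.hC1 true) :=
  posBox_of_check (c := ⟨220, ⟨3, 5, 9, 7⟩⟩) (by decide +kernel)

def mid4B_c11_1 : PosBox ⟨⟨1, 2, 2⟩, ⟨99, 100, 165⟩, ⟨20, 49, 400⟩, ⟨215, 315, 100⟩⟩ (mid4B.hC1 true) :=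
  posBox_of_check (c := ⟨222, ⟨3, 5, 9, 7⟩⟩) (by decide +kernel)

def mid4B_c11 : PosBox ⟨⟨0, 1, 1⟩, ⟨99, 100, 165⟩, ⟨20, 49, 400⟩, ⟨215, 315, 100⟩⟩ (mid4B.hC1 true) :=
  posBox_units (b := ⟨⟨0, 2, 2⟩, ⟨99, 100, 165⟩, ⟨20, 49, 400⟩, ⟨215, 315, 100⟩⟩) (by decide +kernel) (posBox_join₀ mid4B_c11_0 mid4B_c11_1)

def mid4B_c3p1 : PosBox ⟨⟨0, 1, 1⟩, ⟨99, 100, 165⟩, ⟨20, 49, 400⟩, ⟨215, 315, 100⟩⟩ (mid4B.hC3p true) :=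
  posBox_of_check (c := ⟨341, ⟨3, 8, 15, 10⟩⟩) (by decide +kernel)

def mid4B_c3m1 : PosBox ⟨⟨0, 1, 1⟩, ⟨99, 100, 165⟩, ⟨20, 49, 400⟩, ⟨215, 315, 100⟩⟩ (mid4B.hC3m true) :=
  posBox_of_check (c := ⟨322, ⟨3, 7, 15, 10⟩⟩) (by decide +kernel)

def mid4B_tmg1 : PosBox ⟨⟨0, 1, 1⟩, ⟨99, 100, 165⟩, ⟨20, 49, 400⟩, ⟨215, 315, 100⟩⟩ (mid4B.hTMG (mid4B.pEnd true)) :=
  posBox_of_check (c := ⟨307, ⟨2, 7, 14, 10⟩⟩) (by decide +kernel)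

def mid4B_neg1 : PosBox ⟨⟨0, 1, 1⟩, ⟨99, 100, 165⟩, ⟨20, 49, 400⟩, ⟨215, 315, 100⟩⟩ (mid4B.hNeg (mid4B.pEnd true)) :=
  posBox_of_check (c := ⟨204, ⟨2, 5, 9, 7⟩⟩) (by decide +kernel)

def mid4B_neglo1 : PosBox ⟨⟨0, 1, 1⟩, ⟨99, 100, 165⟩, ⟨20, 49, 400⟩, ⟨215, 315, 100⟩⟩ (mid4B.hNegLo (mid4B.pEnd true)) :=
  posBox_of_check (c := ⟨204, ⟨2, 5, 9, 7⟩⟩) (by decide +kernel)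

/-- The checks on the signs. -/
theorem mid4B_sign : mid4B.Sign ⟨⟨0, 1, 1⟩, ⟨99, 100, 165⟩, ⟨20, 49, 400⟩, ⟨215, 315, 100⟩⟩ where
  pp := mid4B_pp
  k2p := mid4B_k2p
  k2m := mid4B_k2m
  v2p := mid4B_v2p
  v2m := mid4B_v2m
  v3p := mid4B_v3p
  v3m := mid4B_v3m
  tg := Bool.forall_bool.2 ⟨mid4B_tg0, mid4B_tg1⟩
  c2p := Bool.forall_bool.2 ⟨mid4B_c2p0, mid4B_c2p1⟩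
  c2m := Bool.forall_bool.2 ⟨mid4B_c2m0, mid4B_c2m1⟩
  kap := Bool.forall_bool.2 ⟨mid4B_kap0, mid4B_kap1⟩
  c1 := Bool.forall_bool.2 ⟨mid4B_c10, mid4B_c11⟩
  c3p := Bool.forall_bool.2 ⟨mid4B_c3p0, mid4B_c3p1⟩
  c3m := Bool.forall_bool.2 ⟨mid4B_c3m0, mid4B_c3m1⟩
  tmg := Bool.forall_bool.2 ⟨mid4B_tmg0, mid4B_tmg1⟩
  high := .inl (Bool.forall_bool.2 ⟨⟨mid4B_neg0, mid4B_neglo0⟩, ⟨mid4B_neg1, mid4B_neglo1⟩⟩)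
  vG := mid4B_vG
  vMG := mid4B_vMG
  ak := mid4B_ak
  aw := mid4B_aw
  gk := mid4B_gk
  gw := mid4B_gw
  ek := mid4B_ek
  ew := mid4B_ew

end Vale.Agent.P100.Calib.Closed.High
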