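import Vale.Agent.P100.Calib.SlabHighData

/-!
# Checks of the signs of a piece of the tail
-/

set_option linter.defProp false

namespace Vale.Agent.P100.Calib.Closed.High

open BoxPos Large

def top17B_vG : PosBox ⟨⟨0, 1, 1⟩, ⟨99, 100, 165⟩, ⟨87, 121, 600⟩, ⟨188, 230, 100⟩⟩ (hVG) :=
  posBox_of_check (c := ⟨145, ⟨0, 5, 8, 3⟩⟩) (by decide +kernel)

def top17B_vMG : PosBox ⟨⟨0, 1, 1⟩, ⟨99, 100, 165⟩, ⟨87, 121, 600⟩, ⟨188, 230, 100⟩⟩ (hVMG) :=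
  posBox_of_check (c := ⟨149, ⟨0, 4, 8, 4⟩⟩) (by decide +kernel)

def top17B_ak : PosBox ⟨⟨0, 1, 1⟩, ⟨99, 100, 165⟩, ⟨87, 121, 600⟩, ⟨188, 230, 100⟩⟩ (hAk) :=
  posBox_of_check (c := ⟨140, ⟨0, 4, 6, 4⟩⟩) (by decide +kernel)

def top17B_aw : PosBox ⟨⟨0, 1, 1⟩, ⟨99, 100, 165⟩, ⟨87, 121, 600⟩, ⟨188, 230, 100⟩⟩ (hAw) :=
  posBox_of_check (c := ⟨142, ⟨0, 5, 7, 3⟩⟩) (by decide +kernel)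

def top17B_gk : PosBox ⟨⟨0, 1, 1⟩, ⟨99, 100, 165⟩, ⟨87, 121, 600⟩, ⟨188, 230, 100⟩⟩ (hGk) :=
  posBox_of_check (c := ⟨140, ⟨0, 4, 6, 4⟩⟩) (by decide +kernel)

def top17B_gw : PosBox ⟨⟨0, 1, 1⟩, ⟨99, 100, 165⟩, ⟨87, 121, 600⟩, ⟨188, 230, 100⟩⟩ (hGw) :=
  posBox_of_check (c := ⟨142, ⟨0, 5, 7, 3⟩⟩) (by decide +kernel)

def top17B_ek : PosBox ⟨⟨0, 1, 1⟩, ⟨99, 100, 165⟩, ⟨87, 121, 600⟩, ⟨188, 230, 100⟩⟩ (hMk) :=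
  posBox_of_check (c := ⟨81, ⟨0, 2, 3, 3⟩⟩) (by decide +kernel)

def top17B_ew : PosBox ⟨⟨0, 1, 1⟩, ⟨99, 100, 165⟩, ⟨87, 121, 600⟩, ⟨188, 230, 100⟩⟩ (hMw) :=
  posBox_of_check (c := ⟨83, ⟨0, 3, 4, 2⟩⟩) (by decide +kernel)

def top17B_pp : PosBox ⟨⟨0, 1, 1⟩, ⟨99, 100, 165⟩, ⟨87, 121, 600⟩, ⟨188, 230, 100⟩⟩ (top17B.xPL) :=
  posBox_of_check (c := ⟨79, ⟨1, 1, 3, 3⟩⟩) (by decide +kernel)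

def top17B_k2p : PosBox ⟨⟨0, 1, 1⟩, ⟨99, 100, 165⟩, ⟨87, 121, 600⟩, ⟨188, 230, 100⟩⟩ (top17B.k2p top17B.xE) :=
  posBox_of_check (c := ⟨66, ⟨1, 1, 2, 2⟩⟩) (by decide +kernel)

def top17B_k2m : PosBox ⟨⟨0, 1, 1⟩, ⟨99, 100, 165⟩, ⟨87, 121, 600⟩, ⟨188, 230, 100⟩⟩ (top17B.k2m top17B.xE) :=
  posBox_of_check (c := ⟨31, ⟨0, 0, 1, 1⟩⟩) (by decide +kernel)

def top17B_v2p : PosBox ⟨⟨0, 1, 1⟩, ⟨99, 100, 165⟩, ⟨87, 121, 600⟩, ⟨188, 230, 100⟩⟩ (top17B.hV2p) :=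
  posBox_of_check (c := ⟨209, ⟨1, 6, 10, 5⟩⟩) (by decide +kernel)

def top17B_v2m : PosBox ⟨⟨0, 1, 1⟩, ⟨99, 100, 165⟩, ⟨87, 121, 600⟩, ⟨188, 230, 100⟩⟩ (top17B.hV2m) :=
  posBox_of_check (c := ⟨187, ⟨0, 5, 10, 5⟩⟩) (by decide +kernel)

def top17B_v3p : PosBox ⟨⟨0, 1, 1⟩, ⟨99, 100, 165⟩, ⟨87, 121, 600⟩, ⟨188, 230, 100⟩⟩ (top17B.hV3p) :=
  posBox_of_check (c := ⟨187, ⟨1, 6, 9, 4⟩⟩) (by decide +kernel)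

def top17B_v3m : PosBox ⟨⟨0, 1, 1⟩, ⟨99, 100, 165⟩, ⟨87, 121, 600⟩, ⟨188, 230, 100⟩⟩ (top17B.hV3m) :=
  posBox_of_check (c := ⟨166, ⟨0, 5, 9, 4⟩⟩) (by decide +kernel)

def top17B_kap0 : PosBox ⟨⟨0, 1, 1⟩, ⟨99, 100, 165⟩, ⟨87, 121, 600⟩, ⟨188, 230, 100⟩⟩ (top17B.kap false) :=
  posBox_of_check (c := ⟨71, ⟨1, 1, 2, 2⟩⟩) (by decide +kernel)

def top17B_tg0 : PosBox ⟨⟨0, 1, 1⟩, ⟨99, 100, 165⟩, ⟨87, 121, 600⟩, ⟨188, 230, 100⟩⟩ (top17B.hG (top17B.pEnd false)) :=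
  posBox_of_check (c := ⟨295, ⟨2, 7, 14, 9⟩⟩) (by decide +kernel)

def top17B_c2p0 : PosBox ⟨⟨0, 1, 1⟩, ⟨99, 100, 165⟩, ⟨87, 121, 600⟩, ⟨188, 230, 100⟩⟩ (top17B.hC2p (top17B.pEnd false)) :=
  posBox_of_check (c := ⟨359, ⟨3, 8, 16, 11⟩⟩) (by decide +kernel)

def top17B_c2m0 : PosBox ⟨⟨0, 1, 1⟩, ⟨99, 100, 165⟩, ⟨87, 121, 600⟩, ⟨188, 230, 100⟩⟩ (top17B.hC2m (top17B.pEnd false)) :=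
  posBox_of_check (c := ⟨338, ⟨2, 7, 16, 11⟩⟩) (by decide +kernel)

def top17B_c10_0 : PosBox ⟨⟨0, 1, 2⟩, ⟨99, 100, 165⟩, ⟨87, 121, 600⟩, ⟨188, 230, 100⟩⟩ (top17B.hC1 false) :=
  posBox_of_check (c := ⟨222, ⟨3, 5, 9, 7⟩⟩) (by decide +kernel)

def top17B_c10_1_0 : PosBox ⟨⟨2, 3, 4⟩, ⟨99, 100, 165⟩, ⟨87, 121, 600⟩, ⟨188, 230, 100⟩⟩ (top17B.hC1 false) :=
  posBox_of_check (c := ⟨226, ⟨3, 5, 9, 7⟩⟩) (by decide +kernel)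

def top17B_c10_1_1 : PosBox ⟨⟨3, 4, 4⟩, ⟨99, 100, 165⟩, ⟨87, 121, 600⟩, ⟨188, 230, 100⟩⟩ (top17B.hC1 false) :=
  posBox_of_check (c := ⟨227, ⟨3, 5, 9, 7⟩⟩) (by decide +kernel)

def top17B_c10_1 : PosBox ⟨⟨1, 2, 2⟩, ⟨99, 100, 165⟩, ⟨87, 121, 600⟩, ⟨188, 230, 100⟩⟩ (top17B.hC1 false) :=
  posBox_units (b := ⟨⟨2, 4, 4⟩, ⟨99, 100, 165⟩, ⟨87, 121, 600⟩, ⟨188, 230, 100⟩⟩) (by decide +kernel) (posBox_join₀ top17B_c10_1_0 top17B_c10_1_1)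

def top17B_c10 : PosBox ⟨⟨0, 1, 1⟩, ⟨99, 100, 165⟩, ⟨87, 121, 600⟩, ⟨188, 230, 100⟩⟩ (top17B.hC1 false) :=
  posBox_units (b := ⟨⟨0, 2, 2⟩, ⟨99, 100, 165⟩, ⟨87, 121, 600⟩, ⟨188, 230, 100⟩⟩) (by decide +kernel) (posBox_join₀ top17B_c10_0 top17B_c10_1)

def top17B_c3p0 : PosBox ⟨⟨0, 1, 1⟩, ⟨99, 100, 165⟩, ⟨87, 121, 600⟩, ⟨188, 230, 100⟩⟩ (top17B.hC3p false) :=
  posBox_of_check (c := ⟨342, ⟨3, 8, 15, 10⟩⟩) (by decide +kernel)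

def top17B_c3m0 : PosBox ⟨⟨0, 1, 1⟩, ⟨99, 100, 165⟩, ⟨87, 121, 600⟩, ⟨188, 230, 100⟩⟩ (top17B.hC3m false) :=
  posBox_of_check (c := ⟨324, ⟨3, 7, 15, 10⟩⟩) (by decide +kernel)

def top17B_tmg0 : PosBox ⟨⟨0, 1, 1⟩, ⟨99, 100, 165⟩, ⟨87, 121, 600⟩, ⟨188, 230, 100⟩⟩ (top17B.hTMG (top17B.pEnd false)) :=
  posBox_of_check (c := ⟨307, ⟨2, 7, 14, 10⟩⟩) (by decide +kernel)

def top17B_c1h0 : PosBox ⟨⟨0, 1, 1⟩, ⟨99, 100, 165⟩, ⟨87, 121, 600⟩, ⟨188, 230, 100⟩⟩ (top17B.hC1' false) :=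
  posBox_of_check (c := ⟨220, ⟨3, 5, 9, 7⟩⟩) (by decide +kernel)

def top17B_c3ph0 : PosBox ⟨⟨0, 1, 1⟩, ⟨99, 100, 165⟩, ⟨87, 121, 600⟩, ⟨188, 230, 100⟩⟩ (top17B.hC3p' false) :=
  posBox_of_check (c := ⟨342, ⟨3, 8, 15, 10⟩⟩) (by decide +kernel)

def top17B_c3mh0 : PosBox ⟨⟨0, 1, 1⟩, ⟨99, 100, 165⟩, ⟨87, 121, 600⟩, ⟨188, 230, 100⟩⟩ (top17B.hC3m' false) :=
  posBox_of_check (c := ⟨324, ⟨3, 7, 15, 10⟩⟩) (by decide +kernel)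

def top17B_up0 : PosBox ⟨⟨0, 1, 1⟩, ⟨99, 100, 165⟩, ⟨87, 121, 600⟩, ⟨188, 230, 100⟩⟩ (top17B.hUp false) :=
  posBox_of_check (c := ⟨339, ⟨3, 8, 15, 10⟩⟩) (by decide +kernel)

def top17B_um0 : PosBox ⟨⟨0, 1, 1⟩, ⟨99, 100, 165⟩, ⟨87, 121, 600⟩, ⟨188, 230, 100⟩⟩ (top17B.hUm false) :=
  posBox_of_check (c := ⟨318, ⟨2, 7, 15, 10⟩⟩) (by decide +kernel)

def top17B_kap1 : PosBox ⟨⟨0, 1, 1⟩, ⟨99, 100, 165⟩, ⟨87, 121, 600⟩, ⟨188, 230, 100⟩⟩ (top17B.kap true) :=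
  posBox_of_check (c := ⟨69, ⟨1, 1, 2, 2⟩⟩) (by decide +kernel)

def top17B_tg1 : PosBox ⟨⟨0, 1, 1⟩, ⟨99, 100, 165⟩, ⟨87, 121, 600⟩, ⟨188, 230, 100⟩⟩ (top17B.hG (top17B.pEnd true)) :=
  posBox_of_check (c := ⟨294, ⟨2, 7, 14, 9⟩⟩) (by decide +kernel)

def top17B_c2p1 : PosBox ⟨⟨0, 1, 1⟩, ⟨99, 100, 165⟩, ⟨87, 121, 600⟩, ⟨188, 230, 100⟩⟩ (top17B.hC2p (top17B.pEnd true)) :=
  posBox_of_check (c := ⟨358, ⟨3, 8, 16, 11⟩⟩) (by decide +kernel)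

def top17B_c2m1 : PosBox ⟨⟨0, 1, 1⟩, ⟨99, 100, 165⟩, ⟨87, 121, 600⟩, ⟨188, 230, 100⟩⟩ (top17B.hC2m (top17B.pEnd true)) :=
  posBox_of_check (c := ⟨337, ⟨2, 7, 16, 11⟩⟩) (by decide +kernel)

def top17B_c11_0 : PosBox ⟨⟨0, 1, 2⟩, ⟨99, 100, 165⟩, ⟨87, 121, 600⟩, ⟨188, 230, 100⟩⟩ (top17B.hC1 true) :=
  posBox_of_check (c := ⟨221, ⟨3, 5, 9, 7⟩⟩) (by decide +kernel)

def top17B_c11_1 : PosBox ⟨⟨1, 2, 2⟩, ⟨99, 100, 165⟩, ⟨87, 121, 600⟩, ⟨188, 230, 100⟩⟩ (top17B.hC1 true) :=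
  posBox_of_check (c := ⟨222, ⟨3, 5, 9, 7⟩⟩) (by decide +kernel)

def top17B_c11 : PosBox ⟨⟨0, 1, 1⟩, ⟨99, 100, 165⟩, ⟨87, 121, 600⟩, ⟨188, 230, 100⟩⟩ (top17B.hC1 true) :=
  posBox_units (b := ⟨⟨0, 2, 2⟩, ⟨99, 100, 165⟩, ⟨87, 121, 600⟩, ⟨188, 230, 100⟩⟩) (by decide +kernel) (posBox_join₀ top17B_c11_0 top17B_c11_1)

def top17B_c3p1 : PosBox ⟨⟨0, 1, 1⟩, ⟨99, 100, 165⟩, ⟨87, 121, 600⟩, ⟨188, 230, 100⟩⟩ (top17B.hC3p true) :=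
  posBox_of_check (c := ⟨340, ⟨3, 8, 15, 10⟩⟩) (by decide +kernel)

def top17B_c3m1 : PosBox ⟨⟨0, 1, 1⟩, ⟨99, 100, 165⟩, ⟨87, 121, 600⟩, ⟨188, 230, 100⟩⟩ (top17B.hC3m true) :=
  posBox_of_check (c := ⟨322, ⟨3, 7, 15, 10⟩⟩) (by decide +kernel)

def top17B_tmg1 : PosBox ⟨⟨0, 1, 1⟩, ⟨99, 100, 165⟩, ⟨87, 121, 600⟩, ⟨188, 230, 100⟩⟩ (top17B.hTMG (top17B.pEnd true)) :=
  posBox_of_check (c := ⟨307, ⟨2, 7, 14, 10⟩⟩) (by decide +kernel)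

def top17B_c1h1 : PosBox ⟨⟨0, 1, 1⟩, ⟨99, 100, 165⟩, ⟨87, 121, 600⟩, ⟨188, 230, 100⟩⟩ (top17B.hC1' true) :=
  posBox_of_check (c := ⟨218, ⟨3, 5, 9, 7⟩⟩) (by decide +kernel)

def top17B_c3ph1 : PosBox ⟨⟨0, 1, 1⟩, ⟨99, 100, 165⟩, ⟨87, 121, 600⟩, ⟨188, 230, 100⟩⟩ (top17B.hC3p' true) :=
  posBox_of_check (c := ⟨340, ⟨3, 8, 15, 10⟩⟩) (by decide +kernel)

def top17B_c3mh1 : PosBox ⟨⟨0, 1, 1⟩, ⟨99, 100, 165⟩, ⟨87, 121, 600⟩, ⟨188, 230, 100⟩⟩ (top17B.hC3m' true) :=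
  posBox_of_check (c := ⟨322, ⟨3, 7, 15, 10⟩⟩) (by decide +kernel)

def top17B_up1 : PosBox ⟨⟨0, 1, 1⟩, ⟨99, 100, 165⟩, ⟨87, 121, 600⟩, ⟨188, 230, 100⟩⟩ (top17B.hUp true) :=
  posBox_of_check (c := ⟨338, ⟨3, 8, 15, 10⟩⟩) (by decide +kernel)

def top17B_um1 : PosBox ⟨⟨0, 1, 1⟩, ⟨99, 100, 165⟩, ⟨87, 121, 600⟩, ⟨188, 230, 100⟩⟩ (top17B.hUm true) :=
  posBox_of_check (c := ⟨318, ⟨2, 7, 15, 10⟩⟩) (by decide +kernel)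

/-- The checks on the signs. -/
theorem top17B_sign : top17B.Sign ⟨⟨0, 1, 1⟩, ⟨99, 100, 165⟩, ⟨87, 121, 600⟩, ⟨188, 230, 100⟩⟩ where
  pp := top17B_pp
  k2p := top17B_k2p
  k2m := top17B_k2m
  v2p := top17B_v2p
  v2m := top17B_v2m
  v3p := top17B_v3p
  v3m := top17B_v3m
  tg := Bool.forall_bool.2 ⟨top17B_tg0, top17B_tg1⟩
  c2p := Bool.forall_bool.2 ⟨top17B_c2p0, top17B_c2p1⟩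
  c2m := Bool.forall_bool.2 ⟨top17B_c2m0, top17B_c2m1⟩
  kap := Bool.forall_bool.2 ⟨top17B_kap0, top17B_kap1⟩
  c1 := Bool.forall_bool.2 ⟨top17B_c10, top17B_c11⟩
  c3p := Bool.forall_bool.2 ⟨top17B_c3p0, top17B_c3p1⟩
  c3m := Bool.forall_bool.2 ⟨top17B_c3m0, top17B_c3m1⟩
  tmg := Bool.forall_bool.2 ⟨top17B_tmg0, top17B_tmg1⟩
  high := .inr (Bool.forall_bool.2 ⟨⟨top17B_c1h0, top17B_c3ph0, top17B_c3mh0, top17B_up0, top17B_um0⟩, ⟨top17B_c1h1, top17B_c3ph1, top17B_c3mh1, top17B_up1, top17B_um1⟩⟩)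
  vG := top17B_vG
  vMG := top17B_vMG
  ak := top17B_ak
  aw := top17B_aw
  gk := top17B_gk
  gw := top17B_gw
  ek := top17B_ek
  ew := top17B_ew

end Vale.Agent.P100.Calib.Closed.High
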