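import Vale.Agent.P100.Calib.SlabHighPiece
import Vale.Agent.P100.Calib.SlabHighAlgebra

/-!
# A piece whose checks hold gives the closed signs
-/

set_option linter.unusedVariables false

namespace Vale.Agent.P100.Calib.Closed.High

open BoxPos Large

local instance highSoundAdd : Add Ex := ⟨Ex.add⟩
local instance highSoundSub : Sub Ex := ⟨Ex.sub⟩
local instance highSoundMul : Mul Ex := ⟨Ex.mul⟩

variable {P : Piece} {b : Box}

/-- The value of a bound between the ends of the slope. -/
theorem bound_pos {F : Ex → Ex → Ex → Ex} {f : ℝ → ℝ → ℝ} {o S d v t : ℝ}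
    (hf : ∀ n m : Ex, (F P.xU n m).val o S d v = f (n.val o S d v) (m.val o S d v))
    (haff : ∀ n m, f n m = f 0 1 * m + f 1 0 * n)
    (h : ∀ i, PosBox b (P.at i F)) (hd : ∀ i, PosBox b (P.hDen i))
    (h₀ : b.s₀.Mem o) (h₁ : b.s₁.Mem S) (h₂ : b.s₂.Mem d) (h₃ : b.s₃.Mem v)
    (hL : (P.tLn P.xU).val o S d v ≤ t * (P.tLd P.xU).val o S d v)
    (hU : t * (P.tUd P.xU).val o S d v ≤ (P.tUn P.xU).val o S d v) : 0 < f t 1 := by
  have kL := h false o S d v h₀ h₁ h₂ h₃
  have kU := h true o S d v h₀ h₁ h₂ h₃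
  simp only [Piece.at, cond_false, cond_true, hf] at kL kU
  rw [haff] at kL kU
  rw [haff, mul_one]
  exact between kL kU (hd false o S d v h₀ h₁ h₂ h₃) (hd true o S d v h₀ h₁ h₂ h₃) hL hU

/-- A concave function is positive between two positive ends. -/
theorem secant_pos {x y c s p₀ p₁ : ℝ} (hx : 0 < x) (hy : 0 < y) (hc : c ≤ 0) (h₀ : 0 ≤ s)
    (h₁ : s ≤ 1) : 0 < mix s x y - s * (1 - s) * (p₁ - p₀) ^ 2 * c := by
  have k1 : 0 ≤ -(s * (1 - s) * (p₁ - p₀) ^ 2 * c) := by
    have := mul_nonneg (mul_nonneg h₀ (sub_nonneg.2 h₁)) (sq_nonneg (p₁ - p₀))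
    nlinarith
  have k2 : min x y ≤ mix s x y := by
    unfold mix
    nlinarith [min_le_left x y, min_le_right x y]
  have := lt_min hx hy
  linarith

/-- A concave arrow: the square of a linear function over `p` is convex. -/
theorem split_pos {Q1 s pl pu p U Ul Uu X Xl Xu : ℝ} (hQ1 : 0 < Q1) (hs0 : 0 ≤ s) (hs1 : s ≤ 1)
    (hl : 0 < pl) (hu : 0 < pu) (hp : p = mix s pl pu) (hU : mix s Ul Uu ≤ U)
    (hX : X = mix s Xl Xu) (cl : 0 < Q1 * pl * Ul - 4 * Xl * Xl)
    (cu : 0 < Q1 * pu * Uu - 4 * Xu * Xu) : 0 < Q1 * p * U - 4 * X * X := by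
  have hp0 : 0 < p := by
    rw [hp]; unfold mix; nlinarith [min_le_left pl pu, min_le_right pl pu, lt_min hl hu]
  set r := X / p with hr
  have e1 : r * p = X := by rw [hr]; field_simp
  have e2 : ∀ {x X' U' : ℝ}, 0 < x → 0 < Q1 * x * U' - 4 * X' * X' →
      0 < Q1 * U' - 8 * r * X' + 4 * r ^ 2 * x := by
    intro x X' U' hx h
    refine pos_of_mul_pos_left (b := x) ?_ hx.le
    nlinarith [sq_nonneg (X' - r * x)]
  have k := secant_pos (c := 0) (p₀ := pl) (p₁ := pu) (e2 hl cl) (e2 hu cu) le_rfl hs0 hs1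
  have k2 : 0 < Q1 * U - 8 * r * X + 4 * r ^ 2 * p := by
    have := mul_le_mul_of_nonneg_left hU hQ1.le
    rw [hX, hp]
    unfold mix at k this ⊢
    linarith
  have k3 := mul_pos hp0 k2
  rw [← e1] at k3 ⊢
  linarith

/-- The arrow from its parts. -/
theorem arrow_pos {Q1 Q p E q₁ q₂ c2 M T T₁ X Xl Xu Y G : ℝ} (hQ1 : 0 < Q1) (hQ : 0 < Q)
    (hp : 0 < p) (he : 0 < E) (hG : 0 < G) (hc : 0 ≤ c2) (hT : T₁ ≤ T)
    (hM : Xl ≤ X ∧ X ≤ Xu) (Yp : 0 < 4 * q₁ * G - 1 * c2 * Y)
    (Ym : 0 < 4 * q₂ * G - (-1) * c2 * Y)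
    (Lp : 0 < Q1 * p * (E * T₁ - E * 1 * q₁ * Y) - 4 * Xl * Xl)
    (Lm : 0 < Q1 * p * (E * T₁ - E * (-1) * q₂ * Y) - 4 * Xl * Xl)
    (high : Xu < 0 ∨ (0 < Q1 * p * (E * T₁ - E * 1 * q₁ * Y) - 4 * Xu * Xu ∧
      0 < Q1 * p * (E * T₁ - E * (-1) * q₂ * Y) - 4 * Xu * Xu)) (hMe : M = Q1 * Q * p * E) :
    0 < 4 * T * M * G - 16 * Q * X ^ 2 * G - c2 * Y ^ 2 * M := by
  obtain ⟨r₁, r₂⟩ : 0 < Q1 * p * (E * (T - q₁ * Y)) - 4 * X ^ 2 ∧
      0 < Q1 * p * (E * (T + q₂ * Y)) - 4 * X ^ 2 := by
    have hQp := mul_pos hQ1 hp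
    have hTT := mul_le_mul_of_nonneg_left (mul_le_mul_of_nonneg_left hT he.le) hQp.le
    rcases le_or_gt X 0 with h | h
    · have : X ^ 2 ≤ Xl ^ 2 := by nlinarith [hM.1]
      constructor <;> nlinarith
    · rcases high with h' | ⟨h1, h2⟩
      · linarith [hM.2]
      · have : X ^ 2 ≤ Xu ^ 2 := by nlinarith [hM.2]
        constructor <;> nlinarith
  have hMp : 0 < M := by rw [hMe]; positivity
  rcases le_or_gt 0 Y with hY | hY
  · have k := mul_pos (mul_pos hQ hG) r₁
    have h2 := mul_nonneg (mul_nonneg hY hMp.le) Yp.le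
    rw [hMe] at h2 ⊢
    nlinarith [h2, k]
  · have k := mul_pos (mul_pos hQ hG) r₂
    have h2 := mul_nonneg (mul_nonneg (neg_nonneg.2 hY.le) hMp.le) Ym.le
    rw [hMe] at h2 ⊢
    nlinarith [h2, k]

/-- A square below a product from two linear conditions. -/
theorem endpoint_pos {Q U Y k : ℝ} (hQ : 0 ≤ Q) (h1 : 0 < k * Q + 4 * Y) (h2 : 0 < k * Q - 4 * Y)
    (h3 : 0 < U + k * Y) (h4 : 0 < U - k * Y) : 0 < Q * U - 4 * Y * Y := by
  have hkQ : 0 < k * Q := by linarith
  have hk : 0 < k := pos_of_mul_pos_left hkQ hQ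
  refine pos_of_mul_pos_right (a := k) ?_ hk.le
  rcases le_total 0 Y with hY | hY
  · nlinarith [mul_nonneg hY h2.le, mul_pos hkQ h4]
  · nlinarith [mul_nonneg (neg_nonneg.2 hY) h1.le, mul_pos hkQ h3]

/-- The signs at the level of `p = g W`, `e = g E`, `k = g K`, `w = g W1`. -/
structure Bounds (P : Piece) (o S d v p e k w : ℝ) : Prop where
  e_eq : P.eL.free.val o S d v + o * (P.eH.free.val o S d v - P.eL.free.val o S d v) = e
  e_neg : e < 0
  p_low : P.pL.free.val o S d v + P.pL.slope.val o S d v * e ≤ p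
  p_high : p ≤ P.pU.free.val o S d v + P.pU.slope.val o S d v * e
  k_low : P.kL.free.val o S d v + P.kL.slope.val o S d v * e + P.kL.slopeP.val o S d v * p ≤ k
  k_high : k ≤ P.kU.free.val o S d v + P.kU.slope.val o S d v * e + P.kU.slopeP.val o S d v * p
  w_low : P.wL.free.val o S d v + P.wL.slope.val o S d v * e + P.wL.slopeP.val o S d v * p ≤ w
  w_high : w ≤ P.wU.free.val o S d v + P.wU.slope.val o S d v * e + P.wU.slopeP.val o S d v * p

set_option maxHeartbeats 800000 in
/-- **The signs of a piece** at `g = 1`. -/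
theorem core_signs (C : P.Sign b) {o S d v p e k w : ℝ} (h₀ : b.s₀.Mem o) (h₁ : b.s₁.Mem S)
    (h₂ : b.s₂.Mem d) (h₃ : b.s₃.Mem v) (hS : S < 1) (hS0 : 0 < S) (hd : 0 < d) (hv : 0 < v)
    (B : Bounds P o S d v p e k w) :
    let a := (S - d) / 2
    let M := TMM a d v p e
    let T := TA a d v 1 p w 0 e k
    let G := TGG a d v 1 p 0 0 e 0
    let X := TME a d v 1 p w e k
    let Y := TEG a d v 1 p 0 0 e 0
    0 < G ∧ 0 ≤ TMG a d v 1 p w 0 e k ∧
      0 < 4 * T * M * G - 16 * (1 + d * v) * X ^ 2 * G -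
        625 * d ^ 2 * v ^ 2 * (1 + d * v) * Y ^ 2 * M := by
  intro a M T G X Y
  have ev : ∀ {f : Ex}, PosBox b f → 0 < f.val o S d v := fun h => h o S d v h₀ h₁ h₂ h₃
  have hA : xA.val o S d v = a := val_xA o S d v
  have hE : P.xE.val o S d v = e := B.e_eq
  set pl := P.pL.free.val o S d v + P.pL.slope.val o S d v * e with hpl
  set pu := P.pU.free.val o S d v + P.pU.slope.val o S d v * e with hpu
  obtain ⟨s, hs0, hs1, hp⟩ : ∃ s : ℝ, 0 ≤ s ∧ s ≤ 1 ∧ p = mix s pl pu := by
    rcases eq_or_lt_of_le (B.p_low.trans B.p_high) with h | h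
    · exact ⟨0, le_rfl, zero_le_one, by unfold mix; linarith [B.p_low, B.p_high]⟩
    · refine ⟨(p - pl) / (pu - pl), div_nonneg (sub_nonneg.2 B.p_low) (by linarith), ?_, ?_⟩
      · rw [div_le_one (by linarith)]; linarith [B.p_high]
      · unfold mix
        have hne : pu - pl ≠ 0 := (sub_pos.2 h).ne'
        field_simp
        ring
  let lk := fun x => P.kL.free.val o S d v + P.kL.slope.val o S d v * e + P.kL.slopeP.val o S d v * x
  let uk := fun x => P.kU.free.val o S d v + P.kU.slope.val o S d v * e + P.kU.slopeP.val o S d v * x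
  let lw := fun x => P.wL.free.val o S d v + P.wL.slope.val o S d v * e + P.wL.slopeP.val o S d v * x
  let uw := fun x => P.wU.free.val o S d v + P.wU.slope.val o S d v * e + P.wU.slopeP.val o S d v * x
  have mlk : lk p = mix s (lk pl) (lk pu) := by rw [hp]; simp only [lk, mix]; ring
  have muk : uk p = mix s (uk pl) (uk pu) := by rw [hp]; simp only [uk, mix]; ring
  have mlw : lw p = mix s (lw pl) (lw pu) := by rw [hp]; simp only [lw, mix]; ring
  have muw : uw p = mix s (uw pl) (uw pu) := by rw [hp]; simp only [uw, mix]; ring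
  have kT := ev C.vG
  have kG2 : two (fun p => TGG a d v 1 p 0 0 e 0) ≤ 0 := by
    have := val_eTGG2 xA xD xV o S d v e 0 0
    simp only [hVG, ex_mul, Ex.val] at kT
    simp only [hA, Ex.val, TGG, LGG] at this
    simp only [two, TGG, LGG]
    push_cast at kT
    linarith
  have kMG2 : two (fun p => TMG a d v 1 p 0 0 e 0) ≤ 0 := by
    have := val_eTMG2 xA xD xV o S d v e 0 0
    have k := ev C.vMG
    simp only [hVMG, ex_mul, Ex.val] at k
    simp only [hA, Ex.val] at this
    simp only [two]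
    push_cast at k
    linarith
  have dAk : TA a d v 1 p 0 0 e 1 - TA a d v 1 p 0 0 e 0 ≤ 0 := by
    have := val_eTAk xA xD xV o S d v p e 0
    have k := ev C.ak
    simp only [hAk, ex_mul, Ex.val] at k
    simp only [hA, Ex.val] at this
    push_cast at k
    linarith
  have dAw : TA a d v 1 p 1 0 e 0 - TA a d v 1 p 0 0 e 0 ≤ 0 := by
    have := val_eTAw xA xD xV o S d v p e 0
    have k := ev C.aw
    simp only [hAw, ex_mul, Ex.val] at k
    simp only [hA, Ex.val] at this
    push_cast at k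
    linarith
  have dGk : TMG a d v 1 p 0 0 e 1 - TMG a d v 1 p 0 0 e 0 ≤ 0 := by
    have := val_eTMGk xA xD xV o S d v p e 0
    have k := ev C.gk
    simp only [hGk, ex_mul, Ex.val] at k
    simp only [hA, Ex.val] at this
    push_cast at k
    linarith
  have dGw : 0 ≤ TMG a d v 1 p 1 0 e 0 - TMG a d v 1 p 0 0 e 0 := by
    have := val_eTMGw xA xD xV o S d v p e 0
    have k := ev C.gw
    simp only [hGw] at k
    simp only [hA, Ex.val] at this
    linarith
  have dMk : 0 ≤ TME a d v 1 p 0 e 1 - TME a d v 1 p 0 e 0 := by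
    have := val_eTMEk xA xD xV o S d v p e 0
    have k := ev C.ek
    simp only [hMk] at k
    simp only [hA, Ex.val] at this
    linarith
  have dMw : 0 ≤ TME a d v 1 p 1 e 0 - TME a d v 1 p 0 e 0 := by
    have := val_eTMEw xA xD xV o S d v p e 0
    have k := ev C.ew
    simp only [hMw] at k
    simp only [hA, Ex.val] at this
    linarith
  have k0 : 0 ≤ k - lk p := sub_nonneg.2 B.k_low
  have k1 : k - uk p ≤ 0 := sub_nonpos.2 B.k_high
  have w0 : 0 ≤ w - lw p := sub_nonneg.2 B.w_low
  have w1 : w - uw p ≤ 0 := sub_nonpos.2 B.w_high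
  have hT : TA a d v 1 p (uw p) 0 e (uk p) ≤ T := by
    simp only [T]
    rw [TA_affine a d v e (uk p) (uw p) p k w]
    linarith only [mul_nonneg_of_nonpos_of_nonpos k1 dAk, mul_nonneg_of_nonpos_of_nonpos w1 dAw]
  have hM : TME a d v 1 p (lw p) e (lk p) ≤ X ∧ X ≤ TME a d v 1 p (uw p) e (uk p) := by
    simp only [X]
    constructor
    · rw [TME_affine a d v e (lk p) (lw p) p k w]
      linarith only [mul_nonneg k0 dMk, mul_nonneg w0 dMw]
    · rw [TME_affine a d v e (uk p) (uw p) p k w]
      linarith only [mul_nonpos_of_nonpos_of_nonneg k1 dMk, mul_nonpos_of_nonpos_of_nonneg w1 dMw]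
  have hTMG : TMG a d v 1 p (lw p) 0 e (uk p) ≤ TMG a d v 1 p w 0 e k := by
    rw [TMG_affine a d v e (uk p) (lw p) p k w]
    linarith only [mul_nonneg_of_nonpos_of_nonpos k1 dGk, mul_nonneg w0 dGw]
  have hend : ∀ i, (P.pEnd i).val o S d v = cond i pu pl := by
    intro i
    cases i
    · simp only [Piece.pEnd, cond_false, Piece.xPL, ex_add, ex_mul, Ex.val, hE, hpl]
    · simp only [Piece.pEnd, cond_true, Piece.xPU, ex_add, ex_mul, Ex.val, hE, hpu]
  set c2 := 625 * d * d * v * v * (1 + d * v) with hc2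
  set Q1 := 1 - 2 * a - d with hQ1
  set q1 := (P.k2p P.xE).val o S d v with hq1
  set q2 := (P.k2m P.xE).val o S d v with hq2
  have endv : ∀ {F : Ex → Ex}, (∀ i, PosBox b (F (P.pEnd i))) → ∀ i,
      0 < (F (P.pEnd i)).val o S d v := fun h i => ev (h i)
  have vM : ∀ x : Ex, (P.xM x).val o S d v = TME a d v 1 (x.val o S d v) (lw (x.val o S d v)) e
      (lk (x.val o S d v)) := by
    intro x
    simp only [Piece.xM, val_eTME, hA, hE, Ex.val, Bnd.ex, ex_add, ex_mul, lk, lw]
  have vM' : ∀ x : Ex, (P.xM' x).val o S d v = TME a d v 1 (x.val o S d v) (uw (x.val o S d v)) e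
      (uk (x.val o S d v)) := by
    intro x
    simp only [Piece.xM', val_eTME, hA, hE, Ex.val, Bnd.ex, ex_add, ex_mul, uk, uw]
  have vT : ∀ x : Ex, (P.xT x).val o S d v = TA a d v 1 (x.val o S d v) (uw (x.val o S d v)) 0 e
      (uk (x.val o S d v)) := by
    intro x
    simp only [Piece.xT, val_eTA, hA, hE, Ex.val, Bnd.ex, ex_add, ex_mul, uk, uw]
  have vG : ∀ x : Ex, (eTGG xA xD xV x).val o S d v = TGG a d v 1 (x.val o S d v) 0 0 e 0 := by
    intro x
    rw [val_eTGG o S d v xA xD xV x 0 e 0, hA]; rfl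
  have vY : ∀ x : Ex, (eTEG xA xD xV x P.xE).val o S d v = TEG a d v 1 (x.val o S d v) 0 0 e 0 := by
    intro x
    rw [val_eTEG o S d v xA xD xV x P.xE 0 0, hA, hE]; rfl
  have eG : ∀ i, 0 < TGG a d v 1 (cond i pu pl) 0 0 e 0 := fun i => by
    have := endv C.tg i
    simpa only [Piece.hG, vG, hend] using this
  have hGpos : 0 < G := by
    simp only [G]; rw [hp, TGG_secant]
    exact secant_pos (eG false) (eG true) kG2 hs0 hs1
  have hc : 0 ≤ c2 := by
    have : 0 < 1 + d * v := by positivity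
    positivity
  have hY2 : ∀ (q σ : ℝ), (∀ i, 0 < 4 * q * TGG a d v 1 (cond i pu pl) 0 0 e 0 -
        σ * c2 * TEG a d v 1 (cond i pu pl) 0 0 e 0) →
      4 * q * (two fun x => TGG a d v 1 x 0 0 e 0) - σ * c2 * (two fun x => TEG a d v 1 x 0 0 e 0) ≤ 0 →
      0 < 4 * q * G - σ * c2 * Y := by
    intro q σ h h2
    simp only [G, Y]; rw [hp, TGG_secant, TEG_secant]
    have := secant_pos (p₀ := pl) (p₁ := pu) (h false) (h true) h2 hs0 hs1
    simp only [cond_false, cond_true, mix] at this ⊢
    linarith only [this]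
  have tE2 : ∀ x : Ex, 2 * (eTEG2 xA xD xV).val o S d v =
      2 * two (fun x => TEG a d v 1 x 0 0 e 0) := by
    intro x
    have := val_eTEG2 xA xD xV o S d v e 0 0
    simp only [hA, Ex.val] at this
    simp only [two]
    linarith only [this]
  have tG2 : (eTGG2 xA xD xV).val o S d v = two (fun x => TGG a d v 1 x 0 0 e 0) := by
    have := val_eTGG2 xA xD xV o S d v e 0 0
    simp only [hA, Ex.val] at this
    simp only [two]
    linarith only [this]
  have tY2 : (eTEG2 xA xD xV).val o S d v = two (fun x => TEG a d v 1 x 0 0 e 0) := by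
    linarith only [tE2 xD]
  have tA2 : (eTA2 xA xD xV).val o S d v = two (fun x => TA a d v 1 x 0 0 e 0) := by
    have := val_eTA2 xA xD xV o S d v e 0 0
    simp only [hA, Ex.val] at this
    simp only [two]
    linarith only [this]
  have Yp : 0 < 4 * q1 * G - 1 * c2 * Y := hY2 q1 1 (fun i => by
      have := endv C.c2p i
      simp only [Piece.hC2p, ex_mul, ex_sub, ex_add, Ex.val, vG, vY, hend] at this
      push_cast at this
      simp only [hc2, hq1]
      linarith only [this]) (by
      have := ev C.v2p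
      simp only [Piece.hV2p, ex_mul, ex_sub, ex_add, Ex.val, tG2, tY2] at this
      push_cast at this
      simp only [hc2, hq1]
      linarith only [this])
  have Ym : 0 < 4 * q2 * G - (-1) * c2 * Y := hY2 q2 (-1) (fun i => by
      have := endv C.c2m i
      simp only [Piece.hC2m, ex_mul, ex_sub, ex_add, Ex.val, vG, vY, hend] at this
      push_cast at this
      simp only [hc2, hq2]
      linarith only [this]) (by
      have := ev C.v2m
      simp only [Piece.hV2m, ex_mul, ex_sub, ex_add, Ex.val, tG2, tY2] at this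
      push_cast at this
      simp only [hc2, hq2]
      linarith only [this])
  have he : 0 < -e := neg_pos.2 B.e_neg
  have hlu : 0 < pl ∧ 0 < pu := by
    have h := ev C.pp
    simp only [Piece.xPL, ex_add, ex_mul, Ex.val, hE, ← hpl] at h
    exact ⟨h, h.trans_le (B.p_low.trans B.p_high)⟩
  have hQ : 0 < Q1 := by simp only [hQ1, a]; linarith
  -- the arrow at one pair of values of `g TME` and one sign of `TEG`
  have split : ∀ (σ q : ℝ) (Z : Bool → ℝ),
      (∀ i, 0 < Q1 * cond i pu pl *
        (-e * TA a d v 1 (cond i pu pl) (uw (cond i pu pl)) 0 e (uk (cond i pu pl)) -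
          -e * σ * q * TEG a d v 1 (cond i pu pl) 0 0 e 0) - 4 * Z i * Z i) →
      two (fun x => TA a d v 1 x 0 0 e 0) - σ * q * two (fun x => TEG a d v 1 x 0 0 e 0) ≤ 0 →
      0 < Q1 * p * (-e * TA a d v 1 p (uw p) 0 e (uk p) - -e * σ * q * Y) -
        4 * mix s (Z false) (Z true) * mix s (Z false) (Z true) := by
    intro σ q Z h h2
    refine split_pos (Ul := -e * TA a d v 1 pl (uw pl) 0 e (uk pl) -
        -e * σ * q * TEG a d v 1 pl 0 0 e 0)
      (Uu := -e * TA a d v 1 pu (uw pu) 0 e (uk pu) - -e * σ * q * TEG a d v 1 pu 0 0 e 0)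
      (Xl := Z false) (Xu := Z true)
      hQ hs0 hs1 hlu.1 hlu.2 hp ?_ rfl (h false) (h true)
    have := mul_nonneg (mul_nonneg hs0 (sub_nonneg.2 hs1)) (sq_nonneg (pu - pl))
    have h3 := mul_nonpos_of_nonneg_of_nonpos this (mul_nonpos_of_nonneg_of_nonpos he.le h2)
    simp only [Y]
    rw [muk, muw]
    conv_rhs => rw [hp, TA_secant, TEG_secant]
    simp only [mix] at h3 ⊢
    linarith only [h3]
  have V3p : two (fun x => TA a d v 1 x 0 0 e 0) - 1 * q1 * two (fun x => TEG a d v 1 x 0 0 e 0) ≤ 0 := by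
    have := ev C.v3p
    simp only [Piece.hV3p, ex_mul, ex_sub, Ex.val, tA2, tY2] at this
    linarith only [this]
  have V3m : two (fun x => TA a d v 1 x 0 0 e 0) - (-1) * q2 * two (fun x => TEG a d v 1 x 0 0 e 0) ≤ 0 := by
    have := ev C.v3m
    simp only [Piece.hV3m, ex_mul, ex_add, Ex.val, tA2, tY2] at this
    push_cast at this
    linarith only [this]
  let U : ℝ → ℝ → Bool → ℝ := fun σ q i => TA a d v 1 (cond i pu pl) (uw (cond i pu pl)) 0 e
    (uk (cond i pu pl)) - σ * q * TEG a d v 1 (cond i pu pl) 0 0 e 0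
  let Yl : Bool → ℝ := fun i =>
    TME a d v 1 (cond i pu pl) (lw (cond i pu pl)) e (lk (cond i pu pl))
  let Yu : Bool → ℝ := fun i =>
    TME a d v 1 (cond i pu pl) (uw (cond i pu pl)) e (uk (cond i pu pl))
  let Zl : Bool → ℝ := fun i => min (Yl i) 0
  let Zu : Bool → ℝ := fun i => max (Yu i) 0
  have hQe : ∀ i, 0 < Q1 * cond i pu pl * -e := fun i => by
    cases i
    · exact mul_pos (mul_pos hQ hlu.1) he
    · exact mul_pos (mul_pos hQ hlu.2) he
  let Qa : Bool → ℝ := fun i => cond P.alt (-e) (Q1 * cond i pu pl * -e)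
  let Fa : Bool → ℝ := fun i => cond P.alt (Q1 * cond i pu pl) 1
  have hFa : ∀ i, 0 < Fa i := fun i => by
    rcases Bool.eq_false_or_eq_true P.alt with h | h <;> simp only [Fa, h, cond_true, cond_false]
    · exact pos_of_mul_pos_left (hQe i) he.le
    · exact one_pos
  have hQa : ∀ i, 0 < Qa i := fun i => by
    rcases Bool.eq_false_or_eq_true P.alt with h | h <;> simp only [Qa, h, cond_true, cond_false]
    · exact he
    · exact hQe i
  have hQF : ∀ i, Qa i * Fa i = Q1 * cond i pu pl * -e := fun i => by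
    rcases Bool.eq_false_or_eq_true P.alt with h | h <;> simp only [Qa, Fa, h, cond_true, cond_false] <;>
      ring
  obtain ⟨ka, hka⟩ : ∃ ka : Bool → ℝ, ka = fun i => (P.kap i).val o S d v := ⟨_, rfl⟩
  have hk : ∀ i, 0 < ka i := fun i => by simp only [hka]; exact ev (C.kap i)
  have c1 : ∀ i, 0 < ka i * Qa i + 4 * Yl i := fun i => by
    have := ev (C.c1 i)
    rcases Bool.eq_false_or_eq_true P.alt with h | h <;>
      (simp only [Piece.hC1, Piece.xQ, h, cond_true, cond_false, ex_mul, ex_add, ex_sub, Ex.val, vM,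
        hE, hA, hend] at this
       push_cast at this
       simp only [Qa, Yl, h, cond_true, cond_false, hQ1, hka]
       linarith only [this])
  have c3p : ∀ i, 0 < Fa i * U 1 q1 i + ka i * Yl i := fun i => by
    have := ev (C.c3p i)
    rcases Bool.eq_false_or_eq_true P.alt with h | h <;>
      (simp only [Piece.hC3p, Piece.xW, h, cond_true, cond_false, ex_mul, ex_add, ex_sub, Ex.val,
        vM, vT, vY, hE, hA, hend] at this
       push_cast at this
       simp only [U, Fa, Yl, h, cond_true, cond_false, hQ1, hq1, hka]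
       linarith only [this])
  have c3m : ∀ i, 0 < Fa i * U (-1) q2 i + ka i * Yl i := fun i => by
    have := ev (C.c3m i)
    rcases Bool.eq_false_or_eq_true P.alt with h | h <;>
      (simp only [Piece.hC3m, Piece.xW, h, cond_true, cond_false, ex_mul, ex_add, ex_sub, Ex.val,
        vM, vT, vY, hE, hA, hend] at this
       push_cast at this
       simp only [U, Fa, Yl, h, cond_true, cond_false, hQ1, hq2, hka]
       linarith only [this])
  have hU0 : ∀ i, 0 < U 1 q1 i ∧ 0 < U (-1) q2 i := fun i => by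
    rcases C.high with h | h
    · have hy := ev (h i).2
      simp only [Piece.hNegLo, ex_mul, Ex.val, vM, hend] at hy
      push_cast at hy
      have hy' : Yl i < 0 := by simp only [Yl]; linarith only [hy]
      have := mul_neg_of_pos_of_neg (hk i) hy'
      exact ⟨pos_of_mul_pos_right (by linarith [c3p i]) (hFa i).le,
        pos_of_mul_pos_right (by linarith [c3m i]) (hFa i).le⟩
    · obtain ⟨-, -, -, h4, h5⟩ := h i
      have k4 := ev h4
      have k5 := ev h5
      simp only [Piece.hUp, Piece.hUm, ex_mul, ex_add, ex_sub, Ex.val, vT, vY, hE, hA, hend] at k4 k5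
      simp only [U, hq1, hq2]
      exact ⟨by linarith only [k4], by linarith only [k5]⟩
  have low : ∀ i σ q, 0 < U σ q i → 0 < Fa i * U σ q i + ka i * Yl i →
      0 < Q1 * cond i pu pl * (-e * TA a d v 1 (cond i pu pl) (uw (cond i pu pl)) 0 e
        (uk (cond i pu pl)) - -e * σ * q * TEG a d v 1 (cond i pu pl) 0 0 e 0) -
        4 * Zl i * Zl i := by
    intro i σ q h0 h1
    have hQp := mul_pos (hk i) (hQa i)
    have hFU := mul_pos (hFa i) h0
    have hz : Zl i ≤ 0 := min_le_right _ _
    have hz' : ka i * Zl i ≤ 0 := mul_nonpos_of_nonneg_of_nonpos (hk i).le hz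
    have := endpoint_pos (k := ka i) (Y := Zl i) (U := Fa i * U σ q i) (hQa i).le
      (by rcases min_choice (Yl i) 0 with e' | e' <;> simp only [Zl, e'] <;> linarith [c1 i])
      (by linarith)
      (by rcases min_choice (Yl i) 0 with e' | e' <;> simp only [Zl, e'] <;> linarith)
      (by linarith)
    rw [← mul_assoc, hQF i] at this
    simp only [U] at this
    linarith only [this]
  have Lp := split 1 q1 Zl (fun i => low i 1 q1 (hU0 i).1 (c3p i)) V3p
  have Lm := split (-1) q2 Zl (fun i => low i (-1) q2 (hU0 i).2 (c3m i)) V3m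
  have hM1 : mix s (Zl false) (Zl true) ≤ X := by
    refine le_trans ?_ hM.1
    conv_rhs => rw [mlw, mlk, hp, TME_secant]
    exact add_le_add (mul_le_mul_of_nonneg_left (min_le_left _ _) (sub_nonneg.2 hs1))
      (mul_le_mul_of_nonneg_left (min_le_left _ _) hs0)
  have hM2 : X ≤ mix s (Yu false) (Yu true) := by
    refine hM.2.trans (le_of_eq ?_)
    conv_lhs => rw [muw, muk, hp, TME_secant]
    rfl
  have fin : ∃ Xu, X ≤ Xu ∧ (Xu < 0 ∨
      (0 < Q1 * p * (-e * TA a d v 1 p (uw p) 0 e (uk p) - -e * 1 * q1 * Y) - 4 * Xu * Xu ∧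
        0 < Q1 * p * (-e * TA a d v 1 p (uw p) 0 e (uk p) - -e * (-1) * q2 * Y) -
          4 * Xu * Xu)) := by
    rcases C.high with h | h
    · refine ⟨_, hM2, .inl ?_⟩
      have h' : ∀ i, 0 < -Yu i := fun i => by
        have := ev (h i).1
        simp only [Piece.hNeg, ex_mul, Ex.val, vM', hend] at this
        push_cast at this
        simp only [Yu]
        linarith only [this]
      have hh := secant_pos (p₀ := pl) (p₁ := pu) (h' false) (h' true) (le_refl (0 : ℝ)) hs0 hs1
      simp only [mix] at hh ⊢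
      linarith only [hh]
    · refine ⟨mix s (Zu false) (Zu true), hM2.trans (add_le_add
        (mul_le_mul_of_nonneg_left (le_max_left _ _) (sub_nonneg.2 hs1))
        (mul_le_mul_of_nonneg_left (le_max_left _ _) hs0)), .inr ?_⟩
      have up : ∀ i σ q, 0 < U σ q i → 0 < Fa i * U σ q i - ka i * Yu i →
          0 < Q1 * cond i pu pl * (-e * TA a d v 1 (cond i pu pl) (uw (cond i pu pl)) 0 e
            (uk (cond i pu pl)) - -e * σ * q * TEG a d v 1 (cond i pu pl) 0 0 e 0) -
            4 * Zu i * Zu i := by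
        intro i σ q h0 h1
        have k1 := ev (h i).1
        simp only [Piece.hC1'] at k1
        have k1' : 0 < ka i * Qa i - 4 * Yu i := by
          rcases Bool.eq_false_or_eq_true P.alt with h' | h' <;>
            (simp only [Piece.xQ, h', cond_true, cond_false, ex_mul, ex_add, ex_sub, Ex.val, vM', hE,
              hA, hend] at k1
             push_cast at k1
             simp only [Qa, Yu, h', cond_true, cond_false, hQ1, hka]
             linarith only [k1])
        have hQp := mul_pos (hk i) (hQa i)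
        have hFU := mul_pos (hFa i) h0
        have hz : 0 ≤ Zu i := le_max_right _ _
        have hz' : 0 ≤ ka i * Zu i := mul_nonneg (hk i).le hz
        have := endpoint_pos (k := ka i) (Y := Zu i) (U := Fa i * U σ q i) (hQa i).le
          (by linarith)
          (by rcases max_choice (Yu i) 0 with e' | e' <;> simp only [Zu, e'] <;> linarith)
          (by linarith)
          (by rcases max_choice (Yu i) 0 with e' | e' <;> simp only [Zu, e'] <;> linarith)
        rw [← mul_assoc, hQF i] at this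
        simp only [U] at this
        linarith only [this]
      refine ⟨split 1 q1 Zu (fun i => up i 1 q1 (hU0 i).1 ?_) V3p,
        split (-1) q2 Zu (fun i => up i (-1) q2 (hU0 i).2 ?_) V3m⟩
      · have := ev (h i).2.1
        rcases Bool.eq_false_or_eq_true P.alt with h' | h' <;>
          (simp only [Piece.hC3p', Piece.xW, h', cond_true, cond_false, ex_mul, ex_add, ex_sub,
            Ex.val, vM', vT, vY, hE, hA, hend] at this
           push_cast at this
           simp only [U, Fa, Yu, h', cond_true, cond_false, hQ1, hq1, hka]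
           linarith only [this])
      · have := ev (h i).2.2.1
        rcases Bool.eq_false_or_eq_true P.alt with h' | h' <;>
          (simp only [Piece.hC3m', Piece.xW, h', cond_true, cond_false, ex_mul, ex_add, ex_sub,
            Ex.val, vM', vT, vY, hE, hA, hend] at this
           push_cast at this
           simp only [U, Fa, Yu, h', cond_true, cond_false, hQ1, hq2, hka]
           linarith only [this])
  obtain ⟨Xu, hXu, high⟩ := fin
  refine ⟨hGpos, ?_, ?_⟩
  · have h : ∀ i, 0 < TMG a d v 1 (cond i pu pl) (lw (cond i pu pl)) 0 e (uk (cond i pu pl)) :=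
      fun i => by
        have := endv C.tmg i
        simp only [Piece.hTMG, val_eTMG, hA, hE, Ex.val, Bnd.ex, ex_add, ex_mul, hend] at this
        exact this
    have hh : 0 < TMG a d v 1 p (lw p) 0 e (uk p) := by
      rw [mlw, muk]; conv_rhs => rw [hp, TMG_secant]
      exact secant_pos (h false) (h true) kMG2 hs0 hs1
    exact (hh.trans_le hTMG).le
  · have := arrow_pos (Q := 1 + d * v) hQ (by positivity) (hlu.1.trans_le B.p_low) he hGpos hc
      hT ⟨hM1, hXu⟩ Yp Ym Lp Lm high (M := M) (by simp only [M, TMM, hQ1, a]; ring)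
    simp only [hc2] at this
    linarith only [this]

end Vale.Agent.P100.Calib.Closed.High
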