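import Vale.Agent.P100.Calib.SlabHighBands
import Vale.Agent.P100.Calib.SlabHighGlobal
import Vale.Agent.P100.Calib.SlabChartHighDefs

/-!
# From the bands of the tail to the pieces of its certificate
-/

set_option linter.unusedVariables false

namespace Vale.Agent.P100.Calib.Closed.High

open BoxPos Large

/-- A point of the chart at which `LLG` is nonnegative. -/
structure TailPt (d S u v t : ℝ) : Prop where
  dpos : 0 < d
  S_mem : (⟨99, 100, 165⟩ : Side).Mem S
  facts : ChartFacts d S u v t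
  llg : 0 ≤ LLG ((S - d) / 2) d v (chG d S u v t) (chW d S u v t) (chW1 d S u v t) (chR S u)
    (eVal d v (chW d S u v t) (chR S u)) (kVal d (chW d S u v t) (chR S u))

theorem TailPt.S_pos {d S u v t : ℝ} (T : TailPt d S u v t) : 0 < S ∧ S < 1 := by
  obtain ⟨h1, h2⟩ := T.S_mem
  norm_num at h1 h2
  constructor <;> linarith

theorem TailPt.v_pos {d S u v t : ℝ} (T : TailPt d S u v t) : 0 < v := by
  have := T.facts.v_low
  linarith

/-- `u` is placed between the ends of a piece. -/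
theorem xU_place {P : Piece} {S d v u : ℝ} (h₀ : noO P.u₀ = true) (h₁ : noO P.u₁ = true)
    (hlo : P.u₁.val 0 S d v < u) (hhi : u ≤ P.u₀.val 0 S d v) :
    ∃ o : ℝ, (⟨0, 1, 1⟩ : Side).Mem o ∧ P.xU.val o S d v = u := by
  set U := P.u₀.val 0 S d v with hU
  set L := P.u₁.val 0 S d v with hL
  have hg : 0 < U - L := by linarith
  refine ⟨(U - u) / (U - L), ?_, ?_⟩
  · simp only [Side.Mem]
    push_cast
    refine ⟨?_, ?_⟩
    · rw [zero_div]; exact div_nonneg (by linarith) hg.le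
    · rw [div_one, div_lt_one hg]; linarith
  · simp only [Piece.xU, ex_add, ex_mul, ex_sub, Ex.val, val_noO h₀ _ 0, val_noO h₁ _ 0, ← hU, ← hL]
    field_simp
    ring

/-- The slope lies below its end at `ev = 0`. -/
theorem evU {P : Piece} {b : Box} (hp : PosBox b P.hP0) (hg : PosBox b P.hGn) (hn : P.tUn = evN)
    (hd' : P.tUd = evD) {o d S u v t : ℝ} (h₀ : b.s₀.Mem o) (h₁ : b.s₁.Mem S) (h₂ : b.s₂.Mem d)
    (h₃ : b.s₃.Mem v) (T : TailPt d S u v t) (hu : P.xU.val o S d v = u) :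
    t * (P.tUd P.xU).val o S d v ≤ (P.tUn P.xU).val o S d v := by
  obtain ⟨hS0, hS⟩ := T.S_pos
  have h1 := hp o S d v h₀ h₁ h₂ h₃
  simp only [Piece.hP0, val_xA, val_xB, ex_mul, ex_sub, Ex.val] at h1
  push_cast at h1
  have hGn := hg o S d v h₀ h₁ h₂ h₃
  simp only [Piece.hGn, val_xGn, hu] at hGn
  obtain ⟨-, k⟩ := num_facts T.dpos hS0 hS T.v_pos T.facts hGn (p₀ := P.p₀.val o S d v) (by linarith)
  rw [hn, hd']
  simp only [evN, evD, ex_sub, ex_add, ex_mul, Ex.val, val_xBB, val_xGn, val_xA, val_xB, hu]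
  simp only [rEV, rK] at k
  push_cast
  linarith only [k]

/-- No point of the chart in an empty piece of the tail. -/
theorem piece_false {P : Piece} {b : Box} (E : P.Empty b) (hb₀ : b.s₀ = ⟨0, 1, 1⟩)
    (hb₁ : b.s₁ = ⟨99, 100, 165⟩) (h₀ : noO P.u₀ = true) (h₁ : noO P.u₁ = true) {d S u v t : ℝ}
    (T : TailPt d S u v t) (md : b.s₂.Mem d) (mv : b.s₃.Mem v)
    (hlo : P.u₁.val 0 S d v < u) (hhi : u ≤ P.u₀.val 0 S d v)
    (hL : ∀ o, P.xU.val o S d v = u → (P.tLn P.xU).val o S d v ≤ t * (P.tLd P.xU).val o S d v)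
    (hU : ∀ o, b.s₀.Mem o → P.xU.val o S d v = u →
      t * (P.tUd P.xU).val o S d v ≤ (P.tUn P.xU).val o S d v) : False := by
  obtain ⟨hS0, hS⟩ := T.S_pos
  obtain ⟨o, mo, hu⟩ := xU_place h₀ h₁ hlo hhi
  rw [← hb₀] at mo
  exact E.false mo (hb₁ ▸ T.S_mem) md mv T.dpos hS0 hS T.v_pos T.facts hu (hL o hu) (hU o mo hu)

/-- The closed signs on a piece of the tail. -/
theorem piece_signs {P : Piece} {b : Box} (E : P.Env b) (C : P.Sign b) (hb₀ : b.s₀ = ⟨0, 1, 1⟩)
    (hb₁ : b.s₁ = ⟨99, 100, 165⟩) (h₀ : noO P.u₀ = true) (h₁ : noO P.u₁ = true)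
    (hc : P.consts.all noO = true) {d S u v t : ℝ} (T : TailPt d S u v t) (md : b.s₂.Mem d)
    (mv : b.s₃.Mem v) (hlo : P.u₁.val 0 S d v < u) (hhi : u ≤ P.u₀.val 0 S d v)
    (hL : ∀ o, P.xU.val o S d v = u → (P.tLn P.xU).val o S d v ≤ t * (P.tLd P.xU).val o S d v)
    (hU : ∀ o, b.s₀.Mem o → P.xU.val o S d v = u →
      t * (P.tUd P.xU).val o S d v ≤ (P.tUn P.xU).val o S d v) : ChartSigns d S u v t := by
  obtain ⟨hS0, hS⟩ := T.S_pos
  obtain ⟨o, mo, hu⟩ := xU_place h₀ h₁ hlo hhi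
  rw [← hb₀] at mo
  exact (chart_place E mo (hb₁ ▸ T.S_mem) md mv T.dpos hS0 hS T.v_pos T.facts hu (hL o hu)
    (hU o mo hu)).signs C hc hb₀ (hb₁ ▸ T.S_mem) md mv T.dpos hS0 hS T.v_pos T.facts T.llg

/-- The same place with other multipliers of the arrow. -/
theorem Place.mults {P : Piece} {o d S u v t : ℝ} (L : Place P o d S u v t)
    (f g h k : Ex → Ex) : Place { P with k2p := f, k2m := g, kapL := h, kapU := k } o d S u v t :=
  { L with }

/-- The closed signs on a piece of the tail cut in `e`. -/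
theorem piece_signs_cut {P : Piece} {b : Box} {cut : Ex} {pU' : Bnd} {f g h k : Ex → Ex}
    (E : P.Env b) (E' : ({ P with pU := pU' } : Piece).Env b) (CA : (P.below cut).Sign b)
    (CB : ({ P.above cut pU' with k2p := f, k2m := g, kapL := h, kapU := k } : Piece).Sign b)
    (hb₀ : b.s₀ = ⟨0, 1, 1⟩) (hb₁ : b.s₁ = ⟨99, 100, 165⟩) (h₀ : noO P.u₀ = true)
    (h₁ : noO P.u₁ = true) (hcA : (P.below cut).consts.all noO = true)
    (hcB : (P.above cut pU').consts.all noO = true) {d S u v t : ℝ} (T : TailPt d S u v t)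
    (md : b.s₂.Mem d) (mv : b.s₃.Mem v) (hlo : P.u₁.val 0 S d v < u)
    (hhi : u ≤ P.u₀.val 0 S d v)
    (hL : ∀ o, P.xU.val o S d v = u → (P.tLn P.xU).val o S d v ≤ t * (P.tLd P.xU).val o S d v)
    (hU : ∀ o, b.s₀.Mem o → P.xU.val o S d v = u →
      t * (P.tUd P.xU).val o S d v ≤ (P.tUn P.xU).val o S d v) : ChartSigns d S u v t := by
  obtain ⟨hS0, hS⟩ := T.S_pos
  obtain ⟨o, mo, hu⟩ := xU_place h₀ h₁ hlo hhi
  rw [← hb₀] at mo
  have mS : b.s₁.Mem S := hb₁ ▸ T.S_mem
  have L := chart_place E mo mS md mv T.dpos hS0 hS T.v_pos T.facts hu (hL o hu) (hU o mo hu)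
  rcases lt_or_ge (chE d S u v t) (cut.val o S d v) with hc | hc
  · exact (L.below hc).signs CA hcA hb₀ mS md mv T.dpos hS0 hS T.v_pos T.facts T.llg
  · have L' := chart_place E' mo mS md mv T.dpos hS0 hS T.v_pos T.facts hu (hL o hu) (hU o mo hu)
    exact ((L.above hc L'.p_high).mults f g h k).signs CB hcB hb₀ mS md mv T.dpos hS0 hS T.v_pos
      T.facts T.llg

/-- An exit curve rises in `u`. -/
theorem exit_mono {f₀ f₁ f₃ c c' e e' : ℝ} (h1 : 0 ≤ f₁) (h3 : 0 ≤ f₃) (hc : 0 < c) (hc' : 0 < c')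
    (he' : 0 ≤ e') (h : e' ≤ e) :
    f₀ - f₁ * (e / (e + c)) - f₃ * (e / (e + c')) ≤
      f₀ - f₁ * (e' / (e' + c)) - f₃ * (e' / (e' + c')) := by
  have key : ∀ {q : ℝ}, 0 < q → e' / (e' + q) ≤ e / (e + q) := fun {q} hq => by
    rw [div_le_div_iff₀ (by linarith) (by linarith)]
    nlinarith
  have := mul_le_mul_of_nonneg_left (key hc) h1
  have := mul_le_mul_of_nonneg_left (key hc') h3
  linarith

/-- An exit curve below a number. -/
theorem exit_lt {V f₀ f₁ f₃ a b e : ℝ} (ha : 0 < a) (hb : 0 < b)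
    (h : 0 < V * (a * b) - (f₀ * (a * b) - e * (f₁ * b + f₃ * a))) :
    f₀ - f₁ * (e / a) - f₃ * (e / b) < V := by
  have e1 : (V - (f₀ - f₁ * (e / a) - f₃ * (e / b))) * (a * b) =
      V * (a * b) - (f₀ * (a * b) - e * (f₁ * b + f₃ * a)) := by
    field_simp
    ring
  rw [← e1] at h
  linarith [pos_of_mul_pos_left h (mul_pos ha hb).le]

theorem low_frac {l₀ l₁ l₂ x a b Q : ℝ} (ha : a ≠ 0) (hb : b ≠ 0) (hQ : Q ≠ 0) :
    (l₀ + l₁ * (x / a) + l₂ * (x / b)) / Q * (Q * (a * b)) =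
      l₀ * (a * b) + x * (l₁ * b + l₂ * a) := by
  field_simp
  ring

theorem up_frac {A B C T v x a b D : ℝ} (ha : a ≠ 0) (hb : b ≠ 0) (hD : D ≠ 0) :
    (A / (D * a) + B + C * (x / b) + T * v) * (D * (a * b)) =
      A * b + D * a * ((B + T * v) * b + C * x) := by
  field_simp
  ring

section
variable {d S u v t o : ℝ} {x V : Ex}

theorem midPhi_lt (h : 0 < (midPhi x V).val o S d v) (hd0 : 0 ≤ d) (hd1 : d ≤ 3 / 25)
    (hx : x.val o S d v ≤ 1) (hu : u ≤ x.val o S d v) : bandsMid.phi d u < V.val o S d v := by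
  simp only [midPhi, ex_sub, ex_add, ex_mul, Ex.val] at h
  push_cast at h
  simp only [div_one] at h
  simp only [bandsMid]
  have hc : (0 : ℝ) < 1800 / 10000 + 8000 / 10000 * d + 15000 / 10000 * (d * d) := by
    nlinarith [mul_self_nonneg d]
  refine (exit_mono (by linarith) (by linarith) hc (by norm_num)
    (show (0 : ℝ) ≤ 1 - x.val o S d v by linarith) (by linarith)).trans_lt
    (exit_lt (by linarith) (by linarith) ?_)
  linarith only [h]

theorem topPhi_lt (h : 0 < (topPhi x V).val o S d v) (hd0 : 0 ≤ d) (hd1 : d ≤ 1 / 5)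
    (hx : x.val o S d v ≤ 1) (hu : u ≤ x.val o S d v) : bandsTop.phi d u < V.val o S d v := by
  simp only [topPhi, ex_sub, ex_add, ex_mul, Ex.val] at h
  push_cast at h
  simp only [div_one] at h
  simp only [bandsTop]
  have hc : (0 : ℝ) < 2360 / 10000 - 2752 / 10000 * d - 20835 / 10000 * (d * d) := by nlinarith
  refine (exit_mono (by linarith) (by linarith) hc (by norm_num)
    (show (0 : ℝ) ≤ 1 - x.val o S d v by linarith) (by linarith)).trans_lt
    (exit_lt (by linarith) (by linarith) ?_)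
  linarith only [h]

theorem mid_low_le (hu : u ≤ 39 / 40) (hd0 : 0 ≤ d) (h : bandsMid.low d u < t)
    (hx : x.val o S d v = u) : (midTn x).val o S d v ≤ t * (midTd x).val o S d v := by
  have ha : (0 : ℝ) < 1 - u + 1200 / 10000 := by linarith
  have hb : (0 : ℝ) < 1 - u + 40 / 10000 := by linarith
  have hQ : (0 : ℝ) < 1 + 66 / 5 * d + 292 / 5 * d ^ 2 := by positivity
  have hpos := mul_pos hQ (mul_pos ha hb)
  have key := mul_le_mul_of_nonneg_right h.le hpos.le
  simp only [midTn, midTd, ex_sub, ex_add, ex_mul, Ex.val, hx]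
  push_cast
  simp only [div_one]
  simp only [bandsMid] at key
  rw [low_frac ha.ne' hb.ne' hQ.ne'] at key
  linarith only [key]

theorem top_low_le (hu : u ≤ 39 / 40) (hd0 : 0 ≤ d) (h : bandsTop.low d u < t)
    (hx : x.val o S d v = u) : (topTn x).val o S d v ≤ t * (topTd x).val o S d v := by
  have ha : (0 : ℝ) < 1 - u + 1655 / 10000 := by linarith
  have hb : (0 : ℝ) < 1 - u + 293 / 10000 := by linarith
  have hQ : (0 : ℝ) < 1 + 66 / 5 * d + 292 / 5 * d ^ 2 := by positivity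
  have hpos := mul_pos hQ (mul_pos ha hb)
  have key := mul_le_mul_of_nonneg_right h.le hpos.le
  simp only [topTn, topTd, ex_sub, ex_add, ex_mul, Ex.val, hx]
  push_cast
  simp only [div_one]
  simp only [bandsTop] at key
  rw [low_frac ha.ne' hb.ne' hQ.ne'] at key
  linarith only [key]

theorem mid_up_le (hu : u ≤ 39 / 40) (hd0 : 0 ≤ d) (h : t < bandsMid.up d u + bandsMid.tilt d * v)
    (hx : x.val o S d v = u) : t * (midUd x).val o S d v ≤ (midUn x).val o S d v := by
  have hb : (0 : ℝ) < 1 - u + 1000 / 10000 := by linarith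
  have hD : (0 : ℝ) < 1 + 74368 / 10000 * d + 64 / 10000 * (d * d) := by positivity
  have ha : (0 : ℝ) < 1 - u + 8381 / 10000 * d := by linarith
  have hpos := mul_pos hD (mul_pos ha hb)
  have key := mul_le_mul_of_nonneg_right h.le hpos.le
  simp only [midUn, midUd, ex_sub, ex_add, ex_mul, Ex.val, hx]
  push_cast
  simp only [div_one]
  simp only [bandsMid] at key
  rw [up_frac ha.ne' hb.ne' hD.ne'] at key
  linarith only [key]

theorem top_up_le (hu : u ≤ 39 / 40) (hd0 : 0 ≤ d) (hd1 : d ≤ 1 / 5)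
    (h : t < bandsTop.up d u + bandsTop.tilt d * v) (hx : x.val o S d v = u) :
    t * (topUd x).val o S d v ≤ (topUn x).val o S d v := by
  have hb : (0 : ℝ) < 1 - u + 1779 / 10000 := by linarith
  have hD : (0 : ℝ) < 1 + 139779 / 10000 * d + -118 / 10000 * (d * d) := by nlinarith
  have ha : (0 : ℝ) < 1 - u + 8235 / 10000 * d := by linarith
  have hpos := mul_pos hD (mul_pos ha hb)
  have key := mul_le_mul_of_nonneg_right h.le hpos.le
  simp only [topUn, topUd, ex_sub, ex_add, ex_mul, Ex.val, hx]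
  push_cast
  simp only [div_one]
  simp only [bandsTop] at key
  rw [up_frac ha.ne' hb.ne' hD.ne'] at key
  linarith only [key]

end

end Vale.Agent.P100.Calib.Closed.High
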