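import Vale.Agent.P100.Calib.SlabHighBotTail
import Vale.Agent.P100.Calib.SlabHighBotGlobal
import Vale.Agent.P100.Calib.SlabHighBotEnv0
import Vale.Agent.P100.Calib.SlabHighBotEnv1
import Vale.Agent.P100.Calib.SlabHighBotEnv2
import Vale.Agent.P100.Calib.SlabHighBotEnv3
import Vale.Agent.P100.Calib.SlabHighBotEnv4
import Vale.Agent.P100.Calib.SlabHighBotEnv5
import Vale.Agent.P100.Calib.SlabHighBotEnv6
import Vale.Agent.P100.Calib.SlabHighBotEnv7
import Vale.Agent.P100.Calib.SlabHighBotEnv8
import Vale.Agent.P100.Calib.SlabHighBotEnv9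
import Vale.Agent.P100.Calib.SlabHighBotEnv10
import Vale.Agent.P100.Calib.SlabHighBotEnv11
import Vale.Agent.P100.Calib.SlabHighBotEnv12
import Vale.Agent.P100.Calib.SlabHighBotEnv13
import Vale.Agent.P100.Calib.SlabHighBotEnv14
import Vale.Agent.P100.Calib.SlabHighBotEnv15
import Vale.Agent.P100.Calib.SlabHighBotSign1
import Vale.Agent.P100.Calib.SlabHighBotSign2
import Vale.Agent.P100.Calib.SlabHighBotSign3A
import Vale.Agent.P100.Calib.SlabHighBotSign3B
import Vale.Agent.P100.Calib.SlabHighBotSign4A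
import Vale.Agent.P100.Calib.SlabHighBotSign4B
import Vale.Agent.P100.Calib.SlabHighBotSign5
import Vale.Agent.P100.Calib.SlabHighBotSign6A
import Vale.Agent.P100.Calib.SlabHighBotSign6B
import Vale.Agent.P100.Calib.SlabHighBotSign7A
import Vale.Agent.P100.Calib.SlabHighBotSign7B
import Vale.Agent.P100.Calib.SlabHighBotSign8
import Vale.Agent.P100.Calib.SlabHighBotSign9
import Vale.Agent.P100.Calib.SlabHighBotSign10A
import Vale.Agent.P100.Calib.SlabHighBotSign10B
import Vale.Agent.P100.Calib.SlabHighBotSign11A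
import Vale.Agent.P100.Calib.SlabHighBotSign11B
import Vale.Agent.P100.Calib.SlabHighBotSign12
import Vale.Agent.P100.Calib.SlabHighBotSign13A
import Vale.Agent.P100.Calib.SlabHighBotSign13B
import Vale.Agent.P100.Calib.SlabHighBotSign14A
import Vale.Agent.P100.Calib.SlabHighBotSign14B
import Vale.Agent.P100.Calib.SlabHighBotSign15

/-!
# The closed signs on the tail at `d ≤ 1/20`, `u ≤ 4/5`
-/

set_option linter.unusedVariables false

namespace Vale.Agent.P100.Calib.Closed.High

open BoxPos Large

/-- A piece of the tail at `d ≤ 1/20`. -/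
theorem bot0_signs {d S u v t : ℝ} (T : BotPt d S u v t)
    (mS : Side.Mem ⟨600, 601, 1000⟩ S) (hd : 0 < d) (h1 : d ≤ 1 / 20) (hF : ChartFacts d S u v t)
    (hd0 : (0 : ℝ) / 10000 ≤ d) (hd9 : d < 501 / 10000) (hv0 : (3500 : ℝ) / 10000 ≤ v) (hv9 : v < 4000 / 10000)
    (hlow : bandsBot.low d u < t) (hup : t < bandsBot.up d u + bandsBot.tilt d * v)
    (hphi : v < bandsBot.phi d u)
    (hu : 3 / 5 < u) (hu8 : u ≤ 4 / 5) : ChartSigns d S u v t := by
  have md : Side.Mem ⟨0, 501, 10000⟩ d := by
    simp only [Side.Mem]; norm_num; constructor <;> linarith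
  have mv : Side.Mem ⟨3500, 4000, 10000⟩ v := by
    simp only [Side.Mem]; norm_num; constructor <;> linarith
  have hlo : bot0.u₁.val 0 S d v < u := by
    norm_num [bot0, Ex.val, ex_sub, ex_add, ex_mul]; linarith
  have hhi : u ≤ bot0.u₀.val 0 S d v := by
    norm_num [bot0, Ex.val, ex_sub, ex_add, ex_mul]; linarith
  exact (bot_none bot0_empty rfl T mS md mv (xU_place (by decide +kernel) (by decide +kernel) hlo hhi)
    (fun o hx => bot_low_le hF.u_lt.le hd.le hlow hx) (fun o hx => bot_up_le hF.u_lt hd.le hup hx)).elim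

/-- A piece of the tail at `d ≤ 1/20`. -/
theorem bot1_signs {d S u v t : ℝ} (T : BotPt d S u v t)
    (mS : Side.Mem ⟨600, 601, 1000⟩ S) (hd : 0 < d) (h1 : d ≤ 1 / 20) (hF : ChartFacts d S u v t)
    (hd0 : (0 : ℝ) / 10000 ≤ d) (hd9 : d < 501 / 10000) (hv0 : (4000 : ℝ) / 10000 ≤ v) (hv9 : v < 9000 / 10000)
    (hlow : bandsBot.low d u < t) (hup : t < bandsBot.up d u + bandsBot.tilt d * v)
    (hphi : v < bandsBot.phi d u)
    (hu : 3 / 5 < u) (hu8 : u ≤ 4 / 5) : ChartSigns d S u v t := by
  have md : Side.Mem ⟨0, 501, 10000⟩ d := by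
    simp only [Side.Mem]; norm_num; constructor <;> linarith
  have mv : Side.Mem ⟨4000, 9000, 10000⟩ v := by
    simp only [Side.Mem]; norm_num; constructor <;> linarith
  have hlo : bot1.u₁.val 0 S d v < u := by
    norm_num [bot1, Ex.val, ex_sub, ex_add, ex_mul]; linarith
  have hhi : u ≤ bot1.u₀.val 0 S d v := by
    norm_num [bot1, Ex.val, ex_sub, ex_add, ex_mul]; linarith
  exact bot_piece bot1_env bot1_sign rfl (by decide +kernel) T mS md mv (xU_place (by decide +kernel) (by decide +kernel) hlo hhi)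
    (fun o hx => bot_low_le hF.u_lt.le hd.le hlow hx) (fun o hx => bot_up_le hF.u_lt hd.le hup hx)

/-- A piece of the tail at `d ≤ 1/20`. -/
theorem bot2_signs {d S u v t : ℝ} (T : BotPt d S u v t)
    (mS : Side.Mem ⟨600, 601, 1000⟩ S) (hd : 0 < d) (h1 : d ≤ 1 / 20) (hF : ChartFacts d S u v t)
    (hd0 : (0 : ℝ) / 10000 ≤ d) (hd9 : d < 501 / 10000) (hv0 : (9000 : ℝ) / 10000 ≤ v) (hv9 : v < 10400 / 10000)
    (hlow : bandsBot.low d u < t) (hup : t < bandsBot.up d u + bandsBot.tilt d * v)
    (hphi : v < bandsBot.phi d u)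
    (hu : 3 / 5 < u) (hu8 : u ≤ 4 / 5) : ChartSigns d S u v t := by
  have md : Side.Mem ⟨0, 501, 10000⟩ d := by
    simp only [Side.Mem]; norm_num; constructor <;> linarith
  have mv : Side.Mem ⟨9000, 10400, 10000⟩ v := by
    simp only [Side.Mem]; norm_num; constructor <;> linarith
  have hlo : bot2.u₁.val 0 S d v < u := by
    norm_num [bot2, Ex.val, ex_sub, ex_add, ex_mul]; linarith
  have hhi : u ≤ bot2.u₀.val 0 S d v := by
    norm_num [bot2, Ex.val, ex_sub, ex_add, ex_mul]; linarith
  exact bot_piece bot2_env bot2_sign rfl (by decide +kernel) T mS md mv (xU_place (by decide +kernel) (by decide +kernel) hlo hhi)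
    (fun o hx => bot_low_le hF.u_lt.le hd.le hlow hx) (fun o hx => bot_up_le hF.u_lt hd.le hup hx)

/-- A piece of the tail at `d ≤ 1/20`. -/
theorem bot3_signs {d S u v t : ℝ} (T : BotPt d S u v t)
    (mS : Side.Mem ⟨600, 601, 1000⟩ S) (hd : 0 < d) (h1 : d ≤ 1 / 20) (hF : ChartFacts d S u v t)
    (hd0 : (0 : ℝ) / 10000 ≤ d) (hd9 : d < 250 / 10000) (hv0 : (10400 : ℝ) / 10000 ≤ v) (hv9 : v < 12500 / 10000)
    (hlow : bandsBot.low d u < t) (hup : t < bandsBot.up d u + bandsBot.tilt d * v)
    (hphi : v < bandsBot.phi d u)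
    (hu : 3 / 5 < u) (hu8 : u ≤ 4 / 5) : ChartSigns d S u v t := by
  have md : Side.Mem ⟨0, 250, 10000⟩ d := by
    simp only [Side.Mem]; norm_num; constructor <;> linarith
  have mv : Side.Mem ⟨10400, 12500, 10000⟩ v := by
    simp only [Side.Mem]; norm_num; constructor <;> linarith
  have hlo : bot3.u₁.val 0 S d v < u := by
    norm_num [bot3, Ex.val, ex_sub, ex_add, ex_mul]; linarith
  have hhi : u ≤ bot3.u₀.val 0 S d v := by
    norm_num [bot3, Ex.val, ex_sub, ex_add, ex_mul]; linarith
  exact bot_cut bot3_env bot3_envU bot3A_sign bot3B_sign rfl (by decide +kernel) (by decide +kernel) T mS md mv (xU_place (by decide +kernel) (by decide +kernel) hlo hhi)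
    (fun o hx => bot_low_le hF.u_lt.le hd.le hlow hx) (fun o hx => bot_up_le hF.u_lt hd.le hup hx)

/-- A piece of the tail at `d ≤ 1/20`. -/
theorem bot4_signs {d S u v t : ℝ} (T : BotPt d S u v t)
    (mS : Side.Mem ⟨600, 601, 1000⟩ S) (hd : 0 < d) (h1 : d ≤ 1 / 20) (hF : ChartFacts d S u v t)
    (hd0 : (0 : ℝ) / 10000 ≤ d) (hd9 : d < 250 / 10000) (hv0 : (12500 : ℝ) / 10000 ≤ v) (hv9 : v < 15000 / 10000)
    (hlow : bandsBot.low d u < t) (hup : t < bandsBot.up d u + bandsBot.tilt d * v)
    (hphi : v < bandsBot.phi d u)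
    (hu : 3 / 5 < u) (hu8 : u ≤ 4 / 5) : ChartSigns d S u v t := by
  have md : Side.Mem ⟨0, 250, 10000⟩ d := by
    simp only [Side.Mem]; norm_num; constructor <;> linarith
  have mv : Side.Mem ⟨12500, 15000, 10000⟩ v := by
    simp only [Side.Mem]; norm_num; constructor <;> linarith
  have hlo : bot4.u₁.val 0 S d v < u := by
    by_contra hne
    have k := botPhi_lt (u := u) (bot4_phi 0 S d v (by norm_num [Side.Mem]) mS md mv) hd.le (by linarith)
      (by norm_num [bot4, Ex.val, ex_sub, ex_add, ex_mul]; linarith) (not_lt.1 hne)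
    simp only [Ex.val] at k
    linarith
  have hhi : u ≤ bot4.u₀.val 0 S d v := by
    norm_num [bot4, Ex.val, ex_sub, ex_add, ex_mul]; linarith
  exact bot_cut bot4_env bot4_envU bot4A_sign bot4B_sign rfl (by decide +kernel) (by decide +kernel) T mS md mv (xU_place (by decide +kernel) (by decide +kernel) hlo hhi)
    (fun o hx => bot_low_le hF.u_lt.le hd.le hlow hx) (fun o hx => bot_up_le hF.u_lt hd.le hup hx)

/-- A piece of the tail at `d ≤ 1/20`. -/
theorem bot5_signs {d S u v t : ℝ} (T : BotPt d S u v t)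
    (mS : Side.Mem ⟨600, 601, 1000⟩ S) (hd : 0 < d) (h1 : d ≤ 1 / 20) (hF : ChartFacts d S u v t)
    (hd0 : (0 : ℝ) / 10000 ≤ d) (hd9 : d < 250 / 10000) (hv0 : (15000 : ℝ) / 10000 ≤ v) (hv9 : v < 16900 / 10000)
    (hlow : bandsBot.low d u < t) (hup : t < bandsBot.up d u + bandsBot.tilt d * v)
    (hphi : v < bandsBot.phi d u)
    (hu : 3 / 5 < u) (hu8 : u ≤ 4 / 5) : ChartSigns d S u v t := by
  have md : Side.Mem ⟨0, 250, 10000⟩ d := by
    simp only [Side.Mem]; norm_num; constructor <;> linarith
  have mv : Side.Mem ⟨15000, 16900, 10000⟩ v := by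
    simp only [Side.Mem]; norm_num; constructor <;> linarith
  have hlo : bot5.u₁.val 0 S d v < u := by
    by_contra hne
    have k := botPhi_lt (u := u) (bot5_phi 0 S d v (by norm_num [Side.Mem]) mS md mv) hd.le (by linarith)
      (by norm_num [bot5, Ex.val, ex_sub, ex_add, ex_mul]; linarith) (not_lt.1 hne)
    simp only [Ex.val] at k
    linarith
  have hhi : u ≤ bot5.u₀.val 0 S d v := by
    norm_num [bot5, Ex.val, ex_sub, ex_add, ex_mul]; linarith
  exact bot_piece bot5_env bot5_sign rfl (by decide +kernel) T mS md mv (xU_place (by decide +kernel) (by decide +kernel) hlo hhi)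
    (fun o hx => bot_low_le hF.u_lt.le hd.le hlow hx) (fun o hx => bot_up_le hF.u_lt hd.le hup hx)

/-- A piece of the tail at `d ≤ 1/20`. -/
theorem bot6_signs {d S u v t : ℝ} (T : BotPt d S u v t)
    (mS : Side.Mem ⟨600, 601, 1000⟩ S) (hd : 0 < d) (h1 : d ≤ 1 / 20) (hF : ChartFacts d S u v t)
    (hd0 : (250 : ℝ) / 10000 ≤ d) (hd9 : d < 400 / 10000) (hv0 : (10400 : ℝ) / 10000 ≤ v) (hv9 : v < 11600 / 10000)
    (hlow : bandsBot.low d u < t) (hup : t < bandsBot.up d u + bandsBot.tilt d * v)
    (hphi : v < bandsBot.phi d u)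
    (hu : 3 / 5 < u) (hu8 : u ≤ 4 / 5) : ChartSigns d S u v t := by
  have md : Side.Mem ⟨250, 400, 10000⟩ d := by
    simp only [Side.Mem]; norm_num; constructor <;> linarith
  have mv : Side.Mem ⟨10400, 11600, 10000⟩ v := by
    simp only [Side.Mem]; norm_num; constructor <;> linarith
  have hlo : bot6.u₁.val 0 S d v < u := by
    norm_num [bot6, Ex.val, ex_sub, ex_add, ex_mul]; linarith
  have hhi : u ≤ bot6.u₀.val 0 S d v := by
    norm_num [bot6, Ex.val, ex_sub, ex_add, ex_mul]; linarith
  exact bot_cut bot6_env bot6_envU bot6A_sign bot6B_sign rfl (by decide +kernel) (by decide +kernel) T mS md mv (xU_place (by decide +kernel) (by decide +kernel) hlo hhi)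
    (fun o hx => bot_low_le hF.u_lt.le hd.le hlow hx) (fun o hx => bot_up_le hF.u_lt hd.le hup hx)

/-- A piece of the tail at `d ≤ 1/20`. -/
theorem bot7_signs {d S u v t : ℝ} (T : BotPt d S u v t)
    (mS : Side.Mem ⟨600, 601, 1000⟩ S) (hd : 0 < d) (h1 : d ≤ 1 / 20) (hF : ChartFacts d S u v t)
    (hd0 : (250 : ℝ) / 10000 ≤ d) (hd9 : d < 400 / 10000) (hv0 : (11600 : ℝ) / 10000 ≤ v) (hv9 : v < 13000 / 10000)
    (hlow : bandsBot.low d u < t) (hup : t < bandsBot.up d u + bandsBot.tilt d * v)
    (hphi : v < bandsBot.phi d u)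
    (hu : 3 / 5 < u) (hu8 : u ≤ 4 / 5) : ChartSigns d S u v t := by
  have md : Side.Mem ⟨250, 400, 10000⟩ d := by
    simp only [Side.Mem]; norm_num; constructor <;> linarith
  have mv : Side.Mem ⟨11600, 13000, 10000⟩ v := by
    simp only [Side.Mem]; norm_num; constructor <;> linarith
  have hlo : bot7.u₁.val 0 S d v < u := by
    by_contra hne
    have k := botPhi_lt (u := u) (bot7_phi 0 S d v (by norm_num [Side.Mem]) mS md mv) hd.le (by linarith)
      (by norm_num [bot7, Ex.val, ex_sub, ex_add, ex_mul]; linarith) (not_lt.1 hne)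
    simp only [Ex.val] at k
    linarith
  have hhi : u ≤ bot7.u₀.val 0 S d v := by
    norm_num [bot7, Ex.val, ex_sub, ex_add, ex_mul]; linarith
  exact bot_cut bot7_env bot7_envU bot7A_sign bot7B_sign rfl (by decide +kernel) (by decide +kernel) T mS md mv (xU_place (by decide +kernel) (by decide +kernel) hlo hhi)
    (fun o hx => bot_low_le hF.u_lt.le hd.le hlow hx) (fun o hx => bot_up_le hF.u_lt hd.le hup hx)

/-- A piece of the tail at `d ≤ 1/20`. -/
theorem bot8_signs {d S u v t : ℝ} (T : BotPt d S u v t)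
    (mS : Side.Mem ⟨600, 601, 1000⟩ S) (hd : 0 < d) (h1 : d ≤ 1 / 20) (hF : ChartFacts d S u v t)
    (hd0 : (250 : ℝ) / 10000 ≤ d) (hd9 : d < 501 / 10000) (hv0 : (13000 : ℝ) / 10000 ≤ v) (hv9 : v < 16000 / 10000)
    (hlow : bandsBot.low d u < t) (hup : t < bandsBot.up d u + bandsBot.tilt d * v)
    (hphi : v < bandsBot.phi d u)
    (hu : 3 / 5 < u) (hu8 : u ≤ 4 / 5) : ChartSigns d S u v t := by
  have md : Side.Mem ⟨250, 501, 10000⟩ d := by
    simp only [Side.Mem]; norm_num; constructor <;> linarith
  have mv : Side.Mem ⟨13000, 16000, 10000⟩ v := by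
    simp only [Side.Mem]; norm_num; constructor <;> linarith
  have hlo : bot8.u₁.val 0 S d v < u := by
    by_contra hne
    have k := botPhi_lt (u := u) (bot8_phi 0 S d v (by norm_num [Side.Mem]) mS md mv) hd.le (by linarith)
      (by norm_num [bot8, Ex.val, ex_sub, ex_add, ex_mul]; linarith) (not_lt.1 hne)
    simp only [Ex.val] at k
    linarith
  have hhi : u ≤ bot8.u₀.val 0 S d v := by
    norm_num [bot8, Ex.val, ex_sub, ex_add, ex_mul]; linarith
  exact bot_piece bot8_env bot8_sign rfl (by decide +kernel) T mS md mv (xU_place (by decide +kernel) (by decide +kernel) hlo hhi)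
    (fun o hx => bot_low_le hF.u_lt.le hd.le hlow hx) (fun o hx => bot_up_le hF.u_lt hd.le hup hx)

/-- A piece of the tail at `d ≤ 1/20`. -/
theorem bot9_signs {d S u v t : ℝ} (T : BotPt d S u v t)
    (mS : Side.Mem ⟨600, 601, 1000⟩ S) (hd : 0 < d) (h1 : d ≤ 1 / 20) (hF : ChartFacts d S u v t)
    (hd0 : (400 : ℝ) / 10000 ≤ d) (hd9 : d < 501 / 10000) (hv0 : (10400 : ℝ) / 10000 ≤ v) (hv9 : v < 10850 / 10000)
    (hlow : bandsBot.low d u < t) (hup : t < bandsBot.up d u + bandsBot.tilt d * v)
    (hphi : v < bandsBot.phi d u)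
    (hu : 3 / 5 < u) (hu8 : u ≤ 127 / 200) : ChartSigns d S u v t := by
  have md : Side.Mem ⟨400, 501, 10000⟩ d := by
    simp only [Side.Mem]; norm_num; constructor <;> linarith
  have mv : Side.Mem ⟨10400, 10850, 10000⟩ v := by
    simp only [Side.Mem]; norm_num; constructor <;> linarith
  have hlo : bot9.u₁.val 0 S d v < u := by
    norm_num [bot9, Ex.val, ex_sub, ex_add, ex_mul]; linarith
  have hhi : u ≤ bot9.u₀.val 0 S d v := by
    norm_num [bot9, Ex.val, ex_sub, ex_add, ex_mul]; linarith
  exact bot_piece bot9_env bot9_sign rfl (by decide +kernel) T mS md mv (xU_place (by decide +kernel) (by decide +kernel) hlo hhi)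
    (fun o hx => bot_low_le hF.u_lt.le hd.le hlow hx) (fun o hx => bot_up_le hF.u_lt hd.le hup hx)

/-- A piece of the tail at `d ≤ 1/20`. -/
theorem bot10_signs {d S u v t : ℝ} (T : BotPt d S u v t)
    (mS : Side.Mem ⟨600, 601, 1000⟩ S) (hd : 0 < d) (h1 : d ≤ 1 / 20) (hF : ChartFacts d S u v t)
    (hd0 : (400 : ℝ) / 10000 ≤ d) (hd9 : d < 501 / 10000) (hv0 : (10850 : ℝ) / 10000 ≤ v) (hv9 : v < 11400 / 10000)
    (hlow : bandsBot.low d u < t) (hup : t < bandsBot.up d u + bandsBot.tilt d * v)
    (hphi : v < bandsBot.phi d u)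
    (hu : 3 / 5 < u) (hu8 : u ≤ 127 / 200) : ChartSigns d S u v t := by
  have md : Side.Mem ⟨400, 501, 10000⟩ d := by
    simp only [Side.Mem]; norm_num; constructor <;> linarith
  have mv : Side.Mem ⟨10850, 11400, 10000⟩ v := by
    simp only [Side.Mem]; norm_num; constructor <;> linarith
  have hlo : bot10.u₁.val 0 S d v < u := by
    norm_num [bot10, Ex.val, ex_sub, ex_add, ex_mul]; linarith
  have hhi : u ≤ bot10.u₀.val 0 S d v := by
    norm_num [bot10, Ex.val, ex_sub, ex_add, ex_mul]; linarith
  exact bot_cut bot10_env bot10_envU bot10A_sign bot10B_sign rfl (by decide +kernel) (by decide +kernel) T mS md mv (xU_place (by decide +kernel) (by decide +kernel) hlo hhi)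
    (fun o hx => bot_low_le hF.u_lt.le hd.le hlow hx) (fun o hx => bot_up_le hF.u_lt hd.le hup hx)

/-- A piece of the tail at `d ≤ 1/20`. -/
theorem bot11_signs {d S u v t : ℝ} (T : BotPt d S u v t)
    (mS : Side.Mem ⟨600, 601, 1000⟩ S) (hd : 0 < d) (h1 : d ≤ 1 / 20) (hF : ChartFacts d S u v t)
    (hd0 : (400 : ℝ) / 10000 ≤ d) (hd9 : d < 501 / 10000) (hv0 : (11400 : ℝ) / 10000 ≤ v) (hv9 : v < 12200 / 10000)
    (hlow : bandsBot.low d u < t) (hup : t < bandsBot.up d u + bandsBot.tilt d * v)
    (hphi : v < bandsBot.phi d u)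
    (hu : 3 / 5 < u) (hu8 : u ≤ 127 / 200) : ChartSigns d S u v t := by
  have md : Side.Mem ⟨400, 501, 10000⟩ d := by
    simp only [Side.Mem]; norm_num; constructor <;> linarith
  have mv : Side.Mem ⟨11400, 12200, 10000⟩ v := by
    simp only [Side.Mem]; norm_num; constructor <;> linarith
  have hlo : bot11.u₁.val 0 S d v < u := by
    by_contra hne
    have k := botPhi_lt (u := u) (bot11_phi 0 S d v (by norm_num [Side.Mem]) mS md mv) hd.le (by linarith)
      (by norm_num [bot11, Ex.val, ex_sub, ex_add, ex_mul]; linarith) (not_lt.1 hne)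
    simp only [Ex.val] at k
    linarith
  have hhi : u ≤ bot11.u₀.val 0 S d v := by
    norm_num [bot11, Ex.val, ex_sub, ex_add, ex_mul]; linarith
  exact bot_cut bot11_env bot11_envU bot11A_sign bot11B_sign rfl (by decide +kernel) (by decide +kernel) T mS md mv (xU_place (by decide +kernel) (by decide +kernel) hlo hhi)
    (fun o hx => bot_low_le hF.u_lt.le hd.le hlow hx) (fun o hx => bot_up_le hF.u_lt hd.le hup hx)

/-- A piece of the tail at `d ≤ 1/20`. -/
theorem bot12_signs {d S u v t : ℝ} (T : BotPt d S u v t)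
    (mS : Side.Mem ⟨600, 601, 1000⟩ S) (hd : 0 < d) (h1 : d ≤ 1 / 20) (hF : ChartFacts d S u v t)
    (hd0 : (400 : ℝ) / 10000 ≤ d) (hd9 : d < 501 / 10000) (hv0 : (10400 : ℝ) / 10000 ≤ v) (hv9 : v < 11400 / 10000)
    (hlow : bandsBot.low d u < t) (hup : t < bandsBot.up d u + bandsBot.tilt d * v)
    (hphi : v < bandsBot.phi d u)
    (hu : 127 / 200 < u) (hu8 : u ≤ 4 / 5) : ChartSigns d S u v t := by
  have md : Side.Mem ⟨400, 501, 10000⟩ d := by
    simp only [Side.Mem]; norm_num; constructor <;> linarith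
  have mv : Side.Mem ⟨10400, 11400, 10000⟩ v := by
    simp only [Side.Mem]; norm_num; constructor <;> linarith
  have hlo : bot12.u₁.val 0 S d v < u := by
    norm_num [bot12, Ex.val, ex_sub, ex_add, ex_mul]; linarith
  have hhi : u ≤ bot12.u₀.val 0 S d v := by
    norm_num [bot12, Ex.val, ex_sub, ex_add, ex_mul]; linarith
  exact bot_piece bot12_env bot12_sign rfl (by decide +kernel) T mS md mv (xU_place (by decide +kernel) (by decide +kernel) hlo hhi)
    (fun o hx => bot_low_le hF.u_lt.le hd.le hlow hx) (fun o hx => bot_up_le hF.u_lt hd.le hup hx)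

/-- A piece of the tail at `d ≤ 1/20`. -/
theorem bot13_signs {d S u v t : ℝ} (T : BotPt d S u v t)
    (mS : Side.Mem ⟨600, 601, 1000⟩ S) (hd : 0 < d) (h1 : d ≤ 1 / 20) (hF : ChartFacts d S u v t)
    (hd0 : (400 : ℝ) / 10000 ≤ d) (hd9 : d < 501 / 10000) (hv0 : (11400 : ℝ) / 10000 ≤ v) (hv9 : v < 11800 / 10000)
    (hlow : bandsBot.low d u < t) (hup : t < bandsBot.up d u + bandsBot.tilt d * v)
    (hphi : v < bandsBot.phi d u)
    (hu : 127 / 200 < u) (hu8 : u ≤ 4 / 5) : ChartSigns d S u v t := by
  have md : Side.Mem ⟨400, 501, 10000⟩ d := by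
    simp only [Side.Mem]; norm_num; constructor <;> linarith
  have mv : Side.Mem ⟨11400, 11800, 10000⟩ v := by
    simp only [Side.Mem]; norm_num; constructor <;> linarith
  have hlo : bot13.u₁.val 0 S d v < u := by
    norm_num [bot13, Ex.val, ex_sub, ex_add, ex_mul]; linarith
  have hhi : u ≤ bot13.u₀.val 0 S d v := by
    norm_num [bot13, Ex.val, ex_sub, ex_add, ex_mul]; linarith
  exact bot_cut bot13_env bot13_envU bot13A_sign bot13B_sign rfl (by decide +kernel) (by decide +kernel) T mS md mv (xU_place (by decide +kernel) (by decide +kernel) hlo hhi)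
    (fun o hx => bot_low_le hF.u_lt.le hd.le hlow hx) (fun o hx => bot_up_le hF.u_lt hd.le hup hx)

/-- A piece of the tail at `d ≤ 1/20`. -/
theorem bot14_signs {d S u v t : ℝ} (T : BotPt d S u v t)
    (mS : Side.Mem ⟨600, 601, 1000⟩ S) (hd : 0 < d) (h1 : d ≤ 1 / 20) (hF : ChartFacts d S u v t)
    (hd0 : (400 : ℝ) / 10000 ≤ d) (hd9 : d < 501 / 10000) (hv0 : (11800 : ℝ) / 10000 ≤ v) (hv9 : v < 12200 / 10000)
    (hlow : bandsBot.low d u < t) (hup : t < bandsBot.up d u + bandsBot.tilt d * v)
    (hphi : v < bandsBot.phi d u)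
    (hu : 127 / 200 < u) (hu8 : u ≤ 4 / 5) : ChartSigns d S u v t := by
  have md : Side.Mem ⟨400, 501, 10000⟩ d := by
    simp only [Side.Mem]; norm_num; constructor <;> linarith
  have mv : Side.Mem ⟨11800, 12200, 10000⟩ v := by
    simp only [Side.Mem]; norm_num; constructor <;> linarith
  have hlo : bot14.u₁.val 0 S d v < u := by
    by_contra hne
    have k := botPhi_lt (u := u) (bot14_phi 0 S d v (by norm_num [Side.Mem]) mS md mv) hd.le (by linarith)
      (by norm_num [bot14, Ex.val, ex_sub, ex_add, ex_mul]; linarith) (not_lt.1 hne)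
    simp only [Ex.val] at k
    linarith
  have hhi : u ≤ bot14.u₀.val 0 S d v := by
    norm_num [bot14, Ex.val, ex_sub, ex_add, ex_mul]; linarith
  exact bot_cut bot14_env bot14_envU bot14A_sign bot14B_sign rfl (by decide +kernel) (by decide +kernel) T mS md mv (xU_place (by decide +kernel) (by decide +kernel) hlo hhi)
    (fun o hx => bot_low_le hF.u_lt.le hd.le hlow hx) (fun o hx => bot_up_le hF.u_lt hd.le hup hx)

/-- A piece of the tail at `d ≤ 1/20`. -/
theorem bot15_signs {d S u v t : ℝ} (T : BotPt d S u v t)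
    (mS : Side.Mem ⟨600, 601, 1000⟩ S) (hd : 0 < d) (h1 : d ≤ 1 / 20) (hF : ChartFacts d S u v t)
    (hd0 : (400 : ℝ) / 10000 ≤ d) (hd9 : d < 501 / 10000) (hv0 : (12200 : ℝ) / 10000 ≤ v) (hv9 : v < 13000 / 10000)
    (hlow : bandsBot.low d u < t) (hup : t < bandsBot.up d u + bandsBot.tilt d * v)
    (hphi : v < bandsBot.phi d u)
    (hu : 3 / 5 < u) (hu8 : u ≤ 4 / 5) : ChartSigns d S u v t := by
  have md : Side.Mem ⟨400, 501, 10000⟩ d := by
    simp only [Side.Mem]; norm_num; constructor <;> linarith
  have mv : Side.Mem ⟨12200, 13000, 10000⟩ v := by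
    simp only [Side.Mem]; norm_num; constructor <;> linarith
  have hlo : bot15.u₁.val 0 S d v < u := by
    by_contra hne
    have k := botPhi_lt (u := u) (bot15_phi 0 S d v (by norm_num [Side.Mem]) mS md mv) hd.le (by linarith)
      (by norm_num [bot15, Ex.val, ex_sub, ex_add, ex_mul]; linarith) (not_lt.1 hne)
    simp only [Ex.val] at k
    linarith
  have hhi : u ≤ bot15.u₀.val 0 S d v := by
    norm_num [bot15, Ex.val, ex_sub, ex_add, ex_mul]; linarith
  exact bot_piece bot15_env bot15_sign rfl (by decide +kernel) T mS md mv (xU_place (by decide +kernel) (by decide +kernel) hlo hhi)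
    (fun o hx => bot_low_le hF.u_lt.le hd.le hlow hx) (fun o hx => bot_up_le hF.u_lt hd.le hup hx)

/-- Up to `u = 4/5`. -/
theorem bot_signs_below {d S u v t : ℝ} (T : BotPt d S u v t) (mS : Side.Mem ⟨600, 601, 1000⟩ S) (hd : 0 < d)
    (h1 : d ≤ 1 / 20) (hu : 3 / 5 < u) (hF : ChartFacts d S u v t) (hv : 7 / 20 ≤ v)
    (hphi : v < bandsBot.phi d u) (hlow : bandsBot.low d u < t)
    (hup : t < bandsBot.up d u + bandsBot.tilt d * v)
    (hu8 : u ≤ 4 / 5) : ChartSigns d S u v t := by
  have hv8A : d < 250 / 10000 → v < 169 / 100 := fun he => by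
    have md : Side.Mem ⟨0, 250, 10000⟩ d := by simp only [Side.Mem]; norm_num; constructor <;> linarith
    have k := botPhi_lt (u := u) (botPhi_A 0 S d (7 / 20) (by norm_num [Side.Mem]) mS md
      (by norm_num [Side.Mem])) hd.le h1 (by norm_num [Ex.val]) (by norm_num [Ex.val]; linarith)
    norm_num [Ex.val] at k
    linarith
  have hv8B : 250 / 10000 ≤ d → v < 8 / 5 := fun he => by
    have md : Side.Mem ⟨250, 501, 10000⟩ d := by simp only [Side.Mem]; norm_num; constructor <;> linarith
    have k := botPhi_lt (u := u) (botPhi_B 0 S d (7 / 20) (by norm_num [Side.Mem]) mS md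
      (by norm_num [Side.Mem])) hd.le h1 (by norm_num [Ex.val]) (by norm_num [Ex.val]; linarith)
    norm_num [Ex.val] at k
    linarith
  rcases lt_or_ge v (4000 / 10000 : ℝ) with hc1 | hc1
  · exact bot0_signs T mS hd h1 hF (by linarith) (by linarith) (by linarith) (by linarith)
      hlow hup hphi (by linarith) (by linarith)
  · rcases lt_or_ge v (9000 / 10000 : ℝ) with hc2 | hc2
    · exact bot1_signs T mS hd h1 hF (by linarith) (by linarith) (by linarith) (by linarith)
        hlow hup hphi (by linarith) (by linarith)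
    · rcases lt_or_ge v (10400 / 10000 : ℝ) with hc3 | hc3
      · exact bot2_signs T mS hd h1 hF (by linarith) (by linarith) (by linarith) (by linarith)
          hlow hup hphi (by linarith) (by linarith)
      · rcases lt_or_ge d (250 / 10000 : ℝ) with he4 | he4
        · have hvA : v < 169 / 100 := hv8A (by linarith)
          rcases lt_or_ge v (12500 / 10000 : ℝ) with hc5 | hc5
          · exact bot3_signs T mS hd h1 hF (by linarith) (by linarith) (by linarith) (by linarith)
              hlow hup hphi (by linarith) (by linarith)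
          · rcases lt_or_ge v (15000 / 10000 : ℝ) with hc6 | hc6
            · exact bot4_signs T mS hd h1 hF (by linarith) (by linarith) (by linarith) (by linarith)
                hlow hup hphi (by linarith) (by linarith)
            · exact bot5_signs T mS hd h1 hF (by linarith) (by linarith) (by linarith) (by linarith)
                hlow hup hphi (by linarith) (by linarith)
        · have hvB : v < 8 / 5 := hv8B (by linarith)
          rcases lt_or_ge v (13000 / 10000 : ℝ) with hc7 | hc7
          · rcases lt_or_ge d (400 / 10000 : ℝ) with he8 | he8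
            · rcases lt_or_ge v (11600 / 10000 : ℝ) with hc9 | hc9
              · exact bot6_signs T mS hd h1 hF (by linarith) (by linarith) (by linarith) (by linarith)
                  hlow hup hphi (by linarith) (by linarith)
              · exact bot7_signs T mS hd h1 hF (by linarith) (by linarith) (by linarith) (by linarith)
                  hlow hup hphi (by linarith) (by linarith)
            · rcases lt_or_ge v (12200 / 10000 : ℝ) with hc10 | hc10
              · rcases le_or_gt u (127 / 200 : ℝ) with hg11 | hg11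
                · rcases lt_or_ge v (10850 / 10000 : ℝ) with hc12 | hc12
                  · exact bot9_signs T mS hd h1 hF (by linarith) (by linarith) (by linarith) (by linarith)
                      hlow hup hphi (by linarith) (by linarith)
                  · rcases lt_or_ge v (11400 / 10000 : ℝ) with hc13 | hc13
                    · exact bot10_signs T mS hd h1 hF (by linarith) (by linarith) (by linarith) (by linarith)
                        hlow hup hphi (by linarith) (by linarith)
                    · exact bot11_signs T mS hd h1 hF (by linarith) (by linarith) (by linarith) (by linarith)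
                        hlow hup hphi (by linarith) (by linarith)
                · rcases lt_or_ge v (11400 / 10000 : ℝ) with hc14 | hc14
                  · exact bot12_signs T mS hd h1 hF (by linarith) (by linarith) (by linarith) (by linarith)
                      hlow hup hphi (by linarith) (by linarith)
                  · rcases lt_or_ge v (11800 / 10000 : ℝ) with hc15 | hc15
                    · exact bot13_signs T mS hd h1 hF (by linarith) (by linarith) (by linarith) (by linarith)
                        hlow hup hphi (by linarith) (by linarith)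
                    · exact bot14_signs T mS hd h1 hF (by linarith) (by linarith) (by linarith) (by linarith)
                        hlow hup hphi (by linarith) (by linarith)
              · exact bot15_signs T mS hd h1 hF (by linarith) (by linarith) (by linarith) (by linarith)
                  hlow hup hphi (by linarith) (by linarith)
          · exact bot8_signs T mS hd h1 hF (by linarith) (by linarith) (by linarith) (by linarith)
              hlow hup hphi (by linarith) (by linarith)

end Vale.Agent.P100.Calib.Closed.High
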