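import Vale.Agent.P100.Calib.SlabBandExpr
import Vale.Agent.P100.Calib.SlabLadderAlg

/-!
# The ladder numerators as expressions in `(u, v, d, S)`
-/

namespace Vale.Agent.P100.Calib.Band

open BoxPos

local instance : Add Ex := ⟨Ex.add⟩
local instance : Sub Ex := ⟨Ex.sub⟩
local instance : Mul Ex := ⟨Ex.mul⟩

/-- `be`. -/
def eBe : Ex := eC 1 2 * (eS + eD)

/-- `exitG`, in `(u, v, d, S)`; `v` does not occur. -/
def eExitG (a b k c c₁ c₂ c₃ : Ex) : Ex :=
  let G := c - eU
  let Vn := (a + b * eU) * G + k * (eU * eU)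
  let dN := b * (G * G) + k * (eC 2 * c * eU - eU * eU)
  let B := eB
  let K := eS * (G + (eC 1 - eA) * Vn) + B * (c₁ + c₂ * eU + c₃ * (eU * eU)) * eU * G
  let be := eBe
  let Qn := (eS + eD) * (eC 2 * G + eD * Vn) - eC 2 * eS * eU * (G + eD * Vn)
  let D := B * (eC 2 * G + eD * Vn) - eD * eU * K
  (G + eD * Vn) * (Qn * K - eC 2 * eS * (G - eA * Vn) * D) * G -
    dN * ((B * G - eU * eD * K) * Qn + eC 2 * eS * (eU - eC 1) * be * D * G)

/-- `slopeG`. -/
def eSlope (a b k c : Ex) : Ex :=
  let G := c - eU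
  let Vn := (a + b * eU) * G + k * (eU * eU)
  (G + eD * Vn) * (eC 2 * G + eD * Vn) -
    eD * eU * (b * (G * G) + k * (eC 2 * c * eU - eU * eU))

theorem val_add' (a b : Ex) (u v d S : ℝ) :
    (a + b).val u v d S = a.val u v d S + b.val u v d S := rfl

theorem val_sub' (a b : Ex) (u v d S : ℝ) :
    (a - b).val u v d S = a.val u v d S - b.val u v d S := rfl

theorem val_mul' (a b : Ex) (u v d S : ℝ) :
    (a * b).val u v d S = a.val u v d S * b.val u v d S := rfl

theorem val_exitG (a b k c c₁ c₂ c₃ : Ex) (u v d S : ℝ) :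
    (eExitG a b k c c₁ c₂ c₃).val u v d S =
      exitG S d u (a.val u v d S) (b.val u v d S) (k.val u v d S) (c.val u v d S)
        (c₁.val u v d S) (c₂.val u v d S) (c₃.val u v d S) := by
  have hB : eB.val u v d S = bandB S d := by
    simp only [eB, val_add, val_sub, val_mul, Ex.val, bandB]
    push_cast
    ring
  have hA : eA.val u v d S = (S - d) / 2 := by
    simp only [eA, val_sub, val_mul, Ex.val]
    push_cast
    ring
  have hbe : eBe.val u v d S = (S + d) / 2 := by
    simp only [eBe, val_add', val_mul', Ex.val]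
    push_cast
    ring
  simp only [eExitG, val_add', val_sub', val_mul', Ex.val, hB, hA, hbe, exitG, Int.cast_one,
    Int.cast_ofNat, Nat.cast_one, div_one, ← pow_two]

theorem val_slope (a b k c : Ex) (u v d S : ℝ) :
    (eSlope a b k c).val u v d S =
      slopeG d u (a.val u v d S) (b.val u v d S) (k.val u v d S) (c.val u v d S) := by
  simp only [eSlope, val_add', val_sub', val_mul', Ex.val, slopeG]
  push_cast
  ring

end Vale.Agent.P100.Calib.Band
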