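import Vale.Agent.P100.Calib.BoxPosTree
import Vale.Agent.P100.Calib.SlabSignExpr
import Vale.Agent.P100.Calib.SlabSignCoef

/-!
# The certificate of the closed signs on `3/25 ≤ d`, `0 < u ≤ 3/5`

A piece is an interval of `v` with affine bounds, in `(S, d, v, e, p)`, of `e = g E`, `p = g W`,
`g K` and `g W1`, and with the two multipliers of the split of the arrow. The variables of the
expressions are `(o, S, d, v)`; `o` places `e` between its bounds, or `u` between its bounds.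
-/

set_option linter.unusedVariables false

namespace Vale.Agent.P100.Calib.Closed.Large

open BoxPos

local instance largeExprAdd : Add Ex := ⟨Ex.add⟩
local instance largeExprSub : Sub Ex := ⟨Ex.sub⟩
local instance largeExprMul : Mul Ex := ⟨Ex.mul⟩

/-- Coefficients of a bound in `(d, v, S)`. -/
structure CE where
  (c₀ cd cv cvv cdv cS : ℤ)

/-- Coefficients of a bound in `(d, v, S)` and affine in `e`. -/
structure CQ where
  (c₀ cd cv ce cdv cde cve cvv cdd cS : ℤ)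

/-- Coefficients of a bound in `(d, v)` and affine in `e` and in `p`. -/
structure CW where
  (c₀ cd cv ce cdv cde cve cvv cp cpd cpv : ℤ)

/-- A piece: all coefficients are in units of `1/10000`. -/
structure Piece where
  (lo hi : ℤ)
  (u₀ ud uv uvv mu : ℤ)
  (eL eH : CE)
  (pU kU kL k1 k2p k2m : CQ)
  (wU wL : CW)

/-- A constant in units of `1/10000`. -/
def k₄ (n : ℤ) : Ex := cC n 10000

/-- `o`. -/
abbrev xO : Ex := .x₀
/-- `S`. -/
abbrev xS : Ex := .x₁
/-- `d`. -/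
abbrev xD : Ex := .x₂
/-- `v`. -/
abbrev xV : Ex := .x₃

/-- The bound. -/
def CE.ex (c : CE) : Ex :=
  k₄ c.c₀ + k₄ c.cd * xD + k₄ c.cv * xV + k₄ c.cvv * (xV * xV) + k₄ c.cdv * (xD * xV) +
    k₄ c.cS * xS

/-- The part free of `e`. -/
def CQ.free (c : CQ) : Ex :=
  k₄ c.c₀ + k₄ c.cd * xD + k₄ c.cv * xV + k₄ c.cdv * (xD * xV) + k₄ c.cvv * (xV * xV) +
    k₄ c.cdd * (xD * xD) + k₄ c.cS * xS

/-- The coefficient of `e`. -/
def CQ.slope (c : CQ) : Ex := k₄ c.ce + k₄ c.cde * xD + k₄ c.cve * xV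

/-- The bound at `e`. -/
def CQ.ex (c : CQ) (e : Ex) : Ex := c.free + c.slope * e

/-- The part free of `e` and `p`. -/
def CW.free (c : CW) : Ex :=
  k₄ c.c₀ + k₄ c.cd * xD + k₄ c.cv * xV + k₄ c.cdv * (xD * xV) + k₄ c.cvv * (xV * xV)

/-- The coefficient of `e`. -/
def CW.slope (c : CW) : Ex := k₄ c.ce + k₄ c.cde * xD + k₄ c.cve * xV

/-- The coefficient of `p`. -/
def CW.slopeP (c : CW) : Ex := k₄ c.cp + k₄ c.cpd * xD + k₄ c.cpv * xV

/-- The bound at `(e, p)`. -/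
def CW.ex (c : CW) (e p : Ex) : Ex := c.free + c.slope * e + c.slopeP * p

/-- `al`. -/
def xA : Ex := cC 1 2 * (xS - xD)

/-- `be`. -/
def xB : Ex := cC 1 2 * (xS + xD)

/-- A lower bound of `4 (1 - a v)/b`. -/
def xP0 : Ex :=
  k₄ (215675) +
    k₄ (-149478) * xD +
    k₄ (-36651) * xV +
    k₄ (83517) * (xD * xV) +
    k₄ (37120) * (xD * xD) +
    k₄ (-145685) * xS

/-- The excess of `4 (1 - a v)` over `b` times the bound. -/
def xP0Gap : Ex := cC 4 * (cC 1 - xA * xV) - xB * xP0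

/-- `e` between its bounds. -/
def Piece.xE (P : Piece) : Ex := P.eL.ex + xO * (P.eH.ex - P.eL.ex)

/-- The lower bound of `u`. -/
def Piece.xU₀ (P : Piece) : Ex :=
  k₄ P.u₀ + k₄ P.ud * xD + k₄ P.uv * xV + k₄ P.uvv * (xV * xV)

/-- `u` between its bounds. -/
def Piece.xU (P : Piece) : Ex := P.xU₀ + xO * (k₄ 6005 - P.xU₀)

/-- The room above the lower bound of `u`. -/
def Piece.xRoom (P : Piece) : Ex := k₄ 6005 - P.xU₀

/-- `v` exceeds the bound of the band at the lower bound of `u`. -/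
def Piece.xPhi (P : Piece) : Ex :=
  let u := P.xU₀
  let G := cC 483 500 - u
  xV * G - ((cC 67 100 - cC 29 100 * xD + (cC 18 25 - cC 3 25 * xD) * u) * G +
    (cC 13 50 + cC 3 100 * xD) * (u * u))

/-- The lower end of `t`. -/
def xTL (u : Ex) : Ex :=
  cC 4 5 - cC 31 25 * xD + (cC 42 25 - cC 29 5 * xD) * u + (cC 1 4 - cC 9 2 * xD) * (u * u)

/-- The upper end of `t`. -/
def xTU (u : Ex) : Ex :=
  cC 141 100 - cC 16 5 * xD + (cC 1 2 - cC 63 20 * xD) * u + (cC 27 10 - cC 31 4 * xD) * (u * u)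

/-- `b (2 - S)`. -/
def xBB : Ex := xB * (cC 2 - xS)

/-- `b (2 - S)` times `h/d`. -/
def xH (u t : Ex) : Ex := xS * (cC 1 + (cC 1 - xA) * xV) + xBB * u * t

/-- `b (2 - S)` times `2 + d v - h u`. -/
def xY (u t : Ex) : Ex := (cC 2 + xD * xV) * xBB - xD * u * xH u t

/-- The numerator of `g`. -/
def xGn (u : Ex) : Ex :=
  cC 4 * ((cC 2 + xD * xV) * xB - xS * u * (cC 1 + xD * xV))

/-- The common denominator. -/
def xDn (u t : Ex) : Ex := (cC 1 - xS) * xS * xS * xB * xB * xY u t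

/-- The numerator of `p`. -/
def xPn (u t : Ex) : Ex := xGn u * xH u t * (cC 1 - xS) * xS * xB

/-- The numerator of `e`. -/
def xEn (u t : Ex) : Ex :=
  cC (-1) * xGn u * ((cC 10 + xV * (cC 1 20 + xD)) * xBB +
    (cC 1 20 - cC 9 * xD) * u * xH u t) * xS * xS * xB

/-- The numerator of `g K`. -/
def xKn (u t : Ex) : Ex :=
  (cC 1 20 - cC 9 * xD) * xGn u * (xBB - xD * u * xH u t) * xS * xS * xB

/-- The numerator of `g W1`. -/
def xWn (u t : Ex) : Ex :=
  xGn u * (cC 1 - xS) * (xH u t * (xA - (cC 1 - xA) * xD * xV) * xS -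
    xB * xB * (cC 2 - xS) * (cC 2 - xS) * t)

/-- The excess of a bound in `e`, times the denominator. -/
def CQ.num (c : CQ) (u t : Ex) : Ex := xDn u t * c.free + c.slope * xEn u t

/-- The excess of a bound in `(e, p)`, times the denominator. -/
def CW.num (c : CW) (u t : Ex) : Ex :=
  xDn u t * c.free + c.slope * xEn u t + c.slopeP * xPn u t

/-- `e` above its lower bound. -/
def Piece.hEL (P : Piece) (t : Ex → Ex) : Ex :=
  xEn P.xU (t P.xU) - xDn P.xU (t P.xU) * P.eL.ex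

/-- `e` below its upper bound, with the multiplier of `p` above its lower bound. -/
def Piece.hEH (P : Piece) (t : Ex → Ex) : Ex :=
  xDn P.xU (t P.xU) * P.eH.ex - xEn P.xU (t P.xU) -
    k₄ P.mu * (xPn P.xU (t P.xU) - xDn P.xU (t P.xU) * xP0)

/-- `p` below its bound. -/
def Piece.hPU (P : Piece) (t : Ex → Ex) : Ex := P.pU.num P.xU (t P.xU) - xPn P.xU (t P.xU)

/-- `g K` below its bound. -/
def Piece.hKU (P : Piece) (t : Ex → Ex) : Ex := P.kU.num P.xU (t P.xU) - xKn P.xU (t P.xU)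

/-- `g K` above its bound. -/
def Piece.hKL (P : Piece) (t : Ex → Ex) : Ex := xKn P.xU (t P.xU) - P.kL.num P.xU (t P.xU)

/-- `g W1` below its bound. -/
def Piece.hWU (P : Piece) (t : Ex → Ex) : Ex := P.wU.num P.xU (t P.xU) - xWn P.xU (t P.xU)

/-- `g W1` above its bound. -/
def Piece.hWL (P : Piece) (t : Ex → Ex) : Ex := xWn P.xU (t P.xU) - P.wL.num P.xU (t P.xU)

/-- The upper end of `p`. -/
def Piece.xPU (P : Piece) : Ex := P.pU.ex P.xE

/-- `TGG` at `p`. -/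
def Piece.hG (P : Piece) (p : Ex) : Ex := eTGG xA xD xV p

/-- `g TME` at the low ends. -/
def Piece.hM (P : Piece) (p : Ex) : Ex :=
  eTME xA xD xV p P.xE (P.kL.ex P.xE) (P.wL.ex P.xE p)

/-- `- g TME` at the high ends. -/
def Piece.hM₀ (P : Piece) (p : Ex) : Ex :=
  cC (-1) * eTME xA xD xV p P.xE (P.kU.ex P.xE) (P.wU.ex P.xE p)

/-- The condition between `TMM` and `TME`. -/
def Piece.hC1 (P : Piece) (p : Ex) : Ex :=
  cC (-1) * P.k1.ex P.xE * (cC 1 - cC 2 * xA - xD) * p * P.xE + cC 4 * P.hM p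

/-- The condition between `TGG` and `TEG`, `TEG` positive. -/
def Piece.hC2p (P : Piece) (p : Ex) : Ex :=
  cC 4 * P.k2p.ex P.xE * eTGG xA xD xV p -
    cC 625 * xD * xD * xV * xV * (cC 1 + xD * xV) * eTEG xA xD xV p P.xE

/-- The condition between `TGG` and `TEG`, `TEG` negative. -/
def Piece.hC2m (P : Piece) (p : Ex) : Ex :=
  cC 4 * P.k2m.ex P.xE * eTGG xA xD xV p +
    cC 625 * xD * xD * xV * xV * (cC 1 + xD * xV) * eTEG xA xD xV p P.xE

/-- The split of the arrow, `TEG` positive. -/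
def Piece.hC3p (P : Piece) (p : Ex) : Ex :=
  eTA xA xD xV p P.xE (P.kU.ex P.xE) (P.wU.ex P.xE p) + P.k1.ex P.xE * P.hM p -
    P.k2p.ex P.xE * eTEG xA xD xV p P.xE

/-- The split of the arrow, `TEG` negative. -/
def Piece.hC3m (P : Piece) (p : Ex) : Ex :=
  eTA xA xD xV p P.xE (P.kU.ex P.xE) (P.wU.ex P.xE p) + P.k1.ex P.xE * P.hM p +
    P.k2m.ex P.xE * eTEG xA xD xV p P.xE

/-- `TMG` at its worst ends. -/
def Piece.hTMG (P : Piece) (p : Ex) : Ex :=
  eTMG xA xD xV p P.xE (P.kU.ex P.xE) (P.wL.ex P.xE p)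

/-- Concavity in `p` of `hC2p`. -/
def Piece.hV2p (P : Piece) : Ex :=
  cC 625 * xD * xD * xV * xV * (cC 1 + xD * xV) * eTEG2 xA xD xV -
    cC 4 * P.k2p.ex P.xE * eTGG2 xA xD xV

/-- Concavity in `p` of `hC2m`. -/
def Piece.hV2m (P : Piece) : Ex :=
  cC (-1) * (cC 4 * P.k2m.ex P.xE * eTGG2 xA xD xV +
    cC 625 * xD * xD * xV * xV * (cC 1 + xD * xV) * eTEG2 xA xD xV)

/-- Concavity in `p` of `hC3p`. -/
def Piece.hV3p (P : Piece) : Ex :=
  P.k2p.ex P.xE * eTEG2 xA xD xV - eTA2 xA xD xV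

/-- Concavity in `p` of `hC3m`. -/
def Piece.hV3m (P : Piece) : Ex :=
  cC (-1) * (eTA2 xA xD xV + P.k2m.ex P.xE * eTEG2 xA xD xV)

/-- Concavity in `p` of `TGG`. -/
def hVG : Ex := cC (-1) * eTGG2 xA xD xV
/-- Concavity in `p` of `TMG`. -/
def hVMG : Ex := cC (-1) * eTMG2 xA xD xV
/-- `TA` falls in `k`. -/
def hAk : Ex := cC (-1) * eTAk xA xD xV
/-- `TA` falls in `w`. -/
def hAw : Ex := cC (-1) * eTAw xA xD xV
/-- `TMG` falls in `k`. -/
def hGk : Ex := cC (-1) * eTMGk xA xD xV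
/-- `TMG` rises in `w`. -/
def hGw : Ex := eTMGw xA xD xV
/-- `g TME` rises in `k`. -/
def hMk : Ex := eTMEk xA xD xV
/-- `g TME` rises in `w`. -/
def hMw : Ex := eTMEw xA xD xV

/-- The bound of `u h/d`; here `o` is `u`. -/
def hQ : Ex := cC 5 2 * xBB - xO * xH xO (xTU xO)

/-- `LLG` at `(u h/d, R)`. -/
def hLLG (q r : Ex) : Ex :=
  let e := cC (-1) * (cC 10 + xV * (cC 1 20 + xD) + q * (cC 1 20 - cC 9 * xD))
  let k := (cC 1 20 - cC 9 * xD) * (cC 1 - xD * q)
  eLLG xA xD xV q r e k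

end Vale.Agent.P100.Calib.Closed.Large
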