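import Vale.Agent.P100.Calib.SlabLargeReal
import Vale.Agent.P100.Calib.SlabSignAlgebra

/-!
# The closed signs on a checked piece
-/

set_option linter.unusedVariables false
set_option linter.unusedSimpArgs false

namespace Vale.Agent.P100.Calib.Closed.Large

open BoxPos

/-- The box of a piece. -/
def Piece.box (P : Piece) : Box :=
  ⟨⟨0, 1001, 1000⟩, ⟨600, 606, 1000⟩, ⟨120, 201, 1000⟩, ⟨P.lo, P.hi, 1000⟩⟩

/-- The box of the statements free of the piece. -/
def wholeBox : Box :=
  ⟨⟨0, 1001, 1000⟩, ⟨600, 606, 1000⟩, ⟨120, 201, 1000⟩, ⟨350, 1322, 1000⟩⟩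

/-- All checks of a piece. -/
structure Piece.Checked (P : Piece) : Prop where
  mu_nonneg : 0 ≤ P.mu
  lo_ge : 350 ≤ P.lo
  hi_le : P.hi ≤ 1322
  room : PosBox P.box P.xRoom
  phi : PosBox P.box P.xPhi ∨ (P.u₀ = 0 ∧ P.ud = 0 ∧ P.uv = 0 ∧ P.uvv = 0)
  eLL : PosBox P.box (P.hEL xTL)
  eLU : PosBox P.box (P.hEL xTU)
  eHL : PosBox P.box (P.hEH xTL)
  eHU : PosBox P.box (P.hEH xTU)
  pUL : PosBox P.box (P.hPU xTL)
  pUU : PosBox P.box (P.hPU xTU)
  kUL : PosBox P.box (P.hKU xTL)
  kUU : PosBox P.box (P.hKU xTU)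
  kLL : PosBox P.box (P.hKL xTL)
  kLU : PosBox P.box (P.hKL xTU)
  wUL : PosBox P.box (P.hWU xTL)
  wUU : PosBox P.box (P.hWU xTU)
  wLL : PosBox P.box (P.hWL xTL)
  wLU : PosBox P.box (P.hWL xTU)
  gLo : PosBox P.box (P.hG xP0)
  gHi : PosBox P.box (P.hG P.xPU)
  mLo : PosBox P.box (P.hM₀ xP0)
  mHi : PosBox P.box (P.hM₀ P.xPU)
  c1Lo : PosBox P.box (P.hC1 xP0)
  c1Hi : PosBox P.box (P.hC1 P.xPU)
  c2pLo : PosBox P.box (P.hC2p xP0)
  c2pHi : PosBox P.box (P.hC2p P.xPU)
  c2mLo : PosBox P.box (P.hC2m xP0)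
  c2mHi : PosBox P.box (P.hC2m P.xPU)
  c3pLo : PosBox P.box (P.hC3p xP0)
  c3pHi : PosBox P.box (P.hC3p P.xPU)
  c3mLo : PosBox P.box (P.hC3m xP0)
  c3mHi : PosBox P.box (P.hC3m P.xPU)
  tmgLo : PosBox P.box (P.hTMG xP0)
  tmgHi : PosBox P.box (P.hTMG P.xPU)
  v2p : PosBox P.box P.hV2p
  v2m : PosBox P.box P.hV2m
  v3p : PosBox P.box P.hV3p
  v3m : PosBox P.box P.hV3m

/-- The checks free of the piece. -/
structure Common : Prop where
  p0 : PosBox wholeBox xP0Gap
  vG : PosBox wholeBox hVG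
  vMG : PosBox wholeBox hVMG
  aK : PosBox wholeBox hAk
  aW : PosBox wholeBox hAw
  gK : PosBox wholeBox hGk
  gW : PosBox wholeBox hGw
  mK : PosBox wholeBox hMk
  mW : PosBox wholeBox hMw
  q : PosBox ⟨⟨0, 601, 1000⟩, ⟨600, 606, 1000⟩, ⟨120, 201, 1000⟩, ⟨350, 1322, 1000⟩⟩ hQ
  l00 : PosBox wholeBox (hLLG (cC 0) (cC 0))
  l01 : PosBox wholeBox (hLLG (cC 0) (cC 93 100))
  l10 : PosBox wholeBox (hLLG (cC 5 2) (cC 0))
  l11 : PosBox wholeBox (hLLG (cC 5 2) (cC 93 100))

theorem mem_side {a z : ℤ} {x : ℝ} (h₁ : (a : ℝ) / 1000 ≤ x) (h₂ : x < (z : ℝ) / 1000) :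
    Side.Mem ⟨a, z, 1000⟩ x := by
  constructor <;> push_cast <;> assumption

theorem mem_unit {o : ℝ} (h₁ : 0 ≤ o) (h₂ : o ≤ 1) : Side.Mem ⟨0, 1001, 1000⟩ o :=
  mem_side (by norm_num; linarith) (by norm_num; linarith)

section
variable {d S u v t : ℝ}

/-- The bounds of a piece. -/
theorem Piece.bounds {P : Piece} (hP : P.Checked) (hC : Common)
    (hS : Side.Mem ⟨600, 606, 1000⟩ S) (hd : Side.Mem ⟨120, 201, 1000⟩ d)
    (hv : Side.Mem ⟨P.lo, P.hi, 1000⟩ v) (u0 : 0 < u) (u1 : u ≤ 3 / 5)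
    (hY : 0 < 2 + d * v - d * u * chH d S u v t)
    (hdrift : 2 * S * (1 - (S - d) / 2 * v) / ((1 - S) * ((S + d) / 2)) <
      chG d S u v t * chH d S u v t / 2)
    (hphi : v < 67 / 100 - 29 / 100 * d + (18 / 25 - 3 / 25 * d) * u +
      (13 / 50 + 3 / 100 * d) * u ^ 2 / (483 / 500 - u))
    (hL : rTL d u < t) (hU : t < rTU d u) :
    let p := chG d S u v t * chW d S u v t
    let e := chG d S u v t * eVal d v (chW d S u v t) (chR S u)
    let k := chG d S u v t * kVal d (chW d S u v t) (chR S u)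
    let w := chG d S u v t * chW1 d S u v t
    rP0 S d v < p ∧ p < P.pU.at S d v e ∧ P.eL.at S d v < e ∧ e < P.eH.at S d v ∧
      P.kL.at S d v e < k ∧ k < P.kU.at S d v e ∧ P.wL.at d v e p < w ∧ w < P.wU.at d v e p := by
  intro p e k w
  have hS' : (3 / 5 : ℝ) ≤ S ∧ S < 606 / 1000 := by
    obtain ⟨a, b⟩ := hS; push_cast at a b; exact ⟨by linarith, b⟩
  have hd' : (3 / 25 : ℝ) ≤ d ∧ d < 201 / 1000 := by
    obtain ⟨a, b⟩ := hd; push_cast at a b; exact ⟨by linarith, b⟩
  have hvW : Side.Mem ⟨350, 1322, 1000⟩ v := by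
    obtain ⟨a, b⟩ := hv
    have h1 : (350 : ℝ) ≤ P.lo := by exact_mod_cast hP.lo_ge
    have h2 : (P.hi : ℝ) ≤ 1322 := by exact_mod_cast hP.hi_le
    push_cast at a b
    refine mem_side ?_ ?_ <;> push_cast <;> linarith
  -- `u` lies between its bounds
  have hroom : P.u0 d v < 6005 / 10000 := by
    have := hP.room 0 S d v (mem_unit le_rfl zero_le_one) hS hd hv
    simp only [Piece.xRoom, ex_sub, val_xU₀, val_k₄] at this
    push_cast at this
    linarith
  have hu₀ : P.u0 d v ≤ u := by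
    rcases hP.phi with hphi' | ⟨a, b, c, e'⟩
    swap
    · simp only [Piece.u0, a, b, c, e']; norm_num; exact u0.le
    by_contra hlt
    rw [not_le] at hlt
    have := hphi' 0 S d v (mem_unit le_rfl zero_le_one) hS hd hv
    simp only [Piece.xPhi, ex_sub, ex_mul, ex_add, val_xU₀, Ex.val] at this
    push_cast at this
    set x := P.u0 d v
    have hG : 0 < 483 / 500 - x := by linarith
    have h1 : (18 / 25 - 3 / 25 * d) * u ≤ (18 / 25 - 3 / 25 * d) * x :=
      mul_le_mul_of_nonneg_left hlt.le (by linarith)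
    have h2 : (13 / 50 + 3 / 100 * d) * u ^ 2 / (483 / 500 - u) ≤
        (13 / 50 + 3 / 100 * d) * x ^ 2 / (483 / 500 - x) :=
      div_le_div₀ (mul_nonneg (by linarith) (sq_nonneg x))
        (mul_le_mul_of_nonneg_left (pow_le_pow_left₀ u0.le hlt.le 2) (by linarith)) hG
        (by linarith)
    have h3 : v < 67 / 100 - 29 / 100 * d + (18 / 25 - 3 / 25 * d) * x +
        (13 / 50 + 3 / 100 * d) * x ^ 2 / (483 / 500 - x) := by linarith
    have e3 : (13 / 50 + 3 / 100 * d) * x ^ 2 / (483 / 500 - x) * (483 / 500 - x) =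
        (13 / 50 + 3 / 100 * d) * (x * x) := by
      rw [div_mul_cancel₀ _ hG.ne']; ring
    have := mul_lt_mul_of_pos_right h3 hG
    linarith
  set o := (u - P.u0 d v) / (6005 / 10000 - P.u0 d v) with ho
  have ho0 : 0 ≤ o := div_nonneg (by linarith) (by linarith)
  have ho1 : o ≤ 1 := (div_le_one (by linarith)).2 (by linarith)
  have eo : P.u0 d v + o * (6005 / 10000 - P.u0 d v) = u := by
    rw [ho, div_mul_cancel₀ _ (show 6005 / 10000 - P.u0 d v ≠ 0 by linarith)]; ring
  obtain ⟨hD, ep, ee, ek, ew⟩ :=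
    chart_num (d := d) (S := S) (u := u) (v := v) (t := t) (by linarith) (by linarith)
      (by linarith) hY
  have vU : P.xU.val o S d v = u := by rw [val_xU, eo]
  have get : ∀ {T : Ex}, PosBox P.box T → 0 < T.val o S d v := fun h =>
    h o S d v (mem_unit ho0 ho1) hS hd hv
  -- `p` above its lower bound
  have hp0 : rP0 S d v < p := by
    have h0 := hC.p0 0 S d v (mem_unit le_rfl zero_le_one) hS hd hvW
    simp only [xP0Gap, ex_sub, ex_mul, val_xA, val_xB, val_xP0, Ex.val] at h0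
    push_cast at h0
    have hb : 0 < (S + d) / 2 := by linarith
    have h1 : 0 < (1 - S) * ((S + d) / 2) := mul_pos (by linarith) hb
    rw [div_lt_iff₀ h1] at hdrift
    have e1 : p * S = chG d S u v t * ((1 - S) * chH d S u v t) := by
      simp only [p, chW]
      have : S ≠ 0 := by linarith
      field_simp
    have h2 : 4 * (1 - (S - d) / 2 * v) * S < p * ((S + d) / 2) * S := by
      rw [mul_right_comm p, e1]; linarith
    have h3 := lt_of_mul_lt_mul_right h2 (by linarith)
    exact lt_of_mul_lt_mul_right (show rP0 S d v * ((S + d) / 2) < p * ((S + d) / 2) by linarith)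
      hb.le
  have pr : ∀ {x : ℝ}, 0 < x * rDn S d v u t → 0 < x := fun h => pos_of_mul_pos_left h hD.le
  -- the bounds
  have heL : P.eL.at S d v < e := by
    have l := get hP.eLL
    have r := get hP.eLU
    simp only [Piece.hEL, ex_sub, ex_mul, val_xEn, val_xDn, val_CE, val_xTL, val_xTU, vU] at l r
    have := num_pos (S := S) (d := d) (v := v) (u := u) (t := t) (A := -P.eL.at S d v) (B := 1) (C := 0) (D := 0) (F := 0) hL hU
      (by linarith) (by linarith)
    exact sub_pos.1 (pr (by linear_combination this - ee))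
  have heH : e < P.eH.at S d v := by
    have l := get hP.eHL
    have r := get hP.eHU
    simp only [Piece.hEH, ex_sub, ex_mul, val_xEn, val_xDn, val_xPn, val_CE, val_k₄, val_xP0,
      val_xTL, val_xTU, vU] at l r
    have := num_pos (S := S) (d := d) (v := v) (u := u) (t := t) (A := P.eH.at S d v + (P.mu : ℝ) / 10000 * rP0 S d v) (B := -1)
      (C := -((P.mu : ℝ) / 10000)) (D := 0) (F := 0) hL hU (by linarith) (by linarith)
    have h1 : 0 < P.eH.at S d v - e - (P.mu : ℝ) / 10000 * (p - rP0 S d v) :=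
      pr (by linear_combination this + ee + (P.mu : ℝ) / 10000 * ep)
    have h2 : 0 ≤ (P.mu : ℝ) / 10000 * (p - rP0 S d v) :=
      mul_nonneg (div_nonneg (by exact_mod_cast hP.mu_nonneg) (by norm_num)) (by linarith)
    linarith
  have hpU : p < P.pU.at S d v e := by
    have l := get hP.pUL
    have r := get hP.pUU
    simp only [Piece.hPU, CQ.num, ex_sub, ex_add, ex_mul, val_xEn, val_xDn, val_xPn, val_CQfree,
      val_CQslope, val_xTL, val_xTU, vU] at l r
    have := num_pos (S := S) (d := d) (v := v) (u := u) (t := t) (A := P.pU.freeAt S d v) (B := P.pU.slopeAt d v) (C := -1) (D := 0) (F := 0)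
      hL hU (by linarith) (by linarith)
    exact sub_pos.1 (pr (by
      simp only [CQ.at]; linear_combination this - P.pU.slopeAt d v * ee + ep))
  have hkU : k < P.kU.at S d v e := by
    have l := get hP.kUL
    have r := get hP.kUU
    simp only [Piece.hKU, CQ.num, ex_sub, ex_add, ex_mul, val_xEn, val_xDn, val_xKn, val_CQfree,
      val_CQslope, val_xTL, val_xTU, vU] at l r
    have := num_pos (S := S) (d := d) (v := v) (u := u) (t := t) (A := P.kU.freeAt S d v) (B := P.kU.slopeAt d v) (C := 0) (D := -1) (F := 0)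
      hL hU (by linarith) (by linarith)
    exact sub_pos.1 (pr (by
      simp only [CQ.at]; linear_combination this - P.kU.slopeAt d v * ee + ek))
  have hkL : P.kL.at S d v e < k := by
    have l := get hP.kLL
    have r := get hP.kLU
    simp only [Piece.hKL, CQ.num, ex_sub, ex_add, ex_mul, val_xEn, val_xDn, val_xKn, val_CQfree,
      val_CQslope, val_xTL, val_xTU, vU] at l r
    have := num_pos (S := S) (d := d) (v := v) (u := u) (t := t) (A := -P.kL.freeAt S d v) (B := -P.kL.slopeAt d v) (C := 0) (D := 1) (F := 0)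
      hL hU (by linarith) (by linarith)
    exact sub_pos.1 (pr (by
      simp only [CQ.at]; linear_combination this + P.kL.slopeAt d v * ee - ek))
  have hwU : w < P.wU.at d v e p := by
    have l := get hP.wUL
    have r := get hP.wUU
    simp only [Piece.hWU, CW.num, ex_sub, ex_add, ex_mul, val_xEn, val_xDn, val_xPn, val_xWn,
      val_CWfree, val_CWslope, val_CWslopeP, val_xTL, val_xTU, vU] at l r
    have := num_pos (S := S) (d := d) (v := v) (u := u) (t := t) (A := P.wU.freeAt d v) (B := P.wU.slopeAt d v) (C := P.wU.slopePAt d v)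
      (D := 0) (F := -1) hL hU (by linarith) (by linarith)
    exact sub_pos.1 (pr (by
      simp only [CW.at]
      linear_combination this - P.wU.slopeAt d v * ee - P.wU.slopePAt d v * ep + ew))
  have hwL : P.wL.at d v e p < w := by
    have l := get hP.wLL
    have r := get hP.wLU
    simp only [Piece.hWL, CW.num, ex_sub, ex_add, ex_mul, val_xEn, val_xDn, val_xPn, val_xWn,
      val_CWfree, val_CWslope, val_CWslopeP, val_xTL, val_xTU, vU] at l r
    have := num_pos (S := S) (d := d) (v := v) (u := u) (t := t) (A := -P.wL.freeAt d v) (B := -P.wL.slopeAt d v) (C := -P.wL.slopePAt d v)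
      (D := 0) (F := 1) hL hU (by linarith) (by linarith)
    exact sub_pos.1 (pr (by
      simp only [CW.at]
      linear_combination this + P.wL.slopeAt d v * ee + P.wL.slopePAt d v * ep - ew))
  exact ⟨hp0, hpU, heL, heH, hkL, hkU, hwL, hwU⟩

end

end Vale.Agent.P100.Calib.Closed.Large
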