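import Vale.Agent.P100.Calib.SlabLargeExpr
import Vale.Agent.P100.Calib.SlabLargeBox

/-!
# The pieces of the certificate for `3/25 ≤ d`, `0 < u ≤ 3/5`
-/

namespace Vale.Agent.P100.Calib.Closed.Large

/-- The piece `350/1000 ≤ v < 601/1000`. -/
def piece0 : Piece where
  lo := 350
  hi := 601
  u₀ := 0
  ud := 0
  uv := 0
  uvv := 0
  mu := 355077
  eL := ⟨536577, 1378, -4220, -369, -103861, -2562185⟩
  eH := ⟨-1407951, -52669, 2140598, 136951, -1864673, -78878⟩
  pU := ⟨177782, -129541, 12280, 22, -35940, -60, -487, 3000, 77254, -135381⟩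
  kU := ⟨-7114, 9613, -3438, -64, 33364, 9318, -8, 441, 76739, 12505⟩
  kL := ⟨-7282, 16275, -3082, -63, 32875, 9288, -14, -525, 41337, 11108⟩
  k1 := ⟨-56130, 116690, -702500, 1590, -563740, -650, -5810, 964170, 0, 359360⟩
  k2p := ⟨133730, -2855350, -239250, 1420, 3596140, -18390, 0, 0, 0, 141700⟩
  k2m := ⟨-674980, 13831740, 2729830, 1520, -23962570, -14860, 0, 0, 0, -1475980⟩
  wU := ⟨-24424, 1016855, 8260, -1055, 283751, 3191, -1870, 19098, -10274, -136078, -6386⟩
  wL := ⟨150371, 64976, 72096, 145, -175242, 760, -1641, -28648, -29035, -12875, -805⟩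

/-- The piece `600/1000 ≤ v < 731/1000`. -/
def piece1 : Piece where
  lo := 600
  hi := 731
  u₀ := -13355
  ud := 4052
  uv := 26380
  uvv := -9642
  mu := 0
  eL := ⟨-875844, 556023, 2590051, -942025, -369945, -2400551⟩
  eH := ⟨160554, -417911, 166, 136, 279020, -961089⟩
  pU := ⟨195127, -130136, 78, -67, 4781, 207, -421, 9621, 65894, -162447⟩
  kU := ⟨-5480, -279, -5897, -47, 34154, 9275, -25, 1168, 96185, 13446⟩
  kL := ⟨-5197, -334, -1325, -31, 42701, 9238, -51, -4148, 61331, 10207⟩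
  k1 := ⟨-394250, -646320, 233360, 250, 395300, -3610, -2030, 113130, 0, 593380⟩
  k2p := ⟨-26600, -2775030, -190070, 1390, 2917660, -21840, 0, 0, 0, 369620⟩
  k2m := ⟨443760, -1199180, -85810, 1540, 952980, -16330, 0, 0, 0, -543480⟩
  wU := ⟨-102854, 998991, -46696, -970, 507893, 2796, -1901, 247220, 10825, -152011, -35351⟩
  wL := ⟨25074, 280857, 396613, 1745, -444320, 787, -4172, -257475, -21928, -16264, -10360⟩

/-- The piece `730/1000 ≤ v < 921/1000`. -/
def piece2 : Piece where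
  lo := 730
  hi := 921
  u₀ := -13843
  ud := 3443
  uv := 27515
  uvv := -10113
  mu := 0
  eL := ⟨-1236981, 356955, 2685881, -978893, -164898, -1873660⟩
  eH := ⟨145390, -416251, 532, 36, 274405, -935828⟩
  pU := ⟨197696, -31911, 5110, -24, -16972, 185, -494, 4524, -194361, -180332⟩
  kU := ⟨-5014, -7033, -5399, -38, 31468, 9232, -29, 789, 115150, 13806⟩
  kL := ⟨-2859, -5781, -4275, -11, 35908, 9160, -62, -1184, 77022, 9283⟩
  k1 := ⟨-457040, -1026630, 280290, 920, 534630, -7510, -1940, 46190, 0, 787810⟩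
  k2p := ⟨55220, -2236650, -16040, 2270, 1387240, -31490, 0, 0, 0, 98420⟩
  k2m := ⟨415510, -1182810, -56210, 1800, 643390, -19240, 0, 0, 0, -502490⟩
  wU := ⟨57034, 653249, 29157, -909, 27942, 2382, -1886, -1915, -21427, -86443, -1633⟩
  wL := ⟨112376, 201054, 90761, 383, -231415, 1639, -2388, -33609, -26218, -17452, -2858⟩

/-- The piece `920/1000 ≤ v < 1321/1000`. -/
def piece3 : Piece where
  lo := 920
  hi := 1321
  u₀ := -12765
  ud := 2325
  uv := 24963
  uvv := -8413
  mu := 0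
  eL := ⟨-1572294, 134339, 2434651, -811346, -31768, -1145622⟩
  eH := ⟨121720, -410492, 1730, -311, 266047, -897325⟩
  pU := ⟨219995, 20620, -5450, 6, 15673, 595, -628, 3115, -368389, -216026⟩
  kU := ⟨-3731, -19466, -5237, -15, 28859, 9122, -39, 556, 144148, 14098⟩
  kL := ⟨-2649, -14664, -5236, 9, 29359, 9047, -63, 46, 104729, 11578⟩
  k1 := ⟨-886010, 342210, 425260, -1920, 42090, 8260, -1530, 7470, 0, 1097020⟩
  k2p := ⟨295010, -2549060, -103080, 1710, 1661440, -34660, 0, 0, 0, -249540⟩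
  k2m := ⟨367180, -1260880, -42710, 2130, 475990, -23410, 0, 0, 0, -413760⟩
  wU := ⟨191430, 236593, -31665, -1183, -101298, 4223, -1939, -19620, -38527, -23893, 8269⟩
  wL := ⟨131422, 170866, 33263, -144, -147629, 1951, -1826, -3553, -27505, -19895, -687⟩

end Vale.Agent.P100.Calib.Closed.Large
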