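import Vale.Agent.P100.Calib.SlabLargePieces
import Vale.Agent.P100.Calib.SlabChart

/-!
# Values of the expressions of the certificate for `3/25 ≤ d`, `0 < u ≤ 3/5`
-/

set_option linter.unusedVariables false
set_option linter.unusedSimpArgs false

namespace Vale.Agent.P100.Calib.Closed.Large

open BoxPos

/-- The bound. -/
noncomputable def CE.at (c : CE) (S d v : ℝ) : ℝ :=
  c.c₀ / 10000 + c.cd / 10000 * d + c.cv / 10000 * v + c.cvv / 10000 * (v * v) +
    c.cdv / 10000 * (d * v) + c.cS / 10000 * S

/-- The part free of `e`. -/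
noncomputable def CQ.freeAt (c : CQ) (S d v : ℝ) : ℝ :=
  c.c₀ / 10000 + c.cd / 10000 * d + c.cv / 10000 * v + c.cdv / 10000 * (d * v) +
    c.cvv / 10000 * (v * v) + c.cdd / 10000 * (d * d) + c.cS / 10000 * S

/-- The coefficient of `e`. -/
noncomputable def CQ.slopeAt (c : CQ) (d v : ℝ) : ℝ :=
  c.ce / 10000 + c.cde / 10000 * d + c.cve / 10000 * v

/-- The bound at `e`. -/
noncomputable def CQ.at (c : CQ) (S d v e : ℝ) : ℝ := c.freeAt S d v + c.slopeAt d v * e

/-- The part free of `e` and `p`. -/
noncomputable def CW.freeAt (c : CW) (d v : ℝ) : ℝ :=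
  c.c₀ / 10000 + c.cd / 10000 * d + c.cv / 10000 * v + c.cdv / 10000 * (d * v) +
    c.cvv / 10000 * (v * v)

/-- The coefficient of `e`. -/
noncomputable def CW.slopeAt (c : CW) (d v : ℝ) : ℝ :=
  c.ce / 10000 + c.cde / 10000 * d + c.cve / 10000 * v

/-- The coefficient of `p`. -/
noncomputable def CW.slopePAt (c : CW) (d v : ℝ) : ℝ :=
  c.cp / 10000 + c.cpd / 10000 * d + c.cpv / 10000 * v

/-- The bound at `(e, p)`. -/
noncomputable def CW.at (c : CW) (d v e p : ℝ) : ℝ :=
  c.freeAt d v + c.slopeAt d v * e + c.slopePAt d v * p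

/-- The lower bound of `p`. -/
noncomputable def rP0 (S d v : ℝ) : ℝ :=
  xP0.val 0 S d v

/-- The lower bound of `u`. -/
noncomputable def Piece.u0 (P : Piece) (d v : ℝ) : ℝ :=
  P.u₀ / 10000 + P.ud / 10000 * d + P.uv / 10000 * v + P.uvv / 10000 * (v * v)

/-- `b (2 - S) h/d`. -/
noncomputable def rH (S d v u t : ℝ) : ℝ :=
  S * (1 + (1 - (S - d) / 2) * v) + (S + d) / 2 * (2 - S) * u * t

/-- `b (2 - S)` times `2 + d v - h u`. -/
noncomputable def rY (S d v u t : ℝ) : ℝ :=
  (2 + d * v) * ((S + d) / 2 * (2 - S)) - d * u * rH S d v u t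

/-- The numerator of `g`. -/
noncomputable def rGn (S d v u : ℝ) : ℝ :=
  4 * ((2 + d * v) * ((S + d) / 2) - S * u * (1 + d * v))

/-- The common denominator. -/
noncomputable def rDn (S d v u t : ℝ) : ℝ :=
  (1 - S) * S * S * ((S + d) / 2) * ((S + d) / 2) * rY S d v u t

/-- The numerator of `p`. -/
noncomputable def rPn (S d v u t : ℝ) : ℝ :=
  rGn S d v u * rH S d v u t * (1 - S) * S * ((S + d) / 2)

/-- The numerator of `e`. -/
noncomputable def rEn (S d v u t : ℝ) : ℝ :=
  -1 * rGn S d v u * ((10 + v * (1 / 20 + d)) * ((S + d) / 2 * (2 - S)) +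
    (1 / 20 - 9 * d) * u * rH S d v u t) * S * S * ((S + d) / 2)

/-- The numerator of `g K`. -/
noncomputable def rKn (S d v u t : ℝ) : ℝ :=
  (1 / 20 - 9 * d) * rGn S d v u * ((S + d) / 2 * (2 - S) - d * u * rH S d v u t) * S * S *
    ((S + d) / 2)

/-- The numerator of `g W1`. -/
noncomputable def rWn (S d v u t : ℝ) : ℝ :=
  rGn S d v u * (1 - S) * (rH S d v u t * ((S - d) / 2 - (1 - (S - d) / 2) * d * v) * S -
    (S + d) / 2 * ((S + d) / 2) * (2 - S) * (2 - S) * t)

/-- The lower end of `t`. -/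
noncomputable def rTL (d u : ℝ) : ℝ :=
  4 / 5 - 31 / 25 * d + (42 / 25 - 29 / 5 * d) * u + (1 / 4 - 9 / 2 * d) * u ^ 2

/-- The upper end of `t`. -/
noncomputable def rTU (d u : ℝ) : ℝ :=
  141 / 100 - 16 / 5 * d + (1 / 2 - 63 / 20 * d) * u + (27 / 10 - 31 / 4 * d) * u ^ 2

section
variable (o S d v : ℝ)

theorem val_k₄ (n : ℤ) : (k₄ n).val o S d v = n / 10000 := by simp [k₄, Ex.val]

theorem val_xA : xA.val o S d v = (S - d) / 2 := by
  simp only [xA, ex_mul, ex_sub, Ex.val]; push_cast; ring

theorem val_xB : xB.val o S d v = (S + d) / 2 := by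
  simp only [xB, ex_mul, ex_add, Ex.val]; push_cast; ring

theorem val_xP0 : xP0.val o S d v = rP0 S d v := by
  simp only [rP0, xP0, ex_add, ex_mul, Ex.val, val_k₄]

theorem val_CE (c : CE) : c.ex.val o S d v = c.at S d v := by
  simp only [CE.ex, CE.at, ex_add, ex_mul, Ex.val, val_k₄]

theorem val_CQfree (c : CQ) : c.free.val o S d v = c.freeAt S d v := by
  simp only [CQ.free, CQ.freeAt, ex_add, ex_mul, Ex.val, val_k₄]

theorem val_CQslope (c : CQ) : c.slope.val o S d v = c.slopeAt d v := by
  simp only [CQ.slope, CQ.slopeAt, ex_add, ex_mul, Ex.val, val_k₄]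

theorem val_CQ (c : CQ) (e : Ex) : (c.ex e).val o S d v = c.at S d v (e.val o S d v) := by
  simp only [CQ.ex, CQ.at, ex_add, ex_mul, val_CQfree, val_CQslope]

theorem val_CWfree (c : CW) : c.free.val o S d v = c.freeAt d v := by
  simp only [CW.free, CW.freeAt, ex_add, ex_mul, Ex.val, val_k₄]

theorem val_CWslope (c : CW) : c.slope.val o S d v = c.slopeAt d v := by
  simp only [CW.slope, CW.slopeAt, ex_add, ex_mul, Ex.val, val_k₄]

theorem val_CWslopeP (c : CW) : c.slopeP.val o S d v = c.slopePAt d v := by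
  simp only [CW.slopeP, CW.slopePAt, ex_add, ex_mul, Ex.val, val_k₄]

theorem val_CW (c : CW) (e p : Ex) :
    (c.ex e p).val o S d v = c.at d v (e.val o S d v) (p.val o S d v) := by
  simp only [CW.ex, CW.at, ex_add, ex_mul, val_CWfree, val_CWslope, val_CWslopeP]

theorem val_xE (P : Piece) :
    P.xE.val o S d v = P.eL.at S d v + o * (P.eH.at S d v - P.eL.at S d v) := by
  simp only [Piece.xE, ex_add, ex_sub, ex_mul, val_CE, Ex.val]

theorem val_xU₀ (P : Piece) : P.xU₀.val o S d v = P.u0 d v := by
  simp only [Piece.xU₀, Piece.u0, ex_add, ex_mul, Ex.val, val_k₄]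

theorem val_xU (P : Piece) :
    P.xU.val o S d v = P.u0 d v + o * (6005 / 10000 - P.u0 d v) := by
  simp only [Piece.xU, ex_add, ex_sub, ex_mul, val_xU₀, Ex.val, val_k₄]
  push_cast; ring

theorem val_xTL (u : Ex) : (xTL u).val o S d v = rTL d (u.val o S d v) := by
  simp only [xTL, rTL, ex_add, ex_sub, ex_mul, Ex.val]; push_cast; ring

theorem val_xTU (u : Ex) : (xTU u).val o S d v = rTU d (u.val o S d v) := by
  simp only [xTU, rTU, ex_add, ex_sub, ex_mul, Ex.val]; push_cast; ring

variable (u t : Ex)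

theorem val_xH : (xH u t).val o S d v = rH S d v (u.val o S d v) (t.val o S d v) := by
  simp only [xH, xBB, rH, ex_add, ex_sub, ex_mul, val_xA, val_xB, Ex.val]; push_cast; ring

theorem val_xY : (xY u t).val o S d v = rY S d v (u.val o S d v) (t.val o S d v) := by
  simp only [xY, xBB, rY, ex_add, ex_sub, ex_mul, val_xB, val_xH, Ex.val]; push_cast; ring

theorem val_xGn : (xGn u).val o S d v = rGn S d v (u.val o S d v) := by
  simp only [xGn, rGn, ex_add, ex_sub, ex_mul, val_xB, Ex.val]; push_cast; ring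

theorem val_xDn : (xDn u t).val o S d v = rDn S d v (u.val o S d v) (t.val o S d v) := by
  simp only [xDn, rDn, ex_sub, ex_mul, val_xB, val_xY, Ex.val]; push_cast; ring

theorem val_xPn : (xPn u t).val o S d v = rPn S d v (u.val o S d v) (t.val o S d v) := by
  simp only [xPn, rPn, ex_sub, ex_mul, val_xB, val_xH, val_xGn, Ex.val]; push_cast; ring

theorem val_xEn : (xEn u t).val o S d v = rEn S d v (u.val o S d v) (t.val o S d v) := by
  simp only [xEn, xBB, rEn, ex_add, ex_sub, ex_mul, val_xB, val_xH, val_xGn, Ex.val]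
  push_cast; ring

theorem val_xKn : (xKn u t).val o S d v = rKn S d v (u.val o S d v) (t.val o S d v) := by
  simp only [xKn, xBB, rKn, ex_sub, ex_mul, val_xB, val_xH, val_xGn, Ex.val]
  push_cast; ring

theorem val_xWn : (xWn u t).val o S d v = rWn S d v (u.val o S d v) (t.val o S d v) := by
  simp only [xWn, rWn, ex_sub, ex_mul, val_xA, val_xB, val_xH, val_xGn, Ex.val]
  push_cast; ring

end

/-- A combination of the numerators is affine in `t`. -/
theorem num_interp (S d v u t L U A B C D F G : ℝ) :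
    (A * rDn S d v u t + B * rEn S d v u t + C * rPn S d v u t + D * rKn S d v u t +
        F * rWn S d v u t + G) * (U - L) =
      (U - t) * (A * rDn S d v u L + B * rEn S d v u L + C * rPn S d v u L +
        D * rKn S d v u L + F * rWn S d v u L + G) +
      (t - L) * (A * rDn S d v u U + B * rEn S d v u U + C * rPn S d v u U +
        D * rKn S d v u U + F * rWn S d v u U + G) := by
  simp only [rDn, rEn, rPn, rKn, rWn, rY, rH, rGn]
  ring

/-- A combination of the numerators positive at both ends is positive between them. -/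
theorem num_pos {S d v u t L U A B C D F : ℝ} (hL : L < t) (hU : t < U)
    (h₀ : 0 < A * rDn S d v u L + B * rEn S d v u L + C * rPn S d v u L + D * rKn S d v u L +
      F * rWn S d v u L)
    (h₁ : 0 < A * rDn S d v u U + B * rEn S d v u U + C * rPn S d v u U + D * rKn S d v u U +
      F * rWn S d v u U) :
    0 < A * rDn S d v u t + B * rEn S d v u t + C * rPn S d v u t + D * rKn S d v u t +
      F * rWn S d v u t := by
  have e := num_interp S d v u t L U A B C D F 0
  simp only [add_zero] at e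
  have h2 := add_pos (mul_pos (sub_pos.2 hU) h₀) (mul_pos (sub_pos.2 hL) h₁)
  rw [← e] at h2
  exact pos_of_mul_pos_left h2 (by linarith)

/-- The chart quantities over the common denominator. -/
theorem chart_num {d S u v t : ℝ} (hS0 : 0 < S) (hS1 : S < 1) (hb : 0 < S + d)
    (hY : 0 < 2 + d * v - d * u * chH d S u v t) :
    0 < rDn S d v u t ∧
      chG d S u v t * chW d S u v t * rDn S d v u t = rPn S d v u t ∧
      chG d S u v t * eVal d v (chW d S u v t) (chR S u) * rDn S d v u t = rEn S d v u t ∧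
      chG d S u v t * kVal d (chW d S u v t) (chR S u) * rDn S d v u t = rKn S d v u t ∧
      chG d S u v t * chW1 d S u v t * rDn S d v u t = rWn S d v u t := by
  have hB : 0 < (S + d) / 2 * (2 - S) := mul_pos (by linarith) (by linarith)
  have eH : chH d S u v t * ((S + d) / 2 * (2 - S)) = rH S d v u t := by
    have h2 : (2 - S) ≠ 0 := by linarith
    have h3 : S + d ≠ 0 := hb.ne'
    simp only [chH, rH]
    field_simp
  have eY : rY S d v u t = (S + d) / 2 * (2 - S) * (2 + d * v - d * u * chH d S u v t) := by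
    simp only [rY, ← eH]
    ring
  have hY' : 0 < rY S d v u t := eY ▸ mul_pos hB hY
  have eG : chG d S u v t * ((1 - S) * rY S d v u t) = rGn S d v u * (2 - S) := by
    have h1 : (1 - S) * ((S + d) / 2) * (2 + d * v - d * u * chH d S u v t) ≠ 0 :=
      (mul_pos (mul_pos (by linarith) (by linarith)) hY).ne'
    simp only [chG, rGn, eY]
    generalize chH d S u v t = H at *
    have h2 : (1 - S) ≠ 0 := by linarith
    field_simp
  have eW : chW d S u v t * S = (1 - S) * chH d S u v t := by
    simp only [chW]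
    field_simp
  have eR : chR S u * chW d S u v t = u * chH d S u v t := by
    have : (1 - S) ≠ 0 := by linarith
    simp only [chR, chW]
    field_simp
  have eW1 : chW1 d S u v t * (S * S * ((S + d) / 2)) =
      (1 - S) * (S * chH d S u v t * ((S - d) / 2 - (1 - (S - d) / 2) * d * v) -
        (2 - S) * t * ((S + d) / 2)) := by
    simp only [chW1]
    generalize chH d S u v t = H
    have : (S + d) / 2 ≠ 0 := by linarith
    field_simp
  refine ⟨mul_pos (mul_pos (mul_pos (mul_pos (mul_pos (by linarith) hS0) hS0)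
    (by linarith)) (by linarith)) hY', ?_, ?_, ?_, ?_⟩
  · simp only [rDn, rPn]
    rw [← eH]
    linear_combination (chW d S u v t * S * S * ((S + d) / 2) * ((S + d) / 2)) * eG +
      (rGn S d v u * (2 - S) * S * ((S + d) / 2) * ((S + d) / 2)) * eW
  · simp only [rDn, rEn, eVal]
    rw [eR, ← eH]
    linear_combination (-(10 + v * (1 / 20 + d) + u * chH d S u v t * (1 / 20 - 9 * d)) * S * S *
      ((S + d) / 2) * ((S + d) / 2)) * eG
  · have eK : kVal d (chW d S u v t) (chR S u) =
        (1 / 20 - 9 * d) * (1 - d * u * chH d S u v t) := by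
      simp only [kVal]
      linear_combination (-(1 / 20 - 9 * d) * d) * eR
    simp only [rDn, rKn]
    rw [eK, ← eH]
    linear_combination ((1 / 20 - 9 * d) * (1 - d * u * chH d S u v t) * S * S *
      ((S + d) / 2) * ((S + d) / 2)) * eG
  · simp only [rDn, rWn]
    rw [← eH]
    linear_combination (chW1 d S u v t * S * S * ((S + d) / 2) * ((S + d) / 2)) * eG +
      (rGn S d v u * (2 - S) * ((S + d) / 2)) * eW1

end Vale.Agent.P100.Calib.Closed.Large
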