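import Vale.Agent.P100.Calib.SlabLargePiece

/-!
# The closed signs from a checked piece
-/

set_option linter.unusedVariables false
set_option linter.unusedSimpArgs false

namespace Vale.Agent.P100.Calib.Closed.Large

open BoxPos

/-- `LLG` with `q` for `W R`. -/
noncomputable def llq (a d v q r : ℝ) : ℝ :=
  (1 / 8) * 200 * v * (2 + d * v) * (1 + d * v) * LLGc a d v q 1 +
    (-(21 / 100)) * 200 * a * v * (2 + d * v) ^ 2 * LLGv a d v q 1 +
    200 * a * (1 + d * v) * LLGw a d v r (-(10 + v * (1 / 20 + d) + q * (1 / 20 - 9 * d)))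
      ((1 / 20 - 9 * d) * (1 - d * q))

theorem LLG_eq_llq (a d v g W W1 R : ℝ) :
    LLG a d v g W W1 R (eVal d v W R) (kVal d W R) = llq a d v (W * R) R := by
  simp only [LLG, llq, LLGc, LLGv, LLGw, eVal, kVal]
  ring

theorem val_hLLG (o S d v : ℝ) (q r : Ex) :
    (hLLG q r).val o S d v = llq ((S - d) / 2) d v (q.val o S d v) (r.val o S d v) := by
  simp only [hLLG, eLLG, llq, LLGc, LLGv, LLGw, ex_add, ex_sub, ex_mul, val_xA, Ex.val]
  push_cast
  ring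

theorem llq_bilinear (a d v q r q₁ r₁ : ℝ) :
    q₁ * r₁ * llq a d v q r = (q₁ - q) * (r₁ - r) * llq a d v 0 0 +
      (q₁ - q) * r * llq a d v 0 r₁ + q * (r₁ - r) * llq a d v q₁ 0 +
      q * r * llq a d v q₁ r₁ := by
  simp only [llq, LLGc, LLGv, LLGw]
  ring

section
variable {d S u v t : ℝ}

/-- The ray gap. -/
theorem llg_nonneg (hC : Common) (hS : Side.Mem ⟨600, 606, 1000⟩ S)
    (hd : Side.Mem ⟨120, 201, 1000⟩ d) (hv : Side.Mem ⟨350, 1322, 1000⟩ v) (u0 : 0 < u)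
    (u1 : u ≤ 3 / 5) (hH : 0 < chH d S u v t) (hU : t < rTU d u) (g W1 : ℝ) :
    u * chH d S u v t < 5 / 2 ∧ 0 ≤ LLG ((S - d) / 2) d v g (chW d S u v t) W1 (chR S u)
      (eVal d v (chW d S u v t) (chR S u)) (kVal d (chW d S u v t) (chR S u)) := by
  have hS' : (3 / 5 : ℝ) ≤ S ∧ S < 606 / 1000 := by
    obtain ⟨a, b⟩ := hS; push_cast at a b; exact ⟨by linarith, b⟩
  have hd' : (3 / 25 : ℝ) ≤ d := by
    obtain ⟨a, b⟩ := hd; push_cast at a; linarith
  have hB : 0 < (S + d) / 2 * (2 - S) := mul_pos (by linarith) (by linarith)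
  have eH : chH d S u v t * ((S + d) / 2 * (2 - S)) = rH S d v u t := by
    have h2 : (2 - S) ≠ 0 := by linarith
    have h3 : S + d ≠ 0 := by linarith
    simp only [chH, rH]
    field_simp
  have hq : u * chH d S u v t < 5 / 2 := by
    have h0 := hC.q u S d v (mem_side (by norm_num; linarith) (by norm_num; linarith)) hS hd hv
    simp only [hQ, ex_sub, ex_mul, val_xH, val_xTU, xBB, val_xB, Ex.val] at h0
    push_cast at h0
    have h1 : u * rH S d v u t ≤ u * rH S d v u (rTU d u) := by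
      refine mul_le_mul_of_nonneg_left ?_ u0.le
      simp only [rH]
      have := mul_le_mul_of_nonneg_left hU.le (mul_nonneg hB.le u0.le)
      linarith
    refine lt_of_mul_lt_mul_right (a := (S + d) / 2 * (2 - S)) ?_ hB.le
    rw [mul_assoc, eH]
    linarith
  refine ⟨hq, ?_⟩
  rw [LLG_eq_llq]
  have hS1 : 0 < 1 - S := by linarith
  have e : chW d S u v t * chR S u = u * chH d S u v t := by
    have : S ≠ 0 := by linarith
    simp only [chR, chW]
    field_simp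
  have hr : chR S u < 93 / 100 := by
    rw [chR, div_lt_iff₀ hS1]
    have := mul_le_mul hS'.2.le u1 u0.le (by norm_num)
    linarith
  have hr0 : 0 < chR S u := div_pos (mul_pos (by linarith) u0) hS1
  rw [e]
  have c00 := hC.l00 0 S d v (mem_unit le_rfl zero_le_one) hS hd hv
  have c01 := hC.l01 0 S d v (mem_unit le_rfl zero_le_one) hS hd hv
  have c10 := hC.l10 0 S d v (mem_unit le_rfl zero_le_one) hS hd hv
  have c11 := hC.l11 0 S d v (mem_unit le_rfl zero_le_one) hS hd hv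
  simp only [val_hLLG, Ex.val] at c00 c01 c10 c11
  push_cast at c00 c01 c10 c11
  simp only [div_one] at c00 c01 c10 c11
  have hq0 : 0 ≤ u * chH d S u v t := (mul_pos u0 hH).le
  have key := llq_bilinear ((S - d) / 2) d v (u * chH d S u v t) (chR S u) (5 / 2) (93 / 100)
  have a1 : 0 ≤ 5 / 2 - u * chH d S u v t := by linarith
  have a2 : 0 ≤ 93 / 100 - chR S u := by linarith
  have h5 : (0 : ℝ) ≤ 5 / 2 * (93 / 100) * llq ((S - d) / 2) d v (u * chH d S u v t) (chR S u) := by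
    rw [key]
    exact add_nonneg (add_nonneg (add_nonneg (mul_nonneg (mul_nonneg a1 a2) c00.le)
      (mul_nonneg (mul_nonneg a1 hr0.le) c01.le)) (mul_nonneg (mul_nonneg hq0 a2) c10.le))
      (mul_nonneg (mul_nonneg hq0 hr0.le) c11.le)
  linarith

/-- The expansions of the closed forms at a point, in `g W`, `g K` and `g W1`. -/
structure Forms where
  (g₀ g₁ g₂ h₀ h₁ h₂ a₀ a₁ a₂ ak aw t₀ t₁ t₂ tk tw m₀ m₁ mc mw : ℝ)

/-- The bounds and multipliers at a point. -/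
structure Bnds where
  (kU kL wUf sU wLf sL k₁ kp km c s : ℝ)

/-- The expansions at `(a, d, v, e)`. -/
noncomputable def forms (a d v e : ℝ) : Forms where
  g₀ := TGG a d v 1 0 0 0 0 0
  g₁ := (TGG a d v 1 1 0 0 0 0 - TGG a d v 1 (-1) 0 0 0 0) / 2
  g₂ := (TGG a d v 1 1 0 0 0 0 + TGG a d v 1 (-1) 0 0 0 0 - 2 * TGG a d v 1 0 0 0 0 0) / 2
  h₀ := TEG a d v 1 0 0 0 e 0
  h₁ := (TEG a d v 1 1 0 0 e 0 - TEG a d v 1 (-1) 0 0 e 0) / 2
  h₂ := (TEG a d v 1 1 0 0 e 0 + TEG a d v 1 (-1) 0 0 e 0 - 2 * TEG a d v 1 0 0 0 e 0) / 2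
  a₀ := TA a d v 1 0 0 0 e 0
  a₁ := (TA a d v 1 1 0 0 e 0 - TA a d v 1 (-1) 0 0 e 0) / 2
  a₂ := (TA a d v 1 1 0 0 e 0 + TA a d v 1 (-1) 0 0 e 0 - 2 * TA a d v 1 0 0 0 e 0) / 2
  ak := TA a d v 1 0 0 0 e 1 - TA a d v 1 0 0 0 e 0
  aw := TA a d v 1 0 1 0 e 0 - TA a d v 1 0 0 0 e 0
  t₀ := TMG a d v 1 0 0 0 e 0
  t₁ := (TMG a d v 1 1 0 0 e 0 - TMG a d v 1 (-1) 0 0 e 0) / 2
  t₂ := (TMG a d v 1 1 0 0 e 0 + TMG a d v 1 (-1) 0 0 e 0 - 2 * TMG a d v 1 0 0 0 e 0) / 2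
  tk := TMG a d v 1 0 0 0 e 1 - TMG a d v 1 0 0 0 e 0
  tw := TMG a d v 1 0 1 0 e 0 - TMG a d v 1 0 0 0 e 0
  m₀ := TME a d v 1 0 0 e 0
  m₁ := TME a d v 1 1 0 e 0 - TME a d v 1 0 0 e 0
  mc := TME a d v 1 0 0 e 1 - TME a d v 1 0 0 e 0
  mw := TME a d v 1 0 1 e 0 - TME a d v 1 0 0 e 0

variable (F : Forms) (B : Bnds) (z : ℝ)

/-- `TGG`. -/
def Forms.G : ℝ := F.g₀ + F.g₁ * z + F.g₂ * z ^ 2
/-- `TEG`. -/
def Forms.T : ℝ := F.h₀ + F.h₁ * z + F.h₂ * z ^ 2
/-- `TA`. -/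
def Forms.A (k w : ℝ) : ℝ := F.a₀ + F.a₁ * z + F.a₂ * z ^ 2 + F.ak * k + F.aw * w
/-- `TMG`. -/
def Forms.N (k w : ℝ) : ℝ := F.t₀ + F.t₁ * z + F.t₂ * z ^ 2 + F.tk * k + F.tw * w
/-- `g TME`. -/
def Forms.M (k w : ℝ) : ℝ := F.m₀ + F.m₁ * z + F.mc * k + F.mw * w

/-- The conditions at one value of `g W`. -/
structure EndOk : Prop where
  hG : 0 < F.G z
  hM : F.M z B.kU (B.wUf + B.sU * z) < 0
  h1 : 0 < B.k₁ * B.s * z + 4 * F.M z B.kL (B.wLf + B.sL * z)
  h2p : 0 < 4 * B.kp * F.G z - B.c * F.T z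
  h2m : 0 < 4 * B.km * F.G z + B.c * F.T z
  h3p : 0 < F.A z B.kU (B.wUf + B.sU * z) + B.k₁ * F.M z B.kL (B.wLf + B.sL * z) - B.kp * F.T z
  h3m : 0 < F.A z B.kU (B.wUf + B.sU * z) + B.k₁ * F.M z B.kL (B.wLf + B.sL * z) + B.km * F.T z
  hN : 0 < F.N z B.kU (B.wLf + B.sL * z)

/-- The signs of the coefficients. -/
structure CoefOk : Prop where
  g₂ : F.g₂ ≤ 0
  t₂ : F.t₂ ≤ 0
  ak : F.ak ≤ 0
  aw : F.aw ≤ 0
  tk : F.tk ≤ 0
  tw : 0 ≤ F.tw
  mc : 0 ≤ F.mc
  mw : 0 ≤ F.mw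
  v2p : 4 * B.kp * F.g₂ - B.c * F.h₂ ≤ 0
  v2m : 4 * B.km * F.g₂ + B.c * F.h₂ ≤ 0
  v3p : F.a₂ - B.kp * F.h₂ ≤ 0
  v3m : F.a₂ + B.km * F.h₂ ≤ 0

theorem EndOk.between {x y p : ℝ} (hx : EndOk F B x) (hy : EndOk F B y) (hc : CoefOk F B)
    (h0 : x ≤ p) (h1 : p ≤ y) : EndOk F B p where
  hG := concave_pos (f := fun z => F.G z) (fun _ => rfl) hc.g₂ h0 h1 hx.hG hy.hG
  hM := neg_pos.1 (concave_pos (f := fun z => -F.M z B.kU (B.wUf + B.sU * z))
    (c₀ := -(F.m₀ + F.mc * B.kU + F.mw * B.wUf)) (c₁ := -(F.m₁ + F.mw * B.sU)) (c₂ := 0)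
    (fun z => by simp only [Forms.M]; ring) le_rfl h0 h1 (neg_pos.2 hx.hM) (neg_pos.2 hy.hM))
  h1 := concave_pos (f := fun z => B.k₁ * B.s * z + 4 * F.M z B.kL (B.wLf + B.sL * z))
    (c₀ := 4 * (F.m₀ + F.mc * B.kL + F.mw * B.wLf))
    (c₁ := B.k₁ * B.s + 4 * (F.m₁ + F.mw * B.sL)) (c₂ := 0)
    (fun z => by simp only [Forms.M]; ring) le_rfl h0 h1 hx.h1 hy.h1
  h2p := concave_pos (f := fun z => 4 * B.kp * F.G z - B.c * F.T z)
    (c₀ := 4 * B.kp * F.g₀ - B.c * F.h₀) (c₁ := 4 * B.kp * F.g₁ - B.c * F.h₁)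
    (fun z => by simp only [Forms.G, Forms.T]; ring) hc.v2p h0 h1 hx.h2p hy.h2p
  h2m := concave_pos (f := fun z => 4 * B.km * F.G z + B.c * F.T z)
    (c₀ := 4 * B.km * F.g₀ + B.c * F.h₀) (c₁ := 4 * B.km * F.g₁ + B.c * F.h₁)
    (fun z => by simp only [Forms.G, Forms.T]; ring) hc.v2m h0 h1 hx.h2m hy.h2m
  h3p := concave_pos
    (f := fun z => F.A z B.kU (B.wUf + B.sU * z) + B.k₁ * F.M z B.kL (B.wLf + B.sL * z) -
      B.kp * F.T z)
    (c₀ := F.a₀ + F.ak * B.kU + F.aw * B.wUf + B.k₁ * (F.m₀ + F.mc * B.kL + F.mw * B.wLf) -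
      B.kp * F.h₀)
    (c₁ := F.a₁ + F.aw * B.sU + B.k₁ * (F.m₁ + F.mw * B.sL) - B.kp * F.h₁)
    (fun z => by simp only [Forms.A, Forms.M, Forms.T]; ring) hc.v3p h0 h1 hx.h3p hy.h3p
  h3m := concave_pos
    (f := fun z => F.A z B.kU (B.wUf + B.sU * z) + B.k₁ * F.M z B.kL (B.wLf + B.sL * z) +
      B.km * F.T z)
    (c₀ := F.a₀ + F.ak * B.kU + F.aw * B.wUf + B.k₁ * (F.m₀ + F.mc * B.kL + F.mw * B.wLf) +
      B.km * F.h₀)
    (c₁ := F.a₁ + F.aw * B.sU + B.k₁ * (F.m₁ + F.mw * B.sL) + B.km * F.h₁)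
    (fun z => by simp only [Forms.A, Forms.M, Forms.T]; ring) hc.v3m h0 h1 hx.h3m hy.h3m
  hN := concave_pos (f := fun z => F.N z B.kU (B.wLf + B.sL * z))
    (c₀ := F.t₀ + F.tk * B.kU + F.tw * B.wLf) (c₁ := F.t₁ + F.tw * B.sL)
    (fun z => by simp only [Forms.N]; ring) hc.t₂ h0 h1 hx.hN hy.hN

/-- The split holds at the values of `g K` and `g W1`. -/
theorem EndOk.core {p k w o : ℝ} (h : EndOk F B p) (hc : CoefOk F B) (ho : 0 < o) (hp : 0 < p)
    (hs : 0 < B.s) (k0 : B.kL ≤ k) (k1 : k ≤ B.kU) (w0 : B.wLf + B.sL * p ≤ w)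
    (w1 : w ≤ B.wUf + B.sU * p) :
    0 ≤ F.N p k w ∧
      0 < 4 * F.A p k w * (o * (B.s * p)) * F.G p - 16 * o * F.M p k w ^ 2 * F.G p -
        B.c * F.T p ^ 2 * (o * (B.s * p)) := by
  have a1 := mul_le_mul_of_nonneg_left k0 hc.mc
  have a2 := mul_le_mul_of_nonneg_left k1 hc.mc
  have a3 := mul_le_mul_of_nonneg_left w0 hc.mw
  have a4 := mul_le_mul_of_nonneg_left w1 hc.mw
  have a5 := mul_le_mul_of_nonpos_left k1 hc.ak
  have a6 := mul_le_mul_of_nonpos_left w1 hc.aw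
  have a7 := mul_le_mul_of_nonpos_left k1 hc.tk
  have a8 := mul_le_mul_of_nonneg_left w0 hc.tw
  obtain ⟨hG, hM, h1, h2p, h2m, h3p, h3m, hN⟩ := h
  simp only [Forms.A, Forms.M, Forms.N] at hM h1 h3p h3m hN ⊢
  refine ⟨by linarith, ?_⟩
  have hML : F.m₀ + F.m₁ * p + F.mc * B.kL + F.mw * (B.wLf + B.sL * p) ≤
      F.m₀ + F.m₁ * p + F.mc * k + F.mw * w := by linarith
  have hX : 0 < B.s * p := mul_pos hs hp
  have hk₁ : 0 < B.k₁ := pos_of_mul_pos_left (b := B.s * p) (by linarith) hX.le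
  have hkM := mul_le_mul_of_nonneg_left hML hk₁.le
  exact arrow_of_split (A := F.a₀ + F.a₁ * p + F.a₂ * p ^ 2 + F.ak * k + F.aw * w)
    (M := F.m₀ + F.m₁ * p + F.mc * k + F.mw * w) (k₁ := B.k₁) ho hX hG (by linarith)
    (by linarith) h2p.le h2m.le (by linarith) (by linarith)

/-- The bounds and multipliers of a piece at `(S, d, v, e)`. -/
noncomputable def Piece.bnds (P : Piece) (S d v e : ℝ) : Bnds where
  kU := P.kU.at S d v e
  kL := P.kL.at S d v e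
  wUf := P.wU.freeAt d v + P.wU.slopeAt d v * e
  sU := P.wU.slopePAt d v
  wLf := P.wL.freeAt d v + P.wL.slopeAt d v * e
  sL := P.wL.slopePAt d v
  k₁ := P.k1.at S d v e
  kp := P.k2p.at S d v e
  km := P.k2m.at S d v e
  c := 625 * d * d * v * v * (1 + d * v)
  s := (1 - 2 * ((S - d) / 2) - d) * -e

section
variable {a d v e : ℝ}

theorem forms_G (z x y r : ℝ) : TGG a d v 1 z x 0 y r = (forms a d v e).G z := by
  rw [TGG_expand]; simp only [one_mul]; rfl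

theorem forms_T (z x r : ℝ) : TEG a d v 1 z x 0 e r = (forms a d v e).T z := by
  rw [TEG_expand]; simp only [one_mul]; rfl

theorem forms_A (z x r : ℝ) : TA a d v 1 z x 0 e r = (forms a d v e).A z r x := by
  rw [TA_expand]; simp only [one_mul]; rfl

theorem forms_N (z x r : ℝ) : TMG a d v 1 z x 0 e r = (forms a d v e).N z r x := by
  rw [TMG_expand]; simp only [one_mul]; rfl

theorem forms_M (z x r : ℝ) : TME a d v 1 z x e r = (forms a d v e).M z r x := by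
  have := TME_expand a d v 1 z x e r
  simp only [one_mul] at this
  exact this

end

section
variable {P : Piece} {o S d v e : ℝ}

theorem Piece.endOk (p : Ex) (ve : P.xE.val o S d v = e)
    (c1 : 0 < (P.hG p).val o S d v) (c2 : 0 < (P.hM₀ p).val o S d v)
    (c3 : 0 < (P.hC1 p).val o S d v) (c4 : 0 < (P.hC2p p).val o S d v)
    (c5 : 0 < (P.hC2m p).val o S d v) (c6 : 0 < (P.hC3p p).val o S d v)
    (c7 : 0 < (P.hC3m p).val o S d v) (c8 : 0 < (P.hTMG p).val o S d v) :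
    EndOk (forms ((S - d) / 2) d v e) (P.bnds S d v e) (p.val o S d v) := by
  simp only [Piece.hG, Piece.hM₀, Piece.hC1, Piece.hM, Piece.hC2p, Piece.hC2m, Piece.hC3p,
    Piece.hC3m, Piece.hTMG, ex_add, ex_sub, ex_mul, val_eTGG (w := 0) (e := 0) (k := 0),
    val_eTEG (w := 0) (k := 0), val_eTA, val_eTMG, val_eTME, val_CQ, val_CW, ve, val_xA,
    Ex.val, forms_G (e := e), forms_T, forms_A, forms_N, forms_M] at c1 c2 c3 c4 c5 c6 c7 c8
  push_cast at c2 c3 c4 c5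
  simp only [CW.at] at c2 c3 c6 c7 c8
  constructor <;> (try simp only [Piece.bnds]) <;> linarith only [c1, c2, c3, c4, c5, c6, c7, c8]

theorem Piece.coefOk (hC : Common) (mS : Side.Mem ⟨600, 606, 1000⟩ S)
    (mD : Side.Mem ⟨120, 201, 1000⟩ d) (mV : Side.Mem ⟨350, 1322, 1000⟩ v)
    (ho : Side.Mem ⟨0, 1001, 1000⟩ o) (ve : P.xE.val o S d v = e)
    (v2p : 0 < P.hV2p.val o S d v) (v2m : 0 < P.hV2m.val o S d v)
    (v3p : 0 < P.hV3p.val o S d v) (v3m : 0 < P.hV3m.val o S d v) :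
    CoefOk (forms ((S - d) / 2) d v e) (P.bnds S d v e) := by
  have sG := hC.vG o S d v ho mS mD mV
  have sMG := hC.vMG o S d v ho mS mD mV
  have sAk := hC.aK o S d v ho mS mD mV
  have sAw := hC.aW o S d v ho mS mD mV
  have sGk := hC.gK o S d v ho mS mD mV
  have sGw := hC.gW o S d v ho mS mD mV
  have sMk := hC.mK o S d v ho mS mD mV
  have sMw := hC.mW o S d v ho mS mD mV
  have qG := val_eTGG2 xA xD xV o S d v e 0 0
  have qMG := val_eTMG2 xA xD xV o S d v e 0 0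
  have qT := val_eTEG2 xA xD xV o S d v e 0 0
  have qA := val_eTA2 xA xD xV o S d v e 0 0
  have qAk := val_eTAk xA xD xV o S d v 0 e 0
  have qAw := val_eTAw xA xD xV o S d v 0 e 0
  have qGk := val_eTMGk xA xD xV o S d v 0 e 0
  have qGw := val_eTMGw xA xD xV o S d v 0 e 0
  have qMk := val_eTMEk xA xD xV o S d v 0 e 0
  have qMw := val_eTMEw xA xD xV o S d v 0 e 0
  simp only [val_xA, Ex.val, forms_G (e := e), forms_T, forms_A, forms_N, forms_M, Forms.G,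
    Forms.T, Forms.A, Forms.N, Forms.M] at qG qMG qT qA qAk qAw qGk qGw qMk qMw
  simp only [hVG, hVMG, hAk, hAw, hGk, hGw, hMk, hMw, ex_mul, Ex.val] at sG sMG sAk sAw sGk sGw sMk sMw
  push_cast at sG sMG sAk sAw sGk
  simp only [Piece.hV2p, Piece.hV2m, Piece.hV3p, Piece.hV3m, ex_add, ex_sub, ex_mul, val_CQ, ve,
    Ex.val] at v2p v2m v3p v3m
  push_cast at v2p v2m v3p v3m
  have e2G : (eTGG2 xA xD xV).val o S d v = (forms ((S - d) / 2) d v e).g₂ := by
    linarith only [qG]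
  have e2T : (eTEG2 xA xD xV).val o S d v = (forms ((S - d) / 2) d v e).h₂ := by
    linarith only [qT]
  have e2A : (eTA2 xA xD xV).val o S d v = (forms ((S - d) / 2) d v e).a₂ := by
    linarith only [qA]
  rw [e2G, e2T] at v2p v2m
  rw [e2A, e2T] at v3p v3m
  refine ⟨?_, ?_, ?_, ?_, ?_, ?_, ?_, ?_, ?_, ?_, ?_, ?_⟩ <;>
    (try simp only [Piece.bnds]) <;>
    linarith only [qG, qMG, qAk, qAw, qGk, qGw, qMk, qMw, sG, sMG, sAk, sAw, sGk, sGw, sMk, sMw,
      v2p, v2m, v3p, v3m]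

end

/-- **The closed signs on a checked piece.** -/
theorem Piece.signs {P : Piece} (hP : P.Checked) (hC : Common) (hb : ChartBox d S)
    (hd : 3 / 25 ≤ d) (u0 : 0 < u) (u1 : u ≤ 3 / 5) (hf : ChartFacts d S u v t)
    (hphi : v < 67 / 100 - 29 / 100 * d + (18 / 25 - 3 / 25 * d) * u +
      (13 / 50 + 3 / 100 * d) * u ^ 2 / (483 / 500 - u))
    (hL : rTL d u < t) (hU : t < rTU d u) (hv0 : (P.lo : ℝ) / 1000 ≤ v)
    (hv1 : v < (P.hi : ℝ) / 1000) : ChartSigns d S u v t := by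
  have hSb := hb.S_low
  have hSh := hb.S_high
  have hdd := hb.diff
  have mS : Side.Mem ⟨600, 606, 1000⟩ S :=
    mem_side (by norm_num; linarith) (by norm_num; linarith)
  have mD : Side.Mem ⟨120, 201, 1000⟩ d :=
    mem_side (by norm_num; linarith) (by norm_num; linarith)
  have mV : Side.Mem ⟨P.lo, P.hi, 1000⟩ v := mem_side hv0 hv1
  have mW : Side.Mem ⟨350, 1322, 1000⟩ v := by
    have h1 : (350 : ℝ) ≤ P.lo := by exact_mod_cast hP.lo_ge
    have h2 : (P.hi : ℝ) ≤ 1322 := by exact_mod_cast hP.hi_le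
    refine mem_side ?_ ?_ <;> push_cast <;> linarith
  have hH := hf.H_pos
  have hdH : d * u * chH d S u v t < 1 := by
    have h1 := mul_lt_mul_of_pos_left hf.u_lt (mul_pos hb.pos hH)
    have := hf.h_lt
    linarith
  have hdv : 0 ≤ d * v := mul_nonneg hb.pos.le (by have := hf.v_low; linarith)
  have hY : 0 < 2 + d * v - d * u * chH d S u v t := by linarith
  obtain ⟨hp0, hpU, heL, heH, hkL, hkU, hwL, hwU⟩ :=
    Piece.bounds hP hC mS mD mV u0 u1 hY hf.drift hphi hL hU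
  have hg : 0 < chG d S u v t := by
    have h1 : 0 < 2 * S * (1 - (S - d) / 2 * v) / ((1 - S) * ((S + d) / 2)) :=
      div_pos (mul_pos (by linarith) (by have := hf.r_lt; linarith))
        (mul_pos (by linarith) (by linarith))
    have h2 : 0 < chG d S u v t * chH d S u v t := by have := hf.drift; linarith
    exact pos_of_mul_pos_left h2 hH.le
  have hW : 0 < chW d S u v t := mul_pos (div_pos (by linarith) (by linarith)) hH
  obtain ⟨hq, hllg⟩ := llg_nonneg hC mS mD mW u0 u1 hH hU (chG d S u v t) (chW1 d S u v t)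
  have hE : eVal d v (chW d S u v t) (chR S u) < 0 := by
    have eR : chR S u * chW d S u v t = u * chH d S u v t := by
      have : S ≠ 0 := by linarith
      have : (1 - S) ≠ 0 := by linarith
      simp only [chR, chW]
      field_simp
    have h1 := mul_le_mul hq.le (show 9 * d - 1 / 20 ≤ 2 by linarith) (by linarith) (by norm_num)
    have h2 : 0 ≤ v * (1 / 20 + d) := mul_nonneg (by have := hf.v_low; linarith) (by linarith)
    rw [eVal, eR]
    linarith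
  set g := chG d S u v t
  set W := chW d S u v t
  set W1 := chW1 d S u v t
  set R := chR S u
  set E := eVal d v W R
  set K := kVal d W R
  set a := (S - d) / 2 with ha
  have hp : 0 < g * W := mul_pos hg hW
  have he : g * E < 0 := mul_neg_of_pos_of_neg hg hE
  set p := g * W
  set e := g * E with hedef
  set k := g * K with hkdef
  set w := g * W1 with hwdef
  set o := (e - P.eL.at S d v) / (P.eH.at S d v - P.eL.at S d v) with ho
  have ho0 : 0 ≤ o := div_nonneg (by linarith) (by linarith)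
  have ho1 : o ≤ 1 := (div_le_one (by linarith)).2 (by linarith)
  have ve : P.xE.val o S d v = e := by
    rw [val_xE, ho, div_mul_cancel₀ _ (show P.eH.at S d v - P.eL.at S d v ≠ 0 by linarith)]
    ring
  have get : ∀ {T : Ex}, PosBox P.box T → 0 < T.val o S d v := fun h =>
    h o S d v (mem_unit ho0 ho1) mS mD mV
  have getC : ∀ {T : Ex}, PosBox wholeBox T → 0 < T.val o S d v := fun h =>
    h o S d v (mem_unit ho0 ho1) mS mD mW
  have hc := Piece.coefOk hC mS mD mW (mem_unit ho0 ho1) ve (get hP.v2p) (get hP.v2m)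
    (get hP.v3p) (get hP.v3m)
  have h0 := Piece.endOk xP0 ve (get hP.gLo) (get hP.mLo) (get hP.c1Lo) (get hP.c2pLo)
    (get hP.c2mLo) (get hP.c3pLo) (get hP.c3mLo) (get hP.tmgLo)
  have h1 := Piece.endOk P.xPU ve (get hP.gHi) (get hP.mHi) (get hP.c1Hi) (get hP.c2pHi)
    (get hP.c2mHi) (get hP.c3pHi) (get hP.c3mHi) (get hP.tmgHi)
  rw [val_xP0] at h0
  rw [show P.xPU.val o S d v = P.pU.at S d v e by rw [Piece.xPU, val_CQ, ve]] at h1
  have hm := EndOk.between _ _ h0 h1 hc hp0.le hpU.le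
  have hs : 0 < (P.bnds S d v e).s :=
    mul_pos (by rw [← ha]; linarith only [hSh, ha]) (neg_pos.2 he)
  obtain ⟨hN, hT⟩ := EndOk.core _ _ (k := k) (w := w) (o := 1 + d * v) hm hc (by linarith only [hdv])
    hp hs hkL.le hkU.le hwL.le hwU.le
  refine ⟨?_, hW, hE, ?_, ?_, hllg⟩
  · show 0 < TGG a d v g W W1 R E K
    rw [TGG_expand]; exact hm.hG
  · show 0 < TArrow a d v g W W1 R E K
    refine pos_of_mul_pos_right (a := g ^ 2) ?_ (sq_nonneg g)
    rw [TArrow_scale, TGG_expand, TEG_expand, TA_expand, TME_expand,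
      show (1 - 2 * a - d) * (g * W) * -(g * E) = (P.bnds S d v e).s * p by
        simp only [Piece.bnds]; ring,
      show 625 * d ^ 2 * v ^ 2 * (1 + d * v) = (P.bnds S d v e).c by
        simp only [Piece.bnds]; ring]
    exact hT
  · show 0 ≤ TMG a d v g W W1 R E K
    rw [TMG_expand]; exact hN

end

end Vale.Agent.P100.Calib.Closed.Large
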