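import Vale.Agent.P100.Calib.SlabAllEndForms
import Vale.Agent.P100.Calib.SlabChartAll
import Vale.Agent.P100.Pack.Fast

/-!
# The chart near `u = 1` in polynomial coordinates

Coordinates `a = 1/(p+1)`, `I = 1/N`, `w = 1 - u`, `X = d v` and `η = 1 - d H`: the arguments of the
closed signs are fractions over the atoms `a, I, S, b, d, u, X, 1 + X, 2 + X - u (1 - η)`.
-/

set_option linter.unusedVariables false
set_option linter.unusedSectionVars false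

namespace Vale.Agent.P100.Calib.LowEnd

open Pack EndAll

/-- The five coordinates. -/
abbrev xA : Ex := .var 0
abbrev xI : Ex := .var 1
abbrev xW : Ex := .var 2
abbrev xX : Ex := .var 3
abbrev xH : Ex := .var 4

/-- `S`. -/
def eS : Ex := .sub (.num 1) (.mul (.num 2) xI)
/-- `b`. -/
def eB : Ex := .sub eS xA
/-- `d`. -/
def eD : Ex := .sub eB xA
/-- `u`. -/
def eU : Ex := .sub (.num 1) xW
/-- `1 + X`. -/
def eQ : Ex := .add (.num 1) xX
/-- `2 + X - u (1 - η)`. -/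
def eDen : Ex := .sub (.add (.num 2) xX) (.mul eU (.sub (.num 1) xH))

/-- The atoms. -/
def atoms : List (List Ex) := [[xA], [xI], [eS], [eB], [eD], [eU], [xX], [eQ], [eDen]]

/-! ### The arguments -/

noncomputable def vS (I : ℝ) : ℝ := 1 - 2 * I
noncomputable def vB (a I : ℝ) : ℝ := vS I - a
noncomputable def vD (a I : ℝ) : ℝ := vB a I - a
noncomputable def vDen (w X η : ℝ) : ℝ := 2 + X - (1 - w) * (1 - η)
noncomputable def vV (a I X : ℝ) : ℝ := X / vD a I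
noncomputable def vH (a I η : ℝ) : ℝ := (1 - η) / vD a I
noncomputable def vG (a I w X η : ℝ) : ℝ :=
  2 * ((2 + X) * vB a I - vS I * (1 - w) * (1 + X)) / I / vB a I / vDen w X η
noncomputable def vW (a I η : ℝ) : ℝ := 2 * I * vH a I η / vS I
noncomputable def vW1 (a I w X η : ℝ) : ℝ :=
  2 * I * (vH a I η * (a - (1 - a) * X) / vB a I -
    (1 + 2 * I) * ((vH a I η - vS I * (1 + (1 - a) * vV a I X) / vB a I / (1 + 2 * I)) / (1 - w)) /
      vS I) / vS I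
noncomputable def vR (I w : ℝ) : ℝ := (1 - w) * vS I / 2 / I
noncomputable def vG1 (a I w X η : ℝ) : ℝ :=
  -(3 / 10) * a * ((w + (1 - w) * η) / (1 + X)) / vB a I / vD a I / vD a I

/-- The numbers of the family; `k` is the excess `kap + 1` of the exponent. -/
noncomputable def vNum (k a I w X η : ℝ) : ClosedGen.Num :=
  ⟨a * vB a I, -(1 - 2 * a - I / 2) * I,
    (-2 * (1 - 3 * I - 2 * a * a) * I * (1 + X) + -(5 / 2) * (w + (1 - w) * η)) / vD a I,
    -(5 / 2) * (w + (1 - w) * η),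
    vG1 a I w X η - a * (1 - 3 * a - I) * I / vD a I / vD a I,
    vG1 a I w X η,
    k / vD a I / vD a I⟩

/-- The excess of the exponent away from the corner. -/
noncomputable def vK (a I : ℝ) : ℝ := 1 - 2 * a * (1 - I) / vS I / vS I

/-- A closed form in these coordinates. -/
noncomputable def vForm (f : ℝ → ℝ → ℝ → ℝ → ℝ → ℝ → ℝ → ClosedGen.Num → ℝ)
    (k a I w X η : ℝ) : ℝ :=
  f a (vD a I) (vV a I X) (vG a I w X η) (vW a I η) (vW1 a I w X η) (vR I w) (vNum k a I w X η)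

/-! ### Their fractions -/

def fadd (F G : Fn) : Fn := Fn.add atoms F G
def fsub (F G : Fn) : Fn := Fn.sub atoms F G
def fp (e : Ex) : Fn := Fn.poly [e]
def fa : Fn := Fn.inv 0 (-1)
def fI : Fn := Fn.inv 1 (-1)
def fiI : Fn := Fn.inv 1 1
def fS : Fn := Fn.inv 2 (-1)
def fiS : Fn := Fn.inv 2 1
def fb : Fn := Fn.inv 3 (-1)
def fib : Fn := Fn.inv 3 1
def fd : Fn := Fn.inv 4 (-1)
def fid : Fn := Fn.inv 4 1
def fu : Fn := Fn.inv 5 (-1)
def fiu : Fn := Fn.inv 5 1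
def fX : Fn := Fn.inv 6 (-1)
def fiQ : Fn := Fn.inv 7 1
def fiDen : Fn := Fn.inv 8 1
def fv : Fn := Fn.mul fX fid
def fH : Fn := Fn.mul (fsub (Fn.int 1) (fp xH)) fid
def fg : Fn :=
  Fn.mul (Fn.mul (Fn.mul (Fn.mul (Fn.int 2)
    (fsub (Fn.mul (fadd (Fn.int 2) fX) fb) (Fn.mul (Fn.mul fS fu) (fadd (Fn.int 1) fX)))) fiI) fib)
    fiDen
def fW : Fn := Fn.mul (Fn.mul (Fn.mul (Fn.int 2) fI) fH) fiS
def fW1 : Fn :=
  Fn.mul (Fn.mul (Fn.mul (Fn.int 2) fI)
    (fsub (Fn.mul (Fn.mul fH (fsub fa (Fn.mul (fsub (Fn.int 1) fa) fX))) fib)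
      (Fn.mul (Fn.mul (fsub (Fn.mul (fadd (Fn.int 1) (Fn.mul (Fn.int 2) fI)) fH)
        (Fn.mul (Fn.mul fS (fadd (Fn.int 1) (Fn.mul (fsub (Fn.int 1) fa) fv))) fib)) fiu) fiS)))
    fiS
def fR : Fn := Fn.mul (Fn.divNat (Fn.mul fu fS) 2) fiI
def fh0 : Fn := fadd (fp xW) (Fn.mul fu (fp xH))
def fK : Fn := Fn.mul (Fn.neg (Fn.divNat (Fn.int 5) 2)) fh0
def fE : Fn :=
  Fn.mul (fadd (Fn.mul (Fn.mul (Fn.mul (Fn.neg (Fn.int 2))
    (fsub (fsub (Fn.int 1) (Fn.mul (Fn.int 3) fI)) (Fn.mul (Fn.mul (Fn.int 2) fa) fa))) fI)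
    (fadd (Fn.int 1) fX)) fK) fid
def fG1 : Fn :=
  Fn.mul (Fn.mul (Fn.mul (Fn.mul (Fn.mul (Fn.neg (Fn.divNat (Fn.int 3) 10)) fa)
    (Fn.mul fh0 fiQ)) fib) fid) fid
def fc : Fn := Fn.mul fa fb
def fe2 : Fn :=
  Fn.mul (Fn.neg (fsub (fsub (Fn.int 1) (Fn.mul (Fn.int 2) fa)) (Fn.divNat fI 2))) fI
def fG : Fn :=
  fsub fG1 (Fn.mul (Fn.mul (Fn.mul (Fn.mul fa
    (fsub (fsub (Fn.int 1) (Fn.mul (Fn.int 3) fa)) fI)) fI) fid) fid)
/-- The excess away from the corner. -/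
def fk : Fn := fsub (Fn.int 1) (Fn.mul (Fn.mul (Fn.mul (Fn.mul (Fn.int 2) fa)
  (fsub (Fn.int 1) fI)) fiS) fiS)
def fD (k : Fn) : Fn := Fn.mul (Fn.mul k fid) fid

/-- A point of the chart. -/
structure Pt (x : ℕ → ℝ) : Prop where
  a_pos : 0 < x 0
  I_pos : 0 < x 1
  d_pos : 0 < vD (x 0) (x 1)
  w_lt : x 2 < 1
  X_pos : 0 < x 3
  eta_nonneg : 0 ≤ x 4
  w_nonneg : 0 ≤ x 2

variable {x : ℕ → ℝ}

theorem bv1 (e : Ex) : bv x 0 [e] = e.eval x := by simp [bv]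

namespace Pt

variable (h : Pt x)
include h

theorem b_pos : 0 < vB (x 0) (x 1) := by
  have h1 := h.d_pos; have := h.a_pos; unfold vD at h1; linarith

theorem S_pos : 0 < vS (x 1) := by
  have h1 := h.b_pos; have := h.a_pos; unfold vB at h1; linarith

theorem u_pos : 0 < 1 - x 2 := sub_pos.2 h.w_lt

theorem den_pos : 0 < vDen (x 2) (x 3) (x 4) := by
  have h1 : (1 - x 2) * (1 - x 4) ≤ 1 := by
    rcases le_total (x 4) 1 with h2 | h2
    · exact mul_le_one₀ (by linarith [h.w_nonneg]) (by linarith) (by linarith [h.eta_nonneg])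
    · exact le_trans (mul_nonpos_of_nonneg_of_nonpos h.u_pos.le (by linarith)) zero_le_one
  have := h.X_pos
  unfold vDen; linarith

theorem pos : AtomsPos atoms x 0 := by
  intro l hl
  simp only [atoms, List.mem_cons, List.not_mem_nil, or_false] at hl
  have h1 := h.a_pos; have h2 := h.I_pos; have h3 := h.S_pos; have h4 := h.b_pos
  have h5 := h.d_pos; have h6 := h.u_pos; have h7 := h.X_pos; have h8 := h.den_pos
  simp only [vS, vB, vD, vDen] at h3 h4 h5 h8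
  rcases hl with rfl | rfl | rfl | rfl | rfl | rfl | rfl | rfl | rfl <;>
    simp [bv1, eS, eB, eD, eU, eQ, eDen, Ex.eval] <;> linarith

theorem ratom (i : ℕ) {l : List Ex} {r : ℝ} (hl : atoms[i]? = some l) (e : bv x 0 l = r) :
    Rep atoms x 0 (Fn.inv i (-1)) r := by
  have := Rep.inv h.pos i (-1) hl
  rwa [e, zpow_neg_one, one_div, inv_inv] at this

theorem rinv (i : ℕ) {l : List Ex} {r : ℝ} (hl : atoms[i]? = some l) (e : bv x 0 l = r) :
    Rep atoms x 0 (Fn.inv i 1) r⁻¹ := by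
  have := Rep.inv h.pos i 1 hl
  rwa [e, zpow_one, one_div] at this

theorem rw' : Rep atoms x 0 (fp xW) (x 2) := by
  simpa [fp, bv1, Ex.eval] using Rep.poly h.pos [xW]
theorem rη : Rep atoms x 0 (fp xH) (x 4) := by
  simpa [fp, bv1, Ex.eval] using Rep.poly h.pos [xH]
theorem ra : Rep atoms x 0 fa (x 0) := h.ratom 0 rfl (by simp [bv1, Ex.eval])
theorem rI : Rep atoms x 0 fI (x 1) := h.ratom 1 rfl (by simp [bv1, Ex.eval])
theorem riI : Rep atoms x 0 fiI (x 1)⁻¹ := h.rinv 1 rfl (by simp [bv1, Ex.eval])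
theorem eval_S : bv x 0 [eS] = vS (x 1) := by simp [bv1, eS, vS, Ex.eval]
theorem eval_B : bv x 0 [eB] = vB (x 0) (x 1) := by simp [bv1, eB, eS, vB, vS, Ex.eval]
theorem eval_D : bv x 0 [eD] = vD (x 0) (x 1) := by simp [bv1, eD, eB, eS, vD, vB, vS, Ex.eval]
theorem eval_U : bv x 0 [eU] = 1 - x 2 := by simp [bv1, eU, Ex.eval]
theorem rS : Rep atoms x 0 fS (vS (x 1)) := h.ratom 2 rfl h.eval_S
theorem riS : Rep atoms x 0 fiS (vS (x 1))⁻¹ := h.rinv 2 rfl h.eval_S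
theorem rb : Rep atoms x 0 fb (vB (x 0) (x 1)) := h.ratom 3 rfl h.eval_B
theorem rib : Rep atoms x 0 fib (vB (x 0) (x 1))⁻¹ := h.rinv 3 rfl h.eval_B
theorem rd : Rep atoms x 0 fd (vD (x 0) (x 1)) := h.ratom 4 rfl h.eval_D
theorem rid : Rep atoms x 0 fid (vD (x 0) (x 1))⁻¹ := h.rinv 4 rfl h.eval_D
theorem ru : Rep atoms x 0 fu (1 - x 2) := h.ratom 5 rfl h.eval_U
theorem riu : Rep atoms x 0 fiu (1 - x 2)⁻¹ := h.rinv 5 rfl h.eval_U
theorem rX : Rep atoms x 0 fX (x 3) := h.ratom 6 rfl (by simp [bv1, Ex.eval])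
theorem riQ : Rep atoms x 0 fiQ (1 + x 3)⁻¹ := h.rinv 7 rfl (by simp [bv1, eQ, Ex.eval])
theorem riDen : Rep atoms x 0 fiDen (vDen (x 2) (x 3) (x 4))⁻¹ :=
  h.rinv 8 rfl (by simp [bv1, eDen, eU, vDen, Ex.eval])

theorem one' : Rep atoms x 0 (Fn.int 1) (1 : ℝ) := Rep.lit_one h.pos
theorem two' : Rep atoms x 0 (Fn.int 2) (2 : ℝ) := Rep.natLit h.pos 2
theorem three' : Rep atoms x 0 (Fn.int 3) (3 : ℝ) := Rep.natLit h.pos 3

theorem rv : Rep atoms x 0 fv (vV (x 0) (x 1) (x 3)) := by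
  have := h.rX.mul h.rid
  rwa [← div_eq_mul_inv] at this

theorem rH : Rep atoms x 0 fH (vH (x 0) (x 1) (x 4)) := by
  have := (h.one'.sub h.rη).mul h.rid
  rwa [← div_eq_mul_inv] at this

theorem rg : Rep atoms x 0 fg (vG (x 0) (x 1) (x 2) (x 3) (x 4)) := by
  have := (((h.two'.mul (((h.two'.add h.rX).mul h.rb).sub
    ((h.rS.mul h.ru).mul (h.one'.add h.rX)))).mul h.riI).mul h.rib).mul h.riDen
  simp only [vG, div_eq_mul_inv] at this ⊢; exact this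

theorem rW : Rep atoms x 0 fW (vW (x 0) (x 1) (x 4)) := by
  have := ((h.two'.mul h.rI).mul h.rH).mul h.riS
  simp only [vW, div_eq_mul_inv] at this ⊢; exact this

theorem rW1 : Rep atoms x 0 fW1 (vW1 (x 0) (x 1) (x 2) (x 3) (x 4)) := by
  have := ((h.two'.mul h.rI).mul (((h.rH.mul (h.ra.sub ((h.one'.sub h.ra).mul h.rX))).mul
    h.rib).sub (((((h.one'.add (h.two'.mul h.rI)).mul h.rH).sub
      ((h.rS.mul (h.one'.add ((h.one'.sub h.ra).mul h.rv))).mul h.rib)).mul h.riu).mul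
        h.riS))).mul h.riS
  have hI : (1 : ℝ) + 2 * x 1 ≠ 0 := by linarith [h.I_pos]
  refine (congrArg (Rep atoms x 0 fW1) ?_).mp this
  simp only [vW1, vV]
  field_simp

theorem rR : Rep atoms x 0 fR (vR (x 1) (x 2)) := by
  have := ((h.ru.mul h.rS).divLit 2).mul h.riI
  simp only [vR, div_eq_mul_inv] at this ⊢; exact this

theorem rh0 : Rep atoms x 0 fh0 (x 2 + (1 - x 2) * x 4) := h.rw'.add (h.ru.mul h.rη)

theorem rK : Rep atoms x 0 fK (-(5 / 2) * (x 2 + (1 - x 2) * x 4)) :=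
  ((Rep.natLit h.pos 5).divLit 2).neg.mul h.rh0

variable {k : ℝ}

theorem rE : Rep atoms x 0 fE (vNum k (x 0) (x 1) (x 2) (x 3) (x 4)).E := by
  have := ((((h.two'.neg.mul ((h.one'.sub (h.three'.mul h.rI)).sub
    ((h.two'.mul h.ra).mul h.ra))).mul h.rI).mul (h.one'.add h.rX)).add h.rK).mul h.rid
  simp only [vNum, div_eq_mul_inv] at this ⊢; exact this

theorem rG1 : Rep atoms x 0 fG1 (vG1 (x 0) (x 1) (x 2) (x 3) (x 4)) := by
  have := ((((((Rep.natLit h.pos 3).divLit 10).neg.mul h.ra).mul (h.rh0.mul h.riQ)).mul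
    h.rib).mul h.rid).mul h.rid
  simp only [vG1, div_eq_mul_inv] at this ⊢; exact this

theorem rc : Rep atoms x 0 fc (vNum k (x 0) (x 1) (x 2) (x 3) (x 4)).c := h.ra.mul h.rb

theorem re2 : Rep atoms x 0 fe2 (vNum k (x 0) (x 1) (x 2) (x 3) (x 4)).e2 :=
  ((h.one'.sub (h.two'.mul h.ra)).sub (h.rI.divLit 2)).neg.mul h.rI

theorem rG : Rep atoms x 0 fG (vNum k (x 0) (x 1) (x 2) (x 3) (x 4)).G := by
  have := h.rG1.sub (((((h.ra.mul ((h.one'.sub (h.three'.mul h.ra)).sub h.rI)).mul h.rI).mul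
    h.rid).mul h.rid))
  simp only [vNum, div_eq_mul_inv] at this ⊢; exact this

theorem rk : Rep atoms x 0 fk (vK (x 0) (x 1)) := by
  have := h.one'.sub ((((h.two'.mul h.ra).mul (h.one'.sub h.rI)).mul h.riS).mul h.riS)
  simp only [vK, div_eq_mul_inv] at this ⊢; exact this

theorem rD {fK' : Fn} (hk : Rep atoms x 0 fK' k) :
    Rep atoms x 0 (fD fK') (vNum k (x 0) (x 1) (x 2) (x 3) (x 4)).D2 := by
  have := (hk.mul h.rid).mul h.rid
  simp only [vNum, div_eq_mul_inv] at this ⊢; exact this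

end Pt

end Vale.Agent.P100.Calib.LowEnd
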