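import Vale.Agent.P100.Calib.SlabLowEndC0CoverA

/-!
# The cover of corner root 0
-/

set_option maxRecDepth 100000
-- the heavy checks are definitions, so that they are checked one after another
set_option linter.defProp false

namespace Vale.Agent.P100.Calib.LowEnd

open Pack Band

theorem c0_node0 :
    Sound c0R [(0, 1, 1), (0, 1, 1), (0, 19, 32), (0, 1, 2), (0, 1, 1)] :=
  sound_node (j := 4) (by decide) c0_leaf0 c0_leaf2

theorem c0_node1 :
    Sound c0R [(0, 1, 1), (0, 1, 1), (0, 19, 32), (1, 2, 2), (0, 1, 1)] :=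
  sound_node (j := 4) (by decide) c0_leaf1 c0_leaf3

theorem c0_node2 :
    Sound c0R [(0, 1, 1), (0, 1, 1), (0, 19, 32), (0, 1, 1), (0, 1, 1)] :=
  sound_node (j := 3) (by decide) c0_node0 c0_node1

theorem c0_node3 :
    Sound c0R [(0, 1, 1), (0, 1, 1), (19, 32, 32), (0, 1, 2), (3, 4, 4)] :=
  sound_node (j := 3) (by decide) c0_leaf6 c0_leaf7

theorem c0_node4 :
    Sound c0R [(0, 1, 1), (0, 1, 1), (19, 32, 32), (0, 1, 2), (1, 2, 2)] :=
  sound_node (j := 4) (by decide) c0_leaf5 c0_node3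

theorem c0_node5 :
    Sound c0R [(0, 1, 1), (0, 1, 1), (19, 32, 32), (0, 1, 1), (1, 2, 2)] :=
  sound_node (j := 3) (by decide) c0_node4 c0_leaf8

theorem c0_node6 :
    Sound c0R [(0, 1, 1), (0, 1, 1), (19, 32, 32), (0, 1, 1), (0, 1, 1)] :=
  sound_node (j := 4) (by decide) c0_leaf4 c0_node5

theorem c0_sound :
    Sound c0R cube :=
  sound_node (j := 2) (by decide) c0_node2 c0_node6

end Vale.Agent.P100.Calib.LowEnd
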