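import Vale.Agent.P100.Calib.SlabLowEndC0Data

/-!
# Leaves of the cover of corner root 0
-/

set_option maxRecDepth 100000
-- the heavy checks are definitions, so that they are checked one after another
set_option linter.defProp false

namespace Vale.Agent.P100.Calib.LowEnd

open Pack Band

def c0_leaf0 :
    Sound c0R [(0, 1, 1), (0, 1, 1), (0, 19, 32), (0, 1, 2), (0, 1, 2)] :=
  sound_leafF (K := 201) (F := ⟨⟨2097152, (-213556), 109001, (-236941), 350669, 455935, 131653, 0, 0, 0⟩, (10, 0), (12, 88839898003882467413416), (10, 0), (10, 0), (10, 0)⟩) c0_ok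
    (by decide +kernel)

def c0_leaf1 :
    Sound c0R [(0, 1, 1), (0, 1, 1), (0, 19, 32), (1, 2, 2), (0, 1, 2)] :=
  sound_leafF (K := 201) (F := ⟨⟨4068475, (-206975), 88604, (-261547), 293629, 387170, 121479, 0, 0, 0⟩, (11, 1103424978957044812230624), (10, 0), (10, 0), (10, 0), (13, 2260246)⟩) c0_ok
    (by decide +kernel)

def c0_leaf2 :
    Sound c0R [(0, 1, 1), (0, 1, 1), (0, 19, 32), (0, 1, 2), (1, 2, 2)] :=
  sound_leafF (K := 201) (F := ⟨⟨38451282, (-305828), 131452, (-889864), 230657, 256554, 107677, 0, 0, 0⟩, (10, 0), (12, 216128923855235044807699), (10, 0), (10, 0), (10, 30046437)⟩) c0_ok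
    (by decide +kernel)

def c0_leaf3 :
    Sound c0R [(0, 1, 1), (0, 1, 1), (0, 19, 32), (1, 2, 2), (1, 2, 2)] :=
  sound_leafF (K := 200) (F := ⟨⟨55490642, (-210114), 234664, (-688992), 197863, 166797, 101446, 0, 0, 0⟩, (13, 410780512857120747037216), (10, 0), (10, 0), (10, 0), (13, 32221663)⟩) c0_ok
    (by decide +kernel)

def c0_leaf4 :
    Sound c0R [(0, 1, 1), (0, 1, 1), (19, 32, 32), (0, 1, 1), (0, 1, 2)] :=
  sound_leafF (K := 195) (F := ⟨⟨14543749, (-237501), 141087, (-678033), 336496, 499161, 127358, 0, 0, 0⟩, (11, 1214025967860342018945535), (11, 750300866831804873301364), (10, 0), (10, 0), (11, 5656820)⟩) c0_ok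
    (by decide +kernel)

def c0_leaf5 :
    Sound c0R [(0, 1, 1), (0, 1, 1), (19, 32, 32), (0, 1, 2), (2, 3, 4)] :=
  sound_leafF (K := 208) (F := ⟨⟨43065016, (-469196), 210115, (-1728277), 268341, 327584, 124147, 0, 0, 0⟩, (12, 223455642963525897213589), (12, 455322139487227555911215), (10, 0), (10, 0), (10, 0)⟩) c0_ok
    (by decide +kernel)

def c0_leaf6 :
    Sound c0R [(0, 1, 1), (0, 1, 1), (19, 32, 32), (0, 1, 4), (3, 4, 4)] :=
  sound_leafF (K := 213) (F := ⟨⟨38535168, (-329993), 134925, (-1421946), 236755, 313512, 110033, 0, 0, 0⟩, (10, 0), (10, 0), (10, 0), (10, 0), (10, 13487305)⟩) c0_ok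
    (by decide +kernel)

def c0_leaf7 :
    Sound c0R [(0, 1, 1), (0, 1, 1), (19, 32, 32), (1, 2, 4), (3, 4, 4)] :=
  sound_leafF (K := 213) (F := ⟨⟨75528929, (-518439), 331380, (-1412751), 222218, 232088, 98088, 0, 0, 0⟩, (10, 0), (10, 0), (10, 0), (10, 0), (10, 24342139)⟩) c0_ok
    (by decide +kernel)

def c0_leaf8 :
    Sound c0R [(0, 1, 1), (0, 1, 1), (19, 32, 32), (1, 2, 2), (1, 2, 2)] :=
  sound_leafF (K := 201) (F := ⟨⟨58164511, (-236351), 280988, (-707507), 194712, 166253, 100648, 0, 0, 0⟩, (13, 222648768848161868004372), (10, 0), (10, 0), (10, 0), (13, 22358571)⟩) c0_ok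
    (by decide +kernel)

end Vale.Agent.P100.Calib.LowEnd
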