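import Vale.Agent.P100.Calib.SlabLowEndC0Data

/-!
# The slots of corner root 0 are within their tolerances
-/

set_option maxRecDepth 100000
-- the heavy checks are definitions, so that they are checked one after another
set_option linter.defProp false

namespace Vale.Agent.P100.Calib.LowEnd

open Pack Band

def c0_slot0 : checkSlot c0B c0P.sig 56 c0D0 c0T0 = true := by decide +kernel

def c0_slot1 : checkSlot c0B c0P.sig 56 c0D1 c0T1 = true := by decide +kernel

def c0_slot2 : checkSlot c0B c0P.sig 56 c0D2 c0T2 = true := by decide +kernel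

def c0_slot3 : checkSlot c0B c0P.sig 56 c0D3 c0T3 = true := by decide +kernel

def c0_slot4 : checkSlot c0B c0P.sig 56 c0D4 c0T4 = true := by decide +kernel

def c0_slot5 : checkSlot c0B c0P.sig 56 c0D5 c0T5 = true := by decide +kernel

def c0_slot6 : checkSlot c0B c0P.sig 56 c0D6 c0T6 = true := by decide +kernel

def c0_slot7 : checkSlot c0B c0P.sig 56 c0D7 c0T7 = true := by decide +kernel

def c0_slot8 : checkSlot c0B c0P.sig 56 c0D8 c0T8 = true := by decide +kernel

def c0_slot9 : checkSlot c0B c0P.sig 56 c0D9 c0T9 = true := by decide +kernel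

def c0_slot10 : checkSlot c0B c0P.sig 56 c0D10 c0T10 = true := by decide +kernel

def c0_slot11 : checkSlot c0B c0P.sig 56 c0D11 c0T11 = true := by decide +kernel

def c0_slot12 : checkSlot c0B c0P.sig 56 c0D12 c0T12 = true := by decide +kernel

def c0_slot13 : checkSlot c0B c0P.sig 56 c0D13 c0T13 = true := by decide +kernel

theorem c0_near {x y : ℕ → ℝ} (hx : InBox c0B x) (hc : Coord c0P.sig x y) :
    Near c0R y (valueAt c0L x) :=
  near_root rfl (fun q hq => by
    simp only [c0L, List.length_cons, List.length_nil] at hq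
    interval_cases q
    · exact ⟨_, c0_slot0⟩
    · exact ⟨_, c0_slot1⟩
    · exact ⟨_, c0_slot2⟩
    · exact ⟨_, c0_slot3⟩
    · exact ⟨_, c0_slot4⟩
    · exact ⟨_, c0_slot5⟩
    · exact ⟨_, c0_slot6⟩
    · exact ⟨_, c0_slot7⟩
    · exact ⟨_, c0_slot8⟩
    · exact ⟨_, c0_slot9⟩
    · exact ⟨_, c0_slot10⟩
    · exact ⟨_, c0_slot11⟩
    · exact ⟨_, c0_slot12⟩
    · exact ⟨_, c0_slot13⟩
  ) hx hc

end Vale.Agent.P100.Calib.LowEnd
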