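import Vale.Agent.P100.Calib.SlabLowEndC1Data

/-!
# Leaves of the cover of corner root 1
-/

set_option maxRecDepth 100000
-- the heavy checks are definitions, so that they are checked one after another
set_option linter.defProp false

namespace Vale.Agent.P100.Calib.LowEnd

open Pack Band

def c1_leaf16 :
    Sound c1R [(0, 1, 1), (0, 1, 1), (19, 32, 32), (1, 2, 2), (2, 3, 4)] :=
  sound_leafF (K := 207) (F := ⟨⟨65798144, (-443288), 241149, (-1337243), 238027, 94787, 41913, 0, 0, 0⟩, (11, 1593552573338990838896727), (13, 648749048099333138570451), (10, 0), (10, 0), (13, 20759106)⟩) c1_ok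
    (by decide +kernel)

def c1_leaf17 :
    Sound c1R [(0, 1, 1), (0, 1, 1), (19, 32, 32), (1, 2, 2), (3, 4, 4)] :=
  sound_empty (K := 125) (q := 13) c1_ok (by decide +kernel)

end Vale.Agent.P100.Calib.LowEnd
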