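import Vale.Agent.P100.Calib.SlabLowEndC1CoverA
import Vale.Agent.P100.Calib.SlabLowEndC1CoverB

/-!
# The cover of corner root 1
-/

set_option maxRecDepth 100000
-- the heavy checks are definitions, so that they are checked one after another
set_option linter.defProp false

namespace Vale.Agent.P100.Calib.LowEnd

open Pack Band

theorem c1_node0 :
    Sound c1R [(0, 1, 1), (0, 1, 1), (0, 19, 32), (0, 1, 2), (0, 1, 2)] :=
  sound_node (j := 4) (by decide) c1_leaf0 c1_leaf1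

theorem c1_node1 :
    Sound c1R [(0, 1, 1), (0, 1, 1), (0, 19, 32), (0, 1, 2), (2, 3, 4)] :=
  sound_node (j := 3) (by decide) c1_leaf4 c1_leaf5

theorem c1_node2 :
    Sound c1R [(0, 1, 1), (0, 1, 1), (0, 19, 32), (0, 1, 2), (1, 2, 2)] :=
  sound_node (j := 4) (by decide) c1_node1 c1_leaf6

theorem c1_node3 :
    Sound c1R [(0, 1, 1), (0, 1, 1), (0, 19, 32), (0, 1, 2), (0, 1, 1)] :=
  sound_node (j := 4) (by decide) c1_node0 c1_node2

theorem c1_node4 :
    Sound c1R [(0, 1, 1), (0, 1, 1), (0, 19, 32), (1, 2, 2), (0, 1, 2)] :=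
  sound_node (j := 4) (by decide) c1_leaf2 c1_leaf3

theorem c1_node5 :
    Sound c1R [(0, 1, 1), (0, 1, 1), (0, 19, 32), (1, 2, 2), (1, 2, 2)] :=
  sound_node (j := 4) (by decide) c1_leaf7 c1_leaf8

theorem c1_node6 :
    Sound c1R [(0, 1, 1), (0, 1, 1), (0, 19, 32), (1, 2, 2), (0, 1, 1)] :=
  sound_node (j := 4) (by decide) c1_node4 c1_node5

theorem c1_node7 :
    Sound c1R [(0, 1, 1), (0, 1, 1), (0, 19, 32), (0, 1, 1), (0, 1, 1)] :=
  sound_node (j := 3) (by decide) c1_node3 c1_node6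

theorem c1_node8 :
    Sound c1R [(0, 1, 1), (0, 1, 1), (19, 32, 32), (0, 1, 2), (0, 1, 2)] :=
  sound_node (j := 4) (by decide) c1_leaf9 c1_leaf10

theorem c1_node9 :
    Sound c1R [(0, 1, 1), (0, 1, 1), (19, 32, 32), (0, 1, 4), (1, 2, 2)] :=
  sound_node (j := 4) (by decide) c1_leaf12 c1_leaf14

theorem c1_node10 :
    Sound c1R [(0, 1, 1), (0, 1, 1), (19, 32, 32), (1, 2, 4), (1, 2, 2)] :=
  sound_node (j := 4) (by decide) c1_leaf13 c1_leaf15

theorem c1_node11 :
    Sound c1R [(0, 1, 1), (0, 1, 1), (19, 32, 32), (0, 1, 2), (1, 2, 2)] :=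
  sound_node (j := 3) (by decide) c1_node9 c1_node10

theorem c1_node12 :
    Sound c1R [(0, 1, 1), (0, 1, 1), (19, 32, 32), (0, 1, 2), (0, 1, 1)] :=
  sound_node (j := 4) (by decide) c1_node8 c1_node11

theorem c1_node13 :
    Sound c1R [(0, 1, 1), (0, 1, 1), (19, 32, 32), (1, 2, 2), (1, 2, 2)] :=
  sound_node (j := 4) (by decide) c1_leaf16 c1_leaf17

theorem c1_node14 :
    Sound c1R [(0, 1, 1), (0, 1, 1), (19, 32, 32), (1, 2, 2), (0, 1, 1)] :=
  sound_node (j := 4) (by decide) c1_leaf11 c1_node13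

theorem c1_node15 :
    Sound c1R [(0, 1, 1), (0, 1, 1), (19, 32, 32), (0, 1, 1), (0, 1, 1)] :=
  sound_node (j := 3) (by decide) c1_node12 c1_node14

theorem c1_sound :
    Sound c1R cube :=
  sound_node (j := 2) (by decide) c1_node7 c1_node15

end Vale.Agent.P100.Calib.LowEnd
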