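import Vale.Agent.P100.Calib.SlabLowEndC1Data

/-!
# Leaves of the cover of corner root 1
-/

set_option maxRecDepth 100000
-- the heavy checks are definitions, so that they are checked one after another
set_option linter.defProp false

namespace Vale.Agent.P100.Calib.LowEnd

open Pack Band

def c1_leaf0 :
    Sound c1R [(0, 1, 1), (0, 1, 1), (0, 19, 32), (0, 1, 2), (0, 1, 4)] :=
  sound_leafF (K := 207) (F := ⟨⟨0, (-322084), 97860, 0, 482057, 614475, 150864, 0, 0, 0⟩, (11, 912397842498536151141493), (12, 93192850001737921353624), (10, 0), (10, 0), (10, 0)⟩) c1_ok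
    (by decide +kernel)

def c1_leaf1 :
    Sound c1R [(0, 1, 1), (0, 1, 1), (0, 19, 32), (0, 1, 2), (1, 2, 4)] :=
  sound_leafF (K := 208) (F := ⟨⟨24662508, (-274498), 142160, (-1023653), 346424, 360822, 126664, 0, 0, 0⟩, (10, 0), (12, 411569868126201285751406), (10, 0), (10, 0), (10, 0)⟩) c1_ok
    (by decide +kernel)

def c1_leaf2 :
    Sound c1R [(0, 1, 1), (0, 1, 1), (0, 19, 32), (1, 2, 2), (0, 1, 4)] :=
  sound_leafF (K := 207) (F := ⟨⟨0, (-195927), 88688, 0, 394385, 361072, 137265, 0, 0, 0⟩, (11, 2349865995711295844700473), (14, 11393313753948553844458), (10, 0), (10, 0), (10, 0)⟩) c1_ok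
    (by decide +kernel)

def c1_leaf3 :
    Sound c1R [(0, 1, 1), (0, 1, 1), (0, 19, 32), (1, 2, 2), (1, 2, 4)] :=
  sound_leafF (K := 207) (F := ⟨⟨22565356, (-88102), 228300, (-544557), 290172, 164406, 112546, 0, 0, 0⟩, (11, 1280427155420185727703882), (10, 0), (10, 0), (10, 0), (13, 5699319)⟩) c1_ok
    (by decide +kernel)

def c1_leaf4 :
    Sound c1R [(0, 1, 1), (0, 1, 1), (0, 19, 32), (0, 1, 4), (2, 3, 4)] :=
  sound_leafF (K := 215) (F := ⟨⟨50782536, (-551371), 192137, (-2103057), 309570, 350930, 134524, 0, 0, 0⟩, (12, 225941480057378458752927), (12, 439478510023342062381220), (10, 0), (10, 0), (10, 16531104)⟩) c1_ok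
    (by decide +kernel)

def c1_leaf5 :
    Sound c1R [(0, 1, 1), (0, 1, 1), (0, 19, 32), (1, 2, 4), (2, 3, 4)] :=
  sound_leafF (K := 214) (F := ⟨⟨66186117, (-528590), 322224, (-1638616), 279295, 189126, 53538, 0, 0, 0⟩, (10, 0), (10, 0), (10, 438569120509631987136274), (10, 0), (13, 11526619)⟩) c1_ok
    (by decide +kernel)

def c1_leaf6 :
    Sound c1R [(0, 1, 1), (0, 1, 1), (0, 19, 32), (0, 1, 2), (3, 4, 4)] :=
  sound_empty2 (K := 145) (f := (10, 1048576)) (g := (13, 351833)) c1_ok (by decide +kernel)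

def c1_leaf7 :
    Sound c1R [(0, 1, 1), (0, 1, 1), (0, 19, 32), (1, 2, 2), (2, 3, 4)] :=
  sound_leafF (K := 207) (F := ⟨⟨58804142, (-149148), 262250, (-853475), 243853, 128370, 76968, 0, 0, 0⟩, (13, 788303292055455554247316), (10, 0), (10, 0), (10, 0), (13, 32629133)⟩) c1_ok
    (by decide +kernel)

def c1_leaf8 :
    Sound c1R [(0, 1, 1), (0, 1, 1), (0, 19, 32), (1, 2, 2), (3, 4, 4)] :=
  sound_empty (K := 125) (q := 13) c1_ok (by decide +kernel)

def c1_leaf9 :
    Sound c1R [(0, 1, 1), (0, 1, 1), (19, 32, 32), (0, 1, 2), (0, 1, 4)] :=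
  sound_leafF (K := 208) (F := ⟨⟨(-7549747), (-168649), 131617, 716845, 468520, 569638, 148651, 0, 0, 0⟩, (11, 2260561368488466219612862), (11, 1146496436942547368638409), (10, 0), (10, 0), (10, 0)⟩) c1_ok
    (by decide +kernel)

def c1_leaf10 :
    Sound c1R [(0, 1, 1), (0, 1, 1), (19, 32, 32), (0, 1, 2), (1, 2, 4)] :=
  sound_leafF (K := 208) (F := ⟨⟨26455572, (-411422), 184781, (-1490854), 357997, 427899, 128672, 0, 0, 0⟩, (12, 175004666064655751910462), (12, 553237832741955232997917), (10, 0), (10, 0), (10, 0)⟩) c1_ok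
    (by decide +kernel)

def c1_leaf11 :
    Sound c1R [(0, 1, 1), (0, 1, 1), (19, 32, 32), (1, 2, 2), (0, 1, 2)] :=
  sound_leafF (K := 201) (F := ⟨⟨33051116, (-199533), 217587, (-551097), 343193, 251640, 122825, 0, 0, 0⟩, (11, 2892517004376255915611072), (11, 2103307146404457723537076), (10, 0), (10, 0), (13, 6772250)⟩) c1_ok
    (by decide +kernel)

def c1_leaf12 :
    Sound c1R [(0, 1, 1), (0, 1, 1), (19, 32, 32), (0, 1, 4), (2, 3, 4)] :=
  sound_leafF (K := 215) (F := ⟨⟨47846523, (-566464), 199465, (-2202452), 312539, 384745, 132517, 0, 0, 0⟩, (12, 379547479094081741042179), (12, 511622943741164901737274), (12, 781868346144947080161867), (10, 0), (10, 0)⟩) c1_ok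
    (by decide +kernel)

def c1_leaf13 :
    Sound c1R [(0, 1, 1), (0, 1, 1), (19, 32, 32), (1, 2, 4), (2, 3, 4)] :=
  sound_leafF (K := 213) (F := ⟨⟨61624812, (-491268), 294936, (-1201466), 279008, 234502, 61761, 0, 0, 0⟩, (14, 73775912507968548281450), (10, 0), (10, 0), (10, 0), (13, 12893632)⟩) c1_ok
    (by decide +kernel)

def c1_leaf14 :
    Sound c1R [(0, 1, 1), (0, 1, 1), (19, 32, 32), (0, 1, 4), (3, 4, 4)] :=
  sound_leafF (K := 215) (F := ⟨⟨56654561, (-414986), 136573, (-2801364), 275400, 437144, 171778, 0, 0, 0⟩, (12, 298963061237302251193837), (12, 317017997364135843678746), (10, 0), (10, 0), (10, 13704077)⟩) c1_ok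
    (by decide +kernel)

def c1_leaf15 :
    Sound c1R [(0, 1, 1), (0, 1, 1), (19, 32, 32), (1, 2, 4), (3, 4, 4)] :=
  sound_leafF (K := 214) (F := ⟨⟨78643200, (-489942), 266080, (-1466251), 231168, 229725, 115475, 0, 0, 0⟩, (10, 0), (10, 0), (10, 0), (10, 0), (13, 18157371)⟩) c1_ok
    (by decide +kernel)

end Vale.Agent.P100.Calib.LowEnd
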