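import Vale.Agent.P100.Calib.SlabLowEndC1Data

/-!
# The slots of corner root 1 are within their tolerances
-/

set_option maxRecDepth 100000
-- the heavy checks are definitions, so that they are checked one after another
set_option linter.defProp false

namespace Vale.Agent.P100.Calib.LowEnd

open Pack Band

def c1_slot0 : checkSlot c1B c1P.sig 56 c1D0 c1T0 = true := by decide +kernel

def c1_slot1 : checkSlot c1B c1P.sig 56 c1D1 c1T1 = true := by decide +kernel

def c1_slot2 : checkSlot c1B c1P.sig 48 c1D2 c1T2 = true := by decide +kernel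

def c1_slot3 : checkSlot c1B c1P.sig 56 c1D3 c1T3 = true := by decide +kernel

def c1_slot4 : checkSlot c1B c1P.sig 56 c1D4 c1T4 = true := by decide +kernel

def c1_slot5 : checkSlot c1B c1P.sig 56 c1D5 c1T5 = true := by decide +kernel

def c1_slot6 : checkSlot c1B c1P.sig 56 c1D6 c1T6 = true := by decide +kernel

def c1_slot7 : checkSlot c1B c1P.sig 56 c1D7 c1T7 = true := by decide +kernel

def c1_slot8 : checkSlot c1B c1P.sig 56 c1D8 c1T8 = true := by decide +kernel

def c1_slot9 : checkSlot c1B c1P.sig 56 c1D9 c1T9 = true := by decide +kernel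

def c1_slot10 : checkSlot c1B c1P.sig 56 c1D10 c1T10 = true := by decide +kernel

def c1_slot11 : checkSlot c1B c1P.sig 56 c1D11 c1T11 = true := by decide +kernel

def c1_slot12 : checkSlot c1B c1P.sig 56 c1D12 c1T12 = true := by decide +kernel

def c1_slot13 : checkSlot c1B c1P.sig 56 c1D13 c1T13 = true := by decide +kernel

def c1_slot14 : checkSlot c1B c1P.sig 56 c1D14 c1T14 = true := by decide +kernel

theorem c1_near {x y : ℕ → ℝ} (hx : InBox c1B x) (hc : Coord c1P.sig x y) :
    Near c1R y (valueAt c1L x) :=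
  near_root rfl (fun q hq => by
    simp only [c1L, List.length_cons, List.length_nil] at hq
    interval_cases q
    · exact ⟨_, c1_slot0⟩
    · exact ⟨_, c1_slot1⟩
    · exact ⟨_, c1_slot2⟩
    · exact ⟨_, c1_slot3⟩
    · exact ⟨_, c1_slot4⟩
    · exact ⟨_, c1_slot5⟩
    · exact ⟨_, c1_slot6⟩
    · exact ⟨_, c1_slot7⟩
    · exact ⟨_, c1_slot8⟩
    · exact ⟨_, c1_slot9⟩
    · exact ⟨_, c1_slot10⟩
    · exact ⟨_, c1_slot11⟩
    · exact ⟨_, c1_slot12⟩
    · exact ⟨_, c1_slot13⟩
    · exact ⟨_, c1_slot14⟩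
  ) hx hc

end Vale.Agent.P100.Calib.LowEnd
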