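import Vale.Agent.P100.Calib.SlabLowEndC2Data

/-!
# Leaves of the cover of corner root 2
-/

set_option maxRecDepth 100000
-- the heavy checks are definitions, so that they are checked one after another
set_option linter.defProp false

namespace Vale.Agent.P100.Calib.LowEnd

open Pack Band

def c2_leaf16 :
    Sound c2R [(0, 1, 1), (0, 1, 1), (19, 32, 32), (1, 2, 2), (1, 2, 4)] :=
  sound_leafF (K := 207) (F := ⟨⟨36700160, (-153220), 263121, (-433863), 277135, 200376, 109565, 0, 0, 0⟩, (11, 2476652733285221749669533), (10, 0), (10, 0), (10, 0), (13, 7411440)⟩) c2_ok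
    (by decide +kernel)

def c2_leaf17 :
    Sound c2R [(0, 1, 1), (0, 1, 1), (19, 32, 32), (0, 1, 4), (2, 3, 4)] :=
  sound_leafF (K := 215) (F := ⟨⟨50331648, (-656769), 237496, (-2216888), 304215, 369808, 137457, 0, 0, 0⟩, (12, 398296029609711491683787), (12, 533046887141269601477097), (12, 946833142441175916662523), (10, 0), (10, 0)⟩) c2_ok
    (by decide +kernel)

def c2_leaf18 :
    Sound c2R [(0, 1, 2), (0, 1, 1), (19, 32, 32), (1, 2, 4), (2, 3, 4)] :=
  sound_leafF (K := 219) (F := ⟨⟨61991813, (-281771), 160888, (-990554), 258398, 251862, 98794, 0, 0, 0⟩, (10, 0), (10, 0), (10, 0), (10, 0), (13, 13311050)⟩) c2_ok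
    (by decide +kernel)

def c2_leaf19 :
    Sound c2R [(1, 2, 2), (0, 1, 2), (19, 32, 32), (1, 2, 4), (2, 3, 4)] :=
  sound_leafF (K := 226) (F := ⟨⟨61991813, (-658305), 337659, (-1003284), 271205, 259727, 73050, 0, 0, 0⟩, (10, 0), (10, 0), (10, 0), (10, 0), (13, 12595565)⟩) c2_ok
    (by decide +kernel)

def c2_leaf20 :
    Sound c2R [(1, 2, 2), (1, 2, 2), (19, 32, 32), (1, 2, 4), (4, 5, 8)] :=
  sound_leafF (K := 232) (F := ⟨⟨50331648, (-423993), 259857, (-1275286), 300023, 280677, 120994, 0, 0, 0⟩, (10, 0), (10, 0), (10, 0), (10, 0), (10, 0)⟩) c2_ok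
    (by decide +kernel)

def c2_leaf21 :
    Sound c2R [(1, 2, 2), (1, 2, 2), (19, 32, 32), (1, 2, 4), (5, 6, 8)] :=
  sound_leafF (K := 232) (F := ⟨⟨71334625, (-637342), 346741, (-1277689), 281150, 254323, 96099, 0, 0, 0⟩, (14, 143996686687774842541732), (10, 0), (10, 0), (10, 0), (13, 9004685)⟩) c2_ok
    (by decide +kernel)

def c2_leaf22 :
    Sound c2R [(0, 1, 1), (0, 1, 1), (19, 32, 32), (0, 1, 4), (3, 4, 4)] :=
  sound_leafF (K := 215) (F := ⟨⟨54525952, (-562633), 130781, (-1990683), 251540, 420092, 156227, 0, 0, 0⟩, (14, 173114156179307404657632), (12, 336947305727783202635289), (10, 0), (10, 0), (10, 14161033)⟩) c2_ok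
    (by decide +kernel)

def c2_leaf23 :
    Sound c2R [(0, 1, 1), (0, 1, 1), (19, 32, 32), (1, 2, 4), (3, 4, 4)] :=
  sound_leafF (K := 214) (F := ⟨⟨79723233, (-416971), 317944, (-1418927), 222947, 216690, 87147, 0, 0, 0⟩, (10, 0), (10, 0), (10, 0), (10, 0), (13, 18245506)⟩) c2_ok
    (by decide +kernel)

def c2_leaf24 :
    Sound c2R [(0, 1, 1), (0, 1, 1), (19, 32, 32), (2, 3, 4), (2, 3, 4)] :=
  sound_leafF (K := 213) (F := ⟨⟨62998446, (-225518), 378230, (-1015978), 232721, 140328, 58595, 0, 0, 0⟩, (11, 459407116454435407593699), (10, 0), (10, 0), (10, 0), (13, 21469700)⟩) c2_ok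
    (by decide +kernel)

def c2_leaf25 :
    Sound c2R [(0, 1, 1), (0, 1, 1), (19, 32, 32), (3, 4, 4), (2, 3, 4)] :=
  sound_empty (K := 131) (q := 13) c2_ok (by decide +kernel)

def c2_leaf26 :
    Sound c2R [(0, 1, 1), (0, 1, 1), (19, 32, 32), (1, 2, 2), (3, 4, 4)] :=
  sound_empty (K := 125) (q := 13) c2_ok (by decide +kernel)

end Vale.Agent.P100.Calib.LowEnd
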