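import Vale.Agent.P100.Calib.SlabLowEndC2CoverA
import Vale.Agent.P100.Calib.SlabLowEndC2CoverB

/-!
# The cover of corner root 2
-/

set_option maxRecDepth 100000
-- the heavy checks are definitions, so that they are checked one after another
set_option linter.defProp false

namespace Vale.Agent.P100.Calib.LowEnd

open Pack Band

theorem c2_node0 :
    Sound c2R [(0, 1, 1), (0, 1, 1), (0, 19, 32), (1, 2, 4), (0, 1, 4)] :=
  sound_node (j := 0) (by decide) c2_leaf1 c2_leaf2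

theorem c2_node1 :
    Sound c2R [(0, 1, 1), (0, 1, 1), (0, 19, 32), (0, 1, 2), (0, 1, 4)] :=
  sound_node (j := 3) (by decide) c2_leaf0 c2_node0

theorem c2_node2 :
    Sound c2R [(0, 1, 1), (0, 1, 1), (0, 19, 32), (0, 1, 2), (0, 1, 2)] :=
  sound_node (j := 4) (by decide) c2_node1 c2_leaf3

theorem c2_node3 :
    Sound c2R [(0, 1, 1), (0, 1, 1), (0, 19, 32), (0, 1, 2), (2, 3, 4)] :=
  sound_node (j := 3) (by decide) c2_leaf7 c2_leaf8

theorem c2_node4 :
    Sound c2R [(0, 1, 1), (0, 1, 1), (0, 19, 32), (0, 1, 2), (1, 2, 2)] :=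
  sound_node (j := 4) (by decide) c2_node3 c2_leaf9

theorem c2_node5 :
    Sound c2R [(0, 1, 1), (0, 1, 1), (0, 19, 32), (0, 1, 2), (0, 1, 1)] :=
  sound_node (j := 4) (by decide) c2_node2 c2_node4

theorem c2_node6 :
    Sound c2R [(0, 1, 1), (0, 1, 1), (0, 19, 32), (1, 2, 2), (1, 2, 4)] :=
  sound_node (j := 3) (by decide) c2_leaf5 c2_leaf6

theorem c2_node7 :
    Sound c2R [(0, 1, 1), (0, 1, 1), (0, 19, 32), (1, 2, 2), (0, 1, 2)] :=
  sound_node (j := 4) (by decide) c2_leaf4 c2_node6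

theorem c2_node8 :
    Sound c2R [(0, 1, 1), (0, 1, 1), (0, 19, 32), (1, 2, 2), (2, 3, 4)] :=
  sound_node (j := 3) (by decide) c2_leaf10 c2_leaf11

theorem c2_node9 :
    Sound c2R [(0, 1, 1), (0, 1, 1), (0, 19, 32), (1, 2, 2), (1, 2, 2)] :=
  sound_node (j := 4) (by decide) c2_node8 c2_leaf12

theorem c2_node10 :
    Sound c2R [(0, 1, 1), (0, 1, 1), (0, 19, 32), (1, 2, 2), (0, 1, 1)] :=
  sound_node (j := 4) (by decide) c2_node7 c2_node9

theorem c2_node11 :
    Sound c2R [(0, 1, 1), (0, 1, 1), (0, 19, 32), (0, 1, 1), (0, 1, 1)] :=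
  sound_node (j := 3) (by decide) c2_node5 c2_node10

theorem c2_node12 :
    Sound c2R [(0, 1, 1), (0, 1, 1), (19, 32, 32), (0, 1, 2), (0, 1, 2)] :=
  sound_node (j := 4) (by decide) c2_leaf13 c2_leaf14

theorem c2_node13 :
    Sound c2R [(0, 1, 1), (0, 1, 1), (19, 32, 32), (0, 1, 4), (1, 2, 2)] :=
  sound_node (j := 4) (by decide) c2_leaf17 c2_leaf22

theorem c2_node14 :
    Sound c2R [(1, 2, 2), (1, 2, 2), (19, 32, 32), (1, 2, 4), (2, 3, 4)] :=
  sound_node (j := 4) (by decide) c2_leaf20 c2_leaf21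

theorem c2_node15 :
    Sound c2R [(1, 2, 2), (0, 1, 1), (19, 32, 32), (1, 2, 4), (2, 3, 4)] :=
  sound_node (j := 1) (by decide) c2_leaf19 c2_node14

theorem c2_node16 :
    Sound c2R [(0, 1, 1), (0, 1, 1), (19, 32, 32), (1, 2, 4), (2, 3, 4)] :=
  sound_node (j := 0) (by decide) c2_leaf18 c2_node15

theorem c2_node17 :
    Sound c2R [(0, 1, 1), (0, 1, 1), (19, 32, 32), (1, 2, 4), (1, 2, 2)] :=
  sound_node (j := 4) (by decide) c2_node16 c2_leaf23

theorem c2_node18 :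
    Sound c2R [(0, 1, 1), (0, 1, 1), (19, 32, 32), (0, 1, 2), (1, 2, 2)] :=
  sound_node (j := 3) (by decide) c2_node13 c2_node17

theorem c2_node19 :
    Sound c2R [(0, 1, 1), (0, 1, 1), (19, 32, 32), (0, 1, 2), (0, 1, 1)] :=
  sound_node (j := 4) (by decide) c2_node12 c2_node18

theorem c2_node20 :
    Sound c2R [(0, 1, 1), (0, 1, 1), (19, 32, 32), (1, 2, 2), (0, 1, 2)] :=
  sound_node (j := 4) (by decide) c2_leaf15 c2_leaf16

theorem c2_node21 :
    Sound c2R [(0, 1, 1), (0, 1, 1), (19, 32, 32), (1, 2, 2), (2, 3, 4)] :=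
  sound_node (j := 3) (by decide) c2_leaf24 c2_leaf25

theorem c2_node22 :
    Sound c2R [(0, 1, 1), (0, 1, 1), (19, 32, 32), (1, 2, 2), (1, 2, 2)] :=
  sound_node (j := 4) (by decide) c2_node21 c2_leaf26

theorem c2_node23 :
    Sound c2R [(0, 1, 1), (0, 1, 1), (19, 32, 32), (1, 2, 2), (0, 1, 1)] :=
  sound_node (j := 4) (by decide) c2_node20 c2_node22

theorem c2_node24 :
    Sound c2R [(0, 1, 1), (0, 1, 1), (19, 32, 32), (0, 1, 1), (0, 1, 1)] :=
  sound_node (j := 3) (by decide) c2_node19 c2_node23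

theorem c2_sound :
    Sound c2R cube :=
  sound_node (j := 2) (by decide) c2_node11 c2_node24

end Vale.Agent.P100.Calib.LowEnd
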