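import Vale.Agent.P100.Calib.SlabLowEndC2Data

/-!
# Leaves of the cover of corner root 2
-/

set_option maxRecDepth 100000
-- the heavy checks are definitions, so that they are checked one after another
set_option linter.defProp false

namespace Vale.Agent.P100.Calib.LowEnd

open Pack Band

def c2_leaf0 :
    Sound c2R [(0, 1, 1), (0, 1, 1), (0, 19, 32), (0, 1, 4), (0, 1, 4)] :=
  sound_leafF (K := 214) (F := ⟨⟨(-5452595), (-288280), 89290, 728214, 470816, 666287, 158175, 0, 0, 0⟩, (12, 789751864751449665881611), (12, 1153814465385352466378819), (10, 0), (10, 0), (10, 0)⟩) c2_ok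
    (by decide +kernel)

def c2_leaf1 :
    Sound c2R [(0, 1, 2), (0, 1, 1), (0, 19, 32), (1, 2, 4), (0, 1, 4)] :=
  sound_leafF (K := 219) (F := ⟨⟨31457, (-292327), 101751, (-2540), 419461, 487032, 145077, 0, 0, 0⟩, (10, 0), (12, 69337546651969180575733), (10, 0), (10, 0), (10, 0)⟩) c2_ok
    (by decide +kernel)

def c2_leaf2 :
    Sound c2R [(1, 2, 2), (0, 1, 1), (0, 19, 32), (1, 2, 4), (0, 1, 4)] :=
  sound_leafF (K := 220) (F := ⟨⟨31457, (-560051), 50966, (-13559), 459342, 510066, 81355, 0, 0, 0⟩, (11, 1016455255950646136748176), (12, 77167906599005262999150), (10, 0), (10, 0), (10, 0)⟩) c2_ok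
    (by decide +kernel)

def c2_leaf3 :
    Sound c2R [(0, 1, 1), (0, 1, 1), (0, 19, 32), (0, 1, 2), (1, 2, 4)] :=
  sound_leafF (K := 208) (F := ⟨⟨28311552, (-385801), 172293, (-1312292), 342386, 374341, 130384, 0, 0, 0⟩, (12, 106684629131516017214000), (12, 434150926563185117955224), (10, 0), (10, 0), (10, 0)⟩) c2_ok
    (by decide +kernel)

def c2_leaf4 :
    Sound c2R [(0, 1, 1), (0, 1, 1), (0, 19, 32), (1, 2, 2), (0, 1, 4)] :=
  sound_leafF (K := 207) (F := ⟨⟨0, (-262616), 95741, 0, 375549, 452471, 135676, 0, 0, 0⟩, (11, 2861779536507507887443904), (10, 0), (10, 0), (10, 0), (10, 0)⟩) c2_ok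
    (by decide +kernel)

def c2_leaf5 :
    Sound c2R [(0, 1, 1), (0, 1, 1), (0, 19, 32), (2, 3, 4), (1, 2, 4)] :=
  sound_leafF (K := 213) (F := ⟨⟨28311552, (-204394), 198238, (-596110), 288943, 237801, 115906, 0, 0, 0⟩, (11, 816323857816133527764412), (10, 0), (10, 0), (10, 0), (13, 6324927)⟩) c2_ok
    (by decide +kernel)

def c2_leaf6 :
    Sound c2R [(0, 1, 1), (0, 1, 1), (0, 19, 32), (3, 4, 4), (1, 2, 4)] :=
  sound_leafF (K := 213) (F := ⟨⟨503316, (-52695), 210439, (-7351), 260250, 190657, 106172, 0, 0, 0⟩, (13, 992615442794077709391643), (10, 0), (10, 0), (10, 0), (13, 35524740)⟩) c2_ok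
    (by decide +kernel)

def c2_leaf7 :
    Sound c2R [(0, 1, 1), (0, 1, 1), (0, 19, 32), (0, 1, 4), (2, 3, 4)] :=
  sound_leafF (K := 215) (F := ⟨⟨49199186, (-587786), 173168, (-1982952), 298290, 326498, 137352, 0, 0, 0⟩, (12, 241621905291194614603480), (12, 356510150140994867272673), (10, 0), (10, 0), (10, 16270965)⟩) c2_ok
    (by decide +kernel)

def c2_leaf8 :
    Sound c2R [(0, 1, 1), (0, 1, 1), (0, 19, 32), (1, 2, 4), (2, 3, 4)] :=
  sound_leafF (K := 213) (F := ⟨⟨63963136, (-350400), 193613, (-973369), 272377, 241084, 102607, 0, 0, 0⟩, (14, 138775778841940692994111), (10, 0), (10, 0), (10, 0), (13, 13249845)⟩) c2_ok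
    (by decide +kernel)

def c2_leaf9 :
    Sound c2R [(0, 1, 1), (0, 1, 1), (0, 19, 32), (0, 1, 2), (3, 4, 4)] :=
  sound_empty2 (K := 146) (f := (10, 1048576)) (g := (13, 350372)) c2_ok (by decide +kernel)

def c2_leaf10 :
    Sound c2R [(0, 1, 1), (0, 1, 1), (0, 19, 32), (2, 3, 4), (2, 3, 4)] :=
  sound_leafF (K := 213) (F := ⟨⟨58164511, (-268913), 270458, (-781272), 238585, 185346, 106611, 0, 0, 0⟩, (13, 509821033006821561620085), (10, 0), (10, 0), (10, 0), (13, 27468435)⟩) c2_ok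
    (by decide +kernel)

def c2_leaf11 :
    Sound c2R [(0, 1, 1), (0, 1, 1), (0, 19, 32), (3, 4, 4), (2, 3, 4)] :=
  sound_empty (K := 131) (q := 13) c2_ok (by decide +kernel)

def c2_leaf12 :
    Sound c2R [(0, 1, 1), (0, 1, 1), (0, 19, 32), (1, 2, 2), (3, 4, 4)] :=
  sound_empty (K := 125) (q := 13) c2_ok (by decide +kernel)

def c2_leaf13 :
    Sound c2R [(0, 1, 1), (0, 1, 1), (19, 32, 32), (0, 1, 2), (0, 1, 4)] :=
  sound_leafF (K := 208) (F := ⟨⟨(-6710886), (-184935), 137956, 593670, 448511, 539690, 148313, 0, 0, 0⟩, (11, 1801421232723191781244392), (11, 924209773111662846955877), (10, 0), (10, 0), (10, 0)⟩) c2_ok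
    (by decide +kernel)

def c2_leaf14 :
    Sound c2R [(0, 1, 1), (0, 1, 1), (19, 32, 32), (0, 1, 2), (1, 2, 4)] :=
  sound_leafF (K := 208) (F := ⟨⟨28311552, (-352139), 200054, (-1189715), 342404, 362059, 128055, 0, 0, 0⟩, (12, 176014262683975046508556), (12, 588517237181731334751886), (10, 0), (10, 0), (10, 0)⟩) c2_ok
    (by decide +kernel)

def c2_leaf15 :
    Sound c2R [(0, 1, 1), (0, 1, 1), (19, 32, 32), (1, 2, 2), (0, 1, 4)] :=
  sound_leafF (K := 208) (F := ⟨⟨(-10485760), (-135340), 151579, 380788, 370734, 316293, 131427, 0, 0, 0⟩, (11, 11904836637921943792374656), (10, 0), (10, 0), (10, 0), (10, 0)⟩) c2_ok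
    (by decide +kernel)

end Vale.Agent.P100.Calib.LowEnd
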