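import Vale.Agent.P100.Calib.SlabLowEndC2Data

/-!
# The slots of corner root 2 are within their tolerances
-/

set_option maxRecDepth 100000
-- the heavy checks are definitions, so that they are checked one after another
set_option linter.defProp false

namespace Vale.Agent.P100.Calib.LowEnd

open Pack Band

def c2_slot0 : checkSlot c2B c2P.sig 56 c2D0 c2T0 = true := by decide +kernel

def c2_slot1 : checkSlot c2B c2P.sig 56 c2D1 c2T1 = true := by decide +kernel

def c2_slot2 : checkSlot c2B c2P.sig 56 c2D2 c2T2 = true := by decide +kernel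

def c2_slot3 : checkSlot c2B c2P.sig 56 c2D3 c2T3 = true := by decide +kernel

def c2_slot4 : checkSlot c2B c2P.sig 56 c2D4 c2T4 = true := by decide +kernel

def c2_slot5 : checkSlot c2B c2P.sig 56 c2D5 c2T5 = true := by decide +kernel

def c2_slot6 : checkSlot c2B c2P.sig 56 c2D6 c2T6 = true := by decide +kernel

def c2_slot7 : checkSlot c2B c2P.sig 56 c2D7 c2T7 = true := by decide +kernel

def c2_slot8 : checkSlot c2B c2P.sig 56 c2D8 c2T8 = true := by decide +kernel

def c2_slot9 : checkSlot c2B c2P.sig 56 c2D9 c2T9 = true := by decide +kernel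

def c2_slot10 : checkSlot c2B c2P.sig 56 c2D10 c2T10 = true := by decide +kernel

def c2_slot11 : checkSlot c2B c2P.sig 56 c2D11 c2T11 = true := by decide +kernel

def c2_slot12 : checkSlot c2B c2P.sig 56 c2D12 c2T12 = true := by decide +kernel

def c2_slot13 : checkSlot c2B c2P.sig 56 c2D13 c2T13 = true := by decide +kernel

def c2_slot14 : checkSlot c2B c2P.sig 56 c2D14 c2T14 = true := by decide +kernel

theorem c2_near {x y : ℕ → ℝ} (hx : InBox c2B x) (hc : Coord c2P.sig x y) :
    Near c2R y (valueAt c2L x) :=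
  near_root rfl (fun q hq => by
    simp only [c2L, List.length_cons, List.length_nil] at hq
    interval_cases q
    · exact ⟨_, c2_slot0⟩
    · exact ⟨_, c2_slot1⟩
    · exact ⟨_, c2_slot2⟩
    · exact ⟨_, c2_slot3⟩
    · exact ⟨_, c2_slot4⟩
    · exact ⟨_, c2_slot5⟩
    · exact ⟨_, c2_slot6⟩
    · exact ⟨_, c2_slot7⟩
    · exact ⟨_, c2_slot8⟩
    · exact ⟨_, c2_slot9⟩
    · exact ⟨_, c2_slot10⟩
    · exact ⟨_, c2_slot11⟩
    · exact ⟨_, c2_slot12⟩
    · exact ⟨_, c2_slot13⟩
    · exact ⟨_, c2_slot14⟩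
  ) hx hc

end Vale.Agent.P100.Calib.LowEnd
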