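import Vale.Agent.P100.Calib.SlabLowEndC3Data

/-!
# Leaves of the cover of corner root 3
-/

set_option maxRecDepth 100000
-- the heavy checks are definitions, so that they are checked one after another
set_option linter.defProp false

namespace Vale.Agent.P100.Calib.LowEnd

open Pack Band

def c3_leaf16 :
    Sound c3R [(1, 2, 2), (0, 1, 2), (0, 19, 32), (2, 3, 4), (3, 4, 8)] :=
  sound_leafF (K := 231) (F := ⟨⟨46923776, (-194411), 234561, (-578329), 330064, 217361, 109619, 0, 0, 0⟩, (14, 810279772734679208474010), (10, 0), (10, 0), (10, 0), (13, 15017814)⟩) c3_ok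
    (by decide +kernel)

def c3_leaf17 :
    Sound c3R [(1, 2, 2), (1, 2, 2), (0, 19, 32), (2, 3, 4), (1, 2, 4)] :=
  sound_empty (K := 141) (q := 14) c3_ok (by decide +kernel)

def c3_leaf18 :
    Sound c3R [(0, 1, 1), (0, 1, 1), (0, 19, 32), (3, 4, 4), (1, 2, 4)] :=
  sound_empty2 (K := 152) (f := (11, 1048576)) (g := (13, 1147036)) c3_ok (by decide +kernel)

def c3_leaf19 :
    Sound c3R [(0, 1, 2), (0, 1, 1), (0, 19, 32), (0, 1, 4), (2, 3, 4)] :=
  sound_leafF (K := 221) (F := ⟨⟨45424312, (-444733), 164034, (-1591365), 311798, 342729, 119272, 0, 0, 0⟩, (10, 0), (12, 328477810953991121785703), (10, 0), (10, 0), (10, 20294839)⟩) c3_ok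
    (by decide +kernel)

def c3_leaf20 :
    Sound c3R [(1, 2, 2), (0, 1, 2), (0, 19, 32), (0, 1, 4), (2, 3, 4)] :=
  sound_leafF (K := 227) (F := ⟨⟨45424312, (-445393), 158083, (-1631627), 330818, 357691, 119747, 0, 0, 0⟩, (10, 0), (12, 319685972733128819767832), (10, 0), (10, 0), (10, 20260235)⟩) c3_ok
    (by decide +kernel)

def c3_leaf21 :
    Sound c3R [(1, 2, 2), (1, 2, 2), (0, 19, 32), (0, 1, 4), (2, 3, 4)] :=
  sound_empty (K := 141) (q := 14) c3_ok (by decide +kernel)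

def c3_leaf22 :
    Sound c3R [(0, 1, 1), (0, 1, 1), (0, 19, 32), (1, 2, 4), (2, 3, 4)] :=
  sound_leafF (K := 214) (F := ⟨⟨74952212, (-297178), 252147, (-1425433), 298966, 239347, 85756, 0, 0, 0⟩, (14, 306412113060437182444203), (14, 65689652432486901968334), (10, 0), (10, 0), (13, 17846374)⟩) c3_ok
    (by decide +kernel)

def c3_leaf23 :
    Sound c3R [(0, 1, 1), (0, 1, 1), (0, 19, 32), (0, 1, 2), (3, 4, 4)] :=
  sound_empty2 (K := 145) (f := (10, 1048576)) (g := (14, 462921)) c3_ok (by decide +kernel)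

def c3_leaf24 :
    Sound c3R [(0, 1, 1), (0, 1, 1), (0, 19, 32), (1, 2, 2), (1, 2, 2)] :=
  sound_empty2 (K := 139) (f := (13, 1048576)) (g := (14, 128114)) c3_ok (by decide +kernel)

def c3_leaf25 :
    Sound c3R [(0, 1, 1), (0, 1, 1), (19, 32, 32), (0, 1, 2), (0, 1, 4)] :=
  sound_leafF (K := 208) (F := ⟨⟨(-7130317), (-226137), 135575, 811305, 528180, 672786, 150949, 0, 0, 0⟩, (11, 1501180191067879875998246), (11, 931548625301710806683822), (10, 0), (10, 0), (10, 0)⟩) c3_ok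
    (by decide +kernel)

def c3_leaf26 :
    Sound c3R [(0, 1, 1), (0, 1, 1), (19, 32, 32), (0, 1, 4), (1, 2, 4)] :=
  sound_leafF (K := 215) (F := ⟨⟨30230446, (-519990), 185211, (-1950539), 420223, 502274, 137673, 0, 0, 0⟩, (12, 315069879141168310309169), (12, 690836982217552301635723), (10, 0), (10, 0), (10, 0)⟩) c3_ok
    (by decide +kernel)

def c3_leaf27 :
    Sound c3R [(0, 1, 2), (0, 1, 2), (19, 32, 32), (1, 2, 4), (2, 3, 8)] :=
  sound_leafF (K := 232) (F := ⟨⟨21265121, (-269607), 191345, (-769705), 347327, 345251, 121296, 0, 0, 0⟩, (10, 0), (10, 0), (10, 0), (10, 0), (10, 0)⟩) c3_ok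
    (by decide +kernel)

def c3_leaf28 :
    Sound c3R [(0, 1, 2), (0, 1, 2), (19, 32, 32), (1, 2, 4), (3, 4, 8)] :=
  sound_leafF (K := 232) (F := ⟨⟨45424312, (-390956), 236222, (-1247112), 310627, 296085, 120343, 0, 0, 0⟩, (10, 0), (10, 0), (10, 0), (10, 0), (10, 0)⟩) c3_ok
    (by decide +kernel)

def c3_leaf29 :
    Sound c3R [(0, 1, 2), (1, 2, 2), (19, 32, 32), (1, 2, 4), (2, 3, 8)] :=
  sound_leafF (K := 232) (F := ⟨⟨18119393, (-255233), 193597, (-644488), 380925, 355739, 123175, 0, 0, 0⟩, (10, 0), (10, 0), (10, 0), (10, 0), (10, 0)⟩) c3_ok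
    (by decide +kernel)

def c3_leaf30 :
    Sound c3R [(0, 1, 2), (1, 2, 2), (19, 32, 32), (1, 2, 4), (3, 4, 8)] :=
  sound_leafF (K := 232) (F := ⟨⟨47846523, (-425380), 254084, (-1291452), 345179, 305158, 124352, 0, 0, 0⟩, (10, 0), (10, 0), (10, 0), (10, 0), (10, 0)⟩) c3_ok
    (by decide +kernel)

def c3_leaf31 :
    Sound c3R [(1, 2, 2), (0, 1, 2), (19, 32, 32), (1, 2, 4), (2, 3, 8)] :=
  sound_leafF (K := 232) (F := ⟨⟨18119393, (-251173), 186262, (-658697), 386103, 363498, 122590, 0, 0, 0⟩, (10, 0), (10, 0), (10, 0), (10, 0), (10, 0)⟩) c3_ok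
    (by decide +kernel)

end Vale.Agent.P100.Calib.LowEnd
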