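import Vale.Agent.P100.Calib.SlabLowEndC3Data

/-!
# Leaves of the cover of corner root 3
-/

set_option maxRecDepth 100000
-- the heavy checks are definitions, so that they are checked one after another
set_option linter.defProp false

namespace Vale.Agent.P100.Calib.LowEnd

open Pack Band

def c3_leaf32 :
    Sound c3R [(1, 2, 2), (0, 1, 2), (19, 32, 32), (1, 2, 4), (3, 4, 8)] :=
  sound_leafF (K := 232) (F := ⟨⟨47846523, (-416101), 242157, (-1318843), 349070, 311653, 123545, 0, 0, 0⟩, (10, 0), (10, 0), (10, 0), (10, 0), (10, 0)⟩) c3_ok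
    (by decide +kernel)

def c3_leaf33 :
    Sound c3R [(1, 2, 2), (1, 2, 2), (19, 32, 32), (1, 2, 4), (1, 2, 4)] :=
  sound_empty (K := 141) (q := 14) c3_ok (by decide +kernel)

def c3_leaf34 :
    Sound c3R [(0, 1, 1), (0, 1, 1), (19, 32, 32), (1, 2, 2), (0, 1, 4)] :=
  sound_leafF (K := 209) (F := ⟨⟨(-17616077), 10463, 98816, 186238, 458253, 158877, 73334, 0, 0, 0⟩, (11, 35731322747370666928713901), (11, 8338967355279744241250498), (11, 23341359818515163712794604), (10, 0), (11, 13824868)⟩) c3_ok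
    (by decide +kernel)

def c3_leaf35 :
    Sound c3R [(0, 1, 2), (0, 1, 2), (19, 32, 32), (2, 3, 4), (1, 2, 4)] :=
  sound_leafF (K := 226) (F := ⟨⟨53812920, (-281288), 273222, (-808616), 301875, 229747, 114656, 0, 0, 0⟩, (11, 1644059597580110525366433), (10, 0), (10, 0), (10, 0), (13, 11291094)⟩) c3_ok
    (by decide +kernel)

def c3_leaf36 :
    Sound c3R [(0, 1, 2), (1, 2, 2), (19, 32, 32), (2, 3, 4), (2, 3, 8)] :=
  sound_leafF (K := 232) (F := ⟨⟨28311552, (-210704), 250173, (-551838), 359712, 250677, 116859, 0, 0, 0⟩, (11, 3770060880809247009965469), (10, 0), (10, 0), (10, 0), (10, 0)⟩) c3_ok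
    (by decide +kernel)

def c3_leaf37 :
    Sound c3R [(0, 1, 2), (1, 2, 2), (19, 32, 32), (4, 5, 8), (3, 4, 8)] :=
  sound_leafF (K := 238) (F := ⟨⟨58164511, (-374719), 306186, (-1022112), 324287, 237412, 118291, 0, 0, 0⟩, (11, 1811050009533394653780769), (10, 0), (10, 0), (10, 0), (10, 0)⟩) c3_ok
    (by decide +kernel)

def c3_leaf38 :
    Sound c3R [(0, 1, 2), (1, 2, 2), (38, 51, 64), (5, 6, 8), (3, 4, 8)] :=
  sound_leafF (K := 244) (F := ⟨⟨43065016, (-210424), 295051, (-573390), 312245, 201456, 107998, 0, 0, 0⟩, (11, 3559361770959368708922497), (10, 0), (10, 0), (10, 0), (13, 28998252)⟩) c3_ok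
    (by decide +kernel)

def c3_leaf39 :
    Sound c3R [(0, 1, 2), (1, 2, 2), (51, 64, 64), (5, 6, 8), (3, 4, 8)] :=
  sound_empty2 (K := 181) (f := (11, 1048576)) (g := (13, 403463)) c3_ok (by decide +kernel)

def c3_leaf40 :
    Sound c3R [(1, 2, 2), (0, 1, 2), (19, 32, 32), (2, 3, 4), (2, 3, 8)] :=
  sound_leafF (K := 232) (F := ⟨⟨28311552, (-209387), 239987, (-569050), 364629, 257816, 116632, 0, 0, 0⟩, (11, 3776143795076870076626677), (10, 0), (10, 0), (10, 0), (10, 0)⟩) c3_ok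
    (by decide +kernel)

def c3_leaf41 :
    Sound c3R [(1, 2, 2), (0, 1, 2), (19, 32, 32), (2, 3, 4), (3, 4, 8)] :=
  sound_leafF (K := 232) (F := ⟨⟨55910072, (-240284), 278083, (-694478), 318356, 221545, 110092, 0, 0, 0⟩, (11, 2124360053092214036622888), (10, 0), (10, 0), (10, 0), (13, 11049495)⟩) c3_ok
    (by decide +kernel)

def c3_leaf42 :
    Sound c3R [(1, 2, 2), (1, 2, 2), (19, 32, 32), (2, 3, 4), (1, 2, 4)] :=
  sound_empty (K := 141) (q := 14) c3_ok (by decide +kernel)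

def c3_leaf43 :
    Sound c3R [(0, 1, 1), (0, 1, 1), (19, 32, 32), (3, 4, 4), (1, 2, 4)] :=
  sound_empty2 (K := 151) (f := (11, 1048576)) (g := (13, 669769)) c3_ok (by decide +kernel)

def c3_leaf44 :
    Sound c3R [(0, 1, 2), (0, 1, 2), (19, 32, 32), (0, 1, 4), (2, 3, 4)] :=
  sound_leafF (K := 227) (F := ⟨⟨52711916, (-852489), 197844, (-2206285), 317078, 365205, 120464, 0, 0, 0⟩, (12, 287214590918340313560550), (12, 302381968434935226786225), (12, 816665651368484073797831), (10, 0), (10, 11660603)⟩) c3_ok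
    (by decide +kernel)

def c3_leaf45 :
    Sound c3R [(0, 1, 2), (1, 2, 2), (19, 32, 32), (0, 1, 4), (4, 5, 8)] :=
  sound_leafF (K := 233) (F := ⟨⟨45424312, (-670799), 214471, (-2355473), 356661, 438521, 134922, 0, 0, 0⟩, (12, 187677191678676964758871), (12, 485361261533752909166753), (10, 0), (10, 0), (10, 2951986)⟩) c3_ok
    (by decide +kernel)

def c3_leaf46 :
    Sound c3R [(0, 1, 2), (1, 2, 2), (19, 32, 32), (0, 1, 8), (5, 6, 8)] :=
  sound_leafF (K := 239) (F := ⟨⟨34256978, (-476668), 139862, (-1871294), 332144, 449023, 118907, 0, 0, 0⟩, (10, 0), (10, 0), (10, 0), (10, 0), (10, 8638865)⟩) c3_ok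
    (by decide +kernel)

def c3_leaf47 :
    Sound c3R [(0, 1, 2), (1, 2, 2), (19, 32, 32), (1, 2, 8), (5, 6, 8)] :=
  sound_leafF (K := 239) (F := ⟨⟨67391980, (-838211), 301280, (-2309530), 314406, 341282, 141194, 0, 0, 0⟩, (14, 336502622765661167290241), (10, 0), (10, 0), (10, 0), (10, 0)⟩) c3_ok
    (by decide +kernel)

end Vale.Agent.P100.Calib.LowEnd
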