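import Vale.Agent.P100.Calib.SlabLowEndC3Data

/-!
# Leaves of the cover of corner root 3
-/

set_option maxRecDepth 100000
-- the heavy checks are definitions, so that they are checked one after another
set_option linter.defProp false

namespace Vale.Agent.P100.Calib.LowEnd

open Pack Band

def c3_leaf48 :
    Sound c3R [(1, 2, 2), (0, 1, 2), (19, 32, 32), (0, 1, 4), (4, 5, 8)] :=
  sound_leafF (K := 233) (F := ⟨⟨45424312, (-557461), 192994, (-2115440), 358444, 418734, 129913, 0, 0, 0⟩, (10, 0), (12, 577794611445104312332800), (10, 0), (10, 0), (10, 3123904)⟩) c3_ok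
    (by decide +kernel)

def c3_leaf49 :
    Sound c3R [(1, 2, 2), (0, 1, 2), (19, 32, 32), (0, 1, 8), (5, 6, 8)] :=
  sound_leafF (K := 239) (F := ⟨⟨34256978, (-456483), 129925, (-1870013), 334143, 452278, 117358, 0, 0, 0⟩, (10, 0), (10, 0), (10, 0), (10, 0), (10, 8848216)⟩) c3_ok
    (by decide +kernel)

def c3_leaf50 :
    Sound c3R [(1, 2, 2), (0, 1, 2), (19, 32, 32), (1, 2, 8), (5, 6, 8)] :=
  sound_leafF (K := 239) (F := ⟨⟨69489132, (-791784), 278194, (-2329296), 316650, 345748, 138674, 0, 0, 0⟩, (14, 306173846626227972439303), (14, 247105319289499884730097), (10, 0), (10, 0), (10, 0)⟩) c3_ok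
    (by decide +kernel)

def c3_leaf51 :
    Sound c3R [(1, 2, 2), (1, 2, 2), (19, 32, 32), (0, 1, 4), (2, 3, 4)] :=
  sound_empty (K := 141) (q := 14) c3_ok (by decide +kernel)

def c3_leaf52 :
    Sound c3R [(0, 1, 2), (0, 1, 2), (19, 32, 32), (1, 2, 4), (2, 3, 4)] :=
  sound_leafF (K := 226) (F := ⟨⟨70862766, (-357102), 255462, (-1225015), 261417, 247851, 83726, 0, 0, 0⟩, (14, 125530342526425470120665), (14, 32926646277936037223754), (10, 0), (10, 0), (13, 15931567)⟩) c3_ok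
    (by decide +kernel)

def c3_leaf53 :
    Sound c3R [(0, 1, 2), (1, 2, 2), (19, 32, 32), (2, 3, 8), (4, 5, 8)] :=
  sound_leafF (K := 239) (F := ⟨⟨60901294, (-580397), 279038, (-1681047), 318340, 307939, 127201, 0, 0, 0⟩, (10, 0), (10, 0), (10, 0), (10, 0), (10, 0)⟩) c3_ok
    (by decide +kernel)

def c3_leaf54 :
    Sound c3R [(0, 1, 2), (1, 2, 2), (19, 32, 32), (3, 4, 8), (4, 5, 8)] :=
  sound_leafF (K := 239) (F := ⟨⟨76546048, (-755733), 357811, (-1510774), 306023, 250606, 128010, 0, 0, 0⟩, (14, 380172130309497982677607), (10, 0), (10, 0), (10, 0), (10, 0)⟩) c3_ok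
    (by decide +kernel)

def c3_leaf55 :
    Sound c3R [(0, 1, 2), (1, 2, 2), (19, 32, 32), (1, 2, 4), (5, 6, 8)] :=
  sound_leafF (K := 232) (F := ⟨⟨78769029, (-601747), 300440, (-1323882), 278891, 243753, 116612, 0, 0, 0⟩, (14, 397160444030522421247107), (10, 0), (10, 0), (10, 0), (13, 16767119)⟩) c3_ok
    (by decide +kernel)

def c3_leaf56 :
    Sound c3R [(1, 2, 2), (0, 1, 2), (19, 32, 32), (1, 2, 4), (4, 5, 8)] :=
  sound_leafF (K := 232) (F := ⟨⟨70254592, (-673468), 267912, (-1027250), 320889, 204176, 73378, 0, 0, 0⟩, (14, 294497631536768489414358), (10, 0), (10, 0), (10, 0), (13, 13083717)⟩) c3_ok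
    (by decide +kernel)

def c3_leaf57 :
    Sound c3R [(1, 2, 2), (0, 1, 2), (19, 32, 32), (1, 2, 4), (5, 6, 8)] :=
  sound_leafF (K := 232) (F := ⟨⟨76671877, (-469457), 282396, (-1350335), 281468, 248744, 115653, 0, 0, 0⟩, (14, 372670151713980322961973), (10, 0), (10, 0), (10, 0), (13, 16943443)⟩) c3_ok
    (by decide +kernel)

def c3_leaf58 :
    Sound c3R [(1, 2, 2), (1, 2, 2), (19, 32, 32), (1, 2, 4), (2, 3, 4)] :=
  sound_empty (K := 141) (q := 14) c3_ok (by decide +kernel)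

def c3_leaf59 :
    Sound c3R [(0, 1, 1), (0, 1, 1), (19, 32, 32), (0, 1, 4), (3, 4, 4)] :=
  sound_empty2 (K := 151) (f := (10, 1048576)) (g := (14, 375968)) c3_ok (by decide +kernel)

def c3_leaf60 :
    Sound c3R [(0, 1, 2), (0, 1, 2), (19, 32, 32), (1, 2, 4), (3, 4, 4)] :=
  sound_empty2 (K := 164) (f := (10, 1048576)) (g := (13, 793003)) c3_ok (by decide +kernel)

def c3_leaf61 :
    Sound c3R [(0, 1, 2), (1, 2, 2), (19, 32, 32), (1, 2, 4), (6, 7, 8)] :=
  sound_leafF (K := 232) (F := ⟨⟨93061120, (-648608), 376582, (-1500376), 259929, 223297, 90741, 0, 0, 0⟩, (14, 414292007905384820782378), (10, 0), (10, 0), (10, 0), (13, 25645031)⟩) c3_ok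
    (by decide +kernel)

def c3_leaf62 :
    Sound c3R [(0, 1, 2), (1, 2, 2), (19, 32, 32), (1, 2, 4), (7, 8, 8)] :=
  sound_empty (K := 149) (q := 13) c3_ok (by decide +kernel)

def c3_leaf63 :
    Sound c3R [(1, 2, 2), (0, 1, 2), (19, 32, 32), (1, 2, 4), (6, 7, 8)] :=
  sound_leafF (K := 233) (F := ⟨⟨93061120, (-769538), 350956, (-1529571), 262111, 227791, 121228, 0, 0, 0⟩, (14, 486165566681750257288974), (10, 0), (10, 0), (10, 0), (13, 28148930)⟩) c3_ok
    (by decide +kernel)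

end Vale.Agent.P100.Calib.LowEnd
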