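import Vale.Agent.P100.Calib.SlabLowEndC3Data

/-!
# Leaves of the cover of corner root 3
-/

set_option maxRecDepth 100000
-- the heavy checks are definitions, so that they are checked one after another
set_option linter.defProp false

namespace Vale.Agent.P100.Calib.LowEnd

open Pack Band

def c3_leaf64 :
    Sound c3R [(1, 2, 2), (0, 1, 2), (19, 32, 32), (1, 2, 4), (7, 8, 8)] :=
  sound_empty (K := 149) (q := 13) c3_ok (by decide +kernel)

def c3_leaf65 :
    Sound c3R [(1, 2, 2), (1, 2, 2), (19, 32, 32), (1, 2, 4), (3, 4, 4)] :=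
  sound_empty (K := 141) (q := 14) c3_ok (by decide +kernel)

def c3_leaf66 :
    Sound c3R [(0, 1, 2), (0, 1, 2), (19, 32, 32), (2, 3, 4), (2, 3, 4)] :=
  sound_leafF (K := 226) (F := ⟨⟨79974892, (-316098), 379225, (-1452929), 243513, 98795, 44862, 0, 0, 0⟩, (13, 359574007914665222422741), (10, 0), (10, 0), (10, 0), (13, 30954362)⟩) c3_ok
    (by decide +kernel)

def c3_leaf67 :
    Sound c3R [(0, 1, 2), (1, 2, 2), (19, 32, 32), (4, 5, 8), (4, 5, 8)] :=
  sound_leafF (K := 238) (F := ⟨⟨71586284, (-378077), 332991, (-985775), 286978, 210252, 112067, 0, 0, 0⟩, (14, 611263898810957802414914), (10, 0), (10, 0), (10, 0), (13, 19669795)⟩) c3_ok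
    (by decide +kernel)

def c3_leaf68 :
    Sound c3R [(0, 1, 2), (1, 2, 2), (19, 32, 32), (5, 6, 8), (4, 5, 8)] :=
  sound_empty (K := 155) (q := 13) c3_ok (by decide +kernel)

def c3_leaf69 :
    Sound c3R [(0, 1, 2), (1, 2, 2), (19, 32, 32), (2, 3, 4), (5, 6, 8)] :=
  sound_empty (K := 149) (q := 13) c3_ok (by decide +kernel)

def c3_leaf70 :
    Sound c3R [(1, 2, 2), (0, 1, 2), (19, 32, 32), (4, 5, 8), (4, 5, 8)] :=
  sound_leafF (K := 238) (F := ⟨⟨69489132, (-370887), 315770, (-1011767), 290004, 215571, 111565, 0, 0, 0⟩, (14, 561141944644216316666509), (10, 0), (10, 0), (10, 0), (13, 19908598)⟩) c3_ok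
    (by decide +kernel)

def c3_leaf71 :
    Sound c3R [(1, 2, 2), (0, 1, 2), (19, 32, 32), (5, 6, 8), (4, 5, 8)] :=
  sound_empty (K := 155) (q := 13) c3_ok (by decide +kernel)

def c3_leaf72 :
    Sound c3R [(1, 2, 2), (0, 1, 2), (19, 32, 32), (2, 3, 4), (5, 6, 8)] :=
  sound_empty (K := 149) (q := 13) c3_ok (by decide +kernel)

def c3_leaf73 :
    Sound c3R [(1, 2, 2), (1, 2, 2), (19, 32, 32), (2, 3, 4), (2, 3, 4)] :=
  sound_empty (K := 141) (q := 14) c3_ok (by decide +kernel)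

def c3_leaf74 :
    Sound c3R [(0, 1, 1), (0, 1, 1), (19, 32, 32), (3, 4, 4), (2, 3, 4)] :=
  sound_empty (K := 131) (q := 13) c3_ok (by decide +kernel)

def c3_leaf75 :
    Sound c3R [(0, 1, 1), (0, 1, 1), (19, 32, 32), (1, 2, 2), (3, 4, 4)] :=
  sound_empty (K := 125) (q := 13) c3_ok (by decide +kernel)

end Vale.Agent.P100.Calib.LowEnd
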