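import Vale.Agent.P100.Calib.SlabLowEndC3CoverA
import Vale.Agent.P100.Calib.SlabLowEndC3CoverB
import Vale.Agent.P100.Calib.SlabLowEndC3CoverC
import Vale.Agent.P100.Calib.SlabLowEndC3CoverD
import Vale.Agent.P100.Calib.SlabLowEndC3CoverE

/-!
# The cover of corner root 3
-/

set_option maxRecDepth 100000
-- the heavy checks are definitions, so that they are checked one after another
set_option linter.defProp false

namespace Vale.Agent.P100.Calib.LowEnd

open Pack Band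

theorem c3_node0 :
    Sound c3R [(0, 1, 1), (0, 1, 1), (0, 19, 32), (0, 1, 4), (0, 1, 2)] :=
  sound_node (j := 4) (by decide) c3_leaf0 c3_leaf3

theorem c3_node1 :
    Sound c3R [(0, 1, 1), (0, 1, 1), (0, 19, 32), (1, 2, 4), (0, 1, 4)] :=
  sound_node (j := 0) (by decide) c3_leaf1 c3_leaf2

theorem c3_node2 :
    Sound c3R [(0, 1, 1), (0, 1, 1), (0, 19, 32), (1, 2, 4), (0, 1, 2)] :=
  sound_node (j := 4) (by decide) c3_node1 c3_leaf4

theorem c3_node3 :
    Sound c3R [(0, 1, 1), (0, 1, 1), (0, 19, 32), (0, 1, 2), (0, 1, 2)] :=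
  sound_node (j := 3) (by decide) c3_node0 c3_node2

theorem c3_node4 :
    Sound c3R [(1, 2, 2), (0, 1, 1), (0, 19, 32), (0, 1, 4), (2, 3, 4)] :=
  sound_node (j := 1) (by decide) c3_leaf20 c3_leaf21

theorem c3_node5 :
    Sound c3R [(0, 1, 1), (0, 1, 1), (0, 19, 32), (0, 1, 4), (2, 3, 4)] :=
  sound_node (j := 0) (by decide) c3_leaf19 c3_node4

theorem c3_node6 :
    Sound c3R [(0, 1, 1), (0, 1, 1), (0, 19, 32), (0, 1, 2), (2, 3, 4)] :=
  sound_node (j := 3) (by decide) c3_node5 c3_leaf22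

theorem c3_node7 :
    Sound c3R [(0, 1, 1), (0, 1, 1), (0, 19, 32), (0, 1, 2), (1, 2, 2)] :=
  sound_node (j := 4) (by decide) c3_node6 c3_leaf23

theorem c3_node8 :
    Sound c3R [(0, 1, 1), (0, 1, 1), (0, 19, 32), (0, 1, 2), (0, 1, 1)] :=
  sound_node (j := 4) (by decide) c3_node3 c3_node7

theorem c3_node9 :
    Sound c3R [(0, 1, 2), (0, 1, 2), (0, 19, 32), (2, 3, 4), (0, 1, 2)] :=
  sound_node (j := 4) (by decide) c3_leaf5 c3_leaf12

theorem c3_node10 :
    Sound c3R [(0, 1, 2), (1, 2, 2), (0, 19, 32), (2, 3, 4), (0, 1, 4)] :=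
  sound_node (j := 4) (by decide) c3_leaf6 c3_leaf7

theorem c3_node11 :
    Sound c3R [(0, 1, 2), (1, 2, 2), (0, 19, 32), (2, 3, 4), (1, 2, 4)] :=
  sound_node (j := 4) (by decide) c3_leaf13 c3_leaf14

theorem c3_node12 :
    Sound c3R [(0, 1, 2), (1, 2, 2), (0, 19, 32), (2, 3, 4), (0, 1, 2)] :=
  sound_node (j := 4) (by decide) c3_node10 c3_node11

theorem c3_node13 :
    Sound c3R [(0, 1, 2), (0, 1, 1), (0, 19, 32), (2, 3, 4), (0, 1, 2)] :=
  sound_node (j := 1) (by decide) c3_node9 c3_node12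

theorem c3_node14 :
    Sound c3R [(1, 2, 2), (0, 1, 2), (0, 19, 32), (2, 3, 4), (1, 2, 4)] :=
  sound_node (j := 4) (by decide) c3_leaf15 c3_leaf16

theorem c3_node15 :
    Sound c3R [(1, 2, 2), (0, 1, 2), (0, 19, 32), (2, 3, 4), (0, 1, 2)] :=
  sound_node (j := 4) (by decide) c3_leaf8 c3_node14

theorem c3_node16 :
    Sound c3R [(1, 2, 2), (1, 2, 2), (0, 19, 32), (2, 3, 4), (0, 1, 2)] :=
  sound_node (j := 4) (by decide) c3_leaf9 c3_leaf17

theorem c3_node17 :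
    Sound c3R [(1, 2, 2), (0, 1, 1), (0, 19, 32), (2, 3, 4), (0, 1, 2)] :=
  sound_node (j := 1) (by decide) c3_node15 c3_node16

theorem c3_node18 :
    Sound c3R [(0, 1, 1), (0, 1, 1), (0, 19, 32), (2, 3, 4), (0, 1, 2)] :=
  sound_node (j := 0) (by decide) c3_node13 c3_node17

theorem c3_node19 :
    Sound c3R [(0, 1, 1), (0, 1, 1), (0, 19, 32), (3, 4, 4), (0, 1, 4)] :=
  sound_node (j := 0) (by decide) c3_leaf10 c3_leaf11

theorem c3_node20 :
    Sound c3R [(0, 1, 1), (0, 1, 1), (0, 19, 32), (3, 4, 4), (0, 1, 2)] :=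
  sound_node (j := 4) (by decide) c3_node19 c3_leaf18

theorem c3_node21 :
    Sound c3R [(0, 1, 1), (0, 1, 1), (0, 19, 32), (1, 2, 2), (0, 1, 2)] :=
  sound_node (j := 3) (by decide) c3_node18 c3_node20

theorem c3_node22 :
    Sound c3R [(0, 1, 1), (0, 1, 1), (0, 19, 32), (1, 2, 2), (0, 1, 1)] :=
  sound_node (j := 4) (by decide) c3_node21 c3_leaf24

theorem c3_node23 :
    Sound c3R [(0, 1, 1), (0, 1, 1), (0, 19, 32), (0, 1, 1), (0, 1, 1)] :=
  sound_node (j := 3) (by decide) c3_node8 c3_node22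

theorem c3_node24 :
    Sound c3R [(0, 1, 2), (0, 1, 2), (19, 32, 32), (1, 2, 4), (1, 2, 4)] :=
  sound_node (j := 4) (by decide) c3_leaf27 c3_leaf28

theorem c3_node25 :
    Sound c3R [(0, 1, 2), (1, 2, 2), (19, 32, 32), (1, 2, 4), (1, 2, 4)] :=
  sound_node (j := 4) (by decide) c3_leaf29 c3_leaf30

theorem c3_node26 :
    Sound c3R [(0, 1, 2), (0, 1, 1), (19, 32, 32), (1, 2, 4), (1, 2, 4)] :=
  sound_node (j := 1) (by decide) c3_node24 c3_node25

theorem c3_node27 :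
    Sound c3R [(1, 2, 2), (0, 1, 2), (19, 32, 32), (1, 2, 4), (1, 2, 4)] :=
  sound_node (j := 4) (by decide) c3_leaf31 c3_leaf32

theorem c3_node28 :
    Sound c3R [(1, 2, 2), (0, 1, 1), (19, 32, 32), (1, 2, 4), (1, 2, 4)] :=
  sound_node (j := 1) (by decide) c3_node27 c3_leaf33

theorem c3_node29 :
    Sound c3R [(0, 1, 1), (0, 1, 1), (19, 32, 32), (1, 2, 4), (1, 2, 4)] :=
  sound_node (j := 0) (by decide) c3_node26 c3_node28

theorem c3_node30 :
    Sound c3R [(0, 1, 1), (0, 1, 1), (19, 32, 32), (0, 1, 2), (1, 2, 4)] :=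
  sound_node (j := 3) (by decide) c3_leaf26 c3_node29

theorem c3_node31 :
    Sound c3R [(0, 1, 1), (0, 1, 1), (19, 32, 32), (0, 1, 2), (0, 1, 2)] :=
  sound_node (j := 4) (by decide) c3_leaf25 c3_node30

theorem c3_node32 :
    Sound c3R [(0, 1, 2), (1, 2, 2), (19, 32, 32), (0, 1, 4), (5, 6, 8)] :=
  sound_node (j := 3) (by decide) c3_leaf46 c3_leaf47

theorem c3_node33 :
    Sound c3R [(0, 1, 2), (1, 2, 2), (19, 32, 32), (0, 1, 4), (2, 3, 4)] :=
  sound_node (j := 4) (by decide) c3_leaf45 c3_node32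

theorem c3_node34 :
    Sound c3R [(0, 1, 2), (0, 1, 1), (19, 32, 32), (0, 1, 4), (2, 3, 4)] :=
  sound_node (j := 1) (by decide) c3_leaf44 c3_node33

theorem c3_node35 :
    Sound c3R [(1, 2, 2), (0, 1, 2), (19, 32, 32), (0, 1, 4), (5, 6, 8)] :=
  sound_node (j := 3) (by decide) c3_leaf49 c3_leaf50

theorem c3_node36 :
    Sound c3R [(1, 2, 2), (0, 1, 2), (19, 32, 32), (0, 1, 4), (2, 3, 4)] :=
  sound_node (j := 4) (by decide) c3_leaf48 c3_node35

theorem c3_node37 :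
    Sound c3R [(1, 2, 2), (0, 1, 1), (19, 32, 32), (0, 1, 4), (2, 3, 4)] :=
  sound_node (j := 1) (by decide) c3_node36 c3_leaf51

theorem c3_node38 :
    Sound c3R [(0, 1, 1), (0, 1, 1), (19, 32, 32), (0, 1, 4), (2, 3, 4)] :=
  sound_node (j := 0) (by decide) c3_node34 c3_node37

theorem c3_node39 :
    Sound c3R [(0, 1, 1), (0, 1, 1), (19, 32, 32), (0, 1, 4), (1, 2, 2)] :=
  sound_node (j := 4) (by decide) c3_node38 c3_leaf59

theorem c3_node40 :
    Sound c3R [(0, 1, 2), (0, 1, 2), (19, 32, 32), (1, 2, 4), (1, 2, 2)] :=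
  sound_node (j := 4) (by decide) c3_leaf52 c3_leaf60

theorem c3_node41 :
    Sound c3R [(0, 1, 2), (1, 2, 2), (19, 32, 32), (1, 2, 4), (4, 5, 8)] :=
  sound_node (j := 3) (by decide) c3_leaf53 c3_leaf54

theorem c3_node42 :
    Sound c3R [(0, 1, 2), (1, 2, 2), (19, 32, 32), (1, 2, 4), (2, 3, 4)] :=
  sound_node (j := 4) (by decide) c3_node41 c3_leaf55

theorem c3_node43 :
    Sound c3R [(0, 1, 2), (1, 2, 2), (19, 32, 32), (1, 2, 4), (3, 4, 4)] :=
  sound_node (j := 4) (by decide) c3_leaf61 c3_leaf62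

theorem c3_node44 :
    Sound c3R [(0, 1, 2), (1, 2, 2), (19, 32, 32), (1, 2, 4), (1, 2, 2)] :=
  sound_node (j := 4) (by decide) c3_node42 c3_node43

theorem c3_node45 :
    Sound c3R [(0, 1, 2), (0, 1, 1), (19, 32, 32), (1, 2, 4), (1, 2, 2)] :=
  sound_node (j := 1) (by decide) c3_node40 c3_node44

theorem c3_node46 :
    Sound c3R [(1, 2, 2), (0, 1, 2), (19, 32, 32), (1, 2, 4), (2, 3, 4)] :=
  sound_node (j := 4) (by decide) c3_leaf56 c3_leaf57

theorem c3_node47 :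
    Sound c3R [(1, 2, 2), (0, 1, 2), (19, 32, 32), (1, 2, 4), (3, 4, 4)] :=
  sound_node (j := 4) (by decide) c3_leaf63 c3_leaf64

theorem c3_node48 :
    Sound c3R [(1, 2, 2), (0, 1, 2), (19, 32, 32), (1, 2, 4), (1, 2, 2)] :=
  sound_node (j := 4) (by decide) c3_node46 c3_node47

theorem c3_node49 :
    Sound c3R [(1, 2, 2), (1, 2, 2), (19, 32, 32), (1, 2, 4), (1, 2, 2)] :=
  sound_node (j := 4) (by decide) c3_leaf58 c3_leaf65

theorem c3_node50 :
    Sound c3R [(1, 2, 2), (0, 1, 1), (19, 32, 32), (1, 2, 4), (1, 2, 2)] :=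
  sound_node (j := 1) (by decide) c3_node48 c3_node49

theorem c3_node51 :
    Sound c3R [(0, 1, 1), (0, 1, 1), (19, 32, 32), (1, 2, 4), (1, 2, 2)] :=
  sound_node (j := 0) (by decide) c3_node45 c3_node50

theorem c3_node52 :
    Sound c3R [(0, 1, 1), (0, 1, 1), (19, 32, 32), (0, 1, 2), (1, 2, 2)] :=
  sound_node (j := 3) (by decide) c3_node39 c3_node51

theorem c3_node53 :
    Sound c3R [(0, 1, 1), (0, 1, 1), (19, 32, 32), (0, 1, 2), (0, 1, 1)] :=
  sound_node (j := 4) (by decide) c3_node31 c3_node52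

theorem c3_node54 :
    Sound c3R [(0, 1, 2), (1, 2, 2), (19, 32, 32), (5, 6, 8), (3, 4, 8)] :=
  sound_node (j := 2) (by decide) c3_leaf38 c3_leaf39

theorem c3_node55 :
    Sound c3R [(0, 1, 2), (1, 2, 2), (19, 32, 32), (2, 3, 4), (3, 4, 8)] :=
  sound_node (j := 3) (by decide) c3_leaf37 c3_node54

theorem c3_node56 :
    Sound c3R [(0, 1, 2), (1, 2, 2), (19, 32, 32), (2, 3, 4), (1, 2, 4)] :=
  sound_node (j := 4) (by decide) c3_leaf36 c3_node55

theorem c3_node57 :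
    Sound c3R [(0, 1, 2), (0, 1, 1), (19, 32, 32), (2, 3, 4), (1, 2, 4)] :=
  sound_node (j := 1) (by decide) c3_leaf35 c3_node56

theorem c3_node58 :
    Sound c3R [(1, 2, 2), (0, 1, 2), (19, 32, 32), (2, 3, 4), (1, 2, 4)] :=
  sound_node (j := 4) (by decide) c3_leaf40 c3_leaf41

theorem c3_node59 :
    Sound c3R [(1, 2, 2), (0, 1, 1), (19, 32, 32), (2, 3, 4), (1, 2, 4)] :=
  sound_node (j := 1) (by decide) c3_node58 c3_leaf42

theorem c3_node60 :
    Sound c3R [(0, 1, 1), (0, 1, 1), (19, 32, 32), (2, 3, 4), (1, 2, 4)] :=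
  sound_node (j := 0) (by decide) c3_node57 c3_node59

theorem c3_node61 :
    Sound c3R [(0, 1, 1), (0, 1, 1), (19, 32, 32), (1, 2, 2), (1, 2, 4)] :=
  sound_node (j := 3) (by decide) c3_node60 c3_leaf43

theorem c3_node62 :
    Sound c3R [(0, 1, 1), (0, 1, 1), (19, 32, 32), (1, 2, 2), (0, 1, 2)] :=
  sound_node (j := 4) (by decide) c3_leaf34 c3_node61

theorem c3_node63 :
    Sound c3R [(0, 1, 2), (1, 2, 2), (19, 32, 32), (2, 3, 4), (4, 5, 8)] :=
  sound_node (j := 3) (by decide) c3_leaf67 c3_leaf68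

theorem c3_node64 :
    Sound c3R [(0, 1, 2), (1, 2, 2), (19, 32, 32), (2, 3, 4), (2, 3, 4)] :=
  sound_node (j := 4) (by decide) c3_node63 c3_leaf69

theorem c3_node65 :
    Sound c3R [(0, 1, 2), (0, 1, 1), (19, 32, 32), (2, 3, 4), (2, 3, 4)] :=
  sound_node (j := 1) (by decide) c3_leaf66 c3_node64

theorem c3_node66 :
    Sound c3R [(1, 2, 2), (0, 1, 2), (19, 32, 32), (2, 3, 4), (4, 5, 8)] :=
  sound_node (j := 3) (by decide) c3_leaf70 c3_leaf71

theorem c3_node67 :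
    Sound c3R [(1, 2, 2), (0, 1, 2), (19, 32, 32), (2, 3, 4), (2, 3, 4)] :=
  sound_node (j := 4) (by decide) c3_node66 c3_leaf72

theorem c3_node68 :
    Sound c3R [(1, 2, 2), (0, 1, 1), (19, 32, 32), (2, 3, 4), (2, 3, 4)] :=
  sound_node (j := 1) (by decide) c3_node67 c3_leaf73

theorem c3_node69 :
    Sound c3R [(0, 1, 1), (0, 1, 1), (19, 32, 32), (2, 3, 4), (2, 3, 4)] :=
  sound_node (j := 0) (by decide) c3_node65 c3_node68

theorem c3_node70 :
    Sound c3R [(0, 1, 1), (0, 1, 1), (19, 32, 32), (1, 2, 2), (2, 3, 4)] :=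
  sound_node (j := 3) (by decide) c3_node69 c3_leaf74

theorem c3_node71 :
    Sound c3R [(0, 1, 1), (0, 1, 1), (19, 32, 32), (1, 2, 2), (1, 2, 2)] :=
  sound_node (j := 4) (by decide) c3_node70 c3_leaf75

theorem c3_node72 :
    Sound c3R [(0, 1, 1), (0, 1, 1), (19, 32, 32), (1, 2, 2), (0, 1, 1)] :=
  sound_node (j := 4) (by decide) c3_node62 c3_node71

theorem c3_node73 :
    Sound c3R [(0, 1, 1), (0, 1, 1), (19, 32, 32), (0, 1, 1), (0, 1, 1)] :=
  sound_node (j := 3) (by decide) c3_node53 c3_node72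

theorem c3_sound :
    Sound c3R cube :=
  sound_node (j := 2) (by decide) c3_node23 c3_node73

end Vale.Agent.P100.Calib.LowEnd
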