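import Vale.Agent.P100.Calib.SlabLowEndC3Data

/-!
# Leaves of the cover of corner root 3
-/

set_option maxRecDepth 100000
-- the heavy checks are definitions, so that they are checked one after another
set_option linter.defProp false

namespace Vale.Agent.P100.Calib.LowEnd

open Pack Band

def c3_leaf0 :
    Sound c3R [(0, 1, 1), (0, 1, 1), (0, 19, 32), (0, 1, 4), (0, 1, 4)] :=
  sound_leafF (K := 214) (F := ⟨⟨(-4613734), (-337938), 94610, 660835, 569129, 759317, 159021, 0, 0, 0⟩, (14, 99939848378277147076508), (12, 1481284075273767311203981), (10, 0), (10, 0), (10, 0)⟩) c3_ok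
    (by decide +kernel)

def c3_leaf1 :
    Sound c3R [(0, 1, 2), (0, 1, 1), (0, 19, 32), (1, 2, 4), (0, 1, 4)] :=
  sound_leafF (K := 220) (F := ⟨⟨0, (-655214), 107372, 0, 474647, 485479, 109978, 0, 0, 0⟩, (14, 81291944715023500609412), (14, 31390875047056805727631), (10, 0), (10, 0), (10, 0)⟩) c3_ok
    (by decide +kernel)

def c3_leaf2 :
    Sound c3R [(1, 2, 2), (0, 1, 1), (0, 19, 32), (1, 2, 4), (0, 1, 4)] :=
  sound_leafF (K := 220) (F := ⟨⟨0, (-686063), 108240, 0, 535125, 511144, 112578, 0, 0, 0⟩, (14, 114057628186917629402128), (14, 36523074938562182822985), (10, 0), (10, 0), (10, 0)⟩) c3_ok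
    (by decide +kernel)

def c3_leaf3 :
    Sound c3R [(0, 1, 1), (0, 1, 1), (0, 19, 32), (0, 1, 4), (1, 2, 4)] :=
  sound_leafF (K := 215) (F := ⟨⟨30230446, (-476552), 161971, (-1741446), 418520, 465602, 135619, 0, 0, 0⟩, (12, 141130594822199332800924), (12, 451564531320606335958667), (10, 0), (10, 0), (10, 0)⟩) c3_ok
    (by decide +kernel)

def c3_leaf4 :
    Sound c3R [(0, 1, 1), (0, 1, 1), (0, 19, 32), (1, 2, 4), (1, 2, 4)] :=
  sound_leafF (K := 214) (F := ⟨⟨45749371, (-527577), 174733, (-1063844), 377356, 230043, 98245, 0, 0, 0⟩, (14, 155302897940883072161466), (14, 49840729309110907154926), (10, 0), (10, 0), (10, 0)⟩) c3_ok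
    (by decide +kernel)

def c3_leaf5 :
    Sound c3R [(0, 1, 2), (0, 1, 2), (0, 19, 32), (2, 3, 4), (0, 1, 4)] :=
  sound_leafF (K := 226) (F := ⟨⟨0, (-265175), 109742, 0, 418080, 369993, 137537, 0, 0, 0⟩, (11, 1813364543349765096884338), (14, 19086673391402628031280), (10, 0), (10, 0), (10, 0)⟩) c3_ok
    (by decide +kernel)

def c3_leaf6 :
    Sound c3R [(0, 1, 2), (1, 2, 2), (0, 19, 32), (2, 3, 4), (0, 1, 8)] :=
  sound_leafF (K := 232) (F := ⟨⟨0, (-340919), 77297, 0, 526617, 464978, 155106, 0, 0, 0⟩, (11, 3668785719461543622307185), (14, 41341274633425681661475), (10, 0), (10, 0), (10, 0)⟩) c3_ok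
    (by decide +kernel)

def c3_leaf7 :
    Sound c3R [(0, 1, 2), (1, 2, 2), (0, 19, 32), (2, 3, 4), (1, 2, 8)] :=
  sound_leafF (K := 232) (F := ⟨⟨(-9227469), (-103367), 141406, 275431, 406792, 312018, 130894, 0, 0, 0⟩, (11, 2134356449132588972708427), (10, 0), (10, 0), (10, 0), (10, 0)⟩) c3_ok
    (by decide +kernel)

def c3_leaf8 :
    Sound c3R [(1, 2, 2), (0, 1, 2), (0, 19, 32), (2, 3, 4), (0, 1, 4)] :=
  sound_leafF (K := 226) (F := ⟨⟨0, (-334810), 112074, 0, 470461, 383177, 140358, 0, 0, 0⟩, (11, 2296477262549747139258452), (14, 27410241147360666222446), (10, 0), (10, 0), (10, 0)⟩) c3_ok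
    (by decide +kernel)

def c3_leaf9 :
    Sound c3R [(1, 2, 2), (1, 2, 2), (0, 19, 32), (2, 3, 4), (0, 1, 4)] :=
  sound_empty (K := 141) (q := 14) c3_ok (by decide +kernel)

def c3_leaf10 :
    Sound c3R [(0, 1, 2), (0, 1, 1), (0, 19, 32), (3, 4, 4), (0, 1, 4)] :=
  sound_leafF (K := 220) (F := ⟨⟨(-555745), (-134574), 119045, (-42850), 401012, 286104, 131673, 0, 0, 0⟩, (11, 4437316923956192700122129), (14, 16350834744851993555729), (10, 0), (10, 0), (10, 0)⟩) c3_ok
    (by decide +kernel)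

def c3_leaf11 :
    Sound c3R [(1, 2, 2), (0, 1, 1), (0, 19, 32), (3, 4, 4), (0, 1, 4)] :=
  sound_leafF (K := 220) (F := ⟨⟨492831, (-174198), 53187, (-74855), 453109, 284435, 86415, 0, 0, 0⟩, (11, 5299779322341122961467717), (14, 20379638520504269138124), (11, 4427009169070976016292644), (10, 0), (10, 0)⟩) c3_ok
    (by decide +kernel)

def c3_leaf12 :
    Sound c3R [(0, 1, 2), (0, 1, 2), (0, 19, 32), (2, 3, 4), (1, 2, 4)] :=
  sound_leafF (K := 226) (F := ⟨⟨60272148, (-305590), 294891, (-1174352), 319823, 167807, 52225, 0, 0, 0⟩, (11, 664884232691977817700223), (10, 0), (10, 128685171212443188856986), (10, 0), (13, 17095878)⟩) c3_ok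
    (by decide +kernel)

def c3_leaf13 :
    Sound c3R [(0, 1, 2), (1, 2, 2), (0, 19, 32), (2, 3, 4), (2, 3, 8)] :=
  sound_leafF (K := 231) (F := ⟨⟨22932357, (-175452), 204769, (-450084), 366302, 249152, 117791, 0, 0, 0⟩, (14, 829701974495930093448925), (10, 0), (10, 0), (10, 0), (10, 0)⟩) c3_ok
    (by decide +kernel)

def c3_leaf14 :
    Sound c3R [(0, 1, 2), (1, 2, 2), (0, 19, 32), (2, 3, 4), (3, 4, 8)] :=
  sound_leafF (K := 231) (F := ⟨⟨46923776, (-197245), 248059, (-562908), 327923, 211767, 109920, 0, 0, 0⟩, (14, 937783176646045410800699), (10, 0), (10, 0), (10, 0), (13, 10493434)⟩) c3_ok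
    (by decide +kernel)

def c3_leaf15 :
    Sound c3R [(1, 2, 2), (0, 1, 2), (0, 19, 32), (2, 3, 4), (2, 3, 8)] :=
  sound_leafF (K := 231) (F := ⟨⟨22932357, (-185107), 192889, (-479246), 369210, 260416, 117462, 0, 0, 0⟩, (14, 705327482167744983986480), (10, 0), (10, 0), (10, 0), (10, 0)⟩) c3_ok
    (by decide +kernel)

end Vale.Agent.P100.Calib.LowEnd
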