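import Vale.Agent.P100.Calib.SlabLowEndC3Data

/-!
# The slots of corner root 3 are within their tolerances
-/

set_option maxRecDepth 100000
-- the heavy checks are definitions, so that they are checked one after another
set_option linter.defProp false

namespace Vale.Agent.P100.Calib.LowEnd

open Pack Band

def c3_slot0 : checkSlot c3B c3P.sig 56 c3D0 c3T0 = true := by decide +kernel

def c3_slot1 : checkSlot c3B c3P.sig 56 c3D1 c3T1 = true := by decide +kernel

def c3_slot2 : checkSlot c3B c3P.sig 48 c3D2 c3T2 = true := by decide +kernel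

def c3_slot3 : checkSlot c3B c3P.sig 56 c3D3 c3T3 = true := by decide +kernel

def c3_slot4 : checkSlot c3B c3P.sig 56 c3D4 c3T4 = true := by decide +kernel

def c3_slot5 : checkSlot c3B c3P.sig 56 c3D5 c3T5 = true := by decide +kernel

def c3_slot6 : checkSlot c3B c3P.sig 56 c3D6 c3T6 = true := by decide +kernel

def c3_slot7 : checkSlot c3B c3P.sig 56 c3D7 c3T7 = true := by decide +kernel

def c3_slot8 : checkSlot c3B c3P.sig 56 c3D8 c3T8 = true := by decide +kernel

def c3_slot9 : checkSlot c3B c3P.sig 56 c3D9 c3T9 = true := by decide +kernel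

def c3_slot10 : checkSlot c3B c3P.sig 56 c3D10 c3T10 = true := by decide +kernel

def c3_slot11 : checkSlot c3B c3P.sig 56 c3D11 c3T11 = true := by decide +kernel

def c3_slot12 : checkSlot c3B c3P.sig 56 c3D12 c3T12 = true := by decide +kernel

def c3_slot13 : checkSlot c3B c3P.sig 56 c3D13 c3T13 = true := by decide +kernel

def c3_slot14 : checkSlot c3B c3P.sig 56 c3D14 c3T14 = true := by decide +kernel

theorem c3_near {x y : ℕ → ℝ} (hx : InBox c3B x) (hc : Coord c3P.sig x y) :
    Near c3R y (valueAt c3L x) :=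
  near_root rfl (fun q hq => by
    simp only [c3L, List.length_cons, List.length_nil] at hq
    interval_cases q
    · exact ⟨_, c3_slot0⟩
    · exact ⟨_, c3_slot1⟩
    · exact ⟨_, c3_slot2⟩
    · exact ⟨_, c3_slot3⟩
    · exact ⟨_, c3_slot4⟩
    · exact ⟨_, c3_slot5⟩
    · exact ⟨_, c3_slot6⟩
    · exact ⟨_, c3_slot7⟩
    · exact ⟨_, c3_slot8⟩
    · exact ⟨_, c3_slot9⟩
    · exact ⟨_, c3_slot10⟩
    · exact ⟨_, c3_slot11⟩
    · exact ⟨_, c3_slot12⟩
    · exact ⟨_, c3_slot13⟩
    · exact ⟨_, c3_slot14⟩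
  ) hx hc

end Vale.Agent.P100.Calib.LowEnd
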