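import Vale.Agent.P100.Calib.SlabLowEndC4Data

/-!
# Leaves of the cover of corner root 4
-/

set_option maxRecDepth 100000
-- the heavy checks are definitions, so that they are checked one after another
set_option linter.defProp false

namespace Vale.Agent.P100.Calib.LowEnd

open Pack Band

def c4_leaf16 :
    Sound c4R [(0, 1, 1), (0, 1, 1), (19, 32, 32), (0, 1, 2), (1, 2, 4)] :=
  sound_leafF (K := 208) (F := ⟨⟨32159826, (-422674), 219589, (-1387726), 400793, 379945, 134658, 0, 0, 0⟩, (12, 104613497417352234511893), (12, 519809243863819069406969), (10, 0), (10, 0), (11, 6615295)⟩) c4_ok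
    (by decide +kernel)

def c4_leaf17 :
    Sound c4R [(0, 1, 1), (0, 1, 1), (19, 32, 32), (1, 2, 2), (0, 1, 4)] :=
  sound_empty (K := 124) (q := 11) c4_ok (by decide +kernel)

def c4_leaf18 :
    Sound c4R [(0, 1, 1), (0, 1, 1), (19, 32, 32), (2, 3, 4), (1, 2, 4)] :=
  sound_leafF (K := 214) (F := ⟨⟨52879688, (-372424), 305288, (-1006671), 350225, 242465, 124745, 0, 0, 0⟩, (11, 2243815766270773986587908), (11, 2404989121855741050479419), (10, 0), (10, 0), (10, 0)⟩) c4_ok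
    (by decide +kernel)

def c4_leaf19 :
    Sound c4R [(0, 1, 1), (0, 1, 1), (19, 32, 32), (3, 4, 4), (1, 2, 4)] :=
  sound_empty2 (K := 151) (f := (11, 1048576)) (g := (13, 451065)) c4_ok (by decide +kernel)

def c4_leaf20 :
    Sound c4R [(0, 1, 2), (0, 1, 1), (19, 32, 32), (0, 1, 4), (2, 3, 4)] :=
  sound_leafF (K := 221) (F := ⟨⟨49943675, (-646213), 226896, (-2156787), 334828, 393946, 134812, 0, 0, 0⟩, (12, 360144787884402161663857), (12, 552738014451093760711926), (12, 1030835390796030287824144), (10, 0), (10, 4554860)⟩) c4_ok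
    (by decide +kernel)

def c4_leaf21 :
    Sound c4R [(1, 2, 2), (0, 1, 2), (19, 32, 32), (0, 1, 4), (2, 3, 4)] :=
  sound_leafF (K := 227) (F := ⟨⟨49943675, (-633317), 220495, (-2205506), 349480, 406728, 135403, 0, 0, 0⟩, (12, 364120006476447201163569), (12, 554425167146431544895562), (12, 1082736676740697898712471), (10, 0), (10, 4603463)⟩) c4_ok
    (by decide +kernel)

def c4_leaf22 :
    Sound c4R [(1, 2, 2), (1, 2, 2), (19, 32, 32), (0, 1, 4), (4, 5, 8)] :=
  sound_leafF (K := 233) (F := ⟨⟨40768635, (-559892), 204847, (-2115641), 386504, 445389, 135565, 0, 0, 0⟩, (10, 0), (12, 613746443848687825867181), (10, 0), (10, 0), (10, 0)⟩) c4_ok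
    (by decide +kernel)

def c4_leaf23 :
    Sound c4R [(1, 2, 2), (1, 2, 2), (19, 32, 32), (0, 1, 8), (5, 6, 8)] :=
  sound_leafF (K := 239) (F := ⟨⟨36364616, (-514100), 162037, (-2137325), 364320, 473980, 127471, 0, 0, 0⟩, (10, 0), (10, 0), (10, 0), (10, 0), (10, 5552380)⟩) c4_ok
    (by decide +kernel)

def c4_leaf24 :
    Sound c4R [(1, 2, 2), (1, 2, 2), (19, 32, 32), (1, 2, 8), (5, 6, 8)] :=
  sound_leafF (K := 239) (F := ⟨⟨55490642, (-631700), 244751, (-2072753), 338062, 368134, 133236, 0, 0, 0⟩, (10, 0), (10, 0), (10, 0), (10, 0), (10, 0)⟩) c4_ok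
    (by decide +kernel)

def c4_leaf25 :
    Sound c4R [(0, 1, 2), (0, 1, 2), (19, 32, 32), (1, 2, 4), (2, 3, 4)] :=
  sound_empty (K := 141) (q := 14) c4_ok (by decide +kernel)

def c4_leaf26 :
    Sound c4R [(0, 1, 2), (1, 2, 2), (19, 32, 32), (1, 2, 4), (4, 5, 8)] :=
  sound_leafF (K := 232) (F := ⟨⟨58164511, (-495782), 287265, (-1415313), 313978, 280539, 125205, 0, 0, 0⟩, (10, 0), (10, 0), (10, 0), (10, 0), (10, 0)⟩) c4_ok
    (by decide +kernel)

def c4_leaf27 :
    Sound c4R [(0, 1, 2), (1, 2, 2), (19, 32, 32), (1, 2, 4), (5, 6, 8)] :=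
  sound_leafF (K := 232) (F := ⟨⟨70747423, (-515465), 270786, (-1190065), 280194, 253986, 114919, 0, 0, 0⟩, (10, 0), (10, 0), (10, 0), (10, 0), (13, 14748720)⟩) c4_ok
    (by decide +kernel)

def c4_leaf28 :
    Sound c4R [(1, 2, 2), (0, 1, 2), (19, 32, 32), (1, 2, 4), (4, 5, 8)] :=
  sound_leafF (K := 232) (F := ⟨⟨58164511, (-488122), 278861, (-1430508), 318887, 284842, 124788, 0, 0, 0⟩, (10, 0), (10, 0), (10, 0), (10, 0), (10, 0)⟩) c4_ok
    (by decide +kernel)

def c4_leaf29 :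
    Sound c4R [(1, 2, 2), (0, 1, 2), (19, 32, 32), (1, 2, 4), (5, 6, 8)] :=
  sound_leafF (K := 232) (F := ⟨⟨70747423, (-405730), 262511, (-1202508), 284498, 257834, 114569, 0, 0, 0⟩, (10, 0), (10, 0), (10, 0), (10, 0), (13, 14657116)⟩) c4_ok
    (by decide +kernel)

def c4_leaf30 :
    Sound c4R [(1, 2, 2), (1, 2, 2), (19, 32, 32), (1, 2, 4), (4, 5, 8)] :=
  sound_leafF (K := 232) (F := ⟨⟨59852718, (-501111), 290876, (-1479375), 339318, 289454, 128086, 0, 0, 0⟩, (10, 0), (10, 0), (10, 0), (10, 0), (10, 0)⟩) c4_ok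
    (by decide +kernel)

def c4_leaf31 :
    Sound c4R [(1, 2, 2), (1, 2, 2), (19, 32, 32), (2, 3, 8), (5, 6, 8)] :=
  sound_leafF (K := 238) (F := ⟨⟨69709332, (-584226), 292797, (-1686411), 315364, 295578, 128173, 0, 0, 0⟩, (10, 0), (10, 0), (10, 0), (10, 0), (13, 4545777)⟩) c4_ok
    (by decide +kernel)

end Vale.Agent.P100.Calib.LowEnd
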