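import Vale.Agent.P100.Calib.SlabLowEndC4Data

/-!
# Leaves of the cover of corner root 4
-/

set_option maxRecDepth 100000
-- the heavy checks are definitions, so that they are checked one after another
set_option linter.defProp false

namespace Vale.Agent.P100.Calib.LowEnd

open Pack Band

def c4_leaf32 :
    Sound c4R [(1, 2, 2), (1, 2, 2), (19, 32, 32), (3, 4, 8), (5, 6, 8)] :=
  sound_leafF (K := 237) (F := ⟨⟨77877740, (-451755), 311072, (-991245), 296010, 180150, 117964, 0, 0, 0⟩, (10, 0), (10, 0), (10, 0), (10, 0), (13, 15717725)⟩) c4_ok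
    (by decide +kernel)

def c4_leaf33 :
    Sound c4R [(0, 1, 2), (0, 1, 1), (19, 32, 32), (0, 1, 4), (3, 4, 4)] :=
  sound_leafF (K := 220) (F := ⟨⟨56623104, (-734629), 139168, (-2036933), 278529, 331147, 117424, 0, 0, 0⟩, (10, 0), (12, 258197426002061177227275), (12, 1051226879056302692105609), (10, 0), (10, 14491015)⟩) c4_ok
    (by decide +kernel)

def c4_leaf34 :
    Sound c4R [(1, 2, 2), (0, 1, 2), (19, 32, 32), (0, 1, 4), (3, 4, 4)] :=
  sound_leafF (K := 227) (F := ⟨⟨56623104, (-721049), 135827, (-2082390), 290667, 341833, 117959, 0, 0, 0⟩, (10, 0), (12, 245897215539442593503229), (12, 913593326574193940158063), (10, 0), (10, 14254880)⟩) c4_ok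
    (by decide +kernel)

def c4_leaf35 :
    Sound c4R [(1, 2, 2), (1, 2, 2), (19, 32, 32), (0, 1, 8), (6, 7, 8)] :=
  sound_leafF (K := 238) (F := ⟨⟨38535168, (-479493), 147997, (-1953527), 334161, 434412, 121154, 0, 0, 0⟩, (10, 0), (10, 0), (10, 0), (10, 0), (10, 9567298)⟩) c4_ok
    (by decide +kernel)

def c4_leaf36 :
    Sound c4R [(1, 2, 2), (1, 2, 2), (19, 32, 32), (1, 2, 8), (6, 7, 8)] :=
  sound_leafF (K := 239) (F := ⟨⟨63700992, (-657934), 254950, (-2053785), 311419, 337626, 130912, 0, 0, 0⟩, (10, 0), (10, 0), (10, 0), (10, 0), (10, 8174824)⟩) c4_ok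
    (by decide +kernel)

def c4_leaf37 :
    Sound c4R [(1, 2, 2), (1, 2, 2), (19, 32, 32), (0, 1, 4), (7, 8, 8)] :=
  sound_leafF (K := 234) (F := ⟨⟨66563604, (-805580), 253622, (-2467651), 303397, 362168, 137716, 0, 0, 0⟩, (10, 5476718929337312447289753), (10, 9339553246002541200790979), (10, 29878887844963353816320252), (10, 0), (10, 20012082)⟩) c4_ok
    (by decide +kernel)

def c4_leaf38 :
    Sound c4R [(0, 1, 2), (0, 1, 1), (19, 32, 32), (1, 2, 4), (3, 4, 4)] :=
  sound_leafF (K := 219) (F := ⟨⟨85490401, (-415858), 328923, (-1358193), 244851, 222199, 68922, 0, 0, 0⟩, (10, 0), (10, 0), (10, 0), (10, 0), (13, 19722953)⟩) c4_ok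
    (by decide +kernel)

def c4_leaf39 :
    Sound c4R [(1, 2, 2), (0, 1, 2), (19, 32, 32), (1, 2, 4), (3, 4, 4)] :=
  sound_leafF (K := 225) (F := ⟨⟨86633349, (-463705), 334510, (-1236080), 256596, 227427, 65127, 0, 0, 0⟩, (10, 0), (10, 0), (10, 0), (10, 0), (13, 20097203)⟩) c4_ok
    (by decide +kernel)

def c4_leaf40 :
    Sound c4R [(1, 2, 2), (1, 2, 2), (19, 32, 32), (2, 3, 8), (6, 7, 8)] :=
  sound_leafF (K := 238) (F := ⟨⟨79974892, (-654153), 282546, (-1520326), 287130, 271229, 120294, 0, 0, 0⟩, (10, 0), (10, 0), (10, 0), (10, 0), (13, 14902067)⟩) c4_ok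
    (by decide +kernel)

def c4_leaf41 :
    Sound c4R [(1, 2, 2), (1, 2, 2), (19, 32, 32), (3, 4, 8), (6, 7, 8)] :=
  sound_leafF (K := 238) (F := ⟨⟨88363500, (-565102), 369111, (-1375499), 275515, 223246, 120362, 0, 0, 0⟩, (13, 64963557531463702665942), (10, 0), (10, 0), (10, 0), (13, 23050186)⟩) c4_ok
    (by decide +kernel)

def c4_leaf42 :
    Sound c4R [(1, 2, 2), (1, 2, 2), (19, 32, 32), (2, 3, 8), (7, 8, 8)] :=
  sound_leafF (K := 238) (F := ⟨⟨88363500, (-694593), 349795, (-1704134), 270473, 251532, 126999, 0, 0, 0⟩, (10, 0), (10, 0), (10, 0), (10, 0), (13, 22097570)⟩) c4_ok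
    (by decide +kernel)

def c4_leaf43 :
    Sound c4R [(1, 2, 2), (1, 2, 2), (19, 32, 32), (3, 4, 8), (7, 8, 8)] :=
  sound_empty (K := 155) (q := 13) c4_ok (by decide +kernel)

def c4_leaf44 :
    Sound c4R [(0, 1, 2), (0, 1, 1), (19, 32, 32), (2, 3, 4), (2, 3, 4)] :=
  sound_leafF (K := 219) (F := ⟨⟨66563604, (-287594), 377917, (-1465811), 262182, 89637, 28085, 0, 0, 0⟩, (13, 301943413215561363092806), (14, 106453519538158925813815), (13, 510890134466139562784445), (10, 0), (13, 21949823)⟩) c4_ok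
    (by decide +kernel)

def c4_leaf45 :
    Sound c4R [(1, 2, 2), (0, 1, 2), (19, 32, 32), (2, 3, 4), (2, 3, 4)] :=
  sound_leafF (K := 225) (F := ⟨⟨67391980, (-334383), 342591, (-1430583), 276622, 78583, 44546, 0, 0, 0⟩, (11, 1837082300333270682242819), (10, 0), (10, 0), (10, 0), (13, 21426430)⟩) c4_ok
    (by decide +kernel)

def c4_leaf46 :
    Sound c4R [(1, 2, 2), (1, 2, 2), (19, 32, 32), (4, 5, 8), (4, 5, 8)] :=
  sound_leafF (K := 237) (F := ⟨⟨68650271, (-322815), 305805, (-918641), 311113, 224994, 113755, 0, 0, 0⟩, (11, 1369242288578653389438655), (10, 0), (10, 0), (10, 0), (13, 12545875)⟩) c4_ok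
    (by decide +kernel)

def c4_leaf47 :
    Sound c4R [(1, 2, 2), (1, 2, 2), (19, 32, 32), (5, 6, 8), (4, 5, 8)] :=
  sound_empty2 (K := 175) (f := (11, 1048576)) (g := (13, 875934)) c4_ok (by decide +kernel)

end Vale.Agent.P100.Calib.LowEnd
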