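import Vale.Agent.P100.Calib.SlabLowEndC4Data

/-!
# Leaves of the cover of corner root 4
-/

set_option maxRecDepth 100000
-- the heavy checks are definitions, so that they are checked one after another
set_option linter.defProp false

namespace Vale.Agent.P100.Calib.LowEnd

open Pack Band

def c4_leaf48 :
    Sound c4R [(1, 2, 2), (1, 2, 2), (19, 32, 32), (4, 5, 8), (5, 6, 8)] :=
  sound_leafF (K := 237) (F := ⟨⟨78643200, (-406545), 358904, (-1264586), 286550, 82877, 62237, 0, 0, 0⟩, (13, 550871556900505283765670), (10, 0), (10, 0), (10, 0), (13, 23598415)⟩) c4_ok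
    (by decide +kernel)

def c4_leaf49 :
    Sound c4R [(1, 2, 2), (1, 2, 2), (19, 32, 32), (5, 6, 8), (5, 6, 8)] :=
  sound_empty (K := 155) (q := 13) c4_ok (by decide +kernel)

def c4_leaf50 :
    Sound c4R [(0, 1, 1), (0, 1, 1), (19, 32, 32), (3, 4, 4), (2, 3, 4)] :=
  sound_empty (K := 131) (q := 13) c4_ok (by decide +kernel)

def c4_leaf51 :
    Sound c4R [(0, 1, 1), (0, 1, 1), (19, 32, 32), (1, 2, 2), (3, 4, 4)] :=
  sound_empty (K := 125) (q := 13) c4_ok (by decide +kernel)

end Vale.Agent.P100.Calib.LowEnd
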