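import Vale.Agent.P100.Calib.SlabLowEndC4CoverA
import Vale.Agent.P100.Calib.SlabLowEndC4CoverB
import Vale.Agent.P100.Calib.SlabLowEndC4CoverC
import Vale.Agent.P100.Calib.SlabLowEndC4CoverD

/-!
# The cover of corner root 4
-/

set_option maxRecDepth 100000
-- the heavy checks are definitions, so that they are checked one after another
set_option linter.defProp false

namespace Vale.Agent.P100.Calib.LowEnd

open Pack Band

theorem c4_node0 :
    Sound c4R [(0, 1, 1), (0, 1, 1), (0, 19, 32), (1, 2, 4), (0, 1, 4)] :=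
  sound_node (j := 0) (by decide) c4_leaf1 c4_leaf2

theorem c4_node1 :
    Sound c4R [(0, 1, 1), (0, 1, 1), (0, 19, 32), (0, 1, 2), (0, 1, 4)] :=
  sound_node (j := 3) (by decide) c4_leaf0 c4_node0

theorem c4_node2 :
    Sound c4R [(0, 1, 1), (0, 1, 1), (0, 19, 32), (0, 1, 2), (0, 1, 2)] :=
  sound_node (j := 4) (by decide) c4_node1 c4_leaf3

theorem c4_node3 :
    Sound c4R [(0, 1, 1), (0, 1, 1), (0, 19, 32), (0, 1, 4), (1, 2, 2)] :=
  sound_node (j := 4) (by decide) c4_leaf7 c4_leaf10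

theorem c4_node4 :
    Sound c4R [(0, 1, 1), (0, 1, 1), (0, 19, 32), (1, 2, 4), (2, 3, 4)] :=
  sound_node (j := 0) (by decide) c4_leaf8 c4_leaf9

theorem c4_node5 :
    Sound c4R [(0, 1, 1), (0, 1, 1), (0, 19, 32), (1, 2, 4), (1, 2, 2)] :=
  sound_node (j := 4) (by decide) c4_node4 c4_leaf11

theorem c4_node6 :
    Sound c4R [(0, 1, 1), (0, 1, 1), (0, 19, 32), (0, 1, 2), (1, 2, 2)] :=
  sound_node (j := 3) (by decide) c4_node3 c4_node5

theorem c4_node7 :
    Sound c4R [(0, 1, 1), (0, 1, 1), (0, 19, 32), (0, 1, 2), (0, 1, 1)] :=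
  sound_node (j := 4) (by decide) c4_node2 c4_node6

theorem c4_node8 :
    Sound c4R [(0, 1, 1), (0, 1, 1), (0, 19, 32), (1, 2, 2), (1, 2, 4)] :=
  sound_node (j := 3) (by decide) c4_leaf5 c4_leaf6

theorem c4_node9 :
    Sound c4R [(0, 1, 1), (0, 1, 1), (0, 19, 32), (1, 2, 2), (0, 1, 2)] :=
  sound_node (j := 4) (by decide) c4_leaf4 c4_node8

theorem c4_node10 :
    Sound c4R [(0, 1, 1), (0, 1, 1), (0, 19, 32), (1, 2, 2), (2, 3, 4)] :=
  sound_node (j := 3) (by decide) c4_leaf12 c4_leaf13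

theorem c4_node11 :
    Sound c4R [(0, 1, 1), (0, 1, 1), (0, 19, 32), (1, 2, 2), (1, 2, 2)] :=
  sound_node (j := 4) (by decide) c4_node10 c4_leaf14

theorem c4_node12 :
    Sound c4R [(0, 1, 1), (0, 1, 1), (0, 19, 32), (1, 2, 2), (0, 1, 1)] :=
  sound_node (j := 4) (by decide) c4_node9 c4_node11

theorem c4_node13 :
    Sound c4R [(0, 1, 1), (0, 1, 1), (0, 19, 32), (0, 1, 1), (0, 1, 1)] :=
  sound_node (j := 3) (by decide) c4_node7 c4_node12

theorem c4_node14 :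
    Sound c4R [(0, 1, 1), (0, 1, 1), (19, 32, 32), (0, 1, 2), (0, 1, 2)] :=
  sound_node (j := 4) (by decide) c4_leaf15 c4_leaf16

theorem c4_node15 :
    Sound c4R [(0, 1, 2), (0, 1, 1), (19, 32, 32), (0, 1, 4), (1, 2, 2)] :=
  sound_node (j := 4) (by decide) c4_leaf20 c4_leaf33

theorem c4_node16 :
    Sound c4R [(0, 1, 2), (1, 2, 2), (19, 32, 32), (1, 2, 4), (2, 3, 4)] :=
  sound_node (j := 4) (by decide) c4_leaf26 c4_leaf27

theorem c4_node17 :
    Sound c4R [(0, 1, 2), (0, 1, 1), (19, 32, 32), (1, 2, 4), (2, 3, 4)] :=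
  sound_node (j := 1) (by decide) c4_leaf25 c4_node16

theorem c4_node18 :
    Sound c4R [(0, 1, 2), (0, 1, 1), (19, 32, 32), (1, 2, 4), (1, 2, 2)] :=
  sound_node (j := 4) (by decide) c4_node17 c4_leaf38

theorem c4_node19 :
    Sound c4R [(0, 1, 2), (0, 1, 1), (19, 32, 32), (0, 1, 2), (1, 2, 2)] :=
  sound_node (j := 3) (by decide) c4_node15 c4_node18

theorem c4_node20 :
    Sound c4R [(1, 2, 2), (0, 1, 2), (19, 32, 32), (0, 1, 4), (1, 2, 2)] :=
  sound_node (j := 4) (by decide) c4_leaf21 c4_leaf34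

theorem c4_node21 :
    Sound c4R [(1, 2, 2), (0, 1, 2), (19, 32, 32), (1, 2, 4), (2, 3, 4)] :=
  sound_node (j := 4) (by decide) c4_leaf28 c4_leaf29

theorem c4_node22 :
    Sound c4R [(1, 2, 2), (0, 1, 2), (19, 32, 32), (1, 2, 4), (1, 2, 2)] :=
  sound_node (j := 4) (by decide) c4_node21 c4_leaf39

theorem c4_node23 :
    Sound c4R [(1, 2, 2), (0, 1, 2), (19, 32, 32), (0, 1, 2), (1, 2, 2)] :=
  sound_node (j := 3) (by decide) c4_node20 c4_node22

theorem c4_node24 :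
    Sound c4R [(1, 2, 2), (1, 2, 2), (19, 32, 32), (0, 1, 4), (5, 6, 8)] :=
  sound_node (j := 3) (by decide) c4_leaf23 c4_leaf24

theorem c4_node25 :
    Sound c4R [(1, 2, 2), (1, 2, 2), (19, 32, 32), (0, 1, 4), (2, 3, 4)] :=
  sound_node (j := 4) (by decide) c4_leaf22 c4_node24

theorem c4_node26 :
    Sound c4R [(1, 2, 2), (1, 2, 2), (19, 32, 32), (0, 1, 4), (6, 7, 8)] :=
  sound_node (j := 3) (by decide) c4_leaf35 c4_leaf36

theorem c4_node27 :
    Sound c4R [(1, 2, 2), (1, 2, 2), (19, 32, 32), (0, 1, 4), (3, 4, 4)] :=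
  sound_node (j := 4) (by decide) c4_node26 c4_leaf37

theorem c4_node28 :
    Sound c4R [(1, 2, 2), (1, 2, 2), (19, 32, 32), (0, 1, 4), (1, 2, 2)] :=
  sound_node (j := 4) (by decide) c4_node25 c4_node27

theorem c4_node29 :
    Sound c4R [(1, 2, 2), (1, 2, 2), (19, 32, 32), (1, 2, 4), (5, 6, 8)] :=
  sound_node (j := 3) (by decide) c4_leaf31 c4_leaf32

theorem c4_node30 :
    Sound c4R [(1, 2, 2), (1, 2, 2), (19, 32, 32), (1, 2, 4), (2, 3, 4)] :=
  sound_node (j := 4) (by decide) c4_leaf30 c4_node29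

theorem c4_node31 :
    Sound c4R [(1, 2, 2), (1, 2, 2), (19, 32, 32), (2, 3, 8), (3, 4, 4)] :=
  sound_node (j := 4) (by decide) c4_leaf40 c4_leaf42

theorem c4_node32 :
    Sound c4R [(1, 2, 2), (1, 2, 2), (19, 32, 32), (3, 4, 8), (3, 4, 4)] :=
  sound_node (j := 4) (by decide) c4_leaf41 c4_leaf43

theorem c4_node33 :
    Sound c4R [(1, 2, 2), (1, 2, 2), (19, 32, 32), (1, 2, 4), (3, 4, 4)] :=
  sound_node (j := 3) (by decide) c4_node31 c4_node32

theorem c4_node34 :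
    Sound c4R [(1, 2, 2), (1, 2, 2), (19, 32, 32), (1, 2, 4), (1, 2, 2)] :=
  sound_node (j := 4) (by decide) c4_node30 c4_node33

theorem c4_node35 :
    Sound c4R [(1, 2, 2), (1, 2, 2), (19, 32, 32), (0, 1, 2), (1, 2, 2)] :=
  sound_node (j := 3) (by decide) c4_node28 c4_node34

theorem c4_node36 :
    Sound c4R [(1, 2, 2), (0, 1, 1), (19, 32, 32), (0, 1, 2), (1, 2, 2)] :=
  sound_node (j := 1) (by decide) c4_node23 c4_node35

theorem c4_node37 :
    Sound c4R [(0, 1, 1), (0, 1, 1), (19, 32, 32), (0, 1, 2), (1, 2, 2)] :=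
  sound_node (j := 0) (by decide) c4_node19 c4_node36

theorem c4_node38 :
    Sound c4R [(0, 1, 1), (0, 1, 1), (19, 32, 32), (0, 1, 2), (0, 1, 1)] :=
  sound_node (j := 4) (by decide) c4_node14 c4_node37

theorem c4_node39 :
    Sound c4R [(0, 1, 1), (0, 1, 1), (19, 32, 32), (1, 2, 2), (1, 2, 4)] :=
  sound_node (j := 3) (by decide) c4_leaf18 c4_leaf19

theorem c4_node40 :
    Sound c4R [(0, 1, 1), (0, 1, 1), (19, 32, 32), (1, 2, 2), (0, 1, 2)] :=
  sound_node (j := 4) (by decide) c4_leaf17 c4_node39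

theorem c4_node41 :
    Sound c4R [(1, 2, 2), (1, 2, 2), (19, 32, 32), (4, 5, 8), (2, 3, 4)] :=
  sound_node (j := 4) (by decide) c4_leaf46 c4_leaf48

theorem c4_node42 :
    Sound c4R [(1, 2, 2), (1, 2, 2), (19, 32, 32), (5, 6, 8), (2, 3, 4)] :=
  sound_node (j := 4) (by decide) c4_leaf47 c4_leaf49

theorem c4_node43 :
    Sound c4R [(1, 2, 2), (1, 2, 2), (19, 32, 32), (2, 3, 4), (2, 3, 4)] :=
  sound_node (j := 3) (by decide) c4_node41 c4_node42

theorem c4_node44 :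
    Sound c4R [(1, 2, 2), (0, 1, 1), (19, 32, 32), (2, 3, 4), (2, 3, 4)] :=
  sound_node (j := 1) (by decide) c4_leaf45 c4_node43

theorem c4_node45 :
    Sound c4R [(0, 1, 1), (0, 1, 1), (19, 32, 32), (2, 3, 4), (2, 3, 4)] :=
  sound_node (j := 0) (by decide) c4_leaf44 c4_node44

theorem c4_node46 :
    Sound c4R [(0, 1, 1), (0, 1, 1), (19, 32, 32), (1, 2, 2), (2, 3, 4)] :=
  sound_node (j := 3) (by decide) c4_node45 c4_leaf50

theorem c4_node47 :
    Sound c4R [(0, 1, 1), (0, 1, 1), (19, 32, 32), (1, 2, 2), (1, 2, 2)] :=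
  sound_node (j := 4) (by decide) c4_node46 c4_leaf51

theorem c4_node48 :
    Sound c4R [(0, 1, 1), (0, 1, 1), (19, 32, 32), (1, 2, 2), (0, 1, 1)] :=
  sound_node (j := 4) (by decide) c4_node40 c4_node47

theorem c4_node49 :
    Sound c4R [(0, 1, 1), (0, 1, 1), (19, 32, 32), (0, 1, 1), (0, 1, 1)] :=
  sound_node (j := 3) (by decide) c4_node38 c4_node48

theorem c4_sound :
    Sound c4R cube :=
  sound_node (j := 2) (by decide) c4_node13 c4_node49

end Vale.Agent.P100.Calib.LowEnd
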