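import Vale.Agent.P100.Calib.SlabLowEndC4Data

/-!
# Leaves of the cover of corner root 4
-/

set_option maxRecDepth 100000
-- the heavy checks are definitions, so that they are checked one after another
set_option linter.defProp false

namespace Vale.Agent.P100.Calib.LowEnd

open Pack Band

def c4_leaf0 :
    Sound c4R [(0, 1, 1), (0, 1, 1), (0, 19, 32), (0, 1, 4), (0, 1, 4)] :=
  sound_leafF (K := 214) (F := ⟨⟨(-4194304), (-361449), 91250, 579714, 549110, 726871, 162752, 0, 0, 0⟩, (12, 690253082380357994631489), (12, 1072569331033643081470195), (10, 0), (10, 0), (10, 0)⟩) c4_ok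
    (by decide +kernel)

def c4_leaf1 :
    Sound c4R [(0, 1, 2), (0, 1, 1), (0, 19, 32), (1, 2, 4), (0, 1, 4)] :=
  sound_leafF (K := 220) (F := ⟨⟨(-838861), (-583327), 124092, 343922, 481306, 515640, 82319, 0, 0, 0⟩, (14, 70512119559935776721897), (14, 37430264433954150620576), (10, 0), (10, 0), (10, 0)⟩) c4_ok
    (by decide +kernel)

def c4_leaf2 :
    Sound c4R [(1, 2, 2), (0, 1, 1), (0, 19, 32), (1, 2, 4), (0, 1, 4)] :=
  sound_leafF (K := 220) (F := ⟨⟨283116, (-558177), 26492, (-67232), 522597, 720295, 83402, 0, 0, 0⟩, (11, 474333770395092744080676), (10, 0), (10, 0), (10, 0), (10, 0)⟩) c4_ok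
    (by decide +kernel)

def c4_leaf3 :
    Sound c4R [(0, 1, 1), (0, 1, 1), (0, 19, 32), (0, 1, 2), (1, 2, 4)] :=
  sound_leafF (K := 208) (F := ⟨⟨32212255, (-341185), 186650, (-1484436), 395108, 398867, 135903, 0, 0, 0⟩, (12, 71457262450298044817370), (12, 555860470370398111456378), (10, 0), (10, 0), (10, 0)⟩) c4_ok
    (by decide +kernel)

def c4_leaf4 :
    Sound c4R [(0, 1, 1), (0, 1, 1), (0, 19, 32), (1, 2, 2), (0, 1, 4)] :=
  sound_leafF (K := 207) (F := ⟨⟨283116, (-440930), 26670, (-48502), 432878, 339587, 76050, 0, 0, 0⟩, (11, 2311973432377081280439915), (14, 60982887212877247270052), (11, 2443550085164047798027807), (10, 0), (10, 0)⟩) c4_ok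
    (by decide +kernel)

def c4_leaf5 :
    Sound c4R [(0, 1, 1), (0, 1, 1), (0, 19, 32), (2, 3, 4), (1, 2, 4)] :=
  sound_leafF (K := 213) (F := ⟨⟨43652219, (-141411), 250495, (-913676), 351726, 178179, 68461, 0, 0, 0⟩, (11, 1007110992276303194596634), (14, 92040655292944620430371), (10, 0), (10, 0), (11, 10630329)⟩) c4_ok
    (by decide +kernel)

def c4_leaf6 :
    Sound c4R [(0, 1, 1), (0, 1, 1), (0, 19, 32), (3, 4, 4), (1, 2, 4)] :=
  sound_leafF (K := 213) (F := ⟨⟨335544, (-20293), 184644, (-124620), 325965, 77010, 43764, 0, 0, 0⟩, (13, 1073454113617873538197434), (10, 0), (11, 2648756833453398406169984), (10, 0), (13, 37537377)⟩) c4_ok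
    (by decide +kernel)

def c4_leaf7 :
    Sound c4R [(0, 1, 1), (0, 1, 1), (0, 19, 32), (0, 1, 4), (2, 3, 4)] :=
  sound_leafF (K := 215) (F := ⟨⟨49020928, (-630304), 223126, (-2315586), 349120, 352180, 113080, 0, 0, 0⟩, (10, 0), (12, 288190367082277251648338), (10, 0), (10, 0), (10, 18800630)⟩) c4_ok
    (by decide +kernel)

def c4_leaf8 :
    Sound c4R [(0, 1, 2), (0, 1, 1), (0, 19, 32), (1, 2, 4), (2, 3, 4)] :=
  sound_leafF (K := 219) (F := ⟨⟨62526587, (-327459), 221383, (-957991), 287551, 246457, 112762, 0, 0, 0⟩, (10, 0), (10, 0), (10, 0), (10, 0), (13, 15676009)⟩) c4_ok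
    (by decide +kernel)

def c4_leaf9 :
    Sound c4R [(1, 2, 2), (0, 1, 1), (0, 19, 32), (1, 2, 4), (2, 3, 4)] :=
  sound_leafF (K := 219) (F := ⟨⟨67633152, (-323304), 224443, (-899829), 312123, 254072, 85093, 0, 0, 0⟩, (10, 0), (10, 0), (10, 0), (10, 0), (13, 15736337)⟩) c4_ok
    (by decide +kernel)

def c4_leaf10 :
    Sound c4R [(0, 1, 1), (0, 1, 1), (0, 19, 32), (0, 1, 4), (3, 4, 4)] :=
  sound_empty (K := 131) (q := 10) c4_ok (by decide +kernel)

def c4_leaf11 :
    Sound c4R [(0, 1, 1), (0, 1, 1), (0, 19, 32), (1, 2, 4), (3, 4, 4)] :=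
  sound_leafF (K := 214) (F := ⟨⟨97255424, (-379693), 353278, (-1396983), 263911, 133257, 36795, 0, 0, 0⟩, (13, 208983252722111042007869), (10, 3072786061081741443503139), (10, 1484246872893546981428190), (10, 0), (13, 31588787)⟩) c4_ok
    (by decide +kernel)

def c4_leaf12 :
    Sound c4R [(0, 1, 1), (0, 1, 1), (0, 19, 32), (2, 3, 4), (2, 3, 4)] :=
  sound_leafF (K := 213) (F := ⟨⟨65294828, (-310747), 314005, (-1203193), 287936, 102653, 60519, 0, 0, 0⟩, (13, 571304460692621773465231), (10, 0), (10, 0), (10, 0), (13, 28532428)⟩) c4_ok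
    (by decide +kernel)

def c4_leaf13 :
    Sound c4R [(0, 1, 1), (0, 1, 1), (0, 19, 32), (3, 4, 4), (2, 3, 4)] :=
  sound_empty (K := 131) (q := 13) c4_ok (by decide +kernel)

def c4_leaf14 :
    Sound c4R [(0, 1, 1), (0, 1, 1), (0, 19, 32), (1, 2, 2), (3, 4, 4)] :=
  sound_empty (K := 125) (q := 13) c4_ok (by decide +kernel)

def c4_leaf15 :
    Sound c4R [(0, 1, 1), (0, 1, 1), (19, 32, 32), (0, 1, 2), (0, 1, 4)] :=
  sound_leafF (K := 208) (F := ⟨⟨(-6710886), (-245992), 136213, 797865, 518065, 670865, 152871, 0, 0, 0⟩, (11, 1895577868611471975341822), (11, 1151619297882096222723388), (10, 0), (10, 0), (10, 0)⟩) c4_ok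
    (by decide +kernel)

end Vale.Agent.P100.Calib.LowEnd
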