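import Vale.Agent.P100.Calib.SlabLowEndC4Data

/-!
# The slots of corner root 4 are within their tolerances
-/

set_option maxRecDepth 100000
-- the heavy checks are definitions, so that they are checked one after another
set_option linter.defProp false

namespace Vale.Agent.P100.Calib.LowEnd

open Pack Band

def c4_slot0 : checkSlot c4B c4P.sig 56 c4D0 c4T0 = true := by decide +kernel

def c4_slot1 : checkSlot c4B c4P.sig 56 c4D1 c4T1 = true := by decide +kernel

def c4_slot2 : checkSlot c4B c4P.sig 56 c4D2 c4T2 = true := by decide +kernel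

def c4_slot3 : checkSlot c4B c4P.sig 56 c4D3 c4T3 = true := by decide +kernel

def c4_slot4 : checkSlot c4B c4P.sig 56 c4D4 c4T4 = true := by decide +kernel

def c4_slot5 : checkSlot c4B c4P.sig 56 c4D5 c4T5 = true := by decide +kernel

def c4_slot6 : checkSlot c4B c4P.sig 56 c4D6 c4T6 = true := by decide +kernel

def c4_slot7 : checkSlot c4B c4P.sig 56 c4D7 c4T7 = true := by decide +kernel

def c4_slot8 : checkSlot c4B c4P.sig 56 c4D8 c4T8 = true := by decide +kernel

def c4_slot9 : checkSlot c4B c4P.sig 56 c4D9 c4T9 = true := by decide +kernel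

def c4_slot10 : checkSlot c4B c4P.sig 56 c4D10 c4T10 = true := by decide +kernel

def c4_slot11 : checkSlot c4B c4P.sig 56 c4D11 c4T11 = true := by decide +kernel

def c4_slot12 : checkSlot c4B c4P.sig 56 c4D12 c4T12 = true := by decide +kernel

def c4_slot13 : checkSlot c4B c4P.sig 56 c4D13 c4T13 = true := by decide +kernel

def c4_slot14 : checkSlot c4B c4P.sig 56 c4D14 c4T14 = true := by decide +kernel

theorem c4_near {x y : ℕ → ℝ} (hx : InBox c4B x) (hc : Coord c4P.sig x y) :
    Near c4R y (valueAt c4L x) :=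
  near_root rfl (fun q hq => by
    simp only [c4L, List.length_cons, List.length_nil] at hq
    interval_cases q
    · exact ⟨_, c4_slot0⟩
    · exact ⟨_, c4_slot1⟩
    · exact ⟨_, c4_slot2⟩
    · exact ⟨_, c4_slot3⟩
    · exact ⟨_, c4_slot4⟩
    · exact ⟨_, c4_slot5⟩
    · exact ⟨_, c4_slot6⟩
    · exact ⟨_, c4_slot7⟩
    · exact ⟨_, c4_slot8⟩
    · exact ⟨_, c4_slot9⟩
    · exact ⟨_, c4_slot10⟩
    · exact ⟨_, c4_slot11⟩
    · exact ⟨_, c4_slot12⟩
    · exact ⟨_, c4_slot13⟩
    · exact ⟨_, c4_slot14⟩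
  ) hx hc

end Vale.Agent.P100.Calib.LowEnd
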