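import Vale.Agent.P100.Calib.SlabLowEndC5Data

/-!
# Leaves of the cover of corner root 5
-/

set_option maxRecDepth 100000
-- the heavy checks are definitions, so that they are checked one after another
set_option linter.defProp false

namespace Vale.Agent.P100.Calib.LowEnd

open Pack Band

def c5_leaf16 :
    Sound c5R [(0, 1, 2), (0, 1, 1), (0, 19, 32), (0, 1, 4), (2, 3, 4)] :=
  sound_leafF (K := 220) (F := ⟨⟨46923776, (-465377), 146906, (-1318038), 325217, 344137, 117194, 0, 0, 0⟩, (10, 0), (12, 344126897052669680152331), (10, 0), (10, 0), (10, 20456103)⟩) c5_ok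
    (by decide +kernel)

def c5_leaf17 :
    Sound c5R [(1, 2, 2), (0, 1, 2), (0, 19, 32), (0, 1, 4), (2, 3, 4)] :=
  sound_leafF (K := 226) (F := ⟨⟨42729472, (-361283), 142794, (-1336622), 336503, 352126, 117377, 0, 0, 0⟩, (10, 0), (12, 305971937124886397888546), (10, 0), (10, 0), (10, 20269743)⟩) c5_ok
    (by decide +kernel)

def c5_leaf18 :
    Sound c5R [(1, 2, 2), (1, 2, 2), (0, 19, 32), (0, 1, 4), (4, 5, 8)] :=
  sound_leafF (K := 233) (F := ⟨⟨47846523, (-530885), 184152, (-2062489), 392597, 409308, 134935, 0, 0, 0⟩, (10, 0), (12, 409839246991861983057506), (10, 0), (10, 0), (10, 4423789)⟩) c5_ok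
    (by decide +kernel)

def c5_leaf19 :
    Sound c5R [(1, 2, 2), (1, 2, 2), (0, 19, 32), (0, 1, 4), (5, 6, 8)] :=
  sound_leafF (K := 232) (F := ⟨⟨56623104, (-528808), 167330, (-1653332), 356123, 351992, 122712, 0, 0, 0⟩, (10, 0), (10, 6048868249350129178872014), (10, 0), (10, 0), (10, 21752206)⟩) c5_ok
    (by decide +kernel)

def c5_leaf20 :
    Sound c5R [(0, 1, 2), (0, 1, 1), (0, 19, 32), (1, 2, 4), (2, 3, 4)] :=
  sound_leafF (K := 220) (F := ⟨⟨68650271, (-358539), 229353, (-1102580), 297077, 245755, 114079, 0, 0, 0⟩, (10, 0), (10, 0), (10, 0), (10, 0), (13, 17172511)⟩) c5_ok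
    (by decide +kernel)

def c5_leaf21 :
    Sound c5R [(1, 2, 2), (0, 1, 2), (0, 19, 32), (1, 2, 4), (2, 3, 4)] :=
  sound_leafF (K := 226) (F := ⟨⟨64455967, (-348165), 223686, (-1109179), 307659, 250475, 114137, 0, 0, 0⟩, (10, 0), (10, 0), (10, 0), (10, 0), (13, 17206033)⟩) c5_ok
    (by decide +kernel)

def c5_leaf22 :
    Sound c5R [(1, 2, 2), (1, 2, 2), (0, 19, 32), (1, 2, 4), (2, 3, 4)] :=
  sound_leafF (K := 226) (F := ⟨⟨73484206, (-347296), 289385, (-1800097), 339138, 220515, 55289, 0, 0, 0⟩, (10, 0), (10, 0), (10, 0), (10, 0), (13, 17578240)⟩) c5_ok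
    (by decide +kernel)

def c5_leaf23 :
    Sound c5R [(0, 1, 1), (0, 1, 1), (0, 19, 32), (0, 1, 4), (3, 4, 4)] :=
  sound_empty (K := 131) (q := 10) c5_ok (by decide +kernel)

def c5_leaf24 :
    Sound c5R [(0, 1, 1), (0, 1, 1), (0, 19, 32), (1, 2, 4), (3, 4, 4)] :=
  sound_empty2 (K := 152) (f := (10, 1048576)) (g := (13, 784953)) c5_ok (by decide +kernel)

def c5_leaf25 :
    Sound c5R [(0, 1, 2), (0, 1, 1), (0, 19, 32), (2, 3, 4), (2, 3, 4)] :=
  sound_leafF (K := 219) (F := ⟨⟨74448896, (-336622), 321513, (-1104344), 286719, 136787, 81557, 0, 0, 0⟩, (13, 653037467636937563605313), (10, 0), (10, 0), (10, 0), (13, 47759119)⟩) c5_ok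
    (by decide +kernel)

def c5_leaf26 :
    Sound c5R [(1, 2, 2), (0, 1, 2), (0, 19, 32), (2, 3, 4), (2, 3, 4)] :=
  sound_leafF (K := 226) (F := ⟨⟨79723233, (-343482), 321758, (-1150565), 299292, 139136, 111280, 0, 0, 0⟩, (13, 661496163680845936779796), (10, 0), (10, 0), (10, 0), (13, 71296719)⟩) c5_ok
    (by decide +kernel)

def c5_leaf27 :
    Sound c5R [(1, 2, 2), (1, 2, 2), (0, 19, 64), (2, 3, 4), (4, 5, 8)] :=
  sound_empty (K := 155) (q := 13) c5_ok (by decide +kernel)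

def c5_leaf28 :
    Sound c5R [(1, 2, 2), (1, 2, 2), (19, 38, 64), (4, 5, 8), (4, 5, 8)] :=
  sound_leafF (K := 244) (F := ⟨⟨63700992, (-296654), 283829, (-916029), 338585, 219385, 113128, 0, 0, 0⟩, (13, 721482951024485522075518), (10, 0), (10, 0), (10, 0), (13, 27749480)⟩) c5_ok
    (by decide +kernel)

def c5_leaf29 :
    Sound c5R [(1, 2, 2), (1, 2, 2), (19, 38, 64), (5, 6, 8), (4, 5, 8)] :=
  sound_empty (K := 161) (q := 13) c5_ok (by decide +kernel)

def c5_leaf30 :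
    Sound c5R [(1, 2, 2), (1, 2, 2), (0, 19, 32), (2, 3, 4), (5, 6, 8)] :=
  sound_empty (K := 149) (q := 13) c5_ok (by decide +kernel)

def c5_leaf31 :
    Sound c5R [(0, 1, 1), (0, 1, 1), (0, 19, 32), (3, 4, 4), (2, 3, 4)] :=
  sound_empty (K := 131) (q := 13) c5_ok (by decide +kernel)

end Vale.Agent.P100.Calib.LowEnd
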