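import Vale.Agent.P100.Calib.SlabLowEndC5Data

/-!
# Leaves of the cover of corner root 5
-/

set_option maxRecDepth 100000
-- the heavy checks are definitions, so that they are checked one after another
set_option linter.defProp false

namespace Vale.Agent.P100.Calib.LowEnd

open Pack Band

def c5_leaf32 :
    Sound c5R [(0, 1, 1), (0, 1, 1), (0, 19, 32), (1, 2, 2), (3, 4, 4)] :=
  sound_empty (K := 125) (q := 13) c5_ok (by decide +kernel)

def c5_leaf33 :
    Sound c5R [(0, 1, 1), (0, 1, 1), (19, 32, 32), (0, 1, 2), (0, 1, 4)] :=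
  sound_leafF (K := 208) (F := ⟨⟨(-6710886), (-216636), 134984, 788001, 540764, 685656, 151966, 0, 0, 0⟩, (11, 1749590706717903489119947), (11, 1108071576014170110560795), (10, 0), (10, 0), (10, 0)⟩) c5_ok
    (by decide +kernel)

def c5_leaf34 :
    Sound c5R [(0, 1, 1), (0, 1, 1), (19, 32, 32), (0, 1, 4), (1, 2, 4)] :=
  sound_leafF (K := 215) (F := ⟨⟨28311552, (-507112), 181564, (-1931198), 434852, 519152, 138316, 0, 0, 0⟩, (12, 390323008935732374152236), (12, 771206194655710367789816), (10, 0), (10, 0), (10, 0)⟩) c5_ok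
    (by decide +kernel)

def c5_leaf35 :
    Sound c5R [(0, 1, 2), (0, 1, 1), (19, 32, 32), (1, 2, 4), (1, 2, 4)] :=
  sound_leafF (K := 220) (F := ⟨⟨39720059, (-431149), 237384, (-1331711), 370365, 336852, 129429, 0, 0, 0⟩, (11, 947606076719732902416804), (11, 670605111455558165880768), (10, 0), (10, 0), (11, 1888369)⟩) c5_ok
    (by decide +kernel)

def c5_leaf36 :
    Sound c5R [(1, 2, 2), (0, 1, 1), (19, 32, 32), (1, 2, 4), (1, 2, 4)] :=
  sound_leafF (K := 220) (F := ⟨⟨40967864, (-432229), 239468, (-1406244), 399606, 347524, 132264, 0, 0, 0⟩, (11, 1063070400412253192698615), (11, 898041432822361937163078), (10, 0), (10, 0), (11, 9872241)⟩) c5_ok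
    (by decide +kernel)

def c5_leaf37 :
    Sound c5R [(0, 1, 1), (0, 1, 1), (19, 32, 32), (1, 2, 2), (0, 1, 4)] :=
  sound_empty (K := 124) (q := 11) c5_ok (by decide +kernel)

def c5_leaf38 :
    Sound c5R [(0, 1, 1), (0, 1, 1), (19, 32, 32), (2, 3, 4), (1, 2, 4)] :=
  sound_leafF (K := 213) (F := ⟨⟨48108667, (-252539), 264889, (-740641), 350616, 243438, 116804, 0, 0, 0⟩, (11, 2493063704836044653338928), (10, 0), (10, 0), (10, 0), (11, 14417908)⟩) c5_ok
    (by decide +kernel)

def c5_leaf39 :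
    Sound c5R [(0, 1, 1), (0, 1, 1), (19, 32, 32), (3, 4, 4), (1, 2, 4)] :=
  sound_empty2 (K := 151) (f := (11, 1048576)) (g := (13, 608882)) c5_ok (by decide +kernel)

def c5_leaf40 :
    Sound c5R [(0, 1, 2), (0, 1, 2), (19, 32, 32), (0, 1, 4), (2, 3, 4)] :=
  sound_leafF (K := 227) (F := ⟨⟨53393490, (-724013), 184794, (-2376771), 331521, 386878, 138202, 0, 0, 0⟩, (12, 365881247435061430637034), (12, 393776811777148526015751), (12, 1282059243055597340046897), (10, 0), (10, 9583712)⟩) c5_ok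
    (by decide +kernel)

def c5_leaf41 :
    Sound c5R [(0, 1, 2), (1, 2, 2), (19, 32, 32), (0, 1, 4), (4, 5, 8)] :=
  sound_leafF (K := 233) (F := ⟨⟨45424312, (-679065), 216524, (-2469231), 371907, 453666, 138334, 0, 0, 0⟩, (12, 192326440816819042681795), (12, 480363234274337461690354), (10, 0), (10, 0), (10, 0)⟩) c5_ok
    (by decide +kernel)

def c5_leaf42 :
    Sound c5R [(0, 1, 2), (1, 2, 2), (19, 32, 32), (0, 1, 8), (5, 6, 8)] :=
  sound_leafF (K := 239) (F := ⟨⟨40768635, (-560639), 162257, (-2325354), 349910, 463865, 127187, 0, 0, 0⟩, (10, 0), (10, 0), (10, 0), (10, 0), (10, 7740040)⟩) c5_ok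
    (by decide +kernel)

def c5_leaf43 :
    Sound c5R [(0, 1, 2), (1, 2, 2), (19, 32, 32), (1, 2, 8), (5, 6, 8)] :=
  sound_leafF (K := 239) (F := ⟨⟨63700992, (-723326), 264888, (-2237546), 326287, 354962, 136634, 0, 0, 0⟩, (10, 0), (10, 0), (10, 0), (10, 0), (10, 0)⟩) c5_ok
    (by decide +kernel)

def c5_leaf44 :
    Sound c5R [(1, 2, 2), (0, 1, 2), (19, 32, 32), (0, 1, 4), (4, 5, 8)] :=
  sound_leafF (K := 233) (F := ⟨⟨45424312, (-583433), 200335, (-2216016), 368957, 429372, 133266, 0, 0, 0⟩, (10, 0), (12, 574549260660449761941307), (10, 0), (10, 0), (10, 0)⟩) c5_ok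
    (by decide +kernel)

def c5_leaf45 :
    Sound c5R [(1, 2, 2), (0, 1, 2), (19, 32, 32), (0, 1, 4), (5, 6, 8)] :=
  sound_leafF (K := 233) (F := ⟨⟨56067359, (-965388), 185305, (-2098100), 337912, 408111, 140174, 0, 0, 0⟩, (12, 233885828788809503576170), (12, 386487882934400189658719), (12, 1143916967032808379551203), (10, 0), (10, 5962128)⟩) c5_ok
    (by decide +kernel)

def c5_leaf46 :
    Sound c5R [(1, 2, 2), (1, 2, 2), (19, 32, 32), (0, 1, 4), (4, 5, 8)] :=
  sound_leafF (K := 233) (F := ⟨⟨47846523, (-629688), 214068, (-2408544), 401497, 451259, 140001, 0, 0, 0⟩, (12, 250544862095295044783353), (12, 585205868469224903979448), (10, 0), (10, 0), (10, 0)⟩) c5_ok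
    (by decide +kernel)

def c5_leaf47 :
    Sound c5R [(1, 2, 2), (1, 2, 2), (19, 32, 32), (0, 1, 8), (5, 6, 8)] :=
  sound_leafF (K := 239) (F := ⟨⟨47846523, (-675344), 187602, (-2754566), 380690, 481997, 138085, 0, 0, 0⟩, (10, 0), (12, 478457659662119441639721), (10, 0), (10, 0), (10, 0)⟩) c5_ok
    (by decide +kernel)

end Vale.Agent.P100.Calib.LowEnd
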