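import Vale.Agent.P100.Calib.SlabLowEndC5Data

/-!
# Leaves of the cover of corner root 5
-/

set_option maxRecDepth 100000
-- the heavy checks are definitions, so that they are checked one after another
set_option linter.defProp false

namespace Vale.Agent.P100.Calib.LowEnd

open Pack Band

def c5_leaf48 :
    Sound c5R [(1, 2, 2), (1, 2, 2), (19, 32, 32), (1, 2, 8), (5, 6, 8)] :=
  sound_leafF (K := 239) (F := ⟨⟨64466452, (-599876), 276653, (-2400474), 351153, 371808, 105381, 0, 0, 0⟩, (10, 0), (10, 0), (10, 0), (10, 0), (10, 0)⟩) c5_ok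
    (by decide +kernel)

def c5_leaf49 :
    Sound c5R [(0, 1, 2), (0, 1, 2), (19, 32, 32), (1, 2, 4), (2, 3, 4)] :=
  sound_leafF (K := 225) (F := ⟨⟨69122130, (-347820), 245568, (-1064132), 279468, 261354, 72278, 0, 0, 0⟩, (10, 0), (10, 0), (14, 241415658012896535311416), (10, 0), (13, 15330967)⟩) c5_ok
    (by decide +kernel)

def c5_leaf50 :
    Sound c5R [(0, 1, 2), (1, 2, 2), (19, 32, 32), (2, 3, 8), (4, 5, 8)] :=
  sound_leafF (K := 238) (F := ⟨⟨58164511, (-537972), 263749, (-1665300), 331821, 317138, 127724, 0, 0, 0⟩, (10, 0), (10, 0), (10, 0), (10, 0), (10, 0)⟩) c5_ok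
    (by decide +kernel)

def c5_leaf51 :
    Sound c5R [(0, 1, 2), (1, 2, 2), (19, 32, 32), (3, 4, 8), (4, 5, 8)] :=
  sound_leafF (K := 238) (F := ⟨⟨69489132, (-512228), 311968, (-1423594), 316553, 261895, 124423, 0, 0, 0⟩, (10, 0), (10, 0), (10, 0), (10, 0), (13, 6491442)⟩) c5_ok
    (by decide +kernel)

def c5_leaf52 :
    Sound c5R [(0, 1, 2), (1, 2, 2), (19, 32, 32), (1, 2, 4), (5, 6, 8)] :=
  sound_leafF (K := 232) (F := ⟨⟨77877740, (-463480), 285404, (-1353193), 291737, 254833, 87176, 0, 0, 0⟩, (10, 0), (10, 0), (10, 0), (10, 0), (13, 16185159)⟩) c5_ok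
    (by decide +kernel)

def c5_leaf53 :
    Sound c5R [(1, 2, 2), (0, 1, 2), (19, 32, 32), (1, 2, 4), (4, 5, 8)] :=
  sound_leafF (K := 232) (F := ⟨⟨67391980, (-300737), 300430, (-1975799), 326294, 284645, 70835, 0, 0, 0⟩, (10, 0), (10, 0), (10, 0), (10, 0), (13, 7411209)⟩) c5_ok
    (by decide +kernel)

def c5_leaf54 :
    Sound c5R [(1, 2, 2), (0, 1, 2), (19, 32, 32), (1, 2, 4), (5, 6, 8)] :=
  sound_leafF (K := 232) (F := ⟨⟨75780588, (-461492), 274472, (-1374518), 289743, 257203, 116869, 0, 0, 0⟩, (10, 0), (10, 0), (10, 0), (10, 0), (13, 15915020)⟩) c5_ok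
    (by decide +kernel)

def c5_leaf55 :
    Sound c5R [(1, 2, 2), (1, 2, 2), (19, 32, 32), (2, 3, 8), (4, 5, 8)] :=
  sound_leafF (K := 239) (F := ⟨⟨60901294, (-553178), 268363, (-1757469), 357557, 328917, 131043, 0, 0, 0⟩, (10, 0), (10, 0), (10, 0), (10, 0), (10, 0)⟩) c5_ok
    (by decide +kernel)

def c5_leaf56 :
    Sound c5R [(1, 2, 2), (1, 2, 2), (38, 51, 64), (3, 4, 8), (4, 5, 8)] :=
  sound_leafF (K := 244) (F := ⟨⟨73431777, (-537292), 321559, (-1195803), 346452, 197171, 95577, 0, 0, 0⟩, (10, 0), (10, 0), (10, 0), (10, 0), (13, 8787027)⟩) c5_ok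
    (by decide +kernel)

def c5_leaf57 :
    Sound c5R [(2, 3, 4), (1, 2, 2), (51, 64, 64), (3, 4, 8), (4, 5, 8)] :=
  sound_leafF (K := 250) (F := ⟨⟨70341100, (-529875), 315385, (-1438166), 332161, 268663, 123853, 0, 0, 0⟩, (10, 0), (10, 0), (10, 0), (10, 0), (13, 2623434)⟩) c5_ok
    (by decide +kernel)

def c5_leaf58 :
    Sound c5R [(3, 4, 4), (2, 3, 4), (51, 64, 64), (3, 4, 8), (4, 5, 8)] :=
  sound_leafF (K := 256) (F := ⟨⟨70537708, (-560162), 309050, (-1452064), 337890, 273935, 124929, 0, 0, 0⟩, (11, 315974315081332514611071), (10, 0), (10, 0), (10, 0), (10, 0)⟩) c5_ok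
    (by decide +kernel)

def c5_leaf59 :
    Sound c5R [(3, 4, 4), (3, 4, 4), (51, 64, 64), (3, 4, 8), (8, 9, 16)] :=
  sound_leafF (K := 262) (F := ⟨⟨60901294, (-419906), 284636, (-1319413), 358809, 284340, 122930, 0, 0, 0⟩, (10, 0), (10, 0), (10, 0), (10, 0), (10, 0)⟩) c5_ok
    (by decide +kernel)

def c5_leaf60 :
    Sound c5R [(3, 4, 4), (3, 4, 4), (51, 64, 64), (3, 4, 8), (9, 10, 16)] :=
  sound_leafF (K := 262) (F := ⟨⟨75528929, (-523983), 327079, (-1488270), 344872, 269313, 126335, 0, 0, 0⟩, (11, 378893538628370785978422), (10, 0), (10, 0), (10, 0), (10, 0)⟩) c5_ok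
    (by decide +kernel)

def c5_leaf61 :
    Sound c5R [(1, 2, 2), (1, 2, 2), (38, 51, 64), (2, 3, 8), (5, 6, 8)] :=
  sound_leafF (K := 244) (F := ⟨⟨80866181, (-784417), 355629, (-1585668), 331773, 215928, 104469, 0, 0, 0⟩, (10, 0), (10, 0), (10, 0), (10, 0), (13, 11261947)⟩) c5_ok
    (by decide +kernel)

def c5_leaf62 :
    Sound c5R [(2, 3, 4), (1, 2, 2), (51, 64, 64), (2, 3, 8), (5, 6, 8)] :=
  sound_leafF (K := 250) (F := ⟨⟨77070336, (-696758), 354319, (-1666250), 321237, 258829, 126181, 0, 0, 0⟩, (10, 0), (10, 0), (10, 0), (10, 0), (13, 7315320)⟩) c5_ok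
    (by decide +kernel)

def c5_leaf63 :
    Sound c5R [(3, 4, 4), (2, 3, 4), (51, 64, 64), (2, 3, 8), (5, 6, 8)] :=
  sound_leafF (K := 257) (F := ⟨⟨76577505, (-747468), 345501, (-1706254), 324690, 304075, 132158, 0, 0, 0⟩, (10, 0), (10, 0), (10, 0), (10, 0), (13, 8769001)⟩) c5_ok
    (by decide +kernel)

end Vale.Agent.P100.Calib.LowEnd
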