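import Vale.Agent.P100.Calib.SlabLowEndC5Data

/-!
# Leaves of the cover of corner root 5
-/

set_option maxRecDepth 100000
-- the heavy checks are definitions, so that they are checked one after another
set_option linter.defProp false

namespace Vale.Agent.P100.Calib.LowEnd

open Pack Band

def c5_leaf64 :
    Sound c5R [(3, 4, 4), (3, 4, 4), (51, 64, 64), (2, 3, 8), (10, 11, 16)] :=
  sound_leafF (K := 263) (F := ⟨⟨72477573, (-643252), 304775, (-1896211), 345513, 316233, 133086, 0, 0, 0⟩, (10, 0), (10, 0), (10, 0), (10, 0), (10, 0)⟩) c5_ok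
    (by decide +kernel)

def c5_leaf65 :
    Sound c5R [(3, 4, 4), (3, 4, 4), (51, 64, 64), (2, 3, 8), (11, 12, 16)] :=
  sound_leafF (K := 263) (F := ⟨⟨80740352, (-830975), 319946, (-1900967), 330296, 301888, 132581, 0, 0, 0⟩, (10, 0), (10, 0), (10, 0), (10, 0), (10, 0)⟩) c5_ok
    (by decide +kernel)

def c5_leaf66 :
    Sound c5R [(1, 2, 2), (1, 2, 2), (19, 32, 32), (3, 4, 8), (5, 6, 8)] :=
  sound_leafF (K := 238) (F := ⟨⟨82837504, (-480838), 319424, (-1624188), 307022, 133728, 88206, 0, 0, 0⟩, (11, 156652025910112958918136), (10, 0), (10, 0), (10, 0), (13, 18412255)⟩) c5_ok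
    (by decide +kernel)

def c5_leaf67 :
    Sound c5R [(0, 1, 2), (0, 1, 1), (19, 32, 32), (0, 1, 4), (3, 4, 4)] :=
  sound_leafF (K := 220) (F := ⟨⟨64455967, (-532452), 180572, (-1879150), 283886, 332015, 119890, 0, 0, 0⟩, (10, 0), (10, 4698649949923531988149558), (10, 0), (10, 0), (10, 15247500)⟩) c5_ok
    (by decide +kernel)

def c5_leaf68 :
    Sound c5R [(1, 2, 2), (0, 1, 2), (19, 32, 32), (0, 1, 4), (3, 4, 4)] :=
  sound_leafF (K := 226) (F := ⟨⟨60261663, (-523073), 175305, (-1917376), 293289, 340754, 120010, 0, 0, 0⟩, (10, 0), (10, 4575308061584170714196689), (10, 0), (10, 0), (10, 14297318)⟩) c5_ok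
    (by decide +kernel)

def c5_leaf69 :
    Sound c5R [(1, 2, 2), (1, 2, 2), (19, 32, 32), (0, 1, 8), (6, 7, 8)] :=
  sound_leafF (K := 239) (F := ⟨⟨43065016, (-519060), 143343, (-2241136), 343876, 451947, 122738, 0, 0, 0⟩, (10, 0), (10, 0), (10, 0), (10, 0), (10, 11438494)⟩) c5_ok
    (by decide +kernel)

def c5_leaf70 :
    Sound c5R [(1, 2, 2), (1, 2, 2), (19, 32, 32), (1, 2, 8), (6, 7, 8)] :=
  sound_leafF (K := 239) (F := ⟨⟨73431777, (-806130), 289715, (-2349954), 322379, 340606, 103881, 0, 0, 0⟩, (10, 0), (10, 0), (10, 0), (10, 0), (10, 12009554)⟩) c5_ok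
    (by decide +kernel)

def c5_leaf71 :
    Sound c5R [(1, 2, 2), (1, 2, 2), (19, 32, 32), (0, 1, 4), (7, 8, 8)] :=
  sound_leafF (K := 237) (F := ⟨⟨75528929, (-766655), 250940, (-2424793), 312694, 345556, 138562, 0, 0, 0⟩, (10, 47397713803388506573328125), (10, 98773579506207620092231774), (10, 288029858001207017332812525), (10, 0), (10, 97323627)⟩) c5_ok
    (by decide +kernel)

def c5_leaf72 :
    Sound c5R [(0, 1, 2), (0, 1, 2), (19, 32, 32), (1, 2, 4), (6, 7, 8)] :=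
  sound_leafF (K := 232) (F := ⟨⟨85060485, (-605883), 321586, (-1534810), 249640, 235195, 118859, 0, 0, 0⟩, (10, 0), (10, 0), (10, 0), (10, 0), (13, 25035243)⟩) c5_ok
    (by decide +kernel)

def c5_leaf73 :
    Sound c5R [(0, 1, 2), (0, 1, 2), (19, 32, 32), (1, 2, 4), (7, 8, 8)] :=
  sound_empty (K := 149) (q := 13) c5_ok (by decide +kernel)

def c5_leaf74 :
    Sound c5R [(0, 1, 2), (1, 2, 2), (19, 32, 32), (1, 2, 4), (6, 7, 8)] :=
  sound_leafF (K := 232) (F := ⟨⟨88363500, (-579550), 338997, (-1485264), 271087, 233618, 89434, 0, 0, 0⟩, (13, 25916186621970331638912), (10, 0), (10, 0), (10, 0), (13, 20777985)⟩) c5_ok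
    (by decide +kernel)

def c5_leaf75 :
    Sound c5R [(0, 1, 2), (1, 2, 2), (19, 32, 32), (1, 2, 4), (7, 8, 8)] :=
  sound_empty2 (K := 171) (f := (10, 1048576)) (g := (13, 3931313)) c5_ok (by decide +kernel)

def c5_leaf76 :
    Sound c5R [(1, 2, 2), (0, 1, 2), (19, 32, 32), (1, 2, 4), (6, 7, 8)] :=
  sound_leafF (K := 232) (F := ⟨⟨87157637, (-536731), 310833, (-1451711), 267889, 235732, 117567, 0, 0, 0⟩, (10, 0), (10, 0), (10, 0), (10, 0), (13, 21909592)⟩) c5_ok
    (by decide +kernel)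

def c5_leaf77 :
    Sound c5R [(1, 2, 2), (0, 1, 2), (19, 32, 32), (1, 2, 4), (7, 8, 8)] :=
  sound_empty (K := 149) (q := 13) c5_ok (by decide +kernel)

def c5_leaf78 :
    Sound c5R [(1, 2, 2), (1, 2, 2), (19, 32, 32), (1, 2, 4), (6, 7, 8)] :=
  sound_leafF (K := 232) (F := ⟨⟨90329580, (-404116), 331672, (-1558723), 291453, 240969, 59265, 0, 0, 0⟩, (10, 0), (10, 0), (10, 0), (10, 0), (13, 19897210)⟩) c5_ok
    (by decide +kernel)

def c5_leaf79 :
    Sound c5R [(1, 2, 2), (1, 2, 2), (38, 51, 64), (2, 3, 8), (7, 8, 8)] :=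
  sound_empty (K := 161) (q := 13) c5_ok (by decide +kernel)

end Vale.Agent.P100.Calib.LowEnd
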