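import Vale.Agent.P100.Calib.SlabLowEndC5Data

/-!
# Leaves of the cover of corner root 5
-/

set_option maxRecDepth 100000
-- the heavy checks are definitions, so that they are checked one after another
set_option linter.defProp false

namespace Vale.Agent.P100.Calib.LowEnd

open Pack Band

def c5_leaf80 :
    Sound c5R [(2, 3, 4), (1, 2, 2), (51, 64, 64), (2, 3, 8), (7, 8, 8)] :=
  sound_empty2 (K := 188) (f := (10, 1048576)) (g := (13, 1004441)) c5_ok (by decide +kernel)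

def c5_leaf81 :
    Sound c5R [(3, 4, 4), (1, 2, 2), (51, 64, 64), (2, 3, 8), (7, 8, 8)] :=
  sound_leafF (K := 250) (F := ⟨⟨98650030, (-802097), 378770, (-1503052), 281921, 193008, 72891, 0, 0, 0⟩, (10, 0), (10, 0), (10, 0), (10, 0), (13, 45721322)⟩) c5_ok
    (by decide +kernel)

def c5_leaf82 :
    Sound c5R [(1, 2, 2), (1, 2, 2), (19, 32, 32), (3, 4, 8), (7, 8, 8)] :=
  sound_empty (K := 155) (q := 13) c5_ok (by decide +kernel)

def c5_leaf83 :
    Sound c5R [(0, 1, 2), (0, 1, 2), (19, 32, 32), (2, 3, 4), (2, 3, 4)] :=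
  sound_leafF (K := 225) (F := ⟨⟨74448896, (-285029), 350386, (-1167675), 260966, 140268, 81020, 0, 0, 0⟩, (13, 252446215289666698000737), (10, 0), (10, 0), (10, 0), (13, 25472627)⟩) c5_ok
    (by decide +kernel)

def c5_leaf84 :
    Sound c5R [(0, 1, 2), (1, 2, 2), (19, 32, 32), (4, 5, 8), (4, 5, 8)] :=
  sound_leafF (K := 238) (F := ⟨⟨71586284, (-384579), 323433, (-1055172), 301545, 220243, 114817, 0, 0, 0⟩, (11, 1379845391597388299766953), (10, 0), (10, 0), (10, 0), (13, 18018395)⟩) c5_ok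
    (by decide +kernel)

def c5_leaf85 :
    Sound c5R [(0, 1, 2), (1, 2, 2), (19, 32, 32), (5, 6, 8), (4, 5, 8)] :=
  sound_empty2 (K := 176) (f := (11, 1048576)) (g := (13, 3154634)) c5_ok (by decide +kernel)

def c5_leaf86 :
    Sound c5R [(0, 1, 2), (1, 2, 2), (38, 51, 64), (4, 5, 8), (5, 6, 8)] :=
  sound_empty (K := 161) (q := 13) c5_ok (by decide +kernel)

def c5_leaf87 :
    Sound c5R [(0, 1, 2), (1, 2, 2), (51, 64, 64), (4, 5, 8), (5, 6, 8)] :=
  sound_leafF (K := 244) (F := ⟨⟨88363500, (-582447), 380957, (-1142046), 272729, 200977, 113995, 0, 0, 0⟩, (13, 1529645037067266225737046), (10, 0), (10, 0), (10, 0), (13, 83200696)⟩) c5_ok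
    (by decide +kernel)

def c5_leaf88 :
    Sound c5R [(0, 1, 2), (1, 2, 2), (19, 32, 32), (5, 6, 8), (5, 6, 8)] :=
  sound_empty (K := 155) (q := 13) c5_ok (by decide +kernel)

def c5_leaf89 :
    Sound c5R [(1, 2, 2), (0, 1, 2), (19, 32, 32), (2, 3, 4), (4, 5, 8)] :=
  sound_leafF (K := 232) (F := ⟨⟨67391980, (-242022), 323455, (-1111978), 296529, 150892, 110494, 0, 0, 0⟩, (11, 1451030978646220629398524), (10, 0), (10, 0), (10, 0), (13, 18644639)⟩) c5_ok
    (by decide +kernel)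

def c5_leaf90 :
    Sound c5R [(1, 2, 2), (0, 1, 2), (19, 32, 32), (4, 5, 8), (5, 6, 8)] :=
  sound_leafF (K := 238) (F := ⟨⟨88363500, (-464973), 360660, (-1167872), 272772, 203324, 113522, 0, 0, 0⟩, (13, 1943370310370937992731184), (10, 0), (10, 0), (10, 0), (13, 413074267)⟩) c5_ok
    (by decide +kernel)

def c5_leaf91 :
    Sound c5R [(1, 2, 2), (0, 1, 2), (19, 32, 32), (5, 6, 8), (5, 6, 8)] :=
  sound_empty (K := 155) (q := 13) c5_ok (by decide +kernel)

def c5_leaf92 :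
    Sound c5R [(1, 2, 2), (1, 2, 2), (38, 51, 64), (4, 5, 8), (4, 5, 8)] :=
  sound_leafF (K := 244) (F := ⟨⟨69992448, (-313293), 299371, (-940392), 328378, 223527, 112983, 0, 0, 0⟩, (11, 2054135380731102394990833), (10, 0), (10, 0), (10, 0), (13, 21302512)⟩) c5_ok
    (by decide +kernel)

def c5_leaf93 :
    Sound c5R [(1, 2, 2), (1, 2, 2), (51, 64, 64), (4, 5, 8), (4, 5, 8)] :=
  sound_leafF (K := 244) (F := ⟨⟨75911660, (-366786), 325437, (-1049254), 323733, 227095, 115205, 0, 0, 0⟩, (11, 1817557128315334121227948), (10, 0), (10, 0), (10, 0), (13, 14896018)⟩) c5_ok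
    (by decide +kernel)

def c5_leaf94 :
    Sound c5R [(1, 2, 2), (1, 2, 2), (19, 32, 32), (5, 6, 8), (4, 5, 8)] :=
  sound_empty2 (K := 176) (f := (11, 1048576)) (g := (13, 2833347)) c5_ok (by decide +kernel)

def c5_leaf95 :
    Sound c5R [(1, 2, 2), (1, 2, 2), (38, 51, 64), (4, 5, 8), (5, 6, 8)] :=
  sound_empty (K := 161) (q := 13) c5_ok (by decide +kernel)

end Vale.Agent.P100.Calib.LowEnd
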