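import Vale.Agent.P100.Calib.SlabLowEndC5Data

/-!
# Leaves of the cover of corner root 5
-/

set_option maxRecDepth 100000
-- the heavy checks are definitions, so that they are checked one after another
set_option linter.defProp false

namespace Vale.Agent.P100.Calib.LowEnd

open Pack Band

def c5_leaf96 :
    Sound c5R [(2, 3, 4), (2, 3, 4), (51, 64, 64), (4, 5, 8), (5, 6, 8)] :=
  sound_leafF (K := 256) (F := ⟨⟨89632276, (-599666), 386364, (-1183033), 284330, 203992, 115590, 0, 0, 0⟩, (13, 2642802692452923415290180), (10, 0), (10, 0), (10, 0), (13, 143261436)⟩) c5_ok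
    (by decide +kernel)

def c5_leaf97 :
    Sound c5R [(2, 3, 4), (3, 4, 4), (51, 64, 64), (8, 9, 16), (10, 11, 16)] :=
  sound_leafF (K := 268) (F := ⟨⟨81820385, (-441405), 353982, (-1173694), 303838, 220363, 115932, 0, 0, 0⟩, (11, 881543871959709135679045), (10, 0), (10, 0), (10, 0), (13, 35482232)⟩) c5_ok
    (by decide +kernel)

def c5_leaf98 :
    Sound c5R [(2, 3, 4), (3, 4, 4), (51, 64, 64), (9, 10, 16), (10, 11, 16)] :=
  sound_empty (K := 185) (q := 13) c5_ok (by decide +kernel)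

def c5_leaf99 :
    Sound c5R [(2, 3, 4), (3, 4, 4), (51, 64, 64), (4, 5, 8), (11, 12, 16)] :=
  sound_empty (K := 179) (q := 13) c5_ok (by decide +kernel)

def c5_leaf100 :
    Sound c5R [(3, 4, 4), (2, 3, 4), (51, 64, 64), (4, 5, 8), (10, 11, 16)] :=
  sound_leafF (K := 262) (F := ⟨⟨85060485, (-438838), 362793, (-1148561), 300797, 212760, 114894, 0, 0, 0⟩, (13, 825656274017444246550041), (10, 0), (10, 0), (10, 0), (13, 57602991)⟩) c5_ok
    (by decide +kernel)

def c5_leaf101 :
    Sound c5R [(3, 4, 4), (2, 3, 4), (51, 64, 64), (4, 5, 8), (11, 12, 16)] :=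
  sound_empty (K := 179) (q := 13) c5_ok (by decide +kernel)

def c5_leaf102 :
    Sound c5R [(3, 4, 4), (3, 4, 4), (51, 64, 64), (8, 9, 16), (10, 11, 16)] :=
  sound_leafF (K := 268) (F := ⟨⟨82963333, (-454068), 360973, (-957808), 318221, 165268, 117602, 0, 0, 0⟩, (11, 1538622021521823870953880), (10, 0), (10, 0), (10, 0), (13, 27512128)⟩) c5_ok
    (by decide +kernel)

def c5_leaf103 :
    Sound c5R [(3, 4, 4), (3, 4, 4), (51, 64, 64), (9, 10, 16), (10, 11, 16)] :=
  sound_empty (K := 185) (q := 13) c5_ok (by decide +kernel)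

def c5_leaf104 :
    Sound c5R [(3, 4, 4), (3, 4, 4), (51, 64, 64), (4, 5, 8), (11, 12, 16)] :=
  sound_empty (K := 179) (q := 13) c5_ok (by decide +kernel)

def c5_leaf105 :
    Sound c5R [(1, 2, 2), (1, 2, 2), (19, 32, 32), (5, 6, 8), (5, 6, 8)] :=
  sound_empty (K := 155) (q := 13) c5_ok (by decide +kernel)

def c5_leaf106 :
    Sound c5R [(0, 1, 1), (0, 1, 1), (19, 32, 32), (3, 4, 4), (2, 3, 4)] :=
  sound_empty (K := 131) (q := 13) c5_ok (by decide +kernel)

def c5_leaf107 :
    Sound c5R [(0, 1, 1), (0, 1, 1), (19, 32, 32), (1, 2, 2), (3, 4, 4)] :=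
  sound_empty (K := 125) (q := 13) c5_ok (by decide +kernel)

end Vale.Agent.P100.Calib.LowEnd
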