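import Vale.Agent.P100.Calib.SlabLowEndC5CoverA
import Vale.Agent.P100.Calib.SlabLowEndC5CoverB
import Vale.Agent.P100.Calib.SlabLowEndC5CoverC
import Vale.Agent.P100.Calib.SlabLowEndC5CoverD
import Vale.Agent.P100.Calib.SlabLowEndC5CoverE
import Vale.Agent.P100.Calib.SlabLowEndC5CoverF
import Vale.Agent.P100.Calib.SlabLowEndC5CoverG

/-!
# The cover of corner root 5
-/

set_option maxRecDepth 100000
-- the heavy checks are definitions, so that they are checked one after another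
set_option linter.defProp false

namespace Vale.Agent.P100.Calib.LowEnd

open Pack Band

theorem c5_node0 :
    Sound c5R [(0, 1, 1), (0, 1, 1), (0, 19, 32), (0, 1, 4), (0, 1, 2)] :=
  sound_node (j := 4) (by decide) c5_leaf0 c5_leaf3

theorem c5_node1 :
    Sound c5R [(1, 2, 2), (1, 2, 2), (0, 19, 32), (0, 1, 4), (2, 3, 4)] :=
  sound_node (j := 4) (by decide) c5_leaf18 c5_leaf19

theorem c5_node2 :
    Sound c5R [(1, 2, 2), (0, 1, 1), (0, 19, 32), (0, 1, 4), (2, 3, 4)] :=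
  sound_node (j := 1) (by decide) c5_leaf17 c5_node1

theorem c5_node3 :
    Sound c5R [(0, 1, 1), (0, 1, 1), (0, 19, 32), (0, 1, 4), (2, 3, 4)] :=
  sound_node (j := 0) (by decide) c5_leaf16 c5_node2

theorem c5_node4 :
    Sound c5R [(0, 1, 1), (0, 1, 1), (0, 19, 32), (0, 1, 4), (1, 2, 2)] :=
  sound_node (j := 4) (by decide) c5_node3 c5_leaf23

theorem c5_node5 :
    Sound c5R [(0, 1, 1), (0, 1, 1), (0, 19, 32), (0, 1, 4), (0, 1, 1)] :=
  sound_node (j := 4) (by decide) c5_node0 c5_node4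

theorem c5_node6 :
    Sound c5R [(0, 1, 2), (0, 1, 1), (0, 19, 32), (1, 2, 4), (0, 1, 2)] :=
  sound_node (j := 4) (by decide) c5_leaf1 c5_leaf4

theorem c5_node7 :
    Sound c5R [(1, 2, 2), (0, 1, 1), (0, 19, 32), (1, 2, 4), (1, 2, 4)] :=
  sound_node (j := 1) (by decide) c5_leaf5 c5_leaf6

theorem c5_node8 :
    Sound c5R [(1, 2, 2), (0, 1, 1), (0, 19, 32), (1, 2, 4), (0, 1, 2)] :=
  sound_node (j := 4) (by decide) c5_leaf2 c5_node7

theorem c5_node9 :
    Sound c5R [(0, 1, 1), (0, 1, 1), (0, 19, 32), (1, 2, 4), (0, 1, 2)] :=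
  sound_node (j := 0) (by decide) c5_node6 c5_node8

theorem c5_node10 :
    Sound c5R [(1, 2, 2), (0, 1, 1), (0, 19, 32), (1, 2, 4), (2, 3, 4)] :=
  sound_node (j := 1) (by decide) c5_leaf21 c5_leaf22

theorem c5_node11 :
    Sound c5R [(0, 1, 1), (0, 1, 1), (0, 19, 32), (1, 2, 4), (2, 3, 4)] :=
  sound_node (j := 0) (by decide) c5_leaf20 c5_node10

theorem c5_node12 :
    Sound c5R [(0, 1, 1), (0, 1, 1), (0, 19, 32), (1, 2, 4), (1, 2, 2)] :=
  sound_node (j := 4) (by decide) c5_node11 c5_leaf24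

theorem c5_node13 :
    Sound c5R [(0, 1, 1), (0, 1, 1), (0, 19, 32), (1, 2, 4), (0, 1, 1)] :=
  sound_node (j := 4) (by decide) c5_node9 c5_node12

theorem c5_node14 :
    Sound c5R [(0, 1, 1), (0, 1, 1), (0, 19, 32), (0, 1, 2), (0, 1, 1)] :=
  sound_node (j := 3) (by decide) c5_node5 c5_node13

theorem c5_node15 :
    Sound c5R [(1, 2, 2), (1, 2, 2), (19, 38, 64), (2, 3, 4), (3, 4, 8)] :=
  sound_node (j := 3) (by decide) c5_leaf13 c5_leaf14

theorem c5_node16 :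
    Sound c5R [(1, 2, 2), (1, 2, 2), (0, 19, 32), (2, 3, 4), (3, 4, 8)] :=
  sound_node (j := 2) (by decide) c5_leaf12 c5_node15

theorem c5_node17 :
    Sound c5R [(1, 2, 2), (1, 2, 2), (0, 19, 32), (2, 3, 4), (1, 2, 4)] :=
  sound_node (j := 4) (by decide) c5_leaf11 c5_node16

theorem c5_node18 :
    Sound c5R [(1, 2, 2), (0, 1, 1), (0, 19, 32), (2, 3, 4), (1, 2, 4)] :=
  sound_node (j := 1) (by decide) c5_leaf10 c5_node17

theorem c5_node19 :
    Sound c5R [(0, 1, 1), (0, 1, 1), (0, 19, 32), (2, 3, 4), (1, 2, 4)] :=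
  sound_node (j := 0) (by decide) c5_leaf9 c5_node18

theorem c5_node20 :
    Sound c5R [(0, 1, 1), (0, 1, 1), (0, 19, 32), (2, 3, 4), (0, 1, 2)] :=
  sound_node (j := 4) (by decide) c5_leaf7 c5_node19

theorem c5_node21 :
    Sound c5R [(0, 1, 1), (0, 1, 1), (0, 19, 32), (3, 4, 4), (0, 1, 2)] :=
  sound_node (j := 4) (by decide) c5_leaf8 c5_leaf15

theorem c5_node22 :
    Sound c5R [(0, 1, 1), (0, 1, 1), (0, 19, 32), (1, 2, 2), (0, 1, 2)] :=
  sound_node (j := 3) (by decide) c5_node20 c5_node21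

theorem c5_node23 :
    Sound c5R [(1, 2, 2), (1, 2, 2), (19, 38, 64), (2, 3, 4), (4, 5, 8)] :=
  sound_node (j := 3) (by decide) c5_leaf28 c5_leaf29

theorem c5_node24 :
    Sound c5R [(1, 2, 2), (1, 2, 2), (0, 19, 32), (2, 3, 4), (4, 5, 8)] :=
  sound_node (j := 2) (by decide) c5_leaf27 c5_node23

theorem c5_node25 :
    Sound c5R [(1, 2, 2), (1, 2, 2), (0, 19, 32), (2, 3, 4), (2, 3, 4)] :=
  sound_node (j := 4) (by decide) c5_node24 c5_leaf30

theorem c5_node26 :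
    Sound c5R [(1, 2, 2), (0, 1, 1), (0, 19, 32), (2, 3, 4), (2, 3, 4)] :=
  sound_node (j := 1) (by decide) c5_leaf26 c5_node25

theorem c5_node27 :
    Sound c5R [(0, 1, 1), (0, 1, 1), (0, 19, 32), (2, 3, 4), (2, 3, 4)] :=
  sound_node (j := 0) (by decide) c5_leaf25 c5_node26

theorem c5_node28 :
    Sound c5R [(0, 1, 1), (0, 1, 1), (0, 19, 32), (1, 2, 2), (2, 3, 4)] :=
  sound_node (j := 3) (by decide) c5_node27 c5_leaf31

theorem c5_node29 :
    Sound c5R [(0, 1, 1), (0, 1, 1), (0, 19, 32), (1, 2, 2), (1, 2, 2)] :=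
  sound_node (j := 4) (by decide) c5_node28 c5_leaf32

theorem c5_node30 :
    Sound c5R [(0, 1, 1), (0, 1, 1), (0, 19, 32), (1, 2, 2), (0, 1, 1)] :=
  sound_node (j := 4) (by decide) c5_node22 c5_node29

theorem c5_node31 :
    Sound c5R [(0, 1, 1), (0, 1, 1), (0, 19, 32), (0, 1, 1), (0, 1, 1)] :=
  sound_node (j := 3) (by decide) c5_node14 c5_node30

theorem c5_node32 :
    Sound c5R [(0, 1, 1), (0, 1, 1), (19, 32, 32), (1, 2, 4), (1, 2, 4)] :=
  sound_node (j := 0) (by decide) c5_leaf35 c5_leaf36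

theorem c5_node33 :
    Sound c5R [(0, 1, 1), (0, 1, 1), (19, 32, 32), (0, 1, 2), (1, 2, 4)] :=
  sound_node (j := 3) (by decide) c5_leaf34 c5_node32

theorem c5_node34 :
    Sound c5R [(0, 1, 1), (0, 1, 1), (19, 32, 32), (0, 1, 2), (0, 1, 2)] :=
  sound_node (j := 4) (by decide) c5_leaf33 c5_node33

theorem c5_node35 :
    Sound c5R [(0, 1, 2), (1, 2, 2), (19, 32, 32), (0, 1, 4), (5, 6, 8)] :=
  sound_node (j := 3) (by decide) c5_leaf42 c5_leaf43

theorem c5_node36 :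
    Sound c5R [(0, 1, 2), (1, 2, 2), (19, 32, 32), (0, 1, 4), (2, 3, 4)] :=
  sound_node (j := 4) (by decide) c5_leaf41 c5_node35

theorem c5_node37 :
    Sound c5R [(0, 1, 2), (0, 1, 1), (19, 32, 32), (0, 1, 4), (2, 3, 4)] :=
  sound_node (j := 1) (by decide) c5_leaf40 c5_node36

theorem c5_node38 :
    Sound c5R [(0, 1, 2), (0, 1, 1), (19, 32, 32), (0, 1, 4), (1, 2, 2)] :=
  sound_node (j := 4) (by decide) c5_node37 c5_leaf67

theorem c5_node39 :
    Sound c5R [(0, 1, 2), (0, 1, 2), (19, 32, 32), (1, 2, 4), (3, 4, 4)] :=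
  sound_node (j := 4) (by decide) c5_leaf72 c5_leaf73

theorem c5_node40 :
    Sound c5R [(0, 1, 2), (0, 1, 2), (19, 32, 32), (1, 2, 4), (1, 2, 2)] :=
  sound_node (j := 4) (by decide) c5_leaf49 c5_node39

theorem c5_node41 :
    Sound c5R [(0, 1, 2), (1, 2, 2), (19, 32, 32), (1, 2, 4), (4, 5, 8)] :=
  sound_node (j := 3) (by decide) c5_leaf50 c5_leaf51

theorem c5_node42 :
    Sound c5R [(0, 1, 2), (1, 2, 2), (19, 32, 32), (1, 2, 4), (2, 3, 4)] :=
  sound_node (j := 4) (by decide) c5_node41 c5_leaf52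

theorem c5_node43 :
    Sound c5R [(0, 1, 2), (1, 2, 2), (19, 32, 32), (1, 2, 4), (3, 4, 4)] :=
  sound_node (j := 4) (by decide) c5_leaf74 c5_leaf75

theorem c5_node44 :
    Sound c5R [(0, 1, 2), (1, 2, 2), (19, 32, 32), (1, 2, 4), (1, 2, 2)] :=
  sound_node (j := 4) (by decide) c5_node42 c5_node43

theorem c5_node45 :
    Sound c5R [(0, 1, 2), (0, 1, 1), (19, 32, 32), (1, 2, 4), (1, 2, 2)] :=
  sound_node (j := 1) (by decide) c5_node40 c5_node44

theorem c5_node46 :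
    Sound c5R [(0, 1, 2), (0, 1, 1), (19, 32, 32), (0, 1, 2), (1, 2, 2)] :=
  sound_node (j := 3) (by decide) c5_node38 c5_node45

theorem c5_node47 :
    Sound c5R [(1, 2, 2), (0, 1, 2), (19, 32, 32), (0, 1, 4), (2, 3, 4)] :=
  sound_node (j := 4) (by decide) c5_leaf44 c5_leaf45

theorem c5_node48 :
    Sound c5R [(1, 2, 2), (0, 1, 2), (19, 32, 32), (0, 1, 4), (1, 2, 2)] :=
  sound_node (j := 4) (by decide) c5_node47 c5_leaf68

theorem c5_node49 :
    Sound c5R [(1, 2, 2), (0, 1, 2), (19, 32, 32), (1, 2, 4), (2, 3, 4)] :=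
  sound_node (j := 4) (by decide) c5_leaf53 c5_leaf54

theorem c5_node50 :
    Sound c5R [(1, 2, 2), (0, 1, 2), (19, 32, 32), (1, 2, 4), (3, 4, 4)] :=
  sound_node (j := 4) (by decide) c5_leaf76 c5_leaf77

theorem c5_node51 :
    Sound c5R [(1, 2, 2), (0, 1, 2), (19, 32, 32), (1, 2, 4), (1, 2, 2)] :=
  sound_node (j := 4) (by decide) c5_node49 c5_node50

theorem c5_node52 :
    Sound c5R [(1, 2, 2), (0, 1, 2), (19, 32, 32), (0, 1, 2), (1, 2, 2)] :=
  sound_node (j := 3) (by decide) c5_node48 c5_node51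

theorem c5_node53 :
    Sound c5R [(1, 2, 2), (1, 2, 2), (19, 32, 32), (0, 1, 4), (5, 6, 8)] :=
  sound_node (j := 3) (by decide) c5_leaf47 c5_leaf48

theorem c5_node54 :
    Sound c5R [(1, 2, 2), (1, 2, 2), (19, 32, 32), (0, 1, 4), (2, 3, 4)] :=
  sound_node (j := 4) (by decide) c5_leaf46 c5_node53

theorem c5_node55 :
    Sound c5R [(1, 2, 2), (1, 2, 2), (19, 32, 32), (0, 1, 4), (6, 7, 8)] :=
  sound_node (j := 3) (by decide) c5_leaf69 c5_leaf70

theorem c5_node56 :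
    Sound c5R [(1, 2, 2), (1, 2, 2), (19, 32, 32), (0, 1, 4), (3, 4, 4)] :=
  sound_node (j := 4) (by decide) c5_node55 c5_leaf71

theorem c5_node57 :
    Sound c5R [(1, 2, 2), (1, 2, 2), (19, 32, 32), (0, 1, 4), (1, 2, 2)] :=
  sound_node (j := 4) (by decide) c5_node54 c5_node56

theorem c5_node58 :
    Sound c5R [(3, 4, 4), (3, 4, 4), (51, 64, 64), (2, 3, 8), (5, 6, 8)] :=
  sound_node (j := 4) (by decide) c5_leaf64 c5_leaf65

theorem c5_node59 :
    Sound c5R [(3, 4, 4), (1, 2, 2), (51, 64, 64), (2, 3, 8), (5, 6, 8)] :=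
  sound_node (j := 1) (by decide) c5_leaf63 c5_node58

theorem c5_node60 :
    Sound c5R [(1, 2, 2), (1, 2, 2), (51, 64, 64), (2, 3, 8), (5, 6, 8)] :=
  sound_node (j := 0) (by decide) c5_leaf62 c5_node59

theorem c5_node61 :
    Sound c5R [(1, 2, 2), (1, 2, 2), (19, 32, 32), (2, 3, 8), (5, 6, 8)] :=
  sound_node (j := 2) (by decide) c5_leaf61 c5_node60

theorem c5_node62 :
    Sound c5R [(1, 2, 2), (1, 2, 2), (19, 32, 32), (2, 3, 8), (2, 3, 4)] :=
  sound_node (j := 4) (by decide) c5_leaf55 c5_node61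

theorem c5_node63 :
    Sound c5R [(3, 4, 4), (3, 4, 4), (51, 64, 64), (3, 4, 8), (4, 5, 8)] :=
  sound_node (j := 4) (by decide) c5_leaf59 c5_leaf60

theorem c5_node64 :
    Sound c5R [(3, 4, 4), (1, 2, 2), (51, 64, 64), (3, 4, 8), (4, 5, 8)] :=
  sound_node (j := 1) (by decide) c5_leaf58 c5_node63

theorem c5_node65 :
    Sound c5R [(1, 2, 2), (1, 2, 2), (51, 64, 64), (3, 4, 8), (4, 5, 8)] :=
  sound_node (j := 0) (by decide) c5_leaf57 c5_node64

theorem c5_node66 :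
    Sound c5R [(1, 2, 2), (1, 2, 2), (19, 32, 32), (3, 4, 8), (4, 5, 8)] :=
  sound_node (j := 2) (by decide) c5_leaf56 c5_node65

theorem c5_node67 :
    Sound c5R [(1, 2, 2), (1, 2, 2), (19, 32, 32), (3, 4, 8), (2, 3, 4)] :=
  sound_node (j := 4) (by decide) c5_node66 c5_leaf66

theorem c5_node68 :
    Sound c5R [(1, 2, 2), (1, 2, 2), (19, 32, 32), (1, 2, 4), (2, 3, 4)] :=
  sound_node (j := 3) (by decide) c5_node62 c5_node67

theorem c5_node69 :
    Sound c5R [(1, 2, 2), (1, 2, 2), (51, 64, 64), (2, 3, 8), (7, 8, 8)] :=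
  sound_node (j := 0) (by decide) c5_leaf80 c5_leaf81

theorem c5_node70 :
    Sound c5R [(1, 2, 2), (1, 2, 2), (19, 32, 32), (2, 3, 8), (7, 8, 8)] :=
  sound_node (j := 2) (by decide) c5_leaf79 c5_node69

theorem c5_node71 :
    Sound c5R [(1, 2, 2), (1, 2, 2), (19, 32, 32), (1, 2, 4), (7, 8, 8)] :=
  sound_node (j := 3) (by decide) c5_node70 c5_leaf82

theorem c5_node72 :
    Sound c5R [(1, 2, 2), (1, 2, 2), (19, 32, 32), (1, 2, 4), (3, 4, 4)] :=
  sound_node (j := 4) (by decide) c5_leaf78 c5_node71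

theorem c5_node73 :
    Sound c5R [(1, 2, 2), (1, 2, 2), (19, 32, 32), (1, 2, 4), (1, 2, 2)] :=
  sound_node (j := 4) (by decide) c5_node68 c5_node72

theorem c5_node74 :
    Sound c5R [(1, 2, 2), (1, 2, 2), (19, 32, 32), (0, 1, 2), (1, 2, 2)] :=
  sound_node (j := 3) (by decide) c5_node57 c5_node73

theorem c5_node75 :
    Sound c5R [(1, 2, 2), (0, 1, 1), (19, 32, 32), (0, 1, 2), (1, 2, 2)] :=
  sound_node (j := 1) (by decide) c5_node52 c5_node74

theorem c5_node76 :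
    Sound c5R [(0, 1, 1), (0, 1, 1), (19, 32, 32), (0, 1, 2), (1, 2, 2)] :=
  sound_node (j := 0) (by decide) c5_node46 c5_node75

theorem c5_node77 :
    Sound c5R [(0, 1, 1), (0, 1, 1), (19, 32, 32), (0, 1, 2), (0, 1, 1)] :=
  sound_node (j := 4) (by decide) c5_node34 c5_node76

theorem c5_node78 :
    Sound c5R [(0, 1, 1), (0, 1, 1), (19, 32, 32), (1, 2, 2), (1, 2, 4)] :=
  sound_node (j := 3) (by decide) c5_leaf38 c5_leaf39

theorem c5_node79 :
    Sound c5R [(0, 1, 1), (0, 1, 1), (19, 32, 32), (1, 2, 2), (0, 1, 2)] :=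
  sound_node (j := 4) (by decide) c5_leaf37 c5_node78

theorem c5_node80 :
    Sound c5R [(0, 1, 2), (1, 2, 2), (19, 32, 32), (4, 5, 8), (5, 6, 8)] :=
  sound_node (j := 2) (by decide) c5_leaf86 c5_leaf87

theorem c5_node81 :
    Sound c5R [(0, 1, 2), (1, 2, 2), (19, 32, 32), (4, 5, 8), (2, 3, 4)] :=
  sound_node (j := 4) (by decide) c5_leaf84 c5_node80

theorem c5_node82 :
    Sound c5R [(0, 1, 2), (1, 2, 2), (19, 32, 32), (5, 6, 8), (2, 3, 4)] :=
  sound_node (j := 4) (by decide) c5_leaf85 c5_leaf88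

theorem c5_node83 :
    Sound c5R [(0, 1, 2), (1, 2, 2), (19, 32, 32), (2, 3, 4), (2, 3, 4)] :=
  sound_node (j := 3) (by decide) c5_node81 c5_node82

theorem c5_node84 :
    Sound c5R [(0, 1, 2), (0, 1, 1), (19, 32, 32), (2, 3, 4), (2, 3, 4)] :=
  sound_node (j := 1) (by decide) c5_leaf83 c5_node83

theorem c5_node85 :
    Sound c5R [(1, 2, 2), (0, 1, 2), (19, 32, 32), (2, 3, 4), (5, 6, 8)] :=
  sound_node (j := 3) (by decide) c5_leaf90 c5_leaf91

theorem c5_node86 :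
    Sound c5R [(1, 2, 2), (0, 1, 2), (19, 32, 32), (2, 3, 4), (2, 3, 4)] :=
  sound_node (j := 4) (by decide) c5_leaf89 c5_node85

theorem c5_node87 :
    Sound c5R [(1, 2, 2), (1, 2, 2), (38, 51, 64), (4, 5, 8), (2, 3, 4)] :=
  sound_node (j := 4) (by decide) c5_leaf92 c5_leaf95

theorem c5_node88 :
    Sound c5R [(2, 3, 4), (3, 4, 4), (51, 64, 64), (4, 5, 8), (10, 11, 16)] :=
  sound_node (j := 3) (by decide) c5_leaf97 c5_leaf98

theorem c5_node89 :
    Sound c5R [(2, 3, 4), (3, 4, 4), (51, 64, 64), (4, 5, 8), (5, 6, 8)] :=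
  sound_node (j := 4) (by decide) c5_node88 c5_leaf99

theorem c5_node90 :
    Sound c5R [(2, 3, 4), (1, 2, 2), (51, 64, 64), (4, 5, 8), (5, 6, 8)] :=
  sound_node (j := 1) (by decide) c5_leaf96 c5_node89

theorem c5_node91 :
    Sound c5R [(3, 4, 4), (2, 3, 4), (51, 64, 64), (4, 5, 8), (5, 6, 8)] :=
  sound_node (j := 4) (by decide) c5_leaf100 c5_leaf101

theorem c5_node92 :
    Sound c5R [(3, 4, 4), (3, 4, 4), (51, 64, 64), (4, 5, 8), (10, 11, 16)] :=
  sound_node (j := 3) (by decide) c5_leaf102 c5_leaf103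

theorem c5_node93 :
    Sound c5R [(3, 4, 4), (3, 4, 4), (51, 64, 64), (4, 5, 8), (5, 6, 8)] :=
  sound_node (j := 4) (by decide) c5_node92 c5_leaf104

theorem c5_node94 :
    Sound c5R [(3, 4, 4), (1, 2, 2), (51, 64, 64), (4, 5, 8), (5, 6, 8)] :=
  sound_node (j := 1) (by decide) c5_node91 c5_node93

theorem c5_node95 :
    Sound c5R [(1, 2, 2), (1, 2, 2), (51, 64, 64), (4, 5, 8), (5, 6, 8)] :=
  sound_node (j := 0) (by decide) c5_node90 c5_node94

theorem c5_node96 :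
    Sound c5R [(1, 2, 2), (1, 2, 2), (51, 64, 64), (4, 5, 8), (2, 3, 4)] :=
  sound_node (j := 4) (by decide) c5_leaf93 c5_node95

theorem c5_node97 :
    Sound c5R [(1, 2, 2), (1, 2, 2), (19, 32, 32), (4, 5, 8), (2, 3, 4)] :=
  sound_node (j := 2) (by decide) c5_node87 c5_node96

theorem c5_node98 :
    Sound c5R [(1, 2, 2), (1, 2, 2), (19, 32, 32), (5, 6, 8), (2, 3, 4)] :=
  sound_node (j := 4) (by decide) c5_leaf94 c5_leaf105

theorem c5_node99 :
    Sound c5R [(1, 2, 2), (1, 2, 2), (19, 32, 32), (2, 3, 4), (2, 3, 4)] :=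
  sound_node (j := 3) (by decide) c5_node97 c5_node98

theorem c5_node100 :
    Sound c5R [(1, 2, 2), (0, 1, 1), (19, 32, 32), (2, 3, 4), (2, 3, 4)] :=
  sound_node (j := 1) (by decide) c5_node86 c5_node99

theorem c5_node101 :
    Sound c5R [(0, 1, 1), (0, 1, 1), (19, 32, 32), (2, 3, 4), (2, 3, 4)] :=
  sound_node (j := 0) (by decide) c5_node84 c5_node100

theorem c5_node102 :
    Sound c5R [(0, 1, 1), (0, 1, 1), (19, 32, 32), (1, 2, 2), (2, 3, 4)] :=
  sound_node (j := 3) (by decide) c5_node101 c5_leaf106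

theorem c5_node103 :
    Sound c5R [(0, 1, 1), (0, 1, 1), (19, 32, 32), (1, 2, 2), (1, 2, 2)] :=
  sound_node (j := 4) (by decide) c5_node102 c5_leaf107

theorem c5_node104 :
    Sound c5R [(0, 1, 1), (0, 1, 1), (19, 32, 32), (1, 2, 2), (0, 1, 1)] :=
  sound_node (j := 4) (by decide) c5_node79 c5_node103

theorem c5_node105 :
    Sound c5R [(0, 1, 1), (0, 1, 1), (19, 32, 32), (0, 1, 1), (0, 1, 1)] :=
  sound_node (j := 3) (by decide) c5_node77 c5_node104

theorem c5_sound :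
    Sound c5R cube :=
  sound_node (j := 2) (by decide) c5_node31 c5_node105

end Vale.Agent.P100.Calib.LowEnd
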