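import Vale.Agent.P100.Calib.SlabLowEndC5Data

/-!
# Leaves of the cover of corner root 5
-/

set_option maxRecDepth 100000
-- the heavy checks are definitions, so that they are checked one after another
set_option linter.defProp false

namespace Vale.Agent.P100.Calib.LowEnd

open Pack Band

def c5_leaf0 :
    Sound c5R [(0, 1, 1), (0, 1, 1), (0, 19, 32), (0, 1, 4), (0, 1, 4)] :=
  sound_leafF (K := 214) (F := ⟨⟨(-6710886), (-300194), 86160, 897759, 562923, 735172, 163584, 0, 0, 0⟩, (12, 463295831115036559561958), (12, 1064756617701238050062927), (10, 0), (10, 0), (10, 0)⟩) c5_ok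
    (by decide +kernel)

def c5_leaf1 :
    Sound c5R [(0, 1, 2), (0, 1, 1), (0, 19, 32), (1, 2, 4), (0, 1, 4)] :=
  sound_leafF (K := 220) (F := ⟨⟨125829, (-639958), 91, (-46793), 506340, 522470, 81793, 0, 0, 0⟩, (11, 1008163233753909395238866), (14, 31514425527990555133257), (11, 1239858385443303886247845), (10, 0), (10, 0)⟩) c5_ok
    (by decide +kernel)

def c5_leaf2 :
    Sound c5R [(1, 2, 2), (0, 1, 1), (0, 19, 32), (1, 2, 4), (0, 1, 4)] :=
  sound_leafF (K := 220) (F := ⟨⟨0, (-649334), 78683, 0, 542532, 540367, 151185, 0, 0, 0⟩, (11, 1007969692285975465699428), (12, 95174392756881887442453), (10, 0), (10, 0), (10, 0)⟩) c5_ok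
    (by decide +kernel)

def c5_leaf3 :
    Sound c5R [(0, 1, 1), (0, 1, 1), (0, 19, 32), (0, 1, 4), (1, 2, 4)] :=
  sound_leafF (K := 215) (F := ⟨⟨30230446, (-442811), 158141, (-1661270), 426626, 456560, 138026, 0, 0, 0⟩, (12, 172054957333609321824500), (12, 447315974600746428802554), (10, 0), (10, 0), (10, 0)⟩) c5_ok
    (by decide +kernel)

def c5_leaf4 :
    Sound c5R [(0, 1, 2), (0, 1, 1), (0, 19, 32), (1, 2, 4), (1, 2, 4)] :=
  sound_leafF (K := 220) (F := ⟨⟨40768635, (-377757), 203699, (-1222353), 372643, 317998, 130013, 0, 0, 0⟩, (12, 93791714073843145689612), (10, 0), (10, 0), (10, 0), (10, 0)⟩) c5_ok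
    (by decide +kernel)

def c5_leaf5 :
    Sound c5R [(1, 2, 2), (0, 1, 2), (0, 19, 32), (1, 2, 4), (1, 2, 4)] :=
  sound_leafF (K := 226) (F := ⟨⟨40768635, (-365526), 198421, (-1230333), 385542, 324227, 130196, 0, 0, 0⟩, (10, 0), (10, 0), (10, 0), (10, 0), (10, 0)⟩) c5_ok
    (by decide +kernel)

def c5_leaf6 :
    Sound c5R [(1, 2, 2), (1, 2, 2), (0, 19, 32), (1, 2, 4), (1, 2, 4)] :=
  sound_leafF (K := 226) (F := ⟨⟨42147512, (-358337), 205931, (-1278368), 422447, 331571, 133748, 0, 0, 0⟩, (11, 654870660838020706770684), (12, 145378592413867668191044), (10, 0), (10, 0), (11, 2018931)⟩) c5_ok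
    (by decide +kernel)

def c5_leaf7 :
    Sound c5R [(0, 1, 1), (0, 1, 1), (0, 19, 32), (2, 3, 4), (0, 1, 4)] :=
  sound_leafF (K := 214) (F := ⟨⟨0, (-385389), 108342, 0, 474537, 390812, 141967, 0, 0, 0⟩, (11, 2500730228813712785713245), (14, 58175032024115668349506), (10, 0), (10, 0), (10, 0)⟩) c5_ok
    (by decide +kernel)

def c5_leaf8 :
    Sound c5R [(0, 1, 1), (0, 1, 1), (0, 19, 32), (3, 4, 4), (0, 1, 4)] :=
  sound_leafF (K := 213) (F := ⟨⟨(-83886), (-124660), 113786, (-58184), 432269, 300336, 134596, 0, 0, 0⟩, (11, 4544069259733814871902202), (14, 102733090373962679263248), (10, 0), (10, 0), (10, 0)⟩) c5_ok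
    (by decide +kernel)

def c5_leaf9 :
    Sound c5R [(0, 1, 2), (0, 1, 1), (0, 19, 32), (2, 3, 4), (1, 2, 4)] :=
  sound_leafF (K := 220) (F := ⟨⟨44113592, (-148027), 257575, (-1039429), 346498, 205156, 119292, 0, 0, 0⟩, (11, 901735109213748749229152), (10, 0), (10, 0), (10, 0), (13, 9610912)⟩) c5_ok
    (by decide +kernel)

def c5_leaf10 :
    Sound c5R [(1, 2, 2), (0, 1, 2), (0, 19, 32), (2, 3, 4), (1, 2, 4)] :=
  sound_leafF (K := 225) (F := ⟨⟨43065016, (-176231), 227159, (-789306), 359750, 242543, 119549, 0, 0, 0⟩, (11, 971093699561902097929015), (10, 0), (10, 0), (10, 0), (13, 11122059)⟩) c5_ok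
    (by decide +kernel)

def c5_leaf11 :
    Sound c5R [(1, 2, 2), (1, 2, 2), (0, 19, 32), (2, 3, 4), (2, 3, 8)] :=
  sound_leafF (K := 231) (F := ⟨⟨19660800, (-132075), 191132, (-404598), 414297, 266055, 120536, 0, 0, 0⟩, (11, 1837317239954740040240058), (10, 0), (10, 0), (10, 0), (10, 0)⟩) c5_ok
    (by decide +kernel)

def c5_leaf12 :
    Sound c5R [(1, 2, 2), (1, 2, 2), (0, 19, 64), (2, 3, 4), (3, 4, 8)] :=
  sound_leafF (K := 237) (F := ⟨⟨38619054, (-137479), 216552, (-462053), 380829, 225441, 111860, 0, 0, 0⟩, (13, 832154900095500921227268), (10, 0), (10, 0), (10, 0), (13, 25302648)⟩) c5_ok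
    (by decide +kernel)

def c5_leaf13 :
    Sound c5R [(1, 2, 2), (1, 2, 2), (19, 38, 64), (4, 5, 8), (3, 4, 8)] :=
  sound_leafF (K := 244) (F := ⟨⟨55490642, (-307320), 261713, (-996542), 378745, 248571, 121244, 0, 0, 0⟩, (11, 1694757730325952166934363), (10, 0), (10, 0), (10, 0), (10, 0)⟩) c5_ok
    (by decide +kernel)

def c5_leaf14 :
    Sound c5R [(1, 2, 2), (1, 2, 2), (19, 38, 64), (5, 6, 8), (3, 4, 8)] :=
  sound_empty2 (K := 181) (f := (11, 1048576)) (g := (13, 808625)) c5_ok (by decide +kernel)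

def c5_leaf15 :
    Sound c5R [(0, 1, 1), (0, 1, 1), (0, 19, 32), (3, 4, 4), (1, 2, 4)] :=
  sound_empty2 (K := 151) (f := (11, 1048576)) (g := (13, 1123488)) c5_ok (by decide +kernel)

end Vale.Agent.P100.Calib.LowEnd
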