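import Vale.Agent.P100.Calib.SlabLowEndC5Data

/-!
# The slots of corner root 5 are within their tolerances
-/

set_option maxRecDepth 100000
-- the heavy checks are definitions, so that they are checked one after another
set_option linter.defProp false

namespace Vale.Agent.P100.Calib.LowEnd

open Pack Band

def c5_slot0 : checkSlot c5B c5P.sig 56 c5D0 c5T0 = true := by decide +kernel

def c5_slot1 : checkSlot c5B c5P.sig 56 c5D1 c5T1 = true := by decide +kernel

def c5_slot2 : checkSlot c5B c5P.sig 56 c5D2 c5T2 = true := by decide +kernel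

def c5_slot3 : checkSlot c5B c5P.sig 56 c5D3 c5T3 = true := by decide +kernel

def c5_slot4 : checkSlot c5B c5P.sig 56 c5D4 c5T4 = true := by decide +kernel

def c5_slot5 : checkSlot c5B c5P.sig 56 c5D5 c5T5 = true := by decide +kernel

def c5_slot6 : checkSlot c5B c5P.sig 56 c5D6 c5T6 = true := by decide +kernel

def c5_slot7 : checkSlot c5B c5P.sig 56 c5D7 c5T7 = true := by decide +kernel

def c5_slot8 : checkSlot c5B c5P.sig 56 c5D8 c5T8 = true := by decide +kernel

def c5_slot9 : checkSlot c5B c5P.sig 56 c5D9 c5T9 = true := by decide +kernel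

def c5_slot10 : checkSlot c5B c5P.sig 56 c5D10 c5T10 = true := by decide +kernel

def c5_slot11 : checkSlot c5B c5P.sig 56 c5D11 c5T11 = true := by decide +kernel

def c5_slot12 : checkSlot c5B c5P.sig 56 c5D12 c5T12 = true := by decide +kernel

def c5_slot13 : checkSlot c5B c5P.sig 56 c5D13 c5T13 = true := by decide +kernel

def c5_slot14 : checkSlot c5B c5P.sig 56 c5D14 c5T14 = true := by decide +kernel

theorem c5_near {x y : ℕ → ℝ} (hx : InBox c5B x) (hc : Coord c5P.sig x y) :
    Near c5R y (valueAt c5L x) :=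
  near_root rfl (fun q hq => by
    simp only [c5L, List.length_cons, List.length_nil] at hq
    interval_cases q
    · exact ⟨_, c5_slot0⟩
    · exact ⟨_, c5_slot1⟩
    · exact ⟨_, c5_slot2⟩
    · exact ⟨_, c5_slot3⟩
    · exact ⟨_, c5_slot4⟩
    · exact ⟨_, c5_slot5⟩
    · exact ⟨_, c5_slot6⟩
    · exact ⟨_, c5_slot7⟩
    · exact ⟨_, c5_slot8⟩
    · exact ⟨_, c5_slot9⟩
    · exact ⟨_, c5_slot10⟩
    · exact ⟨_, c5_slot11⟩
    · exact ⟨_, c5_slot12⟩
    · exact ⟨_, c5_slot13⟩
    · exact ⟨_, c5_slot14⟩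
  ) hx hc

end Vale.Agent.P100.Calib.LowEnd
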