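import Vale.Agent.P100.Calib.SlabLowEndC6Data

/-!
# Leaves of the cover of corner root 6
-/

set_option maxRecDepth 100000
-- the heavy checks are definitions, so that they are checked one after another
set_option linter.defProp false

namespace Vale.Agent.P100.Calib.LowEnd

open Pack Band

def c6_leaf16 :
    Sound c6Rlo [(0, 1, 2), (0, 1, 2), (19, 38, 64), (4, 5, 8), (3, 4, 8)] :=
  sound_leafF (K := 244) (F := ⟨⟨52879688, (-278540), 265044, (-883675), 358923, 236420, 117156, 0, 0, 0⟩, (11, 1436364713726692813371199), (10, 0), (10, 0), (10, 0), (13, 11646741)⟩) c6_oklo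
    (by decide +kernel)

def c6_leaf17 :
    Sound c6Rlo [(0, 1, 2), (0, 1, 2), (19, 38, 64), (5, 6, 8), (3, 4, 8)] :=
  sound_empty2 (K := 181) (f := (11, 1048576)) (g := (13, 943633)) c6_oklo (by decide +kernel)

def c6_leaf18 :
    Sound c6Rlo [(0, 1, 2), (1, 2, 2), (0, 19, 32), (2, 3, 4), (2, 3, 8)] :=
  sound_leafF (K := 231) (F := ⟨⟨28133294, (-105192), 214868, (-566467), 426292, 253788, 121327, 0, 0, 0⟩, (11, 1736819931702522195358509), (10, 0), (10, 0), (10, 0), (11, 12807263)⟩) c6_oklo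
    (by decide +kernel)

def c6_leaf19 :
    Sound c6Rlo [(0, 1, 2), (1, 2, 2), (0, 19, 64), (4, 5, 8), (3, 4, 8)] :=
  sound_leafF (K := 244) (F := ⟨⟨61603840, (-228562), 270168, (-1238893), 395320, 172954, 123168, 0, 0, 0⟩, (13, 353380900058584282312259), (10, 0), (10, 0), (10, 0), (13, 27046702)⟩) c6_oklo
    (by decide +kernel)

def c6_leaf20 :
    Sound c6Rlo [(0, 1, 2), (1, 2, 2), (0, 19, 64), (5, 6, 8), (3, 4, 8)] :=
  sound_empty (K := 161) (q := 13) c6_oklo (by decide +kernel)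

def c6_leaf21 :
    Sound c6Rlo [(0, 1, 2), (1, 2, 2), (19, 38, 64), (4, 5, 8), (3, 4, 8)] :=
  sound_leafF (K := 244) (F := ⟨⟨57073992, (-266608), 267541, (-868813), 377574, 237621, 117757, 0, 0, 0⟩, (11, 2409134808055295399802483), (10, 0), (10, 0), (10, 0), (13, 12603456)⟩) c6_oklo
    (by decide +kernel)

def c6_leaf22 :
    Sound c6Rlo [(0, 1, 2), (1, 2, 2), (19, 38, 64), (5, 6, 8), (3, 4, 8)] :=
  sound_empty2 (K := 181) (f := (11, 1048576)) (g := (13, 899993)) c6_oklo (by decide +kernel)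

def c6_leaf23 :
    Sound c6Rlo [(1, 2, 2), (0, 1, 2), (0, 19, 32), (2, 3, 4), (2, 3, 8)] :=
  sound_leafF (K := 231) (F := ⟨⟨30115103, (-104145), 213471, (-601941), 451333, 258356, 122297, 0, 0, 0⟩, (11, 2215969557836429932963535), (10, 0), (10, 0), (10, 0), (11, 14591971)⟩) c6_oklo
    (by decide +kernel)

def c6_leaf24 :
    Sound c6Rlo [(1, 2, 2), (0, 1, 2), (0, 19, 64), (2, 3, 4), (3, 4, 8)] :=
  sound_leafF (K := 237) (F := ⟨⟨43065016, (-226978), 239458, (-887449), 412034, 122182, 83818, 0, 0, 0⟩, (13, 1067725127495515399409986), (10, 0), (10, 0), (10, 0), (13, 29083282)⟩) c6_oklo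
    (by decide +kernel)

def c6_leaf25 :
    Sound c6Rlo [(1, 2, 2), (0, 1, 2), (19, 38, 64), (4, 5, 8), (3, 4, 8)] :=
  sound_leafF (K := 244) (F := ⟨⟨57073992, (-255516), 261950, (-867812), 397320, 242077, 117942, 0, 0, 0⟩, (11, 2509463501378822494279890), (10, 0), (10, 0), (10, 0), (13, 11161418)⟩) c6_oklo
    (by decide +kernel)

def c6_leaf26 :
    Sound c6Rlo [(1, 2, 2), (0, 1, 2), (19, 38, 64), (5, 6, 8), (3, 4, 8)] :=
  sound_empty2 (K := 181) (f := (11, 1048576)) (g := (13, 1081136)) c6_oklo (by decide +kernel)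

def c6_leaf27 :
    Sound c6Rlo [(1, 2, 2), (1, 2, 2), (0, 19, 64), (2, 3, 4), (2, 3, 8)] :=
  sound_leafF (K := 237) (F := ⟨⟨17563648, (-50559), 193985, (-442180), 484823, 191528, 121023, 0, 0, 0⟩, (11, 3389993364139970741964353), (10, 0), (10, 0), (10, 0), (11, 10500623)⟩) c6_oklo
    (by decide +kernel)

def c6_leaf28 :
    Sound c6Rlo [(1, 2, 2), (1, 2, 2), (19, 38, 64), (2, 3, 4), (2, 3, 8)] :=
  sound_leafF (K := 238) (F := ⟨⟨19660800, (-95615), 217554, (-357437), 473301, 259176, 119677, 0, 0, 0⟩, (11, 8133370856861936249253828), (10, 0), (10, 0), (10, 0), (11, 25512846)⟩) c6_oklo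
    (by decide +kernel)

def c6_leaf29 :
    Sound c6Rlo [(1, 2, 2), (1, 2, 2), (0, 19, 64), (4, 5, 8), (3, 4, 8)] :=
  sound_leafF (K := 243) (F := ⟨⟨47060091, (-226972), 228668, (-1058470), 437646, 97163, 63418, 0, 0, 0⟩, (13, 785940491875736997073947), (10, 0), (10, 0), (10, 0), (13, 29470372)⟩) c6_oklo
    (by decide +kernel)

def c6_leaf30 :
    Sound c6Rlo [(1, 2, 2), (1, 2, 2), (0, 19, 64), (5, 6, 8), (3, 4, 8)] :=
  sound_empty (K := 161) (q := 13) c6_oklo (by decide +kernel)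

def c6_leaf31 :
    Sound c6Rlo [(2, 3, 4), (1, 2, 2), (19, 38, 64), (4, 5, 8), (3, 4, 8)] :=
  sound_leafF (K := 250) (F := ⟨⟨58122568, (-249109), 265173, (-856264), 409918, 241881, 118350, 0, 0, 0⟩, (11, 2692386550715039880556351), (10, 0), (10, 0), (10, 0), (13, 11308602)⟩) c6_oklo
    (by decide +kernel)

end Vale.Agent.P100.Calib.LowEnd
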