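import Vale.Agent.P100.Calib.SlabLowEndC6Data

/-!
# Leaves of the cover of corner root 6
-/

set_option maxRecDepth 100000
-- the heavy checks are definitions, so that they are checked one after another
set_option linter.defProp false

namespace Vale.Agent.P100.Calib.LowEnd

open Pack Band

def c6_leaf32 :
    Sound c6Rlo [(3, 4, 4), (2, 3, 4), (19, 38, 64), (4, 5, 8), (6, 7, 16)] :=
  sound_leafF (K := 262) (F := ⟨⟨38535168, (-180042), 237971, (-662760), 434631, 253631, 117032, 0, 0, 0⟩, (11, 4700499500646533154506806), (10, 0), (10, 0), (10, 0), (11, 22659883)⟩) c6_oklo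
    (by decide +kernel)

def c6_leaf33 :
    Sound c6Rlo [(3, 4, 4), (2, 3, 4), (38, 57, 128), (4, 5, 8), (7, 8, 16)] :=
  sound_leafF (K := 268) (F := ⟨⟨54525952, (-212065), 258033, (-758138), 420561, 235216, 114988, 0, 0, 0⟩, (11, 2811786177291356084319098), (10, 0), (10, 0), (10, 0), (13, 19868095)⟩) c6_oklo
    (by decide +kernel)

def c6_leaf34 :
    Sound c6Rlo [(3, 4, 4), (2, 3, 4), (57, 76, 128), (4, 5, 8), (7, 8, 16)] :=
  sound_leafF (K := 268) (F := ⟨⟨54976840, (-232108), 270864, (-807197), 410571, 237574, 115523, 0, 0, 0⟩, (11, 6106001766242088904828469), (10, 0), (10, 0), (10, 0), (11, 29315827)⟩) c6_oklo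
    (by decide +kernel)

def c6_leaf35 :
    Sound c6Rlo [(3, 4, 4), (3, 4, 4), (19, 38, 64), (4, 5, 8), (6, 7, 16)] :=
  sound_leafF (K := 262) (F := ⟨⟨38535168, (-174444), 239393, (-656228), 449411, 254273, 117400, 0, 0, 0⟩, (11, 8075396743624452981266470), (10, 0), (10, 0), (10, 0), (11, 34194677)⟩) c6_oklo
    (by decide +kernel)

def c6_leaf36 :
    Sound c6Rlo [(3, 4, 4), (3, 4, 4), (38, 57, 128), (8, 9, 16), (7, 8, 16)] :=
  sound_leafF (K := 274) (F := ⟨⟨63700992, (-300670), 275547, (-1029313), 436303, 246956, 121809, 0, 0, 0⟩, (11, 2776501146057468313725463), (10, 0), (10, 0), (10, 0), (10, 0)⟩) c6_oklo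
    (by decide +kernel)

def c6_leaf37 :
    Sound c6Rlo [(3, 4, 4), (3, 4, 4), (38, 57, 128), (9, 10, 16), (7, 8, 16)] :=
  sound_empty (K := 190) (q := 11) c6_oklo (by decide +kernel)

def c6_leaf38 :
    Sound c6Rlo [(3, 4, 4), (3, 4, 4), (57, 76, 128), (4, 5, 8), (7, 8, 16)] :=
  sound_empty2 (K := 204) (f := (11, 1048576)) (g := (13, 125735)) c6_oklo (by decide +kernel)

def c6_leaf39 :
    Sound c6Rlo [(1, 2, 2), (1, 2, 2), (19, 38, 64), (5, 6, 8), (3, 4, 8)] :=
  sound_empty (K := 160) (q := 11) c6_oklo (by decide +kernel)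

def c6_leaf40 :
    Sound c6Rlo [(0, 1, 1), (0, 1, 1), (0, 19, 32), (3, 4, 4), (1, 2, 4)] :=
  sound_empty2 (K := 151) (f := (11, 1048576)) (g := (13, 1249477)) c6_oklo (by decide +kernel)

def c6_leaf41 :
    Sound c6Rlo [(0, 1, 2), (0, 1, 2), (0, 19, 32), (0, 1, 4), (2, 3, 4)] :=
  sound_leafF (K := 226) (F := ⟨⟨51715768, (-499097), 125904, (-1515592), 353523, 352315, 121730, 0, 0, 0⟩, (10, 0), (12, 360498337484769822706857), (10, 0), (10, 0), (10, 21364371)⟩) c6_oklo
    (by decide +kernel)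

def c6_leaf42 :
    Sound c6Rlo [(0, 1, 2), (1, 2, 2), (0, 19, 32), (0, 1, 4), (4, 5, 8)] :=
  sound_leafF (K := 233) (F := ⟨⟨53393490, (-639472), 169518, (-2285294), 393980, 401161, 142457, 0, 0, 0⟩, (12, 85406371115197164658591), (12, 332882408262860512684254), (10, 0), (10, 0), (10, 5930913)⟩) c6_oklo
    (by decide +kernel)

def c6_leaf43 :
    Sound c6Rlo [(0, 1, 2), (1, 2, 2), (0, 19, 32), (0, 1, 4), (5, 6, 8)] :=
  sound_leafF (K := 233) (F := ⟨⟨57587794, (-458953), 184678, (-1729957), 356039, 343534, 124972, 0, 0, 0⟩, (10, 0), (10, 8151547283233433376638506), (10, 0), (10, 0), (10, 23127188)⟩) c6_oklo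
    (by decide +kernel)

def c6_leaf44 :
    Sound c6Rlo [(1, 2, 2), (0, 1, 2), (0, 19, 32), (0, 1, 4), (4, 5, 8)] :=
  sound_leafF (K := 233) (F := ⟨⟨53917778, (-658852), 209989, (-2318865), 408735, 411849, 122484, 0, 0, 0⟩, (10, 0), (12, 427076016125019071178419), (10, 0), (10, 0), (10, 3901919)⟩) c6_oklo
    (by decide +kernel)

def c6_leaf45 :
    Sound c6Rlo [(1, 2, 2), (0, 1, 2), (0, 19, 32), (0, 1, 4), (5, 6, 8)] :=
  sound_leafF (K := 233) (F := ⟨⟨62358815, (-474903), 186318, (-1834669), 371566, 352160, 127206, 0, 0, 0⟩, (10, 0), (10, 5973210211008487038242889), (10, 0), (10, 0), (10, 22896513)⟩) c6_oklo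
    (by decide +kernel)

def c6_leaf46 :
    Sound c6Rlo [(1, 2, 2), (1, 2, 2), (0, 19, 64), (0, 1, 4), (4, 5, 8)] :=
  sound_leafF (K := 241) (F := ⟨⟨63700992, (-645548), 231626, (-2307665), 437196, 387537, 149935, 0, 0, 0⟩, (10, 4077521143888969634791291), (10, 13711647375285773179351374), (10, 31462777496893524041997849), (10, 0), (10, 0)⟩) c6_oklo
    (by decide +kernel)

def c6_leaf47 :
    Sound c6Rlo [(1, 2, 2), (1, 2, 2), (19, 38, 64), (0, 1, 8), (4, 5, 8)] :=
  sound_leafF (K := 245) (F := ⟨⟨40768635, (-503985), 158097, (-2276819), 437836, 493690, 135691, 0, 0, 0⟩, (10, 0), (10, 0), (10, 0), (10, 0), (10, 8592550)⟩) c6_oklo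
    (by decide +kernel)

end Vale.Agent.P100.Calib.LowEnd
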