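import Vale.Agent.P100.Calib.SlabLowEndC6Data

/-!
# Leaves of the cover of corner root 6
-/

set_option maxRecDepth 100000
-- the heavy checks are definitions, so that they are checked one after another
set_option linter.defProp false

namespace Vale.Agent.P100.Calib.LowEnd

open Pack Band

def c6_leaf48 :
    Sound c6Rlo [(1, 2, 2), (1, 2, 2), (19, 38, 64), (1, 2, 8), (4, 5, 8)] :=
  sound_leafF (K := 245) (F := ⟨⟨60901294, (-621221), 240054, (-2176369), 414097, 384749, 142465, 0, 0, 0⟩, (10, 0), (10, 0), (10, 0), (10, 0), (10, 0)⟩) c6_oklo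
    (by decide +kernel)

def c6_leaf49 :
    Sound c6Rlo [(1, 2, 2), (1, 2, 2), (0, 19, 64), (0, 1, 4), (5, 6, 8)] :=
  sound_empty (K := 155) (q := 10) c6_oklo (by decide +kernel)

def c6_leaf50 :
    Sound c6Rlo [(1, 2, 2), (1, 2, 2), (19, 38, 64), (0, 1, 8), (5, 6, 8)] :=
  sound_leafF (K := 245) (F := ⟨⟨45424312, (-501823), 152958, (-2195453), 395127, 452303, 128888, 0, 0, 0⟩, (10, 0), (10, 0), (10, 0), (10, 0), (10, 29946513)⟩) c6_oklo
    (by decide +kernel)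

def c6_leaf51 :
    Sound c6Rlo [(1, 2, 2), (1, 2, 2), (19, 38, 64), (1, 2, 8), (5, 6, 8)] :=
  sound_leafF (K := 245) (F := ⟨⟨69289902, (-499800), 213338, (-1814967), 369670, 346059, 127426, 0, 0, 0⟩, (10, 0), (10, 0), (10, 0), (10, 0), (10, 23748348)⟩) c6_oklo
    (by decide +kernel)

def c6_leaf52 :
    Sound c6Rlo [(0, 1, 2), (0, 1, 2), (0, 19, 32), (1, 2, 4), (2, 3, 4)] :=
  sound_leafF (K := 226) (F := ⟨⟨73683436, (-295530), 265677, (-1465242), 325845, 243401, 64934, 0, 0, 0⟩, (10, 0), (10, 0), (10, 0), (10, 0), (13, 18322957)⟩) c6_oklo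
    (by decide +kernel)

def c6_leaf53 :
    Sound c6Rlo [(0, 1, 2), (1, 2, 2), (0, 19, 32), (1, 2, 4), (4, 5, 8)] :=
  sound_leafF (K := 232) (F := ⟨⟨72844575, (-333497), 293252, (-1348153), 355971, 260804, 64920, 0, 0, 0⟩, (10, 0), (10, 0), (10, 0), (10, 0), (13, 14726382)⟩) c6_oklo
    (by decide +kernel)

def c6_leaf54 :
    Sound c6Rlo [(0, 1, 2), (1, 2, 2), (0, 19, 32), (1, 2, 4), (5, 6, 8)] :=
  sound_leafF (K := 232) (F := ⟨⟨86109061, (-362404), 310561, (-2059686), 331030, 173626, 49687, 0, 0, 0⟩, (13, 176165763000953240059301), (10, 0), (13, 210855233552537883291167), (10, 0), (13, 20287285)⟩) c6_oklo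
    (by decide +kernel)

def c6_leaf55 :
    Sound c6Rlo [(1, 2, 2), (0, 1, 2), (0, 19, 64), (1, 2, 4), (4, 5, 8)] :=
  sound_leafF (K := 238) (F := ⟨⟨67192750, (-326195), 232206, (-1134510), 379532, 260916, 119289, 0, 0, 0⟩, (13, 324572756149780603585861), (10, 0), (10, 0), (10, 0), (13, 16145833)⟩) c6_oklo
    (by decide +kernel)

def c6_leaf56 :
    Sound c6Rlo [(1, 2, 2), (0, 1, 2), (19, 38, 64), (1, 2, 4), (4, 5, 8)] :=
  sound_leafF (K := 238) (F := ⟨⟨73368863, (-403118), 281774, (-1216206), 365910, 217119, 48268, 0, 0, 0⟩, (13, 73711003693998300596860), (10, 0), (10, 0), (10, 0), (13, 15089291)⟩) c6_oklo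
    (by decide +kernel)

def c6_leaf57 :
    Sound c6Rlo [(1, 2, 2), (0, 1, 2), (0, 19, 64), (1, 2, 4), (5, 6, 8)] :=
  sound_empty2 (K := 176) (f := (10, 1048576)) (g := (13, 896053)) c6_oklo (by decide +kernel)

def c6_leaf58 :
    Sound c6Rlo [(1, 2, 2), (0, 1, 2), (19, 38, 64), (1, 2, 4), (5, 6, 8)] :=
  sound_leafF (K := 238) (F := ⟨⟨85060485, (-369065), 310108, (-1995140), 339381, 181304, 67428, 0, 0, 0⟩, (13, 213720492014876496196987), (10, 0), (10, 0), (10, 0), (13, 19982212)⟩) c6_oklo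
    (by decide +kernel)

def c6_leaf59 :
    Sound c6Rlo [(1, 2, 2), (1, 2, 2), (0, 19, 64), (1, 2, 4), (4, 5, 8)] :=
  sound_leafF (K := 238) (F := ⟨⟨69289902, (-232758), 182107, (-1596888), 401149, 144874, 65891, 0, 0, 0⟩, (13, 358495374075259559907339), (10, 0), (10, 0), (10, 0), (13, 15317724)⟩) c6_oklo
    (by decide +kernel)

def c6_leaf60 :
    Sound c6Rlo [(2, 3, 4), (1, 2, 2), (19, 38, 64), (2, 3, 8), (4, 5, 8)] :=
  sound_leafF (K := 251) (F := ⟨⟨71428997, (-574041), 318647, (-1946482), 387538, 306874, 136427, 0, 0, 0⟩, (10, 0), (10, 0), (10, 0), (10, 0), (13, 5026292)⟩) c6_oklo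
    (by decide +kernel)

def c6_leaf61 :
    Sound c6Rlo [(3, 4, 4), (2, 3, 4), (19, 38, 64), (2, 3, 8), (4, 5, 8)] :=
  sound_leafF (K := 257) (F := ⟨⟨71691141, (-594309), 289558, (-1723553), 400183, 300088, 131355, 0, 0, 0⟩, (10, 0), (10, 0), (10, 0), (10, 0), (13, 4622860)⟩) c6_oklo
    (by decide +kernel)

def c6_leaf62 :
    Sound c6Rlo [(3, 4, 4), (3, 4, 4), (19, 38, 64), (2, 3, 8), (8, 9, 16)] :=
  sound_leafF (K := 262) (F := ⟨⟨63700992, (-473978), 251789, (-1637001), 417017, 323550, 132704, 0, 0, 0⟩, (10, 0), (10, 0), (10, 0), (10, 0), (10, 0)⟩) c6_oklo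
    (by decide +kernel)

def c6_leaf63 :
    Sound c6Rlo [(3, 4, 4), (3, 4, 4), (19, 38, 64), (2, 3, 8), (9, 10, 16)] :=
  sound_leafF (K := 263) (F := ⟨⟨75528929, (-562060), 287380, (-1755856), 399250, 305425, 135247, 0, 0, 0⟩, (10, 0), (10, 0), (10, 0), (10, 0), (10, 0)⟩) c6_oklo
    (by decide +kernel)

end Vale.Agent.P100.Calib.LowEnd
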