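import Vale.Agent.P100.Calib.SlabLowEndC6Data

/-!
# Leaves of the cover of corner root 6
-/

set_option maxRecDepth 100000
-- the heavy checks are definitions, so that they are checked one after another
set_option linter.defProp false

namespace Vale.Agent.P100.Calib.LowEnd

open Pack Band

def c6_leaf64 :
    Sound c6Rlo [(2, 3, 4), (1, 2, 2), (19, 38, 64), (3, 4, 8), (4, 5, 8)] :=
  sound_leafF (K := 250) (F := ⟨⟨74574725, (-408362), 291462, (-1264901), 373416, 103061, 67445, 0, 0, 0⟩, (10, 0), (10, 0), (10, 0), (10, 0), (13, 16575828)⟩) c6_oklo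
    (by decide +kernel)

def c6_leaf65 :
    Sound c6Rlo [(3, 4, 4), (2, 3, 4), (19, 38, 64), (3, 4, 8), (4, 5, 8)] :=
  sound_leafF (K := 256) (F := ⟨⟨75623301, (-397744), 256206, (-1787719), 387472, 66545, 31872, 0, 0, 0⟩, (11, 145262428243018172991933), (13, 123103814577704565029494), (10, 0), (10, 0), (13, 16722216)⟩) c6_oklo
    (by decide +kernel)

def c6_leaf66 :
    Sound c6Rlo [(3, 4, 4), (3, 4, 4), (38, 57, 128), (3, 4, 8), (8, 9, 16)] :=
  sound_leafF (K := 268) (F := ⟨⟨67895296, (-334752), 261559, (-1625266), 410176, 144562, 66660, 0, 0, 0⟩, (13, 246851483401891312819713), (10, 0), (10, 0), (10, 0), (13, 12951457)⟩) c6_oklo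
    (by decide +kernel)

def c6_leaf67 :
    Sound c6Rlo [(3, 4, 4), (3, 4, 4), (57, 76, 128), (6, 7, 16), (8, 9, 16)] :=
  sound_leafF (K := 274) (F := ⟨⟨69489132, (-437259), 282243, (-1412439), 404872, 282959, 127918, 0, 0, 0⟩, (10, 0), (10, 0), (10, 0), (10, 0), (10, 0)⟩) c6_oklo
    (by decide +kernel)

def c6_leaf68 :
    Sound c6Rlo [(3, 4, 4), (3, 4, 4), (57, 76, 128), (7, 8, 16), (8, 9, 16)] :=
  sound_leafF (K := 274) (F := ⟨⟨70537708, (-371122), 289570, (-1196212), 401722, 257121, 122486, 0, 0, 0⟩, (11, 1783936221251077750650458), (10, 0), (10, 0), (10, 0), (13, 12886785)⟩) c6_oklo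
    (by decide +kernel)

def c6_leaf69 :
    Sound c6Rlo [(3, 4, 4), (3, 4, 4), (19, 38, 64), (3, 4, 8), (9, 10, 16)] :=
  sound_leafF (K := 261) (F := ⟨⟨77101793, (-321551), 278897, (-1051600), 388570, 81473, 17317, 0, 0, 0⟩, (13, 580964751932206087606762), (10, 0), (13, 260323743668733093232920), (10, 0), (13, 16026121)⟩) c6_oklo
    (by decide +kernel)

def c6_leaf70 :
    Sound c6Rlo [(1, 2, 2), (1, 2, 2), (0, 19, 64), (1, 2, 4), (5, 6, 8)] :=
  sound_empty2 (K := 176) (f := (10, 1048576)) (g := (13, 691611)) c6_oklo (by decide +kernel)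

def c6_leaf71 :
    Sound c6Rlo [(1, 2, 2), (1, 2, 2), (19, 38, 64), (2, 3, 8), (5, 6, 8)] :=
  sound_leafF (K := 244) (F := ⟨⟨82837504, (-525592), 286133, (-1268428), 356045, 278731, 126991, 0, 0, 0⟩, (10, 0), (10, 0), (10, 0), (10, 0), (13, 18326929)⟩) c6_oklo
    (by decide +kernel)

def c6_leaf72 :
    Sound c6Rlo [(2, 3, 4), (2, 3, 4), (19, 38, 64), (3, 4, 8), (10, 11, 16)] :=
  sound_leafF (K := 262) (F := ⟨⟨86266348, (-488528), 335740, (-1346511), 345851, 233404, 122930, 0, 0, 0⟩, (13, 802181224003799043181247), (10, 0), (10, 0), (10, 0), (13, 47611528)⟩) c6_oklo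
    (by decide +kernel)

def c6_leaf73 :
    Sound c6Rlo [(2, 3, 4), (2, 3, 4), (19, 38, 64), (3, 4, 8), (11, 12, 16)] :=
  sound_empty (K := 179) (q := 13) c6_oklo (by decide +kernel)

def c6_leaf74 :
    Sound c6Rlo [(2, 3, 4), (3, 4, 4), (38, 57, 128), (3, 4, 8), (10, 11, 16)] :=
  sound_empty (K := 185) (q := 13) c6_oklo (by decide +kernel)

def c6_leaf75 :
    Sound c6Rlo [(2, 3, 4), (3, 4, 4), (57, 76, 128), (6, 7, 16), (10, 11, 16)] :=
  sound_leafF (K := 274) (F := ⟨⟨81820385, (-478876), 315720, (-1381292), 349048, 249618, 122819, 0, 0, 0⟩, (10, 0), (10, 0), (10, 0), (10, 0), (13, 28662669)⟩) c6_oklo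
    (by decide +kernel)

def c6_leaf76 :
    Sound c6Rlo [(2, 3, 4), (3, 4, 4), (57, 76, 128), (7, 8, 16), (10, 11, 16)] :=
  sound_empty (K := 191) (q := 13) c6_oklo (by decide +kernel)

def c6_leaf77 :
    Sound c6Rlo [(2, 3, 4), (3, 4, 4), (19, 38, 64), (3, 4, 8), (11, 12, 16)] :=
  sound_empty (K := 179) (q := 13) c6_oklo (by decide +kernel)

def c6_leaf78 :
    Sound c6Rlo [(3, 4, 4), (2, 3, 4), (38, 57, 128), (3, 4, 8), (10, 11, 16)] :=
  sound_empty (K := 185) (q := 13) c6_oklo (by decide +kernel)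

def c6_leaf79 :
    Sound c6Rlo [(3, 4, 4), (2, 3, 4), (57, 76, 128), (6, 7, 16), (10, 11, 16)] :=
  sound_leafF (K := 274) (F := ⟨⟨85060485, (-505000), 322419, (-1444122), 358027, 252822, 124829, 0, 0, 0⟩, (13, 515466871478042517990326), (10, 0), (10, 0), (10, 0), (13, 31116780)⟩) c6_oklo
    (by decide +kernel)

end Vale.Agent.P100.Calib.LowEnd
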