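import Vale.Agent.P100.Calib.SlabLowEndC6Data

/-!
# Leaves of the cover of corner root 6
-/

set_option maxRecDepth 100000
-- the heavy checks are definitions, so that they are checked one after another
set_option linter.defProp false

namespace Vale.Agent.P100.Calib.LowEnd

open Pack Band

def c6_leaf80 :
    Sound c6Rlo [(3, 4, 4), (2, 3, 4), (57, 76, 128), (7, 8, 16), (10, 11, 16)] :=
  sound_empty (K := 191) (q := 13) c6_oklo (by decide +kernel)

def c6_leaf81 :
    Sound c6Rlo [(3, 4, 4), (2, 3, 4), (19, 38, 64), (3, 4, 8), (11, 12, 16)] :=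
  sound_empty (K := 179) (q := 13) c6_oklo (by decide +kernel)

def c6_leaf82 :
    Sound c6Rlo [(3, 4, 4), (3, 4, 4), (38, 57, 128), (3, 4, 8), (10, 11, 16)] :=
  sound_empty (K := 185) (q := 13) c6_oklo (by decide +kernel)

def c6_leaf83 :
    Sound c6Rlo [(3, 4, 4), (3, 4, 4), (57, 76, 128), (6, 7, 16), (10, 11, 16)] :=
  sound_leafF (K := 274) (F := ⟨⟨85060485, (-496280), 322698, (-1431333), 367457, 253703, 124975, 0, 0, 0⟩, (13, 316326362591369304477321), (10, 0), (10, 0), (10, 0), (13, 25950364)⟩) c6_oklo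
    (by decide +kernel)

def c6_leaf84 :
    Sound c6Rlo [(3, 4, 4), (3, 4, 4), (57, 76, 128), (7, 8, 16), (10, 11, 16)] :=
  sound_empty (K := 191) (q := 13) c6_oklo (by decide +kernel)

def c6_leaf85 :
    Sound c6Rlo [(3, 4, 4), (3, 4, 4), (19, 38, 64), (3, 4, 8), (11, 12, 16)] :=
  sound_empty (K := 179) (q := 13) c6_oklo (by decide +kernel)

def c6_leaf86 :
    Sound c6Rlo [(0, 1, 1), (0, 1, 1), (0, 19, 32), (0, 1, 4), (3, 4, 4)] :=
  sound_empty (K := 131) (q := 10) c6_oklo (by decide +kernel)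

def c6_leaf87 :
    Sound c6Rlo [(0, 1, 2), (0, 1, 1), (0, 19, 32), (1, 2, 4), (3, 4, 4)] :=
  sound_empty2 (K := 159) (f := (10, 1048576)) (g := (13, 4090315)) c6_oklo (by decide +kernel)

def c6_leaf88 :
    Sound c6Rlo [(1, 2, 2), (0, 1, 2), (0, 19, 32), (1, 2, 4), (3, 4, 4)] :=
  sound_empty2 (K := 164) (f := (10, 1048576)) (g := (13, 2408441)) c6_oklo (by decide +kernel)

def c6_leaf89 :
    Sound c6Rlo [(1, 2, 2), (1, 2, 2), (0, 19, 64), (1, 2, 4), (6, 7, 8)] :=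
  sound_empty (K := 155) (q := 13) c6_oklo (by decide +kernel)

def c6_leaf90 :
    Sound c6Rlo [(1, 2, 2), (1, 2, 2), (19, 38, 64), (2, 3, 8), (6, 7, 8)] :=
  sound_empty2 (K := 182) (f := (10, 1048576)) (g := (13, 787259)) c6_oklo (by decide +kernel)

def c6_leaf91 :
    Sound c6Rlo [(1, 2, 2), (1, 2, 2), (19, 38, 64), (3, 4, 8), (6, 7, 8)] :=
  sound_empty (K := 161) (q := 13) c6_oklo (by decide +kernel)

def c6_leaf92 :
    Sound c6Rlo [(1, 2, 2), (1, 2, 2), (0, 19, 32), (1, 2, 4), (7, 8, 8)] :=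
  sound_empty (K := 149) (q := 13) c6_oklo (by decide +kernel)

def c6_leaf93 :
    Sound c6Rlo [(0, 1, 2), (0, 1, 2), (0, 19, 64), (2, 3, 4), (4, 5, 8)] :=
  sound_empty (K := 155) (q := 13) c6_oklo (by decide +kernel)

def c6_leaf94 :
    Sound c6Rlo [(0, 1, 2), (0, 1, 2), (19, 38, 64), (4, 5, 8), (4, 5, 8)] :=
  sound_leafF (K := 244) (F := ⟨⟨72477573, (-340915), 312842, (-980851), 323983, 209695, 113567, 0, 0, 0⟩, (13, 977534841217236096988985), (10, 0), (10, 0), (10, 0), (13, 60389682)⟩) c6_oklo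
    (by decide +kernel)

def c6_leaf95 :
    Sound c6Rlo [(0, 1, 2), (0, 1, 2), (19, 38, 64), (5, 6, 8), (4, 5, 8)] :=
  sound_empty (K := 161) (q := 13) c6_oklo (by decide +kernel)

end Vale.Agent.P100.Calib.LowEnd
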