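import Vale.Agent.P100.Calib.SlabLowEndC6Data

/-!
# Leaves of the cover of corner root 6
-/

set_option maxRecDepth 100000
-- the heavy checks are definitions, so that they are checked one after another
set_option linter.defProp false

namespace Vale.Agent.P100.Calib.LowEnd

open Pack Band

def c6_leaf96 :
    Sound c6Rlo [(0, 1, 2), (0, 1, 2), (0, 19, 32), (2, 3, 4), (5, 6, 8)] :=
  sound_empty (K := 149) (q := 13) c6_oklo (by decide +kernel)

def c6_leaf97 :
    Sound c6Rlo [(0, 1, 2), (1, 2, 2), (0, 19, 64), (2, 3, 4), (4, 5, 8)] :=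
  sound_empty (K := 155) (q := 13) c6_oklo (by decide +kernel)

def c6_leaf98 :
    Sound c6Rlo [(0, 1, 4), (1, 2, 2), (19, 38, 64), (4, 5, 8), (4, 5, 8)] :=
  sound_leafF (K := 250) (F := ⟨⟨73431777, (-349884), 325664, (-997232), 335157, 208244, 115147, 0, 0, 0⟩, (13, 570929743556731297524526), (10, 0), (10, 0), (10, 0), (13, 51998969)⟩) c6_oklo
    (by decide +kernel)

def c6_leaf99 :
    Sound c6Rlo [(1, 2, 4), (2, 3, 4), (19, 38, 64), (4, 5, 8), (8, 9, 16)] :=
  sound_leafF (K := 262) (F := ⟨⟨66563604, (-305150), 299432, (-932509), 353135, 218076, 114397, 0, 0, 0⟩, (13, 1215018654629759453918048), (10, 0), (10, 0), (10, 0), (13, 35696601)⟩) c6_oklo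
    (by decide +kernel)

def c6_leaf100 :
    Sound c6Rlo [(1, 2, 4), (2, 3, 4), (19, 38, 64), (4, 5, 8), (9, 10, 16)] :=
  sound_empty (K := 179) (q := 13) c6_oklo (by decide +kernel)

def c6_leaf101 :
    Sound c6Rlo [(1, 2, 4), (3, 4, 4), (19, 38, 64), (4, 5, 8), (8, 9, 16)] :=
  sound_leafF (K := 262) (F := ⟨⟨67391980, (-316861), 307188, (-965221), 364448, 218676, 115769, 0, 0, 0⟩, (13, 932838904273199127810554), (10, 0), (10, 0), (10, 0), (13, 31087263)⟩) c6_oklo
    (by decide +kernel)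

def c6_leaf102 :
    Sound c6Rlo [(1, 2, 4), (3, 4, 4), (19, 38, 64), (4, 5, 8), (9, 10, 16)] :=
  sound_empty (K := 179) (q := 13) c6_oklo (by decide +kernel)

def c6_leaf103 :
    Sound c6Rlo [(0, 1, 2), (1, 2, 2), (19, 38, 64), (5, 6, 8), (4, 5, 8)] :=
  sound_empty (K := 161) (q := 13) c6_oklo (by decide +kernel)

def c6_leaf104 :
    Sound c6Rlo [(0, 1, 2), (1, 2, 2), (0, 19, 32), (2, 3, 4), (5, 6, 8)] :=
  sound_empty (K := 149) (q := 13) c6_oklo (by decide +kernel)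

def c6_leaf105 :
    Sound c6Rlo [(1, 2, 2), (0, 1, 2), (0, 19, 64), (2, 3, 4), (4, 5, 8)] :=
  sound_empty (K := 155) (q := 13) c6_oklo (by decide +kernel)

def c6_leaf106 :
    Sound c6Rlo [(2, 3, 4), (0, 1, 4), (19, 38, 64), (4, 5, 8), (4, 5, 8)] :=
  sound_leafF (K := 256) (F := ⟨⟨75528929, (-344758), 316048, (-1013506), 345885, 213207, 115022, 0, 0, 0⟩, (13, 632313677403155862647737), (10, 0), (10, 0), (10, 0), (13, 65168025)⟩) c6_oklo
    (by decide +kernel)

def c6_leaf107 :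
    Sound c6Rlo [(2, 3, 4), (1, 2, 4), (19, 38, 64), (4, 5, 8), (8, 9, 16)] :=
  sound_leafF (K := 262) (F := ⟨⟨66563604, (-299173), 296079, (-931980), 362276, 220107, 114427, 0, 0, 0⟩, (13, 1157834944648926603076545), (10, 0), (10, 0), (10, 0), (13, 34501610)⟩) c6_oklo
    (by decide +kernel)

def c6_leaf108 :
    Sound c6Rlo [(2, 3, 4), (1, 2, 4), (19, 38, 64), (4, 5, 8), (9, 10, 16)] :=
  sound_empty (K := 179) (q := 13) c6_oklo (by decide +kernel)

def c6_leaf109 :
    Sound c6Rlo [(3, 4, 4), (0, 1, 4), (19, 38, 64), (4, 5, 8), (8, 9, 16)] :=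
  sound_leafF (K := 262) (F := ⟨⟨69489132, (-310167), 298721, (-972299), 373208, 222183, 115549, 0, 0, 0⟩, (13, 949994619463622878600162), (10, 0), (10, 0), (10, 0), (13, 38096576)⟩) c6_oklo
    (by decide +kernel)

def c6_leaf110 :
    Sound c6Rlo [(3, 4, 4), (0, 1, 4), (19, 38, 64), (4, 5, 8), (9, 10, 16)] :=
  sound_empty (K := 179) (q := 13) c6_oklo (by decide +kernel)

def c6_leaf111 :
    Sound c6Rlo [(3, 4, 4), (1, 2, 4), (38, 57, 128), (4, 5, 8), (8, 9, 16)] :=
  sound_empty (K := 185) (q := 13) c6_oklo (by decide +kernel)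

end Vale.Agent.P100.Calib.LowEnd
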