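import Vale.Agent.P100.Calib.SlabLowEndC6Data

/-!
# Leaves of the cover of corner root 6
-/

set_option maxRecDepth 100000
-- the heavy checks are definitions, so that they are checked one after another
set_option linter.defProp false

namespace Vale.Agent.P100.Calib.LowEnd

open Pack Band

def c6_leaf112 :
    Sound c6Rlo [(3, 4, 4), (1, 2, 4), (57, 76, 128), (8, 9, 16), (8, 9, 16)] :=
  sound_leafF (K := 274) (F := ⟨⟨66563604, (-311984), 292341, (-996477), 378281, 233262, 116425, 0, 0, 0⟩, (11, 2112241327329214638289692), (10, 0), (10, 0), (10, 0), (13, 28026269)⟩) c6_oklo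
    (by decide +kernel)

def c6_leaf113 :
    Sound c6Rlo [(3, 4, 4), (1, 2, 4), (57, 76, 128), (9, 10, 16), (8, 9, 16)] :=
  sound_empty (K := 191) (q := 13) c6_oklo (by decide +kernel)

def c6_leaf114 :
    Sound c6Rlo [(3, 4, 4), (1, 2, 4), (19, 38, 64), (4, 5, 8), (9, 10, 16)] :=
  sound_empty (K := 179) (q := 13) c6_oklo (by decide +kernel)

def c6_leaf115 :
    Sound c6Rlo [(1, 2, 2), (0, 1, 2), (19, 38, 64), (5, 6, 8), (4, 5, 8)] :=
  sound_empty (K := 161) (q := 13) c6_oklo (by decide +kernel)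

def c6_leaf116 :
    Sound c6Rlo [(1, 2, 2), (0, 1, 2), (0, 19, 32), (2, 3, 4), (5, 6, 8)] :=
  sound_empty (K := 149) (q := 13) c6_oklo (by decide +kernel)

def c6_leaf117 :
    Sound c6Rlo [(1, 2, 2), (1, 2, 2), (0, 19, 64), (2, 3, 4), (4, 5, 8)] :=
  sound_empty (K := 155) (q := 13) c6_oklo (by decide +kernel)

def c6_leaf118 :
    Sound c6Rlo [(2, 3, 4), (2, 3, 4), (38, 57, 128), (4, 5, 8), (8, 9, 16)] :=
  sound_empty (K := 185) (q := 13) c6_oklo (by decide +kernel)

def c6_leaf119 :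
    Sound c6Rlo [(2, 3, 4), (2, 3, 4), (57, 76, 128), (8, 9, 16), (8, 9, 16)] :=
  sound_leafF (K := 274) (F := ⟨⟨66563604, (-318221), 295768, (-996947), 368679, 231037, 116412, 0, 0, 0⟩, (11, 1811701582771235075948773), (10, 0), (10, 0), (10, 0), (13, 28727236)⟩) c6_oklo
    (by decide +kernel)

def c6_leaf120 :
    Sound c6Rlo [(2, 3, 4), (2, 3, 4), (57, 76, 128), (9, 10, 16), (8, 9, 16)] :=
  sound_empty (K := 191) (q := 13) c6_oklo (by decide +kernel)

def c6_leaf121 :
    Sound c6Rlo [(2, 3, 4), (2, 3, 4), (19, 38, 64), (4, 5, 8), (9, 10, 16)] :=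
  sound_empty (K := 179) (q := 13) c6_oklo (by decide +kernel)

def c6_leaf122 :
    Sound c6Rlo [(2, 3, 4), (3, 4, 4), (38, 57, 128), (4, 5, 8), (8, 9, 16)] :=
  sound_empty2 (K := 207) (f := (11, 1048576)) (g := (13, 6454730)) c6_oklo (by decide +kernel)

def c6_leaf123 :
    Sound c6Rlo [(2, 3, 4), (3, 4, 4), (57, 76, 128), (8, 9, 16), (8, 9, 16)] :=
  sound_leafF (K := 274) (F := ⟨⟨66563604, (-312369), 296978, (-988764), 379194, 231782, 116674, 0, 0, 0⟩, (11, 2257278809989398479971944), (10, 0), (10, 0), (10, 0), (13, 26097765)⟩) c6_oklo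
    (by decide +kernel)

def c6_leaf124 :
    Sound c6Rlo [(2, 3, 4), (3, 4, 4), (57, 76, 128), (9, 10, 16), (8, 9, 16)] :=
  sound_empty (K := 191) (q := 13) c6_oklo (by decide +kernel)

def c6_leaf125 :
    Sound c6Rlo [(2, 3, 4), (3, 4, 4), (19, 38, 64), (4, 5, 8), (9, 10, 16)] :=
  sound_empty (K := 179) (q := 13) c6_oklo (by decide +kernel)

def c6_leaf126 :
    Sound c6Rlo [(3, 4, 4), (2, 3, 4), (38, 57, 128), (4, 5, 8), (8, 9, 16)] :=
  sound_empty2 (K := 211) (f := (11, 1048576)) (g := (13, 96755605)) c6_oklo (by decide +kernel)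

def c6_leaf127 :
    Sound c6Rlo [(3, 4, 4), (2, 3, 4), (57, 76, 128), (8, 9, 16), (8, 9, 16)] :=
  sound_leafF (K := 274) (F := ⟨⟨66563604, (-306088), 293557, (-987995), 389487, 234002, 116684, 0, 0, 0⟩, (11, 2547221851279700716927758), (10, 0), (10, 0), (10, 0), (13, 26619487)⟩) c6_oklo
    (by decide +kernel)

end Vale.Agent.P100.Calib.LowEnd
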