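import Vale.Agent.P100.Calib.SlabLowEndC6Data

/-!
# Leaves of the cover of corner root 6
-/

set_option maxRecDepth 100000
-- the heavy checks are definitions, so that they are checked one after another
set_option linter.defProp false

namespace Vale.Agent.P100.Calib.LowEnd

open Pack Band

def c6_leaf128 :
    Sound c6Rlo [(3, 4, 4), (2, 3, 4), (57, 76, 128), (9, 10, 16), (8, 9, 16)] :=
  sound_empty (K := 190) (q := 11) c6_oklo (by decide +kernel)

def c6_leaf129 :
    Sound c6Rlo [(3, 4, 4), (2, 3, 4), (19, 38, 64), (4, 5, 8), (9, 10, 16)] :=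
  sound_empty (K := 179) (q := 13) c6_oklo (by decide +kernel)

def c6_leaf130 :
    Sound c6Rlo [(3, 4, 4), (3, 4, 4), (19, 38, 64), (4, 5, 8), (4, 5, 8)] :=
  sound_empty2 (K := 193) (f := (11, 1048576)) (g := (13, 591963)) c6_oklo (by decide +kernel)

def c6_leaf131 :
    Sound c6Rlo [(1, 2, 2), (1, 2, 2), (19, 38, 64), (5, 6, 8), (4, 5, 8)] :=
  sound_empty (K := 161) (q := 13) c6_oklo (by decide +kernel)

def c6_leaf132 :
    Sound c6Rlo [(1, 2, 2), (1, 2, 2), (0, 19, 32), (2, 3, 4), (5, 6, 8)] :=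
  sound_empty (K := 149) (q := 13) c6_oklo (by decide +kernel)

def c6_leaf133 :
    Sound c6Rlo [(0, 1, 1), (0, 1, 1), (0, 19, 32), (3, 4, 4), (2, 3, 4)] :=
  sound_empty (K := 131) (q := 13) c6_oklo (by decide +kernel)

def c6_leaf134 :
    Sound c6Rlo [(0, 1, 1), (0, 1, 1), (0, 19, 32), (1, 2, 2), (3, 4, 4)] :=
  sound_empty (K := 125) (q := 13) c6_oklo (by decide +kernel)

def c6_leaf135 :
    Sound c6R [(0, 1, 1), (0, 1, 1), (19, 32, 32), (0, 1, 2), (0, 1, 4)] :=
  sound_leafF (K := 208) (F := ⟨⟨(-4613734), (-183517), 138044, 537559, 596685, 716213, 153907, 0, 0, 0⟩, (11, 1471345919234752309878933), (11, 1017846366891276690539510), (10, 0), (10, 0), (10, 0)⟩) c6_ok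
    (by decide +kernel)

def c6_leaf136 :
    Sound c6R [(0, 1, 1), (0, 1, 1), (19, 32, 32), (0, 1, 4), (1, 2, 4)] :=
  sound_leafF (K := 215) (F := ⟨⟨34256978, (-575358), 198928, (-2325306), 482103, 543207, 147596, 0, 0, 0⟩, (12, 281689784811128713049278), (12, 651707426339663480065882), (12, 1517861871332859985505588), (10, 0), (10, 0)⟩) c6_ok
    (by decide +kernel)

def c6_leaf137 :
    Sound c6R [(0, 1, 2), (0, 1, 2), (19, 32, 32), (1, 2, 4), (2, 3, 8)] :=
  sound_leafF (K := 232) (F := ⟨⟨22932357, (-256446), 198414, (-808865), 413100, 364922, 126146, 0, 0, 0⟩, (10, 0), (10, 0), (10, 0), (10, 0), (10, 0)⟩) c6_ok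
    (by decide +kernel)

def c6_leaf138 :
    Sound c6R [(0, 1, 2), (0, 1, 2), (19, 32, 32), (1, 2, 4), (3, 4, 8)] :=
  sound_leafF (K := 232) (F := ⟨⟨52879688, (-439248), 262951, (-1415000), 373159, 312979, 128501, 0, 0, 0⟩, (10, 0), (10, 0), (10, 0), (10, 0), (10, 0)⟩) c6_ok
    (by decide +kernel)

def c6_leaf139 :
    Sound c6R [(0, 1, 2), (1, 2, 2), (19, 32, 32), (1, 2, 4), (2, 3, 8)] :=
  sound_leafF (K := 232) (F := ⟨⟨24662508, (-258785), 201956, (-863554), 431189, 368959, 127893, 0, 0, 0⟩, (10, 0), (10, 0), (10, 0), (10, 0), (10, 0)⟩) c6_ok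
    (by decide +kernel)

def c6_leaf140 :
    Sound c6R [(0, 1, 2), (1, 2, 2), (19, 32, 32), (1, 2, 4), (3, 4, 8)] :=
  sound_leafF (K := 232) (F := ⟨⟨52879688, (-426855), 262941, (-1404895), 387831, 316467, 129285, 0, 0, 0⟩, (10, 0), (10, 0), (10, 0), (10, 0), (10, 0)⟩) c6_ok
    (by decide +kernel)

def c6_leaf141 :
    Sound c6R [(1, 2, 2), (0, 1, 2), (19, 32, 32), (1, 2, 4), (2, 3, 8)] :=
  sound_leafF (K := 232) (F := ⟨⟨24662508, (-249355), 198182, (-868512), 449678, 377191, 128336, 0, 0, 0⟩, (10, 0), (10, 0), (10, 0), (10, 0), (10, 0)⟩) c6_ok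
    (by decide +kernel)

def c6_leaf142 :
    Sound c6R [(1, 2, 2), (0, 1, 2), (19, 32, 32), (1, 2, 4), (3, 4, 8)] :=
  sound_leafF (K := 232) (F := ⟨⟨53393490, (-332774), 264561, (-1482172), 406005, 323449, 131276, 0, 0, 0⟩, (12, 36100175459668056029207), (12, 357404862539676183660295), (10, 0), (10, 0), (11, 10700748)⟩) c6_ok
    (by decide +kernel)

def c6_leaf143 :
    Sound c6R [(1, 2, 2), (1, 2, 2), (19, 32, 32), (1, 2, 4), (2, 3, 8)] :=
  sound_leafF (K := 232) (F := ⟨⟨24662508, (-237586), 198670, (-860472), 469099, 381329, 129383, 0, 0, 0⟩, (10, 0), (10, 0), (10, 0), (10, 0), (10, 0)⟩) c6_ok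
    (by decide +kernel)

end Vale.Agent.P100.Calib.LowEnd
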