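import Vale.Agent.P100.Calib.SlabLowEndC6Data

/-!
# Leaves of the cover of corner root 6
-/

set_option maxRecDepth 100000
-- the heavy checks are definitions, so that they are checked one after another
set_option linter.defProp false

namespace Vale.Agent.P100.Calib.LowEnd

open Pack Band

def c6_leaf160 :
    Sound c6R [(1, 2, 2), (0, 1, 2), (19, 32, 32), (0, 1, 8), (4, 5, 8)] :=
  sound_leafF (K := 239) (F := ⟨⟨38535168, (-612931), 172300, (-2773061), 428314, 559520, 138502, 0, 0, 0⟩, (10, 0), (10, 0), (10, 0), (10, 0), (10, 0)⟩) c6_ok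
    (by decide +kernel)

def c6_leaf161 :
    Sound c6R [(1, 2, 2), (0, 1, 2), (19, 32, 32), (1, 2, 8), (4, 5, 8)] :=
  sound_leafF (K := 239) (F := ⟨⟨55490642, (-651067), 241216, (-2300849), 394318, 413143, 139914, 0, 0, 0⟩, (12, 178555515426241468130977), (10, 0), (10, 0), (10, 0), (10, 0)⟩) c6_ok
    (by decide +kernel)

def c6_leaf162 :
    Sound c6R [(1, 2, 2), (0, 1, 2), (19, 32, 32), (0, 1, 8), (5, 6, 8)] :=
  sound_leafF (K := 239) (F := ⟨⟨45424312, (-628552), 170890, (-2737223), 388666, 504129, 134694, 0, 0, 0⟩, (10, 0), (10, 0), (10, 0), (10, 0), (10, 8364858)⟩) c6_ok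
    (by decide +kernel)

def c6_leaf163 :
    Sound c6R [(1, 2, 2), (0, 1, 2), (19, 32, 32), (1, 2, 8), (5, 6, 8)] :=
  sound_leafF (K := 239) (F := ⟨⟨64466452, (-711074), 261878, (-2313659), 357984, 372588, 138514, 0, 0, 0⟩, (10, 0), (10, 0), (10, 0), (10, 0), (15, 11441380)⟩) c6_ok
    (by decide +kernel)

def c6_leaf164 :
    Sound c6R [(1, 2, 2), (1, 2, 2), (19, 32, 32), (0, 1, 4), (4, 5, 8)] :=
  sound_leafF (K := 233) (F := ⟨⟨53393490, (-589412), 191975, (-2751672), 435051, 465807, 151718, 0, 0, 0⟩, (12, 334854197253376100493073), (12, 615099187261696997624227), (12, 1739137971403769520886685), (10, 0), (10, 0)⟩) c6_ok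
    (by decide +kernel)

def c6_leaf165 :
    Sound c6R [(1, 2, 2), (1, 2, 2), (19, 32, 32), (0, 1, 8), (5, 6, 8)] :=
  sound_leafF (K := 239) (F := ⟨⟨45424312, (-602719), 169502, (-2685810), 405326, 508119, 135447, 0, 0, 0⟩, (10, 0), (12, 476441389757228408068705), (10, 0), (10, 0), (10, 8411184)⟩) c6_ok
    (by decide +kernel)

def c6_leaf166 :
    Sound c6R [(1, 2, 2), (1, 2, 2), (19, 32, 32), (1, 2, 8), (5, 6, 8)] :=
  sound_leafF (K := 239) (F := ⟨⟨67087892, (-672100), 263337, (-1864719), 371987, 381377, 96205, 0, 0, 0⟩, (10, 0), (10, 0), (10, 0), (10, 0), (15, 9702118)⟩) c6_ok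
    (by decide +kernel)

def c6_leaf167 :
    Sound c6R [(0, 1, 2), (0, 1, 2), (19, 32, 32), (1, 2, 4), (2, 3, 4)] :=
  sound_leafF (K := 226) (F := ⟨⟨67895296, (-409369), 275463, (-1510945), 310826, 262148, 86857, 0, 0, 0⟩, (10, 0), (10, 0), (10, 0), (10, 0), (15, 17536010)⟩) c6_ok
    (by decide +kernel)

def c6_leaf168 :
    Sound c6R [(0, 1, 2), (1, 2, 2), (19, 32, 32), (1, 2, 4), (4, 5, 8)] :=
  sound_leafF (K := 232) (F := ⟨⟨68073554, (-362854), 258957, (-1189137), 339353, 279999, 87633, 0, 0, 0⟩, (10, 0), (10, 0), (10, 0), (10, 0), (15, 15309654)⟩) c6_ok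
    (by decide +kernel)

def c6_leaf169 :
    Sound c6R [(0, 1, 2), (1, 2, 2), (19, 32, 32), (1, 2, 4), (5, 6, 8)] :=
  sound_leafF (K := 232) (F := ⟨⟨78643200, (-377939), 317476, (-1708169), 313030, 252840, 89842, 0, 0, 0⟩, (10, 0), (10, 0), (10, 0), (10, 0), (15, 20811484)⟩) c6_ok
    (by decide +kernel)

def c6_leaf170 :
    Sound c6R [(1, 2, 2), (0, 1, 2), (19, 32, 32), (1, 2, 4), (4, 5, 8)] :=
  sound_leafF (K := 232) (F := ⟨⟨69122130, (-351567), 252934, (-1943886), 353343, 211971, 64980, 0, 0, 0⟩, (10, 0), (10, 0), (10, 0), (10, 0), (15, 15676131)⟩) c6_ok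
    (by decide +kernel)

def c6_leaf171 :
    Sound c6R [(1, 2, 2), (0, 1, 2), (19, 32, 32), (1, 2, 4), (5, 6, 8)] :=
  sound_leafF (K := 232) (F := ⟨⟨80740352, (-365215), 308435, (-1716723), 325689, 258349, 66443, 0, 0, 0⟩, (15, 42481645745471696607743), (10, 0), (10, 0), (10, 0), (15, 20595021)⟩) c6_ok
    (by decide +kernel)

def c6_leaf172 :
    Sound c6R [(1, 2, 2), (1, 2, 2), (38, 51, 64), (2, 3, 8), (4, 5, 8)] :=
  sound_leafF (K := 244) (F := ⟨⟨70380421, (-638946), 305664, (-1516907), 389049, 240566, 103161, 0, 0, 0⟩, (10, 0), (10, 0), (10, 0), (10, 0), (15, 9740265)⟩) c6_ok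
    (by decide +kernel)

def c6_leaf173 :
    Sound c6R [(2, 3, 4), (2, 3, 4), (51, 64, 64), (2, 3, 8), (4, 5, 8)] :=
  sound_leafF (K := 257) (F := ⟨⟨64466452, (-608829), 294691, (-1871160), 370581, 333408, 134753, 0, 0, 0⟩, (10, 0), (10, 0), (10, 0), (10, 0), (15, 5695662)⟩) c6_ok
    (by decide +kernel)

def c6_leaf174 :
    Sound c6R [(2, 3, 4), (3, 4, 4), (51, 64, 64), (2, 3, 8), (8, 9, 16)] :=
  sound_leafF (K := 262) (F := ⟨⟨58164511, (-511407), 264886, (-1717857), 384615, 345788, 130883, 0, 0, 0⟩, (10, 0), (10, 0), (10, 0), (10, 0), (10, 0)⟩) c6_ok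
    (by decide +kernel)

def c6_leaf175 :
    Sound c6R [(2, 3, 4), (3, 4, 4), (51, 64, 64), (2, 3, 8), (9, 10, 16)] :=
  sound_leafF (K := 263) (F := ⟨⟨69489132, (-611850), 299851, (-1865171), 367914, 327190, 134048, 0, 0, 0⟩, (10, 0), (10, 0), (10, 0), (10, 0), (10, 0)⟩) c6_ok
    (by decide +kernel)

end Vale.Agent.P100.Calib.LowEnd
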