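import Vale.Agent.P100.Calib.SlabLowEndC6Data

/-!
# Leaves of the cover of corner root 6
-/

set_option maxRecDepth 100000
-- the heavy checks are definitions, so that they are checked one after another
set_option linter.defProp false

namespace Vale.Agent.P100.Calib.LowEnd

open Pack Band

def c6_leaf176 :
    Sound c6R [(3, 4, 4), (2, 3, 4), (51, 64, 64), (2, 3, 8), (8, 9, 16)] :=
  sound_leafF (K := 263) (F := ⟨⟨58164511, (-504051), 261067, (-1725613), 392184, 350023, 130845, 0, 0, 0⟩, (10, 0), (10, 0), (10, 0), (10, 0), (10, 0)⟩) c6_ok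
    (by decide +kernel)

def c6_leaf177 :
    Sound c6R [(3, 4, 4), (2, 3, 4), (51, 64, 64), (2, 3, 8), (9, 10, 16)] :=
  sound_leafF (K := 263) (F := ⟨⟨69489132, (-602509), 294958, (-1873517), 375055, 331187, 133887, 0, 0, 0⟩, (10, 0), (10, 0), (10, 0), (10, 0), (10, 0)⟩) c6_ok
    (by decide +kernel)

def c6_leaf178 :
    Sound c6R [(3, 4, 4), (3, 4, 4), (51, 64, 64), (2, 3, 8), (8, 9, 16)] :=
  sound_leafF (K := 263) (F := ⟨⟨58164511, (-498992), 260940, (-1723905), 400024, 352750, 131273, 0, 0, 0⟩, (10, 0), (10, 0), (10, 0), (10, 0), (10, 0)⟩) c6_ok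
    (by decide +kernel)

def c6_leaf179 :
    Sound c6R [(3, 4, 4), (3, 4, 4), (51, 64, 64), (2, 3, 8), (9, 10, 16)] :=
  sound_leafF (K := 263) (F := ⟨⟨69489132, (-597075), 294678, (-1871803), 382531, 333779, 134251, 0, 0, 0⟩, (10, 0), (10, 0), (10, 0), (10, 0), (10, 0)⟩) c6_ok
    (by decide +kernel)

def c6_leaf180 :
    Sound c6R [(1, 2, 2), (1, 2, 2), (19, 32, 32), (3, 4, 8), (4, 5, 8)] :=
  sound_leafF (K := 238) (F := ⟨⟨73683436, (-315667), 301791, (-1567829), 364706, 146599, 67123, 0, 0, 0⟩, (11, 872532939356979437156699), (10, 0), (10, 0), (10, 0), (15, 17624808)⟩) c6_ok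
    (by decide +kernel)

def c6_leaf181 :
    Sound c6R [(1, 2, 2), (1, 2, 2), (19, 32, 32), (2, 3, 8), (5, 6, 8)] :=
  sound_leafF (K := 238) (F := ⟨⟨74574725, (-532777), 284544, (-1653593), 343977, 298783, 125772, 0, 0, 0⟩, (10, 0), (10, 0), (10, 0), (10, 0), (15, 17306333)⟩) c6_ok
    (by decide +kernel)

def c6_leaf182 :
    Sound c6R [(1, 2, 2), (1, 2, 2), (38, 51, 64), (3, 4, 8), (5, 6, 8)] :=
  sound_empty (K := 160) (q := 15) c6_ok (by decide +kernel)

def c6_leaf183 :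
    Sound c6R [(2, 3, 4), (1, 2, 2), (51, 64, 64), (3, 4, 8), (5, 6, 8)] :=
  sound_leafF (K := 250) (F := ⟨⟨88363500, (-541493), 363274, (-1421957), 321954, 98790, 49944, 0, 0, 0⟩, (15, 353715205071060952977084), (10, 0), (10, 0), (10, 0), (15, 57262095)⟩) c6_ok
    (by decide +kernel)

def c6_leaf184 :
    Sound c6R [(3, 4, 4), (2, 3, 4), (51, 64, 64), (6, 7, 16), (10, 11, 16)] :=
  sound_leafF (K := 268) (F := ⟨⟨78643200, (-504776), 323226, (-1462180), 340439, 267532, 122977, 0, 0, 0⟩, (10, 0), (10, 0), (10, 0), (10, 0), (15, 31589971)⟩) c6_ok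
    (by decide +kernel)

def c6_leaf185 :
    Sound c6R [(3, 4, 4), (2, 3, 4), (51, 64, 64), (7, 8, 16), (10, 11, 16)] :=
  sound_empty (K := 184) (q := 15) c6_ok (by decide +kernel)

def c6_leaf186 :
    Sound c6R [(3, 4, 4), (2, 3, 4), (51, 64, 64), (3, 4, 8), (11, 12, 16)] :=
  sound_empty (K := 178) (q := 15) c6_ok (by decide +kernel)

def c6_leaf187 :
    Sound c6R [(3, 4, 4), (3, 4, 4), (51, 64, 64), (6, 7, 16), (10, 11, 16)] :=
  sound_leafF (K := 268) (F := ⟨⟨78643200, (-498822), 323670, (-1455593), 347729, 269063, 123229, 0, 0, 0⟩, (10, 0), (10, 0), (10, 0), (10, 0), (15, 25288521)⟩) c6_ok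
    (by decide +kernel)

def c6_leaf188 :
    Sound c6R [(3, 4, 4), (3, 4, 4), (51, 64, 64), (7, 8, 16), (10, 11, 16)] :=
  sound_empty (K := 184) (q := 15) c6_ok (by decide +kernel)

def c6_leaf189 :
    Sound c6R [(3, 4, 4), (3, 4, 4), (51, 64, 64), (3, 4, 8), (11, 12, 16)] :=
  sound_empty (K := 178) (q := 15) c6_ok (by decide +kernel)

def c6_leaf190 :
    Sound c6R [(0, 1, 2), (0, 1, 1), (19, 32, 32), (0, 1, 4), (3, 4, 4)] :=
  sound_leafF (K := 221) (F := ⟨⟨63700992, (-582987), 203604, (-2047546), 309324, 345577, 126227, 0, 0, 0⟩, (10, 0), (10, 3701265831231907020655395), (10, 0), (10, 0), (15, 16732458)⟩) c6_ok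
    (by decide +kernel)

def c6_leaf191 :
    Sound c6R [(1, 2, 2), (0, 1, 2), (19, 32, 32), (0, 1, 4), (3, 4, 4)] :=
  sound_leafF (K := 227) (F := ⟨⟨64466452, (-738204), 174209, (-2002072), 327136, 385257, 134929, 0, 0, 0⟩, (10, 417761512426461854901443), (10, 3221769273610915374842959), (10, 5343692086916068083501045), (10, 0), (15, 16566619)⟩) c6_ok
    (by decide +kernel)

end Vale.Agent.P100.Calib.LowEnd
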