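import Vale.Agent.P100.Calib.SlabLowEndC6Data

/-!
# Leaves of the cover of corner root 6
-/

set_option maxRecDepth 100000
-- the heavy checks are definitions, so that they are checked one after another
set_option linter.defProp false

namespace Vale.Agent.P100.Calib.LowEnd

open Pack Band

def c6_leaf192 :
    Sound c6R [(1, 2, 2), (1, 2, 2), (19, 32, 32), (0, 1, 8), (6, 7, 8)] :=
  sound_leafF (K := 239) (F := ⟨⟨47846523, (-589753), 156100, (-2580338), 369581, 478163, 129515, 0, 0, 0⟩, (10, 0), (10, 0), (10, 0), (10, 0), (10, 12434617)⟩) c6_ok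
    (by decide +kernel)

def c6_leaf193 :
    Sound c6R [(1, 2, 2), (1, 2, 2), (19, 32, 32), (1, 2, 8), (6, 7, 8)] :=
  sound_leafF (K := 239) (F := ⟨⟨69489132, (-669262), 250302, (-2191509), 337173, 355743, 131957, 0, 0, 0⟩, (10, 0), (10, 0), (10, 0), (10, 0), (15, 16150560)⟩) c6_ok
    (by decide +kernel)

def c6_leaf194 :
    Sound c6R [(1, 2, 2), (1, 2, 2), (19, 32, 32), (0, 1, 4), (7, 8, 8)] :=
  sound_empty2 (K := 170) (f := (10, 1048576)) (g := (15, 744211)) c6_ok (by decide +kernel)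

def c6_leaf195 :
    Sound c6R [(0, 1, 2), (0, 1, 1), (19, 32, 32), (1, 2, 4), (3, 4, 4)] :=
  sound_empty (K := 136) (q := 15) c6_ok (by decide +kernel)

def c6_leaf196 :
    Sound c6R [(1, 2, 2), (0, 1, 2), (19, 32, 32), (2, 3, 8), (6, 7, 8)] :=
  sound_leafF (K := 238) (F := ⟨⟨92778004, (-783819), 348651, (-1063838), 306709, 199587, 71613, 0, 0, 0⟩, (10, 0), (10, 0), (10, 0), (10, 0), (13, 18870815)⟩) c6_ok
    (by decide +kernel)

def c6_leaf197 :
    Sound c6R [(1, 2, 2), (0, 1, 2), (19, 32, 32), (3, 4, 8), (6, 7, 8)] :=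
  sound_empty (K := 155) (q := 13) c6_ok (by decide +kernel)

def c6_leaf198 :
    Sound c6R [(1, 2, 2), (0, 1, 2), (19, 32, 32), (1, 2, 4), (7, 8, 8)] :=
  sound_empty (K := 149) (q := 13) c6_ok (by decide +kernel)

def c6_leaf199 :
    Sound c6R [(1, 2, 2), (1, 2, 2), (38, 51, 64), (2, 3, 8), (6, 7, 8)] :=
  sound_empty (K := 160) (q := 15) c6_ok (by decide +kernel)

def c6_leaf200 :
    Sound c6R [(1, 2, 2), (1, 2, 2), (51, 64, 64), (2, 3, 8), (6, 7, 8)] :=
  sound_leafF (K := 244) (F := ⟨⟨90680852, (-736578), 360378, (-1105667), 316760, 207393, 54072, 0, 0, 0⟩, (10, 0), (10, 0), (10, 0), (10, 0), (15, 61028134)⟩) c6_ok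
    (by decide +kernel)

def c6_leaf201 :
    Sound c6R [(1, 2, 2), (1, 2, 2), (19, 32, 32), (3, 4, 8), (6, 7, 8)] :=
  sound_empty (K := 154) (q := 15) c6_ok (by decide +kernel)

def c6_leaf202 :
    Sound c6R [(1, 2, 2), (1, 2, 2), (19, 32, 32), (1, 2, 4), (7, 8, 8)] :=
  sound_empty (K := 148) (q := 15) c6_ok (by decide +kernel)

def c6_leaf203 :
    Sound c6R [(0, 1, 1), (0, 1, 1), (19, 32, 32), (1, 2, 2), (1, 2, 2)] :=
  sound_empty2 (K := 139) (f := (11, 1048576)) (g := (15, 1119549)) c6_ok (by decide +kernel)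

end Vale.Agent.P100.Calib.LowEnd
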