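import Vale.Agent.P100.Calib.SlabLowEndC6CoverA
import Vale.Agent.P100.Calib.SlabLowEndC6CoverB
import Vale.Agent.P100.Calib.SlabLowEndC6CoverC
import Vale.Agent.P100.Calib.SlabLowEndC6CoverD
import Vale.Agent.P100.Calib.SlabLowEndC6CoverE
import Vale.Agent.P100.Calib.SlabLowEndC6CoverF
import Vale.Agent.P100.Calib.SlabLowEndC6CoverG
import Vale.Agent.P100.Calib.SlabLowEndC6CoverH
import Vale.Agent.P100.Calib.SlabLowEndC6CoverI
import Vale.Agent.P100.Calib.SlabLowEndC6CoverJ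
import Vale.Agent.P100.Calib.SlabLowEndC6CoverK
import Vale.Agent.P100.Calib.SlabLowEndC6CoverL
import Vale.Agent.P100.Calib.SlabLowEndC6CoverM

/-!
# The cover of corner root 6
-/

set_option maxRecDepth 100000
-- the heavy checks are definitions, so that they are checked one after another
set_option linter.defProp false

namespace Vale.Agent.P100.Calib.LowEnd

open Pack Band

theorem c6_node0 :
    Sound c6Rlo [(0, 1, 2), (0, 1, 2), (0, 19, 32), (1, 2, 4), (1, 2, 4)] :=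
  sound_node (j := 4) (by decide) c6_leaf2 c6_leaf3

theorem c6_node1 :
    Sound c6Rlo [(0, 1, 2), (1, 2, 2), (0, 19, 32), (1, 2, 4), (1, 2, 4)] :=
  sound_node (j := 4) (by decide) c6_leaf4 c6_leaf5

theorem c6_node2 :
    Sound c6Rlo [(0, 1, 2), (0, 1, 1), (0, 19, 32), (1, 2, 4), (1, 2, 4)] :=
  sound_node (j := 1) (by decide) c6_node0 c6_node1

theorem c6_node3 :
    Sound c6Rlo [(1, 2, 2), (0, 1, 2), (0, 19, 32), (1, 2, 4), (1, 2, 4)] :=
  sound_node (j := 4) (by decide) c6_leaf6 c6_leaf7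

theorem c6_node4 :
    Sound c6Rlo [(1, 2, 2), (1, 2, 2), (19, 38, 64), (1, 2, 4), (3, 4, 8)] :=
  sound_node (j := 3) (by decide) c6_leaf10 c6_leaf11

theorem c6_node5 :
    Sound c6Rlo [(1, 2, 2), (1, 2, 2), (0, 19, 32), (1, 2, 4), (3, 4, 8)] :=
  sound_node (j := 2) (by decide) c6_leaf9 c6_node4

theorem c6_node6 :
    Sound c6Rlo [(1, 2, 2), (1, 2, 2), (0, 19, 32), (1, 2, 4), (1, 2, 4)] :=
  sound_node (j := 4) (by decide) c6_leaf8 c6_node5

theorem c6_node7 :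
    Sound c6Rlo [(1, 2, 2), (0, 1, 1), (0, 19, 32), (1, 2, 4), (1, 2, 4)] :=
  sound_node (j := 1) (by decide) c6_node3 c6_node6

theorem c6_node8 :
    Sound c6Rlo [(0, 1, 1), (0, 1, 1), (0, 19, 32), (1, 2, 4), (1, 2, 4)] :=
  sound_node (j := 0) (by decide) c6_node2 c6_node7

theorem c6_node9 :
    Sound c6Rlo [(0, 1, 1), (0, 1, 1), (0, 19, 32), (0, 1, 2), (1, 2, 4)] :=
  sound_node (j := 3) (by decide) c6_leaf1 c6_node8

theorem c6_node10 :
    Sound c6Rlo [(0, 1, 1), (0, 1, 1), (0, 19, 32), (0, 1, 2), (0, 1, 2)] :=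
  sound_node (j := 4) (by decide) c6_leaf0 c6_node9

theorem c6_node11 :
    Sound c6Rlo [(0, 1, 2), (1, 2, 2), (0, 19, 32), (0, 1, 4), (2, 3, 4)] :=
  sound_node (j := 4) (by decide) c6_leaf42 c6_leaf43

theorem c6_node12 :
    Sound c6Rlo [(0, 1, 2), (0, 1, 1), (0, 19, 32), (0, 1, 4), (2, 3, 4)] :=
  sound_node (j := 1) (by decide) c6_leaf41 c6_node11

theorem c6_node13 :
    Sound c6Rlo [(1, 2, 2), (0, 1, 2), (0, 19, 32), (0, 1, 4), (2, 3, 4)] :=
  sound_node (j := 4) (by decide) c6_leaf44 c6_leaf45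

theorem c6_node14 :
    Sound c6Rlo [(1, 2, 2), (1, 2, 2), (0, 19, 64), (0, 1, 4), (2, 3, 4)] :=
  sound_node (j := 4) (by decide) c6_leaf46 c6_leaf49

theorem c6_node15 :
    Sound c6Rlo [(1, 2, 2), (1, 2, 2), (19, 38, 64), (0, 1, 8), (2, 3, 4)] :=
  sound_node (j := 4) (by decide) c6_leaf47 c6_leaf50

theorem c6_node16 :
    Sound c6Rlo [(1, 2, 2), (1, 2, 2), (19, 38, 64), (1, 2, 8), (2, 3, 4)] :=
  sound_node (j := 4) (by decide) c6_leaf48 c6_leaf51

theorem c6_node17 :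
    Sound c6Rlo [(1, 2, 2), (1, 2, 2), (19, 38, 64), (0, 1, 4), (2, 3, 4)] :=
  sound_node (j := 3) (by decide) c6_node15 c6_node16

theorem c6_node18 :
    Sound c6Rlo [(1, 2, 2), (1, 2, 2), (0, 19, 32), (0, 1, 4), (2, 3, 4)] :=
  sound_node (j := 2) (by decide) c6_node14 c6_node17

theorem c6_node19 :
    Sound c6Rlo [(1, 2, 2), (0, 1, 1), (0, 19, 32), (0, 1, 4), (2, 3, 4)] :=
  sound_node (j := 1) (by decide) c6_node13 c6_node18

theorem c6_node20 :
    Sound c6Rlo [(0, 1, 1), (0, 1, 1), (0, 19, 32), (0, 1, 4), (2, 3, 4)] :=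
  sound_node (j := 0) (by decide) c6_node12 c6_node19

theorem c6_node21 :
    Sound c6Rlo [(0, 1, 1), (0, 1, 1), (0, 19, 32), (0, 1, 4), (1, 2, 2)] :=
  sound_node (j := 4) (by decide) c6_node20 c6_leaf86

theorem c6_node22 :
    Sound c6Rlo [(0, 1, 2), (1, 2, 2), (0, 19, 32), (1, 2, 4), (2, 3, 4)] :=
  sound_node (j := 4) (by decide) c6_leaf53 c6_leaf54

theorem c6_node23 :
    Sound c6Rlo [(0, 1, 2), (0, 1, 1), (0, 19, 32), (1, 2, 4), (2, 3, 4)] :=
  sound_node (j := 1) (by decide) c6_leaf52 c6_node22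

theorem c6_node24 :
    Sound c6Rlo [(0, 1, 2), (0, 1, 1), (0, 19, 32), (1, 2, 4), (1, 2, 2)] :=
  sound_node (j := 4) (by decide) c6_node23 c6_leaf87

theorem c6_node25 :
    Sound c6Rlo [(1, 2, 2), (0, 1, 2), (0, 19, 64), (1, 2, 4), (2, 3, 4)] :=
  sound_node (j := 4) (by decide) c6_leaf55 c6_leaf57

theorem c6_node26 :
    Sound c6Rlo [(1, 2, 2), (0, 1, 2), (19, 38, 64), (1, 2, 4), (2, 3, 4)] :=
  sound_node (j := 4) (by decide) c6_leaf56 c6_leaf58

theorem c6_node27 :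
    Sound c6Rlo [(1, 2, 2), (0, 1, 2), (0, 19, 32), (1, 2, 4), (2, 3, 4)] :=
  sound_node (j := 2) (by decide) c6_node25 c6_node26

theorem c6_node28 :
    Sound c6Rlo [(1, 2, 2), (0, 1, 2), (0, 19, 32), (1, 2, 4), (1, 2, 2)] :=
  sound_node (j := 4) (by decide) c6_node27 c6_leaf88

theorem c6_node29 :
    Sound c6Rlo [(1, 2, 2), (1, 2, 2), (0, 19, 64), (1, 2, 4), (2, 3, 4)] :=
  sound_node (j := 4) (by decide) c6_leaf59 c6_leaf70

theorem c6_node30 :
    Sound c6Rlo [(3, 4, 4), (3, 4, 4), (19, 38, 64), (2, 3, 8), (4, 5, 8)] :=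
  sound_node (j := 4) (by decide) c6_leaf62 c6_leaf63

theorem c6_node31 :
    Sound c6Rlo [(3, 4, 4), (1, 2, 2), (19, 38, 64), (2, 3, 8), (4, 5, 8)] :=
  sound_node (j := 1) (by decide) c6_leaf61 c6_node30

theorem c6_node32 :
    Sound c6Rlo [(1, 2, 2), (1, 2, 2), (19, 38, 64), (2, 3, 8), (4, 5, 8)] :=
  sound_node (j := 0) (by decide) c6_leaf60 c6_node31

theorem c6_node33 :
    Sound c6Rlo [(1, 2, 2), (1, 2, 2), (19, 38, 64), (2, 3, 8), (2, 3, 4)] :=
  sound_node (j := 4) (by decide) c6_node32 c6_leaf71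

theorem c6_node34 :
    Sound c6Rlo [(2, 3, 4), (2, 3, 4), (19, 38, 64), (3, 4, 8), (5, 6, 8)] :=
  sound_node (j := 4) (by decide) c6_leaf72 c6_leaf73

theorem c6_node35 :
    Sound c6Rlo [(2, 3, 4), (3, 4, 4), (57, 76, 128), (3, 4, 8), (10, 11, 16)] :=
  sound_node (j := 3) (by decide) c6_leaf75 c6_leaf76

theorem c6_node36 :
    Sound c6Rlo [(2, 3, 4), (3, 4, 4), (19, 38, 64), (3, 4, 8), (10, 11, 16)] :=
  sound_node (j := 2) (by decide) c6_leaf74 c6_node35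

theorem c6_node37 :
    Sound c6Rlo [(2, 3, 4), (3, 4, 4), (19, 38, 64), (3, 4, 8), (5, 6, 8)] :=
  sound_node (j := 4) (by decide) c6_node36 c6_leaf77

theorem c6_node38 :
    Sound c6Rlo [(2, 3, 4), (1, 2, 2), (19, 38, 64), (3, 4, 8), (5, 6, 8)] :=
  sound_node (j := 1) (by decide) c6_node34 c6_node37

theorem c6_node39 :
    Sound c6Rlo [(2, 3, 4), (1, 2, 2), (19, 38, 64), (3, 4, 8), (2, 3, 4)] :=
  sound_node (j := 4) (by decide) c6_leaf64 c6_node38

theorem c6_node40 :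
    Sound c6Rlo [(3, 4, 4), (2, 3, 4), (57, 76, 128), (3, 4, 8), (10, 11, 16)] :=
  sound_node (j := 3) (by decide) c6_leaf79 c6_leaf80

theorem c6_node41 :
    Sound c6Rlo [(3, 4, 4), (2, 3, 4), (19, 38, 64), (3, 4, 8), (10, 11, 16)] :=
  sound_node (j := 2) (by decide) c6_leaf78 c6_node40

theorem c6_node42 :
    Sound c6Rlo [(3, 4, 4), (2, 3, 4), (19, 38, 64), (3, 4, 8), (5, 6, 8)] :=
  sound_node (j := 4) (by decide) c6_node41 c6_leaf81

theorem c6_node43 :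
    Sound c6Rlo [(3, 4, 4), (2, 3, 4), (19, 38, 64), (3, 4, 8), (2, 3, 4)] :=
  sound_node (j := 4) (by decide) c6_leaf65 c6_node42

theorem c6_node44 :
    Sound c6Rlo [(3, 4, 4), (3, 4, 4), (57, 76, 128), (3, 4, 8), (8, 9, 16)] :=
  sound_node (j := 3) (by decide) c6_leaf67 c6_leaf68

theorem c6_node45 :
    Sound c6Rlo [(3, 4, 4), (3, 4, 4), (19, 38, 64), (3, 4, 8), (8, 9, 16)] :=
  sound_node (j := 2) (by decide) c6_leaf66 c6_node44

theorem c6_node46 :
    Sound c6Rlo [(3, 4, 4), (3, 4, 4), (19, 38, 64), (3, 4, 8), (4, 5, 8)] :=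
  sound_node (j := 4) (by decide) c6_node45 c6_leaf69

theorem c6_node47 :
    Sound c6Rlo [(3, 4, 4), (3, 4, 4), (57, 76, 128), (3, 4, 8), (10, 11, 16)] :=
  sound_node (j := 3) (by decide) c6_leaf83 c6_leaf84

theorem c6_node48 :
    Sound c6Rlo [(3, 4, 4), (3, 4, 4), (19, 38, 64), (3, 4, 8), (10, 11, 16)] :=
  sound_node (j := 2) (by decide) c6_leaf82 c6_node47

theorem c6_node49 :
    Sound c6Rlo [(3, 4, 4), (3, 4, 4), (19, 38, 64), (3, 4, 8), (5, 6, 8)] :=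
  sound_node (j := 4) (by decide) c6_node48 c6_leaf85

theorem c6_node50 :
    Sound c6Rlo [(3, 4, 4), (3, 4, 4), (19, 38, 64), (3, 4, 8), (2, 3, 4)] :=
  sound_node (j := 4) (by decide) c6_node46 c6_node49

theorem c6_node51 :
    Sound c6Rlo [(3, 4, 4), (1, 2, 2), (19, 38, 64), (3, 4, 8), (2, 3, 4)] :=
  sound_node (j := 1) (by decide) c6_node43 c6_node50

theorem c6_node52 :
    Sound c6Rlo [(1, 2, 2), (1, 2, 2), (19, 38, 64), (3, 4, 8), (2, 3, 4)] :=
  sound_node (j := 0) (by decide) c6_node39 c6_node51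

theorem c6_node53 :
    Sound c6Rlo [(1, 2, 2), (1, 2, 2), (19, 38, 64), (1, 2, 4), (2, 3, 4)] :=
  sound_node (j := 3) (by decide) c6_node33 c6_node52

theorem c6_node54 :
    Sound c6Rlo [(1, 2, 2), (1, 2, 2), (0, 19, 32), (1, 2, 4), (2, 3, 4)] :=
  sound_node (j := 2) (by decide) c6_node29 c6_node53

theorem c6_node55 :
    Sound c6Rlo [(1, 2, 2), (1, 2, 2), (19, 38, 64), (1, 2, 4), (6, 7, 8)] :=
  sound_node (j := 3) (by decide) c6_leaf90 c6_leaf91

theorem c6_node56 :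
    Sound c6Rlo [(1, 2, 2), (1, 2, 2), (0, 19, 32), (1, 2, 4), (6, 7, 8)] :=
  sound_node (j := 2) (by decide) c6_leaf89 c6_node55

theorem c6_node57 :
    Sound c6Rlo [(1, 2, 2), (1, 2, 2), (0, 19, 32), (1, 2, 4), (3, 4, 4)] :=
  sound_node (j := 4) (by decide) c6_node56 c6_leaf92

theorem c6_node58 :
    Sound c6Rlo [(1, 2, 2), (1, 2, 2), (0, 19, 32), (1, 2, 4), (1, 2, 2)] :=
  sound_node (j := 4) (by decide) c6_node54 c6_node57

theorem c6_node59 :
    Sound c6Rlo [(1, 2, 2), (0, 1, 1), (0, 19, 32), (1, 2, 4), (1, 2, 2)] :=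
  sound_node (j := 1) (by decide) c6_node28 c6_node58

theorem c6_node60 :
    Sound c6Rlo [(0, 1, 1), (0, 1, 1), (0, 19, 32), (1, 2, 4), (1, 2, 2)] :=
  sound_node (j := 0) (by decide) c6_node24 c6_node59

theorem c6_node61 :
    Sound c6Rlo [(0, 1, 1), (0, 1, 1), (0, 19, 32), (0, 1, 2), (1, 2, 2)] :=
  sound_node (j := 3) (by decide) c6_node21 c6_node60

theorem c6_node62 :
    Sound c6Rlo [(0, 1, 1), (0, 1, 1), (0, 19, 32), (0, 1, 2), (0, 1, 1)] :=
  sound_node (j := 4) (by decide) c6_node10 c6_node61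

theorem c6_node63 :
    Sound c6Rlo [(0, 1, 2), (0, 1, 2), (19, 38, 64), (2, 3, 4), (3, 4, 8)] :=
  sound_node (j := 3) (by decide) c6_leaf16 c6_leaf17

theorem c6_node64 :
    Sound c6Rlo [(0, 1, 2), (0, 1, 2), (0, 19, 32), (2, 3, 4), (3, 4, 8)] :=
  sound_node (j := 2) (by decide) c6_leaf15 c6_node63

theorem c6_node65 :
    Sound c6Rlo [(0, 1, 2), (0, 1, 2), (0, 19, 32), (2, 3, 4), (1, 2, 4)] :=
  sound_node (j := 4) (by decide) c6_leaf14 c6_node64

theorem c6_node66 :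
    Sound c6Rlo [(0, 1, 2), (1, 2, 2), (0, 19, 64), (2, 3, 4), (3, 4, 8)] :=
  sound_node (j := 3) (by decide) c6_leaf19 c6_leaf20

theorem c6_node67 :
    Sound c6Rlo [(0, 1, 2), (1, 2, 2), (19, 38, 64), (2, 3, 4), (3, 4, 8)] :=
  sound_node (j := 3) (by decide) c6_leaf21 c6_leaf22

theorem c6_node68 :
    Sound c6Rlo [(0, 1, 2), (1, 2, 2), (0, 19, 32), (2, 3, 4), (3, 4, 8)] :=
  sound_node (j := 2) (by decide) c6_node66 c6_node67

theorem c6_node69 :
    Sound c6Rlo [(0, 1, 2), (1, 2, 2), (0, 19, 32), (2, 3, 4), (1, 2, 4)] :=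
  sound_node (j := 4) (by decide) c6_leaf18 c6_node68

theorem c6_node70 :
    Sound c6Rlo [(0, 1, 2), (0, 1, 1), (0, 19, 32), (2, 3, 4), (1, 2, 4)] :=
  sound_node (j := 1) (by decide) c6_node65 c6_node69

theorem c6_node71 :
    Sound c6Rlo [(1, 2, 2), (0, 1, 2), (19, 38, 64), (2, 3, 4), (3, 4, 8)] :=
  sound_node (j := 3) (by decide) c6_leaf25 c6_leaf26

theorem c6_node72 :
    Sound c6Rlo [(1, 2, 2), (0, 1, 2), (0, 19, 32), (2, 3, 4), (3, 4, 8)] :=
  sound_node (j := 2) (by decide) c6_leaf24 c6_node71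

theorem c6_node73 :
    Sound c6Rlo [(1, 2, 2), (0, 1, 2), (0, 19, 32), (2, 3, 4), (1, 2, 4)] :=
  sound_node (j := 4) (by decide) c6_leaf23 c6_node72

theorem c6_node74 :
    Sound c6Rlo [(1, 2, 2), (1, 2, 2), (0, 19, 64), (2, 3, 4), (3, 4, 8)] :=
  sound_node (j := 3) (by decide) c6_leaf29 c6_leaf30

theorem c6_node75 :
    Sound c6Rlo [(1, 2, 2), (1, 2, 2), (0, 19, 64), (2, 3, 4), (1, 2, 4)] :=
  sound_node (j := 4) (by decide) c6_leaf27 c6_node74

theorem c6_node76 :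
    Sound c6Rlo [(3, 4, 4), (2, 3, 4), (19, 38, 64), (4, 5, 8), (7, 8, 16)] :=
  sound_node (j := 2) (by decide) c6_leaf33 c6_leaf34

theorem c6_node77 :
    Sound c6Rlo [(3, 4, 4), (2, 3, 4), (19, 38, 64), (4, 5, 8), (3, 4, 8)] :=
  sound_node (j := 4) (by decide) c6_leaf32 c6_node76

theorem c6_node78 :
    Sound c6Rlo [(3, 4, 4), (3, 4, 4), (38, 57, 128), (4, 5, 8), (7, 8, 16)] :=
  sound_node (j := 3) (by decide) c6_leaf36 c6_leaf37

theorem c6_node79 :
    Sound c6Rlo [(3, 4, 4), (3, 4, 4), (19, 38, 64), (4, 5, 8), (7, 8, 16)] :=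
  sound_node (j := 2) (by decide) c6_node78 c6_leaf38

theorem c6_node80 :
    Sound c6Rlo [(3, 4, 4), (3, 4, 4), (19, 38, 64), (4, 5, 8), (3, 4, 8)] :=
  sound_node (j := 4) (by decide) c6_leaf35 c6_node79

theorem c6_node81 :
    Sound c6Rlo [(3, 4, 4), (1, 2, 2), (19, 38, 64), (4, 5, 8), (3, 4, 8)] :=
  sound_node (j := 1) (by decide) c6_node77 c6_node80

theorem c6_node82 :
    Sound c6Rlo [(1, 2, 2), (1, 2, 2), (19, 38, 64), (4, 5, 8), (3, 4, 8)] :=
  sound_node (j := 0) (by decide) c6_leaf31 c6_node81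

theorem c6_node83 :
    Sound c6Rlo [(1, 2, 2), (1, 2, 2), (19, 38, 64), (2, 3, 4), (3, 4, 8)] :=
  sound_node (j := 3) (by decide) c6_node82 c6_leaf39

theorem c6_node84 :
    Sound c6Rlo [(1, 2, 2), (1, 2, 2), (19, 38, 64), (2, 3, 4), (1, 2, 4)] :=
  sound_node (j := 4) (by decide) c6_leaf28 c6_node83

theorem c6_node85 :
    Sound c6Rlo [(1, 2, 2), (1, 2, 2), (0, 19, 32), (2, 3, 4), (1, 2, 4)] :=
  sound_node (j := 2) (by decide) c6_node75 c6_node84

theorem c6_node86 :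
    Sound c6Rlo [(1, 2, 2), (0, 1, 1), (0, 19, 32), (2, 3, 4), (1, 2, 4)] :=
  sound_node (j := 1) (by decide) c6_node73 c6_node85

theorem c6_node87 :
    Sound c6Rlo [(0, 1, 1), (0, 1, 1), (0, 19, 32), (2, 3, 4), (1, 2, 4)] :=
  sound_node (j := 0) (by decide) c6_node70 c6_node86

theorem c6_node88 :
    Sound c6Rlo [(0, 1, 1), (0, 1, 1), (0, 19, 32), (2, 3, 4), (0, 1, 2)] :=
  sound_node (j := 4) (by decide) c6_leaf12 c6_node87

theorem c6_node89 :
    Sound c6Rlo [(0, 1, 1), (0, 1, 1), (0, 19, 32), (3, 4, 4), (0, 1, 2)] :=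
  sound_node (j := 4) (by decide) c6_leaf13 c6_leaf40

theorem c6_node90 :
    Sound c6Rlo [(0, 1, 1), (0, 1, 1), (0, 19, 32), (1, 2, 2), (0, 1, 2)] :=
  sound_node (j := 3) (by decide) c6_node88 c6_node89

theorem c6_node91 :
    Sound c6Rlo [(0, 1, 2), (0, 1, 2), (19, 38, 64), (2, 3, 4), (4, 5, 8)] :=
  sound_node (j := 3) (by decide) c6_leaf94 c6_leaf95

theorem c6_node92 :
    Sound c6Rlo [(0, 1, 2), (0, 1, 2), (0, 19, 32), (2, 3, 4), (4, 5, 8)] :=
  sound_node (j := 2) (by decide) c6_leaf93 c6_node91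

theorem c6_node93 :
    Sound c6Rlo [(0, 1, 2), (0, 1, 2), (0, 19, 32), (2, 3, 4), (2, 3, 4)] :=
  sound_node (j := 4) (by decide) c6_node92 c6_leaf96

theorem c6_node94 :
    Sound c6Rlo [(1, 2, 4), (2, 3, 4), (19, 38, 64), (4, 5, 8), (4, 5, 8)] :=
  sound_node (j := 4) (by decide) c6_leaf99 c6_leaf100

theorem c6_node95 :
    Sound c6Rlo [(1, 2, 4), (3, 4, 4), (19, 38, 64), (4, 5, 8), (4, 5, 8)] :=
  sound_node (j := 4) (by decide) c6_leaf101 c6_leaf102

theorem c6_node96 :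
    Sound c6Rlo [(1, 2, 4), (1, 2, 2), (19, 38, 64), (4, 5, 8), (4, 5, 8)] :=
  sound_node (j := 1) (by decide) c6_node94 c6_node95

theorem c6_node97 :
    Sound c6Rlo [(0, 1, 2), (1, 2, 2), (19, 38, 64), (4, 5, 8), (4, 5, 8)] :=
  sound_node (j := 0) (by decide) c6_leaf98 c6_node96

theorem c6_node98 :
    Sound c6Rlo [(0, 1, 2), (1, 2, 2), (19, 38, 64), (2, 3, 4), (4, 5, 8)] :=
  sound_node (j := 3) (by decide) c6_node97 c6_leaf103

theorem c6_node99 :
    Sound c6Rlo [(0, 1, 2), (1, 2, 2), (0, 19, 32), (2, 3, 4), (4, 5, 8)] :=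
  sound_node (j := 2) (by decide) c6_leaf97 c6_node98

theorem c6_node100 :
    Sound c6Rlo [(0, 1, 2), (1, 2, 2), (0, 19, 32), (2, 3, 4), (2, 3, 4)] :=
  sound_node (j := 4) (by decide) c6_node99 c6_leaf104

theorem c6_node101 :
    Sound c6Rlo [(0, 1, 2), (0, 1, 1), (0, 19, 32), (2, 3, 4), (2, 3, 4)] :=
  sound_node (j := 1) (by decide) c6_node93 c6_node100

theorem c6_node102 :
    Sound c6Rlo [(2, 3, 4), (1, 2, 4), (19, 38, 64), (4, 5, 8), (4, 5, 8)] :=
  sound_node (j := 4) (by decide) c6_leaf107 c6_leaf108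

theorem c6_node103 :
    Sound c6Rlo [(2, 3, 4), (0, 1, 2), (19, 38, 64), (4, 5, 8), (4, 5, 8)] :=
  sound_node (j := 1) (by decide) c6_leaf106 c6_node102

theorem c6_node104 :
    Sound c6Rlo [(3, 4, 4), (0, 1, 4), (19, 38, 64), (4, 5, 8), (4, 5, 8)] :=
  sound_node (j := 4) (by decide) c6_leaf109 c6_leaf110

theorem c6_node105 :
    Sound c6Rlo [(3, 4, 4), (1, 2, 4), (57, 76, 128), (4, 5, 8), (8, 9, 16)] :=
  sound_node (j := 3) (by decide) c6_leaf112 c6_leaf113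

theorem c6_node106 :
    Sound c6Rlo [(3, 4, 4), (1, 2, 4), (19, 38, 64), (4, 5, 8), (8, 9, 16)] :=
  sound_node (j := 2) (by decide) c6_leaf111 c6_node105

theorem c6_node107 :
    Sound c6Rlo [(3, 4, 4), (1, 2, 4), (19, 38, 64), (4, 5, 8), (4, 5, 8)] :=
  sound_node (j := 4) (by decide) c6_node106 c6_leaf114

theorem c6_node108 :
    Sound c6Rlo [(3, 4, 4), (0, 1, 2), (19, 38, 64), (4, 5, 8), (4, 5, 8)] :=
  sound_node (j := 1) (by decide) c6_node104 c6_node107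

theorem c6_node109 :
    Sound c6Rlo [(1, 2, 2), (0, 1, 2), (19, 38, 64), (4, 5, 8), (4, 5, 8)] :=
  sound_node (j := 0) (by decide) c6_node103 c6_node108

theorem c6_node110 :
    Sound c6Rlo [(1, 2, 2), (0, 1, 2), (19, 38, 64), (2, 3, 4), (4, 5, 8)] :=
  sound_node (j := 3) (by decide) c6_node109 c6_leaf115

theorem c6_node111 :
    Sound c6Rlo [(1, 2, 2), (0, 1, 2), (0, 19, 32), (2, 3, 4), (4, 5, 8)] :=
  sound_node (j := 2) (by decide) c6_leaf105 c6_node110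

theorem c6_node112 :
    Sound c6Rlo [(1, 2, 2), (0, 1, 2), (0, 19, 32), (2, 3, 4), (2, 3, 4)] :=
  sound_node (j := 4) (by decide) c6_node111 c6_leaf116

theorem c6_node113 :
    Sound c6Rlo [(2, 3, 4), (2, 3, 4), (57, 76, 128), (4, 5, 8), (8, 9, 16)] :=
  sound_node (j := 3) (by decide) c6_leaf119 c6_leaf120

theorem c6_node114 :
    Sound c6Rlo [(2, 3, 4), (2, 3, 4), (19, 38, 64), (4, 5, 8), (8, 9, 16)] :=
  sound_node (j := 2) (by decide) c6_leaf118 c6_node113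

theorem c6_node115 :
    Sound c6Rlo [(2, 3, 4), (2, 3, 4), (19, 38, 64), (4, 5, 8), (4, 5, 8)] :=
  sound_node (j := 4) (by decide) c6_node114 c6_leaf121

theorem c6_node116 :
    Sound c6Rlo [(2, 3, 4), (3, 4, 4), (57, 76, 128), (4, 5, 8), (8, 9, 16)] :=
  sound_node (j := 3) (by decide) c6_leaf123 c6_leaf124

theorem c6_node117 :
    Sound c6Rlo [(2, 3, 4), (3, 4, 4), (19, 38, 64), (4, 5, 8), (8, 9, 16)] :=
  sound_node (j := 2) (by decide) c6_leaf122 c6_node116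

theorem c6_node118 :
    Sound c6Rlo [(2, 3, 4), (3, 4, 4), (19, 38, 64), (4, 5, 8), (4, 5, 8)] :=
  sound_node (j := 4) (by decide) c6_node117 c6_leaf125

theorem c6_node119 :
    Sound c6Rlo [(2, 3, 4), (1, 2, 2), (19, 38, 64), (4, 5, 8), (4, 5, 8)] :=
  sound_node (j := 1) (by decide) c6_node115 c6_node118

theorem c6_node120 :
    Sound c6Rlo [(3, 4, 4), (2, 3, 4), (57, 76, 128), (4, 5, 8), (8, 9, 16)] :=
  sound_node (j := 3) (by decide) c6_leaf127 c6_leaf128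

theorem c6_node121 :
    Sound c6Rlo [(3, 4, 4), (2, 3, 4), (19, 38, 64), (4, 5, 8), (8, 9, 16)] :=
  sound_node (j := 2) (by decide) c6_leaf126 c6_node120

theorem c6_node122 :
    Sound c6Rlo [(3, 4, 4), (2, 3, 4), (19, 38, 64), (4, 5, 8), (4, 5, 8)] :=
  sound_node (j := 4) (by decide) c6_node121 c6_leaf129

theorem c6_node123 :
    Sound c6Rlo [(3, 4, 4), (1, 2, 2), (19, 38, 64), (4, 5, 8), (4, 5, 8)] :=
  sound_node (j := 1) (by decide) c6_node122 c6_leaf130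

theorem c6_node124 :
    Sound c6Rlo [(1, 2, 2), (1, 2, 2), (19, 38, 64), (4, 5, 8), (4, 5, 8)] :=
  sound_node (j := 0) (by decide) c6_node119 c6_node123

theorem c6_node125 :
    Sound c6Rlo [(1, 2, 2), (1, 2, 2), (19, 38, 64), (2, 3, 4), (4, 5, 8)] :=
  sound_node (j := 3) (by decide) c6_node124 c6_leaf131

theorem c6_node126 :
    Sound c6Rlo [(1, 2, 2), (1, 2, 2), (0, 19, 32), (2, 3, 4), (4, 5, 8)] :=
  sound_node (j := 2) (by decide) c6_leaf117 c6_node125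

theorem c6_node127 :
    Sound c6Rlo [(1, 2, 2), (1, 2, 2), (0, 19, 32), (2, 3, 4), (2, 3, 4)] :=
  sound_node (j := 4) (by decide) c6_node126 c6_leaf132

theorem c6_node128 :
    Sound c6Rlo [(1, 2, 2), (0, 1, 1), (0, 19, 32), (2, 3, 4), (2, 3, 4)] :=
  sound_node (j := 1) (by decide) c6_node112 c6_node127

theorem c6_node129 :
    Sound c6Rlo [(0, 1, 1), (0, 1, 1), (0, 19, 32), (2, 3, 4), (2, 3, 4)] :=
  sound_node (j := 0) (by decide) c6_node101 c6_node128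

theorem c6_node130 :
    Sound c6Rlo [(0, 1, 1), (0, 1, 1), (0, 19, 32), (1, 2, 2), (2, 3, 4)] :=
  sound_node (j := 3) (by decide) c6_node129 c6_leaf133

theorem c6_node131 :
    Sound c6Rlo [(0, 1, 1), (0, 1, 1), (0, 19, 32), (1, 2, 2), (1, 2, 2)] :=
  sound_node (j := 4) (by decide) c6_node130 c6_leaf134

theorem c6_node132 :
    Sound c6Rlo [(0, 1, 1), (0, 1, 1), (0, 19, 32), (1, 2, 2), (0, 1, 1)] :=
  sound_node (j := 4) (by decide) c6_node90 c6_node131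

theorem c6_node133 :
    Sound c6Rlo [(0, 1, 1), (0, 1, 1), (0, 19, 32), (0, 1, 1), (0, 1, 1)] :=
  sound_node (j := 3) (by decide) c6_node62 c6_node132

theorem c6_node134 :
    Sound c6R [(0, 1, 2), (0, 1, 2), (19, 32, 32), (1, 2, 4), (1, 2, 4)] :=
  sound_node (j := 4) (by decide) c6_leaf137 c6_leaf138

theorem c6_node135 :
    Sound c6R [(0, 1, 2), (1, 2, 2), (19, 32, 32), (1, 2, 4), (1, 2, 4)] :=
  sound_node (j := 4) (by decide) c6_leaf139 c6_leaf140

theorem c6_node136 :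
    Sound c6R [(0, 1, 2), (0, 1, 1), (19, 32, 32), (1, 2, 4), (1, 2, 4)] :=
  sound_node (j := 1) (by decide) c6_node134 c6_node135

theorem c6_node137 :
    Sound c6R [(1, 2, 2), (0, 1, 2), (19, 32, 32), (1, 2, 4), (1, 2, 4)] :=
  sound_node (j := 4) (by decide) c6_leaf141 c6_leaf142

theorem c6_node138 :
    Sound c6R [(1, 2, 2), (1, 2, 2), (19, 32, 32), (1, 2, 4), (1, 2, 4)] :=
  sound_node (j := 4) (by decide) c6_leaf143 c6_leaf144

theorem c6_node139 :
    Sound c6R [(1, 2, 2), (0, 1, 1), (19, 32, 32), (1, 2, 4), (1, 2, 4)] :=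
  sound_node (j := 1) (by decide) c6_node137 c6_node138

theorem c6_node140 :
    Sound c6R [(0, 1, 1), (0, 1, 1), (19, 32, 32), (1, 2, 4), (1, 2, 4)] :=
  sound_node (j := 0) (by decide) c6_node136 c6_node139

theorem c6_node141 :
    Sound c6R [(0, 1, 1), (0, 1, 1), (19, 32, 32), (0, 1, 2), (1, 2, 4)] :=
  sound_node (j := 3) (by decide) c6_leaf136 c6_node140

theorem c6_node142 :
    Sound c6R [(0, 1, 1), (0, 1, 1), (19, 32, 32), (0, 1, 2), (0, 1, 2)] :=
  sound_node (j := 4) (by decide) c6_leaf135 c6_node141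

theorem c6_node143 :
    Sound c6R [(0, 1, 2), (0, 1, 2), (19, 32, 32), (0, 1, 4), (5, 6, 8)] :=
  sound_node (j := 3) (by decide) c6_leaf155 c6_leaf156

theorem c6_node144 :
    Sound c6R [(0, 1, 2), (0, 1, 2), (19, 32, 32), (0, 1, 4), (2, 3, 4)] :=
  sound_node (j := 4) (by decide) c6_leaf154 c6_node143

theorem c6_node145 :
    Sound c6R [(0, 1, 2), (1, 2, 2), (19, 32, 32), (0, 1, 4), (5, 6, 8)] :=
  sound_node (j := 3) (by decide) c6_leaf158 c6_leaf159

theorem c6_node146 :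
    Sound c6R [(0, 1, 2), (1, 2, 2), (19, 32, 32), (0, 1, 4), (2, 3, 4)] :=
  sound_node (j := 4) (by decide) c6_leaf157 c6_node145

theorem c6_node147 :
    Sound c6R [(0, 1, 2), (0, 1, 1), (19, 32, 32), (0, 1, 4), (2, 3, 4)] :=
  sound_node (j := 1) (by decide) c6_node144 c6_node146

theorem c6_node148 :
    Sound c6R [(0, 1, 2), (0, 1, 1), (19, 32, 32), (0, 1, 4), (1, 2, 2)] :=
  sound_node (j := 4) (by decide) c6_node147 c6_leaf190

theorem c6_node149 :
    Sound c6R [(0, 1, 2), (1, 2, 2), (19, 32, 32), (1, 2, 4), (2, 3, 4)] :=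
  sound_node (j := 4) (by decide) c6_leaf168 c6_leaf169

theorem c6_node150 :
    Sound c6R [(0, 1, 2), (0, 1, 1), (19, 32, 32), (1, 2, 4), (2, 3, 4)] :=
  sound_node (j := 1) (by decide) c6_leaf167 c6_node149

theorem c6_node151 :
    Sound c6R [(0, 1, 2), (0, 1, 1), (19, 32, 32), (1, 2, 4), (1, 2, 2)] :=
  sound_node (j := 4) (by decide) c6_node150 c6_leaf195

theorem c6_node152 :
    Sound c6R [(0, 1, 2), (0, 1, 1), (19, 32, 32), (0, 1, 2), (1, 2, 2)] :=
  sound_node (j := 3) (by decide) c6_node148 c6_node151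

theorem c6_node153 :
    Sound c6R [(1, 2, 2), (0, 1, 2), (19, 32, 32), (0, 1, 8), (2, 3, 4)] :=
  sound_node (j := 4) (by decide) c6_leaf160 c6_leaf162

theorem c6_node154 :
    Sound c6R [(1, 2, 2), (0, 1, 2), (19, 32, 32), (1, 2, 8), (2, 3, 4)] :=
  sound_node (j := 4) (by decide) c6_leaf161 c6_leaf163

theorem c6_node155 :
    Sound c6R [(1, 2, 2), (0, 1, 2), (19, 32, 32), (0, 1, 4), (2, 3, 4)] :=
  sound_node (j := 3) (by decide) c6_node153 c6_node154

theorem c6_node156 :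
    Sound c6R [(1, 2, 2), (0, 1, 2), (19, 32, 32), (0, 1, 4), (1, 2, 2)] :=
  sound_node (j := 4) (by decide) c6_node155 c6_leaf191

theorem c6_node157 :
    Sound c6R [(1, 2, 2), (0, 1, 2), (19, 32, 32), (1, 2, 4), (2, 3, 4)] :=
  sound_node (j := 4) (by decide) c6_leaf170 c6_leaf171

theorem c6_node158 :
    Sound c6R [(1, 2, 2), (0, 1, 2), (19, 32, 32), (1, 2, 4), (6, 7, 8)] :=
  sound_node (j := 3) (by decide) c6_leaf196 c6_leaf197

theorem c6_node159 :
    Sound c6R [(1, 2, 2), (0, 1, 2), (19, 32, 32), (1, 2, 4), (3, 4, 4)] :=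
  sound_node (j := 4) (by decide) c6_node158 c6_leaf198

theorem c6_node160 :
    Sound c6R [(1, 2, 2), (0, 1, 2), (19, 32, 32), (1, 2, 4), (1, 2, 2)] :=
  sound_node (j := 4) (by decide) c6_node157 c6_node159

theorem c6_node161 :
    Sound c6R [(1, 2, 2), (0, 1, 2), (19, 32, 32), (0, 1, 2), (1, 2, 2)] :=
  sound_node (j := 3) (by decide) c6_node156 c6_node160

theorem c6_node162 :
    Sound c6R [(1, 2, 2), (1, 2, 2), (19, 32, 32), (0, 1, 4), (5, 6, 8)] :=
  sound_node (j := 3) (by decide) c6_leaf165 c6_leaf166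

theorem c6_node163 :
    Sound c6R [(1, 2, 2), (1, 2, 2), (19, 32, 32), (0, 1, 4), (2, 3, 4)] :=
  sound_node (j := 4) (by decide) c6_leaf164 c6_node162

theorem c6_node164 :
    Sound c6R [(1, 2, 2), (1, 2, 2), (19, 32, 32), (0, 1, 4), (6, 7, 8)] :=
  sound_node (j := 3) (by decide) c6_leaf192 c6_leaf193

theorem c6_node165 :
    Sound c6R [(1, 2, 2), (1, 2, 2), (19, 32, 32), (0, 1, 4), (3, 4, 4)] :=
  sound_node (j := 4) (by decide) c6_node164 c6_leaf194

theorem c6_node166 :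
    Sound c6R [(1, 2, 2), (1, 2, 2), (19, 32, 32), (0, 1, 4), (1, 2, 2)] :=
  sound_node (j := 4) (by decide) c6_node163 c6_node165

theorem c6_node167 :
    Sound c6R [(2, 3, 4), (3, 4, 4), (51, 64, 64), (2, 3, 8), (4, 5, 8)] :=
  sound_node (j := 4) (by decide) c6_leaf174 c6_leaf175

theorem c6_node168 :
    Sound c6R [(2, 3, 4), (1, 2, 2), (51, 64, 64), (2, 3, 8), (4, 5, 8)] :=
  sound_node (j := 1) (by decide) c6_leaf173 c6_node167

theorem c6_node169 :
    Sound c6R [(3, 4, 4), (2, 3, 4), (51, 64, 64), (2, 3, 8), (4, 5, 8)] :=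
  sound_node (j := 4) (by decide) c6_leaf176 c6_leaf177

theorem c6_node170 :
    Sound c6R [(3, 4, 4), (3, 4, 4), (51, 64, 64), (2, 3, 8), (4, 5, 8)] :=
  sound_node (j := 4) (by decide) c6_leaf178 c6_leaf179

theorem c6_node171 :
    Sound c6R [(3, 4, 4), (1, 2, 2), (51, 64, 64), (2, 3, 8), (4, 5, 8)] :=
  sound_node (j := 1) (by decide) c6_node169 c6_node170

theorem c6_node172 :
    Sound c6R [(1, 2, 2), (1, 2, 2), (51, 64, 64), (2, 3, 8), (4, 5, 8)] :=
  sound_node (j := 0) (by decide) c6_node168 c6_node171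

theorem c6_node173 :
    Sound c6R [(1, 2, 2), (1, 2, 2), (19, 32, 32), (2, 3, 8), (4, 5, 8)] :=
  sound_node (j := 2) (by decide) c6_leaf172 c6_node172

theorem c6_node174 :
    Sound c6R [(1, 2, 2), (1, 2, 2), (19, 32, 32), (2, 3, 8), (2, 3, 4)] :=
  sound_node (j := 4) (by decide) c6_node173 c6_leaf181

theorem c6_node175 :
    Sound c6R [(3, 4, 4), (2, 3, 4), (51, 64, 64), (3, 4, 8), (10, 11, 16)] :=
  sound_node (j := 3) (by decide) c6_leaf184 c6_leaf185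

theorem c6_node176 :
    Sound c6R [(3, 4, 4), (2, 3, 4), (51, 64, 64), (3, 4, 8), (5, 6, 8)] :=
  sound_node (j := 4) (by decide) c6_node175 c6_leaf186

theorem c6_node177 :
    Sound c6R [(3, 4, 4), (3, 4, 4), (51, 64, 64), (3, 4, 8), (10, 11, 16)] :=
  sound_node (j := 3) (by decide) c6_leaf187 c6_leaf188

theorem c6_node178 :
    Sound c6R [(3, 4, 4), (3, 4, 4), (51, 64, 64), (3, 4, 8), (5, 6, 8)] :=
  sound_node (j := 4) (by decide) c6_node177 c6_leaf189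

theorem c6_node179 :
    Sound c6R [(3, 4, 4), (1, 2, 2), (51, 64, 64), (3, 4, 8), (5, 6, 8)] :=
  sound_node (j := 1) (by decide) c6_node176 c6_node178

theorem c6_node180 :
    Sound c6R [(1, 2, 2), (1, 2, 2), (51, 64, 64), (3, 4, 8), (5, 6, 8)] :=
  sound_node (j := 0) (by decide) c6_leaf183 c6_node179

theorem c6_node181 :
    Sound c6R [(1, 2, 2), (1, 2, 2), (19, 32, 32), (3, 4, 8), (5, 6, 8)] :=
  sound_node (j := 2) (by decide) c6_leaf182 c6_node180

theorem c6_node182 :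
    Sound c6R [(1, 2, 2), (1, 2, 2), (19, 32, 32), (3, 4, 8), (2, 3, 4)] :=
  sound_node (j := 4) (by decide) c6_leaf180 c6_node181

theorem c6_node183 :
    Sound c6R [(1, 2, 2), (1, 2, 2), (19, 32, 32), (1, 2, 4), (2, 3, 4)] :=
  sound_node (j := 3) (by decide) c6_node174 c6_node182

theorem c6_node184 :
    Sound c6R [(1, 2, 2), (1, 2, 2), (19, 32, 32), (2, 3, 8), (6, 7, 8)] :=
  sound_node (j := 2) (by decide) c6_leaf199 c6_leaf200

theorem c6_node185 :
    Sound c6R [(1, 2, 2), (1, 2, 2), (19, 32, 32), (1, 2, 4), (6, 7, 8)] :=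
  sound_node (j := 3) (by decide) c6_node184 c6_leaf201

theorem c6_node186 :
    Sound c6R [(1, 2, 2), (1, 2, 2), (19, 32, 32), (1, 2, 4), (3, 4, 4)] :=
  sound_node (j := 4) (by decide) c6_node185 c6_leaf202

theorem c6_node187 :
    Sound c6R [(1, 2, 2), (1, 2, 2), (19, 32, 32), (1, 2, 4), (1, 2, 2)] :=
  sound_node (j := 4) (by decide) c6_node183 c6_node186

theorem c6_node188 :
    Sound c6R [(1, 2, 2), (1, 2, 2), (19, 32, 32), (0, 1, 2), (1, 2, 2)] :=
  sound_node (j := 3) (by decide) c6_node166 c6_node187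

theorem c6_node189 :
    Sound c6R [(1, 2, 2), (0, 1, 1), (19, 32, 32), (0, 1, 2), (1, 2, 2)] :=
  sound_node (j := 1) (by decide) c6_node161 c6_node188

theorem c6_node190 :
    Sound c6R [(0, 1, 1), (0, 1, 1), (19, 32, 32), (0, 1, 2), (1, 2, 2)] :=
  sound_node (j := 0) (by decide) c6_node152 c6_node189

theorem c6_node191 :
    Sound c6R [(0, 1, 1), (0, 1, 1), (19, 32, 32), (0, 1, 2), (0, 1, 1)] :=
  sound_node (j := 4) (by decide) c6_node142 c6_node190

theorem c6_node192 :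
    Sound c6R [(0, 1, 2), (0, 1, 2), (19, 32, 32), (2, 3, 4), (3, 4, 8)] :=
  sound_node (j := 3) (by decide) c6_leaf147 c6_leaf148

theorem c6_node193 :
    Sound c6R [(0, 1, 2), (0, 1, 2), (19, 32, 32), (2, 3, 4), (1, 2, 4)] :=
  sound_node (j := 4) (by decide) c6_leaf146 c6_node192

theorem c6_node194 :
    Sound c6R [(0, 1, 2), (1, 2, 2), (19, 32, 32), (2, 3, 4), (3, 4, 8)] :=
  sound_node (j := 3) (by decide) c6_leaf150 c6_leaf151

theorem c6_node195 :
    Sound c6R [(0, 1, 2), (1, 2, 2), (19, 32, 32), (2, 3, 4), (1, 2, 4)] :=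
  sound_node (j := 4) (by decide) c6_leaf149 c6_node194

theorem c6_node196 :
    Sound c6R [(0, 1, 2), (0, 1, 1), (19, 32, 32), (2, 3, 4), (1, 2, 4)] :=
  sound_node (j := 1) (by decide) c6_node193 c6_node195

theorem c6_node197 :
    Sound c6R [(0, 1, 1), (0, 1, 1), (19, 32, 32), (2, 3, 4), (1, 2, 4)] :=
  sound_node (j := 0) (by decide) c6_node196 c6_leaf152

theorem c6_node198 :
    Sound c6R [(0, 1, 1), (0, 1, 1), (19, 32, 32), (1, 2, 2), (1, 2, 4)] :=
  sound_node (j := 3) (by decide) c6_node197 c6_leaf153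

theorem c6_node199 :
    Sound c6R [(0, 1, 1), (0, 1, 1), (19, 32, 32), (1, 2, 2), (0, 1, 2)] :=
  sound_node (j := 4) (by decide) c6_leaf145 c6_node198

theorem c6_node200 :
    Sound c6R [(0, 1, 1), (0, 1, 1), (19, 32, 32), (1, 2, 2), (0, 1, 1)] :=
  sound_node (j := 4) (by decide) c6_node199 c6_leaf203

theorem c6_node201 :
    Sound c6R [(0, 1, 1), (0, 1, 1), (19, 32, 32), (0, 1, 1), (0, 1, 1)] :=
  sound_node (j := 3) (by decide) c6_node191 c6_node200

theorem c6_soundlo :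
    Sound c6Rlo [(0, 1, 1), (0, 1, 1), (0, 19, 32), (0, 1, 1), (0, 1, 1)] :=
  c6_node133

theorem c6_sound :
    Sound c6R [(0, 1, 1), (0, 1, 1), (19, 32, 32), (0, 1, 1), (0, 1, 1)] :=
  c6_node201

end Vale.Agent.P100.Calib.LowEnd
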