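import Vale.Agent.P100.Calib.SlabLowEndC6Data

/-!
# Leaves of the cover of corner root 6
-/

set_option maxRecDepth 100000
-- the heavy checks are definitions, so that they are checked one after another
set_option linter.defProp false

namespace Vale.Agent.P100.Calib.LowEnd

open Pack Band

def c6_leaf0 :
    Sound c6Rlo [(0, 1, 1), (0, 1, 1), (0, 19, 32), (0, 1, 2), (0, 1, 4)] :=
  sound_leafF (K := 208) (F := ⟨⟨283116, (-351809), 79618, (-62552), 609387, 667686, 116616, 0, 0, 0⟩, (11, 620035043999681488277030), (12, 101510104747065931951240), (10, 0), (10, 0), (10, 0)⟩) c6_oklo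
    (by decide +kernel)

def c6_leaf1 :
    Sound c6Rlo [(0, 1, 1), (0, 1, 1), (0, 19, 32), (0, 1, 4), (1, 2, 4)] :=
  sound_leafF (K := 215) (F := ⟨⟨36364616, (-481237), 174390, (-1967134), 476649, 474956, 146029, 0, 0, 0⟩, (12, 158098005460223997172851), (12, 450473679774636193097168), (10, 0), (10, 0), (10, 0)⟩) c6_oklo
    (by decide +kernel)

def c6_leaf2 :
    Sound c6Rlo [(0, 1, 2), (0, 1, 2), (0, 19, 32), (1, 2, 4), (2, 3, 8)] :=
  sound_leafF (K := 232) (F := ⟨⟨21265121, (-223100), 165654, (-694608), 419423, 345978, 126816, 0, 0, 0⟩, (10, 0), (10, 0), (10, 0), (10, 0), (10, 0)⟩) c6_oklo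
    (by decide +kernel)

def c6_leaf3 :
    Sound c6Rlo [(0, 1, 2), (0, 1, 2), (0, 19, 32), (1, 2, 4), (3, 4, 8)] :=
  sound_leafF (K := 232) (F := ⟨⟨52879688, (-376702), 230902, (-1281801), 382463, 293435, 127813, 0, 0, 0⟩, (10, 0), (10, 0), (10, 0), (10, 0), (10, 0)⟩) c6_oklo
    (by decide +kernel)

def c6_leaf4 :
    Sound c6Rlo [(0, 1, 2), (1, 2, 2), (0, 19, 32), (1, 2, 4), (2, 3, 8)] :=
  sound_leafF (K := 232) (F := ⟨⟨22932357, (-222093), 169070, (-744390), 439298, 349992, 128496, 0, 0, 0⟩, (10, 0), (10, 0), (10, 0), (10, 0), (10, 0)⟩) c6_oklo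
    (by decide +kernel)

def c6_leaf5 :
    Sound c6Rlo [(0, 1, 2), (1, 2, 2), (0, 19, 32), (1, 2, 4), (3, 4, 8)] :=
  sound_leafF (K := 232) (F := ⟨⟨55490642, (-389413), 239131, (-1336673), 401535, 296840, 130482, 0, 0, 0⟩, (10, 0), (10, 0), (10, 0), (10, 0), (10, 0)⟩) c6_oklo
    (by decide +kernel)

def c6_leaf6 :
    Sound c6Rlo [(1, 2, 2), (0, 1, 2), (0, 19, 32), (1, 2, 4), (2, 3, 8)] :=
  sound_leafF (K := 232) (F := ⟨⟨22932357, (-212220), 165530, (-746596), 458833, 357294, 128964, 0, 0, 0⟩, (10, 0), (10, 0), (10, 0), (10, 0), (10, 0)⟩) c6_oklo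
    (by decide +kernel)

def c6_leaf7 :
    Sound c6Rlo [(1, 2, 2), (0, 1, 2), (0, 19, 32), (1, 2, 4), (3, 4, 8)] :=
  sound_leafF (K := 232) (F := ⟨⟨55490642, (-374697), 231950, (-1340098), 419395, 302955, 130461, 0, 0, 0⟩, (13, 45267940195587630972444), (10, 0), (10, 0), (10, 0), (10, 0)⟩) c6_oklo
    (by decide +kernel)

def c6_leaf8 :
    Sound c6Rlo [(1, 2, 2), (1, 2, 2), (0, 19, 32), (1, 2, 4), (2, 3, 8)] :=
  sound_leafF (K := 232) (F := ⟨⟨24662508, (-211497), 168732, (-796359), 482802, 361413, 130704, 0, 0, 0⟩, (10, 0), (10, 0), (10, 0), (10, 0), (10, 0)⟩) c6_oklo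
    (by decide +kernel)

def c6_leaf9 :
    Sound c6Rlo [(1, 2, 2), (1, 2, 2), (0, 19, 64), (1, 2, 4), (3, 4, 8)] :=
  sound_leafF (K := 238) (F := ⟨⟨58164511, (-274080), 230187, (-1356122), 448071, 301019, 132978, 0, 0, 0⟩, (10, 0), (10, 0), (10, 0), (10, 0), (10, 0)⟩) c6_oklo
    (by decide +kernel)

def c6_leaf10 :
    Sound c6Rlo [(1, 2, 2), (1, 2, 2), (19, 38, 64), (2, 3, 8), (3, 4, 8)] :=
  sound_leafF (K := 244) (F := ⟨⟨47846523, (-391325), 215818, (-1459149), 434062, 351845, 131936, 0, 0, 0⟩, (10, 0), (10, 0), (10, 0), (10, 0), (10, 0)⟩) c6_oklo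
    (by decide +kernel)

def c6_leaf11 :
    Sound c6Rlo [(1, 2, 2), (1, 2, 2), (19, 38, 64), (3, 4, 8), (3, 4, 8)] :=
  sound_leafF (K := 244) (F := ⟨⟨54976840, (-325897), 242678, (-1151153), 422671, 289888, 125714, 0, 0, 0⟩, (11, 1013420270347862727979373), (10, 0), (10, 0), (10, 0), (11, 10201215)⟩) c6_oklo
    (by decide +kernel)

def c6_leaf12 :
    Sound c6Rlo [(0, 1, 1), (0, 1, 1), (0, 19, 32), (2, 3, 4), (0, 1, 4)] :=
  sound_leafF (K := 214) (F := ⟨⟨283116, (-171799), 89367, (-24219), 525084, 520121, 143331, 0, 0, 0⟩, (11, 4533525129627718037703332), (10, 0), (10, 0), (10, 0), (10, 0)⟩) c6_oklo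
    (by decide +kernel)

def c6_leaf13 :
    Sound c6Rlo [(0, 1, 1), (0, 1, 1), (0, 19, 32), (3, 4, 4), (0, 1, 4)] :=
  sound_leafF (K := 214) (F := ⟨⟨(-83886), (-105762), 97828, (-71041), 480413, 289865, 100131, 0, 0, 0⟩, (11, 7693321707406483777832134), (10, 0), (14, 261749192636112526047676), (10, 0), (10, 0)⟩) c6_oklo
    (by decide +kernel)

def c6_leaf14 :
    Sound c6Rlo [(0, 1, 2), (0, 1, 2), (0, 19, 32), (2, 3, 4), (2, 3, 8)] :=
  sound_leafF (K := 231) (F := ⟨⟨19660800, (-126409), 201676, (-376394), 398106, 253172, 118269, 0, 0, 0⟩, (11, 1702119227207758783185037), (10, 0), (10, 0), (10, 0), (11, 10010560)⟩) c6_oklo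
    (by decide +kernel)

def c6_leaf15 :
    Sound c6Rlo [(0, 1, 2), (0, 1, 2), (0, 19, 64), (2, 3, 4), (3, 4, 8)] :=
  sound_leafF (K := 237) (F := ⟨⟨40768635, (-182486), 237045, (-599119), 363894, 217957, 111640, 0, 0, 0⟩, (13, 976930045852828388378609), (10, 0), (10, 0), (10, 0), (13, 27209588)⟩) c6_oklo
    (by decide +kernel)

end Vale.Agent.P100.Calib.LowEnd
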