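import Vale.Agent.P100.Calib.SlabLowEndC6Data

/-!
# Leaves of the cover of corner root 6
-/

set_option maxRecDepth 100000
-- the heavy checks are definitions, so that they are checked one after another
set_option linter.defProp false

namespace Vale.Agent.P100.Calib.LowEnd

open Pack Band

def c6_leaf144 :
    Sound c6R [(1, 2, 2), (1, 2, 2), (19, 32, 32), (1, 2, 4), (3, 4, 8)] :=
  sound_leafF (K := 232) (F := ⟨⟨53970207, (-346881), 273286, (-1857839), 425822, 327026, 73604, 0, 0, 0⟩, (11, 400140274659521824337244), (10, 0), (10, 0), (10, 0), (11, 13247275)⟩) c6_ok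
    (by decide +kernel)

def c6_leaf145 :
    Sound c6R [(0, 1, 1), (0, 1, 1), (19, 32, 32), (1, 2, 2), (0, 1, 4)] :=
  sound_empty (K := 124) (q := 11) c6_ok (by decide +kernel)

def c6_leaf146 :
    Sound c6R [(0, 1, 2), (0, 1, 2), (19, 32, 32), (2, 3, 4), (2, 3, 8)] :=
  sound_leafF (K := 233) (F := ⟨⟨18119393, (-126667), 238928, (-344759), 383057, 254843, 115953, 0, 0, 0⟩, (11, 41066976089604993908109170), (10, 0), (10, 0), (10, 0), (11, 96334960)⟩) c6_ok
    (by decide +kernel)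

def c6_leaf147 :
    Sound c6R [(0, 1, 2), (0, 1, 2), (19, 32, 32), (4, 5, 8), (3, 4, 8)] :=
  sound_leafF (K := 238) (F := ⟨⟨63700992, (-379215), 314849, (-1097447), 352937, 241939, 121449, 0, 0, 0⟩, (11, 2036185839512801443136518), (10, 0), (10, 0), (10, 0), (10, 0)⟩) c6_ok
    (by decide +kernel)

def c6_leaf148 :
    Sound c6R [(0, 1, 2), (0, 1, 2), (19, 32, 32), (5, 6, 8), (3, 4, 8)] :=
  sound_empty2 (K := 175) (f := (11, 1048576)) (g := (13, 473694)) c6_ok (by decide +kernel)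

def c6_leaf149 :
    Sound c6R [(0, 1, 2), (1, 2, 2), (19, 32, 32), (2, 3, 4), (2, 3, 8)] :=
  sound_empty (K := 148) (q := 11) c6_ok (by decide +kernel)

def c6_leaf150 :
    Sound c6R [(0, 1, 2), (1, 2, 2), (19, 32, 32), (4, 5, 8), (3, 4, 8)] :=
  sound_leafF (K := 237) (F := ⟨⟨55448699, (-217232), 269846, (-690191), 355025, 243103, 113317, 0, 0, 0⟩, (11, 2530221437722379210438506), (10, 0), (10, 0), (10, 0), (11, 20739892)⟩) c6_ok
    (by decide +kernel)

def c6_leaf151 :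
    Sound c6R [(0, 1, 2), (1, 2, 2), (19, 32, 32), (5, 6, 8), (3, 4, 8)] :=
  sound_empty (K := 154) (q := 11) c6_ok (by decide +kernel)

def c6_leaf152 :
    Sound c6R [(1, 2, 2), (0, 1, 1), (19, 32, 32), (2, 3, 4), (1, 2, 4)] :=
  sound_empty2 (K := 156) (f := (11, 1048576)) (g := (15, 306245)) c6_ok (by decide +kernel)

def c6_leaf153 :
    Sound c6R [(0, 1, 1), (0, 1, 1), (19, 32, 32), (3, 4, 4), (1, 2, 4)] :=
  sound_empty (K := 130) (q := 11) c6_ok (by decide +kernel)

def c6_leaf154 :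
    Sound c6R [(0, 1, 2), (0, 1, 2), (19, 32, 32), (0, 1, 4), (4, 5, 8)] :=
  sound_leafF (K := 233) (F := ⟨⟨50331648, (-642278), 221805, (-2369241), 383672, 430588, 139241, 0, 0, 0⟩, (12, 256570808755983321081275), (12, 612241424895018632678433), (10, 0), (10, 0), (10, 0)⟩) c6_ok
    (by decide +kernel)

def c6_leaf155 :
    Sound c6R [(0, 1, 2), (0, 1, 2), (19, 32, 32), (0, 1, 8), (5, 6, 8)] :=
  sound_leafF (K := 239) (F := ⟨⟨52879688, (-761659), 209459, (-2851679), 365519, 460031, 142436, 0, 0, 0⟩, (10, 0), (12, 463103092071615399232634), (10, 0), (10, 0), (10, 0)⟩) c6_ok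
    (by decide +kernel)

def c6_leaf156 :
    Sound c6R [(0, 1, 2), (0, 1, 2), (19, 32, 32), (1, 2, 8), (5, 6, 8)] :=
  sound_leafF (K := 239) (F := ⟨⟨68283269, (-681340), 313215, (-2443578), 336412, 354364, 80566, 0, 0, 0⟩, (10, 0), (10, 0), (10, 0), (10, 0), (10, 9204076)⟩) c6_ok
    (by decide +kernel)

def c6_leaf157 :
    Sound c6R [(0, 1, 2), (1, 2, 2), (19, 32, 32), (0, 1, 4), (4, 5, 8)] :=
  sound_leafF (K := 233) (F := ⟨⟨51306824, (-705379), 237459, (-2533200), 400722, 441523, 145132, 0, 0, 0⟩, (12, 231853561773010419424600), (12, 594772522359450967018252), (12, 1056661408627934570183260), (10, 0), (10, 0)⟩) c6_ok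
    (by decide +kernel)

def c6_leaf158 :
    Sound c6R [(0, 1, 2), (1, 2, 2), (19, 32, 32), (0, 1, 8), (5, 6, 8)] :=
  sound_leafF (K := 239) (F := ⟨⟨45424312, (-635255), 176294, (-2659204), 374742, 487542, 134291, 0, 0, 0⟩, (10, 0), (10, 0), (10, 0), (10, 0), (10, 8600164)⟩) c6_ok
    (by decide +kernel)

def c6_leaf159 :
    Sound c6R [(0, 1, 2), (1, 2, 2), (19, 32, 32), (1, 2, 8), (5, 6, 8)] :=
  sound_leafF (K := 238) (F := ⟨⟨66186117, (-687356), 247306, (-1466468), 348919, 362646, 110056, 0, 0, 0⟩, (10, 0), (10, 0), (10, 0), (10, 0), (15, 10841633)⟩) c6_ok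
    (by decide +kernel)

end Vale.Agent.P100.Calib.LowEnd
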