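import Vale.Agent.P100.Calib.SlabLowEndC6Data

/-!
# The slots of corner root 6 are within their tolerances
-/

set_option maxRecDepth 100000
-- the heavy checks are definitions, so that they are checked one after another
set_option linter.defProp false

namespace Vale.Agent.P100.Calib.LowEnd

open Pack Band

def c6_slot0 : checkSlot c6B c6P.sig 56 c6D0 c6T0 = true := by decide +kernel

def c6_slot1 : checkSlot c6B c6P.sig 56 c6D1 c6T1 = true := by decide +kernel

def c6_slot2 : checkSlot c6B c6P.sig 48 c6D2 c6T2 = true := by decide +kernel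

def c6_slot3 : checkSlot c6B c6P.sig 56 c6D3 c6T3 = true := by decide +kernel

def c6_slot4 : checkSlot c6B c6P.sig 56 c6D4 c6T4 = true := by decide +kernel

def c6_slot5 : checkSlot c6B c6P.sig 56 c6D5 c6T5 = true := by decide +kernel

def c6_slot6 : checkSlot c6B c6P.sig 56 c6D6 c6T6 = true := by decide +kernel

def c6_slot7 : checkSlot c6B c6P.sig 56 c6D7 c6T7 = true := by decide +kernel

def c6_slot8 : checkSlot c6B c6P.sig 56 c6D8 c6T8 = true := by decide +kernel

def c6_slot9 : checkSlot c6B c6P.sig 56 c6D9 c6T9 = true := by decide +kernel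

def c6_slot10 : checkSlot c6B c6P.sig 56 c6D10 c6T10 = true := by decide +kernel

def c6_slot11 : checkSlot c6B c6P.sig 56 c6D11 c6T11 = true := by decide +kernel

def c6_slot12 : checkSlot c6B c6P.sig 56 c6D12 c6T12 = true := by decide +kernel

def c6_slot13 : checkSlot c6B c6P.sig 56 c6D13 c6T13 = true := by decide +kernel

def c6_slot14 : checkSlot c6B c6P.sig 56 c6D14 c6T14 = true := by decide +kernel

def c6_slot15 : checkSlot c6B c6P.sig 56 c6D15 c6T15 = true := by decide +kernel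

theorem c6_near {x y : ℕ → ℝ} (hx : InBox c6B x) (hc : Coord c6P.sig x y) :
    Near c6R y (valueAt c6L x) :=
  near_root rfl (fun q hq => by
    simp only [c6L, List.length_cons, List.length_nil] at hq
    interval_cases q
    · exact ⟨_, c6_slot0⟩
    · exact ⟨_, c6_slot1⟩
    · exact ⟨_, c6_slot2⟩
    · exact ⟨_, c6_slot3⟩
    · exact ⟨_, c6_slot4⟩
    · exact ⟨_, c6_slot5⟩
    · exact ⟨_, c6_slot6⟩
    · exact ⟨_, c6_slot7⟩
    · exact ⟨_, c6_slot8⟩
    · exact ⟨_, c6_slot9⟩
    · exact ⟨_, c6_slot10⟩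
    · exact ⟨_, c6_slot11⟩
    · exact ⟨_, c6_slot12⟩
    · exact ⟨_, c6_slot13⟩
    · exact ⟨_, c6_slot14⟩
    · exact ⟨_, c6_slot15⟩
  ) hx hc

theorem c6_nearlo {x y : ℕ → ℝ} (hx : InBox c6B x) (hc : Coord c6P.sig x y) :
    Near c6Rlo y (valueAt c6Llo x) :=
  near_root rfl (fun q hq => by
    simp only [c6Llo, List.length_cons, List.length_nil] at hq
    interval_cases q
    · exact ⟨_, c6_slot0⟩
    · exact ⟨_, c6_slot1⟩
    · exact ⟨_, c6_slot2⟩
    · exact ⟨_, c6_slot3⟩
    · exact ⟨_, c6_slot4⟩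
    · exact ⟨_, c6_slot5⟩
    · exact ⟨_, c6_slot6⟩
    · exact ⟨_, c6_slot7⟩
    · exact ⟨_, c6_slot8⟩
    · exact ⟨_, c6_slot9⟩
    · exact ⟨_, c6_slot10⟩
    · exact ⟨_, c6_slot11⟩
    · exact ⟨_, c6_slot12⟩
    · exact ⟨_, c6_slot13⟩
    · exact ⟨_, c6_slot14⟩
  ) hx hc

end Vale.Agent.P100.Calib.LowEnd
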