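import Vale.Agent.P100.Calib.SlabLowEndRoots

/-!
# The division of the ranges into the roots

With `39/40 ≤ u` the ranges of `a` and `I` are split into the roots, one band of facts in each range
of `I`.
-/

namespace Vale.Agent.P100.Calib.LowEnd

open Band Pack

/-- The excess of the exponent is positive off the corner. -/
theorem vK_nonneg {a I : ℝ} (h0 : 0 < I) (h1 : I ≤ 1 / 7) (ha : a ≤ 31 / 100)
    (hc : I ≤ 1 / 8 ∨ a < 29 / 100) : 0 ≤ vK a I := by
  have hS : 0 < vS I := by simp only [vS]; linarith
  have h2 : 2 * a * (1 - I) ≤ vS I ^ 2 := by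
    simp only [vS]
    rcases hc with h | h
    · nlinarith [mul_le_mul_of_nonneg_right ha (show 0 ≤ 1 - I by linarith),
        mul_nonneg (show 0 ≤ 1 / 8 - I by linarith) (show 0 ≤ 1 - I by linarith)]
    · nlinarith [mul_le_mul_of_nonneg_right h.le (show 0 ≤ 1 - I by linarith),
        mul_nonneg (show 0 ≤ 1 / 7 - I by linarith) (show 0 ≤ 1 - I by linarith)]
  rw [vK, sub_nonneg, div_div, div_le_one (by positivity)]
  linarith

theorem range_of {x : ℕ → ℝ} (hw : 0 ≤ x 2 ∧ x 2 * 1024 < 26) (P : Par) (hg : P.diag = false)
    (r1 : (P.a0 : ℝ) ≤ x 0 * 3000) (r2 : x 0 * 3000 < P.a1) (r3 : (P.i0 : ℝ) ≤ x 1 * 3000)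
    (r4 : x 1 * 3000 < P.i1) : P.Range x := by
  refine ⟨?_, ?_, r3, r4, hw.1, hw.2⟩ <;> simp only [hg, cond_false, sub_zero] <;> assumption

theorem range_diag {x : ℕ → ℝ} (hw : 0 ≤ x 2 ∧ x 2 * 1024 < 26) (hIa : x 1 ≤ x 0) (P : Par)
    (hg : P.diag = true) (g0 : P.a0 = 0) (r2 : (x 0 - x 1) * 3000 < P.a1)
    (r3 : (P.i0 : ℝ) ≤ x 1 * 3000) (r4 : x 1 * 3000 < P.i1) : P.Range x := by
  refine ⟨?_, ?_, r3, r4, hw.1, hw.2⟩ <;> simp only [hg, cond_true, g0, Nat.cast_zero]
  · exact mul_nonneg (by linarith) (by norm_num)
  · exact r2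

variable {x : ℕ → ℝ}

set_option linter.unusedVariables false

/-- The range of the first band. -/
theorem signs_rangeA (hw : 0 ≤ x 2 ∧ x 2 * 1024 < 26) (hIa : x 1 ≤ x 0) (hI : 150 < x 1 * 3000)
    (iA : x 1 * 3000 < 250) (ha : x 0 ≤ 31 / 100) (hF : RootFacts midLowA midUpA x)
    (rung : x 1 * 3000 < 230 → x 0 * 3000 < 366 → 0 ≤ eX1.eval x ∧ 0 ≤ eT.eval x) :
    PointSigns x := by
  rcases lt_or_ge (x 1 * 3000) 230 with i2 | i2
  · rcases lt_or_ge (x 0 * 3000) 366 with a4 | a4
    · obtain ⟨hX1, hT⟩ := rung i2 a4
      rcases lt_or_ge (x 1 * 3000) 188 with i1 | i1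
      · rcases lt_or_ge (x 0 * 3000) 240 with a1 | a1
        · rcases lt_or_ge (x 1 * 3000) 168 with i0 | i0
          · exact r0_signs (range_diag hw hIa _ rfl rfl (by norm_num [r0P]; linarith)
              (by norm_num [r0P]; linarith) (by norm_num [r0P]; linarith)) hF hX1 hT
          · exact r1_signs (range_diag hw hIa _ rfl rfl (by norm_num [r1P]; linarith)
              (by norm_num [r1P]; linarith) (by norm_num [r1P]; linarith)) hF hT
        · rcases lt_or_ge (x 0 * 3000) 300 with a2 | a2
          · exact r2_signs (range_of hw _ rfl (by norm_num [r2P]; linarith)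
              (by norm_num [r2P]; linarith) (by norm_num [r2P]; linarith)
              (by norm_num [r2P]; linarith)) hF hT
          · rcases lt_or_ge (x 0 * 3000) 345 with a3 | a3
            · exact r3_signs (range_of hw _ rfl (by norm_num [r3P]; linarith)
                (by norm_num [r3P]; linarith) (by norm_num [r3P]; linarith)
                (by norm_num [r3P]; linarith)) hF hX1 hT
            · exact r4_signs (range_of hw _ rfl (by norm_num [r4P]; linarith)
                (by norm_num [r4P]; linarith) (by norm_num [r4P]; linarith)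
                (by norm_num [r4P]; linarith)) hF hT
      · rcases lt_or_ge (x 0 * 3000) 300 with a2 | a2
        · exact r6_signs (range_diag hw hIa _ rfl rfl (by norm_num [r6P]; linarith)
            (by norm_num [r6P]; linarith) (by norm_num [r6P]; linarith)) hF hX1 hT
        · rcases lt_or_ge (x 0 * 3000) 345 with a3 | a3
          · exact r7_signs (range_of hw _ rfl (by norm_num [r7P]; linarith)
              (by norm_num [r7P]; linarith) (by norm_num [r7P]; linarith)
              (by norm_num [r7P]; linarith)) hF hT
          · exact r8_signs (range_of hw _ rfl (by norm_num [r8P]; linarith)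
              (by norm_num [r8P]; linarith) (by norm_num [r8P]; linarith)
              (by norm_num [r8P]; linarith)) hF hT
    · rcases lt_or_ge (x 1 * 3000) 188 with i1 | i1
      · rcases lt_or_ge (x 0 * 3000) 510 with a5 | a5
        · exact r19_signs (range_of hw _ rfl (by norm_num [r19P]; linarith)
            (by norm_num [r19P]; linarith) (by norm_num [r19P]; linarith)
            (by norm_num [r19P]; linarith)) hF
        · exact r5_signs (range_of hw _ rfl (by norm_num [r5P]; linarith)
            (by norm_num [r5P]; linarith) (by norm_num [r5P]; linarith)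
            (by norm_num [r5P]; linarith)) hF
      · rcases lt_or_ge (x 0 * 3000) 510 with a5 | a5
        · exact r20_signs (range_of hw _ rfl (by norm_num [r20P]; linarith)
            (by norm_num [r20P]; linarith) (by norm_num [r20P]; linarith)
            (by norm_num [r20P]; linarith)) hF
        · exact r9_signs (range_of hw _ rfl (by norm_num [r9P]; linarith)
            (by norm_num [r9P]; linarith) (by norm_num [r9P]; linarith)
            (by norm_num [r9P]; linarith)) hF
  · rcases lt_or_ge (x 0 * 3000) 510 with a5 | a5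
    · exact r10_signs (range_diag hw hIa _ rfl rfl (by norm_num [r10P]; linarith)
        (by norm_num [r10P]; linarith) (by norm_num [r10P]; linarith)) hF
    · exact r11_signs (range_of hw _ rfl (by norm_num [r11P]; linarith)
        (by norm_num [r11P]; linarith) (by norm_num [r11P]; linarith)
        (by norm_num [r11P]; linarith)) hF

/-- The range of the second band. -/
theorem signs_rangeB (hw : 0 ≤ x 2 ∧ x 2 * 1024 < 26) (hIa : x 1 ≤ x 0) (iA : 250 ≤ x 1 * 3000)
    (iB : x 1 * 3000 < 324) (ha : x 0 ≤ 31 / 100) (hF : RootFacts midLowB midUpB x) :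
    PointSigns x := by
  rcases lt_or_ge (x 0 * 3000) 510 with a5 | a5
  · exact r12_signs (range_diag hw hIa _ rfl rfl (by norm_num [r12P]; linarith)
      (by norm_num [r12P]; linarith) (by norm_num [r12P]; linarith)) hF
  · exact r13_signs (range_of hw _ rfl (by norm_num [r13P]; linarith)
      (by norm_num [r13P]; linarith) (by norm_num [r13P]; linarith)
      (by norm_num [r13P]; linarith)) hF

/-- The range of the third band. -/
theorem signs_rangeC (hw : 0 ≤ x 2 ∧ x 2 * 1024 < 26) (hIa : x 1 ≤ x 0) (iB : 324 ≤ x 1 * 3000)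
    (hI : x 1 * 3000 < 429) (ha : x 0 ≤ 31 / 100)
    (hcor : 375 ≤ x 1 * 3000 → x 0 * 3000 < 870) (hF : RootFacts midLowC midUpC x) :
    PointSigns x := by
  rcases lt_or_ge (x 1 * 3000) 375 with iC | iC
  · rcases lt_or_ge (x 0 * 3000) 600 with a6 | a6
    · exact r14_signs (range_diag hw hIa _ rfl rfl (by norm_num [r14P]; linarith)
        (by norm_num [r14P]; linarith) (by norm_num [r14P]; linarith)) hF
    · exact r15_signs (range_of hw _ rfl (by norm_num [r15P]; linarith)
        (by norm_num [r15P]; linarith) (by norm_num [r15P]; linarith)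
        (by norm_num [r15P]; linarith)) hF
  · have a7 : x 0 * 3000 < 870 := hcor iC
    rcases lt_or_ge (x 0 * 3000) 600 with a6 | a6
    · exact r16_signs (range_diag hw hIa _ rfl rfl (by norm_num [r16P]; linarith)
        (by norm_num [r16P]; linarith) (by norm_num [r16P]; linarith)) hF
    · rcases lt_or_ge (x 0 * 3000) 810 with a8 | a8
      · exact r17_signs (range_of hw _ rfl (by norm_num [r17P]; linarith)
          (by norm_num [r17P]; linarith) (by norm_num [r17P]; linarith)
          (by norm_num [r17P]; linarith)) hF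
      · exact r18_signs (range_of hw _ rfl (by norm_num [r18P]; linarith)
          (by norm_num [r18P]; linarith) (by norm_num [r18P]; linarith)
          (by norm_num [r18P]; linarith)) hF

end Vale.Agent.P100.Calib.LowEnd
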