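import Vale.Agent.P100.Calib.SlabLowEndSigns
import Vale.Agent.P100.Pack.Dense

/-!
# Leaves and trees of the cover

A root gives for each slot an integer polynomial in the local coordinates and a tolerance: `2 ^ sh`
times the slot's value stays within the tolerance of the polynomial. Slots `0..9` are the targets,
the others facts, nonnegative at the points considered. A leaf fixes the multiplier, the congruence
and the weights; all its conditions are linear combinations of the polynomials.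
-/

namespace Vale.Agent.P100.Calib.LowEnd

open Pack

/-- One slot: the polynomial, a bound of its size, the tolerance. -/
abbrev Slot := Dense.Q5 × ℕ × ℕ

/-- The shift of the integer polynomials. -/
abbrev sh : ℕ := 48

/-- The values are within the tolerances of the polynomials. -/
def Near (R : List Slot) (y T : ℕ → ℝ) : Prop :=
  ∀ q (hq : q < R.length), |2 ^ sh * T q - Dense.val y (R[q]).1| ≤ ((R[q]).2.2 : ℝ)

/-- A side of a box: `y` in `[l / den, h / den)`. -/
abbrev Side := ℕ × ℕ × ℕ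

/-- A box. -/
abbrev Box := List Side

/-- The side of the coordinate `i`. -/
def side (b : Box) (i : ℕ) : Side := b.getD i (0, 1, 1)

/-- The point lies in the box. -/
def InBox (b : Box) (y : ℕ → ℝ) : Prop :=
  ∀ i < 5, ((side b i).1 : ℝ) ≤ y i * (side b i).2.2 ∧ y i * (side b i).2.2 < (side b i).2.1

/-- The chart of a side. -/
def boxChart (b : Box) (i : ℕ) : Chart :=
  ⟨(side b i).1, (side b i).2.1, (side b i).2.2, (side b i).2.2⟩

/-- The denominators are positive. -/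
def boxOk (b : Box) : Bool :=
  (List.range 5).all fun i => decide (0 < (side b i).2.2)

theorem box_point {b : Box} (hb : boxOk b = true) {y : ℕ → ℝ} (h : InBox b y) :
    ∀ i < 5, ∃ t : ℝ, 0 ≤ t ∧ 0 < ((boxChart b i).c : ℝ) + (boxChart b i).d * t ∧
      ((boxChart b i).a : ℝ) + (boxChart b i).b * t =
        y i * (((boxChart b i).c : ℝ) + (boxChart b i).d * t) := by
  intro i hi
  simp only [boxOk, List.all_eq_true, List.mem_range, decide_eq_true_eq] at hb
  obtain ⟨h1, h2⟩ := h i hi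
  have hd : (0 : ℝ) < (side b i).2.2 := Nat.cast_pos.2 (hb i hi)
  have h3 : 0 < ((side b i).2.1 : ℝ) - y i * (side b i).2.2 := by linarith
  refine ⟨(y i * (side b i).2.2 - (side b i).1) / ((side b i).2.1 - y i * (side b i).2.2),
    div_nonneg (by linarith) h3.le, ?_, ?_⟩
  · simp only [boxChart, Int.cast_natCast]
    have := div_nonneg (sub_nonneg.2 h1) h3.le
    positivity
  · simp only [boxChart, Int.cast_natCast]
    field_simp
    ring

/-! ### Integer combinations of the slots -/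

/-- The value of a combination. -/
noncomputable def lv : List ℤ → (ℕ → ℝ) → ℝ
  | [], _ => 0
  | c :: cs, T => (c : ℝ) * T 0 + lv cs fun i => T (i + 1)

/-- Sum. -/
def vadd : List ℤ → List ℤ → List ℤ
  | [], q => q
  | p :: ps, [] => p :: ps
  | p :: ps, q :: qs => (p + q) :: vadd ps qs

/-- Multiple. -/
def vsmul (k : ℤ) : List ℤ → List ℤ
  | [] => []
  | p :: ps => (k * p) :: vsmul k ps

/-- Unit vector. -/
def ev1 : ℕ → List ℤ
  | 0 => [1]
  | i + 1 => 0 :: ev1 i

theorem lv_vadd : ∀ (p q : List ℤ) (T : ℕ → ℝ), lv (vadd p q) T = lv p T + lv q T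
  | [], q, T => by simp [vadd, lv]
  | p :: ps, [], T => by simp [vadd, lv]
  | p :: ps, q :: qs, T => by simp [vadd, lv, lv_vadd ps qs]; ring

theorem lv_vsmul (k : ℤ) : ∀ (p : List ℤ) (T : ℕ → ℝ), lv (vsmul k p) T = k * lv p T
  | [], T => by simp [vsmul, lv]
  | p :: ps, T => by simp [vsmul, lv, lv_vsmul k ps]; ring

theorem lv_ev1 : ∀ (i : ℕ) (T : ℕ → ℝ), lv (ev1 i) T = T i
  | 0, T => by simp [ev1, lv]
  | i + 1, T => by simp [ev1, lv, lv_ev1 i]

/-- The sum of the tolerances. -/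
def tol : List ℤ → List Slot → ℕ
  | c :: cs, r :: rs => c.natAbs * r.2.2 + tol cs rs
  | _, _ => 0

/-- The terms of a combination. -/
def terms : List ℤ → List Slot → List Dense.Term
  | c :: cs, r :: rs => ((c.toNat, (-c).toNat), r.2.1, r.1) :: terms cs rs
  | _, _ => []

/-- The constant one. -/
def one5 : Dense.Q5 := [[[[[(1, 0)]]]]]

/-- The combination exceeds its tolerance by one. -/
noncomputable def checkPos (C : ℕ → Chart) (K : ℕ) (R : List Slot) (c : List ℤ) : Bool :=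
  Nat.ble c.length R.length &&
    Dense.check C K [6, 6, 6, 6, 6] (((0, tol c R + 1), 1, one5) :: terms c R)

/-- The slots are well formed. -/
def rootOk (R : List Slot) : Bool :=
  R.all fun r => Dense.wf [6, 6, 6, 6, 6] (r.2.1, r.1)

theorem combVal_terms {y : ℕ → ℝ} : ∀ (c : List ℤ) (R : List Slot) (T : ℕ → ℝ),
    c.length ≤ R.length → Near R y T →
    Dense.combVal y (terms c R) ≤ 2 ^ sh * lv c T + tol c R
  | [], R, T, _, _ => by cases R <;> simp [terms, Dense.combVal, lv, tol]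
  | c :: cs, [], T, h, _ => by simp at h
  | c :: cs, r :: rs, T, h, hn => by
    have h0 := hn 0 (Nat.succ_pos _)
    have ih := combVal_terms cs rs (fun i => T (i + 1)) (Nat.le_of_succ_le_succ h) fun q hq => by
      simpa using hn (q + 1) (Nat.succ_lt_succ hq)
    simp only [List.getElem_cons_zero] at h0
    simp only [terms, Dense.combVal, lv, tol]
    have e : (Dense.vz (c.toNat, (-c).toNat) : ℝ) = c := by
      rw [show Dense.vz (c.toNat, (-c).toNat) = c from Int.toNat_sub_toNat_neg c]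
    rw [e]
    push_cast
    have h1 : (c : ℝ) * Dense.val y r.1 - c * (2 ^ sh * T 0) ≤ |(c : ℝ)| * r.2.2 := by
      rw [← mul_sub]
      refine (le_abs_self _).trans ?_
      rw [abs_mul]
      exact mul_le_mul_of_nonneg_left (by rwa [abs_sub_comm] at h0) (abs_nonneg _)
    rw [show |(c : ℝ)| = (c.natAbs : ℝ) by rw [Nat.cast_natAbs, Int.cast_abs]] at h1
    linarith

theorem pos_of_checkPos {C : ℕ → Chart} {K : ℕ} {R : List Slot} {c : List ℤ}
    (hR : rootOk R = true) (h : checkPos C K R c = true) {y T : ℕ → ℝ} (hn : Near R y T)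
    (hy : ∀ i < 5, ∃ t : ℝ, 0 ≤ t ∧ 0 < ((C i).c : ℝ) + (C i).d * t ∧
      ((C i).a : ℝ) + (C i).b * t = y i * (((C i).c : ℝ) + (C i).d * t)) :
    0 < lv c T := by
  simp only [checkPos, Bool.and_eq_true, Nat.ble_eq] at h
  obtain ⟨hl, hc⟩ := h
  have hw : ∀ (c : List ℤ) (R : List Slot), (∀ r ∈ R, Dense.wf [6, 6, 6, 6, 6] (r.2.1, r.1) = true) →
      ∀ t ∈ terms c R, Dense.wf [6, 6, 6, 6, 6] t.2 = true := by
    intro c
    induction c with
    | nil => intro R _ t ht; cases R <;> simp [terms] at ht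
    | cons a cs ih =>
      intro R hR t ht
      cases R with
      | nil => simp [terms] at ht
      | cons r rs =>
        simp only [terms, List.mem_cons] at ht
        rcases ht with rfl | ht
        · exact hR r List.mem_cons_self
        · exact ih rs (fun s hs => hR s (List.mem_cons_of_mem _ hs)) t ht
  simp only [rootOk, List.all_eq_true] at hR
  have h0 := Dense.nonneg_of_check hc (fun t ht => by
    rcases List.mem_cons.1 ht with rfl | ht
    · show Dense.wf [6, 6, 6, 6, 6] (1, one5) = true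
      decide
    · exact hw c R hR t ht) hy
  have h1 := combVal_terms c R T hl hn
  have e1 : Dense.val y one5 = 1 := by simp [one5, Dense.val, evL, Dense.vz]
  simp only [Dense.combVal, e1, Dense.vz] at h0
  push_cast at h0
  refine pos_of_mul_pos_right (a := (2 : ℝ) ^ sh) ?_ (by positivity)
  linarith

/-- What a root proves: the block is positive for some multiplier. -/
def BlockPos (T : ℕ → ℝ) : Prop :=
  ∃ z : ℝ, 0 < T 2 ∧ 0 < (T 0 + z * T 1) * T 2 - T 4 ^ 2 ∧
    0 < (T 0 + z * T 1) * (T 2 * T 3 - (z * T 6) ^ 2) - T 4 * (T 4 * T 3 - T 5 * (z * T 6)) +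
      T 5 * (T 4 * (z * T 6) - T 5 * T 2) ∧
    0 ≤ T 7 + z * T 1 ∧ 0 ≤ T 8 + z * T 9

/-- The signs hold on the box. -/
def Sound (R : List Slot) (b : Box) : Prop :=
  ∀ y T : ℕ → ℝ, InBox b y → Near R y T → (∀ q, 10 ≤ q → q < R.length → 0 ≤ T q) → BlockPos T

/-- The unit of the constants of a leaf. -/
abbrev unitP : ℤ := 2 ^ 20

/-- The constants of a leaf, in units of `2 ^ -20`. -/
structure Leaf where
  /-- the multiplier -/
  zn : ℤ
  /-- congruence, `G` into `E` -/
  lg : ℤ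
  /-- congruence, `M` into `E` -/
  lm : ℤ
  /-- congruence, `G` into `M` -/
  k : ℤ
  /-- the weights -/
  r1 : ℕ
  r2 : ℕ
  r3 : ℕ
  /-- the multiples of the fact of slot ten -/
  m1 : ℕ
  m2 : ℕ
  m3 : ℕ

namespace Leaf

variable (L : Leaf)

def vE : List ℤ := vadd (vsmul unitP (ev1 0)) (vsmul L.zn (ev1 1))
def vEG : List ℤ :=
  vadd (vsmul (unitP * unitP) (ev1 4))
    (vadd (vsmul (L.lg * unitP) (ev1 2)) (vsmul (L.lm * L.zn) (ev1 6)))
def vY0 : List ℤ :=
  vadd (vsmul (unitP * unitP) (ev1 5))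
    (vadd (vsmul (L.lg * L.zn) (ev1 6)) (vsmul (L.lm * unitP) (ev1 3)))
def vEM : List ℤ := vadd (vsmul unitP L.vY0) (vsmul L.k L.vEG)
def vGM : List ℤ := vadd (vsmul L.zn (ev1 6)) (vsmul L.k (ev1 2))
def vEn : List ℤ :=
  vadd (vsmul (unitP * unitP) L.vE)
    (vadd (vsmul L.lg (vadd (vsmul (unitP * unitP) (ev1 4)) L.vEG))
      (vsmul L.lm (vadd (vsmul (unitP * unitP) (ev1 5)) L.vY0)))
def vMn : List ℤ :=
  vadd (vsmul (unitP * unitP) (ev1 3)) (vsmul L.k (vadd (vsmul L.zn (ev1 6)) L.vGM))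

/-- The three rows, with the signs `s`, `s'` of the off-diagonal terms. -/
def row1 (s s' : ℤ) : List ℤ :=
  vadd (vsmul L.r1 L.vEn) (vadd (vsmul (s * L.r2 * unitP) L.vEG)
    (vadd (vsmul (s' * L.r3) L.vEM) (vsmul (-(L.m1 : ℤ)) (ev1 10))))
def row2 (s s' : ℤ) : List ℤ :=
  vadd (vsmul ((L.r2 : ℤ) * unitP * unitP * unitP) (ev1 2))
    (vadd (vsmul (s * L.r1 * unitP) L.vEG)
      (vadd (vsmul (s' * L.r3 * unitP * unitP) L.vGM) (vsmul (-(L.m2 : ℤ)) (ev1 10))))
def row3 (s s' : ℤ) : List ℤ :=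
  vadd (vsmul ((L.r3 : ℤ) * unitP) L.vMn)
    (vadd (vsmul (s * L.r1) L.vEM)
      (vadd (vsmul (s' * L.r2 * unitP * unitP) L.vGM) (vsmul (-(L.m3 : ℤ)) (ev1 10))))

/-- All combinations of a leaf. -/
def combos : List (List ℤ) :=
  [L.row1 1 1, L.row1 1 (-1), L.row1 (-1) 1, L.row1 (-1) (-1), L.row2 1 1, L.row2 1 (-1),
    L.row2 (-1) 1, L.row2 (-1) (-1), L.row3 1 1, L.row3 1 (-1), L.row3 (-1) 1, L.row3 (-1) (-1),
    vadd (vsmul unitP (ev1 7)) (vsmul L.zn (ev1 1)),
    vadd (vsmul unitP (ev1 8)) (vsmul L.zn (ev1 9))]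

end Leaf

/-- **The check of a leaf.** -/
noncomputable def checkLeaf (K : ℕ) (R : List Slot) (b : Box) (L : Leaf) : Bool :=
  boxOk b && decide (0 < L.r1) && decide (0 < L.r2) && decide (0 < L.r3) &&
    Nat.blt 10 R.length && L.combos.all fun c => checkPos (boxChart b) K R c

/-- The check of an empty box: the fact of slot `q` is negative. -/
noncomputable def checkEmpty (K : ℕ) (R : List Slot) (b : Box) (q : ℕ) : Bool :=
  boxOk b && Nat.ble 10 q && Nat.blt q R.length &&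
    checkPos (boxChart b) K R (vsmul (-1) (ev1 q))

theorem sound_empty {K : ℕ} {R : List Slot} {b : Box} {q : ℕ} (hR : rootOk R = true)
    (h : checkEmpty K R b q = true) : Sound R b := by
  intro y T hy hn hf
  simp only [checkEmpty, Bool.and_eq_true, Nat.ble_eq, Nat.blt_eq] at h
  obtain ⟨⟨⟨hb, hq⟩, hql⟩, hc⟩ := h
  have := pos_of_checkPos hR hc hn (box_point hb hy)
  rw [lv_vsmul, lv_ev1] at this
  push_cast at this
  linarith [hf q hq hql]

/-- A weighted dominance from the four sign choices. -/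
theorem abs_row {A B C c1 c2 : ℝ} (hc1 : 0 ≤ c1) (hc2 : 0 ≤ c2) (h1 : 0 < A + c1 * B + c2 * C)
    (h2 : 0 < A + c1 * B - c2 * C) (h3 : 0 < A - c1 * B + c2 * C)
    (h4 : 0 < A - c1 * B - c2 * C) : c1 * |B| + c2 * |C| < A := by
  rcases abs_cases B with ⟨e1, -⟩ | ⟨e1, -⟩ <;> rcases abs_cases C with ⟨e2, -⟩ | ⟨e2, -⟩ <;>
    rw [e1, e2] <;> linarith

theorem sound_leaf {K : ℕ} {R : List Slot} {b : Box} {L : Leaf} (hR : rootOk R = true)
    (h : checkLeaf K R b L = true) : Sound R b := by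
  intro y T hy hn hf
  simp only [checkLeaf, Bool.and_eq_true, decide_eq_true_eq, List.all_eq_true, Nat.blt_eq] at h
  obtain ⟨⟨⟨⟨⟨hb, h1⟩, h2⟩, h3⟩, hlen⟩, hc⟩ := h
  have hp := fun c hm => pos_of_checkPos hR (hc c hm) hn (box_point hb hy)
  have hf10 : 0 ≤ T 10 := hf 10 le_rfl hlen
  have a1 := hp (L.row1 1 1) (by simp [Leaf.combos])
  have a2 := hp (L.row1 1 (-1)) (by simp [Leaf.combos])
  have a3 := hp (L.row1 (-1) 1) (by simp [Leaf.combos])
  have a4 := hp (L.row1 (-1) (-1)) (by simp [Leaf.combos])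
  have b1 := hp (L.row2 1 1) (by simp [Leaf.combos])
  have b2 := hp (L.row2 1 (-1)) (by simp [Leaf.combos])
  have b3 := hp (L.row2 (-1) 1) (by simp [Leaf.combos])
  have b4 := hp (L.row2 (-1) (-1)) (by simp [Leaf.combos])
  have c1 := hp (L.row3 1 1) (by simp [Leaf.combos])
  have c2 := hp (L.row3 1 (-1)) (by simp [Leaf.combos])
  have c3 := hp (L.row3 (-1) 1) (by simp [Leaf.combos])
  have c4 := hp (L.row3 (-1) (-1)) (by simp [Leaf.combos])
  have d1 := hp (vadd (vsmul unitP (ev1 7)) (vsmul L.zn (ev1 1))) (by simp [Leaf.combos])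
  have d2 := hp (vadd (vsmul unitP (ev1 8)) (vsmul L.zn (ev1 9))) (by simp [Leaf.combos])
  simp only [Leaf.row1, Leaf.row2, Leaf.row3, Leaf.vEn, Leaf.vMn, Leaf.vEM, Leaf.vE, Leaf.vEG,
    Leaf.vY0, Leaf.vGM, lv_vadd, lv_vsmul, lv_ev1] at a1 a2 a3 a4 b1 b2 b3 b4 c1 c2 c3 c4 d1 d2
  push_cast at a1 a2 a3 a4 b1 b2 b3 b4 c1 c2 c3 c4 d1 d2
  norm_num [unitP] at a1 a2 a3 a4 b1 b2 b3 b4 c1 c2 c3 c4 d1 d2
  obtain ⟨P, hP⟩ : ∃ P : ℝ, P = 1048576 := ⟨_, rfl⟩
  have hP0 : 0 < P := by rw [hP]; norm_num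
  set z : ℝ := (L.zn : ℝ) / P with hz
  set lg : ℝ := (L.lg : ℝ) / P with hlg
  set lm : ℝ := (L.lm : ℝ) / P with hlm
  set k : ℝ := (L.k : ℝ) / P with hk
  have ez : (L.zn : ℝ) = P * z := by rw [hz, mul_div_cancel₀ _ hP0.ne']
  have eg : (L.lg : ℝ) = P * lg := by rw [hlg, mul_div_cancel₀ _ hP0.ne']
  have em : (L.lm : ℝ) = P * lm := by rw [hlm, mul_div_cancel₀ _ hP0.ne']
  have ek : (L.k : ℝ) = P * k := by rw [hk, mul_div_cancel₀ _ hP0.ne']
  have r1 : (0 : ℝ) < L.r1 := Nat.cast_pos.2 h1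
  have r2 : (0 : ℝ) < L.r2 := Nat.cast_pos.2 h2
  have r3 : (0 : ℝ) < L.r3 := Nat.cast_pos.2 h3
  have m1 : (0 : ℝ) ≤ (L.m1 : ℝ) * T 10 := by positivity
  have m2 : (0 : ℝ) ≤ (L.m2 : ℝ) * T 10 := by positivity
  have m3 : (0 : ℝ) ≤ (L.m3 : ℝ) * T 10 := by positivity
  simp only [ez, eg, em, ek, hP] at a1 a2 a3 a4 b1 b2 b3 b4 c1 c2 c3 c4 d1 d2
  set B := T 4 + lg * T 2 + lm * (z * T 6) with hB
  set C := T 5 + lg * (z * T 6) + lm * T 3 + k * B with hC
  set F := z * T 6 + k * T 2 with hF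
  set A := T 0 + z * T 1 + lg * (T 4 + B) + lm * (T 5 + (T 5 + lg * (z * T 6) + lm * T 3)) with hA
  set M' := T 3 + k * (z * T 6 + F) with hM'
  have hP3 : (0 : ℝ) < 1048576 ^ 3 := by norm_num
  have key1 : (L.r2 : ℝ) * |B| + L.r3 * |C| < L.r1 * A := by
    refine abs_row r2.le r3.le ?_ ?_ ?_ ?_ <;> refine pos_of_mul_pos_right (a := (1048576 : ℝ) ^ 3) ?_ hP3.le <;>
      simp only [hA, hC, hB] <;> linarith
  have key2 : (L.r1 : ℝ) * |B| + L.r3 * |F| < L.r2 * T 2 := by
    refine abs_row r1.le r3.le ?_ ?_ ?_ ?_ <;> refine pos_of_mul_pos_right (a := (1048576 : ℝ) ^ 3) ?_ hP3.le <;>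
      simp only [hF, hB] <;> linarith
  have key3 : (L.r1 : ℝ) * |C| + L.r2 * |F| < L.r3 * M' := by
    refine abs_row r1.le r2.le ?_ ?_ ?_ ?_ <;> refine pos_of_mul_pos_right (a := (1048576 : ℝ) ^ 3) ?_ hP3.le <;>
      simp only [hM', hF, hC, hB] <;> linarith
  obtain ⟨g1, g2, g3⟩ := block_pos_of_rows (E := T 0 + z * T 1) (G := T 2) (M := T 3) (X := T 4)
    (Y := T 5) (Z := z * T 6) (lg := lg) (lm := lm) (k := k) r1 r2 r3 key1 key2 key3
  refine ⟨z, g1, g2, g3, ?_, ?_⟩
  · exact le_of_lt (pos_of_mul_pos_right (a := (1048576 : ℝ)) (by linarith) (by norm_num))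
  · exact le_of_lt (pos_of_mul_pos_right (a := (1048576 : ℝ)) (by linarith) (by norm_num))

/-- Whether `p` and `q` are the two halves of `b` along `j`. -/
def splits (b p q : Box) (j : ℕ) : Bool :=
  let s := side b j
  let s1 := side p j
  let s2 := side q j
  ((List.range 5).all fun i =>
      decide (i = j) || (decide (side p i = side b i) && decide (side q i = side b i))) &&
    decide (0 < s.2.2) && decide (0 < s1.2.2) && decide (0 < s2.2.2) &&
    Nat.ble (s1.1 * s.2.2) (s.1 * s1.2.2) && Nat.ble (s.2.1 * s2.2.2) (s2.2.1 * s.2.2) &&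
    Nat.ble (s2.1 * s1.2.2) (s1.2.1 * s2.2.2)

theorem sound_node {R : List Slot} {b p q : Box} {j : ℕ} (h : splits b p q j = true)
    (hp : Sound R p) (hq : Sound R q) : Sound R b := by
  intro y T hy hn hf
  simp only [splits, Bool.and_eq_true, Bool.or_eq_true, decide_eq_true_eq, List.all_eq_true,
    List.mem_range, Nat.ble_eq] at h
  obtain ⟨⟨⟨⟨⟨⟨hrest, d0⟩, d1⟩, d2⟩, e1⟩, e2⟩, e3⟩ := h
  have E1 : ((side p j).1 : ℝ) * (side b j).2.2 ≤ (side b j).1 * (side p j).2.2 := by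
    exact_mod_cast e1
  have E2 : ((side b j).2.1 : ℝ) * (side q j).2.2 ≤ (side q j).2.1 * (side b j).2.2 := by
    exact_mod_cast e2
  have E3 : ((side q j).1 : ℝ) * (side p j).2.2 ≤ (side p j).2.1 * (side q j).2.2 := by
    exact_mod_cast e3
  have D0 : (0 : ℝ) < (side b j).2.2 := Nat.cast_pos.2 d0
  have D1 : (0 : ℝ) < (side p j).2.2 := Nat.cast_pos.2 d1
  have D2 : (0 : ℝ) < (side q j).2.2 := Nat.cast_pos.2 d2
  have other : ∀ i < 5, i ≠ j → side p i = side b i ∧ side q i = side b i := fun i hi hne =>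
    (hrest i hi).resolve_left hne
  by_cases hj : j < 5
  · obtain ⟨y1, y2⟩ := hy j hj
    by_cases hlt : y j * (side p j).2.2 < (side p j).2.1
    · refine hp y T (fun i hi => ?_) hn hf
      rcases eq_or_ne i j with rfl | hne
      · refine ⟨le_of_mul_le_mul_right ?_ D0, hlt⟩
        linarith [mul_le_mul_of_nonneg_right y1 D1.le]
      · rw [(other i hi hne).1]; exact hy i hi
    · refine hq y T (fun i hi => ?_) hn hf
      rcases eq_or_ne i j with rfl | hne
      · refine ⟨le_of_mul_le_mul_right ?_ D1, lt_of_mul_lt_mul_right ?_ D0.le⟩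
        · linarith [mul_le_mul_of_nonneg_right (not_lt.1 hlt) D2.le]
        · linarith [mul_lt_mul_of_pos_right y2 D2]
      · rw [(other i hi hne).2]; exact hy i hi
  · refine hp y T (fun i hi => ?_) hn hf
    rw [(other i hi (by omega)).1]; exact hy i hi

end Vale.Agent.P100.Calib.LowEnd
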