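import Vale.Agent.P100.Calib.SlabLowEndAtoms

/-!
# The chart in the polynomial coordinates

With `a = (S - d)/2`, `I = (1 - S)/2`, `w = 1 - u`, `X = d v` and `η = 1 - d H` the closed signs of
the chart are those of the values `v*`, the excess of the exponent being `max 0 (vK a I)`.
-/

set_option linter.unusedVariables false

namespace Vale.Agent.P100.Calib.LowEnd

open EndAll

/-- The point of a place of the chart. -/
noncomputable def ptOf5 (d S u v t : ℝ) : ℕ → ℝ := fun i =>
  if i = 0 then (S - d) / 2 else if i = 1 then (1 - S) / 2 else if i = 2 then 1 - u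
  else if i = 3 then d * v else 1 - d * Closed.chH d S u v t

/-- **The chart signs from the signs at the point.** -/
theorem chartSigns_of {d S u v t : ℝ} (hp : Pt (ptOf5 d S u v t))
    (h : let x := ptOf5 d S u v t
      ClosedGen.SignsMult (x 0) (vD (x 0) (x 1)) (vV (x 0) (x 1) (x 3))
        (vG (x 0) (x 1) (x 2) (x 3) (x 4)) (vW (x 0) (x 1) (x 4))
        (vW1 (x 0) (x 1) (x 2) (x 3) (x 4)) (vR (x 1) (x 2))
        (vNum (max 0 (vK (x 0) (x 1))) (x 0) (x 1) (x 2) (x 3) (x 4))) :
    Closed.All.ChartSigns d S u v t := by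
  have ha := hp.a_pos; have hI := hp.I_pos; have hd := hp.d_pos; have hb := hp.b_pos
  have hS := hp.S_pos; have hu := hp.u_pos; have hDn := hp.den_pos
  have hX := hp.X_pos
  simp only [ptOf5, OfNat.ofNat_ne_zero, one_ne_zero, if_false, if_true, ↓reduceIte,
    show (2 : ℕ) ≠ 1 by norm_num, show (3 : ℕ) ≠ 1 by norm_num,
    show (4 : ℕ) ≠ 1 by norm_num, show (3 : ℕ) ≠ 2 by norm_num, show (4 : ℕ) ≠ 2 by norm_num,
    show (4 : ℕ) ≠ 3 by norm_num] at h ha hI hd hb hS hu hDn hX
  have eS : vS ((1 - S) / 2) = S := by simp only [vS]; ring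
  have eB : vB ((S - d) / 2) ((1 - S) / 2) = (S + d) / 2 := by simp only [vB, eS]; ring
  have eD : vD ((S - d) / 2) ((1 - S) / 2) = d := by simp only [vD, eB]; ring
  rw [eS] at hS
  rw [eB] at hb
  rw [eD] at hd
  have hI' : (1 - S) ≠ 0 := by linarith
  have hu' : u ≠ 0 := by linarith
  set H := Closed.chH d S u v t with hH
  set a := (S - d) / 2 with haa
  have eden : vDen (1 - u) (d * v) (1 - d * H) = 2 + d * v - d * u * H := by
    simp only [vDen]; ring
  rw [eden] at hDn
  have ev : vV a ((1 - S) / 2) (d * v) = v := by rw [vV, eD]; field_simp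
  have eH : vH a ((1 - S) / 2) (1 - d * H) = H := by rw [vH, eD]; field_simp; ring
  have eG : Closed.chG d S u v t = vG a ((1 - S) / 2) (1 - u) (d * v) (1 - d * H) := by
    rw [vG, eden, eS, eB, Closed.chG, ← hH]
    field_simp
    ring
  have eW : Closed.chW d S u v t = vW a ((1 - S) / 2) (1 - d * H) := by
    rw [vW, eH, eS, Closed.chW, ← hH]; ring
  have e2S : (2 : ℝ) - S ≠ 0 := by linarith
  have et : t = (H - S * (1 + (1 - a) * v) / ((S + d) / 2 * (2 - S))) / u := by
    rw [hH, Closed.chH, ← haa, eq_div_iff hu']; ring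
  have eW1 : Closed.chW1 d S u v t = vW1 a ((1 - S) / 2) (1 - u) (d * v) (1 - d * H) := by
    rw [vW1, eH, ev, eS, eB, Closed.chW1, ← hH, ← haa, et,
      show (1 : ℝ) + 2 * ((1 - S) / 2) = 2 - S by ring, show (1 : ℝ) - (1 - u) = u by ring]
    field_simp
  have eR : Closed.chR S u = vR ((1 - S) / 2) (1 - u) := by
    rw [vR, eS, Closed.chR]; field_simp; ring
  have eN : allNum a d v (Closed.chW d S u v t) (Closed.chR S u) =
      vNum (max 0 (vK a ((1 - S) / 2))) a ((1 - S) / 2) (1 - u) (d * v) (1 - d * H) := by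
    have eab : a + d = (S + d) / 2 := by rw [haa]; ring
    have eDim : dimAll a d = 2 / (1 - S) := by
      rw [dimAll, eab, haa]; congr 1; ring
    have erw : 1 - Closed.chR S u * d * Closed.chW d S u v t =
        1 - u + (1 - (1 - u)) * (1 - d * H) := by
      rw [Closed.chR, Closed.chW, ← hH]
      field_simp
      ring
    have ek : AllN.kapAll (2 / (1 - S)) a + 1 = max 0 (vK a ((1 - S) / 2)) := by
      rw [AllN.kapAll, ← max_add_add_right, neg_add_cancel, vK, eS]
      congr 1
      have h2 : 2 / (1 - S) - 2 = 2 * S / (1 - S) := by field_simp; ring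
      rw [h2]
      field_simp
      ring
    simp only [allNum, eDim, erw, ek, eab, vNum, vG1, eD, eB, ClosedGen.Num.mk.injEq]
    refine ⟨trivial, ?_, ?_, trivial, ?_, ?_, ?_⟩ <;> field_simp <;> ring
  simp only [eD, ev] at h
  unfold Closed.All.ChartSigns
  rw [← haa, eG, eW1, eR]
  rw [eR] at eN
  rw [eN, eW]
  exact h

end Vale.Agent.P100.Calib.LowEnd
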