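import Vale.Agent.P100.Calib.SlabLowEndClipZero
import Vale.Agent.P100.Calib.SlabLowEndClipDataA
import Vale.Agent.P100.Calib.SlabLowEndClipDataB

/-!
# The entries `E`, `G` at excess zero are the integer polynomials
-/

set_option linter.unusedVariables false
set_option maxRecDepth 100000

namespace Vale.Agent.P100.Calib.LowEnd

open Pack EndAll

variable {x : ℕ → ℝ}


theorem form_Ec :
    checkForm 64 [9, 15, 5, 10, 3] [6, 13, 5, 8, 3] (fTE (Fn.int 0)) 5 qEc = true := by
  decide +kernel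

/-- The value of `qEc`. -/
theorem val_Ec (h : Pt x) (hx : ∀ i < 5, 0 ≤ x i) :
    tE 0 (x 0) (x 1) (x 2) (x 3) (x 4) * (5 : ℕ) = Dense.val x qEc :=
  value_of_checkForm form_Ec (h.rTE h.rk0) hx

theorem form_Gc :
    checkForm 66 [10, 14, 5, 11, 4] [6, 13, 5, 9, 4] (fTG (Fn.int 0)) 25 qGc = true := by
  decide +kernel

/-- The value of `qGc`. -/
theorem val_Gc (h : Pt x) (hx : ∀ i < 5, 0 ≤ x i) :
    tG 0 (x 0) (x 1) (x 2) (x 3) (x 4) * (25 : ℕ) = Dense.val x qGc :=
  value_of_checkForm form_Gc (h.rTG h.rk0) hx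

end Vale.Agent.P100.Calib.LowEnd
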