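import Vale.Agent.P100.Calib.SlabLowEndClipZero
import Vale.Agent.P100.Calib.SlabLowEndClipDataC
import Vale.Agent.P100.Calib.SlabLowEndClipDataD
import Vale.Agent.P100.Calib.SlabLowEndDataC

/-!
# The entries `X`, `Y`, `M`, `N`, `L` at excess zero are the integer polynomials
-/

set_option linter.unusedVariables false
set_option maxRecDepth 100000

namespace Vale.Agent.P100.Calib.LowEnd

open Pack EndAll

variable {x : ℕ → ℝ}


theorem form_Xc :
    checkForm 62 [9, 14, 4, 9, 3] [6, 13, 4, 8, 3] (fTX (Fn.int 0)) 5 qXc = true := by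
  decide +kernel

/-- The value of `qXc`. -/
theorem val_Xc (h : Pt x) (hx : ∀ i < 5, 0 ≤ x i) :
    tX 0 (x 0) (x 1) (x 2) (x 3) (x 4) * (5 : ℕ) = Dense.val x qXc :=
  value_of_checkForm form_Xc (h.rTX h.rk0) hx

theorem form_Nc :
    checkForm 62 [8, 14, 5, 10, 3] [6, 12, 5, 8, 3] (fTN (Fn.int 0)) 5 qNc = true := by
  decide +kernel

/-- The value of `qNc`. -/
theorem val_Nc (h : Pt x) (hx : ∀ i < 5, 0 ≤ x i) :
    tN 0 (x 0) (x 1) (x 2) (x 3) (x 4) * (5 : ℕ) = Dense.val x qNc :=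
  value_of_checkForm form_Nc (h.rTN h.rk0) hx

theorem form_Lc :
    checkForm 45 [7, 9, 2, 6, 2] [5, 8, 2, 4, 2] (fTL (Fn.int 0)) 5 qLc = true := by
  decide +kernel

/-- The value of `qLc`. -/
theorem val_Lc (h : Pt x) (hx : ∀ i < 5, 0 ≤ x i) :
    tL 0 (x 0) (x 1) (x 2) (x 3) (x 4) * (5 : ℕ) = Dense.val x qLc :=
  value_of_checkForm form_Lc (h.rTL h.rk0) hx

theorem form_Mc :
    checkForm 31 [5, 6, 2, 3, 2] [4, 5, 2, 3, 2] (fTM (Fn.int 0)) 1 qM = true := by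
  decide +kernel

/-- The value of `qM` at excess zero. -/
theorem val_Mc (h : Pt x) (hx : ∀ i < 5, 0 ≤ x i) :
    tM 0 (x 0) (x 1) (x 2) (x 3) (x 4) * (1 : ℕ) = Dense.val x qM :=
  value_of_checkForm form_Mc (h.rTM h.rk0) hx

theorem form_Yc :
    checkForm 43 [7, 10, 3, 5, 2] [5, 9, 3, 5, 2] (fTY (Fn.int 0)) 1 qY = true := by
  decide +kernel

/-- The value of `qY` at excess zero. -/
theorem val_Yc (h : Pt x) (hx : ∀ i < 5, 0 ≤ x i) :
    tY 0 (x 0) (x 1) (x 2) (x 3) (x 4) * (1 : ℕ) = Dense.val x qY :=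
  value_of_checkForm form_Yc (h.rTY h.rk0) hx

end Vale.Agent.P100.Calib.LowEnd
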