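import Vale.Agent.P100.Calib.SlabLowEndIdent
import Vale.Agent.P100.Calib.SlabLowEndClipIdentA
import Vale.Agent.P100.Calib.SlabLowEndClipIdentB

/-!
# The targets at excess zero are the integer polynomials

`M` and `Y` keep their lists; `Ez`, `Z` and `Lz` do not see the excess.
-/
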