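import Vale.Agent.P100.Calib.SlabLowEndForms

/-!
# The fraction of the excess zero
-/

set_option linter.unusedVariables false
set_option maxRecDepth 100000

namespace Vale.Agent.P100.Calib.LowEnd

open Pack EndAll

variable {x : ℕ → ℝ}

theorem Pt.rk0 (h : Pt x) : Rep atoms x 0 (Fn.int 0) (0 : ℝ) := by
  simpa using Rep.int h.pos 0

end Vale.Agent.P100.Calib.LowEnd
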