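import Vale.Agent.P100.Calib.SlabLowEndDomain

/-!
# The local coordinates of a root, the lower line checked on two halves of the `w` range
-/

set_option linter.unusedVariables false

namespace Vale.Agent.P100.Calib.LowEnd

open Pack Band

/-- The half `h` of the cube along the third coordinate. -/
def halfC (h : ℕ) : ℕ → Chart :=
  fun i => if i = 2 then ⟨(h : ℤ), (h : ℤ) + 1, 2, 2⟩ else ⟨0, 1, 1, 1⟩

/-- `e` is positive at `σ / D` on one half, and `D` is positive. -/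
def checkHalf (K : ℕ) (l : List ℕ) (D h : ℕ) (σ : ℕ → Ex) (e : Ex) : Bool :=
  decide (0 < D) && checkFastR (halfC h) 5 K l (subst D σ e).1

theorem pos_of_halves {K : ℕ} {l : List ℕ} {D : ℕ} {σ : ℕ → Ex} {e : Ex}
    (h0 : checkHalf K l D 0 σ e = true) (h1 : checkHalf K l D 1 σ e = true) {x y : ℕ → ℝ}
    (hσ : ∀ i, (σ i).eval y = x i * D) (hy : ∀ i < 5, 0 ≤ y i ∧ y i < 1) : 0 < e.eval x := by
  simp only [checkHalf, Bool.and_eq_true, decide_eq_true_eq] at h0 h1
  obtain ⟨hD, hc0⟩ := h0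
  obtain ⟨-, hc1⟩ := h1
  have key : ∀ h : ℕ, checkFastR (halfC h) 5 K l (subst D σ e).1 = true →
      (h : ℝ) ≤ 2 * y 2 → 2 * y 2 < (h : ℝ) + 1 → 0 < e.eval x := by
    intro h hc e1 e2
    have hp := pos_of_checkFastR (by norm_num) hc (x := y) fun i hi => by
      obtain ⟨g0, g1⟩ := hy i hi
      by_cases hi2 : i = 2
      · subst hi2
        have q : 0 ≤ (2 * y 2 - h) / ((h : ℝ) + 1 - 2 * y 2) :=
          div_nonneg (by linarith) (by linarith)
        refine ⟨_, q, ?_, ?_⟩ <;> simp only [halfC, if_true] <;> push_cast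
        · linarith
        · have : (h : ℝ) + 1 - 2 * y 2 ≠ 0 := by linarith
          field_simp
          ring
      · refine ⟨y i / (1 - y i), div_nonneg g0 (by linarith), ?_, ?_⟩ <;>
          simp only [halfC, if_neg hi2] <;> push_cast
        · have : 0 ≤ y i / (1 - y i) := div_nonneg g0 (by linarith)
          linarith
        · have : (1 : ℝ) - y i ≠ 0 := by linarith
          field_simp
          ring
    rw [eval_subst hσ] at hp
    exact pos_of_mul_pos_right hp (by positivity)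
  obtain ⟨g0, g1⟩ := hy 2 (by norm_num)
  rcases lt_or_ge (2 * y 2) 1 with h | h
  · exact key 0 hc0 (by push_cast; linarith) (by push_cast; linarith)
  · exact key 1 hc1 (by push_cast; linarith) (by push_cast; linarith)

namespace Par

variable (P : Par)

/-- The place checks, the second on two halves. -/
def checkDomainSplit (U L : MidBand) (al be : ℕ) (K : ℕ) (l1 l2 l3 l4 : List ℕ) : Bool :=
  decide (P.i0 < P.i1) && decide (P.a0 < P.a1) && decide (0 < P.emx) &&
    checkAt K l1 cden (P.common P.nU P.nH) (.sub (.mul xX eS) (.mul (.num 2) xI)) &&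
    checkHalf K l2 cden 0 (P.common (.mul (.var 3) P.nL) (.num 0)) (.mul (.num (-1)) (phi U)) &&
    checkHalf K l2 cden 1 (P.common (.mul (.var 3) P.nL) (.num 0)) (.mul (.num (-1)) (phi U)) &&
    checkAt K l3 cden (P.common P.nX (.num 16384)) (.mul (.num (-1)) (mix L al be)) &&
    checkAt K l4 cden (P.common P.nX (.num P.emx)) (.mul (.num (-1)) (mix L al be))

/-- **The local coordinates exist.** -/
theorem coord_ofSplit {L U : MidBand} {al be K : ℕ} {l1 l2 l3 l4 : List ℕ}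
    (hc : P.checkDomainSplit U L al be K l1 l2 l3 l4 = true) {x : ℕ → ℝ} (hp : Pt x) (hr : P.Range x)
    (hτ : 0 < eTau.eval x) (hη : x 4 < 1) (hup : 0 ≤ (eUp U).eval x) (hlow : 0 ≤ (eLow L).eval x)
    (hfl : 0 ≤ eFlow.eval x) (haX : x 0 * x 3 < vD (x 0) (x 1)) :
    ∃ y : ℕ → ℝ, (∀ i < 5, 0 ≤ y i ∧ y i < 1) ∧ Coord P.sig x y := by
  simp only [checkDomainSplit, Bool.and_eq_true, decide_eq_true_eq] at hc
  obtain ⟨⟨⟨⟨⟨⟨⟨hi, ha⟩, he⟩, c1⟩, c2⟩, c2b⟩, c3⟩, c4⟩ := hc
  obtain ⟨r1, r2, r3, r4, r5, r6⟩ := hr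
  have hia : (0 : ℝ) < (P.i1 : ℝ) - P.i0 := sub_pos.2 (Nat.cast_lt.2 hi)
  have haa : (0 : ℝ) < (P.a1 : ℝ) - P.a0 := sub_pos.2 (Nat.cast_lt.2 ha)
  set y0 := ((x 0 - cond P.diag (x 1) 0) * 3000 - P.a0) / ((P.a1 : ℝ) - P.a0) with hy0
  set y1 := (x 1 * 3000 - P.i0) / ((P.i1 : ℝ) - P.i0) with hy1
  set y2 := x 2 * 1024 / 26 with hy2
  have b0 : 0 ≤ y0 ∧ y0 < 1 := ⟨div_nonneg (by linarith) haa.le, (div_lt_one haa).2 (by linarith)⟩
  have b1 : 0 ≤ y1 ∧ y1 < 1 := ⟨div_nonneg (by linarith) hia.le, (div_lt_one hia).2 (by linarith)⟩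
  have b2 : 0 ≤ y2 ∧ y2 < 1 := ⟨div_nonneg (by linarith) (by norm_num),
    (div_lt_one (by norm_num)).2 r6⟩
  let mk : ℝ → ℝ → ℕ → ℝ := fun c d i =>
    if i = 0 then y0 else if i = 1 then y1 else if i = 2 then y2 else if i = 3 then c else
      if i = 4 then d else 0
  have hmk : ∀ {c d : ℝ}, 0 ≤ c ∧ c < 1 → 0 ≤ d ∧ d < 1 → ∀ i < 5, 0 ≤ mk c d i ∧ mk c d i < 1 := by
    intro c d hc hd i hi
    interval_cases i <;> simp [mk, b0, b1, b2, hc, hd]
  set xl := lineAt P.l0 P.la P.li P.lw (mk 0 0) / 65536 with hxl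
  set xu := lineAt P.u0 P.ua P.ui P.uw (mk 0 0) / 65536 with hxu
  have eL : ∀ c d, P.nL.eval (mk c d) = xl * 65536 := fun c d => by
    rw [nL, eval_line, hxl]; simp [lineAt, mk]
  have eU' : ∀ c d, P.nU.eval (mk c d) = xu * 65536 := fun c d => by
    rw [nU, eval_line, hxu]; simp [lineAt, mk]
  have eA : ∀ c d, P.nA.eval (mk c d) = x 0 * 3000 ∧ P.nI.eval (mk c d) = x 1 * 3000 ∧
      nW.eval (mk c d) = x 2 * 1024 := fun c d => by
    have k0 : ((P.a1 : ℝ) - P.a0) * y0 = (x 0 - cond P.diag (x 1) 0) * 3000 - P.a0 := by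
      rw [hy0, mul_div_cancel₀ _ haa.ne']
    have k1 : ((P.i1 : ℝ) - P.i0) * y1 = x 1 * 3000 - P.i0 := by
      rw [hy1, mul_div_cancel₀ _ hia.ne']
    refine ⟨?_, ?_, ?_⟩
    · cases hd : P.diag <;> simp [nA, nA0, nI, hd, Ex.eval, mk] <;> simp [hd] at k0 <;> linarith
    · simp [nI, Ex.eval, mk]; linarith
    · simp [nW, Ex.eval, mk, hy2]; ring
  have com : ∀ (X η c d : ℝ) (eX eH : Ex), eX.eval (mk c d) = X * 65536 →
      eH.eval (mk c d) = η * 16384 → ∀ i, (P.common eX eH i).eval (mk c d) =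
        setXH x X η i * cden := by
    intro X η c d eX eH h3 h4 i
    obtain ⟨h0, h1, h2⟩ := eA c d
    match i with
    | 0 => simp [common, Ex.eval, h0, cden, setXH]; ring
    | 1 => simp [common, Ex.eval, h1, cden, setXH]; ring
    | 2 => simp [common, Ex.eval, h2, cden, setXH]; ring
    | 3 => simp [common, Ex.eval, h3, cden, setXH]; ring
    | 4 => simp [common, Ex.eval, h4, cden, setXH]; ring
    | i + 5 => simp [common, Ex.eval, setXH]
  have emxr : (0 : ℝ) < P.emx := Nat.cast_pos.2 he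
  have hS := hp.S_pos
  simp [vS] at hS
  have hXU : x 3 < xu := by
    have h := pos_of_checkAt c1 (com xu 0 0 0 P.nU P.nH (eU' 0 0) (by simp [nH, Ex.eval, mk]))
      (hmk ⟨le_rfl, one_pos⟩ ⟨le_rfl, one_pos⟩)
    simp [Ex.eval, eS, setXH] at h
    simp [eTau, eS, Ex.eval] at hτ
    refine lt_of_mul_lt_mul_right (a := 1 - 2 * x 1) ?_ (by linarith)
    linarith
  have hXL : xl ≤ x 3 := by
    by_contra hlt
    replace hlt := not_le.1 hlt
    have hx3 := hp.X_pos
    have hxl0 : 0 < xl := hx3.trans hlt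
    set c := x 3 / xl with hc
    have bc : 0 ≤ c ∧ c < 1 := ⟨div_nonneg hx3.le hxl0.le, (div_lt_one hxl0).2 hlt⟩
    have h := pos_of_halves c2 c2b (com (x 3) 0 c 0 (.mul (.var 3) P.nL) (.num 0)
      (by simp only [Ex.eval, eL]; rw [show mk c 0 3 = c by simp [mk], hc]; field_simp) (by simp [Ex.eval]))
      (hmk bc ⟨le_rfl, one_pos⟩)
    have hn := phi_nonneg (U := U) hp haX hup hfl
    simp only [Ex.eval] at h
    push_cast at h
    linarith
  set c := (x 3 - xl) / (xu - xl) with hc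
  have hlu : 0 < xu - xl := by linarith
  have bc : 0 ≤ c ∧ c < 1 := ⟨div_nonneg (by linarith) hlu.le, (div_lt_one hlu).2 (by linarith)⟩
  have eX : ∀ d, P.nX.eval (mk c d) = x 3 * 65536 := fun d => by
    simp only [nX, Ex.eval, eL, eU']
    rw [show mk c d 3 = c by simp [mk], hc]
    field_simp
    ring
  have hemx : x 4 * 16384 < P.emx := by
    have h1 := pos_of_checkAt c3 (com (x 3) 1 c 0 P.nX (.num 16384) (eX 0) (by simp [Ex.eval]))
      (hmk bc ⟨le_rfl, one_pos⟩)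
    have h2 := pos_of_checkAt c4 (com (x 3) (P.emx / 16384) c 0 P.nX (.num P.emx) (eX 0)
      (by simp [Ex.eval])) (hmk bc ⟨le_rfl, one_pos⟩)
    simp only [Ex.eval] at h1 h2
    push_cast at h1 h2
    have := mix_bound (e := (P.emx : ℝ) / 16384) hη hlow hfl (by linarith) (by linarith)
    exact (lt_div_iff₀ (by norm_num)).1 this
  set d := x 4 * 16384 / P.emx with hd
  have bd : 0 ≤ d ∧ d < 1 := ⟨div_nonneg (by linarith [hp.eta_nonneg]) emxr.le,
    (div_lt_one emxr).2 hemx⟩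
  refine ⟨mk c d, hmk bc bd, fun i hi => ⟨(hmk bc bd i hi).1, (hmk bc bd i hi).2.le⟩,
    fun i hi => ?_⟩
  obtain ⟨h0, h1, h2⟩ := eA c d
  interval_cases i
  · simpa [sig, sigN, sigD] using h0
  · simpa [sig, sigN, sigD] using h1
  · simpa [sig, sigN, sigD] using h2
  · simpa [sig, sigN, sigD] using eX d
  · simp [sig, sigN, sigD, nH, Ex.eval, mk, hd]; field_simp

end Par

end Vale.Agent.P100.Calib.LowEnd
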