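import Vale.Agent.P100.Calib.SlabLowEndCert

/-!
# Leaves with a fact on each row

In the corner near `a = 3/10`, `N = 7` each row of a leaf may use a multiple of one fact, an empty
box a combination of two facts.
-/

set_option linter.unusedVariables false

namespace Vale.Agent.P100.Calib.LowEnd

open Pack

/-- A leaf with one fact, given by slot and multiple, on each of the five rows. -/
structure LeafF where
  /-- the constants -/
  main : Leaf
  f1 : ℕ × ℕ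
  f2 : ℕ × ℕ
  f3 : ℕ × ℕ
  f4 : ℕ × ℕ
  f5 : ℕ × ℕ

/-- A multiple of a fact taken from a combination. -/
def less (f : ℕ × ℕ) (c : List ℤ) : List ℤ := vadd c (vsmul (-(f.2 : ℤ)) (ev1 f.1))

namespace LeafF

variable (F : LeafF)

/-- All combinations of a leaf. -/
def combos : List (List ℤ) :=
  let L := F.main
  [less F.f1 (L.row1 1 1), less F.f1 (L.row1 1 (-1)), less F.f1 (L.row1 (-1) 1),
    less F.f1 (L.row1 (-1) (-1)), less F.f2 (L.row2 1 1), less F.f2 (L.row2 1 (-1)),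
    less F.f2 (L.row2 (-1) 1), less F.f2 (L.row2 (-1) (-1)), less F.f3 (L.row3 1 1),
    less F.f3 (L.row3 1 (-1)), less F.f3 (L.row3 (-1) 1), less F.f3 (L.row3 (-1) (-1)),
    less F.f4 (vadd (vsmul unitP (ev1 7)) (vsmul L.zn (ev1 1))),
    less F.f5 (vadd (vsmul unitP (ev1 8)) (vsmul L.zn (ev1 9)))]

end LeafF

/-- The slot is that of a fact. -/
def isFact (R : List Slot) (f : ℕ × ℕ) : Bool := Nat.ble 10 f.1 && Nat.blt f.1 R.length

theorem pos_of_less {R : List Slot} {f : ℕ × ℕ} {c : List ℤ} {T : ℕ → ℝ}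
    (hf : isFact R f = true) (hT : ∀ q, 10 ≤ q → q < R.length → 0 ≤ T q)
    (h : 0 < lv (less f c) T) : 0 < lv c T := by
  simp only [isFact, Bool.and_eq_true, Nat.ble_eq, Nat.blt_eq] at hf
  rw [less, lv_vadd, lv_vsmul, lv_ev1] at h
  push_cast at h
  have h2 := mul_nonneg (Nat.cast_nonneg' (α := ℝ) f.2) (hT _ hf.1 hf.2)
  linarith

/-- **The check of a leaf.** -/
noncomputable def checkLeafF (K : ℕ) (R : List Slot) (b : Box) (F : LeafF) : Bool :=
  boxOk b && decide (0 < F.main.r1) && decide (0 < F.main.r2) && decide (0 < F.main.r3) &&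
    decide (F.main.m1 = 0 ∧ F.main.m2 = 0 ∧ F.main.m3 = 0) &&
    [F.f1, F.f2, F.f3, F.f4, F.f5].all (isFact R) &&
    F.combos.all fun c => checkPos (boxChart b) K R c

/-- The check of an empty box: a positive combination of two facts is negative. -/
noncomputable def checkEmpty2 (K : ℕ) (R : List Slot) (b : Box) (f g : ℕ × ℕ) : Bool :=
  boxOk b && isFact R f && isFact R g &&
    checkPos (boxChart b) K R (vadd (vsmul (-(f.2 : ℤ)) (ev1 f.1)) (vsmul (-(g.2 : ℤ)) (ev1 g.1)))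

theorem sound_empty2 {K : ℕ} {R : List Slot} {b : Box} {f g : ℕ × ℕ} (hR : rootOk R = true)
    (h : checkEmpty2 K R b f g = true) : Sound R b := by
  intro y T hy hn hf
  simp only [checkEmpty2, isFact, Bool.and_eq_true, Nat.ble_eq, Nat.blt_eq] at h
  obtain ⟨⟨⟨hb, h1, h2⟩, h3, h4⟩, hc⟩ := h
  have := pos_of_checkPos hR hc hn (box_point hb hy)
  rw [lv_vadd, lv_vsmul, lv_vsmul, lv_ev1, lv_ev1] at this
  push_cast at this
  have q1 := mul_nonneg (Nat.cast_nonneg' (α := ℝ) f.2) (hf _ h1 h2)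
  have q2 := mul_nonneg (Nat.cast_nonneg' (α := ℝ) g.2) (hf _ h3 h4)
  linarith

/-- The positive block from the fourteen combinations. -/
theorem block_of_combos {L : Leaf} {T : ℕ → ℝ} (h1 : 0 < L.r1) (h2 : 0 < L.r2) (h3 : 0 < L.r3)
    (hm : L.m1 = 0 ∧ L.m2 = 0 ∧ L.m3 = 0) (hp : ∀ c ∈ L.combos, 0 < lv c T) : BlockPos T := by
  have a1 := hp (L.row1 1 1) (by simp [Leaf.combos])
  have a2 := hp (L.row1 1 (-1)) (by simp [Leaf.combos])
  have a3 := hp (L.row1 (-1) 1) (by simp [Leaf.combos])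
  have a4 := hp (L.row1 (-1) (-1)) (by simp [Leaf.combos])
  have b1 := hp (L.row2 1 1) (by simp [Leaf.combos])
  have b2 := hp (L.row2 1 (-1)) (by simp [Leaf.combos])
  have b3 := hp (L.row2 (-1) 1) (by simp [Leaf.combos])
  have b4 := hp (L.row2 (-1) (-1)) (by simp [Leaf.combos])
  have c1 := hp (L.row3 1 1) (by simp [Leaf.combos])
  have c2 := hp (L.row3 1 (-1)) (by simp [Leaf.combos])
  have c3 := hp (L.row3 (-1) 1) (by simp [Leaf.combos])
  have c4 := hp (L.row3 (-1) (-1)) (by simp [Leaf.combos])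
  have d1 := hp (vadd (vsmul unitP (ev1 7)) (vsmul L.zn (ev1 1))) (by simp [Leaf.combos])
  have d2 := hp (vadd (vsmul unitP (ev1 8)) (vsmul L.zn (ev1 9))) (by simp [Leaf.combos])
  simp only [Leaf.row1, Leaf.row2, Leaf.row3, Leaf.vEn, Leaf.vMn, Leaf.vEM, Leaf.vE, Leaf.vEG,
    Leaf.vY0, Leaf.vGM, lv_vadd, lv_vsmul, lv_ev1] at a1 a2 a3 a4 b1 b2 b3 b4 c1 c2 c3 c4 d1 d2
  push_cast at a1 a2 a3 a4 b1 b2 b3 b4 c1 c2 c3 c4 d1 d2
  norm_num [unitP] at a1 a2 a3 a4 b1 b2 b3 b4 c1 c2 c3 c4 d1 d2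
  obtain ⟨P, hP⟩ : ∃ P : ℝ, P = 1048576 := ⟨_, rfl⟩
  have hP0 : 0 < P := by rw [hP]; norm_num
  set z : ℝ := (L.zn : ℝ) / P with hz
  set lg : ℝ := (L.lg : ℝ) / P with hlg
  set lm : ℝ := (L.lm : ℝ) / P with hlm
  set k : ℝ := (L.k : ℝ) / P with hk
  have ez : (L.zn : ℝ) = P * z := by rw [hz, mul_div_cancel₀ _ hP0.ne']
  have eg : (L.lg : ℝ) = P * lg := by rw [hlg, mul_div_cancel₀ _ hP0.ne']
  have em : (L.lm : ℝ) = P * lm := by rw [hlm, mul_div_cancel₀ _ hP0.ne']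
  have ek : (L.k : ℝ) = P * k := by rw [hk, mul_div_cancel₀ _ hP0.ne']
  have r1 : (0 : ℝ) < L.r1 := Nat.cast_pos.2 h1
  have r2 : (0 : ℝ) < L.r2 := Nat.cast_pos.2 h2
  have r3 : (0 : ℝ) < L.r3 := Nat.cast_pos.2 h3
  simp only [ez, eg, em, ek, hP, hm.1, hm.2.1, hm.2.2, Nat.cast_zero, neg_zero, zero_mul, add_zero] at a1 a2 a3 a4 b1 b2 b3 b4 c1 c2 c3 c4 d1 d2
  set B := T 4 + lg * T 2 + lm * (z * T 6) with hB
  set C := T 5 + lg * (z * T 6) + lm * T 3 + k * B with hC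
  set F := z * T 6 + k * T 2 with hF
  set A := T 0 + z * T 1 + lg * (T 4 + B) + lm * (T 5 + (T 5 + lg * (z * T 6) + lm * T 3)) with hA
  set M' := T 3 + k * (z * T 6 + F) with hM'
  have hP3 : (0 : ℝ) < 1048576 ^ 3 := by norm_num
  have key1 : (L.r2 : ℝ) * |B| + L.r3 * |C| < L.r1 * A := by
    refine abs_row r2.le r3.le ?_ ?_ ?_ ?_ <;> refine pos_of_mul_pos_right (a := (1048576 : ℝ) ^ 3) ?_ hP3.le <;>
      simp only [hA, hC, hB] <;> linarith
  have key2 : (L.r1 : ℝ) * |B| + L.r3 * |F| < L.r2 * T 2 := by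
    refine abs_row r1.le r3.le ?_ ?_ ?_ ?_ <;> refine pos_of_mul_pos_right (a := (1048576 : ℝ) ^ 3) ?_ hP3.le <;>
      simp only [hF, hB] <;> linarith
  have key3 : (L.r1 : ℝ) * |C| + L.r2 * |F| < L.r3 * M' := by
    refine abs_row r1.le r2.le ?_ ?_ ?_ ?_ <;> refine pos_of_mul_pos_right (a := (1048576 : ℝ) ^ 3) ?_ hP3.le <;>
      simp only [hM', hF, hC, hB] <;> linarith
  obtain ⟨g1, g2, g3⟩ := block_pos_of_rows (E := T 0 + z * T 1) (G := T 2) (M := T 3) (X := T 4)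
    (Y := T 5) (Z := z * T 6) (lg := lg) (lm := lm) (k := k) r1 r2 r3 key1 key2 key3
  refine ⟨z, g1, g2, g3, ?_, ?_⟩
  · exact le_of_lt (pos_of_mul_pos_right (a := (1048576 : ℝ)) (by linarith) (by norm_num))
  · exact le_of_lt (pos_of_mul_pos_right (a := (1048576 : ℝ)) (by linarith) (by norm_num))

theorem sound_leafF {K : ℕ} {R : List Slot} {b : Box} {F : LeafF} (hR : rootOk R = true)
    (h : checkLeafF K R b F = true) : Sound R b := by
  intro y T hy hn hf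
  simp only [checkLeafF, Bool.and_eq_true, decide_eq_true_eq, List.all_eq_true] at h
  obtain ⟨⟨⟨⟨⟨⟨hb, h1⟩, h2⟩, h3⟩, hm⟩, hs⟩, hc⟩ := h
  have hp : ∀ f ∈ [F.f1, F.f2, F.f3, F.f4, F.f5], ∀ c, less f c ∈ F.combos → 0 < lv c T :=
    fun f hmem c hin => pos_of_less (hs f hmem) hf
      (pos_of_checkPos hR (hc _ hin) hn (box_point hb hy))
  refine block_of_combos h1 h2 h3 hm fun c hcm => ?_
  simp only [Leaf.combos, List.mem_cons, List.not_mem_nil, or_false] at hcm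
  rcases hcm with rfl | rfl | rfl | rfl | rfl | rfl | rfl | rfl | rfl | rfl | rfl | rfl | rfl | rfl
  iterate 4 exact hp F.f1 (by simp) _ (by simp [LeafF.combos])
  iterate 4 exact hp F.f2 (by simp) _ (by simp [LeafF.combos])
  iterate 4 exact hp F.f3 (by simp) _ (by simp [LeafF.combos])
  · exact hp F.f4 (by simp) _ (by simp [LeafF.combos])
  · exact hp F.f5 (by simp) _ (by simp [LeafF.combos])

/-- The whole cube. -/
def cube : Box := [(0, 1, 1), (0, 1, 1), (0, 1, 1), (0, 1, 1), (0, 1, 1)]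

end Vale.Agent.P100.Calib.LowEnd
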