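import Vale.Agent.P100.Calib.SlabLowEndPlace
import Vale.Agent.P100.Calib.SlabLowEndCornerLeaf
import Vale.Agent.P100.Calib.SlabLowEndCornerDomain
import Vale.Agent.P100.Calib.SlabLowEndClipIdent

/-!
# The signs at a place of a corner root

In the clip the excess of the exponent is zero, with its own lists.
-/

set_option linter.unusedVariables false

namespace Vale.Agent.P100.Calib.LowEnd

open Pack Band EndAll

/-- The sources start with the ten targets at excess zero and their denominators. -/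
def headOkC (L : List Src) : Prop :=
  ∃ (Q : List Src), ∃ (D : Fin 10 → Src), L = List.ofFn D ++ Q ∧
    (D 0).P = qEc ∧ (D 0).den = 5 ∧ (D 1).P = qEz ∧ (D 1).den = 1 ∧ (D 2).P = qGc ∧
    (D 2).den = 25 ∧ (D 3).P = qM ∧ (D 3).den = 1 ∧ (D 4).P = qXc ∧ (D 4).den = 5 ∧
    (D 5).P = qY ∧ (D 5).den = 1 ∧ (D 6).P = qZ ∧ (D 6).den = 8 ∧ (D 7).P = qNc ∧
    (D 7).den = 5 ∧ (D 8).P = qLc ∧ (D 8).den = 5 ∧ (D 9).P = qLz ∧ (D 9).den = 2

theorem valueAt_targetsC {L : List Src} (h : headOkC L) {x : ℕ → ℝ} (hp : Pt x) :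
    let k := (0 : ℝ)
    valueAt L x 0 = tE k (x 0) (x 1) (x 2) (x 3) (x 4) ∧
      valueAt L x 1 = tEz (x 0) (x 1) (x 2) (x 3) (x 4) ∧
      valueAt L x 2 = tG k (x 0) (x 1) (x 2) (x 3) (x 4) ∧
      valueAt L x 3 = tM k (x 0) (x 1) (x 2) (x 3) (x 4) ∧
      valueAt L x 4 = tX k (x 0) (x 1) (x 2) (x 3) (x 4) ∧
      valueAt L x 5 = tY k (x 0) (x 1) (x 2) (x 3) (x 4) ∧
      valueAt L x 6 = tZ (x 0) (x 1) (x 2) (x 3) (x 4) ∧
      valueAt L x 7 = tN k (x 0) (x 1) (x 2) (x 3) (x 4) ∧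
      valueAt L x 8 = tL k (x 0) (x 1) (x 2) (x 3) (x 4) ∧
      valueAt L x 9 = tLz (x 0) (x 1) (x 2) (x 3) (x 4) := by
  obtain ⟨Q, D, rfl, p0, d0, p1, d1, p2, d2, p3, d3, p4, d4, p5, d5, p6, d6, p7, d7, p8, d8, p9,
    d9⟩ := h
  have hx := nonneg_coord hp
  simp only [valueAt, List.ofFn_succ, List.ofFn_zero, List.cons_append, List.getElem?_cons_zero,
    List.getElem?_cons_succ, Src.value]
  simp only [Fin.succ_zero_eq_one, Fin.succ_one_eq_two]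
  refine ⟨?_, ?_, ?_, ?_, ?_, ?_, ?_, ?_, ?_, ?_⟩
  · rw [p0, d0, ← val_Ec hp hx]; push_cast; ring
  · rw [p1, d1, ← val_Ez hp hx]; push_cast; ring
  · rw [p2, d2, ← val_Gc hp hx]; push_cast; ring
  · rw [show (Fin.succ 2 : Fin 10) = 3 from rfl, p3, d3, ← val_Mc hp hx]; push_cast; ring
  · rw [show ((Fin.succ 2).succ : Fin 10) = 4 from rfl, p4, d4, ← val_Xc hp hx]; push_cast; ring
  · rw [show ((Fin.succ 2).succ.succ : Fin 10) = 5 from rfl, p5, d5, ← val_Yc hp hx]; push_cast; ring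
  · rw [show ((Fin.succ 2).succ.succ.succ : Fin 10) = 6 from rfl, p6, d6, ← val_Z hp hx]
    push_cast; ring
  · rw [show ((Fin.succ 2).succ.succ.succ.succ : Fin 10) = 7 from rfl, p7, d7, ← val_Nc hp hx]
    push_cast; ring
  · rw [show ((Fin.succ 2).succ.succ.succ.succ.succ : Fin 10) = 8 from rfl, p8, d8, ← val_Lc hp hx]
    push_cast; ring
  · rw [show ((Fin.succ 2).succ.succ.succ.succ.succ.succ : Fin 10) = 9 from rfl, p9, d9,
      ← val_Lz hp hx]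
    push_cast; ring

/-- The block at a place of a root whose local coordinates lie in `bx`. -/
theorem block_at {P : Par} {b bx : Box} {Ls : List Src} {R : List Slot}
    (hcov : P.boxCovers b = true)
    (hnear : ∀ {x y : ℕ → ℝ}, InBox b x → Coord P.sig x y → Near R y (valueAt Ls x))
    (hlen : Ls.length = R.length) (hsound : Sound R bx)
    {L U : MidBand} {al be K : ℕ} {l1 l2 l3 l4 : List ℕ}
    (hdom : P.checkDomainSplit U L al be K l1 l2 l3 l4 = true) {x : ℕ → ℝ} (hp : Pt x) (hr : P.Range x)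
    (hτ : 0 < eTau.eval x) (hη : x 4 < 1) (hup : 0 ≤ (eUp U).eval x)
    (hlow : 0 ≤ (eLow L).eval x) (hfl : 0 ≤ eFlow.eval x)
    (haX : x 0 * x 3 < vD (x 0) (x 1))
    (hbx : ∀ y : ℕ → ℝ, (∀ i < 5, 0 ≤ y i ∧ y i < 1) → Coord P.sig x y → InBox bx y)
    (hfacts : FactsOk Ls x) : BlockPos (valueAt Ls x) := by
  obtain ⟨y, hy, hc⟩ := P.coord_ofSplit hdom hp hr hτ hη hup hlow hfl haX
  exact hsound y _ (hbx y hy hc) (hnear (Par.inBox hcov hy hc) hc) fun q q1 q2 =>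
    facts_nonneg hfacts q q1 (hlen.symm ▸ q2)

theorem inBox_cube {y : ℕ → ℝ} (hy : ∀ i < 5, 0 ≤ y i ∧ y i < 1) : InBox cube y := by
  intro i hi
  obtain ⟨h0, h1⟩ := hy i hi
  interval_cases i <;> simp [cube, side, h0, h1]

/-- The signs off the clip. -/
theorem signs_of_blockPos {Ls : List Src} (hhead : headOk Ls) {x : ℕ → ℝ} (hp : Pt x)
    (haX : x 0 * x 3 < vD (x 0) (x 1)) (hk : 0 ≤ vK (x 0) (x 1))
    (h : BlockPos (valueAt Ls x)) :
    ClosedGen.SignsMult (x 0) (vD (x 0) (x 1)) (vV (x 0) (x 1) (x 3))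
      (vG (x 0) (x 1) (x 2) (x 3) (x 4)) (vW (x 0) (x 1) (x 4))
      (vW1 (x 0) (x 1) (x 2) (x 3) (x 4)) (vR (x 1) (x 2))
      (vNum (max 0 (vK (x 0) (x 1))) (x 0) (x 1) (x 2) (x 3) (x 4)) := by
  obtain ⟨z, hG, h2, h3, hN, hL⟩ := h
  obtain ⟨e0, e1, e2, e3, e4, e5, e6, e7, e8, e9⟩ := valueAt_targets hhead hp
  rw [max_eq_right hk]
  rw [e2] at hG
  rw [e0, e1, e2, e4] at h2
  rw [e0, e1, e2, e3, e4, e5, e6] at h3
  rw [e7, e1] at hN
  rw [e8, e9] at hL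
  exact signs_of_block hp _ z haX hG h2 h3 hN hL

/-- The signs in the clip. -/
theorem signs_of_blockPosC {Ls : List Src} (hhead : headOkC Ls) {x : ℕ → ℝ} (hp : Pt x)
    (haX : x 0 * x 3 < vD (x 0) (x 1)) (hk : vK (x 0) (x 1) ≤ 0)
    (h : BlockPos (valueAt Ls x)) :
    ClosedGen.SignsMult (x 0) (vD (x 0) (x 1)) (vV (x 0) (x 1) (x 3))
      (vG (x 0) (x 1) (x 2) (x 3) (x 4)) (vW (x 0) (x 1) (x 4))
      (vW1 (x 0) (x 1) (x 2) (x 3) (x 4)) (vR (x 1) (x 2))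
      (vNum (max 0 (vK (x 0) (x 1))) (x 0) (x 1) (x 2) (x 3) (x 4)) := by
  obtain ⟨z, hG, h2, h3, hN, hL⟩ := h
  obtain ⟨e0, e1, e2, e3, e4, e5, e6, e7, e8, e9⟩ := valueAt_targetsC hhead hp
  rw [max_eq_left hk]
  rw [e2] at hG
  rw [e0, e1, e2, e4] at h2
  rw [e0, e1, e2, e3, e4, e5, e6] at h3
  rw [e7, e1] at hN
  rw [e8, e9] at hL
  exact signs_of_block hp _ z haX hG h2 h3 hN hL

end Vale.Agent.P100.Calib.LowEnd
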