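import Vale.Agent.P100.Calib.SlabLowEndFactData
import Vale.Agent.P100.Calib.SlabMidCornerExpr

/-!
# The facts of the corner as coefficient lists

The pole `a X < d`, the sign of the excess of the exponent and the lower band of the corner.
-/

set_option maxRecDepth 100000

namespace Vale.Agent.P100.Calib.LowEnd

open Pack Band

/-- `d - a X`. -/
def eAX : Ex := .sub eD (.mul xA xX)
/-- `S ^ 2 - 2 a (1 - I)`: positive off the clip. -/
def eKPos : Ex := .sub (.mul eS eS) (.mul (.num 2) (.mul xA (.sub (.num 1) xI)))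
/-- Positive in the clip. -/
def eKNeg : Ex := .sub (.mul (.num 2) (.mul xA (.sub (.num 1) xI))) (.mul eS eS)
theorem eAX_eval (x : ℕ → ℝ) : eAX.eval x = vD (x 0) (x 1) - x 0 * x 3 := by
  simp [eAX, eD, eB, eS, Ex.eval, vD, vB, vS]

theorem eKPos_nonneg {x : ℕ → ℝ} (hp : Pt x) (h : 0 ≤ vK (x 0) (x 1)) : 0 ≤ eKPos.eval x := by
  have hS := hp.S_pos
  rw [vK, sub_nonneg, div_div, div_le_one (mul_pos hS hS)] at h
  simp [eKPos, eS, Ex.eval, vS] at h ⊢
  linarith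

theorem eKNeg_nonneg {x : ℕ → ℝ} (hp : Pt x) (h : vK (x 0) (x 1) ≤ 0) : 0 ≤ eKNeg.eval x := by
  have hS := hp.S_pos
  rw [vK, sub_nonpos, div_div, one_le_div (mul_pos hS hS)] at h
  simp [eKNeg, eS, Ex.eval, vS] at h ⊢
  linarith

variable {x : ℕ → ℝ}

/-- The coefficients of the lower band of the corner. -/
def qLowD : Dense.Q5 :=
  [[[[[(0,0),(0,1000)],[(0,1000)]]],[[[(3213,0),(2000,0)],[(4780,0)]],[[(0,1006)],[(0,270)]],[[(360,
  0)],[(290,0)]],[[(646,0)]]],[[[(0,27329)],[(0,2990)]],[[(32939,0)],[(0,8290)]],[[(0,21026)],[(4750,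
  0)]],[[(1943,0)]]],[[[(101695,0)]],[[(0,138530)]],[[(83478,0)]],[[(0,19108)]]],[[[(0,119778)]],
  [[(153352,0)]],[[(0,85732)]],[[(25276,0)]]]],[[[[(0,0),(2000,0)],[(1000,0)]],[[(1000,0),(0,
  1000)]]],[[[(0,20684)],[(5800,0)]],[[(47191,0)],[(0,2320)]],[[(0,43173)],[(0,7160)]],[[(11236,
  0)]]],[[[(117166,0)],[(0,45750)]],[[(0,274928)],[(1910,0)]],[[(234386,0)],[(45010,0)]],[[(0,
  63808)]]],[[[(0,213466)]],[[(398784,0)]],[[(0,303468)]],[[(89840,0)]]]],[[],[[[(66944,0)]],[[(0,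
  177395)]],[[(155961,0)]],[[(0,45867)]]],[[[(0,170544)]],[[(419506,0)]],[[(0,359846)]],[[(106186,
  0)]]]],[[],[[[(0,76856)]],[[(174074,0)]],[[(0,142110)]],[[(41622,0)]]]]]

theorem poly_LowD : checkPoly 60 [4, 5, 4, 2, 2] [3, 4, 3, 1, 1] (eLow midLowD) (.num 1) qLowD = true := by decide +kernel

theorem val_LowD (hx : ∀ i < 5, 0 ≤ x i) : Dense.val x qLowD = (eLow midLowD).eval x := by
  simpa [Ex.eval] using (eval_of_checkPoly poly_LowD hx).symm

/-- The coefficients of the `eAX`. -/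
def qAX : Dense.Q5 :=
  [[[[[(1,0)]]],[[[(0,2)]]]],[[[[(0,2)],[(0,1)]]]]]

theorem poly_AX : checkPoly 32 [2, 2, 1, 2, 1] [1, 1, 0, 1, 0] eAX (.num 1) qAX = true := by decide +kernel

theorem val_AX (hx : ∀ i < 5, 0 ≤ x i) : Dense.val x qAX = eAX.eval x := by
  simpa [Ex.eval] using (eval_of_checkPoly poly_AX hx).symm

/-- The coefficients of the `eKPos`. -/
def qKPos : Dense.Q5 :=
  [[[[[(1,0)]]],[[[(0,4)]]],[[[(4,0)]]]],[[[[(0,2)]]],[[[(2,0)]]]]]

theorem poly_KPos : checkPoly 32 [2, 3, 1, 1, 1] [1, 2, 0, 0, 0] eKPos (.num 1) qKPos = true := by decide +kernel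

theorem val_KPos (hx : ∀ i < 5, 0 ≤ x i) : Dense.val x qKPos = eKPos.eval x := by
  simpa [Ex.eval] using (eval_of_checkPoly poly_KPos hx).symm

/-- The coefficients of the `eKNeg`. -/
def qKNeg : Dense.Q5 :=
  [[[[[(0,1)]]],[[[(4,0)]]],[[[(0,4)]]]],[[[[(2,0)]]],[[[(0,2)]]]]]

theorem poly_KNeg : checkPoly 32 [2, 3, 1, 1, 1] [1, 2, 0, 0, 0] eKNeg (.num 1) qKNeg = true := by decide +kernel

theorem val_KNeg (hx : ∀ i < 5, 0 ≤ x i) : Dense.val x qKNeg = eKNeg.eval x := by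
  simpa [Ex.eval] using (eval_of_checkPoly poly_KNeg hx).symm

end Vale.Agent.P100.Calib.LowEnd
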