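import Vale.Agent.P100.Calib.SlabLowEndCornerCert
import Vale.Agent.P100.Calib.SlabLowEndC0Near
import Vale.Agent.P100.Calib.SlabLowEndC0Cover
import Vale.Agent.P100.Calib.SlabLowEndC1Near
import Vale.Agent.P100.Calib.SlabLowEndC1Cover
import Vale.Agent.P100.Calib.SlabLowEndC2Near
import Vale.Agent.P100.Calib.SlabLowEndC2Cover
import Vale.Agent.P100.Calib.SlabLowEndC3Near
import Vale.Agent.P100.Calib.SlabLowEndC3Cover
import Vale.Agent.P100.Calib.SlabLowEndC4Near
import Vale.Agent.P100.Calib.SlabLowEndC4Cover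
import Vale.Agent.P100.Calib.SlabLowEndC5Near
import Vale.Agent.P100.Calib.SlabLowEndC5Cover
import Vale.Agent.P100.Calib.SlabLowEndC6Near
import Vale.Agent.P100.Calib.SlabLowEndC6Cover

/-!
# The signs at the places of the corner roots
-/

set_option maxRecDepth 100000

namespace Vale.Agent.P100.Calib.LowEnd

open Pack Band EndAll

/-- What is used at a place of the corner. -/
structure CornerFacts (x : ℕ → ℝ) : Prop where
  pt : Pt x
  tau : 0 < eTau.eval x
  eta : x 4 < 1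
  up : 0 ≤ (eUp midUpC).eval x
  low : 0 ≤ (eLow midLowC).eval x
  flow : 0 ≤ eFlow.eval x
  ev : 0 ≤ eEv.eval x
  haX : x 0 * x 3 < vD (x 0) (x 1)

/-- The signs at a point of the corner. -/
def CornerSigns (x : ℕ → ℝ) : Prop :=
  ClosedGen.SignsMult (x 0) (vD (x 0) (x 1)) (vV (x 0) (x 1) (x 3))
    (vG (x 0) (x 1) (x 2) (x 3) (x 4)) (vW (x 0) (x 1) (x 4))
    (vW1 (x 0) (x 1) (x 2) (x 3) (x 4)) (vR (x 1) (x 2))
    (vNum (max 0 (vK (x 0) (x 1))) (x 0) (x 1) (x 2) (x 3) (x 4))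

/-- The local coordinate of `w`. -/
theorem coord_w {P : Par} {x y : ℕ → ℝ} (hc : Coord P.sig x y) : 26 * y 2 = x 2 * 1024 := by
  simpa [Par.sig, sigN, sigD, Par.nW, Ex.eval] using hc.2 2 (by norm_num)

theorem inBox_low {P : Par} {x : ℕ → ℝ} (hw : x 2 * 32768 < 494) :
    ∀ y : ℕ → ℝ, (∀ i < 5, 0 ≤ y i ∧ y i < 1) → Coord P.sig x y →
      InBox [(0, 1, 1), (0, 1, 1), (0, 19, 32), (0, 1, 1), (0, 1, 1)] y := by
  intro y hy hc i hi
  obtain ⟨h0, h1⟩ := hy i hi
  have := coord_w hc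
  interval_cases i <;> simp [side, h0, h1]
  linarith

theorem inBox_high {P : Par} {x : ℕ → ℝ} (hw : 494 ≤ x 2 * 32768) :
    ∀ y : ℕ → ℝ, (∀ i < 5, 0 ≤ y i ∧ y i < 1) → Coord P.sig x y →
      InBox [(0, 1, 1), (0, 1, 1), (19, 32, 32), (0, 1, 1), (0, 1, 1)] y := by
  intro y hy hc i hi
  obtain ⟨h0, h1⟩ := hy i hi
  have := coord_w hc
  interval_cases i <;> simp [side, h0, h1]
  linarith

theorem c0_dom : c0P.checkDomainSplit midUpC midLowC 2 1 344
    [1, 2, 1, 0, 0] [5, 6, 5, 2, 0] [3, 4, 3, 2, 0] [3, 4, 3, 2, 0] = true := by decide +kernel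

/-- The signs in corner root 0. -/
theorem c0_signs {x : ℕ → ℝ} (hr : c0P.Range x) (h : CornerFacts x) (hk : 0 ≤ vK (x 0) (x 1)) :
    CornerSigns x := by
  have hx := nonneg_coord h.pt
  refine signs_of_blockPos (Ls := c0L) ⟨[c0D10, c0D11, c0D12, c0D13],
      ![c0D0, c0D1, c0D2, c0D3, c0D4, c0D5, c0D6, c0D7, c0D8, c0D9],
      rfl, rfl, rfl, rfl, rfl, rfl, rfl, rfl, rfl, rfl, rfl, rfl, rfl, rfl, rfl, rfl, rfl, rfl, rfl,
      rfl, rfl⟩ h.pt h.haX hk
    (block_at (P := c0P) (by decide +kernel : Par.boxCovers c0P c0B = true) c0_near (by rfl)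
      c0_sound c0_dom h.pt hr h.tau h.eta h.up h.low h.flow h.haX (fun y hy _ => inBox_cube hy) ?_)
  intro D hD'
  simp only [c0L, List.drop_succ_cons, List.drop_zero, List.mem_cons, List.not_mem_nil,
    or_false] at hD'
  rcases hD' with rfl | rfl | rfl | rfl
  · show 0 ≤ Dense.val x qFlow
    rw [val_Flow hx]
    exact h.flow
  · show 0 ≤ Dense.val x qEv
    rw [val_Ev hx]
    exact h.ev
  · show 0 ≤ Dense.val x qUpC
    rw [val_UpC hx]
    exact h.up
  · show 0 ≤ Dense.val x qLowC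
    rw [val_LowC hx]
    exact h.low

theorem c1_dom : c1P.checkDomainSplit midUpC midLowC 1 1 344
    [1, 2, 1, 0, 0] [5, 6, 5, 2, 0] [3, 4, 3, 2, 0] [3, 4, 3, 2, 0] = true := by decide +kernel

/-- The signs in corner root 1. -/
theorem c1_signs {x : ℕ → ℝ} (hr : c1P.Range x) (h : CornerFacts x) (hk : 0 ≤ vK (x 0) (x 1)) :
    CornerSigns x := by
  have hx := nonneg_coord h.pt
  refine signs_of_blockPos (Ls := c1L) ⟨[c1D10, c1D11, c1D12, c1D13, c1D14],
      ![c1D0, c1D1, c1D2, c1D3, c1D4, c1D5, c1D6, c1D7, c1D8, c1D9],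
      rfl, rfl, rfl, rfl, rfl, rfl, rfl, rfl, rfl, rfl, rfl, rfl, rfl, rfl, rfl, rfl, rfl, rfl, rfl,
      rfl, rfl⟩ h.pt h.haX hk
    (block_at (P := c1P) (by decide +kernel : Par.boxCovers c1P c1B = true) c1_near (by rfl)
      c1_sound c1_dom h.pt hr h.tau h.eta h.up h.low h.flow h.haX (fun y hy _ => inBox_cube hy) ?_)
  intro D hD'
  simp only [c1L, List.drop_succ_cons, List.drop_zero, List.mem_cons, List.not_mem_nil,
    or_false] at hD'
  rcases hD' with rfl | rfl | rfl | rfl | rfl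
  · show 0 ≤ Dense.val x qFlow
    rw [val_Flow hx]
    exact h.flow
  · show 0 ≤ Dense.val x qEv
    rw [val_Ev hx]
    exact h.ev
  · show 0 ≤ Dense.val x qUpC
    rw [val_UpC hx]
    exact h.up
  · show 0 ≤ Dense.val x qLowC
    rw [val_LowC hx]
    exact h.low
  · show 0 ≤ Dense.val x qKPos
    rw [val_KPos hx]
    exact eKPos_nonneg h.pt hk

theorem c2_dom : c2P.checkDomainSplit midUpC midLowC 1 1 344
    [1, 2, 1, 0, 0] [5, 6, 5, 2, 0] [3, 4, 3, 2, 0] [3, 4, 3, 2, 0] = true := by decide +kernel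

/-- The signs in corner root 2. -/
theorem c2_signs {x : ℕ → ℝ} (hr : c2P.Range x) (h : CornerFacts x) (hk : 0 ≤ vK (x 0) (x 1)) :
    CornerSigns x := by
  have hx := nonneg_coord h.pt
  refine signs_of_blockPos (Ls := c2L) ⟨[c2D10, c2D11, c2D12, c2D13, c2D14],
      ![c2D0, c2D1, c2D2, c2D3, c2D4, c2D5, c2D6, c2D7, c2D8, c2D9],
      rfl, rfl, rfl, rfl, rfl, rfl, rfl, rfl, rfl, rfl, rfl, rfl, rfl, rfl, rfl, rfl, rfl, rfl, rfl,
      rfl, rfl⟩ h.pt h.haX hk
    (block_at (P := c2P) (by decide +kernel : Par.boxCovers c2P c2B = true) c2_near (by rfl)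
      c2_sound c2_dom h.pt hr h.tau h.eta h.up h.low h.flow h.haX (fun y hy _ => inBox_cube hy) ?_)
  intro D hD'
  simp only [c2L, List.drop_succ_cons, List.drop_zero, List.mem_cons, List.not_mem_nil,
    or_false] at hD'
  rcases hD' with rfl | rfl | rfl | rfl | rfl
  · show 0 ≤ Dense.val x qFlow
    rw [val_Flow hx]
    exact h.flow
  · show 0 ≤ Dense.val x qEv
    rw [val_Ev hx]
    exact h.ev
  · show 0 ≤ Dense.val x qUpC
    rw [val_UpC hx]
    exact h.up
  · show 0 ≤ Dense.val x qLowC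
    rw [val_LowC hx]
    exact h.low
  · show 0 ≤ Dense.val x qKPos
    rw [val_KPos hx]
    exact eKPos_nonneg h.pt hk

theorem c3_dom : c3P.checkDomainSplit midUpC midLowC 1 2 344
    [1, 2, 1, 0, 0] [5, 6, 5, 2, 0] [3, 4, 3, 2, 0] [3, 4, 3, 2, 0] = true := by decide +kernel

/-- The signs in corner root 3. -/
theorem c3_signs {x : ℕ → ℝ} (hr : c3P.Range x) (h : CornerFacts x) (hk : 0 ≤ vK (x 0) (x 1)) :
    CornerSigns x := by
  have hx := nonneg_coord h.pt
  refine signs_of_blockPos (Ls := c3L) ⟨[c3D10, c3D11, c3D12, c3D13, c3D14],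
      ![c3D0, c3D1, c3D2, c3D3, c3D4, c3D5, c3D6, c3D7, c3D8, c3D9],
      rfl, rfl, rfl, rfl, rfl, rfl, rfl, rfl, rfl, rfl, rfl, rfl, rfl, rfl, rfl, rfl, rfl, rfl, rfl,
      rfl, rfl⟩ h.pt h.haX hk
    (block_at (P := c3P) (by decide +kernel : Par.boxCovers c3P c3B = true) c3_near (by rfl)
      c3_sound c3_dom h.pt hr h.tau h.eta h.up h.low h.flow h.haX (fun y hy _ => inBox_cube hy) ?_)
  intro D hD'
  simp only [c3L, List.drop_succ_cons, List.drop_zero, List.mem_cons, List.not_mem_nil,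
    or_false] at hD'
  rcases hD' with rfl | rfl | rfl | rfl | rfl
  · show 0 ≤ Dense.val x qFlow
    rw [val_Flow hx]
    exact h.flow
  · show 0 ≤ Dense.val x qEv
    rw [val_Ev hx]
    exact h.ev
  · show 0 ≤ Dense.val x qUpC
    rw [val_UpC hx]
    exact h.up
  · show 0 ≤ Dense.val x qLowC
    rw [val_LowC hx]
    exact h.low
  · show 0 ≤ Dense.val x qKPos
    rw [val_KPos hx]
    exact eKPos_nonneg h.pt hk

theorem c4_dom : c4P.checkDomainSplit midUpC midLowC 1 1 344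
    [1, 2, 1, 0, 0] [5, 6, 5, 2, 0] [3, 4, 3, 2, 0] [3, 4, 3, 2, 0] = true := by decide +kernel

/-- The signs in corner root 4. -/
theorem c4_signs {x : ℕ → ℝ} (hr : c4P.Range x) (h : CornerFacts x) (hk : vK (x 0) (x 1) ≤ 0) :
    CornerSigns x := by
  have hx := nonneg_coord h.pt
  refine signs_of_blockPosC (Ls := c4L) ⟨[c4D10, c4D11, c4D12, c4D13, c4D14],
      ![c4D0, c4D1, c4D2, c4D3, c4D4, c4D5, c4D6, c4D7, c4D8, c4D9],
      rfl, rfl, rfl, rfl, rfl, rfl, rfl, rfl, rfl, rfl, rfl, rfl, rfl, rfl, rfl, rfl, rfl, rfl, rfl,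
      rfl, rfl⟩ h.pt h.haX hk
    (block_at (P := c4P) (by decide +kernel : Par.boxCovers c4P c4B = true) c4_near (by rfl)
      c4_sound c4_dom h.pt hr h.tau h.eta h.up h.low h.flow h.haX (fun y hy _ => inBox_cube hy) ?_)
  intro D hD'
  simp only [c4L, List.drop_succ_cons, List.drop_zero, List.mem_cons, List.not_mem_nil,
    or_false] at hD'
  rcases hD' with rfl | rfl | rfl | rfl | rfl
  · show 0 ≤ Dense.val x qFlow
    rw [val_Flow hx]
    exact h.flow
  · show 0 ≤ Dense.val x qEv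
    rw [val_Ev hx]
    exact h.ev
  · show 0 ≤ Dense.val x qUpC
    rw [val_UpC hx]
    exact h.up
  · show 0 ≤ Dense.val x qLowC
    rw [val_LowC hx]
    exact h.low
  · show 0 ≤ Dense.val x qKNeg
    rw [val_KNeg hx]
    exact eKNeg_nonneg h.pt hk

theorem c5_dom : c5P.checkDomainSplit midUpC midLowC 1 1 344
    [1, 2, 1, 0, 0] [5, 6, 5, 2, 0] [3, 4, 3, 2, 0] [3, 4, 3, 2, 0] = true := by decide +kernel

/-- The signs in corner root 5. -/
theorem c5_signs {x : ℕ → ℝ} (hr : c5P.Range x) (h : CornerFacts x) (hk : vK (x 0) (x 1) ≤ 0) :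
    CornerSigns x := by
  have hx := nonneg_coord h.pt
  refine signs_of_blockPosC (Ls := c5L) ⟨[c5D10, c5D11, c5D12, c5D13, c5D14],
      ![c5D0, c5D1, c5D2, c5D3, c5D4, c5D5, c5D6, c5D7, c5D8, c5D9],
      rfl, rfl, rfl, rfl, rfl, rfl, rfl, rfl, rfl, rfl, rfl, rfl, rfl, rfl, rfl, rfl, rfl, rfl, rfl,
      rfl, rfl⟩ h.pt h.haX hk
    (block_at (P := c5P) (by decide +kernel : Par.boxCovers c5P c5B = true) c5_near (by rfl)
      c5_sound c5_dom h.pt hr h.tau h.eta h.up h.low h.flow h.haX (fun y hy _ => inBox_cube hy) ?_)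
  intro D hD'
  simp only [c5L, List.drop_succ_cons, List.drop_zero, List.mem_cons, List.not_mem_nil,
    or_false] at hD'
  rcases hD' with rfl | rfl | rfl | rfl | rfl
  · show 0 ≤ Dense.val x qFlow
    rw [val_Flow hx]
    exact h.flow
  · show 0 ≤ Dense.val x qEv
    rw [val_Ev hx]
    exact h.ev
  · show 0 ≤ Dense.val x qUpC
    rw [val_UpC hx]
    exact h.up
  · show 0 ≤ Dense.val x qLowC
    rw [val_LowC hx]
    exact h.low
  · show 0 ≤ Dense.val x qKNeg
    rw [val_KNeg hx]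
    exact eKNeg_nonneg h.pt hk

theorem c6_dom : c6P.checkDomainSplit midUpC midLowC 1 2 344
    [1, 2, 1, 0, 0] [5, 6, 5, 2, 0] [3, 4, 3, 2, 0] [3, 4, 3, 2, 0] = true := by decide +kernel

/-- The signs in corner root 6 near w = 0. -/
theorem c6lo_signs {x : ℕ → ℝ} (hr : c6P.Range x) (h : CornerFacts x) (hk : vK (x 0) (x 1) ≤ 0) (hw : x 2 * 32768 < 494) :
    CornerSigns x := by
  have hx := nonneg_coord h.pt
  refine signs_of_blockPosC (Ls := c6Llo) ⟨[c6D10, c6D11, c6D12, c6D13, c6D14],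
      ![c6D0, c6D1, c6D2, c6D3, c6D4, c6D5, c6D6, c6D7, c6D8, c6D9],
      rfl, rfl, rfl, rfl, rfl, rfl, rfl, rfl, rfl, rfl, rfl, rfl, rfl, rfl, rfl, rfl, rfl, rfl, rfl,
      rfl, rfl⟩ h.pt h.haX hk
    (block_at (P := c6P) (by decide +kernel : Par.boxCovers c6P c6B = true) c6_nearlo (by rfl)
      c6_soundlo c6_dom h.pt hr h.tau h.eta h.up h.low h.flow h.haX (inBox_low hw) ?_)
  intro D hD'
  simp only [c6Llo, List.drop_succ_cons, List.drop_zero, List.mem_cons, List.not_mem_nil,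
    or_false] at hD'
  rcases hD' with rfl | rfl | rfl | rfl | rfl
  · show 0 ≤ Dense.val x qFlow
    rw [val_Flow hx]
    exact h.flow
  · show 0 ≤ Dense.val x qEv
    rw [val_Ev hx]
    exact h.ev
  · show 0 ≤ Dense.val x qUpC
    rw [val_UpC hx]
    exact h.up
  · show 0 ≤ Dense.val x qLowC
    rw [val_LowC hx]
    exact h.low
  · show 0 ≤ Dense.val x qAX
    rw [val_AX hx, eAX_eval]
    exact sub_nonneg.2 h.haX.le

/-- The signs in corner root 6 away from w = 0. -/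
theorem c6hi_signs {x : ℕ → ℝ} (hr : c6P.Range x) (h : CornerFacts x) (hk : vK (x 0) (x 1) ≤ 0)
    (hw : 494 ≤ x 2 * 32768) (hD : 0 ≤ (eLow midLowD).eval x) :
    CornerSigns x := by
  have hx := nonneg_coord h.pt
  refine signs_of_blockPosC (Ls := c6L) ⟨[c6D10, c6D11, c6D12, c6D13, c6D14, c6D15],
      ![c6D0, c6D1, c6D2, c6D3, c6D4, c6D5, c6D6, c6D7, c6D8, c6D9],
      rfl, rfl, rfl, rfl, rfl, rfl, rfl, rfl, rfl, rfl, rfl, rfl, rfl, rfl, rfl, rfl, rfl, rfl, rfl,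
      rfl, rfl⟩ h.pt h.haX hk
    (block_at (P := c6P) (by decide +kernel : Par.boxCovers c6P c6B = true) c6_near (by rfl)
      c6_sound c6_dom h.pt hr h.tau h.eta h.up h.low h.flow h.haX (inBox_high hw) ?_)
  intro D hD'
  simp only [c6L, List.drop_succ_cons, List.drop_zero, List.mem_cons, List.not_mem_nil,
    or_false] at hD'
  rcases hD' with rfl | rfl | rfl | rfl | rfl | rfl
  · show 0 ≤ Dense.val x qFlow
    rw [val_Flow hx]
    exact h.flow
  · show 0 ≤ Dense.val x qEv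
    rw [val_Ev hx]
    exact h.ev
  · show 0 ≤ Dense.val x qUpC
    rw [val_UpC hx]
    exact h.up
  · show 0 ≤ Dense.val x qLowC
    rw [val_LowC hx]
    exact h.low
  · show 0 ≤ Dense.val x qAX
    rw [val_AX hx, eAX_eval]
    exact sub_nonneg.2 h.haX.le
  · show 0 ≤ Dense.val x qLowD
    rw [val_LowD hx]
    exact hD

end Vale.Agent.P100.Calib.LowEnd
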