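import Vale.Agent.P100.Calib.SlabLowEndPoly

/-!
# A polynomial after a multilinear substitution, up to a tolerance

`checkSub` compares `Dn S(σ)` with `kap S'` coefficientwise, `Dn` the product of the denominators of
`σ` to the degrees of `S`; so the two differ by at most `eps 7 ^ 5` on the unit cube. The degree in
each coordinate is bounded by the total degree of `S`.
-/

namespace Vale.Agent.P100.Calib.LowEnd

open Pack

/-- The degree bound of one level. -/
def tl {α : Type} (g : α → ℕ) : List α → ℕ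
  | [] => 0
  | [c] => g c
  | c :: l => max (g c) (1 + tl g l)

/-- The total degree. -/
def tdeg (p : Dense.Q5) : ℕ := tl (fun p1 => tl (fun p2 => tl (fun p3 => tl (fun p4 =>
  tl (fun _ => 0) p4) p3) p2) p1) p

theorem fits_levR_tl {α : Type} {m : ℕ} {f : α → Rep m} {g : α → ℕ} {N D : Rep m}
    (hf : ∀ c, Fits m (fun _ => g c) (f c)) (hN : Fits m (fun _ => 1) N)
    (hD : Fits m (fun _ => 0) D) : ∀ (l : List α) (n : ℕ),
      Fits m (fun _ => tl g l) (Dense.levR f N D l n)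
  | [], _ => fits_cst m _ 0
  | [c], n => fits_mono m (fun _ => by simp [tl]) (fits_mul m (hf c) (fits_rpow m hD n))
  | c :: c' :: l, n => by
    refine fits_add m (fits_mono m (fun _ => ?_) (fits_mul m (hf c) (fits_rpow m hD n)))
      (fits_mono m (fun _ => ?_) (fits_mul m hN (fits_levR_tl hf hN hD (c' :: l) (n - 1))))
    · simp [tl]
    · simp [tl]

theorem fits_ev5R_tdeg {n : ℕ → ℕ} {N D : ℕ → Rep 5} (hN : ∀ i, Fits 5 (fun _ => 1) (N i))
    (hD : ∀ i, Fits 5 (fun _ => 0) (D i)) (p : Dense.Q5) :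
    Fits 5 (fun _ => tdeg p) (Dense.ev5R n N D p) :=
  fits_levR_tl (fun p1 => fits_levR_tl (fun p2 => fits_levR_tl (fun p3 => fits_levR_tl (fun p4 =>
    fits_levR_tl (fun c => fits_cst 5 _ _) (hN 4) (hD 4) p4 _) (hN 3) (hD 3) p3 _) (hN 2) (hD 2)
      p2 _) (hN 1) (hD 1) p1 _) (hN 0) (hD 0) p _

/-- `1 + x + ... + x ^ k`. -/
def geo (i : ℕ) : ℕ → Ex
  | 0 => .num 1
  | k + 1 => .add (.num 1) (.mul (.var i) (geo i k))

/-- All monomials of degree at most six in each coordinate. -/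
def onesEx : Ex :=
  .mul (geo 0 6) (.mul (geo 1 6) (.mul (geo 2 6) (.mul (geo 3 6) (geo 4 6))))

/-- The pair of an integer. -/
def pr (z : ℤ) : ℕ × ℕ := (z.toNat, (-z).toNat)

theorem vz_pr (z : ℤ) : Dense.vz (pr z) = z := Int.toNat_sub_toNat_neg z

/-- The numerator of the substitution: one linear form for each coordinate. -/
abbrev Sig := List (Ex × ℕ)

/-- Its numerators. -/
def sigN (σ : Sig) (i : ℕ) : Ex := (σ.getD i (.num 0, 1)).1
/-- Its denominators. -/
def sigD (σ : Sig) (i : ℕ) : ℕ := (σ.getD i (.num 0, 1)).2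

/-- The packing point of the degree six in each coordinate. -/
def six : List ℕ := [6, 6, 6, 6, 6]

/-- The packed value of `sgn (S(σ) - kap S') + eps ones`. -/
noncomputable def subAt (K : ℕ) (σ : Sig) (n : List ℕ) (S : Dense.Q5) (kap : ℕ) (S' : Dense.Q5)
    (eps : ℕ) (sgn : ℤ) : ℤ :=
  sgn * (Dense.vz (Dense.ev5 (Dense.pt.degOf n)
        (fun i => pr (hom idC 5 (base K 5 (Dense.pt.degOf six)) (sigN σ i))) (sigD σ) S) -
      (kap : ℤ) * Dense.vz (Dense.ev5 (Dense.pt.degOf six)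
        (fun i => Dense.cN idChart (Dense.pt K six i))
        (fun i => Dense.cD idChart (Dense.pt K six i)) S')) +
    (eps : ℤ) * hom idC 5 (base K 5 (Dense.pt.degOf six)) onesEx

/-- A bound of the coefficient sum. -/
def subBd (σ : Sig) (n : List ℕ) (S : Dense.Q5) (kap : ℕ) (S' : Dense.Q5) (eps : ℕ) : ℕ :=
  (List.range 5).foldr (fun i r =>
      (max (bound idC 5 (sigN σ i)) (sigD σ i)) ^ Dense.pt.degOf n i * r) (Dense.size S) +
    kap * Dense.size S' + eps * bound idC 5 onesEx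

/-- One sign. -/
noncomputable def checkSub1 (K : ℕ) (σ : Sig) (n : List ℕ) (S : Dense.Q5) (kap : ℕ)
    (S' : Dense.Q5) (eps : ℕ) (sgn : ℤ) : Bool :=
  decide (0 ≤ subAt K σ n S kap S' eps sgn) &&
    maskDigits K ((6 + 1) * width 4 (Dense.pt.degOf six)) (subAt K σ n S kap S' eps sgn).toNat

/-- **The check.** -/
noncomputable def checkSub (K : ℕ) (σ : Sig) (n : List ℕ) (S : Dense.Q5) (kap : ℕ) (S' : Dense.Q5)
    (eps : ℕ) : Bool :=
  decide (1 ≤ K) && decide (σ.length = 5) && decide (tdeg S ≤ 6) &&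
    Dense.shape (Dense.pt.degOf n) S && Dense.shape (Dense.pt.degOf six) S' &&
    (σ.all fun s => s.1.ok 5 && decide (1 ≤ s.2) &&
      (List.range 5).all fun j => decide (s.1.deg j ≤ 1)) &&
    Nat.ble (2 * subBd σ n S kap S' eps + 1) (2 ^ K) &&
    checkSub1 K σ n S kap S' eps 1 && checkSub1 K σ n S kap S' eps (-1)

/-- The product of the denominators. -/
def sigDn (σ : Sig) (n : List ℕ) : ℕ :=
  sigD σ 0 ^ Dense.pt.degOf n 0 * sigD σ 1 ^ Dense.pt.degOf n 1 * sigD σ 2 ^ Dense.pt.degOf n 2 *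
    sigD σ 3 ^ Dense.pt.degOf n 3 * sigD σ 4 ^ Dense.pt.degOf n 4

theorem ones_le {y : ℕ → ℝ} (h : ∀ i < 5, 0 ≤ y i ∧ y i ≤ 1) :
    onesEx.eval y ≤ 16807 := by
  have g : ∀ i < 5, 0 ≤ (geo i 6).eval y ∧ (geo i 6).eval y ≤ 7 := fun i hi => by
    obtain ⟨h0, h1⟩ := h i hi
    have : ∀ k, 0 ≤ (geo i k).eval y ∧ (geo i k).eval y ≤ k + 1 := fun k => by
      induction k with
      | zero => simp [geo, Ex.eval]
      | succ k ih =>
        simp only [geo, Ex.eval, Int.cast_one]
        have := mul_nonneg h0 ih.1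
        have := mul_le_mul h1 ih.2 ih.1 zero_le_one
        push_cast
        constructor <;> linarith
    exact ⟨(this 6).1, (this 6).2.trans (by norm_num)⟩
  simp only [onesEx, Ex.eval]
  have := g 0 (by norm_num); have := g 1 (by norm_num); have := g 2 (by norm_num)
  have := g 3 (by norm_num); have := g 4 (by norm_num)
  calc _ ≤ (7 : ℝ) * (7 * (7 * (7 * 7))) := by
        have n34 := mul_nonneg (g 3 (by norm_num)).1 (g 4 (by norm_num)).1
        have n234 := mul_nonneg (g 2 (by norm_num)).1 n34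
        have n1234 := mul_nonneg (g 1 (by norm_num)).1 n234
        gcongr <;> first | assumption | (exact (g _ (by norm_num)).2) | (exact (g _ (by norm_num)).1)
    _ = 16807 := by norm_num

/-- **The substitution up to the tolerance.** -/
theorem abs_of_checkSub {K : ℕ} {σ : Sig} {n : List ℕ} {S S' : Dense.Q5} {kap eps : ℕ}
    (h : checkSub K σ n S kap S' eps = true) {x y : ℕ → ℝ} (hy : ∀ i < 5, 0 ≤ y i ∧ y i ≤ 1)
    (hx : ∀ i < 5, (sigN σ i).eval y = x i * sigD σ i) :
    |(sigDn σ n : ℝ) * Dense.val x S - kap * Dense.val y S'| ≤ (eps : ℝ) * 16807 := by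
  simp only [checkSub, checkSub1, Bool.and_eq_true, decide_eq_true_eq, List.all_eq_true,
    List.mem_range, Nat.ble_eq] at h
  obtain ⟨⟨⟨⟨⟨⟨⟨⟨hK, hlen⟩, ht⟩, hsh⟩, hsh'⟩, hσ⟩, hb⟩, hp⟩, hn⟩ := h
  set D6 := Dense.pt.degOf six
  have hs : ∀ i, (sigN σ i).ok 5 = true ∧ 1 ≤ sigD σ i ∧
      ∀ j < 5, (sigN σ i).deg j ≤ 1 := fun i => by
    rcases lt_or_ge i 5 with hi | hi
    · have hm : σ.getD i (.num 0, 1) ∈ σ := by
        rw [List.getD_eq_getElem?_getD, List.getElem?_eq_getElem (by omega)]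
        exact List.getElem_mem _
      obtain ⟨⟨h1, h2⟩, h3⟩ := hσ _ hm
      exact ⟨h1, h2, h3⟩
    · have he : σ.getD i (.num 0, 1) = (.num 0, 1) := by
        rw [List.getD_eq_getElem?_getD, List.getElem?_eq_none (by omega)]; rfl
      simp only [sigN, sigD, he]
      exact ⟨rfl, le_rfl, fun j _ => by simp [Ex.deg]⟩
  set Nf : ℕ → Rep 5 := fun i => rep idC 5 (sigN σ i)
  set Df : ℕ → Rep 5 := fun i => cst 5 (sigD σ i : ℤ)
  set RS := Dense.ev5R (Dense.pt.degOf n) Nf Df S
  set RS' := Dense.ev5R D6 (fun i => lin 5 i idChart.a idChart.b)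
    (fun i => lin 5 i idChart.c idChart.d) S'
  set R : ℤ → Rep 5 := fun sg => add 5 (mul 5 (cst 5 sg) (add 5 RS
    (mul 5 (cst 5 (-(kap : ℤ))) RS'))) (mul 5 (cst 5 (eps : ℤ)) (rep idC 5 onesEx))
  have hnS : nrm 5 RS ≤ (List.range 5).foldr (fun i r =>
      (max (bound idC 5 (sigN σ i)) (sigD σ i)) ^ Dense.pt.degOf n i * r) (Dense.size S) := by
    refine (Dense.nrm_ev5R hsh (M := fun i => max (bound idC 5 (sigN σ i)) (sigD σ i))
      (fun i => (nrm_rep idC 5 _).trans (le_max_left _ _))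
      (fun i => by rw [nrm_cst]; simp)).trans (le_of_eq ?_)
    simp [List.range_succ]
    ring
  have hnS' : nrm 5 RS' ≤ Dense.size S' := by
    refine (Dense.nrm_ev5R hsh' (M := fun _ => 1) (fun i => (nrm_lin 5 i _ _).trans
      (by simp [idChart])) (fun i => (nrm_lin 5 i _ _).trans (by simp [idChart]))).trans ?_
    simp
  have hnR : ∀ sg : ℤ, sg.natAbs = 1 → 2 * nrm 5 (R sg) < 2 ^ K := fun sg hsg => by
    refine lt_of_le_of_lt (Nat.mul_le_mul_left 2 (?_ : _ ≤ subBd σ n S kap S' eps)) (by omega)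
    refine (nrm_add 5 _ _).trans (Nat.add_le_add ((nrm_mul 5 _ _).trans ?_)
      ((nrm_mul 5 _ _).trans ?_))
    · rw [nrm_cst, hsg, one_mul]
      refine (nrm_add 5 _ _).trans (Nat.add_le_add hnS ((nrm_mul 5 _ _).trans ?_))
      rw [nrm_cst, Int.natAbs_neg, Int.natAbs_natCast]
      exact Nat.mul_le_mul_left _ hnS'
    · rw [nrm_cst, Int.natAbs_natCast]
      exact Nat.mul_le_mul_left _ (nrm_rep idC 5 _)
  have hfR : ∀ sg : ℤ, Fits 5 D6 (R sg) := fun sg => by
    have six_at : ∀ j < 5, D6 j = 6 := fun j hj => by interval_cases j <;> rfl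
    have z : ∀ (c : ℤ) {a : Rep 5}, Fits 5 D6 a → Fits 5 D6 (mul 5 (cst 5 c) a) := fun c a ha =>
      fits_mono 5 (fun j => by simp) (fits_mul 5 (fits_cst 5 (fun _ => 0) c) ha)
    refine fits_add 5 (z _ (fits_add 5 ?_ (z _ ?_))) (z _ ?_)
    · refine fits_le 5 (fun j hj => by rw [six_at j hj]; exact ht) (fits_ev5R_tdeg
        (fun i => fits_le 5 (fun j hj => (hs i).2.2 j hj) (fits_rep idC 5 _))
        (fun i => fits_cst 5 _ _) S)
    · refine fits_le 5 (fun j hj => ?_) (Dense.fits_ev5R hsh' (fun i => fits_lin 5 i _ _)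
        (fun i => fits_lin 5 i _ _))
      interval_cases j <;> simp [Dense.unit, D6]
    · refine fits_le 5 (fun j hj => ?_) (fits_rep idC 5 onesEx)
      interval_cases j <;> decide
  have hok : onesEx.ok 5 = true := by decide
  have hsum : ∀ s : ℕ → ℝ, ev 5 s RS' = Dense.val s S' := fun s => by
    rw [Dense.ev_ev5R, Dense.ev5V_eq hsh' s _ _ fun i hi => by
      simp [ev_lin 5 i s _ _ hi, idChart]]
    simp [ev_lin 5 0 s _ _ (by norm_num : 0 < 5), ev_lin 5 1 s _ _ (by norm_num : 1 < 5),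
      ev_lin 5 2 s _ _ (by norm_num : 2 < 5), ev_lin 5 3 s _ _ (by norm_num : 3 < 5),
      ev_lin 5 4 s _ _ (by norm_num : 4 < 5), idChart, Dense.val]
  have hRS : ev 5 y RS = (sigDn σ n : ℝ) * Dense.val x S := by
    rw [Dense.ev_ev5R, Dense.ev5V_eq hsh x _ _ fun i hi => ?_]
    · simp [Df, ev_cst, sigDn, Dense.val]
    · simp only [Nf, Df, ev_rep idC 5 y _ (hs i).1, hom_id (hs i).1, ev_cst, hx i hi,
        Int.cast_natCast]
  have hint : ∀ sg : ℤ, ev 5 (base K 5 D6) (R sg) = subAt K σ n S kap S' eps sg := fun sg => by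
    have e1 : ev 5 (base K 5 D6) RS = Dense.vz (Dense.ev5 (Dense.pt.degOf n)
        (fun i => pr (hom idC 5 (base K 5 D6) (sigN σ i))) (sigD σ) S) := by
      rw [Dense.vz_ev5, Dense.ev_ev5R]
      refine Dense.ev5V_congr (fun i hi => ?_) _
      simp [Nf, Df, vz_pr, ev_cst, ev_rep idC 5 _ _ (hs i).1]
    have e2 : ev 5 (base K 5 D6) RS' = Dense.vz (Dense.ev5 D6
        (fun i => Dense.cN idChart (Dense.pt K six i))
        (fun i => Dense.cD idChart (Dense.pt K six i)) S') := by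
      rw [Dense.vz_ev5, Dense.ev_ev5R]
      refine Dense.ev5V_congr (fun i hi => ?_) _
      simp only [ev_lin 5 i _ _ _ hi, Dense.vz_cN, Dense.pt_eq_base K six i hi, Int.cast_id,
        Dense.cD_eq (c := idChart) (by decide) (by decide), D6, and_self]
    simp only [R, ev_add, ev_mul, ev_cst, e1, e2, ev_rep idC 5 _ _ hok, subAt, Int.cast_id, D6]
    ring
  have hpos : ∀ sg : ℤ, sg.natAbs = 1 → (0 ≤ subAt K σ n S kap S' eps sg ∧
      maskDigits K ((6 + 1) * width 4 D6) (subAt K σ n S kap S' eps sg).toNat = true) →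
      0 ≤ (sg : ℝ) * ((sigDn σ n : ℝ) * Dense.val x S - kap * Dense.val y S') +
        eps * onesEx.eval y := fun sg hsg hc => by
    obtain ⟨h0, hm⟩ := hc
    obtain ⟨b1, b2⟩ := testBit_of_maskDigits hK hm
    have hd := nonneg_of_digits 5 K D6 (R sg) _ hK (hfR sg) (hnR sg hsg)
      (by rw [hint sg, Int.toNat_of_nonneg h0]) (digits_of_bits 5 K D6 _ hK b1 b2)
    set s : ℕ → ℝ := fun i => if i < 5 then y i else 0
    have hs0 : ∀ i, 0 ≤ s i := fun i => by
      rcases lt_or_ge i 5 with hi | hi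
      · simp [s, hi, (hy i hi).1]
      · simp [s, Nat.not_lt.2 hi]
    have := ev_nonneg 5 hs0 hd
    have hRSs : ev 5 s RS = ev 5 y RS := by
      simp only [RS, Dense.ev_ev5R]
      refine Dense.ev5V_congr (fun i hi => ?_) _
      simp only [Nf, Df, ev_rep idC 5 _ _ (hs i).1,
        hom_id (hs i).1, ev_cst, and_true]
      exact eval_congr5 (x := s) (y := y) (fun j hj => by simp [s, hj]) _ (hs i).1
    simp only [R, ev_add, ev_mul, ev_cst, hRSs, hRS, hsum, ev_rep idC 5 _ _ hok, hom_id hok,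
      eval_congr5 (x := s) (y := y) (fun j hj => by simp [s, hj]) _ hok] at this
    have hv : Dense.val s S' = Dense.val y S' := by simp [Dense.val, s]
    rw [hv] at this
    push_cast at this
    linarith
  have q1 := hpos 1 rfl hp
  have q2 := hpos (-1) rfl hn
  push_cast at q1 q2
  have := mul_le_mul_of_nonneg_left (ones_le hy) (Nat.cast_nonneg' (α := ℝ) eps)
  rw [abs_le]
  constructor <;> linarith

end Vale.Agent.P100.Calib.LowEnd
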