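import Vale.Agent.P100.Calib.SlabLowEndCert
import Vale.Agent.P100.Calib.SlabLowEndSub

/-!
# From the exact polynomials to a root

For each slot a surrogate of total degree six stays within a tolerance of the exact polynomial on
the box of the root, and after the substitution of the local coordinates within a tolerance of the
slot's polynomial.
-/

namespace Vale.Agent.P100.Calib.LowEnd

open Pack

/-- The data of one slot of a root: the exact polynomial, its degrees, a bound of its size and its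
denominator; the surrogate and a bound of its size; the tolerances; the packing lengths. -/
structure Src where
  P : Dense.Q5
  n : List ℕ
  sP : ℕ
  den : ℕ
  S : Dense.Q5
  sS : ℕ
  rA : ℕ
  eps : ℕ
  K : ℕ
  K' : ℕ

/-- The value of a slot. -/
noncomputable def Src.value (D : Src) (x : ℕ → ℝ) : ℝ := Dense.val x D.P / D.den

/-- The degrees of the comparison with the surrogate. -/
def Src.deg (D : Src) : List ℕ :=
  D.n

/-- The check of one slot. -/
noncomputable def checkSlot (b : Box) (σ : Sig) (s : ℕ) (D : Src) (R : Slot) : Bool :=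
  boxOk b && Nat.blt 0 D.den && Nat.ble sh s &&
    Dense.wf D.deg (D.sP, D.P) && Dense.wf D.deg (D.sS, D.S) &&
    Dense.check (boxChart b) D.K D.deg
      [((2 ^ s, 0), D.sP, D.P), ((0, D.den), D.sS, D.S), ((D.rA, 0), 1, one5)] &&
    Dense.check (boxChart b) D.K D.deg
      [((0, 2 ^ s), D.sP, D.P), ((D.den, 0), D.sS, D.S), ((D.rA, 0), 1, one5)] &&
    checkSub D.K' σ [6, 6, 6, 6, 6] D.S (2 ^ (s - sh) * sigDn σ [6, 6, 6, 6, 6]) R.1 D.eps &&
    Nat.ble (sigDn σ [6, 6, 6, 6, 6] * D.rA + D.den * D.eps * 16807)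
      (R.2.2 * D.den * (2 ^ (s - sh) * sigDn σ [6, 6, 6, 6, 6])) &&
    Nat.blt 0 (sigDn σ [6, 6, 6, 6, 6])

/-- The local coordinates of a point. -/
def Coord (σ : Sig) (x y : ℕ → ℝ) : Prop :=
  (∀ i < 5, 0 ≤ y i ∧ y i ≤ 1) ∧ ∀ i < 5, (sigN σ i).eval y = x i * sigD σ i

/-- **A checked slot is within its tolerance.** -/
theorem near_of_checkSlot {b : Box} {σ : Sig} {s : ℕ} {D : Src} {R : Slot}
    (h : checkSlot b σ s D R = true) {x y : ℕ → ℝ} (hx : InBox b x) (hc : Coord σ x y) :
    |2 ^ sh * D.value x - Dense.val y R.1| ≤ (R.2.2 : ℝ) := by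
  simp only [checkSlot, Bool.and_eq_true, Nat.ble_eq, Nat.blt_eq] at h
  obtain ⟨⟨⟨⟨⟨⟨⟨⟨⟨hb, hden⟩, hs⟩, hwP⟩, hwS⟩, hp⟩, hm⟩, hsub⟩, hr⟩, hDn⟩ := h
  have hw : ∀ (c1 c2 c3 : ℕ × ℕ), ∀ t ∈ ([(c1, D.sP, D.P), (c2, D.sS, D.S), (c3, 1, one5)] :
      List Dense.Term), Dense.wf D.deg t.2 = true := by
    intro c1 c2 c3 t ht
    simp only [List.mem_cons, List.not_mem_nil, or_false] at ht
    rcases ht with rfl | rfl | rfl
    · exact hwP
    · exact hwS
    · simp [Dense.wf, Dense.shape, one5, Dense.size]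
  have e1 : Dense.val x one5 = 1 := by simp [one5, Dense.val, evL, Dense.vz]
  have a1 := Dense.nonneg_of_check hp (hw _ _ _) (box_point hb hx)
  have a2 := Dense.nonneg_of_check hm (hw _ _ _) (box_point hb hx)
  simp only [Dense.combVal, e1, Dense.vz] at a1 a2
  push_cast at a1 a2
  have hB := abs_of_checkSub hsub hc.1 hc.2
  set Dn := sigDn σ [6, 6, 6, 6, 6]
  have hden' : (0 : ℝ) < D.den := Nat.cast_pos.2 hden
  have hDn' : (0 : ℝ) < Dn := Nat.cast_pos.2 hDn
  have hr' : (Dn : ℝ) * D.rA + D.den * D.eps * 16807 ≤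
      R.2.2 * D.den * ((2 : ℝ) ^ (s - sh) * Dn) := by exact_mod_cast hr
  push_cast at hB
  have hpow : (2 : ℝ) ^ s = 2 ^ (s - sh) * 2 ^ sh := by rw [← pow_add, Nat.sub_add_cancel hs]
  rw [hpow] at a1 a2
  set k : ℝ := 2 ^ (s - sh)
  have hk : 0 < k := by positivity
  rw [abs_le] at hB ⊢
  obtain ⟨b1, b2⟩ := hB
  have ev : (2 : ℝ) ^ sh * D.value x = 2 ^ sh * Dense.val x D.P / D.den := by
    rw [Src.value, mul_div_assoc]
  set P := (2 : ℝ) ^ sh
  set V := Dense.val x D.P
  set W := Dense.val x D.S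
  set U := Dense.val y R.1
  have c1 := mul_le_mul_of_nonneg_left (show D.den * W - D.rA ≤ k * P * V by linarith) hDn'.le
  have c2 := mul_le_mul_of_nonneg_left (show k * P * V ≤ D.den * W + D.rA by linarith) hDn'.le
  have d1 := mul_le_mul_of_nonneg_left b1 hden'.le
  have d2 := mul_le_mul_of_nonneg_left b2 hden'.le
  have hp0 : 0 < D.den * (k * Dn) := by positivity
  rw [ev]
  constructor
  · rw [le_sub_iff_add_le, le_div_iff₀ hden']
    refine le_of_mul_le_mul_left ?_ (mul_pos hk hDn')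
    linarith
  · rw [sub_le_iff_le_add, div_le_iff₀ hden']
    refine le_of_mul_le_mul_left ?_ (mul_pos hk hDn')
    linarith

/-- All slots. -/
noncomputable def valueAt (L : List Src) (x : ℕ → ℝ) (q : ℕ) : ℝ :=
  match L[q]? with
  | some D => D.value x
  | none => 0

theorem near_root {b : Box} {σ : Sig} {L : List Src} {R : List Slot}
    (hl : L.length = R.length)
    (h : ∀ q (hq : q < L.length), ∃ s, checkSlot b σ s L[q] (R[q]'(hl ▸ hq)) = true) {x y : ℕ → ℝ}
    (hx : InBox b x) (hc : Coord σ x y) : Near R y (valueAt L x) := fun q hq => by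
  have hq' : q < L.length := hl ▸ hq
  simp only [valueAt, List.getElem?_eq_getElem hq']
  obtain ⟨s, hs⟩ := h q hq'
  exact near_of_checkSlot hs hx hc

end Vale.Agent.P100.Calib.LowEnd
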