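import Vale.Agent.P100.Calib.SlabLowEndExprs
import Vale.Agent.P100.Calib.SlabLowEndRoot

/-!
# The local coordinates of a root

A root fixes ranges of `a` (or of `a - I` near the diagonal) and `I`, two lines for `X` affine in
the local `(a, I, w)` and a bound for `η`. Checked signs of the facts show that every place with
`a`, `I` in the ranges lies between the lines and below the bound.
-/

set_option linter.unusedVariables false

namespace Vale.Agent.P100.Calib.LowEnd

open Pack Band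

/-! ### Substitution with a common denominator -/

/-- The numerator of `e` at `σ / D`, with its degree. -/
def subst (D : ℕ) (σ : ℕ → Ex) : Ex → Ex × ℕ
  | .var i => (σ i, 1)
  | .num z => (.num z, 0)
  | .add e f =>
    let p := subst D σ e
    let q := subst D σ f
    let m := max p.2 q.2
    (.add (.mul p.1 (.num (((D ^ (m - p.2) : ℕ) : ℤ)))) (.mul q.1 (.num (((D ^ (m - q.2) : ℕ) : ℤ)))), m)
  | .sub e f =>
    let p := subst D σ e
    let q := subst D σ f
    let m := max p.2 q.2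
    (.sub (.mul p.1 (.num (((D ^ (m - p.2) : ℕ) : ℤ)))) (.mul q.1 (.num (((D ^ (m - q.2) : ℕ) : ℤ)))), m)
  | .mul e f =>
    let p := subst D σ e
    let q := subst D σ f
    (.mul p.1 q.1, p.2 + q.2)
  | .pow e k =>
    let p := subst D σ e
    (.pow p.1 k, k * p.2)

theorem eval_subst {D : ℕ} {σ : ℕ → Ex} {x y : ℕ → ℝ} (h : ∀ i, (σ i).eval y = x i * D) :
    ∀ e : Ex, (subst D σ e).1.eval y = (D : ℝ) ^ (subst D σ e).2 * e.eval x
  | .var i => by simp [subst, Ex.eval, h i, mul_comm]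
  | .num z => by simp [subst, Ex.eval]
  | .add e f => by
    simp only [subst, Ex.eval, eval_subst h e, eval_subst h f]
    set m := max (subst D σ e).2 (subst D σ f).2
    push_cast
    have e1 : (D : ℝ) ^ m = D ^ (m - (subst D σ e).2) * D ^ (subst D σ e).2 := by
      rw [← pow_add, Nat.sub_add_cancel (le_max_left _ _)]
    have e2 : (D : ℝ) ^ m = D ^ (m - (subst D σ f).2) * D ^ (subst D σ f).2 := by
      rw [← pow_add, Nat.sub_add_cancel (le_max_right _ _)]
    rw [mul_add]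
    nth_rw 1 [e1]; rw [e2]; ring
  | .sub e f => by
    simp only [subst, Ex.eval, eval_subst h e, eval_subst h f]
    set m := max (subst D σ e).2 (subst D σ f).2
    push_cast
    have e1 : (D : ℝ) ^ m = D ^ (m - (subst D σ e).2) * D ^ (subst D σ e).2 := by
      rw [← pow_add, Nat.sub_add_cancel (le_max_left _ _)]
    have e2 : (D : ℝ) ^ m = D ^ (m - (subst D σ f).2) * D ^ (subst D σ f).2 := by
      rw [← pow_add, Nat.sub_add_cancel (le_max_right _ _)]
    rw [mul_sub]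
    nth_rw 1 [e1]; rw [e2]; ring
  | .mul e f => by simp only [subst, Ex.eval, eval_subst h e, eval_subst h f, pow_add]; ring
  | .pow e k => by simp only [subst, Ex.eval, eval_subst h e, mul_pow, ← pow_mul]; ring

/-- `e` is positive at `σ / D` on the unit cube, and `D` is positive. -/
def checkAt (K : ℕ) (l : List ℕ) (D : ℕ) (σ : ℕ → Ex) (e : Ex) : Bool :=
  decide (0 < D) && checkFastR (fun _ => ⟨0, 1, 1, 1⟩) 5 K l (subst D σ e).1

theorem pos_of_checkAt {K : ℕ} {l : List ℕ} {D : ℕ} {σ : ℕ → Ex} {e : Ex}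
    (h : checkAt K l D σ e = true) {x y : ℕ → ℝ} (hσ : ∀ i, (σ i).eval y = x i * D)
    (hy : ∀ i < 5, 0 ≤ y i ∧ y i < 1) : 0 < e.eval x := by
  simp only [checkAt, Bool.and_eq_true, decide_eq_true_eq] at h
  obtain ⟨hD, hc⟩ := h
  have hp := pos_of_checkFastR (by norm_num) hc (x := y) fun i hi => by
    obtain ⟨h0, h1⟩ := hy i hi
    refine ⟨y i / (1 - y i), div_nonneg h0 (by linarith), ?_, ?_⟩
    · have : 0 ≤ y i / (1 - y i) := div_nonneg h0 (by linarith)
      push_cast; linarith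
    · have : (1 : ℝ) - y i ≠ 0 := by linarith
      push_cast; field_simp; ring
  rw [eval_subst hσ] at hp
  exact pos_of_mul_pos_right hp (by positivity)

/-! ### The parameters of a root -/

/-- A root. `a0`, `a1` bound `a`, or `a - I` if `diag`; they and `i0`, `i1` are over `3000`; the
lines of `X` are over `2 ^ 16`; the bound of `η` is `emx / 2 ^ 14`. -/
structure Par where
  diag : Bool
  a0 : ℕ
  a1 : ℕ
  i0 : ℕ
  i1 : ℕ
  l0 : ℤ
  la : ℤ
  li : ℤ
  lw : ℤ
  u0 : ℤ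
  ua : ℤ
  ui : ℤ
  uw : ℤ
  emx : ℕ

namespace Par

variable (P : Par)

def nI : Ex := .add (.num P.i0) (.mul (.num ((P.i1 : ℤ) - P.i0)) (.var 1))
def nA0 : Ex := .add (.num P.a0) (.mul (.num ((P.a1 : ℤ) - P.a0)) (.var 0))
def nA : Ex := cond P.diag (.add P.nA0 P.nI) P.nA0
def nW : Ex := .mul (.num 26) (.var 2)
def line (c0 ca ci cw : ℤ) : Ex :=
  .add (.add (.add (.num c0) (.mul (.num ca) (.var 0))) (.mul (.num ci) (.var 1)))
    (.mul (.num cw) (.var 2))
def nL : Ex := line P.l0 P.la P.li P.lw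
def nU : Ex := line P.u0 P.ua P.ui P.uw
def nX : Ex := .add P.nL (.mul (.var 3) (.sub P.nU P.nL))
def nH : Ex := .mul (.num P.emx) (.var 4)

/-- The substitution. -/
def sig : Sig := [(P.nA, 3000), (P.nI, 3000), (nW, 1024), (P.nX, 65536), (P.nH, 16384)]

/-- The common denominator. -/
def cden : ℕ := 196608000

/-- The substitution over the common denominator, with a choice of `X` and `η`. -/
def common (nX nH : Ex) : ℕ → Ex
  | 0 => .mul (.num 65536) P.nA
  | 1 => .mul (.num 65536) P.nI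
  | 2 => .mul (.num 192000) nW
  | 3 => .mul (.num 3000) nX
  | 4 => .mul (.num 12000) nH
  | _ => .num 0

/-- Upper band and radial speed without `η`. -/
def kf : Ex := .add eQn (.mul (.mul eS eU) (.sub eD (.mul xA xX)))
def phi (U : MidBand) : Ex :=
  .add (.mul kf (eUp U)) (.mul (.mul (.num 1000) (.sub eB (.mul eU xA))) eFlow)

/-- The combination bounding `η`. -/
def mix (L : MidBand) (al be : ℕ) : Ex :=
  .add (.mul (.num (1000 * al)) eFlow) (.mul (.num be) (eLow L))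

/-- The place checks of a root. -/
def checkDomain (U L : MidBand) (al be : ℕ) (K : ℕ) (l1 l2 l3 l4 : List ℕ) : Bool :=
  decide (P.i0 < P.i1) && decide (P.a0 < P.a1) && decide (0 < P.emx) &&
    checkAt K l1 cden (P.common P.nU P.nH) (.sub (.mul xX eS) (.mul (.num 2) xI)) &&
    checkAt K l2 cden (P.common (.mul (.var 3) P.nL) (.num 0)) (.mul (.num (-1)) (phi U)) &&
    checkAt K l3 cden (P.common P.nX (.num 16384)) (.mul (.num (-1)) (mix L al be)) &&
    checkAt K l4 cden (P.common P.nX (.num P.emx)) (.mul (.num (-1)) (mix L al be))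

/-- The point lies in the root's ranges. -/
def Range (x : ℕ → ℝ) : Prop :=
  (P.a0 : ℝ) ≤ (x 0 - cond P.diag (x 1) 0) * 3000 ∧
    (x 0 - cond P.diag (x 1) 0) * 3000 < P.a1 ∧
    (P.i0 : ℝ) ≤ x 1 * 3000 ∧ x 1 * 3000 < P.i1 ∧ 0 ≤ x 2 ∧ x 2 * 1024 < 26

/-- The value of a line. -/
noncomputable def lineAt (c0 ca ci cw : ℤ) (y : ℕ → ℝ) : ℝ := c0 + ca * y 0 + ci * y 1 + cw * y 2

theorem eval_line (c0 ca ci cw : ℤ) (y : ℕ → ℝ) :
    (line c0 ca ci cw).eval y = lineAt c0 ca ci cw y := by simp [line, lineAt, Ex.eval]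

/-- The point with `X` and `η` replaced. -/
def setXH (x : ℕ → ℝ) (X η : ℝ) : ℕ → ℝ :=
  fun i => if i = 3 then X else if i = 4 then η else if i < 3 then x i else 0

theorem phi_eq (U : MidBand) (x : ℕ → ℝ) :
    (phi U).eval (setXH x (x 3) 0) = (phi U).eval x := by
  simp [phi, kf, eUp, eBand, eSix, eFour, eFlow, eQn, eQ, eDen, eB, eD, eS, eU, Ex.eval, setXH]
  ring

theorem phi_nonneg {U : MidBand} {x : ℕ → ℝ} (hp : Pt x) (haX : x 0 * x 3 < vD (x 0) (x 1))
    (hup : 0 ≤ (eUp U).eval x) (hfl : 0 ≤ eFlow.eval x) :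
    0 ≤ (phi U).eval (setXH x (x 3) 0) := by
  rw [phi_eq]
  have hq := qn_pos hp.S_pos hp.w_nonneg hp.X_pos haX
  have h1 : 0 ≤ kf.eval x := by
    have h2 := mul_nonneg (mul_nonneg hp.S_pos.le hp.u_pos.le) (sub_nonneg.2 haX.le)
    simp [kf, eQn, eQ, eD, eB, eS, eU, Ex.eval, vD, vB, vS] at hq h2 ⊢
    linarith
  have h2 : 0 ≤ (Ex.sub eB (.mul eU xA)).eval x := by
    have hd := hp.d_pos; have hw := mul_nonneg hp.w_nonneg hp.a_pos.le
    simp [eB, eS, eU, Ex.eval, vD, vB, vS] at hd ⊢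
    linarith
  simp only [phi, Ex.eval] at h2 ⊢
  push_cast
  positivity

theorem mix_lin (L : MidBand) (al be : ℕ) (x : ℕ → ℝ) (X η : ℝ) :
    (mix L al be).eval (setXH x X η) = (mix L al be).eval (setXH x X 0) +
      η * ((mix L al be).eval (setXH x X 1) - (mix L al be).eval (setXH x X 0)) := by
  simp [mix, eLow, eBand, eSix, eFour, eFlow, eQn, eQ, eDen, eB, eD, eS, eU, Ex.eval, setXH]
  ring

theorem mix_bound {L : MidBand} {al be : ℕ} {x : ℕ → ℝ} {e : ℝ} (he : x 4 < 1)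
    (hlow : 0 ≤ (eLow L).eval x) (hfl : 0 ≤ eFlow.eval x)
    (h1 : (mix L al be).eval (setXH x (x 3) 1) < 0)
    (h2 : (mix L al be).eval (setXH x (x 3) e) < 0) : x 4 < e := by
  have h3 : 0 ≤ (mix L al be).eval (setXH x (x 3) (x 4)) := by
    have ex : (mix L al be).eval (setXH x (x 3) (x 4)) = (mix L al be).eval x := by
      simp [mix, eLow, eBand, eSix, eFour, eFlow, eQn, eQ, eDen, eB, eD, eS, eU, Ex.eval, setXH]
    rw [ex]
    simp only [mix, Ex.eval]
    push_cast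
    positivity
  rw [mix_lin] at h1 h2 h3
  generalize (mix L al be).eval (setXH x (x 3) 0) = A at h1 h2 h3
  generalize (mix L al be).eval (setXH x (x 3) 1) - A = B at h1 h2 h3
  by_contra hge
  replace hge := not_lt.1 hge
  rcases le_total 0 B with hB | hB
  · linarith [mul_le_mul_of_nonneg_right he.le hB]
  · linarith [mul_le_mul_of_nonpos_right hge hB]

/-- **The local coordinates exist.** -/
theorem coord_of {L U : MidBand} {al be K : ℕ} {l1 l2 l3 l4 : List ℕ}
    (hc : P.checkDomain U L al be K l1 l2 l3 l4 = true) {x : ℕ → ℝ} (hp : Pt x) (hr : P.Range x)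
    (hτ : 0 < eTau.eval x) (hη : x 4 < 1) (hup : 0 ≤ (eUp U).eval x) (hlow : 0 ≤ (eLow L).eval x)
    (hfl : 0 ≤ eFlow.eval x) (haX : x 0 * x 3 < vD (x 0) (x 1)) :
    ∃ y : ℕ → ℝ, (∀ i < 5, 0 ≤ y i ∧ y i < 1) ∧ Coord P.sig x y := by
  simp only [checkDomain, Bool.and_eq_true, decide_eq_true_eq] at hc
  obtain ⟨⟨⟨⟨⟨⟨hi, ha⟩, he⟩, c1⟩, c2⟩, c3⟩, c4⟩ := hc
  obtain ⟨r1, r2, r3, r4, r5, r6⟩ := hr
  have hia : (0 : ℝ) < (P.i1 : ℝ) - P.i0 := sub_pos.2 (Nat.cast_lt.2 hi)
  have haa : (0 : ℝ) < (P.a1 : ℝ) - P.a0 := sub_pos.2 (Nat.cast_lt.2 ha)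
  set y0 := ((x 0 - cond P.diag (x 1) 0) * 3000 - P.a0) / ((P.a1 : ℝ) - P.a0) with hy0
  set y1 := (x 1 * 3000 - P.i0) / ((P.i1 : ℝ) - P.i0) with hy1
  set y2 := x 2 * 1024 / 26 with hy2
  have b0 : 0 ≤ y0 ∧ y0 < 1 := ⟨div_nonneg (by linarith) haa.le, (div_lt_one haa).2 (by linarith)⟩
  have b1 : 0 ≤ y1 ∧ y1 < 1 := ⟨div_nonneg (by linarith) hia.le, (div_lt_one hia).2 (by linarith)⟩
  have b2 : 0 ≤ y2 ∧ y2 < 1 := ⟨div_nonneg (by linarith) (by norm_num),
    (div_lt_one (by norm_num)).2 r6⟩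
  let mk : ℝ → ℝ → ℕ → ℝ := fun c d i =>
    if i = 0 then y0 else if i = 1 then y1 else if i = 2 then y2 else if i = 3 then c else
      if i = 4 then d else 0
  have hmk : ∀ {c d : ℝ}, 0 ≤ c ∧ c < 1 → 0 ≤ d ∧ d < 1 → ∀ i < 5, 0 ≤ mk c d i ∧ mk c d i < 1 := by
    intro c d hc hd i hi
    interval_cases i <;> simp [mk, b0, b1, b2, hc, hd]
  set xl := lineAt P.l0 P.la P.li P.lw (mk 0 0) / 65536 with hxl
  set xu := lineAt P.u0 P.ua P.ui P.uw (mk 0 0) / 65536 with hxu
  have eL : ∀ c d, P.nL.eval (mk c d) = xl * 65536 := fun c d => by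
    rw [nL, eval_line, hxl]; simp [lineAt, mk]
  have eU' : ∀ c d, P.nU.eval (mk c d) = xu * 65536 := fun c d => by
    rw [nU, eval_line, hxu]; simp [lineAt, mk]
  have eA : ∀ c d, P.nA.eval (mk c d) = x 0 * 3000 ∧ P.nI.eval (mk c d) = x 1 * 3000 ∧
      nW.eval (mk c d) = x 2 * 1024 := fun c d => by
    have k0 : ((P.a1 : ℝ) - P.a0) * y0 = (x 0 - cond P.diag (x 1) 0) * 3000 - P.a0 := by
      rw [hy0, mul_div_cancel₀ _ haa.ne']
    have k1 : ((P.i1 : ℝ) - P.i0) * y1 = x 1 * 3000 - P.i0 := by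
      rw [hy1, mul_div_cancel₀ _ hia.ne']
    refine ⟨?_, ?_, ?_⟩
    · cases hd : P.diag <;> simp [nA, nA0, nI, hd, Ex.eval, mk] <;> simp [hd] at k0 <;> linarith
    · simp [nI, Ex.eval, mk]; linarith
    · simp [nW, Ex.eval, mk, hy2]; ring
  have com : ∀ (X η c d : ℝ) (eX eH : Ex), eX.eval (mk c d) = X * 65536 →
      eH.eval (mk c d) = η * 16384 → ∀ i, (P.common eX eH i).eval (mk c d) =
        setXH x X η i * cden := by
    intro X η c d eX eH h3 h4 i
    obtain ⟨h0, h1, h2⟩ := eA c d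
    match i with
    | 0 => simp [common, Ex.eval, h0, cden, setXH]; ring
    | 1 => simp [common, Ex.eval, h1, cden, setXH]; ring
    | 2 => simp [common, Ex.eval, h2, cden, setXH]; ring
    | 3 => simp [common, Ex.eval, h3, cden, setXH]; ring
    | 4 => simp [common, Ex.eval, h4, cden, setXH]; ring
    | i + 5 => simp [common, Ex.eval, setXH]
  have emxr : (0 : ℝ) < P.emx := Nat.cast_pos.2 he
  have hS := hp.S_pos
  simp [vS] at hS
  have hXU : x 3 < xu := by
    have h := pos_of_checkAt c1 (com xu 0 0 0 P.nU P.nH (eU' 0 0) (by simp [nH, Ex.eval, mk]))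
      (hmk ⟨le_rfl, one_pos⟩ ⟨le_rfl, one_pos⟩)
    simp [Ex.eval, eS, setXH] at h
    simp [eTau, eS, Ex.eval] at hτ
    refine lt_of_mul_lt_mul_right (a := 1 - 2 * x 1) ?_ (by linarith)
    linarith
  have hXL : xl ≤ x 3 := by
    by_contra hlt
    replace hlt := not_le.1 hlt
    have hx3 := hp.X_pos
    have hxl0 : 0 < xl := hx3.trans hlt
    set c := x 3 / xl with hc
    have bc : 0 ≤ c ∧ c < 1 := ⟨div_nonneg hx3.le hxl0.le, (div_lt_one hxl0).2 hlt⟩
    have h := pos_of_checkAt c2 (com (x 3) 0 c 0 (.mul (.var 3) P.nL) (.num 0)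
      (by simp only [Ex.eval, eL]; rw [show mk c 0 3 = c by simp [mk], hc]; field_simp) (by simp [Ex.eval]))
      (hmk bc ⟨le_rfl, one_pos⟩)
    have hn := phi_nonneg (U := U) hp haX hup hfl
    simp only [Ex.eval] at h
    push_cast at h
    linarith
  set c := (x 3 - xl) / (xu - xl) with hc
  have hlu : 0 < xu - xl := by linarith
  have bc : 0 ≤ c ∧ c < 1 := ⟨div_nonneg (by linarith) hlu.le, (div_lt_one hlu).2 (by linarith)⟩
  have eX : ∀ d, P.nX.eval (mk c d) = x 3 * 65536 := fun d => by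
    simp only [nX, Ex.eval, eL, eU']
    rw [show mk c d 3 = c by simp [mk], hc]
    field_simp
    ring
  have hemx : x 4 * 16384 < P.emx := by
    have h1 := pos_of_checkAt c3 (com (x 3) 1 c 0 P.nX (.num 16384) (eX 0) (by simp [Ex.eval]))
      (hmk bc ⟨le_rfl, one_pos⟩)
    have h2 := pos_of_checkAt c4 (com (x 3) (P.emx / 16384) c 0 P.nX (.num P.emx) (eX 0)
      (by simp [Ex.eval])) (hmk bc ⟨le_rfl, one_pos⟩)
    simp only [Ex.eval] at h1 h2
    push_cast at h1 h2
    have := mix_bound (e := (P.emx : ℝ) / 16384) hη hlow hfl (by linarith) (by linarith)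
    exact (lt_div_iff₀ (by norm_num)).1 this
  set d := x 4 * 16384 / P.emx with hd
  have bd : 0 ≤ d ∧ d < 1 := ⟨div_nonneg (by linarith [hp.eta_nonneg]) emxr.le,
    (div_lt_one emxr).2 hemx⟩
  refine ⟨mk c d, hmk bc bd, fun i hi => ⟨(hmk bc bd i hi).1, (hmk bc bd i hi).2.le⟩,
    fun i hi => ?_⟩
  obtain ⟨h0, h1, h2⟩ := eA c d
  interval_cases i
  · simpa [sig, sigN, sigD] using h0
  · simpa [sig, sigN, sigD] using h1
  · simpa [sig, sigN, sigD] using h2
  · simpa [sig, sigN, sigD] using eX d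
  · simp [sig, sigN, sigD, nH, Ex.eval, mk, hd]; field_simp

end Par

end Vale.Agent.P100.Calib.LowEnd
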