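import Vale.Agent.P100.Calib.SlabMidExpr

/-!
# Bands and exit curves for the dimensions from seven to twenty: the coefficients

Pieces by `I = 1/N`: `A` for `[1/20, 1/12]`, `B` for `[1/12, 27/250]`, `C` for `[27/250, 1/7]`.
-/

namespace Vale.Agent.P100.Calib.Band

/-- The lower band of piece `A`. -/
def midLowA : MidBand :=
  ⟨⟨-4085, 114, 9508, -14, -488, -21465⟩,
  ⟨1850, -2094, -4981, -3677, 5612, -26052⟩,
  ⟨-630, 4256, 5643, -13478, 7343, -19671⟩,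
  ⟨55, 619, 653, 2087, -14966, -13556⟩,
  ⟨1719, -2555, -3097, -5562⟩, ⟨2451, 41897, -17896, -353681⟩, ⟨-4015, -20929, 28971, 223259⟩⟩

/-- The upper band of piece `A`. -/
def midUpA : MidBand :=
  ⟨⟨-4045, 14, 9683, 27, -371, -25376⟩,
  ⟨1709, -917, -3985, -7322, 7353, -31961⟩,
  ⟨-60, -3066, 6119, 4843, 7753, -25887⟩,
  ⟨-71, 4136, 539, -8132, -1093, -26565⟩,
  ⟨1935, -3824, -5958, 4432⟩, ⟨1506, 39986, -6710, -339929⟩, ⟨-2292, -20545, 13595, 209915⟩⟩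

/-- The lower band of piece `B`. -/
def midLowB : MidBand :=
  ⟨⟨-4173, 313, 10575, -63, -750, -23929⟩,
  ⟨1675, -1035, -4884, -7725, 7956, -19943⟩,
  ⟨-675, 1252, 8031, -1265, -8510, 3889⟩,
  ⟨-259, 6951, -1577, -13343, -20041, 559⟩,
  ⟨1476, -543, -1802, -16812⟩, ⟨2485, 18653, -17892, -99884⟩, ⟨-3046, -6076, 22504, 44611⟩⟩

/-- The upper band of piece `B`. -/
def midUpB : MidBand :=
  ⟨⟨-3997, 15, 7945, 50, -433, -11556⟩,
  ⟨1608, -751, -3536, -7960, 12071, -27512⟩,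
  ⟨-81, -2803, 7107, 450, 3958, -23886⟩,
  ⟨-292, 4118, 1606, -5768, 3413, -19148⟩,
  ⟨1858, -3710, -5179, 3617⟩, ⟨2645, 19998, -19253, -96947⟩, ⟨-2958, -6344, 21821, 31086⟩⟩

/-- The lower band of piece `C`. -/
def midLowC : MidBand :=
  ⟨⟨-4043, 143, 8160, -60, 723, -12163⟩,
  ⟨1261, -1146, 876, -6063, -529, -27624⟩,
  ⟨-1638, 5865, 11597, -7625, -11026, -3956⟩,
  ⟨-665, 11350, 1887, -21292, -33215, -13571⟩,
  ⟨1905, -2549, -5538, 2161⟩, ⟨343, 17939, 90, -90631⟩, ⟨-902, -6452, 3940, 46038⟩⟩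

/-- The upper band of piece `C`. -/
def midUpC : MidBand :=
  ⟨⟨-3922, -225, 7122, 109, 1341, -9434⟩,
  ⟨922, 2192, 1177, -10737, 1096, -27587⟩,
  ⟨576, -4793, 2710, -1618, 6857, -14906⟩,
  ⟨-512, 4701, 556, -5674, 10431, -6528⟩,
  ⟨1987, -4402, -6258, 9507⟩, ⟨1525, 17189, -8638, -72103⟩, ⟨-1335, -7639, 7885, 37356⟩⟩

/-- The exit curve of piece `A`, up to `u = 199/200`. -/
def midExitA : MidExit :=
  ⟨⟨965, 42, -275, -876⟩, ⟨-131, -1179, -825, -2343⟩, ⟨-48, -154, -391, -1077⟩⟩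

/-- The exit curve of piece `B`, up to `u = 199/200`. -/
def midExitB : MidExit :=
  ⟨⟨966, 153, -504, -1520⟩, ⟨-176, -1030, -206, -1873⟩, ⟨-123, -163, -73, -752⟩⟩

/-- The exit curve of piece `C`, up to `u = 199/200`. -/
def midExitC : MidExit :=
  ⟨⟨1018, 96, -969, -887⟩, ⟨-300, -686, -293, -1367⟩, ⟨-120, -350, 358, -295⟩⟩

/-- The exit curve of piece `C`, up to `u = 39/40`. -/
def midExitD : MidExit :=
  ⟨⟨984, -40, -1537, -2452⟩, ⟨32, -346, -17, 434⟩, ⟨-466, -563, 299, 1884⟩⟩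

end Vale.Agent.P100.Calib.Band
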