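import Vale.Agent.P100.Calib.SlabLowEndChart
import Vale.Agent.P100.Calib.SlabMidData

/-!
# The expressions of the facts used near `u = 1`
-/

namespace Vale.Agent.P100.Calib.LowEnd

open Pack Band

/-- A quadratic in `(a, I)`. -/
def eSix (c : MidSix) : Ex :=
  .add (.add (.add (.add (.add (.num c.c0) (.mul (.num c.c1) xA)) (.mul (.num c.c2) xI))
    (.mul (.num c.c3) (.mul xA xA))) (.mul (.num c.c4) (.mul xA xI)))
    (.mul (.num c.c5) (.mul xI xI))

/-- A bilinear form in `(1, a)` and `(1, I)`. -/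
def eFour (c : MidFour) : Ex :=
  .add (.add (.add (.num c.c0) (.mul (.num c.c1) xA)) (.mul (.num c.c2) xI))
    (.mul (.num c.c3) (.mul xA xI))

/-- A thousand times `d (midN/(1000 pole) - H) pole`. -/
def eBand (c : MidBand) : Ex :=
  .sub
    (.add (.add (.mul (.num 1000) eD)
      (.mul (.sub (.mul (.num 1000) eB)
        (.mul xI (.add (eFour c.t0) (.mul eU (.add (eFour c.t1) (.mul eU (eFour c.t2))))))) xX))
      (.mul eD (.mul xI (.add (eSix c.p0)
        (.mul eU (.add (eSix c.p1) (.mul eU (.add (eSix c.p2) (.mul eU (eSix c.p3))))))))))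
    (.mul (.num 1000) (.mul (.sub (.num 1) xH) (.sub eB (.mul eU xA))))

/-- The upper band. -/
def eUp (c : MidBand) : Ex := eBand c
/-- The lower band. -/
def eLow (c : MidBand) : Ex := .mul (.num (-1)) (eBand c)
/-- `2 I - S X`. -/
def eTau : Ex := .sub (.mul (.num 2) xI) (.mul eS xX)
/-- The numerator of `g`. -/
def eQn : Ex := .sub (.mul (.add (.num 2) xX) eB) (.mul (.mul eS eU) eQ)
/-- The radial speed. -/
def eFlow : Ex :=
  .sub (.mul eQn (.sub (.num 1) xH)) (.mul (.mul eS (.sub eD (.mul xA xX))) eDen)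
/-- `ev`. -/
def eEv : Ex :=
  .sub (.mul (.add xW (.mul eU xH)) eQn) (.mul (.mul (.mul eS eB) xW) eDen)
/-- The first rung. -/
def eX1 : Ex :=
  .add (.sub (.mul (.mul (.num 2) (.sub (.num 1) xH)) (.sub eB (.mul eU xA))) (.mul (.num 2) eD))
    (.mul (.mul xI xW) (.add (.num 5) (.mul (.num 12) xA)))
/-- The forward rung. -/
def eT : Ex :=
  .add (.sub (.mul (.mul eS eD) xX) (.mul (.mul (.num 2) xI) eD))
    (.mul (.mul (.num 14) xI) (.mul (.add xA (.mul (.num 2) xI)) xW))

end Vale.Agent.P100.Calib.LowEnd
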