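import Vale.Agent.P100.Pack.Dense
import Vale.Agent.P100.Pack.Fast

/-!
# An expression equal to a multiple of a coefficient list

`checkPoly K l n e f q` evaluates `e`, `f` and the sparse polynomial `q` at one packing point and
compares the integers; if they agree then `e = f q` wherever all five coordinates are nonnegative.
-/

namespace Vale.Agent.P100.Calib.LowEnd

open Pack

/-- The trivial charts. -/
abbrev idC : ℕ → Chart := fun _ => idChart

/-- The sparse polynomial at the packing point of the degrees `l`. -/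
noncomputable def polyAt (K : ℕ) (l n : List ℕ) (q : Dense.Q5) : ℕ × ℕ :=
  Dense.ev5 (Dense.pt.degOf n) (fun i => Dense.cN idChart (Dense.pt K l i))
    (fun i => Dense.cD idChart (Dense.pt K l i)) q

/-- `e = f q`, by one packed evaluation; `l` are the degrees of the packing, `n` those of `q`. -/
noncomputable def checkPoly (K : ℕ) (l n : List ℕ) (e f : Ex) (q : Dense.Q5) : Bool :=
  e.ok 5 && f.ok 5 && decide (1 ≤ K) && Dense.shape (Dense.pt.degOf n) q &&
    match runAt idC 5 (fun i => (Dense.pt K l i : ℤ)) e,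
        runAt idC 5 (fun i => (Dense.pt K l i : ℤ)) f with
    | ⟨de, ve, be⟩, ⟨df, vf, bf⟩ =>
      ((List.range 5).all fun i => Nat.ble (de.getD i 0) (Dense.pt.degOf l i) &&
        Nat.ble (df.getD i 0 + Dense.pt.degOf n i) (Dense.pt.degOf l i)) &&
      Nat.ble (2 * (be + bf * Dense.size q) + 1) (2 ^ K) &&
      decide (ve = vf * Dense.vz (polyAt K l n q))

theorem idC_lin (x : ℕ → ℝ) {i : ℕ} : ((idC i).a : ℝ) + (idC i).b * x i = x i ∧
    ((idC i).c : ℝ) + (idC i).d * x i = 1 := by simp [idC, idChart]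

theorem hom_id {x : ℕ → ℝ} {e : Ex} (hok : e.ok 5 = true) : hom idC 5 x e = e.eval x := by
  rw [hom_eq idC 5 (x := x) (fun i _ => by simp [idC, idChart]) e hok]
  simp [den, prodTo, idC, idChart]

/-- Only the degrees below `m` matter. -/
theorem fits_le : ∀ (m : ℕ) {D D' : ℕ → ℕ} {a : Rep m}, (∀ j < m, D j ≤ D' j) → Fits m D a →
    Fits m D' a
  | 0, _, _, _, _, _ => trivial
  | m + 1, D, D', a, h, ha =>
    ⟨le_trans ha.1 (Nat.add_le_add_right (h 0 (Nat.succ_pos m)) 1), fun b hb =>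
      fits_le m (fun j hj => h (j + 1) (by omega)) (ha.2 b hb)⟩

theorem eval_congr5 {x y : ℕ → ℝ} (h : ∀ i < 5, x i = y i) :
    ∀ e : Ex, e.ok 5 = true → e.eval x = e.eval y
  | .var i, hi => h i (by simpa [Ex.ok] using hi)
  | .num _, _ => rfl
  | .add e f, hk => by
    simp only [Ex.ok, Bool.and_eq_true] at hk
    simp only [Ex.eval, eval_congr5 h e hk.1, eval_congr5 h f hk.2]
  | .sub e f, hk => by
    simp only [Ex.ok, Bool.and_eq_true] at hk
    simp only [Ex.eval, eval_congr5 h e hk.1, eval_congr5 h f hk.2]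
  | .mul e f, hk => by
    simp only [Ex.ok, Bool.and_eq_true] at hk
    simp only [Ex.eval, eval_congr5 h e hk.1, eval_congr5 h f hk.2]
  | .pow e k, hk => by
    simp only [Ex.ok] at hk
    simp only [Ex.eval, eval_congr5 h e hk]

/-- **The checked identity.** -/
theorem eval_of_checkPoly {K : ℕ} {l n : List ℕ} {e f : Ex} {q : Dense.Q5}
    (h : checkPoly K l n e f q = true) {x : ℕ → ℝ} (hx : ∀ i < 5, 0 ≤ x i) :
    e.eval x = f.eval x * Dense.val x q := by
  simp only [checkPoly, Bool.and_eq_true, decide_eq_true_eq] at h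
  obtain ⟨⟨⟨⟨hoe, hof⟩, hK⟩, hsh⟩, hm⟩ := h
  rw [runAt_eq idC 5 _ e hoe, runAt_eq idC 5 _ f hof] at hm
  simp only [Bool.and_eq_true, decide_eq_true_eq, List.all_eq_true, List.mem_range,
    Nat.ble_eq] at hm
  obtain ⟨⟨hd, hb⟩, hv⟩ := hm
  set D := Dense.pt.degOf l with hD
  set t : ℕ → ℤ := fun i => (Dense.pt K l i : ℤ) with ht
  set N : ℕ → Rep 5 := fun i => lin 5 i idChart.a idChart.b
  set M : ℕ → Rep 5 := fun i => lin 5 i idChart.c idChart.d
  set Q := Dense.ev5R (Dense.pt.degOf n) N M q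
  set r := add 5 (rep idC 5 e) (neg 5 (mul 5 (rep idC 5 f) Q))
  have htb : ∀ i < 5, t i = base K 5 D i := fun i hi => Dense.pt_eq_base K l i hi
  have hN : ∀ i, nrm 5 (N i) ≤ 1 ∧ nrm 5 (M i) ≤ 1 := fun i =>
    ⟨(nrm_lin 5 i _ _).trans (by simp [idChart]), (nrm_lin 5 i _ _).trans (by simp [idChart])⟩
  have hQn : nrm 5 Q ≤ Dense.size q := by
    refine (Dense.nrm_ev5R hsh (M := fun _ => 1) (fun i => (hN i).1) (fun i => (hN i).2)).trans ?_
    simp
  have hneg : ∀ a : Rep 5, nrm 5 (neg 5 a) ≤ nrm 5 a := fun a => by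
    refine (nrm_mul 5 _ _).trans ?_
    simp [nrm_cst]
  have hr : 2 * nrm 5 r < 2 ^ K := by
    refine lt_of_le_of_lt (Nat.mul_le_mul_left 2 ((nrm_add 5 _ _).trans (Nat.add_le_add
      (nrm_rep idC 5 e) ((hneg _).trans ((nrm_mul 5 _ _).trans
        (Nat.mul_le_mul (nrm_rep idC 5 f) hQn)))))) ?_
    omega
  have hfit : Fits 5 D r := by
    refine fits_add 5 (fits_le 5 (fun j hj => ?_) (fits_rep idC 5 e))
      (fits_neg (fits_le 5 (fun j hj => ?_) (fits_mul 5 (fits_rep idC 5 f)
        (Dense.fits_ev5R hsh (fun i => fits_lin 5 i _ _) (fun i => fits_lin 5 i _ _)))))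
    · have := (hd j hj).1
      simp [hj] at this ⊢; exact this
    · have := (hd j hj).2
      interval_cases j <;> simpa [Dense.unit] using this
  have hev : ∀ s : ℕ → ℝ, ev 5 s r = e.eval s - f.eval s * Dense.val s q := fun s => by
    have hQ : ev 5 s Q = Dense.val s q := by
      rw [Dense.ev_ev5R, Dense.ev5V_eq hsh s _ _ fun i hi => by
        simp [N, M, ev_lin 5 i s _ _ hi, idChart]]
      simp [N, M, ev_lin 5 0 s _ _ (by norm_num : 0 < 5), ev_lin 5 1 s _ _ (by norm_num : 1 < 5),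
        ev_lin 5 2 s _ _ (by norm_num : 2 < 5), ev_lin 5 3 s _ _ (by norm_num : 3 < 5),
        ev_lin 5 4 s _ _ (by norm_num : 4 < 5), idChart, Dense.val]
    simp only [r, neg, ev_add, ev_mul, ev_cst, ev_rep idC 5 s e hoe, ev_rep idC 5 s f hof, hQ,
      hom_id hoe, hom_id hof]
    push_cast; ring
  have hz : ev 5 (base K 5 D) r = ((0 : ℕ) : ℤ) := by
    have hQ : ev 5 (base K 5 D) Q = Dense.vz (polyAt K l n q) := by
      rw [polyAt, Dense.vz_ev5, Dense.ev_ev5R]
      refine Dense.ev5V_congr (fun i hi => ?_) _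
      simp only [N, M, ev_lin 5 i _ _ _ hi, Dense.vz_cN, ← htb i hi, t, Int.cast_id,
        Dense.cD_eq (c := idChart) (by decide) (by decide), and_self]
    have hh : ∀ g : Ex, g.ok 5 = true →
        hom idC 5 (base K 5 D) g = hom idC 5 t g := fun g hg => by
      have h1 := runAt_congr idC 5 (fun i hi => (htb i hi).symm) g
      rw [runAt_eq idC 5 _ g hg, runAt_eq idC 5 _ g hg] at h1
      exact congrArg Res.val h1
    simp only [r, neg, ev_add, ev_mul, ev_cst, ev_rep idC 5 _ e hoe, ev_rep idC 5 _ f hof, hQ,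
      hh e hoe, hh f hof, hv]
    simp
  have hz' : ev 5 (base K 5 D) (neg 5 r) = ((0 : ℕ) : ℤ) := by
    simp [neg, ev_mul, ev_cst, hz]
  have p1 := nonneg_of_digits 5 K D r 0 hK hfit hr hz (digits_zero 5 K _)
  have p2 := nonneg_of_digits 5 K D (neg 5 r) 0 hK (fits_neg hfit)
    (lt_of_le_of_lt (Nat.mul_le_mul_left 2 (hneg r)) hr) hz' (digits_zero 5 K _)
  set s : ℕ → ℝ := fun i => if i < 5 then x i else 0
  have hs : ∀ i, 0 ≤ s i := fun i => by
    rcases lt_or_ge i 5 with hi | hi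
    · simp [s, hi, hx i hi]
    · simp [s, Nat.not_lt.2 hi]
  have a1 := ev_nonneg 5 hs p1
  have a2 := ev_nonneg 5 hs p2
  rw [neg, ev_mul, ev_cst, Int.cast_neg, Int.cast_one] at a2
  have h0 : e.eval s - f.eval s * Dense.val s q = 0 := by rw [← hev]; linarith
  have es : ∀ g : Ex, g.ok 5 = true → g.eval s = g.eval x := fun g hg => by
    exact eval_congr5 (fun i hi => by simp [s, hi]) g hg
  have hsv : Dense.val s q = Dense.val x q := by simp [Dense.val, s]
  rw [es e hoe, es f hof, hsv] at h0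
  linarith

end Vale.Agent.P100.Calib.LowEnd
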