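import Vale.Agent.P100.Calib.SlabLowEndExprs
import Vale.Agent.P100.Calib.SlabLowEndPoly

/-!
# The facts as coefficient lists
-/

set_option maxRecDepth 100000

namespace Vale.Agent.P100.Calib.LowEnd

open Pack Band

/-- `31/100 - a`, times a hundred. -/
def eAmax : Ex := .sub (.num 31) (.mul (.num 100) xA)

variable {x : ℕ → ℝ}

/-- The coefficients of `eTau`. -/
def qTau : Dense.Q5 :=
  [[[[[],[(0,1)]]],[[[(2,0)],[(2,0)]]]]]

theorem poly_Tau : checkPoly 27 [1, 2, 1, 2, 1] [0, 1, 0, 1, 0] eTau (.num 1) qTau = true := by decide +kernel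

theorem val_Tau (hx : ∀ i < 5, 0 ≤ x i) : Dense.val x qTau = eTau.eval x := by
  simpa [Ex.eval] using (eval_of_checkPoly poly_Tau hx).symm

/-- The coefficients of `eFlow`. -/
def qFlow : Dense.Q5 :=
  [[[[[(0,0),(0,2)],[(0,1)]],[[],[(1,0),(0,1)]]],[[[(2,0),(6,0)],[(4,0)]],[[(2,0),(0,2)],[(0,2),(2,
  0)]]],[[[(0,4),(0,4)],[(0,4)]],[[(0,4),(4,0)]]]],[[[[(0,0),(4,0)],[(2,0),(2,0)],[(1,0)]],[[(2,0),
  (0,2)],[(1,0),(0,1)]]],[[[(0,4),(0,4)],[(0,6),(0,2)],[(0,2)]],[[(0,4),(4,0)],[(0,2),(2,0)]]]]]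

theorem poly_Flow : checkPoly 31 [2, 3, 2, 3, 2] [1, 2, 1, 2, 1] eFlow (.num 1) qFlow = true := by decide +kernel

theorem val_Flow (hx : ∀ i < 5, 0 ≤ x i) : Dense.val x qFlow = eFlow.eval x := by
  simpa [Ex.eval] using (eval_of_checkPoly poly_Flow hx).symm

/-- The coefficients of `eEv`. -/
def qEv : Dense.Q5 :=
  [[[[[(0,0),(1,0)]],[[(0,0),(0,1)],[(0,1),(1,0)]],[[],[(1,0),(0,1)]]],[[[(0,0),(0,2)]],[[(2,0),(4,
  0)],[(4,0),(0,2)]],[[(2,0),(0,2)],[(0,2),(2,0)]]],[[],[[(0,4),(0,4)],[(0,4)]],[[(0,4),(4,0)]]]],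
  [[[[(0,0),(0,2)],[(0,0),(0,1)]],[[(0,1),(3,0)],[(0,0),(1,0)]],[[(1,0),(0,1)]]],[[],[[(0,2),(0,2)],
  [(0,2)]],[[(0,2),(2,0)]]]]]

theorem poly_Ev : checkPoly 31 [2, 3, 3, 2, 2] [1, 2, 2, 1, 1] eEv (.num 1) qEv = true := by decide +kernel

theorem val_Ev (hx : ∀ i < 5, 0 ≤ x i) : Dense.val x qEv = eEv.eval x := by
  simpa [Ex.eval] using (eval_of_checkPoly poly_Ev hx).symm

/-- The coefficients of `eX1`. -/
def qX1 : Dense.Q5 :=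
  [[[[[(0,0),(0,2)]]],[[[(0,0),(4,0)]],[[(5,0)]]]],[[[[(0,0),(4,0)]],[[(2,0),(0,2)]]],[[],[[(12,
  0)]]]]]

theorem poly_X1 : checkPoly 29 [2, 2, 2, 1, 2] [1, 1, 1, 0, 1] eX1 (.num 1) qX1 = true := by decide +kernel

theorem val_X1 (hx : ∀ i < 5, 0 ≤ x i) : Dense.val x qX1 = eX1.eval x := by
  simpa [Ex.eval] using (eval_of_checkPoly poly_X1 hx).symm

/-- The coefficients of `eT`. -/
def qRung : Dense.Q5 :=
  [[[[[],[(1,0)]]],[[[(0,2)],[(0,4)]]],[[[(4,0)],[(4,0)]],[[(28,0)]]]],[[[[],[(0,2)]]],[[[(4,0)],[(4,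
  0)]],[[(14,0)]]]]]

theorem poly_Rung : checkPoly 31 [2, 3, 2, 2, 1] [1, 2, 1, 1, 0] eT (.num 1) qRung = true := by decide +kernel

theorem val_Rung (hx : ∀ i < 5, 0 ≤ x i) : Dense.val x qRung = eT.eval x := by
  simpa [Ex.eval] using (eval_of_checkPoly poly_Rung hx).symm

/-- The coefficients of `eAmax`. -/
def qAmax : Dense.Q5 :=
  [[[[[(31,0)]]]],[[[[(0,100)]]]]]

theorem poly_Amax : checkPoly 32 [2, 1, 1, 1, 1] [1, 0, 0, 0, 0] eAmax (.num 1) qAmax = true := by decide +kernel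

theorem val_Amax (hx : ∀ i < 5, 0 ≤ x i) : Dense.val x qAmax = eAmax.eval x := by
  simpa [Ex.eval] using (eval_of_checkPoly poly_Amax hx).symm

/-- The coefficients of `(eUp midUpA)`. -/
def qUpA : Dense.Q5 :=
  [[[[[(0,0),(1000,0)],[(1000,0)]]],[[[(0,2467),(0,2000)],[(0,3149)]],[[(0,1376)],[(0,3078)]],[[(0,
  273)],[(2292,0)]],[[(71,0)]]],[[[(17290,0)],[(0,927)]],[[(0,7118)],[(20480,0)]],[[(8282,0)],[(0,
  13595)]],[[(0,681)]]],[[[(0,134501)]],[[(183170,0)]],[[(0,121054)]],[[(27643,0)]]],[[[(219578,0)]],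
  [[(0,326860)]],[[(211164,0)]],[[(0,53130)]]]],[[[[(0,0),(0,2000)],[(0,1000)]],[[(0,1000),(1000,
  0)]]],[[[(5101,0)],[(0,15617)]],[[(0,2607)],[(0,1104)]],[[(9888,0)],[(20545,0)]],[[(0,4278)]]],
  [[[(0,11404)],[(125582,0)]],[[(10878,0)],[(79901,0)]],[[(0,29682)],[(0,209915)]],[[(10443,0)]]],
  [[[(192294,0)]],[[(0,287700)]],[[(202216,0)]],[[(0,55316)]]]],[[],[[[(0,10918)]],[[(32750,0)]],
  [[(0,38237)]],[[(16404,0)]]],[[[(0,6116)]],[[(0,4904)]],[[(30158,0)]],[[(0,18450)]]]],[[],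
  [[[(21168,0)]],[[(0,44064)]],[[(39106,0)]],[[(0,16264)]]]]]

theorem poly_UpA : checkPoly 46 [4, 5, 4, 2, 2] [3, 4, 3, 1, 1] (eUp midUpA) (.num 1) qUpA = true := by decide +kernel

theorem val_UpA (hx : ∀ i < 5, 0 ≤ x i) : Dense.val x qUpA = (eUp midUpA).eval x := by
  simpa [Ex.eval] using (eval_of_checkPoly poly_UpA hx).symm

/-- The coefficients of `(eLow midLowA)`. -/
def qLowA : Dense.Q5 :=
  [[[[[(0,0),(0,1000)],[(0,1000)]]],[[[(2810,0),(2000,0)],[(2155,0)]],[[(755,0)],[(5579,0)]],[[(465,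
  0)],[(0,4015)]],[[(55,0)]]],[[[(0,16443)],[(7978,0)]],[[(6754,0)],[(0,40046)]],[[(0,8532)],[(28971,
  0)]],[[(543,0)]]],[[[(102390,0)]],[[(0,122590)]],[[(75543,0)]],[[(0,14862)]]],[[[(0,161488)]],
  [[(212124,0)]],[[(0,120678)]],[[(27112,0)]]]],[[[[(0,0),(2000,0)],[(1000,0)]],[[(1000,0),(0,
  1000)]]],[[[(0,8515)],[(18413,0)]],[[(6765,0)],[(0,39)]],[[(0,7043)],[(0,20929)]],[[(509,0)]]],
  [[[(29935,0)],[(0,135984)]],[[(0,57678)],[(0,92837)]],[[(64985,0)],[(223259,0)]],[[(0,17510)]]],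
  [[[(0,166486)]],[[(261324,0)]],[[(0,195788)]],[[(57044,0)]]]],[[],[[[(20872,0)]],[[(0,40922)]],
  [[(19443,0)]],[[(849,0)]]],[[[(0,35162)]],[[(97944,0)]],[[(0,89544)]],[[(25758,0)]]]],[[],[[[(0,
  30164)]],[[(48744,0)]],[[(0,14434)]],[[(0,4174)]]]]]

theorem poly_LowA : checkPoly 46 [4, 5, 4, 2, 2] [3, 4, 3, 1, 1] (eLow midLowA) (.num 1) qLowA = true := by decide +kernel

theorem val_LowA (hx : ∀ i < 5, 0 ≤ x i) : Dense.val x qLowA = (eLow midLowA).eval x := by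
  simpa [Ex.eval] using (eval_of_checkPoly poly_LowA hx).symm

/-- The coefficients of `(eUp midUpB)`. -/
def qUpB : Dense.Q5 :=
  [[[[[(0,0),(1000,0)],[(1000,0)]]],[[[(0,2762),(0,2000)],[(0,3545)]],[[(0,570)],[(0,3271)]],[[(0,
  957)],[(2958,0)]],[[(292,0)]]],[[[(18646,0)],[(2611,0)]],[[(0,14356)],[(24389,0)]],[[(13839,0)],
  [(0,21821)]],[[(0,2190)]]],[[[(0,108346)]],[[(163720,0)]],[[(0,105180)]],[[(22360,0)]]],[[[(164204,
  0)]],[[(0,265456)]],[[(162660,0)]],[[(0,38296)]]]],[[[[(0,0),(0,2000)],[(0,1000)]],[[(0,1000),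
  (1000,0)]]],[[[(6103,0)],[(0,9944)]],[[(0,4857)],[(7310,0)]],[[(11465,0)],[(6344,0)]],[[(0,
  4702)]]],[[[(0,8393)],[(62244,0)]],[[(12760,0)],[(0,34775)]],[[(0,28755)],[(0,31086)]],[[(8035,
  0)]]],[[[(126186,0)]],[[(0,205004)]],[[(134266,0)]],[[(0,31470)]]]],[[],[[[(0,14386)]],[[(36358,
  0)]],[[(0,35956)]],[[(14004,0)]]],[[[(0,11562)]],[[(11724,0)]],[[(5314,0)]],[[(0,4710)]]]],[[],
  [[[(26456,0)]],[[(0,48728)]],[[(33708,0)]],[[(0,11536)]]]]]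

theorem poly_UpB : checkPoly 46 [4, 5, 4, 2, 2] [3, 4, 3, 1, 1] (eUp midUpB) (.num 1) qUpB = true := by decide +kernel

theorem val_UpB (hx : ∀ i < 5, 0 ≤ x i) : Dense.val x qUpB = (eUp midUpB).eval x := by
  simpa [Ex.eval] using (eval_of_checkPoly poly_UpB hx).symm

/-- The coefficients of `(eLow midLowB)`. -/
def qLowB : Dense.Q5 :=
  [[[[[(0,0),(0,1000)],[(0,1000)]]],[[[(3432,0),(2000,0)],[(2915,0)]],[[(0,452)],[(3607,0)]],[[(1452,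
  0)],[(0,3046)]],[[(0,259)]]],[[[(0,19009)],[(2810,0)]],[[(7351,0)],[(0,27116)]],[[(0,6204)],
  [(22504,0)]],[[(0,1059)]]],[[[(63714,0)]],[[(0,23382)]],[[(1034,0)]],[[(3713,0)]]],[[[(0,78848)]],
  [[(20976,0)]],[[(11132,0)]],[[(0,1118)]]]],[[[[(0,0),(2000,0)],[(1000,0)]],[[(1000,0),(0,1000)]]],
  [[[(0,14345)],[(12034,0)]],[[(23226,0)],[(0,6501)]],[[(0,25009)],[(0,6076)]],[[(7469,0)]]],
  [[[(60597,0)],[(0,72085)]],[[(0,126725)],[(10662,0)]],[[(119443,0)],[(44611,0)]],[[(0,30789)]]],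
  [[[(0,121538)]],[[(159350,0)]],[[(0,126134)]],[[(38964,0)]]]],[[],[[[(37358,0)]],[[(0,94928)]],
  [[(85504,0)]],[[(0,27245)]]],[[[(0,87482)]],[[(238942,0)]],[[(0,219854)]],[[(66768,0)]]]],[[],
  [[[(0,44792)]],[[(100568,0)]],[[(0,82588)]],[[(26686,0)]]]]]

theorem poly_LowB : checkPoly 46 [4, 5, 4, 2, 2] [3, 4, 3, 1, 1] (eLow midLowB) (.num 1) qLowB = true := by decide +kernel

theorem val_LowB (hx : ∀ i < 5, 0 ≤ x i) : Dense.val x qLowB = (eLow midLowB).eval x := by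
  simpa [Ex.eval] using (eval_of_checkPoly poly_LowB hx).symm

/-- The coefficients of `(eUp midUpC)`. -/
def qUpC : Dense.Q5 :=
  [[[[[(0,0),(1000,0)],[(1000,0)]]],[[[(0,2936),(0,2000)],[(0,4177)]],[[(0,538)],[(0,1145)]],[[(0,
  960)],[(1335,0)]],[[(512,0)]]],[[[(17437,0)],[(7011,0)]],[[(0,7189)],[(7132,0)]],[[(6298,0)],[(0,
  7885)]],[[(0,1580)]]],[[[(0,81585)]],[[(93513,0)]],[[(0,43246)]],[[(7640,0)]]],[[[(116910,0)]],
  [[(0,153966)]],[[(68980,0)]],[[(0,13056)]]]],[[[[(0,0),(0,2000)],[(0,1000)]],[[(0,1000),(1000,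
  0)]]],[[[(7747,0)],[(0,5148)]],[[(0,5633)],[(1911,0)]],[[(11230,0)],[(7639,0)]],[[(0,5725)]]],
  [[[(0,7155)],[(25240,0)]],[[(0,16155)],[(2609,0)]],[[(10774,0)],[(0,37356)]],[[(83,0)]]],[[[(77460,
  0)]],[[(0,61760)]],[[(0,7320)]],[[(7806,0)]]]],[[],[[[(0,21670)]],[[(44413,0)]],[[(0,37260)]],
  [[(15076,0)]]],[[[(0,3610)]],[[(30216,0)]],[[(0,39020)]],[[(9514,0)]]]],[[],[[[(35840,0)]],[[(0,
  61990)]],[[(37280,0)]],[[(0,11348)]]]]]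

theorem poly_UpC : checkPoly 45 [4, 5, 4, 2, 2] [3, 4, 3, 1, 1] (eUp midUpC) (.num 1) qUpC = true := by decide +kernel

theorem val_UpC (hx : ∀ i < 5, 0 ≤ x i) : Dense.val x qUpC = (eUp midUpC).eval x := by
  simpa [Ex.eval] using (eval_of_checkPoly poly_UpC hx).symm

/-- The coefficients of `(eLow midLowC)`. -/
def qLowC : Dense.Q5 :=
  [[[[[(0,0),(0,1000)],[(0,1000)]]],[[[(5085,0),(2000,0)],[(3346,0)]],[[(0,4010)],[(1461,0)]],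
  [[(3633,0)],[(0,902)]],[[(0,665)]]],[[[(0,32690)],[(0,1508)]],[[(37751,0)],[(0,7970)]],[[(0,
  24524)],[(3940,0)]],[[(3217,0)]]],[[[(102354,0)]],[[(0,135711)]],[[(79185,0)]],[[(0,17345)]]],
  [[[(0,114628)]],[[(152498,0)]],[[(0,89338)]],[[(27142,0)]]]],[[[[(0,0),(2000,0)],[(1000,0)]],
  [[(1000,0),(0,1000)]]],[[[(0,26382)],[(8938,0)]],[[(52654,0)],[(0,5035)]],[[(0,47181)],[(0,6452)]],
  [[(12680,0)]]],[[[(121511,0)],[(0,42432)]],[[(0,270956)],[(0,1445)]],[[(225017,0)],[(46038,0)]],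
  [[(0,59689)]]],[[[(0,202722)]],[[(396950,0)]],[[(0,310680)]],[[(93572,0)]]]],[[],[[[(67464,0)]],
  [[(0,174457)]],[[(151331,0)]],[[(0,43992)]]],[[[(0,158174)]],[[(414830,0)]],[[(0,364344)]],
  [[(109014,0)]]]],[[],[[[(0,70080)]],[[(170378,0)]],[[(0,143002)]],[[(42584,0)]]]]]

theorem poly_LowC : checkPoly 47 [4, 5, 4, 2, 2] [3, 4, 3, 1, 1] (eLow midLowC) (.num 1) qLowC = true := by decide +kernel

theorem val_LowC (hx : ∀ i < 5, 0 ≤ x i) : Dense.val x qLowC = (eLow midLowC).eval x := by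
  simpa [Ex.eval] using (eval_of_checkPoly poly_LowC hx).symm

end Vale.Agent.P100.Calib.LowEnd
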