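import Vale.Agent.P100.Calib.SlabLowEndRows

/-!
# The scaled entries of the block

With `L = S⁴ d² b u D² Q`, `D = 2 + X - u (1 - η)`, `Q = 1 + X`, the entries of the block are scaled
to the ten targets `E + z Ez, G, M, X, Y, z Z, N + z Ez, L + z Lz`, polynomials in
`(a, I, w, X, η)`; `z` is the multiplier over `a`.
-/

set_option linter.unusedVariables false
set_option linter.unusedSectionVars false

namespace Vale.Agent.P100.Calib.LowEnd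

open Pack EndAll

section
variable (k a I w X η : ℝ)

/-- The common scale. -/
noncomputable def vL : ℝ :=
  vS I ^ 4 * vD a I ^ 2 * vB a I * (1 - w) * vDen w X η ^ 2 * (1 + X)

noncomputable def tE : ℝ :=
  (vForm ClosedGen.TEES k a I w X η + vForm ClosedGen.TMGS k a I w X η) * vL a I w X η *
    (a⁻¹ ^ 3 * (1 + X)⁻¹)
noncomputable def tEz : ℝ :=
  -(vV a I X * vG a I w X η * a ^ 2 * I ^ 2) * a * vL a I w X η * (a⁻¹ ^ 3 * (1 + X)⁻¹)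
noncomputable def tG : ℝ := vForm ClosedGen.TGGS k a I w X η * vL a I w X η * a⁻¹ ^ 3
noncomputable def tM : ℝ :=
  a * vB a I * vForm ClosedGen.TMMS k a I w X η * vL a I w X η *
    (a⁻¹ * I⁻¹ ^ 2 * (vS I)⁻¹ ^ 2 * (vDen w X η)⁻¹ ^ 2)
noncomputable def tX : ℝ :=
  vD a I / 2 * vForm ClosedGen.TEGS k a I w X η * vL a I w X η * a⁻¹ ^ 3
noncomputable def tY : ℝ :=
  2 * (a * vB a I) * vForm ClosedGen.TMES k a I w X η * vL a I w X η *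
    (a⁻¹ ^ 2 * I⁻¹ * (vS I)⁻¹ * (vDen w X η)⁻¹)
noncomputable def tZ : ℝ :=
  a * I ^ 2 * (vB a I)⁻¹ * (vD a I)⁻¹ / 8 * a * vL a I w X η *
    (a⁻¹ ^ 2 * I⁻¹ * (vS I)⁻¹ * (vDen w X η)⁻¹)
noncomputable def tN : ℝ :=
  vForm ClosedGen.TMGS k a I w X η * vL a I w X η * (a⁻¹ ^ 3 * (1 + X)⁻¹)
noncomputable def tL : ℝ :=
  8 * a * vB a I * vV a I X * (a * vB a I) * vForm ClosedGen.LLGS k a I w X η * vL a I w X η *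
    (a⁻¹ ^ 3 * (vB a I)⁻¹ * X⁻¹ * (vS I)⁻¹ ^ 3 * (1 - w)⁻¹ * (vDen w X η)⁻¹ ^ 2 * (1 + X)⁻¹)
noncomputable def tLz : ℝ :=
  vV a I X * a ^ 2 * I ^ 2 * vR I w * a * vL a I w X η *
    (a⁻¹ ^ 3 * (vB a I)⁻¹ * X⁻¹ * (vS I)⁻¹ ^ 3 * (1 - w)⁻¹ * (vDen w X η)⁻¹ ^ 2 * (1 + X)⁻¹)

end

/-! ### Their fractions -/

def fQ : Fn := fadd (Fn.int 1) fX
def fDen : Fn := Fn.inv 8 (-1)
def fia : Fn := Fn.inv 0 1
def fiX : Fn := Fn.inv 6 1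
def fj1 : Fn := Fn.divNat (fadd (fadd (Fn.int 1) (Fn.mul (Fn.int 2) fa)) fd) 2
def fab : Fn := fadd fa fd
def fdv : Fn := Fn.mul fd fv
def fQv : Fn := fadd (Fn.int 1) fdv
def fQv2 : Fn := fadd (Fn.int 2) fdv
def fhalf : Fn := Fn.divNat (Fn.int 1) 2
def fscL : Fn :=
  Fn.mul (Fn.mul (Fn.mul (Fn.mul (Fn.mul (Fn.pow fS 4) (Fn.pow fd 2)) fb) fu) (Fn.pow fDen 2)) fQ
def fTGGS (k : Fn) : Fn :=
  fadd (fadd
    (Fn.mul (Fn.mul (Fn.mul (Fn.mul (Fn.mul (Fn.mul (Fn.mul (Fn.int 8) fc) fa) fab) fv) fQv2) fQv)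
      (fLGGS k))
    (Fn.mul (Fn.mul (Fn.neg fj1) fc) (Fn.pow (fgGS k) 2)))
    (Fn.mul (Fn.mul (Fn.mul (Fn.mul (Fn.mul (Fn.neg fj1) fa) fab) (Fn.pow fd 2)) fQv)
      (Fn.pow (fhGS k) 2))
def fTEGS (k : Fn) : Fn :=
  fadd (fadd (Fn.mul (Fn.mul (Fn.mul (Fn.mul (Fn.mul (Fn.int 4) fc) fa) fab) fv) (fLEGS k))
    (Fn.mul (Fn.mul (Fn.mul (Fn.neg (Fn.mul (Fn.int 2) fj1)) fc) (fgES k)) (fgGS k)))
    (Fn.mul (Fn.mul (Fn.mul (Fn.mul (Fn.neg (Fn.mul (Fn.int 2) fj1)) fa) fab) (fhES k)) (fhGS k))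
def fhMS : Fn := Fn.mul fc (eG_hM_c atoms fa fd fv fg fW)
def fTEES (k : Fn) : Fn :=
  fadd (fadd (fadd (fadd
    (Fn.mul (Fn.mul (Fn.mul (Fn.mul (Fn.mul (Fn.int 8) fc) fa) fab) fv) (fLEES k))
    (Fn.mul (Fn.mul (Fn.mul (Fn.mul (fsub fhalf fj1) fc) (Fn.pow fd 2)) fQv) (Fn.pow (fgES k) 2)))
    (Fn.mul (Fn.mul (Fn.mul (fsub fhalf fj1) fa) fab) (Fn.pow (fhES k) 2)))
    (Fn.mul (Fn.mul (Fn.mul (Fn.mul (Fn.mul (Fn.mul (Fn.mul (Fn.int 8) (Fn.neg (Fn.int 2))) fc) fa)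
      fab) fv) (fgMS k)) (fgGS k)))
    (Fn.mul (Fn.mul (Fn.mul (Fn.mul (Fn.mul (Fn.mul (Fn.mul (Fn.mul (Fn.int 4) (Fn.neg (Fn.int 2)))
      fa) fab) fv) (Fn.pow fd 2)) fQv) fhMS) (fhGS k))
def fTMGS (k : Fn) : Fn :=
  fadd (fadd (fadd (fadd
    (Fn.mul (Fn.mul (Fn.mul (Fn.mul (Fn.mul (Fn.int 4) fc) fa) fab) fv) (fLMGS k))
    (Fn.mul (Fn.mul (Fn.mul (Fn.mul (Fn.mul (Fn.mul (Fn.mul (Fn.int 8)
      (fsub (Fn.int 2) (Fn.mul (Fn.int 2) fj1))) fc) fa) fab) fv) (fgMS k)) (fgGS k)))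
    (Fn.mul (Fn.mul (Fn.mul (Fn.mul (Fn.mul (Fn.mul (Fn.mul (Fn.mul (Fn.int 4)
      (fsub (Fn.int 2) (Fn.mul (Fn.int 2) fj1))) fa) fab) fv) (Fn.pow fd 2)) fQv) fhMS) (fhGS k)))
    (Fn.mul (Fn.mul (Fn.mul (Fn.mul (Fn.divNat (Fn.neg (Fn.int 1)) 2) fc) (Fn.pow fd 2)) fQv)
      (Fn.pow (fgES k) 2)))
    (Fn.mul (Fn.mul (Fn.mul (Fn.divNat (Fn.neg (Fn.int 1)) 2) fa) fab) (Fn.pow (fhES k) 2))

def fscE : Fn := Fn.mul (Fn.pow fia 3) fiQ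
def fscY : Fn := Fn.mul (Fn.mul (Fn.mul (Fn.pow fia 2) fiI) fiS) fiDen
def fscLL : Fn :=
  Fn.mul (Fn.mul (Fn.mul (Fn.mul (Fn.mul (Fn.mul (Fn.pow fia 3) fib) fiX) (Fn.pow fiS 3)) fiu)
    (Fn.pow fiDen 2)) fiQ
def fTE (k : Fn) : Fn := Fn.mul (Fn.mul (fadd (fTEES k) (fTMGS k)) fscL) fscE
def fTEz : Fn :=
  Fn.mul (Fn.mul (Fn.mul (Fn.neg (Fn.mul (Fn.mul (Fn.mul fv fg) (Fn.pow fa 2)) (Fn.pow fI 2)))
    fa) fscL) fscE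
def fTG (k : Fn) : Fn := Fn.mul (Fn.mul (fTGGS k) fscL) (Fn.pow fia 3)
def fTM (k : Fn) : Fn :=
  Fn.mul (Fn.mul (Fn.mul (Fn.mul fa fb) (fTMMS k)) fscL)
    (Fn.mul (Fn.mul (Fn.mul fia (Fn.pow fiI 2)) (Fn.pow fiS 2)) (Fn.pow fiDen 2))
def fTX (k : Fn) : Fn := Fn.mul (Fn.mul (Fn.mul (Fn.divNat fd 2) (fTEGS k)) fscL) (Fn.pow fia 3)
def fTY (k : Fn) : Fn :=
  Fn.mul (Fn.mul (Fn.mul (Fn.mul (Fn.int 2) (Fn.mul fa fb)) (fTMES k)) fscL) fscY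
def fTZ : Fn :=
  Fn.mul (Fn.mul (Fn.mul
    (Fn.divNat (Fn.mul (Fn.mul (Fn.mul fa (Fn.pow fI 2)) fib) fid) 8) fa) fscL) fscY
def fTN (k : Fn) : Fn := Fn.mul (Fn.mul (fTMGS k) fscL) fscE
def fTL (k : Fn) : Fn :=
  Fn.mul (Fn.mul (Fn.mul (Fn.mul (Fn.mul (Fn.mul (Fn.mul (Fn.int 8) fa) fb) fv) (Fn.mul fa fb))
    (fLLGS k)) fscL) fscLL
def fTLz : Fn :=
  Fn.mul (Fn.mul (Fn.mul (Fn.mul (Fn.mul (Fn.mul fv (Fn.pow fa 2)) (Fn.pow fI 2)) fR) fa) fscL)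
    fscLL

namespace Pt

variable {x : ℕ → ℝ} (h : Pt x)
include h

theorem rQ : Rep atoms x 0 fQ (1 + x 3) := h.one'.add h.rX
theorem rDen : Rep atoms x 0 fDen (vDen (x 2) (x 3) (x 4)) :=
  h.ratom 8 rfl (by simp [bv1, eDen, eU, vDen, Ex.eval])
theorem ria : Rep atoms x 0 fia (x 0)⁻¹ := h.rinv 0 rfl (by simp [bv1, Ex.eval])
theorem riX : Rep atoms x 0 fiX (x 3)⁻¹ := h.rinv 6 rfl (by simp [bv1, Ex.eval])
theorem rj1 : Rep atoms x 0 fj1 (Closed.j1 (x 0) (vD (x 0) (x 1))) :=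
  ((h.one'.add (h.two'.mul h.ra)).add h.rd).divLit 2
theorem rab : Rep atoms x 0 fab (x 0 + vD (x 0) (x 1)) := h.ra.add h.rd
theorem rdv : Rep atoms x 0 fdv (vD (x 0) (x 1) * vV (x 0) (x 1) (x 3)) := h.rd.mul h.rv
theorem rQv : Rep atoms x 0 fQv (1 + vD (x 0) (x 1) * vV (x 0) (x 1) (x 3)) := h.one'.add h.rdv
theorem rQv2 : Rep atoms x 0 fQv2 (2 + vD (x 0) (x 1) * vV (x 0) (x 1) (x 3)) := h.two'.add h.rdv
theorem rhalf : Rep atoms x 0 fhalf (1 / 2 : ℝ) := h.one'.divLit 2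
theorem rscL : Rep atoms x 0 fscL (vL (x 0) (x 1) (x 2) (x 3) (x 4)) :=
  (((((h.rS.pow 4).mul (h.rd.pow 2)).mul h.rb).mul h.ru).mul (h.rDen.pow 2)).mul h.rQ
theorem rscE : Rep atoms x 0 fscE ((x 0)⁻¹ ^ 3 * (1 + x 3)⁻¹) := (h.ria.pow 3).mul h.riQ
theorem rscY : Rep atoms x 0 fscY
    ((x 0)⁻¹ ^ 2 * (x 1)⁻¹ * (vS (x 1))⁻¹ * (vDen (x 2) (x 3) (x 4))⁻¹) :=
  (((h.ria.pow 2).mul h.riI).mul h.riS).mul h.riDen
theorem rscLL : Rep atoms x 0 fscLL ((x 0)⁻¹ ^ 3 * (vB (x 0) (x 1))⁻¹ * (x 3)⁻¹ *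
    (vS (x 1))⁻¹ ^ 3 * (1 - x 2)⁻¹ * (vDen (x 2) (x 3) (x 4))⁻¹ ^ 2 * (1 + x 3)⁻¹) :=
  ((((((h.ria.pow 3).mul h.rib).mul h.riX).mul (h.riS.pow 3)).mul h.riu).mul
    (h.riDen.pow 2)).mul h.riQ

variable {k : Fn} {r : ℝ} (hk : Rep atoms x 0 k r)

section
include hk

theorem rTGGS : Rep atoms x 0 (fTGGS k)
    (vForm ClosedGen.TGGS r (x 0) (x 1) (x 2) (x 3) (x 4)) :=
  Rep.add (Rep.add
    ((((((((Rep.natLit h.pos 8).mul h.rc).mul h.ra).mul h.rab).mul h.rv).mul h.rQv2).mul h.rQv).mul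
      (h.rLGGS hk))
    ((h.rj1.neg.mul h.rc).mul ((h.rgGS hk).pow 2)))
    (((((h.rj1.neg.mul h.ra).mul h.rab).mul (h.rd.pow 2)).mul h.rQv).mul ((h.rhGS hk).pow 2))

theorem rTEGS : Rep atoms x 0 (fTEGS k)
    (vForm ClosedGen.TEGS r (x 0) (x 1) (x 2) (x 3) (x 4)) :=
  Rep.add (Rep.add
    ((((((Rep.natLit h.pos 4).mul h.rc).mul h.ra).mul h.rab).mul h.rv).mul (h.rLEGS hk))
    ((((h.two'.mul h.rj1).neg.mul h.rc).mul (h.rgES hk)).mul (h.rgGS hk)))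
    (((((h.two'.mul h.rj1).neg.mul h.ra).mul h.rab).mul (h.rhES hk)).mul (h.rhGS hk))

theorem rhMS : Rep atoms x 0 fhMS (vForm ClosedGen.hMS r (x 0) (x 1) (x 2) (x 3) (x 4)) :=
  h.rc.mul (rG_hM_c h.pos h.ra h.rd h.rv h.rg h.rW)

theorem rTEES : Rep atoms x 0 (fTEES k)
    (vForm ClosedGen.TEES r (x 0) (x 1) (x 2) (x 3) (x 4)) :=
  Rep.add (Rep.add (Rep.add (Rep.add
    ((((((Rep.natLit h.pos 8).mul h.rc).mul h.ra).mul h.rab).mul h.rv).mul (h.rLEES hk))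
    (((((h.rhalf.sub h.rj1).mul h.rc).mul (h.rd.pow 2)).mul h.rQv).mul ((h.rgES hk).pow 2)))
    ((((h.rhalf.sub h.rj1).mul h.ra).mul h.rab).mul ((h.rhES hk).pow 2)))
    ((((((((Rep.natLit h.pos 8).mul h.two'.neg).mul h.rc).mul h.ra).mul h.rab).mul h.rv).mul
      (h.rgMS hk)).mul (h.rgGS hk)))
    (((((((((Rep.natLit h.pos 4).mul h.two'.neg).mul h.ra).mul h.rab).mul h.rv).mul
      (h.rd.pow 2)).mul h.rQv).mul (h.rhMS hk)).mul (h.rhGS hk))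

theorem rTMGS : Rep atoms x 0 (fTMGS k)
    (vForm ClosedGen.TMGS r (x 0) (x 1) (x 2) (x 3) (x 4)) :=
  Rep.add (Rep.add (Rep.add (Rep.add
    ((((((Rep.natLit h.pos 4).mul h.rc).mul h.ra).mul h.rab).mul h.rv).mul (h.rLMGS hk))
    ((((((((Rep.natLit h.pos 8).mul (h.two'.sub (h.two'.mul h.rj1))).mul h.rc).mul h.ra).mul
      h.rab).mul h.rv).mul (h.rgMS hk)).mul (h.rgGS hk)))
    (((((((((Rep.natLit h.pos 4).mul (h.two'.sub (h.two'.mul h.rj1))).mul h.ra).mul h.rab).mul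
      h.rv).mul (h.rd.pow 2)).mul h.rQv).mul (h.rhMS hk)).mul (h.rhGS hk)))
    (((((h.one'.neg.divLit 2).mul h.rc).mul (h.rd.pow 2)).mul h.rQv).mul ((h.rgES hk).pow 2)))
    ((((h.one'.neg.divLit 2).mul h.ra).mul h.rab).mul ((h.rhES hk).pow 2))

theorem rTE : Rep atoms x 0 (fTE k) (tE r (x 0) (x 1) (x 2) (x 3) (x 4)) :=
  (((h.rTEES hk).add (h.rTMGS hk)).mul h.rscL).mul h.rscE

theorem rTG : Rep atoms x 0 (fTG k) (tG r (x 0) (x 1) (x 2) (x 3) (x 4)) :=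
  ((h.rTGGS hk).mul h.rscL).mul (h.ria.pow 3)

theorem rTM : Rep atoms x 0 (fTM k) (tM r (x 0) (x 1) (x 2) (x 3) (x 4)) :=
  (((h.ra.mul h.rb).mul (h.rTMMS hk)).mul h.rscL).mul
    (((h.ria.mul (h.riI.pow 2)).mul (h.riS.pow 2)).mul (h.riDen.pow 2))

theorem rTX : Rep atoms x 0 (fTX k) (tX r (x 0) (x 1) (x 2) (x 3) (x 4)) :=
  (((h.rd.divLit 2).mul (h.rTEGS hk)).mul h.rscL).mul (h.ria.pow 3)

theorem rTY : Rep atoms x 0 (fTY k) (tY r (x 0) (x 1) (x 2) (x 3) (x 4)) :=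
  (((h.two'.mul (h.ra.mul h.rb)).mul (h.rTMES hk)).mul h.rscL).mul h.rscY

theorem rTN : Rep atoms x 0 (fTN k) (tN r (x 0) (x 1) (x 2) (x 3) (x 4)) :=
  ((h.rTMGS hk).mul h.rscL).mul h.rscE

theorem rTL : Rep atoms x 0 (fTL k) (tL r (x 0) (x 1) (x 2) (x 3) (x 4)) :=
  ((((((((Rep.natLit h.pos 8).mul h.ra).mul h.rb).mul h.rv).mul (h.ra.mul h.rb)).mul
    (h.rLLGS hk)).mul h.rscL)).mul h.rscLL

end

theorem rTEz : Rep atoms x 0 fTEz (tEz (x 0) (x 1) (x 2) (x 3) (x 4)) :=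
  ((((h.rv.mul h.rg).mul (h.ra.pow 2)).mul (h.rI.pow 2)).neg.mul h.ra |>.mul h.rscL).mul h.rscE

theorem rTZ : Rep atoms x 0 fTZ (tZ (x 0) (x 1) (x 2) (x 3) (x 4)) :=
  (((((((h.ra.mul (h.rI.pow 2)).mul h.rib).mul h.rid).divLit 8)).mul h.ra).mul h.rscL).mul h.rscY

theorem rTLz : Rep atoms x 0 fTLz (tLz (x 0) (x 1) (x 2) (x 3) (x 4)) :=
  ((((((h.rv.mul (h.ra.pow 2)).mul (h.rI.pow 2)).mul h.rR).mul h.ra)).mul h.rscL).mul h.rscLL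

end Pt

end Vale.Agent.P100.Calib.LowEnd
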