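import Vale.Agent.P100.Calib.SlabLowEndPoly
import Vale.Agent.P100.Calib.SlabLowEndTargets

/-!
# From a fraction to a coefficient list

If one packed evaluation identifies the lifted numerator with a multiple of a coefficient list, the
value of the fraction is the value of the list over the natural number `den`.
-/

set_option linter.unusedVariables false

namespace Vale.Agent.P100.Calib.LowEnd

open Pack EndAll

/-- The numerator lifted to nonnegative exponents, times `den`. -/
def sideL (F : Fn) (den : ℕ) : Ex :=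
  .mul (hd (lift atoms (ePos F.ex) F.ex F.num)) (.num den)

/-- The product of the atoms to natural powers. -/
def monoEx : List (List Ex) → List ℤ → Ex
  | [], _ => .num 1
  | A :: As, e => .mul (.pow (hd A) (e.headD 0).toNat) (monoEx As e.tail)

/-- The denominator of the lifted fraction. -/
def sideR (F : Fn) : Ex := .mul (.num F.den) (monoEx atoms (ePos F.ex))

/-- The check. -/
noncomputable def checkForm (K : ℕ) (l n : List ℕ) (F : Fn) (den : ℕ) (q : Dense.Q5) : Bool :=
  Nat.beq (lift atoms (ePos F.ex) F.ex F.num).length 1 &&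
    checkPoly K l n (sideL F den) (sideR F) q

variable {x : ℕ → ℝ}

theorem eval_mono : ∀ (A : List Ex) (e : List ℤ), (∀ i : ℕ, 0 ≤ e.getD i 0) →
    (monoEx (A.map fun a => [a]) e).eval x = apow ((A.map fun a => [a]).map (bv x 0)) e
  | [], e, _ => by simp [monoEx, apow, Ex.eval]
  | a :: A, e, h => by
    have h0 : 0 ≤ e.headD 0 := by cases e <;> simpa using h 0
    have ht : ∀ i : ℕ, 0 ≤ e.tail.getD i 0 := fun i => by cases e <;> simpa using h (i + 1)
    simp only [List.map_cons, monoEx, apow, Ex.eval, hd, bv1, eval_mono A e.tail ht]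
    congr 1
    rw [← zpow_natCast, Int.toNat_of_nonneg h0]

theorem ePos_nonneg : ∀ (e : List ℤ) (i : ℕ), 0 ≤ (ePos e).getD i 0
  | [], i => by simp [ePos]
  | a :: e, 0 => by simp [ePos]
  | a :: e, i + 1 => by simpa [ePos] using ePos_nonneg e i

/-- **The value of a checked fraction.** -/
theorem value_of_checkForm {F : Fn} {r : ℝ} {K den : ℕ} {l n : List ℕ} {q : Dense.Q5}
    (h : checkForm K l n F den q = true) (hr : Rep atoms x 0 F r) (hx : ∀ i < 5, 0 ≤ x i) :
    r * den = Dense.val x q := by
  simp only [checkForm, Bool.and_eq_true, Nat.beq_eq] at h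
  obtain ⟨hl, hc⟩ := h
  obtain ⟨ha, hF, he⟩ := hr
  obtain ⟨p, hp⟩ := List.length_eq_one_iff.1 hl
  have e := eval_of_checkPoly hc hx
  have k1 := bv_lift (x := x) (θ := 0) atoms (ePos F.ex) F.ex F.num ha (eLe_pos _ _).2
  rw [hp, bv1] at k1
  have em : (monoEx atoms (ePos F.ex)).eval x = apow (atoms.map (bv x 0)) (ePos F.ex) :=
    eval_mono [xA, xI, eS, eB, eD, eU, xX, eQ, eDen] _ (ePos_nonneg _)
  simp only [sideL, sideR, hp, hd, Ex.eval, em, Int.cast_natCast] at e
  have p1 := apow_pos (Rep.apos ha) F.ex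
  have p2 := apow_pos (Rep.apos ha) (ePos F.ex)
  have hF0 : (0 : ℝ) < F.den := Nat.cast_pos.2 hF
  have e1 : p.eval x = r * F.den * apow (atoms.map (bv x 0)) (ePos F.ex) := by
    refine mul_right_cancel₀ p1.ne' ?_; rw [k1, ← he]; ring
  rw [e1] at e
  refine mul_left_cancel₀ (mul_pos hF0 p2).ne' ?_
  linear_combination e

end Vale.Agent.P100.Calib.LowEnd
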