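import Vale.Agent.P100.Calib.SlabLowEndForms
import Vale.Agent.P100.Calib.SlabLowEndDataA
import Vale.Agent.P100.Calib.SlabLowEndDataB
import Vale.Agent.P100.Calib.SlabLowEndDataC
import Vale.Agent.P100.Calib.SlabLowEndDataD

/-!
# The targets are the integer polynomials
-/

set_option linter.unusedVariables false
set_option maxRecDepth 100000

namespace Vale.Agent.P100.Calib.LowEnd

open Pack EndAll

variable {x : ℕ → ℝ}

theorem form_E : checkForm 64 [9, 15, 5, 10, 3] [6, 13, 5, 8, 3] (fTE fk) 5 qE = true := by decide +kernel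

/-- The value of `qE`. -/
theorem val_E (h : Pt x) (hx : ∀ i < 5, 0 ≤ x i) :
    tE (vK (x 0) (x 1)) (x 0) (x 1) (x 2) (x 3) (x 4) * (5 : ℕ) = Dense.val x qE :=
  value_of_checkForm form_E (h.rTE h.rk) hx

theorem form_G : checkForm 66 [10, 14, 5, 11, 4] [6, 13, 5, 9, 4] (fTG fk) 25 qG = true := by decide +kernel

/-- The value of `qG`. -/
theorem val_G (h : Pt x) (hx : ∀ i < 5, 0 ≤ x i) :
    tG (vK (x 0) (x 1)) (x 0) (x 1) (x 2) (x 3) (x 4) * (25 : ℕ) = Dense.val x qG :=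
  value_of_checkForm form_G (h.rTG h.rk) hx

theorem form_M : checkForm 31 [5, 6, 2, 3, 2] [4, 5, 2, 3, 2] (fTM fk) 1 qM = true := by decide +kernel

/-- The value of `qM`. -/
theorem val_M (h : Pt x) (hx : ∀ i < 5, 0 ≤ x i) :
    tM (vK (x 0) (x 1)) (x 0) (x 1) (x 2) (x 3) (x 4) * (1 : ℕ) = Dense.val x qM :=
  value_of_checkForm form_M (h.rTM h.rk) hx

theorem form_X : checkForm 62 [9, 14, 4, 9, 3] [6, 13, 4, 8, 3] (fTX fk) 5 qX = true := by decide +kernel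

/-- The value of `qX`. -/
theorem val_X (h : Pt x) (hx : ∀ i < 5, 0 ≤ x i) :
    tX (vK (x 0) (x 1)) (x 0) (x 1) (x 2) (x 3) (x 4) * (5 : ℕ) = Dense.val x qX :=
  value_of_checkForm form_X (h.rTX h.rk) hx

theorem form_Y : checkForm 43 [7, 10, 3, 5, 2] [5, 9, 3, 5, 2] (fTY fk) 1 qY = true := by decide +kernel

/-- The value of `qY`. -/
theorem val_Y (h : Pt x) (hx : ∀ i < 5, 0 ≤ x i) :
    tY (vK (x 0) (x 1)) (x 0) (x 1) (x 2) (x 3) (x 4) * (1 : ℕ) = Dense.val x qY :=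
  value_of_checkForm form_Y (h.rTY h.rk) hx

theorem form_N : checkForm 62 [8, 14, 5, 10, 3] [6, 12, 5, 8, 3] (fTN fk) 5 qN = true := by decide +kernel

/-- The value of `qN`. -/
theorem val_N (h : Pt x) (hx : ∀ i < 5, 0 ≤ x i) :
    tN (vK (x 0) (x 1)) (x 0) (x 1) (x 2) (x 3) (x 4) * (5 : ℕ) = Dense.val x qN :=
  value_of_checkForm form_N (h.rTN h.rk) hx

theorem form_L : checkForm 45 [7, 9, 2, 6, 2] [5, 8, 2, 4, 2] (fTL fk) 5 qL = true := by decide +kernel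

/-- The value of `qL`. -/
theorem val_L (h : Pt x) (hx : ∀ i < 5, 0 ≤ x i) :
    tL (vK (x 0) (x 1)) (x 0) (x 1) (x 2) (x 3) (x 4) * (5 : ℕ) = Dense.val x qL :=
  value_of_checkForm form_L (h.rTL h.rk) hx

theorem form_Ez : checkForm 30 [2, 7, 3, 4, 1] [2, 7, 3, 3, 1] fTEz 1 qEz = true := by decide +kernel

/-- The value of `qEz`. -/
theorem val_Ez (h : Pt x) (hx : ∀ i < 5, 0 ≤ x i) :
    tEz (x 0) (x 1) (x 2) (x 3) (x 4) * (1 : ℕ) = Dense.val x qEz :=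
  value_of_checkForm form_Ez h.rTEz hx

theorem form_Z : checkForm 23 [1, 5, 2, 2, 1] [1, 5, 2, 2, 1] fTZ 8 qZ = true := by decide +kernel

/-- The value of `qZ`. -/
theorem val_Z (h : Pt x) (hx : ∀ i < 5, 0 ≤ x i) :
    tZ (x 0) (x 1) (x 2) (x 3) (x 4) * (8 : ℕ) = Dense.val x qZ :=
  value_of_checkForm form_Z h.rTZ hx

theorem form_Lz : checkForm 19 [1, 4, 1, 1, 0] [1, 4, 1, 0, 0] fTLz 2 qLz = true := by decide +kernel

/-- The value of `qLz`. -/
theorem val_Lz (h : Pt x) (hx : ∀ i < 5, 0 ≤ x i) :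
    tLz (x 0) (x 1) (x 2) (x 3) (x 4) * (2 : ℕ) = Dense.val x qLz :=
  value_of_checkForm form_Lz h.rTLz hx

end Vale.Agent.P100.Calib.LowEnd
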