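import Vale.Agent.P100.Calib.SlabLowEndCases
import Vale.Agent.P100.Calib.SlabLowEndFacts
import Vale.Agent.P100.Calib.SlabMainOrbit
import Vale.Agent.P100.Calib.SlabMidBands
import Vale.Agent.P100.Calib.SlabMidRung

/-!
# The signs at the end of the orbit in the dimensions from seven to twenty

The orbit's bands, its exit rungs and the chart facts put a point with `39/40 ≤ u` in one of the
roots, except near `a = 3/10` in the dimensions below eight.
-/

set_option linter.unusedVariables false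

open Set Filter Topology

namespace Vale.Agent.P100.Calib.Band

open Vale.Agent.P100.Bubble Chart Closed

variable {N p q : ℝ} {S : Set ℝ} {R x y s dx dy : ℝ → ℝ}

/-- **The closed signs on orbits at `39/40 ≤ u`** for `7 ≤ n < 20`, away from the corner
`29/100 ≤ a`, `N ≤ 8`. -/
theorem orbit_signs_end_low {n : ℕ} (h7 : 7 ≤ n) (h20 : n < 20) (hc : IsCrit N p q)
    (hf : IsOrbitFns N p q S R x y s dx dy)
    (hb : SlabBoxAll N (1 / (p + 1)) (1 / (q + 1)))
    (hcb : All.ChartBox n (1 / (q + 1) - 1 / (p + 1)) (1 / (p + 1) + 1 / (q + 1)))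
    (ha : 1 / (p + 1) ≤ 31 / 100) (hcor : ¬ (29 / 100 ≤ 1 / (p + 1) ∧ N ≤ 8)) {z : ℝ} (hz : z ∈ S)
    (hR : 0 < R z) (hu : 39 / 40 ≤ uOf N (R z) (x z)) :
    All.ChartSigns (1 / (q + 1) - 1 / (p + 1)) (1 / (p + 1) + 1 / (q + 1)) (uOf N (R z) (x z))
      (vOf (1 / (p + 1)) (1 / (q + 1)) (y z / x z)) (slopeAt N p q R x y dx dy z) := by
  have hlo := hcb.dim_low
  have hhi := hcb.dim_high (by omega)
  rw [← hb.dim_eq] at hlo hhi
  have n7 : (7 : ℝ) ≤ n := by exact_mod_cast h7
  have n19 : (n : ℝ) ≤ 19 := by exact_mod_cast Nat.le_of_lt_succ h20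
  have N7 : 7 < N := by linarith
  have N20 : N < 20 := by linarith
  have hN : 0 < N := by linarith
  have F := chartFacts_orbit_all hc hf hb hz hR
  obtain ⟨-, eH⟩ := slopeAt_eq_all hc hf hb hz hR.ne'
  obtain ⟨ha0, -, hd, -⟩ := hb.facts
  set al := 1 / (p + 1) with hal
  set be := 1 / (q + 1) with hbe
  set u := uOf N (R z) (x z) with hu'
  set v := vOf al be (y z / x z) with hv'
  set t := slopeAt N p q R x y dx dy z with ht
  have e1 : (al + be - (be - al)) / 2 = al := by ring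
  have e2 : (al + be + (be - al)) / 2 = be := by ring
  have eI : (1 - (al + be)) / 2 = 1 / N := by
    rw [div_eq_div_iff two_ne_zero hN.ne']
    linarith [hb.sum]
  have eq : chH (be - al) (al + be) u v t = hOf N (R z) (x z) (y z) z / (be - al) := by
    rw [eq_div_iff hd.ne', mul_comm]
    exact eH
  have hI0 : (0 : ℝ) < 1 / N := one_div_pos.2 hN
  have hIlo : 150 < 1 / N * 3000 := by
    rw [one_div_mul_eq_div, lt_div_iff₀ hN]; linarith
  have hIhi : 1 / N * 3000 < 429 := by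
    rw [one_div_mul_eq_div, div_lt_iff₀ hN]; linarith
  have hIa : 1 / N ≤ al := by linarith [hcb.one]
  have hv0 : 0 < v := by
    refine pos_of_mul_pos_left ((mul_pos two_pos (sub_pos.2 hcb.S_lt)).trans F.v_crit) ?_
    have := mul_nonneg (show 0 ≤ al + be - (be - al) by linarith) (sub_pos.2 hcb.S_lt).le
    linarith
  set X := LowEnd.ptOf5 (be - al) (al + be) u v t with hX
  have x0 : X 0 = al := e1
  have x1 : X 1 = 1 / N := eI
  have x2 : X 2 = 1 - u := by simp [hX, LowEnd.ptOf5]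
  have x3 : X 3 = (be - al) * v := by simp [hX, LowEnd.ptOf5]
  have x4 : X 4 = 1 - (be - al) * chH (be - al) (al + be) u v t := by simp [hX, LowEnd.ptOf5]
  have eD : LowEnd.vD (X 0) (X 1) = be - al := by
    simp only [x0, x1, LowEnd.vD, LowEnd.vB, LowEnd.vS]; linarith
  have hp : LowEnd.Pt X := by
    refine ⟨by rw [x0]; exact ha0, by rw [x1]; exact hI0, by rw [eD]; exact hd,
      by rw [x2]; linarith, by rw [x3]; exact mul_pos hd hv0, by rw [x4]; linarith [F.h_lt],
      by rw [x2]; linarith [F.u_lt]⟩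
  have hη : X 4 < 1 := by rw [x4]; linarith [mul_pos hd F.H_pos]
  have haX : X 0 * X 3 < LowEnd.vD (X 0) (X 1) := by
    rw [eD, x0, x3]
    have := mul_lt_mul_of_pos_left (show al * v < 1 by linarith [F.r_lt]) hd
    linarith
  have hτ : 0 < LowEnd.eTau.eval X := by
    have := F.kap
    simp [LowEnd.eTau, LowEnd.eS, Pack.Ex.eval, hX, LowEnd.ptOf5]
    linarith
  have place : ∀ {L U : MidBand},
      (midBandG L al be u v < hOf N (R z) (x z) (y z) z / (be - al) ∧
        hOf N (R z) (x z) (y z) z / (be - al) < midBandG U al be u v) →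
      LowEnd.LowPlace L U (be - al) (al + be) u v t := by
    intro L U h
    refine ⟨hp, F.kap, F.h_lt, F.drift, F.ev_pos, ?_, ?_⟩ <;> rw [e1, e2, eq]
    · exact h.1
    · exact h.2
  have hk : 0 ≤ LowEnd.vK (X 0) (X 1) := by
    rw [x0, x1]
    refine LowEnd.vK_nonneg hI0 (one_div_le_one_div_of_le (by norm_num) N7.le) ha ?_
    by_contra h
    rw [not_or, not_le, not_lt, one_div_lt_one_div (by norm_num) hN] at h
    exact hcor ⟨h.2, h.1.le⟩
  have facts : ∀ {L U : MidBand}, LowEnd.LowPlace L U (be - al) (al + be) u v t →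
      LowEnd.RootFacts L U X := fun h =>
    ⟨hp, hτ, hη, h.up_nonneg, h.low_nonneg, h.signs.1, h.signs.2, haX, hk⟩
  suffices hs : LowEnd.PointSigns X from LowEnd.chartSigns_of hp hs
  have hw : 0 ≤ X 2 ∧ X 2 * 1024 < 26 := by
    rw [x2]; constructor <;> linarith [F.u_lt]
  have rung : 1 / N * 3000 < 230 → al ≤ 61 / 500 →
      LowEnd.RungPlace (be - al) (al + be) u v t := by
    intro g1 g2
    have h13 : 13 ≤ N := by
      rw [one_div_mul_eq_div, div_lt_iff₀ hN] at g1
      linarith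
    refine ⟨?_, ?_⟩ <;> rw [e1, e2]
    · rw [eq]; exact orbit_midRung_low hf hb h13 N20.le g2 hz hR (by linarith)
    · exact orbit_midRung_fwd hf hb h13 N20.le g2 hz hR (by linarith)
  rcases lt_or_ge (1 / N * 3000) 250 with iA | iA
  · have h12 : 12 ≤ N := by
      rw [one_div_mul_eq_div, div_lt_iff₀ hN] at iA
      linarith
    refine LowEnd.signs_rangeA hw (x1 ▸ x0 ▸ hIa) (x1 ▸ hIlo) (x1 ▸ iA) (x0 ▸ ha)
      (facts (place (orbit_midA hf hb h12 N20.le ha hz hR))) fun g1 g2 => ?_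
    rw [x1] at g1
    rw [x0] at g2
    exact (rung g1 (by linarith)).signs hd
  · rcases lt_or_ge (1 / N * 3000) 324 with iB | iB
    · have g9 : 250 / 27 < N := by
        rw [one_div_mul_eq_div, div_lt_iff₀ hN] at iB
        linarith
      have g12 : N ≤ 12 := by
        rw [one_div_mul_eq_div, le_div_iff₀ hN] at iA
        linarith
      exact LowEnd.signs_rangeB hw (x1 ▸ x0 ▸ hIa) (x1 ▸ iA) (x1 ▸ iB) (x0 ▸ ha)
        (facts (place (orbit_midB hf hb g9 g12 ha hz hR)))
    · have g9 : N ≤ 250 / 27 := by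
        rw [one_div_mul_eq_div, le_div_iff₀ hN] at iB
        linarith
      refine LowEnd.signs_rangeC hw (x1 ▸ x0 ▸ hIa) (x1 ▸ iB) (x1 ▸ hIhi) (x0 ▸ ha) (fun g => ?_)
        (facts (place (orbit_midC hf hb N7.le g9 ha hz hR)))
      rw [x1, one_div_mul_eq_div, le_div_iff₀ hN] at g
      rw [x0]
      by_contra h
      exact hcor ⟨by linarith [not_lt.1 h], by linarith⟩

/-- **The zone `39/40 ≤ u`** in the dimensions from eight to nineteen. -/
theorem orbit_signs_zone_end_low {n : ℕ} (h8 : 8 ≤ n) (h20 : n < 20) :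
    OrbitSignsSlope n (ZoneFrom (39 / 40)) := by
  intro N p q S R x y s dx dy hc hf hb hcb ha z hz _ hZ
  refine orbit_signs_end_low (by omega) h20 hc hf hb hcb ha (fun h => ?_) hz hZ.1 hZ.2
  have hlo := hcb.dim_low
  rw [← hb.dim_eq] at hlo
  have : (8 : ℝ) ≤ n := by exact_mod_cast h8
  linarith [h.2]

/-- The same in dimension seven, from the corner `29/100 ≤ a`, `N ≤ 8`. -/
theorem orbit_signs_zone_end_low_of {n : ℕ} (h7 : 7 ≤ n) (h20 : n < 20)
    (hcorner : ∀ (N p q : ℝ) (S : Set ℝ) (R x y s dx dy : ℝ → ℝ), IsCrit N p q →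
      IsOrbitFns N p q S R x y s dx dy → SlabBoxAll N (1 / (p + 1)) (1 / (q + 1)) →
      All.ChartBox n (1 / (q + 1) - 1 / (p + 1)) (1 / (p + 1) + 1 / (q + 1)) →
      1 / (p + 1) ≤ 31 / 100 → 29 / 100 ≤ 1 / (p + 1) → N ≤ 8 → ∀ z ∈ S, 0 < R z →
      39 / 40 ≤ uOf N (R z) (x z) →
      All.ChartSigns (1 / (q + 1) - 1 / (p + 1)) (1 / (p + 1) + 1 / (q + 1)) (uOf N (R z) (x z))
        (vOf (1 / (p + 1)) (1 / (q + 1)) (y z / x z)) (slopeAt N p q R x y dx dy z)) :
    OrbitSignsSlope n (ZoneFrom (39 / 40)) := by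
  intro N p q S R x y s dx dy hc hf hb hcb ha z hz _ hZ
  by_cases h : 29 / 100 ≤ 1 / (p + 1) ∧ N ≤ 8
  · exact hcorner N p q S R x y s dx dy hc hf hb hcb ha h.1 h.2 z hz hZ.1 hZ.2
  · exact orbit_signs_end_low h7 h20 hc hf hb hcb ha h hz hZ.1 hZ.2

end Vale.Agent.P100.Calib.Band
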