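import Vale.Agent.P100.Calib.SlabLowEndDomain
import Vale.Agent.P100.Calib.SlabLowEndFactData
import Vale.Agent.P100.Calib.SlabLowEndIdent

/-!
# The signs at a place of a root

The checks of a root give at every place in its ranges local coordinates in the unit cube; its cover
gives a positive block there.
-/

namespace Vale.Agent.P100.Calib.LowEnd

open Pack Band EndAll

namespace Par

/-- The least value of a line on the cube. -/
def lineLow (c0 ca ci cw : ℤ) : ℤ := c0 + min ca 0 + min ci 0 + min cw 0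

/-- The largest value of a line on the cube. -/
def lineHigh (c0 ca ci cw : ℤ) : ℤ := c0 + max ca 0 + max ci 0 + max cw 0

/-- The box contains the points of the root. -/
def boxCovers (P : Par) (b : Box) : Bool :=
  let A0 := P.a0 + cond P.diag P.i0 0
  let A1 := P.a1 + cond P.diag P.i1 0
  decide (P.a0 < P.a1) && decide (P.i0 < P.i1) && decide (0 < P.emx) &&
    Nat.ble ((side b 0).1 * 3000) (A0 * (side b 0).2.2) &&
    Nat.ble (A1 * (side b 0).2.2) ((side b 0).2.1 * 3000) &&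
    Nat.ble ((side b 1).1 * 3000) (P.i0 * (side b 1).2.2) &&
    Nat.ble (P.i1 * (side b 1).2.2) ((side b 1).2.1 * 3000) &&
    decide ((side b 2).1 = 0) && Nat.ble (26 * (side b 2).2.2) ((side b 2).2.1 * 1024) &&
    decide (((side b 3).1 : ℤ) * 65536 ≤ lineLow P.l0 P.la P.li P.lw * (side b 3).2.2) &&
    decide (lineHigh P.u0 P.ua P.ui P.uw * (side b 3).2.2 ≤ ((side b 3).2.1 : ℤ) * 65536) &&
    decide (0 < lineLow (P.u0 - P.l0) (P.ua - P.la) (P.ui - P.li) (P.uw - P.lw)) &&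
    decide ((side b 4).1 = 0) && Nat.ble (P.emx * (side b 4).2.2) ((side b 4).2.1 * 16384) &&
    (List.range 5).all fun i => decide (0 < (side b i).2.2)

theorem line_bounds (c0 ca ci cw : ℤ) {y : ℕ → ℝ} (hy : ∀ i < 5, 0 ≤ y i ∧ y i < 1) :
    (lineLow c0 ca ci cw : ℝ) ≤ lineAt c0 ca ci cw y ∧
      lineAt c0 ca ci cw y ≤ lineHigh c0 ca ci cw := by
  have k : ∀ (c : ℤ) (i : ℕ), i < 5 →
      ((min c 0 : ℤ) : ℝ) ≤ c * y i ∧ (c : ℝ) * y i ≤ ((max c 0 : ℤ) : ℝ) := by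
    intro c i hi
    obtain ⟨h0, h1⟩ := hy i hi
    rcases le_total c 0 with h | h
    · rw [min_eq_left h, max_eq_right h, Int.cast_zero]
      have hc : (c : ℝ) ≤ 0 := Int.cast_nonpos.2 h
      exact ⟨by linarith [mul_le_mul_of_nonpos_left h1.le hc], mul_nonpos_of_nonpos_of_nonneg hc h0⟩
    · rw [min_eq_right h, max_eq_left h, Int.cast_zero]
      have hc : (0 : ℝ) ≤ c := Int.cast_nonneg h
      exact ⟨mul_nonneg hc h0, by linarith [mul_le_mul_of_nonneg_left h1.le hc]⟩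
  obtain ⟨a1, a2⟩ := k ca 0 (by norm_num)
  obtain ⟨b1, b2⟩ := k ci 1 (by norm_num)
  obtain ⟨c1, c2⟩ := k cw 2 (by norm_num)
  simp only [lineLow, lineHigh, lineAt]
  push_cast at a1 a2 b1 b2 c1 c2 ⊢
  constructor <;> linarith

theorem inBox {P : Par} {b : Box} (hb : P.boxCovers b = true) {x y : ℕ → ℝ}
    (hy : ∀ i < 5, 0 ≤ y i ∧ y i < 1) (hc : Coord P.sig x y) : InBox b x := by
  simp only [boxCovers, Bool.and_eq_true, decide_eq_true_eq, Nat.ble_eq, List.all_eq_true,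
    List.mem_range] at hb
  obtain ⟨⟨⟨⟨⟨⟨⟨⟨⟨⟨⟨⟨⟨⟨ha, hi⟩, he⟩, a0⟩, a1⟩, i0⟩, i1⟩, w0⟩, w1⟩, x0⟩, x1⟩, hlu⟩, e0⟩, e1⟩,
    hd⟩ := hb
  have hd' : ∀ i < 5, (0 : ℝ) < (side b i).2.2 := fun i h => Nat.cast_pos.2 (hd i h)
  obtain ⟨y00, y01⟩ := hy 0 (by norm_num)
  obtain ⟨y10, y11⟩ := hy 1 (by norm_num)
  obtain ⟨y20, y21⟩ := hy 2 (by norm_num)
  obtain ⟨y30, y31⟩ := hy 3 (by norm_num)
  obtain ⟨y40, y41⟩ := hy 4 (by norm_num)
  have ha' : (0 : ℝ) < (P.a1 : ℝ) - P.a0 := sub_pos.2 (Nat.cast_lt.2 ha)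
  have hi' : (0 : ℝ) < (P.i1 : ℝ) - P.i0 := sub_pos.2 (Nat.cast_lt.2 hi)
  have hn := hc.2
  have n0 := hn 0 (by norm_num)
  have n1 := hn 1 (by norm_num)
  have n2 := hn 2 (by norm_num)
  have n3 := hn 3 (by norm_num)
  have n4 := hn 4 (by norm_num)
  simp [sig, sigN, sigD, nA, nA0, nI, nW, nX, nH, nL, nU, eval_line, Ex.eval] at n0 n1 n2 n3 n4
  intro i hi5
  interval_cases i
  · have a0' : ((side b 0).1 : ℝ) * 3000 ≤
        ((P.a0 : ℝ) + ((cond P.diag P.i0 0 : ℕ) : ℝ)) * (side b 0).2.2 := by exact_mod_cast a0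
    have a1' : ((P.a1 : ℝ) + ((cond P.diag P.i1 0 : ℕ) : ℝ)) * (side b 0).2.2 ≤
        ((side b 0).2.1 : ℝ) * 3000 := by exact_mod_cast a1
    have r : (P.a0 : ℝ) + ((cond P.diag P.i0 0 : ℕ) : ℝ) ≤ x 0 * 3000 ∧
        x 0 * 3000 < (P.a1 : ℝ) + ((cond P.diag P.i1 0 : ℕ) : ℝ) := by
      have q1 := mul_nonneg ha'.le y00
      have q2 := mul_lt_mul_of_pos_left y01 ha'
      have q3 := mul_nonneg hi'.le y10
      have q4 := mul_lt_mul_of_pos_left y11 hi'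
      cases hg : P.diag <;> simp [hg, Ex.eval] at n0 ⊢ <;> constructor <;> linarith
    constructor
    · linarith [mul_le_mul_of_nonneg_right r.1 (hd' 0 (by norm_num)).le]
    · linarith [mul_lt_mul_of_pos_right r.2 (hd' 0 (by norm_num))]
  · have i0' : ((side b 1).1 : ℝ) * 3000 ≤ (P.i0 : ℝ) * (side b 1).2.2 := by exact_mod_cast i0
    have i1' : (P.i1 : ℝ) * (side b 1).2.2 ≤ ((side b 1).2.1 : ℝ) * 3000 := by exact_mod_cast i1
    have q1 : (P.i0 : ℝ) ≤ x 1 * 3000 := by linarith [mul_nonneg hi'.le y10]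
    have q2 : x 1 * 3000 < P.i1 := by linarith [mul_lt_mul_of_pos_left y11 hi']
    constructor
    · linarith [mul_le_mul_of_nonneg_right q1 (hd' 1 (by norm_num)).le]
    · linarith [mul_lt_mul_of_pos_right q2 (hd' 1 (by norm_num))]
  · have w1' : (26 : ℝ) * (side b 2).2.2 ≤ ((side b 2).2.1 : ℝ) * 1024 := by exact_mod_cast w1
    have q1 : 0 ≤ x 2 := by linarith
    have q2 : x 2 * 1024 < 26 := by linarith
    rw [w0]
    constructor
    · push_cast; exact mul_nonneg q1 (hd' 2 (by norm_num)).le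
    · linarith [mul_lt_mul_of_pos_right q2 (hd' 2 (by norm_num))]
  · have x0' : ((side b 3).1 : ℝ) * 65536 ≤
        (lineLow P.l0 P.la P.li P.lw : ℝ) * (side b 3).2.2 := by exact_mod_cast x0
    have x1' : (lineHigh P.u0 P.ua P.ui P.uw : ℝ) * (side b 3).2.2 ≤
        ((side b 3).2.1 : ℝ) * 65536 := by exact_mod_cast x1
    obtain ⟨l1, -⟩ := line_bounds P.l0 P.la P.li P.lw hy
    obtain ⟨-, u1⟩ := line_bounds P.u0 P.ua P.ui P.uw hy
    obtain ⟨g1, -⟩ := line_bounds (P.u0 - P.l0) (P.ua - P.la) (P.ui - P.li) (P.uw - P.lw) hy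
    have g0 : (0 : ℝ) < lineLow (P.u0 - P.l0) (P.ua - P.la) (P.ui - P.li) (P.uw - P.lw) :=
      Int.cast_pos.2 hlu
    have e : lineAt (P.u0 - P.l0) (P.ua - P.la) (P.ui - P.li) (P.uw - P.lw) y =
        lineAt P.u0 P.ua P.ui P.uw y - lineAt P.l0 P.la P.li P.lw y := by
      simp only [lineAt]; push_cast; ring
    rw [e] at g1
    have q1 : (lineLow P.l0 P.la P.li P.lw : ℝ) ≤ x 3 * 65536 := by
      linarith [mul_nonneg y30 (show 0 ≤ lineAt P.u0 P.ua P.ui P.uw y -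
        lineAt P.l0 P.la P.li P.lw y by linarith)]
    have q2 : x 3 * 65536 < lineHigh P.u0 P.ua P.ui P.uw := by
      linarith [mul_lt_mul_of_pos_right y31 (show 0 < lineAt P.u0 P.ua P.ui P.uw y -
        lineAt P.l0 P.la P.li P.lw y by linarith)]
    constructor
    · linarith [mul_le_mul_of_nonneg_right q1 (hd' 3 (by norm_num)).le]
    · linarith [mul_lt_mul_of_pos_right q2 (hd' 3 (by norm_num))]
  · have e1' : (P.emx : ℝ) * (side b 4).2.2 ≤ ((side b 4).2.1 : ℝ) * 16384 := by exact_mod_cast e1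
    have hem : (0 : ℝ) < P.emx := Nat.cast_pos.2 he
    have q1 : 0 ≤ x 4 := by linarith [mul_nonneg hem.le y40]
    have q2 : x 4 * 16384 < P.emx := by linarith [mul_lt_mul_of_pos_left y41 hem]
    rw [e0]
    constructor
    · push_cast; exact mul_nonneg q1 (hd' 4 (by norm_num)).le
    · linarith [mul_lt_mul_of_pos_right q2 (hd' 4 (by norm_num))]

end Par

/-- The sources start with the ten targets and their denominators. -/
def headOk (L : List Src) : Prop :=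
  ∃ (Q : List Src), ∃ (D : Fin 10 → Src), L = List.ofFn D ++ Q ∧
    (D 0).P = qE ∧ (D 0).den = 5 ∧ (D 1).P = qEz ∧ (D 1).den = 1 ∧ (D 2).P = qG ∧
    (D 2).den = 25 ∧ (D 3).P = qM ∧ (D 3).den = 1 ∧ (D 4).P = qX ∧ (D 4).den = 5 ∧
    (D 5).P = qY ∧ (D 5).den = 1 ∧ (D 6).P = qZ ∧ (D 6).den = 8 ∧ (D 7).P = qN ∧
    (D 7).den = 5 ∧ (D 8).P = qL ∧ (D 8).den = 5 ∧ (D 9).P = qLz ∧ (D 9).den = 2

theorem nonneg_coord {x : ℕ → ℝ} (hp : Pt x) : ∀ i < 5, 0 ≤ x i := by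
  intro i hi
  interval_cases i
  · exact hp.a_pos.le
  · exact hp.I_pos.le
  · exact hp.w_nonneg
  · exact hp.X_pos.le
  · exact hp.eta_nonneg

theorem valueAt_targets {L : List Src} (h : headOk L) {x : ℕ → ℝ} (hp : Pt x) :
    let k := vK (x 0) (x 1)
    valueAt L x 0 = tE k (x 0) (x 1) (x 2) (x 3) (x 4) ∧
      valueAt L x 1 = tEz (x 0) (x 1) (x 2) (x 3) (x 4) ∧
      valueAt L x 2 = tG k (x 0) (x 1) (x 2) (x 3) (x 4) ∧
      valueAt L x 3 = tM k (x 0) (x 1) (x 2) (x 3) (x 4) ∧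
      valueAt L x 4 = tX k (x 0) (x 1) (x 2) (x 3) (x 4) ∧
      valueAt L x 5 = tY k (x 0) (x 1) (x 2) (x 3) (x 4) ∧
      valueAt L x 6 = tZ (x 0) (x 1) (x 2) (x 3) (x 4) ∧
      valueAt L x 7 = tN k (x 0) (x 1) (x 2) (x 3) (x 4) ∧
      valueAt L x 8 = tL k (x 0) (x 1) (x 2) (x 3) (x 4) ∧
      valueAt L x 9 = tLz (x 0) (x 1) (x 2) (x 3) (x 4) := by
  obtain ⟨Q, D, rfl, p0, d0, p1, d1, p2, d2, p3, d3, p4, d4, p5, d5, p6, d6, p7, d7, p8, d8, p9,
    d9⟩ := h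
  have hx := nonneg_coord hp
  simp only [valueAt, List.ofFn_succ, List.ofFn_zero, List.cons_append, List.getElem?_cons_zero,
    List.getElem?_cons_succ, Src.value]
  simp only [Fin.succ_zero_eq_one, Fin.succ_one_eq_two]
  refine ⟨?_, ?_, ?_, ?_, ?_, ?_, ?_, ?_, ?_, ?_⟩
  · rw [p0, d0, ← val_E hp hx]; push_cast; ring
  · rw [p1, d1, ← val_Ez hp hx]; push_cast; ring
  · rw [p2, d2, ← val_G hp hx]; push_cast; ring
  · rw [show (Fin.succ 2 : Fin 10) = 3 from rfl, p3, d3, ← val_M hp hx]; push_cast; ring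
  · rw [show ((Fin.succ 2).succ : Fin 10) = 4 from rfl, p4, d4, ← val_X hp hx]; push_cast; ring
  · rw [show ((Fin.succ 2).succ.succ : Fin 10) = 5 from rfl, p5, d5, ← val_Y hp hx]; push_cast; ring
  · rw [show ((Fin.succ 2).succ.succ.succ : Fin 10) = 6 from rfl, p6, d6, ← val_Z hp hx]
    push_cast; ring
  · rw [show ((Fin.succ 2).succ.succ.succ.succ : Fin 10) = 7 from rfl, p7, d7, ← val_N hp hx]
    push_cast; ring
  · rw [show ((Fin.succ 2).succ.succ.succ.succ.succ : Fin 10) = 8 from rfl, p8, d8, ← val_L hp hx]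
    push_cast; ring
  · rw [show ((Fin.succ 2).succ.succ.succ.succ.succ.succ : Fin 10) = 9 from rfl, p9, d9,
      ← val_Lz hp hx]
    push_cast; ring

/-- The facts of the slots from ten on hold. -/
def FactsOk (L : List Src) (x : ℕ → ℝ) : Prop :=
  ∀ D ∈ L.drop 10, 0 ≤ Dense.val x D.P

theorem facts_nonneg {L : List Src} {x : ℕ → ℝ} (h : FactsOk L x) (q : ℕ) (h1 : 10 ≤ q)
    (h2 : q < L.length) : 0 ≤ valueAt L x q := by
  simp only [valueAt, List.getElem?_eq_getElem h2, Src.value]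
  refine div_nonneg (h _ ?_) (Nat.cast_nonneg _)
  refine List.mem_iff_getElem.2 ⟨q - 10, by simp; omega, ?_⟩
  simp only [List.getElem_drop]
  congr 1
  omega

/-- **The signs at a place of a checked root.** -/
theorem signs_of_root {P : Par} {b : Box} {Ls : List Src} {R : List Slot}
    (hcov : P.boxCovers b = true)
    (hnear : ∀ {x y : ℕ → ℝ}, InBox b x → Coord P.sig x y → Near R y (valueAt Ls x))
    (hlen : Ls.length = R.length) (hhead : headOk Ls)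
    (hsound : Sound R [(0, 1, 1), (0, 1, 1), (0, 1, 1), (0, 1, 1), (0, 1, 1)])
    {L U : MidBand} {al be K : ℕ} {l1 l2 l3 l4 : List ℕ}
    (hdom : P.checkDomain U L al be K l1 l2 l3 l4 = true) {x : ℕ → ℝ} (hp : Pt x) (hr : P.Range x)
    (hτ : 0 < eTau.eval x) (hη : x 4 < 1) (hup : 0 ≤ (eUp U).eval x)
    (hlow : 0 ≤ (eLow L).eval x) (hfl : 0 ≤ eFlow.eval x)
    (haX : x 0 * x 3 < vD (x 0) (x 1)) (hk : 0 ≤ vK (x 0) (x 1)) (hfacts : FactsOk Ls x) :
    ClosedGen.SignsMult (x 0) (vD (x 0) (x 1)) (vV (x 0) (x 1) (x 3))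
      (vG (x 0) (x 1) (x 2) (x 3) (x 4)) (vW (x 0) (x 1) (x 4))
      (vW1 (x 0) (x 1) (x 2) (x 3) (x 4)) (vR (x 1) (x 2))
      (vNum (max 0 (vK (x 0) (x 1))) (x 0) (x 1) (x 2) (x 3) (x 4)) := by
  obtain ⟨y, hy, hc⟩ := P.coord_of hdom hp hr hτ hη hup hlow hfl haX
  have hn := hnear (Par.inBox hcov hy hc) hc
  have hbox : InBox [(0, 1, 1), (0, 1, 1), (0, 1, 1), (0, 1, 1), (0, 1, 1)] y := by
    intro i hi
    obtain ⟨h0, h1⟩ := hy i hi
    interval_cases i <;> simp [side, h0, h1]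
  obtain ⟨z, hG, h2, h3, hN, hL⟩ := hsound y _ hbox hn fun q q1 q2 =>
    facts_nonneg hfacts q q1 (hlen.symm ▸ q2)
  obtain ⟨e0, e1, e2, e3, e4, e5, e6, e7, e8, e9⟩ := valueAt_targets hhead hp
  rw [max_eq_right hk]
  rw [e2] at hG
  rw [e0, e1, e2, e4] at h2
  rw [e0, e1, e2, e3, e4, e5, e6] at h3
  rw [e7, e1] at hN
  rw [e8, e9] at hL
  exact signs_of_block hp _ z haX hG h2 h3 hN hL

end Vale.Agent.P100.Calib.LowEnd
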