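import Vale.Agent.P100.Calib.SlabLowEndR0Data

/-!
# The slots of root 0
-/

set_option maxRecDepth 100000
-- the heavy checks are definitions, so that they are checked one after another
set_option linter.defProp false

namespace Vale.Agent.P100.Calib.LowEnd

open Pack Band

theorem r0_ok : rootOk r0R = true := by decide +kernel

end Vale.Agent.P100.Calib.LowEnd
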