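import Vale.Agent.P100.Calib.SlabLowEndR0Base

/-!
# Leaves 2 of the cover of root 0
-/

set_option maxRecDepth 100000
-- the heavy checks are definitions, so that they are checked one after another
set_option linter.defProp false

namespace Vale.Agent.P100.Calib.LowEnd

open Pack Band

def r0_leaf25 :
    Sound r0R [(3, 4, 8), (0, 1, 4), (0, 1, 64), (31, 32, 32), (0, 1, 64)] :=
  sound_leaf (K := 291) (L := ⟨(-10485760), (-1390610), (-248173), 2187777, 898466, 494293, 122543, 7976954065248961179398793, 0, 0⟩) r0_ok (by decide +kernel)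

def r0_leaf26 :
    Sound r0R [(1, 2, 4), (1, 2, 4), (0, 1, 64), (15, 16, 16), (0, 1, 64)] :=
  sound_leaf (K := 279) (L := ⟨(-10905190), (-1487562), (-273298), 3273663, 812627, 380686, 127814, 6138569857588974757814869, 0, 0⟩) r0_ok (by decide +kernel)

def r0_leaf27 :
    Sound r0R [(0, 1, 2), (0, 1, 2), (0, 1, 64), (15, 16, 16), (1, 2, 64)] :=
  sound_empty (K := 182) (q := 11) r0_ok (by decide +kernel)

def r0_leaf28 :
    Sound r0R [(0, 1, 2), (0, 1, 2), (1, 2, 64), (15, 16, 16), (0, 1, 32)] :=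
  sound_leaf (K := 262) (L := ⟨(-10905190), (-1267102), (-235521), 4383848, 754941, 513829, 262748, 0, 0, 0⟩) r0_ok (by decide +kernel)

def r0_leaf29 :
    Sound r0R [(1, 2, 2), (0, 1, 4), (0, 1, 32), (15, 16, 16), (0, 1, 32)] :=
  sound_leaf (K := 262) (L := ⟨(-10485760), (-1436290), (-251821), 5591997, 747944, 163120, 124108, 5598076977962472487358361, 0, 0⟩) r0_ok (by decide +kernel)

def r0_leaf30 :
    Sound r0R [(1, 2, 2), (1, 2, 4), (0, 1, 32), (30, 31, 32), (0, 1, 32)] :=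
  sound_leaf (K := 268) (L := ⟨(-10485760), (-1177323), (-215209), 5345699, 760111, 708469, 241257, 0, 0, 0⟩) r0_ok (by decide +kernel)

def r0_leaf31 :
    Sound r0R [(1, 2, 2), (1, 2, 4), (0, 1, 32), (31, 32, 32), (0, 1, 32)] :=
  sound_leaf (K := 267) (L := ⟨(-10643046), (-1696237), (-291232), 3989915, 687162, 256522, 99490, 5154674774521095998231998, 0, 0⟩) r0_ok (by decide +kernel)

def r0_leaf32 :
    Sound r0R [(0, 1, 1), (0, 1, 2), (0, 1, 32), (15, 16, 16), (1, 2, 32)] :=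
  sound_empty (K := 164) (q := 11) r0_ok (by decide +kernel)

def r0_leaf33 :
    Sound r0R [(0, 1, 1), (0, 1, 2), (1, 2, 32), (7, 8, 8), (0, 1, 16)] :=
  sound_leaf (K := 238) (L := ⟨(-10485760), (-817377), (-157025), 6310788, 675668, 517260, 165670, 0, 0, 0⟩) r0_ok (by decide +kernel)

def r0_leaf34 :
    Sound r0R [(0, 1, 1), (0, 1, 2), (0, 1, 16), (7, 8, 8), (1, 2, 16)] :=
  sound_empty (K := 146) (q := 11) r0_ok (by decide +kernel)

def r0_leaf35 :
    Sound r0R [(0, 1, 1), (1, 2, 2), (0, 1, 16), (14, 15, 16), (0, 1, 16)] :=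
  sound_leaf (K := 238) (L := ⟨(-11324621), (-951040), (-193064), 5276552, 598997, 490661, 254165, 0, 0, 0⟩) r0_ok (by decide +kernel)

def r0_leaf36 :
    Sound r0R [(0, 1, 4), (4, 5, 8), (0, 1, 64), (15, 16, 16), (0, 1, 64)] :=
  sound_leaf (K := 285) (L := ⟨(-11324621), (-1540190), (-292960), 4474799, 797524, 166387, 88177, 6498265651935129320721527, 0, 0⟩) r0_ok (by decide +kernel)

def r0_leaf37 :
    Sound r0R [(0, 1, 4), (5, 6, 8), (0, 1, 64), (30, 31, 32), (0, 1, 64)] :=
  sound_leaf (K := 292) (L := ⟨(-11324621), (-1289204), (-253487), 4252698, 808103, 657093, 268184, 0, 0, 0⟩) r0_ok (by decide +kernel)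

def r0_leaf38 :
    Sound r0R [(0, 1, 4), (5, 6, 8), (0, 1, 64), (31, 32, 32), (0, 1, 64)] :=
  sound_leaf (K := 291) (L := ⟨(-11324621), (-1474359), (-283765), 2624752, 819854, 359653, 92793, 8098092814730443125735110, 0, 0⟩) r0_ok (by decide +kernel)

def r0_leaf39 :
    Sound r0R [(0, 1, 4), (3, 4, 4), (0, 1, 64), (30, 31, 32), (0, 1, 64)] :=
  sound_leaf (K := 286) (L := ⟨(-11324621), (-1102594), (-225134), 4116944, 835311, 642626, 249562, 0, 0, 0⟩) r0_ok (by decide +kernel)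

def r0_leaf40 :
    Sound r0R [(0, 1, 16), (12, 13, 16), (0, 1, 64), (62, 63, 64), (0, 1, 64)] :=
  sound_leaf (K := 315) (L := ⟨(-11324621), (-1238436), (-247061), (-314878), 875993, 477440, 82046, 6432484643320747916729804, 0, 0⟩) r0_ok (by decide +kernel)

def r0_leaf41 :
    Sound r0R [(0, 1, 16), (13, 14, 16), (0, 1, 64), (62, 63, 64), (0, 1, 64)] :=
  sound_leaf (K := 316) (L := ⟨(-11744051), (-1675860), (-327224), 4254390, 744808, 351080, 214336, 0, 0, 0⟩) r0_ok (by decide +kernel)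

def r0_leaf42 :
    Sound r0R [(1, 2, 16), (6, 7, 8), (0, 1, 64), (62, 63, 64), (0, 1, 64)] :=
  sound_leaf (K := 309) (L := ⟨(-11324621), (-1264621), (-251221), 3090113, 850702, 477584, 138338, 0, 0, 0⟩) r0_ok (by decide +kernel)

def r0_leaf43 :
    Sound r0R [(0, 1, 16), (12, 13, 16), (0, 1, 64), (63, 64, 64), (0, 1, 64)] :=
  sound_leaf (K := 316) (L := ⟨(-11324621), (-1322522), (-260839), 5183478, 883706, 476805, 186293, 12096358293042752190119133, 0, 0⟩) r0_ok (by decide +kernel)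

def r0_leaf44 :
    Sound r0R [(0, 1, 16), (13, 14, 16), (0, 1, 64), (63, 64, 64), (0, 1, 64)] :=
  sound_leaf (K := 316) (L := ⟨(-11744051), (-1780919), (-344970), 4243382, 749644, 473262, 212825, 15157534669245202092677384, 0, 0⟩) r0_ok (by decide +kernel)

def r0_leaf45 :
    Sound r0R [(1, 2, 16), (6, 7, 8), (0, 1, 64), (63, 64, 64), (0, 1, 64)] :=
  sound_leaf (K := 310) (L := ⟨(-11324621), (-1350228), (-265257), 4126757, 858037, 353313, 185783, 12914491587912034796326489, 0, 0⟩) r0_ok (by decide +kernel)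

def r0_leaf46 :
    Sound r0R [(0, 1, 8), (7, 8, 8), (0, 1, 64), (31, 32, 32), (0, 1, 64)] :=
  sound_leaf (K := 297) (L := ⟨(-11744051), (-1614187), (-317796), 2597805, 747403, 469351, 131007, 8050355356428410456198900, 0, 0⟩) r0_ok (by decide +kernel)

def r0_leaf47 :
    Sound r0R [(1, 2, 8), (3, 4, 4), (0, 1, 64), (62, 63, 64), (0, 1, 64)] :=
  sound_leaf (K := 297) (L := ⟨(-11324621), (-1287507), (-254964), 3071701, 818938, 476953, 185026, 0, 0, 0⟩) r0_ok (by decide +kernel)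

def r0_leaf48 :
    Sound r0R [(1, 2, 8), (6, 7, 8), (0, 1, 64), (63, 64, 64), (0, 1, 64)] :=
  sound_leaf (K := 304) (L := ⟨(-11324621), (-1438702), (-279001), 4146232, 816788, 479789, 188229, 13731787550535506820001715, 0, 0⟩) r0_ok (by decide +kernel)

def r0_leaf49 :
    Sound r0R [(1, 2, 8), (7, 8, 8), (0, 1, 64), (63, 64, 64), (0, 1, 64)] :=
  sound_leaf (K := 303) (L := ⟨(-11324621), (-1314486), (-260158), 3030246, 835173, 165443, 46709, 7858144991379740349396458, 0, 0⟩) r0_ok (by decide +kernel)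

end Vale.Agent.P100.Calib.LowEnd
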