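import Vale.Agent.P100.Calib.SlabLowEndR0Base

/-!
# Leaves 3 of the cover of root 0
-/

set_option maxRecDepth 100000
-- the heavy checks are definitions, so that they are checked one after another
set_option linter.defProp false

namespace Vale.Agent.P100.Calib.LowEnd

open Pack Band

def r0_leaf50 :
    Sound r0R [(1, 2, 4), (2, 3, 4), (0, 1, 64), (30, 31, 32), (0, 1, 64)] :=
  sound_leaf (K := 286) (L := ⟨(-10905190), (-1161814), (-224726), 5257982, 841683, 673056, 246801, 0, 0, 0⟩) r0_ok (by decide +kernel)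

def r0_leaf51 :
    Sound r0R [(1, 2, 4), (4, 5, 8), (0, 1, 64), (31, 32, 32), (0, 1, 64)] :=
  sound_leaf (K := 291) (L := ⟨(-10905190), (-1383991), (-259195), 1816938, 845774, 319475, 75240, 7733350752451198668093123, 0, 0⟩) r0_ok (by decide +kernel)

def r0_leaf52 :
    Sound r0R [(2, 3, 8), (5, 6, 8), (0, 1, 64), (31, 32, 32), (0, 1, 64)] :=
  sound_leaf (K := 297) (L := ⟨(-11324621), (-1675057), (-315100), 2649964, 756245, 491362, 128965, 9317068132452073809113325, 0, 0⟩) r0_ok (by decide +kernel)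

def r0_leaf53 :
    Sound r0R [(3, 4, 8), (5, 6, 8), (0, 1, 64), (31, 32, 32), (0, 1, 64)] :=
  sound_leaf (K := 297) (L := ⟨(-10905190), (-1325580), (-250955), 733403, 839450, 315841, 58029, 8750976679275055003594058, 0, 0⟩) r0_ok (by decide +kernel)

def r0_leaf54 :
    Sound r0R [(1, 2, 4), (3, 4, 4), (0, 1, 64), (15, 16, 16), (0, 1, 64)] :=
  sound_leaf (K := 279) (L := ⟨(-11324621), (-1407647), (-273156), 2053136, 750331, 483163, 121511, 4752459819950129822256020, 0, 0⟩) r0_ok (by decide +kernel)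

def r0_leaf55 :
    Sound r0R [(0, 1, 2), (1, 2, 2), (0, 1, 64), (15, 16, 16), (1, 2, 64)] :=
  sound_empty (K := 182) (q := 11) r0_ok (by decide +kernel)

def r0_leaf56 :
    Sound r0R [(0, 1, 2), (1, 2, 2), (1, 2, 64), (15, 16, 16), (0, 1, 32)] :=
  sound_leaf (K := 262) (L := ⟨(-11324621), (-1224963), (-240295), 4152982, 705001, 482450, 249668, 0, 0, 0⟩) r0_ok (by decide +kernel)

def r0_leaf57 :
    Sound r0R [(0, 1, 2), (1, 2, 2), (0, 1, 32), (15, 16, 16), (1, 2, 32)] :=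
  sound_empty (K := 170) (q := 11) r0_ok (by decide +kernel)

def r0_leaf58 :
    Sound r0R [(0, 1, 2), (1, 2, 2), (1, 2, 32), (15, 16, 16), (0, 1, 16)] :=
  sound_leaf (K := 250) (L := ⟨(-10905190), (-821851), (-168243), 4896022, 684866, 643540, 209247, 0, 0, 0⟩) r0_ok (by decide +kernel)

def r0_leaf59 :
    Sound r0R [(1, 2, 2), (1, 2, 2), (0, 1, 32), (30, 31, 32), (0, 1, 32)] :=
  sound_leaf (K := 262) (L := ⟨(-10905190), (-1238787), (-234342), 4144539, 695521, 676286, 241526, 0, 0, 0⟩) r0_ok (by decide +kernel)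

def r0_leaf60 :
    Sound r0R [(1, 2, 2), (1, 2, 2), (0, 1, 32), (62, 63, 64), (0, 1, 32)] :=
  sound_leaf (K := 267) (L := ⟨(-10905190), (-1371701), (-255362), 4123941, 702240, 370180, 177479, 0, 0, 0⟩) r0_ok (by decide +kernel)

def r0_leaf61 :
    Sound r0R [(2, 3, 4), (2, 3, 4), (0, 1, 32), (63, 64, 64), (0, 1, 32)] :=
  sound_leaf (K := 280) (L := ⟨(-10905190), (-1469389), (-270268), 4178125, 726224, 502416, 180918, 14243889358860764723464808, 0, 0⟩) r0_ok (by decide +kernel)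

def r0_leaf62 :
    Sound r0R [(2, 3, 4), (3, 4, 4), (0, 1, 32), (63, 64, 64), (0, 1, 32)] :=
  sound_leaf (K := 279) (L := ⟨(-10905190), (-1273815), (-242279), 5009195, 744534, 74760, 50556, 4287655315147555647029491, 0, 0⟩) r0_ok (by decide +kernel)

def r0_leaf63 :
    Sound r0R [(3, 4, 4), (2, 3, 4), (0, 1, 32), (63, 64, 64), (0, 1, 32)] :=
  sound_leaf (K := 279) (L := ⟨(-10485760), (-1296318), (-235248), 4065149, 762394, 280201, 123358, 13987824816503733244197884, 0, 0⟩) r0_ok (by decide +kernel)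

def r0_leaf64 :
    Sound r0R [(3, 4, 4), (3, 4, 4), (0, 1, 32), (63, 64, 64), (0, 1, 32)] :=
  sound_leaf (K := 279) (L := ⟨(-10905190), (-1438741), (-266542), 3020146, 688879, 367014, 94746, 0, 0, 0⟩) r0_ok (by decide +kernel)

def r0_leaf65 :
    Sound r0R [(1, 2, 2), (1, 2, 2), (0, 1, 32), (15, 16, 16), (1, 2, 32)] :=
  sound_empty (K := 170) (q := 11) r0_ok (by decide +kernel)

def r0_leaf66 :
    Sound r0R [(1, 2, 2), (1, 2, 2), (1, 2, 32), (15, 16, 16), (0, 1, 16)] :=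
  sound_leaf (K := 250) (L := ⟨(-10485760), (-882728), (-169950), 4821178, 666479, 664394, 201934, 0, 0, 0⟩) r0_ok (by decide +kernel)

def r0_leaf67 :
    Sound r0R [(0, 1, 1), (1, 2, 2), (0, 1, 16), (7, 8, 8), (1, 2, 16)] :=
  sound_empty (K := 146) (q := 11) r0_ok (by decide +kernel)

def r0_leaf68 :
    Sound r0R [(0, 1, 1), (0, 1, 1), (1, 2, 16), (3, 4, 4), (0, 1, 8)] :=
  sound_leaf (K := 213) (L := ⟨(-10485760), (-428281), (-106628), 3853072, 549348, 491860, 191978, 0, 0, 0⟩) r0_ok (by decide +kernel)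

def r0_leaf69 :
    Sound r0R [(0, 1, 1), (0, 1, 1), (0, 1, 8), (3, 4, 4), (1, 2, 8)] :=
  sound_empty (K := 122) (q := 11) r0_ok (by decide +kernel)

def r0_leaf70 :
    Sound r0R [(0, 1, 1), (0, 1, 1), (1, 2, 8), (1, 2, 2), (0, 1, 4)] :=
  sound_leaf (K := 194) (L := ⟨(-10066330), 162947, (-17316), 3452200, 442244, 475832, 118769, 0, 0, 0⟩) r0_ok (by decide +kernel)

def r0_leaf71 :
    Sound r0R [(0, 1, 1), (0, 1, 1), (1, 2, 4), (1, 2, 2), (0, 1, 4)] :=
  sound_leaf (K := 188) (L := ⟨(-8808038), 143232, (-487), 3351346, 387380, 604422, 128917, 0, 0, 0⟩) r0_ok (by decide +kernel)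

def r0_leaf72 :
    Sound r0R [(0, 1, 1), (0, 1, 1), (0, 1, 2), (1, 2, 2), (1, 2, 4)] :=
  sound_leaf (K := 182) (L := ⟨(-9646899), 265708, (-9751), 2964951, 341933, 450065, 101336, 0, 0, 0⟩) r0_ok (by decide +kernel)

def r0_leaf73 :
    Sound r0R [(0, 1, 1), (0, 1, 1), (0, 1, 2), (0, 1, 1), (1, 2, 2)] :=
  sound_empty (K := 86) (q := 11) r0_ok (by decide +kernel)

def r0_leaf74 :
    Sound r0R [(0, 1, 1), (0, 1, 1), (1, 2, 2), (0, 1, 1), (0, 1, 1)] :=
  sound_leaf (K := 163) (L := ⟨(-9646899), 350444, 13800, 1763309, 250092, 530825, 102918, 0, 0, 0⟩) r0_ok (by decide +kernel)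

end Vale.Agent.P100.Calib.LowEnd
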