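import Vale.Agent.P100.Calib.SlabLowEndR0LeavesA
import Vale.Agent.P100.Calib.SlabLowEndR0LeavesB
import Vale.Agent.P100.Calib.SlabLowEndR0LeavesC

/-!
# The cover of root 0
-/

set_option maxRecDepth 100000
-- the heavy checks are definitions, so that they are checked one after another
set_option linter.defProp false

namespace Vale.Agent.P100.Calib.LowEnd

open Pack Band

theorem r0_node0 :
    Sound r0R [(0, 1, 1), (0, 1, 1), (1, 2, 4), (0, 1, 2), (0, 1, 2)] :=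
  sound_node (j := 3) (by decide) r0_leaf1 r0_leaf2

theorem r0_node1 :
    Sound r0R [(0, 1, 1), (0, 1, 1), (0, 1, 2), (0, 1, 2), (0, 1, 2)] :=
  sound_node (j := 2) (by decide) r0_leaf0 r0_node0

theorem r0_node2 :
    Sound r0R [(0, 1, 4), (0, 1, 4), (0, 1, 64), (15, 16, 16), (0, 1, 64)] :=
  sound_node (j := 3) (by decide) r0_leaf6 r0_leaf7

theorem r0_node3 :
    Sound r0R [(0, 1, 16), (2, 3, 8), (0, 1, 128), (62, 63, 64), (0, 1, 128)] :=
  sound_node (j := 1) (by decide) r0_leaf9 r0_leaf10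

theorem r0_node4 :
    Sound r0R [(0, 1, 16), (2, 3, 8), (0, 1, 64), (62, 63, 64), (0, 1, 128)] :=
  sound_node (j := 2) (by decide) r0_node3 r0_leaf11

theorem r0_node5 :
    Sound r0R [(0, 1, 8), (2, 3, 8), (0, 1, 64), (62, 63, 64), (0, 1, 128)] :=
  sound_node (j := 0) (by decide) r0_node4 r0_leaf12

theorem r0_node6 :
    Sound r0R [(0, 1, 8), (2, 3, 8), (0, 1, 64), (62, 63, 64), (0, 1, 64)] :=
  sound_node (j := 4) (by decide) r0_node5 r0_leaf13

theorem r0_node7 :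
    Sound r0R [(0, 1, 8), (2, 3, 8), (0, 1, 64), (31, 32, 32), (0, 1, 64)] :=
  sound_node (j := 3) (by decide) r0_node6 r0_leaf14

theorem r0_node8 :
    Sound r0R [(0, 1, 8), (2, 3, 8), (0, 1, 64), (15, 16, 16), (0, 1, 64)] :=
  sound_node (j := 3) (by decide) r0_leaf8 r0_node7

theorem r0_node9 :
    Sound r0R [(0, 1, 8), (1, 2, 4), (0, 1, 64), (15, 16, 16), (0, 1, 64)] :=
  sound_node (j := 1) (by decide) r0_node8 r0_leaf15

theorem r0_node10 :
    Sound r0R [(1, 2, 8), (3, 4, 8), (0, 1, 64), (125, 126, 128), (0, 1, 64)] :=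
  sound_node (j := 0) (by decide) r0_leaf19 r0_leaf20

theorem r0_node11 :
    Sound r0R [(1, 2, 8), (3, 4, 8), (0, 1, 64), (62, 63, 64), (0, 1, 64)] :=
  sound_node (j := 3) (by decide) r0_leaf18 r0_node10

theorem r0_node12 :
    Sound r0R [(1, 2, 8), (1, 2, 4), (0, 1, 64), (62, 63, 64), (0, 1, 64)] :=
  sound_node (j := 1) (by decide) r0_leaf17 r0_node11

theorem r0_node13 :
    Sound r0R [(1, 2, 8), (1, 2, 4), (0, 1, 64), (31, 32, 32), (0, 1, 64)] :=
  sound_node (j := 3) (by decide) r0_node12 r0_leaf21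

theorem r0_node14 :
    Sound r0R [(1, 2, 8), (1, 2, 4), (0, 1, 64), (15, 16, 16), (0, 1, 64)] :=
  sound_node (j := 3) (by decide) r0_leaf16 r0_node13

theorem r0_node15 :
    Sound r0R [(0, 1, 4), (1, 2, 4), (0, 1, 64), (15, 16, 16), (0, 1, 64)] :=
  sound_node (j := 0) (by decide) r0_node9 r0_node14

theorem r0_node16 :
    Sound r0R [(0, 1, 4), (0, 1, 2), (0, 1, 64), (15, 16, 16), (0, 1, 64)] :=
  sound_node (j := 1) (by decide) r0_node2 r0_node15

theorem r0_node17 :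
    Sound r0R [(2, 3, 8), (0, 1, 4), (0, 1, 64), (31, 32, 32), (0, 1, 64)] :=
  sound_node (j := 1) (by decide) r0_leaf23 r0_leaf24

theorem r0_node18 :
    Sound r0R [(1, 2, 4), (0, 1, 4), (0, 1, 64), (31, 32, 32), (0, 1, 64)] :=
  sound_node (j := 0) (by decide) r0_node17 r0_leaf25

theorem r0_node19 :
    Sound r0R [(1, 2, 4), (0, 1, 4), (0, 1, 64), (15, 16, 16), (0, 1, 64)] :=
  sound_node (j := 3) (by decide) r0_leaf22 r0_node18

theorem r0_node20 :
    Sound r0R [(1, 2, 4), (0, 1, 2), (0, 1, 64), (15, 16, 16), (0, 1, 64)] :=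
  sound_node (j := 1) (by decide) r0_node19 r0_leaf26

theorem r0_node21 :
    Sound r0R [(0, 1, 2), (0, 1, 2), (0, 1, 64), (15, 16, 16), (0, 1, 64)] :=
  sound_node (j := 0) (by decide) r0_node16 r0_node20

theorem r0_node22 :
    Sound r0R [(0, 1, 2), (0, 1, 2), (0, 1, 64), (15, 16, 16), (0, 1, 32)] :=
  sound_node (j := 4) (by decide) r0_node21 r0_leaf27

theorem r0_node23 :
    Sound r0R [(0, 1, 2), (0, 1, 2), (0, 1, 32), (15, 16, 16), (0, 1, 32)] :=
  sound_node (j := 2) (by decide) r0_node22 r0_leaf28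

theorem r0_node24 :
    Sound r0R [(1, 2, 2), (1, 2, 4), (0, 1, 32), (15, 16, 16), (0, 1, 32)] :=
  sound_node (j := 3) (by decide) r0_leaf30 r0_leaf31

theorem r0_node25 :
    Sound r0R [(1, 2, 2), (0, 1, 2), (0, 1, 32), (15, 16, 16), (0, 1, 32)] :=
  sound_node (j := 1) (by decide) r0_leaf29 r0_node24

theorem r0_node26 :
    Sound r0R [(0, 1, 1), (0, 1, 2), (0, 1, 32), (15, 16, 16), (0, 1, 32)] :=
  sound_node (j := 0) (by decide) r0_node23 r0_node25

theorem r0_node27 :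
    Sound r0R [(0, 1, 1), (0, 1, 2), (0, 1, 32), (15, 16, 16), (0, 1, 16)] :=
  sound_node (j := 4) (by decide) r0_node26 r0_leaf32

theorem r0_node28 :
    Sound r0R [(0, 1, 1), (0, 1, 2), (0, 1, 32), (7, 8, 8), (0, 1, 16)] :=
  sound_node (j := 3) (by decide) r0_leaf5 r0_node27

theorem r0_node29 :
    Sound r0R [(0, 1, 1), (0, 1, 2), (0, 1, 16), (7, 8, 8), (0, 1, 16)] :=
  sound_node (j := 2) (by decide) r0_node28 r0_leaf33

theorem r0_node30 :
    Sound r0R [(0, 1, 1), (0, 1, 2), (0, 1, 16), (7, 8, 8), (0, 1, 8)] :=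
  sound_node (j := 4) (by decide) r0_node29 r0_leaf34

theorem r0_node31 :
    Sound r0R [(0, 1, 4), (5, 6, 8), (0, 1, 64), (15, 16, 16), (0, 1, 64)] :=
  sound_node (j := 3) (by decide) r0_leaf37 r0_leaf38

theorem r0_node32 :
    Sound r0R [(0, 1, 4), (2, 3, 4), (0, 1, 64), (15, 16, 16), (0, 1, 64)] :=
  sound_node (j := 1) (by decide) r0_leaf36 r0_node31

theorem r0_node33 :
    Sound r0R [(0, 1, 16), (12, 13, 16), (0, 1, 64), (31, 32, 32), (0, 1, 64)] :=
  sound_node (j := 3) (by decide) r0_leaf40 r0_leaf43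

theorem r0_node34 :
    Sound r0R [(0, 1, 16), (13, 14, 16), (0, 1, 64), (31, 32, 32), (0, 1, 64)] :=
  sound_node (j := 3) (by decide) r0_leaf41 r0_leaf44

theorem r0_node35 :
    Sound r0R [(0, 1, 16), (6, 7, 8), (0, 1, 64), (31, 32, 32), (0, 1, 64)] :=
  sound_node (j := 1) (by decide) r0_node33 r0_node34

theorem r0_node36 :
    Sound r0R [(1, 2, 16), (6, 7, 8), (0, 1, 64), (31, 32, 32), (0, 1, 64)] :=
  sound_node (j := 3) (by decide) r0_leaf42 r0_leaf45

theorem r0_node37 :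
    Sound r0R [(0, 1, 8), (6, 7, 8), (0, 1, 64), (31, 32, 32), (0, 1, 64)] :=
  sound_node (j := 0) (by decide) r0_node35 r0_node36

theorem r0_node38 :
    Sound r0R [(0, 1, 8), (3, 4, 4), (0, 1, 64), (31, 32, 32), (0, 1, 64)] :=
  sound_node (j := 1) (by decide) r0_node37 r0_leaf46

theorem r0_node39 :
    Sound r0R [(1, 2, 8), (3, 4, 4), (0, 1, 64), (63, 64, 64), (0, 1, 64)] :=
  sound_node (j := 1) (by decide) r0_leaf48 r0_leaf49

theorem r0_node40 :
    Sound r0R [(1, 2, 8), (3, 4, 4), (0, 1, 64), (31, 32, 32), (0, 1, 64)] :=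
  sound_node (j := 3) (by decide) r0_leaf47 r0_node39

theorem r0_node41 :
    Sound r0R [(0, 1, 4), (3, 4, 4), (0, 1, 64), (31, 32, 32), (0, 1, 64)] :=
  sound_node (j := 0) (by decide) r0_node38 r0_node40

theorem r0_node42 :
    Sound r0R [(0, 1, 4), (3, 4, 4), (0, 1, 64), (15, 16, 16), (0, 1, 64)] :=
  sound_node (j := 3) (by decide) r0_leaf39 r0_node41

theorem r0_node43 :
    Sound r0R [(0, 1, 4), (1, 2, 2), (0, 1, 64), (15, 16, 16), (0, 1, 64)] :=
  sound_node (j := 1) (by decide) r0_node32 r0_node42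

theorem r0_node44 :
    Sound r0R [(1, 2, 4), (5, 6, 8), (0, 1, 64), (31, 32, 32), (0, 1, 64)] :=
  sound_node (j := 0) (by decide) r0_leaf52 r0_leaf53

theorem r0_node45 :
    Sound r0R [(1, 2, 4), (2, 3, 4), (0, 1, 64), (31, 32, 32), (0, 1, 64)] :=
  sound_node (j := 1) (by decide) r0_leaf51 r0_node44

theorem r0_node46 :
    Sound r0R [(1, 2, 4), (2, 3, 4), (0, 1, 64), (15, 16, 16), (0, 1, 64)] :=
  sound_node (j := 3) (by decide) r0_leaf50 r0_node45

theorem r0_node47 :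
    Sound r0R [(1, 2, 4), (1, 2, 2), (0, 1, 64), (15, 16, 16), (0, 1, 64)] :=
  sound_node (j := 1) (by decide) r0_node46 r0_leaf54

theorem r0_node48 :
    Sound r0R [(0, 1, 2), (1, 2, 2), (0, 1, 64), (15, 16, 16), (0, 1, 64)] :=
  sound_node (j := 0) (by decide) r0_node43 r0_node47

theorem r0_node49 :
    Sound r0R [(0, 1, 2), (1, 2, 2), (0, 1, 64), (15, 16, 16), (0, 1, 32)] :=
  sound_node (j := 4) (by decide) r0_node48 r0_leaf55

theorem r0_node50 :
    Sound r0R [(0, 1, 2), (1, 2, 2), (0, 1, 32), (15, 16, 16), (0, 1, 32)] :=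
  sound_node (j := 2) (by decide) r0_node49 r0_leaf56

theorem r0_node51 :
    Sound r0R [(0, 1, 2), (1, 2, 2), (0, 1, 32), (15, 16, 16), (0, 1, 16)] :=
  sound_node (j := 4) (by decide) r0_node50 r0_leaf57

theorem r0_node52 :
    Sound r0R [(0, 1, 2), (1, 2, 2), (0, 1, 16), (15, 16, 16), (0, 1, 16)] :=
  sound_node (j := 2) (by decide) r0_node51 r0_leaf58

theorem r0_node53 :
    Sound r0R [(2, 3, 4), (1, 2, 2), (0, 1, 32), (63, 64, 64), (0, 1, 32)] :=
  sound_node (j := 1) (by decide) r0_leaf61 r0_leaf62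

theorem r0_node54 :
    Sound r0R [(3, 4, 4), (1, 2, 2), (0, 1, 32), (63, 64, 64), (0, 1, 32)] :=
  sound_node (j := 1) (by decide) r0_leaf63 r0_leaf64

theorem r0_node55 :
    Sound r0R [(1, 2, 2), (1, 2, 2), (0, 1, 32), (63, 64, 64), (0, 1, 32)] :=
  sound_node (j := 0) (by decide) r0_node53 r0_node54

theorem r0_node56 :
    Sound r0R [(1, 2, 2), (1, 2, 2), (0, 1, 32), (31, 32, 32), (0, 1, 32)] :=
  sound_node (j := 3) (by decide) r0_leaf60 r0_node55

theorem r0_node57 :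
    Sound r0R [(1, 2, 2), (1, 2, 2), (0, 1, 32), (15, 16, 16), (0, 1, 32)] :=
  sound_node (j := 3) (by decide) r0_leaf59 r0_node56

theorem r0_node58 :
    Sound r0R [(1, 2, 2), (1, 2, 2), (0, 1, 32), (15, 16, 16), (0, 1, 16)] :=
  sound_node (j := 4) (by decide) r0_node57 r0_leaf65

theorem r0_node59 :
    Sound r0R [(1, 2, 2), (1, 2, 2), (0, 1, 16), (15, 16, 16), (0, 1, 16)] :=
  sound_node (j := 2) (by decide) r0_node58 r0_leaf66

theorem r0_node60 :
    Sound r0R [(0, 1, 1), (1, 2, 2), (0, 1, 16), (15, 16, 16), (0, 1, 16)] :=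
  sound_node (j := 0) (by decide) r0_node52 r0_node59

theorem r0_node61 :
    Sound r0R [(0, 1, 1), (1, 2, 2), (0, 1, 16), (7, 8, 8), (0, 1, 16)] :=
  sound_node (j := 3) (by decide) r0_leaf35 r0_node60

theorem r0_node62 :
    Sound r0R [(0, 1, 1), (1, 2, 2), (0, 1, 16), (7, 8, 8), (0, 1, 8)] :=
  sound_node (j := 4) (by decide) r0_node61 r0_leaf67

theorem r0_node63 :
    Sound r0R [(0, 1, 1), (0, 1, 1), (0, 1, 16), (7, 8, 8), (0, 1, 8)] :=
  sound_node (j := 1) (by decide) r0_node30 r0_node62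

theorem r0_node64 :
    Sound r0R [(0, 1, 1), (0, 1, 1), (0, 1, 16), (3, 4, 4), (0, 1, 8)] :=
  sound_node (j := 3) (by decide) r0_leaf4 r0_node63

theorem r0_node65 :
    Sound r0R [(0, 1, 1), (0, 1, 1), (0, 1, 8), (3, 4, 4), (0, 1, 8)] :=
  sound_node (j := 2) (by decide) r0_node64 r0_leaf68

theorem r0_node66 :
    Sound r0R [(0, 1, 1), (0, 1, 1), (0, 1, 8), (3, 4, 4), (0, 1, 4)] :=
  sound_node (j := 4) (by decide) r0_node65 r0_leaf69

theorem r0_node67 :
    Sound r0R [(0, 1, 1), (0, 1, 1), (0, 1, 8), (1, 2, 2), (0, 1, 4)] :=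
  sound_node (j := 3) (by decide) r0_leaf3 r0_node66

theorem r0_node68 :
    Sound r0R [(0, 1, 1), (0, 1, 1), (0, 1, 4), (1, 2, 2), (0, 1, 4)] :=
  sound_node (j := 2) (by decide) r0_node67 r0_leaf70

theorem r0_node69 :
    Sound r0R [(0, 1, 1), (0, 1, 1), (0, 1, 2), (1, 2, 2), (0, 1, 4)] :=
  sound_node (j := 2) (by decide) r0_node68 r0_leaf71

theorem r0_node70 :
    Sound r0R [(0, 1, 1), (0, 1, 1), (0, 1, 2), (1, 2, 2), (0, 1, 2)] :=
  sound_node (j := 4) (by decide) r0_node69 r0_leaf72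

theorem r0_node71 :
    Sound r0R [(0, 1, 1), (0, 1, 1), (0, 1, 2), (0, 1, 1), (0, 1, 2)] :=
  sound_node (j := 3) (by decide) r0_node1 r0_node70

theorem r0_node72 :
    Sound r0R [(0, 1, 1), (0, 1, 1), (0, 1, 2), (0, 1, 1), (0, 1, 1)] :=
  sound_node (j := 4) (by decide) r0_node71 r0_leaf73

theorem r0_node73 :
    Sound r0R [(0, 1, 1), (0, 1, 1), (0, 1, 1), (0, 1, 1), (0, 1, 1)] :=
  sound_node (j := 2) (by decide) r0_node72 r0_leaf74

theorem r0_sound :
    Sound r0R [(0, 1, 1), (0, 1, 1), (0, 1, 1), (0, 1, 1), (0, 1, 1)] :=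
  r0_node73

end Vale.Agent.P100.Calib.LowEnd
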