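import Vale.Agent.P100.Calib.SlabLowEndR0Base

/-!
# Leaves 1 of the cover of root 0
-/

set_option maxRecDepth 100000
-- the heavy checks are definitions, so that they are checked one after another
set_option linter.defProp false

namespace Vale.Agent.P100.Calib.LowEnd

open Pack Band

def r0_leaf0 :
    Sound r0R [(0, 1, 1), (0, 1, 1), (0, 1, 4), (0, 1, 2), (0, 1, 2)] :=
  sound_empty (K := 98) (q := 12) r0_ok (by decide +kernel)

def r0_leaf1 :
    Sound r0R [(0, 1, 1), (0, 1, 1), (1, 2, 4), (0, 1, 4), (0, 1, 2)] :=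
  sound_empty (K := 104) (q := 12) r0_ok (by decide +kernel)

def r0_leaf2 :
    Sound r0R [(0, 1, 1), (0, 1, 1), (1, 2, 4), (1, 2, 4), (0, 1, 2)] :=
  sound_leaf (K := 188) (L := ⟨(-8808038), 1033711, 66792, 2786820, 344268, 458009, 94953, 0, 0, 0⟩) r0_ok (by decide +kernel)

def r0_leaf3 :
    Sound r0R [(0, 1, 1), (0, 1, 1), (0, 1, 8), (2, 3, 4), (0, 1, 4)] :=
  sound_empty (K := 116) (q := 12) r0_ok (by decide +kernel)

def r0_leaf4 :
    Sound r0R [(0, 1, 1), (0, 1, 1), (0, 1, 16), (6, 7, 8), (0, 1, 8)] :=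
  sound_empty (K := 134) (q := 12) r0_ok (by decide +kernel)

def r0_leaf5 :
    Sound r0R [(0, 1, 1), (0, 1, 2), (0, 1, 32), (14, 15, 16), (0, 1, 16)] :=
  sound_empty (K := 158) (q := 12) r0_ok (by decide +kernel)

def r0_leaf6 :
    Sound r0R [(0, 1, 4), (0, 1, 4), (0, 1, 64), (30, 31, 32), (0, 1, 64)] :=
  sound_leaf (K := 286) (L := ⟨(-10905190), (-1443477), (-265125), 4549687, 858825, 523279, 295160, 0, 0, 0⟩) r0_ok (by decide +kernel)

def r0_leaf7 :
    Sound r0R [(0, 1, 4), (0, 1, 4), (0, 1, 64), (31, 32, 32), (0, 1, 64)] :=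
  sound_leaf (K := 286) (L := ⟨(-10905190), (-1618193), (-292559), 4532210, 868065, 216339, 104176, 8408476207551489315765345, 0, 0⟩) r0_ok (by decide +kernel)

def r0_leaf8 :
    Sound r0R [(0, 1, 8), (2, 3, 8), (0, 1, 64), (30, 31, 32), (0, 1, 64)] :=
  sound_leaf (K := 297) (L := ⟨(-10905190), (-1176993), (-225878), 3265591, 930846, 508246, 146069, 0, 0, 0⟩) r0_ok (by decide +kernel)

def r0_leaf9 :
    Sound r0R [(0, 1, 16), (4, 5, 16), (0, 1, 128), (62, 63, 64), (0, 1, 128)] :=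
  sound_leaf (K := 328) (L := ⟨(-10905190), (-1353707), (-254209), 5510216, 1003877, 84251, 33298, 7260880199685497833752515, 0, 0⟩) r0_ok (by decide +kernel)

def r0_leaf10 :
    Sound r0R [(0, 1, 16), (5, 6, 16), (0, 1, 128), (62, 63, 64), (0, 1, 128)] :=
  sound_leaf (K := 328) (L := ⟨(-11324621), (-1959657), (-359958), 4512614, 830299, 374487, 175623, 17436626180688411934988578, 0, 0⟩) r0_ok (by decide +kernel)

def r0_leaf11 :
    Sound r0R [(0, 1, 16), (2, 3, 8), (1, 2, 128), (62, 63, 64), (0, 1, 128)] :=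
  sound_leaf (K := 322) (L := ⟨(-10905190), (-1245164), (-235994), 5441877, 951671, 682967, 261322, 0, 0, 0⟩) r0_ok (by decide +kernel)

def r0_leaf12 :
    Sound r0R [(1, 2, 16), (2, 3, 8), (0, 1, 64), (62, 63, 64), (0, 1, 128)] :=
  sound_leaf (K := 315) (L := ⟨(-10905190), (-1342907), (-251672), 4371468, 943201, 97717, 44162, 7809523052724932126790304, 0, 0⟩) r0_ok (by decide +kernel)

def r0_leaf13 :
    Sound r0R [(0, 1, 8), (2, 3, 8), (0, 1, 64), (62, 63, 64), (1, 2, 128)] :=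
  sound_leaf (K := 310) (L := ⟨(-10905190), (-1278701), (-242025), 4351931, 921445, 507052, 262961, 0, 0, 0⟩) r0_ok (by decide +kernel)

def r0_leaf14 :
    Sound r0R [(0, 1, 8), (2, 3, 8), (0, 1, 64), (63, 64, 64), (0, 1, 64)] :=
  sound_empty (K := 218) (q := 10) r0_ok (by decide +kernel)

def r0_leaf15 :
    Sound r0R [(0, 1, 8), (3, 4, 8), (0, 1, 64), (15, 16, 16), (0, 1, 64)] :=
  sound_leaf (K := 292) (L := ⟨(-11324621), (-1663290), (-311870), 4424807, 800219, 174800, 89612, 7126554139797486373172615, 0, 0⟩) r0_ok (by decide +kernel)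

def r0_leaf16 :
    Sound r0R [(1, 2, 8), (1, 2, 4), (0, 1, 64), (30, 31, 32), (0, 1, 64)] :=
  sound_leaf (K := 292) (L := ⟨(-10905190), (-1228567), (-233813), 4349549, 881126, 686090, 264203, 0, 0, 0⟩) r0_ok (by decide +kernel)

def r0_leaf17 :
    Sound r0R [(1, 2, 8), (2, 3, 8), (0, 1, 64), (62, 63, 64), (0, 1, 64)] :=
  sound_leaf (K := 303) (L := ⟨(-10905190), (-1416495), (-262702), 4386656, 877587, 154066, 81176, 16013754189809215154147654, 0, 0⟩) r0_ok (by decide +kernel)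

def r0_leaf18 :
    Sound r0R [(1, 2, 8), (3, 4, 8), (0, 1, 64), (124, 125, 128), (0, 1, 64)] :=
  sound_leaf (K := 310) (L := ⟨(-10905190), (-1274748), (-241828), 5370818, 902366, 372942, 140524, 0, 0, 0⟩) r0_ok (by decide +kernel)

def r0_leaf19 :
    Sound r0R [(2, 3, 16), (3, 4, 8), (0, 1, 64), (125, 126, 128), (0, 1, 64)] :=
  sound_leaf (K := 316) (L := ⟨(-10905190), (-1287557), (-244083), 6437536, 922480, 89460, 45318, 10962715533203666188437817, 0, 0⟩) r0_ok (by decide +kernel)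

def r0_leaf20 :
    Sound r0R [(3, 4, 16), (3, 4, 8), (0, 1, 64), (125, 126, 128), (0, 1, 64)] :=
  sound_leaf (K := 316) (L := ⟨(-10905190), (-1342646), (-252323), 4288006, 890473, 504120, 190090, 15522751310466509018184766, 0, 0⟩) r0_ok (by decide +kernel)

def r0_leaf21 :
    Sound r0R [(1, 2, 8), (1, 2, 4), (0, 1, 64), (63, 64, 64), (0, 1, 64)] :=
  sound_empty (K := 212) (q := 10) r0_ok (by decide +kernel)

def r0_leaf22 :
    Sound r0R [(1, 2, 4), (0, 1, 4), (0, 1, 64), (30, 31, 32), (0, 1, 64)] :=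
  sound_leaf (K := 286) (L := ⟨(-10485760), (-1181178), (-216735), 5555406, 913758, 531911, 259402, 0, 0, 0⟩) r0_ok (by decide +kernel)

def r0_leaf23 :
    Sound r0R [(2, 3, 8), (0, 1, 8), (0, 1, 64), (31, 32, 32), (0, 1, 64)] :=
  sound_leaf (K := 297) (L := ⟨(-10485760), (-1330880), (-239207), 2765151, 942071, 292579, 67841, 7823963444966637694539199, 0, 0⟩) r0_ok (by decide +kernel)

def r0_leaf24 :
    Sound r0R [(2, 3, 8), (1, 2, 8), (0, 1, 64), (31, 32, 32), (0, 1, 64)] :=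
  sound_leaf (K := 298) (L := ⟨(-10905190), (-1758597), (-314087), 4519277, 811433, 287595, 118625, 16211256778748975751991019, 0, 0⟩) r0_ok (by decide +kernel)

end Vale.Agent.P100.Calib.LowEnd
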