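import Vale.Agent.P100.Calib.SlabLowEndR0Data

/-!
# The slots of root 0 are within their tolerances
-/

set_option maxRecDepth 100000
-- the heavy checks are definitions, so that they are checked one after another
set_option linter.defProp false

namespace Vale.Agent.P100.Calib.LowEnd

open Pack Band

def r0_slot0 : checkSlot r0B r0P.sig 56 r0D0 r0T0 = true := by decide +kernel

def r0_slot1 : checkSlot r0B r0P.sig 56 r0D1 r0T1 = true := by decide +kernel

def r0_slot2 : checkSlot r0B r0P.sig 56 r0D2 r0T2 = true := by decide +kernel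

def r0_slot3 : checkSlot r0B r0P.sig 56 r0D3 r0T3 = true := by decide +kernel

def r0_slot4 : checkSlot r0B r0P.sig 56 r0D4 r0T4 = true := by decide +kernel

def r0_slot5 : checkSlot r0B r0P.sig 56 r0D5 r0T5 = true := by decide +kernel

def r0_slot6 : checkSlot r0B r0P.sig 56 r0D6 r0T6 = true := by decide +kernel

def r0_slot7 : checkSlot r0B r0P.sig 56 r0D7 r0T7 = true := by decide +kernel

def r0_slot8 : checkSlot r0B r0P.sig 56 r0D8 r0T8 = true := by decide +kernel

def r0_slot9 : checkSlot r0B r0P.sig 56 r0D9 r0T9 = true := by decide +kernel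

def r0_slot10 : checkSlot r0B r0P.sig 56 r0D10 r0T10 = true := by decide +kernel

def r0_slot11 : checkSlot r0B r0P.sig 56 r0D11 r0T11 = true := by decide +kernel

def r0_slot12 : checkSlot r0B r0P.sig 56 r0D12 r0T12 = true := by decide +kernel

theorem r0_near {x y : ℕ → ℝ} (hx : InBox r0B x) (hc : Coord r0P.sig x y) :
    Near r0R y (valueAt r0L x) :=
  near_root rfl (fun q hq => by
    simp only [r0L, List.length_cons, List.length_nil] at hq
    interval_cases q
    · exact ⟨_, r0_slot0⟩
    · exact ⟨_, r0_slot1⟩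
    · exact ⟨_, r0_slot2⟩
    · exact ⟨_, r0_slot3⟩
    · exact ⟨_, r0_slot4⟩
    · exact ⟨_, r0_slot5⟩
    · exact ⟨_, r0_slot6⟩
    · exact ⟨_, r0_slot7⟩
    · exact ⟨_, r0_slot8⟩
    · exact ⟨_, r0_slot9⟩
    · exact ⟨_, r0_slot10⟩
    · exact ⟨_, r0_slot11⟩
    · exact ⟨_, r0_slot12⟩
  ) hx hc

end Vale.Agent.P100.Calib.LowEnd
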