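import Vale.Agent.P100.Calib.SlabLowEndR10Data

/-!
# The cover of root 10
-/

set_option maxRecDepth 100000
-- the heavy checks are definitions, so that they are checked one after another
set_option linter.defProp false

namespace Vale.Agent.P100.Calib.LowEnd

open Pack Band

theorem r10_ok : rootOk r10R = true := by decide +kernel

def r10_leaf0 :
    Sound r10R [(0, 1, 2), (0, 1, 1), (0, 1, 4), (0, 1, 8), (0, 1, 8)] :=
  sound_empty (K := 130) (q := 11) r10_ok (by decide +kernel)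

def r10_leaf1 :
    Sound r10R [(0, 1, 2), (0, 1, 1), (0, 1, 4), (1, 2, 8), (0, 1, 16)] :=
  sound_empty (K := 136) (q := 11) r10_ok (by decide +kernel)

def r10_leaf2 :
    Sound r10R [(0, 1, 2), (0, 1, 1), (0, 1, 4), (1, 2, 8), (1, 2, 16)] :=
  sound_leaf (K := 219) (L := ⟨(-12163482), 1133819, 75476, 2635773, 293732, 350047, 109188, 0, 0, 0⟩) r10_ok (by decide +kernel)

def r10_leaf3 :
    Sound r10R [(0, 1, 4), (0, 1, 4), (0, 1, 4), (1, 2, 4), (0, 1, 8)] :=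
  sound_leaf (K := 225) (L := ⟨(-13002342), 759765, 77878, 1395694, 307682, 346208, 87302, 0, 0, 0⟩) r10_ok (by decide +kernel)

def r10_leaf4 :
    Sound r10R [(0, 1, 4), (1, 2, 4), (0, 1, 4), (1, 2, 4), (0, 1, 8)] :=
  sound_leaf (K := 225) (L := ⟨(-13002342), 791732, 39377, 2748800, 305375, 339189, 114937, 0, 0, 0⟩) r10_ok (by decide +kernel)

def r10_leaf5 :
    Sound r10R [(1, 2, 4), (0, 1, 2), (0, 1, 4), (1, 2, 4), (0, 1, 8)] :=
  sound_leaf (K := 220) (L := ⟨(-11324621), 576377, 15959, 3192351, 331233, 490924, 145175, 0, 0, 0⟩) r10_ok (by decide +kernel)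

def r10_leaf6 :
    Sound r10R [(0, 1, 2), (1, 2, 2), (0, 1, 4), (1, 2, 4), (0, 1, 8)] :=
  sound_leaf (K := 213) (L := ⟨(-13002342), 559819, 14046, 2665650, 298819, 338776, 154718, 0, 0, 0⟩) r10_ok (by decide +kernel)

def r10_leaf7 :
    Sound r10R [(0, 1, 2), (0, 1, 1), (1, 2, 4), (0, 1, 2), (0, 1, 8)] :=
  sound_leaf (K := 201) (L := ⟨(-13421773), 356136, 98863, 2711803, 264652, 443951, 124997, 0, 0, 0⟩) r10_ok (by decide +kernel)

def r10_leaf8 :
    Sound r10R [(0, 1, 2), (0, 1, 1), (0, 1, 2), (2, 3, 4), (0, 1, 8)] :=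
  sound_leaf (K := 201) (L := ⟨(-13002342), (-40558), (-45606), 2383443, 270851, 320575, 103208, 0, 0, 0⟩) r10_ok (by decide +kernel)

def r10_leaf9 :
    Sound r10R [(0, 1, 2), (0, 1, 1), (0, 1, 8), (6, 7, 8), (0, 1, 8)] :=
  sound_leaf (K := 219) (L := ⟨(-13421773), (-570869), (-179486), 2645548, 331683, 331655, 118758, 0, 0, 0⟩) r10_ok (by decide +kernel)

def r10_leaf10 :
    Sound r10R [(0, 1, 2), (0, 1, 1), (0, 1, 16), (14, 15, 16), (0, 1, 8)] :=
  sound_leaf (K := 232) (L := ⟨(-13841203), (-997169), (-270563), 3434672, 330452, 331600, 125913, 0, 0, 0⟩) r10_ok (by decide +kernel)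

def r10_leaf11 :
    Sound r10R [(0, 1, 2), (0, 1, 2), (0, 1, 16), (30, 31, 32), (0, 1, 16)] :=
  sound_leaf (K := 250) (L := ⟨(-13841203), (-1192480), (-307732), 3592352, 377464, 252104, 98999, 0, 0, 0⟩) r10_ok (by decide +kernel)

def r10_leaf12 :
    Sound r10R [(0, 1, 4), (0, 1, 2), (0, 1, 16), (31, 32, 32), (0, 1, 16)] :=
  sound_leaf (K := 256) (L := ⟨(-14260634), (-1291737), (-344439), 3816478, 370788, 99686, 66796, 3191878658278807394412672, 0, 0⟩) r10_ok (by decide +kernel)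

def r10_leaf13 :
    Sound r10R [(1, 2, 4), (0, 1, 2), (0, 1, 16), (31, 32, 32), (0, 1, 16)] :=
  sound_leaf (K := 256) (L := ⟨(-13002342), (-1191029), (-291418), 3408555, 389140, 257992, 92278, 0, 0, 0⟩) r10_ok (by decide +kernel)

def r10_leaf14 :
    Sound r10R [(0, 1, 2), (1, 2, 2), (0, 1, 16), (30, 31, 32), (0, 1, 16)] :=
  sound_leaf (K := 250) (L := ⟨(-14260634), (-1260308), (-332983), 2772247, 356127, 327824, 132260, 0, 0, 0⟩) r10_ok (by decide +kernel)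

def r10_leaf15 :
    Sound r10R [(0, 1, 2), (1, 2, 2), (0, 1, 16), (31, 32, 32), (0, 1, 16)] :=
  sound_leaf (K := 250) (L := ⟨(-14260634), (-1326343), (-365789), 3803964, 358530, 127873, 72067, 3075318874010629680495634, 0, 0⟩) r10_ok (by decide +kernel)

def r10_leaf16 :
    Sound r10R [(0, 1, 2), (0, 1, 1), (0, 1, 16), (15, 16, 16), (1, 2, 16)] :=
  sound_empty (K := 154) (q := 12) r10_ok (by decide +kernel)

def r10_leaf17 :
    Sound r10R [(0, 1, 2), (0, 1, 1), (1, 2, 16), (7, 8, 8), (0, 1, 8)] :=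
  sound_leaf (K := 226) (L := ⟨(-13421773), (-814977), (-221208), 3158739, 319164, 435836, 153027, 0, 0, 0⟩) r10_ok (by decide +kernel)

def r10_leaf18 :
    Sound r10R [(0, 1, 2), (0, 1, 1), (1, 2, 8), (3, 4, 4), (0, 1, 8)] :=
  sound_leaf (K := 213) (L := ⟨(-12582912), (-477536), (-138516), 2820615, 303753, 425755, 136477, 0, 0, 0⟩) r10_ok (by decide +kernel)

def r10_leaf19 :
    Sound r10R [(0, 1, 2), (0, 1, 1), (1, 2, 4), (3, 4, 4), (0, 1, 8)] :=
  sound_leaf (K := 207) (L := ⟨(-10485760), (-274202), (-73126), 2095046, 290950, 402170, 115095, 0, 0, 0⟩) r10_ok (by decide +kernel)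

def r10_leaf20 :
    Sound r10R [(1, 2, 2), (0, 1, 2), (0, 1, 4), (0, 1, 2), (0, 1, 8)] :=
  sound_leaf (K := 207) (L := ⟨(-10485760), 402917, (-18732), 1937180, 338356, 407176, 112468, 0, 0, 0⟩) r10_ok (by decide +kernel)

def r10_leaf21 :
    Sound r10R [(1, 2, 2), (1, 2, 2), (0, 1, 4), (0, 1, 2), (0, 1, 8)] :=
  sound_leaf (K := 207) (L := ⟨(-10066330), 420846, 24530, 2322189, 340245, 391130, 143813, 0, 0, 0⟩) r10_ok (by decide +kernel)

def r10_leaf22 :
    Sound r10R [(1, 2, 2), (0, 1, 1), (0, 1, 4), (1, 2, 2), (0, 1, 8)] :=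
  sound_leaf (K := 201) (L := ⟨(-12163482), (-687983), (-121732), 3249935, 322036, 215785, 85271, 676451668636188376392028, 0, 0⟩) r10_ok (by decide +kernel)

def r10_leaf23 :
    Sound r10R [(1, 2, 2), (0, 1, 1), (1, 2, 4), (0, 1, 1), (0, 1, 8)] :=
  sound_leaf (K := 195) (L := ⟨(-10066330), (-18710), (-7373), 1866362, 331897, 474798, 119539, 0, 0, 0⟩) r10_ok (by decide +kernel)

def r10_leaf24 :
    Sound r10R [(0, 1, 1), (0, 1, 1), (0, 1, 2), (0, 1, 1), (1, 2, 8)] :=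
  sound_leaf (K := 182) (L := ⟨(-11324621), 47350, (-3745), 1466450, 256277, 439017, 93147, 0, 0, 0⟩) r10_ok (by decide +kernel)

def r10_leaf25 :
    Sound r10R [(0, 1, 1), (0, 1, 1), (0, 1, 2), (0, 1, 1), (1, 2, 4)] :=
  sound_leaf (K := 176) (L := ⟨(-9646899), 190355, (-41257), 1866401, 222548, 411779, 111392, 0, 0, 0⟩) r10_ok (by decide +kernel)

def r10_leaf26 :
    Sound r10R [(0, 1, 1), (0, 1, 1), (0, 1, 2), (0, 1, 1), (1, 2, 2)] :=
  sound_leaf (K := 170) (L := ⟨(-7549747), 239178, (-70909), 1207706, 173527, 372571, 98419, 0, 0, 0⟩) r10_ok (by decide +kernel)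

def r10_leaf27 :
    Sound r10R [(0, 1, 1), (0, 1, 1), (1, 2, 2), (0, 1, 1), (0, 1, 1)] :=
  sound_leaf (K := 164) (L := ⟨(-10905190), 188339, 4474, 1282904, 170139, 357523, 96643, 0, 0, 0⟩) r10_ok (by decide +kernel)

theorem r10_node0 :
    Sound r10R [(0, 1, 2), (0, 1, 1), (0, 1, 4), (1, 2, 8), (0, 1, 8)] :=
  sound_node (j := 4) (by decide) r10_leaf1 r10_leaf2

theorem r10_node1 :
    Sound r10R [(0, 1, 2), (0, 1, 1), (0, 1, 4), (0, 1, 4), (0, 1, 8)] :=
  sound_node (j := 3) (by decide) r10_leaf0 r10_node0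

theorem r10_node2 :
    Sound r10R [(0, 1, 4), (0, 1, 2), (0, 1, 4), (1, 2, 4), (0, 1, 8)] :=
  sound_node (j := 1) (by decide) r10_leaf3 r10_leaf4

theorem r10_node3 :
    Sound r10R [(0, 1, 2), (0, 1, 2), (0, 1, 4), (1, 2, 4), (0, 1, 8)] :=
  sound_node (j := 0) (by decide) r10_node2 r10_leaf5

theorem r10_node4 :
    Sound r10R [(0, 1, 2), (0, 1, 1), (0, 1, 4), (1, 2, 4), (0, 1, 8)] :=
  sound_node (j := 1) (by decide) r10_node3 r10_leaf6

theorem r10_node5 :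
    Sound r10R [(0, 1, 2), (0, 1, 1), (0, 1, 4), (0, 1, 2), (0, 1, 8)] :=
  sound_node (j := 3) (by decide) r10_node1 r10_node4

theorem r10_node6 :
    Sound r10R [(0, 1, 2), (0, 1, 1), (0, 1, 2), (0, 1, 2), (0, 1, 8)] :=
  sound_node (j := 2) (by decide) r10_node5 r10_leaf7

theorem r10_node7 :
    Sound r10R [(0, 1, 2), (0, 1, 2), (0, 1, 16), (31, 32, 32), (0, 1, 16)] :=
  sound_node (j := 0) (by decide) r10_leaf12 r10_leaf13

theorem r10_node8 :
    Sound r10R [(0, 1, 2), (0, 1, 2), (0, 1, 16), (15, 16, 16), (0, 1, 16)] :=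
  sound_node (j := 3) (by decide) r10_leaf11 r10_node7

theorem r10_node9 :
    Sound r10R [(0, 1, 2), (1, 2, 2), (0, 1, 16), (15, 16, 16), (0, 1, 16)] :=
  sound_node (j := 3) (by decide) r10_leaf14 r10_leaf15

theorem r10_node10 :
    Sound r10R [(0, 1, 2), (0, 1, 1), (0, 1, 16), (15, 16, 16), (0, 1, 16)] :=
  sound_node (j := 1) (by decide) r10_node8 r10_node9

theorem r10_node11 :
    Sound r10R [(0, 1, 2), (0, 1, 1), (0, 1, 16), (15, 16, 16), (0, 1, 8)] :=
  sound_node (j := 4) (by decide) r10_node10 r10_leaf16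

theorem r10_node12 :
    Sound r10R [(0, 1, 2), (0, 1, 1), (0, 1, 16), (7, 8, 8), (0, 1, 8)] :=
  sound_node (j := 3) (by decide) r10_leaf10 r10_node11

theorem r10_node13 :
    Sound r10R [(0, 1, 2), (0, 1, 1), (0, 1, 8), (7, 8, 8), (0, 1, 8)] :=
  sound_node (j := 2) (by decide) r10_node12 r10_leaf17

theorem r10_node14 :
    Sound r10R [(0, 1, 2), (0, 1, 1), (0, 1, 8), (3, 4, 4), (0, 1, 8)] :=
  sound_node (j := 3) (by decide) r10_leaf9 r10_node13

theorem r10_node15 :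
    Sound r10R [(0, 1, 2), (0, 1, 1), (0, 1, 4), (3, 4, 4), (0, 1, 8)] :=
  sound_node (j := 2) (by decide) r10_node14 r10_leaf18

theorem r10_node16 :
    Sound r10R [(0, 1, 2), (0, 1, 1), (0, 1, 2), (3, 4, 4), (0, 1, 8)] :=
  sound_node (j := 2) (by decide) r10_node15 r10_leaf19

theorem r10_node17 :
    Sound r10R [(0, 1, 2), (0, 1, 1), (0, 1, 2), (1, 2, 2), (0, 1, 8)] :=
  sound_node (j := 3) (by decide) r10_leaf8 r10_node16

theorem r10_node18 :
    Sound r10R [(0, 1, 2), (0, 1, 1), (0, 1, 2), (0, 1, 1), (0, 1, 8)] :=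
  sound_node (j := 3) (by decide) r10_node6 r10_node17

theorem r10_node19 :
    Sound r10R [(1, 2, 2), (0, 1, 1), (0, 1, 4), (0, 1, 2), (0, 1, 8)] :=
  sound_node (j := 1) (by decide) r10_leaf20 r10_leaf21

theorem r10_node20 :
    Sound r10R [(1, 2, 2), (0, 1, 1), (0, 1, 4), (0, 1, 1), (0, 1, 8)] :=
  sound_node (j := 3) (by decide) r10_node19 r10_leaf22

theorem r10_node21 :
    Sound r10R [(1, 2, 2), (0, 1, 1), (0, 1, 2), (0, 1, 1), (0, 1, 8)] :=
  sound_node (j := 2) (by decide) r10_node20 r10_leaf23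

theorem r10_node22 :
    Sound r10R [(0, 1, 1), (0, 1, 1), (0, 1, 2), (0, 1, 1), (0, 1, 8)] :=
  sound_node (j := 0) (by decide) r10_node18 r10_node21

theorem r10_node23 :
    Sound r10R [(0, 1, 1), (0, 1, 1), (0, 1, 2), (0, 1, 1), (0, 1, 4)] :=
  sound_node (j := 4) (by decide) r10_node22 r10_leaf24

theorem r10_node24 :
    Sound r10R [(0, 1, 1), (0, 1, 1), (0, 1, 2), (0, 1, 1), (0, 1, 2)] :=
  sound_node (j := 4) (by decide) r10_node23 r10_leaf25

theorem r10_node25 :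
    Sound r10R [(0, 1, 1), (0, 1, 1), (0, 1, 2), (0, 1, 1), (0, 1, 1)] :=
  sound_node (j := 4) (by decide) r10_node24 r10_leaf26

theorem r10_node26 :
    Sound r10R [(0, 1, 1), (0, 1, 1), (0, 1, 1), (0, 1, 1), (0, 1, 1)] :=
  sound_node (j := 2) (by decide) r10_node25 r10_leaf27

theorem r10_sound :
    Sound r10R [(0, 1, 1), (0, 1, 1), (0, 1, 1), (0, 1, 1), (0, 1, 1)] :=
  r10_node26

end Vale.Agent.P100.Calib.LowEnd
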