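import Vale.Agent.P100.Calib.SlabLowEndR10Data

/-!
# The slots of root 10 are within their tolerances
-/

set_option maxRecDepth 100000
-- the heavy checks are definitions, so that they are checked one after another
set_option linter.defProp false

namespace Vale.Agent.P100.Calib.LowEnd

open Pack Band

def r10_slot0 : checkSlot r10B r10P.sig 56 r10D0 r10T0 = true := by decide +kernel

def r10_slot1 : checkSlot r10B r10P.sig 56 r10D1 r10T1 = true := by decide +kernel

def r10_slot2 : checkSlot r10B r10P.sig 56 r10D2 r10T2 = true := by decide +kernel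

def r10_slot3 : checkSlot r10B r10P.sig 56 r10D3 r10T3 = true := by decide +kernel

def r10_slot4 : checkSlot r10B r10P.sig 56 r10D4 r10T4 = true := by decide +kernel

def r10_slot5 : checkSlot r10B r10P.sig 56 r10D5 r10T5 = true := by decide +kernel

def r10_slot6 : checkSlot r10B r10P.sig 56 r10D6 r10T6 = true := by decide +kernel

def r10_slot7 : checkSlot r10B r10P.sig 56 r10D7 r10T7 = true := by decide +kernel

def r10_slot8 : checkSlot r10B r10P.sig 56 r10D8 r10T8 = true := by decide +kernel

def r10_slot9 : checkSlot r10B r10P.sig 56 r10D9 r10T9 = true := by decide +kernel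

def r10_slot10 : checkSlot r10B r10P.sig 56 r10D10 r10T10 = true := by decide +kernel

def r10_slot11 : checkSlot r10B r10P.sig 56 r10D11 r10T11 = true := by decide +kernel

def r10_slot12 : checkSlot r10B r10P.sig 56 r10D12 r10T12 = true := by decide +kernel

theorem r10_near {x y : ℕ → ℝ} (hx : InBox r10B x) (hc : Coord r10P.sig x y) :
    Near r10R y (valueAt r10L x) :=
  near_root rfl (fun q hq => by
    simp only [r10L, List.length_cons, List.length_nil] at hq
    interval_cases q
    · exact ⟨_, r10_slot0⟩
    · exact ⟨_, r10_slot1⟩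
    · exact ⟨_, r10_slot2⟩
    · exact ⟨_, r10_slot3⟩
    · exact ⟨_, r10_slot4⟩
    · exact ⟨_, r10_slot5⟩
    · exact ⟨_, r10_slot6⟩
    · exact ⟨_, r10_slot7⟩
    · exact ⟨_, r10_slot8⟩
    · exact ⟨_, r10_slot9⟩
    · exact ⟨_, r10_slot10⟩
    · exact ⟨_, r10_slot11⟩
    · exact ⟨_, r10_slot12⟩
  ) hx hc

end Vale.Agent.P100.Calib.LowEnd
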