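import Vale.Agent.P100.Calib.SlabLowEndR11Data

/-!
# The cover of root 11
-/

set_option maxRecDepth 100000
-- the heavy checks are definitions, so that they are checked one after another
set_option linter.defProp false

namespace Vale.Agent.P100.Calib.LowEnd

open Pack Band

theorem r11_ok : rootOk r11R = true := by decide +kernel

def r11_leaf0 :
    Sound r11R [(0, 1, 1), (0, 1, 1), (0, 1, 2), (0, 1, 2), (0, 1, 16)] :=
  sound_leaf (K := 197) (L := ⟨(-6710886), 365127, 49572, 2160214, 423502, 691938, 147133, 0, 0, 0⟩) r11_ok (by decide +kernel)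

def r11_leaf1 :
    Sound r11R [(0, 1, 1), (0, 1, 1), (1, 2, 2), (0, 1, 2), (0, 1, 16)] :=
  sound_empty (K := 113) (q := 11) r11_ok (by decide +kernel)

def r11_leaf2 :
    Sound r11R [(0, 1, 1), (0, 1, 1), (0, 1, 1), (1, 2, 2), (0, 1, 16)] :=
  sound_leaf (K := 191) (L := ⟨(-10485760), (-466718), 5050, 3193890, 348461, 415070, 108537, 0, 0, 0⟩) r11_ok (by decide +kernel)

def r11_leaf3 :
    Sound r11R [(0, 1, 1), (0, 1, 1), (0, 1, 1), (0, 1, 1), (1, 2, 16)] :=
  sound_leaf (K := 184) (L := ⟨(-6710886), (-29596), 61245, 1223670, 333490, 568055, 94130, 0, 0, 0⟩) r11_ok (by decide +kernel)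

def r11_leaf4 :
    Sound r11R [(0, 1, 1), (0, 1, 1), (0, 1, 1), (0, 1, 1), (1, 2, 8)] :=
  sound_leaf (K := 178) (L := ⟨(-4194304), 12174, 47103, 368823, 284967, 507121, 118195, 0, 0, 0⟩) r11_ok (by decide +kernel)

def r11_leaf5 :
    Sound r11R [(0, 1, 1), (0, 1, 1), (0, 1, 1), (0, 1, 1), (1, 2, 4)] :=
  sound_leaf (K := 172) (L := ⟨(-1677722), 81422, 8659, 213492, 219706, 428378, 107878, 0, 0, 0⟩) r11_ok (by decide +kernel)

def r11_leaf6 :
    Sound r11R [(0, 1, 1), (0, 1, 1), (0, 1, 1), (0, 1, 1), (1, 2, 2)] :=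
  sound_leaf (K := 165) (L := ⟨5316280, 121378, (-58001), (-445713), 169928, 343004, 94823, 0, 0, 0⟩) r11_ok (by decide +kernel)

theorem r11_node0 :
    Sound r11R [(0, 1, 1), (0, 1, 1), (0, 1, 1), (0, 1, 2), (0, 1, 16)] :=
  sound_node (j := 2) (by decide) r11_leaf0 r11_leaf1

theorem r11_node1 :
    Sound r11R [(0, 1, 1), (0, 1, 1), (0, 1, 1), (0, 1, 1), (0, 1, 16)] :=
  sound_node (j := 3) (by decide) r11_node0 r11_leaf2

theorem r11_node2 :
    Sound r11R [(0, 1, 1), (0, 1, 1), (0, 1, 1), (0, 1, 1), (0, 1, 8)] :=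
  sound_node (j := 4) (by decide) r11_node1 r11_leaf3

theorem r11_node3 :
    Sound r11R [(0, 1, 1), (0, 1, 1), (0, 1, 1), (0, 1, 1), (0, 1, 4)] :=
  sound_node (j := 4) (by decide) r11_node2 r11_leaf4

theorem r11_node4 :
    Sound r11R [(0, 1, 1), (0, 1, 1), (0, 1, 1), (0, 1, 1), (0, 1, 2)] :=
  sound_node (j := 4) (by decide) r11_node3 r11_leaf5

theorem r11_node5 :
    Sound r11R [(0, 1, 1), (0, 1, 1), (0, 1, 1), (0, 1, 1), (0, 1, 1)] :=
  sound_node (j := 4) (by decide) r11_node4 r11_leaf6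

theorem r11_sound :
    Sound r11R [(0, 1, 1), (0, 1, 1), (0, 1, 1), (0, 1, 1), (0, 1, 1)] :=
  r11_node5

end Vale.Agent.P100.Calib.LowEnd
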