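import Vale.Agent.P100.Calib.SlabLowEndR11Data

/-!
# The slots of root 11 are within their tolerances
-/

set_option maxRecDepth 100000
-- the heavy checks are definitions, so that they are checked one after another
set_option linter.defProp false

namespace Vale.Agent.P100.Calib.LowEnd

open Pack Band

def r11_slot0 : checkSlot r11B r11P.sig 56 r11D0 r11T0 = true := by decide +kernel

def r11_slot1 : checkSlot r11B r11P.sig 56 r11D1 r11T1 = true := by decide +kernel

def r11_slot2 : checkSlot r11B r11P.sig 48 r11D2 r11T2 = true := by decide +kernel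

def r11_slot3 : checkSlot r11B r11P.sig 56 r11D3 r11T3 = true := by decide +kernel

def r11_slot4 : checkSlot r11B r11P.sig 56 r11D4 r11T4 = true := by decide +kernel

def r11_slot5 : checkSlot r11B r11P.sig 56 r11D5 r11T5 = true := by decide +kernel

def r11_slot6 : checkSlot r11B r11P.sig 56 r11D6 r11T6 = true := by decide +kernel

def r11_slot7 : checkSlot r11B r11P.sig 56 r11D7 r11T7 = true := by decide +kernel

def r11_slot8 : checkSlot r11B r11P.sig 56 r11D8 r11T8 = true := by decide +kernel

def r11_slot9 : checkSlot r11B r11P.sig 56 r11D9 r11T9 = true := by decide +kernel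

def r11_slot10 : checkSlot r11B r11P.sig 56 r11D10 r11T10 = true := by decide +kernel

def r11_slot11 : checkSlot r11B r11P.sig 56 r11D11 r11T11 = true := by decide +kernel

theorem r11_near {x y : ℕ → ℝ} (hx : InBox r11B x) (hc : Coord r11P.sig x y) :
    Near r11R y (valueAt r11L x) :=
  near_root rfl (fun q hq => by
    simp only [r11L, List.length_cons, List.length_nil] at hq
    interval_cases q
    · exact ⟨_, r11_slot0⟩
    · exact ⟨_, r11_slot1⟩
    · exact ⟨_, r11_slot2⟩
    · exact ⟨_, r11_slot3⟩
    · exact ⟨_, r11_slot4⟩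
    · exact ⟨_, r11_slot5⟩
    · exact ⟨_, r11_slot6⟩
    · exact ⟨_, r11_slot7⟩
    · exact ⟨_, r11_slot8⟩
    · exact ⟨_, r11_slot9⟩
    · exact ⟨_, r11_slot10⟩
    · exact ⟨_, r11_slot11⟩
  ) hx hc

end Vale.Agent.P100.Calib.LowEnd
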