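import Vale.Agent.P100.Calib.SlabLowEndR12Base

/-!
# Leaves 2 of the cover of root 12
-/

set_option maxRecDepth 100000
-- the heavy checks are definitions, so that they are checked one after another
set_option linter.defProp false

namespace Vale.Agent.P100.Calib.LowEnd

open Pack Band

def r12_leaf27 :
    Sound r12R [(0, 1, 4), (2, 3, 4), (0, 1, 64), (60, 61, 64), (0, 1, 64)] :=
  sound_leaf (K := 293) (L := ⟨(-15518925), (-1466545), (-439231), 1740492, 317070, 277791, 119859, 0, 0, 0⟩) r12_ok (by decide +kernel)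

def r12_leaf28 :
    Sound r12R [(0, 1, 8), (4, 5, 8), (0, 1, 64), (61, 62, 64), (0, 1, 64)] :=
  sound_leaf (K := 306) (L := ⟨(-15099494), (-1328982), (-403533), 2292229, 347031, 276414, 114987, 13365519597198317522598278, 0, 0⟩) r12_ok (by decide +kernel)

def r12_leaf29 :
    Sound r12R [(1, 2, 8), (4, 5, 8), (0, 1, 64), (61, 62, 64), (0, 1, 64)] :=
  sound_leaf (K := 305) (L := ⟨(-15099494), (-1461508), (-426472), 1134842, 329100, 209934, 87631, 0, 0, 0⟩) r12_ok (by decide +kernel)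

def r12_leaf30 :
    Sound r12R [(0, 1, 8), (10, 11, 16), (0, 1, 64), (61, 62, 64), (0, 1, 64)] :=
  sound_leaf (K := 311) (L := ⟨(-15518925), (-1409883), (-432048), 1117370, 324471, 201572, 64037, 0, 0, 0⟩) r12_ok (by decide +kernel)

def r12_leaf31 :
    Sound r12R [(0, 1, 8), (11, 12, 16), (0, 1, 64), (61, 62, 64), (0, 1, 64)] :=
  sound_leaf (K := 311) (L := ⟨(-15518925), (-1380104), (-428140), 1670461, 319492, 269467, 115087, 0, 0, 0⟩) r12_ok (by decide +kernel)

def r12_leaf32 :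
    Sound r12R [(1, 2, 8), (5, 6, 8), (0, 1, 64), (61, 62, 64), (0, 1, 64)] :=
  sound_leaf (K := 305) (L := ⟨(-15099494), (-1404114), (-419396), 2231294, 319876, 277588, 115016, 0, 0, 0⟩) r12_ok (by decide +kernel)

def r12_leaf33 :
    Sound r12R [(0, 1, 4), (2, 3, 4), (0, 1, 64), (30, 31, 32), (1, 2, 64)] :=
  sound_empty (K := 203) (q := 12) r12_ok (by decide +kernel)

def r12_leaf34 :
    Sound r12R [(0, 1, 4), (2, 3, 4), (1, 2, 64), (30, 31, 32), (0, 1, 32)] :=
  sound_leaf (K := 281) (L := ⟨(-15518925), (-1358874), (-411559), 1691999, 299925, 273863, 115990, 0, 0, 0⟩) r12_ok (by decide +kernel)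

def r12_leaf35 :
    Sound r12R [(0, 1, 4), (2, 3, 4), (1, 2, 32), (30, 31, 32), (0, 1, 32)] :=
  sound_leaf (K := 275) (L := ⟨(-15518925), (-1277634), (-388268), 2232750, 291416, 366391, 153331, 0, 0, 0⟩) r12_ok (by decide +kernel)

def r12_leaf36 :
    Sound r12R [(0, 1, 4), (2, 3, 4), (0, 1, 16), (31, 32, 32), (0, 1, 32)] :=
  sound_leaf (K := 270) (L := ⟨(-14680064), (-1192877), (-363919), 2652340, 323051, 200932, 79422, 13142372291520662973814841, 0, 0⟩) r12_ok (by decide +kernel)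

def r12_leaf37 :
    Sound r12R [(0, 1, 4), (3, 4, 4), (0, 1, 16), (15, 16, 16), (0, 1, 32)] :=
  sound_leaf (K := 263) (L := ⟨(-15518925), (-1299794), (-410758), (-386743), 282916, 194309, 46220, 1525918364556790306885935, 0, 0⟩) r12_ok (by decide +kernel)

def r12_leaf38 :
    Sound r12R [(1, 2, 4), (2, 3, 4), (0, 1, 32), (30, 31, 32), (0, 1, 32)] :=
  sound_leaf (K := 275) (L := ⟨(-14680064), (-1379320), (-393267), 1648504, 305182, 214064, 115302, 0, 0, 0⟩) r12_ok (by decide +kernel)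

def r12_leaf39 :
    Sound r12R [(1, 2, 4), (2, 3, 4), (0, 1, 32), (31, 32, 32), (0, 1, 32)] :=
  sound_leaf (K := 276) (L := ⟨(-14680064), (-1435241), (-407249), 2185760, 308278, 286803, 114272, 7412717822078936611219598, 0, 0⟩) r12_ok (by decide +kernel)

def r12_leaf40 :
    Sound r12R [(1, 2, 4), (3, 4, 4), (0, 1, 32), (30, 31, 32), (0, 1, 32)] :=
  sound_leaf (K := 275) (L := ⟨(-14680064), (-1298268), (-385069), 2055149, 289942, 278775, 149530, 0, 0, 0⟩) r12_ok (by decide +kernel)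

def r12_leaf41 :
    Sound r12R [(1, 2, 4), (6, 7, 8), (0, 1, 32), (31, 32, 32), (0, 1, 32)] :=
  sound_leaf (K := 281) (L := ⟨(-14680064), (-1366898), (-399951), (-1109585), 296637, 206549, 45033, 4406247794844619771032312, 0, 0⟩) r12_ok (by decide +kernel)

def r12_leaf42 :
    Sound r12R [(1, 2, 4), (7, 8, 8), (0, 1, 32), (31, 32, 32), (0, 1, 32)] :=
  sound_leaf (K := 281) (L := ⟨(-14260634), (-1248886), (-373242), 1437171, 296657, 203297, 106350, 0, 0, 0⟩) r12_ok (by decide +kernel)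

def r12_leaf43 :
    Sound r12R [(1, 2, 4), (1, 2, 2), (1, 2, 32), (15, 16, 16), (0, 1, 32)] :=
  sound_leaf (K := 263) (L := ⟨(-14680064), (-1270396), (-368977), 2061154, 290170, 278684, 109663, 0, 0, 0⟩) r12_ok (by decide +kernel)

def r12_leaf44 :
    Sound r12R [(0, 1, 2), (1, 2, 2), (1, 2, 16), (15, 16, 16), (0, 1, 32)] :=
  sound_leaf (K := 251) (L := ⟨(-15099494), (-1153277), (-345057), 2024760, 273462, 360361, 143524, 0, 0, 0⟩) r12_ok (by decide +kernel)

def r12_leaf45 :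
    Sound r12R [(0, 1, 2), (0, 1, 1), (0, 1, 8), (3, 4, 4), (1, 2, 32)] :=
  sound_leaf (K := 227) (L := ⟨(-15518925), (-721958), (-232477), 1971808, 287363, 377727, 134725, 0, 0, 0⟩) r12_ok (by decide +kernel)

def r12_leaf46 :
    Sound r12R [(1, 2, 2), (0, 1, 1), (0, 1, 8), (3, 4, 4), (0, 1, 16)] :=
  sound_leaf (K := 221) (L := ⟨(-13002342), (-1111618), (-277439), 1659518, 298521, 201011, 55930, 1035034156394852091959410, 0, 0⟩) r12_ok (by decide +kernel)

def r12_leaf47 :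
    Sound r12R [(0, 1, 1), (0, 1, 1), (0, 1, 8), (3, 4, 4), (1, 2, 16)] :=
  sound_leaf (K := 215) (L := ⟨(-12163482), (-611682), (-191449), 2140732, 258181, 383332, 127564, 0, 0, 0⟩) r12_ok (by decide +kernel)

def r12_leaf48 :
    Sound r12R [(0, 1, 1), (0, 1, 1), (1, 2, 8), (1, 2, 2), (0, 1, 8)] :=
  sound_leaf (K := 203) (L := ⟨(-14680064), (-493814), (-125667), 2258146, 247955, 388763, 129025, 0, 0, 0⟩) r12_ok (by decide +kernel)

def r12_leaf49 :
    Sound r12R [(0, 1, 1), (0, 1, 1), (1, 2, 4), (1, 2, 2), (0, 1, 8)] :=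
  sound_leaf (K := 196) (L := ⟨(-13002342), (-253460), (-68529), 1748247, 237604, 367761, 114980, 0, 0, 0⟩) r12_ok (by decide +kernel)

def r12_leaf50 :
    Sound r12R [(0, 1, 1), (0, 1, 1), (0, 1, 2), (0, 1, 1), (1, 2, 8)] :=
  sound_leaf (K := 184) (L := ⟨(-10485760), 106263, (-55963), 1348732, 224432, 372556, 80144, 0, 0, 0⟩) r12_ok (by decide +kernel)

def r12_leaf51 :
    Sound r12R [(0, 1, 1), (0, 1, 1), (0, 1, 2), (0, 1, 1), (1, 2, 4)] :=
  sound_leaf (K := 178) (L := ⟨(-7130317), 158157, (-62741), 943359, 178617, 336636, 99403, 0, 0, 0⟩) r12_ok (by decide +kernel)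

def r12_leaf52 :
    Sound r12R [(0, 1, 1), (0, 1, 1), (1, 2, 2), (0, 1, 1), (0, 1, 2)] :=
  sound_leaf (K := 172) (L := ⟨(-10066330), 160961, (-197), 1180114, 173942, 325646, 71900, 0, 0, 0⟩) r12_ok (by decide +kernel)

def r12_leaf53 :
    Sound r12R [(0, 1, 1), (0, 1, 1), (0, 1, 1), (0, 1, 1), (1, 2, 2)] :=
  sound_leaf (K := 165) (L := ⟨(-838861), 243951, (-97205), 78614, 138034, 281667, 85936, 0, 0, 0⟩) r12_ok (by decide +kernel)

end Vale.Agent.P100.Calib.LowEnd
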