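import Vale.Agent.P100.Calib.SlabLowEndR12LeavesA
import Vale.Agent.P100.Calib.SlabLowEndR12LeavesB

/-!
# The cover of root 12
-/

set_option maxRecDepth 100000
-- the heavy checks are definitions, so that they are checked one after another
set_option linter.defProp false

namespace Vale.Agent.P100.Calib.LowEnd

open Pack Band

theorem r12_node0 :
    Sound r12R [(0, 1, 2), (0, 1, 1), (0, 1, 4), (0, 1, 4), (0, 1, 8)] :=
  sound_node (j := 4) (by decide) r12_leaf0 r12_leaf1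

theorem r12_node1 :
    Sound r12R [(0, 1, 2), (0, 1, 1), (0, 1, 4), (0, 1, 2), (0, 1, 8)] :=
  sound_node (j := 3) (by decide) r12_node0 r12_leaf2

theorem r12_node2 :
    Sound r12R [(0, 1, 2), (0, 1, 1), (0, 1, 2), (0, 1, 2), (0, 1, 8)] :=
  sound_node (j := 2) (by decide) r12_node1 r12_leaf3

theorem r12_node3 :
    Sound r12R [(1, 2, 2), (0, 1, 2), (0, 1, 2), (0, 1, 4), (0, 1, 8)] :=
  sound_node (j := 3) (by decide) r12_leaf4 r12_leaf5

theorem r12_node4 :
    Sound r12R [(1, 2, 2), (0, 1, 2), (0, 1, 2), (0, 1, 2), (0, 1, 8)] :=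
  sound_node (j := 3) (by decide) r12_node3 r12_leaf6

theorem r12_node5 :
    Sound r12R [(1, 2, 2), (0, 1, 1), (0, 1, 2), (0, 1, 2), (0, 1, 8)] :=
  sound_node (j := 1) (by decide) r12_node4 r12_leaf7

theorem r12_node6 :
    Sound r12R [(0, 1, 1), (0, 1, 1), (0, 1, 2), (0, 1, 2), (0, 1, 8)] :=
  sound_node (j := 0) (by decide) r12_node2 r12_node5

theorem r12_node7 :
    Sound r12R [(0, 1, 8), (1, 2, 16), (0, 1, 64), (31, 32, 32), (0, 1, 128)] :=
  sound_node (j := 0) (by decide) r12_leaf13 r12_leaf14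

theorem r12_node8 :
    Sound r12R [(0, 1, 8), (1, 2, 16), (0, 1, 64), (15, 16, 16), (0, 1, 128)] :=
  sound_node (j := 3) (by decide) r12_leaf12 r12_node7

theorem r12_node9 :
    Sound r12R [(0, 1, 8), (0, 1, 8), (0, 1, 64), (15, 16, 16), (0, 1, 128)] :=
  sound_node (j := 1) (by decide) r12_leaf11 r12_node8

theorem r12_node10 :
    Sound r12R [(0, 1, 8), (0, 1, 8), (0, 1, 64), (15, 16, 16), (0, 1, 64)] :=
  sound_node (j := 4) (by decide) r12_node9 r12_leaf15

theorem r12_node11 :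
    Sound r12R [(0, 1, 8), (0, 1, 8), (0, 1, 32), (15, 16, 16), (0, 1, 64)] :=
  sound_node (j := 2) (by decide) r12_node10 r12_leaf16

theorem r12_node12 :
    Sound r12R [(0, 1, 4), (0, 1, 8), (0, 1, 32), (15, 16, 16), (0, 1, 64)] :=
  sound_node (j := 0) (by decide) r12_node11 r12_leaf17

theorem r12_node13 :
    Sound r12R [(0, 1, 4), (0, 1, 4), (0, 1, 32), (15, 16, 16), (0, 1, 64)] :=
  sound_node (j := 1) (by decide) r12_node12 r12_leaf18

theorem r12_node14 :
    Sound r12R [(0, 1, 4), (0, 1, 4), (0, 1, 16), (15, 16, 16), (0, 1, 64)] :=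
  sound_node (j := 2) (by decide) r12_node13 r12_leaf19

theorem r12_node15 :
    Sound r12R [(0, 1, 4), (0, 1, 2), (0, 1, 16), (15, 16, 16), (0, 1, 64)] :=
  sound_node (j := 1) (by decide) r12_node14 r12_leaf20

theorem r12_node16 :
    Sound r12R [(0, 1, 4), (0, 1, 2), (0, 1, 16), (7, 8, 8), (0, 1, 64)] :=
  sound_node (j := 3) (by decide) r12_leaf10 r12_node15

theorem r12_node17 :
    Sound r12R [(0, 1, 4), (0, 1, 2), (0, 1, 16), (7, 8, 8), (0, 1, 32)] :=
  sound_node (j := 4) (by decide) r12_node16 r12_leaf21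

theorem r12_node18 :
    Sound r12R [(1, 2, 4), (0, 1, 2), (0, 1, 16), (7, 8, 8), (0, 1, 32)] :=
  sound_node (j := 3) (by decide) r12_leaf22 r12_leaf23

theorem r12_node19 :
    Sound r12R [(0, 1, 2), (0, 1, 2), (0, 1, 16), (7, 8, 8), (0, 1, 32)] :=
  sound_node (j := 0) (by decide) r12_node17 r12_node18

theorem r12_node20 :
    Sound r12R [(0, 1, 2), (0, 1, 2), (0, 1, 8), (7, 8, 8), (0, 1, 32)] :=
  sound_node (j := 2) (by decide) r12_node19 r12_leaf24

theorem r12_node21 :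
    Sound r12R [(0, 1, 2), (0, 1, 2), (0, 1, 8), (3, 4, 4), (0, 1, 32)] :=
  sound_node (j := 3) (by decide) r12_leaf9 r12_node20

theorem r12_node22 :
    Sound r12R [(0, 1, 8), (5, 6, 8), (0, 1, 64), (61, 62, 64), (0, 1, 64)] :=
  sound_node (j := 1) (by decide) r12_leaf30 r12_leaf31

theorem r12_node23 :
    Sound r12R [(0, 1, 8), (2, 3, 4), (0, 1, 64), (61, 62, 64), (0, 1, 64)] :=
  sound_node (j := 1) (by decide) r12_leaf28 r12_node22

theorem r12_node24 :
    Sound r12R [(1, 2, 8), (2, 3, 4), (0, 1, 64), (61, 62, 64), (0, 1, 64)] :=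
  sound_node (j := 1) (by decide) r12_leaf29 r12_leaf32

theorem r12_node25 :
    Sound r12R [(0, 1, 4), (2, 3, 4), (0, 1, 64), (61, 62, 64), (0, 1, 64)] :=
  sound_node (j := 0) (by decide) r12_node23 r12_node24

theorem r12_node26 :
    Sound r12R [(0, 1, 4), (2, 3, 4), (0, 1, 64), (30, 31, 32), (0, 1, 64)] :=
  sound_node (j := 3) (by decide) r12_leaf27 r12_node25

theorem r12_node27 :
    Sound r12R [(0, 1, 4), (2, 3, 4), (0, 1, 64), (30, 31, 32), (0, 1, 32)] :=
  sound_node (j := 4) (by decide) r12_node26 r12_leaf33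

theorem r12_node28 :
    Sound r12R [(0, 1, 4), (2, 3, 4), (0, 1, 32), (30, 31, 32), (0, 1, 32)] :=
  sound_node (j := 2) (by decide) r12_node27 r12_leaf34

theorem r12_node29 :
    Sound r12R [(0, 1, 4), (2, 3, 4), (0, 1, 16), (30, 31, 32), (0, 1, 32)] :=
  sound_node (j := 2) (by decide) r12_node28 r12_leaf35

theorem r12_node30 :
    Sound r12R [(0, 1, 4), (2, 3, 4), (0, 1, 16), (15, 16, 16), (0, 1, 32)] :=
  sound_node (j := 3) (by decide) r12_node29 r12_leaf36

theorem r12_node31 :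
    Sound r12R [(0, 1, 4), (1, 2, 2), (0, 1, 16), (15, 16, 16), (0, 1, 32)] :=
  sound_node (j := 1) (by decide) r12_node30 r12_leaf37

theorem r12_node32 :
    Sound r12R [(1, 2, 4), (2, 3, 4), (0, 1, 32), (15, 16, 16), (0, 1, 32)] :=
  sound_node (j := 3) (by decide) r12_leaf38 r12_leaf39

theorem r12_node33 :
    Sound r12R [(1, 2, 4), (3, 4, 4), (0, 1, 32), (31, 32, 32), (0, 1, 32)] :=
  sound_node (j := 1) (by decide) r12_leaf41 r12_leaf42

theorem r12_node34 :
    Sound r12R [(1, 2, 4), (3, 4, 4), (0, 1, 32), (15, 16, 16), (0, 1, 32)] :=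
  sound_node (j := 3) (by decide) r12_leaf40 r12_node33

theorem r12_node35 :
    Sound r12R [(1, 2, 4), (1, 2, 2), (0, 1, 32), (15, 16, 16), (0, 1, 32)] :=
  sound_node (j := 1) (by decide) r12_node32 r12_node34

theorem r12_node36 :
    Sound r12R [(1, 2, 4), (1, 2, 2), (0, 1, 16), (15, 16, 16), (0, 1, 32)] :=
  sound_node (j := 2) (by decide) r12_node35 r12_leaf43

theorem r12_node37 :
    Sound r12R [(0, 1, 2), (1, 2, 2), (0, 1, 16), (15, 16, 16), (0, 1, 32)] :=
  sound_node (j := 0) (by decide) r12_node31 r12_node36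

theorem r12_node38 :
    Sound r12R [(0, 1, 2), (1, 2, 2), (0, 1, 8), (15, 16, 16), (0, 1, 32)] :=
  sound_node (j := 2) (by decide) r12_node37 r12_leaf44

theorem r12_node39 :
    Sound r12R [(0, 1, 2), (1, 2, 2), (0, 1, 8), (7, 8, 8), (0, 1, 32)] :=
  sound_node (j := 3) (by decide) r12_leaf26 r12_node38

theorem r12_node40 :
    Sound r12R [(0, 1, 2), (1, 2, 2), (0, 1, 8), (3, 4, 4), (0, 1, 32)] :=
  sound_node (j := 3) (by decide) r12_leaf25 r12_node39

theorem r12_node41 :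
    Sound r12R [(0, 1, 2), (0, 1, 1), (0, 1, 8), (3, 4, 4), (0, 1, 32)] :=
  sound_node (j := 1) (by decide) r12_node21 r12_node40

theorem r12_node42 :
    Sound r12R [(0, 1, 2), (0, 1, 1), (0, 1, 8), (3, 4, 4), (0, 1, 16)] :=
  sound_node (j := 4) (by decide) r12_node41 r12_leaf45

theorem r12_node43 :
    Sound r12R [(0, 1, 1), (0, 1, 1), (0, 1, 8), (3, 4, 4), (0, 1, 16)] :=
  sound_node (j := 0) (by decide) r12_node42 r12_leaf46

theorem r12_node44 :
    Sound r12R [(0, 1, 1), (0, 1, 1), (0, 1, 8), (3, 4, 4), (0, 1, 8)] :=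
  sound_node (j := 4) (by decide) r12_node43 r12_leaf47

theorem r12_node45 :
    Sound r12R [(0, 1, 1), (0, 1, 1), (0, 1, 8), (1, 2, 2), (0, 1, 8)] :=
  sound_node (j := 3) (by decide) r12_leaf8 r12_node44

theorem r12_node46 :
    Sound r12R [(0, 1, 1), (0, 1, 1), (0, 1, 4), (1, 2, 2), (0, 1, 8)] :=
  sound_node (j := 2) (by decide) r12_node45 r12_leaf48

theorem r12_node47 :
    Sound r12R [(0, 1, 1), (0, 1, 1), (0, 1, 2), (1, 2, 2), (0, 1, 8)] :=
  sound_node (j := 2) (by decide) r12_node46 r12_leaf49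

theorem r12_node48 :
    Sound r12R [(0, 1, 1), (0, 1, 1), (0, 1, 2), (0, 1, 1), (0, 1, 8)] :=
  sound_node (j := 3) (by decide) r12_node6 r12_node47

theorem r12_node49 :
    Sound r12R [(0, 1, 1), (0, 1, 1), (0, 1, 2), (0, 1, 1), (0, 1, 4)] :=
  sound_node (j := 4) (by decide) r12_node48 r12_leaf50

theorem r12_node50 :
    Sound r12R [(0, 1, 1), (0, 1, 1), (0, 1, 2), (0, 1, 1), (0, 1, 2)] :=
  sound_node (j := 4) (by decide) r12_node49 r12_leaf51

theorem r12_node51 :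
    Sound r12R [(0, 1, 1), (0, 1, 1), (0, 1, 1), (0, 1, 1), (0, 1, 2)] :=
  sound_node (j := 2) (by decide) r12_node50 r12_leaf52

theorem r12_node52 :
    Sound r12R [(0, 1, 1), (0, 1, 1), (0, 1, 1), (0, 1, 1), (0, 1, 1)] :=
  sound_node (j := 4) (by decide) r12_node51 r12_leaf53

theorem r12_sound :
    Sound r12R [(0, 1, 1), (0, 1, 1), (0, 1, 1), (0, 1, 1), (0, 1, 1)] :=
  r12_node52

end Vale.Agent.P100.Calib.LowEnd
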