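import Vale.Agent.P100.Calib.SlabLowEndR12Base

/-!
# Leaves 1 of the cover of root 12
-/

set_option maxRecDepth 100000
-- the heavy checks are definitions, so that they are checked one after another
set_option linter.defProp false

namespace Vale.Agent.P100.Calib.LowEnd

open Pack Band

def r12_leaf0 :
    Sound r12R [(0, 1, 2), (0, 1, 1), (0, 1, 4), (0, 1, 4), (0, 1, 16)] :=
  sound_empty (K := 131) (q := 11) r12_ok (by decide +kernel)

def r12_leaf1 :
    Sound r12R [(0, 1, 2), (0, 1, 1), (0, 1, 4), (0, 1, 4), (1, 2, 16)] :=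
  sound_leaf (K := 215) (L := ⟨(-12163482), 927750, 80889, 2307285, 252188, 427493, 121078, 0, 0, 0⟩) r12_ok (by decide +kernel)

def r12_leaf2 :
    Sound r12R [(0, 1, 2), (0, 1, 1), (0, 1, 4), (1, 2, 4), (0, 1, 8)] :=
  sound_leaf (K := 208) (L := ⟨(-12163482), 453911, 16471, 1538517, 253723, 304312, 72183, 0, 0, 0⟩) r12_ok (by decide +kernel)

def r12_leaf3 :
    Sound r12R [(0, 1, 2), (0, 1, 1), (1, 2, 4), (0, 1, 2), (0, 1, 8)] :=
  sound_leaf (K := 203) (L := ⟨(-11744051), 779974, 66382, 1920033, 236069, 398412, 112066, 0, 0, 0⟩) r12_ok (by decide +kernel)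

def r12_leaf4 :
    Sound r12R [(1, 2, 2), (0, 1, 2), (0, 1, 2), (0, 1, 8), (0, 1, 8)] :=
  sound_empty (K := 131) (q := 11) r12_ok (by decide +kernel)

def r12_leaf5 :
    Sound r12R [(1, 2, 2), (0, 1, 2), (0, 1, 2), (1, 2, 8), (0, 1, 8)] :=
  sound_leaf (K := 215) (L := ⟨(-10066330), 962490, 102560, 2641810, 265471, 498827, 133482, 0, 0, 0⟩) r12_ok (by decide +kernel)

def r12_leaf6 :
    Sound r12R [(1, 2, 2), (0, 1, 2), (0, 1, 2), (1, 2, 4), (0, 1, 8)] :=
  sound_leaf (K := 209) (L := ⟨(-9646899), 345016, 31142, 2268852, 273441, 469961, 127446, 0, 0, 0⟩) r12_ok (by decide +kernel)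

def r12_leaf7 :
    Sound r12R [(1, 2, 2), (1, 2, 2), (0, 1, 2), (0, 1, 2), (0, 1, 8)] :=
  sound_leaf (K := 203) (L := ⟨(-11324621), 409206, 36215, 2016445, 263017, 458843, 126569, 0, 0, 0⟩) r12_ok (by decide +kernel)

def r12_leaf8 :
    Sound r12R [(0, 1, 1), (0, 1, 1), (0, 1, 8), (2, 3, 4), (0, 1, 8)] :=
  sound_leaf (K := 208) (L := ⟨(-13002342), (-278069), (-119517), 1593702, 259088, 418550, 106147, 0, 0, 0⟩) r12_ok (by decide +kernel)

def r12_leaf9 :
    Sound r12R [(0, 1, 2), (0, 1, 2), (0, 1, 8), (6, 7, 8), (0, 1, 32)] :=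
  sound_leaf (K := 239) (L := ⟨(-14260634), (-777895), (-238403), 2469672, 319095, 306499, 118201, 0, 0, 0⟩) r12_ok (by decide +kernel)

def r12_leaf10 :
    Sound r12R [(0, 1, 4), (0, 1, 2), (0, 1, 16), (14, 15, 16), (0, 1, 64)] :=
  sound_leaf (K := 263) (L := ⟨(-15099494), (-1323889), (-376681), 3247582, 337673, 221019, 94426, 0, 0, 0⟩) r12_ok (by decide +kernel)

def r12_leaf11 :
    Sound r12R [(0, 1, 8), (0, 1, 16), (0, 1, 64), (15, 16, 16), (0, 1, 128)] :=
  sound_leaf (K := 306) (L := ⟨(-14680064), (-1429526), (-390979), 4716346, 408702, 87433, 40684, 3859387366922052542066846, 0, 0⟩) r12_ok (by decide +kernel)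

def r12_leaf12 :
    Sound r12R [(0, 1, 8), (1, 2, 16), (0, 1, 64), (30, 31, 32), (0, 1, 128)] :=
  sound_leaf (K := 312) (L := ⟨(-15099494), (-1581437), (-433621), 2071198, 382335, 308064, 138979, 0, 0, 0⟩) r12_ok (by decide +kernel)

def r12_leaf13 :
    Sound r12R [(0, 1, 16), (1, 2, 16), (0, 1, 64), (31, 32, 32), (0, 1, 128)] :=
  sound_leaf (K := 318) (L := ⟨(-15099494), (-1599562), (-439731), 2747983, 393449, 304961, 136505, 12156845838617077998075028, 0, 0⟩) r12_ok (by decide +kernel)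

def r12_leaf14 :
    Sound r12R [(1, 2, 16), (1, 2, 16), (0, 1, 64), (31, 32, 32), (0, 1, 128)] :=
  sound_leaf (K := 318) (L := ⟨(-14680064), (-1496248), (-407906), 2690985, 402193, 308654, 131149, 12427169283227145398885995, 0, 0⟩) r12_ok (by decide +kernel)

def r12_leaf15 :
    Sound r12R [(0, 1, 8), (0, 1, 8), (0, 1, 64), (15, 16, 16), (1, 2, 128)] :=
  sound_leaf (K := 300) (L := ⟨(-15099494), (-1540680), (-423215), 2775914, 365204, 308178, 137675, 0, 0, 0⟩) r12_ok (by decide +kernel)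

def r12_leaf16 :
    Sound r12R [(0, 1, 8), (0, 1, 8), (1, 2, 64), (15, 16, 16), (0, 1, 64)] :=
  sound_leaf (K := 294) (L := ⟨(-15099494), (-1494428), (-409755), 2056617, 363842, 307313, 100840, 0, 0, 0⟩) r12_ok (by decide +kernel)

def r12_leaf17 :
    Sound r12R [(1, 2, 8), (0, 1, 8), (0, 1, 32), (15, 16, 16), (0, 1, 64)] :=
  sound_leaf (K := 288) (L := ⟨(-14260634), (-1351277), (-363306), (-561040), 385646, 233962, 48122, 4774380470923846398389139, 0, 0⟩) r12_ok (by decide +kernel)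

def r12_leaf18 :
    Sound r12R [(0, 1, 4), (1, 2, 8), (0, 1, 32), (15, 16, 16), (0, 1, 64)] :=
  sound_leaf (K := 282) (L := ⟨(-15099494), (-1574392), (-433258), 620825, 355073, 223560, 57452, 3461442179674451411915850, 0, 0⟩) r12_ok (by decide +kernel)

def r12_leaf19 :
    Sound r12R [(0, 1, 4), (0, 1, 4), (1, 2, 32), (15, 16, 16), (0, 1, 64)] :=
  sound_leaf (K := 276) (L := ⟨(-15099494), (-1445721), (-394962), 2651718, 339713, 303076, 129789, 0, 0, 0⟩) r12_ok (by decide +kernel)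

def r12_leaf20 :
    Sound r12R [(0, 1, 4), (1, 2, 4), (0, 1, 16), (15, 16, 16), (0, 1, 64)] :=
  sound_leaf (K := 269) (L := ⟨(-15099494), (-1408966), (-403858), 1798383, 337731, 183106, 56598, 4345246886476780983388810, 0, 0⟩) r12_ok (by decide +kernel)

def r12_leaf21 :
    Sound r12R [(0, 1, 4), (0, 1, 2), (0, 1, 16), (7, 8, 8), (1, 2, 64)] :=
  sound_leaf (K := 257) (L := ⟨(-15099494), (-1270074), (-366162), 2501338, 314587, 217146, 121953, 0, 0, 0⟩) r12_ok (by decide +kernel)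

def r12_leaf22 :
    Sound r12R [(1, 2, 4), (0, 1, 2), (0, 1, 16), (14, 15, 16), (0, 1, 32)] :=
  sound_leaf (K := 258) (L := ⟨(-14260634), (-1243892), (-337168), 2485991, 325903, 312069, 164858, 0, 0, 0⟩) r12_ok (by decide +kernel)

def r12_leaf23 :
    Sound r12R [(1, 2, 4), (0, 1, 2), (0, 1, 16), (15, 16, 16), (0, 1, 32)] :=
  sound_leaf (K := 257) (L := ⟨(-13736346), (-1305510), (-367899), 3516365, 331950, 100062, 45275, 3383632374266477192818666, 0, 0⟩) r12_ok (by decide +kernel)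

def r12_leaf24 :
    Sound r12R [(0, 1, 2), (0, 1, 2), (1, 2, 16), (7, 8, 8), (0, 1, 32)] :=
  sound_leaf (K := 245) (L := ⟨(-14680064), (-1126515), (-311856), 2383011, 302283, 295524, 155869, 0, 0, 0⟩) r12_ok (by decide +kernel)

def r12_leaf25 :
    Sound r12R [(0, 1, 2), (1, 2, 2), (0, 1, 8), (6, 7, 8), (0, 1, 32)] :=
  sound_leaf (K := 239) (L := ⟨(-14680064), (-855504), (-273180), 2715606, 277496, 379052, 148834, 0, 0, 0⟩) r12_ok (by decide +kernel)

def r12_leaf26 :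
    Sound r12R [(0, 1, 2), (1, 2, 2), (0, 1, 8), (14, 15, 16), (0, 1, 32)] :=
  sound_leaf (K := 245) (L := ⟨(-15518925), (-1207653), (-364726), 1630297, 269976, 274293, 84459, 0, 0, 0⟩) r12_ok (by decide +kernel)

end Vale.Agent.P100.Calib.LowEnd
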