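import Vale.Agent.P100.Calib.SlabLowEndR12Data

/-!
# The slots of root 12 are within their tolerances
-/

set_option maxRecDepth 100000
-- the heavy checks are definitions, so that they are checked one after another
set_option linter.defProp false

namespace Vale.Agent.P100.Calib.LowEnd

open Pack Band

def r12_slot0 : checkSlot r12B r12P.sig 56 r12D0 r12T0 = true := by decide +kernel

def r12_slot1 : checkSlot r12B r12P.sig 56 r12D1 r12T1 = true := by decide +kernel

def r12_slot2 : checkSlot r12B r12P.sig 48 r12D2 r12T2 = true := by decide +kernel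

def r12_slot3 : checkSlot r12B r12P.sig 56 r12D3 r12T3 = true := by decide +kernel

def r12_slot4 : checkSlot r12B r12P.sig 56 r12D4 r12T4 = true := by decide +kernel

def r12_slot5 : checkSlot r12B r12P.sig 56 r12D5 r12T5 = true := by decide +kernel

def r12_slot6 : checkSlot r12B r12P.sig 56 r12D6 r12T6 = true := by decide +kernel

def r12_slot7 : checkSlot r12B r12P.sig 56 r12D7 r12T7 = true := by decide +kernel

def r12_slot8 : checkSlot r12B r12P.sig 56 r12D8 r12T8 = true := by decide +kernel

def r12_slot9 : checkSlot r12B r12P.sig 56 r12D9 r12T9 = true := by decide +kernel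

def r12_slot10 : checkSlot r12B r12P.sig 56 r12D10 r12T10 = true := by decide +kernel

def r12_slot11 : checkSlot r12B r12P.sig 56 r12D11 r12T11 = true := by decide +kernel

def r12_slot12 : checkSlot r12B r12P.sig 56 r12D12 r12T12 = true := by decide +kernel

theorem r12_near {x y : ℕ → ℝ} (hx : InBox r12B x) (hc : Coord r12P.sig x y) :
    Near r12R y (valueAt r12L x) :=
  near_root rfl (fun q hq => by
    simp only [r12L, List.length_cons, List.length_nil] at hq
    interval_cases q
    · exact ⟨_, r12_slot0⟩
    · exact ⟨_, r12_slot1⟩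
    · exact ⟨_, r12_slot2⟩
    · exact ⟨_, r12_slot3⟩
    · exact ⟨_, r12_slot4⟩
    · exact ⟨_, r12_slot5⟩
    · exact ⟨_, r12_slot6⟩
    · exact ⟨_, r12_slot7⟩
    · exact ⟨_, r12_slot8⟩
    · exact ⟨_, r12_slot9⟩
    · exact ⟨_, r12_slot10⟩
    · exact ⟨_, r12_slot11⟩
    · exact ⟨_, r12_slot12⟩
  ) hx hc

end Vale.Agent.P100.Calib.LowEnd
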