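import Vale.Agent.P100.Calib.SlabLowEndR13Data

/-!
# The cover of root 13
-/

set_option maxRecDepth 100000
-- the heavy checks are definitions, so that they are checked one after another
set_option linter.defProp false

namespace Vale.Agent.P100.Calib.LowEnd

open Pack Band

theorem r13_ok : rootOk r13R = true := by decide +kernel

def r13_leaf0 :
    Sound r13R [(0, 1, 1), (0, 1, 1), (0, 1, 1), (0, 1, 4), (0, 1, 16)] :=
  sound_empty (K := 114) (q := 11) r13_ok (by decide +kernel)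

def r13_leaf1 :
    Sound r13R [(0, 1, 1), (0, 1, 1), (0, 1, 1), (1, 2, 4), (0, 1, 16)] :=
  sound_leaf (K := 198) (L := ⟨(-7235174), 16976, 86396, 2309687, 326225, 599941, 74307, 0, 0, 0⟩) r13_ok (by decide +kernel)

def r13_leaf2 :
    Sound r13R [(0, 1, 1), (0, 1, 1), (0, 1, 1), (0, 1, 2), (1, 2, 16)] :=
  sound_leaf (K := 192) (L := ⟨(-4194304), 127081, 116383, 613424, 298561, 597125, 92196, 0, 0, 0⟩) r13_ok (by decide +kernel)

def r13_leaf3 :
    Sound r13R [(0, 1, 1), (0, 1, 1), (0, 1, 1), (2, 3, 4), (0, 1, 8)] :=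
  sound_leaf (K := 192) (L := ⟨(-8388608), (-165826), 71557, 1686395, 280728, 485670, 96554, 0, 0, 0⟩) r13_ok (by decide +kernel)

def r13_leaf4 :
    Sound r13R [(0, 1, 4), (0, 1, 1), (0, 1, 4), (6, 7, 8), (0, 1, 8)] :=
  sound_leaf (K := 222) (L := ⟨(-10905190), (-264468), (-83294), 1452261, 249793, 415253, 122501, 0, 0, 0⟩) r13_ok (by decide +kernel)

def r13_leaf5 :
    Sound r13R [(0, 1, 4), (0, 1, 1), (0, 1, 8), (14, 15, 16), (0, 1, 8)] :=
  sound_leaf (K := 234) (L := ⟨(-12163482), (-568975), (-160438), 1277312, 247418, 404300, 92784, 0, 0, 0⟩) r13_ok (by decide +kernel)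

def r13_leaf6 :
    Sound r13R [(0, 1, 4), (0, 1, 1), (0, 1, 8), (15, 16, 16), (0, 1, 16)] :=
  sound_leaf (K := 240) (L := ⟨(-12137267), (-1034947), (-236723), (-52429), 281781, 314009, 70352, 921344739811758137274741, 0, 0⟩) r13_ok (by decide +kernel)

def r13_leaf7 :
    Sound r13R [(0, 1, 4), (0, 1, 1), (0, 1, 8), (15, 16, 16), (1, 2, 16)] :=
  sound_empty (K := 156) (q := 12) r13_ok (by decide +kernel)

def r13_leaf8 :
    Sound r13R [(0, 1, 4), (0, 1, 1), (1, 2, 8), (7, 8, 8), (0, 1, 8)] :=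
  sound_leaf (K := 228) (L := ⟨(-12582912), (-576516), (-115211), 1514656, 235244, 383886, 121738, 0, 0, 0⟩) r13_ok (by decide +kernel)

def r13_leaf9 :
    Sound r13R [(1, 2, 4), (0, 1, 1), (0, 1, 4), (3, 4, 4), (0, 1, 8)] :=
  sound_leaf (K := 216) (L := ⟨(-11324621), (-597684), (-65110), 1147607, 274145, 327684, 98008, 0, 0, 0⟩) r13_ok (by decide +kernel)

def r13_leaf10 :
    Sound r13R [(0, 1, 2), (0, 1, 1), (1, 2, 4), (3, 4, 4), (0, 1, 8)] :=
  sound_leaf (K := 210) (L := ⟨(-11324621), (-325583), (-46864), 1262306, 240871, 391594, 119718, 0, 0, 0⟩) r13_ok (by decide +kernel)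

def r13_leaf11 :
    Sound r13R [(1, 2, 2), (0, 1, 1), (0, 1, 2), (3, 4, 4), (0, 1, 8)] :=
  sound_leaf (K := 204) (L := ⟨(-8808038), (-416896), (-12657), 741292, 352792, 494433, 104050, 0, 0, 0⟩) r13_ok (by decide +kernel)

def r13_leaf12 :
    Sound r13R [(0, 1, 1), (0, 1, 1), (1, 2, 2), (3, 4, 4), (0, 1, 8)] :=
  sound_leaf (K := 198) (L := ⟨(-15518925), (-296415), 18066, 1515820, 246367, 393656, 127943, 0, 0, 0⟩) r13_ok (by decide +kernel)

def r13_leaf13 :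
    Sound r13R [(0, 1, 1), (0, 1, 1), (0, 1, 1), (0, 1, 1), (1, 2, 8)] :=
  sound_leaf (K := 179) (L := ⟨(-5452595), 29199, 66410, 206647, 232004, 429604, 83495, 0, 0, 0⟩) r13_ok (by decide +kernel)

def r13_leaf14 :
    Sound r13R [(0, 1, 1), (0, 1, 1), (0, 1, 1), (0, 1, 1), (1, 2, 4)] :=
  sound_leaf (K := 173) (L := ⟨(-2516582), 36780, 17411, 36157, 178188, 346106, 100563, 0, 0, 0⟩) r13_ok (by decide +kernel)

def r13_leaf15 :
    Sound r13R [(0, 1, 1), (0, 1, 1), (0, 1, 1), (0, 1, 1), (2, 3, 4)] :=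
  sound_leaf (K := 173) (L := ⟨14543749, 53870, (-47276), (-999351), 154112, 284761, 94364, 0, 0, 0⟩) r13_ok (by decide +kernel)

def r13_leaf16 :
    Sound r13R [(0, 1, 2), (0, 1, 1), (0, 1, 1), (0, 1, 1), (3, 4, 4)] :=
  sound_empty (K := 96) (q := 12) r13_ok (by decide +kernel)

def r13_leaf17 :
    Sound r13R [(1, 2, 2), (0, 1, 1), (0, 1, 1), (0, 1, 2), (3, 4, 4)] :=
  sound_leaf (K := 185) (L := ⟨30230446, 92808, (-49232), (-1755545), 183290, 319197, 104254, 0, 0, 0⟩) r13_ok (by decide +kernel)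

def r13_leaf18 :
    Sound r13R [(1, 2, 2), (0, 1, 1), (0, 1, 1), (1, 2, 2), (3, 4, 4)] :=
  sound_leaf (K := 185) (L := ⟨43327160, 9481, (-57338), (-1417494), 159995, 227150, 102422, 0, 0, 0⟩) r13_ok (by decide +kernel)

theorem r13_node0 :
    Sound r13R [(0, 1, 1), (0, 1, 1), (0, 1, 1), (0, 1, 2), (0, 1, 16)] :=
  sound_node (j := 3) (by decide) r13_leaf0 r13_leaf1

theorem r13_node1 :
    Sound r13R [(0, 1, 1), (0, 1, 1), (0, 1, 1), (0, 1, 2), (0, 1, 8)] :=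
  sound_node (j := 4) (by decide) r13_node0 r13_leaf2

theorem r13_node2 :
    Sound r13R [(0, 1, 4), (0, 1, 1), (0, 1, 8), (15, 16, 16), (0, 1, 8)] :=
  sound_node (j := 4) (by decide) r13_leaf6 r13_leaf7

theorem r13_node3 :
    Sound r13R [(0, 1, 4), (0, 1, 1), (0, 1, 8), (7, 8, 8), (0, 1, 8)] :=
  sound_node (j := 3) (by decide) r13_leaf5 r13_node2

theorem r13_node4 :
    Sound r13R [(0, 1, 4), (0, 1, 1), (0, 1, 4), (7, 8, 8), (0, 1, 8)] :=
  sound_node (j := 2) (by decide) r13_node3 r13_leaf8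

theorem r13_node5 :
    Sound r13R [(0, 1, 4), (0, 1, 1), (0, 1, 4), (3, 4, 4), (0, 1, 8)] :=
  sound_node (j := 3) (by decide) r13_leaf4 r13_node4

theorem r13_node6 :
    Sound r13R [(0, 1, 2), (0, 1, 1), (0, 1, 4), (3, 4, 4), (0, 1, 8)] :=
  sound_node (j := 0) (by decide) r13_node5 r13_leaf9

theorem r13_node7 :
    Sound r13R [(0, 1, 2), (0, 1, 1), (0, 1, 2), (3, 4, 4), (0, 1, 8)] :=
  sound_node (j := 2) (by decide) r13_node6 r13_leaf10

theorem r13_node8 :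
    Sound r13R [(0, 1, 1), (0, 1, 1), (0, 1, 2), (3, 4, 4), (0, 1, 8)] :=
  sound_node (j := 0) (by decide) r13_node7 r13_leaf11

theorem r13_node9 :
    Sound r13R [(0, 1, 1), (0, 1, 1), (0, 1, 1), (3, 4, 4), (0, 1, 8)] :=
  sound_node (j := 2) (by decide) r13_node8 r13_leaf12

theorem r13_node10 :
    Sound r13R [(0, 1, 1), (0, 1, 1), (0, 1, 1), (1, 2, 2), (0, 1, 8)] :=
  sound_node (j := 3) (by decide) r13_leaf3 r13_node9

theorem r13_node11 :
    Sound r13R [(0, 1, 1), (0, 1, 1), (0, 1, 1), (0, 1, 1), (0, 1, 8)] :=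
  sound_node (j := 3) (by decide) r13_node1 r13_node10

theorem r13_node12 :
    Sound r13R [(0, 1, 1), (0, 1, 1), (0, 1, 1), (0, 1, 1), (0, 1, 4)] :=
  sound_node (j := 4) (by decide) r13_node11 r13_leaf13

theorem r13_node13 :
    Sound r13R [(0, 1, 1), (0, 1, 1), (0, 1, 1), (0, 1, 1), (0, 1, 2)] :=
  sound_node (j := 4) (by decide) r13_node12 r13_leaf14

theorem r13_node14 :
    Sound r13R [(1, 2, 2), (0, 1, 1), (0, 1, 1), (0, 1, 1), (3, 4, 4)] :=
  sound_node (j := 3) (by decide) r13_leaf17 r13_leaf18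

theorem r13_node15 :
    Sound r13R [(0, 1, 1), (0, 1, 1), (0, 1, 1), (0, 1, 1), (3, 4, 4)] :=
  sound_node (j := 0) (by decide) r13_leaf16 r13_node14

theorem r13_node16 :
    Sound r13R [(0, 1, 1), (0, 1, 1), (0, 1, 1), (0, 1, 1), (1, 2, 2)] :=
  sound_node (j := 4) (by decide) r13_leaf15 r13_node15

theorem r13_node17 :
    Sound r13R [(0, 1, 1), (0, 1, 1), (0, 1, 1), (0, 1, 1), (0, 1, 1)] :=
  sound_node (j := 4) (by decide) r13_node13 r13_node16

theorem r13_sound :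
    Sound r13R [(0, 1, 1), (0, 1, 1), (0, 1, 1), (0, 1, 1), (0, 1, 1)] :=
  r13_node17

end Vale.Agent.P100.Calib.LowEnd
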