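import Vale.Agent.P100.Calib.SlabLowEndR13Data

/-!
# The slots of root 13 are within their tolerances
-/

set_option maxRecDepth 100000
-- the heavy checks are definitions, so that they are checked one after another
set_option linter.defProp false

namespace Vale.Agent.P100.Calib.LowEnd

open Pack Band

def r13_slot0 : checkSlot r13B r13P.sig 56 r13D0 r13T0 = true := by decide +kernel

def r13_slot1 : checkSlot r13B r13P.sig 56 r13D1 r13T1 = true := by decide +kernel

def r13_slot2 : checkSlot r13B r13P.sig 48 r13D2 r13T2 = true := by decide +kernel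

def r13_slot3 : checkSlot r13B r13P.sig 56 r13D3 r13T3 = true := by decide +kernel

def r13_slot4 : checkSlot r13B r13P.sig 56 r13D4 r13T4 = true := by decide +kernel

def r13_slot5 : checkSlot r13B r13P.sig 56 r13D5 r13T5 = true := by decide +kernel

def r13_slot6 : checkSlot r13B r13P.sig 56 r13D6 r13T6 = true := by decide +kernel

def r13_slot7 : checkSlot r13B r13P.sig 56 r13D7 r13T7 = true := by decide +kernel

def r13_slot8 : checkSlot r13B r13P.sig 56 r13D8 r13T8 = true := by decide +kernel

def r13_slot9 : checkSlot r13B r13P.sig 56 r13D9 r13T9 = true := by decide +kernel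

def r13_slot10 : checkSlot r13B r13P.sig 56 r13D10 r13T10 = true := by decide +kernel

def r13_slot11 : checkSlot r13B r13P.sig 56 r13D11 r13T11 = true := by decide +kernel

def r13_slot12 : checkSlot r13B r13P.sig 56 r13D12 r13T12 = true := by decide +kernel

theorem r13_near {x y : ℕ → ℝ} (hx : InBox r13B x) (hc : Coord r13P.sig x y) :
    Near r13R y (valueAt r13L x) :=
  near_root rfl (fun q hq => by
    simp only [r13L, List.length_cons, List.length_nil] at hq
    interval_cases q
    · exact ⟨_, r13_slot0⟩
    · exact ⟨_, r13_slot1⟩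
    · exact ⟨_, r13_slot2⟩
    · exact ⟨_, r13_slot3⟩
    · exact ⟨_, r13_slot4⟩
    · exact ⟨_, r13_slot5⟩
    · exact ⟨_, r13_slot6⟩
    · exact ⟨_, r13_slot7⟩
    · exact ⟨_, r13_slot8⟩
    · exact ⟨_, r13_slot9⟩
    · exact ⟨_, r13_slot10⟩
    · exact ⟨_, r13_slot11⟩
    · exact ⟨_, r13_slot12⟩
  ) hx hc

end Vale.Agent.P100.Calib.LowEnd
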