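import Vale.Agent.P100.Calib.SlabLowEndR14Data

/-!
# The cover of root 14
-/

set_option maxRecDepth 100000
-- the heavy checks are definitions, so that they are checked one after another
set_option linter.defProp false

namespace Vale.Agent.P100.Calib.LowEnd

open Pack Band

theorem r14_ok : rootOk r14R = true := by decide +kernel

def r14_leaf0 :
    Sound r14R [(0, 1, 1), (0, 1, 1), (0, 1, 1), (0, 1, 2), (0, 1, 2)] :=
  sound_leaf (K := 172) (L := ⟨(-11744051), 292734, 19619, 1332612, 157227, 325437, 77198, 0, 0, 0⟩) r14_ok (by decide +kernel)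

def r14_leaf1 :
    Sound r14R [(0, 1, 1), (0, 1, 1), (0, 1, 2), (2, 3, 4), (0, 1, 2)] :=
  sound_leaf (K := 184) (L := ⟨(-15518925), (-117746), (-59823), 1575621, 151602, 294284, 108802, 0, 0, 0⟩) r14_ok (by decide +kernel)

def r14_leaf2 :
    Sound r14R [(0, 1, 1), (0, 1, 1), (0, 1, 8), (6, 7, 8), (0, 1, 8)] :=
  sound_leaf (K := 215) (L := ⟨(-14680064), (-761091), (-298625), 2064838, 211945, 351735, 135968, 0, 0, 0⟩) r14_ok (by decide +kernel)

def r14_leaf3 :
    Sound r14R [(0, 1, 1), (0, 1, 1), (0, 1, 8), (14, 15, 16), (0, 1, 8)] :=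
  sound_leaf (K := 221) (L := ⟨(-15099494), (-1113297), (-353181), 1590422, 211362, 339983, 99904, 0, 0, 0⟩) r14_ok (by decide +kernel)

def r14_leaf4 :
    Sound r14R [(0, 1, 2), (0, 1, 2), (0, 1, 16), (30, 31, 32), (0, 1, 16)] :=
  sound_leaf (K := 251) (L := ⟨(-15518925), (-1147835), (-374196), 1362470, 236433, 252458, 103521, 0, 0, 0⟩) r14_ok (by decide +kernel)

def r14_leaf5 :
    Sound r14R [(0, 1, 2), (0, 1, 2), (0, 1, 32), (31, 32, 32), (0, 1, 32)] :=
  sound_leaf (K := 264) (L := ⟨(-15518925), (-1364614), (-454341), 3254643, 258620, 130996, 54513, 0, 0, 0⟩) r14_ok (by decide +kernel)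

def r14_leaf6 :
    Sound r14R [(0, 1, 2), (0, 1, 2), (0, 1, 32), (31, 32, 32), (1, 2, 32)] :=
  sound_empty (K := 180) (q := 11) r14_ok (by decide +kernel)

def r14_leaf7 :
    Sound r14R [(0, 1, 2), (0, 1, 2), (1, 2, 32), (31, 32, 32), (0, 1, 16)] :=
  sound_leaf (K := 258) (L := ⟨(-15518925), (-1154365), (-374908), 1784711, 235314, 248821, 101789, 0, 0, 0⟩) r14_ok (by decide +kernel)

def r14_leaf8 :
    Sound r14R [(0, 1, 2), (1, 2, 2), (0, 1, 16), (30, 31, 32), (0, 1, 16)] :=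
  sound_leaf (K := 251) (L := ⟨(-15518925), (-1147448), (-386022), 1236493, 225770, 243117, 100648, 0, 0, 0⟩) r14_ok (by decide +kernel)

def r14_leaf9 :
    Sound r14R [(0, 1, 2), (1, 2, 2), (0, 1, 16), (31, 32, 32), (0, 1, 16)] :=
  sound_leaf (K := 251) (L := ⟨(-15387853), (-1201165), (-398244), (-236958), 227149, 174856, 46249, 1152437461097879540791667, 0, 0⟩) r14_ok (by decide +kernel)

def r14_leaf10 :
    Sound r14R [(0, 1, 2), (0, 1, 1), (1, 2, 16), (15, 16, 16), (0, 1, 16)] :=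
  sound_leaf (K := 239) (L := ⟨(-14680064), (-954750), (-317368), 1957099, 230399, 323908, 128062, 0, 0, 0⟩) r14_ok (by decide +kernel)

def r14_leaf11 :
    Sound r14R [(0, 1, 2), (0, 1, 1), (0, 1, 8), (15, 16, 16), (1, 2, 16)] :=
  sound_leaf (K := 233) (L := ⟨(-10485760), (-500688), (-203996), 1242610, 222459, 305867, 109550, 0, 0, 0⟩) r14_ok (by decide +kernel)

def r14_leaf12 :
    Sound r14R [(1, 2, 2), (0, 1, 1), (0, 1, 8), (15, 16, 16), (0, 1, 8)] :=
  sound_leaf (K := 227) (L := ⟨(-13002342), (-1028592), (-304678), 977440, 237054, 193195, 71800, 0, 0, 0⟩) r14_ok (by decide +kernel)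

def r14_leaf13 :
    Sound r14R [(0, 1, 1), (0, 1, 1), (1, 2, 8), (3, 4, 4), (0, 1, 8)] :=
  sound_leaf (K := 209) (L := ⟨(-13421773), (-627905), (-191353), 1663203, 209460, 329412, 123040, 0, 0, 0⟩) r14_ok (by decide +kernel)

def r14_leaf14 :
    Sound r14R [(0, 1, 1), (0, 1, 1), (0, 1, 4), (3, 4, 4), (1, 2, 8)] :=
  sound_leaf (K := 203) (L := ⟨(-6710886), (-226380), (-122210), 663426, 194967, 293988, 103498, 0, 0, 0⟩) r14_ok (by decide +kernel)

def r14_leaf15 :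
    Sound r14R [(0, 1, 1), (0, 1, 1), (0, 1, 4), (3, 4, 4), (1, 2, 4)] :=
  sound_leaf (K := 196) (L := ⟨(-3355443), (-150184), (-100161), 247303, 147344, 251513, 94610, 0, 0, 0⟩) r14_ok (by decide +kernel)

def r14_leaf16 :
    Sound r14R [(0, 1, 1), (0, 1, 1), (1, 2, 4), (3, 4, 4), (0, 1, 2)] :=
  sound_leaf (K := 190) (L := ⟨(-13841203), (-226349), (-104375), 930486, 148897, 263010, 101498, 0, 0, 0⟩) r14_ok (by decide +kernel)

def r14_leaf17 :
    Sound r14R [(0, 1, 1), (0, 1, 1), (1, 2, 2), (1, 2, 2), (0, 1, 2)] :=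
  sound_leaf (K := 178) (L := ⟨(-8388608), (-96514), (-18992), 462230, 149729, 255342, 94424, 0, 0, 0⟩) r14_ok (by decide +kernel)

def r14_leaf18 :
    Sound r14R [(0, 1, 1), (0, 1, 1), (0, 1, 1), (0, 1, 1), (1, 2, 2)] :=
  sound_leaf (K := 166) (L := ⟨11356078, 147747, (-95726), (-616904), 121028, 218368, 86257, 0, 0, 0⟩) r14_ok (by decide +kernel)

theorem r14_node0 :
    Sound r14R [(0, 1, 2), (0, 1, 2), (0, 1, 32), (31, 32, 32), (0, 1, 16)] :=
  sound_node (j := 4) (by decide) r14_leaf5 r14_leaf6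

theorem r14_node1 :
    Sound r14R [(0, 1, 2), (0, 1, 2), (0, 1, 16), (31, 32, 32), (0, 1, 16)] :=
  sound_node (j := 2) (by decide) r14_node0 r14_leaf7

theorem r14_node2 :
    Sound r14R [(0, 1, 2), (0, 1, 2), (0, 1, 16), (15, 16, 16), (0, 1, 16)] :=
  sound_node (j := 3) (by decide) r14_leaf4 r14_node1

theorem r14_node3 :
    Sound r14R [(0, 1, 2), (1, 2, 2), (0, 1, 16), (15, 16, 16), (0, 1, 16)] :=
  sound_node (j := 3) (by decide) r14_leaf8 r14_leaf9

theorem r14_node4 :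
    Sound r14R [(0, 1, 2), (0, 1, 1), (0, 1, 16), (15, 16, 16), (0, 1, 16)] :=
  sound_node (j := 1) (by decide) r14_node2 r14_node3

theorem r14_node5 :
    Sound r14R [(0, 1, 2), (0, 1, 1), (0, 1, 8), (15, 16, 16), (0, 1, 16)] :=
  sound_node (j := 2) (by decide) r14_node4 r14_leaf10

theorem r14_node6 :
    Sound r14R [(0, 1, 2), (0, 1, 1), (0, 1, 8), (15, 16, 16), (0, 1, 8)] :=
  sound_node (j := 4) (by decide) r14_node5 r14_leaf11

theorem r14_node7 :
    Sound r14R [(0, 1, 1), (0, 1, 1), (0, 1, 8), (15, 16, 16), (0, 1, 8)] :=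
  sound_node (j := 0) (by decide) r14_node6 r14_leaf12

theorem r14_node8 :
    Sound r14R [(0, 1, 1), (0, 1, 1), (0, 1, 8), (7, 8, 8), (0, 1, 8)] :=
  sound_node (j := 3) (by decide) r14_leaf3 r14_node7

theorem r14_node9 :
    Sound r14R [(0, 1, 1), (0, 1, 1), (0, 1, 8), (3, 4, 4), (0, 1, 8)] :=
  sound_node (j := 3) (by decide) r14_leaf2 r14_node8

theorem r14_node10 :
    Sound r14R [(0, 1, 1), (0, 1, 1), (0, 1, 4), (3, 4, 4), (0, 1, 8)] :=
  sound_node (j := 2) (by decide) r14_node9 r14_leaf13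

theorem r14_node11 :
    Sound r14R [(0, 1, 1), (0, 1, 1), (0, 1, 4), (3, 4, 4), (0, 1, 4)] :=
  sound_node (j := 4) (by decide) r14_node10 r14_leaf14

theorem r14_node12 :
    Sound r14R [(0, 1, 1), (0, 1, 1), (0, 1, 4), (3, 4, 4), (0, 1, 2)] :=
  sound_node (j := 4) (by decide) r14_node11 r14_leaf15

theorem r14_node13 :
    Sound r14R [(0, 1, 1), (0, 1, 1), (0, 1, 2), (3, 4, 4), (0, 1, 2)] :=
  sound_node (j := 2) (by decide) r14_node12 r14_leaf16

theorem r14_node14 :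
    Sound r14R [(0, 1, 1), (0, 1, 1), (0, 1, 2), (1, 2, 2), (0, 1, 2)] :=
  sound_node (j := 3) (by decide) r14_leaf1 r14_node13

theorem r14_node15 :
    Sound r14R [(0, 1, 1), (0, 1, 1), (0, 1, 1), (1, 2, 2), (0, 1, 2)] :=
  sound_node (j := 2) (by decide) r14_node14 r14_leaf17

theorem r14_node16 :
    Sound r14R [(0, 1, 1), (0, 1, 1), (0, 1, 1), (0, 1, 1), (0, 1, 2)] :=
  sound_node (j := 3) (by decide) r14_leaf0 r14_node15

theorem r14_node17 :
    Sound r14R [(0, 1, 1), (0, 1, 1), (0, 1, 1), (0, 1, 1), (0, 1, 1)] :=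
  sound_node (j := 4) (by decide) r14_node16 r14_leaf18

theorem r14_sound :
    Sound r14R [(0, 1, 1), (0, 1, 1), (0, 1, 1), (0, 1, 1), (0, 1, 1)] :=
  r14_node17

end Vale.Agent.P100.Calib.LowEnd
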