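import Vale.Agent.P100.Calib.SlabLowEndR14Data

/-!
# The slots of root 14 are within their tolerances
-/

set_option maxRecDepth 100000
-- the heavy checks are definitions, so that they are checked one after another
set_option linter.defProp false

namespace Vale.Agent.P100.Calib.LowEnd

open Pack Band

def r14_slot0 : checkSlot r14B r14P.sig 56 r14D0 r14T0 = true := by decide +kernel

def r14_slot1 : checkSlot r14B r14P.sig 56 r14D1 r14T1 = true := by decide +kernel

def r14_slot2 : checkSlot r14B r14P.sig 56 r14D2 r14T2 = true := by decide +kernel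

def r14_slot3 : checkSlot r14B r14P.sig 56 r14D3 r14T3 = true := by decide +kernel

def r14_slot4 : checkSlot r14B r14P.sig 56 r14D4 r14T4 = true := by decide +kernel

def r14_slot5 : checkSlot r14B r14P.sig 56 r14D5 r14T5 = true := by decide +kernel

def r14_slot6 : checkSlot r14B r14P.sig 56 r14D6 r14T6 = true := by decide +kernel

def r14_slot7 : checkSlot r14B r14P.sig 56 r14D7 r14T7 = true := by decide +kernel

def r14_slot8 : checkSlot r14B r14P.sig 56 r14D8 r14T8 = true := by decide +kernel

def r14_slot9 : checkSlot r14B r14P.sig 56 r14D9 r14T9 = true := by decide +kernel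

def r14_slot10 : checkSlot r14B r14P.sig 56 r14D10 r14T10 = true := by decide +kernel

def r14_slot11 : checkSlot r14B r14P.sig 56 r14D11 r14T11 = true := by decide +kernel

theorem r14_near {x y : ℕ → ℝ} (hx : InBox r14B x) (hc : Coord r14P.sig x y) :
    Near r14R y (valueAt r14L x) :=
  near_root rfl (fun q hq => by
    simp only [r14L, List.length_cons, List.length_nil] at hq
    interval_cases q
    · exact ⟨_, r14_slot0⟩
    · exact ⟨_, r14_slot1⟩
    · exact ⟨_, r14_slot2⟩
    · exact ⟨_, r14_slot3⟩
    · exact ⟨_, r14_slot4⟩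
    · exact ⟨_, r14_slot5⟩
    · exact ⟨_, r14_slot6⟩
    · exact ⟨_, r14_slot7⟩
    · exact ⟨_, r14_slot8⟩
    · exact ⟨_, r14_slot9⟩
    · exact ⟨_, r14_slot10⟩
    · exact ⟨_, r14_slot11⟩
  ) hx hc

end Vale.Agent.P100.Calib.LowEnd
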