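import Vale.Agent.P100.Calib.SlabLowEndR15Data

/-!
# The cover of root 15
-/

set_option maxRecDepth 100000
-- the heavy checks are definitions, so that they are checked one after another
set_option linter.defProp false

namespace Vale.Agent.P100.Calib.LowEnd

open Pack Band

theorem r15_ok : rootOk r15R = true := by decide +kernel

def r15_leaf0 :
    Sound r15R [(0, 1, 1), (0, 1, 1), (0, 1, 2), (0, 1, 2), (0, 1, 32)] :=
  sound_leaf (K := 204) (L := ⟨(-2097152), (-223964), 69803, 664508, 396748, 741941, 81139, 0, 0, 0⟩) r15_ok (by decide +kernel)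

def r15_leaf1 :
    Sound r15R [(0, 1, 1), (0, 1, 1), (0, 1, 2), (1, 2, 2), (0, 1, 32)] :=
  sound_leaf (K := 204) (L := ⟨(-11324621), (-611567), (-5921), 1092003, 330624, 484849, 147210, 0, 0, 0⟩) r15_ok (by decide +kernel)

def r15_leaf2 :
    Sound r15R [(0, 1, 1), (0, 1, 1), (1, 2, 2), (0, 1, 1), (0, 1, 32)] :=
  sound_empty (K := 113) (q := 11) r15_ok (by decide +kernel)

def r15_leaf3 :
    Sound r15R [(0, 1, 1), (0, 1, 1), (0, 1, 1), (0, 1, 1), (1, 2, 32)] :=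
  sound_leaf (K := 192) (L := ⟨(-7130317), (-226904), 72871, 924489, 307066, 500711, 98983, 0, 0, 0⟩) r15_ok (by decide +kernel)

def r15_leaf4 :
    Sound r15R [(0, 1, 1), (0, 1, 1), (0, 1, 1), (0, 1, 1), (1, 2, 16)] :=
  sound_leaf (K := 186) (L := ⟨(-6710886), (-157515), 100297, 540283, 265779, 438623, 125549, 0, 0, 0⟩) r15_ok (by decide +kernel)

def r15_leaf5 :
    Sound r15R [(0, 1, 1), (0, 1, 1), (0, 1, 1), (0, 1, 1), (1, 2, 8)] :=
  sound_leaf (K := 179) (L := ⟨(-10905190), (-64931), 79696, 862240, 209911, 360864, 85982, 0, 0, 0⟩) r15_ok (by decide +kernel)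

def r15_leaf6 :
    Sound r15R [(0, 1, 1), (0, 1, 1), (0, 1, 1), (0, 1, 1), (1, 2, 4)] :=
  sound_leaf (K := 173) (L := ⟨16022241, (-85852), 24918, (-619488), 164625, 180361, 64749, 0, 0, 0⟩) r15_ok (by decide +kernel)

def r15_leaf7 :
    Sound r15R [(0, 1, 2), (0, 1, 1), (0, 1, 1), (0, 1, 2), (2, 3, 4)] :=
  sound_leaf (K := 185) (L := ⟨38671483, 142875, (-78619), (-1742370), 136023, 232461, 104929, 0, 0, 0⟩) r15_ok (by decide +kernel)

def r15_leaf8 :
    Sound r15R [(0, 1, 2), (0, 1, 1), (0, 1, 1), (1, 2, 2), (2, 3, 4)] :=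
  sound_empty (K := 102) (q := 12) r15_ok (by decide +kernel)

def r15_leaf9 :
    Sound r15R [(0, 1, 2), (0, 1, 1), (0, 1, 1), (0, 1, 1), (3, 4, 4)] :=
  sound_empty (K := 96) (q := 12) r15_ok (by decide +kernel)

def r15_leaf10 :
    Sound r15R [(1, 2, 2), (0, 1, 2), (0, 1, 1), (0, 1, 4), (2, 3, 4)] :=
  sound_leaf (K := 198) (L := ⟨30230446, (-139465), 46058, (-1749161), 214061, 345052, 110678, 0, 0, 0⟩) r15_ok (by decide +kernel)

def r15_leaf11 :
    Sound r15R [(1, 2, 2), (0, 1, 2), (0, 1, 1), (1, 2, 4), (2, 3, 4)] :=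
  sound_leaf (K := 197) (L := ⟨43065016, (-155591), 51676, (-1571707), 187701, 266193, 111479, 0, 0, 0⟩) r15_ok (by decide +kernel)

def r15_leaf12 :
    Sound r15R [(1, 2, 2), (0, 1, 2), (0, 1, 1), (2, 3, 4), (2, 3, 4)] :=
  sound_leaf (K := 198) (L := ⟨58164511, (-279474), 126453, (-1532894), 180627, 220835, 115196, 0, 0, 0⟩) r15_ok (by decide +kernel)

def r15_leaf13 :
    Sound r15R [(1, 2, 2), (0, 1, 2), (0, 1, 1), (3, 4, 4), (2, 3, 4)] :=
  sound_empty (K := 114) (q := 13) r15_ok (by decide +kernel)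

def r15_leaf14 :
    Sound r15R [(1, 2, 2), (0, 1, 2), (0, 1, 1), (0, 1, 4), (6, 7, 8)] :=
  sound_empty (K := 120) (q := 12) r15_ok (by decide +kernel)

def r15_leaf15 :
    Sound r15R [(1, 2, 2), (0, 1, 2), (0, 1, 1), (1, 2, 4), (6, 7, 8)] :=
  sound_leaf (K := 203) (L := ⟨60901294, (-140709), 20885, (-1771782), 169206, 234049, 114280, 0, 0, 0⟩) r15_ok (by decide +kernel)

def r15_leaf16 :
    Sound r15R [(1, 2, 2), (0, 1, 2), (0, 1, 1), (0, 1, 2), (7, 8, 8)] :=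
  sound_empty (K := 114) (q := 12) r15_ok (by decide +kernel)

def r15_leaf17 :
    Sound r15R [(1, 2, 2), (0, 1, 2), (0, 1, 1), (1, 2, 2), (3, 4, 4)] :=
  sound_empty (K := 108) (q := 13) r15_ok (by decide +kernel)

def r15_leaf18 :
    Sound r15R [(1, 2, 2), (1, 2, 2), (0, 1, 1), (0, 1, 4), (2, 3, 4)] :=
  sound_leaf (K := 198) (L := ⟨32212255, (-257853), 94922, (-1790742), 230360, 349189, 116196, 0, 0, 0⟩) r15_ok (by decide +kernel)

def r15_leaf19 :
    Sound r15R [(1, 2, 2), (1, 2, 2), (0, 1, 1), (1, 2, 4), (2, 3, 4)] :=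
  sound_leaf (K := 198) (L := ⟨45424312, (-315132), 139850, (-1585492), 207323, 268235, 116445, 0, 0, 0⟩) r15_ok (by decide +kernel)

def r15_leaf20 :
    Sound r15R [(1, 2, 2), (1, 2, 2), (0, 1, 1), (2, 3, 4), (2, 3, 4)] :=
  sound_leaf (K := 198) (L := ⟨61603840, (-393995), 256254, (-1495867), 191859, 158159, 120603, 0, 0, 0⟩) r15_ok (by decide +kernel)

def r15_leaf21 :
    Sound r15R [(1, 2, 2), (1, 2, 2), (0, 1, 1), (3, 4, 4), (2, 3, 4)] :=
  sound_empty (K := 114) (q := 13) r15_ok (by decide +kernel)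

def r15_leaf22 :
    Sound r15R [(1, 2, 2), (1, 2, 2), (0, 1, 2), (0, 1, 2), (3, 4, 4)] :=
  sound_empty (K := 114) (q := 12) r15_ok (by decide +kernel)

def r15_leaf23 :
    Sound r15R [(1, 2, 2), (1, 2, 2), (1, 2, 2), (0, 1, 8), (3, 4, 4)] :=
  sound_leaf (K := 210) (L := ⟨47846523, (-184166), 33422, (-2279606), 199645, 320051, 120817, 0, 0, 0⟩) r15_ok (by decide +kernel)

def r15_leaf24 :
    Sound r15R [(1, 2, 2), (1, 2, 2), (1, 2, 2), (1, 2, 8), (3, 4, 4)] :=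
  sound_leaf (K := 210) (L := ⟨60901294, (-444651), 138813, (-2337221), 200418, 283792, 132762, 0, 0, 0⟩) r15_ok (by decide +kernel)

def r15_leaf25 :
    Sound r15R [(2, 3, 4), (1, 2, 2), (1, 2, 2), (1, 2, 4), (3, 4, 4)] :=
  sound_empty (K := 126) (q := 12) r15_ok (by decide +kernel)

def r15_leaf26 :
    Sound r15R [(3, 4, 4), (1, 2, 2), (1, 2, 2), (2, 3, 8), (3, 4, 4)] :=
  sound_leaf (K := 216) (L := ⟨72477573, (-597200), 232323, (-2105124), 218509, 264089, 133487, 0, 0, 0⟩) r15_ok (by decide +kernel)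

def r15_leaf27 :
    Sound r15R [(3, 4, 4), (1, 2, 2), (1, 2, 2), (3, 4, 8), (3, 4, 4)] :=
  sound_leaf (K := 216) (L := ⟨82963333, (-673105), 301614, (-1935187), 207926, 229875, 136026, 0, 0, 0⟩) r15_ok (by decide +kernel)

def r15_leaf28 :
    Sound r15R [(1, 2, 2), (1, 2, 2), (0, 1, 1), (1, 2, 2), (3, 4, 4)] :=
  sound_empty (K := 108) (q := 13) r15_ok (by decide +kernel)

theorem r15_node0 :
    Sound r15R [(0, 1, 1), (0, 1, 1), (0, 1, 2), (0, 1, 1), (0, 1, 32)] :=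
  sound_node (j := 3) (by decide) r15_leaf0 r15_leaf1

theorem r15_node1 :
    Sound r15R [(0, 1, 1), (0, 1, 1), (0, 1, 1), (0, 1, 1), (0, 1, 32)] :=
  sound_node (j := 2) (by decide) r15_node0 r15_leaf2

theorem r15_node2 :
    Sound r15R [(0, 1, 1), (0, 1, 1), (0, 1, 1), (0, 1, 1), (0, 1, 16)] :=
  sound_node (j := 4) (by decide) r15_node1 r15_leaf3

theorem r15_node3 :
    Sound r15R [(0, 1, 1), (0, 1, 1), (0, 1, 1), (0, 1, 1), (0, 1, 8)] :=
  sound_node (j := 4) (by decide) r15_node2 r15_leaf4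

theorem r15_node4 :
    Sound r15R [(0, 1, 1), (0, 1, 1), (0, 1, 1), (0, 1, 1), (0, 1, 4)] :=
  sound_node (j := 4) (by decide) r15_node3 r15_leaf5

theorem r15_node5 :
    Sound r15R [(0, 1, 1), (0, 1, 1), (0, 1, 1), (0, 1, 1), (0, 1, 2)] :=
  sound_node (j := 4) (by decide) r15_node4 r15_leaf6

theorem r15_node6 :
    Sound r15R [(0, 1, 2), (0, 1, 1), (0, 1, 1), (0, 1, 1), (2, 3, 4)] :=
  sound_node (j := 3) (by decide) r15_leaf7 r15_leaf8

theorem r15_node7 :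
    Sound r15R [(0, 1, 2), (0, 1, 1), (0, 1, 1), (0, 1, 1), (1, 2, 2)] :=
  sound_node (j := 4) (by decide) r15_node6 r15_leaf9

theorem r15_node8 :
    Sound r15R [(1, 2, 2), (0, 1, 2), (0, 1, 1), (0, 1, 2), (2, 3, 4)] :=
  sound_node (j := 3) (by decide) r15_leaf10 r15_leaf11

theorem r15_node9 :
    Sound r15R [(1, 2, 2), (0, 1, 2), (0, 1, 1), (0, 1, 2), (6, 7, 8)] :=
  sound_node (j := 3) (by decide) r15_leaf14 r15_leaf15

theorem r15_node10 :
    Sound r15R [(1, 2, 2), (0, 1, 2), (0, 1, 1), (0, 1, 2), (3, 4, 4)] :=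
  sound_node (j := 4) (by decide) r15_node9 r15_leaf16

theorem r15_node11 :
    Sound r15R [(1, 2, 2), (0, 1, 2), (0, 1, 1), (0, 1, 2), (1, 2, 2)] :=
  sound_node (j := 4) (by decide) r15_node8 r15_node10

theorem r15_node12 :
    Sound r15R [(1, 2, 2), (0, 1, 2), (0, 1, 1), (1, 2, 2), (2, 3, 4)] :=
  sound_node (j := 3) (by decide) r15_leaf12 r15_leaf13

theorem r15_node13 :
    Sound r15R [(1, 2, 2), (0, 1, 2), (0, 1, 1), (1, 2, 2), (1, 2, 2)] :=
  sound_node (j := 4) (by decide) r15_node12 r15_leaf17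

theorem r15_node14 :
    Sound r15R [(1, 2, 2), (0, 1, 2), (0, 1, 1), (0, 1, 1), (1, 2, 2)] :=
  sound_node (j := 3) (by decide) r15_node11 r15_node13

theorem r15_node15 :
    Sound r15R [(1, 2, 2), (1, 2, 2), (0, 1, 1), (0, 1, 2), (2, 3, 4)] :=
  sound_node (j := 3) (by decide) r15_leaf18 r15_leaf19

theorem r15_node16 :
    Sound r15R [(1, 2, 2), (1, 2, 2), (1, 2, 2), (0, 1, 4), (3, 4, 4)] :=
  sound_node (j := 3) (by decide) r15_leaf23 r15_leaf24

theorem r15_node17 :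
    Sound r15R [(3, 4, 4), (1, 2, 2), (1, 2, 2), (1, 2, 4), (3, 4, 4)] :=
  sound_node (j := 3) (by decide) r15_leaf26 r15_leaf27

theorem r15_node18 :
    Sound r15R [(1, 2, 2), (1, 2, 2), (1, 2, 2), (1, 2, 4), (3, 4, 4)] :=
  sound_node (j := 0) (by decide) r15_leaf25 r15_node17

theorem r15_node19 :
    Sound r15R [(1, 2, 2), (1, 2, 2), (1, 2, 2), (0, 1, 2), (3, 4, 4)] :=
  sound_node (j := 3) (by decide) r15_node16 r15_node18

theorem r15_node20 :
    Sound r15R [(1, 2, 2), (1, 2, 2), (0, 1, 1), (0, 1, 2), (3, 4, 4)] :=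
  sound_node (j := 2) (by decide) r15_leaf22 r15_node19

theorem r15_node21 :
    Sound r15R [(1, 2, 2), (1, 2, 2), (0, 1, 1), (0, 1, 2), (1, 2, 2)] :=
  sound_node (j := 4) (by decide) r15_node15 r15_node20

theorem r15_node22 :
    Sound r15R [(1, 2, 2), (1, 2, 2), (0, 1, 1), (1, 2, 2), (2, 3, 4)] :=
  sound_node (j := 3) (by decide) r15_leaf20 r15_leaf21

theorem r15_node23 :
    Sound r15R [(1, 2, 2), (1, 2, 2), (0, 1, 1), (1, 2, 2), (1, 2, 2)] :=
  sound_node (j := 4) (by decide) r15_node22 r15_leaf28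

theorem r15_node24 :
    Sound r15R [(1, 2, 2), (1, 2, 2), (0, 1, 1), (0, 1, 1), (1, 2, 2)] :=
  sound_node (j := 3) (by decide) r15_node21 r15_node23

theorem r15_node25 :
    Sound r15R [(1, 2, 2), (0, 1, 1), (0, 1, 1), (0, 1, 1), (1, 2, 2)] :=
  sound_node (j := 1) (by decide) r15_node14 r15_node24

theorem r15_node26 :
    Sound r15R [(0, 1, 1), (0, 1, 1), (0, 1, 1), (0, 1, 1), (1, 2, 2)] :=
  sound_node (j := 0) (by decide) r15_node7 r15_node25

theorem r15_node27 :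
    Sound r15R [(0, 1, 1), (0, 1, 1), (0, 1, 1), (0, 1, 1), (0, 1, 1)] :=
  sound_node (j := 4) (by decide) r15_node5 r15_node26

theorem r15_sound :
    Sound r15R [(0, 1, 1), (0, 1, 1), (0, 1, 1), (0, 1, 1), (0, 1, 1)] :=
  r15_node27

end Vale.Agent.P100.Calib.LowEnd
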