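import Vale.Agent.P100.Calib.SlabLowEndR15Data

/-!
# The slots of root 15 are within their tolerances
-/

set_option maxRecDepth 100000
-- the heavy checks are definitions, so that they are checked one after another
set_option linter.defProp false

namespace Vale.Agent.P100.Calib.LowEnd

open Pack Band

def r15_slot0 : checkSlot r15B r15P.sig 56 r15D0 r15T0 = true := by decide +kernel

def r15_slot1 : checkSlot r15B r15P.sig 56 r15D1 r15T1 = true := by decide +kernel

def r15_slot2 : checkSlot r15B r15P.sig 48 r15D2 r15T2 = true := by decide +kernel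

def r15_slot3 : checkSlot r15B r15P.sig 56 r15D3 r15T3 = true := by decide +kernel

def r15_slot4 : checkSlot r15B r15P.sig 56 r15D4 r15T4 = true := by decide +kernel

def r15_slot5 : checkSlot r15B r15P.sig 56 r15D5 r15T5 = true := by decide +kernel

def r15_slot6 : checkSlot r15B r15P.sig 56 r15D6 r15T6 = true := by decide +kernel

def r15_slot7 : checkSlot r15B r15P.sig 56 r15D7 r15T7 = true := by decide +kernel

def r15_slot8 : checkSlot r15B r15P.sig 56 r15D8 r15T8 = true := by decide +kernel

def r15_slot9 : checkSlot r15B r15P.sig 56 r15D9 r15T9 = true := by decide +kernel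

def r15_slot10 : checkSlot r15B r15P.sig 56 r15D10 r15T10 = true := by decide +kernel

def r15_slot11 : checkSlot r15B r15P.sig 56 r15D11 r15T11 = true := by decide +kernel

def r15_slot12 : checkSlot r15B r15P.sig 56 r15D12 r15T12 = true := by decide +kernel

def r15_slot13 : checkSlot r15B r15P.sig 56 r15D13 r15T13 = true := by decide +kernel

theorem r15_near {x y : ℕ → ℝ} (hx : InBox r15B x) (hc : Coord r15P.sig x y) :
    Near r15R y (valueAt r15L x) :=
  near_root rfl (fun q hq => by
    simp only [r15L, List.length_cons, List.length_nil] at hq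
    interval_cases q
    · exact ⟨_, r15_slot0⟩
    · exact ⟨_, r15_slot1⟩
    · exact ⟨_, r15_slot2⟩
    · exact ⟨_, r15_slot3⟩
    · exact ⟨_, r15_slot4⟩
    · exact ⟨_, r15_slot5⟩
    · exact ⟨_, r15_slot6⟩
    · exact ⟨_, r15_slot7⟩
    · exact ⟨_, r15_slot8⟩
    · exact ⟨_, r15_slot9⟩
    · exact ⟨_, r15_slot10⟩
    · exact ⟨_, r15_slot11⟩
    · exact ⟨_, r15_slot12⟩
    · exact ⟨_, r15_slot13⟩
  ) hx hc

end Vale.Agent.P100.Calib.LowEnd
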