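import Vale.Agent.P100.Calib.SlabLowEndR16Data

/-!
# The cover of root 16
-/

set_option maxRecDepth 100000
-- the heavy checks are definitions, so that they are checked one after another
set_option linter.defProp false

namespace Vale.Agent.P100.Calib.LowEnd

open Pack Band

theorem r16_ok : rootOk r16R = true := by decide +kernel

def r16_leaf0 :
    Sound r16R [(0, 1, 1), (0, 1, 1), (0, 1, 1), (0, 1, 2), (0, 1, 2)] :=
  sound_leaf (K := 172) (L := ⟨(-9227469), 297488, 15766, 671648, 152161, 413406, 76812, 0, 0, 0⟩) r16_ok (by decide +kernel)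

def r16_leaf1 :
    Sound r16R [(0, 1, 1), (0, 1, 1), (0, 1, 2), (2, 3, 4), (0, 1, 2)] :=
  sound_leaf (K := 184) (L := ⟨(-13002342), (-142005), (-44027), 959981, 141987, 260679, 104063, 0, 0, 0⟩) r16_ok (by decide +kernel)

def r16_leaf2 :
    Sound r16R [(0, 1, 1), (0, 1, 1), (0, 1, 4), (6, 7, 8), (0, 1, 4)] :=
  sound_leaf (K := 203) (L := ⟨(-13421773), (-546380), (-191817), 942438, 168234, 284846, 85585, 0, 0, 0⟩) r16_ok (by decide +kernel)

def r16_leaf3 :
    Sound r16R [(0, 1, 1), (0, 1, 1), (0, 1, 16), (14, 15, 16), (0, 1, 16)] :=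
  sound_leaf (K := 233) (L := ⟨(-14260634), (-1013075), (-408669), 1343933, 217846, 328311, 132252, 0, 0, 0⟩) r16_ok (by decide +kernel)

def r16_leaf4 :
    Sound r16R [(0, 1, 1), (0, 1, 1), (0, 1, 16), (15, 16, 16), (0, 1, 16)] :=
  sound_leaf (K := 233) (L := ⟨(-14784922), (-1234080), (-434026), 1316113, 219147, 103371, 40618, 563939686110686727051208, 0, 0⟩) r16_ok (by decide +kernel)

def r16_leaf5 :
    Sound r16R [(0, 1, 1), (0, 1, 1), (1, 2, 16), (7, 8, 8), (0, 1, 16)] :=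
  sound_leaf (K := 227) (L := ⟨(-13841203), (-915340), (-368519), 1519604, 215344, 315118, 126849, 0, 0, 0⟩) r16_ok (by decide +kernel)

def r16_leaf6 :
    Sound r16R [(0, 1, 1), (0, 1, 1), (0, 1, 8), (7, 8, 8), (1, 2, 16)] :=
  sound_leaf (K := 221) (L := ⟨(-7969178), (-440629), (-179610), 728583, 209597, 287884, 109838, 0, 0, 0⟩) r16_ok (by decide +kernel)

def r16_leaf7 :
    Sound r16R [(0, 1, 1), (0, 1, 1), (0, 1, 8), (7, 8, 8), (1, 2, 8)] :=
  sound_leaf (K := 214) (L := ⟨(-3355443), (-255713), (-129381), 238698, 176561, 252995, 101555, 0, 0, 0⟩) r16_ok (by decide +kernel)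

def r16_leaf8 :
    Sound r16R [(0, 1, 1), (0, 1, 1), (1, 2, 8), (7, 8, 8), (0, 1, 4)] :=
  sound_leaf (K := 209) (L := ⟨(-15099494), (-605063), (-209491), 793312, 165480, 263500, 82160, 0, 0, 0⟩) r16_ok (by decide +kernel)

def r16_leaf9 :
    Sound r16R [(0, 1, 1), (0, 1, 1), (0, 1, 4), (3, 4, 4), (1, 2, 4)] :=
  sound_leaf (K := 196) (L := ⟨(-1258291), (-156203), (-72668), 63225, 129597, 211273, 93232, 0, 0, 0⟩) r16_ok (by decide +kernel)

def r16_leaf10 :
    Sound r16R [(0, 1, 1), (0, 1, 1), (1, 2, 4), (3, 4, 4), (0, 1, 2)] :=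
  sound_leaf (K := 190) (L := ⟨(-12582912), (-283568), (-109106), 591101, 134917, 225996, 99027, 0, 0, 0⟩) r16_ok (by decide +kernel)

def r16_leaf11 :
    Sound r16R [(0, 1, 1), (0, 1, 1), (1, 2, 2), (1, 2, 2), (0, 1, 2)] :=
  sound_leaf (K := 178) (L := ⟨(-7969178), (-126964), (-1084), 317391, 135663, 223938, 94970, 0, 0, 0⟩) r16_ok (by decide +kernel)

def r16_leaf12 :
    Sound r16R [(0, 1, 1), (0, 1, 1), (0, 1, 1), (0, 1, 1), (1, 2, 2)] :=
  sound_leaf (K := 166) (L := ⟨26455572, 24798, (-6744), (-1071192), 117372, 192968, 93539, 0, 0, 0⟩) r16_ok (by decide +kernel)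

theorem r16_node0 :
    Sound r16R [(0, 1, 1), (0, 1, 1), (0, 1, 16), (7, 8, 8), (0, 1, 16)] :=
  sound_node (j := 3) (by decide) r16_leaf3 r16_leaf4

theorem r16_node1 :
    Sound r16R [(0, 1, 1), (0, 1, 1), (0, 1, 8), (7, 8, 8), (0, 1, 16)] :=
  sound_node (j := 2) (by decide) r16_node0 r16_leaf5

theorem r16_node2 :
    Sound r16R [(0, 1, 1), (0, 1, 1), (0, 1, 8), (7, 8, 8), (0, 1, 8)] :=
  sound_node (j := 4) (by decide) r16_node1 r16_leaf6

theorem r16_node3 :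
    Sound r16R [(0, 1, 1), (0, 1, 1), (0, 1, 8), (7, 8, 8), (0, 1, 4)] :=
  sound_node (j := 4) (by decide) r16_node2 r16_leaf7

theorem r16_node4 :
    Sound r16R [(0, 1, 1), (0, 1, 1), (0, 1, 4), (7, 8, 8), (0, 1, 4)] :=
  sound_node (j := 2) (by decide) r16_node3 r16_leaf8

theorem r16_node5 :
    Sound r16R [(0, 1, 1), (0, 1, 1), (0, 1, 4), (3, 4, 4), (0, 1, 4)] :=
  sound_node (j := 3) (by decide) r16_leaf2 r16_node4

theorem r16_node6 :
    Sound r16R [(0, 1, 1), (0, 1, 1), (0, 1, 4), (3, 4, 4), (0, 1, 2)] :=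
  sound_node (j := 4) (by decide) r16_node5 r16_leaf9

theorem r16_node7 :
    Sound r16R [(0, 1, 1), (0, 1, 1), (0, 1, 2), (3, 4, 4), (0, 1, 2)] :=
  sound_node (j := 2) (by decide) r16_node6 r16_leaf10

theorem r16_node8 :
    Sound r16R [(0, 1, 1), (0, 1, 1), (0, 1, 2), (1, 2, 2), (0, 1, 2)] :=
  sound_node (j := 3) (by decide) r16_leaf1 r16_node7

theorem r16_node9 :
    Sound r16R [(0, 1, 1), (0, 1, 1), (0, 1, 1), (1, 2, 2), (0, 1, 2)] :=
  sound_node (j := 2) (by decide) r16_node8 r16_leaf11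

theorem r16_node10 :
    Sound r16R [(0, 1, 1), (0, 1, 1), (0, 1, 1), (0, 1, 1), (0, 1, 2)] :=
  sound_node (j := 3) (by decide) r16_leaf0 r16_node9

theorem r16_node11 :
    Sound r16R [(0, 1, 1), (0, 1, 1), (0, 1, 1), (0, 1, 1), (0, 1, 1)] :=
  sound_node (j := 4) (by decide) r16_node10 r16_leaf12

theorem r16_sound :
    Sound r16R [(0, 1, 1), (0, 1, 1), (0, 1, 1), (0, 1, 1), (0, 1, 1)] :=
  r16_node11

end Vale.Agent.P100.Calib.LowEnd
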