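import Vale.Agent.P100.Calib.SlabLowEndR16Data

/-!
# The slots of root 16 are within their tolerances
-/

set_option maxRecDepth 100000
-- the heavy checks are definitions, so that they are checked one after another
set_option linter.defProp false

namespace Vale.Agent.P100.Calib.LowEnd

open Pack Band

def r16_slot0 : checkSlot r16B r16P.sig 56 r16D0 r16T0 = true := by decide +kernel

def r16_slot1 : checkSlot r16B r16P.sig 56 r16D1 r16T1 = true := by decide +kernel

def r16_slot2 : checkSlot r16B r16P.sig 56 r16D2 r16T2 = true := by decide +kernel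

def r16_slot3 : checkSlot r16B r16P.sig 56 r16D3 r16T3 = true := by decide +kernel

def r16_slot4 : checkSlot r16B r16P.sig 56 r16D4 r16T4 = true := by decide +kernel

def r16_slot5 : checkSlot r16B r16P.sig 56 r16D5 r16T5 = true := by decide +kernel

def r16_slot6 : checkSlot r16B r16P.sig 56 r16D6 r16T6 = true := by decide +kernel

def r16_slot7 : checkSlot r16B r16P.sig 56 r16D7 r16T7 = true := by decide +kernel

def r16_slot8 : checkSlot r16B r16P.sig 56 r16D8 r16T8 = true := by decide +kernel

def r16_slot9 : checkSlot r16B r16P.sig 56 r16D9 r16T9 = true := by decide +kernel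

def r16_slot10 : checkSlot r16B r16P.sig 56 r16D10 r16T10 = true := by decide +kernel

theorem r16_near {x y : ℕ → ℝ} (hx : InBox r16B x) (hc : Coord r16P.sig x y) :
    Near r16R y (valueAt r16L x) :=
  near_root rfl (fun q hq => by
    simp only [r16L, List.length_cons, List.length_nil] at hq
    interval_cases q
    · exact ⟨_, r16_slot0⟩
    · exact ⟨_, r16_slot1⟩
    · exact ⟨_, r16_slot2⟩
    · exact ⟨_, r16_slot3⟩
    · exact ⟨_, r16_slot4⟩
    · exact ⟨_, r16_slot5⟩
    · exact ⟨_, r16_slot6⟩
    · exact ⟨_, r16_slot7⟩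
    · exact ⟨_, r16_slot8⟩
    · exact ⟨_, r16_slot9⟩
    · exact ⟨_, r16_slot10⟩
  ) hx hc

end Vale.Agent.P100.Calib.LowEnd
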