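import Vale.Agent.P100.Calib.SlabLowEndR17Data

/-!
# The cover of root 17
-/

set_option maxRecDepth 100000
-- the heavy checks are definitions, so that they are checked one after another
set_option linter.defProp false

namespace Vale.Agent.P100.Calib.LowEnd

open Pack Band

theorem r17_ok : rootOk r17R = true := by decide +kernel

def r17_leaf0 :
    Sound r17R [(0, 1, 1), (0, 1, 1), (0, 1, 1), (0, 1, 2), (0, 1, 2)] :=
  sound_leaf (K := 172) (L := ⟨(-2516582), (-101070), 94808, 50659, 202757, 349056, 85346, 0, 0, 0⟩) r17_ok (by decide +kernel)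

def r17_leaf1 :
    Sound r17R [(0, 1, 1), (0, 1, 1), (0, 1, 2), (2, 3, 4), (0, 1, 2)] :=
  sound_leaf (K := 184) (L := ⟨(-7130317), (-198584), 6586, 206159, 178971, 274634, 82979, 0, 0, 0⟩) r17_ok (by decide +kernel)

def r17_leaf2 :
    Sound r17R [(0, 1, 1), (0, 1, 1), (0, 1, 2), (3, 4, 4), (0, 1, 2)] :=
  sound_leaf (K := 184) (L := ⟨(-10066330), (-174406), 98057, 341747, 169447, 176887, 80236, 0, 0, 0⟩) r17_ok (by decide +kernel)

def r17_leaf3 :
    Sound r17R [(0, 1, 1), (0, 1, 1), (1, 2, 2), (1, 2, 2), (0, 1, 2)] :=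
  sound_leaf (K := 178) (L := ⟨(-4194304), (-200532), 53182, 123632, 167295, 174114, 105587, 0, 0, 0⟩) r17_ok (by decide +kernel)

def r17_leaf4 :
    Sound r17R [(0, 1, 1), (0, 1, 1), (0, 1, 1), (0, 1, 1), (2, 3, 4)] :=
  sound_leaf (K := 172) (L := ⟨30115103, (-276645), 92816, (-1090709), 153007, 216602, 104366, 0, 0, 0⟩) r17_ok (by decide +kernel)

def r17_leaf5 :
    Sound r17R [(0, 1, 1), (0, 1, 1), (0, 1, 1), (0, 1, 2), (3, 4, 4)] :=
  sound_leaf (K := 178) (L := ⟨43065016, (-217027), 97891, (-1500441), 147709, 222524, 108930, 0, 0, 0⟩) r17_ok (by decide +kernel)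

def r17_leaf6 :
    Sound r17R [(0, 1, 1), (0, 1, 1), (0, 1, 1), (2, 3, 4), (3, 4, 4)] :=
  sound_leaf (K := 184) (L := ⟨58164511, (-202110), 100704, (-1211763), 126621, 165255, 105035, 0, 0, 0⟩) r17_ok (by decide +kernel)

def r17_leaf7 :
    Sound r17R [(0, 1, 1), (0, 1, 1), (0, 1, 1), (3, 4, 4), (3, 4, 4)] :=
  sound_empty (K := 102) (q := 11) r17_ok (by decide +kernel)

theorem r17_node0 :
    Sound r17R [(0, 1, 1), (0, 1, 1), (0, 1, 2), (1, 2, 2), (0, 1, 2)] :=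
  sound_node (j := 3) (by decide) r17_leaf1 r17_leaf2

theorem r17_node1 :
    Sound r17R [(0, 1, 1), (0, 1, 1), (0, 1, 1), (1, 2, 2), (0, 1, 2)] :=
  sound_node (j := 2) (by decide) r17_node0 r17_leaf3

theorem r17_node2 :
    Sound r17R [(0, 1, 1), (0, 1, 1), (0, 1, 1), (0, 1, 1), (0, 1, 2)] :=
  sound_node (j := 3) (by decide) r17_leaf0 r17_node1

theorem r17_node3 :
    Sound r17R [(0, 1, 1), (0, 1, 1), (0, 1, 1), (1, 2, 2), (3, 4, 4)] :=
  sound_node (j := 3) (by decide) r17_leaf6 r17_leaf7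

theorem r17_node4 :
    Sound r17R [(0, 1, 1), (0, 1, 1), (0, 1, 1), (0, 1, 1), (3, 4, 4)] :=
  sound_node (j := 3) (by decide) r17_leaf5 r17_node3

theorem r17_node5 :
    Sound r17R [(0, 1, 1), (0, 1, 1), (0, 1, 1), (0, 1, 1), (1, 2, 2)] :=
  sound_node (j := 4) (by decide) r17_leaf4 r17_node4

theorem r17_node6 :
    Sound r17R [(0, 1, 1), (0, 1, 1), (0, 1, 1), (0, 1, 1), (0, 1, 1)] :=
  sound_node (j := 4) (by decide) r17_node2 r17_node5

theorem r17_sound :
    Sound r17R [(0, 1, 1), (0, 1, 1), (0, 1, 1), (0, 1, 1), (0, 1, 1)] :=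
  r17_node6

end Vale.Agent.P100.Calib.LowEnd
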