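import Vale.Agent.P100.Calib.SlabLowEndR17Data

/-!
# The slots of root 17 are within their tolerances
-/

set_option maxRecDepth 100000
-- the heavy checks are definitions, so that they are checked one after another
set_option linter.defProp false

namespace Vale.Agent.P100.Calib.LowEnd

open Pack Band

def r17_slot0 : checkSlot r17B r17P.sig 56 r17D0 r17T0 = true := by decide +kernel

def r17_slot1 : checkSlot r17B r17P.sig 56 r17D1 r17T1 = true := by decide +kernel

def r17_slot2 : checkSlot r17B r17P.sig 56 r17D2 r17T2 = true := by decide +kernel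

def r17_slot3 : checkSlot r17B r17P.sig 56 r17D3 r17T3 = true := by decide +kernel

def r17_slot4 : checkSlot r17B r17P.sig 56 r17D4 r17T4 = true := by decide +kernel

def r17_slot5 : checkSlot r17B r17P.sig 56 r17D5 r17T5 = true := by decide +kernel

def r17_slot6 : checkSlot r17B r17P.sig 56 r17D6 r17T6 = true := by decide +kernel

def r17_slot7 : checkSlot r17B r17P.sig 56 r17D7 r17T7 = true := by decide +kernel

def r17_slot8 : checkSlot r17B r17P.sig 56 r17D8 r17T8 = true := by decide +kernel

def r17_slot9 : checkSlot r17B r17P.sig 56 r17D9 r17T9 = true := by decide +kernel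

def r17_slot10 : checkSlot r17B r17P.sig 56 r17D10 r17T10 = true := by decide +kernel

def r17_slot11 : checkSlot r17B r17P.sig 56 r17D11 r17T11 = true := by decide +kernel

theorem r17_near {x y : ℕ → ℝ} (hx : InBox r17B x) (hc : Coord r17P.sig x y) :
    Near r17R y (valueAt r17L x) :=
  near_root rfl (fun q hq => by
    simp only [r17L, List.length_cons, List.length_nil] at hq
    interval_cases q
    · exact ⟨_, r17_slot0⟩
    · exact ⟨_, r17_slot1⟩
    · exact ⟨_, r17_slot2⟩
    · exact ⟨_, r17_slot3⟩
    · exact ⟨_, r17_slot4⟩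
    · exact ⟨_, r17_slot5⟩
    · exact ⟨_, r17_slot6⟩
    · exact ⟨_, r17_slot7⟩
    · exact ⟨_, r17_slot8⟩
    · exact ⟨_, r17_slot9⟩
    · exact ⟨_, r17_slot10⟩
    · exact ⟨_, r17_slot11⟩
  ) hx hc

end Vale.Agent.P100.Calib.LowEnd
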