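import Vale.Agent.P100.Calib.SlabLowEndR18Data

/-!
# The cover of root 18
-/

set_option maxRecDepth 100000
-- the heavy checks are definitions, so that they are checked one after another
set_option linter.defProp false

namespace Vale.Agent.P100.Calib.LowEnd

open Pack Band

theorem r18_ok : rootOk r18R = true := by decide +kernel

def r18_leaf0 :
    Sound r18R [(0, 1, 1), (0, 1, 1), (0, 1, 1), (0, 1, 2), (0, 1, 4)] :=
  sound_leaf (K := 178) (L := ⟨0, (-482235), 118776, 0, 367116, 531633, 103804, 0, 0, 0⟩) r18_ok (by decide +kernel)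

def r18_leaf1 :
    Sound r18R [(0, 1, 1), (0, 1, 1), (0, 1, 1), (1, 2, 2), (0, 1, 4)] :=
  sound_leaf (K := 177) (L := ⟨(-2097152), (-121347), 110285, 237511, 292232, 311007, 95588, 0, 0, 0⟩) r18_ok (by decide +kernel)

def r18_leaf2 :
    Sound r18R [(0, 1, 1), (0, 1, 1), (0, 1, 2), (0, 1, 1), (1, 2, 4)] :=
  sound_leaf (K := 177) (L := ⟨16022241, (-187355), 134776, (-583729), 234276, 238824, 84216, 0, 0, 0⟩) r18_ok (by decide +kernel)

def r18_leaf3 :
    Sound r18R [(0, 1, 1), (0, 1, 1), (1, 2, 2), (0, 1, 2), (1, 2, 4)] :=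
  sound_leaf (K := 184) (L := ⟨13872660, (-244164), 158291, (-788416), 266479, 367845, 117400, 0, 0, 0⟩) r18_ok (by decide +kernel)

def r18_leaf4 :
    Sound r18R [(0, 1, 1), (0, 1, 1), (1, 2, 2), (1, 2, 2), (1, 2, 4)] :=
  sound_leaf (K := 183) (L := ⟨24358420, (-130256), 252268, (-558133), 219176, 208908, 108638, 0, 0, 0⟩) r18_ok (by decide +kernel)

def r18_leaf5 :
    Sound r18R [(0, 1, 2), (0, 1, 1), (0, 1, 1), (0, 1, 4), (2, 3, 4)] :=
  sound_leaf (K := 190) (L := ⟨36364616, (-347815), 152351, (-1558622), 222062, 305397, 117205, 0, 0, 0⟩) r18_ok (by decide +kernel)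

def r18_leaf6 :
    Sound r18R [(0, 1, 2), (0, 1, 1), (0, 1, 1), (1, 2, 4), (2, 3, 4)] :=
  sound_leaf (K := 190) (L := ⟨47846523, (-334459), 186076, (-1271989), 198235, 233118, 114079, 0, 0, 0⟩) r18_ok (by decide +kernel)

def r18_leaf7 :
    Sound r18R [(0, 1, 2), (0, 1, 1), (0, 1, 1), (2, 3, 4), (2, 3, 4)] :=
  sound_leaf (K := 190) (L := ⟨66563604, (-419395), 278226, (-1241499), 185485, 188709, 116599, 0, 0, 0⟩) r18_ok (by decide +kernel)

def r18_leaf8 :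
    Sound r18R [(0, 1, 2), (0, 1, 1), (0, 1, 1), (3, 4, 4), (2, 3, 4)] :=
  sound_empty (K := 107) (q := 12) r18_ok (by decide +kernel)

def r18_leaf9 :
    Sound r18R [(0, 1, 2), (0, 1, 1), (0, 1, 1), (0, 1, 4), (6, 7, 8)] :=
  sound_leaf (K := 197) (L := ⟨53393490, (-582372), 179946, (-1883605), 201745, 267509, 124290, 0, 0, 0⟩) r18_ok (by decide +kernel)

def r18_leaf10 :
    Sound r18R [(0, 1, 2), (0, 1, 1), (0, 1, 1), (1, 2, 4), (6, 7, 8)] :=
  sound_leaf (K := 196) (L := ⟨69489132, (-475177), 245597, (-1509080), 180336, 207074, 119122, 0, 0, 0⟩) r18_ok (by decide +kernel)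

def r18_leaf11 :
    Sound r18R [(0, 1, 2), (0, 1, 1), (0, 1, 1), (0, 1, 2), (7, 8, 8)] :=
  sound_empty (K := 107) (q := 11) r18_ok (by decide +kernel)

def r18_leaf12 :
    Sound r18R [(0, 1, 2), (0, 1, 1), (0, 1, 1), (1, 2, 2), (3, 4, 4)] :=
  sound_empty (K := 101) (q := 12) r18_ok (by decide +kernel)

def r18_leaf13 :
    Sound r18R [(1, 2, 2), (0, 1, 1), (0, 1, 1), (0, 1, 4), (2, 3, 4)] :=
  sound_leaf (K := 190) (L := ⟨34256978, (-464840), 156409, (-1562227), 253660, 336956, 119390, 0, 0, 0⟩) r18_ok (by decide +kernel)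

def r18_leaf14 :
    Sound r18R [(1, 2, 2), (0, 1, 1), (0, 1, 1), (1, 2, 4), (2, 3, 4)] :=
  sound_leaf (K := 190) (L := ⟨50331648, (-408385), 221091, (-1391469), 228915, 253059, 119257, 0, 0, 0⟩) r18_ok (by decide +kernel)

def r18_leaf15 :
    Sound r18R [(1, 2, 2), (0, 1, 1), (0, 1, 1), (4, 5, 8), (2, 3, 4)] :=
  sound_leaf (K := 196) (L := ⟨60901294, (-399455), 264668, (-1215194), 213482, 209421, 116604, 0, 0, 0⟩) r18_ok (by decide +kernel)

def r18_leaf16 :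
    Sound r18R [(1, 2, 2), (0, 1, 1), (0, 1, 1), (5, 6, 8), (2, 3, 4)] :=
  sound_leaf (K := 196) (L := ⟨70380421, (-433562), 382608, (-940418), 206780, 186640, 118138, 0, 0, 0⟩) r18_ok (by decide +kernel)

def r18_leaf17 :
    Sound r18R [(1, 2, 2), (0, 1, 1), (0, 1, 1), (3, 4, 4), (2, 3, 4)] :=
  sound_empty (K := 107) (q := 12) r18_ok (by decide +kernel)

def r18_leaf18 :
    Sound r18R [(1, 2, 2), (0, 1, 1), (0, 1, 2), (0, 1, 2), (3, 4, 4)] :=
  sound_empty (K := 107) (q := 11) r18_ok (by decide +kernel)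

def r18_leaf19 :
    Sound r18R [(1, 2, 2), (0, 1, 2), (1, 2, 2), (0, 1, 4), (3, 4, 4)] :=
  sound_empty (K := 119) (q := 11) r18_ok (by decide +kernel)

def r18_leaf20 :
    Sound r18R [(1, 2, 2), (1, 2, 2), (1, 2, 2), (0, 1, 8), (3, 4, 4)] :=
  sound_leaf (K := 209) (L := ⟨52879688, (-670871), 220432, (-2370294), 252638, 343779, 135538, 0, 0, 0⟩) r18_ok (by decide +kernel)

def r18_leaf21 :
    Sound r18R [(1, 2, 2), (1, 2, 2), (1, 2, 2), (1, 2, 8), (3, 4, 4)] :=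
  sound_leaf (K := 209) (L := ⟨61603840, (-666113), 267995, (-2007624), 233019, 282279, 133276, 0, 0, 0⟩) r18_ok (by decide +kernel)

def r18_leaf22 :
    Sound r18R [(1, 2, 2), (0, 1, 1), (1, 2, 2), (2, 3, 8), (3, 4, 4)] :=
  sound_leaf (K := 202) (L := ⟨73431777, (-780384), 291250, (-1433563), 205892, 173874, 96728, 0, 0, 0⟩) r18_ok (by decide +kernel)

def r18_leaf23 :
    Sound r18R [(1, 2, 2), (0, 1, 1), (1, 2, 2), (3, 4, 8), (6, 7, 8)] :=
  sound_leaf (K := 208) (L := ⟨69489132, (-463060), 267325, (-1396485), 198039, 212441, 115888, 0, 0, 0⟩) r18_ok (by decide +kernel)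

def r18_leaf24 :
    Sound r18R [(1, 2, 2), (0, 1, 1), (1, 2, 2), (3, 4, 8), (7, 8, 8)] :=
  sound_leaf (K := 208) (L := ⟨89632276, (-721359), 386924, (-1639408), 189820, 197877, 130040, 0, 0, 0⟩) r18_ok (by decide +kernel)

def r18_leaf25 :
    Sound r18R [(1, 2, 2), (0, 1, 2), (0, 1, 1), (1, 2, 2), (3, 4, 4)] :=
  sound_empty (K := 107) (q := 12) r18_ok (by decide +kernel)

def r18_leaf26 :
    Sound r18R [(1, 2, 2), (1, 2, 2), (0, 1, 2), (1, 2, 2), (3, 4, 4)] :=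
  sound_empty (K := 113) (q := 12) r18_ok (by decide +kernel)

def r18_leaf27 :
    Sound r18R [(2, 3, 4), (1, 2, 2), (1, 2, 2), (1, 2, 2), (3, 4, 4)] :=
  sound_empty (K := 119) (q := 12) r18_ok (by decide +kernel)

def r18_leaf28 :
    Sound r18R [(3, 4, 4), (1, 2, 2), (1, 2, 2), (4, 5, 8), (6, 7, 8)] :=
  sound_leaf (K := 220) (L := ⟨81820385, (-513280), 363392, (-1245676), 208870, 189064, 116942, 0, 0, 0⟩) r18_ok (by decide +kernel)

def r18_leaf29 :
    Sound r18R [(3, 4, 4), (1, 2, 2), (1, 2, 2), (5, 6, 8), (6, 7, 8)] :=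
  sound_empty (K := 137) (q := 12) r18_ok (by decide +kernel)

def r18_leaf30 :
    Sound r18R [(3, 4, 4), (1, 2, 2), (1, 2, 2), (3, 4, 4), (6, 7, 8)] :=
  sound_empty (K := 131) (q := 12) r18_ok (by decide +kernel)

def r18_leaf31 :
    Sound r18R [(3, 4, 4), (1, 2, 2), (1, 2, 2), (1, 2, 2), (7, 8, 8)] :=
  sound_empty (K := 125) (q := 12) r18_ok (by decide +kernel)

theorem r18_node0 :
    Sound r18R [(0, 1, 1), (0, 1, 1), (0, 1, 1), (0, 1, 1), (0, 1, 4)] :=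
  sound_node (j := 3) (by decide) r18_leaf0 r18_leaf1

theorem r18_node1 :
    Sound r18R [(0, 1, 1), (0, 1, 1), (1, 2, 2), (0, 1, 1), (1, 2, 4)] :=
  sound_node (j := 3) (by decide) r18_leaf3 r18_leaf4

theorem r18_node2 :
    Sound r18R [(0, 1, 1), (0, 1, 1), (0, 1, 1), (0, 1, 1), (1, 2, 4)] :=
  sound_node (j := 2) (by decide) r18_leaf2 r18_node1

theorem r18_node3 :
    Sound r18R [(0, 1, 1), (0, 1, 1), (0, 1, 1), (0, 1, 1), (0, 1, 2)] :=
  sound_node (j := 4) (by decide) r18_node0 r18_node2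

theorem r18_node4 :
    Sound r18R [(0, 1, 2), (0, 1, 1), (0, 1, 1), (0, 1, 2), (2, 3, 4)] :=
  sound_node (j := 3) (by decide) r18_leaf5 r18_leaf6

theorem r18_node5 :
    Sound r18R [(0, 1, 2), (0, 1, 1), (0, 1, 1), (0, 1, 2), (6, 7, 8)] :=
  sound_node (j := 3) (by decide) r18_leaf9 r18_leaf10

theorem r18_node6 :
    Sound r18R [(0, 1, 2), (0, 1, 1), (0, 1, 1), (0, 1, 2), (3, 4, 4)] :=
  sound_node (j := 4) (by decide) r18_node5 r18_leaf11

theorem r18_node7 :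
    Sound r18R [(0, 1, 2), (0, 1, 1), (0, 1, 1), (0, 1, 2), (1, 2, 2)] :=
  sound_node (j := 4) (by decide) r18_node4 r18_node6

theorem r18_node8 :
    Sound r18R [(0, 1, 2), (0, 1, 1), (0, 1, 1), (1, 2, 2), (2, 3, 4)] :=
  sound_node (j := 3) (by decide) r18_leaf7 r18_leaf8

theorem r18_node9 :
    Sound r18R [(0, 1, 2), (0, 1, 1), (0, 1, 1), (1, 2, 2), (1, 2, 2)] :=
  sound_node (j := 4) (by decide) r18_node8 r18_leaf12

theorem r18_node10 :
    Sound r18R [(0, 1, 2), (0, 1, 1), (0, 1, 1), (0, 1, 1), (1, 2, 2)] :=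
  sound_node (j := 3) (by decide) r18_node7 r18_node9

theorem r18_node11 :
    Sound r18R [(1, 2, 2), (0, 1, 1), (0, 1, 1), (0, 1, 2), (2, 3, 4)] :=
  sound_node (j := 3) (by decide) r18_leaf13 r18_leaf14

theorem r18_node12 :
    Sound r18R [(1, 2, 2), (1, 2, 2), (1, 2, 2), (0, 1, 4), (3, 4, 4)] :=
  sound_node (j := 3) (by decide) r18_leaf20 r18_leaf21

theorem r18_node13 :
    Sound r18R [(1, 2, 2), (0, 1, 1), (1, 2, 2), (0, 1, 4), (3, 4, 4)] :=
  sound_node (j := 1) (by decide) r18_leaf19 r18_node12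

theorem r18_node14 :
    Sound r18R [(1, 2, 2), (0, 1, 1), (1, 2, 2), (3, 4, 8), (3, 4, 4)] :=
  sound_node (j := 4) (by decide) r18_leaf23 r18_leaf24

theorem r18_node15 :
    Sound r18R [(1, 2, 2), (0, 1, 1), (1, 2, 2), (1, 2, 4), (3, 4, 4)] :=
  sound_node (j := 3) (by decide) r18_leaf22 r18_node14

theorem r18_node16 :
    Sound r18R [(1, 2, 2), (0, 1, 1), (1, 2, 2), (0, 1, 2), (3, 4, 4)] :=
  sound_node (j := 3) (by decide) r18_node13 r18_node15

theorem r18_node17 :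
    Sound r18R [(1, 2, 2), (0, 1, 1), (0, 1, 1), (0, 1, 2), (3, 4, 4)] :=
  sound_node (j := 2) (by decide) r18_leaf18 r18_node16

theorem r18_node18 :
    Sound r18R [(1, 2, 2), (0, 1, 1), (0, 1, 1), (0, 1, 2), (1, 2, 2)] :=
  sound_node (j := 4) (by decide) r18_node11 r18_node17

theorem r18_node19 :
    Sound r18R [(1, 2, 2), (0, 1, 1), (0, 1, 1), (2, 3, 4), (2, 3, 4)] :=
  sound_node (j := 3) (by decide) r18_leaf15 r18_leaf16

theorem r18_node20 :
    Sound r18R [(1, 2, 2), (0, 1, 1), (0, 1, 1), (1, 2, 2), (2, 3, 4)] :=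
  sound_node (j := 3) (by decide) r18_node19 r18_leaf17

theorem r18_node21 :
    Sound r18R [(3, 4, 4), (1, 2, 2), (1, 2, 2), (2, 3, 4), (6, 7, 8)] :=
  sound_node (j := 3) (by decide) r18_leaf28 r18_leaf29

theorem r18_node22 :
    Sound r18R [(3, 4, 4), (1, 2, 2), (1, 2, 2), (1, 2, 2), (6, 7, 8)] :=
  sound_node (j := 3) (by decide) r18_node21 r18_leaf30

theorem r18_node23 :
    Sound r18R [(3, 4, 4), (1, 2, 2), (1, 2, 2), (1, 2, 2), (3, 4, 4)] :=
  sound_node (j := 4) (by decide) r18_node22 r18_leaf31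

theorem r18_node24 :
    Sound r18R [(1, 2, 2), (1, 2, 2), (1, 2, 2), (1, 2, 2), (3, 4, 4)] :=
  sound_node (j := 0) (by decide) r18_leaf27 r18_node23

theorem r18_node25 :
    Sound r18R [(1, 2, 2), (1, 2, 2), (0, 1, 1), (1, 2, 2), (3, 4, 4)] :=
  sound_node (j := 2) (by decide) r18_leaf26 r18_node24

theorem r18_node26 :
    Sound r18R [(1, 2, 2), (0, 1, 1), (0, 1, 1), (1, 2, 2), (3, 4, 4)] :=
  sound_node (j := 1) (by decide) r18_leaf25 r18_node25

theorem r18_node27 :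
    Sound r18R [(1, 2, 2), (0, 1, 1), (0, 1, 1), (1, 2, 2), (1, 2, 2)] :=
  sound_node (j := 4) (by decide) r18_node20 r18_node26

theorem r18_node28 :
    Sound r18R [(1, 2, 2), (0, 1, 1), (0, 1, 1), (0, 1, 1), (1, 2, 2)] :=
  sound_node (j := 3) (by decide) r18_node18 r18_node27

theorem r18_node29 :
    Sound r18R [(0, 1, 1), (0, 1, 1), (0, 1, 1), (0, 1, 1), (1, 2, 2)] :=
  sound_node (j := 0) (by decide) r18_node10 r18_node28

theorem r18_node30 :
    Sound r18R [(0, 1, 1), (0, 1, 1), (0, 1, 1), (0, 1, 1), (0, 1, 1)] :=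
  sound_node (j := 4) (by decide) r18_node3 r18_node29

theorem r18_sound :
    Sound r18R [(0, 1, 1), (0, 1, 1), (0, 1, 1), (0, 1, 1), (0, 1, 1)] :=
  r18_node30

end Vale.Agent.P100.Calib.LowEnd
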