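import Vale.Agent.P100.Calib.SlabLowEndR18Data

/-!
# The slots of root 18 are within their tolerances
-/

set_option maxRecDepth 100000
-- the heavy checks are definitions, so that they are checked one after another
set_option linter.defProp false

namespace Vale.Agent.P100.Calib.LowEnd

open Pack Band

def r18_slot0 : checkSlot r18B r18P.sig 56 r18D0 r18T0 = true := by decide +kernel

def r18_slot1 : checkSlot r18B r18P.sig 56 r18D1 r18T1 = true := by decide +kernel

def r18_slot2 : checkSlot r18B r18P.sig 56 r18D2 r18T2 = true := by decide +kernel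

def r18_slot3 : checkSlot r18B r18P.sig 56 r18D3 r18T3 = true := by decide +kernel

def r18_slot4 : checkSlot r18B r18P.sig 56 r18D4 r18T4 = true := by decide +kernel

def r18_slot5 : checkSlot r18B r18P.sig 56 r18D5 r18T5 = true := by decide +kernel

def r18_slot6 : checkSlot r18B r18P.sig 56 r18D6 r18T6 = true := by decide +kernel

def r18_slot7 : checkSlot r18B r18P.sig 56 r18D7 r18T7 = true := by decide +kernel

def r18_slot8 : checkSlot r18B r18P.sig 56 r18D8 r18T8 = true := by decide +kernel

def r18_slot9 : checkSlot r18B r18P.sig 56 r18D9 r18T9 = true := by decide +kernel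

def r18_slot10 : checkSlot r18B r18P.sig 56 r18D10 r18T10 = true := by decide +kernel

def r18_slot11 : checkSlot r18B r18P.sig 56 r18D11 r18T11 = true := by decide +kernel

def r18_slot12 : checkSlot r18B r18P.sig 56 r18D12 r18T12 = true := by decide +kernel

theorem r18_near {x y : ℕ → ℝ} (hx : InBox r18B x) (hc : Coord r18P.sig x y) :
    Near r18R y (valueAt r18L x) :=
  near_root rfl (fun q hq => by
    simp only [r18L, List.length_cons, List.length_nil] at hq
    interval_cases q
    · exact ⟨_, r18_slot0⟩
    · exact ⟨_, r18_slot1⟩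
    · exact ⟨_, r18_slot2⟩
    · exact ⟨_, r18_slot3⟩
    · exact ⟨_, r18_slot4⟩
    · exact ⟨_, r18_slot5⟩
    · exact ⟨_, r18_slot6⟩
    · exact ⟨_, r18_slot7⟩
    · exact ⟨_, r18_slot8⟩
    · exact ⟨_, r18_slot9⟩
    · exact ⟨_, r18_slot10⟩
    · exact ⟨_, r18_slot11⟩
    · exact ⟨_, r18_slot12⟩
  ) hx hc

end Vale.Agent.P100.Calib.LowEnd
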