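import Vale.Agent.P100.Calib.SlabLowEndR19Base

/-!
# Leaves 2 of the cover of root 19
-/

set_option maxRecDepth 100000
-- the heavy checks are definitions, so that they are checked one after another
set_option linter.defProp false

namespace Vale.Agent.P100.Calib.LowEnd

open Pack Band

def r19_leaf30 :
    Sound r19R [(0, 1, 8), (1, 2, 4), (0, 1, 16), (1, 2, 32), (8, 9, 64)] :=
  sound_empty (K := 195) (q := 11) r19_ok (by decide +kernel)

def r19_leaf31 :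
    Sound r19R [(0, 1, 8), (1, 2, 4), (0, 1, 16), (1, 2, 32), (9, 10, 64)] :=
  sound_leaf (K := 279) (L := ⟨(-7969178), 2027967, 190675, 2677202, 455430, 587079, 123685, 0, 0, 0⟩) r19_ok (by decide +kernel)

def r19_leaf32 :
    Sound r19R [(0, 1, 8), (1, 2, 4), (0, 1, 16), (0, 1, 16), (5, 6, 32)] :=
  sound_leaf (K := 267) (L := ⟨(-7549747), 1884355, 161434, 1646597, 449885, 431534, 86794, 0, 0, 0⟩) r19_ok (by decide +kernel)

def r19_leaf33 :
    Sound r19R [(0, 1, 8), (1, 2, 4), (0, 1, 16), (1, 2, 16), (2, 3, 16)] :=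
  sound_leaf (K := 261) (L := ⟨(-7969178), 1832110, 167151, 2622989, 450558, 430342, 90531, 0, 0, 0⟩) r19_ok (by decide +kernel)

def r19_leaf34 :
    Sound r19R [(0, 1, 8), (1, 2, 4), (0, 1, 16), (0, 1, 8), (3, 4, 16)] :=
  sound_leaf (K := 255) (L := ⟨(-7130317), 1955590, 145850, 3783730, 428391, 767875, 148585, 0, 0, 0⟩) r19_ok (by decide +kernel)

def r19_leaf35 :
    Sound r19R [(0, 1, 8), (1, 2, 4), (1, 2, 16), (0, 1, 8), (1, 2, 8)] :=
  sound_leaf (K := 249) (L := ⟨(-7549747), 1983068, 166493, 3129833, 415094, 563400, 111172, 0, 0, 0⟩) r19_ok (by decide +kernel)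

def r19_leaf36 :
    Sound r19R [(1, 2, 8), (1, 2, 4), (0, 1, 8), (0, 1, 8), (1, 2, 8)] :=
  sound_leaf (K := 243) (L := ⟨(-7549747), 1929094, 161534, 2393694, 425569, 426561, 84824, 0, 0, 0⟩) r19_ok (by decide +kernel)

def r19_leaf37 :
    Sound r19R [(0, 1, 4), (1, 2, 4), (0, 1, 8), (1, 2, 8), (1, 2, 8)] :=
  sound_leaf (K := 237) (L := ⟨(-7549747), 1558780, 96362, 3880257, 430158, 758860, 151993, 0, 0, 0⟩) r19_ok (by decide +kernel)

def r19_leaf38 :
    Sound r19R [(1, 2, 4), (1, 2, 4), (0, 1, 8), (0, 1, 8), (0, 1, 8)] :=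
  sound_empty (K := 153) (q := 11) r19_ok (by decide +kernel)

def r19_leaf39 :
    Sound r19R [(1, 2, 4), (1, 2, 4), (0, 1, 8), (0, 1, 8), (1, 2, 8)] :=
  sound_leaf (K := 237) (L := ⟨(-7130317), 1659057, 102449, 3809998, 437696, 789542, 152200, 0, 0, 0⟩) r19_ok (by decide +kernel)

def r19_leaf40 :
    Sound r19R [(1, 2, 4), (1, 2, 4), (0, 1, 8), (1, 2, 8), (0, 1, 16)] :=
  sound_empty (K := 159) (q := 11) r19_ok (by decide +kernel)

def r19_leaf41 :
    Sound r19R [(1, 2, 4), (1, 2, 4), (0, 1, 8), (1, 2, 8), (1, 2, 16)] :=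
  sound_leaf (K := 243) (L := ⟨(-7549747), 1469165, 104510, 4227171, 515510, 808179, 164785, 0, 0, 0⟩) r19_ok (by decide +kernel)

def r19_leaf42 :
    Sound r19R [(1, 2, 4), (1, 2, 4), (0, 1, 8), (1, 2, 8), (1, 2, 8)] :=
  sound_leaf (K := 237) (L := ⟨(-6710886), 1009533, 61158, 3464586, 455393, 775337, 146862, 0, 0, 0⟩) r19_ok (by decide +kernel)

def r19_leaf43 :
    Sound r19R [(0, 1, 2), (1, 2, 4), (1, 2, 8), (0, 1, 4), (0, 1, 8)] :=
  sound_empty (K := 141) (q := 11) r19_ok (by decide +kernel)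

def r19_leaf44 :
    Sound r19R [(0, 1, 2), (1, 2, 4), (1, 2, 8), (0, 1, 4), (1, 2, 8)] :=
  sound_leaf (K := 225) (L := ⟨(-9227469), 1411375, 64477, 3421481, 399972, 740993, 140475, 0, 0, 0⟩) r19_ok (by decide +kernel)

def r19_leaf45 :
    Sound r19R [(0, 1, 4), (0, 1, 2), (0, 1, 16), (2, 3, 8), (0, 1, 32)] :=
  sound_empty (K := 165) (q := 11) r19_ok (by decide +kernel)

def r19_leaf46 :
    Sound r19R [(0, 1, 4), (0, 1, 2), (0, 1, 16), (2, 3, 8), (1, 2, 32)] :=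
  sound_leaf (K := 249) (L := ⟨(-8388608), 1663449, 171648, 2987808, 583773, 612869, 142403, 0, 0, 0⟩) r19_ok (by decide +kernel)

def r19_leaf47 :
    Sound r19R [(0, 1, 4), (0, 1, 2), (0, 1, 16), (2, 3, 8), (1, 2, 16)] :=
  sound_leaf (K := 244) (L := ⟨(-7969178), 1407899, 99918, 4556144, 535358, 808678, 173856, 0, 0, 0⟩) r19_ok (by decide +kernel)

def r19_leaf48 :
    Sound r19R [(0, 1, 4), (0, 1, 2), (1, 2, 16), (2, 3, 8), (0, 1, 8)] :=
  sound_leaf (K := 237) (L := ⟨(-8388608), 1460543, 175773, 3753599, 513845, 593688, 131189, 0, 0, 0⟩) r19_ok (by decide +kernel)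

def r19_leaf49 :
    Sound r19R [(0, 1, 4), (0, 1, 2), (0, 1, 8), (2, 3, 8), (1, 2, 8)] :=
  sound_leaf (K := 231) (L := ⟨(-7130317), 921722, 53201, 3687244, 454344, 768478, 148947, 0, 0, 0⟩) r19_ok (by decide +kernel)

def r19_leaf50 :
    Sound r19R [(1, 2, 4), (0, 1, 2), (0, 1, 8), (2, 3, 8), (0, 1, 4)] :=
  sound_leaf (K := 225) (L := ⟨(-7969178), 1118635, 71948, 5274781, 478283, 443828, 92955, 0, 0, 0⟩) r19_ok (by decide +kernel)

def r19_leaf51 :
    Sound r19R [(0, 1, 2), (0, 1, 2), (1, 2, 8), (2, 3, 8), (0, 1, 4)] :=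
  sound_leaf (K := 219) (L := ⟨(-7549747), 1016731, 65161, 3771593, 442815, 763311, 148957, 0, 0, 0⟩) r19_ok (by decide +kernel)

def r19_leaf52 :
    Sound r19R [(0, 1, 2), (0, 1, 2), (0, 1, 4), (3, 4, 8), (0, 1, 4)] :=
  sound_leaf (K := 213) (L := ⟨(-8388608), 795419, 32756, 3386163, 444010, 568545, 121164, 0, 0, 0⟩) r19_ok (by decide +kernel)

def r19_leaf53 :
    Sound r19R [(0, 1, 2), (0, 1, 2), (1, 2, 4), (0, 1, 4), (0, 1, 4)] :=
  sound_leaf (K := 206) (L := ⟨(-7969178), 997885, 32312, 2521027, 375188, 302255, 77403, 0, 0, 0⟩) r19_ok (by decide +kernel)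

def r19_leaf54 :
    Sound r19R [(0, 1, 2), (0, 1, 2), (1, 2, 4), (1, 2, 4), (0, 1, 4)] :=
  sound_leaf (K := 207) (L := ⟨(-6710886), 550199, 45810, 2926908, 406833, 713331, 130592, 0, 0, 0⟩) r19_ok (by decide +kernel)

def r19_leaf55 :
    Sound r19R [(0, 1, 2), (0, 1, 2), (0, 1, 2), (0, 1, 2), (1, 2, 4)] :=
  sound_leaf (K := 194) (L := ⟨(-8808038), 807645, 30830, 2784489, 326298, 694471, 126762, 0, 0, 0⟩) r19_ok (by decide +kernel)

def r19_leaf56 :
    Sound r19R [(0, 1, 4), (1, 2, 2), (0, 1, 8), (0, 1, 8), (0, 1, 8)] :=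
  sound_empty (K := 147) (q := 11) r19_ok (by decide +kernel)

def r19_leaf57 :
    Sound r19R [(0, 1, 8), (1, 2, 2), (0, 1, 8), (0, 1, 16), (4, 5, 32)] :=
  sound_empty (K := 171) (q := 11) r19_ok (by decide +kernel)

def r19_leaf58 :
    Sound r19R [(0, 1, 8), (2, 3, 4), (0, 1, 8), (0, 1, 32), (5, 6, 32)] :=
  sound_empty (K := 183) (q := 11) r19_ok (by decide +kernel)

end Vale.Agent.P100.Calib.LowEnd
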