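import Vale.Agent.P100.Calib.SlabLowEndR19Base

/-!
# Leaves 3 of the cover of root 19
-/

set_option maxRecDepth 100000
-- the heavy checks are definitions, so that they are checked one after another
set_option linter.defProp false

namespace Vale.Agent.P100.Calib.LowEnd

open Pack Band

def r19_leaf59 :
    Sound r19R [(0, 1, 8), (2, 3, 4), (0, 1, 8), (1, 2, 32), (5, 6, 32)] :=
  sound_leaf (K := 267) (L := ⟨(-7969178), 1846811, 168720, 2386673, 412850, 403246, 114124, 0, 0, 0⟩) r19_ok (by decide +kernel)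

def r19_leaf60 :
    Sound r19R [(0, 1, 8), (3, 4, 4), (0, 1, 8), (0, 1, 16), (5, 6, 32)] :=
  sound_empty (K := 177) (q := 11) r19_ok (by decide +kernel)

def r19_leaf61 :
    Sound r19R [(0, 1, 8), (1, 2, 2), (0, 1, 16), (2, 3, 32), (4, 5, 32)] :=
  sound_empty (K := 183) (q := 11) r19_ok (by decide +kernel)

def r19_leaf62 :
    Sound r19R [(0, 1, 8), (1, 2, 2), (0, 1, 16), (2, 3, 32), (5, 6, 32)] :=
  sound_leaf (K := 267) (L := ⟨(-8388608), 1919630, 185820, 4132710, 407597, 720499, 159437, 0, 0, 0⟩) r19_ok (by decide +kernel)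

def r19_leaf63 :
    Sound r19R [(0, 1, 8), (1, 2, 2), (0, 1, 16), (3, 4, 32), (2, 3, 16)] :=
  sound_leaf (K := 261) (L := ⟨(-8388608), 1837011, 178287, 2465855, 420176, 395938, 88081, 0, 0, 0⟩) r19_ok (by decide +kernel)

def r19_leaf64 :
    Sound r19R [(0, 1, 8), (1, 2, 2), (1, 2, 16), (1, 2, 16), (2, 3, 16)] :=
  sound_leaf (K := 255) (L := ⟨(-7969178), 1640864, 149630, 3781719, 408233, 707317, 149059, 0, 0, 0⟩) r19_ok (by decide +kernel)

def r19_leaf65 :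
    Sound r19R [(1, 2, 8), (1, 2, 2), (0, 1, 8), (0, 1, 16), (4, 5, 32)] :=
  sound_empty (K := 171) (q := 11) r19_ok (by decide +kernel)

def r19_leaf66 :
    Sound r19R [(1, 2, 8), (1, 2, 2), (0, 1, 8), (0, 1, 16), (5, 6, 32)] :=
  sound_leaf (K := 255) (L := ⟨(-7969178), 2147547, 200839, 3906024, 405659, 537825, 113512, 0, 0, 0⟩) r19_ok (by decide +kernel)

def r19_leaf67 :
    Sound r19R [(1, 2, 8), (1, 2, 2), (0, 1, 8), (1, 2, 16), (2, 3, 16)] :=
  sound_leaf (K := 249) (L := ⟨(-7969178), 1595721, 179255, 3090660, 418730, 535554, 153546, 0, 0, 0⟩) r19_ok (by decide +kernel)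

def r19_leaf68 :
    Sound r19R [(0, 1, 4), (1, 2, 2), (0, 1, 8), (0, 1, 8), (3, 4, 16)] :=
  sound_leaf (K := 237) (L := ⟨(-7969178), 2003361, 175195, 2965070, 379048, 521916, 147892, 0, 0, 0⟩) r19_ok (by decide +kernel)

def r19_leaf69 :
    Sound r19R [(0, 1, 4), (1, 2, 2), (0, 1, 8), (1, 2, 8), (0, 1, 16)] :=
  sound_empty (K := 153) (q := 11) r19_ok (by decide +kernel)

def r19_leaf70 :
    Sound r19R [(0, 1, 4), (1, 2, 2), (0, 1, 8), (1, 2, 8), (2, 3, 32)] :=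
  sound_empty (K := 159) (q := 11) r19_ok (by decide +kernel)

def r19_leaf71 :
    Sound r19R [(0, 1, 8), (2, 3, 4), (0, 1, 8), (1, 2, 8), (3, 4, 32)] :=
  sound_leaf (K := 255) (L := ⟨(-8388608), 1922543, 192237, 2533000, 455289, 404550, 89914, 0, 0, 0⟩) r19_ok (by decide +kernel)

def r19_leaf72 :
    Sound r19R [(0, 1, 8), (3, 4, 4), (0, 1, 8), (2, 3, 16), (3, 4, 32)] :=
  sound_empty (K := 177) (q := 11) r19_ok (by decide +kernel)

def r19_leaf73 :
    Sound r19R [(0, 1, 8), (3, 4, 4), (0, 1, 8), (3, 4, 16), (3, 4, 32)] :=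
  sound_leaf (K := 261) (L := ⟨(-8388608), 1743465, 171037, 3932023, 445988, 696289, 156490, 0, 0, 0⟩) r19_ok (by decide +kernel)

def r19_leaf74 :
    Sound r19R [(1, 2, 8), (1, 2, 2), (0, 1, 8), (1, 2, 8), (3, 4, 32)] :=
  sound_leaf (K := 249) (L := ⟨(-8388608), 1772715, 176524, 4118371, 446656, 725969, 162102, 0, 0, 0⟩) r19_ok (by decide +kernel)

def r19_leaf75 :
    Sound r19R [(0, 1, 4), (1, 2, 2), (0, 1, 8), (1, 2, 8), (1, 2, 8)] :=
  sound_leaf (K := 231) (L := ⟨(-8388608), 1695362, 153002, 3074633, 390277, 698602, 153133, 0, 0, 0⟩) r19_ok (by decide +kernel)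

def r19_leaf76 :
    Sound r19R [(1, 2, 4), (1, 2, 2), (0, 1, 8), (0, 1, 8), (0, 1, 8)] :=
  sound_empty (K := 147) (q := 11) r19_ok (by decide +kernel)

def r19_leaf77 :
    Sound r19R [(1, 2, 4), (1, 2, 2), (0, 1, 8), (1, 2, 8), (0, 1, 16)] :=
  sound_empty (K := 153) (q := 11) r19_ok (by decide +kernel)

def r19_leaf78 :
    Sound r19R [(1, 2, 4), (1, 2, 2), (0, 1, 8), (1, 2, 8), (1, 2, 16)] :=
  sound_leaf (K := 237) (L := ⟨(-8388608), 1624709, 163964, 3347272, 458311, 743873, 166810, 0, 0, 0⟩) r19_ok (by decide +kernel)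

def r19_leaf79 :
    Sound r19R [(1, 2, 4), (1, 2, 2), (0, 1, 8), (0, 1, 4), (1, 2, 8)] :=
  sound_leaf (K := 225) (L := ⟨(-7969178), 1589393, 83189, 3750875, 398713, 395828, 83751, 0, 0, 0⟩) r19_ok (by decide +kernel)

def r19_leaf80 :
    Sound r19R [(0, 1, 2), (1, 2, 2), (1, 2, 8), (0, 1, 4), (0, 1, 8)] :=
  sound_empty (K := 135) (q := 11) r19_ok (by decide +kernel)

def r19_leaf81 :
    Sound r19R [(0, 1, 2), (1, 2, 2), (1, 2, 8), (0, 1, 4), (1, 2, 8)] :=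
  sound_leaf (K := 218) (L := ⟨(-7969178), 1511493, 135848, 2040268, 364529, 506588, 141132, 0, 0, 0⟩) r19_ok (by decide +kernel)

def r19_leaf82 :
    Sound r19R [(0, 1, 2), (1, 2, 2), (1, 2, 4), (0, 1, 8), (0, 1, 4)] :=
  sound_empty (K := 129) (q := 11) r19_ok (by decide +kernel)

def r19_leaf83 :
    Sound r19R [(0, 1, 2), (1, 2, 2), (1, 2, 4), (1, 2, 8), (0, 1, 4)] :=
  sound_leaf (K := 213) (L := ⟨(-10066330), 1195018, 99731, 3175506, 351402, 657939, 132915, 0, 0, 0⟩) r19_ok (by decide +kernel)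

def r19_leaf84 :
    Sound r19R [(0, 1, 4), (1, 2, 2), (0, 1, 16), (2, 3, 8), (0, 1, 32)] :=
  sound_empty (K := 165) (q := 11) r19_ok (by decide +kernel)

def r19_leaf85 :
    Sound r19R [(0, 1, 4), (1, 2, 2), (0, 1, 16), (2, 3, 8), (1, 2, 32)] :=
  sound_leaf (K := 249) (L := ⟨(-9227469), 1800232, 205058, 1375070, 505918, 545143, 89252, 0, 0, 0⟩) r19_ok (by decide +kernel)

def r19_leaf86 :
    Sound r19R [(0, 1, 4), (1, 2, 2), (0, 1, 16), (2, 3, 8), (1, 2, 16)] :=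
  sound_leaf (K := 243) (L := ⟨(-8808038), 1515513, 121931, 4301307, 470277, 719754, 171096, 0, 0, 0⟩) r19_ok (by decide +kernel)

def r19_leaf87 :
    Sound r19R [(0, 1, 4), (1, 2, 2), (1, 2, 16), (2, 3, 8), (0, 1, 8)] :=
  sound_leaf (K := 237) (L := ⟨(-9227469), 1563215, 207180, 3526455, 451364, 528430, 129056, 0, 0, 0⟩) r19_ok (by decide +kernel)

end Vale.Agent.P100.Calib.LowEnd
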