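import Vale.Agent.P100.Calib.SlabLowEndR19Base

/-!
# Leaves 4 of the cover of root 19
-/

set_option maxRecDepth 100000
-- the heavy checks are definitions, so that they are checked one after another
set_option linter.defProp false

namespace Vale.Agent.P100.Calib.LowEnd

open Pack Band

def r19_leaf88 :
    Sound r19R [(0, 1, 4), (1, 2, 2), (0, 1, 8), (2, 3, 8), (1, 2, 8)] :=
  sound_leaf (K := 231) (L := ⟨(-7969178), 972513, 67977, 3523002, 406313, 684276, 146669, 0, 0, 0⟩) r19_ok (by decide +kernel)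

def r19_leaf89 :
    Sound r19R [(0, 1, 4), (1, 2, 2), (1, 2, 8), (2, 3, 8), (0, 1, 4)] :=
  sound_leaf (K := 225) (L := ⟨(-8388608), 1145271, 84260, 3577573, 392951, 672796, 145329, 0, 0, 0⟩) r19_ok (by decide +kernel)

def r19_leaf90 :
    Sound r19R [(1, 2, 4), (1, 2, 2), (0, 1, 4), (2, 3, 8), (0, 1, 4)] :=
  sound_leaf (K := 219) (L := ⟨(-8808038), 1096513, 61168, 4750881, 403248, 386039, 87373, 0, 0, 0⟩) r19_ok (by decide +kernel)

def r19_leaf91 :
    Sound r19R [(0, 1, 2), (1, 2, 2), (0, 1, 4), (3, 4, 8), (0, 1, 4)] :=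
  sound_leaf (K := 213) (L := ⟨(-9227469), 823398, 39279, 3161722, 396772, 504475, 118769, 0, 0, 0⟩) r19_ok (by decide +kernel)

def r19_leaf92 :
    Sound r19R [(0, 1, 2), (1, 2, 2), (1, 2, 4), (1, 2, 4), (0, 1, 4)] :=
  sound_leaf (K := 206) (L := ⟨(-7549747), 562210, 52876, 2814755, 363238, 635209, 128729, 0, 0, 0⟩) r19_ok (by decide +kernel)

def r19_leaf93 :
    Sound r19R [(0, 1, 2), (1, 2, 2), (0, 1, 2), (0, 1, 2), (1, 2, 4)] :=
  sound_leaf (K := 194) (L := ⟨(-9646899), 629671, 55870, 2136750, 297296, 619308, 92690, 0, 0, 0⟩) r19_ok (by decide +kernel)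

def r19_leaf94 :
    Sound r19R [(1, 2, 2), (0, 1, 1), (0, 1, 4), (0, 1, 4), (0, 1, 16)] :=
  sound_empty (K := 129) (q := 11) r19_ok (by decide +kernel)

def r19_leaf95 :
    Sound r19R [(1, 2, 2), (0, 1, 1), (0, 1, 4), (0, 1, 4), (1, 2, 16)] :=
  sound_leaf (K := 213) (L := ⟨(-7969178), 1346924, 52129, 5078452, 460259, 582411, 112303, 0, 0, 0⟩) r19_ok (by decide +kernel)

def r19_leaf96 :
    Sound r19R [(1, 2, 2), (0, 1, 1), (0, 1, 4), (0, 1, 4), (1, 2, 8)] :=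
  sound_leaf (K := 207) (L := ⟨(-7130317), 1116748, 66582, 3437873, 417535, 767395, 148697, 0, 0, 0⟩) r19_ok (by decide +kernel)

def r19_leaf97 :
    Sound r19R [(1, 2, 2), (0, 1, 1), (1, 2, 4), (0, 1, 4), (0, 1, 4)] :=
  sound_leaf (K := 201) (L := ⟨(-8388608), 714776, 66657, 2739868, 412223, 730506, 132449, 0, 0, 0⟩) r19_ok (by decide +kernel)

def r19_leaf98 :
    Sound r19R [(1, 2, 2), (0, 1, 1), (0, 1, 2), (1, 2, 4), (0, 1, 4)] :=
  sound_leaf (K := 194) (L := ⟨(-7549747), 527641, 48092, 2630161, 420330, 540786, 107454, 0, 0, 0⟩) r19_ok (by decide +kernel)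

def r19_leaf99 :
    Sound r19R [(1, 2, 2), (0, 1, 1), (0, 1, 2), (0, 1, 2), (1, 2, 4)] :=
  sound_leaf (K := 188) (L := ⟨(-5452595), 543887, 12208, 2065017, 343070, 678526, 124539, 0, 0, 0⟩) r19_ok (by decide +kernel)

def r19_leaf100 :
    Sound r19R [(0, 1, 1), (0, 1, 1), (0, 1, 2), (2, 3, 4), (0, 1, 2)] :=
  sound_leaf (K := 181) (L := ⟨(-8388608), 185460, (-11999), 1865839, 346298, 488899, 75916, 0, 0, 0⟩) r19_ok (by decide +kernel)

def r19_leaf101 :
    Sound r19R [(0, 1, 1), (0, 1, 1), (0, 1, 8), (6, 7, 8), (0, 1, 4)] :=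
  sound_leaf (K := 207) (L := ⟨(-8808038), (-431339), (-87373), 3129788, 457148, 717141, 123093, 0, 0, 0⟩) r19_ok (by decide +kernel)

def r19_leaf102 :
    Sound r19R [(0, 1, 1), (0, 1, 1), (0, 1, 8), (14, 15, 16), (0, 1, 16)] :=
  sound_leaf (K := 225) (L := ⟨(-9227469), (-769963), (-161774), 3397630, 570795, 731843, 135770, 0, 0, 0⟩) r19_ok (by decide +kernel)

def r19_leaf103 :
    Sound r19R [(0, 1, 2), (0, 1, 2), (0, 1, 32), (15, 16, 16), (0, 1, 64)] :=
  sound_leaf (K := 262) (L := ⟨(-9227469), (-1293434), (-205239), 5174154, 704995, 203720, 73585, 4906436863254967863790716, 0, 0⟩) r19_ok (by decide +kernel)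

def r19_leaf104 :
    Sound r19R [(0, 1, 2), (1, 2, 2), (0, 1, 32), (15, 16, 16), (0, 1, 64)] :=
  sound_leaf (K := 261) (L := ⟨(-10066330), (-1324224), (-232501), 2653815, 610170, 509761, 109298, 0, 0, 0⟩) r19_ok (by decide +kernel)

def r19_leaf105 :
    Sound r19R [(0, 1, 2), (0, 1, 1), (0, 1, 32), (15, 16, 16), (1, 2, 64)] :=
  sound_leaf (K := 256) (L := ⟨(-9646899), (-1150425), (-197685), 4544921, 617184, 724428, 198396, 0, 0, 0⟩) r19_ok (by decide +kernel)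

def r19_leaf106 :
    Sound r19R [(0, 1, 2), (0, 1, 1), (0, 1, 32), (15, 16, 16), (1, 2, 32)] :=
  sound_leaf (K := 250) (L := ⟨(-9227469), (-942253), (-164631), 4262436, 602656, 717159, 183181, 0, 0, 0⟩) r19_ok (by decide +kernel)

def r19_leaf107 :
    Sound r19R [(0, 1, 2), (0, 1, 1), (1, 2, 32), (15, 16, 16), (0, 1, 16)] :=
  sound_leaf (K := 244) (L := ⟨(-9646899), (-1021003), (-174251), 4391813, 568822, 712102, 189048, 0, 0, 0⟩) r19_ok (by decide +kernel)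

def r19_leaf108 :
    Sound r19R [(1, 2, 2), (0, 1, 1), (0, 1, 16), (15, 16, 16), (0, 1, 16)] :=
  sound_leaf (K := 237) (L := ⟨(-8808038), (-1087978), (-170132), 4261904, 613161, 418453, 101974, 0, 0, 0⟩) r19_ok (by decide +kernel)

def r19_leaf109 :
    Sound r19R [(0, 1, 1), (0, 1, 1), (1, 2, 16), (15, 16, 16), (0, 1, 16)] :=
  sound_leaf (K := 231) (L := ⟨(-9227469), (-860444), (-138371), 4079231, 554422, 715803, 176117, 0, 0, 0⟩) r19_ok (by decide +kernel)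

def r19_leaf110 :
    Sound r19R [(0, 1, 1), (0, 1, 1), (0, 1, 8), (7, 8, 8), (1, 2, 16)] :=
  sound_leaf (K := 219) (L := ⟨(-8388608), (-599973), (-106392), 3649222, 529014, 709791, 161243, 0, 0, 0⟩) r19_ok (by decide +kernel)

def r19_leaf111 :
    Sound r19R [(0, 1, 1), (0, 1, 1), (0, 1, 8), (7, 8, 8), (1, 2, 8)] :=
  sound_empty (K := 130) (q := 12) r19_ok (by decide +kernel)

def r19_leaf112 :
    Sound r19R [(0, 1, 1), (0, 1, 1), (1, 2, 8), (3, 4, 4), (0, 1, 4)] :=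
  sound_leaf (K := 201) (L := ⟨(-8388608), (-532440), (-70030), 3335315, 427230, 677196, 147743, 0, 0, 0⟩) r19_ok (by decide +kernel)

def r19_leaf113 :
    Sound r19R [(0, 1, 1), (0, 1, 1), (1, 2, 4), (3, 4, 4), (0, 1, 4)] :=
  sound_leaf (K := 194) (L := ⟨(-7130317), (-310725), (-32715), 2492458, 403301, 635204, 128793, 0, 0, 0⟩) r19_ok (by decide +kernel)

def r19_leaf114 :
    Sound r19R [(0, 1, 1), (0, 1, 1), (0, 1, 2), (3, 4, 4), (1, 2, 4)] :=
  sound_leaf (K := 188) (L := ⟨(-5872026), (-170897), (-53003), 1919295, 338296, 612618, 120931, 0, 0, 0⟩) r19_ok (by decide +kernel)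

def r19_leaf115 :
    Sound r19R [(0, 1, 1), (0, 1, 1), (0, 1, 2), (0, 1, 1), (1, 2, 2)] :=
  sound_leaf (K := 169) (L := ⟨(-5452595), 387540, (-46561), 1686886, 262110, 597337, 111978, 0, 0, 0⟩) r19_ok (by decide +kernel)

def r19_leaf116 :
    Sound r19R [(0, 1, 1), (0, 1, 1), (1, 2, 2), (0, 1, 1), (0, 1, 1)] :=
  sound_leaf (K := 163) (L := ⟨(-8388608), 241242, 14496, 1611881, 249695, 544385, 106306, 0, 0, 0⟩) r19_ok (by decide +kernel)

end Vale.Agent.P100.Calib.LowEnd
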