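import Vale.Agent.P100.Calib.SlabLowEndR19LeavesA
import Vale.Agent.P100.Calib.SlabLowEndR19LeavesB
import Vale.Agent.P100.Calib.SlabLowEndR19LeavesC
import Vale.Agent.P100.Calib.SlabLowEndR19LeavesD

/-!
# The cover of root 19
-/

set_option maxRecDepth 100000
-- the heavy checks are definitions, so that they are checked one after another
set_option linter.defProp false

namespace Vale.Agent.P100.Calib.LowEnd

open Pack Band

theorem r19_node0 :
    Sound r19R [(0, 1, 2), (0, 1, 4), (0, 1, 8), (1, 2, 16), (3, 4, 32)] :=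
  sound_node (j := 4) (by decide) r19_leaf3 r19_leaf4

theorem r19_node1 :
    Sound r19R [(0, 1, 2), (0, 1, 4), (0, 1, 8), (1, 2, 16), (1, 2, 16)] :=
  sound_node (j := 4) (by decide) r19_leaf2 r19_node0

theorem r19_node2 :
    Sound r19R [(0, 1, 2), (0, 1, 4), (0, 1, 8), (0, 1, 8), (1, 2, 16)] :=
  sound_node (j := 3) (by decide) r19_leaf1 r19_node1

theorem r19_node3 :
    Sound r19R [(0, 1, 8), (0, 1, 4), (0, 1, 8), (2, 3, 16), (1, 2, 16)] :=
  sound_node (j := 4) (by decide) r19_leaf5 r19_leaf6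

theorem r19_node4 :
    Sound r19R [(0, 1, 8), (0, 1, 4), (0, 1, 8), (1, 2, 8), (1, 2, 16)] :=
  sound_node (j := 3) (by decide) r19_node3 r19_leaf7

theorem r19_node5 :
    Sound r19R [(0, 1, 4), (0, 1, 4), (0, 1, 8), (1, 2, 8), (1, 2, 16)] :=
  sound_node (j := 0) (by decide) r19_node4 r19_leaf8

theorem r19_node6 :
    Sound r19R [(0, 1, 2), (0, 1, 4), (0, 1, 8), (1, 2, 8), (1, 2, 16)] :=
  sound_node (j := 0) (by decide) r19_node5 r19_leaf9

theorem r19_node7 :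
    Sound r19R [(0, 1, 2), (0, 1, 4), (0, 1, 8), (0, 1, 4), (1, 2, 16)] :=
  sound_node (j := 3) (by decide) r19_node2 r19_node6

theorem r19_node8 :
    Sound r19R [(0, 1, 2), (0, 1, 4), (0, 1, 8), (0, 1, 4), (0, 1, 8)] :=
  sound_node (j := 4) (by decide) r19_leaf0 r19_node7

theorem r19_node9 :
    Sound r19R [(0, 1, 8), (0, 1, 4), (0, 1, 32), (0, 1, 32), (4, 5, 32)] :=
  sound_node (j := 4) (by decide) r19_leaf10 r19_leaf11

theorem r19_node10 :
    Sound r19R [(0, 1, 8), (0, 1, 4), (0, 1, 32), (0, 1, 16), (4, 5, 32)] :=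
  sound_node (j := 3) (by decide) r19_node9 r19_leaf12

theorem r19_node11 :
    Sound r19R [(0, 1, 8), (0, 1, 4), (0, 1, 32), (0, 1, 16), (2, 3, 16)] :=
  sound_node (j := 4) (by decide) r19_node10 r19_leaf13

theorem r19_node12 :
    Sound r19R [(0, 1, 8), (0, 1, 4), (0, 1, 16), (0, 1, 16), (2, 3, 16)] :=
  sound_node (j := 2) (by decide) r19_node11 r19_leaf14

theorem r19_node13 :
    Sound r19R [(0, 1, 8), (0, 1, 4), (0, 1, 16), (0, 1, 16), (1, 2, 8)] :=
  sound_node (j := 4) (by decide) r19_node12 r19_leaf15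

theorem r19_node14 :
    Sound r19R [(0, 1, 8), (0, 1, 4), (0, 1, 8), (0, 1, 16), (1, 2, 8)] :=
  sound_node (j := 2) (by decide) r19_node13 r19_leaf16

theorem r19_node15 :
    Sound r19R [(0, 1, 8), (0, 1, 4), (0, 1, 8), (0, 1, 8), (1, 2, 8)] :=
  sound_node (j := 3) (by decide) r19_node14 r19_leaf17

theorem r19_node16 :
    Sound r19R [(0, 1, 4), (0, 1, 4), (0, 1, 8), (0, 1, 8), (1, 2, 8)] :=
  sound_node (j := 0) (by decide) r19_node15 r19_leaf18

theorem r19_node17 :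
    Sound r19R [(0, 1, 4), (0, 1, 4), (0, 1, 8), (0, 1, 4), (1, 2, 8)] :=
  sound_node (j := 3) (by decide) r19_node16 r19_leaf19

theorem r19_node18 :
    Sound r19R [(0, 1, 2), (0, 1, 4), (0, 1, 8), (0, 1, 4), (1, 2, 8)] :=
  sound_node (j := 0) (by decide) r19_node17 r19_leaf20

theorem r19_node19 :
    Sound r19R [(0, 1, 2), (0, 1, 4), (0, 1, 8), (0, 1, 4), (0, 1, 4)] :=
  sound_node (j := 4) (by decide) r19_node8 r19_node18

theorem r19_node20 :
    Sound r19R [(0, 1, 2), (0, 1, 4), (1, 2, 8), (0, 1, 4), (0, 1, 4)] :=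
  sound_node (j := 4) (by decide) r19_leaf21 r19_leaf22

theorem r19_node21 :
    Sound r19R [(0, 1, 2), (0, 1, 4), (0, 1, 4), (0, 1, 4), (0, 1, 4)] :=
  sound_node (j := 2) (by decide) r19_node19 r19_node20

theorem r19_node22 :
    Sound r19R [(0, 1, 8), (1, 2, 4), (0, 1, 16), (1, 2, 32), (4, 5, 32)] :=
  sound_node (j := 4) (by decide) r19_leaf30 r19_leaf31

theorem r19_node23 :
    Sound r19R [(0, 1, 8), (1, 2, 4), (0, 1, 16), (0, 1, 16), (4, 5, 32)] :=
  sound_node (j := 3) (by decide) r19_leaf29 r19_node22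

theorem r19_node24 :
    Sound r19R [(0, 1, 8), (1, 2, 4), (0, 1, 16), (0, 1, 16), (2, 3, 16)] :=
  sound_node (j := 4) (by decide) r19_node23 r19_leaf32

theorem r19_node25 :
    Sound r19R [(0, 1, 8), (1, 2, 4), (0, 1, 16), (0, 1, 8), (2, 3, 16)] :=
  sound_node (j := 3) (by decide) r19_node24 r19_leaf33

theorem r19_node26 :
    Sound r19R [(0, 1, 8), (1, 2, 4), (0, 1, 16), (0, 1, 8), (1, 2, 8)] :=
  sound_node (j := 4) (by decide) r19_node25 r19_leaf34

theorem r19_node27 :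
    Sound r19R [(0, 1, 8), (1, 2, 4), (0, 1, 8), (0, 1, 8), (1, 2, 8)] :=
  sound_node (j := 2) (by decide) r19_node26 r19_leaf35

theorem r19_node28 :
    Sound r19R [(0, 1, 4), (1, 2, 4), (0, 1, 8), (0, 1, 8), (1, 2, 8)] :=
  sound_node (j := 0) (by decide) r19_node27 r19_leaf36

theorem r19_node29 :
    Sound r19R [(0, 1, 4), (1, 2, 4), (0, 1, 8), (0, 1, 8), (0, 1, 4)] :=
  sound_node (j := 4) (by decide) r19_leaf23 r19_node28

theorem r19_node30 :
    Sound r19R [(0, 1, 8), (1, 2, 4), (0, 1, 8), (2, 3, 16), (1, 2, 16)] :=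
  sound_node (j := 4) (by decide) r19_leaf25 r19_leaf26

theorem r19_node31 :
    Sound r19R [(0, 1, 8), (1, 2, 4), (0, 1, 8), (1, 2, 8), (1, 2, 16)] :=
  sound_node (j := 3) (by decide) r19_node30 r19_leaf27

theorem r19_node32 :
    Sound r19R [(0, 1, 4), (1, 2, 4), (0, 1, 8), (1, 2, 8), (1, 2, 16)] :=
  sound_node (j := 0) (by decide) r19_node31 r19_leaf28

theorem r19_node33 :
    Sound r19R [(0, 1, 4), (1, 2, 4), (0, 1, 8), (1, 2, 8), (0, 1, 8)] :=
  sound_node (j := 4) (by decide) r19_leaf24 r19_node32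

theorem r19_node34 :
    Sound r19R [(0, 1, 4), (1, 2, 4), (0, 1, 8), (1, 2, 8), (0, 1, 4)] :=
  sound_node (j := 4) (by decide) r19_node33 r19_leaf37

theorem r19_node35 :
    Sound r19R [(0, 1, 4), (1, 2, 4), (0, 1, 8), (0, 1, 4), (0, 1, 4)] :=
  sound_node (j := 3) (by decide) r19_node29 r19_node34

theorem r19_node36 :
    Sound r19R [(1, 2, 4), (1, 2, 4), (0, 1, 8), (0, 1, 8), (0, 1, 4)] :=
  sound_node (j := 4) (by decide) r19_leaf38 r19_leaf39

theorem r19_node37 :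
    Sound r19R [(1, 2, 4), (1, 2, 4), (0, 1, 8), (1, 2, 8), (0, 1, 8)] :=
  sound_node (j := 4) (by decide) r19_leaf40 r19_leaf41

theorem r19_node38 :
    Sound r19R [(1, 2, 4), (1, 2, 4), (0, 1, 8), (1, 2, 8), (0, 1, 4)] :=
  sound_node (j := 4) (by decide) r19_node37 r19_leaf42

theorem r19_node39 :
    Sound r19R [(1, 2, 4), (1, 2, 4), (0, 1, 8), (0, 1, 4), (0, 1, 4)] :=
  sound_node (j := 3) (by decide) r19_node36 r19_node38

theorem r19_node40 :
    Sound r19R [(0, 1, 2), (1, 2, 4), (0, 1, 8), (0, 1, 4), (0, 1, 4)] :=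
  sound_node (j := 0) (by decide) r19_node35 r19_node39

theorem r19_node41 :
    Sound r19R [(0, 1, 2), (1, 2, 4), (1, 2, 8), (0, 1, 4), (0, 1, 4)] :=
  sound_node (j := 4) (by decide) r19_leaf43 r19_leaf44

theorem r19_node42 :
    Sound r19R [(0, 1, 2), (1, 2, 4), (0, 1, 4), (0, 1, 4), (0, 1, 4)] :=
  sound_node (j := 2) (by decide) r19_node40 r19_node41

theorem r19_node43 :
    Sound r19R [(0, 1, 2), (0, 1, 2), (0, 1, 4), (0, 1, 4), (0, 1, 4)] :=
  sound_node (j := 1) (by decide) r19_node21 r19_node42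

theorem r19_node44 :
    Sound r19R [(0, 1, 4), (0, 1, 2), (0, 1, 16), (2, 3, 8), (0, 1, 16)] :=
  sound_node (j := 4) (by decide) r19_leaf45 r19_leaf46

theorem r19_node45 :
    Sound r19R [(0, 1, 4), (0, 1, 2), (0, 1, 16), (2, 3, 8), (0, 1, 8)] :=
  sound_node (j := 4) (by decide) r19_node44 r19_leaf47

theorem r19_node46 :
    Sound r19R [(0, 1, 4), (0, 1, 2), (0, 1, 8), (2, 3, 8), (0, 1, 8)] :=
  sound_node (j := 2) (by decide) r19_node45 r19_leaf48

theorem r19_node47 :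
    Sound r19R [(0, 1, 4), (0, 1, 2), (0, 1, 8), (2, 3, 8), (0, 1, 4)] :=
  sound_node (j := 4) (by decide) r19_node46 r19_leaf49

theorem r19_node48 :
    Sound r19R [(0, 1, 2), (0, 1, 2), (0, 1, 8), (2, 3, 8), (0, 1, 4)] :=
  sound_node (j := 0) (by decide) r19_node47 r19_leaf50

theorem r19_node49 :
    Sound r19R [(0, 1, 2), (0, 1, 2), (0, 1, 4), (2, 3, 8), (0, 1, 4)] :=
  sound_node (j := 2) (by decide) r19_node48 r19_leaf51

theorem r19_node50 :
    Sound r19R [(0, 1, 2), (0, 1, 2), (0, 1, 4), (1, 2, 4), (0, 1, 4)] :=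
  sound_node (j := 3) (by decide) r19_node49 r19_leaf52

theorem r19_node51 :
    Sound r19R [(0, 1, 2), (0, 1, 2), (0, 1, 4), (0, 1, 2), (0, 1, 4)] :=
  sound_node (j := 3) (by decide) r19_node43 r19_node50

theorem r19_node52 :
    Sound r19R [(0, 1, 2), (0, 1, 2), (1, 2, 4), (0, 1, 2), (0, 1, 4)] :=
  sound_node (j := 3) (by decide) r19_leaf53 r19_leaf54

theorem r19_node53 :
    Sound r19R [(0, 1, 2), (0, 1, 2), (0, 1, 2), (0, 1, 2), (0, 1, 4)] :=
  sound_node (j := 2) (by decide) r19_node51 r19_node52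

theorem r19_node54 :
    Sound r19R [(0, 1, 2), (0, 1, 2), (0, 1, 2), (0, 1, 2), (0, 1, 2)] :=
  sound_node (j := 4) (by decide) r19_node53 r19_leaf55

theorem r19_node55 :
    Sound r19R [(0, 1, 8), (2, 3, 4), (0, 1, 8), (0, 1, 16), (5, 6, 32)] :=
  sound_node (j := 3) (by decide) r19_leaf58 r19_leaf59

theorem r19_node56 :
    Sound r19R [(0, 1, 8), (1, 2, 2), (0, 1, 8), (0, 1, 16), (5, 6, 32)] :=
  sound_node (j := 1) (by decide) r19_node55 r19_leaf60

theorem r19_node57 :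
    Sound r19R [(0, 1, 8), (1, 2, 2), (0, 1, 8), (0, 1, 16), (2, 3, 16)] :=
  sound_node (j := 4) (by decide) r19_leaf57 r19_node56

theorem r19_node58 :
    Sound r19R [(0, 1, 8), (1, 2, 2), (0, 1, 16), (2, 3, 32), (2, 3, 16)] :=
  sound_node (j := 4) (by decide) r19_leaf61 r19_leaf62

theorem r19_node59 :
    Sound r19R [(0, 1, 8), (1, 2, 2), (0, 1, 16), (1, 2, 16), (2, 3, 16)] :=
  sound_node (j := 3) (by decide) r19_node58 r19_leaf63

theorem r19_node60 :
    Sound r19R [(0, 1, 8), (1, 2, 2), (0, 1, 8), (1, 2, 16), (2, 3, 16)] :=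
  sound_node (j := 2) (by decide) r19_node59 r19_leaf64

theorem r19_node61 :
    Sound r19R [(0, 1, 8), (1, 2, 2), (0, 1, 8), (0, 1, 8), (2, 3, 16)] :=
  sound_node (j := 3) (by decide) r19_node57 r19_node60

theorem r19_node62 :
    Sound r19R [(1, 2, 8), (1, 2, 2), (0, 1, 8), (0, 1, 16), (2, 3, 16)] :=
  sound_node (j := 4) (by decide) r19_leaf65 r19_leaf66

theorem r19_node63 :
    Sound r19R [(1, 2, 8), (1, 2, 2), (0, 1, 8), (0, 1, 8), (2, 3, 16)] :=
  sound_node (j := 3) (by decide) r19_node62 r19_leaf67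

theorem r19_node64 :
    Sound r19R [(0, 1, 4), (1, 2, 2), (0, 1, 8), (0, 1, 8), (2, 3, 16)] :=
  sound_node (j := 0) (by decide) r19_node61 r19_node63

theorem r19_node65 :
    Sound r19R [(0, 1, 4), (1, 2, 2), (0, 1, 8), (0, 1, 8), (1, 2, 8)] :=
  sound_node (j := 4) (by decide) r19_node64 r19_leaf68

theorem r19_node66 :
    Sound r19R [(0, 1, 4), (1, 2, 2), (0, 1, 8), (0, 1, 8), (0, 1, 4)] :=
  sound_node (j := 4) (by decide) r19_leaf56 r19_node65

theorem r19_node67 :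
    Sound r19R [(0, 1, 8), (3, 4, 4), (0, 1, 8), (1, 2, 8), (3, 4, 32)] :=
  sound_node (j := 3) (by decide) r19_leaf72 r19_leaf73

theorem r19_node68 :
    Sound r19R [(0, 1, 8), (1, 2, 2), (0, 1, 8), (1, 2, 8), (3, 4, 32)] :=
  sound_node (j := 1) (by decide) r19_leaf71 r19_node67

theorem r19_node69 :
    Sound r19R [(0, 1, 4), (1, 2, 2), (0, 1, 8), (1, 2, 8), (3, 4, 32)] :=
  sound_node (j := 0) (by decide) r19_node68 r19_leaf74

theorem r19_node70 :
    Sound r19R [(0, 1, 4), (1, 2, 2), (0, 1, 8), (1, 2, 8), (1, 2, 16)] :=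
  sound_node (j := 4) (by decide) r19_leaf70 r19_node69

theorem r19_node71 :
    Sound r19R [(0, 1, 4), (1, 2, 2), (0, 1, 8), (1, 2, 8), (0, 1, 8)] :=
  sound_node (j := 4) (by decide) r19_leaf69 r19_node70

theorem r19_node72 :
    Sound r19R [(0, 1, 4), (1, 2, 2), (0, 1, 8), (1, 2, 8), (0, 1, 4)] :=
  sound_node (j := 4) (by decide) r19_node71 r19_leaf75

theorem r19_node73 :
    Sound r19R [(0, 1, 4), (1, 2, 2), (0, 1, 8), (0, 1, 4), (0, 1, 4)] :=
  sound_node (j := 3) (by decide) r19_node66 r19_node72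

theorem r19_node74 :
    Sound r19R [(1, 2, 4), (1, 2, 2), (0, 1, 8), (1, 2, 8), (0, 1, 8)] :=
  sound_node (j := 4) (by decide) r19_leaf77 r19_leaf78

theorem r19_node75 :
    Sound r19R [(1, 2, 4), (1, 2, 2), (0, 1, 8), (0, 1, 4), (0, 1, 8)] :=
  sound_node (j := 3) (by decide) r19_leaf76 r19_node74

theorem r19_node76 :
    Sound r19R [(1, 2, 4), (1, 2, 2), (0, 1, 8), (0, 1, 4), (0, 1, 4)] :=
  sound_node (j := 4) (by decide) r19_node75 r19_leaf79

theorem r19_node77 :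
    Sound r19R [(0, 1, 2), (1, 2, 2), (0, 1, 8), (0, 1, 4), (0, 1, 4)] :=
  sound_node (j := 0) (by decide) r19_node73 r19_node76

theorem r19_node78 :
    Sound r19R [(0, 1, 2), (1, 2, 2), (1, 2, 8), (0, 1, 4), (0, 1, 4)] :=
  sound_node (j := 4) (by decide) r19_leaf80 r19_leaf81

theorem r19_node79 :
    Sound r19R [(0, 1, 2), (1, 2, 2), (0, 1, 4), (0, 1, 4), (0, 1, 4)] :=
  sound_node (j := 2) (by decide) r19_node77 r19_node78

theorem r19_node80 :
    Sound r19R [(0, 1, 4), (1, 2, 2), (0, 1, 16), (2, 3, 8), (0, 1, 16)] :=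
  sound_node (j := 4) (by decide) r19_leaf84 r19_leaf85

theorem r19_node81 :
    Sound r19R [(0, 1, 4), (1, 2, 2), (0, 1, 16), (2, 3, 8), (0, 1, 8)] :=
  sound_node (j := 4) (by decide) r19_node80 r19_leaf86

theorem r19_node82 :
    Sound r19R [(0, 1, 4), (1, 2, 2), (0, 1, 8), (2, 3, 8), (0, 1, 8)] :=
  sound_node (j := 2) (by decide) r19_node81 r19_leaf87

theorem r19_node83 :
    Sound r19R [(0, 1, 4), (1, 2, 2), (0, 1, 8), (2, 3, 8), (0, 1, 4)] :=
  sound_node (j := 4) (by decide) r19_node82 r19_leaf88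

theorem r19_node84 :
    Sound r19R [(0, 1, 4), (1, 2, 2), (0, 1, 4), (2, 3, 8), (0, 1, 4)] :=
  sound_node (j := 2) (by decide) r19_node83 r19_leaf89

theorem r19_node85 :
    Sound r19R [(0, 1, 2), (1, 2, 2), (0, 1, 4), (2, 3, 8), (0, 1, 4)] :=
  sound_node (j := 0) (by decide) r19_node84 r19_leaf90

theorem r19_node86 :
    Sound r19R [(0, 1, 2), (1, 2, 2), (0, 1, 4), (1, 2, 4), (0, 1, 4)] :=
  sound_node (j := 3) (by decide) r19_node85 r19_leaf91

theorem r19_node87 :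
    Sound r19R [(0, 1, 2), (1, 2, 2), (0, 1, 4), (0, 1, 2), (0, 1, 4)] :=
  sound_node (j := 3) (by decide) r19_node79 r19_node86

theorem r19_node88 :
    Sound r19R [(0, 1, 2), (1, 2, 2), (1, 2, 4), (0, 1, 4), (0, 1, 4)] :=
  sound_node (j := 3) (by decide) r19_leaf82 r19_leaf83

theorem r19_node89 :
    Sound r19R [(0, 1, 2), (1, 2, 2), (1, 2, 4), (0, 1, 2), (0, 1, 4)] :=
  sound_node (j := 3) (by decide) r19_node88 r19_leaf92

theorem r19_node90 :
    Sound r19R [(0, 1, 2), (1, 2, 2), (0, 1, 2), (0, 1, 2), (0, 1, 4)] :=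
  sound_node (j := 2) (by decide) r19_node87 r19_node89

theorem r19_node91 :
    Sound r19R [(0, 1, 2), (1, 2, 2), (0, 1, 2), (0, 1, 2), (0, 1, 2)] :=
  sound_node (j := 4) (by decide) r19_node90 r19_leaf93

theorem r19_node92 :
    Sound r19R [(0, 1, 2), (0, 1, 1), (0, 1, 2), (0, 1, 2), (0, 1, 2)] :=
  sound_node (j := 1) (by decide) r19_node54 r19_node91

theorem r19_node93 :
    Sound r19R [(1, 2, 2), (0, 1, 1), (0, 1, 4), (0, 1, 4), (0, 1, 8)] :=
  sound_node (j := 4) (by decide) r19_leaf94 r19_leaf95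

theorem r19_node94 :
    Sound r19R [(1, 2, 2), (0, 1, 1), (0, 1, 4), (0, 1, 4), (0, 1, 4)] :=
  sound_node (j := 4) (by decide) r19_node93 r19_leaf96

theorem r19_node95 :
    Sound r19R [(1, 2, 2), (0, 1, 1), (0, 1, 2), (0, 1, 4), (0, 1, 4)] :=
  sound_node (j := 2) (by decide) r19_node94 r19_leaf97

theorem r19_node96 :
    Sound r19R [(1, 2, 2), (0, 1, 1), (0, 1, 2), (0, 1, 2), (0, 1, 4)] :=
  sound_node (j := 3) (by decide) r19_node95 r19_leaf98

theorem r19_node97 :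
    Sound r19R [(1, 2, 2), (0, 1, 1), (0, 1, 2), (0, 1, 2), (0, 1, 2)] :=
  sound_node (j := 4) (by decide) r19_node96 r19_leaf99

theorem r19_node98 :
    Sound r19R [(0, 1, 1), (0, 1, 1), (0, 1, 2), (0, 1, 2), (0, 1, 2)] :=
  sound_node (j := 0) (by decide) r19_node92 r19_node97

theorem r19_node99 :
    Sound r19R [(0, 1, 2), (0, 1, 1), (0, 1, 32), (15, 16, 16), (0, 1, 64)] :=
  sound_node (j := 1) (by decide) r19_leaf103 r19_leaf104

theorem r19_node100 :
    Sound r19R [(0, 1, 2), (0, 1, 1), (0, 1, 32), (15, 16, 16), (0, 1, 32)] :=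
  sound_node (j := 4) (by decide) r19_node99 r19_leaf105

theorem r19_node101 :
    Sound r19R [(0, 1, 2), (0, 1, 1), (0, 1, 32), (15, 16, 16), (0, 1, 16)] :=
  sound_node (j := 4) (by decide) r19_node100 r19_leaf106

theorem r19_node102 :
    Sound r19R [(0, 1, 2), (0, 1, 1), (0, 1, 16), (15, 16, 16), (0, 1, 16)] :=
  sound_node (j := 2) (by decide) r19_node101 r19_leaf107

theorem r19_node103 :
    Sound r19R [(0, 1, 1), (0, 1, 1), (0, 1, 16), (15, 16, 16), (0, 1, 16)] :=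
  sound_node (j := 0) (by decide) r19_node102 r19_leaf108

theorem r19_node104 :
    Sound r19R [(0, 1, 1), (0, 1, 1), (0, 1, 8), (15, 16, 16), (0, 1, 16)] :=
  sound_node (j := 2) (by decide) r19_node103 r19_leaf109

theorem r19_node105 :
    Sound r19R [(0, 1, 1), (0, 1, 1), (0, 1, 8), (7, 8, 8), (0, 1, 16)] :=
  sound_node (j := 3) (by decide) r19_leaf102 r19_node104

theorem r19_node106 :
    Sound r19R [(0, 1, 1), (0, 1, 1), (0, 1, 8), (7, 8, 8), (0, 1, 8)] :=
  sound_node (j := 4) (by decide) r19_node105 r19_leaf110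

theorem r19_node107 :
    Sound r19R [(0, 1, 1), (0, 1, 1), (0, 1, 8), (7, 8, 8), (0, 1, 4)] :=
  sound_node (j := 4) (by decide) r19_node106 r19_leaf111

theorem r19_node108 :
    Sound r19R [(0, 1, 1), (0, 1, 1), (0, 1, 8), (3, 4, 4), (0, 1, 4)] :=
  sound_node (j := 3) (by decide) r19_leaf101 r19_node107

theorem r19_node109 :
    Sound r19R [(0, 1, 1), (0, 1, 1), (0, 1, 4), (3, 4, 4), (0, 1, 4)] :=
  sound_node (j := 2) (by decide) r19_node108 r19_leaf112

theorem r19_node110 :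
    Sound r19R [(0, 1, 1), (0, 1, 1), (0, 1, 2), (3, 4, 4), (0, 1, 4)] :=
  sound_node (j := 2) (by decide) r19_node109 r19_leaf113

theorem r19_node111 :
    Sound r19R [(0, 1, 1), (0, 1, 1), (0, 1, 2), (3, 4, 4), (0, 1, 2)] :=
  sound_node (j := 4) (by decide) r19_node110 r19_leaf114

theorem r19_node112 :
    Sound r19R [(0, 1, 1), (0, 1, 1), (0, 1, 2), (1, 2, 2), (0, 1, 2)] :=
  sound_node (j := 3) (by decide) r19_leaf100 r19_node111

theorem r19_node113 :
    Sound r19R [(0, 1, 1), (0, 1, 1), (0, 1, 2), (0, 1, 1), (0, 1, 2)] :=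
  sound_node (j := 3) (by decide) r19_node98 r19_node112

theorem r19_node114 :
    Sound r19R [(0, 1, 1), (0, 1, 1), (0, 1, 2), (0, 1, 1), (0, 1, 1)] :=
  sound_node (j := 4) (by decide) r19_node113 r19_leaf115

theorem r19_node115 :
    Sound r19R [(0, 1, 1), (0, 1, 1), (0, 1, 1), (0, 1, 1), (0, 1, 1)] :=
  sound_node (j := 2) (by decide) r19_node114 r19_leaf116

theorem r19_sound :
    Sound r19R [(0, 1, 1), (0, 1, 1), (0, 1, 1), (0, 1, 1), (0, 1, 1)] :=
  r19_node115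

end Vale.Agent.P100.Calib.LowEnd
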