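import Vale.Agent.P100.Calib.SlabLowEndR19Base

/-!
# Leaves 1 of the cover of root 19
-/

set_option maxRecDepth 100000
-- the heavy checks are definitions, so that they are checked one after another
set_option linter.defProp false

namespace Vale.Agent.P100.Calib.LowEnd

open Pack Band

def r19_leaf0 :
    Sound r19R [(0, 1, 2), (0, 1, 4), (0, 1, 8), (0, 1, 4), (0, 1, 16)] :=
  sound_empty (K := 147) (q := 11) r19_ok (by decide +kernel)

def r19_leaf1 :
    Sound r19R [(0, 1, 2), (0, 1, 4), (0, 1, 8), (0, 1, 16), (1, 2, 16)] :=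
  sound_empty (K := 159) (q := 11) r19_ok (by decide +kernel)

def r19_leaf2 :
    Sound r19R [(0, 1, 2), (0, 1, 4), (0, 1, 8), (1, 2, 16), (2, 3, 32)] :=
  sound_empty (K := 165) (q := 11) r19_ok (by decide +kernel)

def r19_leaf3 :
    Sound r19R [(0, 1, 2), (0, 1, 4), (0, 1, 8), (1, 2, 16), (6, 7, 64)] :=
  sound_empty (K := 171) (q := 11) r19_ok (by decide +kernel)

def r19_leaf4 :
    Sound r19R [(0, 1, 2), (0, 1, 4), (0, 1, 8), (1, 2, 16), (7, 8, 64)] :=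
  sound_leaf (K := 255) (L := ⟨(-7549747), 1967859, 178021, 2732455, 500878, 630764, 125627, 0, 0, 0⟩) r19_ok (by decide +kernel)

def r19_leaf5 :
    Sound r19R [(0, 1, 8), (0, 1, 4), (0, 1, 8), (2, 3, 16), (2, 3, 32)] :=
  sound_empty (K := 177) (q := 11) r19_ok (by decide +kernel)

def r19_leaf6 :
    Sound r19R [(0, 1, 8), (0, 1, 4), (0, 1, 8), (2, 3, 16), (3, 4, 32)] :=
  sound_leaf (K := 262) (L := ⟨(-7549747), 1570256, 170484, 4524838, 514988, 617371, 166732, 0, 0, 0⟩) r19_ok (by decide +kernel)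

def r19_leaf7 :
    Sound r19R [(0, 1, 8), (0, 1, 4), (0, 1, 8), (3, 4, 16), (1, 2, 16)] :=
  sound_leaf (K := 255) (L := ⟨(-7969178), 1513400, 107890, 4766047, 516539, 456754, 96213, 0, 0, 0⟩) r19_ok (by decide +kernel)

def r19_leaf8 :
    Sound r19R [(1, 2, 8), (0, 1, 4), (0, 1, 8), (1, 2, 8), (1, 2, 16)] :=
  sound_leaf (K := 249) (L := ⟨(-7969178), 1849088, 177936, 3849768, 512208, 626328, 131938, 0, 0, 0⟩) r19_ok (by decide +kernel)

def r19_leaf9 :
    Sound r19R [(1, 2, 4), (0, 1, 4), (0, 1, 8), (1, 2, 8), (1, 2, 16)] :=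
  sound_leaf (K := 244) (L := ⟨(-7549747), 1530301, 109763, 4595912, 529778, 859979, 172960, 0, 0, 0⟩) r19_ok (by decide +kernel)

def r19_leaf10 :
    Sound r19R [(0, 1, 8), (0, 1, 4), (0, 1, 32), (0, 1, 32), (8, 9, 64)] :=
  sound_empty (K := 201) (q := 11) r19_ok (by decide +kernel)

def r19_leaf11 :
    Sound r19R [(0, 1, 8), (0, 1, 4), (0, 1, 32), (0, 1, 32), (9, 10, 64)] :=
  sound_leaf (K := 285) (L := ⟨(-7549747), 2092806, 186167, 2802061, 490710, 466540, 126513, 0, 0, 0⟩) r19_ok (by decide +kernel)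

def r19_leaf12 :
    Sound r19R [(0, 1, 8), (0, 1, 4), (0, 1, 32), (1, 2, 32), (4, 5, 32)] :=
  sound_leaf (K := 279) (L := ⟨(-7549747), 1998712, 177454, 2798292, 500440, 466170, 93972, 0, 0, 0⟩) r19_ok (by decide +kernel)

def r19_leaf13 :
    Sound r19R [(0, 1, 8), (0, 1, 4), (0, 1, 32), (0, 1, 16), (5, 6, 32)] :=
  sound_leaf (K := 273) (L := ⟨(-7130317), 1835434, 145471, 3459443, 485345, 621983, 160877, 0, 0, 0⟩) r19_ok (by decide +kernel)

def r19_leaf14 :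
    Sound r19R [(0, 1, 8), (0, 1, 4), (1, 2, 32), (0, 1, 16), (2, 3, 16)] :=
  sound_leaf (K := 267) (L := ⟨(-7549747), 1930417, 167712, 2704919, 468651, 458421, 90657, 0, 0, 0⟩) r19_ok (by decide +kernel)

def r19_leaf15 :
    Sound r19R [(0, 1, 8), (0, 1, 4), (0, 1, 16), (0, 1, 16), (3, 4, 16)] :=
  sound_leaf (K := 261) (L := ⟨(-7130317), 1730546, 127535, 4130991, 438825, 819047, 154630, 0, 0, 0⟩) r19_ok (by decide +kernel)

def r19_leaf16 :
    Sound r19R [(0, 1, 8), (0, 1, 4), (1, 2, 16), (0, 1, 16), (1, 2, 8)] :=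
  sound_leaf (K := 255) (L := ⟨(-7130317), 1664025, 158678, 3224953, 438581, 810868, 151431, 0, 0, 0⟩) r19_ok (by decide +kernel)

def r19_leaf17 :
    Sound r19R [(0, 1, 8), (0, 1, 4), (0, 1, 8), (1, 2, 16), (1, 2, 8)] :=
  sound_leaf (K := 248) (L := ⟨(-7549747), 1641017, 100605, 2567387, 439047, 446417, 87217, 0, 0, 0⟩) r19_ok (by decide +kernel)

def r19_leaf18 :
    Sound r19R [(1, 2, 8), (0, 1, 4), (0, 1, 8), (0, 1, 8), (1, 2, 8)] :=
  sound_leaf (K := 243) (L := ⟨(-7130317), 1858437, 143612, 4115208, 450775, 825344, 155583, 0, 0, 0⟩) r19_ok (by decide +kernel)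

def r19_leaf19 :
    Sound r19R [(0, 1, 4), (0, 1, 4), (0, 1, 8), (1, 2, 8), (1, 2, 8)] :=
  sound_leaf (K := 237) (L := ⟨(-7130317), 1516999, 85915, 3983029, 455395, 807517, 153291, 0, 0, 0⟩) r19_ok (by decide +kernel)

def r19_leaf20 :
    Sound r19R [(1, 2, 4), (0, 1, 4), (0, 1, 8), (0, 1, 4), (1, 2, 8)] :=
  sound_leaf (K := 231) (L := ⟨(-6710886), 1422703, 55416, 4599251, 466107, 616067, 113035, 0, 0, 0⟩) r19_ok (by decide +kernel)

def r19_leaf21 :
    Sound r19R [(0, 1, 2), (0, 1, 4), (1, 2, 8), (0, 1, 4), (0, 1, 8)] :=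
  sound_empty (K := 141) (q := 11) r19_ok (by decide +kernel)

def r19_leaf22 :
    Sound r19R [(0, 1, 2), (0, 1, 4), (1, 2, 8), (0, 1, 4), (1, 2, 8)] :=
  sound_leaf (K := 225) (L := ⟨(-8808038), 1131044, 77891, 3486714, 423123, 786879, 141475, 0, 0, 0⟩) r19_ok (by decide +kernel)

def r19_leaf23 :
    Sound r19R [(0, 1, 4), (1, 2, 4), (0, 1, 8), (0, 1, 8), (0, 1, 8)] :=
  sound_empty (K := 153) (q := 11) r19_ok (by decide +kernel)

def r19_leaf24 :
    Sound r19R [(0, 1, 4), (1, 2, 4), (0, 1, 8), (1, 2, 8), (0, 1, 16)] :=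
  sound_empty (K := 159) (q := 11) r19_ok (by decide +kernel)

def r19_leaf25 :
    Sound r19R [(0, 1, 8), (1, 2, 4), (0, 1, 8), (2, 3, 16), (2, 3, 32)] :=
  sound_empty (K := 177) (q := 11) r19_ok (by decide +kernel)

def r19_leaf26 :
    Sound r19R [(0, 1, 8), (1, 2, 4), (0, 1, 8), (2, 3, 16), (3, 4, 32)] :=
  sound_leaf (K := 261) (L := ⟨(-7969178), 1631381, 152912, 2619486, 482983, 430101, 90790, 0, 0, 0⟩) r19_ok (by decide +kernel)

def r19_leaf27 :
    Sound r19R [(0, 1, 8), (1, 2, 4), (0, 1, 8), (3, 4, 16), (1, 2, 16)] :=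
  sound_leaf (K := 255) (L := ⟨(-8388608), 1563701, 118882, 4612351, 484459, 429029, 95305, 0, 0, 0⟩) r19_ok (by decide +kernel)

def r19_leaf28 :
    Sound r19R [(1, 2, 8), (1, 2, 4), (0, 1, 8), (1, 2, 8), (1, 2, 16)] :=
  sound_leaf (K := 249) (L := ⟨(-7969178), 1757157, 168123, 2642772, 499245, 436051, 92570, 0, 0, 0⟩) r19_ok (by decide +kernel)

def r19_leaf29 :
    Sound r19R [(0, 1, 8), (1, 2, 4), (0, 1, 16), (0, 1, 32), (4, 5, 32)] :=
  sound_empty (K := 189) (q := 11) r19_ok (by decide +kernel)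

end Vale.Agent.P100.Calib.LowEnd
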