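import Vale.Agent.P100.Calib.SlabLowEndR19Data

/-!
# The slots of root 19 are within their tolerances
-/

set_option maxRecDepth 100000
-- the heavy checks are definitions, so that they are checked one after another
set_option linter.defProp false

namespace Vale.Agent.P100.Calib.LowEnd

open Pack Band

def r19_slot0 : checkSlot r19B r19P.sig 56 r19D0 r19T0 = true := by decide +kernel

def r19_slot1 : checkSlot r19B r19P.sig 56 r19D1 r19T1 = true := by decide +kernel

def r19_slot2 : checkSlot r19B r19P.sig 48 r19D2 r19T2 = true := by decide +kernel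

def r19_slot3 : checkSlot r19B r19P.sig 56 r19D3 r19T3 = true := by decide +kernel

def r19_slot4 : checkSlot r19B r19P.sig 56 r19D4 r19T4 = true := by decide +kernel

def r19_slot5 : checkSlot r19B r19P.sig 56 r19D5 r19T5 = true := by decide +kernel

def r19_slot6 : checkSlot r19B r19P.sig 56 r19D6 r19T6 = true := by decide +kernel

def r19_slot7 : checkSlot r19B r19P.sig 56 r19D7 r19T7 = true := by decide +kernel

def r19_slot8 : checkSlot r19B r19P.sig 56 r19D8 r19T8 = true := by decide +kernel

def r19_slot9 : checkSlot r19B r19P.sig 56 r19D9 r19T9 = true := by decide +kernel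

def r19_slot10 : checkSlot r19B r19P.sig 56 r19D10 r19T10 = true := by decide +kernel

def r19_slot11 : checkSlot r19B r19P.sig 56 r19D11 r19T11 = true := by decide +kernel

def r19_slot12 : checkSlot r19B r19P.sig 56 r19D12 r19T12 = true := by decide +kernel

theorem r19_near {x y : ℕ → ℝ} (hx : InBox r19B x) (hc : Coord r19P.sig x y) :
    Near r19R y (valueAt r19L x) :=
  near_root rfl (fun q hq => by
    simp only [r19L, List.length_cons, List.length_nil] at hq
    interval_cases q
    · exact ⟨_, r19_slot0⟩
    · exact ⟨_, r19_slot1⟩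
    · exact ⟨_, r19_slot2⟩
    · exact ⟨_, r19_slot3⟩
    · exact ⟨_, r19_slot4⟩
    · exact ⟨_, r19_slot5⟩
    · exact ⟨_, r19_slot6⟩
    · exact ⟨_, r19_slot7⟩
    · exact ⟨_, r19_slot8⟩
    · exact ⟨_, r19_slot9⟩
    · exact ⟨_, r19_slot10⟩
    · exact ⟨_, r19_slot11⟩
    · exact ⟨_, r19_slot12⟩
  ) hx hc

end Vale.Agent.P100.Calib.LowEnd
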