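import Vale.Agent.P100.Calib.SlabLowEndR1Data

/-!
# The cover of root 1
-/

set_option maxRecDepth 100000
-- the heavy checks are definitions, so that they are checked one after another
set_option linter.defProp false

namespace Vale.Agent.P100.Calib.LowEnd

open Pack Band

theorem r1_ok : rootOk r1R = true := by decide +kernel

def r1_leaf0 :
    Sound r1R [(0, 1, 1), (0, 1, 1), (0, 1, 2), (0, 1, 2), (0, 1, 1)] :=
  sound_empty (K := 86) (q := 12) r1_ok (by decide +kernel)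

def r1_leaf1 :
    Sound r1R [(0, 1, 1), (0, 1, 1), (1, 2, 2), (0, 1, 2), (0, 1, 1)] :=
  sound_leaf (K := 170) (L := ⟨(-10066330), 1058032, 41775, 1748252, 230089, 497930, 101484, 0, 0, 0⟩) r1_ok (by decide +kernel)

def r1_leaf2 :
    Sound r1R [(0, 1, 1), (0, 1, 1), (0, 1, 4), (2, 3, 4), (0, 1, 4)] :=
  sound_empty (K := 110) (q := 12) r1_ok (by decide +kernel)

def r1_leaf3 :
    Sound r1R [(0, 1, 1), (0, 1, 1), (0, 1, 8), (6, 7, 8), (0, 1, 8)] :=
  sound_empty (K := 128) (q := 12) r1_ok (by decide +kernel)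

def r1_leaf4 :
    Sound r1R [(0, 1, 2), (0, 1, 2), (0, 1, 16), (14, 15, 16), (0, 1, 16)] :=
  sound_leaf (K := 244) (L := ⟨(-11744051), (-757297), (-173139), 4913794, 598137, 610175, 231175, 0, 0, 0⟩) r1_ok (by decide +kernel)

def r1_leaf5 :
    Sound r1R [(0, 1, 2), (0, 1, 4), (0, 1, 16), (30, 31, 32), (0, 1, 32)] :=
  sound_leaf (K := 261) (L := ⟨(-11744051), (-1116307), (-231065), 4003498, 630015, 458599, 179719, 0, 0, 0⟩) r1_ok (by decide +kernel)

def r1_leaf6 :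
    Sound r1R [(0, 1, 2), (0, 1, 8), (0, 1, 64), (31, 32, 32), (0, 1, 64)] :=
  sound_leaf (K := 285) (L := ⟨(-11744051), (-1610952), (-317821), 4119166, 716915, 163098, 80443, 8153950476647099807609175, 0, 0⟩) r1_ok (by decide +kernel)

def r1_leaf7 :
    Sound r1R [(0, 1, 4), (1, 2, 8), (0, 1, 64), (62, 63, 64), (0, 1, 64)] :=
  sound_leaf (K := 298) (L := ⟨(-11744051), (-1348173), (-275916), 4005117, 762162, 455880, 185021, 0, 0, 0⟩) r1_ok (by decide +kernel)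

def r1_leaf8 :
    Sound r1R [(0, 1, 4), (1, 2, 8), (0, 1, 64), (63, 64, 64), (0, 1, 64)] :=
  sound_leaf (K := 298) (L := ⟨(-11744051), (-1435584), (-290776), 2982123, 768397, 455190, 183979, 14220252894582841849326894, 0, 0⟩) r1_ok (by decide +kernel)

def r1_leaf9 :
    Sound r1R [(1, 2, 4), (1, 2, 8), (0, 1, 64), (31, 32, 32), (0, 1, 64)] :=
  sound_leaf (K := 291) (L := ⟨(-11744051), (-1585061), (-314400), 3527984, 703318, 294229, 89676, 9286054047244225208608119, 0, 0⟩) r1_ok (by decide +kernel)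

def r1_leaf10 :
    Sound r1R [(0, 1, 2), (0, 1, 4), (0, 1, 64), (31, 32, 32), (1, 2, 64)] :=
  sound_empty (K := 195) (q := 11) r1_ok (by decide +kernel)

def r1_leaf11 :
    Sound r1R [(0, 1, 2), (0, 1, 4), (1, 2, 64), (31, 32, 32), (0, 1, 32)] :=
  sound_leaf (K := 274) (L := ⟨(-11744051), (-1352700), (-272193), 5019199, 656429, 619035, 245067, 0, 0, 0⟩) r1_ok (by decide +kernel)

def r1_leaf12 :
    Sound r1R [(0, 1, 2), (0, 1, 4), (1, 2, 32), (31, 32, 32), (0, 1, 32)] :=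
  sound_leaf (K := 268) (L := ⟨(-11324621), (-933861), (-193897), 4750976, 672270, 613341, 209043, 0, 0, 0⟩) r1_ok (by decide +kernel)

def r1_leaf13 :
    Sound r1R [(0, 1, 2), (1, 2, 4), (0, 1, 16), (30, 31, 32), (0, 1, 32)] :=
  sound_leaf (K := 261) (L := ⟨(-12163482), (-1287769), (-268952), 3954896, 583125, 444266, 185691, 0, 0, 0⟩) r1_ok (by decide +kernel)

def r1_leaf14 :
    Sound r1R [(0, 1, 2), (1, 2, 4), (0, 1, 16), (31, 32, 32), (0, 1, 32)] :=
  sound_leaf (K := 261) (L := ⟨(-12032410), (-1451394), (-296669), 3619004, 589218, 234066, 108463, 6208238884976032398103932, 0, 0⟩) r1_ok (by decide +kernel)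

def r1_leaf15 :
    Sound r1R [(0, 1, 2), (0, 1, 2), (0, 1, 16), (15, 16, 16), (1, 2, 32)] :=
  sound_leaf (K := 250) (L := ⟨(-11744051), (-1038479), (-220895), 4824946, 584006, 604358, 222736, 0, 0, 0⟩) r1_ok (by decide +kernel)

def r1_leaf16 :
    Sound r1R [(0, 1, 2), (1, 2, 2), (0, 1, 16), (14, 15, 16), (0, 1, 16)] :=
  sound_leaf (K := 244) (L := ⟨(-12163482), (-759587), (-182515), 4662379, 559653, 575139, 221204, 0, 0, 0⟩) r1_ok (by decide +kernel)

def r1_leaf17 :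
    Sound r1R [(0, 1, 2), (1, 2, 2), (0, 1, 16), (30, 31, 32), (0, 1, 16)] :=
  sound_leaf (K := 249) (L := ⟨(-12163482), (-1002435), (-224808), 3681355, 569165, 423757, 161331, 0, 0, 0⟩) r1_ok (by decide +kernel)

def r1_leaf18 :
    Sound r1R [(0, 1, 2), (2, 3, 4), (0, 1, 64), (62, 63, 64), (0, 1, 32)] :=
  sound_leaf (K := 279) (L := ⟨(-12163482), (-1431462), (-301951), 2863900, 652736, 434099, 178976, 0, 0, 0⟩) r1_ok (by decide +kernel)

def r1_leaf19 :
    Sound r1R [(0, 1, 4), (2, 3, 4), (0, 1, 64), (63, 64, 64), (0, 1, 32)] :=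
  sound_leaf (K := 285) (L := ⟨(-12163482), (-1428195), (-302383), 2358362, 684189, 318971, 82926, 7365595639017010434610422, 0, 0⟩) r1_ok (by decide +kernel)

def r1_leaf20 :
    Sound r1R [(1, 2, 4), (4, 5, 8), (0, 1, 64), (63, 64, 64), (0, 1, 32)] :=
  sound_leaf (K := 291) (L := ⟨(-11744051), (-1298187), (-271043), 3274599, 718014, 153747, 49531, 7039374396153075146236791, 0, 0⟩) r1_ok (by decide +kernel)

def r1_leaf21 :
    Sound r1R [(1, 2, 4), (5, 6, 8), (0, 1, 64), (63, 64, 64), (0, 1, 32)] :=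
  sound_leaf (K := 292) (L := ⟨(-12163482), (-1547688), (-322388), 3799890, 638691, 432960, 176400, 16906506164158298968734046, 0, 0⟩) r1_ok (by decide +kernel)

def r1_leaf22 :
    Sound r1R [(0, 1, 2), (2, 3, 4), (1, 2, 64), (31, 32, 32), (0, 1, 32)] :=
  sound_leaf (K := 274) (L := ⟨(-12163482), (-1342605), (-283373), 3782371, 615589, 581856, 231504, 0, 0, 0⟩) r1_ok (by decide +kernel)

def r1_leaf23 :
    Sound r1R [(0, 1, 2), (2, 3, 4), (1, 2, 32), (31, 32, 32), (0, 1, 32)] :=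
  sound_leaf (K := 268) (L := ⟨(-11744051), (-962340), (-208955), 4494666, 629165, 576584, 200932, 0, 0, 0⟩) r1_ok (by decide +kernel)

def r1_leaf24 :
    Sound r1R [(0, 1, 2), (2, 3, 4), (0, 1, 16), (31, 32, 32), (1, 2, 32)] :=
  sound_leaf (K := 261) (L := ⟨(-12163482), (-1179051), (-254503), 3713316, 548504, 576439, 219508, 0, 0, 0⟩) r1_ok (by decide +kernel)

def r1_leaf25 :
    Sound r1R [(0, 1, 2), (3, 4, 4), (0, 1, 16), (31, 32, 32), (0, 1, 16)] :=
  sound_leaf (K := 255) (L := ⟨(-12582912), (-1311691), (-292741), 2177854, 530817, 416356, 117271, 7334498281487549503929376, 0, 0⟩) r1_ok (by decide +kernel)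

def r1_leaf26 :
    Sound r1R [(1, 2, 2), (0, 1, 1), (0, 1, 16), (14, 15, 16), (0, 1, 16)] :=
  sound_leaf (K := 238) (L := ⟨(-11324621), (-710431), (-161427), 4625511, 601641, 607911, 205421, 0, 0, 0⟩) r1_ok (by decide +kernel)

def r1_leaf27 :
    Sound r1R [(1, 2, 2), (0, 1, 2), (0, 1, 32), (30, 31, 32), (0, 1, 16)] :=
  sound_leaf (K := 256) (L := ⟨(-11324621), (-1087439), (-222845), 4848968, 636248, 627119, 222693, 0, 0, 0⟩) r1_ok (by decide +kernel)

def r1_leaf28 :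
    Sound r1R [(1, 2, 2), (0, 1, 2), (0, 1, 32), (31, 32, 32), (0, 1, 16)] :=
  sound_leaf (K := 255) (L := ⟨(-11612979), (-1548528), (-304912), 3225277, 586351, 342858, 122929, 4093690058267560199334181, 0, 0⟩) r1_ok (by decide +kernel)

def r1_leaf29 :
    Sound r1R [(1, 2, 2), (0, 1, 2), (1, 2, 32), (15, 16, 16), (0, 1, 16)] :=
  sound_leaf (K := 250) (L := ⟨(-11324621), (-1004511), (-204146), 4711950, 579676, 618160, 208413, 0, 0, 0⟩) r1_ok (by decide +kernel)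

def r1_leaf30 :
    Sound r1R [(1, 2, 2), (1, 2, 2), (0, 1, 16), (15, 16, 16), (0, 1, 16)] :=
  sound_leaf (K := 243) (L := ⟨(-12130714), (-1326711), (-277587), 3262807, 524441, 312612, 122118, 5186390316268416869541531, 0, 0⟩) r1_ok (by decide +kernel)

def r1_leaf31 :
    Sound r1R [(0, 1, 1), (0, 1, 1), (1, 2, 16), (7, 8, 8), (0, 1, 16)] :=
  sound_leaf (K := 225) (L := ⟨(-11324621), (-600857), (-136711), 4333979, 529663, 583553, 182057, 0, 0, 0⟩) r1_ok (by decide +kernel)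

def r1_leaf32 :
    Sound r1R [(0, 1, 1), (0, 1, 1), (0, 1, 8), (7, 8, 8), (1, 2, 16)] :=
  sound_leaf (K := 219) (L := ⟨(-11744051), (-700930), (-163328), 4491629, 468723, 583127, 194552, 0, 0, 0⟩) r1_ok (by decide +kernel)

def r1_leaf33 :
    Sound r1R [(0, 1, 1), (0, 1, 1), (1, 2, 8), (3, 4, 4), (0, 1, 8)] :=
  sound_leaf (K := 207) (L := ⟨(-10485760), (-231904), (-59711), 3758119, 453959, 564961, 149807, 0, 0, 0⟩) r1_ok (by decide +kernel)

def r1_leaf34 :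
    Sound r1R [(0, 1, 1), (0, 1, 1), (0, 1, 4), (3, 4, 4), (1, 2, 8)] :=
  sound_leaf (K := 200) (L := ⟨(-10905190), (-236567), (-76093), 3113030, 400000, 417968, 115227, 0, 0, 0⟩) r1_ok (by decide +kernel)

def r1_leaf35 :
    Sound r1R [(0, 1, 1), (0, 1, 1), (1, 2, 4), (1, 2, 2), (0, 1, 4)] :=
  sound_leaf (K := 188) (L := ⟨(-11324621), 158050, (-3049), 2954237, 357703, 534918, 123357, 0, 0, 0⟩) r1_ok (by decide +kernel)

def r1_leaf36 :
    Sound r1R [(0, 1, 1), (0, 1, 1), (0, 1, 2), (1, 2, 2), (1, 2, 4)] :=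
  sound_leaf (K := 182) (L := ⟨(-10066330), 216118, (-3416), 1914984, 308717, 534333, 95321, 0, 0, 0⟩) r1_ok (by decide +kernel)

def r1_leaf37 :
    Sound r1R [(0, 1, 1), (0, 1, 1), (1, 2, 2), (1, 2, 2), (0, 1, 2)] :=
  sound_leaf (K := 175) (L := ⟨(-6710886), 127973, 8835, 1709142, 273248, 477177, 100303, 0, 0, 0⟩) r1_ok (by decide +kernel)

def r1_leaf38 :
    Sound r1R [(0, 1, 1), (0, 1, 1), (0, 1, 1), (1, 2, 2), (1, 2, 2)] :=
  sound_leaf (K := 169) (L := ⟨(-8388608), 246979, (-35383), 2140775, 231958, 475623, 103597, 0, 0, 0⟩) r1_ok (by decide +kernel)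

theorem r1_node0 :
    Sound r1R [(0, 1, 1), (0, 1, 1), (0, 1, 1), (0, 1, 2), (0, 1, 1)] :=
  sound_node (j := 2) (by decide) r1_leaf0 r1_leaf1

theorem r1_node1 :
    Sound r1R [(0, 1, 4), (1, 2, 8), (0, 1, 64), (31, 32, 32), (0, 1, 64)] :=
  sound_node (j := 3) (by decide) r1_leaf7 r1_leaf8

theorem r1_node2 :
    Sound r1R [(0, 1, 2), (1, 2, 8), (0, 1, 64), (31, 32, 32), (0, 1, 64)] :=
  sound_node (j := 0) (by decide) r1_node1 r1_leaf9

theorem r1_node3 :
    Sound r1R [(0, 1, 2), (0, 1, 4), (0, 1, 64), (31, 32, 32), (0, 1, 64)] :=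
  sound_node (j := 1) (by decide) r1_leaf6 r1_node2

theorem r1_node4 :
    Sound r1R [(0, 1, 2), (0, 1, 4), (0, 1, 64), (31, 32, 32), (0, 1, 32)] :=
  sound_node (j := 4) (by decide) r1_node3 r1_leaf10

theorem r1_node5 :
    Sound r1R [(0, 1, 2), (0, 1, 4), (0, 1, 32), (31, 32, 32), (0, 1, 32)] :=
  sound_node (j := 2) (by decide) r1_node4 r1_leaf11

theorem r1_node6 :
    Sound r1R [(0, 1, 2), (0, 1, 4), (0, 1, 16), (31, 32, 32), (0, 1, 32)] :=
  sound_node (j := 2) (by decide) r1_node5 r1_leaf12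

theorem r1_node7 :
    Sound r1R [(0, 1, 2), (0, 1, 4), (0, 1, 16), (15, 16, 16), (0, 1, 32)] :=
  sound_node (j := 3) (by decide) r1_leaf5 r1_node6

theorem r1_node8 :
    Sound r1R [(0, 1, 2), (1, 2, 4), (0, 1, 16), (15, 16, 16), (0, 1, 32)] :=
  sound_node (j := 3) (by decide) r1_leaf13 r1_leaf14

theorem r1_node9 :
    Sound r1R [(0, 1, 2), (0, 1, 2), (0, 1, 16), (15, 16, 16), (0, 1, 32)] :=
  sound_node (j := 1) (by decide) r1_node7 r1_node8

theorem r1_node10 :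
    Sound r1R [(0, 1, 2), (0, 1, 2), (0, 1, 16), (15, 16, 16), (0, 1, 16)] :=
  sound_node (j := 4) (by decide) r1_node9 r1_leaf15

theorem r1_node11 :
    Sound r1R [(0, 1, 2), (0, 1, 2), (0, 1, 16), (7, 8, 8), (0, 1, 16)] :=
  sound_node (j := 3) (by decide) r1_leaf4 r1_node10

theorem r1_node12 :
    Sound r1R [(1, 2, 4), (2, 3, 4), (0, 1, 64), (63, 64, 64), (0, 1, 32)] :=
  sound_node (j := 1) (by decide) r1_leaf20 r1_leaf21

theorem r1_node13 :
    Sound r1R [(0, 1, 2), (2, 3, 4), (0, 1, 64), (63, 64, 64), (0, 1, 32)] :=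
  sound_node (j := 0) (by decide) r1_leaf19 r1_node12

theorem r1_node14 :
    Sound r1R [(0, 1, 2), (2, 3, 4), (0, 1, 64), (31, 32, 32), (0, 1, 32)] :=
  sound_node (j := 3) (by decide) r1_leaf18 r1_node13

theorem r1_node15 :
    Sound r1R [(0, 1, 2), (2, 3, 4), (0, 1, 32), (31, 32, 32), (0, 1, 32)] :=
  sound_node (j := 2) (by decide) r1_node14 r1_leaf22

theorem r1_node16 :
    Sound r1R [(0, 1, 2), (2, 3, 4), (0, 1, 16), (31, 32, 32), (0, 1, 32)] :=
  sound_node (j := 2) (by decide) r1_node15 r1_leaf23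

theorem r1_node17 :
    Sound r1R [(0, 1, 2), (2, 3, 4), (0, 1, 16), (31, 32, 32), (0, 1, 16)] :=
  sound_node (j := 4) (by decide) r1_node16 r1_leaf24

theorem r1_node18 :
    Sound r1R [(0, 1, 2), (1, 2, 2), (0, 1, 16), (31, 32, 32), (0, 1, 16)] :=
  sound_node (j := 1) (by decide) r1_node17 r1_leaf25

theorem r1_node19 :
    Sound r1R [(0, 1, 2), (1, 2, 2), (0, 1, 16), (15, 16, 16), (0, 1, 16)] :=
  sound_node (j := 3) (by decide) r1_leaf17 r1_node18

theorem r1_node20 :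
    Sound r1R [(0, 1, 2), (1, 2, 2), (0, 1, 16), (7, 8, 8), (0, 1, 16)] :=
  sound_node (j := 3) (by decide) r1_leaf16 r1_node19

theorem r1_node21 :
    Sound r1R [(0, 1, 2), (0, 1, 1), (0, 1, 16), (7, 8, 8), (0, 1, 16)] :=
  sound_node (j := 1) (by decide) r1_node11 r1_node20

theorem r1_node22 :
    Sound r1R [(1, 2, 2), (0, 1, 2), (0, 1, 32), (15, 16, 16), (0, 1, 16)] :=
  sound_node (j := 3) (by decide) r1_leaf27 r1_leaf28

theorem r1_node23 :
    Sound r1R [(1, 2, 2), (0, 1, 2), (0, 1, 16), (15, 16, 16), (0, 1, 16)] :=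
  sound_node (j := 2) (by decide) r1_node22 r1_leaf29

theorem r1_node24 :
    Sound r1R [(1, 2, 2), (0, 1, 1), (0, 1, 16), (15, 16, 16), (0, 1, 16)] :=
  sound_node (j := 1) (by decide) r1_node23 r1_leaf30

theorem r1_node25 :
    Sound r1R [(1, 2, 2), (0, 1, 1), (0, 1, 16), (7, 8, 8), (0, 1, 16)] :=
  sound_node (j := 3) (by decide) r1_leaf26 r1_node24

theorem r1_node26 :
    Sound r1R [(0, 1, 1), (0, 1, 1), (0, 1, 16), (7, 8, 8), (0, 1, 16)] :=
  sound_node (j := 0) (by decide) r1_node21 r1_node25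

theorem r1_node27 :
    Sound r1R [(0, 1, 1), (0, 1, 1), (0, 1, 8), (7, 8, 8), (0, 1, 16)] :=
  sound_node (j := 2) (by decide) r1_node26 r1_leaf31

theorem r1_node28 :
    Sound r1R [(0, 1, 1), (0, 1, 1), (0, 1, 8), (7, 8, 8), (0, 1, 8)] :=
  sound_node (j := 4) (by decide) r1_node27 r1_leaf32

theorem r1_node29 :
    Sound r1R [(0, 1, 1), (0, 1, 1), (0, 1, 8), (3, 4, 4), (0, 1, 8)] :=
  sound_node (j := 3) (by decide) r1_leaf3 r1_node28

theorem r1_node30 :
    Sound r1R [(0, 1, 1), (0, 1, 1), (0, 1, 4), (3, 4, 4), (0, 1, 8)] :=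
  sound_node (j := 2) (by decide) r1_node29 r1_leaf33

theorem r1_node31 :
    Sound r1R [(0, 1, 1), (0, 1, 1), (0, 1, 4), (3, 4, 4), (0, 1, 4)] :=
  sound_node (j := 4) (by decide) r1_node30 r1_leaf34

theorem r1_node32 :
    Sound r1R [(0, 1, 1), (0, 1, 1), (0, 1, 4), (1, 2, 2), (0, 1, 4)] :=
  sound_node (j := 3) (by decide) r1_leaf2 r1_node31

theorem r1_node33 :
    Sound r1R [(0, 1, 1), (0, 1, 1), (0, 1, 2), (1, 2, 2), (0, 1, 4)] :=
  sound_node (j := 2) (by decide) r1_node32 r1_leaf35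

theorem r1_node34 :
    Sound r1R [(0, 1, 1), (0, 1, 1), (0, 1, 2), (1, 2, 2), (0, 1, 2)] :=
  sound_node (j := 4) (by decide) r1_node33 r1_leaf36

theorem r1_node35 :
    Sound r1R [(0, 1, 1), (0, 1, 1), (0, 1, 1), (1, 2, 2), (0, 1, 2)] :=
  sound_node (j := 2) (by decide) r1_node34 r1_leaf37

theorem r1_node36 :
    Sound r1R [(0, 1, 1), (0, 1, 1), (0, 1, 1), (1, 2, 2), (0, 1, 1)] :=
  sound_node (j := 4) (by decide) r1_node35 r1_leaf38

theorem r1_node37 :
    Sound r1R [(0, 1, 1), (0, 1, 1), (0, 1, 1), (0, 1, 1), (0, 1, 1)] :=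
  sound_node (j := 3) (by decide) r1_node0 r1_node36

theorem r1_sound :
    Sound r1R [(0, 1, 1), (0, 1, 1), (0, 1, 1), (0, 1, 1), (0, 1, 1)] :=
  r1_node37

end Vale.Agent.P100.Calib.LowEnd
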