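import Vale.Agent.P100.Calib.SlabLowEndR1Data

/-!
# The slots of root 1 are within their tolerances
-/

set_option maxRecDepth 100000
-- the heavy checks are definitions, so that they are checked one after another
set_option linter.defProp false

namespace Vale.Agent.P100.Calib.LowEnd

open Pack Band

def r1_slot0 : checkSlot r1B r1P.sig 56 r1D0 r1T0 = true := by decide +kernel

def r1_slot1 : checkSlot r1B r1P.sig 56 r1D1 r1T1 = true := by decide +kernel

def r1_slot2 : checkSlot r1B r1P.sig 56 r1D2 r1T2 = true := by decide +kernel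

def r1_slot3 : checkSlot r1B r1P.sig 56 r1D3 r1T3 = true := by decide +kernel

def r1_slot4 : checkSlot r1B r1P.sig 56 r1D4 r1T4 = true := by decide +kernel

def r1_slot5 : checkSlot r1B r1P.sig 56 r1D5 r1T5 = true := by decide +kernel

def r1_slot6 : checkSlot r1B r1P.sig 56 r1D6 r1T6 = true := by decide +kernel

def r1_slot7 : checkSlot r1B r1P.sig 56 r1D7 r1T7 = true := by decide +kernel

def r1_slot8 : checkSlot r1B r1P.sig 56 r1D8 r1T8 = true := by decide +kernel

def r1_slot9 : checkSlot r1B r1P.sig 56 r1D9 r1T9 = true := by decide +kernel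

def r1_slot10 : checkSlot r1B r1P.sig 56 r1D10 r1T10 = true := by decide +kernel

def r1_slot11 : checkSlot r1B r1P.sig 56 r1D11 r1T11 = true := by decide +kernel

def r1_slot12 : checkSlot r1B r1P.sig 56 r1D12 r1T12 = true := by decide +kernel

theorem r1_near {x y : ℕ → ℝ} (hx : InBox r1B x) (hc : Coord r1P.sig x y) :
    Near r1R y (valueAt r1L x) :=
  near_root rfl (fun q hq => by
    simp only [r1L, List.length_cons, List.length_nil] at hq
    interval_cases q
    · exact ⟨_, r1_slot0⟩
    · exact ⟨_, r1_slot1⟩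
    · exact ⟨_, r1_slot2⟩
    · exact ⟨_, r1_slot3⟩
    · exact ⟨_, r1_slot4⟩
    · exact ⟨_, r1_slot5⟩
    · exact ⟨_, r1_slot6⟩
    · exact ⟨_, r1_slot7⟩
    · exact ⟨_, r1_slot8⟩
    · exact ⟨_, r1_slot9⟩
    · exact ⟨_, r1_slot10⟩
    · exact ⟨_, r1_slot11⟩
    · exact ⟨_, r1_slot12⟩
  ) hx hc

end Vale.Agent.P100.Calib.LowEnd
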