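import Vale.Agent.P100.Calib.SlabLowEndR20Base

/-!
# Leaves 2 of the cover of root 20
-/

set_option maxRecDepth 100000
-- the heavy checks are definitions, so that they are checked one after another
set_option linter.defProp false

namespace Vale.Agent.P100.Calib.LowEnd

open Pack Band

def r20_leaf22 :
    Sound r20R [(0, 1, 4), (1, 2, 2), (0, 1, 8), (0, 1, 8), (0, 1, 8)] :=
  sound_empty (K := 147) (q := 11) r20_ok (by decide +kernel)

def r20_leaf23 :
    Sound r20R [(0, 1, 4), (1, 2, 2), (0, 1, 8), (1, 2, 8), (0, 1, 16)] :=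
  sound_empty (K := 153) (q := 11) r20_ok (by decide +kernel)

def r20_leaf24 :
    Sound r20R [(0, 1, 4), (1, 2, 2), (0, 1, 8), (1, 2, 8), (1, 2, 16)] :=
  sound_leaf (K := 237) (L := ⟨(-9227469), 1293729, 100938, 3296978, 379055, 578969, 145365, 0, 0, 0⟩) r20_ok (by decide +kernel)

def r20_leaf25 :
    Sound r20R [(0, 1, 4), (1, 2, 2), (0, 1, 8), (0, 1, 4), (1, 2, 8)] :=
  sound_leaf (K := 225) (L := ⟨(-10485760), 811014, 56611, 2807678, 333002, 560202, 132355, 0, 0, 0⟩) r20_ok (by decide +kernel)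

def r20_leaf26 :
    Sound r20R [(0, 1, 4), (0, 1, 1), (1, 2, 8), (0, 1, 4), (0, 1, 8)] :=
  sound_empty (K := 135) (q := 11) r20_ok (by decide +kernel)

def r20_leaf27 :
    Sound r20R [(0, 1, 4), (0, 1, 1), (1, 2, 8), (0, 1, 4), (1, 2, 8)] :=
  sound_leaf (K := 219) (L := ⟨(-9646899), 991055, 73142, 2501413, 324745, 566426, 124907, 0, 0, 0⟩) r20_ok (by decide +kernel)

def r20_leaf28 :
    Sound r20R [(1, 2, 4), (0, 1, 1), (0, 1, 4), (0, 1, 8), (0, 1, 8)] :=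
  sound_empty (K := 135) (q := 11) r20_ok (by decide +kernel)

def r20_leaf29 :
    Sound r20R [(1, 2, 4), (0, 1, 1), (0, 1, 4), (1, 2, 8), (0, 1, 16)] :=
  sound_empty (K := 141) (q := 11) r20_ok (by decide +kernel)

def r20_leaf30 :
    Sound r20R [(1, 2, 4), (0, 1, 1), (0, 1, 4), (1, 2, 8), (1, 2, 16)] :=
  sound_leaf (K := 225) (L := ⟨(-10066330), 662103, 71624, 2950275, 395304, 611054, 138217, 0, 0, 0⟩) r20_ok (by decide +kernel)

def r20_leaf31 :
    Sound r20R [(1, 2, 4), (0, 1, 1), (0, 1, 4), (0, 1, 4), (1, 2, 8)] :=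
  sound_leaf (K := 213) (L := ⟨(-9646899), 897470, 62262, 2614051, 340050, 590761, 130421, 0, 0, 0⟩) r20_ok (by decide +kernel)

def r20_leaf32 :
    Sound r20R [(0, 1, 8), (0, 1, 4), (0, 1, 8), (4, 5, 16), (0, 1, 16)] :=
  sound_empty (K := 171) (q := 11) r20_ok (by decide +kernel)

def r20_leaf33 :
    Sound r20R [(0, 1, 8), (0, 1, 4), (0, 1, 8), (4, 5, 16), (1, 2, 16)] :=
  sound_leaf (K := 255) (L := ⟨(-8388608), 1055353, 90311, 3517981, 436777, 647137, 148150, 0, 0, 0⟩) r20_ok (by decide +kernel)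

def r20_leaf34 :
    Sound r20R [(0, 1, 8), (0, 1, 4), (0, 1, 8), (4, 5, 16), (1, 2, 8)] :=
  sound_leaf (K := 249) (L := ⟨(-7549747), 912172, 50719, 2903177, 377761, 619001, 133768, 0, 0, 0⟩) r20_ok (by decide +kernel)

def r20_leaf35 :
    Sound r20R [(0, 1, 8), (0, 1, 4), (0, 1, 8), (5, 6, 16), (0, 1, 4)] :=
  sound_leaf (K := 242) (L := ⟨(-9227469), 1163056, 102393, 2196992, 383408, 346766, 84097, 0, 0, 0⟩) r20_ok (by decide +kernel)

def r20_leaf36 :
    Sound r20R [(0, 1, 8), (0, 1, 4), (1, 2, 8), (2, 3, 8), (0, 1, 4)] :=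
  sound_leaf (K := 237) (L := ⟨(-10485760), 864587, 71655, 3126230, 362099, 609986, 136030, 0, 0, 0⟩) r20_ok (by decide +kernel)

def r20_leaf37 :
    Sound r20R [(1, 2, 8), (0, 1, 4), (0, 1, 4), (2, 3, 8), (0, 1, 4)] :=
  sound_leaf (K := 231) (L := ⟨(-9227469), 1131761, 62591, 4329945, 361261, 345770, 82167, 0, 0, 0⟩) r20_ok (by decide +kernel)

def r20_leaf38 :
    Sound r20R [(0, 1, 4), (0, 1, 4), (0, 1, 4), (3, 4, 8), (0, 1, 4)] :=
  sound_leaf (K := 225) (L := ⟨(-9227469), 763266, 29258, 2744737, 365887, 612420, 146535, 0, 0, 0⟩) r20_ok (by decide +kernel)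

def r20_leaf39 :
    Sound r20R [(0, 1, 4), (1, 2, 4), (0, 1, 4), (1, 2, 4), (0, 1, 4)] :=
  sound_leaf (K := 219) (L := ⟨(-9646899), 997379, 38122, 3374008, 346359, 320317, 80011, 0, 0, 0⟩) r20_ok (by decide +kernel)

def r20_leaf40 :
    Sound r20R [(1, 2, 4), (0, 1, 2), (0, 1, 4), (1, 2, 4), (0, 1, 4)] :=
  sound_leaf (K := 213) (L := ⟨(-8808038), 837947, 25203, 2576229, 368904, 455759, 106771, 0, 0, 0⟩) r20_ok (by decide +kernel)

def r20_leaf41 :
    Sound r20R [(0, 1, 2), (1, 2, 2), (0, 1, 4), (1, 2, 4), (0, 1, 4)] :=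
  sound_leaf (K := 206) (L := ⟨(-9646899), 751221, 19051, 2405935, 334832, 404634, 103676, 0, 0, 0⟩) r20_ok (by decide +kernel)

def r20_leaf42 :
    Sound r20R [(0, 1, 4), (0, 1, 2), (1, 2, 4), (0, 1, 8), (0, 1, 4)] :=
  sound_empty (K := 135) (q := 11) r20_ok (by decide +kernel)

def r20_leaf43 :
    Sound r20R [(0, 1, 4), (0, 1, 2), (1, 2, 4), (1, 2, 8), (0, 1, 4)] :=
  sound_leaf (K := 219) (L := ⟨(-10066330), 934590, 92933, 2687703, 316981, 579951, 124426, 0, 0, 0⟩) r20_ok (by decide +kernel)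

end Vale.Agent.P100.Calib.LowEnd
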