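import Vale.Agent.P100.Calib.SlabLowEndR20Base

/-!
# Leaves 3 of the cover of root 20
-/

set_option maxRecDepth 100000
-- the heavy checks are definitions, so that they are checked one after another
set_option linter.defProp false

namespace Vale.Agent.P100.Calib.LowEnd

open Pack Band

def r20_leaf44 :
    Sound r20R [(0, 1, 4), (0, 1, 2), (1, 2, 4), (1, 2, 4), (0, 1, 4)] :=
  sound_leaf (K := 212) (L := ⟨(-7549747), 544805, 46757, 2367616, 327884, 557947, 121005, 0, 0, 0⟩) r20_ok (by decide +kernel)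

def r20_leaf45 :
    Sound r20R [(1, 2, 4), (0, 1, 2), (1, 2, 4), (0, 1, 2), (0, 1, 4)] :=
  sound_leaf (K := 206) (L := ⟨(-9646899), 514348, 84543, 2486299, 327993, 583887, 92124, 0, 0, 0⟩) r20_ok (by decide +kernel)

def r20_leaf46 :
    Sound r20R [(0, 1, 2), (1, 2, 2), (1, 2, 4), (0, 1, 2), (0, 1, 4)] :=
  sound_leaf (K := 200) (L := ⟨(-10485760), 461036, 62123, 2371118, 297807, 520486, 121638, 0, 0, 0⟩) r20_ok (by decide +kernel)

def r20_leaf47 :
    Sound r20R [(1, 2, 2), (0, 1, 1), (0, 1, 4), (0, 1, 4), (0, 1, 16)] :=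
  sound_empty (K := 129) (q := 11) r20_ok (by decide +kernel)

def r20_leaf48 :
    Sound r20R [(1, 2, 2), (0, 1, 1), (0, 1, 4), (0, 1, 4), (1, 2, 16)] :=
  sound_leaf (K := 213) (L := ⟨(-9646899), 589582, 63738, 2890164, 403033, 642214, 140820, 0, 0, 0⟩) r20_ok (by decide +kernel)

def r20_leaf49 :
    Sound r20R [(1, 2, 2), (0, 1, 1), (0, 1, 4), (0, 1, 4), (1, 2, 8)] :=
  sound_leaf (K := 207) (L := ⟨(-6710886), 684234, 38864, 2339262, 358759, 612162, 130605, 0, 0, 0⟩) r20_ok (by decide +kernel)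

def r20_leaf50 :
    Sound r20R [(1, 2, 2), (0, 1, 1), (0, 1, 4), (1, 2, 4), (0, 1, 4)] :=
  sound_leaf (K := 201) (L := ⟨(-10066330), 319193, 8061, 2712700, 379947, 603493, 138528, 0, 0, 0⟩) r20_ok (by decide +kernel)

def r20_leaf51 :
    Sound r20R [(1, 2, 2), (0, 1, 1), (1, 2, 4), (0, 1, 2), (0, 1, 4)] :=
  sound_leaf (K := 194) (L := ⟨(-8808038), 415662, 42378, 2048571, 342202, 573129, 122982, 0, 0, 0⟩) r20_ok (by decide +kernel)

def r20_leaf52 :
    Sound r20R [(0, 1, 1), (0, 1, 1), (0, 1, 2), (2, 3, 4), (0, 1, 4)] :=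
  sound_leaf (K := 188) (L := ⟨(-11324621), (-4279), (-36040), 2111128, 328413, 539817, 132879, 0, 0, 0⟩) r20_ok (by decide +kernel)

def r20_leaf53 :
    Sound r20R [(0, 1, 1), (0, 1, 1), (0, 1, 4), (6, 7, 8), (0, 1, 4)] :=
  sound_leaf (K := 200) (L := ⟨(-10485760), (-448821), (-104732), 2468377, 340699, 404399, 109515, 0, 0, 0⟩) r20_ok (by decide +kernel)

def r20_leaf54 :
    Sound r20R [(0, 1, 1), (0, 1, 1), (0, 1, 8), (14, 15, 16), (0, 1, 8)] :=
  sound_leaf (K := 219) (L := ⟨(-10905190), (-870114), (-220644), 3478497, 400667, 566826, 164748, 0, 0, 0⟩) r20_ok (by decide +kernel)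

def r20_leaf55 :
    Sound r20R [(0, 1, 2), (0, 1, 1), (0, 1, 16), (30, 31, 32), (0, 1, 16)] :=
  sound_leaf (K := 244) (L := ⟨(-11324621), (-1157050), (-239413), 3714098, 449626, 562854, 175529, 0, 0, 0⟩) r20_ok (by decide +kernel)

def r20_leaf56 :
    Sound r20R [(0, 1, 2), (0, 1, 1), (0, 1, 16), (31, 32, 32), (0, 1, 16)] :=
  sound_leaf (K := 243) (L := ⟨(-11324621), (-1233476), (-252711), 3680604, 453640, 203492, 71590, 1472295341571400286309856, 298108819141589809036125, 0⟩) r20_ok (by decide +kernel)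

def r20_leaf57 :
    Sound r20R [(0, 1, 2), (0, 1, 1), (0, 1, 16), (15, 16, 16), (1, 2, 16)] :=
  sound_empty (K := 154) (q := 12) r20_ok (by decide +kernel)

def r20_leaf58 :
    Sound r20R [(1, 2, 2), (0, 1, 1), (0, 1, 16), (15, 16, 16), (0, 1, 8)] :=
  sound_leaf (K := 231) (L := ⟨(-10485760), (-1033278), (-203991), 2025392, 429643, 432922, 91118, 0, 0, 0⟩) r20_ok (by decide +kernel)

def r20_leaf59 :
    Sound r20R [(0, 1, 1), (0, 1, 1), (1, 2, 16), (15, 16, 16), (0, 1, 8)] :=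
  sound_leaf (K := 225) (L := ⟨(-10485760), (-869161), (-171497), 3204297, 406591, 554423, 154482, 0, 0, 0⟩) r20_ok (by decide +kernel)

def r20_leaf60 :
    Sound r20R [(0, 1, 1), (0, 1, 1), (1, 2, 8), (7, 8, 8), (0, 1, 8)] :=
  sound_leaf (K := 213) (L := ⟨(-10066330), (-655435), (-121721), 2892773, 381614, 537956, 142877, 0, 0, 0⟩) r20_ok (by decide +kernel)

def r20_leaf61 :
    Sound r20R [(0, 1, 1), (0, 1, 1), (0, 1, 4), (7, 8, 8), (1, 2, 8)] :=
  sound_leaf (K := 207) (L := ⟨(-8808038), (-472875), (-107047), 2391245, 343047, 522061, 130790, 0, 0, 0⟩) r20_ok (by decide +kernel)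

def r20_leaf62 :
    Sound r20R [(0, 1, 1), (0, 1, 1), (1, 2, 4), (3, 4, 4), (0, 1, 4)] :=
  sound_leaf (K := 194) (L := ⟨(-8388608), (-335744), (-51160), 2064839, 324347, 498147, 121538, 0, 0, 0⟩) r20_ok (by decide +kernel)

def r20_leaf63 :
    Sound r20R [(0, 1, 1), (0, 1, 1), (0, 1, 2), (0, 1, 1), (1, 2, 4)] :=
  sound_leaf (K := 176) (L := ⟨(-8808038), 273029, (-23986), 1666355, 272168, 502426, 114506, 0, 0, 0⟩) r20_ok (by decide +kernel)

def r20_leaf64 :
    Sound r20R [(0, 1, 1), (0, 1, 1), (1, 2, 2), (0, 1, 1), (0, 1, 2)] :=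
  sound_leaf (K := 170) (L := ⟨(-8388608), 167425, 17356, 1337846, 253087, 466613, 105393, 0, 0, 0⟩) r20_ok (by decide +kernel)

def r20_leaf65 :
    Sound r20R [(0, 1, 1), (0, 1, 1), (0, 1, 1), (0, 1, 1), (1, 2, 2)] :=
  sound_leaf (K := 163) (L := ⟨(-5033165), 263461, (-36858), 918519, 199109, 428287, 98905, 0, 0, 0⟩) r20_ok (by decide +kernel)

end Vale.Agent.P100.Calib.LowEnd
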