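import Vale.Agent.P100.Calib.SlabLowEndR20LeavesA
import Vale.Agent.P100.Calib.SlabLowEndR20LeavesB
import Vale.Agent.P100.Calib.SlabLowEndR20LeavesC

/-!
# The cover of root 20
-/

set_option maxRecDepth 100000
-- the heavy checks are definitions, so that they are checked one after another
set_option linter.defProp false

namespace Vale.Agent.P100.Calib.LowEnd

open Pack Band

theorem r20_node0 :
    Sound r20R [(0, 1, 8), (0, 1, 8), (0, 1, 8), (0, 1, 4), (1, 2, 16)] :=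
  sound_node (j := 3) (by decide) r20_leaf1 r20_leaf2

theorem r20_node1 :
    Sound r20R [(0, 1, 8), (0, 1, 8), (0, 1, 8), (0, 1, 4), (0, 1, 8)] :=
  sound_node (j := 4) (by decide) r20_leaf0 r20_node0

theorem r20_node2 :
    Sound r20R [(0, 1, 8), (0, 1, 8), (0, 1, 8), (0, 1, 4), (0, 1, 4)] :=
  sound_node (j := 4) (by decide) r20_node1 r20_leaf3

theorem r20_node3 :
    Sound r20R [(0, 1, 8), (1, 2, 8), (0, 1, 16), (1, 2, 8), (0, 1, 8)] :=
  sound_node (j := 4) (by decide) r20_leaf5 r20_leaf6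

theorem r20_node4 :
    Sound r20R [(0, 1, 8), (1, 2, 8), (0, 1, 16), (0, 1, 4), (0, 1, 8)] :=
  sound_node (j := 3) (by decide) r20_leaf4 r20_node3

theorem r20_node5 :
    Sound r20R [(0, 1, 8), (1, 2, 8), (0, 1, 16), (0, 1, 4), (0, 1, 4)] :=
  sound_node (j := 4) (by decide) r20_node4 r20_leaf7

theorem r20_node6 :
    Sound r20R [(0, 1, 8), (1, 2, 8), (1, 2, 16), (0, 1, 4), (0, 1, 4)] :=
  sound_node (j := 4) (by decide) r20_leaf8 r20_leaf9

theorem r20_node7 :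
    Sound r20R [(0, 1, 8), (1, 2, 8), (0, 1, 8), (0, 1, 4), (0, 1, 4)] :=
  sound_node (j := 2) (by decide) r20_node5 r20_node6

theorem r20_node8 :
    Sound r20R [(0, 1, 8), (0, 1, 4), (0, 1, 8), (0, 1, 4), (0, 1, 4)] :=
  sound_node (j := 1) (by decide) r20_node2 r20_node7

theorem r20_node9 :
    Sound r20R [(0, 1, 16), (1, 2, 4), (0, 1, 8), (1, 2, 8), (0, 1, 8)] :=
  sound_node (j := 4) (by decide) r20_leaf11 r20_leaf12

theorem r20_node10 :
    Sound r20R [(0, 1, 16), (1, 2, 4), (0, 1, 8), (0, 1, 4), (0, 1, 8)] :=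
  sound_node (j := 3) (by decide) r20_leaf10 r20_node9

theorem r20_node11 :
    Sound r20R [(0, 1, 16), (1, 2, 4), (0, 1, 8), (0, 1, 4), (0, 1, 4)] :=
  sound_node (j := 4) (by decide) r20_node10 r20_leaf13

theorem r20_node12 :
    Sound r20R [(1, 2, 16), (1, 2, 4), (0, 1, 8), (1, 2, 8), (0, 1, 8)] :=
  sound_node (j := 4) (by decide) r20_leaf15 r20_leaf16

theorem r20_node13 :
    Sound r20R [(1, 2, 16), (1, 2, 4), (0, 1, 8), (0, 1, 4), (0, 1, 8)] :=
  sound_node (j := 3) (by decide) r20_leaf14 r20_node12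

theorem r20_node14 :
    Sound r20R [(1, 2, 16), (1, 2, 4), (0, 1, 8), (0, 1, 4), (0, 1, 4)] :=
  sound_node (j := 4) (by decide) r20_node13 r20_leaf17

theorem r20_node15 :
    Sound r20R [(0, 1, 8), (1, 2, 4), (0, 1, 8), (0, 1, 4), (0, 1, 4)] :=
  sound_node (j := 0) (by decide) r20_node11 r20_node14

theorem r20_node16 :
    Sound r20R [(0, 1, 8), (0, 1, 2), (0, 1, 8), (0, 1, 4), (0, 1, 4)] :=
  sound_node (j := 1) (by decide) r20_node8 r20_node15

theorem r20_node17 :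
    Sound r20R [(1, 2, 8), (0, 1, 2), (0, 1, 8), (1, 2, 8), (0, 1, 8)] :=
  sound_node (j := 4) (by decide) r20_leaf19 r20_leaf20

theorem r20_node18 :
    Sound r20R [(1, 2, 8), (0, 1, 2), (0, 1, 8), (0, 1, 4), (0, 1, 8)] :=
  sound_node (j := 3) (by decide) r20_leaf18 r20_node17

theorem r20_node19 :
    Sound r20R [(1, 2, 8), (0, 1, 2), (0, 1, 8), (0, 1, 4), (0, 1, 4)] :=
  sound_node (j := 4) (by decide) r20_node18 r20_leaf21

theorem r20_node20 :
    Sound r20R [(0, 1, 4), (0, 1, 2), (0, 1, 8), (0, 1, 4), (0, 1, 4)] :=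
  sound_node (j := 0) (by decide) r20_node16 r20_node19

theorem r20_node21 :
    Sound r20R [(0, 1, 4), (1, 2, 2), (0, 1, 8), (1, 2, 8), (0, 1, 8)] :=
  sound_node (j := 4) (by decide) r20_leaf23 r20_leaf24

theorem r20_node22 :
    Sound r20R [(0, 1, 4), (1, 2, 2), (0, 1, 8), (0, 1, 4), (0, 1, 8)] :=
  sound_node (j := 3) (by decide) r20_leaf22 r20_node21

theorem r20_node23 :
    Sound r20R [(0, 1, 4), (1, 2, 2), (0, 1, 8), (0, 1, 4), (0, 1, 4)] :=
  sound_node (j := 4) (by decide) r20_node22 r20_leaf25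

theorem r20_node24 :
    Sound r20R [(0, 1, 4), (0, 1, 1), (0, 1, 8), (0, 1, 4), (0, 1, 4)] :=
  sound_node (j := 1) (by decide) r20_node20 r20_node23

theorem r20_node25 :
    Sound r20R [(0, 1, 4), (0, 1, 1), (1, 2, 8), (0, 1, 4), (0, 1, 4)] :=
  sound_node (j := 4) (by decide) r20_leaf26 r20_leaf27

theorem r20_node26 :
    Sound r20R [(0, 1, 4), (0, 1, 1), (0, 1, 4), (0, 1, 4), (0, 1, 4)] :=
  sound_node (j := 2) (by decide) r20_node24 r20_node25

theorem r20_node27 :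
    Sound r20R [(1, 2, 4), (0, 1, 1), (0, 1, 4), (1, 2, 8), (0, 1, 8)] :=
  sound_node (j := 4) (by decide) r20_leaf29 r20_leaf30

theorem r20_node28 :
    Sound r20R [(1, 2, 4), (0, 1, 1), (0, 1, 4), (0, 1, 4), (0, 1, 8)] :=
  sound_node (j := 3) (by decide) r20_leaf28 r20_node27

theorem r20_node29 :
    Sound r20R [(1, 2, 4), (0, 1, 1), (0, 1, 4), (0, 1, 4), (0, 1, 4)] :=
  sound_node (j := 4) (by decide) r20_node28 r20_leaf31

theorem r20_node30 :
    Sound r20R [(0, 1, 2), (0, 1, 1), (0, 1, 4), (0, 1, 4), (0, 1, 4)] :=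
  sound_node (j := 0) (by decide) r20_node26 r20_node29

theorem r20_node31 :
    Sound r20R [(0, 1, 8), (0, 1, 4), (0, 1, 8), (4, 5, 16), (0, 1, 8)] :=
  sound_node (j := 4) (by decide) r20_leaf32 r20_leaf33

theorem r20_node32 :
    Sound r20R [(0, 1, 8), (0, 1, 4), (0, 1, 8), (4, 5, 16), (0, 1, 4)] :=
  sound_node (j := 4) (by decide) r20_node31 r20_leaf34

theorem r20_node33 :
    Sound r20R [(0, 1, 8), (0, 1, 4), (0, 1, 8), (2, 3, 8), (0, 1, 4)] :=
  sound_node (j := 3) (by decide) r20_node32 r20_leaf35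

theorem r20_node34 :
    Sound r20R [(0, 1, 8), (0, 1, 4), (0, 1, 4), (2, 3, 8), (0, 1, 4)] :=
  sound_node (j := 2) (by decide) r20_node33 r20_leaf36

theorem r20_node35 :
    Sound r20R [(0, 1, 4), (0, 1, 4), (0, 1, 4), (2, 3, 8), (0, 1, 4)] :=
  sound_node (j := 0) (by decide) r20_node34 r20_leaf37

theorem r20_node36 :
    Sound r20R [(0, 1, 4), (0, 1, 4), (0, 1, 4), (1, 2, 4), (0, 1, 4)] :=
  sound_node (j := 3) (by decide) r20_node35 r20_leaf38

theorem r20_node37 :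
    Sound r20R [(0, 1, 4), (0, 1, 2), (0, 1, 4), (1, 2, 4), (0, 1, 4)] :=
  sound_node (j := 1) (by decide) r20_node36 r20_leaf39

theorem r20_node38 :
    Sound r20R [(0, 1, 2), (0, 1, 2), (0, 1, 4), (1, 2, 4), (0, 1, 4)] :=
  sound_node (j := 0) (by decide) r20_node37 r20_leaf40

theorem r20_node39 :
    Sound r20R [(0, 1, 2), (0, 1, 1), (0, 1, 4), (1, 2, 4), (0, 1, 4)] :=
  sound_node (j := 1) (by decide) r20_node38 r20_leaf41

theorem r20_node40 :
    Sound r20R [(0, 1, 2), (0, 1, 1), (0, 1, 4), (0, 1, 2), (0, 1, 4)] :=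
  sound_node (j := 3) (by decide) r20_node30 r20_node39

theorem r20_node41 :
    Sound r20R [(0, 1, 4), (0, 1, 2), (1, 2, 4), (0, 1, 4), (0, 1, 4)] :=
  sound_node (j := 3) (by decide) r20_leaf42 r20_leaf43

theorem r20_node42 :
    Sound r20R [(0, 1, 4), (0, 1, 2), (1, 2, 4), (0, 1, 2), (0, 1, 4)] :=
  sound_node (j := 3) (by decide) r20_node41 r20_leaf44

theorem r20_node43 :
    Sound r20R [(0, 1, 2), (0, 1, 2), (1, 2, 4), (0, 1, 2), (0, 1, 4)] :=
  sound_node (j := 0) (by decide) r20_node42 r20_leaf45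

theorem r20_node44 :
    Sound r20R [(0, 1, 2), (0, 1, 1), (1, 2, 4), (0, 1, 2), (0, 1, 4)] :=
  sound_node (j := 1) (by decide) r20_node43 r20_leaf46

theorem r20_node45 :
    Sound r20R [(0, 1, 2), (0, 1, 1), (0, 1, 2), (0, 1, 2), (0, 1, 4)] :=
  sound_node (j := 2) (by decide) r20_node40 r20_node44

theorem r20_node46 :
    Sound r20R [(1, 2, 2), (0, 1, 1), (0, 1, 4), (0, 1, 4), (0, 1, 8)] :=
  sound_node (j := 4) (by decide) r20_leaf47 r20_leaf48

theorem r20_node47 :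
    Sound r20R [(1, 2, 2), (0, 1, 1), (0, 1, 4), (0, 1, 4), (0, 1, 4)] :=
  sound_node (j := 4) (by decide) r20_node46 r20_leaf49

theorem r20_node48 :
    Sound r20R [(1, 2, 2), (0, 1, 1), (0, 1, 4), (0, 1, 2), (0, 1, 4)] :=
  sound_node (j := 3) (by decide) r20_node47 r20_leaf50

theorem r20_node49 :
    Sound r20R [(1, 2, 2), (0, 1, 1), (0, 1, 2), (0, 1, 2), (0, 1, 4)] :=
  sound_node (j := 2) (by decide) r20_node48 r20_leaf51

theorem r20_node50 :
    Sound r20R [(0, 1, 1), (0, 1, 1), (0, 1, 2), (0, 1, 2), (0, 1, 4)] :=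
  sound_node (j := 0) (by decide) r20_node45 r20_node49

theorem r20_node51 :
    Sound r20R [(0, 1, 2), (0, 1, 1), (0, 1, 16), (15, 16, 16), (0, 1, 16)] :=
  sound_node (j := 3) (by decide) r20_leaf55 r20_leaf56

theorem r20_node52 :
    Sound r20R [(0, 1, 2), (0, 1, 1), (0, 1, 16), (15, 16, 16), (0, 1, 8)] :=
  sound_node (j := 4) (by decide) r20_node51 r20_leaf57

theorem r20_node53 :
    Sound r20R [(0, 1, 1), (0, 1, 1), (0, 1, 16), (15, 16, 16), (0, 1, 8)] :=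
  sound_node (j := 0) (by decide) r20_node52 r20_leaf58

theorem r20_node54 :
    Sound r20R [(0, 1, 1), (0, 1, 1), (0, 1, 8), (15, 16, 16), (0, 1, 8)] :=
  sound_node (j := 2) (by decide) r20_node53 r20_leaf59

theorem r20_node55 :
    Sound r20R [(0, 1, 1), (0, 1, 1), (0, 1, 8), (7, 8, 8), (0, 1, 8)] :=
  sound_node (j := 3) (by decide) r20_leaf54 r20_node54

theorem r20_node56 :
    Sound r20R [(0, 1, 1), (0, 1, 1), (0, 1, 4), (7, 8, 8), (0, 1, 8)] :=
  sound_node (j := 2) (by decide) r20_node55 r20_leaf60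

theorem r20_node57 :
    Sound r20R [(0, 1, 1), (0, 1, 1), (0, 1, 4), (7, 8, 8), (0, 1, 4)] :=
  sound_node (j := 4) (by decide) r20_node56 r20_leaf61

theorem r20_node58 :
    Sound r20R [(0, 1, 1), (0, 1, 1), (0, 1, 4), (3, 4, 4), (0, 1, 4)] :=
  sound_node (j := 3) (by decide) r20_leaf53 r20_node57

theorem r20_node59 :
    Sound r20R [(0, 1, 1), (0, 1, 1), (0, 1, 2), (3, 4, 4), (0, 1, 4)] :=
  sound_node (j := 2) (by decide) r20_node58 r20_leaf62

theorem r20_node60 :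
    Sound r20R [(0, 1, 1), (0, 1, 1), (0, 1, 2), (1, 2, 2), (0, 1, 4)] :=
  sound_node (j := 3) (by decide) r20_leaf52 r20_node59

theorem r20_node61 :
    Sound r20R [(0, 1, 1), (0, 1, 1), (0, 1, 2), (0, 1, 1), (0, 1, 4)] :=
  sound_node (j := 3) (by decide) r20_node50 r20_node60

theorem r20_node62 :
    Sound r20R [(0, 1, 1), (0, 1, 1), (0, 1, 2), (0, 1, 1), (0, 1, 2)] :=
  sound_node (j := 4) (by decide) r20_node61 r20_leaf63

theorem r20_node63 :
    Sound r20R [(0, 1, 1), (0, 1, 1), (0, 1, 1), (0, 1, 1), (0, 1, 2)] :=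
  sound_node (j := 2) (by decide) r20_node62 r20_leaf64

theorem r20_node64 :
    Sound r20R [(0, 1, 1), (0, 1, 1), (0, 1, 1), (0, 1, 1), (0, 1, 1)] :=
  sound_node (j := 4) (by decide) r20_node63 r20_leaf65

theorem r20_sound :
    Sound r20R [(0, 1, 1), (0, 1, 1), (0, 1, 1), (0, 1, 1), (0, 1, 1)] :=
  r20_node64

end Vale.Agent.P100.Calib.LowEnd
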