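import Vale.Agent.P100.Calib.SlabLowEndR20Base

/-!
# Leaves 1 of the cover of root 20
-/

set_option maxRecDepth 100000
-- the heavy checks are definitions, so that they are checked one after another
set_option linter.defProp false

namespace Vale.Agent.P100.Calib.LowEnd

open Pack Band

def r20_leaf0 :
    Sound r20R [(0, 1, 8), (0, 1, 8), (0, 1, 8), (0, 1, 4), (0, 1, 16)] :=
  sound_empty (K := 165) (q := 11) r20_ok (by decide +kernel)

def r20_leaf1 :
    Sound r20R [(0, 1, 8), (0, 1, 8), (0, 1, 8), (0, 1, 8), (1, 2, 16)] :=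
  sound_empty (K := 171) (q := 11) r20_ok (by decide +kernel)

def r20_leaf2 :
    Sound r20R [(0, 1, 8), (0, 1, 8), (0, 1, 8), (1, 2, 8), (1, 2, 16)] :=
  sound_leaf (K := 255) (L := ⟨(-9332326), 1766710, 195456, (-547352), 417452, 340625, 47251, 0, 0, 0⟩) r20_ok (by decide +kernel)

def r20_leaf3 :
    Sound r20R [(0, 1, 8), (0, 1, 8), (0, 1, 8), (0, 1, 4), (1, 2, 8)] :=
  sound_leaf (K := 243) (L := ⟨(-8388608), 2057028, 183120, 2057074, 354202, 354047, 78585, 0, 0, 0⟩) r20_ok (by decide +kernel)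

def r20_leaf4 :
    Sound r20R [(0, 1, 8), (1, 2, 8), (0, 1, 16), (0, 1, 8), (0, 1, 8)] :=
  sound_empty (K := 171) (q := 11) r20_ok (by decide +kernel)

def r20_leaf5 :
    Sound r20R [(0, 1, 8), (1, 2, 8), (0, 1, 16), (1, 2, 8), (0, 1, 16)] :=
  sound_empty (K := 177) (q := 11) r20_ok (by decide +kernel)

def r20_leaf6 :
    Sound r20R [(0, 1, 8), (1, 2, 8), (0, 1, 16), (1, 2, 8), (1, 2, 16)] :=
  sound_leaf (K := 261) (L := ⟨(-8808038), 1716488, 172818, 3044555, 428519, 485754, 115816, 0, 0, 0⟩) r20_ok (by decide +kernel)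

def r20_leaf7 :
    Sound r20R [(0, 1, 8), (1, 2, 8), (0, 1, 16), (0, 1, 4), (1, 2, 8)] :=
  sound_leaf (K := 249) (L := ⟨(-8388608), 1676930, 170971, 2011311, 359280, 468553, 105842, 0, 0, 0⟩) r20_ok (by decide +kernel)

def r20_leaf8 :
    Sound r20R [(0, 1, 8), (1, 2, 8), (1, 2, 16), (0, 1, 4), (0, 1, 8)] :=
  sound_empty (K := 165) (q := 11) r20_ok (by decide +kernel)

def r20_leaf9 :
    Sound r20R [(0, 1, 8), (1, 2, 8), (1, 2, 16), (0, 1, 4), (1, 2, 8)] :=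
  sound_leaf (K := 249) (L := ⟨(-10066330), 1535098, 98940, 3088915, 350476, 619904, 135330, 0, 0, 0⟩) r20_ok (by decide +kernel)

def r20_leaf10 :
    Sound r20R [(0, 1, 16), (1, 2, 4), (0, 1, 8), (0, 1, 8), (0, 1, 8)] :=
  sound_empty (K := 165) (q := 11) r20_ok (by decide +kernel)

def r20_leaf11 :
    Sound r20R [(0, 1, 16), (1, 2, 4), (0, 1, 8), (1, 2, 8), (0, 1, 16)] :=
  sound_empty (K := 171) (q := 11) r20_ok (by decide +kernel)

def r20_leaf12 :
    Sound r20R [(0, 1, 16), (1, 2, 4), (0, 1, 8), (1, 2, 8), (1, 2, 16)] :=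
  sound_leaf (K := 255) (L := ⟨(-8808038), 1520740, 149126, 3506371, 408263, 619466, 147849, 0, 0, 0⟩) r20_ok (by decide +kernel)

def r20_leaf13 :
    Sound r20R [(0, 1, 16), (1, 2, 4), (0, 1, 8), (0, 1, 4), (1, 2, 8)] :=
  sound_leaf (K := 243) (L := ⟨(-8388608), 1522678, 126618, 1850641, 344745, 328402, 136776, 0, 0, 0⟩) r20_ok (by decide +kernel)

def r20_leaf14 :
    Sound r20R [(1, 2, 16), (1, 2, 4), (0, 1, 8), (0, 1, 8), (0, 1, 8)] :=
  sound_empty (K := 165) (q := 11) r20_ok (by decide +kernel)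

def r20_leaf15 :
    Sound r20R [(1, 2, 16), (1, 2, 4), (0, 1, 8), (1, 2, 8), (0, 1, 16)] :=
  sound_empty (K := 171) (q := 11) r20_ok (by decide +kernel)

def r20_leaf16 :
    Sound r20R [(1, 2, 16), (1, 2, 4), (0, 1, 8), (1, 2, 8), (1, 2, 16)] :=
  sound_leaf (K := 255) (L := ⟨(-8808038), 1472665, 115775, 3514928, 406175, 623275, 148714, 0, 0, 0⟩) r20_ok (by decide +kernel)

def r20_leaf17 :
    Sound r20R [(1, 2, 16), (1, 2, 4), (0, 1, 8), (0, 1, 4), (1, 2, 8)] :=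
  sound_leaf (K := 243) (L := ⟨(-10066330), 1422367, 64127, 2968546, 353308, 601857, 134508, 0, 0, 0⟩) r20_ok (by decide +kernel)

def r20_leaf18 :
    Sound r20R [(1, 2, 8), (0, 1, 2), (0, 1, 8), (0, 1, 8), (0, 1, 8)] :=
  sound_empty (K := 153) (q := 11) r20_ok (by decide +kernel)

def r20_leaf19 :
    Sound r20R [(1, 2, 8), (0, 1, 2), (0, 1, 8), (1, 2, 8), (0, 1, 16)] :=
  sound_empty (K := 159) (q := 11) r20_ok (by decide +kernel)

def r20_leaf20 :
    Sound r20R [(1, 2, 8), (0, 1, 2), (0, 1, 8), (1, 2, 8), (1, 2, 16)] :=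
  sound_leaf (K := 243) (L := ⟨(-8388608), 1428236, 107008, 2785848, 422275, 479290, 110029, 0, 0, 0⟩) r20_ok (by decide +kernel)

def r20_leaf21 :
    Sound r20R [(1, 2, 8), (0, 1, 2), (0, 1, 8), (0, 1, 4), (1, 2, 8)] :=
  sound_leaf (K := 231) (L := ⟨(-10066330), 601732, 31622, 2468591, 356970, 624742, 137724, 0, 0, 0⟩) r20_ok (by decide +kernel)

end Vale.Agent.P100.Calib.LowEnd
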