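import Vale.Agent.P100.Calib.SlabLowEndR20Data

/-!
# The slots of root 20 are within their tolerances
-/

set_option maxRecDepth 100000
-- the heavy checks are definitions, so that they are checked one after another
set_option linter.defProp false

namespace Vale.Agent.P100.Calib.LowEnd

open Pack Band

def r20_slot0 : checkSlot r20B r20P.sig 56 r20D0 r20T0 = true := by decide +kernel

def r20_slot1 : checkSlot r20B r20P.sig 56 r20D1 r20T1 = true := by decide +kernel

def r20_slot2 : checkSlot r20B r20P.sig 48 r20D2 r20T2 = true := by decide +kernel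

def r20_slot3 : checkSlot r20B r20P.sig 56 r20D3 r20T3 = true := by decide +kernel

def r20_slot4 : checkSlot r20B r20P.sig 56 r20D4 r20T4 = true := by decide +kernel

def r20_slot5 : checkSlot r20B r20P.sig 56 r20D5 r20T5 = true := by decide +kernel

def r20_slot6 : checkSlot r20B r20P.sig 56 r20D6 r20T6 = true := by decide +kernel

def r20_slot7 : checkSlot r20B r20P.sig 56 r20D7 r20T7 = true := by decide +kernel

def r20_slot8 : checkSlot r20B r20P.sig 56 r20D8 r20T8 = true := by decide +kernel

def r20_slot9 : checkSlot r20B r20P.sig 56 r20D9 r20T9 = true := by decide +kernel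

def r20_slot10 : checkSlot r20B r20P.sig 56 r20D10 r20T10 = true := by decide +kernel

def r20_slot11 : checkSlot r20B r20P.sig 56 r20D11 r20T11 = true := by decide +kernel

def r20_slot12 : checkSlot r20B r20P.sig 56 r20D12 r20T12 = true := by decide +kernel

theorem r20_near {x y : ℕ → ℝ} (hx : InBox r20B x) (hc : Coord r20P.sig x y) :
    Near r20R y (valueAt r20L x) :=
  near_root rfl (fun q hq => by
    simp only [r20L, List.length_cons, List.length_nil] at hq
    interval_cases q
    · exact ⟨_, r20_slot0⟩
    · exact ⟨_, r20_slot1⟩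
    · exact ⟨_, r20_slot2⟩
    · exact ⟨_, r20_slot3⟩
    · exact ⟨_, r20_slot4⟩
    · exact ⟨_, r20_slot5⟩
    · exact ⟨_, r20_slot6⟩
    · exact ⟨_, r20_slot7⟩
    · exact ⟨_, r20_slot8⟩
    · exact ⟨_, r20_slot9⟩
    · exact ⟨_, r20_slot10⟩
    · exact ⟨_, r20_slot11⟩
    · exact ⟨_, r20_slot12⟩
  ) hx hc

end Vale.Agent.P100.Calib.LowEnd
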