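import Vale.Agent.P100.Calib.SlabLowEndR2Data

/-!
# The cover of root 2
-/

set_option maxRecDepth 100000
-- the heavy checks are definitions, so that they are checked one after another
set_option linter.defProp false

namespace Vale.Agent.P100.Calib.LowEnd

open Pack Band

theorem r2_ok : rootOk r2R = true := by decide +kernel

def r2_leaf0 :
    Sound r2R [(0, 1, 1), (0, 1, 1), (0, 1, 2), (0, 1, 2), (0, 1, 1)] :=
  sound_empty (K := 86) (q := 12) r2_ok (by decide +kernel)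

def r2_leaf1 :
    Sound r2R [(0, 1, 1), (0, 1, 1), (1, 2, 2), (0, 1, 2), (0, 1, 1)] :=
  sound_leaf (K := 170) (L := ⟨(-10485760), 1398026, 48746, 2718251, 236242, 403201, 102764, 0, 0, 0⟩) r2_ok (by decide +kernel)

def r2_leaf2 :
    Sound r2R [(0, 1, 1), (0, 1, 1), (0, 1, 4), (2, 3, 4), (0, 1, 2)] :=
  sound_empty (K := 104) (q := 12) r2_ok (by decide +kernel)

def r2_leaf3 :
    Sound r2R [(0, 1, 1), (0, 1, 2), (0, 1, 8), (6, 7, 8), (0, 1, 8)] :=
  sound_leaf (K := 219) (L := ⟨(-10066330), (-361751), (-94708), 3927495, 550144, 521786, 146982, 0, 0, 0⟩) r2_ok (by decide +kernel)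

def r2_leaf4 :
    Sound r2R [(0, 1, 2), (0, 1, 2), (0, 1, 16), (14, 15, 16), (0, 1, 16)] :=
  sound_leaf (K := 244) (L := ⟨(-10485760), (-958071), (-179607), 6242524, 625377, 521238, 227055, 0, 0, 0⟩) r2_ok (by decide +kernel)

def r2_leaf5 :
    Sound r2R [(0, 1, 2), (0, 1, 4), (0, 1, 16), (15, 16, 16), (0, 1, 16)] :=
  sound_leaf (K := 249) (L := ⟨(-10223616), (-1376792), (-245243), 3222263, 623892, 398265, 102423, 4280235336479225173092491, 0, 0⟩) r2_ok (by decide +kernel)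

def r2_leaf6 :
    Sound r2R [(0, 1, 2), (1, 2, 4), (0, 1, 16), (15, 16, 16), (0, 1, 32)] :=
  sound_leaf (K := 255) (L := ⟨(-10905190), (-1403648), (-262371), 2455263, 627709, 500650, 122736, 6788238432800594077555038, 1044347713353376822529914, 0⟩) r2_ok (by decide +kernel)

def r2_leaf7 :
    Sound r2R [(0, 1, 2), (1, 2, 4), (0, 1, 16), (15, 16, 16), (1, 2, 32)] :=
  sound_leaf (K := 255) (L := ⟨(-10485760), (-1092539), (-203702), 3852480, 622156, 497041, 151814, 0, 0, 0⟩) r2_ok (by decide +kernel)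

def r2_leaf8 :
    Sound r2R [(1, 2, 2), (0, 1, 2), (0, 1, 16), (14, 15, 16), (0, 1, 16)] :=
  sound_leaf (K := 244) (L := ⟨(-10066330), (-894763), (-163793), 5065931, 641343, 719281, 213955, 0, 0, 0⟩) r2_ok (by decide +kernel)

def r2_leaf9 :
    Sound r2R [(4, 5, 8), (0, 1, 2), (0, 1, 32), (30, 31, 32), (0, 1, 32)] :=
  sound_leaf (K := 274) (L := ⟨(-10485760), (-1488977), (-260883), 4232799, 669767, 531272, 179596, 0, 0, 0⟩) r2_ok (by decide +kernel)

def r2_leaf10 :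
    Sound r2R [(4, 5, 8), (0, 1, 4), (0, 1, 32), (62, 63, 64), (0, 1, 32)] :=
  sound_leaf (K := 286) (L := ⟨(-10066330), (-1421253), (-240856), 6425081, 726081, 407757, 173814, 0, 0, 0⟩) r2_ok (by decide +kernel)

def r2_leaf11 :
    Sound r2R [(4, 5, 8), (0, 1, 4), (0, 1, 32), (63, 64, 64), (0, 1, 32)] :=
  sound_leaf (K := 286) (L := ⟨(-9646899), (-1199567), (-202874), 4067942, 825566, 549117, 157157, 9515670617214092541762703, 0, 0⟩) r2_ok (by decide +kernel)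

def r2_leaf12 :
    Sound r2R [(4, 5, 8), (1, 2, 4), (0, 1, 32), (31, 32, 32), (0, 1, 32)] :=
  sound_leaf (K := 280) (L := ⟨(-10066330), (-1188964), (-213037), 3823205, 785726, 279850, 82628, 24724850673031095318697858, 0, 0⟩) r2_ok (by decide +kernel)

def r2_leaf13 :
    Sound r2R [(5, 6, 8), (0, 1, 2), (0, 1, 32), (15, 16, 16), (0, 1, 32)] :=
  sound_leaf (K := 267) (L := ⟨(-10354688), (-1562257), (-265255), 4144161, 664980, 332935, 125356, 4053435813010010221432240, 0, 0⟩) r2_ok (by decide +kernel)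

def r2_leaf14 :
    Sound r2R [(3, 4, 4), (0, 1, 2), (0, 1, 32), (30, 31, 32), (0, 1, 32)] :=
  sound_leaf (K := 268) (L := ⟨(-10066330), (-1214998), (-212733), 6146469, 709310, 398156, 164459, 0, 0, 0⟩) r2_ok (by decide +kernel)

def r2_leaf15 :
    Sound r2R [(3, 4, 4), (0, 1, 4), (0, 1, 32), (31, 32, 32), (0, 1, 32)] :=
  sound_leaf (K := 274) (L := ⟨(-10066330), (-1579769), (-262869), 6475970, 697416, 226650, 97361, 7646922454428900776878000, 0, 0⟩) r2_ok (by decide +kernel)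

def r2_leaf16 :
    Sound r2R [(3, 4, 4), (1, 2, 4), (0, 1, 32), (31, 32, 32), (0, 1, 32)] :=
  sound_leaf (K := 273) (L := ⟨(-10066330), (-1288292), (-226270), 2885085, 736962, 517157, 153552, 8947100034970362761377730, 0, 0⟩) r2_ok (by decide +kernel)

def r2_leaf17 :
    Sound r2R [(1, 2, 2), (0, 1, 2), (1, 2, 32), (15, 16, 16), (0, 1, 32)] :=
  sound_leaf (K := 256) (L := ⟨(-10066330), (-1150530), (-197896), 4967838, 658488, 712078, 208291, 0, 0, 0⟩) r2_ok (by decide +kernel)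

def r2_leaf18 :
    Sound r2R [(1, 2, 2), (0, 1, 2), (0, 1, 16), (15, 16, 16), (1, 2, 32)] :=
  sound_leaf (K := 250) (L := ⟨(-10066330), (-1131808), (-199068), 5956606, 624978, 526727, 207501, 0, 0, 0⟩) r2_ok (by decide +kernel)

def r2_leaf19 :
    Sound r2R [(0, 1, 1), (0, 1, 2), (1, 2, 16), (7, 8, 8), (0, 1, 16)] :=
  sound_leaf (K := 231) (L := ⟨(-10066330), (-769757), (-137751), 4739883, 570039, 690771, 189927, 0, 0, 0⟩) r2_ok (by decide +kernel)

def r2_leaf20 :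
    Sound r2R [(0, 1, 1), (0, 1, 2), (0, 1, 8), (7, 8, 8), (1, 2, 16)] :=
  sound_leaf (K := 225) (L := ⟨(-10066330), (-744236), (-141991), 3764904, 528929, 510392, 139912, 0, 0, 0⟩) r2_ok (by decide +kernel)

def r2_leaf21 :
    Sound r2R [(0, 1, 1), (1, 2, 2), (0, 1, 8), (6, 7, 8), (0, 1, 8)] :=
  sound_leaf (K := 219) (L := ⟨(-10905190), (-253441), (-80872), 4440674, 495616, 617663, 187124, 0, 0, 0⟩) r2_ok (by decide +kernel)

def r2_leaf22 :
    Sound r2R [(0, 1, 1), (1, 2, 2), (0, 1, 16), (14, 15, 16), (0, 1, 16)] :=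
  sound_leaf (K := 237) (L := ⟨(-10905190), (-729139), (-158691), 5401068, 599121, 340909, 144861, 0, 0, 0⟩) r2_ok (by decide +kernel)

def r2_leaf23 :
    Sound r2R [(0, 1, 2), (2, 3, 4), (0, 1, 32), (30, 31, 32), (0, 1, 32)] :=
  sound_leaf (K := 267) (L := ⟨(-11324621), (-1404524), (-272466), 2915180, 621247, 472040, 126309, 0, 0, 0⟩) r2_ok (by decide +kernel)

def r2_leaf24 :
    Sound r2R [(0, 1, 2), (4, 5, 8), (0, 1, 32), (31, 32, 32), (0, 1, 32)] :=
  sound_leaf (K := 273) (L := ⟨(-10905190), (-1363396), (-257925), 2850211, 690215, 477896, 158718, 9335330543672491026998054, 0, 0⟩) r2_ok (by decide +kernel)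

def r2_leaf25 :
    Sound r2R [(0, 1, 8), (5, 6, 8), (0, 1, 32), (31, 32, 32), (0, 1, 32)] :=
  sound_leaf (K := 286) (L := ⟨(-11744051), (-1736079), (-337886), 3905582, 596617, 458892, 178058, 12445167468598113094381727, 0, 0⟩) r2_ok (by decide +kernel)

def r2_leaf26 :
    Sound r2R [(1, 2, 8), (5, 6, 8), (0, 1, 32), (31, 32, 32), (0, 1, 32)] :=
  sound_leaf (K := 285) (L := ⟨(-11324621), (-1430350), (-278949), 3780262, 644303, 461380, 161954, 11632659456683224809552925, 0, 0⟩) r2_ok (by decide +kernel)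

def r2_leaf27 :
    Sound r2R [(1, 2, 4), (5, 6, 8), (0, 1, 32), (31, 32, 32), (0, 1, 32)] :=
  sound_leaf (K := 279) (L := ⟨(-11324621), (-1505870), (-290383), 3802040, 624055, 465150, 164128, 12182268944140663842304512, 0, 0⟩) r2_ok (by decide +kernel)

def r2_leaf28 :
    Sound r2R [(1, 2, 2), (2, 3, 4), (0, 1, 32), (15, 16, 16), (0, 1, 32)] :=
  sound_leaf (K := 261) (L := ⟨(-10905190), (-1376545), (-259117), 1393393, 636683, 446717, 94490, 5132848684213832403874639, 0, 0⟩) r2_ok (by decide +kernel)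

def r2_leaf29 :
    Sound r2R [(0, 1, 1), (3, 4, 4), (0, 1, 32), (15, 16, 16), (0, 1, 32)] :=
  sound_leaf (K := 255) (L := ⟨(-11744051), (-1409908), (-288885), 1952466, 574082, 447493, 109520, 4130414534807503991111841, 0, 0⟩) r2_ok (by decide +kernel)

def r2_leaf30 :
    Sound r2R [(0, 1, 1), (1, 2, 2), (1, 2, 32), (15, 16, 16), (0, 1, 32)] :=
  sound_leaf (K := 249) (L := ⟨(-10905190), (-972845), (-194418), 3505879, 616996, 337087, 141200, 0, 0, 0⟩) r2_ok (by decide +kernel)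

def r2_leaf31 :
    Sound r2R [(0, 1, 1), (1, 2, 2), (0, 1, 16), (15, 16, 16), (1, 2, 32)] :=
  sound_leaf (K := 243) (L := ⟨(-11324621), (-1130676), (-228312), 3633498, 542229, 454443, 151100, 0, 0, 0⟩) r2_ok (by decide +kernel)

def r2_leaf32 :
    Sound r2R [(0, 1, 1), (1, 2, 2), (1, 2, 16), (7, 8, 8), (0, 1, 16)] :=
  sound_leaf (K := 231) (L := ⟨(-10485760), (-649281), (-133942), 4091903, 552662, 604175, 169943, 0, 0, 0⟩) r2_ok (by decide +kernel)

def r2_leaf33 :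
    Sound r2R [(0, 1, 1), (1, 2, 2), (0, 1, 8), (7, 8, 8), (1, 2, 16)] :=
  sound_leaf (K := 225) (L := ⟨(-10905190), (-714650), (-154601), 4238046, 480980, 602660, 178094, 0, 0, 0⟩) r2_ok (by decide +kernel)

def r2_leaf34 :
    Sound r2R [(0, 1, 1), (0, 1, 1), (1, 2, 8), (3, 4, 4), (0, 1, 8)] :=
  sound_leaf (K := 207) (L := ⟨(-9646899), (-393372), (-67208), 3846119, 472596, 622577, 152143, 0, 0, 0⟩) r2_ok (by decide +kernel)

def r2_leaf35 :
    Sound r2R [(0, 1, 1), (0, 1, 1), (0, 1, 4), (3, 4, 4), (1, 2, 8)] :=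
  sound_leaf (K := 200) (L := ⟨(-9646899), (-426676), (-98950), 3043299, 426343, 459067, 112034, 0, 0, 0⟩) r2_ok (by decide +kernel)

def r2_leaf36 :
    Sound r2R [(0, 1, 1), (0, 1, 1), (0, 1, 4), (3, 4, 4), (1, 2, 4)] :=
  sound_empty (K := 111) (q := 11) r2_ok (by decide +kernel)

def r2_leaf37 :
    Sound r2R [(0, 1, 1), (0, 1, 1), (1, 2, 4), (1, 2, 2), (0, 1, 2)] :=
  sound_leaf (K := 182) (L := ⟨(-10485760), 101573, (-13042), 2818606, 333242, 571629, 122015, 0, 0, 0⟩) r2_ok (by decide +kernel)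

def r2_leaf38 :
    Sound r2R [(0, 1, 1), (0, 1, 1), (1, 2, 2), (1, 2, 2), (0, 1, 2)] :=
  sound_leaf (K := 175) (L := ⟨(-5872026), 63596, 9969, 1619476, 291243, 518323, 102638, 0, 0, 0⟩) r2_ok (by decide +kernel)

def r2_leaf39 :
    Sound r2R [(0, 1, 1), (0, 1, 1), (0, 1, 1), (1, 2, 2), (1, 2, 2)] :=
  sound_leaf (K := 169) (L := ⟨(-7549747), 218037, (-33277), 2093341, 243416, 519043, 105657, 0, 0, 0⟩) r2_ok (by decide +kernel)

theorem r2_node0 :
    Sound r2R [(0, 1, 1), (0, 1, 1), (0, 1, 1), (0, 1, 2), (0, 1, 1)] :=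
  sound_node (j := 2) (by decide) r2_leaf0 r2_leaf1

theorem r2_node1 :
    Sound r2R [(0, 1, 2), (1, 2, 4), (0, 1, 16), (15, 16, 16), (0, 1, 16)] :=
  sound_node (j := 4) (by decide) r2_leaf6 r2_leaf7

theorem r2_node2 :
    Sound r2R [(0, 1, 2), (0, 1, 2), (0, 1, 16), (15, 16, 16), (0, 1, 16)] :=
  sound_node (j := 1) (by decide) r2_leaf5 r2_node1

theorem r2_node3 :
    Sound r2R [(0, 1, 2), (0, 1, 2), (0, 1, 16), (7, 8, 8), (0, 1, 16)] :=
  sound_node (j := 3) (by decide) r2_leaf4 r2_node2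

theorem r2_node4 :
    Sound r2R [(4, 5, 8), (0, 1, 4), (0, 1, 32), (31, 32, 32), (0, 1, 32)] :=
  sound_node (j := 3) (by decide) r2_leaf10 r2_leaf11

theorem r2_node5 :
    Sound r2R [(4, 5, 8), (0, 1, 2), (0, 1, 32), (31, 32, 32), (0, 1, 32)] :=
  sound_node (j := 1) (by decide) r2_node4 r2_leaf12

theorem r2_node6 :
    Sound r2R [(4, 5, 8), (0, 1, 2), (0, 1, 32), (15, 16, 16), (0, 1, 32)] :=
  sound_node (j := 3) (by decide) r2_leaf9 r2_node5

theorem r2_node7 :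
    Sound r2R [(2, 3, 4), (0, 1, 2), (0, 1, 32), (15, 16, 16), (0, 1, 32)] :=
  sound_node (j := 0) (by decide) r2_node6 r2_leaf13

theorem r2_node8 :
    Sound r2R [(3, 4, 4), (0, 1, 2), (0, 1, 32), (31, 32, 32), (0, 1, 32)] :=
  sound_node (j := 1) (by decide) r2_leaf15 r2_leaf16

theorem r2_node9 :
    Sound r2R [(3, 4, 4), (0, 1, 2), (0, 1, 32), (15, 16, 16), (0, 1, 32)] :=
  sound_node (j := 3) (by decide) r2_leaf14 r2_node8

theorem r2_node10 :
    Sound r2R [(1, 2, 2), (0, 1, 2), (0, 1, 32), (15, 16, 16), (0, 1, 32)] :=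
  sound_node (j := 0) (by decide) r2_node7 r2_node9

theorem r2_node11 :
    Sound r2R [(1, 2, 2), (0, 1, 2), (0, 1, 16), (15, 16, 16), (0, 1, 32)] :=
  sound_node (j := 2) (by decide) r2_node10 r2_leaf17

theorem r2_node12 :
    Sound r2R [(1, 2, 2), (0, 1, 2), (0, 1, 16), (15, 16, 16), (0, 1, 16)] :=
  sound_node (j := 4) (by decide) r2_node11 r2_leaf18

theorem r2_node13 :
    Sound r2R [(1, 2, 2), (0, 1, 2), (0, 1, 16), (7, 8, 8), (0, 1, 16)] :=
  sound_node (j := 3) (by decide) r2_leaf8 r2_node12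

theorem r2_node14 :
    Sound r2R [(0, 1, 1), (0, 1, 2), (0, 1, 16), (7, 8, 8), (0, 1, 16)] :=
  sound_node (j := 0) (by decide) r2_node3 r2_node13

theorem r2_node15 :
    Sound r2R [(0, 1, 1), (0, 1, 2), (0, 1, 8), (7, 8, 8), (0, 1, 16)] :=
  sound_node (j := 2) (by decide) r2_node14 r2_leaf19

theorem r2_node16 :
    Sound r2R [(0, 1, 1), (0, 1, 2), (0, 1, 8), (7, 8, 8), (0, 1, 8)] :=
  sound_node (j := 4) (by decide) r2_node15 r2_leaf20

theorem r2_node17 :
    Sound r2R [(0, 1, 1), (0, 1, 2), (0, 1, 8), (3, 4, 4), (0, 1, 8)] :=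
  sound_node (j := 3) (by decide) r2_leaf3 r2_node16

theorem r2_node18 :
    Sound r2R [(0, 1, 4), (5, 6, 8), (0, 1, 32), (31, 32, 32), (0, 1, 32)] :=
  sound_node (j := 0) (by decide) r2_leaf25 r2_leaf26

theorem r2_node19 :
    Sound r2R [(0, 1, 2), (5, 6, 8), (0, 1, 32), (31, 32, 32), (0, 1, 32)] :=
  sound_node (j := 0) (by decide) r2_node18 r2_leaf27

theorem r2_node20 :
    Sound r2R [(0, 1, 2), (2, 3, 4), (0, 1, 32), (31, 32, 32), (0, 1, 32)] :=
  sound_node (j := 1) (by decide) r2_leaf24 r2_node19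

theorem r2_node21 :
    Sound r2R [(0, 1, 2), (2, 3, 4), (0, 1, 32), (15, 16, 16), (0, 1, 32)] :=
  sound_node (j := 3) (by decide) r2_leaf23 r2_node20

theorem r2_node22 :
    Sound r2R [(0, 1, 1), (2, 3, 4), (0, 1, 32), (15, 16, 16), (0, 1, 32)] :=
  sound_node (j := 0) (by decide) r2_node21 r2_leaf28

theorem r2_node23 :
    Sound r2R [(0, 1, 1), (1, 2, 2), (0, 1, 32), (15, 16, 16), (0, 1, 32)] :=
  sound_node (j := 1) (by decide) r2_node22 r2_leaf29

theorem r2_node24 :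
    Sound r2R [(0, 1, 1), (1, 2, 2), (0, 1, 16), (15, 16, 16), (0, 1, 32)] :=
  sound_node (j := 2) (by decide) r2_node23 r2_leaf30

theorem r2_node25 :
    Sound r2R [(0, 1, 1), (1, 2, 2), (0, 1, 16), (15, 16, 16), (0, 1, 16)] :=
  sound_node (j := 4) (by decide) r2_node24 r2_leaf31

theorem r2_node26 :
    Sound r2R [(0, 1, 1), (1, 2, 2), (0, 1, 16), (7, 8, 8), (0, 1, 16)] :=
  sound_node (j := 3) (by decide) r2_leaf22 r2_node25

theorem r2_node27 :
    Sound r2R [(0, 1, 1), (1, 2, 2), (0, 1, 8), (7, 8, 8), (0, 1, 16)] :=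
  sound_node (j := 2) (by decide) r2_node26 r2_leaf32

theorem r2_node28 :
    Sound r2R [(0, 1, 1), (1, 2, 2), (0, 1, 8), (7, 8, 8), (0, 1, 8)] :=
  sound_node (j := 4) (by decide) r2_node27 r2_leaf33

theorem r2_node29 :
    Sound r2R [(0, 1, 1), (1, 2, 2), (0, 1, 8), (3, 4, 4), (0, 1, 8)] :=
  sound_node (j := 3) (by decide) r2_leaf21 r2_node28

theorem r2_node30 :
    Sound r2R [(0, 1, 1), (0, 1, 1), (0, 1, 8), (3, 4, 4), (0, 1, 8)] :=
  sound_node (j := 1) (by decide) r2_node17 r2_node29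

theorem r2_node31 :
    Sound r2R [(0, 1, 1), (0, 1, 1), (0, 1, 4), (3, 4, 4), (0, 1, 8)] :=
  sound_node (j := 2) (by decide) r2_node30 r2_leaf34

theorem r2_node32 :
    Sound r2R [(0, 1, 1), (0, 1, 1), (0, 1, 4), (3, 4, 4), (0, 1, 4)] :=
  sound_node (j := 4) (by decide) r2_node31 r2_leaf35

theorem r2_node33 :
    Sound r2R [(0, 1, 1), (0, 1, 1), (0, 1, 4), (3, 4, 4), (0, 1, 2)] :=
  sound_node (j := 4) (by decide) r2_node32 r2_leaf36

theorem r2_node34 :
    Sound r2R [(0, 1, 1), (0, 1, 1), (0, 1, 4), (1, 2, 2), (0, 1, 2)] :=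
  sound_node (j := 3) (by decide) r2_leaf2 r2_node33

theorem r2_node35 :
    Sound r2R [(0, 1, 1), (0, 1, 1), (0, 1, 2), (1, 2, 2), (0, 1, 2)] :=
  sound_node (j := 2) (by decide) r2_node34 r2_leaf37

theorem r2_node36 :
    Sound r2R [(0, 1, 1), (0, 1, 1), (0, 1, 1), (1, 2, 2), (0, 1, 2)] :=
  sound_node (j := 2) (by decide) r2_node35 r2_leaf38

theorem r2_node37 :
    Sound r2R [(0, 1, 1), (0, 1, 1), (0, 1, 1), (1, 2, 2), (0, 1, 1)] :=
  sound_node (j := 4) (by decide) r2_node36 r2_leaf39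

theorem r2_node38 :
    Sound r2R [(0, 1, 1), (0, 1, 1), (0, 1, 1), (0, 1, 1), (0, 1, 1)] :=
  sound_node (j := 3) (by decide) r2_node0 r2_node37

theorem r2_sound :
    Sound r2R [(0, 1, 1), (0, 1, 1), (0, 1, 1), (0, 1, 1), (0, 1, 1)] :=
  r2_node38

end Vale.Agent.P100.Calib.LowEnd
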