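import Vale.Agent.P100.Calib.SlabLowEndR2Data

/-!
# The slots of root 2 are within their tolerances
-/

set_option maxRecDepth 100000
-- the heavy checks are definitions, so that they are checked one after another
set_option linter.defProp false

namespace Vale.Agent.P100.Calib.LowEnd

open Pack Band

def r2_slot0 : checkSlot r2B r2P.sig 56 r2D0 r2T0 = true := by decide +kernel

def r2_slot1 : checkSlot r2B r2P.sig 56 r2D1 r2T1 = true := by decide +kernel

def r2_slot2 : checkSlot r2B r2P.sig 56 r2D2 r2T2 = true := by decide +kernel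

def r2_slot3 : checkSlot r2B r2P.sig 56 r2D3 r2T3 = true := by decide +kernel

def r2_slot4 : checkSlot r2B r2P.sig 56 r2D4 r2T4 = true := by decide +kernel

def r2_slot5 : checkSlot r2B r2P.sig 56 r2D5 r2T5 = true := by decide +kernel

def r2_slot6 : checkSlot r2B r2P.sig 56 r2D6 r2T6 = true := by decide +kernel

def r2_slot7 : checkSlot r2B r2P.sig 56 r2D7 r2T7 = true := by decide +kernel

def r2_slot8 : checkSlot r2B r2P.sig 56 r2D8 r2T8 = true := by decide +kernel

def r2_slot9 : checkSlot r2B r2P.sig 56 r2D9 r2T9 = true := by decide +kernel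

def r2_slot10 : checkSlot r2B r2P.sig 56 r2D10 r2T10 = true := by decide +kernel

def r2_slot11 : checkSlot r2B r2P.sig 56 r2D11 r2T11 = true := by decide +kernel

def r2_slot12 : checkSlot r2B r2P.sig 56 r2D12 r2T12 = true := by decide +kernel

theorem r2_near {x y : ℕ → ℝ} (hx : InBox r2B x) (hc : Coord r2P.sig x y) :
    Near r2R y (valueAt r2L x) :=
  near_root rfl (fun q hq => by
    simp only [r2L, List.length_cons, List.length_nil] at hq
    interval_cases q
    · exact ⟨_, r2_slot0⟩
    · exact ⟨_, r2_slot1⟩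
    · exact ⟨_, r2_slot2⟩
    · exact ⟨_, r2_slot3⟩
    · exact ⟨_, r2_slot4⟩
    · exact ⟨_, r2_slot5⟩
    · exact ⟨_, r2_slot6⟩
    · exact ⟨_, r2_slot7⟩
    · exact ⟨_, r2_slot8⟩
    · exact ⟨_, r2_slot9⟩
    · exact ⟨_, r2_slot10⟩
    · exact ⟨_, r2_slot11⟩
    · exact ⟨_, r2_slot12⟩
  ) hx hc

end Vale.Agent.P100.Calib.LowEnd
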