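import Vale.Agent.P100.Calib.SlabLowEndR3Data

/-!
# The cover of root 3
-/

set_option maxRecDepth 100000
-- the heavy checks are definitions, so that they are checked one after another
set_option linter.defProp false

namespace Vale.Agent.P100.Calib.LowEnd

open Pack Band

theorem r3_ok : rootOk r3R = true := by decide +kernel

def r3_leaf0 :
    Sound r3R [(0, 1, 1), (0, 1, 1), (0, 1, 2), (0, 1, 2), (0, 1, 1)] :=
  sound_empty (K := 86) (q := 13) r3_ok (by decide +kernel)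

def r3_leaf1 :
    Sound r3R [(0, 1, 1), (0, 1, 1), (0, 1, 4), (2, 3, 4), (0, 1, 4)] :=
  sound_empty (K := 110) (q := 13) r3_ok (by decide +kernel)

def r3_leaf2 :
    Sound r3R [(0, 1, 1), (0, 1, 1), (0, 1, 8), (6, 7, 8), (0, 1, 8)] :=
  sound_leaf (K := 212) (L := ⟨(-9646899), (-344298), (-81918), 2613735, 546109, 682530, 131907, 0, 0, 0⟩) r3_ok (by decide +kernel)

def r3_leaf3 :
    Sound r3R [(0, 1, 1), (0, 1, 2), (0, 1, 16), (14, 15, 16), (0, 1, 16)] :=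
  sound_leaf (K := 238) (L := ⟨(-9646899), (-881221), (-155283), 4936655, 645523, 738557, 204471, 0, 0, 0⟩) r3_ok (by decide +kernel)

def r3_leaf4 :
    Sound r3R [(0, 1, 1), (0, 1, 2), (0, 1, 16), (30, 31, 32), (0, 1, 16)] :=
  sound_leaf (K := 243) (L := ⟨(-10066330), (-1274827), (-216735), 4065522, 607491, 543965, 162337, 0, 0, 0⟩) r3_ok (by decide +kernel)

def r3_leaf5 :
    Sound r3R [(0, 1, 1), (0, 1, 2), (0, 1, 16), (31, 32, 32), (0, 1, 16)] :=
  sound_leaf (K := 243) (L := ⟨(-10066330), (-1485781), (-236534), 3652890, 612819, 386666, 128591, 6056811964906662200533226, 0, 0⟩) r3_ok (by decide +kernel)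

def r3_leaf6 :
    Sound r3R [(0, 1, 1), (1, 2, 2), (0, 1, 16), (14, 15, 16), (0, 1, 16)] :=
  sound_leaf (K := 237) (L := ⟨(-10485760), (-851160), (-169239), 4441567, 573368, 645911, 192380, 0, 0, 0⟩) r3_ok (by decide +kernel)

def r3_leaf7 :
    Sound r3R [(0, 1, 1), (1, 2, 2), (0, 1, 16), (15, 16, 16), (0, 1, 16)] :=
  sound_leaf (K := 236) (L := ⟨(-10774118), (-1140188), (-232805), 2522660, 548396, 439403, 102870, 2976739330120784757422515, 0, 0⟩) r3_ok (by decide +kernel)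

def r3_leaf8 :
    Sound r3R [(0, 1, 1), (0, 1, 1), (1, 2, 16), (7, 8, 8), (0, 1, 16)] :=
  sound_leaf (K := 225) (L := ⟨(-9646899), (-748953), (-132561), 4218874, 575817, 668524, 172443, 0, 0, 0⟩) r3_ok (by decide +kernel)

def r3_leaf9 :
    Sound r3R [(0, 1, 1), (0, 1, 1), (0, 1, 8), (7, 8, 8), (1, 2, 16)] :=
  sound_leaf (K := 219) (L := ⟨(-9646899), (-714768), (-135703), 4184231, 524323, 665452, 171059, 0, 0, 0⟩) r3_ok (by decide +kernel)

def r3_leaf10 :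
    Sound r3R [(0, 1, 1), (0, 1, 1), (0, 1, 8), (3, 4, 4), (1, 2, 8)] :=
  sound_empty (K := 122) (q := 12) r3_ok (by decide +kernel)

def r3_leaf11 :
    Sound r3R [(0, 1, 1), (0, 1, 1), (1, 2, 8), (3, 4, 4), (0, 1, 4)] :=
  sound_leaf (K := 201) (L := ⟨(-9227469), (-416375), (-68636), 3631291, 428929, 634175, 147864, 0, 0, 0⟩) r3_ok (by decide +kernel)

def r3_leaf12 :
    Sound r3R [(0, 1, 1), (0, 1, 1), (1, 2, 4), (1, 2, 2), (0, 1, 4)] :=
  sound_leaf (K := 188) (L := ⟨(-9646899), 10203, (-8580), 2710114, 396474, 606543, 124739, 0, 0, 0⟩) r3_ok (by decide +kernel)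

def r3_leaf13 :
    Sound r3R [(0, 1, 1), (0, 1, 1), (0, 1, 2), (1, 2, 2), (1, 2, 4)] :=
  sound_leaf (K := 182) (L := ⟨(-9646899), 85898, (-32771), 2639606, 339244, 597413, 123298, 0, 0, 0⟩) r3_ok (by decide +kernel)

def r3_leaf14 :
    Sound r3R [(0, 1, 1), (0, 1, 1), (0, 1, 2), (1, 2, 2), (1, 2, 2)] :=
  sound_empty (K := 93) (q := 11) r3_ok (by decide +kernel)

def r3_leaf15 :
    Sound r3R [(0, 1, 1), (0, 1, 1), (1, 2, 2), (0, 1, 1), (0, 1, 1)] :=
  sound_leaf (K := 163) (L := ⟨(-9646899), 304559, 37426, 2040530, 240750, 526647, 77886, 0, 0, 0⟩) r3_ok (by decide +kernel)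

theorem r3_node0 :
    Sound r3R [(0, 1, 1), (0, 1, 2), (0, 1, 16), (15, 16, 16), (0, 1, 16)] :=
  sound_node (j := 3) (by decide) r3_leaf4 r3_leaf5

theorem r3_node1 :
    Sound r3R [(0, 1, 1), (0, 1, 2), (0, 1, 16), (7, 8, 8), (0, 1, 16)] :=
  sound_node (j := 3) (by decide) r3_leaf3 r3_node0

theorem r3_node2 :
    Sound r3R [(0, 1, 1), (1, 2, 2), (0, 1, 16), (7, 8, 8), (0, 1, 16)] :=
  sound_node (j := 3) (by decide) r3_leaf6 r3_leaf7

theorem r3_node3 :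
    Sound r3R [(0, 1, 1), (0, 1, 1), (0, 1, 16), (7, 8, 8), (0, 1, 16)] :=
  sound_node (j := 1) (by decide) r3_node1 r3_node2

theorem r3_node4 :
    Sound r3R [(0, 1, 1), (0, 1, 1), (0, 1, 8), (7, 8, 8), (0, 1, 16)] :=
  sound_node (j := 2) (by decide) r3_node3 r3_leaf8

theorem r3_node5 :
    Sound r3R [(0, 1, 1), (0, 1, 1), (0, 1, 8), (7, 8, 8), (0, 1, 8)] :=
  sound_node (j := 4) (by decide) r3_node4 r3_leaf9

theorem r3_node6 :
    Sound r3R [(0, 1, 1), (0, 1, 1), (0, 1, 8), (3, 4, 4), (0, 1, 8)] :=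
  sound_node (j := 3) (by decide) r3_leaf2 r3_node5

theorem r3_node7 :
    Sound r3R [(0, 1, 1), (0, 1, 1), (0, 1, 8), (3, 4, 4), (0, 1, 4)] :=
  sound_node (j := 4) (by decide) r3_node6 r3_leaf10

theorem r3_node8 :
    Sound r3R [(0, 1, 1), (0, 1, 1), (0, 1, 4), (3, 4, 4), (0, 1, 4)] :=
  sound_node (j := 2) (by decide) r3_node7 r3_leaf11

theorem r3_node9 :
    Sound r3R [(0, 1, 1), (0, 1, 1), (0, 1, 4), (1, 2, 2), (0, 1, 4)] :=
  sound_node (j := 3) (by decide) r3_leaf1 r3_node8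

theorem r3_node10 :
    Sound r3R [(0, 1, 1), (0, 1, 1), (0, 1, 2), (1, 2, 2), (0, 1, 4)] :=
  sound_node (j := 2) (by decide) r3_node9 r3_leaf12

theorem r3_node11 :
    Sound r3R [(0, 1, 1), (0, 1, 1), (0, 1, 2), (1, 2, 2), (0, 1, 2)] :=
  sound_node (j := 4) (by decide) r3_node10 r3_leaf13

theorem r3_node12 :
    Sound r3R [(0, 1, 1), (0, 1, 1), (0, 1, 2), (1, 2, 2), (0, 1, 1)] :=
  sound_node (j := 4) (by decide) r3_node11 r3_leaf14

theorem r3_node13 :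
    Sound r3R [(0, 1, 1), (0, 1, 1), (0, 1, 2), (0, 1, 1), (0, 1, 1)] :=
  sound_node (j := 3) (by decide) r3_leaf0 r3_node12

theorem r3_node14 :
    Sound r3R [(0, 1, 1), (0, 1, 1), (0, 1, 1), (0, 1, 1), (0, 1, 1)] :=
  sound_node (j := 2) (by decide) r3_node13 r3_leaf15

theorem r3_sound :
    Sound r3R [(0, 1, 1), (0, 1, 1), (0, 1, 1), (0, 1, 1), (0, 1, 1)] :=
  r3_node14

end Vale.Agent.P100.Calib.LowEnd
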