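import Vale.Agent.P100.Calib.SlabLowEndR3Data

/-!
# The slots of root 3 are within their tolerances
-/

set_option maxRecDepth 100000
-- the heavy checks are definitions, so that they are checked one after another
set_option linter.defProp false

namespace Vale.Agent.P100.Calib.LowEnd

open Pack Band

def r3_slot0 : checkSlot r3B r3P.sig 56 r3D0 r3T0 = true := by decide +kernel

def r3_slot1 : checkSlot r3B r3P.sig 56 r3D1 r3T1 = true := by decide +kernel

def r3_slot2 : checkSlot r3B r3P.sig 56 r3D2 r3T2 = true := by decide +kernel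

def r3_slot3 : checkSlot r3B r3P.sig 56 r3D3 r3T3 = true := by decide +kernel

def r3_slot4 : checkSlot r3B r3P.sig 56 r3D4 r3T4 = true := by decide +kernel

def r3_slot5 : checkSlot r3B r3P.sig 56 r3D5 r3T5 = true := by decide +kernel

def r3_slot6 : checkSlot r3B r3P.sig 56 r3D6 r3T6 = true := by decide +kernel

def r3_slot7 : checkSlot r3B r3P.sig 56 r3D7 r3T7 = true := by decide +kernel

def r3_slot8 : checkSlot r3B r3P.sig 56 r3D8 r3T8 = true := by decide +kernel

def r3_slot9 : checkSlot r3B r3P.sig 56 r3D9 r3T9 = true := by decide +kernel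

def r3_slot10 : checkSlot r3B r3P.sig 56 r3D10 r3T10 = true := by decide +kernel

def r3_slot11 : checkSlot r3B r3P.sig 56 r3D11 r3T11 = true := by decide +kernel

def r3_slot12 : checkSlot r3B r3P.sig 56 r3D12 r3T12 = true := by decide +kernel

def r3_slot13 : checkSlot r3B r3P.sig 56 r3D13 r3T13 = true := by decide +kernel

theorem r3_near {x y : ℕ → ℝ} (hx : InBox r3B x) (hc : Coord r3P.sig x y) :
    Near r3R y (valueAt r3L x) :=
  near_root rfl (fun q hq => by
    simp only [r3L, List.length_cons, List.length_nil] at hq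
    interval_cases q
    · exact ⟨_, r3_slot0⟩
    · exact ⟨_, r3_slot1⟩
    · exact ⟨_, r3_slot2⟩
    · exact ⟨_, r3_slot3⟩
    · exact ⟨_, r3_slot4⟩
    · exact ⟨_, r3_slot5⟩
    · exact ⟨_, r3_slot6⟩
    · exact ⟨_, r3_slot7⟩
    · exact ⟨_, r3_slot8⟩
    · exact ⟨_, r3_slot9⟩
    · exact ⟨_, r3_slot10⟩
    · exact ⟨_, r3_slot11⟩
    · exact ⟨_, r3_slot12⟩
    · exact ⟨_, r3_slot13⟩
  ) hx hc

end Vale.Agent.P100.Calib.LowEnd
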