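import Vale.Agent.P100.Calib.SlabLowEndR4Data

/-!
# The cover of root 4
-/

set_option maxRecDepth 100000
-- the heavy checks are definitions, so that they are checked one after another
set_option linter.defProp false

namespace Vale.Agent.P100.Calib.LowEnd

open Pack Band

theorem r4_ok : rootOk r4R = true := by decide +kernel

def r4_leaf0 :
    Sound r4R [(0, 1, 1), (0, 1, 1), (0, 1, 2), (0, 1, 2), (0, 1, 2)] :=
  sound_empty (K := 92) (q := 12) r4_ok (by decide +kernel)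

def r4_leaf1 :
    Sound r4R [(0, 1, 1), (0, 1, 1), (0, 1, 2), (2, 3, 4), (0, 1, 2)] :=
  sound_leaf (K := 181) (L := ⟨(-8808038), 274743, 13789, 1990624, 347409, 471514, 75641, 0, 0, 0⟩) r4_ok (by decide +kernel)

def r4_leaf2 :
    Sound r4R [(0, 1, 1), (0, 1, 1), (0, 1, 4), (6, 7, 8), (0, 1, 4)] :=
  sound_leaf (K := 200) (L := ⟨(-9227469), (-346639), (-65803), 3097733, 444718, 494271, 117053, 0, 0, 0⟩) r4_ok (by decide +kernel)

def r4_leaf3 :
    Sound r4R [(0, 1, 1), (0, 1, 1), (0, 1, 8), (14, 15, 16), (0, 1, 16)] :=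
  sound_leaf (K := 225) (L := ⟨(-9646899), (-801502), (-142009), 4418829, 579597, 695785, 183600, 0, 0, 0⟩) r4_ok (by decide +kernel)

def r4_leaf4 :
    Sound r4R [(0, 1, 1), (0, 1, 4), (0, 1, 32), (15, 16, 16), (0, 1, 64)] :=
  sound_leaf (K := 261) (L := ⟨(-9646899), (-1548276), (-246881), 4279152, 690611, 585976, 173958, 0, 0, 0⟩) r4_ok (by decide +kernel)

def r4_leaf5 :
    Sound r4R [(0, 1, 1), (1, 2, 4), (0, 1, 32), (15, 16, 16), (0, 1, 64)] :=
  sound_leaf (K := 261) (L := ⟨(-10066330), (-1547524), (-260167), 1980530, 651590, 543780, 122741, 0, 0, 0⟩) r4_ok (by decide +kernel)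

def r4_leaf6 :
    Sound r4R [(0, 1, 1), (1, 2, 2), (0, 1, 32), (15, 16, 16), (0, 1, 64)] :=
  sound_leaf (K := 254) (L := ⟨(-10066330), (-1169449), (-212567), 3043304, 670684, 232602, 66936, 0, 0, 0⟩) r4_ok (by decide +kernel)

def r4_leaf7 :
    Sound r4R [(0, 1, 1), (0, 1, 1), (0, 1, 32), (15, 16, 16), (1, 2, 64)] :=
  sound_leaf (K := 249) (L := ⟨(-9646899), (-1029982), (-183239), 4474504, 675974, 384965, 105245, 0, 0, 0⟩) r4_ok (by decide +kernel)

def r4_leaf8 :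
    Sound r4R [(0, 1, 1), (0, 1, 1), (1, 2, 32), (15, 16, 16), (0, 1, 32)] :=
  sound_leaf (K := 243) (L := ⟨(-9646899), (-956046), (-167151), 3490495, 643921, 693780, 185725, 0, 0, 0⟩) r4_ok (by decide +kernel)

def r4_leaf9 :
    Sound r4R [(0, 1, 1), (0, 1, 1), (0, 1, 16), (15, 16, 16), (1, 2, 32)] :=
  sound_leaf (K := 237) (L := ⟨(-9646899), (-1052663), (-183393), 4424260, 599974, 695748, 186045, 0, 0, 0⟩) r4_ok (by decide +kernel)

def r4_leaf10 :
    Sound r4R [(0, 1, 1), (0, 1, 1), (1, 2, 16), (15, 16, 16), (0, 1, 16)] :=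
  sound_leaf (K := 231) (L := ⟨(-9227469), (-830823), (-138007), 4052904, 593235, 681022, 168054, 0, 0, 0⟩) r4_ok (by decide +kernel)

def r4_leaf11 :
    Sound r4R [(0, 1, 1), (0, 1, 1), (0, 1, 8), (7, 8, 8), (1, 2, 16)] :=
  sound_leaf (K := 219) (L := ⟨(-9227469), (-702905), (-128771), 4035839, 526634, 679401, 166928, 0, 0, 0⟩) r4_ok (by decide +kernel)

def r4_leaf12 :
    Sound r4R [(0, 1, 1), (0, 1, 1), (0, 1, 8), (7, 8, 8), (1, 2, 8)] :=
  sound_empty (K := 129) (q := 11) r4_ok (by decide +kernel)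

def r4_leaf13 :
    Sound r4R [(0, 1, 1), (0, 1, 1), (1, 2, 8), (7, 8, 8), (0, 1, 4)] :=
  sound_leaf (K := 206) (L := ⟨(-8808038), (-485247), (-84434), 3430276, 438623, 641083, 145269, 0, 0, 0⟩) r4_ok (by decide +kernel)

def r4_leaf14 :
    Sound r4R [(0, 1, 1), (0, 1, 1), (0, 1, 4), (3, 4, 4), (1, 2, 4)] :=
  sound_empty (K := 111) (q := 11) r4_ok (by decide +kernel)

def r4_leaf15 :
    Sound r4R [(0, 1, 1), (0, 1, 1), (1, 2, 4), (3, 4, 4), (0, 1, 2)] :=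
  sound_leaf (K := 188) (L := ⟨(-7549747), (-189602), (-37427), 2471852, 344585, 587771, 121971, 0, 0, 0⟩) r4_ok (by decide +kernel)

def r4_leaf16 :
    Sound r4R [(0, 1, 1), (0, 1, 1), (1, 2, 2), (0, 1, 1), (0, 1, 2)] :=
  sound_leaf (K := 169) (L := ⟨(-8808038), 272360, 37249, 2015033, 288606, 566714, 109103, 0, 0, 0⟩) r4_ok (by decide +kernel)

def r4_leaf17 :
    Sound r4R [(0, 1, 1), (0, 1, 1), (0, 1, 1), (0, 1, 1), (1, 2, 2)] :=
  sound_leaf (K := 163) (L := ⟨(-6710886), 335282, (-5887), 1496934, 240862, 544249, 78915, 0, 0, 0⟩) r4_ok (by decide +kernel)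

theorem r4_node0 :
    Sound r4R [(0, 1, 1), (0, 1, 2), (0, 1, 32), (15, 16, 16), (0, 1, 64)] :=
  sound_node (j := 1) (by decide) r4_leaf4 r4_leaf5

theorem r4_node1 :
    Sound r4R [(0, 1, 1), (0, 1, 1), (0, 1, 32), (15, 16, 16), (0, 1, 64)] :=
  sound_node (j := 1) (by decide) r4_node0 r4_leaf6

theorem r4_node2 :
    Sound r4R [(0, 1, 1), (0, 1, 1), (0, 1, 32), (15, 16, 16), (0, 1, 32)] :=
  sound_node (j := 4) (by decide) r4_node1 r4_leaf7

theorem r4_node3 :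
    Sound r4R [(0, 1, 1), (0, 1, 1), (0, 1, 16), (15, 16, 16), (0, 1, 32)] :=
  sound_node (j := 2) (by decide) r4_node2 r4_leaf8

theorem r4_node4 :
    Sound r4R [(0, 1, 1), (0, 1, 1), (0, 1, 16), (15, 16, 16), (0, 1, 16)] :=
  sound_node (j := 4) (by decide) r4_node3 r4_leaf9

theorem r4_node5 :
    Sound r4R [(0, 1, 1), (0, 1, 1), (0, 1, 8), (15, 16, 16), (0, 1, 16)] :=
  sound_node (j := 2) (by decide) r4_node4 r4_leaf10

theorem r4_node6 :
    Sound r4R [(0, 1, 1), (0, 1, 1), (0, 1, 8), (7, 8, 8), (0, 1, 16)] :=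
  sound_node (j := 3) (by decide) r4_leaf3 r4_node5

theorem r4_node7 :
    Sound r4R [(0, 1, 1), (0, 1, 1), (0, 1, 8), (7, 8, 8), (0, 1, 8)] :=
  sound_node (j := 4) (by decide) r4_node6 r4_leaf11

theorem r4_node8 :
    Sound r4R [(0, 1, 1), (0, 1, 1), (0, 1, 8), (7, 8, 8), (0, 1, 4)] :=
  sound_node (j := 4) (by decide) r4_node7 r4_leaf12

theorem r4_node9 :
    Sound r4R [(0, 1, 1), (0, 1, 1), (0, 1, 4), (7, 8, 8), (0, 1, 4)] :=
  sound_node (j := 2) (by decide) r4_node8 r4_leaf13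

theorem r4_node10 :
    Sound r4R [(0, 1, 1), (0, 1, 1), (0, 1, 4), (3, 4, 4), (0, 1, 4)] :=
  sound_node (j := 3) (by decide) r4_leaf2 r4_node9

theorem r4_node11 :
    Sound r4R [(0, 1, 1), (0, 1, 1), (0, 1, 4), (3, 4, 4), (0, 1, 2)] :=
  sound_node (j := 4) (by decide) r4_node10 r4_leaf14

theorem r4_node12 :
    Sound r4R [(0, 1, 1), (0, 1, 1), (0, 1, 2), (3, 4, 4), (0, 1, 2)] :=
  sound_node (j := 2) (by decide) r4_node11 r4_leaf15

theorem r4_node13 :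
    Sound r4R [(0, 1, 1), (0, 1, 1), (0, 1, 2), (1, 2, 2), (0, 1, 2)] :=
  sound_node (j := 3) (by decide) r4_leaf1 r4_node12

theorem r4_node14 :
    Sound r4R [(0, 1, 1), (0, 1, 1), (0, 1, 2), (0, 1, 1), (0, 1, 2)] :=
  sound_node (j := 3) (by decide) r4_leaf0 r4_node13

theorem r4_node15 :
    Sound r4R [(0, 1, 1), (0, 1, 1), (0, 1, 1), (0, 1, 1), (0, 1, 2)] :=
  sound_node (j := 2) (by decide) r4_node14 r4_leaf16

theorem r4_node16 :
    Sound r4R [(0, 1, 1), (0, 1, 1), (0, 1, 1), (0, 1, 1), (0, 1, 1)] :=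
  sound_node (j := 4) (by decide) r4_node15 r4_leaf17

theorem r4_sound :
    Sound r4R [(0, 1, 1), (0, 1, 1), (0, 1, 1), (0, 1, 1), (0, 1, 1)] :=
  r4_node16

end Vale.Agent.P100.Calib.LowEnd
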