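import Vale.Agent.P100.Calib.SlabLowEndR4Data

/-!
# The slots of root 4 are within their tolerances
-/

set_option maxRecDepth 100000
-- the heavy checks are definitions, so that they are checked one after another
set_option linter.defProp false

namespace Vale.Agent.P100.Calib.LowEnd

open Pack Band

def r4_slot0 : checkSlot r4B r4P.sig 56 r4D0 r4T0 = true := by decide +kernel

def r4_slot1 : checkSlot r4B r4P.sig 56 r4D1 r4T1 = true := by decide +kernel

def r4_slot2 : checkSlot r4B r4P.sig 48 r4D2 r4T2 = true := by decide +kernel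

def r4_slot3 : checkSlot r4B r4P.sig 56 r4D3 r4T3 = true := by decide +kernel

def r4_slot4 : checkSlot r4B r4P.sig 56 r4D4 r4T4 = true := by decide +kernel

def r4_slot5 : checkSlot r4B r4P.sig 56 r4D5 r4T5 = true := by decide +kernel

def r4_slot6 : checkSlot r4B r4P.sig 56 r4D6 r4T6 = true := by decide +kernel

def r4_slot7 : checkSlot r4B r4P.sig 56 r4D7 r4T7 = true := by decide +kernel

def r4_slot8 : checkSlot r4B r4P.sig 56 r4D8 r4T8 = true := by decide +kernel

def r4_slot9 : checkSlot r4B r4P.sig 56 r4D9 r4T9 = true := by decide +kernel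

def r4_slot10 : checkSlot r4B r4P.sig 56 r4D10 r4T10 = true := by decide +kernel

def r4_slot11 : checkSlot r4B r4P.sig 56 r4D11 r4T11 = true := by decide +kernel

def r4_slot12 : checkSlot r4B r4P.sig 56 r4D12 r4T12 = true := by decide +kernel

theorem r4_near {x y : ℕ → ℝ} (hx : InBox r4B x) (hc : Coord r4P.sig x y) :
    Near r4R y (valueAt r4L x) :=
  near_root rfl (fun q hq => by
    simp only [r4L, List.length_cons, List.length_nil] at hq
    interval_cases q
    · exact ⟨_, r4_slot0⟩
    · exact ⟨_, r4_slot1⟩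
    · exact ⟨_, r4_slot2⟩
    · exact ⟨_, r4_slot3⟩
    · exact ⟨_, r4_slot4⟩
    · exact ⟨_, r4_slot5⟩
    · exact ⟨_, r4_slot6⟩
    · exact ⟨_, r4_slot7⟩
    · exact ⟨_, r4_slot8⟩
    · exact ⟨_, r4_slot9⟩
    · exact ⟨_, r4_slot10⟩
    · exact ⟨_, r4_slot11⟩
    · exact ⟨_, r4_slot12⟩
  ) hx hc

end Vale.Agent.P100.Calib.LowEnd
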