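import Vale.Agent.P100.Calib.SlabLowEndR5Data

/-!
# The cover of root 5
-/

set_option maxRecDepth 100000
-- the heavy checks are definitions, so that they are checked one after another
set_option linter.defProp false

namespace Vale.Agent.P100.Calib.LowEnd

open Pack Band

theorem r5_ok : rootOk r5R = true := by decide +kernel

def r5_leaf0 :
    Sound r5R [(0, 1, 2), (0, 1, 1), (0, 1, 2), (0, 1, 4), (0, 1, 16)] :=
  sound_empty (K := 124) (q := 11) r5_ok (by decide +kernel)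

def r5_leaf1 :
    Sound r5R [(0, 1, 2), (0, 1, 1), (0, 1, 2), (1, 2, 4), (0, 1, 32)] :=
  sound_empty (K := 130) (q := 11) r5_ok (by decide +kernel)

def r5_leaf2 :
    Sound r5R [(0, 1, 2), (0, 1, 1), (0, 1, 2), (1, 2, 4), (1, 2, 32)] :=
  sound_leaf (K := 215) (L := ⟨(-5452595), 591336, 52435, 2695015, 506160, 853173, 146784, 0, 0, 0⟩) r5_ok (by decide +kernel)

def r5_leaf3 :
    Sound r5R [(0, 1, 2), (0, 1, 1), (0, 1, 2), (2, 3, 4), (0, 1, 16)] :=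
  sound_leaf (K := 208) (L := ⟨(-7969178), 70713, 11806, 2716833, 536848, 820552, 148921, 0, 0, 0⟩) r5_ok (by decide +kernel)

def r5_leaf4 :
    Sound r5R [(0, 1, 2), (0, 1, 1), (0, 1, 2), (3, 4, 4), (0, 1, 16)] :=
  sound_leaf (K := 208) (L := ⟨(-8388608), (-563871), (-51524), 3121317, 477603, 424472, 104414, 935230099098105883586664, 0, 0⟩) r5_ok (by decide +kernel)

def r5_leaf5 :
    Sound r5R [(0, 1, 2), (0, 1, 1), (1, 2, 2), (0, 1, 1), (0, 1, 16)] :=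
  sound_empty (K := 112) (q := 12) r5_ok (by decide +kernel)

def r5_leaf6 :
    Sound r5R [(0, 1, 2), (0, 1, 1), (0, 1, 1), (0, 1, 1), (1, 2, 16)] :=
  sound_leaf (K := 190) (L := ⟨(-5033165), 147770, 13411, 1862528, 406347, 736909, 70860, 0, 0, 0⟩) r5_ok (by decide +kernel)

def r5_leaf7 :
    Sound r5R [(0, 1, 2), (0, 1, 1), (0, 1, 1), (0, 1, 1), (1, 2, 8)] :=
  sound_leaf (K := 183) (L := ⟨(-3774874), 302481, 17895, 1161918, 330417, 668588, 119877, 0, 0, 0⟩) r5_ok (by decide +kernel)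

def r5_leaf8 :
    Sound r5R [(0, 1, 2), (0, 1, 1), (0, 1, 1), (0, 1, 1), (1, 2, 4)] :=
  sound_leaf (K := 177) (L := ⟨(-419430), 364115, (-28306), 101729, 267503, 590554, 108687, 0, 0, 0⟩) r5_ok (by decide +kernel)

def r5_leaf9 :
    Sound r5R [(0, 1, 4), (0, 1, 1), (0, 1, 1), (0, 1, 1), (1, 2, 2)] :=
  sound_empty (K := 95) (q := 13) r5_ok (by decide +kernel)

def r5_leaf10 :
    Sound r5R [(1, 2, 4), (0, 1, 1), (0, 1, 1), (0, 1, 1), (1, 2, 2)] :=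
  sound_leaf (K := 177) (L := ⟨(-1258291), 469850, (-86404), 228244, 208184, 525897, 99095, 0, 0, 0⟩) r5_ok (by decide +kernel)

def r5_leaf11 :
    Sound r5R [(1, 2, 2), (0, 1, 1), (0, 1, 2), (0, 1, 4), (0, 1, 8)] :=
  sound_empty (K := 118) (q := 11) r5_ok (by decide +kernel)

def r5_leaf12 :
    Sound r5R [(1, 2, 2), (0, 1, 1), (0, 1, 4), (1, 2, 4), (0, 1, 8)] :=
  sound_leaf (K := 208) (L := ⟨(-5872026), 382764, 21653, 2014697, 642195, 1059567, 166985, 0, 0, 0⟩) r5_ok (by decide +kernel)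

def r5_leaf13 :
    Sound r5R [(1, 2, 2), (0, 1, 1), (1, 2, 4), (1, 2, 4), (0, 1, 8)] :=
  sound_empty (K := 124) (q := 11) r5_ok (by decide +kernel)

def r5_leaf14 :
    Sound r5R [(1, 2, 2), (0, 1, 1), (0, 1, 4), (1, 2, 2), (0, 1, 8)] :=
  sound_leaf (K := 203) (L := ⟨(-7549747), (-145026), (-19415), 2408344, 612874, 957503, 171119, 0, 0, 0⟩) r5_ok (by decide +kernel)

def r5_leaf15 :
    Sound r5R [(1, 2, 2), (0, 1, 1), (1, 2, 4), (1, 2, 2), (0, 1, 8)] :=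
  sound_leaf (K := 202) (L := ⟨(-8808038), (-417038), 3658, 2551711, 540794, 869502, 128306, 0, 0, 0⟩) r5_ok (by decide +kernel)

def r5_leaf16 :
    Sound r5R [(1, 2, 2), (0, 1, 1), (0, 1, 2), (0, 1, 1), (1, 2, 8)] :=
  sound_leaf (K := 190) (L := ⟨(-1677722), 83219, 6547, 563879, 478650, 836640, 143261, 0, 0, 0⟩) r5_ok (by decide +kernel)

def r5_leaf17 :
    Sound r5R [(1, 2, 2), (0, 1, 1), (1, 2, 2), (0, 1, 1), (0, 1, 8)] :=
  sound_empty (K := 106) (q := 12) r5_ok (by decide +kernel)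

def r5_leaf18 :
    Sound r5R [(1, 2, 2), (0, 1, 1), (1, 2, 2), (0, 1, 2), (1, 2, 8)] :=
  sound_empty (K := 112) (q := 11) r5_ok (by decide +kernel)

def r5_leaf19 :
    Sound r5R [(1, 2, 2), (0, 1, 1), (1, 2, 2), (1, 2, 2), (1, 2, 8)] :=
  sound_leaf (K := 196) (L := ⟨(-7549747), (-105594), 43472, 1814445, 418437, 703159, 135243, 0, 0, 0⟩) r5_ok (by decide +kernel)

def r5_leaf20 :
    Sound r5R [(1, 2, 2), (0, 1, 1), (0, 1, 1), (0, 1, 1), (1, 2, 4)] :=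
  sound_leaf (K := 177) (L := ⟨(-2936013), 89650, 9797, 190902, 356644, 685962, 124702, 0, 0, 0⟩) r5_ok (by decide +kernel)

def r5_leaf21 :
    Sound r5R [(1, 2, 2), (0, 1, 1), (0, 1, 1), (0, 1, 1), (1, 2, 2)] :=
  sound_leaf (K := 171) (L := ⟨(-3774874), 132828, (-35637), 594870, 253314, 563417, 110075, 0, 0, 0⟩) r5_ok (by decide +kernel)

theorem r5_node0 :
    Sound r5R [(0, 1, 2), (0, 1, 1), (0, 1, 2), (1, 2, 4), (0, 1, 16)] :=
  sound_node (j := 4) (by decide) r5_leaf1 r5_leaf2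

theorem r5_node1 :
    Sound r5R [(0, 1, 2), (0, 1, 1), (0, 1, 2), (0, 1, 2), (0, 1, 16)] :=
  sound_node (j := 3) (by decide) r5_leaf0 r5_node0

theorem r5_node2 :
    Sound r5R [(0, 1, 2), (0, 1, 1), (0, 1, 2), (1, 2, 2), (0, 1, 16)] :=
  sound_node (j := 3) (by decide) r5_leaf3 r5_leaf4

theorem r5_node3 :
    Sound r5R [(0, 1, 2), (0, 1, 1), (0, 1, 2), (0, 1, 1), (0, 1, 16)] :=
  sound_node (j := 3) (by decide) r5_node1 r5_node2

theorem r5_node4 :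
    Sound r5R [(0, 1, 2), (0, 1, 1), (0, 1, 1), (0, 1, 1), (0, 1, 16)] :=
  sound_node (j := 2) (by decide) r5_node3 r5_leaf5

theorem r5_node5 :
    Sound r5R [(0, 1, 2), (0, 1, 1), (0, 1, 1), (0, 1, 1), (0, 1, 8)] :=
  sound_node (j := 4) (by decide) r5_node4 r5_leaf6

theorem r5_node6 :
    Sound r5R [(0, 1, 2), (0, 1, 1), (0, 1, 1), (0, 1, 1), (0, 1, 4)] :=
  sound_node (j := 4) (by decide) r5_node5 r5_leaf7

theorem r5_node7 :
    Sound r5R [(0, 1, 2), (0, 1, 1), (0, 1, 1), (0, 1, 1), (0, 1, 2)] :=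
  sound_node (j := 4) (by decide) r5_node6 r5_leaf8

theorem r5_node8 :
    Sound r5R [(0, 1, 2), (0, 1, 1), (0, 1, 1), (0, 1, 1), (1, 2, 2)] :=
  sound_node (j := 0) (by decide) r5_leaf9 r5_leaf10

theorem r5_node9 :
    Sound r5R [(0, 1, 2), (0, 1, 1), (0, 1, 1), (0, 1, 1), (0, 1, 1)] :=
  sound_node (j := 4) (by decide) r5_node7 r5_node8

theorem r5_node10 :
    Sound r5R [(1, 2, 2), (0, 1, 1), (0, 1, 2), (1, 2, 4), (0, 1, 8)] :=
  sound_node (j := 2) (by decide) r5_leaf12 r5_leaf13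

theorem r5_node11 :
    Sound r5R [(1, 2, 2), (0, 1, 1), (0, 1, 2), (0, 1, 2), (0, 1, 8)] :=
  sound_node (j := 3) (by decide) r5_leaf11 r5_node10

theorem r5_node12 :
    Sound r5R [(1, 2, 2), (0, 1, 1), (0, 1, 2), (1, 2, 2), (0, 1, 8)] :=
  sound_node (j := 2) (by decide) r5_leaf14 r5_leaf15

theorem r5_node13 :
    Sound r5R [(1, 2, 2), (0, 1, 1), (0, 1, 2), (0, 1, 1), (0, 1, 8)] :=
  sound_node (j := 3) (by decide) r5_node11 r5_node12

theorem r5_node14 :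
    Sound r5R [(1, 2, 2), (0, 1, 1), (0, 1, 2), (0, 1, 1), (0, 1, 4)] :=
  sound_node (j := 4) (by decide) r5_node13 r5_leaf16

theorem r5_node15 :
    Sound r5R [(1, 2, 2), (0, 1, 1), (1, 2, 2), (0, 1, 1), (1, 2, 8)] :=
  sound_node (j := 3) (by decide) r5_leaf18 r5_leaf19

theorem r5_node16 :
    Sound r5R [(1, 2, 2), (0, 1, 1), (1, 2, 2), (0, 1, 1), (0, 1, 4)] :=
  sound_node (j := 4) (by decide) r5_leaf17 r5_node15

theorem r5_node17 :
    Sound r5R [(1, 2, 2), (0, 1, 1), (0, 1, 1), (0, 1, 1), (0, 1, 4)] :=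
  sound_node (j := 2) (by decide) r5_node14 r5_node16

theorem r5_node18 :
    Sound r5R [(1, 2, 2), (0, 1, 1), (0, 1, 1), (0, 1, 1), (0, 1, 2)] :=
  sound_node (j := 4) (by decide) r5_node17 r5_leaf20

theorem r5_node19 :
    Sound r5R [(1, 2, 2), (0, 1, 1), (0, 1, 1), (0, 1, 1), (0, 1, 1)] :=
  sound_node (j := 4) (by decide) r5_node18 r5_leaf21

theorem r5_node20 :
    Sound r5R [(0, 1, 1), (0, 1, 1), (0, 1, 1), (0, 1, 1), (0, 1, 1)] :=
  sound_node (j := 0) (by decide) r5_node9 r5_node19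

theorem r5_sound :
    Sound r5R [(0, 1, 1), (0, 1, 1), (0, 1, 1), (0, 1, 1), (0, 1, 1)] :=
  r5_node20

end Vale.Agent.P100.Calib.LowEnd
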