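import Vale.Agent.P100.Calib.SlabLowEndR5Data

/-!
# The slots of root 5 are within their tolerances
-/

set_option maxRecDepth 100000
-- the heavy checks are definitions, so that they are checked one after another
set_option linter.defProp false

namespace Vale.Agent.P100.Calib.LowEnd

open Pack Band

def r5_slot0 : checkSlot r5B r5P.sig 56 r5D0 r5T0 = true := by decide +kernel

def r5_slot1 : checkSlot r5B r5P.sig 56 r5D1 r5T1 = true := by decide +kernel

def r5_slot2 : checkSlot r5B r5P.sig 48 r5D2 r5T2 = true := by decide +kernel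

def r5_slot3 : checkSlot r5B r5P.sig 56 r5D3 r5T3 = true := by decide +kernel

def r5_slot4 : checkSlot r5B r5P.sig 56 r5D4 r5T4 = true := by decide +kernel

def r5_slot5 : checkSlot r5B r5P.sig 56 r5D5 r5T5 = true := by decide +kernel

def r5_slot6 : checkSlot r5B r5P.sig 56 r5D6 r5T6 = true := by decide +kernel

def r5_slot7 : checkSlot r5B r5P.sig 56 r5D7 r5T7 = true := by decide +kernel

def r5_slot8 : checkSlot r5B r5P.sig 56 r5D8 r5T8 = true := by decide +kernel

def r5_slot9 : checkSlot r5B r5P.sig 56 r5D9 r5T9 = true := by decide +kernel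

def r5_slot10 : checkSlot r5B r5P.sig 56 r5D10 r5T10 = true := by decide +kernel

def r5_slot11 : checkSlot r5B r5P.sig 56 r5D11 r5T11 = true := by decide +kernel

def r5_slot12 : checkSlot r5B r5P.sig 56 r5D12 r5T12 = true := by decide +kernel

def r5_slot13 : checkSlot r5B r5P.sig 56 r5D13 r5T13 = true := by decide +kernel

theorem r5_near {x y : ℕ → ℝ} (hx : InBox r5B x) (hc : Coord r5P.sig x y) :
    Near r5R y (valueAt r5L x) :=
  near_root rfl (fun q hq => by
    simp only [r5L, List.length_cons, List.length_nil] at hq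
    interval_cases q
    · exact ⟨_, r5_slot0⟩
    · exact ⟨_, r5_slot1⟩
    · exact ⟨_, r5_slot2⟩
    · exact ⟨_, r5_slot3⟩
    · exact ⟨_, r5_slot4⟩
    · exact ⟨_, r5_slot5⟩
    · exact ⟨_, r5_slot6⟩
    · exact ⟨_, r5_slot7⟩
    · exact ⟨_, r5_slot8⟩
    · exact ⟨_, r5_slot9⟩
    · exact ⟨_, r5_slot10⟩
    · exact ⟨_, r5_slot11⟩
    · exact ⟨_, r5_slot12⟩
    · exact ⟨_, r5_slot13⟩
  ) hx hc

end Vale.Agent.P100.Calib.LowEnd
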