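import Vale.Agent.P100.Calib.SlabLowEndR6Data

/-!
# The cover of root 6
-/

set_option maxRecDepth 100000
-- the heavy checks are definitions, so that they are checked one after another
set_option linter.defProp false

namespace Vale.Agent.P100.Calib.LowEnd

open Pack Band

theorem r6_ok : rootOk r6R = true := by decide +kernel

def r6_leaf0 :
    Sound r6R [(0, 1, 1), (0, 1, 1), (0, 1, 2), (0, 1, 2), (0, 1, 1)] :=
  sound_empty (K := 86) (q := 13) r6_ok (by decide +kernel)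

def r6_leaf1 :
    Sound r6R [(0, 1, 1), (0, 1, 1), (0, 1, 4), (2, 3, 4), (0, 1, 4)] :=
  sound_empty (K := 110) (q := 13) r6_ok (by decide +kernel)

def r6_leaf2 :
    Sound r6R [(0, 1, 2), (0, 1, 1), (0, 1, 16), (6, 7, 8), (0, 1, 8)] :=
  sound_empty (K := 140) (q := 13) r6_ok (by decide +kernel)

def r6_leaf3 :
    Sound r6R [(0, 1, 2), (0, 1, 4), (0, 1, 16), (14, 15, 16), (0, 1, 32)] :=
  sound_leaf (K := 256) (L := ⟨(-12582912), (-927837), (-220488), 4463175, 521968, 406030, 216577, 0, 0, 0⟩) r6_ok (by decide +kernel)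

def r6_leaf4 :
    Sound r6R [(0, 1, 4), (0, 1, 4), (0, 1, 16), (15, 16, 16), (0, 1, 32)] :=
  sound_leaf (K := 262) (L := ⟨(-12936806), (-1355155), (-315989), 2285777, 510456, 398745, 116813, 6126986194837950421762966, 0, 0⟩) r6_ok (by decide +kernel)

def r6_leaf5 :
    Sound r6R [(1, 2, 4), (0, 1, 4), (0, 1, 16), (15, 16, 16), (0, 1, 32)] :=
  sound_leaf (K := 261) (L := ⟨(-12478054), (-1566651), (-338542), 3648221, 480164, 178297, 97056, 3845686875060882990330032, 0, 0⟩) r6_ok (by decide +kernel)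

def r6_leaf6 :
    Sound r6R [(0, 1, 2), (1, 2, 4), (0, 1, 16), (14, 15, 16), (0, 1, 32)] :=
  sound_leaf (K := 256) (L := ⟨(-13002342), (-1048184), (-253413), 4232830, 490334, 384065, 207412, 0, 0, 0⟩) r6_ok (by decide +kernel)

def r6_leaf7 :
    Sound r6R [(0, 1, 4), (1, 2, 4), (0, 1, 16), (15, 16, 16), (0, 1, 32)] :=
  sound_leaf (K := 262) (L := ⟨(-13290701), (-1425900), (-340042), 1893401, 481763, 363263, 104806, 5684773604626220218110243, 0, 0⟩) r6_ok (by decide +kernel)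

def r6_leaf8 :
    Sound r6R [(1, 2, 4), (1, 2, 4), (0, 1, 16), (15, 16, 16), (0, 1, 32)] :=
  sound_leaf (K := 261) (L := ⟨(-13002342), (-1367413), (-318904), 1647804, 485405, 331223, 87158, 6790391695912627929126702, 0, 0⟩) r6_ok (by decide +kernel)

def r6_leaf9 :
    Sound r6R [(0, 1, 2), (0, 1, 2), (0, 1, 16), (7, 8, 8), (1, 2, 32)] :=
  sound_leaf (K := 244) (L := ⟨(-13002342), (-1137855), (-268206), 3432897, 449222, 389435, 155047, 0, 0, 0⟩) r6_ok (by decide +kernel)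

def r6_leaf10 :
    Sound r6R [(0, 1, 2), (1, 2, 2), (0, 1, 16), (14, 15, 16), (0, 1, 16)] :=
  sound_leaf (K := 243) (L := ⟨(-13421773), (-970726), (-253470), 3087038, 435973, 355737, 188530, 0, 0, 0⟩) r6_ok (by decide +kernel)

def r6_leaf11 :
    Sound r6R [(0, 1, 4), (2, 3, 4), (0, 1, 32), (30, 31, 32), (0, 1, 32)] :=
  sound_leaf (K := 273) (L := ⟨(-13421773), (-1267297), (-312245), 1983562, 505230, 267979, 81408, 0, 0, 0⟩) r6_ok (by decide +kernel)

def r6_leaf12 :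
    Sound r6R [(0, 1, 8), (2, 3, 4), (0, 1, 32), (31, 32, 32), (0, 1, 32)] :=
  sound_leaf (K := 279) (L := ⟨(-13421773), (-1332519), (-326185), 3170672, 524704, 125454, 51005, 5460345517600547695630529, 0, 0⟩) r6_ok (by decide +kernel)

def r6_leaf13 :
    Sound r6R [(1, 2, 8), (2, 3, 4), (0, 1, 32), (31, 32, 32), (0, 1, 32)] :=
  sound_leaf (K := 280) (L := ⟨(-13421773), (-1431619), (-343531), 3192724, 501061, 362136, 148081, 11694124796572027674768188, 0, 0⟩) r6_ok (by decide +kernel)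

def r6_leaf14 :
    Sound r6R [(1, 2, 4), (2, 3, 4), (0, 1, 32), (15, 16, 16), (0, 1, 32)] :=
  sound_leaf (K := 267) (L := ⟨(-13421773), (-1483366), (-358505), 1078775, 470640, 341841, 80631, 3798247960990004153468516, 0, 0⟩) r6_ok (by decide +kernel)

def r6_leaf15 :
    Sound r6R [(0, 1, 2), (3, 4, 4), (0, 1, 32), (30, 31, 32), (0, 1, 32)] :=
  sound_leaf (K := 267) (L := ⟨(-13841203), (-1358050), (-340941), 2317488, 447479, 349772, 147579, 0, 0, 0⟩) r6_ok (by decide +kernel)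

def r6_leaf16 :
    Sound r6R [(0, 1, 4), (6, 7, 8), (0, 1, 64), (31, 32, 32), (0, 1, 64)] :=
  sound_leaf (K := 291) (L := ⟨(-13841203), (-1517383), (-374949), 1347126, 495560, 192240, 48927, 4663137814418643236874023, 0, 0⟩) r6_ok (by decide +kernel)

def r6_leaf17 :
    Sound r6R [(0, 1, 4), (7, 8, 8), (0, 1, 64), (31, 32, 32), (0, 1, 64)] :=
  sound_leaf (K := 291) (L := ⟨(-13841203), (-1377126), (-350472), 528450, 493818, 254180, 58494, 5260679714578100543299106, 0, 0⟩) r6_ok (by decide +kernel)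

def r6_leaf18 :
    Sound r6R [(0, 1, 4), (3, 4, 4), (0, 1, 64), (31, 32, 32), (1, 2, 64)] :=
  sound_empty (K := 202) (q := 11) r6_ok (by decide +kernel)

def r6_leaf19 :
    Sound r6R [(1, 2, 4), (3, 4, 4), (0, 1, 64), (62, 63, 64), (0, 1, 64)] :=
  sound_leaf (K := 291) (L := ⟨(-13421773), (-1380935), (-339383), 2272732, 491338, 354152, 141753, 0, 0, 0⟩) r6_ok (by decide +kernel)

def r6_leaf20 :
    Sound r6R [(1, 2, 4), (3, 4, 4), (0, 1, 64), (63, 64, 64), (0, 1, 64)] :=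
  sound_leaf (K := 292) (L := ⟨(-13421773), (-1430381), (-349321), 1491656, 494816, 193949, 57369, 8212625691302095834603539, 0, 0⟩) r6_ok (by decide +kernel)

def r6_leaf21 :
    Sound r6R [(1, 2, 4), (3, 4, 4), (0, 1, 64), (31, 32, 32), (1, 2, 64)] :=
  sound_empty (K := 200) (q := 12) r6_ok (by decide +kernel)

def r6_leaf22 :
    Sound r6R [(0, 1, 2), (3, 4, 4), (1, 2, 64), (31, 32, 32), (0, 1, 32)] :=
  sound_leaf (K := 273) (L := ⟨(-13841203), (-1417680), (-351719), 2285741, 444140, 347290, 144223, 0, 0, 0⟩) r6_ok (by decide +kernel)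

def r6_leaf23 :
    Sound r6R [(0, 1, 2), (1, 2, 2), (1, 2, 32), (15, 16, 16), (0, 1, 32)] :=
  sound_leaf (K := 255) (L := ⟨(-13421773), (-1162044), (-287725), 3030784, 449502, 352338, 184216, 0, 0, 0⟩) r6_ok (by decide +kernel)

def r6_leaf24 :
    Sound r6R [(0, 1, 2), (1, 2, 2), (0, 1, 16), (15, 16, 16), (1, 2, 32)] :=
  sound_leaf (K := 249) (L := ⟨(-13002342), (-987898), (-253922), 2919621, 454731, 351273, 127793, 0, 0, 0⟩) r6_ok (by decide +kernel)

def r6_leaf25 :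
    Sound r6R [(0, 1, 2), (0, 1, 1), (0, 1, 16), (7, 8, 8), (1, 2, 16)] :=
  sound_empty (K := 146) (q := 12) r6_ok (by decide +kernel)

def r6_leaf26 :
    Sound r6R [(0, 1, 2), (0, 1, 1), (1, 2, 16), (3, 4, 4), (0, 1, 8)] :=
  sound_leaf (K := 219) (L := ⟨(-12582912), (-764389), (-218794), 2944565, 398891, 489262, 164559, 0, 0, 0⟩) r6_ok (by decide +kernel)

def r6_leaf27 :
    Sound r6R [(1, 2, 2), (0, 1, 1), (0, 1, 8), (6, 7, 8), (0, 1, 8)] :=
  sound_leaf (K := 219) (L := ⟨(-11744051), (-414342), (-123968), 2192599, 424254, 385611, 122043, 0, 0, 0⟩) r6_ok (by decide +kernel)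

def r6_leaf28 :
    Sound r6R [(1, 2, 2), (0, 1, 1), (0, 1, 16), (14, 15, 16), (0, 1, 16)] :=
  sound_leaf (K := 238) (L := ⟨(-12163482), (-924836), (-219396), 3884121, 475941, 388472, 133439, 0, 0, 0⟩) r6_ok (by decide +kernel)

def r6_leaf29 :
    Sound r6R [(1, 2, 2), (0, 1, 2), (0, 1, 32), (30, 31, 32), (0, 1, 16)] :=
  sound_leaf (K := 256) (L := ⟨(-12582912), (-1484075), (-321929), 3475861, 469124, 409147, 159338, 0, 0, 0⟩) r6_ok (by decide +kernel)

def r6_leaf30 :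
    Sound r6R [(1, 2, 2), (0, 1, 2), (0, 1, 32), (31, 32, 32), (0, 1, 16)] :=
  sound_leaf (K := 255) (L := ⟨(-12320768), (-1566690), (-319512), 2894562, 474758, 232068, 89597, 5844405474010169413523951, 0, 0⟩) r6_ok (by decide +kernel)

def r6_leaf31 :
    Sound r6R [(1, 2, 2), (0, 1, 2), (1, 2, 32), (15, 16, 16), (0, 1, 16)] :=
  sound_leaf (K := 250) (L := ⟨(-12163482), (-1158802), (-252402), 4092217, 470385, 544285, 188729, 0, 0, 0⟩) r6_ok (by decide +kernel)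

def r6_leaf32 :
    Sound r6R [(1, 2, 2), (1, 2, 2), (0, 1, 16), (30, 31, 32), (0, 1, 16)] :=
  sound_leaf (K := 249) (L := ⟨(-12582912), (-1093376), (-260891), 2189407, 448593, 368363, 96213, 0, 0, 0⟩) r6_ok (by decide +kernel)

def r6_leaf33 :
    Sound r6R [(1, 2, 2), (2, 3, 4), (0, 1, 16), (31, 32, 32), (0, 1, 16)] :=
  sound_leaf (K := 255) (L := ⟨(-13002342), (-1432556), (-326609), 2326185, 430454, 277859, 90226, 7599005923989837690395286, 0, 0⟩) r6_ok (by decide +kernel)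

def r6_leaf34 :
    Sound r6R [(1, 2, 2), (3, 4, 4), (0, 1, 16), (31, 32, 32), (0, 1, 32)] :=
  sound_leaf (K := 261) (L := ⟨(-13159629), (-1492109), (-350942), 236613, 417872, 322342, 69367, 3900130834235655070030060, 0, 0⟩) r6_ok (by decide +kernel)

def r6_leaf35 :
    Sound r6R [(1, 2, 2), (3, 4, 4), (0, 1, 16), (31, 32, 32), (1, 2, 32)] :=
  sound_leaf (K := 262) (L := ⟨(-12582912), (-1078669), (-262189), 3498438, 430921, 482315, 166981, 0, 0, 0⟩) r6_ok (by decide +kernel)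

def r6_leaf36 :
    Sound r6R [(1, 2, 2), (0, 1, 1), (0, 1, 16), (7, 8, 8), (1, 2, 16)] :=
  sound_empty (K := 146) (q := 12) r6_ok (by decide +kernel)

def r6_leaf37 :
    Sound r6R [(1, 2, 2), (0, 1, 1), (1, 2, 16), (7, 8, 8), (0, 1, 8)] :=
  sound_leaf (K := 225) (L := ⟨(-11744051), (-720125), (-172393), 2774749, 416233, 505023, 156545, 0, 0, 0⟩) r6_ok (by decide +kernel)

def r6_leaf38 :
    Sound r6R [(0, 1, 1), (0, 1, 1), (0, 1, 8), (3, 4, 4), (1, 2, 8)] :=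
  sound_empty (K := 122) (q := 12) r6_ok (by decide +kernel)

def r6_leaf39 :
    Sound r6R [(0, 1, 1), (0, 1, 1), (1, 2, 8), (3, 4, 4), (0, 1, 4)] :=
  sound_leaf (K := 201) (L := ⟨(-11744051), (-423517), (-103107), 3171114, 329374, 475496, 139721, 0, 0, 0⟩) r6_ok (by decide +kernel)

def r6_leaf40 :
    Sound r6R [(0, 1, 1), (0, 1, 1), (1, 2, 4), (1, 2, 2), (0, 1, 4)] :=
  sound_leaf (K := 188) (L := ⟨(-11744051), 24308, (-25664), 2402026, 309691, 457415, 116778, 0, 0, 0⟩) r6_ok (by decide +kernel)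

def r6_leaf41 :
    Sound r6R [(0, 1, 1), (0, 1, 1), (0, 1, 2), (1, 2, 2), (1, 2, 4)] :=
  sound_leaf (K := 182) (L := ⟨(-11744051), 81015, (-53285), 2319476, 263923, 448435, 114431, 0, 0, 0⟩) r6_ok (by decide +kernel)

def r6_leaf42 :
    Sound r6R [(0, 1, 1), (0, 1, 1), (0, 1, 2), (1, 2, 2), (1, 2, 2)] :=
  sound_empty (K := 94) (q := 11) r6_ok (by decide +kernel)

def r6_leaf43 :
    Sound r6R [(0, 1, 1), (0, 1, 1), (1, 2, 2), (0, 1, 1), (0, 1, 1)] :=
  sound_leaf (K := 163) (L := ⟨(-10485760), 397147, 16340, 1270414, 193937, 400899, 71646, 0, 0, 0⟩) r6_ok (by decide +kernel)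

theorem r6_node0 :
    Sound r6R [(0, 1, 2), (0, 1, 4), (0, 1, 16), (15, 16, 16), (0, 1, 32)] :=
  sound_node (j := 0) (by decide) r6_leaf4 r6_leaf5

theorem r6_node1 :
    Sound r6R [(0, 1, 2), (0, 1, 4), (0, 1, 16), (7, 8, 8), (0, 1, 32)] :=
  sound_node (j := 3) (by decide) r6_leaf3 r6_node0

theorem r6_node2 :
    Sound r6R [(0, 1, 2), (1, 2, 4), (0, 1, 16), (15, 16, 16), (0, 1, 32)] :=
  sound_node (j := 0) (by decide) r6_leaf7 r6_leaf8

theorem r6_node3 :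
    Sound r6R [(0, 1, 2), (1, 2, 4), (0, 1, 16), (7, 8, 8), (0, 1, 32)] :=
  sound_node (j := 3) (by decide) r6_leaf6 r6_node2

theorem r6_node4 :
    Sound r6R [(0, 1, 2), (0, 1, 2), (0, 1, 16), (7, 8, 8), (0, 1, 32)] :=
  sound_node (j := 1) (by decide) r6_node1 r6_node3

theorem r6_node5 :
    Sound r6R [(0, 1, 2), (0, 1, 2), (0, 1, 16), (7, 8, 8), (0, 1, 16)] :=
  sound_node (j := 4) (by decide) r6_node4 r6_leaf9

theorem r6_node6 :
    Sound r6R [(0, 1, 4), (2, 3, 4), (0, 1, 32), (31, 32, 32), (0, 1, 32)] :=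
  sound_node (j := 0) (by decide) r6_leaf12 r6_leaf13

theorem r6_node7 :
    Sound r6R [(0, 1, 4), (2, 3, 4), (0, 1, 32), (15, 16, 16), (0, 1, 32)] :=
  sound_node (j := 3) (by decide) r6_leaf11 r6_node6

theorem r6_node8 :
    Sound r6R [(0, 1, 2), (2, 3, 4), (0, 1, 32), (15, 16, 16), (0, 1, 32)] :=
  sound_node (j := 0) (by decide) r6_node7 r6_leaf14

theorem r6_node9 :
    Sound r6R [(0, 1, 4), (3, 4, 4), (0, 1, 64), (31, 32, 32), (0, 1, 64)] :=
  sound_node (j := 1) (by decide) r6_leaf16 r6_leaf17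

theorem r6_node10 :
    Sound r6R [(0, 1, 4), (3, 4, 4), (0, 1, 64), (31, 32, 32), (0, 1, 32)] :=
  sound_node (j := 4) (by decide) r6_node9 r6_leaf18

theorem r6_node11 :
    Sound r6R [(1, 2, 4), (3, 4, 4), (0, 1, 64), (31, 32, 32), (0, 1, 64)] :=
  sound_node (j := 3) (by decide) r6_leaf19 r6_leaf20

theorem r6_node12 :
    Sound r6R [(1, 2, 4), (3, 4, 4), (0, 1, 64), (31, 32, 32), (0, 1, 32)] :=
  sound_node (j := 4) (by decide) r6_node11 r6_leaf21

theorem r6_node13 :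
    Sound r6R [(0, 1, 2), (3, 4, 4), (0, 1, 64), (31, 32, 32), (0, 1, 32)] :=
  sound_node (j := 0) (by decide) r6_node10 r6_node12

theorem r6_node14 :
    Sound r6R [(0, 1, 2), (3, 4, 4), (0, 1, 32), (31, 32, 32), (0, 1, 32)] :=
  sound_node (j := 2) (by decide) r6_node13 r6_leaf22

theorem r6_node15 :
    Sound r6R [(0, 1, 2), (3, 4, 4), (0, 1, 32), (15, 16, 16), (0, 1, 32)] :=
  sound_node (j := 3) (by decide) r6_leaf15 r6_node14

theorem r6_node16 :
    Sound r6R [(0, 1, 2), (1, 2, 2), (0, 1, 32), (15, 16, 16), (0, 1, 32)] :=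
  sound_node (j := 1) (by decide) r6_node8 r6_node15

theorem r6_node17 :
    Sound r6R [(0, 1, 2), (1, 2, 2), (0, 1, 16), (15, 16, 16), (0, 1, 32)] :=
  sound_node (j := 2) (by decide) r6_node16 r6_leaf23

theorem r6_node18 :
    Sound r6R [(0, 1, 2), (1, 2, 2), (0, 1, 16), (15, 16, 16), (0, 1, 16)] :=
  sound_node (j := 4) (by decide) r6_node17 r6_leaf24

theorem r6_node19 :
    Sound r6R [(0, 1, 2), (1, 2, 2), (0, 1, 16), (7, 8, 8), (0, 1, 16)] :=
  sound_node (j := 3) (by decide) r6_leaf10 r6_node18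

theorem r6_node20 :
    Sound r6R [(0, 1, 2), (0, 1, 1), (0, 1, 16), (7, 8, 8), (0, 1, 16)] :=
  sound_node (j := 1) (by decide) r6_node5 r6_node19

theorem r6_node21 :
    Sound r6R [(0, 1, 2), (0, 1, 1), (0, 1, 16), (7, 8, 8), (0, 1, 8)] :=
  sound_node (j := 4) (by decide) r6_node20 r6_leaf25

theorem r6_node22 :
    Sound r6R [(0, 1, 2), (0, 1, 1), (0, 1, 16), (3, 4, 4), (0, 1, 8)] :=
  sound_node (j := 3) (by decide) r6_leaf2 r6_node21

theorem r6_node23 :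
    Sound r6R [(0, 1, 2), (0, 1, 1), (0, 1, 8), (3, 4, 4), (0, 1, 8)] :=
  sound_node (j := 2) (by decide) r6_node22 r6_leaf26

theorem r6_node24 :
    Sound r6R [(1, 2, 2), (0, 1, 2), (0, 1, 32), (15, 16, 16), (0, 1, 16)] :=
  sound_node (j := 3) (by decide) r6_leaf29 r6_leaf30

theorem r6_node25 :
    Sound r6R [(1, 2, 2), (0, 1, 2), (0, 1, 16), (15, 16, 16), (0, 1, 16)] :=
  sound_node (j := 2) (by decide) r6_node24 r6_leaf31

theorem r6_node26 :
    Sound r6R [(1, 2, 2), (3, 4, 4), (0, 1, 16), (31, 32, 32), (0, 1, 16)] :=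
  sound_node (j := 4) (by decide) r6_leaf34 r6_leaf35

theorem r6_node27 :
    Sound r6R [(1, 2, 2), (1, 2, 2), (0, 1, 16), (31, 32, 32), (0, 1, 16)] :=
  sound_node (j := 1) (by decide) r6_leaf33 r6_node26

theorem r6_node28 :
    Sound r6R [(1, 2, 2), (1, 2, 2), (0, 1, 16), (15, 16, 16), (0, 1, 16)] :=
  sound_node (j := 3) (by decide) r6_leaf32 r6_node27

theorem r6_node29 :
    Sound r6R [(1, 2, 2), (0, 1, 1), (0, 1, 16), (15, 16, 16), (0, 1, 16)] :=
  sound_node (j := 1) (by decide) r6_node25 r6_node28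

theorem r6_node30 :
    Sound r6R [(1, 2, 2), (0, 1, 1), (0, 1, 16), (7, 8, 8), (0, 1, 16)] :=
  sound_node (j := 3) (by decide) r6_leaf28 r6_node29

theorem r6_node31 :
    Sound r6R [(1, 2, 2), (0, 1, 1), (0, 1, 16), (7, 8, 8), (0, 1, 8)] :=
  sound_node (j := 4) (by decide) r6_node30 r6_leaf36

theorem r6_node32 :
    Sound r6R [(1, 2, 2), (0, 1, 1), (0, 1, 8), (7, 8, 8), (0, 1, 8)] :=
  sound_node (j := 2) (by decide) r6_node31 r6_leaf37

theorem r6_node33 :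
    Sound r6R [(1, 2, 2), (0, 1, 1), (0, 1, 8), (3, 4, 4), (0, 1, 8)] :=
  sound_node (j := 3) (by decide) r6_leaf27 r6_node32

theorem r6_node34 :
    Sound r6R [(0, 1, 1), (0, 1, 1), (0, 1, 8), (3, 4, 4), (0, 1, 8)] :=
  sound_node (j := 0) (by decide) r6_node23 r6_node33

theorem r6_node35 :
    Sound r6R [(0, 1, 1), (0, 1, 1), (0, 1, 8), (3, 4, 4), (0, 1, 4)] :=
  sound_node (j := 4) (by decide) r6_node34 r6_leaf38

theorem r6_node36 :
    Sound r6R [(0, 1, 1), (0, 1, 1), (0, 1, 4), (3, 4, 4), (0, 1, 4)] :=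
  sound_node (j := 2) (by decide) r6_node35 r6_leaf39

theorem r6_node37 :
    Sound r6R [(0, 1, 1), (0, 1, 1), (0, 1, 4), (1, 2, 2), (0, 1, 4)] :=
  sound_node (j := 3) (by decide) r6_leaf1 r6_node36

theorem r6_node38 :
    Sound r6R [(0, 1, 1), (0, 1, 1), (0, 1, 2), (1, 2, 2), (0, 1, 4)] :=
  sound_node (j := 2) (by decide) r6_node37 r6_leaf40

theorem r6_node39 :
    Sound r6R [(0, 1, 1), (0, 1, 1), (0, 1, 2), (1, 2, 2), (0, 1, 2)] :=
  sound_node (j := 4) (by decide) r6_node38 r6_leaf41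

theorem r6_node40 :
    Sound r6R [(0, 1, 1), (0, 1, 1), (0, 1, 2), (1, 2, 2), (0, 1, 1)] :=
  sound_node (j := 4) (by decide) r6_node39 r6_leaf42

theorem r6_node41 :
    Sound r6R [(0, 1, 1), (0, 1, 1), (0, 1, 2), (0, 1, 1), (0, 1, 1)] :=
  sound_node (j := 3) (by decide) r6_leaf0 r6_node40

theorem r6_node42 :
    Sound r6R [(0, 1, 1), (0, 1, 1), (0, 1, 1), (0, 1, 1), (0, 1, 1)] :=
  sound_node (j := 2) (by decide) r6_node41 r6_leaf43

theorem r6_sound :
    Sound r6R [(0, 1, 1), (0, 1, 1), (0, 1, 1), (0, 1, 1), (0, 1, 1)] :=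
  r6_node42

end Vale.Agent.P100.Calib.LowEnd
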