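import Vale.Agent.P100.Calib.SlabLowEndR6Data

/-!
# The slots of root 6 are within their tolerances
-/

set_option maxRecDepth 100000
-- the heavy checks are definitions, so that they are checked one after another
set_option linter.defProp false

namespace Vale.Agent.P100.Calib.LowEnd

open Pack Band

def r6_slot0 : checkSlot r6B r6P.sig 56 r6D0 r6T0 = true := by decide +kernel

def r6_slot1 : checkSlot r6B r6P.sig 56 r6D1 r6T1 = true := by decide +kernel

def r6_slot2 : checkSlot r6B r6P.sig 48 r6D2 r6T2 = true := by decide +kernel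

def r6_slot3 : checkSlot r6B r6P.sig 56 r6D3 r6T3 = true := by decide +kernel

def r6_slot4 : checkSlot r6B r6P.sig 56 r6D4 r6T4 = true := by decide +kernel

def r6_slot5 : checkSlot r6B r6P.sig 56 r6D5 r6T5 = true := by decide +kernel

def r6_slot6 : checkSlot r6B r6P.sig 56 r6D6 r6T6 = true := by decide +kernel

def r6_slot7 : checkSlot r6B r6P.sig 56 r6D7 r6T7 = true := by decide +kernel

def r6_slot8 : checkSlot r6B r6P.sig 56 r6D8 r6T8 = true := by decide +kernel

def r6_slot9 : checkSlot r6B r6P.sig 56 r6D9 r6T9 = true := by decide +kernel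

def r6_slot10 : checkSlot r6B r6P.sig 56 r6D10 r6T10 = true := by decide +kernel

def r6_slot11 : checkSlot r6B r6P.sig 56 r6D11 r6T11 = true := by decide +kernel

def r6_slot12 : checkSlot r6B r6P.sig 56 r6D12 r6T12 = true := by decide +kernel

def r6_slot13 : checkSlot r6B r6P.sig 56 r6D13 r6T13 = true := by decide +kernel

theorem r6_near {x y : ℕ → ℝ} (hx : InBox r6B x) (hc : Coord r6P.sig x y) :
    Near r6R y (valueAt r6L x) :=
  near_root rfl (fun q hq => by
    simp only [r6L, List.length_cons, List.length_nil] at hq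
    interval_cases q
    · exact ⟨_, r6_slot0⟩
    · exact ⟨_, r6_slot1⟩
    · exact ⟨_, r6_slot2⟩
    · exact ⟨_, r6_slot3⟩
    · exact ⟨_, r6_slot4⟩
    · exact ⟨_, r6_slot5⟩
    · exact ⟨_, r6_slot6⟩
    · exact ⟨_, r6_slot7⟩
    · exact ⟨_, r6_slot8⟩
    · exact ⟨_, r6_slot9⟩
    · exact ⟨_, r6_slot10⟩
    · exact ⟨_, r6_slot11⟩
    · exact ⟨_, r6_slot12⟩
    · exact ⟨_, r6_slot13⟩
  ) hx hc

end Vale.Agent.P100.Calib.LowEnd
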