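import Vale.Agent.P100.Calib.SlabLowEndR7Data

/-!
# The cover of root 7
-/

set_option maxRecDepth 100000
-- the heavy checks are definitions, so that they are checked one after another
set_option linter.defProp false

namespace Vale.Agent.P100.Calib.LowEnd

open Pack Band

theorem r7_ok : rootOk r7R = true := by decide +kernel

def r7_leaf0 :
    Sound r7R [(0, 1, 1), (0, 1, 1), (0, 1, 2), (0, 1, 2), (0, 1, 1)] :=
  sound_empty (K := 86) (q := 12) r7_ok (by decide +kernel)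

def r7_leaf1 :
    Sound r7R [(0, 1, 1), (0, 1, 1), (0, 1, 4), (2, 3, 4), (0, 1, 4)] :=
  sound_empty (K := 110) (q := 12) r7_ok (by decide +kernel)

def r7_leaf2 :
    Sound r7R [(0, 1, 1), (0, 1, 1), (0, 1, 8), (6, 7, 8), (0, 1, 4)] :=
  sound_leaf (K := 206) (L := ⟨(-11324621), (-486477), (-147020), 2768402, 377932, 386686, 115102, 0, 0, 0⟩) r7_ok (by decide +kernel)

def r7_leaf3 :
    Sound r7R [(0, 1, 1), (0, 1, 1), (0, 1, 16), (14, 15, 16), (0, 1, 8)] :=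
  sound_leaf (K := 225) (L := ⟨(-11744051), (-858002), (-201671), 4487407, 440985, 291364, 126730, 0, 0, 0⟩) r7_ok (by decide +kernel)

def r7_leaf4 :
    Sound r7R [(0, 1, 1), (0, 1, 2), (0, 1, 16), (15, 16, 16), (0, 1, 16)] :=
  sound_leaf (K := 237) (L := ⟨(-12163482), (-1351583), (-298344), 2083291, 457905, 417707, 102337, 2466441813358156197636941, 0, 0⟩) r7_ok (by decide +kernel)

def r7_leaf5 :
    Sound r7R [(0, 1, 2), (1, 2, 2), (0, 1, 16), (30, 31, 32), (0, 1, 16)] :=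
  sound_leaf (K := 249) (L := ⟨(-12582912), (-1125771), (-265878), 2946597, 442549, 370470, 130769, 0, 0, 0⟩) r7_ok (by decide +kernel)

def r7_leaf6 :
    Sound r7R [(0, 1, 2), (1, 2, 2), (0, 1, 16), (31, 32, 32), (0, 1, 16)] :=
  sound_leaf (K := 249) (L := ⟨(-12582912), (-1180675), (-282508), 319301, 447351, 368762, 73967, 2278490471304629311642692, 0, 0⟩) r7_ok (by decide +kernel)

def r7_leaf7 :
    Sound r7R [(1, 2, 2), (1, 2, 2), (0, 1, 16), (30, 31, 32), (0, 1, 16)] :=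
  sound_leaf (K := 249) (L := ⟨(-12163482), (-1082843), (-250538), 2876444, 451872, 376711, 127020, 0, 0, 0⟩) r7_ok (by decide +kernel)

def r7_leaf8 :
    Sound r7R [(1, 2, 2), (1, 2, 2), (0, 1, 16), (31, 32, 32), (0, 1, 16)] :=
  sound_leaf (K := 249) (L := ⟨(-12163482), (-1163976), (-272866), 219791, 456906, 322706, 64248, 2304208894738587892005259, 2080222269643306769142986, 0⟩) r7_ok (by decide +kernel)

def r7_leaf9 :
    Sound r7R [(0, 1, 1), (0, 1, 1), (0, 1, 16), (15, 16, 16), (1, 2, 16)] :=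
  sound_empty (K := 147) (q := 11) r7_ok (by decide +kernel)

def r7_leaf10 :
    Sound r7R [(0, 1, 1), (0, 1, 1), (1, 2, 16), (7, 8, 8), (0, 1, 8)] :=
  sound_leaf (K := 219) (L := ⟨(-11744051), (-806082), (-183261), 3525611, 402839, 515988, 160138, 0, 0, 0⟩) r7_ok (by decide +kernel)

def r7_leaf11 :
    Sound r7R [(0, 1, 1), (0, 1, 1), (0, 1, 8), (7, 8, 8), (1, 2, 8)] :=
  sound_empty (K := 129) (q := 11) r7_ok (by decide +kernel)

def r7_leaf12 :
    Sound r7R [(0, 1, 1), (0, 1, 1), (1, 2, 8), (3, 4, 4), (0, 1, 4)] :=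
  sound_leaf (K := 201) (L := ⟨(-10905190), (-487854), (-101132), 3008990, 342723, 494872, 137644, 0, 0, 0⟩) r7_ok (by decide +kernel)

def r7_leaf13 :
    Sound r7R [(0, 1, 1), (0, 1, 1), (1, 2, 4), (1, 2, 2), (0, 1, 4)] :=
  sound_leaf (K := 188) (L := ⟨(-10905190), (-45862), (-26573), 2242836, 324832, 476310, 117355, 0, 0, 0⟩) r7_ok (by decide +kernel)

def r7_leaf14 :
    Sound r7R [(0, 1, 1), (0, 1, 1), (0, 1, 2), (1, 2, 2), (1, 2, 4)] :=
  sound_leaf (K := 182) (L := ⟨(-10485760), 23598, (-52027), 2044812, 279387, 464928, 113660, 0, 0, 0⟩) r7_ok (by decide +kernel)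

def r7_leaf15 :
    Sound r7R [(0, 1, 1), (0, 1, 1), (0, 1, 2), (1, 2, 2), (1, 2, 2)] :=
  sound_empty (K := 93) (q := 11) r7_ok (by decide +kernel)

def r7_leaf16 :
    Sound r7R [(0, 1, 1), (0, 1, 1), (1, 2, 2), (0, 1, 1), (0, 1, 1)] :=
  sound_leaf (K := 163) (L := ⟨(-9646899), 329062, 27436, 1465868, 204200, 416491, 72868, 0, 0, 0⟩) r7_ok (by decide +kernel)

theorem r7_node0 :
    Sound r7R [(0, 1, 2), (1, 2, 2), (0, 1, 16), (15, 16, 16), (0, 1, 16)] :=
  sound_node (j := 3) (by decide) r7_leaf5 r7_leaf6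

theorem r7_node1 :
    Sound r7R [(1, 2, 2), (1, 2, 2), (0, 1, 16), (15, 16, 16), (0, 1, 16)] :=
  sound_node (j := 3) (by decide) r7_leaf7 r7_leaf8

theorem r7_node2 :
    Sound r7R [(0, 1, 1), (1, 2, 2), (0, 1, 16), (15, 16, 16), (0, 1, 16)] :=
  sound_node (j := 0) (by decide) r7_node0 r7_node1

theorem r7_node3 :
    Sound r7R [(0, 1, 1), (0, 1, 1), (0, 1, 16), (15, 16, 16), (0, 1, 16)] :=
  sound_node (j := 1) (by decide) r7_leaf4 r7_node2

theorem r7_node4 :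
    Sound r7R [(0, 1, 1), (0, 1, 1), (0, 1, 16), (15, 16, 16), (0, 1, 8)] :=
  sound_node (j := 4) (by decide) r7_node3 r7_leaf9

theorem r7_node5 :
    Sound r7R [(0, 1, 1), (0, 1, 1), (0, 1, 16), (7, 8, 8), (0, 1, 8)] :=
  sound_node (j := 3) (by decide) r7_leaf3 r7_node4

theorem r7_node6 :
    Sound r7R [(0, 1, 1), (0, 1, 1), (0, 1, 8), (7, 8, 8), (0, 1, 8)] :=
  sound_node (j := 2) (by decide) r7_node5 r7_leaf10

theorem r7_node7 :
    Sound r7R [(0, 1, 1), (0, 1, 1), (0, 1, 8), (7, 8, 8), (0, 1, 4)] :=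
  sound_node (j := 4) (by decide) r7_node6 r7_leaf11

theorem r7_node8 :
    Sound r7R [(0, 1, 1), (0, 1, 1), (0, 1, 8), (3, 4, 4), (0, 1, 4)] :=
  sound_node (j := 3) (by decide) r7_leaf2 r7_node7

theorem r7_node9 :
    Sound r7R [(0, 1, 1), (0, 1, 1), (0, 1, 4), (3, 4, 4), (0, 1, 4)] :=
  sound_node (j := 2) (by decide) r7_node8 r7_leaf12

theorem r7_node10 :
    Sound r7R [(0, 1, 1), (0, 1, 1), (0, 1, 4), (1, 2, 2), (0, 1, 4)] :=
  sound_node (j := 3) (by decide) r7_leaf1 r7_node9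

theorem r7_node11 :
    Sound r7R [(0, 1, 1), (0, 1, 1), (0, 1, 2), (1, 2, 2), (0, 1, 4)] :=
  sound_node (j := 2) (by decide) r7_node10 r7_leaf13

theorem r7_node12 :
    Sound r7R [(0, 1, 1), (0, 1, 1), (0, 1, 2), (1, 2, 2), (0, 1, 2)] :=
  sound_node (j := 4) (by decide) r7_node11 r7_leaf14

theorem r7_node13 :
    Sound r7R [(0, 1, 1), (0, 1, 1), (0, 1, 2), (1, 2, 2), (0, 1, 1)] :=
  sound_node (j := 4) (by decide) r7_node12 r7_leaf15

theorem r7_node14 :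
    Sound r7R [(0, 1, 1), (0, 1, 1), (0, 1, 2), (0, 1, 1), (0, 1, 1)] :=
  sound_node (j := 3) (by decide) r7_leaf0 r7_node13

theorem r7_node15 :
    Sound r7R [(0, 1, 1), (0, 1, 1), (0, 1, 1), (0, 1, 1), (0, 1, 1)] :=
  sound_node (j := 2) (by decide) r7_node14 r7_leaf16

theorem r7_sound :
    Sound r7R [(0, 1, 1), (0, 1, 1), (0, 1, 1), (0, 1, 1), (0, 1, 1)] :=
  r7_node15

end Vale.Agent.P100.Calib.LowEnd
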