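import Vale.Agent.P100.Calib.SlabLowEndR7Data

/-!
# The slots of root 7 are within their tolerances
-/

set_option maxRecDepth 100000
-- the heavy checks are definitions, so that they are checked one after another
set_option linter.defProp false

namespace Vale.Agent.P100.Calib.LowEnd

open Pack Band

def r7_slot0 : checkSlot r7B r7P.sig 56 r7D0 r7T0 = true := by decide +kernel

def r7_slot1 : checkSlot r7B r7P.sig 56 r7D1 r7T1 = true := by decide +kernel

def r7_slot2 : checkSlot r7B r7P.sig 56 r7D2 r7T2 = true := by decide +kernel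

def r7_slot3 : checkSlot r7B r7P.sig 56 r7D3 r7T3 = true := by decide +kernel

def r7_slot4 : checkSlot r7B r7P.sig 56 r7D4 r7T4 = true := by decide +kernel

def r7_slot5 : checkSlot r7B r7P.sig 56 r7D5 r7T5 = true := by decide +kernel

def r7_slot6 : checkSlot r7B r7P.sig 56 r7D6 r7T6 = true := by decide +kernel

def r7_slot7 : checkSlot r7B r7P.sig 56 r7D7 r7T7 = true := by decide +kernel

def r7_slot8 : checkSlot r7B r7P.sig 56 r7D8 r7T8 = true := by decide +kernel

def r7_slot9 : checkSlot r7B r7P.sig 56 r7D9 r7T9 = true := by decide +kernel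

def r7_slot10 : checkSlot r7B r7P.sig 56 r7D10 r7T10 = true := by decide +kernel

def r7_slot11 : checkSlot r7B r7P.sig 56 r7D11 r7T11 = true := by decide +kernel

def r7_slot12 : checkSlot r7B r7P.sig 56 r7D12 r7T12 = true := by decide +kernel

theorem r7_near {x y : ℕ → ℝ} (hx : InBox r7B x) (hc : Coord r7P.sig x y) :
    Near r7R y (valueAt r7L x) :=
  near_root rfl (fun q hq => by
    simp only [r7L, List.length_cons, List.length_nil] at hq
    interval_cases q
    · exact ⟨_, r7_slot0⟩
    · exact ⟨_, r7_slot1⟩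
    · exact ⟨_, r7_slot2⟩
    · exact ⟨_, r7_slot3⟩
    · exact ⟨_, r7_slot4⟩
    · exact ⟨_, r7_slot5⟩
    · exact ⟨_, r7_slot6⟩
    · exact ⟨_, r7_slot7⟩
    · exact ⟨_, r7_slot8⟩
    · exact ⟨_, r7_slot9⟩
    · exact ⟨_, r7_slot10⟩
    · exact ⟨_, r7_slot11⟩
    · exact ⟨_, r7_slot12⟩
  ) hx hc

end Vale.Agent.P100.Calib.LowEnd
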