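import Vale.Agent.P100.Calib.SlabLowEndR8Data

/-!
# The cover of root 8
-/

set_option maxRecDepth 100000
-- the heavy checks are definitions, so that they are checked one after another
set_option linter.defProp false

namespace Vale.Agent.P100.Calib.LowEnd

open Pack Band

theorem r8_ok : rootOk r8R = true := by decide +kernel

def r8_leaf0 :
    Sound r8R [(0, 1, 1), (0, 1, 1), (0, 1, 2), (0, 1, 2), (0, 1, 4)] :=
  sound_empty (K := 98) (q := 12) r8_ok (by decide +kernel)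

def r8_leaf1 :
    Sound r8R [(0, 1, 1), (0, 1, 1), (0, 1, 4), (2, 3, 4), (0, 1, 8)] :=
  sound_leaf (K := 200) (L := ⟨(-9646899), (-4805), (-7336), 2498096, 429324, 406159, 78168, 0, 0, 0⟩) r8_ok (by decide +kernel)

def r8_leaf2 :
    Sound r8R [(0, 1, 1), (0, 1, 1), (0, 1, 4), (6, 7, 8), (0, 1, 8)] :=
  sound_leaf (K := 206) (L := ⟨(-10905190), (-424019), (-106462), 2667550, 394461, 393863, 112348, 0, 0, 0⟩) r8_ok (by decide +kernel)

def r8_leaf3 :
    Sound r8R [(0, 1, 1), (0, 1, 1), (0, 1, 16), (14, 15, 16), (0, 1, 8)] :=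
  sound_leaf (K := 225) (L := ⟨(-11324621), (-855601), (-194091), 2897560, 440242, 542980, 167398, 0, 0, 0⟩) r8_ok (by decide +kernel)

def r8_leaf4 :
    Sound r8R [(0, 1, 1), (0, 1, 1), (0, 1, 32), (30, 31, 32), (0, 1, 32)] :=
  sound_leaf (K := 249) (L := ⟨(-11744051), (-1177016), (-256330), 3078540, 493449, 550807, 183823, 0, 0, 0⟩) r8_ok (by decide +kernel)

def r8_leaf5 :
    Sound r8R [(0, 1, 1), (0, 1, 1), (0, 1, 32), (31, 32, 32), (0, 1, 32)] :=
  sound_leaf (K := 249) (L := ⟨(-11744051), (-1231209), (-272216), 2566218, 499206, 324274, 79963, 2533095205511330635815429, 0, 0⟩) r8_ok (by decide +kernel)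

def r8_leaf6 :
    Sound r8R [(0, 1, 1), (0, 1, 1), (1, 2, 32), (15, 16, 16), (0, 1, 32)] :=
  sound_leaf (K := 243) (L := ⟨(-11324621), (-1088290), (-229289), 3643844, 500212, 543505, 169219, 0, 0, 0⟩) r8_ok (by decide +kernel)

def r8_leaf7 :
    Sound r8R [(0, 1, 1), (0, 1, 1), (0, 1, 16), (15, 16, 16), (1, 2, 32)] :=
  sound_leaf (K := 237) (L := ⟨(-11324621), (-1051542), (-227017), 3610910, 467993, 540877, 167567, 0, 0, 0⟩) r8_ok (by decide +kernel)

def r8_leaf8 :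
    Sound r8R [(0, 1, 1), (0, 1, 1), (0, 1, 16), (15, 16, 16), (1, 2, 16)] :=
  sound_empty (K := 147) (q := 11) r8_ok (by decide +kernel)

def r8_leaf9 :
    Sound r8R [(0, 1, 1), (0, 1, 1), (1, 2, 16), (7, 8, 8), (0, 1, 8)] :=
  sound_leaf (K := 219) (L := ⟨(-10905190), (-742748), (-162806), 3305176, 423559, 527506, 152415, 0, 0, 0⟩) r8_ok (by decide +kernel)

def r8_leaf10 :
    Sound r8R [(0, 1, 1), (0, 1, 1), (1, 2, 8), (7, 8, 8), (0, 1, 8)] :=
  sound_leaf (K := 213) (L := ⟨(-10485760), (-587273), (-122418), 2968382, 389673, 509908, 139677, 0, 0, 0⟩) r8_ok (by decide +kernel)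

def r8_leaf11 :
    Sound r8R [(0, 1, 1), (0, 1, 1), (0, 1, 4), (1, 2, 2), (1, 2, 8)] :=
  sound_leaf (K := 194) (L := ⟨(-11744051), (-130054), (-67892), 2788424, 347309, 515706, 133213, 0, 0, 0⟩) r8_ok (by decide +kernel)

def r8_leaf12 :
    Sound r8R [(0, 1, 1), (0, 1, 1), (1, 2, 4), (1, 2, 2), (0, 1, 4)] :=
  sound_leaf (K := 188) (L := ⟨(-10905190), (-91100), (-28574), 2253074, 320801, 485745, 119271, 0, 0, 0⟩) r8_ok (by decide +kernel)

def r8_leaf13 :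
    Sound r8R [(0, 1, 1), (0, 1, 1), (1, 2, 2), (0, 1, 1), (0, 1, 4)] :=
  sound_leaf (K := 175) (L := ⟨(-8808038), 231144, 27340, 1541159, 273645, 463457, 104681, 0, 0, 0⟩) r8_ok (by decide +kernel)

def r8_leaf14 :
    Sound r8R [(0, 1, 1), (0, 1, 1), (0, 1, 1), (0, 1, 1), (1, 2, 4)] :=
  sound_leaf (K := 169) (L := ⟨(-10066330), 266429, 8904, 2196402, 241830, 460953, 80186, 0, 0, 0⟩) r8_ok (by decide +kernel)

def r8_leaf15 :
    Sound r8R [(0, 1, 1), (0, 1, 1), (0, 1, 1), (0, 1, 1), (1, 2, 2)] :=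
  sound_leaf (K := 163) (L := ⟨(-6291456), 313663, (-27278), 1249785, 205002, 428329, 99059, 0, 0, 0⟩) r8_ok (by decide +kernel)

theorem r8_node0 :
    Sound r8R [(0, 1, 1), (0, 1, 1), (0, 1, 32), (15, 16, 16), (0, 1, 32)] :=
  sound_node (j := 3) (by decide) r8_leaf4 r8_leaf5

theorem r8_node1 :
    Sound r8R [(0, 1, 1), (0, 1, 1), (0, 1, 16), (15, 16, 16), (0, 1, 32)] :=
  sound_node (j := 2) (by decide) r8_node0 r8_leaf6

theorem r8_node2 :
    Sound r8R [(0, 1, 1), (0, 1, 1), (0, 1, 16), (15, 16, 16), (0, 1, 16)] :=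
  sound_node (j := 4) (by decide) r8_node1 r8_leaf7

theorem r8_node3 :
    Sound r8R [(0, 1, 1), (0, 1, 1), (0, 1, 16), (15, 16, 16), (0, 1, 8)] :=
  sound_node (j := 4) (by decide) r8_node2 r8_leaf8

theorem r8_node4 :
    Sound r8R [(0, 1, 1), (0, 1, 1), (0, 1, 16), (7, 8, 8), (0, 1, 8)] :=
  sound_node (j := 3) (by decide) r8_leaf3 r8_node3

theorem r8_node5 :
    Sound r8R [(0, 1, 1), (0, 1, 1), (0, 1, 8), (7, 8, 8), (0, 1, 8)] :=
  sound_node (j := 2) (by decide) r8_node4 r8_leaf9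

theorem r8_node6 :
    Sound r8R [(0, 1, 1), (0, 1, 1), (0, 1, 4), (7, 8, 8), (0, 1, 8)] :=
  sound_node (j := 2) (by decide) r8_node5 r8_leaf10

theorem r8_node7 :
    Sound r8R [(0, 1, 1), (0, 1, 1), (0, 1, 4), (3, 4, 4), (0, 1, 8)] :=
  sound_node (j := 3) (by decide) r8_leaf2 r8_node6

theorem r8_node8 :
    Sound r8R [(0, 1, 1), (0, 1, 1), (0, 1, 4), (1, 2, 2), (0, 1, 8)] :=
  sound_node (j := 3) (by decide) r8_leaf1 r8_node7

theorem r8_node9 :
    Sound r8R [(0, 1, 1), (0, 1, 1), (0, 1, 4), (1, 2, 2), (0, 1, 4)] :=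
  sound_node (j := 4) (by decide) r8_node8 r8_leaf11

theorem r8_node10 :
    Sound r8R [(0, 1, 1), (0, 1, 1), (0, 1, 2), (1, 2, 2), (0, 1, 4)] :=
  sound_node (j := 2) (by decide) r8_node9 r8_leaf12

theorem r8_node11 :
    Sound r8R [(0, 1, 1), (0, 1, 1), (0, 1, 2), (0, 1, 1), (0, 1, 4)] :=
  sound_node (j := 3) (by decide) r8_leaf0 r8_node10

theorem r8_node12 :
    Sound r8R [(0, 1, 1), (0, 1, 1), (0, 1, 1), (0, 1, 1), (0, 1, 4)] :=
  sound_node (j := 2) (by decide) r8_node11 r8_leaf13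

theorem r8_node13 :
    Sound r8R [(0, 1, 1), (0, 1, 1), (0, 1, 1), (0, 1, 1), (0, 1, 2)] :=
  sound_node (j := 4) (by decide) r8_node12 r8_leaf14

theorem r8_node14 :
    Sound r8R [(0, 1, 1), (0, 1, 1), (0, 1, 1), (0, 1, 1), (0, 1, 1)] :=
  sound_node (j := 4) (by decide) r8_node13 r8_leaf15

theorem r8_sound :
    Sound r8R [(0, 1, 1), (0, 1, 1), (0, 1, 1), (0, 1, 1), (0, 1, 1)] :=
  r8_node14

end Vale.Agent.P100.Calib.LowEnd
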