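import Vale.Agent.P100.Calib.SlabLowEndR8Data

/-!
# The slots of root 8 are within their tolerances
-/

set_option maxRecDepth 100000
-- the heavy checks are definitions, so that they are checked one after another
set_option linter.defProp false

namespace Vale.Agent.P100.Calib.LowEnd

open Pack Band

def r8_slot0 : checkSlot r8B r8P.sig 56 r8D0 r8T0 = true := by decide +kernel

def r8_slot1 : checkSlot r8B r8P.sig 56 r8D1 r8T1 = true := by decide +kernel

def r8_slot2 : checkSlot r8B r8P.sig 48 r8D2 r8T2 = true := by decide +kernel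

def r8_slot3 : checkSlot r8B r8P.sig 56 r8D3 r8T3 = true := by decide +kernel

def r8_slot4 : checkSlot r8B r8P.sig 56 r8D4 r8T4 = true := by decide +kernel

def r8_slot5 : checkSlot r8B r8P.sig 56 r8D5 r8T5 = true := by decide +kernel

def r8_slot6 : checkSlot r8B r8P.sig 56 r8D6 r8T6 = true := by decide +kernel

def r8_slot7 : checkSlot r8B r8P.sig 56 r8D7 r8T7 = true := by decide +kernel

def r8_slot8 : checkSlot r8B r8P.sig 56 r8D8 r8T8 = true := by decide +kernel

def r8_slot9 : checkSlot r8B r8P.sig 56 r8D9 r8T9 = true := by decide +kernel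

def r8_slot10 : checkSlot r8B r8P.sig 56 r8D10 r8T10 = true := by decide +kernel

def r8_slot11 : checkSlot r8B r8P.sig 56 r8D11 r8T11 = true := by decide +kernel

def r8_slot12 : checkSlot r8B r8P.sig 56 r8D12 r8T12 = true := by decide +kernel

theorem r8_near {x y : ℕ → ℝ} (hx : InBox r8B x) (hc : Coord r8P.sig x y) :
    Near r8R y (valueAt r8L x) :=
  near_root rfl (fun q hq => by
    simp only [r8L, List.length_cons, List.length_nil] at hq
    interval_cases q
    · exact ⟨_, r8_slot0⟩
    · exact ⟨_, r8_slot1⟩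
    · exact ⟨_, r8_slot2⟩
    · exact ⟨_, r8_slot3⟩
    · exact ⟨_, r8_slot4⟩
    · exact ⟨_, r8_slot5⟩
    · exact ⟨_, r8_slot6⟩
    · exact ⟨_, r8_slot7⟩
    · exact ⟨_, r8_slot8⟩
    · exact ⟨_, r8_slot9⟩
    · exact ⟨_, r8_slot10⟩
    · exact ⟨_, r8_slot11⟩
    · exact ⟨_, r8_slot12⟩
  ) hx hc

end Vale.Agent.P100.Calib.LowEnd
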