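import Vale.Agent.P100.Calib.SlabLowEndR9Data

/-!
# The cover of root 9
-/

set_option maxRecDepth 100000
-- the heavy checks are definitions, so that they are checked one after another
set_option linter.defProp false

namespace Vale.Agent.P100.Calib.LowEnd

open Pack Band

theorem r9_ok : rootOk r9R = true := by decide +kernel

def r9_leaf0 :
    Sound r9R [(0, 1, 1), (0, 1, 1), (0, 1, 2), (0, 1, 4), (0, 1, 16)] :=
  sound_empty (K := 119) (q := 11) r9_ok (by decide +kernel)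

def r9_leaf1 :
    Sound r9R [(0, 1, 1), (0, 1, 1), (0, 1, 2), (1, 2, 4), (0, 1, 16)] :=
  sound_leaf (K := 202) (L := ⟨(-7130317), 199703, 53513, 1891958, 460675, 717433, 85442, 0, 0, 0⟩) r9_ok (by decide +kernel)

def r9_leaf2 :
    Sound r9R [(0, 1, 1), (0, 1, 1), (0, 1, 2), (0, 1, 2), (1, 2, 16)] :=
  sound_leaf (K := 197) (L := ⟨(-5033165), 593885, 48716, 1711140, 395391, 730011, 138968, 0, 0, 0⟩) r9_ok (by decide +kernel)

def r9_leaf3 :
    Sound r9R [(0, 1, 1), (0, 1, 1), (1, 2, 2), (0, 1, 2), (0, 1, 8)] :=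
  sound_empty (K := 107) (q := 11) r9_ok (by decide +kernel)

def r9_leaf4 :
    Sound r9R [(0, 1, 2), (0, 1, 1), (0, 1, 2), (2, 3, 4), (0, 1, 16)] :=
  sound_leaf (K := 209) (L := ⟨(-8388608), 22121, 5729, 2103974, 428558, 657587, 138630, 0, 0, 0⟩) r9_ok (by decide +kernel)

def r9_leaf5 :
    Sound r9R [(0, 1, 2), (0, 1, 1), (0, 1, 2), (3, 4, 4), (0, 1, 16)] :=
  sound_leaf (K := 208) (L := ⟨(-9646899), (-608054), (-51227), 1516972, 379459, 451253, 104627, 365388558028642498367458, 0, 0⟩) r9_ok (by decide +kernel)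

def r9_leaf6 :
    Sound r9R [(1, 2, 2), (0, 1, 1), (0, 1, 2), (1, 2, 2), (0, 1, 16)] :=
  sound_leaf (K := 203) (L := ⟨(-8388608), (-210373), (-9599), 1944257, 547418, 765335, 159736, 0, 0, 0⟩) r9_ok (by decide +kernel)

def r9_leaf7 :
    Sound r9R [(0, 1, 2), (0, 1, 1), (1, 2, 2), (1, 2, 2), (0, 1, 16)] :=
  sound_leaf (K := 202) (L := ⟨(-6291456), (-161826), 41451, 1459832, 357087, 548900, 120751, 0, 0, 0⟩) r9_ok (by decide +kernel)

def r9_leaf8 :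
    Sound r9R [(1, 2, 2), (0, 1, 1), (1, 2, 2), (1, 2, 2), (0, 1, 16)] :=
  sound_empty (K := 118) (q := 12) r9_ok (by decide +kernel)

def r9_leaf9 :
    Sound r9R [(0, 1, 1), (0, 1, 1), (0, 1, 1), (1, 2, 2), (1, 2, 16)] :=
  sound_leaf (K := 191) (L := ⟨(-10485760), (-267724), 13909, 2332720, 342125, 593251, 136230, 0, 0, 0⟩) r9_ok (by decide +kernel)

def r9_leaf10 :
    Sound r9R [(0, 1, 1), (0, 1, 1), (0, 1, 1), (0, 1, 1), (1, 2, 8)] :=
  sound_leaf (K := 178) (L := ⟨(-5872026), 88203, 45050, 1018950, 309001, 585366, 90394, 0, 0, 0⟩) r9_ok (by decide +kernel)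

def r9_leaf11 :
    Sound r9R [(0, 1, 1), (0, 1, 1), (0, 1, 1), (0, 1, 1), (1, 2, 4)] :=
  sound_leaf (K := 172) (L := ⟨(-2936013), 161146, 2331, 481169, 240474, 499103, 110841, 0, 0, 0⟩) r9_ok (by decide +kernel)

def r9_leaf12 :
    Sound r9R [(0, 1, 1), (0, 1, 1), (0, 1, 1), (0, 1, 1), (1, 2, 2)] :=
  sound_leaf (K := 165) (L := ⟨(-419430), 376753, (-108489), 70389, 182600, 420805, 71024, 0, 0, 0⟩) r9_ok (by decide +kernel)

theorem r9_node0 :
    Sound r9R [(0, 1, 1), (0, 1, 1), (0, 1, 2), (0, 1, 2), (0, 1, 16)] :=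
  sound_node (j := 3) (by decide) r9_leaf0 r9_leaf1

theorem r9_node1 :
    Sound r9R [(0, 1, 1), (0, 1, 1), (0, 1, 2), (0, 1, 2), (0, 1, 8)] :=
  sound_node (j := 4) (by decide) r9_node0 r9_leaf2

theorem r9_node2 :
    Sound r9R [(0, 1, 1), (0, 1, 1), (0, 1, 1), (0, 1, 2), (0, 1, 8)] :=
  sound_node (j := 2) (by decide) r9_node1 r9_leaf3

theorem r9_node3 :
    Sound r9R [(0, 1, 2), (0, 1, 1), (0, 1, 2), (1, 2, 2), (0, 1, 16)] :=
  sound_node (j := 3) (by decide) r9_leaf4 r9_leaf5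

theorem r9_node4 :
    Sound r9R [(0, 1, 2), (0, 1, 1), (0, 1, 1), (1, 2, 2), (0, 1, 16)] :=
  sound_node (j := 2) (by decide) r9_node3 r9_leaf7

theorem r9_node5 :
    Sound r9R [(1, 2, 2), (0, 1, 1), (0, 1, 1), (1, 2, 2), (0, 1, 16)] :=
  sound_node (j := 2) (by decide) r9_leaf6 r9_leaf8

theorem r9_node6 :
    Sound r9R [(0, 1, 1), (0, 1, 1), (0, 1, 1), (1, 2, 2), (0, 1, 16)] :=
  sound_node (j := 0) (by decide) r9_node4 r9_node5

theorem r9_node7 :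
    Sound r9R [(0, 1, 1), (0, 1, 1), (0, 1, 1), (1, 2, 2), (0, 1, 8)] :=
  sound_node (j := 4) (by decide) r9_node6 r9_leaf9

theorem r9_node8 :
    Sound r9R [(0, 1, 1), (0, 1, 1), (0, 1, 1), (0, 1, 1), (0, 1, 8)] :=
  sound_node (j := 3) (by decide) r9_node2 r9_node7

theorem r9_node9 :
    Sound r9R [(0, 1, 1), (0, 1, 1), (0, 1, 1), (0, 1, 1), (0, 1, 4)] :=
  sound_node (j := 4) (by decide) r9_node8 r9_leaf10

theorem r9_node10 :
    Sound r9R [(0, 1, 1), (0, 1, 1), (0, 1, 1), (0, 1, 1), (0, 1, 2)] :=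
  sound_node (j := 4) (by decide) r9_node9 r9_leaf11

theorem r9_node11 :
    Sound r9R [(0, 1, 1), (0, 1, 1), (0, 1, 1), (0, 1, 1), (0, 1, 1)] :=
  sound_node (j := 4) (by decide) r9_node10 r9_leaf12

theorem r9_sound :
    Sound r9R [(0, 1, 1), (0, 1, 1), (0, 1, 1), (0, 1, 1), (0, 1, 1)] :=
  r9_node11

end Vale.Agent.P100.Calib.LowEnd
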