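import Vale.Agent.P100.Calib.SlabLowEndR9Data

/-!
# The slots of root 9 are within their tolerances
-/

set_option maxRecDepth 100000
-- the heavy checks are definitions, so that they are checked one after another
set_option linter.defProp false

namespace Vale.Agent.P100.Calib.LowEnd

open Pack Band

def r9_slot0 : checkSlot r9B r9P.sig 56 r9D0 r9T0 = true := by decide +kernel

def r9_slot1 : checkSlot r9B r9P.sig 56 r9D1 r9T1 = true := by decide +kernel

def r9_slot2 : checkSlot r9B r9P.sig 48 r9D2 r9T2 = true := by decide +kernel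

def r9_slot3 : checkSlot r9B r9P.sig 56 r9D3 r9T3 = true := by decide +kernel

def r9_slot4 : checkSlot r9B r9P.sig 56 r9D4 r9T4 = true := by decide +kernel

def r9_slot5 : checkSlot r9B r9P.sig 56 r9D5 r9T5 = true := by decide +kernel

def r9_slot6 : checkSlot r9B r9P.sig 56 r9D6 r9T6 = true := by decide +kernel

def r9_slot7 : checkSlot r9B r9P.sig 56 r9D7 r9T7 = true := by decide +kernel

def r9_slot8 : checkSlot r9B r9P.sig 56 r9D8 r9T8 = true := by decide +kernel

def r9_slot9 : checkSlot r9B r9P.sig 56 r9D9 r9T9 = true := by decide +kernel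

def r9_slot10 : checkSlot r9B r9P.sig 56 r9D10 r9T10 = true := by decide +kernel

def r9_slot11 : checkSlot r9B r9P.sig 56 r9D11 r9T11 = true := by decide +kernel

def r9_slot12 : checkSlot r9B r9P.sig 56 r9D12 r9T12 = true := by decide +kernel

theorem r9_near {x y : ℕ → ℝ} (hx : InBox r9B x) (hc : Coord r9P.sig x y) :
    Near r9R y (valueAt r9L x) :=
  near_root rfl (fun q hq => by
    simp only [r9L, List.length_cons, List.length_nil] at hq
    interval_cases q
    · exact ⟨_, r9_slot0⟩
    · exact ⟨_, r9_slot1⟩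
    · exact ⟨_, r9_slot2⟩
    · exact ⟨_, r9_slot3⟩
    · exact ⟨_, r9_slot4⟩
    · exact ⟨_, r9_slot5⟩
    · exact ⟨_, r9_slot6⟩
    · exact ⟨_, r9_slot7⟩
    · exact ⟨_, r9_slot8⟩
    · exact ⟨_, r9_slot9⟩
    · exact ⟨_, r9_slot10⟩
    · exact ⟨_, r9_slot11⟩
    · exact ⟨_, r9_slot12⟩
  ) hx hc

end Vale.Agent.P100.Calib.LowEnd
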