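import Vale.Agent.P100.Calib.SlabLowEndPlace
import Vale.Agent.P100.Calib.SlabLowEndR0Near
import Vale.Agent.P100.Calib.SlabLowEndR0Cover
import Vale.Agent.P100.Calib.SlabLowEndR1Near
import Vale.Agent.P100.Calib.SlabLowEndR1Cover
import Vale.Agent.P100.Calib.SlabLowEndR2Near
import Vale.Agent.P100.Calib.SlabLowEndR2Cover
import Vale.Agent.P100.Calib.SlabLowEndR3Near
import Vale.Agent.P100.Calib.SlabLowEndR3Cover
import Vale.Agent.P100.Calib.SlabLowEndR4Near
import Vale.Agent.P100.Calib.SlabLowEndR4Cover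
import Vale.Agent.P100.Calib.SlabLowEndR5Near
import Vale.Agent.P100.Calib.SlabLowEndR5Cover
import Vale.Agent.P100.Calib.SlabLowEndR6Near
import Vale.Agent.P100.Calib.SlabLowEndR6Cover
import Vale.Agent.P100.Calib.SlabLowEndR7Near
import Vale.Agent.P100.Calib.SlabLowEndR7Cover
import Vale.Agent.P100.Calib.SlabLowEndR8Near
import Vale.Agent.P100.Calib.SlabLowEndR8Cover
import Vale.Agent.P100.Calib.SlabLowEndR9Near
import Vale.Agent.P100.Calib.SlabLowEndR9Cover
import Vale.Agent.P100.Calib.SlabLowEndR10Near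
import Vale.Agent.P100.Calib.SlabLowEndR10Cover
import Vale.Agent.P100.Calib.SlabLowEndR11Near
import Vale.Agent.P100.Calib.SlabLowEndR11Cover
import Vale.Agent.P100.Calib.SlabLowEndR12Near
import Vale.Agent.P100.Calib.SlabLowEndR12Cover
import Vale.Agent.P100.Calib.SlabLowEndR13Near
import Vale.Agent.P100.Calib.SlabLowEndR13Cover
import Vale.Agent.P100.Calib.SlabLowEndR14Near
import Vale.Agent.P100.Calib.SlabLowEndR14Cover
import Vale.Agent.P100.Calib.SlabLowEndR15Near
import Vale.Agent.P100.Calib.SlabLowEndR15Cover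
import Vale.Agent.P100.Calib.SlabLowEndR16Near
import Vale.Agent.P100.Calib.SlabLowEndR16Cover
import Vale.Agent.P100.Calib.SlabLowEndR17Near
import Vale.Agent.P100.Calib.SlabLowEndR17Cover
import Vale.Agent.P100.Calib.SlabLowEndR18Near
import Vale.Agent.P100.Calib.SlabLowEndR18Cover
import Vale.Agent.P100.Calib.SlabLowEndR19Near
import Vale.Agent.P100.Calib.SlabLowEndR19Cover
import Vale.Agent.P100.Calib.SlabLowEndR20Near
import Vale.Agent.P100.Calib.SlabLowEndR20Cover

/-!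
# The signs at the places of the roots
-/

set_option maxRecDepth 100000

namespace Vale.Agent.P100.Calib.LowEnd

open Pack Band EndAll

/-- What is used at a place of a root. -/
structure RootFacts (L U : MidBand) (x : ℕ → ℝ) : Prop where
  pt : Pt x
  tau : 0 < eTau.eval x
  eta : x 4 < 1
  up : 0 ≤ (eUp U).eval x
  low : 0 ≤ (eLow L).eval x
  flow : 0 ≤ eFlow.eval x
  ev : 0 ≤ eEv.eval x
  haX : x 0 * x 3 < vD (x 0) (x 1)
  k : 0 ≤ vK (x 0) (x 1)

/-- The signs at a point. -/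
def PointSigns (x : ℕ → ℝ) : Prop :=
  ClosedGen.SignsMult (x 0) (vD (x 0) (x 1)) (vV (x 0) (x 1) (x 3))
    (vG (x 0) (x 1) (x 2) (x 3) (x 4)) (vW (x 0) (x 1) (x 4))
    (vW1 (x 0) (x 1) (x 2) (x 3) (x 4)) (vR (x 1) (x 2))
    (vNum (max 0 (vK (x 0) (x 1))) (x 0) (x 1) (x 2) (x 3) (x 4))

theorem r0_dom : r0P.checkDomain midUpA midLowA 1 0 344
    [1, 2, 1, 0, 0] [5, 7, 5, 2, 0] [3, 4, 3, 2, 0] [3, 4, 3, 2, 0] = true := by decide +kernel

/-- The signs in root 0. -/
theorem r0_signs {x : ℕ → ℝ} (hr : r0P.Range x)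
    (h : RootFacts midLowA midUpA x) (hX1 : 0 ≤ eX1.eval x) (hT : 0 ≤ eT.eval x) : PointSigns x := by
  have hx := nonneg_coord h.pt
  refine signs_of_root (P := r0P) (by decide +kernel : Par.boxCovers r0P r0B = true)
    r0_near (by rfl) ⟨[r0D10, r0D11, r0D12],
      ![r0D0, r0D1, r0D2, r0D3, r0D4, r0D5, r0D6, r0D7, r0D8, r0D9],
      rfl, rfl, rfl, rfl, rfl, rfl, rfl, rfl, rfl, rfl, rfl, rfl, rfl, rfl, rfl, rfl, rfl, rfl,
      rfl, rfl, rfl⟩ r0_sound r0_dom h.pt hr h.tau h.eta h.up h.low h.flow h.haX h.k ?_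
  intro D hD
  simp only [r0L, List.drop_succ_cons, List.drop_zero, List.mem_cons, List.not_mem_nil, or_false] at hD
  rcases hD with rfl | rfl | rfl
  · show 0 ≤ Dense.val x qTau
    rw [val_Tau hx]
    exact h.tau.le
  · show 0 ≤ Dense.val x qX1
    rw [val_X1 hx]
    exact hX1
  · show 0 ≤ Dense.val x qRung
    rw [val_Rung hx]
    exact hT

theorem r1_dom : r1P.checkDomain midUpA midLowA 1 0 344
    [1, 2, 1, 0, 0] [5, 7, 5, 2, 0] [3, 4, 3, 2, 0] [3, 4, 3, 2, 0] = true := by decide +kernel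

/-- The signs in root 1. -/
theorem r1_signs {x : ℕ → ℝ} (hr : r1P.Range x)
    (h : RootFacts midLowA midUpA x) (hT : 0 ≤ eT.eval x) : PointSigns x := by
  have hx := nonneg_coord h.pt
  refine signs_of_root (P := r1P) (by decide +kernel : Par.boxCovers r1P r1B = true)
    r1_near (by rfl) ⟨[r1D10, r1D11, r1D12],
      ![r1D0, r1D1, r1D2, r1D3, r1D4, r1D5, r1D6, r1D7, r1D8, r1D9],
      rfl, rfl, rfl, rfl, rfl, rfl, rfl, rfl, rfl, rfl, rfl, rfl, rfl, rfl, rfl, rfl, rfl, rfl,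
      rfl, rfl, rfl⟩ r1_sound r1_dom h.pt hr h.tau h.eta h.up h.low h.flow h.haX h.k ?_
  intro D hD
  simp only [r1L, List.drop_succ_cons, List.drop_zero, List.mem_cons, List.not_mem_nil, or_false] at hD
  rcases hD with rfl | rfl | rfl
  · show 0 ≤ Dense.val x qTau
    rw [val_Tau hx]
    exact h.tau.le
  · show 0 ≤ Dense.val x qFlow
    rw [val_Flow hx]
    exact h.flow
  · show 0 ≤ Dense.val x qRung
    rw [val_Rung hx]
    exact hT

theorem r2_dom : r2P.checkDomain midUpA midLowA 1 0 344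
    [1, 2, 1, 0, 0] [5, 6, 5, 2, 0] [3, 4, 3, 2, 0] [3, 4, 3, 2, 0] = true := by decide +kernel

/-- The signs in root 2. -/
theorem r2_signs {x : ℕ → ℝ} (hr : r2P.Range x)
    (h : RootFacts midLowA midUpA x) (hT : 0 ≤ eT.eval x) : PointSigns x := by
  have hx := nonneg_coord h.pt
  refine signs_of_root (P := r2P) (by decide +kernel : Par.boxCovers r2P r2B = true)
    r2_near (by rfl) ⟨[r2D10, r2D11, r2D12],
      ![r2D0, r2D1, r2D2, r2D3, r2D4, r2D5, r2D6, r2D7, r2D8, r2D9],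
      rfl, rfl, rfl, rfl, rfl, rfl, rfl, rfl, rfl, rfl, rfl, rfl, rfl, rfl, rfl, rfl, rfl, rfl,
      rfl, rfl, rfl⟩ r2_sound r2_dom h.pt hr h.tau h.eta h.up h.low h.flow h.haX h.k ?_
  intro D hD
  simp only [r2L, List.drop_succ_cons, List.drop_zero, List.mem_cons, List.not_mem_nil, or_false] at hD
  rcases hD with rfl | rfl | rfl
  · show 0 ≤ Dense.val x qTau
    rw [val_Tau hx]
    exact h.tau.le
  · show 0 ≤ Dense.val x qFlow
    rw [val_Flow hx]
    exact h.flow
  · show 0 ≤ Dense.val x qRung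
    rw [val_Rung hx]
    exact hT

theorem r3_dom : r3P.checkDomain midUpA midLowA 1 0 344
    [1, 2, 1, 0, 0] [5, 6, 5, 2, 0] [3, 4, 3, 2, 0] [3, 4, 3, 2, 0] = true := by decide +kernel

/-- The signs in root 3. -/
theorem r3_signs {x : ℕ → ℝ} (hr : r3P.Range x)
    (h : RootFacts midLowA midUpA x) (hX1 : 0 ≤ eX1.eval x) (hT : 0 ≤ eT.eval x) : PointSigns x := by
  have hx := nonneg_coord h.pt
  refine signs_of_root (P := r3P) (by decide +kernel : Par.boxCovers r3P r3B = true)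
    r3_near (by rfl) ⟨[r3D10, r3D11, r3D12, r3D13],
      ![r3D0, r3D1, r3D2, r3D3, r3D4, r3D5, r3D6, r3D7, r3D8, r3D9],
      rfl, rfl, rfl, rfl, rfl, rfl, rfl, rfl, rfl, rfl, rfl, rfl, rfl, rfl, rfl, rfl, rfl, rfl,
      rfl, rfl, rfl⟩ r3_sound r3_dom h.pt hr h.tau h.eta h.up h.low h.flow h.haX h.k ?_
  intro D hD
  simp only [r3L, List.drop_succ_cons, List.drop_zero, List.mem_cons, List.not_mem_nil, or_false] at hD
  rcases hD with rfl | rfl | rfl | rfl
  · show 0 ≤ Dense.val x qTau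
    rw [val_Tau hx]
    exact h.tau.le
  · show 0 ≤ Dense.val x qFlow
    rw [val_Flow hx]
    exact h.flow
  · show 0 ≤ Dense.val x qX1
    rw [val_X1 hx]
    exact hX1
  · show 0 ≤ Dense.val x qRung
    rw [val_Rung hx]
    exact hT

theorem r4_dom : r4P.checkDomain midUpA midLowA 1 0 344
    [1, 2, 1, 0, 0] [5, 6, 5, 2, 0] [3, 4, 3, 2, 0] [3, 4, 3, 2, 0] = true := by decide +kernel

/-- The signs in root 4. -/
theorem r4_signs {x : ℕ → ℝ} (hr : r4P.Range x)
    (h : RootFacts midLowA midUpA x) (hT : 0 ≤ eT.eval x) : PointSigns x := by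
  have hx := nonneg_coord h.pt
  refine signs_of_root (P := r4P) (by decide +kernel : Par.boxCovers r4P r4B = true)
    r4_near (by rfl) ⟨[r4D10, r4D11, r4D12],
      ![r4D0, r4D1, r4D2, r4D3, r4D4, r4D5, r4D6, r4D7, r4D8, r4D9],
      rfl, rfl, rfl, rfl, rfl, rfl, rfl, rfl, rfl, rfl, rfl, rfl, rfl, rfl, rfl, rfl, rfl, rfl,
      rfl, rfl, rfl⟩ r4_sound r4_dom h.pt hr h.tau h.eta h.up h.low h.flow h.haX h.k ?_
  intro D hD
  simp only [r4L, List.drop_succ_cons, List.drop_zero, List.mem_cons, List.not_mem_nil, or_false] at hD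
  rcases hD with rfl | rfl | rfl
  · show 0 ≤ Dense.val x qTau
    rw [val_Tau hx]
    exact h.tau.le
  · show 0 ≤ Dense.val x qFlow
    rw [val_Flow hx]
    exact h.flow
  · show 0 ≤ Dense.val x qRung
    rw [val_Rung hx]
    exact hT

theorem r5_dom : r5P.checkDomain midUpA midLowA 1 0 344
    [1, 2, 1, 0, 0] [5, 6, 5, 2, 0] [3, 4, 3, 2, 0] [3, 4, 3, 2, 0] = true := by decide +kernel

/-- The signs in root 5. -/
theorem r5_signs {x : ℕ → ℝ} (hr : r5P.Range x)
    (h : RootFacts midLowA midUpA x) : PointSigns x := by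
  have hx := nonneg_coord h.pt
  refine signs_of_root (P := r5P) (by decide +kernel : Par.boxCovers r5P r5B = true)
    r5_near (by rfl) ⟨[r5D10, r5D11, r5D12, r5D13],
      ![r5D0, r5D1, r5D2, r5D3, r5D4, r5D5, r5D6, r5D7, r5D8, r5D9],
      rfl, rfl, rfl, rfl, rfl, rfl, rfl, rfl, rfl, rfl, rfl, rfl, rfl, rfl, rfl, rfl, rfl, rfl,
      rfl, rfl, rfl⟩ r5_sound r5_dom h.pt hr h.tau h.eta h.up h.low h.flow h.haX h.k ?_
  intro D hD
  simp only [r5L, List.drop_succ_cons, List.drop_zero, List.mem_cons, List.not_mem_nil, or_false] at hD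
  rcases hD with rfl | rfl | rfl | rfl
  · show 0 ≤ Dense.val x qTau
    rw [val_Tau hx]
    exact h.tau.le
  · show 0 ≤ Dense.val x qUpA
    rw [val_UpA hx]
    exact h.up
  · show 0 ≤ Dense.val x qEv
    rw [val_Ev hx]
    exact h.ev
  · show 0 ≤ Dense.val x qFlow
    rw [val_Flow hx]
    exact h.flow

theorem r6_dom : r6P.checkDomain midUpA midLowA 1 0 344
    [1, 2, 1, 0, 0] [5, 7, 5, 2, 0] [3, 4, 3, 2, 0] [3, 4, 3, 2, 0] = true := by decide +kernel

/-- The signs in root 6. -/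
theorem r6_signs {x : ℕ → ℝ} (hr : r6P.Range x)
    (h : RootFacts midLowA midUpA x) (hX1 : 0 ≤ eX1.eval x) (hT : 0 ≤ eT.eval x) : PointSigns x := by
  have hx := nonneg_coord h.pt
  refine signs_of_root (P := r6P) (by decide +kernel : Par.boxCovers r6P r6B = true)
    r6_near (by rfl) ⟨[r6D10, r6D11, r6D12, r6D13],
      ![r6D0, r6D1, r6D2, r6D3, r6D4, r6D5, r6D6, r6D7, r6D8, r6D9],
      rfl, rfl, rfl, rfl, rfl, rfl, rfl, rfl, rfl, rfl, rfl, rfl, rfl, rfl, rfl, rfl, rfl, rfl,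
      rfl, rfl, rfl⟩ r6_sound r6_dom h.pt hr h.tau h.eta h.up h.low h.flow h.haX h.k ?_
  intro D hD
  simp only [r6L, List.drop_succ_cons, List.drop_zero, List.mem_cons, List.not_mem_nil, or_false] at hD
  rcases hD with rfl | rfl | rfl | rfl
  · show 0 ≤ Dense.val x qTau
    rw [val_Tau hx]
    exact h.tau.le
  · show 0 ≤ Dense.val x qFlow
    rw [val_Flow hx]
    exact h.flow
  · show 0 ≤ Dense.val x qX1
    rw [val_X1 hx]
    exact hX1
  · show 0 ≤ Dense.val x qRung
    rw [val_Rung hx]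
    exact hT

theorem r7_dom : r7P.checkDomain midUpA midLowA 1 0 344
    [1, 2, 1, 0, 0] [5, 6, 5, 2, 0] [3, 4, 3, 2, 0] [3, 4, 3, 2, 0] = true := by decide +kernel

/-- The signs in root 7. -/
theorem r7_signs {x : ℕ → ℝ} (hr : r7P.Range x)
    (h : RootFacts midLowA midUpA x) (hT : 0 ≤ eT.eval x) : PointSigns x := by
  have hx := nonneg_coord h.pt
  refine signs_of_root (P := r7P) (by decide +kernel : Par.boxCovers r7P r7B = true)
    r7_near (by rfl) ⟨[r7D10, r7D11, r7D12],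
      ![r7D0, r7D1, r7D2, r7D3, r7D4, r7D5, r7D6, r7D7, r7D8, r7D9],
      rfl, rfl, rfl, rfl, rfl, rfl, rfl, rfl, rfl, rfl, rfl, rfl, rfl, rfl, rfl, rfl, rfl, rfl,
      rfl, rfl, rfl⟩ r7_sound r7_dom h.pt hr h.tau h.eta h.up h.low h.flow h.haX h.k ?_
  intro D hD
  simp only [r7L, List.drop_succ_cons, List.drop_zero, List.mem_cons, List.not_mem_nil, or_false] at hD
  rcases hD with rfl | rfl | rfl
  · show 0 ≤ Dense.val x qTau
    rw [val_Tau hx]
    exact h.tau.le
  · show 0 ≤ Dense.val x qFlow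
    rw [val_Flow hx]
    exact h.flow
  · show 0 ≤ Dense.val x qRung
    rw [val_Rung hx]
    exact hT

theorem r8_dom : r8P.checkDomain midUpA midLowA 1 0 344
    [1, 2, 1, 0, 0] [5, 6, 5, 2, 0] [3, 4, 3, 2, 0] [3, 4, 3, 2, 0] = true := by decide +kernel

/-- The signs in root 8. -/
theorem r8_signs {x : ℕ → ℝ} (hr : r8P.Range x)
    (h : RootFacts midLowA midUpA x) (hT : 0 ≤ eT.eval x) : PointSigns x := by
  have hx := nonneg_coord h.pt
  refine signs_of_root (P := r8P) (by decide +kernel : Par.boxCovers r8P r8B = true)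
    r8_near (by rfl) ⟨[r8D10, r8D11, r8D12],
      ![r8D0, r8D1, r8D2, r8D3, r8D4, r8D5, r8D6, r8D7, r8D8, r8D9],
      rfl, rfl, rfl, rfl, rfl, rfl, rfl, rfl, rfl, rfl, rfl, rfl, rfl, rfl, rfl, rfl, rfl, rfl,
      rfl, rfl, rfl⟩ r8_sound r8_dom h.pt hr h.tau h.eta h.up h.low h.flow h.haX h.k ?_
  intro D hD
  simp only [r8L, List.drop_succ_cons, List.drop_zero, List.mem_cons, List.not_mem_nil, or_false] at hD
  rcases hD with rfl | rfl | rfl
  · show 0 ≤ Dense.val x qTau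
    rw [val_Tau hx]
    exact h.tau.le
  · show 0 ≤ Dense.val x qFlow
    rw [val_Flow hx]
    exact h.flow
  · show 0 ≤ Dense.val x qRung
    rw [val_Rung hx]
    exact hT

theorem r9_dom : r9P.checkDomain midUpA midLowA 1 0 344
    [1, 2, 1, 0, 0] [5, 6, 5, 2, 0] [3, 4, 3, 2, 0] [3, 4, 3, 2, 0] = true := by decide +kernel

/-- The signs in root 9. -/
theorem r9_signs {x : ℕ → ℝ} (hr : r9P.Range x)
    (h : RootFacts midLowA midUpA x) : PointSigns x := by
  have hx := nonneg_coord h.pt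
  refine signs_of_root (P := r9P) (by decide +kernel : Par.boxCovers r9P r9B = true)
    r9_near (by rfl) ⟨[r9D10, r9D11, r9D12],
      ![r9D0, r9D1, r9D2, r9D3, r9D4, r9D5, r9D6, r9D7, r9D8, r9D9],
      rfl, rfl, rfl, rfl, rfl, rfl, rfl, rfl, rfl, rfl, rfl, rfl, rfl, rfl, rfl, rfl, rfl, rfl,
      rfl, rfl, rfl⟩ r9_sound r9_dom h.pt hr h.tau h.eta h.up h.low h.flow h.haX h.k ?_
  intro D hD
  simp only [r9L, List.drop_succ_cons, List.drop_zero, List.mem_cons, List.not_mem_nil, or_false] at hD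
  rcases hD with rfl | rfl | rfl
  · show 0 ≤ Dense.val x qTau
    rw [val_Tau hx]
    exact h.tau.le
  · show 0 ≤ Dense.val x qUpA
    rw [val_UpA hx]
    exact h.up
  · show 0 ≤ Dense.val x qEv
    rw [val_Ev hx]
    exact h.ev

theorem r10_dom : r10P.checkDomain midUpA midLowA 1 0 344
    [1, 2, 1, 0, 0] [5, 7, 5, 2, 0] [3, 4, 3, 2, 0] [3, 4, 3, 2, 0] = true := by decide +kernel

/-- The signs in root 10. -/
theorem r10_signs {x : ℕ → ℝ} (hr : r10P.Range x)
    (h : RootFacts midLowA midUpA x) : PointSigns x := by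
  have hx := nonneg_coord h.pt
  refine signs_of_root (P := r10P) (by decide +kernel : Par.boxCovers r10P r10B = true)
    r10_near (by rfl) ⟨[r10D10, r10D11, r10D12],
      ![r10D0, r10D1, r10D2, r10D3, r10D4, r10D5, r10D6, r10D7, r10D8, r10D9],
      rfl, rfl, rfl, rfl, rfl, rfl, rfl, rfl, rfl, rfl, rfl, rfl, rfl, rfl, rfl, rfl, rfl, rfl,
      rfl, rfl, rfl⟩ r10_sound r10_dom h.pt hr h.tau h.eta h.up h.low h.flow h.haX h.k ?_
  intro D hD
  simp only [r10L, List.drop_succ_cons, List.drop_zero, List.mem_cons, List.not_mem_nil, or_false] at hD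
  rcases hD with rfl | rfl | rfl
  · show 0 ≤ Dense.val x qTau
    rw [val_Tau hx]
    exact h.tau.le
  · show 0 ≤ Dense.val x qUpA
    rw [val_UpA hx]
    exact h.up
  · show 0 ≤ Dense.val x qFlow
    rw [val_Flow hx]
    exact h.flow

theorem r11_dom : r11P.checkDomain midUpA midLowA 1 0 344
    [1, 2, 1, 0, 0] [5, 6, 5, 2, 0] [3, 4, 3, 2, 0] [3, 4, 3, 2, 0] = true := by decide +kernel

/-- The signs in root 11. -/
theorem r11_signs {x : ℕ → ℝ} (hr : r11P.Range x)
    (h : RootFacts midLowA midUpA x) : PointSigns x := by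
  have hx := nonneg_coord h.pt
  refine signs_of_root (P := r11P) (by decide +kernel : Par.boxCovers r11P r11B = true)
    r11_near (by rfl) ⟨[r11D10, r11D11],
      ![r11D0, r11D1, r11D2, r11D3, r11D4, r11D5, r11D6, r11D7, r11D8, r11D9],
      rfl, rfl, rfl, rfl, rfl, rfl, rfl, rfl, rfl, rfl, rfl, rfl, rfl, rfl, rfl, rfl, rfl, rfl,
      rfl, rfl, rfl⟩ r11_sound r11_dom h.pt hr h.tau h.eta h.up h.low h.flow h.haX h.k ?_
  intro D hD
  simp only [r11L, List.drop_succ_cons, List.drop_zero, List.mem_cons, List.not_mem_nil, or_false] at hD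
  rcases hD with rfl | rfl
  · show 0 ≤ Dense.val x qTau
    rw [val_Tau hx]
    exact h.tau.le
  · show 0 ≤ Dense.val x qUpA
    rw [val_UpA hx]
    exact h.up

theorem r12_dom : r12P.checkDomain midUpB midLowB 1 0 344
    [1, 2, 1, 0, 0] [5, 7, 5, 2, 0] [3, 4, 3, 2, 0] [3, 4, 3, 2, 0] = true := by decide +kernel

/-- The signs in root 12. -/
theorem r12_signs {x : ℕ → ℝ} (hr : r12P.Range x)
    (h : RootFacts midLowB midUpB x) : PointSigns x := by
  have hx := nonneg_coord h.pt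
  refine signs_of_root (P := r12P) (by decide +kernel : Par.boxCovers r12P r12B = true)
    r12_near (by rfl) ⟨[r12D10, r12D11, r12D12],
      ![r12D0, r12D1, r12D2, r12D3, r12D4, r12D5, r12D6, r12D7, r12D8, r12D9],
      rfl, rfl, rfl, rfl, rfl, rfl, rfl, rfl, rfl, rfl, rfl, rfl, rfl, rfl, rfl, rfl, rfl, rfl,
      rfl, rfl, rfl⟩ r12_sound r12_dom h.pt hr h.tau h.eta h.up h.low h.flow h.haX h.k ?_
  intro D hD
  simp only [r12L, List.drop_succ_cons, List.drop_zero, List.mem_cons, List.not_mem_nil, or_false] at hD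
  rcases hD with rfl | rfl | rfl
  · show 0 ≤ Dense.val x qTau
    rw [val_Tau hx]
    exact h.tau.le
  · show 0 ≤ Dense.val x qUpB
    rw [val_UpB hx]
    exact h.up
  · show 0 ≤ Dense.val x qFlow
    rw [val_Flow hx]
    exact h.flow

theorem r13_dom : r13P.checkDomain midUpB midLowB 19 1 344
    [1, 2, 1, 0, 0] [5, 6, 5, 2, 0] [3, 4, 3, 2, 0] [3, 4, 3, 2, 0] = true := by decide +kernel

/-- The signs in root 13. -/
theorem r13_signs {x : ℕ → ℝ} (hr : r13P.Range x)
    (h : RootFacts midLowB midUpB x) : PointSigns x := by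
  have hx := nonneg_coord h.pt
  refine signs_of_root (P := r13P) (by decide +kernel : Par.boxCovers r13P r13B = true)
    r13_near (by rfl) ⟨[r13D10, r13D11, r13D12],
      ![r13D0, r13D1, r13D2, r13D3, r13D4, r13D5, r13D6, r13D7, r13D8, r13D9],
      rfl, rfl, rfl, rfl, rfl, rfl, rfl, rfl, rfl, rfl, rfl, rfl, rfl, rfl, rfl, rfl, rfl, rfl,
      rfl, rfl, rfl⟩ r13_sound r13_dom h.pt hr h.tau h.eta h.up h.low h.flow h.haX h.k ?_
  intro D hD
  simp only [r13L, List.drop_succ_cons, List.drop_zero, List.mem_cons, List.not_mem_nil, or_false] at hD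
  rcases hD with rfl | rfl | rfl
  · show 0 ≤ Dense.val x qTau
    rw [val_Tau hx]
    exact h.tau.le
  · show 0 ≤ Dense.val x qUpB
    rw [val_UpB hx]
    exact h.up
  · show 0 ≤ Dense.val x qFlow
    rw [val_Flow hx]
    exact h.flow

theorem r14_dom : r14P.checkDomain midUpC midLowC 1 0 344
    [1, 2, 1, 0, 0] [5, 7, 5, 2, 0] [3, 4, 3, 2, 0] [3, 4, 3, 2, 0] = true := by decide +kernel

/-- The signs in root 14. -/
theorem r14_signs {x : ℕ → ℝ} (hr : r14P.Range x)
    (h : RootFacts midLowC midUpC x) : PointSigns x := by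
  have hx := nonneg_coord h.pt
  refine signs_of_root (P := r14P) (by decide +kernel : Par.boxCovers r14P r14B = true)
    r14_near (by rfl) ⟨[r14D10, r14D11],
      ![r14D0, r14D1, r14D2, r14D3, r14D4, r14D5, r14D6, r14D7, r14D8, r14D9],
      rfl, rfl, rfl, rfl, rfl, rfl, rfl, rfl, rfl, rfl, rfl, rfl, rfl, rfl, rfl, rfl, rfl, rfl,
      rfl, rfl, rfl⟩ r14_sound r14_dom h.pt hr h.tau h.eta h.up h.low h.flow h.haX h.k ?_
  intro D hD
  simp only [r14L, List.drop_succ_cons, List.drop_zero, List.mem_cons, List.not_mem_nil, or_false] at hD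
  rcases hD with rfl | rfl
  · show 0 ≤ Dense.val x qTau
    rw [val_Tau hx]
    exact h.tau.le
  · show 0 ≤ Dense.val x qFlow
    rw [val_Flow hx]
    exact h.flow

theorem r15_dom : r15P.checkDomain midUpC midLowC 7 3 344
    [1, 2, 1, 0, 0] [5, 6, 5, 2, 0] [3, 4, 3, 2, 0] [3, 4, 3, 2, 0] = true := by decide +kernel

/-- The signs in root 15. -/
theorem r15_signs {x : ℕ → ℝ} (hr : r15P.Range x)
    (h : RootFacts midLowC midUpC x) : PointSigns x := by
  have hx := nonneg_coord h.pt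
  refine signs_of_root (P := r15P) (by decide +kernel : Par.boxCovers r15P r15B = true)
    r15_near (by rfl) ⟨[r15D10, r15D11, r15D12, r15D13],
      ![r15D0, r15D1, r15D2, r15D3, r15D4, r15D5, r15D6, r15D7, r15D8, r15D9],
      rfl, rfl, rfl, rfl, rfl, rfl, rfl, rfl, rfl, rfl, rfl, rfl, rfl, rfl, rfl, rfl, rfl, rfl,
      rfl, rfl, rfl⟩ r15_sound r15_dom h.pt hr h.tau h.eta h.up h.low h.flow h.haX h.k ?_
  intro D hD
  simp only [r15L, List.drop_succ_cons, List.drop_zero, List.mem_cons, List.not_mem_nil, or_false] at hD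
  rcases hD with rfl | rfl | rfl | rfl
  · show 0 ≤ Dense.val x qTau
    rw [val_Tau hx]
    exact h.tau.le
  · show 0 ≤ Dense.val x qEv
    rw [val_Ev hx]
    exact h.ev
  · show 0 ≤ Dense.val x qFlow
    rw [val_Flow hx]
    exact h.flow
  · show 0 ≤ Dense.val x qLowC
    rw [val_LowC hx]
    exact h.low

theorem r16_dom : r16P.checkDomain midUpC midLowC 1 0 344
    [1, 2, 1, 0, 0] [5, 7, 5, 2, 0] [3, 4, 3, 2, 0] [3, 4, 3, 2, 0] = true := by decide +kernel

/-- The signs in root 16. -/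
theorem r16_signs {x : ℕ → ℝ} (hr : r16P.Range x)
    (h : RootFacts midLowC midUpC x) : PointSigns x := by
  have hx := nonneg_coord h.pt
  refine signs_of_root (P := r16P) (by decide +kernel : Par.boxCovers r16P r16B = true)
    r16_near (by rfl) ⟨[r16D10],
      ![r16D0, r16D1, r16D2, r16D3, r16D4, r16D5, r16D6, r16D7, r16D8, r16D9],
      rfl, rfl, rfl, rfl, rfl, rfl, rfl, rfl, rfl, rfl, rfl, rfl, rfl, rfl, rfl, rfl, rfl, rfl,
      rfl, rfl, rfl⟩ r16_sound r16_dom h.pt hr h.tau h.eta h.up h.low h.flow h.haX h.k ?_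
  intro D hD
  simp only [r16L, List.drop_succ_cons, List.drop_zero, List.mem_cons, List.not_mem_nil, or_false] at hD
  subst hD
  · show 0 ≤ Dense.val x qTau
    rw [val_Tau hx]
    exact h.tau.le

theorem r17_dom : r17P.checkDomain midUpC midLowC 19 1 344
    [1, 2, 1, 0, 0] [5, 6, 5, 2, 0] [3, 4, 3, 2, 0] [3, 4, 3, 2, 0] = true := by decide +kernel

/-- The signs in root 17. -/
theorem r17_signs {x : ℕ → ℝ} (hr : r17P.Range x)
    (h : RootFacts midLowC midUpC x) : PointSigns x := by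
  have hx := nonneg_coord h.pt
  refine signs_of_root (P := r17P) (by decide +kernel : Par.boxCovers r17P r17B = true)
    r17_near (by rfl) ⟨[r17D10, r17D11],
      ![r17D0, r17D1, r17D2, r17D3, r17D4, r17D5, r17D6, r17D7, r17D8, r17D9],
      rfl, rfl, rfl, rfl, rfl, rfl, rfl, rfl, rfl, rfl, rfl, rfl, rfl, rfl, rfl, rfl, rfl, rfl,
      rfl, rfl, rfl⟩ r17_sound r17_dom h.pt hr h.tau h.eta h.up h.low h.flow h.haX h.k ?_
  intro D hD
  simp only [r17L, List.drop_succ_cons, List.drop_zero, List.mem_cons, List.not_mem_nil, or_false] at hD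
  rcases hD with rfl | rfl
  · show 0 ≤ Dense.val x qTau
    rw [val_Tau hx]
    exact h.tau.le
  · show 0 ≤ Dense.val x qLowC
    rw [val_LowC hx]
    exact h.low

theorem r18_dom : r18P.checkDomain midUpC midLowC 13 7 344
    [1, 2, 1, 0, 0] [5, 6, 5, 2, 0] [3, 4, 3, 2, 0] [3, 4, 3, 2, 0] = true := by decide +kernel

/-- The signs in root 18. -/
theorem r18_signs {x : ℕ → ℝ} (hr : r18P.Range x)
    (h : RootFacts midLowC midUpC x) : PointSigns x := by
  have hx := nonneg_coord h.pt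
  refine signs_of_root (P := r18P) (by decide +kernel : Par.boxCovers r18P r18B = true)
    r18_near (by rfl) ⟨[r18D10, r18D11, r18D12],
      ![r18D0, r18D1, r18D2, r18D3, r18D4, r18D5, r18D6, r18D7, r18D8, r18D9],
      rfl, rfl, rfl, rfl, rfl, rfl, rfl, rfl, rfl, rfl, rfl, rfl, rfl, rfl, rfl, rfl, rfl, rfl,
      rfl, rfl, rfl⟩ r18_sound r18_dom h.pt hr h.tau h.eta h.up h.low h.flow h.haX h.k ?_
  intro D hD
  simp only [r18L, List.drop_succ_cons, List.drop_zero, List.mem_cons, List.not_mem_nil, or_false] at hD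
  rcases hD with rfl | rfl | rfl
  · show 0 ≤ Dense.val x qTau
    rw [val_Tau hx]
    exact h.tau.le
  · show 0 ≤ Dense.val x qFlow
    rw [val_Flow hx]
    exact h.flow
  · show 0 ≤ Dense.val x qLowC
    rw [val_LowC hx]
    exact h.low

theorem r19_dom : r19P.checkDomain midUpA midLowA 1 0 344
    [1, 2, 1, 0, 0] [5, 6, 5, 2, 0] [3, 4, 3, 2, 0] [3, 4, 3, 2, 0] = true := by decide +kernel

/-- The signs in root 19. -/
theorem r19_signs {x : ℕ → ℝ} (hr : r19P.Range x)
    (h : RootFacts midLowA midUpA x) : PointSigns x := by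
  have hx := nonneg_coord h.pt
  refine signs_of_root (P := r19P) (by decide +kernel : Par.boxCovers r19P r19B = true)
    r19_near (by rfl) ⟨[r19D10, r19D11, r19D12],
      ![r19D0, r19D1, r19D2, r19D3, r19D4, r19D5, r19D6, r19D7, r19D8, r19D9],
      rfl, rfl, rfl, rfl, rfl, rfl, rfl, rfl, rfl, rfl, rfl, rfl, rfl, rfl, rfl, rfl, rfl, rfl,
      rfl, rfl, rfl⟩ r19_sound r19_dom h.pt hr h.tau h.eta h.up h.low h.flow h.haX h.k ?_
  intro D hD
  simp only [r19L, List.drop_succ_cons, List.drop_zero, List.mem_cons, List.not_mem_nil, or_false] at hD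
  rcases hD with rfl | rfl | rfl
  · show 0 ≤ Dense.val x qTau
    rw [val_Tau hx]
    exact h.tau.le
  · show 0 ≤ Dense.val x qUpA
    rw [val_UpA hx]
    exact h.up
  · show 0 ≤ Dense.val x qFlow
    rw [val_Flow hx]
    exact h.flow

theorem r20_dom : r20P.checkDomain midUpA midLowA 1 0 344
    [1, 2, 1, 0, 0] [5, 6, 5, 2, 0] [3, 4, 3, 2, 0] [3, 4, 3, 2, 0] = true := by decide +kernel

/-- The signs in root 20. -/
theorem r20_signs {x : ℕ → ℝ} (hr : r20P.Range x)
    (h : RootFacts midLowA midUpA x) : PointSigns x := by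
  have hx := nonneg_coord h.pt
  refine signs_of_root (P := r20P) (by decide +kernel : Par.boxCovers r20P r20B = true)
    r20_near (by rfl) ⟨[r20D10, r20D11, r20D12],
      ![r20D0, r20D1, r20D2, r20D3, r20D4, r20D5, r20D6, r20D7, r20D8, r20D9],
      rfl, rfl, rfl, rfl, rfl, rfl, rfl, rfl, rfl, rfl, rfl, rfl, rfl, rfl, rfl, rfl, rfl, rfl,
      rfl, rfl, rfl⟩ r20_sound r20_dom h.pt hr h.tau h.eta h.up h.low h.flow h.haX h.k ?_
  intro D hD
  simp only [r20L, List.drop_succ_cons, List.drop_zero, List.mem_cons, List.not_mem_nil, or_false] at hD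
  rcases hD with rfl | rfl | rfl
  · show 0 ≤ Dense.val x qTau
    rw [val_Tau hx]
    exact h.tau.le
  · show 0 ≤ Dense.val x qUpA
    rw [val_UpA hx]
    exact h.up
  · show 0 ≤ Dense.val x qFlow
    rw [val_Flow hx]
    exact h.flow

end Vale.Agent.P100.Calib.LowEnd
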