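import Vale.Agent.P100.Calib.SlabLowEndAtoms

/-!
# The rows and linear parts in polynomial coordinates

Each closed form as a fraction over the atoms, the excess of the exponent being a parameter; and a
fraction may be replaced by another one when one packed evaluation shows that they agree.
-/

set_option linter.unusedVariables false
set_option linter.unusedSectionVars false

namespace Vale.Agent.P100.Calib.LowEnd

open Pack EndAll

/-- The fraction of `gMS`. -/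
def fgMS (k : Fn) : Fn :=
  eG_gMS atoms fa fd fv fg fW fW1 fR fc fe2 fE fK fG fG1 (fD k)

/-- The fraction of `gES`. -/
def fgES (k : Fn) : Fn :=
  eG_gES atoms fa fd fv fg fW fW1 fR fc fe2 fE fK fG fG1 (fD k)

/-- The fraction of `gGS`. -/
def fgGS (k : Fn) : Fn :=
  eG_gGS atoms fa fd fv fg fW fW1 fR fc fe2 fE fK fG fG1 (fD k)

/-- The fraction of `hES`. -/
def fhES (k : Fn) : Fn :=
  eG_hES atoms fa fd fv fg fW fW1 fR fc fe2 fE fK fG fG1 (fD k)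

/-- The fraction of `hGS`. -/
def fhGS (k : Fn) : Fn :=
  eG_hGS atoms fa fd fv fg fW fW1 fR fc fe2 fE fK fG fG1 (fD k)

/-- The fraction of `LEGS`. -/
def fLEGS (k : Fn) : Fn :=
  eG_LEGS atoms fa fd fv fg fW fW1 fR fc fe2 fE fK fG fG1 (fD k)

/-- The fraction of `LGGS`. -/
def fLGGS (k : Fn) : Fn :=
  eG_LGGS atoms fa fd fv fg fW fW1 fR fc fe2 fE fK fG fG1 (fD k)

/-- The fraction of `LLGS`. -/
def fLLGS (k : Fn) : Fn :=
  eG_LLGS atoms fa fd fv fg fW fW1 fR fc fe2 fE fK fG fG1 (fD k)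

/-- The fraction of `TMMS`. -/
def fTMMS (k : Fn) : Fn :=
  eG_TMMS atoms fa fd fv fg fW fW1 fR fc fe2 fE fK fG fG1 (fD k)

/-- The fraction of `TMES`. -/
def fTMES (k : Fn) : Fn :=
  eG_TMES atoms fa fd fv fg fW fW1 fR fc fe2 fE fK fG fG1 (fD k)

/-- The fraction of `LEES`. -/
def fLEES (k : Fn) : Fn :=
  eG_LEESLin atoms fa fd fv fg fW fW1 fR fc fe2 fE fK fG fG1 (fD k) (Fn.mul fg fW)

/-- The fraction of `LMGS`. -/
def fLMGS (k : Fn) : Fn :=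
  eG_LMGSLin atoms fa fd fv fg fW fW1 fR fc fe2 fE fK fG fG1 (fD k) (Fn.mul fg fW)

variable {x : ℕ → ℝ} {k : Fn} {r : ℝ}

namespace Pt

variable (h : Pt x) (hk : Rep atoms x 0 k r)
include h hk

theorem rgMS : Rep atoms x 0 (fgMS k)
    (vForm ClosedGen.gMS r (x 0) (x 1) (x 2) (x 3) (x 4)) := by
  exact rG_gMS h.pos h.ra h.rd h.rv h.rg h.rW h.rW1 h.rR
    (tt := vNum r (x 0) (x 1) (x 2) (x 3) (x 4)) h.rc h.re2 h.rE h.rK h.rG h.rG1 (h.rD hk)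

theorem rgES : Rep atoms x 0 (fgES k)
    (vForm ClosedGen.gES r (x 0) (x 1) (x 2) (x 3) (x 4)) := by
  exact rG_gES h.pos h.ra h.rd h.rv h.rg h.rW h.rW1 h.rR
    (tt := vNum r (x 0) (x 1) (x 2) (x 3) (x 4)) h.rc h.re2 h.rE h.rK h.rG h.rG1 (h.rD hk)

theorem rgGS : Rep atoms x 0 (fgGS k)
    (vForm ClosedGen.gGS r (x 0) (x 1) (x 2) (x 3) (x 4)) := by
  exact rG_gGS h.pos h.ra h.rd h.rv h.rg h.rW h.rW1 h.rR
    (tt := vNum r (x 0) (x 1) (x 2) (x 3) (x 4)) h.rc h.re2 h.rE h.rK h.rG h.rG1 (h.rD hk)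

theorem rhES : Rep atoms x 0 (fhES k)
    (vForm ClosedGen.hES r (x 0) (x 1) (x 2) (x 3) (x 4)) := by
  exact rG_hES h.pos h.ra h.rd h.rv h.rg h.rW h.rW1 h.rR
    (tt := vNum r (x 0) (x 1) (x 2) (x 3) (x 4)) h.rc h.re2 h.rE h.rK h.rG h.rG1 (h.rD hk)

theorem rhGS : Rep atoms x 0 (fhGS k)
    (vForm ClosedGen.hGS r (x 0) (x 1) (x 2) (x 3) (x 4)) := by
  exact rG_hGS h.pos h.ra h.rd h.rv h.rg h.rW h.rW1 h.rR
    (tt := vNum r (x 0) (x 1) (x 2) (x 3) (x 4)) h.rc h.re2 h.rE h.rK h.rG h.rG1 (h.rD hk)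

theorem rLEGS : Rep atoms x 0 (fLEGS k)
    (vForm ClosedGen.LEGS r (x 0) (x 1) (x 2) (x 3) (x 4)) := by
  exact rG_LEGS h.pos h.ra h.rd h.rv h.rg h.rW h.rW1 h.rR
    (tt := vNum r (x 0) (x 1) (x 2) (x 3) (x 4)) h.rc h.re2 h.rE h.rK h.rG h.rG1 (h.rD hk)

theorem rLGGS : Rep atoms x 0 (fLGGS k)
    (vForm ClosedGen.LGGS r (x 0) (x 1) (x 2) (x 3) (x 4)) := by
  exact rG_LGGS h.pos h.ra h.rd h.rv h.rg h.rW h.rW1 h.rR
    (tt := vNum r (x 0) (x 1) (x 2) (x 3) (x 4)) h.rc h.re2 h.rE h.rK h.rG h.rG1 (h.rD hk)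

theorem rLLGS : Rep atoms x 0 (fLLGS k)
    (vForm ClosedGen.LLGS r (x 0) (x 1) (x 2) (x 3) (x 4)) := by
  exact rG_LLGS h.pos h.ra h.rd h.rv h.rg h.rW h.rW1 h.rR
    (tt := vNum r (x 0) (x 1) (x 2) (x 3) (x 4)) h.rc h.re2 h.rE h.rK h.rG h.rG1 (h.rD hk)

theorem rTMMS : Rep atoms x 0 (fTMMS k)
    (vForm ClosedGen.TMMS r (x 0) (x 1) (x 2) (x 3) (x 4)) := by
  exact rG_TMMS h.pos h.ra h.rd h.rv h.rg h.rW h.rW1 h.rR
    (tt := vNum r (x 0) (x 1) (x 2) (x 3) (x 4)) h.rc h.re2 h.rE h.rK h.rG h.rG1 (h.rD hk)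

theorem rTMES : Rep atoms x 0 (fTMES k)
    (vForm ClosedGen.TMES r (x 0) (x 1) (x 2) (x 3) (x 4)) := by
  exact rG_TMES h.pos h.ra h.rd h.rv h.rg h.rW h.rW1 h.rR
    (tt := vNum r (x 0) (x 1) (x 2) (x 3) (x 4)) h.rc h.re2 h.rE h.rK h.rG h.rG1 (h.rD hk)

theorem rLEES : Rep atoms x 0 (fLEES k)
    (vForm ClosedGen.LEES r (x 0) (x 1) (x 2) (x 3) (x 4)) := by
  refine (congrArg (Rep atoms x 0 _) ?_).mp (rG_LEESLin h.pos h.ra h.rd h.rv h.rg h.rW h.rW1 h.rR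
    (tt := vNum r (x 0) (x 1) (x 2) (x 3) (x 4)) h.rc h.re2 h.rE h.rK h.rG h.rG1 (h.rD hk)
    (h.rg.mul h.rW))
  simp only [vForm, EndAll.LEESLin, ClosedGen.LEES, LEEcLin, Closed.LEEc]
  ring

theorem rLMGS : Rep atoms x 0 (fLMGS k)
    (vForm ClosedGen.LMGS r (x 0) (x 1) (x 2) (x 3) (x 4)) := by
  refine (congrArg (Rep atoms x 0 _) ?_).mp (rG_LMGSLin h.pos h.ra h.rd h.rv h.rg h.rW h.rW1 h.rR
    (tt := vNum r (x 0) (x 1) (x 2) (x 3) (x 4)) h.rc h.re2 h.rE h.rK h.rG h.rG1 (h.rD hk)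
    (h.rg.mul h.rW))
  simp only [vForm, EndAll.LMGSLin, ClosedGen.LMGS, LMGcLin, Closed.LMGc]
  ring

end Pt

/-- The heads of the lists. -/
def hd : List Ex → Ex
  | [e] => e
  | _ => .num 0

/-- The two sides whose equality makes `G` a form of `F`. -/
def crossL (F G : Fn) : Ex :=
  .mul (hd (lift atoms (eMax F.ex G.ex) F.ex F.num)) (.num G.den)

def crossR (F G : Fn) : Ex :=
  .mul (hd (lift atoms (eMax F.ex G.ex) G.ex G.num)) (.num F.den)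

/-- `G` is a form of `F`: the lifted numerators are single and agree. -/
def sameFn (K : ℕ) (l : List ℕ) (F G : Fn) : Bool :=
  Nat.beq (lift atoms (eMax F.ex G.ex) F.ex F.num).length 1 &&
    Nat.beq (lift atoms (eMax F.ex G.ex) G.ex G.num).length 1 &&
    decide (0 < G.den) && checkSameR 5 K l (crossL F G) (crossR F G)

/-- **A fraction may be replaced by a checked form of it.** -/
theorem rep_same {F G : Fn} {K : ℕ} {l : List ℕ} (h : sameFn K l F G = true)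
    (hr : Rep atoms x 0 F r) : Rep atoms x 0 G r := by
  simp only [sameFn, Bool.and_eq_true, Nat.beq_eq, decide_eq_true_eq] at h
  obtain ⟨⟨⟨h1, h2⟩, hG⟩, hs⟩ := h
  obtain ⟨ha, hF, he⟩ := hr
  obtain ⟨l1, l2⟩ := eLe_max atoms.length F.ex G.ex
  have k1 := bv_lift (x := x) (θ := 0) atoms (eMax F.ex G.ex) F.ex F.num ha l1
  have k2 := bv_lift (x := x) (θ := 0) atoms (eMax F.ex G.ex) G.ex G.num ha l2
  have e := eval_eq_of_checkSameR hs x
  obtain ⟨p, hp⟩ := List.length_eq_one_iff.1 h1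
  obtain ⟨q, hq⟩ := List.length_eq_one_iff.1 h2
  simp only [crossL, crossR, hp, hq, hd, Ex.eval, Int.cast_natCast] at e
  rw [hp, bv1] at k1
  rw [hq, bv1] at k2
  refine ⟨ha, hG, ?_⟩
  have p1 := apow_pos (Rep.apos ha) F.ex
  have p2 := apow_pos (Rep.apos ha) (eMax F.ex G.ex)
  have hF0 : (0 : ℝ) < F.den := Nat.cast_pos.2 hF
  have e1 : p.eval x = r * F.den * apow (atoms.map (bv x 0)) (eMax F.ex G.ex) := by
    refine mul_right_cancel₀ p1.ne' ?_; rw [k1, ← he]; ring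
  refine mul_right_cancel₀ (mul_pos p2 hF0).ne' ?_
  rw [e1] at e
  linear_combination (apow (atoms.map (bv x 0)) G.ex) * e + (F.den : ℝ) * k2

end Vale.Agent.P100.Calib.LowEnd
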