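import Vale.Agent.P100.Calib.SlabLowEndTargets

/-!
# The signs from dominant rows of the scaled block

After a congruence with constant coefficients the scaled block has dominant diagonal; hence it is
positive definite, which is the statement about the closed signs with the multiplier `a z`.
-/

set_option linter.unusedVariables false

namespace Vale.Agent.P100.Calib.LowEnd

open EndAll

/-- A symmetric three-block with dominant diagonal has positive determinant. -/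
theorem det_pos_of_dominant {A G M B C F : ℝ} (h1 : |B| + |C| < A) (h2 : |B| + |F| < G)
    (h3 : |C| + |F| < M) :
    0 < G * M - F ^ 2 ∧ 0 < A * (G * M - F ^ 2) - B * (B * M - C * F) + C * (B * F - C * G) := by
  have hb := abs_nonneg B
  have hc := abs_nonneg C
  have hf := abs_nonneg F
  have hA : 0 < A := by linarith
  have hGM : |F| * |F| < G * M :=
    mul_lt_mul' (by linarith) (by linarith) hf (by linarith)
  have hF : F ^ 2 = |F| * |F| := by rw [← sq, sq_abs]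
  have hF' : |F * A - B * C| ≤ |F| * A + |B| * |C| := by
    refine (abs_sub _ _).trans ?_
    rw [abs_mul, abs_mul, abs_of_pos hA]
  have eB : B ^ 2 = |B| * |B| := by rw [← sq, sq_abs]
  have eC : C ^ 2 = |C| * |C| := by rw [← sq, sq_abs]
  have hG : |F * A - B * C| < G * A - B ^ 2 := by
    have q1 := mul_nonneg hb (show 0 ≤ A - |B| - |C| by linarith)
    have q2 := mul_pos hA (show 0 < G - |B| - |F| by linarith)
    linarith
  have hM : |F * A - B * C| < M * A - C ^ 2 := by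
    have q1 := mul_nonneg hc (show 0 ≤ A - |B| - |C| by linarith)
    have q2 := mul_pos hA (show 0 < M - |C| - |F| by linarith)
    linarith
  refine ⟨by linarith, ?_⟩
  have hd : |F * A - B * C| * |F * A - B * C| < (G * A - B ^ 2) * (M * A - C ^ 2) :=
    mul_lt_mul' hG.le hM (abs_nonneg _) (lt_of_le_of_lt (abs_nonneg _) hG)
  rw [← sq, sq_abs] at hd
  refine pos_of_mul_pos_right (a := A) ?_ hA.le
  linarith

/-- The block is positive definite if after the congruence its weighted rows are dominant. -/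
theorem block_pos_of_rows {E G M X Y Z lg lm k r1 r2 r3 : ℝ} (h1 : 0 < r1) (h2 : 0 < r2)
    (h3 : 0 < r3)
    (hE : r2 * |X + lg * G + lm * Z| + r3 * |Y + lg * Z + lm * M + k * (X + lg * G + lm * Z)| <
      r1 * (E + lg * (X + (X + lg * G + lm * Z)) + lm * (Y + (Y + lg * Z + lm * M))))
    (hG : r1 * |X + lg * G + lm * Z| + r3 * |Z + k * G| < r2 * G)
    (hM : r1 * |Y + lg * Z + lm * M + k * (X + lg * G + lm * Z)| + r2 * |Z + k * G| <
      r3 * (M + k * (Z + (Z + k * G)))) :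
    0 < G ∧ 0 < E * G - X ^ 2 ∧
      0 < E * (G * M - Z ^ 2) - X * (X * M - Y * Z) + Y * (X * Z - Y * G) := by
  set B := X + lg * G + lm * Z with hB
  set C := Y + lg * Z + lm * M + k * B with hC
  set F := Z + k * G with hF
  set A := E + lg * (X + B) + lm * (Y + (Y + lg * Z + lm * M)) with hA
  set M' := M + k * (Z + F) with hM'
  have eb : |r1 * r2 * B| = r1 * r2 * |B| := by rw [abs_mul, abs_of_pos (mul_pos h1 h2)]
  have ec : |r1 * r3 * C| = r1 * r3 * |C| := by rw [abs_mul, abs_of_pos (mul_pos h1 h3)]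
  have ef : |r2 * r3 * F| = r2 * r3 * |F| := by rw [abs_mul, abs_of_pos (mul_pos h2 h3)]
  obtain ⟨hm, hd⟩ := det_pos_of_dominant (A := r1 * r1 * A) (G := r2 * r2 * G) (M := r3 * r3 * M')
    (B := r1 * r2 * B) (C := r1 * r3 * C) (F := r2 * r3 * F)
    (by rw [eb, ec]; linarith [mul_lt_mul_of_pos_left hE h1])
    (by rw [eb, ef]; linarith [mul_lt_mul_of_pos_left hG h2])
    (by rw [ec, ef]; linarith [mul_lt_mul_of_pos_left hM h3])
  have hG0 : 0 < G := by
    have : 0 ≤ r1 * |B| + r3 * |F| := by positivity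
    exact pos_of_mul_pos_right (by linarith) h2.le
  have hm' : 0 < G * M - Z ^ 2 := by
    refine pos_of_mul_pos_right (a := (r2 * r3) ^ 2) ?_ (sq_nonneg _)
    have e : (r2 * r3) ^ 2 * (G * M - Z ^ 2) =
        r2 * r2 * G * (r3 * r3 * M') - (r2 * r3 * F) ^ 2 := by rw [hM', hF]; ring
    rw [e]; exact hm
  have hd' : 0 < E * (G * M - Z ^ 2) - X * (X * M - Y * Z) + Y * (X * Z - Y * G) := by
    refine pos_of_mul_pos_right (a := (r1 * r2 * r3) ^ 2) ?_ (sq_nonneg _)
    have e : (r1 * r2 * r3) ^ 2 *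
        (E * (G * M - Z ^ 2) - X * (X * M - Y * Z) + Y * (X * Z - Y * G)) =
        r1 * r1 * A * (r2 * r2 * G * (r3 * r3 * M') - (r2 * r3 * F) ^ 2) -
          r1 * r2 * B * (r1 * r2 * B * (r3 * r3 * M') - r1 * r3 * C * (r2 * r3 * F)) +
          r1 * r3 * C * (r1 * r2 * B * (r2 * r3 * F) - r1 * r3 * C * (r2 * r2 * G)) := by
      rw [hA, hC, hM', hF, hB]; ring
    rw [e]; exact hd
  refine ⟨hG0, ?_, hd'⟩
  refine pos_of_mul_pos_left (b := G * M - Z ^ 2) ?_ hm'.le
  have e : (E * G - X ^ 2) * (G * M - Z ^ 2) =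
      G * (E * (G * M - Z ^ 2) - X * (X * M - Y * Z) + Y * (X * Z - Y * G)) +
        (G * Y - X * Z) ^ 2 := by ring
  rw [e]
  positivity

/-- The numerator of `g` is positive below the pole. -/
theorem qn_pos {a I w X : ℝ} (hS : 0 < vS I) (hw : 0 ≤ w) (hX : 0 < X) (haX : a * X < vD a I) :
    0 < (2 + X) * vB a I - vS I * (1 - w) * (1 + X) := by
  have : 0 ≤ vS I * w * (1 + X) := by positivity
  simp only [vD, vB] at haX ⊢
  linarith

/-- **The closed signs from the scaled block.** -/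
theorem signs_of_block {x : ℕ → ℝ} (h : Pt x) (k z : ℝ) (haX : x 0 * x 3 < vD (x 0) (x 1))
    (hG : 0 < tG k (x 0) (x 1) (x 2) (x 3) (x 4))
    (h2 : 0 < (tE k (x 0) (x 1) (x 2) (x 3) (x 4) + z * tEz (x 0) (x 1) (x 2) (x 3) (x 4)) *
        tG k (x 0) (x 1) (x 2) (x 3) (x 4) - tX k (x 0) (x 1) (x 2) (x 3) (x 4) ^ 2)
    (h3 : 0 < (tE k (x 0) (x 1) (x 2) (x 3) (x 4) + z * tEz (x 0) (x 1) (x 2) (x 3) (x 4)) *
          (tG k (x 0) (x 1) (x 2) (x 3) (x 4) * tM k (x 0) (x 1) (x 2) (x 3) (x 4) -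
            (z * tZ (x 0) (x 1) (x 2) (x 3) (x 4)) ^ 2) -
        tX k (x 0) (x 1) (x 2) (x 3) (x 4) *
          (tX k (x 0) (x 1) (x 2) (x 3) (x 4) * tM k (x 0) (x 1) (x 2) (x 3) (x 4) -
            tY k (x 0) (x 1) (x 2) (x 3) (x 4) * (z * tZ (x 0) (x 1) (x 2) (x 3) (x 4))) +
        tY k (x 0) (x 1) (x 2) (x 3) (x 4) *
          (tX k (x 0) (x 1) (x 2) (x 3) (x 4) * (z * tZ (x 0) (x 1) (x 2) (x 3) (x 4)) -
            tY k (x 0) (x 1) (x 2) (x 3) (x 4) * tG k (x 0) (x 1) (x 2) (x 3) (x 4)))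
    (hN : 0 ≤ tN k (x 0) (x 1) (x 2) (x 3) (x 4) + z * tEz (x 0) (x 1) (x 2) (x 3) (x 4))
    (hL : 0 ≤ tL k (x 0) (x 1) (x 2) (x 3) (x 4) + z * tLz (x 0) (x 1) (x 2) (x 3) (x 4)) :
    ClosedGen.SignsMult (x 0) (vD (x 0) (x 1)) (vV (x 0) (x 1) (x 3))
      (vG (x 0) (x 1) (x 2) (x 3) (x 4)) (vW (x 0) (x 1) (x 4))
      (vW1 (x 0) (x 1) (x 2) (x 3) (x 4)) (vR (x 1) (x 2))
      (vNum k (x 0) (x 1) (x 2) (x 3) (x 4)) := by
  have ha := h.a_pos; have hI := h.I_pos; have hd := h.d_pos; have hb := h.b_pos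
  have hS := h.S_pos; have hu := h.u_pos; have hX := h.X_pos; have hDn := h.den_pos
  have hq := qn_pos hS h.w_nonneg hX haX
  set a := x 0
  set I := x 1
  set w := x 2
  set X := x 3
  set η := x 4
  simp only [tE, tEz, tG, tM, tX, tY, tZ, tN, tL, tLz, vForm] at hG h2 h3 hN hL
  have eab : a + vD a I = vB a I := by simp only [vD, vB]; ring
  have edv : vD a I * vV a I X = X := by simp only [vV]; field_simp
  set d := vD a I
  set b := vB a I
  set S := vS I
  set Dn := vDen w X η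
  have hv : 0 < vV a I X := div_pos hX hd
  have hg : 0 < vG a I w X η := by unfold vG; positivity
  have hL0 : 0 < vL a I w X η := by unfold vL; positivity
  set v := vV a I X
  set g := vG a I w X η
  set W := vW a I η
  set W1 := vW1 a I w X η
  set R := vR I w
  set t := vNum k a I w X η
  set L := vL a I w X η
  set TEE := ClosedGen.TEES a d v g W W1 R t
  set TMG := ClosedGen.TMGS a d v g W W1 R t
  set TGG := ClosedGen.TGGS a d v g W W1 R t
  set TMM := ClosedGen.TMMS a d v g W W1 R t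
  set TEG := ClosedGen.TEGS a d v g W W1 R t
  set TME := ClosedGen.TMES a d v g W W1 R t
  set LLG := ClosedGen.LLGS a d v g W W1 R t
  have hc : t.c = a * b := rfl
  set s := v * g * a ^ 2 * I ^ 2 with hs
  have hQ : 0 < 1 + X := by linarith
  have hG' : 0 < TGG := by
    have hp : 0 < L * a⁻¹ ^ 3 := by positivity
    exact pos_of_mul_pos_left (by linarith) hp.le
  refine ⟨TMG - s * (a * z), hG', ?_, ?_, ?_, ?_⟩
  · have hp : 0 < L ^ 2 * a⁻¹ ^ 6 * (1 + X)⁻¹ / 4 := by positivity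
    refine pos_of_mul_pos_left (b := L ^ 2 * a⁻¹ ^ 6 * (1 + X)⁻¹ / 4) ?_ hp.le
    rw [edv]
    refine lt_of_lt_of_eq h2 ?_
    field_simp
    ring
  · have hp : 0 < L ^ 3 * (1 + X)⁻¹ * a⁻¹ ^ 9 * I⁻¹ ^ 2 * S⁻¹ ^ 2 * Dn⁻¹ ^ 2 /
        (64 * b ^ 2 * v ^ 2 * d ^ 2 * g ^ 2) := by positivity
    refine pos_of_mul_pos_left (b := L ^ 3 * (1 + X)⁻¹ * a⁻¹ ^ 9 * I⁻¹ ^ 2 * S⁻¹ ^ 2 * Dn⁻¹ ^ 2 /
      (64 * b ^ 2 * v ^ 2 * d ^ 2 * g ^ 2)) ?_ hp.le
    refine lt_of_lt_of_eq h3 ?_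
    simp only [ClosedGen.TDetS, hc, eab, edv, hs]
    field_simp
    ring
  · have hp : 0 < L * (a⁻¹ ^ 3 * (1 + X)⁻¹) := by positivity
    refine nonneg_of_mul_nonneg_left ?_ hp
    refine hN.trans_eq ?_
    rw [hs]; ring
  · rw [eab, hc]
    have hp : 0 < L * (a⁻¹ ^ 3 * b⁻¹ * X⁻¹ * S⁻¹ ^ 3 * (1 - w)⁻¹ * Dn⁻¹ ^ 2 * (1 + X)⁻¹) := by
      positivity
    have h4 : 0 ≤ 8 * a * b * v * (a * b) * LLG + v * a ^ 2 * I ^ 2 * R * (a * z) := by
      refine nonneg_of_mul_nonneg_left ?_ hp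
      refine hL.trans_eq ?_
      ring
    have := mul_nonneg h4 hg.le
    rw [hs]
    linarith

end Vale.Agent.P100.Calib.LowEnd
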