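import Vale.Agent.P100.Calib.SlabMainMid
import Vale.Agent.P100.Calib.SlabMidUpZone
import Vale.Agent.P100.Calib.SlabLowEndZone
import Vale.Agent.P100.Calib.SlabMidTailOrbit

/-!
# The conjecture in the dimensions from seven to twenty from the last region
-/

set_option linter.unusedVariables false

open Set Laplacian

namespace Vale.Agent.P100.Calib.Band

open Vale.Agent.P100.Bubble Chart Closed

variable {n : ℕ}

/-- **The conjecture in the dimensions from seven to twenty** from `4/5 ≤ u` in the strip. -/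
theorem lane_emden_seven_to_twenty_of_last (hn : 7 ≤ n) (hn' : n < 20)
    (sF : OrbitSignsStrip n (ZoneFrom (4 / 5)))
    {p q : ℝ} (hp : 0 < p) (hq : 0 < q)
    (hsub : ((n : ℝ) - 2) / n < 1 / (p + 1) + 1 / (q + 1)) :
    ¬ ∃ u v : EuclideanSpace ℝ (Fin n) → ℝ,
      Continuous u ∧ Continuous v ∧ ContDiffOn ℝ 2 u {0}ᶜ ∧ ContDiffOn ℝ 2 v {0}ᶜ ∧
      (∀ x, 0 < u x) ∧ (∀ x, 0 < v x) ∧ (∀ x, x ≠ 0 → Δ u x = -(v x) ^ p) ∧
      (∀ x, x ≠ 0 → Δ v x = -(u x) ^ q) :=
  lane_emden_seven_to_twenty_of hn hn'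
    ((orbit_signs_zone_up_mid hn hn').mono (orbit_signs_tail_mid hn hn') fun r u h =>
      (le_or_gt u (7 / 10)).imp (fun e => ⟨h.1, h.2.1, e⟩) fun e => ⟨h.1, e.le, h.2.2⟩)
    (orbit_signs_zone_end_low_all hn hn') sF hp hq hsub

end Vale.Agent.P100.Calib.Band
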