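import Vale.Agent.P100.Calib.SlabMainOrbit

/-!
# The signs of `genSlope` from three regions
-/

set_option linter.unusedVariables false

open Set Laplacian

namespace Vale.Agent.P100.Calib.Band

open Vale.Agent.P100.Bubble Chart Closed

variable {n : ℕ}

/-- The signs of `genSlope` everywhere from three regions. -/
theorem orbit_signs_slope_three (hN : OrbitSignsSlope n ZoneNeg)
    (hL : OrbitSignsSlope n (ZoneUpTo (39 / 40))) (hE : OrbitSignsSlope n (ZoneFrom (39 / 40))) :
    OrbitSignsSlope n ZoneAll := by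
  intro N p q S R x y s dx dy hc hf hb hcb ha z hz hκ _
  rcases le_or_gt (R z) 0 with hR | hR
  · exact hN N p q S R x y s dx dy hc hf hb hcb ha z hz hκ hR
  rcases le_or_gt (uOf N (R z) (x z)) (39 / 40) with h1 | h1
  · exact hL N p q S R x y s dx dy hc hf hb hcb ha z hz hκ ⟨hR, h1⟩
  · exact hE N p q S R x y s dx dy hc hf hb hcb ha z hz hκ ⟨hR, h1.le⟩

end Vale.Agent.P100.Calib.Band
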