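import Vale.Agent.P100.Calib.SlabMainOrbit
import Vale.Agent.P100.Calib.SlabMainThree
import Vale.Agent.P100.Calib.SlabAllOrbitSigns
import Vale.Agent.P100.Calib.SlabAllEndOrbit

/-!
# The conjecture in every dimension from seven on from its pending regions

From twenty on, at `1/(p + 1) ≤ 31/100`, the signs are proved up to `u = 3/5` and from `39/40` on.
-/

set_option linter.unusedVariables false

open Set Laplacian

namespace Vale.Agent.P100.Calib.Band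

open Vale.Agent.P100.Bubble Chart Closed

variable {n : ℕ}

/-- The signs of `genSlope` everywhere from twenty on, from those of `3/5 ≤ u ≤ 39/40`. -/
theorem orbit_signs_slope_large (hn : 20 ≤ n)
    (hT : OrbitSignsSlope n (ZoneBetween (3 / 5) (91 / 100)))
    (hU : OrbitSignsSlope n (ZoneBetween (91 / 100) (39 / 40))) : OrbitSignsSlope n ZoneAll := by
  intro N p q S R x y s dx dy hc hf hb hcb ha z hz hκ _
  rcases le_or_gt (R z) 0 with hR | hR
  · exact orbit_signs_neg_all hn hc hf hb hcb ha hz hR hκ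
  rcases le_or_gt (uOf N (R z) (x z)) (3 / 5) with h1 | h1
  · exact orbit_signs_low_all hn hc hf hb hcb ha hz hR h1
  rcases le_or_gt (uOf N (R z) (x z)) (91 / 100) with h2 | h2
  · exact hT N p q S R x y s dx dy hc hf hb hcb ha z hz hκ ⟨hR, h1.le, h2⟩
  rcases le_or_gt (uOf N (R z) (x z)) (39 / 40) with h3 | h3
  · exact hU N p q S R x y s dx dy hc hf hb hcb ha z hz hκ ⟨hR, h2.le, h3⟩
  · exact orbit_signs_end_all hn hc hf hb hcb ha hz hR h3.le

/-- **The conjecture from twenty on for `min (1/(p+1)) (1/(q+1)) ≤ 31/100`** from the signs on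
`3/5 ≤ u ≤ 39/40`. -/
theorem lane_emden_large_below_of (hn : 20 ≤ n)
    (hT : OrbitSignsSlope n (ZoneBetween (3 / 5) (91 / 100)))
    (hU : OrbitSignsSlope n (ZoneBetween (91 / 100) (39 / 40)))
    {p q : ℝ} (hp : 0 < p) (hq : 0 < q) (ha : min (1 / (p + 1)) (1 / (q + 1)) ≤ 31 / 100)
    (hsub : ((n : ℝ) - 2) / n < 1 / (p + 1) + 1 / (q + 1)) :
    ¬ ∃ u v : EuclideanSpace ℝ (Fin n) → ℝ,
      Continuous u ∧ Continuous v ∧ ContDiffOn ℝ 2 u {0}ᶜ ∧ ContDiffOn ℝ 2 v {0}ᶜ ∧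
      (∀ x, 0 < u x) ∧ (∀ x, 0 < v x) ∧ (∀ x, x ≠ 0 → Δ u x = -(v x) ^ p) ∧
      (∀ x, x ≠ 0 → Δ v x = -(u x) ^ q) :=
  lane_emden_below_of_orbit_signs (by omega) (orbit_signs_slope_large hn hT hU) hp hq ha hsub

/-- **The conjecture in every dimension from seven on** from the pending regions. -/
theorem lane_emden_uniform_of
    (hT : ∀ n, 20 ≤ n → OrbitSignsSlope n (ZoneBetween (3 / 5) (91 / 100)))
    (hU : ∀ n, 20 ≤ n → OrbitSignsSlope n (ZoneBetween (91 / 100) (39 / 40)))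
    (mN : ∀ n, 7 ≤ n → n < 20 → OrbitSignsSlope n ZoneNeg)
    (mL : ∀ n, 7 ≤ n → n < 20 → OrbitSignsSlope n (ZoneUpTo (39 / 40)))
    (mE : ∀ n, 7 ≤ n → n < 20 → OrbitSignsSlope n (ZoneFrom (39 / 40)))
    (sN : ∀ n, 7 ≤ n → OrbitSignsStrip n ZoneNeg) (sP : ∀ n, 7 ≤ n → OrbitSignsStrip n ZonePos)
    {n : ℕ} (hn : 7 ≤ n) {p q : ℝ} (hp : 0 < p) (hq : 0 < q)
    (hsub : ((n : ℝ) - 2) / n < 1 / (p + 1) + 1 / (q + 1)) :
    ¬ ∃ u v : EuclideanSpace ℝ (Fin n) → ℝ,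
      Continuous u ∧ Continuous v ∧ ContDiffOn ℝ 2 u {0}ᶜ ∧ ContDiffOn ℝ 2 v {0}ᶜ ∧
      (∀ x, 0 < u x) ∧ (∀ x, 0 < v x) ∧ (∀ x, x ≠ 0 → Δ u x = -(v x) ^ p) ∧
      (∀ x, x ≠ 0 → Δ v x = -(u x) ^ q) := by
  refine lane_emden_of_orbit_signs (by omega) ?_
    ((sN n hn).mono (sP n hn) fun r u _ => le_or_gt r 0) hp hq hsub
  rcases le_or_gt 20 n with h20 | h20
  · exact orbit_signs_slope_large h20 (hT n h20) (hU n h20)
  · exact orbit_signs_slope_three (mN n hn h20) (mL n hn h20) (mE n hn h20)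

end Vale.Agent.P100.Calib.Band
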