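import Vale.Agent.P100.Calib.SlabMidData

/-!
# Packed signs for the dimensions from seven to twenty: the bands of piece `A`
-/

namespace Vale.Agent.P100.Calib.Band.AllLow

open Pack

set_option linter.defProp false


def midA_low_num0 :
    checkFour (midBox 0 1000 97 176 50 84 50 180) 560 9 3 11 8 (eMidLow midLowA 0 0 0) = true := by
  decide +kernel

def midA_low_num1 :
    checkFour (midBox 0 1000 176 255 50 84 50 180) 560 9 3 11 8 (eMidLow midLowA 0 838375 0) = true := by
  decide +kernel

def midA_low_num2 :
    checkFour (midBox 0 1000 96 224 50 84 180 245) 560 9 3 11 8 (eMidLow midLowA 0 0 0) = true := by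
  decide +kernel

def midA_low_num3 :
    checkFour (midBox 0 1000 224 352 50 84 180 245) 560 9 3 11 8 (eMidLow midLowA 0 340015 0) = true := by
  decide +kernel

def midA_low_num4 :
    checkFour (midBox 0 1000 95 331 50 84 245 311) 560 9 3 11 8 (eMidLow midLowA 0 0 0) = true := by
  decide +kernel

def midA_low_num5 :
    checkFour (midBox 0 1000 331 436 50 84 245 278) 560 9 3 11 8 (eMidLow midLowA 0 150794 0) = true := by
  decide +kernel

def midA_low_num6 :
    checkFour (midBox 0 250 331 567 50 84 278 311) 560 9 3 11 8 (eMidLow midLowA 0 58139 0) = true := by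
  decide +kernel

def midA_low_num7 :
    checkFour (midBox 250 500 331 567 50 84 278 311) 560 9 3 11 8 (eMidLow midLowA 0 78003 0) = true := by
  decide +kernel

def midA_low_num8 :
    checkFour (midBox 500 1000 331 493 50 84 278 294) 560 9 3 11 8 (eMidLow midLowA 0 54416 0) = true := by
  decide +kernel

def midA_low_num9 :
    checkFour (midBox 500 1000 331 567 50 84 294 311) 560 9 3 11 8 (eMidLow midLowA 0 35768 0) = true := by
  decide +kernel

def midA_low_den0 :
    checkFour (midBox 0 1000 95 567 50 84 50 311) 560 4 1 4 3 (eMidDenOne midLowA) = true := by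
  decide +kernel

def midA_low_start0 :
    checkFour (midBox 0 1 95 567 50 84 50 311) 560 0 1 3 2 (eMidStartLow midLowA 0 0) = true := by
  decide +kernel

def midA_up_num0 :
    checkFour (midBox 0 1000 97 229 50 67 50 180) 560 9 3 11 8 (eMidUp midUpA 0 0 0) = true := by
  decide +kernel

def midA_up_num1 :
    checkFour (midBox 0 500 96 331 50 67 180 311) 560 9 3 11 8 (eMidUp midUpA 0 0 0) = true := by
  decide +kernel

def midA_up_num2 :
    checkFour (midBox 500 1000 96 213 50 67 180 311) 560 9 3 11 8 (eMidUp midUpA 0 0 0) = true := by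
  decide +kernel

def midA_up_num3 :
    checkFour (midBox 500 750 213 331 50 67 180 311) 560 9 3 11 8 (eMidUp midUpA 0 0 0) = true := by
  decide +kernel

def midA_up_num4 :
    checkFour (midBox 750 1000 213 331 50 67 180 311) 560 9 3 11 8 (eMidUp midUpA 0 0 0) = true := by
  decide +kernel

def midA_up_num5 :
    checkFour (midBox 0 500 95 213 67 84 67 311) 560 9 3 11 8 (eMidUp midUpA 0 0 0) = true := by
  decide +kernel

def midA_up_num6 :
    checkFour (midBox 500 1000 95 213 67 75 67 311) 560 9 3 11 8 (eMidUp midUpA 0 0 0) = true := by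
  decide +kernel

def midA_up_num7 :
    checkFour (midBox 500 1000 96 213 75 84 75 193) 560 9 3 11 8 (eMidUp midUpA 0 0 0) = true := by
  decide +kernel

def midA_up_num8 :
    checkFour (midBox 500 1000 95 213 75 84 193 311) 560 9 3 11 8 (eMidUp midUpA 0 0 0) = true := by
  decide +kernel

def midA_up_num9 :
    checkFour (midBox 0 500 213 331 67 84 67 311) 560 9 3 11 8 (eMidUp midUpA 0 0 0) = true := by
  decide +kernel

def midA_up_num10 :
    checkFour (midBox 500 1000 213 265 67 84 67 189) 560 9 3 11 8 (eMidUp midUpA 0 0 0) = true := by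
  decide +kernel

def midA_up_num11 :
    checkFour (midBox 500 750 213 331 67 84 189 311) 560 9 3 11 8 (eMidUp midUpA 0 0 0) = true := by
  decide +kernel

def midA_up_num12 :
    checkFour (midBox 750 1000 213 331 67 84 189 311) 560 9 3 11 8 (eMidUp midUpA 0 0 0) = true := by
  decide +kernel

def midA_up_num13 :
    checkFour (midBox 0 500 331 567 50 84 50 311) 560 9 3 11 8 (eMidUp midUpA 0 0 0) = true := by
  decide +kernel

def midA_up_num14 :
    checkFour (midBox 500 750 331 567 50 84 180 311) 560 9 3 11 8 (eMidUp midUpA 0 0 0) = true := by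
  decide +kernel

def midA_up_num15 :
    checkFour (midBox 750 1000 331 567 50 84 180 311) 560 9 3 11 8 (eMidUp midUpA 0 0 0) = true := by
  decide +kernel

def midA_up_den0 :
    checkFour (midBox 0 1000 95 567 50 84 50 311) 560 4 1 4 3 (eMidDenOne midUpA) = true := by
  decide +kernel

def midA_up_start0 :
    checkFour (midBox 0 1 95 567 50 84 50 311) 560 0 1 3 2 (eMidStartUp midUpA 0 0) = true := by
  decide +kernel

end Vale.Agent.P100.Calib.Band.AllLow
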