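import Vale.Agent.P100.Calib.SlabMidSound
import Vale.Agent.P100.Calib.SlabMidCertA

/-!
# The signs at the bands of piece A, dimensions from seven to twenty
-/

open Set Filter Topology

namespace Vale.Agent.P100.Calib.Band

open Vale.Agent.P100.Bubble Chart

namespace AllLow

theorem midA_low_num_s0 {a I X u : ℝ} (hP : MidPlace a I X) (hI : 1 / 20 ≤ I ∧ I ≤ 1 / 12) (hu : 0 < u) (hu1 : u < 1) (p0 : a < (9 / 50)) :
    0 < (eMidNum midLowA).eval (stabPt u X I a) := by
  obtain ⟨hI1, hI2⟩ := hI
  have hIa := hP.I_le_a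
  have haH := hP.a_le
  rcases lt_or_ge X (44 / 25) with h0 | h0
  · have hXu := hP.X_lt (9 / 50) (21 / 250) (51 / 20) (by linarith only [p0, hIa, haH, hI1, hI2]) (by linarith only [hI1, hI2, hIa, haH]) (by norm_num) (by norm_num) (by norm_num)
    have hXl := hP.le_X (9 / 50) (21 / 250) (97 / 100) (by linarith only [p0, hIa, haH, hI1, hI2]) (by linarith only [hI1, hI2, hIa, haH]) (by norm_num)
    exact mid_low_box hP (by decide) midA_low_num0
      ⟨⟨(by push_cast; linarith only [hu, hu1]), (by push_cast; linarith only [hu, hu1])⟩, ⟨(by push_cast; linarith only [h0, hXu, hXl]), (by push_cast; linarith only [h0, hXu, hXl])⟩,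
        ⟨(by push_cast; linarith only [hI1, hI2, hIa, haH]), (by push_cast; linarith only [hI1, hI2, hIa, haH])⟩, (by push_cast; linarith only [p0, hIa, haH, hI1, hI2]), (by push_cast; linarith only [p0, hIa, haH, hI1, hI2])⟩
  · have hXu := hP.X_lt (9 / 50) (21 / 250) (51 / 20) (by linarith only [p0, hIa, haH, hI1, hI2]) (by linarith only [hI1, hI2, hIa, haH]) (by norm_num) (by norm_num) (by norm_num)
    have hXl := hP.le_X (9 / 50) (21 / 250) (97 / 100) (by linarith only [p0, hIa, haH, hI1, hI2]) (by linarith only [hI1, hI2, hIa, haH]) (by norm_num)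
    exact mid_low_box hP (by decide) midA_low_num1
      ⟨⟨(by push_cast; linarith only [hu, hu1]), (by push_cast; linarith only [hu, hu1])⟩, ⟨(by push_cast; linarith only [h0, hXu, hXl]), (by push_cast; linarith only [h0, hXu, hXl])⟩,
        ⟨(by push_cast; linarith only [hI1, hI2, hIa, haH]), (by push_cast; linarith only [hI1, hI2, hIa, haH])⟩, (by push_cast; linarith only [p0, hIa, haH, hI1, hI2]), (by push_cast; linarith only [p0, hIa, haH, hI1, hI2])⟩

theorem midA_low_num_s2 {a I X u : ℝ} (hP : MidPlace a I X) (hI : 1 / 20 ≤ I ∧ I ≤ 1 / 12) (hu : 0 < u) (hu1 : u < 1) (p0 : (9 / 50) ≤ a) (p1 : a < (49 / 200)) :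
    0 < (eMidNum midLowA).eval (stabPt u X I a) := by
  obtain ⟨hI1, hI2⟩ := hI
  have hIa := hP.I_le_a
  have haH := hP.a_le
  rcases lt_or_ge X (56 / 25) with h0 | h0
  · have hXu := hP.X_lt (49 / 200) (21 / 250) (88 / 25) (by linarith only [p0, p1, hIa, haH, hI1, hI2]) (by linarith only [hI1, hI2, hIa, haH]) (by norm_num) (by norm_num) (by norm_num)
    have hXl := hP.le_X (49 / 200) (21 / 250) (24 / 25) (by linarith only [p0, p1, hIa, haH, hI1, hI2]) (by linarith only [hI1, hI2, hIa, haH]) (by norm_num)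
    exact mid_low_box hP (by decide) midA_low_num2
      ⟨⟨(by push_cast; linarith only [hu, hu1]), (by push_cast; linarith only [hu, hu1])⟩, ⟨(by push_cast; linarith only [h0, hXu, hXl]), (by push_cast; linarith only [h0, hXu, hXl])⟩,
        ⟨(by push_cast; linarith only [hI1, hI2, hIa, haH]), (by push_cast; linarith only [hI1, hI2, hIa, haH])⟩, (by push_cast; linarith only [p0, p1, hIa, haH, hI1, hI2]), (by push_cast; linarith only [p0, p1, hIa, haH, hI1, hI2])⟩
  · have hXu := hP.X_lt (49 / 200) (21 / 250) (88 / 25) (by linarith only [p0, p1, hIa, haH, hI1, hI2]) (by linarith only [hI1, hI2, hIa, haH]) (by norm_num) (by norm_num) (by norm_num)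
    have hXl := hP.le_X (49 / 200) (21 / 250) (24 / 25) (by linarith only [p0, p1, hIa, haH, hI1, hI2]) (by linarith only [hI1, hI2, hIa, haH]) (by norm_num)
    exact mid_low_box hP (by decide) midA_low_num3
      ⟨⟨(by push_cast; linarith only [hu, hu1]), (by push_cast; linarith only [hu, hu1])⟩, ⟨(by push_cast; linarith only [h0, hXu, hXl]), (by push_cast; linarith only [h0, hXu, hXl])⟩,
        ⟨(by push_cast; linarith only [hI1, hI2, hIa, haH]), (by push_cast; linarith only [hI1, hI2, hIa, haH])⟩, (by push_cast; linarith only [p0, p1, hIa, haH, hI1, hI2]), (by push_cast; linarith only [p0, p1, hIa, haH, hI1, hI2])⟩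

theorem midA_low_num_s4 {a I X u : ℝ} (hP : MidPlace a I X) (hI : 1 / 20 ≤ I ∧ I ≤ 1 / 12) (hu : 0 < u) (hu1 : u < 1) (p0 : (9 / 50) ≤ a) (p1 : (49 / 200) ≤ a) (p2 : X < (331 / 100)) :
    0 < (eMidNum midLowA).eval (stabPt u X I a) := by
  obtain ⟨hI1, hI2⟩ := hI
  have hIa := hP.I_le_a
  have haH := hP.a_le
  have hXu := hP.X_lt (31 / 100) (21 / 250) (567 / 100) (by linarith only [p0, p1, hIa, haH, hI1, hI2]) (by linarith only [hI1, hI2, hIa, haH]) (by norm_num) (by norm_num) (by norm_num)
  have hXl := hP.le_X (31 / 100) (21 / 250) (19 / 20) (by linarith only [p0, p1, hIa, haH, hI1, hI2]) (by linarith only [hI1, hI2, hIa, haH]) (by norm_num)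
  exact mid_low_box hP (by decide) midA_low_num4
    ⟨⟨(by push_cast; linarith only [hu, hu1]), (by push_cast; linarith only [hu, hu1])⟩, ⟨(by push_cast; linarith only [p2, hXu, hXl]), (by push_cast; linarith only [p2, hXu, hXl])⟩,
        ⟨(by push_cast; linarith only [hI1, hI2, hIa, haH]), (by push_cast; linarith only [hI1, hI2, hIa, haH])⟩, (by push_cast; linarith only [p0, p1, hIa, haH, hI1, hI2]), (by push_cast; linarith only [p0, p1, hIa, haH, hI1, hI2])⟩

theorem midA_low_num_s5 {a I X u : ℝ} (hP : MidPlace a I X) (hI : 1 / 20 ≤ I ∧ I ≤ 1 / 12) (hu : 0 < u) (hu1 : u < 1) (p0 : (9 / 50) ≤ a) (p1 : (49 / 200) ≤ a) (p2 : (331 / 100) ≤ X) :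
    0 < (eMidNum midLowA).eval (stabPt u X I a) := by
  obtain ⟨hI1, hI2⟩ := hI
  have hIa := hP.I_le_a
  have haH := hP.a_le
  rcases lt_or_ge a (139 / 500) with h0 | h0
  · have hXu := hP.X_lt (139 / 500) (21 / 250) (109 / 25) (by linarith only [p0, p1, h0, hIa, haH, hI1, hI2]) (by linarith only [hI1, hI2, hIa, haH]) (by norm_num) (by norm_num) (by norm_num)
    have hXl := hP.le_X (139 / 500) (21 / 250) (19 / 20) (by linarith only [p0, p1, h0, hIa, haH, hI1, hI2]) (by linarith only [hI1, hI2, hIa, haH]) (by norm_num)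
    exact mid_low_box hP (by decide) midA_low_num5
      ⟨⟨(by push_cast; linarith only [hu, hu1]), (by push_cast; linarith only [hu, hu1])⟩, ⟨(by push_cast; linarith only [p2, hXu, hXl]), (by push_cast; linarith only [p2, hXu, hXl])⟩,
        ⟨(by push_cast; linarith only [hI1, hI2, hIa, haH]), (by push_cast; linarith only [hI1, hI2, hIa, haH])⟩, (by push_cast; linarith only [p0, p1, h0, hIa, haH, hI1, hI2]), (by push_cast; linarith only [p0, p1, h0, hIa, haH, hI1, hI2])⟩
  · rcases lt_or_ge u (1 / 2) with h1 | h1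
    · rcases lt_or_ge u (1 / 4) with h2 | h2
      · have hXu := hP.X_lt (31 / 100) (21 / 250) (567 / 100) (by linarith only [p0, p1, h0, hIa, haH, hI1, hI2]) (by linarith only [hI1, hI2, hIa, haH]) (by norm_num) (by norm_num) (by norm_num)
        have hXl := hP.le_X (31 / 100) (21 / 250) (19 / 20) (by linarith only [p0, p1, h0, hIa, haH, hI1, hI2]) (by linarith only [hI1, hI2, hIa, haH]) (by norm_num)
        exact mid_low_box hP (by decide) midA_low_num6
          ⟨⟨(by push_cast; linarith only [hu, hu1, h1, h2]), (by push_cast; linarith only [hu, hu1, h1, h2])⟩, ⟨(by push_cast; linarith only [p2, hXu, hXl]), (by push_cast; linarith only [p2, hXu, hXl])⟩,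
        ⟨(by push_cast; linarith only [hI1, hI2, hIa, haH]), (by push_cast; linarith only [hI1, hI2, hIa, haH])⟩, (by push_cast; linarith only [p0, p1, h0, hIa, haH, hI1, hI2]), (by push_cast; linarith only [p0, p1, h0, hIa, haH, hI1, hI2])⟩
      · have hXu := hP.X_lt (31 / 100) (21 / 250) (567 / 100) (by linarith only [p0, p1, h0, hIa, haH, hI1, hI2]) (by linarith only [hI1, hI2, hIa, haH]) (by norm_num) (by norm_num) (by norm_num)
        have hXl := hP.le_X (31 / 100) (21 / 250) (19 / 20) (by linarith only [p0, p1, h0, hIa, haH, hI1, hI2]) (by linarith only [hI1, hI2, hIa, haH]) (by norm_num)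
        exact mid_low_box hP (by decide) midA_low_num7
          ⟨⟨(by push_cast; linarith only [hu, hu1, h1, h2]), (by push_cast; linarith only [hu, hu1, h1, h2])⟩, ⟨(by push_cast; linarith only [p2, hXu, hXl]), (by push_cast; linarith only [p2, hXu, hXl])⟩,
        ⟨(by push_cast; linarith only [hI1, hI2, hIa, haH]), (by push_cast; linarith only [hI1, hI2, hIa, haH])⟩, (by push_cast; linarith only [p0, p1, h0, hIa, haH, hI1, hI2]), (by push_cast; linarith only [p0, p1, h0, hIa, haH, hI1, hI2])⟩
    · rcases lt_or_ge a (147 / 500) with h3 | h3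
      · have hXu := hP.X_lt (147 / 500) (21 / 250) (493 / 100) (by linarith only [p0, p1, h0, h3, hIa, haH, hI1, hI2]) (by linarith only [hI1, hI2, hIa, haH]) (by norm_num) (by norm_num) (by norm_num)
        have hXl := hP.le_X (147 / 500) (21 / 250) (19 / 20) (by linarith only [p0, p1, h0, h3, hIa, haH, hI1, hI2]) (by linarith only [hI1, hI2, hIa, haH]) (by norm_num)
        exact mid_low_box hP (by decide) midA_low_num8
          ⟨⟨(by push_cast; linarith only [hu, hu1, h1]), (by push_cast; linarith only [hu, hu1, h1])⟩, ⟨(by push_cast; linarith only [p2, hXu, hXl]), (by push_cast; linarith only [p2, hXu, hXl])⟩,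
        ⟨(by push_cast; linarith only [hI1, hI2, hIa, haH]), (by push_cast; linarith only [hI1, hI2, hIa, haH])⟩, (by push_cast; linarith only [p0, p1, h0, h3, hIa, haH, hI1, hI2]), (by push_cast; linarith only [p0, p1, h0, h3, hIa, haH, hI1, hI2])⟩
      · have hXu := hP.X_lt (31 / 100) (21 / 250) (567 / 100) (by linarith only [p0, p1, h0, h3, hIa, haH, hI1, hI2]) (by linarith only [hI1, hI2, hIa, haH]) (by norm_num) (by norm_num) (by norm_num)
        have hXl := hP.le_X (31 / 100) (21 / 250) (19 / 20) (by linarith only [p0, p1, h0, h3, hIa, haH, hI1, hI2]) (by linarith only [hI1, hI2, hIa, haH]) (by norm_num)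
        exact mid_low_box hP (by decide) midA_low_num9
          ⟨⟨(by push_cast; linarith only [hu, hu1, h1]), (by push_cast; linarith only [hu, hu1, h1])⟩, ⟨(by push_cast; linarith only [p2, hXu, hXl]), (by push_cast; linarith only [p2, hXu, hXl])⟩,
        ⟨(by push_cast; linarith only [hI1, hI2, hIa, haH]), (by push_cast; linarith only [hI1, hI2, hIa, haH])⟩, (by push_cast; linarith only [p0, p1, h0, h3, hIa, haH, hI1, hI2]), (by push_cast; linarith only [p0, p1, h0, h3, hIa, haH, hI1, hI2])⟩

theorem midA_low_num_s3 {a I X u : ℝ} (hP : MidPlace a I X) (hI : 1 / 20 ≤ I ∧ I ≤ 1 / 12) (hu : 0 < u) (hu1 : u < 1) (p0 : (9 / 50) ≤ a) (p1 : (49 / 200) ≤ a) :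
    0 < (eMidNum midLowA).eval (stabPt u X I a) := by
  rcases lt_or_ge X (331 / 100) with h | h
  · exact midA_low_num_s4 hP hI hu hu1 p0 p1 h
  · exact midA_low_num_s5 hP hI hu hu1 p0 p1 h

theorem midA_low_num_s1 {a I X u : ℝ} (hP : MidPlace a I X) (hI : 1 / 20 ≤ I ∧ I ≤ 1 / 12) (hu : 0 < u) (hu1 : u < 1) (p0 : (9 / 50) ≤ a) :
    0 < (eMidNum midLowA).eval (stabPt u X I a) := by
  rcases lt_or_ge a (49 / 200) with h | h
  · exact midA_low_num_s2 hP hI hu hu1 p0 h
  · exact midA_low_num_s3 hP hI hu hu1 p0 h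

theorem midA_low_num {a I X u : ℝ} (hP : MidPlace a I X) (hI : 1 / 20 ≤ I ∧ I ≤ 1 / 12) (hu : 0 < u) (hu1 : u < 1) :
    0 < (eMidNum midLowA).eval (stabPt u X I a) := by
  rcases lt_or_ge a (9 / 50) with h | h
  · exact midA_low_num_s0 hP hI hu hu1  h
  · exact midA_low_num_s1 hP hI hu hu1  h

theorem midA_low_den {a I X u : ℝ} (hP : MidPlace a I X) (hI : 1 / 20 ≤ I ∧ I ≤ 1 / 12) (hu : 0 < u) (hu1 : u < 1) :
    0 < (eMidDen midLowA).eval (stabPt u X I a) := by
  obtain ⟨hI1, hI2⟩ := hI
  have hIa := hP.I_le_a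
  have haH := hP.a_le
  have hXu := hP.X_lt (31 / 100) (21 / 250) (567 / 100) (by linarith only [hIa, haH, hI1, hI2]) (by linarith only [hI1, hI2, hIa, haH]) (by norm_num) (by norm_num) (by norm_num)
  have hXl := hP.le_X (31 / 100) (21 / 250) (19 / 20) (by linarith only [hIa, haH, hI1, hI2]) (by linarith only [hI1, hI2, hIa, haH]) (by norm_num)
  exact mid_den_box midA_low_den0
    ⟨⟨(by push_cast; linarith only [hu, hu1]), (by push_cast; linarith only [hu, hu1])⟩, ⟨(by push_cast; linarith only [hXu, hXl]), (by push_cast; linarith only [hXu, hXl])⟩,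
        ⟨(by push_cast; linarith only [hI1, hI2, hIa, haH]), (by push_cast; linarith only [hI1, hI2, hIa, haH])⟩, (by push_cast; linarith only [hIa, haH, hI1, hI2]), (by push_cast; linarith only [hIa, haH, hI1, hI2])⟩

theorem midA_low_start {a I X : ℝ} (hP : MidPlace a I X) (hI : 1 / 20 ≤ I ∧ I ≤ 1 / 12) :
    0 ≤ (eMidStart midLowA).eval (stabPt 0 X I a) := by
  obtain ⟨hI1, hI2⟩ := hI
  have hIa := hP.I_le_a
  have haH := hP.a_le
  have hXu := hP.X_lt (31 / 100) (21 / 250) (567 / 100) (by linarith only [hIa, haH, hI1, hI2]) (by linarith only [hI1, hI2, hIa, haH]) (by norm_num) (by norm_num) (by norm_num)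
  have hXl := hP.le_X (31 / 100) (21 / 250) (19 / 20) (by linarith only [hIa, haH, hI1, hI2]) (by linarith only [hI1, hI2, hIa, haH]) (by norm_num)
  exact mid_start_low_box hP (by decide) midA_low_start0
    ⟨⟨by norm_num, by norm_num⟩, ⟨(by push_cast; linarith only [hXu, hXl]), (by push_cast; linarith only [hXu, hXl])⟩,
        ⟨(by push_cast; linarith only [hI1, hI2, hIa, haH]), (by push_cast; linarith only [hI1, hI2, hIa, haH])⟩, (by push_cast; linarith only [hIa, haH, hI1, hI2]), (by push_cast; linarith only [hIa, haH, hI1, hI2])⟩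

theorem midA_up_num_s1 {a I X u : ℝ} (hP : MidPlace a I X) (hI : 1 / 20 ≤ I ∧ I ≤ 1 / 12) (hu : 0 < u) (hu1 : u < 1) (p0 : X < (331 / 100)) (p1 : I < (67 / 1000)) :
    (eMidNum midUpA).eval (stabPt u X I a) < 0 := by
  obtain ⟨hI1, hI2⟩ := hI
  have hIa := hP.I_le_a
  have haH := hP.a_le
  rcases lt_or_ge a (9 / 50) with h0 | h0
  · have hXu := hP.X_lt (9 / 50) (67 / 1000) (229 / 100) (by linarith only [h0, hIa, haH, p1, hI1, hI2]) (by linarith only [p1, hI1, hI2, hIa, haH]) (by norm_num) (by norm_num) (by norm_num)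
    have hXl := hP.le_X (9 / 50) (67 / 1000) (97 / 100) (by linarith only [h0, hIa, haH, p1, hI1, hI2]) (by linarith only [p1, hI1, hI2, hIa, haH]) (by norm_num)
    exact mid_up_box hP (by decide) midA_up_num0
      ⟨⟨(by push_cast; linarith only [hu, hu1]), (by push_cast; linarith only [hu, hu1])⟩, ⟨(by push_cast; linarith only [p0, hXu, hXl]), (by push_cast; linarith only [p0, hXu, hXl])⟩,
        ⟨(by push_cast; linarith only [p1, hI1, hI2, hIa, haH]), (by push_cast; linarith only [p1, hI1, hI2, hIa, haH])⟩, (by push_cast; linarith only [h0, hIa, haH, p1, hI1, hI2]), (by push_cast; linarith only [h0, hIa, haH, p1, hI1, hI2])⟩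
  · rcases lt_or_ge u (1 / 2) with h1 | h1
    · have hXu := hP.X_lt (31 / 100) (67 / 1000) (47 / 10) (by linarith only [h0, hIa, haH, p1, hI1, hI2]) (by linarith only [p1, hI1, hI2, hIa, haH]) (by norm_num) (by norm_num) (by norm_num)
      have hXl := hP.le_X (31 / 100) (67 / 1000) (24 / 25) (by linarith only [h0, hIa, haH, p1, hI1, hI2]) (by linarith only [p1, hI1, hI2, hIa, haH]) (by norm_num)
      exact mid_up_box hP (by decide) midA_up_num1
        ⟨⟨(by push_cast; linarith only [hu, hu1, h1]), (by push_cast; linarith only [hu, hu1, h1])⟩, ⟨(by push_cast; linarith only [p0, hXu, hXl]), (by push_cast; linarith only [p0, hXu, hXl])⟩,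
        ⟨(by push_cast; linarith only [p1, hI1, hI2, hIa, haH]), (by push_cast; linarith only [p1, hI1, hI2, hIa, haH])⟩, (by push_cast; linarith only [h0, hIa, haH, p1, hI1, hI2]), (by push_cast; linarith only [h0, hIa, haH, p1, hI1, hI2])⟩
    · rcases lt_or_ge X (213 / 100) with h2 | h2
      · have hXu := hP.X_lt (31 / 100) (67 / 1000) (47 / 10) (by linarith only [h0, hIa, haH, p1, hI1, hI2]) (by linarith only [p1, hI1, hI2, hIa, haH]) (by norm_num) (by norm_num) (by norm_num)
        have hXl := hP.le_X (31 / 100) (67 / 1000) (24 / 25) (by linarith only [h0, hIa, haH, p1, hI1, hI2]) (by linarith only [p1, hI1, hI2, hIa, haH]) (by norm_num)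
        exact mid_up_box hP (by decide) midA_up_num2
          ⟨⟨(by push_cast; linarith only [hu, hu1, h1]), (by push_cast; linarith only [hu, hu1, h1])⟩, ⟨(by push_cast; linarith only [p0, h2, hXu, hXl]), (by push_cast; linarith only [p0, h2, hXu, hXl])⟩,
        ⟨(by push_cast; linarith only [p1, hI1, hI2, hIa, haH]), (by push_cast; linarith only [p1, hI1, hI2, hIa, haH])⟩, (by push_cast; linarith only [h0, hIa, haH, p1, hI1, hI2]), (by push_cast; linarith only [h0, hIa, haH, p1, hI1, hI2])⟩
      · rcases lt_or_ge u (3 / 4) with h3 | h3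
        · have hXu := hP.X_lt (31 / 100) (67 / 1000) (47 / 10) (by linarith only [h0, hIa, haH, p1, hI1, hI2]) (by linarith only [p1, hI1, hI2, hIa, haH]) (by norm_num) (by norm_num) (by norm_num)
          have hXl := hP.le_X (31 / 100) (67 / 1000) (24 / 25) (by linarith only [h0, hIa, haH, p1, hI1, hI2]) (by linarith only [p1, hI1, hI2, hIa, haH]) (by norm_num)
          exact mid_up_box hP (by decide) midA_up_num3
            ⟨⟨(by push_cast; linarith only [hu, hu1, h1, h3]), (by push_cast; linarith only [hu, hu1, h1, h3])⟩, ⟨(by push_cast; linarith only [p0, h2, hXu, hXl]), (by push_cast; linarith only [p0, h2, hXu, hXl])⟩,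
        ⟨(by push_cast; linarith only [p1, hI1, hI2, hIa, haH]), (by push_cast; linarith only [p1, hI1, hI2, hIa, haH])⟩, (by push_cast; linarith only [h0, hIa, haH, p1, hI1, hI2]), (by push_cast; linarith only [h0, hIa, haH, p1, hI1, hI2])⟩
        · have hXu := hP.X_lt (31 / 100) (67 / 1000) (47 / 10) (by linarith only [h0, hIa, haH, p1, hI1, hI2]) (by linarith only [p1, hI1, hI2, hIa, haH]) (by norm_num) (by norm_num) (by norm_num)
          have hXl := hP.le_X (31 / 100) (67 / 1000) (24 / 25) (by linarith only [h0, hIa, haH, p1, hI1, hI2]) (by linarith only [p1, hI1, hI2, hIa, haH]) (by norm_num)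
          exact mid_up_box hP (by decide) midA_up_num4
            ⟨⟨(by push_cast; linarith only [hu, hu1, h1, h3]), (by push_cast; linarith only [hu, hu1, h1, h3])⟩, ⟨(by push_cast; linarith only [p0, h2, hXu, hXl]), (by push_cast; linarith only [p0, h2, hXu, hXl])⟩,
        ⟨(by push_cast; linarith only [p1, hI1, hI2, hIa, haH]), (by push_cast; linarith only [p1, hI1, hI2, hIa, haH])⟩, (by push_cast; linarith only [h0, hIa, haH, p1, hI1, hI2]), (by push_cast; linarith only [h0, hIa, haH, p1, hI1, hI2])⟩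

theorem midA_up_num_s3 {a I X u : ℝ} (hP : MidPlace a I X) (hI : 1 / 20 ≤ I ∧ I ≤ 1 / 12) (hu : 0 < u) (hu1 : u < 1) (p0 : X < (331 / 100)) (p1 : (67 / 1000) ≤ I) (p2 : X < (213 / 100)) :
    (eMidNum midUpA).eval (stabPt u X I a) < 0 := by
  obtain ⟨hI1, hI2⟩ := hI
  have hIa := hP.I_le_a
  have haH := hP.a_le
  rcases lt_or_ge u (1 / 2) with h0 | h0
  · have hXu := hP.X_lt (31 / 100) (21 / 250) (567 / 100) (by linarith only [hIa, haH, p1, hI1, hI2]) (by linarith only [p1, hI1, hI2, hIa, haH]) (by norm_num) (by norm_num) (by norm_num)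
    have hXl := hP.le_X (31 / 100) (21 / 250) (19 / 20) (by linarith only [hIa, haH, p1, hI1, hI2]) (by linarith only [p1, hI1, hI2, hIa, haH]) (by norm_num)
    exact mid_up_box hP (by decide) midA_up_num5
      ⟨⟨(by push_cast; linarith only [hu, hu1, h0]), (by push_cast; linarith only [hu, hu1, h0])⟩, ⟨(by push_cast; linarith only [p0, p2, hXu, hXl]), (by push_cast; linarith only [p0, p2, hXu, hXl])⟩,
        ⟨(by push_cast; linarith only [p1, hI1, hI2, hIa, haH]), (by push_cast; linarith only [p1, hI1, hI2, hIa, haH])⟩, (by push_cast; linarith only [hIa, haH, p1, hI1, hI2]), (by push_cast; linarith only [hIa, haH, p1, hI1, hI2])⟩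
  · rcases lt_or_ge I (3 / 40) with h1 | h1
    · have hXu := hP.X_lt (31 / 100) (3 / 40) (128 / 25) (by linarith only [hIa, haH, p1, hI1, hI2, h1]) (by linarith only [p1, hI1, hI2, h1, hIa, haH]) (by norm_num) (by norm_num) (by norm_num)
      have hXl := hP.le_X (31 / 100) (3 / 40) (19 / 20) (by linarith only [hIa, haH, p1, hI1, hI2, h1]) (by linarith only [p1, hI1, hI2, h1, hIa, haH]) (by norm_num)
      exact mid_up_box hP (by decide) midA_up_num6
        ⟨⟨(by push_cast; linarith only [hu, hu1, h0]), (by push_cast; linarith only [hu, hu1, h0])⟩, ⟨(by push_cast; linarith only [p0, p2, hXu, hXl]), (by push_cast; linarith only [p0, p2, hXu, hXl])⟩,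
        ⟨(by push_cast; linarith only [p1, hI1, hI2, h1, hIa, haH]), (by push_cast; linarith only [p1, hI1, hI2, h1, hIa, haH])⟩, (by push_cast; linarith only [hIa, haH, p1, hI1, hI2, h1]), (by push_cast; linarith only [hIa, haH, p1, hI1, hI2, h1])⟩
    · rcases lt_or_ge a (193 / 1000) with h2 | h2
      · have hXu := hP.X_lt (193 / 1000) (21 / 250) (27 / 10) (by linarith only [h2, hIa, haH, p1, hI1, hI2, h1]) (by linarith only [p1, hI1, hI2, h1, hIa, haH]) (by norm_num) (by norm_num) (by norm_num)
        have hXl := hP.le_X (193 / 1000) (21 / 250) (24 / 25) (by linarith only [h2, hIa, haH, p1, hI1, hI2, h1]) (by linarith only [p1, hI1, hI2, h1, hIa, haH]) (by norm_num)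
        exact mid_up_box hP (by decide) midA_up_num7
          ⟨⟨(by push_cast; linarith only [hu, hu1, h0]), (by push_cast; linarith only [hu, hu1, h0])⟩, ⟨(by push_cast; linarith only [p0, p2, hXu, hXl]), (by push_cast; linarith only [p0, p2, hXu, hXl])⟩,
        ⟨(by push_cast; linarith only [p1, hI1, hI2, h1, hIa, haH]), (by push_cast; linarith only [p1, hI1, hI2, h1, hIa, haH])⟩, (by push_cast; linarith only [h2, hIa, haH, p1, hI1, hI2, h1]), (by push_cast; linarith only [h2, hIa, haH, p1, hI1, hI2, h1])⟩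
      · have hXu := hP.X_lt (31 / 100) (21 / 250) (567 / 100) (by linarith only [h2, hIa, haH, p1, hI1, hI2, h1]) (by linarith only [p1, hI1, hI2, h1, hIa, haH]) (by norm_num) (by norm_num) (by norm_num)
        have hXl := hP.le_X (31 / 100) (21 / 250) (19 / 20) (by linarith only [h2, hIa, haH, p1, hI1, hI2, h1]) (by linarith only [p1, hI1, hI2, h1, hIa, haH]) (by norm_num)
        exact mid_up_box hP (by decide) midA_up_num8
          ⟨⟨(by push_cast; linarith only [hu, hu1, h0]), (by push_cast; linarith only [hu, hu1, h0])⟩, ⟨(by push_cast; linarith only [p0, p2, hXu, hXl]), (by push_cast; linarith only [p0, p2, hXu, hXl])⟩,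
        ⟨(by push_cast; linarith only [p1, hI1, hI2, h1, hIa, haH]), (by push_cast; linarith only [p1, hI1, hI2, h1, hIa, haH])⟩, (by push_cast; linarith only [h2, hIa, haH, p1, hI1, hI2, h1]), (by push_cast; linarith only [h2, hIa, haH, p1, hI1, hI2, h1])⟩

theorem midA_up_num_s4 {a I X u : ℝ} (hP : MidPlace a I X) (hI : 1 / 20 ≤ I ∧ I ≤ 1 / 12) (hu : 0 < u) (hu1 : u < 1) (p0 : X < (331 / 100)) (p1 : (67 / 1000) ≤ I) (p2 : (213 / 100) ≤ X) :
    (eMidNum midUpA).eval (stabPt u X I a) < 0 := by
  obtain ⟨hI1, hI2⟩ := hI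
  have hIa := hP.I_le_a
  have haH := hP.a_le
  rcases lt_or_ge u (1 / 2) with h0 | h0
  · have hXu := hP.X_lt (31 / 100) (21 / 250) (567 / 100) (by linarith only [hIa, haH, p1, hI1, hI2]) (by linarith only [p1, hI1, hI2, hIa, haH]) (by norm_num) (by norm_num) (by norm_num)
    have hXl := hP.le_X (31 / 100) (21 / 250) (19 / 20) (by linarith only [hIa, haH, p1, hI1, hI2]) (by linarith only [p1, hI1, hI2, hIa, haH]) (by norm_num)
    exact mid_up_box hP (by decide) midA_up_num9
      ⟨⟨(by push_cast; linarith only [hu, hu1, h0]), (by push_cast; linarith only [hu, hu1, h0])⟩, ⟨(by push_cast; linarith only [p0, p2, hXu, hXl]), (by push_cast; linarith only [p0, p2, hXu, hXl])⟩,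
        ⟨(by push_cast; linarith only [p1, hI1, hI2, hIa, haH]), (by push_cast; linarith only [p1, hI1, hI2, hIa, haH])⟩, (by push_cast; linarith only [hIa, haH, p1, hI1, hI2]), (by push_cast; linarith only [hIa, haH, p1, hI1, hI2])⟩
  · rcases lt_or_ge a (189 / 1000) with h1 | h1
    · have hXu := hP.X_lt (189 / 1000) (21 / 250) (53 / 20) (by linarith only [h1, hIa, haH, p1, hI1, hI2]) (by linarith only [p1, hI1, hI2, hIa, haH]) (by norm_num) (by norm_num) (by norm_num)
      have hXl := hP.le_X (189 / 1000) (21 / 250) (24 / 25) (by linarith only [h1, hIa, haH, p1, hI1, hI2]) (by linarith only [p1, hI1, hI2, hIa, haH]) (by norm_num)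
      exact mid_up_box hP (by decide) midA_up_num10
        ⟨⟨(by push_cast; linarith only [hu, hu1, h0]), (by push_cast; linarith only [hu, hu1, h0])⟩, ⟨(by push_cast; linarith only [p0, p2, hXu, hXl]), (by push_cast; linarith only [p0, p2, hXu, hXl])⟩,
        ⟨(by push_cast; linarith only [p1, hI1, hI2, hIa, haH]), (by push_cast; linarith only [p1, hI1, hI2, hIa, haH])⟩, (by push_cast; linarith only [h1, hIa, haH, p1, hI1, hI2]), (by push_cast; linarith only [h1, hIa, haH, p1, hI1, hI2])⟩
    · rcases lt_or_ge u (3 / 4) with h2 | h2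
      · have hXu := hP.X_lt (31 / 100) (21 / 250) (567 / 100) (by linarith only [h1, hIa, haH, p1, hI1, hI2]) (by linarith only [p1, hI1, hI2, hIa, haH]) (by norm_num) (by norm_num) (by norm_num)
        have hXl := hP.le_X (31 / 100) (21 / 250) (19 / 20) (by linarith only [h1, hIa, haH, p1, hI1, hI2]) (by linarith only [p1, hI1, hI2, hIa, haH]) (by norm_num)
        exact mid_up_box hP (by decide) midA_up_num11
          ⟨⟨(by push_cast; linarith only [hu, hu1, h0, h2]), (by push_cast; linarith only [hu, hu1, h0, h2])⟩, ⟨(by push_cast; linarith only [p0, p2, hXu, hXl]), (by push_cast; linarith only [p0, p2, hXu, hXl])⟩,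
        ⟨(by push_cast; linarith only [p1, hI1, hI2, hIa, haH]), (by push_cast; linarith only [p1, hI1, hI2, hIa, haH])⟩, (by push_cast; linarith only [h1, hIa, haH, p1, hI1, hI2]), (by push_cast; linarith only [h1, hIa, haH, p1, hI1, hI2])⟩
      · have hXu := hP.X_lt (31 / 100) (21 / 250) (567 / 100) (by linarith only [h1, hIa, haH, p1, hI1, hI2]) (by linarith only [p1, hI1, hI2, hIa, haH]) (by norm_num) (by norm_num) (by norm_num)
        have hXl := hP.le_X (31 / 100) (21 / 250) (19 / 20) (by linarith only [h1, hIa, haH, p1, hI1, hI2]) (by linarith only [p1, hI1, hI2, hIa, haH]) (by norm_num)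
        exact mid_up_box hP (by decide) midA_up_num12
          ⟨⟨(by push_cast; linarith only [hu, hu1, h0, h2]), (by push_cast; linarith only [hu, hu1, h0, h2])⟩, ⟨(by push_cast; linarith only [p0, p2, hXu, hXl]), (by push_cast; linarith only [p0, p2, hXu, hXl])⟩,
        ⟨(by push_cast; linarith only [p1, hI1, hI2, hIa, haH]), (by push_cast; linarith only [p1, hI1, hI2, hIa, haH])⟩, (by push_cast; linarith only [h1, hIa, haH, p1, hI1, hI2]), (by push_cast; linarith only [h1, hIa, haH, p1, hI1, hI2])⟩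

theorem midA_up_num_s2 {a I X u : ℝ} (hP : MidPlace a I X) (hI : 1 / 20 ≤ I ∧ I ≤ 1 / 12) (hu : 0 < u) (hu1 : u < 1) (p0 : X < (331 / 100)) (p1 : (67 / 1000) ≤ I) :
    (eMidNum midUpA).eval (stabPt u X I a) < 0 := by
  rcases lt_or_ge X (213 / 100) with h | h
  · exact midA_up_num_s3 hP hI hu hu1 p0 p1 h
  · exact midA_up_num_s4 hP hI hu hu1 p0 p1 h

theorem midA_up_num_s0 {a I X u : ℝ} (hP : MidPlace a I X) (hI : 1 / 20 ≤ I ∧ I ≤ 1 / 12) (hu : 0 < u) (hu1 : u < 1) (p0 : X < (331 / 100)) :
    (eMidNum midUpA).eval (stabPt u X I a) < 0 := by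
  rcases lt_or_ge I (67 / 1000) with h | h
  · exact midA_up_num_s1 hP hI hu hu1 p0 h
  · exact midA_up_num_s2 hP hI hu hu1 p0 h

theorem midA_up_num_s5 {a I X u : ℝ} (hP : MidPlace a I X) (hI : 1 / 20 ≤ I ∧ I ≤ 1 / 12) (hu : 0 < u) (hu1 : u < 1) (p0 : (331 / 100) ≤ X) :
    (eMidNum midUpA).eval (stabPt u X I a) < 0 := by
  obtain ⟨hI1, hI2⟩ := hI
  have hIa := hP.I_le_a
  have haH := hP.a_le
  rcases lt_or_ge u (1 / 2) with h0 | h0
  · have hXu := hP.X_lt (31 / 100) (21 / 250) (567 / 100) (by linarith only [hIa, haH, hI1, hI2]) (by linarith only [hI1, hI2, hIa, haH]) (by norm_num) (by norm_num) (by norm_num)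
    have hXl := hP.le_X (31 / 100) (21 / 250) (19 / 20) (by linarith only [hIa, haH, hI1, hI2]) (by linarith only [hI1, hI2, hIa, haH]) (by norm_num)
    exact mid_up_box hP (by decide) midA_up_num13
      ⟨⟨(by push_cast; linarith only [hu, hu1, h0]), (by push_cast; linarith only [hu, hu1, h0])⟩, ⟨(by push_cast; linarith only [p0, hXu, hXl]), (by push_cast; linarith only [p0, hXu, hXl])⟩,
        ⟨(by push_cast; linarith only [hI1, hI2, hIa, haH]), (by push_cast; linarith only [hI1, hI2, hIa, haH])⟩, (by push_cast; linarith only [hIa, haH, hI1, hI2]), (by push_cast; linarith only [hIa, haH, hI1, hI2])⟩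
  · rcases lt_or_ge a (9 / 50) with h1 | h1
    · have hXu := hP.X_lt (9 / 50) (21 / 250) (51 / 20) (by linarith only [h1, hIa, haH, hI1, hI2]) (by linarith only [hI1, hI2, hIa, haH]) (by norm_num) (by norm_num) (by norm_num)
      have hXl := hP.le_X (9 / 50) (21 / 250) (97 / 100) (by linarith only [h1, hIa, haH, hI1, hI2]) (by linarith only [hI1, hI2, hIa, haH]) (by norm_num)
      exfalso; linarith
    · rcases lt_or_ge u (3 / 4) with h2 | h2
      · have hXu := hP.X_lt (31 / 100) (21 / 250) (567 / 100) (by linarith only [h1, hIa, haH, hI1, hI2]) (by linarith only [hI1, hI2, hIa, haH]) (by norm_num) (by norm_num) (by norm_num)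
        have hXl := hP.le_X (31 / 100) (21 / 250) (19 / 20) (by linarith only [h1, hIa, haH, hI1, hI2]) (by linarith only [hI1, hI2, hIa, haH]) (by norm_num)
        exact mid_up_box hP (by decide) midA_up_num14
          ⟨⟨(by push_cast; linarith only [hu, hu1, h0, h2]), (by push_cast; linarith only [hu, hu1, h0, h2])⟩, ⟨(by push_cast; linarith only [p0, hXu, hXl]), (by push_cast; linarith only [p0, hXu, hXl])⟩,
        ⟨(by push_cast; linarith only [hI1, hI2, hIa, haH]), (by push_cast; linarith only [hI1, hI2, hIa, haH])⟩, (by push_cast; linarith only [h1, hIa, haH, hI1, hI2]), (by push_cast; linarith only [h1, hIa, haH, hI1, hI2])⟩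
      · have hXu := hP.X_lt (31 / 100) (21 / 250) (567 / 100) (by linarith only [h1, hIa, haH, hI1, hI2]) (by linarith only [hI1, hI2, hIa, haH]) (by norm_num) (by norm_num) (by norm_num)
        have hXl := hP.le_X (31 / 100) (21 / 250) (19 / 20) (by linarith only [h1, hIa, haH, hI1, hI2]) (by linarith only [hI1, hI2, hIa, haH]) (by norm_num)
        exact mid_up_box hP (by decide) midA_up_num15
          ⟨⟨(by push_cast; linarith only [hu, hu1, h0, h2]), (by push_cast; linarith only [hu, hu1, h0, h2])⟩, ⟨(by push_cast; linarith only [p0, hXu, hXl]), (by push_cast; linarith only [p0, hXu, hXl])⟩,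
        ⟨(by push_cast; linarith only [hI1, hI2, hIa, haH]), (by push_cast; linarith only [hI1, hI2, hIa, haH])⟩, (by push_cast; linarith only [h1, hIa, haH, hI1, hI2]), (by push_cast; linarith only [h1, hIa, haH, hI1, hI2])⟩

theorem midA_up_num {a I X u : ℝ} (hP : MidPlace a I X) (hI : 1 / 20 ≤ I ∧ I ≤ 1 / 12) (hu : 0 < u) (hu1 : u < 1) :
    (eMidNum midUpA).eval (stabPt u X I a) < 0 := by
  rcases lt_or_ge X (331 / 100) with h | h
  · exact midA_up_num_s0 hP hI hu hu1  h
  · exact midA_up_num_s5 hP hI hu hu1  h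

theorem midA_up_den {a I X u : ℝ} (hP : MidPlace a I X) (hI : 1 / 20 ≤ I ∧ I ≤ 1 / 12) (hu : 0 < u) (hu1 : u < 1) :
    0 < (eMidDen midUpA).eval (stabPt u X I a) := by
  obtain ⟨hI1, hI2⟩ := hI
  have hIa := hP.I_le_a
  have haH := hP.a_le
  have hXu := hP.X_lt (31 / 100) (21 / 250) (567 / 100) (by linarith only [hIa, haH, hI1, hI2]) (by linarith only [hI1, hI2, hIa, haH]) (by norm_num) (by norm_num) (by norm_num)
  have hXl := hP.le_X (31 / 100) (21 / 250) (19 / 20) (by linarith only [hIa, haH, hI1, hI2]) (by linarith only [hI1, hI2, hIa, haH]) (by norm_num)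
  exact mid_den_box midA_up_den0
    ⟨⟨(by push_cast; linarith only [hu, hu1]), (by push_cast; linarith only [hu, hu1])⟩, ⟨(by push_cast; linarith only [hXu, hXl]), (by push_cast; linarith only [hXu, hXl])⟩,
        ⟨(by push_cast; linarith only [hI1, hI2, hIa, haH]), (by push_cast; linarith only [hI1, hI2, hIa, haH])⟩, (by push_cast; linarith only [hIa, haH, hI1, hI2]), (by push_cast; linarith only [hIa, haH, hI1, hI2])⟩

theorem midA_up_start {a I X : ℝ} (hP : MidPlace a I X) (hI : 1 / 20 ≤ I ∧ I ≤ 1 / 12) :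
    (eMidStart midUpA).eval (stabPt 0 X I a) ≤ 0 := by
  obtain ⟨hI1, hI2⟩ := hI
  have hIa := hP.I_le_a
  have haH := hP.a_le
  have hXu := hP.X_lt (31 / 100) (21 / 250) (567 / 100) (by linarith only [hIa, haH, hI1, hI2]) (by linarith only [hI1, hI2, hIa, haH]) (by norm_num) (by norm_num) (by norm_num)
  have hXl := hP.le_X (31 / 100) (21 / 250) (19 / 20) (by linarith only [hIa, haH, hI1, hI2]) (by linarith only [hI1, hI2, hIa, haH]) (by norm_num)
  exact mid_start_up_box hP (by decide) midA_up_start0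
    ⟨⟨by norm_num, by norm_num⟩, ⟨(by push_cast; linarith only [hXu, hXl]), (by push_cast; linarith only [hXu, hXl])⟩,
        ⟨(by push_cast; linarith only [hI1, hI2, hIa, haH]), (by push_cast; linarith only [hI1, hI2, hIa, haH])⟩, (by push_cast; linarith only [hIa, haH, hI1, hI2]), (by push_cast; linarith only [hIa, haH, hI1, hI2])⟩

end AllLow

end Vale.Agent.P100.Calib.Band
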