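import Vale.Agent.P100.Calib.SlabMidData
import Vale.Agent.P100.Calib.SlabAllStab

/-!
# Bands and exit curves for the dimensions from seven to twenty

The orbit stays between `midBandG` of the two bands of its piece and below the exit curve
`v midBracket = 2000 I`.
-/

namespace Vale.Agent.P100.Calib.Band

/-- A quadratic in `(a, I)`. -/
def midSix (c : MidSix) (I a : ℝ) : ℝ :=
  c.c0 + c.c1 * a + c.c2 * I + c.c3 * (a * a) + c.c4 * (a * I) + c.c5 * (I * I)

/-- A bilinear form in `(1, a)` and `(1, I)`. -/
def midFour (c : MidFour) (I a : ℝ) : ℝ := c.c0 + c.c1 * a + c.c2 * I + c.c3 * (a * I)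

/-- A thousand times `psi`. -/
def midPsi (c : MidBand) (I a u : ℝ) : ℝ :=
  midSix c.p0 I a + u * (midSix c.p1 I a + u * (midSix c.p2 I a + u * midSix c.p3 I a))

/-- A thousand times the derivative of `psi`. -/
def midPsiU (c : MidBand) (I a u : ℝ) : ℝ :=
  midSix c.p1 I a + u * (2 * midSix c.p2 I a + 3 * (u * midSix c.p3 I a))

/-- A thousand times the slope of a band in `v`. -/
def midK (c : MidBand) (I a b u : ℝ) : ℝ :=
  1000 * b - I * (midFour c.t0 I a + u * (midFour c.t1 I a + u * midFour c.t2 I a))

/-- Its derivative in `u`. -/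
def midKu (c : MidBand) (I a u : ℝ) : ℝ :=
  -(I * (midFour c.t1 I a + 2 * (u * midFour c.t2 I a)))

/-- A thousand times the numerator of a band. -/
def midN (c : MidBand) (I a b u v : ℝ) : ℝ :=
  1000 + midK c I a b u * v + I * midPsi c I a u

/-- Its derivative in `u`. -/
def midNu (c : MidBand) (I a u v : ℝ) : ℝ := midKu c I a u * v + I * midPsiU c I a u

/-- **A band.** -/
noncomputable def midBandG (c : MidBand) (a b u v : ℝ) : ℝ :=
  midN c (allStabI a b) a b u v / (1000 * allPole a b u)

/-- **The bracket of an exit curve**, a thousand times. -/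
def midBracket (e : MidExit) (I a u : ℝ) : ℝ :=
  midFour e.e0 I a + u * (midFour e.e1 I a + u * midFour e.e2 I a)

/-- Its derivative with the sign changed. -/
def midBracketDl (e : MidExit) (I a u : ℝ) : ℝ :=
  -(midFour e.e1 I a + 2 * (u * midFour e.e2 I a))

end Vale.Agent.P100.Calib.Band
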