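import Vale.Agent.P100.Calib.SlabAllLowExpr

/-!
# Bands for the dimensions from seven to twenty: numerators

The bands are `H = (1000 + (1000 b - I t) v + I psi)/(1000 (b - u a))` with `psi` cubic and `t`
quadratic in `u`; their coefficients are polynomials in `a` and `I`.
-/

namespace Vale.Agent.P100.Calib.Band

/-- Coefficients of `1, a, I, a^2, a I, I^2`. -/
structure MidSix where
  c0 : ℤ
  c1 : ℤ
  c2 : ℤ
  c3 : ℤ
  c4 : ℤ
  c5 : ℤ

/-- Coefficients of `1, a, I, a I`. -/
structure MidFour where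
  c0 : ℤ
  c1 : ℤ
  c2 : ℤ
  c3 : ℤ

/-- The coefficients of a band. -/
structure MidBand where
  p0 : MidSix
  p1 : MidSix
  p2 : MidSix
  p3 : MidSix
  t0 : MidFour
  t1 : MidFour
  t2 : MidFour

/-- The coefficients of an exit curve. -/
structure MidExit where
  e0 : MidFour
  e1 : MidFour
  e2 : MidFour

namespace AllLow

open Pack

local instance midExprAdd : Add Pack.Ex := ⟨Ex.add⟩
local instance midExprSub : Sub Pack.Ex := ⟨Ex.sub⟩
local instance midExprMul : Mul Pack.Ex := ⟨Ex.mul⟩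

/-- The variable `I`. -/
def eMI : Pack.Ex := .var 2

/-- The variable `a`. -/
def eMA : Pack.Ex := .var 3

/-- A quadratic in `(a, I)`. -/
def eSix (c : MidSix) : Pack.Ex :=
  eN c.c0 + eN c.c1 * eMA + eN c.c2 * eMI + eN c.c3 * (eMA * eMA) + eN c.c4 * (eMA * eMI) +
    eN c.c5 * (eMI * eMI)

/-- A bilinear form in `(1, a)` and `(1, I)`. -/
def eFour (c : MidFour) : Pack.Ex :=
  eN c.c0 + eN c.c1 * eMA + eN c.c2 * eMI + eN c.c3 * (eMA * eMI)

/-- `psi`. -/
def eMidPsi (c : MidBand) : Pack.Ex :=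
  eSix c.p0 + eU * (eSix c.p1 + eU * (eSix c.p2 + eU * eSix c.p3))

/-- The derivative of `psi`. -/
def eMidPsiU (c : MidBand) : Pack.Ex :=
  eSix c.p1 + eU * (eN 2 * eSix c.p2 + eN 3 * (eU * eSix c.p3))

/-- A thousand times the slope in `v`. -/
def eMidK (c : MidBand) : Pack.Ex :=
  eN 1000 * eB eMI eMA - eMI * (eFour c.t0 + eU * (eFour c.t1 + eU * eFour c.t2))

/-- Its derivative. -/
def eMidKu (c : MidBand) : Pack.Ex :=
  eN 0 - eMI * (eFour c.t1 + eN 2 * (eU * eFour c.t2))

/-- A thousand times the numerator of the band. -/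
def eMidN (c : MidBand) : Pack.Ex := eN 1000 + eMidK c * eV eMI + eMI * eMidPsi c

/-- Its derivative. -/
def eMidNu (c : MidBand) : Pack.Ex := eMidKu c * eV eMI + eMI * eMidPsiU c

/-- A thousand times `b - u a`. -/
def eMidGd : Pack.Ex := eN 1000 * eW eMI eMA

/-- The denominator of `qv`, times `Gd`. -/
def eMidDen (c : MidBand) : Pack.Ex :=
  (eN 2 + eDV eMI eMA) * eMidGd - eU * eD eMI eMA * eMidN c

/-- The numerator of `ev`, times `Gd`. -/
def eMidEn (c : MidBand) : Pack.Ex :=
  (eMidGd - eU * eD eMI eMA * eMidN c) * eQn eMI eMA -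
    eS eMI * (eN 1 - eU) * eB eMI eMA * eMidDen c

/-- The numerator of the radial speed, times `Gd`. -/
def eMidFlow (c : MidBand) : Pack.Ex :=
  eQn eMI eMA * eMidN c - eS eMI * (eN 1 - eMA * eV eMI) * eMidDen c

/-- The flow at a band, times `Gd ^ 3`. -/
def eMidNum (c : MidBand) : Pack.Ex :=
  eN 0 - (eMidGd - eU * eD eMI eMA * eMidN c) *
      (eQn eMI eMA * eMidN c - eS eMI * eQ eMI eMA * eMidDen c) * eMidGd -
    eMidN c * eMidEn c * eMidGd -
    eU * (eMidNu c * eMidGd - eMidN c * (eN (-1000) * eMA)) * eMidEn c -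
    eU * (eN 1 + eDV eMI eMA) * eMidK c * eMidGd * eMidFlow c

/-- The end of the range of `v`: `1 - (1 - 2 I) d X`. -/
def eMidGuard : Pack.Ex := eN 1 - eS eMI * eD eMI eMA * .var 1

/-- The start of the range of `v`: `X (1 + 2 I a) - 1`. -/
def eMidFloor : Pack.Ex := .var 1 * (eN 1 + eN 2 * eMI * eMA) - eN 1

/-- The flow at a lower band, less `1000 I` and multiples of the range conditions. -/
def eMidLow (c : MidBand) (l m n : ℤ) : Pack.Ex :=
  eMidNum c - eN 1000 * eMI - eN l * eMidGuard - eN m * (eMidGuard * (.var 1 * .var 1)) -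
    eN n * eMidFloor

/-- The same for an upper band. -/
def eMidUp (c : MidBand) (l m n : ℤ) : Pack.Ex :=
  eN 0 - eMidNum c - eN 1000 * eMI - eN l * eMidGuard - eN m * (eMidGuard * (.var 1 * .var 1)) -
    eN n * eMidFloor

/-- The denominator at a band, less one. -/
def eMidDenOne (c : MidBand) : Pack.Ex := eMidDen c - eN 1

/-- The start condition: `1000 b (1 + 2 I) (hc - H)/I`. -/
def eMidStart (c : MidBand) : Pack.Ex :=
  eN (-4000) - eJ eMI * eSix c.p0 +
    eV eMI * (eJ eMI * eFour c.t0 - eN 2000 * eD eMI eMA)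

/-- `1 - 2 I a X`. -/
def eMidAv : Pack.Ex := eN 1 - eN 2 * eMI * eMA * .var 1

/-- The start of a lower band less multiples of the range conditions. -/
def eMidStartLow (c : MidBand) (l m : ℤ) : Pack.Ex :=
  eMidStart c - eN l * eMidGuard - eN m * eMidAv

/-- The start of an upper band less multiples of the range conditions. -/
def eMidStartUp (c : MidBand) (l m : ℤ) : Pack.Ex :=
  eN 0 - eMidStart c - eN l * eMidGuard - eN m * eMidAv

/-- A thousand times the bracket of an exit curve. -/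
def eMidE (e : MidExit) : Pack.Ex := eFour e.e0 + eU * (eFour e.e1 + eU * eFour e.e2)

/-- Its derivative with the sign changed. -/
def eMidDl (e : MidExit) : Pack.Ex := eN (-1) * (eFour e.e1 + eN 2 * (eU * eFour e.e2))

/-- `v` times the bracket. -/
def eMidW : Pack.Ex := eN 2000 * eMI

/-- The band times the bracket. -/
def eMidNe (c : MidBand) (e : MidExit) : Pack.Ex :=
  (eN 1000 + eMI * eMidPsi c) * eMidE e + eMidK c * eMidW

/-- `qn` times the bracket. -/
def eMidQe (e : MidExit) : Pack.Ex :=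
  eB eMI eMA * (eN 2 * eMidE e + eD eMI eMA * eMidW) -
    eS eMI * eU * (eMidE e + eD eMI eMA * eMidW)

/-- The denominator of `qv`, cleared. -/
def eMidBig (c : MidBand) (e : MidExit) : Pack.Ex :=
  (eN 2 * eMidE e + eD eMI eMA * eMidW) * eMidGd - eU * eD eMI eMA * eMidNe c e

/-- The numerator of `ev`, cleared. -/
def eMidExitEn (c : MidBand) (e : MidExit) : Pack.Ex :=
  (eMidGd * eMidE e - eU * eD eMI eMA * eMidNe c e) * eMidQe e -
    eS eMI * (eN 1 - eU) * eB eMI eMA * eMidBig c e * eMidE e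

/-- The numerator of the radial speed, cleared. -/
def eMidExitFlow (c : MidBand) (e : MidExit) : Pack.Ex :=
  eMidQe e * eMidNe c e - eS eMI * (eMidE e - eMA * eMidW) * eMidBig c e

/-- The exit condition less `1000 I a` and multiples of `ev` and of the range conditions. -/
def eMidExit (c : MidBand) (e : MidExit) (k l m n : ℤ) : Pack.Ex :=
  eMidExitFlow c e * (eMidE e + eD eMI eMA * eMidW) * eMidE e -
    eMidW * eMidDl e * eMidExitEn c e - eN 1000 * (eMI * eMA) - eN k * eMidExitEn c e -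
    eN l * (eMidE e - eN 1000 * (eS eMI * eD eMI eMA)) - eN m * (eMidE e - eMidW * eMA) -
    eN n * (eN 1000 * (eN 1 + eN 2 * eMI * eMA) - eMidE e)

/-- The condition at the end: `-ev` at the band where the curve is crossed. -/
def eMidEnd (c : MidBand) (e : MidExit) (l m : ℤ) : Pack.Ex :=
  eN (-1000) * eMidEn c - eMI - eN l * (.var 1 * eMidE e - eN 1000) - eN m * eMidGuard

/-- The bracket less one. -/
def eMidEOne (e : MidExit) : Pack.Ex := eMidE e - eN 1

/-- A box: `X` in hundredths, the other three in thousandths. -/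
def midBox (u₀ u₁ X₀ X₁ I₀ I₁ a₀ a₁ : ℤ) : ℕ → Chart
  | 0 => ⟨u₀, u₁, 1000, 1000⟩
  | 1 => ⟨X₀, X₁, 100, 100⟩
  | 2 => ⟨I₀, I₁, 1000, 1000⟩
  | _ => ⟨a₀, a₁, 1000, 1000⟩

end AllLow

end Vale.Agent.P100.Calib.Band
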