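import Vale.Agent.P100.Calib.SlabMidHolePieces

/-!
# Checks of the piece 0
-/

set_option linter.defProp false

namespace Vale.Agent.P100.Calib.Closed.All.Low

/-- Checks of the piece 0. -/
def h0_group0 :
    ([hpiece0.checkM false .g false .lo,
      hpiece0.checkM false .g false .hi,
      hpiece0.checkM false .g false .mid,
      hpiece0.checkM false .g true .lo,
      hpiece0.checkM false .g true .hi,
      hpiece0.checkM false .g true .mid] : List QEx).all (fun q => checkShift hbox0 557 2 7 14 26 q.e) = true := by
  decide +kernel

/-- Checks of the piece 0. -/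
def h0_group1 :
    ([hpiece0.checkM false .n false .lo,
      hpiece0.checkM false .n false .hi,
      hpiece0.checkM false .n false .mid,
      hpiece0.checkM false .n true .lo,
      hpiece0.checkM false .n true .hi,
      hpiece0.checkM false .n true .mid] : List QEx).all (fun q => checkShift hbox0 679 4 8 18 31 q.e) = true := by
  decide +kernel

/-- Checks of the piece 0. -/
def h0_group2 :
    ([hpiece0.checkM false .tlo false .lo,
      hpiece0.checkM false .tlo false .hi,
      hpiece0.checkM false .tlo false .mid,
      hpiece0.checkM false .tlo true .lo,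
      hpiece0.checkM false .tlo true .hi,
      hpiece0.checkM false .tlo true .mid,
      hpiece0.checkM false .thi false .lo,
      hpiece0.checkM false .thi false .hi,
      hpiece0.checkM false .thi false .mid,
      hpiece0.checkM false .thi true .lo,
      hpiece0.checkM false .thi true .hi,
      hpiece0.checkM false .thi true .mid] : List QEx).all (fun q => checkShift hbox0 650 3 9 16 29 q.e) = true := by
  decide +kernel

/-- Checks of the piece 0. -/
def h0_group3 :
    ([hpiece0.checkM false .mlo false .lo,
      hpiece0.checkM false .mlo false .hi,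
      hpiece0.checkM false .mlo false .mid,
      hpiece0.checkM false .mhi false .lo,
      hpiece0.checkM false .mhi false .hi,
      hpiece0.checkM false .mhi false .mid] : List QEx).all (fun q => checkShift hbox0 451 4 5 10 18 q.e) = true := by
  decide +kernel

/-- Checks of the piece 0. -/
def h0_group4 :
    ([hpiece0.checkM false .f false .lo] : List QEx).all (fun q => checkShift hbox0 747 5 11 18 33 q.e) = true := by
  decide +kernel

/-- Checks of the piece 0. -/
def h0_group5 :
    ([hpiece0.checkM false .f false .hi] : List QEx).all (fun q => checkShift hbox0 747 5 11 18 33 q.e) = true := by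
  decide +kernel

/-- Checks of the piece 0. -/
def h0_group6 :
    ([hpiece0.checkM false .f false .mid] : List QEx).all (fun q => checkShift hbox0 768 5 11 18 33 q.e) = true := by
  decide +kernel

/-- Checks of the piece 0. -/
def h0_group7 :
    ([hpiece0.checkM false .f true .lo] : List QEx).all (fun q => checkShift hbox0 747 5 11 18 33 q.e) = true := by
  decide +kernel

/-- Checks of the piece 0. -/
def h0_group8 :
    ([hpiece0.checkM false .f true .hi] : List QEx).all (fun q => checkShift hbox0 747 5 11 18 33 q.e) = true := by
  decide +kernel

/-- Checks of the piece 0. -/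
def h0_group9 :
    ([hpiece0.checkM false .f true .mid] : List QEx).all (fun q => checkShift hbox0 768 5 11 18 33 q.e) = true := by
  decide +kernel

/-- Checks of the piece 0. -/
def h0_group10 :
    ([hpiece0.env bandSmall.lo bandSmall.hi bandSmall.pole .piL,
      hpiece0.env bandSmall.lo bandSmall.hi bandSmall.pole .piU] : List QEx).all (fun q => checkShift hbox0 187 3 2 4 8 q.e) = true := by
  decide +kernel

/-- Checks of the piece 0. -/
def h0_group11 :
    ([hpiece0.env bandSmall.hi bandSmall.hi bandSmall.pole .piL,
      hpiece0.env bandSmall.hi bandSmall.hi bandSmall.pole .piU] : List QEx).all (fun q => checkShift hbox0 193 4 2 4 8 q.e) = true := by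
  decide +kernel

/-- Checks of the piece 0. -/
def h0_group12 :
    ([hpiece0.env bandSmall.lo bandSmall.hi bandSmall.pole .omL,
      hpiece0.env bandSmall.lo bandSmall.hi bandSmall.pole .omU] : List QEx).all (fun q => checkShift hbox0 315 5 4 7 12 q.e) = true := by
  decide +kernel

/-- Checks of the piece 0. -/
def h0_group13 :
    ([hpiece0.env bandSmall.hi bandSmall.hi bandSmall.pole .omL,
      hpiece0.env bandSmall.hi bandSmall.hi bandSmall.pole .omU] : List QEx).all (fun q => checkShift hbox0 321 6 4 7 12 q.e) = true := by
  decide +kernel

/-- A check of the piece 0. -/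
def h0_tauL_lo_0 :
    checkShift hbox0_tauL_lo_0 393 7 4 9 15 (hpiece0.env bandSmall.lo bandSmall.hi bandSmall.pole .tauL).e = true := by
  decide +kernel

/-- A check of the piece 0. -/
def h0_tauL_lo_1 :
    checkShift hbox0_tauL_lo_1 393 7 4 9 15 (hpiece0.env bandSmall.lo bandSmall.hi bandSmall.pole .tauL).e = true := by
  decide +kernel

/-- A check of the piece 0. -/
def h0_tauL_hi_0 :
    checkShift hbox0_tauL_hi_0 405 7 4 9 15 (hpiece0.env bandSmall.hi bandSmall.hi bandSmall.pole .tauL).e = true := by
  decide +kernel

/-- A check of the piece 0. -/
def h0_tauL_hi_1 :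
    checkShift hbox0_tauL_hi_1 405 7 4 9 15 (hpiece0.env bandSmall.hi bandSmall.hi bandSmall.pole .tauL).e = true := by
  decide +kernel

/-- A check of the piece 0. -/
def h0_tauL_hi_2 :
    checkShift hbox0_tauL_hi_2 405 7 4 9 15 (hpiece0.env bandSmall.hi bandSmall.hi bandSmall.pole .tauL).e = true := by
  decide +kernel

/-- Checks of the piece 0. -/
def h0_group16 :
    ([hpiece0.env bandSmall.lo bandSmall.hi bandSmall.pole .tauU] : List QEx).all (fun q => checkShift hbox0 364 5 4 9 15 q.e) = true := by
  decide +kernel

/-- Checks of the piece 0. -/
def h0_group17 :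
    ([hpiece0.env bandSmall.hi bandSmall.hi bandSmall.pole .tauU] : List QEx).all (fun q => checkShift hbox0 375 7 4 9 15 q.e) = true := by
  decide +kernel

/-- Checks of the piece 0. -/
def h0_group18 :
    ([xLLGM false bandSmall.lo bandSmall.pole] : List QEx).all (fun q => checkShift hbox0 343 3 4 11 18 q.e) = true := by
  decide +kernel

/-- Checks of the piece 0. -/
def h0_group19 :
    ([xLLGM false bandSmall.hi bandSmall.pole] : List QEx).all (fun q => checkShift hbox0 349 4 4 11 18 q.e) = true := by
  decide +kernel

/-- Checks of the piece 0. -/
def h0_group20 :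
    ([hpiece0.wid - qD 1] : List QEx).all (fun q => checkShift hbox0 71 1 1 1 1 q.e) = true := by
  decide +kernel

/-- Checks of the piece 0. -/
def h0_group21 :
    ([hpiece0.side .rA,
      hpiece0.side .rB] : List QEx).all (fun q => checkShift hbox0 41 1 1 0 0 q.e) = true := by
  decide +kernel

/-- Checks of the piece 0. -/
def h0_group22 :
    ([hpiece0.side .rF] : List QEx).all (fun q => checkShift hbox0 76 2 2 0 0 q.e) = true := by
  decide +kernel

/-- Checks of the piece 0. -/
def h0_group23 :
    ([hpiece0.side .q] : List QEx).all (fun q => checkShift hbox0 51 0 1 1 2 q.e) = true := by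
  decide +kernel

/-- Checks of the piece 0. -/
def h0_group24 :
    ([hpiece0.side .om] : List QEx).all (fun q => checkShift hbox0 153 1 2 4 6 q.e) = true := by
  decide +kernel

/-- The exit curve on the box of piece 0. -/
def hexit0_check :
    checkShift hexit0Box 80 2 0 1 1 (xExitM Band.midExitC 61 50).e = true := by
  decide +kernel

end Vale.Agent.P100.Calib.Closed.All.Low
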