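import Vale.Agent.P100.Calib.SlabMidHolePieces

/-!
# Checks of the piece 1
-/

set_option linter.defProp false

namespace Vale.Agent.P100.Calib.Closed.All.Low

/-- Checks of the piece 1. -/
def h1_group0 :
    ([hpiece1.checkM false .g false .lo,
      hpiece1.checkM false .g false .hi,
      hpiece1.checkM false .g false .mid,
      hpiece1.checkM false .g true .lo,
      hpiece1.checkM false .g true .hi,
      hpiece1.checkM false .g true .mid] : List QEx).all (fun q => checkShift hbox1 558 2 7 14 26 q.e) = true := by
  decide +kernel

/-- Checks of the piece 1. -/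
def h1_group1 :
    ([hpiece1.checkM false .n false .lo,
      hpiece1.checkM false .n false .hi,
      hpiece1.checkM false .n false .mid,
      hpiece1.checkM false .n true .lo,
      hpiece1.checkM false .n true .hi,
      hpiece1.checkM false .n true .mid] : List QEx).all (fun q => checkShift hbox1 679 4 8 18 31 q.e) = true := by
  decide +kernel

/-- Checks of the piece 1. -/
def h1_group2 :
    ([hpiece1.checkM false .tlo false .lo,
      hpiece1.checkM false .tlo false .hi,
      hpiece1.checkM false .tlo false .mid,
      hpiece1.checkM false .tlo true .lo,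
      hpiece1.checkM false .tlo true .hi,
      hpiece1.checkM false .tlo true .mid,
      hpiece1.checkM false .thi false .lo,
      hpiece1.checkM false .thi false .hi,
      hpiece1.checkM false .thi false .mid,
      hpiece1.checkM false .thi true .lo,
      hpiece1.checkM false .thi true .hi,
      hpiece1.checkM false .thi true .mid] : List QEx).all (fun q => checkShift hbox1 651 3 9 16 29 q.e) = true := by
  decide +kernel

/-- Checks of the piece 1. -/
def h1_group3 :
    ([hpiece1.checkM false .mlo false .lo,
      hpiece1.checkM false .mlo false .hi,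
      hpiece1.checkM false .mlo false .mid,
      hpiece1.checkM false .mhi false .lo,
      hpiece1.checkM false .mhi false .hi,
      hpiece1.checkM false .mhi false .mid] : List QEx).all (fun q => checkShift hbox1 451 4 5 10 18 q.e) = true := by
  decide +kernel

/-- Checks of the piece 1. -/
def h1_group4 :
    ([hpiece1.checkM false .f false .lo] : List QEx).all (fun q => checkShift hbox1 748 5 11 18 33 q.e) = true := by
  decide +kernel

/-- Checks of the piece 1. -/
def h1_group5 :
    ([hpiece1.checkM false .f false .hi] : List QEx).all (fun q => checkShift hbox1 747 5 11 18 33 q.e) = true := by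
  decide +kernel

/-- Checks of the piece 1. -/
def h1_group6 :
    ([hpiece1.checkM false .f false .mid] : List QEx).all (fun q => checkShift hbox1 769 5 11 18 33 q.e) = true := by
  decide +kernel

/-- Checks of the piece 1. -/
def h1_group7 :
    ([hpiece1.checkM false .f true .lo] : List QEx).all (fun q => checkShift hbox1 748 5 11 18 33 q.e) = true := by
  decide +kernel

/-- Checks of the piece 1. -/
def h1_group8 :
    ([hpiece1.checkM false .f true .hi] : List QEx).all (fun q => checkShift hbox1 747 5 11 18 33 q.e) = true := by
  decide +kernel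

/-- Checks of the piece 1. -/
def h1_group9 :
    ([hpiece1.checkM false .f true .mid] : List QEx).all (fun q => checkShift hbox1 769 5 11 18 33 q.e) = true := by
  decide +kernel

/-- A check of the piece 1. -/
def h1_piL_lo_0 :
    checkShift hbox1_piL_lo_0 238 5 2 4 7 (hpiece1.env (bandMid Band.midLowC Band.midUpC).lo (bandMid Band.midLowC Band.midUpC).hi (bandMid Band.midLowC Band.midUpC).pole .piL).e = true := by
  decide +kernel

/-- A check of the piece 1. -/
def h1_piL_lo_1 :
    checkShift hbox1_piL_lo_1 238 5 2 4 7 (hpiece1.env (bandMid Band.midLowC Band.midUpC).lo (bandMid Band.midLowC Band.midUpC).hi (bandMid Band.midLowC Band.midUpC).pole .piL).e = true := by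
  decide +kernel

/-- A check of the piece 1. -/
def h1_piL_lo_2 :
    checkShift hbox1_piL_lo_2 238 5 2 4 7 (hpiece1.env (bandMid Band.midLowC Band.midUpC).lo (bandMid Band.midLowC Band.midUpC).hi (bandMid Band.midLowC Band.midUpC).pole .piL).e = true := by
  decide +kernel

/-- A check of the piece 1. -/
def h1_piL_lo_3 :
    checkShift hbox1_piL_lo_3 238 5 2 4 7 (hpiece1.env (bandMid Band.midLowC Band.midUpC).lo (bandMid Band.midLowC Band.midUpC).hi (bandMid Band.midLowC Band.midUpC).pole .piL).e = true := by
  decide +kernel

/-- Checks of the piece 1. -/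
def h1_group11 :
    ([hpiece1.env (bandMid Band.midLowC Band.midUpC).hi (bandMid Band.midLowC Band.midUpC).hi (bandMid Band.midLowC Band.midUpC).pole .piL,
      hpiece1.env (bandMid Band.midLowC Band.midUpC).lo (bandMid Band.midLowC Band.midUpC).hi (bandMid Band.midLowC Band.midUpC).pole .piU] : List QEx).all (fun q => checkShift hbox1 196 5 2 4 7 q.e) = true := by
  decide +kernel

/-- A check of the piece 1. -/
def h1_piU_hi_0 :
    checkShift hbox1_piU_hi_0 214 5 2 4 7 (hpiece1.env (bandMid Band.midLowC Band.midUpC).hi (bandMid Band.midLowC Band.midUpC).hi (bandMid Band.midLowC Band.midUpC).pole .piU).e = true := by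
  decide +kernel

/-- A check of the piece 1. -/
def h1_piU_hi_1 :
    checkShift hbox1_piU_hi_1 214 5 2 4 7 (hpiece1.env (bandMid Band.midLowC Band.midUpC).hi (bandMid Band.midLowC Band.midUpC).hi (bandMid Band.midLowC Band.midUpC).pole .piU).e = true := by
  decide +kernel

/-- Checks of the piece 1. -/
def h1_group13 :
    ([hpiece1.env (bandMid Band.midLowC Band.midUpC).lo (bandMid Band.midLowC Band.midUpC).hi (bandMid Band.midLowC Band.midUpC).pole .omL,
      hpiece1.env (bandMid Band.midLowC Band.midUpC).hi (bandMid Band.midLowC Band.midUpC).hi (bandMid Band.midLowC Band.midUpC).pole .omL] : List QEx).all (fun q => checkShift hbox1 325 7 4 7 11 q.e) = true := by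
  decide +kernel

/-- A check of the piece 1. -/
def h1_omU_lo_0 :
    checkShift hbox1_omU_lo_0 379 7 4 7 11 (hpiece1.env (bandMid Band.midLowC Band.midUpC).lo (bandMid Band.midLowC Band.midUpC).hi (bandMid Band.midLowC Band.midUpC).pole .omU).e = true := by
  decide +kernel

/-- A check of the piece 1. -/
def h1_omU_lo_1 :
    checkShift hbox1_omU_lo_1 379 7 4 7 11 (hpiece1.env (bandMid Band.midLowC Band.midUpC).lo (bandMid Band.midLowC Band.midUpC).hi (bandMid Band.midLowC Band.midUpC).pole .omU).e = true := by
  decide +kernel

/-- A check of the piece 1. -/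
def h1_omU_lo_2 :
    checkShift hbox1_omU_lo_2 379 7 4 7 11 (hpiece1.env (bandMid Band.midLowC Band.midUpC).lo (bandMid Band.midLowC Band.midUpC).hi (bandMid Band.midLowC Band.midUpC).pole .omU).e = true := by
  decide +kernel

/-- A check of the piece 1. -/
def h1_omU_lo_3 :
    checkShift hbox1_omU_lo_3 379 7 4 7 11 (hpiece1.env (bandMid Band.midLowC Band.midUpC).lo (bandMid Band.midLowC Band.midUpC).hi (bandMid Band.midLowC Band.midUpC).pole .omU).e = true := by
  decide +kernel

/-- A check of the piece 1. -/
def h1_omU_lo_4 :
    checkShift hbox1_omU_lo_4 379 7 4 7 11 (hpiece1.env (bandMid Band.midLowC Band.midUpC).lo (bandMid Band.midLowC Band.midUpC).hi (bandMid Band.midLowC Band.midUpC).pole .omU).e = true := by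
  decide +kernel

/-- A check of the piece 1. -/
def h1_omU_hi_0 :
    checkShift hbox1_omU_hi_0 367 7 4 7 11 (hpiece1.env (bandMid Band.midLowC Band.midUpC).hi (bandMid Band.midLowC Band.midUpC).hi (bandMid Band.midLowC Band.midUpC).pole .omU).e = true := by
  decide +kernel

/-- A check of the piece 1. -/
def h1_omU_hi_1 :
    checkShift hbox1_omU_hi_1 367 7 4 7 11 (hpiece1.env (bandMid Band.midLowC Band.midUpC).hi (bandMid Band.midLowC Band.midUpC).hi (bandMid Band.midLowC Band.midUpC).pole .omU).e = true := by
  decide +kernel

/-- A check of the piece 1. -/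
def h1_omU_hi_2 :
    checkShift hbox1_omU_hi_2 367 7 4 7 11 (hpiece1.env (bandMid Band.midLowC Band.midUpC).hi (bandMid Band.midLowC Band.midUpC).hi (bandMid Band.midLowC Band.midUpC).pole .omU).e = true := by
  decide +kernel

/-- A check of the piece 1. -/
def h1_omU_hi_3 :
    checkShift hbox1_omU_hi_3 367 7 4 7 11 (hpiece1.env (bandMid Band.midLowC Band.midUpC).hi (bandMid Band.midLowC Band.midUpC).hi (bandMid Band.midLowC Band.midUpC).pole .omU).e = true := by
  decide +kernel

/-- A check of the piece 1. -/
def h1_omU_hi_4 :
    checkShift hbox1_omU_hi_4 367 7 4 7 11 (hpiece1.env (bandMid Band.midLowC Band.midUpC).hi (bandMid Band.midLowC Band.midUpC).hi (bandMid Band.midLowC Band.midUpC).pole .omU).e = true := by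
  decide +kernel

/-- A check of the piece 1. -/
def h1_tauL_lo_0 :
    checkShift hbox1_tauL_lo_0 381 9 4 8 12 (hpiece1.env (bandMid Band.midLowC Band.midUpC).lo (bandMid Band.midLowC Band.midUpC).hi (bandMid Band.midLowC Band.midUpC).pole .tauL).e = true := by
  decide +kernel

/-- A check of the piece 1. -/
def h1_tauL_lo_1 :
    checkShift hbox1_tauL_lo_1 381 9 4 8 12 (hpiece1.env (bandMid Band.midLowC Band.midUpC).lo (bandMid Band.midLowC Band.midUpC).hi (bandMid Band.midLowC Band.midUpC).pole .tauL).e = true := by
  decide +kernel

/-- A check of the piece 1. -/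
def h1_tauL_hi_0 :
    checkShift hbox1_tauL_hi_0 381 9 4 8 12 (hpiece1.env (bandMid Band.midLowC Band.midUpC).hi (bandMid Band.midLowC Band.midUpC).hi (bandMid Band.midLowC Band.midUpC).pole .tauL).e = true := by
  decide +kernel

/-- A check of the piece 1. -/
def h1_tauL_hi_1 :
    checkShift hbox1_tauL_hi_1 381 9 4 8 12 (hpiece1.env (bandMid Band.midLowC Band.midUpC).hi (bandMid Band.midLowC Band.midUpC).hi (bandMid Band.midLowC Band.midUpC).pole .tauL).e = true := by
  decide +kernel

/-- Checks of the piece 1. -/
def h1_group18 :
    ([hpiece1.env (bandMid Band.midLowC Band.midUpC).lo (bandMid Band.midLowC Band.midUpC).hi (bandMid Band.midLowC Band.midUpC).pole .tauU,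
      hpiece1.env (bandMid Band.midLowC Band.midUpC).hi (bandMid Band.midLowC Band.midUpC).hi (bandMid Band.midLowC Band.midUpC).pole .tauU] : List QEx).all (fun q => checkShift hbox1 363 9 4 8 12 q.e) = true := by
  decide +kernel

/-- Checks of the piece 1. -/
def h1_group19 :
    ([xLLGM false (bandMid Band.midLowC Band.midUpC).lo (bandMid Band.midLowC Band.midUpC).pole,
      xLLGM false (bandMid Band.midLowC Band.midUpC).hi (bandMid Band.midLowC Band.midUpC).pole] : List QEx).all (fun q => checkShift hbox1 352 5 4 11 17 q.e) = true := by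
  decide +kernel

/-- Checks of the piece 1. -/
def h1_group20 :
    ([hpiece1.wid - qD 1] : List QEx).all (fun q => checkShift hbox1 72 1 1 1 1 q.e) = true := by
  decide +kernel

/-- Checks of the piece 1. -/
def h1_group21 :
    ([hpiece1.side .rA,
      hpiece1.side .rB] : List QEx).all (fun q => checkShift hbox1 41 1 1 0 0 q.e) = true := by
  decide +kernel

/-- Checks of the piece 1. -/
def h1_group22 :
    ([hpiece1.side .rF] : List QEx).all (fun q => checkShift hbox1 76 2 2 0 0 q.e) = true := by
  decide +kernel

/-- Checks of the piece 1. -/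
def h1_group23 :
    ([hpiece1.side .q] : List QEx).all (fun q => checkShift hbox1 51 0 1 1 2 q.e) = true := by
  decide +kernel

/-- Checks of the piece 1. -/
def h1_group24 :
    ([hpiece1.side .om] : List QEx).all (fun q => checkShift hbox1 154 1 2 4 6 q.e) = true := by
  decide +kernel

/-- The exit curve on the box of piece 1. -/
def hexit1_check :
    checkShift hexit1Box 80 2 0 1 1 (xExitM Band.midExitC 42 25).e = true := by
  decide +kernel

end Vale.Agent.P100.Calib.Closed.All.Low
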