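import Vale.Agent.P100.Calib.SlabMidHolePieces

/-!
# Checks of the piece 2
-/

set_option linter.defProp false

namespace Vale.Agent.P100.Calib.Closed.All.Low

/-- Checks of the piece 2. -/
def h2_group0 :
    ([hpiece2.checkM false .g false .lo,
      hpiece2.checkM false .g false .hi,
      hpiece2.checkM false .g false .mid,
      hpiece2.checkM false .g true .lo,
      hpiece2.checkM false .g true .hi,
      hpiece2.checkM false .g true .mid] : List QEx).all (fun q => checkShift hbox2 520 2 7 14 26 q.e) = true := by
  decide +kernel

/-- Checks of the piece 2. -/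
def h2_group1 :
    ([hpiece2.checkM false .n false .lo,
      hpiece2.checkM false .n false .hi,
      hpiece2.checkM false .n false .mid,
      hpiece2.checkM false .n true .lo,
      hpiece2.checkM false .n true .hi,
      hpiece2.checkM false .n true .mid] : List QEx).all (fun q => checkShift hbox2 627 4 8 18 31 q.e) = true := by
  decide +kernel

/-- Checks of the piece 2. -/
def h2_group2 :
    ([hpiece2.checkM false .tlo false .lo,
      hpiece2.checkM false .tlo false .hi,
      hpiece2.checkM false .tlo false .mid,
      hpiece2.checkM false .tlo true .lo,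
      hpiece2.checkM false .tlo true .hi,
      hpiece2.checkM false .tlo true .mid,
      hpiece2.checkM false .thi false .lo,
      hpiece2.checkM false .thi false .hi,
      hpiece2.checkM false .thi false .mid,
      hpiece2.checkM false .thi true .lo,
      hpiece2.checkM false .thi true .hi,
      hpiece2.checkM false .thi true .mid] : List QEx).all (fun q => checkShift hbox2 606 3 9 16 29 q.e) = true := by
  decide +kernel

/-- Checks of the piece 2. -/
def h2_group3 :
    ([hpiece2.checkM false .mlo false .lo,
      hpiece2.checkM false .mlo false .hi,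
      hpiece2.checkM false .mlo false .mid,
      hpiece2.checkM false .mhi false .lo,
      hpiece2.checkM false .mhi false .hi,
      hpiece2.checkM false .mhi false .mid] : List QEx).all (fun q => checkShift hbox2 419 4 5 10 18 q.e) = true := by
  decide +kernel

/-- Checks of the piece 2. -/
def h2_group4 :
    ([hpiece2.checkM false .f false .lo] : List QEx).all (fun q => checkShift hbox2 693 5 11 18 33 q.e) = true := by
  decide +kernel

/-- Checks of the piece 2. -/
def h2_group5 :
    ([hpiece2.checkM false .f false .hi] : List QEx).all (fun q => checkShift hbox2 693 5 11 18 33 q.e) = true := by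
  decide +kernel

/-- Checks of the piece 2. -/
def h2_group6 :
    ([hpiece2.checkM false .f false .mid] : List QEx).all (fun q => checkShift hbox2 714 5 11 18 33 q.e) = true := by
  decide +kernel

/-- Checks of the piece 2. -/
def h2_group7 :
    ([hpiece2.checkM false .f true .lo] : List QEx).all (fun q => checkShift hbox2 693 5 11 18 33 q.e) = true := by
  decide +kernel

/-- Checks of the piece 2. -/
def h2_group8 :
    ([hpiece2.checkM false .f true .hi] : List QEx).all (fun q => checkShift hbox2 693 5 11 18 33 q.e) = true := by
  decide +kernel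

/-- Checks of the piece 2. -/
def h2_group9 :
    ([hpiece2.checkM false .f true .mid] : List QEx).all (fun q => checkShift hbox2 714 5 11 18 33 q.e) = true := by
  decide +kernel

/-- Checks of the piece 2. -/
def h2_group10 :
    ([hpiece2.env (bandMid Band.midLowC Band.midUpC).lo (bandMid Band.midLowC Band.midUpC).hi (bandMid Band.midLowC Band.midUpC).pole .piL,
      hpiece2.env (bandMid Band.midLowC Band.midUpC).hi (bandMid Band.midLowC Band.midUpC).hi (bandMid Band.midLowC Band.midUpC).pole .piL,
      hpiece2.env (bandMid Band.midLowC Band.midUpC).lo (bandMid Band.midLowC Band.midUpC).hi (bandMid Band.midLowC Band.midUpC).pole .piU] : List QEx).all (fun q => checkShift hbox2 176 5 2 4 7 q.e) = true := by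
  decide +kernel

/-- A check of the piece 2. -/
def h2_piU_hi_0 :
    checkShift hbox2_piU_hi_0 194 5 2 4 7 (hpiece2.env (bandMid Band.midLowC Band.midUpC).hi (bandMid Band.midLowC Band.midUpC).hi (bandMid Band.midLowC Band.midUpC).pole .piU).e = true := by
  decide +kernel

/-- A check of the piece 2. -/
def h2_piU_hi_1 :
    checkShift hbox2_piU_hi_1 194 5 2 4 7 (hpiece2.env (bandMid Band.midLowC Band.midUpC).hi (bandMid Band.midLowC Band.midUpC).hi (bandMid Band.midLowC Band.midUpC).pole .piU).e = true := by
  decide +kernel

/-- Checks of the piece 2. -/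
def h2_group12 :
    ([hpiece2.env (bandMid Band.midLowC Band.midUpC).lo (bandMid Band.midLowC Band.midUpC).hi (bandMid Band.midLowC Band.midUpC).pole .omL,
      hpiece2.env (bandMid Band.midLowC Band.midUpC).hi (bandMid Band.midLowC Band.midUpC).hi (bandMid Band.midLowC Band.midUpC).pole .omL] : List QEx).all (fun q => checkShift hbox2 293 7 4 7 11 q.e) = true := by
  decide +kernel

/-- A check of the piece 2. -/
def h2_omU_lo_0 :
    checkShift hbox2_omU_lo_0 323 7 4 7 11 (hpiece2.env (bandMid Band.midLowC Band.midUpC).lo (bandMid Band.midLowC Band.midUpC).hi (bandMid Band.midLowC Band.midUpC).pole .omU).e = true := by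
  decide +kernel

/-- A check of the piece 2. -/
def h2_omU_lo_1 :
    checkShift hbox2_omU_lo_1 323 7 4 7 11 (hpiece2.env (bandMid Band.midLowC Band.midUpC).lo (bandMid Band.midLowC Band.midUpC).hi (bandMid Band.midLowC Band.midUpC).pole .omU).e = true := by
  decide +kernel

/-- A check of the piece 2. -/
def h2_omU_lo_2 :
    checkShift hbox2_omU_lo_2 323 7 4 7 11 (hpiece2.env (bandMid Band.midLowC Band.midUpC).lo (bandMid Band.midLowC Band.midUpC).hi (bandMid Band.midLowC Band.midUpC).pole .omU).e = true := by
  decide +kernel

/-- A check of the piece 2. -/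
def h2_omU_lo_3 :
    checkShift hbox2_omU_lo_3 323 7 4 7 11 (hpiece2.env (bandMid Band.midLowC Band.midUpC).lo (bandMid Band.midLowC Band.midUpC).hi (bandMid Band.midLowC Band.midUpC).pole .omU).e = true := by
  decide +kernel

/-- A check of the piece 2. -/
def h2_omU_hi_0 :
    checkShift hbox2_omU_hi_0 311 7 4 7 11 (hpiece2.env (bandMid Band.midLowC Band.midUpC).hi (bandMid Band.midLowC Band.midUpC).hi (bandMid Band.midLowC Band.midUpC).pole .omU).e = true := by
  decide +kernel

/-- A check of the piece 2. -/
def h2_omU_hi_1 :
    checkShift hbox2_omU_hi_1 311 7 4 7 11 (hpiece2.env (bandMid Band.midLowC Band.midUpC).hi (bandMid Band.midLowC Band.midUpC).hi (bandMid Band.midLowC Band.midUpC).pole .omU).e = true := by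
  decide +kernel

/-- Checks of the piece 2. -/
def h2_group15 :
    ([hpiece2.env (bandMid Band.midLowC Band.midUpC).lo (bandMid Band.midLowC Band.midUpC).hi (bandMid Band.midLowC Band.midUpC).pole .tauL,
      hpiece2.env (bandMid Band.midLowC Band.midUpC).hi (bandMid Band.midLowC Band.midUpC).hi (bandMid Band.midLowC Band.midUpC).pole .tauL,
      hpiece2.env (bandMid Band.midLowC Band.midUpC).lo (bandMid Band.midLowC Band.midUpC).hi (bandMid Band.midLowC Band.midUpC).pole .tauU,
      hpiece2.env (bandMid Band.midLowC Band.midUpC).hi (bandMid Band.midLowC Band.midUpC).hi (bandMid Band.midLowC Band.midUpC).pole .tauU] : List QEx).all (fun q => checkShift hbox2 323 9 4 8 12 q.e) = true := by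
  decide +kernel

/-- Checks of the piece 2. -/
def h2_group16 :
    ([xLLGM false (bandMid Band.midLowC Band.midUpC).lo (bandMid Band.midLowC Band.midUpC).pole,
      xLLGM false (bandMid Band.midLowC Band.midUpC).hi (bandMid Band.midLowC Band.midUpC).pole] : List QEx).all (fun q => checkShift hbox2 316 5 4 11 17 q.e) = true := by
  decide +kernel

/-- Checks of the piece 2. -/
def h2_group17 :
    ([hpiece2.wid - qD 1] : List QEx).all (fun q => checkShift hbox2 67 1 1 1 1 q.e) = true := by
  decide +kernel

/-- Checks of the piece 2. -/
def h2_group18 :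
    ([hpiece2.side .rA,
      hpiece2.side .rB] : List QEx).all (fun q => checkShift hbox2 38 1 1 0 0 q.e) = true := by
  decide +kernel

/-- A check of the piece 2. -/
def h2_side_rF_0 :
    checkShift hbox2_side_rF_0 87 2 2 0 0 (hpiece2.side .rF).e = true := by
  decide +kernel

/-- A check of the piece 2. -/
def h2_side_rF_1 :
    checkShift hbox2_side_rF_1 87 2 2 0 0 (hpiece2.side .rF).e = true := by
  decide +kernel

/-- Checks of the piece 2. -/
def h2_group20 :
    ([hpiece2.side .q] : List QEx).all (fun q => checkShift hbox2 49 0 1 1 2 q.e) = true := by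
  decide +kernel

/-- Checks of the piece 2. -/
def h2_group21 :
    ([hpiece2.side .om] : List QEx).all (fun q => checkShift hbox2 142 1 2 4 6 q.e) = true := by
  decide +kernel

/-- The exit curve on the box of piece 2. -/
def hexit2_check :
    checkShift hexit2Box 80 2 0 1 1 (xExitM Band.midExitC 49 25).e = true := by
  decide +kernel

end Vale.Agent.P100.Calib.Closed.All.Low
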