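import Vale.Agent.P100.Calib.SlabMidHolePieces

/-!
# Checks of the piece 3
-/

set_option linter.defProp false

namespace Vale.Agent.P100.Calib.Closed.All.Low

/-- Checks of the piece 3. -/
def h3_group0 :
    ([hpiece3.checkM false .g false .lo,
      hpiece3.checkM false .g false .hi,
      hpiece3.checkM false .g false .mid,
      hpiece3.checkM false .g true .lo,
      hpiece3.checkM false .g true .hi,
      hpiece3.checkM false .g true .mid] : List QEx).all (fun q => checkShift hbox3 525 2 7 14 26 q.e) = true := by
  decide +kernel

/-- Checks of the piece 3. -/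
def h3_group1 :
    ([hpiece3.checkM false .n false .lo,
      hpiece3.checkM false .n false .hi,
      hpiece3.checkM false .n false .mid,
      hpiece3.checkM false .n true .lo,
      hpiece3.checkM false .n true .hi,
      hpiece3.checkM false .n true .mid] : List QEx).all (fun q => checkShift hbox3 635 4 8 18 31 q.e) = true := by
  decide +kernel

/-- Checks of the piece 3. -/
def h3_group2 :
    ([hpiece3.checkM false .tlo false .lo,
      hpiece3.checkM false .tlo false .hi,
      hpiece3.checkM false .tlo false .mid,
      hpiece3.checkM false .tlo true .lo,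
      hpiece3.checkM false .tlo true .hi,
      hpiece3.checkM false .tlo true .mid,
      hpiece3.checkM false .thi false .lo,
      hpiece3.checkM false .thi false .hi,
      hpiece3.checkM false .thi false .mid,
      hpiece3.checkM false .thi true .lo,
      hpiece3.checkM false .thi true .hi,
      hpiece3.checkM false .thi true .mid] : List QEx).all (fun q => checkShift hbox3 608 3 9 16 29 q.e) = true := by
  decide +kernel

/-- Checks of the piece 3. -/
def h3_group3 :
    ([hpiece3.checkM false .mlo false .lo,
      hpiece3.checkM false .mlo false .hi,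
      hpiece3.checkM false .mlo false .mid,
      hpiece3.checkM false .mhi false .lo,
      hpiece3.checkM false .mhi false .hi,
      hpiece3.checkM false .mhi false .mid] : List QEx).all (fun q => checkShift hbox3 422 4 5 10 18 q.e) = true := by
  decide +kernel

/-- Checks of the piece 3. -/
def h3_group4 :
    ([hpiece3.checkM false .f false .lo] : List QEx).all (fun q => checkShift hbox3 694 5 11 18 33 q.e) = true := by
  decide +kernel

/-- Checks of the piece 3. -/
def h3_group5 :
    ([hpiece3.checkM false .f false .hi] : List QEx).all (fun q => checkShift hbox3 694 5 11 18 33 q.e) = true := by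
  decide +kernel

/-- Checks of the piece 3. -/
def h3_group6 :
    ([hpiece3.checkM false .f false .mid] : List QEx).all (fun q => checkShift hbox3 715 5 11 18 33 q.e) = true := by
  decide +kernel

/-- Checks of the piece 3. -/
def h3_group7 :
    ([hpiece3.checkM false .f true .lo] : List QEx).all (fun q => checkShift hbox3 694 5 11 18 33 q.e) = true := by
  decide +kernel

/-- Checks of the piece 3. -/
def h3_group8 :
    ([hpiece3.checkM false .f true .hi] : List QEx).all (fun q => checkShift hbox3 694 5 11 18 33 q.e) = true := by
  decide +kernel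

/-- Checks of the piece 3. -/
def h3_group9 :
    ([hpiece3.checkM false .f true .mid] : List QEx).all (fun q => checkShift hbox3 715 5 11 18 33 q.e) = true := by
  decide +kernel

/-- A check of the piece 3. -/
def h3_piL_lo_0 :
    checkShift hbox3_piL_lo_0 195 5 2 4 7 (hpiece3.env (bandMid Band.midLowC Band.midUpC).lo (bandMid Band.midLowC Band.midUpC).hi (bandMid Band.midLowC Band.midUpC).pole .piL).e = true := by
  decide +kernel

/-- A check of the piece 3. -/
def h3_piL_lo_1 :
    checkShift hbox3_piL_lo_1 195 5 2 4 7 (hpiece3.env (bandMid Band.midLowC Band.midUpC).lo (bandMid Band.midLowC Band.midUpC).hi (bandMid Band.midLowC Band.midUpC).pole .piL).e = true := by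
  decide +kernel

/-- Checks of the piece 3. -/
def h3_group11 :
    ([hpiece3.env (bandMid Band.midLowC Band.midUpC).hi (bandMid Band.midLowC Band.midUpC).hi (bandMid Band.midLowC Band.midUpC).pole .piL,
      hpiece3.env (bandMid Band.midLowC Band.midUpC).lo (bandMid Band.midLowC Band.midUpC).hi (bandMid Band.midLowC Band.midUpC).pole .piU] : List QEx).all (fun q => checkShift hbox3 177 5 2 4 7 q.e) = true := by
  decide +kernel

/-- A check of the piece 3. -/
def h3_piU_hi_0 :
    checkShift hbox3_piU_hi_0 207 5 2 4 7 (hpiece3.env (bandMid Band.midLowC Band.midUpC).hi (bandMid Band.midLowC Band.midUpC).hi (bandMid Band.midLowC Band.midUpC).pole .piU).e = true := by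
  decide +kernel

/-- A check of the piece 3. -/
def h3_piU_hi_1 :
    checkShift hbox3_piU_hi_1 207 5 2 4 7 (hpiece3.env (bandMid Band.midLowC Band.midUpC).hi (bandMid Band.midLowC Band.midUpC).hi (bandMid Band.midLowC Band.midUpC).pole .piU).e = true := by
  decide +kernel

/-- A check of the piece 3. -/
def h3_piU_hi_2 :
    checkShift hbox3_piU_hi_2 207 5 2 4 7 (hpiece3.env (bandMid Band.midLowC Band.midUpC).hi (bandMid Band.midLowC Band.midUpC).hi (bandMid Band.midLowC Band.midUpC).pole .piU).e = true := by
  decide +kernel

/-- Checks of the piece 3. -/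
def h3_group13 :
    ([hpiece3.env (bandMid Band.midLowC Band.midUpC).lo (bandMid Band.midLowC Band.midUpC).hi (bandMid Band.midLowC Band.midUpC).pole .omL,
      hpiece3.env (bandMid Band.midLowC Band.midUpC).hi (bandMid Band.midLowC Band.midUpC).hi (bandMid Band.midLowC Band.midUpC).pole .omL] : List QEx).all (fun q => checkShift hbox3 295 7 4 7 11 q.e) = true := by
  decide +kernel

/-- A check of the piece 3. -/
def h3_omU_lo_0 :
    checkShift hbox3_omU_lo_0 325 7 4 7 11 (hpiece3.env (bandMid Band.midLowC Band.midUpC).lo (bandMid Band.midLowC Band.midUpC).hi (bandMid Band.midLowC Band.midUpC).pole .omU).e = true := by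
  decide +kernel

/-- A check of the piece 3. -/
def h3_omU_lo_1 :
    checkShift hbox3_omU_lo_1 325 7 4 7 11 (hpiece3.env (bandMid Band.midLowC Band.midUpC).lo (bandMid Band.midLowC Band.midUpC).hi (bandMid Band.midLowC Band.midUpC).pole .omU).e = true := by
  decide +kernel

/-- A check of the piece 3. -/
def h3_omU_lo_2 :
    checkShift hbox3_omU_lo_2 325 7 4 7 11 (hpiece3.env (bandMid Band.midLowC Band.midUpC).lo (bandMid Band.midLowC Band.midUpC).hi (bandMid Band.midLowC Band.midUpC).pole .omU).e = true := by
  decide +kernel

/-- A check of the piece 3. -/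
def h3_omU_lo_3 :
    checkShift hbox3_omU_lo_3 325 7 4 7 11 (hpiece3.env (bandMid Band.midLowC Band.midUpC).lo (bandMid Band.midLowC Band.midUpC).hi (bandMid Band.midLowC Band.midUpC).pole .omU).e = true := by
  decide +kernel

/-- A check of the piece 3. -/
def h3_omU_hi_0 :
    checkShift hbox3_omU_hi_0 325 7 4 7 11 (hpiece3.env (bandMid Band.midLowC Band.midUpC).hi (bandMid Band.midLowC Band.midUpC).hi (bandMid Band.midLowC Band.midUpC).pole .omU).e = true := by
  decide +kernel

/-- A check of the piece 3. -/
def h3_omU_hi_1 :
    checkShift hbox3_omU_hi_1 325 7 4 7 11 (hpiece3.env (bandMid Band.midLowC Band.midUpC).hi (bandMid Band.midLowC Band.midUpC).hi (bandMid Band.midLowC Band.midUpC).pole .omU).e = true := by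
  decide +kernel

/-- A check of the piece 3. -/
def h3_omU_hi_2 :
    checkShift hbox3_omU_hi_2 325 7 4 7 11 (hpiece3.env (bandMid Band.midLowC Band.midUpC).hi (bandMid Band.midLowC Band.midUpC).hi (bandMid Band.midLowC Band.midUpC).pole .omU).e = true := by
  decide +kernel

/-- A check of the piece 3. -/
def h3_omU_hi_3 :
    checkShift hbox3_omU_hi_3 325 7 4 7 11 (hpiece3.env (bandMid Band.midLowC Band.midUpC).hi (bandMid Band.midLowC Band.midUpC).hi (bandMid Band.midLowC Band.midUpC).pole .omU).e = true := by
  decide +kernel

/-- A check of the piece 3. -/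
def h3_tauL_lo_0 :
    checkShift hbox3_tauL_lo_0 344 9 4 8 12 (hpiece3.env (bandMid Band.midLowC Band.midUpC).lo (bandMid Band.midLowC Band.midUpC).hi (bandMid Band.midLowC Band.midUpC).pole .tauL).e = true := by
  decide +kernel

/-- A check of the piece 3. -/
def h3_tauL_lo_1 :
    checkShift hbox3_tauL_lo_1 344 9 4 8 12 (hpiece3.env (bandMid Band.midLowC Band.midUpC).lo (bandMid Band.midLowC Band.midUpC).hi (bandMid Band.midLowC Band.midUpC).pole .tauL).e = true := by
  decide +kernel

/-- A check of the piece 3. -/
def h3_tauL_hi_0 :
    checkShift hbox3_tauL_hi_0 344 9 4 8 12 (hpiece3.env (bandMid Band.midLowC Band.midUpC).hi (bandMid Band.midLowC Band.midUpC).hi (bandMid Band.midLowC Band.midUpC).pole .tauL).e = true := by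
  decide +kernel

/-- A check of the piece 3. -/
def h3_tauL_hi_1 :
    checkShift hbox3_tauL_hi_1 344 9 4 8 12 (hpiece3.env (bandMid Band.midLowC Band.midUpC).hi (bandMid Band.midLowC Band.midUpC).hi (bandMid Band.midLowC Band.midUpC).pole .tauL).e = true := by
  decide +kernel

/-- Checks of the piece 3. -/
def h3_group18 :
    ([hpiece3.env (bandMid Band.midLowC Band.midUpC).lo (bandMid Band.midLowC Band.midUpC).hi (bandMid Band.midLowC Band.midUpC).pole .tauU,
      hpiece3.env (bandMid Band.midLowC Band.midUpC).hi (bandMid Band.midLowC Band.midUpC).hi (bandMid Band.midLowC Band.midUpC).pole .tauU] : List QEx).all (fun q => checkShift hbox3 326 9 4 8 12 q.e) = true := by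
  decide +kernel

/-- Checks of the piece 3. -/
def h3_group19 :
    ([xLLGM false (bandMid Band.midLowC Band.midUpC).lo (bandMid Band.midLowC Band.midUpC).pole,
      xLLGM false (bandMid Band.midLowC Band.midUpC).hi (bandMid Band.midLowC Band.midUpC).pole] : List QEx).all (fun q => checkShift hbox3 322 5 4 11 17 q.e) = true := by
  decide +kernel

/-- Checks of the piece 3. -/
def h3_group20 :
    ([hpiece3.wid - qD 1] : List QEx).all (fun q => checkShift hbox3 67 1 1 1 1 q.e) = true := by
  decide +kernel

/-- Checks of the piece 3. -/
def h3_group21 :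
    ([hpiece3.side .rA,
      hpiece3.side .rB] : List QEx).all (fun q => checkShift hbox3 36 1 1 0 0 q.e) = true := by
  decide +kernel

/-- Checks of the piece 3. -/
def h3_group22 :
    ([hpiece3.side .rF] : List QEx).all (fun q => checkShift hbox3 66 2 2 0 0 q.e) = true := by
  decide +kernel

/-- Checks of the piece 3. -/
def h3_group23 :
    ([hpiece3.side .q] : List QEx).all (fun q => checkShift hbox3 48 0 1 1 2 q.e) = true := by
  decide +kernel

/-- Checks of the piece 3. -/
def h3_group24 :
    ([hpiece3.side .om] : List QEx).all (fun q => checkShift hbox3 143 1 2 4 6 q.e) = true := by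
  decide +kernel

/-- The exit curve on the box of piece 3. -/
def hexit3_check :
    checkShift hexit3Box 80 2 0 1 1 (xExitM Band.midExitC 23 10).e = true := by
  decide +kernel

end Vale.Agent.P100.Calib.Closed.All.Low
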