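import Vale.Agent.P100.Calib.SlabMidHolePieces

/-!
# Checks of the piece 4
-/

set_option linter.defProp false

namespace Vale.Agent.P100.Calib.Closed.All.Low

/-- Checks of the piece 4. -/
def h4_group0 :
    ([hpiece4.checkM true .g false .lo,
      hpiece4.checkM true .g false .hi,
      hpiece4.checkM true .g false .mid,
      hpiece4.checkM true .g true .lo,
      hpiece4.checkM true .g true .hi,
      hpiece4.checkM true .g true .mid] : List QEx).all (fun q => checkShift hbox4 545 2 7 14 26 q.e) = true := by
  decide +kernel

/-- Checks of the piece 4. -/
def h4_group1 :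
    ([hpiece4.checkM true .n false .lo,
      hpiece4.checkM true .n false .hi,
      hpiece4.checkM true .n false .mid,
      hpiece4.checkM true .n true .lo,
      hpiece4.checkM true .n true .hi,
      hpiece4.checkM true .n true .mid] : List QEx).all (fun q => checkShift hbox4 663 4 8 18 31 q.e) = true := by
  decide +kernel

/-- Checks of the piece 4. -/
def h4_group2 :
    ([hpiece4.checkM true .tlo false .lo,
      hpiece4.checkM true .tlo false .hi,
      hpiece4.checkM true .tlo false .mid,
      hpiece4.checkM true .tlo true .lo,
      hpiece4.checkM true .tlo true .hi,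
      hpiece4.checkM true .tlo true .mid,
      hpiece4.checkM true .thi false .lo,
      hpiece4.checkM true .thi false .hi,
      hpiece4.checkM true .thi false .mid,
      hpiece4.checkM true .thi true .lo,
      hpiece4.checkM true .thi true .hi,
      hpiece4.checkM true .thi true .mid] : List QEx).all (fun q => checkShift hbox4 635 3 9 16 29 q.e) = true := by
  decide +kernel

/-- Checks of the piece 4. -/
def h4_group3 :
    ([hpiece4.checkM true .mlo false .lo,
      hpiece4.checkM true .mlo false .hi,
      hpiece4.checkM true .mlo false .mid,
      hpiece4.checkM true .mhi false .lo,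
      hpiece4.checkM true .mhi false .hi,
      hpiece4.checkM true .mhi false .mid] : List QEx).all (fun q => checkShift hbox4 443 4 5 10 18 q.e) = true := by
  decide +kernel

/-- Checks of the piece 4. -/
def h4_group4 :
    ([hpiece4.checkM true .f false .lo] : List QEx).all (fun q => checkShift hbox4 730 5 11 18 33 q.e) = true := by
  decide +kernel

/-- Checks of the piece 4. -/
def h4_group5 :
    ([hpiece4.checkM true .f false .hi] : List QEx).all (fun q => checkShift hbox4 730 5 11 18 33 q.e) = true := by
  decide +kernel

/-- Checks of the piece 4. -/
def h4_group6 :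
    ([hpiece4.checkM true .f false .mid] : List QEx).all (fun q => checkShift hbox4 752 5 11 18 33 q.e) = true := by
  decide +kernel

/-- Checks of the piece 4. -/
def h4_group7 :
    ([hpiece4.checkM true .f true .lo] : List QEx).all (fun q => checkShift hbox4 730 5 11 18 33 q.e) = true := by
  decide +kernel

/-- Checks of the piece 4. -/
def h4_group8 :
    ([hpiece4.checkM true .f true .hi] : List QEx).all (fun q => checkShift hbox4 730 5 11 18 33 q.e) = true := by
  decide +kernel

/-- Checks of the piece 4. -/
def h4_group9 :
    ([hpiece4.checkM true .f true .mid] : List QEx).all (fun q => checkShift hbox4 752 5 11 18 33 q.e) = true := by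
  decide +kernel

/-- Checks of the piece 4. -/
def h4_group10 :
    ([hpiece4.env bandSmall.lo bandSmall.hi bandSmall.pole .piL,
      hpiece4.env bandSmall.lo bandSmall.hi bandSmall.pole .piU] : List QEx).all (fun q => checkShift hbox4 184 3 2 4 8 q.e) = true := by
  decide +kernel

/-- Checks of the piece 4. -/
def h4_group11 :
    ([hpiece4.env bandSmall.hi bandSmall.hi bandSmall.pole .piL,
      hpiece4.env bandSmall.hi bandSmall.hi bandSmall.pole .piU] : List QEx).all (fun q => checkShift hbox4 189 4 2 4 8 q.e) = true := by
  decide +kernel

/-- Checks of the piece 4. -/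
def h4_group12 :
    ([hpiece4.env bandSmall.lo bandSmall.hi bandSmall.pole .omL,
      hpiece4.env bandSmall.lo bandSmall.hi bandSmall.pole .omU] : List QEx).all (fun q => checkShift hbox4 310 5 4 7 12 q.e) = true := by
  decide +kernel

/-- Checks of the piece 4. -/
def h4_group13 :
    ([hpiece4.env bandSmall.hi bandSmall.hi bandSmall.pole .omL,
      hpiece4.env bandSmall.hi bandSmall.hi bandSmall.pole .omU] : List QEx).all (fun q => checkShift hbox4 316 6 4 7 12 q.e) = true := by
  decide +kernel

/-- Checks of the piece 4. -/
def h4_group14 :
    ([hpiece4.env bandSmall.lo bandSmall.hi bandSmall.pole .tauL,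
      hpiece4.env bandSmall.hi bandSmall.hi bandSmall.pole .tauL,
      hpiece4.env bandSmall.hi bandSmall.hi bandSmall.pole .tauU] : List QEx).all (fun q => checkShift hbox4 368 7 4 9 15 q.e) = true := by
  decide +kernel

/-- Checks of the piece 4. -/
def h4_group15 :
    ([hpiece4.env bandSmall.lo bandSmall.hi bandSmall.pole .tauU] : List QEx).all (fun q => checkShift hbox4 356 5 4 9 15 q.e) = true := by
  decide +kernel

/-- Checks of the piece 4. -/
def h4_group16 :
    ([xLLGM true bandSmall.lo bandSmall.pole] : List QEx).all (fun q => checkShift hbox4 333 3 4 11 18 q.e) = true := by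
  decide +kernel

/-- Checks of the piece 4. -/
def h4_group17 :
    ([xLLGM true bandSmall.hi bandSmall.pole] : List QEx).all (fun q => checkShift hbox4 339 4 4 11 18 q.e) = true := by
  decide +kernel

/-- Checks of the piece 4. -/
def h4_group18 :
    ([hpiece4.wid - qD 1] : List QEx).all (fun q => checkShift hbox4 71 1 1 1 1 q.e) = true := by
  decide +kernel

/-- Checks of the piece 4. -/
def h4_group19 :
    ([hpiece4.side .rA,
      hpiece4.side .rB] : List QEx).all (fun q => checkShift hbox4 40 1 1 0 0 q.e) = true := by
  decide +kernel

/-- Checks of the piece 4. -/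
def h4_group20 :
    ([hpiece4.side .rF] : List QEx).all (fun q => checkShift hbox4 74 2 2 0 0 q.e) = true := by
  decide +kernel

/-- Checks of the piece 4. -/
def h4_group21 :
    ([hpiece4.side .q] : List QEx).all (fun q => checkShift hbox4 50 0 1 1 2 q.e) = true := by
  decide +kernel

/-- Checks of the piece 4. -/
def h4_group22 :
    ([hpiece4.side .om] : List QEx).all (fun q => checkShift hbox4 150 1 2 4 6 q.e) = true := by
  decide +kernel

/-- The exit curve on the box of piece 4. -/
def hexit4_check :
    checkShift hexit4Box 80 2 0 1 1 (xExitM Band.midExitC 63 50).e = true := by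
  decide +kernel

end Vale.Agent.P100.Calib.Closed.All.Low
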