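import Vale.Agent.P100.Calib.SlabMidHolePieces

/-!
# Checks of the piece 5
-/

set_option linter.defProp false

namespace Vale.Agent.P100.Calib.Closed.All.Low

/-- Checks of the piece 5. -/
def h5_group0 :
    ([hpiece5.checkM true .g false .lo,
      hpiece5.checkM true .g false .hi,
      hpiece5.checkM true .g false .mid,
      hpiece5.checkM true .g true .lo,
      hpiece5.checkM true .g true .hi,
      hpiece5.checkM true .g true .mid] : List QEx).all (fun q => checkShift hbox5 530 2 7 14 26 q.e) = true := by
  decide +kernel

/-- Checks of the piece 5. -/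
def h5_group1 :
    ([hpiece5.checkM true .n false .lo,
      hpiece5.checkM true .n false .hi,
      hpiece5.checkM true .n false .mid,
      hpiece5.checkM true .n true .lo,
      hpiece5.checkM true .n true .hi,
      hpiece5.checkM true .n true .mid] : List QEx).all (fun q => checkShift hbox5 645 4 8 18 31 q.e) = true := by
  decide +kernel

/-- Checks of the piece 5. -/
def h5_group2 :
    ([hpiece5.checkM true .tlo false .lo,
      hpiece5.checkM true .tlo false .mid,
      hpiece5.checkM true .tlo true .lo,
      hpiece5.checkM true .tlo true .mid,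
      hpiece5.checkM true .thi false .lo,
      hpiece5.checkM true .thi false .hi,
      hpiece5.checkM true .thi false .mid,
      hpiece5.checkM true .thi true .lo,
      hpiece5.checkM true .thi true .hi,
      hpiece5.checkM true .thi true .mid] : List QEx).all (fun q => checkShift hbox5 616 3 9 16 29 q.e) = true := by
  decide +kernel

/-- A check of the piece 5. -/
def h5_tlo_false_hi_0 :
    checkShift hbox5_tlo_false_hi_0 612 3 9 16 29 (hpiece5.checkM true .tlo false .hi).e = true := by
  decide +kernel

/-- A check of the piece 5. -/
def h5_tlo_false_hi_1 :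
    checkShift hbox5_tlo_false_hi_1 612 3 9 16 29 (hpiece5.checkM true .tlo false .hi).e = true := by
  decide +kernel

/-- A check of the piece 5. -/
def h5_tlo_true_hi_0 :
    checkShift hbox5_tlo_true_hi_0 612 3 9 16 29 (hpiece5.checkM true .tlo true .hi).e = true := by
  decide +kernel

/-- A check of the piece 5. -/
def h5_tlo_true_hi_1 :
    checkShift hbox5_tlo_true_hi_1 612 3 9 16 29 (hpiece5.checkM true .tlo true .hi).e = true := by
  decide +kernel

/-- Checks of the piece 5. -/
def h5_group5 :
    ([hpiece5.checkM true .mlo false .lo,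
      hpiece5.checkM true .mlo false .hi,
      hpiece5.checkM true .mlo false .mid,
      hpiece5.checkM true .mhi false .lo,
      hpiece5.checkM true .mhi false .hi,
      hpiece5.checkM true .mhi false .mid] : List QEx).all (fun q => checkShift hbox5 432 4 5 10 18 q.e) = true := by
  decide +kernel

/-- Checks of the piece 5. -/
def h5_group6 :
    ([hpiece5.checkM true .f false .lo] : List QEx).all (fun q => checkShift hbox5 706 5 11 18 33 q.e) = true := by
  decide +kernel

/-- Checks of the piece 5. -/
def h5_group7 :
    ([hpiece5.checkM true .f false .hi] : List QEx).all (fun q => checkShift hbox5 706 5 11 18 33 q.e) = true := by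
  decide +kernel

/-- Checks of the piece 5. -/
def h5_group8 :
    ([hpiece5.checkM true .f false .mid] : List QEx).all (fun q => checkShift hbox5 727 5 11 18 33 q.e) = true := by
  decide +kernel

/-- Checks of the piece 5. -/
def h5_group9 :
    ([hpiece5.checkM true .f true .lo] : List QEx).all (fun q => checkShift hbox5 706 5 11 18 33 q.e) = true := by
  decide +kernel

/-- Checks of the piece 5. -/
def h5_group10 :
    ([hpiece5.checkM true .f true .hi] : List QEx).all (fun q => checkShift hbox5 706 5 11 18 33 q.e) = true := by
  decide +kernel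

/-- Checks of the piece 5. -/
def h5_group11 :
    ([hpiece5.checkM true .f true .mid] : List QEx).all (fun q => checkShift hbox5 727 5 11 18 33 q.e) = true := by
  decide +kernel

/-- Checks of the piece 5. -/
def h5_group12 :
    ([hpiece5.env (bandMid Band.midLowC Band.midUpC).lo (bandMid Band.midLowC Band.midUpC).hi (bandMid Band.midLowC Band.midUpC).pole .piL,
      hpiece5.env (bandMid Band.midLowC Band.midUpC).hi (bandMid Band.midLowC Band.midUpC).hi (bandMid Band.midLowC Band.midUpC).pole .piL,
      hpiece5.env (bandMid Band.midLowC Band.midUpC).lo (bandMid Band.midLowC Band.midUpC).hi (bandMid Band.midLowC Band.midUpC).pole .piU] : List QEx).all (fun q => checkShift hbox5 188 5 2 4 7 q.e) = true := by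
  decide +kernel

/-- A check of the piece 5. -/
def h5_piU_hi_0 :
    checkShift hbox5_piU_hi_0 206 5 2 4 7 (hpiece5.env (bandMid Band.midLowC Band.midUpC).hi (bandMid Band.midLowC Band.midUpC).hi (bandMid Band.midLowC Band.midUpC).pole .piU).e = true := by
  decide +kernel

/-- A check of the piece 5. -/
def h5_piU_hi_1 :
    checkShift hbox5_piU_hi_1 206 5 2 4 7 (hpiece5.env (bandMid Band.midLowC Band.midUpC).hi (bandMid Band.midLowC Band.midUpC).hi (bandMid Band.midLowC Band.midUpC).pole .piU).e = true := by
  decide +kernel

/-- A check of the piece 5. -/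
def h5_omL_lo_0 :
    checkShift hbox5_omL_lo_0 342 7 4 7 11 (hpiece5.env (bandMid Band.midLowC Band.midUpC).lo (bandMid Band.midLowC Band.midUpC).hi (bandMid Band.midLowC Band.midUpC).pole .omL).e = true := by
  decide +kernel

/-- A check of the piece 5. -/
def h5_omL_lo_1 :
    checkShift hbox5_omL_lo_1 342 7 4 7 11 (hpiece5.env (bandMid Band.midLowC Band.midUpC).lo (bandMid Band.midLowC Band.midUpC).hi (bandMid Band.midLowC Band.midUpC).pole .omL).e = true := by
  decide +kernel

/-- A check of the piece 5. -/
def h5_omL_lo_2 :
    checkShift hbox5_omL_lo_2 342 7 4 7 11 (hpiece5.env (bandMid Band.midLowC Band.midUpC).lo (bandMid Band.midLowC Band.midUpC).hi (bandMid Band.midLowC Band.midUpC).pole .omL).e = true := by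
  decide +kernel

/-- Checks of the piece 5. -/
def h5_group15 :
    ([hpiece5.env (bandMid Band.midLowC Band.midUpC).hi (bandMid Band.midLowC Band.midUpC).hi (bandMid Band.midLowC Band.midUpC).pole .omL] : List QEx).all (fun q => checkShift hbox5 312 7 4 7 11 q.e) = true := by
  decide +kernel

/-- A check of the piece 5. -/
def h5_omU_lo_0 :
    checkShift hbox5_omU_lo_0 330 7 4 7 11 (hpiece5.env (bandMid Band.midLowC Band.midUpC).lo (bandMid Band.midLowC Band.midUpC).hi (bandMid Band.midLowC Band.midUpC).pole .omU).e = true := by
  decide +kernel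

/-- A check of the piece 5. -/
def h5_omU_lo_1 :
    checkShift hbox5_omU_lo_1 330 7 4 7 11 (hpiece5.env (bandMid Band.midLowC Band.midUpC).lo (bandMid Band.midLowC Band.midUpC).hi (bandMid Band.midLowC Band.midUpC).pole .omU).e = true := by
  decide +kernel

/-- A check of the piece 5. -/
def h5_omU_hi_0 :
    checkShift hbox5_omU_hi_0 366 7 4 7 11 (hpiece5.env (bandMid Band.midLowC Band.midUpC).hi (bandMid Band.midLowC Band.midUpC).hi (bandMid Band.midLowC Band.midUpC).pole .omU).e = true := by
  decide +kernel

/-- A check of the piece 5. -/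
def h5_omU_hi_1 :
    checkShift hbox5_omU_hi_1 366 7 4 7 11 (hpiece5.env (bandMid Band.midLowC Band.midUpC).hi (bandMid Band.midLowC Band.midUpC).hi (bandMid Band.midLowC Band.midUpC).pole .omU).e = true := by
  decide +kernel

/-- A check of the piece 5. -/
def h5_omU_hi_2 :
    checkShift hbox5_omU_hi_2 366 7 4 7 11 (hpiece5.env (bandMid Band.midLowC Band.midUpC).hi (bandMid Band.midLowC Band.midUpC).hi (bandMid Band.midLowC Band.midUpC).pole .omU).e = true := by
  decide +kernel

/-- A check of the piece 5. -/
def h5_omU_hi_3 :
    checkShift hbox5_omU_hi_3 366 7 4 7 11 (hpiece5.env (bandMid Band.midLowC Band.midUpC).hi (bandMid Band.midLowC Band.midUpC).hi (bandMid Band.midLowC Band.midUpC).pole .omU).e = true := by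
  decide +kernel

/-- A check of the piece 5. -/
def h5_omU_hi_4 :
    checkShift hbox5_omU_hi_4 366 7 4 7 11 (hpiece5.env (bandMid Band.midLowC Band.midUpC).hi (bandMid Band.midLowC Band.midUpC).hi (bandMid Band.midLowC Band.midUpC).pole .omU).e = true := by
  decide +kernel

/-- Checks of the piece 5. -/
def h5_group18 :
    ([hpiece5.env (bandMid Band.midLowC Band.midUpC).lo (bandMid Band.midLowC Band.midUpC).hi (bandMid Band.midLowC Band.midUpC).pole .tauL,
      hpiece5.env (bandMid Band.midLowC Band.midUpC).hi (bandMid Band.midLowC Band.midUpC).hi (bandMid Band.midLowC Band.midUpC).pole .tauL,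
      hpiece5.env (bandMid Band.midLowC Band.midUpC).lo (bandMid Band.midLowC Band.midUpC).hi (bandMid Band.midLowC Band.midUpC).pole .tauU,
      hpiece5.env (bandMid Band.midLowC Band.midUpC).hi (bandMid Band.midLowC Band.midUpC).hi (bandMid Band.midLowC Band.midUpC).pole .tauU] : List QEx).all (fun q => checkShift hbox5 348 9 4 8 12 q.e) = true := by
  decide +kernel

/-- Checks of the piece 5. -/
def h5_group19 :
    ([xLLGM true (bandMid Band.midLowC Band.midUpC).lo (bandMid Band.midLowC Band.midUpC).pole,
      xLLGM true (bandMid Band.midLowC Band.midUpC).hi (bandMid Band.midLowC Band.midUpC).pole] : List QEx).all (fun q => checkShift hbox5 334 5 4 11 17 q.e) = true := by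
  decide +kernel

/-- Checks of the piece 5. -/
def h5_group20 :
    ([hpiece5.wid - qD 1] : List QEx).all (fun q => checkShift hbox5 69 1 1 1 1 q.e) = true := by
  decide +kernel

/-- Checks of the piece 5. -/
def h5_group21 :
    ([hpiece5.side .rA,
      hpiece5.side .rB] : List QEx).all (fun q => checkShift hbox5 38 1 1 0 0 q.e) = true := by
  decide +kernel

/-- Checks of the piece 5. -/
def h5_group22 :
    ([hpiece5.side .rF] : List QEx).all (fun q => checkShift hbox5 69 2 2 0 0 q.e) = true := by
  decide +kernel

/-- Checks of the piece 5. -/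
def h5_group23 :
    ([hpiece5.side .q] : List QEx).all (fun q => checkShift hbox5 48 0 1 1 2 q.e) = true := by
  decide +kernel

/-- Checks of the piece 5. -/
def h5_group24 :
    ([hpiece5.side .om] : List QEx).all (fun q => checkShift hbox5 146 1 2 4 6 q.e) = true := by
  decide +kernel

/-- The exit curve on the box of piece 5. -/
def hexit5_check :
    checkShift hexit5Box 80 2 0 1 1 (xExitM Band.midExitC 23 10).e = true := by
  decide +kernel

end Vale.Agent.P100.Calib.Closed.All.Low
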