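import Vale.Agent.P100.Calib.SlabMidSignsCert
import Vale.Agent.P100.Calib.SlabMidHoleCheck0
import Vale.Agent.P100.Calib.SlabMidHoleCheck1
import Vale.Agent.P100.Calib.SlabMidHoleCheck2
import Vale.Agent.P100.Calib.SlabMidHoleCheck3
import Vale.Agent.P100.Calib.SlabMidHoleCheck4
import Vale.Agent.P100.Calib.SlabMidHoleCheck5

/-!
# The pieces of the certificate hold on their boxes
-/

set_option linter.unusedVariables false

namespace Vale.Agent.P100.Calib.Closed.All.Low

/-- The split check. -/
theorem h0_tauL_lo_all {o : PtR} (m : o.InM hbox0) :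
    0 ≤ (hpiece0.env bandSmall.lo bandSmall.hi bandSmall.pole .tauL).val o.x := by
  obtain ⟨hu, hX, ha, hI⟩ := m.bounds
  simp only [hbox0] at hu hX ha hI
  norm_num at hu hX ha hI
  rcases le_total (o.a) (87 / 400 : ℝ) with h0 | h0
  ·
    refine QEx.nonneg_on_box h0_tauL_lo_0 (PtR.InM.of_bounds ?_ ?_ ?_ ?_) <;>
      simp only [hbox0_tauL_lo_0, InChart] <;> norm_num <;> (try constructor) <;> linarith
  ·
    refine QEx.nonneg_on_box h0_tauL_lo_1 (PtR.InM.of_bounds ?_ ?_ ?_ ?_) <;>
      simp only [hbox0_tauL_lo_1, InChart] <;> norm_num <;> (try constructor) <;> linarith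

/-- The split check. -/
theorem h0_tauL_hi_all {o : PtR} (m : o.InM hbox0) :
    0 ≤ (hpiece0.env bandSmall.hi bandSmall.hi bandSmall.pole .tauL).val o.x := by
  obtain ⟨hu, hX, ha, hI⟩ := m.bounds
  simp only [hbox0] at hu hX ha hI
  norm_num at hu hX ha hI
  rcases le_total (o.a) (87 / 400 : ℝ) with h0 | h0
  ·
    refine QEx.nonneg_on_box h0_tauL_hi_0 (PtR.InM.of_bounds ?_ ?_ ?_ ?_) <;>
      simp only [hbox0_tauL_hi_0, InChart] <;> norm_num <;> (try constructor) <;> linarith
  ·
    rcases le_total (o.a) (211 / 800 : ℝ) with h1 | h1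
    ·
      refine QEx.nonneg_on_box h0_tauL_hi_1 (PtR.InM.of_bounds ?_ ?_ ?_ ?_) <;>
        simp only [hbox0_tauL_hi_1, InChart] <;> norm_num <;> (try constructor) <;> linarith
    ·
      refine QEx.nonneg_on_box h0_tauL_hi_2 (PtR.InM.of_bounds ?_ ?_ ?_ ?_) <;>
        simp only [hbox0_tauL_hi_2, InChart] <;> norm_num <;> (try constructor) <;> linarith

/-- The exit curve on the box of piece 0. -/
theorem hexit0_holds {o : PtR} (h0 : 0 ≤ o.u) (h1 : o.u ≤ 2 / 25) (h2 : 1 / 8 ≤ o.a) (h3 : o.a ≤ 31 / 100)
    (h4 : 1 / 8 ≤ o.I) (h5 : o.I ≤ 8 / 57) :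
    0 ≤ Band.midBracket Band.midExitC o.I o.a o.u * 61 - 1000 * 50 := by
  have h := QEx.nonneg_on_box hexit0_check (x := (⟨o.u, 61 / 50, o.a, o.I⟩ : PtR).x)
    (PtR.InM.of_bounds (o := ⟨o.u, 61 / 50, o.a, o.I⟩) ?_ ?_ ?_ ?_)
  · obtain ⟨eu, -, va, vI, -, -, -, -, -, -, -, -⟩ := (⟨o.u, 61 / 50, o.a, o.I⟩ : PtR).vals
    simp only [xExitM, xFour, val_add, val_sub, val_mul, val_num, eu, va, vI] at h
    push_cast at h
    simp only [Band.midBracket, Band.midFour]
    linarith
  all_goals simp only [hexit0Box, InChart] <;> norm_num <;> (try constructor) <;> linarith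

/-- The piece 0 holds on its box. -/
theorem hpiece0_holds {o : PtR} (m : o.InM hbox0) :
    hpiece0.AllHoldM false bandSmall o where
  forms :=
    { forms := fun q h k =>
        match q, h, k with
        | .g, false, .lo => QEx.nonneg_on_box (List.all_eq_true.1 h0_group0 (hpiece0.checkM false .g false .lo) (by simp)) m
        | .g, false, .hi => QEx.nonneg_on_box (List.all_eq_true.1 h0_group0 (hpiece0.checkM false .g false .hi) (by simp)) m
        | .g, false, .mid => QEx.nonneg_on_box (List.all_eq_true.1 h0_group0 (hpiece0.checkM false .g false .mid) (by simp)) m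
        | .g, true, .lo => QEx.nonneg_on_box (List.all_eq_true.1 h0_group0 (hpiece0.checkM false .g true .lo) (by simp)) m
        | .g, true, .hi => QEx.nonneg_on_box (List.all_eq_true.1 h0_group0 (hpiece0.checkM false .g true .hi) (by simp)) m
        | .g, true, .mid => QEx.nonneg_on_box (List.all_eq_true.1 h0_group0 (hpiece0.checkM false .g true .mid) (by simp)) m
        | .n, false, .lo => QEx.nonneg_on_box (List.all_eq_true.1 h0_group1 (hpiece0.checkM false .n false .lo) (by simp)) m
        | .n, false, .hi => QEx.nonneg_on_box (List.all_eq_true.1 h0_group1 (hpiece0.checkM false .n false .hi) (by simp)) m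
        | .n, false, .mid => QEx.nonneg_on_box (List.all_eq_true.1 h0_group1 (hpiece0.checkM false .n false .mid) (by simp)) m
        | .n, true, .lo => QEx.nonneg_on_box (List.all_eq_true.1 h0_group1 (hpiece0.checkM false .n true .lo) (by simp)) m
        | .n, true, .hi => QEx.nonneg_on_box (List.all_eq_true.1 h0_group1 (hpiece0.checkM false .n true .hi) (by simp)) m
        | .n, true, .mid => QEx.nonneg_on_box (List.all_eq_true.1 h0_group1 (hpiece0.checkM false .n true .mid) (by simp)) m
        | .tlo, false, .lo => QEx.nonneg_on_box (List.all_eq_true.1 h0_group2 (hpiece0.checkM false .tlo false .lo) (by simp)) m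
        | .tlo, false, .hi => QEx.nonneg_on_box (List.all_eq_true.1 h0_group2 (hpiece0.checkM false .tlo false .hi) (by simp)) m
        | .tlo, false, .mid => QEx.nonneg_on_box (List.all_eq_true.1 h0_group2 (hpiece0.checkM false .tlo false .mid) (by simp)) m
        | .tlo, true, .lo => QEx.nonneg_on_box (List.all_eq_true.1 h0_group2 (hpiece0.checkM false .tlo true .lo) (by simp)) m
        | .tlo, true, .hi => QEx.nonneg_on_box (List.all_eq_true.1 h0_group2 (hpiece0.checkM false .tlo true .hi) (by simp)) m
        | .tlo, true, .mid => QEx.nonneg_on_box (List.all_eq_true.1 h0_group2 (hpiece0.checkM false .tlo true .mid) (by simp)) m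
        | .thi, false, .lo => QEx.nonneg_on_box (List.all_eq_true.1 h0_group2 (hpiece0.checkM false .thi false .lo) (by simp)) m
        | .thi, false, .hi => QEx.nonneg_on_box (List.all_eq_true.1 h0_group2 (hpiece0.checkM false .thi false .hi) (by simp)) m
        | .thi, false, .mid => QEx.nonneg_on_box (List.all_eq_true.1 h0_group2 (hpiece0.checkM false .thi false .mid) (by simp)) m
        | .thi, true, .lo => QEx.nonneg_on_box (List.all_eq_true.1 h0_group2 (hpiece0.checkM false .thi true .lo) (by simp)) m
        | .thi, true, .hi => QEx.nonneg_on_box (List.all_eq_true.1 h0_group2 (hpiece0.checkM false .thi true .hi) (by simp)) m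
        | .thi, true, .mid => QEx.nonneg_on_box (List.all_eq_true.1 h0_group2 (hpiece0.checkM false .thi true .mid) (by simp)) m
        | .mlo, false, .lo => QEx.nonneg_on_box (List.all_eq_true.1 h0_group3 (hpiece0.checkM false .mlo false .lo) (by simp)) m
        | .mlo, false, .hi => QEx.nonneg_on_box (List.all_eq_true.1 h0_group3 (hpiece0.checkM false .mlo false .hi) (by simp)) m
        | .mlo, false, .mid => QEx.nonneg_on_box (List.all_eq_true.1 h0_group3 (hpiece0.checkM false .mlo false .mid) (by simp)) m
        | .mlo, true, .lo => QEx.nonneg_on_box (List.all_eq_true.1 h0_group3 (hpiece0.checkM false .mlo false .lo) (by simp)) m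
        | .mlo, true, .hi => QEx.nonneg_on_box (List.all_eq_true.1 h0_group3 (hpiece0.checkM false .mlo false .hi) (by simp)) m
        | .mlo, true, .mid => QEx.nonneg_on_box (List.all_eq_true.1 h0_group3 (hpiece0.checkM false .mlo false .mid) (by simp)) m
        | .mhi, false, .lo => QEx.nonneg_on_box (List.all_eq_true.1 h0_group3 (hpiece0.checkM false .mhi false .lo) (by simp)) m
        | .mhi, false, .hi => QEx.nonneg_on_box (List.all_eq_true.1 h0_group3 (hpiece0.checkM false .mhi false .hi) (by simp)) m
        | .mhi, false, .mid => QEx.nonneg_on_box (List.all_eq_true.1 h0_group3 (hpiece0.checkM false .mhi false .mid) (by simp)) m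
        | .mhi, true, .lo => QEx.nonneg_on_box (List.all_eq_true.1 h0_group3 (hpiece0.checkM false .mhi false .lo) (by simp)) m
        | .mhi, true, .hi => QEx.nonneg_on_box (List.all_eq_true.1 h0_group3 (hpiece0.checkM false .mhi false .hi) (by simp)) m
        | .mhi, true, .mid => QEx.nonneg_on_box (List.all_eq_true.1 h0_group3 (hpiece0.checkM false .mhi false .mid) (by simp)) m
        | .f, false, .lo => QEx.nonneg_on_box (List.all_eq_true.1 h0_group4 (hpiece0.checkM false .f false .lo) (by simp)) m
        | .f, false, .hi => QEx.nonneg_on_box (List.all_eq_true.1 h0_group5 (hpiece0.checkM false .f false .hi) (by simp)) m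
        | .f, false, .mid => QEx.nonneg_on_box (List.all_eq_true.1 h0_group6 (hpiece0.checkM false .f false .mid) (by simp)) m
        | .f, true, .lo => QEx.nonneg_on_box (List.all_eq_true.1 h0_group7 (hpiece0.checkM false .f true .lo) (by simp)) m
        | .f, true, .hi => QEx.nonneg_on_box (List.all_eq_true.1 h0_group8 (hpiece0.checkM false .f true .hi) (by simp)) m
        | .f, true, .mid => QEx.nonneg_on_box (List.all_eq_true.1 h0_group9 (hpiece0.checkM false .f true .mid) (by simp)) m
      side := fun e =>
        match e with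
        | .rA => QEx.nonneg_on_box (List.all_eq_true.1 h0_group21 (hpiece0.side .rA) (by simp)) m
        | .rB => QEx.nonneg_on_box (List.all_eq_true.1 h0_group21 (hpiece0.side .rB) (by simp)) m
        | .rF => QEx.nonneg_on_box (List.all_eq_true.1 h0_group22 (hpiece0.side .rF) (by simp)) m
        | .q => QEx.nonneg_on_box (List.all_eq_true.1 h0_group23 (hpiece0.side .q) (by simp)) m
        | .om => QEx.nonneg_on_box (List.all_eq_true.1 h0_group24 (hpiece0.side .om) (by simp)) m
      nums := by decide }
  env :=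
    { lo := fun e =>
        match e with
        | .piL => QEx.nonneg_on_box (List.all_eq_true.1 h0_group10 (hpiece0.env bandSmall.lo bandSmall.hi bandSmall.pole .piL) (by simp)) m
        | .piU => QEx.nonneg_on_box (List.all_eq_true.1 h0_group10 (hpiece0.env bandSmall.lo bandSmall.hi bandSmall.pole .piU) (by simp)) m
        | .omL => QEx.nonneg_on_box (List.all_eq_true.1 h0_group12 (hpiece0.env bandSmall.lo bandSmall.hi bandSmall.pole .omL) (by simp)) m
        | .omU => QEx.nonneg_on_box (List.all_eq_true.1 h0_group12 (hpiece0.env bandSmall.lo bandSmall.hi bandSmall.pole .omU) (by simp)) m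
        | .tauL => h0_tauL_lo_all m
        | .tauU => QEx.nonneg_on_box (List.all_eq_true.1 h0_group16 (hpiece0.env bandSmall.lo bandSmall.hi bandSmall.pole .tauU) (by simp)) m
      hi := fun e =>
        match e with
        | .piL => QEx.nonneg_on_box (List.all_eq_true.1 h0_group11 (hpiece0.env bandSmall.hi bandSmall.hi bandSmall.pole .piL) (by simp)) m
        | .piU => QEx.nonneg_on_box (List.all_eq_true.1 h0_group11 (hpiece0.env bandSmall.hi bandSmall.hi bandSmall.pole .piU) (by simp)) m
        | .omL => QEx.nonneg_on_box (List.all_eq_true.1 h0_group13 (hpiece0.env bandSmall.hi bandSmall.hi bandSmall.pole .omL) (by simp)) m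
        | .omU => QEx.nonneg_on_box (List.all_eq_true.1 h0_group13 (hpiece0.env bandSmall.hi bandSmall.hi bandSmall.pole .omU) (by simp)) m
        | .tauL => h0_tauL_hi_all m
        | .tauU => QEx.nonneg_on_box (List.all_eq_true.1 h0_group17 (hpiece0.env bandSmall.hi bandSmall.hi bandSmall.pole .tauU) (by simp)) m
      wid := QEx.nonneg_on_box (List.all_eq_true.1 h0_group20 (hpiece0.wid - qD 1) (by simp)) m }
  rayLo := QEx.nonneg_on_box (List.all_eq_true.1 h0_group18 (xLLGM false bandSmall.lo bandSmall.pole) (by simp)) m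
  rayHi := QEx.nonneg_on_box (List.all_eq_true.1 h0_group19 (xLLGM false bandSmall.hi bandSmall.pole) (by simp)) m

/-- The split check. -/
theorem h1_piL_lo_all {o : PtR} (m : o.InM hbox1) :
    0 ≤ (hpiece1.env (bandMid Band.midLowC Band.midUpC).lo (bandMid Band.midLowC Band.midUpC).hi (bandMid Band.midLowC Band.midUpC).pole .piL).val o.x := by
  obtain ⟨hu, hX, ha, hI⟩ := m.bounds
  simp only [hbox1] at hu hX ha hI
  norm_num at hu hX ha hI
  rcases le_total (o.a) (87 / 400 : ℝ) with h0 | h0
  ·
    refine QEx.nonneg_on_box h1_piL_lo_0 (PtR.InM.of_bounds ?_ ?_ ?_ ?_) <;>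
      simp only [hbox1_piL_lo_0, InChart] <;> norm_num <;> (try constructor) <;> linarith
  ·
    rcases le_total (o.u) (6 / 25 : ℝ) with h1 | h1
    ·
      refine QEx.nonneg_on_box h1_piL_lo_1 (PtR.InM.of_bounds ?_ ?_ ?_ ?_) <;>
        simp only [hbox1_piL_lo_1, InChart] <;> norm_num <;> (try constructor) <;> linarith
    ·
      rcases le_total (o.a) (211 / 800 : ℝ) with h2 | h2
      ·
        refine QEx.nonneg_on_box h1_piL_lo_2 (PtR.InM.of_bounds ?_ ?_ ?_ ?_) <;>
          simp only [hbox1_piL_lo_2, InChart] <;> norm_num <;> (try constructor) <;> linarith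
      ·
        refine QEx.nonneg_on_box h1_piL_lo_3 (PtR.InM.of_bounds ?_ ?_ ?_ ?_) <;>
          simp only [hbox1_piL_lo_3, InChart] <;> norm_num <;> (try constructor) <;> linarith

/-- The split check. -/
theorem h1_piU_hi_all {o : PtR} (m : o.InM hbox1) :
    0 ≤ (hpiece1.env (bandMid Band.midLowC Band.midUpC).hi (bandMid Band.midLowC Band.midUpC).hi (bandMid Band.midLowC Band.midUpC).pole .piU).val o.x := by
  obtain ⟨hu, hX, ha, hI⟩ := m.bounds
  simp only [hbox1] at hu hX ha hI
  norm_num at hu hX ha hI
  rcases le_total (o.a) (87 / 400 : ℝ) with h0 | h0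
  ·
    refine QEx.nonneg_on_box h1_piU_hi_0 (PtR.InM.of_bounds ?_ ?_ ?_ ?_) <;>
      simp only [hbox1_piU_hi_0, InChart] <;> norm_num <;> (try constructor) <;> linarith
  ·
    refine QEx.nonneg_on_box h1_piU_hi_1 (PtR.InM.of_bounds ?_ ?_ ?_ ?_) <;>
      simp only [hbox1_piU_hi_1, InChart] <;> norm_num <;> (try constructor) <;> linarith

/-- The split check. -/
theorem h1_omU_lo_all {o : PtR} (m : o.InM hbox1) :
    0 ≤ (hpiece1.env (bandMid Band.midLowC Band.midUpC).lo (bandMid Band.midLowC Band.midUpC).hi (bandMid Band.midLowC Band.midUpC).pole .omU).val o.x := by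
  obtain ⟨hu, hX, ha, hI⟩ := m.bounds
  simp only [hbox1] at hu hX ha hI
  norm_num at hu hX ha hI
  rcases le_total (o.a) (87 / 400 : ℝ) with h0 | h0
  ·
    refine QEx.nonneg_on_box h1_omU_lo_0 (PtR.InM.of_bounds ?_ ?_ ?_ ?_) <;>
      simp only [hbox1_omU_lo_0, InChart] <;> norm_num <;> (try constructor) <;> linarith
  ·
    rcases le_total (o.u) (6 / 25 : ℝ) with h1 | h1
    ·
      refine QEx.nonneg_on_box h1_omU_lo_1 (PtR.InM.of_bounds ?_ ?_ ?_ ?_) <;>
        simp only [hbox1_omU_lo_1, InChart] <;> norm_num <;> (try constructor) <;> linarith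
    ·
      rcases le_total (o.u) (8 / 25 : ℝ) with h2 | h2
      ·
        refine QEx.nonneg_on_box h1_omU_lo_2 (PtR.InM.of_bounds ?_ ?_ ?_ ?_) <;>
          simp only [hbox1_omU_lo_2, InChart] <;> norm_num <;> (try constructor) <;> linarith
      ·
        rcases le_total (o.a) (211 / 800 : ℝ) with h3 | h3
        ·
          refine QEx.nonneg_on_box h1_omU_lo_3 (PtR.InM.of_bounds ?_ ?_ ?_ ?_) <;>
            simp only [hbox1_omU_lo_3, InChart] <;> norm_num <;> (try constructor) <;> linarith
        ·
          refine QEx.nonneg_on_box h1_omU_lo_4 (PtR.InM.of_bounds ?_ ?_ ?_ ?_) <;>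
            simp only [hbox1_omU_lo_4, InChart] <;> norm_num <;> (try constructor) <;> linarith

/-- The split check. -/
theorem h1_omU_hi_all {o : PtR} (m : o.InM hbox1) :
    0 ≤ (hpiece1.env (bandMid Band.midLowC Band.midUpC).hi (bandMid Band.midLowC Band.midUpC).hi (bandMid Band.midLowC Band.midUpC).pole .omU).val o.x := by
  obtain ⟨hu, hX, ha, hI⟩ := m.bounds
  simp only [hbox1] at hu hX ha hI
  norm_num at hu hX ha hI
  rcases le_total (o.a) (87 / 400 : ℝ) with h0 | h0
  ·
    rcases le_total (o.a) (137 / 800 : ℝ) with h1 | h1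
    ·
      refine QEx.nonneg_on_box h1_omU_hi_0 (PtR.InM.of_bounds ?_ ?_ ?_ ?_) <;>
        simp only [hbox1_omU_hi_0, InChart] <;> norm_num <;> (try constructor) <;> linarith
    ·
      rcases le_total (o.u) (6 / 25 : ℝ) with h2 | h2
      ·
        refine QEx.nonneg_on_box h1_omU_hi_1 (PtR.InM.of_bounds ?_ ?_ ?_ ?_) <;>
          simp only [hbox1_omU_hi_1, InChart] <;> norm_num <;> (try constructor) <;> linarith
      ·
        refine QEx.nonneg_on_box h1_omU_hi_2 (PtR.InM.of_bounds ?_ ?_ ?_ ?_) <;>
          simp only [hbox1_omU_hi_2, InChart] <;> norm_num <;> (try constructor) <;> linarith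
  ·
    rcases le_total (o.u) (6 / 25 : ℝ) with h1 | h1
    ·
      refine QEx.nonneg_on_box h1_omU_hi_3 (PtR.InM.of_bounds ?_ ?_ ?_ ?_) <;>
        simp only [hbox1_omU_hi_3, InChart] <;> norm_num <;> (try constructor) <;> linarith
    ·
      refine QEx.nonneg_on_box h1_omU_hi_4 (PtR.InM.of_bounds ?_ ?_ ?_ ?_) <;>
        simp only [hbox1_omU_hi_4, InChart] <;> norm_num <;> (try constructor) <;> linarith

/-- The split check. -/
theorem h1_tauL_lo_all {o : PtR} (m : o.InM hbox1) :
    0 ≤ (hpiece1.env (bandMid Band.midLowC Band.midUpC).lo (bandMid Band.midLowC Band.midUpC).hi (bandMid Band.midLowC Band.midUpC).pole .tauL).val o.x := by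
  obtain ⟨hu, hX, ha, hI⟩ := m.bounds
  simp only [hbox1] at hu hX ha hI
  norm_num at hu hX ha hI
  rcases le_total (o.a) (87 / 400 : ℝ) with h0 | h0
  ·
    refine QEx.nonneg_on_box h1_tauL_lo_0 (PtR.InM.of_bounds ?_ ?_ ?_ ?_) <;>
      simp only [hbox1_tauL_lo_0, InChart] <;> norm_num <;> (try constructor) <;> linarith
  ·
    refine QEx.nonneg_on_box h1_tauL_lo_1 (PtR.InM.of_bounds ?_ ?_ ?_ ?_) <;>
      simp only [hbox1_tauL_lo_1, InChart] <;> norm_num <;> (try constructor) <;> linarith

/-- The split check. -/
theorem h1_tauL_hi_all {o : PtR} (m : o.InM hbox1) :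
    0 ≤ (hpiece1.env (bandMid Band.midLowC Band.midUpC).hi (bandMid Band.midLowC Band.midUpC).hi (bandMid Band.midLowC Band.midUpC).pole .tauL).val o.x := by
  obtain ⟨hu, hX, ha, hI⟩ := m.bounds
  simp only [hbox1] at hu hX ha hI
  norm_num at hu hX ha hI
  rcases le_total (o.a) (87 / 400 : ℝ) with h0 | h0
  ·
    refine QEx.nonneg_on_box h1_tauL_hi_0 (PtR.InM.of_bounds ?_ ?_ ?_ ?_) <;>
      simp only [hbox1_tauL_hi_0, InChart] <;> norm_num <;> (try constructor) <;> linarith
  ·
    refine QEx.nonneg_on_box h1_tauL_hi_1 (PtR.InM.of_bounds ?_ ?_ ?_ ?_) <;>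
      simp only [hbox1_tauL_hi_1, InChart] <;> norm_num <;> (try constructor) <;> linarith

/-- The exit curve on the box of piece 1. -/
theorem hexit1_holds {o : PtR} (h0 : 2 / 25 ≤ o.u) (h1 : o.u ≤ 2 / 5) (h2 : 1 / 8 ≤ o.a) (h3 : o.a ≤ 31 / 100)
    (h4 : 1 / 8 ≤ o.I) (h5 : o.I ≤ 8 / 57) :
    0 ≤ Band.midBracket Band.midExitC o.I o.a o.u * 42 - 1000 * 25 := by
  have h := QEx.nonneg_on_box hexit1_check (x := (⟨o.u, 42 / 25, o.a, o.I⟩ : PtR).x)
    (PtR.InM.of_bounds (o := ⟨o.u, 42 / 25, o.a, o.I⟩) ?_ ?_ ?_ ?_)
  · obtain ⟨eu, -, va, vI, -, -, -, -, -, -, -, -⟩ := (⟨o.u, 42 / 25, o.a, o.I⟩ : PtR).vals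
    simp only [xExitM, xFour, val_add, val_sub, val_mul, val_num, eu, va, vI] at h
    push_cast at h
    simp only [Band.midBracket, Band.midFour]
    linarith
  all_goals simp only [hexit1Box, InChart] <;> norm_num <;> (try constructor) <;> linarith

/-- The piece 1 holds on its box. -/
theorem hpiece1_holds {o : PtR} (m : o.InM hbox1) :
    hpiece1.AllHoldM false (bandMid Band.midLowC Band.midUpC) o where
  forms :=
    { forms := fun q h k =>
        match q, h, k with
        | .g, false, .lo => QEx.nonneg_on_box (List.all_eq_true.1 h1_group0 (hpiece1.checkM false .g false .lo) (by simp)) m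
        | .g, false, .hi => QEx.nonneg_on_box (List.all_eq_true.1 h1_group0 (hpiece1.checkM false .g false .hi) (by simp)) m
        | .g, false, .mid => QEx.nonneg_on_box (List.all_eq_true.1 h1_group0 (hpiece1.checkM false .g false .mid) (by simp)) m
        | .g, true, .lo => QEx.nonneg_on_box (List.all_eq_true.1 h1_group0 (hpiece1.checkM false .g true .lo) (by simp)) m
        | .g, true, .hi => QEx.nonneg_on_box (List.all_eq_true.1 h1_group0 (hpiece1.checkM false .g true .hi) (by simp)) m
        | .g, true, .mid => QEx.nonneg_on_box (List.all_eq_true.1 h1_group0 (hpiece1.checkM false .g true .mid) (by simp)) m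
        | .n, false, .lo => QEx.nonneg_on_box (List.all_eq_true.1 h1_group1 (hpiece1.checkM false .n false .lo) (by simp)) m
        | .n, false, .hi => QEx.nonneg_on_box (List.all_eq_true.1 h1_group1 (hpiece1.checkM false .n false .hi) (by simp)) m
        | .n, false, .mid => QEx.nonneg_on_box (List.all_eq_true.1 h1_group1 (hpiece1.checkM false .n false .mid) (by simp)) m
        | .n, true, .lo => QEx.nonneg_on_box (List.all_eq_true.1 h1_group1 (hpiece1.checkM false .n true .lo) (by simp)) m
        | .n, true, .hi => QEx.nonneg_on_box (List.all_eq_true.1 h1_group1 (hpiece1.checkM false .n true .hi) (by simp)) m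
        | .n, true, .mid => QEx.nonneg_on_box (List.all_eq_true.1 h1_group1 (hpiece1.checkM false .n true .mid) (by simp)) m
        | .tlo, false, .lo => QEx.nonneg_on_box (List.all_eq_true.1 h1_group2 (hpiece1.checkM false .tlo false .lo) (by simp)) m
        | .tlo, false, .hi => QEx.nonneg_on_box (List.all_eq_true.1 h1_group2 (hpiece1.checkM false .tlo false .hi) (by simp)) m
        | .tlo, false, .mid => QEx.nonneg_on_box (List.all_eq_true.1 h1_group2 (hpiece1.checkM false .tlo false .mid) (by simp)) m
        | .tlo, true, .lo => QEx.nonneg_on_box (List.all_eq_true.1 h1_group2 (hpiece1.checkM false .tlo true .lo) (by simp)) m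
        | .tlo, true, .hi => QEx.nonneg_on_box (List.all_eq_true.1 h1_group2 (hpiece1.checkM false .tlo true .hi) (by simp)) m
        | .tlo, true, .mid => QEx.nonneg_on_box (List.all_eq_true.1 h1_group2 (hpiece1.checkM false .tlo true .mid) (by simp)) m
        | .thi, false, .lo => QEx.nonneg_on_box (List.all_eq_true.1 h1_group2 (hpiece1.checkM false .thi false .lo) (by simp)) m
        | .thi, false, .hi => QEx.nonneg_on_box (List.all_eq_true.1 h1_group2 (hpiece1.checkM false .thi false .hi) (by simp)) m
        | .thi, false, .mid => QEx.nonneg_on_box (List.all_eq_true.1 h1_group2 (hpiece1.checkM false .thi false .mid) (by simp)) m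
        | .thi, true, .lo => QEx.nonneg_on_box (List.all_eq_true.1 h1_group2 (hpiece1.checkM false .thi true .lo) (by simp)) m
        | .thi, true, .hi => QEx.nonneg_on_box (List.all_eq_true.1 h1_group2 (hpiece1.checkM false .thi true .hi) (by simp)) m
        | .thi, true, .mid => QEx.nonneg_on_box (List.all_eq_true.1 h1_group2 (hpiece1.checkM false .thi true .mid) (by simp)) m
        | .mlo, false, .lo => QEx.nonneg_on_box (List.all_eq_true.1 h1_group3 (hpiece1.checkM false .mlo false .lo) (by simp)) m
        | .mlo, false, .hi => QEx.nonneg_on_box (List.all_eq_true.1 h1_group3 (hpiece1.checkM false .mlo false .hi) (by simp)) m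
        | .mlo, false, .mid => QEx.nonneg_on_box (List.all_eq_true.1 h1_group3 (hpiece1.checkM false .mlo false .mid) (by simp)) m
        | .mlo, true, .lo => QEx.nonneg_on_box (List.all_eq_true.1 h1_group3 (hpiece1.checkM false .mlo false .lo) (by simp)) m
        | .mlo, true, .hi => QEx.nonneg_on_box (List.all_eq_true.1 h1_group3 (hpiece1.checkM false .mlo false .hi) (by simp)) m
        | .mlo, true, .mid => QEx.nonneg_on_box (List.all_eq_true.1 h1_group3 (hpiece1.checkM false .mlo false .mid) (by simp)) m
        | .mhi, false, .lo => QEx.nonneg_on_box (List.all_eq_true.1 h1_group3 (hpiece1.checkM false .mhi false .lo) (by simp)) m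
        | .mhi, false, .hi => QEx.nonneg_on_box (List.all_eq_true.1 h1_group3 (hpiece1.checkM false .mhi false .hi) (by simp)) m
        | .mhi, false, .mid => QEx.nonneg_on_box (List.all_eq_true.1 h1_group3 (hpiece1.checkM false .mhi false .mid) (by simp)) m
        | .mhi, true, .lo => QEx.nonneg_on_box (List.all_eq_true.1 h1_group3 (hpiece1.checkM false .mhi false .lo) (by simp)) m
        | .mhi, true, .hi => QEx.nonneg_on_box (List.all_eq_true.1 h1_group3 (hpiece1.checkM false .mhi false .hi) (by simp)) m
        | .mhi, true, .mid => QEx.nonneg_on_box (List.all_eq_true.1 h1_group3 (hpiece1.checkM false .mhi false .mid) (by simp)) m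
        | .f, false, .lo => QEx.nonneg_on_box (List.all_eq_true.1 h1_group4 (hpiece1.checkM false .f false .lo) (by simp)) m
        | .f, false, .hi => QEx.nonneg_on_box (List.all_eq_true.1 h1_group5 (hpiece1.checkM false .f false .hi) (by simp)) m
        | .f, false, .mid => QEx.nonneg_on_box (List.all_eq_true.1 h1_group6 (hpiece1.checkM false .f false .mid) (by simp)) m
        | .f, true, .lo => QEx.nonneg_on_box (List.all_eq_true.1 h1_group7 (hpiece1.checkM false .f true .lo) (by simp)) m
        | .f, true, .hi => QEx.nonneg_on_box (List.all_eq_true.1 h1_group8 (hpiece1.checkM false .f true .hi) (by simp)) m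
        | .f, true, .mid => QEx.nonneg_on_box (List.all_eq_true.1 h1_group9 (hpiece1.checkM false .f true .mid) (by simp)) m
      side := fun e =>
        match e with
        | .rA => QEx.nonneg_on_box (List.all_eq_true.1 h1_group21 (hpiece1.side .rA) (by simp)) m
        | .rB => QEx.nonneg_on_box (List.all_eq_true.1 h1_group21 (hpiece1.side .rB) (by simp)) m
        | .rF => QEx.nonneg_on_box (List.all_eq_true.1 h1_group22 (hpiece1.side .rF) (by simp)) m
        | .q => QEx.nonneg_on_box (List.all_eq_true.1 h1_group23 (hpiece1.side .q) (by simp)) m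
        | .om => QEx.nonneg_on_box (List.all_eq_true.1 h1_group24 (hpiece1.side .om) (by simp)) m
      nums := by decide }
  env :=
    { lo := fun e =>
        match e with
        | .piL => h1_piL_lo_all m
        | .piU => QEx.nonneg_on_box (List.all_eq_true.1 h1_group11 (hpiece1.env (bandMid Band.midLowC Band.midUpC).lo (bandMid Band.midLowC Band.midUpC).hi (bandMid Band.midLowC Band.midUpC).pole .piU) (by simp)) m
        | .omL => QEx.nonneg_on_box (List.all_eq_true.1 h1_group13 (hpiece1.env (bandMid Band.midLowC Band.midUpC).lo (bandMid Band.midLowC Band.midUpC).hi (bandMid Band.midLowC Band.midUpC).pole .omL) (by simp)) m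
        | .omU => h1_omU_lo_all m
        | .tauL => h1_tauL_lo_all m
        | .tauU => QEx.nonneg_on_box (List.all_eq_true.1 h1_group18 (hpiece1.env (bandMid Band.midLowC Band.midUpC).lo (bandMid Band.midLowC Band.midUpC).hi (bandMid Band.midLowC Band.midUpC).pole .tauU) (by simp)) m
      hi := fun e =>
        match e with
        | .piL => QEx.nonneg_on_box (List.all_eq_true.1 h1_group11 (hpiece1.env (bandMid Band.midLowC Band.midUpC).hi (bandMid Band.midLowC Band.midUpC).hi (bandMid Band.midLowC Band.midUpC).pole .piL) (by simp)) m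
        | .piU => h1_piU_hi_all m
        | .omL => QEx.nonneg_on_box (List.all_eq_true.1 h1_group13 (hpiece1.env (bandMid Band.midLowC Band.midUpC).hi (bandMid Band.midLowC Band.midUpC).hi (bandMid Band.midLowC Band.midUpC).pole .omL) (by simp)) m
        | .omU => h1_omU_hi_all m
        | .tauL => h1_tauL_hi_all m
        | .tauU => QEx.nonneg_on_box (List.all_eq_true.1 h1_group18 (hpiece1.env (bandMid Band.midLowC Band.midUpC).hi (bandMid Band.midLowC Band.midUpC).hi (bandMid Band.midLowC Band.midUpC).pole .tauU) (by simp)) m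
      wid := QEx.nonneg_on_box (List.all_eq_true.1 h1_group20 (hpiece1.wid - qD 1) (by simp)) m }
  rayLo := QEx.nonneg_on_box (List.all_eq_true.1 h1_group19 (xLLGM false (bandMid Band.midLowC Band.midUpC).lo (bandMid Band.midLowC Band.midUpC).pole) (by simp)) m
  rayHi := QEx.nonneg_on_box (List.all_eq_true.1 h1_group19 (xLLGM false (bandMid Band.midLowC Band.midUpC).hi (bandMid Band.midLowC Band.midUpC).pole) (by simp)) m

/-- The split check. -/
theorem h2_piU_hi_all {o : PtR} (m : o.InM hbox2) :
    0 ≤ (hpiece2.env (bandMid Band.midLowC Band.midUpC).hi (bandMid Band.midLowC Band.midUpC).hi (bandMid Band.midLowC Band.midUpC).pole .piU).val o.x := by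
  obtain ⟨hu, hX, ha, hI⟩ := m.bounds
  simp only [hbox2] at hu hX ha hI
  norm_num at hu hX ha hI
  rcases le_total (o.a) (13 / 80 : ℝ) with h0 | h0
  ·
    refine QEx.nonneg_on_box h2_piU_hi_0 (PtR.InM.of_bounds ?_ ?_ ?_ ?_) <;>
      simp only [hbox2_piU_hi_0, InChart] <;> norm_num <;> (try constructor) <;> linarith
  ·
    refine QEx.nonneg_on_box h2_piU_hi_1 (PtR.InM.of_bounds ?_ ?_ ?_ ?_) <;>
      simp only [hbox2_piU_hi_1, InChart] <;> norm_num <;> (try constructor) <;> linarith

/-- The split check. -/
theorem h2_omU_lo_all {o : PtR} (m : o.InM hbox2) :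
    0 ≤ (hpiece2.env (bandMid Band.midLowC Band.midUpC).lo (bandMid Band.midLowC Band.midUpC).hi (bandMid Band.midLowC Band.midUpC).pole .omU).val o.x := by
  obtain ⟨hu, hX, ha, hI⟩ := m.bounds
  simp only [hbox2] at hu hX ha hI
  norm_num at hu hX ha hI
  rcases le_total (o.a) (13 / 80 : ℝ) with h0 | h0
  ·
    rcases le_total (o.X) (29 / 20 : ℝ) with h1 | h1
    ·
      refine QEx.nonneg_on_box h2_omU_lo_0 (PtR.InM.of_bounds ?_ ?_ ?_ ?_) <;>
        simp only [hbox2_omU_lo_0, InChart] <;> norm_num <;> (try constructor) <;> linarith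
    ·
      refine QEx.nonneg_on_box h2_omU_lo_1 (PtR.InM.of_bounds ?_ ?_ ?_ ?_) <;>
        simp only [hbox2_omU_lo_1, InChart] <;> norm_num <;> (try constructor) <;> linarith
  ·
    rcases le_total (o.X) (29 / 20 : ℝ) with h1 | h1
    ·
      refine QEx.nonneg_on_box h2_omU_lo_2 (PtR.InM.of_bounds ?_ ?_ ?_ ?_) <;>
        simp only [hbox2_omU_lo_2, InChart] <;> norm_num <;> (try constructor) <;> linarith
    ·
      refine QEx.nonneg_on_box h2_omU_lo_3 (PtR.InM.of_bounds ?_ ?_ ?_ ?_) <;>
        simp only [hbox2_omU_lo_3, InChart] <;> norm_num <;> (try constructor) <;> linarith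

/-- The split check. -/
theorem h2_omU_hi_all {o : PtR} (m : o.InM hbox2) :
    0 ≤ (hpiece2.env (bandMid Band.midLowC Band.midUpC).hi (bandMid Band.midLowC Band.midUpC).hi (bandMid Band.midLowC Band.midUpC).pole .omU).val o.x := by
  obtain ⟨hu, hX, ha, hI⟩ := m.bounds
  simp only [hbox2] at hu hX ha hI
  norm_num at hu hX ha hI
  rcases le_total (o.X) (29 / 20 : ℝ) with h0 | h0
  ·
    refine QEx.nonneg_on_box h2_omU_hi_0 (PtR.InM.of_bounds ?_ ?_ ?_ ?_) <;>
      simp only [hbox2_omU_hi_0, InChart] <;> norm_num <;> (try constructor) <;> linarith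
  ·
    refine QEx.nonneg_on_box h2_omU_hi_1 (PtR.InM.of_bounds ?_ ?_ ?_ ?_) <;>
      simp only [hbox2_omU_hi_1, InChart] <;> norm_num <;> (try constructor) <;> linarith

/-- The split check. -/
theorem h2_side_rF_all {o : PtR} (m : o.InM hbox2) :
    0 ≤ (hpiece2.side .rF).val o.x := by
  obtain ⟨hu, hX, ha, hI⟩ := m.bounds
  simp only [hbox2] at hu hX ha hI
  norm_num at hu hX ha hI
  rcases le_total (o.X) (29 / 20 : ℝ) with h0 | h0
  ·
    refine QEx.nonneg_on_box h2_side_rF_0 (PtR.InM.of_bounds ?_ ?_ ?_ ?_) <;>
      simp only [hbox2_side_rF_0, InChart] <;> norm_num <;> (try constructor) <;> linarith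
  ·
    refine QEx.nonneg_on_box h2_side_rF_1 (PtR.InM.of_bounds ?_ ?_ ?_ ?_) <;>
      simp only [hbox2_side_rF_1, InChart] <;> norm_num <;> (try constructor) <;> linarith

/-- The exit curve on the box of piece 2. -/
theorem hexit2_holds {o : PtR} (h0 : 2 / 5 ≤ o.u) (h1 : o.u ≤ 3 / 5) (h2 : 1 / 8 ≤ o.a) (h3 : o.a ≤ 1 / 5)
    (h4 : 1 / 8 ≤ o.I) (h5 : o.I ≤ 8 / 57) :
    0 ≤ Band.midBracket Band.midExitC o.I o.a o.u * 49 - 1000 * 25 := by
  have h := QEx.nonneg_on_box hexit2_check (x := (⟨o.u, 49 / 25, o.a, o.I⟩ : PtR).x)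
    (PtR.InM.of_bounds (o := ⟨o.u, 49 / 25, o.a, o.I⟩) ?_ ?_ ?_ ?_)
  · obtain ⟨eu, -, va, vI, -, -, -, -, -, -, -, -⟩ := (⟨o.u, 49 / 25, o.a, o.I⟩ : PtR).vals
    simp only [xExitM, xFour, val_add, val_sub, val_mul, val_num, eu, va, vI] at h
    push_cast at h
    simp only [Band.midBracket, Band.midFour]
    linarith
  all_goals simp only [hexit2Box, InChart] <;> norm_num <;> (try constructor) <;> linarith

/-- The piece 2 holds on its box. -/
theorem hpiece2_holds {o : PtR} (m : o.InM hbox2) :
    hpiece2.AllHoldM false (bandMid Band.midLowC Band.midUpC) o where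
  forms :=
    { forms := fun q h k =>
        match q, h, k with
        | .g, false, .lo => QEx.nonneg_on_box (List.all_eq_true.1 h2_group0 (hpiece2.checkM false .g false .lo) (by simp)) m
        | .g, false, .hi => QEx.nonneg_on_box (List.all_eq_true.1 h2_group0 (hpiece2.checkM false .g false .hi) (by simp)) m
        | .g, false, .mid => QEx.nonneg_on_box (List.all_eq_true.1 h2_group0 (hpiece2.checkM false .g false .mid) (by simp)) m
        | .g, true, .lo => QEx.nonneg_on_box (List.all_eq_true.1 h2_group0 (hpiece2.checkM false .g true .lo) (by simp)) m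
        | .g, true, .hi => QEx.nonneg_on_box (List.all_eq_true.1 h2_group0 (hpiece2.checkM false .g true .hi) (by simp)) m
        | .g, true, .mid => QEx.nonneg_on_box (List.all_eq_true.1 h2_group0 (hpiece2.checkM false .g true .mid) (by simp)) m
        | .n, false, .lo => QEx.nonneg_on_box (List.all_eq_true.1 h2_group1 (hpiece2.checkM false .n false .lo) (by simp)) m
        | .n, false, .hi => QEx.nonneg_on_box (List.all_eq_true.1 h2_group1 (hpiece2.checkM false .n false .hi) (by simp)) m
        | .n, false, .mid => QEx.nonneg_on_box (List.all_eq_true.1 h2_group1 (hpiece2.checkM false .n false .mid) (by simp)) m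
        | .n, true, .lo => QEx.nonneg_on_box (List.all_eq_true.1 h2_group1 (hpiece2.checkM false .n true .lo) (by simp)) m
        | .n, true, .hi => QEx.nonneg_on_box (List.all_eq_true.1 h2_group1 (hpiece2.checkM false .n true .hi) (by simp)) m
        | .n, true, .mid => QEx.nonneg_on_box (List.all_eq_true.1 h2_group1 (hpiece2.checkM false .n true .mid) (by simp)) m
        | .tlo, false, .lo => QEx.nonneg_on_box (List.all_eq_true.1 h2_group2 (hpiece2.checkM false .tlo false .lo) (by simp)) m
        | .tlo, false, .hi => QEx.nonneg_on_box (List.all_eq_true.1 h2_group2 (hpiece2.checkM false .tlo false .hi) (by simp)) m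
        | .tlo, false, .mid => QEx.nonneg_on_box (List.all_eq_true.1 h2_group2 (hpiece2.checkM false .tlo false .mid) (by simp)) m
        | .tlo, true, .lo => QEx.nonneg_on_box (List.all_eq_true.1 h2_group2 (hpiece2.checkM false .tlo true .lo) (by simp)) m
        | .tlo, true, .hi => QEx.nonneg_on_box (List.all_eq_true.1 h2_group2 (hpiece2.checkM false .tlo true .hi) (by simp)) m
        | .tlo, true, .mid => QEx.nonneg_on_box (List.all_eq_true.1 h2_group2 (hpiece2.checkM false .tlo true .mid) (by simp)) m
        | .thi, false, .lo => QEx.nonneg_on_box (List.all_eq_true.1 h2_group2 (hpiece2.checkM false .thi false .lo) (by simp)) m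
        | .thi, false, .hi => QEx.nonneg_on_box (List.all_eq_true.1 h2_group2 (hpiece2.checkM false .thi false .hi) (by simp)) m
        | .thi, false, .mid => QEx.nonneg_on_box (List.all_eq_true.1 h2_group2 (hpiece2.checkM false .thi false .mid) (by simp)) m
        | .thi, true, .lo => QEx.nonneg_on_box (List.all_eq_true.1 h2_group2 (hpiece2.checkM false .thi true .lo) (by simp)) m
        | .thi, true, .hi => QEx.nonneg_on_box (List.all_eq_true.1 h2_group2 (hpiece2.checkM false .thi true .hi) (by simp)) m
        | .thi, true, .mid => QEx.nonneg_on_box (List.all_eq_true.1 h2_group2 (hpiece2.checkM false .thi true .mid) (by simp)) m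
        | .mlo, false, .lo => QEx.nonneg_on_box (List.all_eq_true.1 h2_group3 (hpiece2.checkM false .mlo false .lo) (by simp)) m
        | .mlo, false, .hi => QEx.nonneg_on_box (List.all_eq_true.1 h2_group3 (hpiece2.checkM false .mlo false .hi) (by simp)) m
        | .mlo, false, .mid => QEx.nonneg_on_box (List.all_eq_true.1 h2_group3 (hpiece2.checkM false .mlo false .mid) (by simp)) m
        | .mlo, true, .lo => QEx.nonneg_on_box (List.all_eq_true.1 h2_group3 (hpiece2.checkM false .mlo false .lo) (by simp)) m
        | .mlo, true, .hi => QEx.nonneg_on_box (List.all_eq_true.1 h2_group3 (hpiece2.checkM false .mlo false .hi) (by simp)) m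
        | .mlo, true, .mid => QEx.nonneg_on_box (List.all_eq_true.1 h2_group3 (hpiece2.checkM false .mlo false .mid) (by simp)) m
        | .mhi, false, .lo => QEx.nonneg_on_box (List.all_eq_true.1 h2_group3 (hpiece2.checkM false .mhi false .lo) (by simp)) m
        | .mhi, false, .hi => QEx.nonneg_on_box (List.all_eq_true.1 h2_group3 (hpiece2.checkM false .mhi false .hi) (by simp)) m
        | .mhi, false, .mid => QEx.nonneg_on_box (List.all_eq_true.1 h2_group3 (hpiece2.checkM false .mhi false .mid) (by simp)) m
        | .mhi, true, .lo => QEx.nonneg_on_box (List.all_eq_true.1 h2_group3 (hpiece2.checkM false .mhi false .lo) (by simp)) m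
        | .mhi, true, .hi => QEx.nonneg_on_box (List.all_eq_true.1 h2_group3 (hpiece2.checkM false .mhi false .hi) (by simp)) m
        | .mhi, true, .mid => QEx.nonneg_on_box (List.all_eq_true.1 h2_group3 (hpiece2.checkM false .mhi false .mid) (by simp)) m
        | .f, false, .lo => QEx.nonneg_on_box (List.all_eq_true.1 h2_group4 (hpiece2.checkM false .f false .lo) (by simp)) m
        | .f, false, .hi => QEx.nonneg_on_box (List.all_eq_true.1 h2_group5 (hpiece2.checkM false .f false .hi) (by simp)) m
        | .f, false, .mid => QEx.nonneg_on_box (List.all_eq_true.1 h2_group6 (hpiece2.checkM false .f false .mid) (by simp)) m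
        | .f, true, .lo => QEx.nonneg_on_box (List.all_eq_true.1 h2_group7 (hpiece2.checkM false .f true .lo) (by simp)) m
        | .f, true, .hi => QEx.nonneg_on_box (List.all_eq_true.1 h2_group8 (hpiece2.checkM false .f true .hi) (by simp)) m
        | .f, true, .mid => QEx.nonneg_on_box (List.all_eq_true.1 h2_group9 (hpiece2.checkM false .f true .mid) (by simp)) m
      side := fun e =>
        match e with
        | .rA => QEx.nonneg_on_box (List.all_eq_true.1 h2_group18 (hpiece2.side .rA) (by simp)) m
        | .rB => QEx.nonneg_on_box (List.all_eq_true.1 h2_group18 (hpiece2.side .rB) (by simp)) m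
        | .rF => h2_side_rF_all m
        | .q => QEx.nonneg_on_box (List.all_eq_true.1 h2_group20 (hpiece2.side .q) (by simp)) m
        | .om => QEx.nonneg_on_box (List.all_eq_true.1 h2_group21 (hpiece2.side .om) (by simp)) m
      nums := by decide }
  env :=
    { lo := fun e =>
        match e with
        | .piL => QEx.nonneg_on_box (List.all_eq_true.1 h2_group10 (hpiece2.env (bandMid Band.midLowC Band.midUpC).lo (bandMid Band.midLowC Band.midUpC).hi (bandMid Band.midLowC Band.midUpC).pole .piL) (by simp)) m
        | .piU => QEx.nonneg_on_box (List.all_eq_true.1 h2_group10 (hpiece2.env (bandMid Band.midLowC Band.midUpC).lo (bandMid Band.midLowC Band.midUpC).hi (bandMid Band.midLowC Band.midUpC).pole .piU) (by simp)) m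
        | .omL => QEx.nonneg_on_box (List.all_eq_true.1 h2_group12 (hpiece2.env (bandMid Band.midLowC Band.midUpC).lo (bandMid Band.midLowC Band.midUpC).hi (bandMid Band.midLowC Band.midUpC).pole .omL) (by simp)) m
        | .omU => h2_omU_lo_all m
        | .tauL => QEx.nonneg_on_box (List.all_eq_true.1 h2_group15 (hpiece2.env (bandMid Band.midLowC Band.midUpC).lo (bandMid Band.midLowC Band.midUpC).hi (bandMid Band.midLowC Band.midUpC).pole .tauL) (by simp)) m
        | .tauU => QEx.nonneg_on_box (List.all_eq_true.1 h2_group15 (hpiece2.env (bandMid Band.midLowC Band.midUpC).lo (bandMid Band.midLowC Band.midUpC).hi (bandMid Band.midLowC Band.midUpC).pole .tauU) (by simp)) m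
      hi := fun e =>
        match e with
        | .piL => QEx.nonneg_on_box (List.all_eq_true.1 h2_group10 (hpiece2.env (bandMid Band.midLowC Band.midUpC).hi (bandMid Band.midLowC Band.midUpC).hi (bandMid Band.midLowC Band.midUpC).pole .piL) (by simp)) m
        | .piU => h2_piU_hi_all m
        | .omL => QEx.nonneg_on_box (List.all_eq_true.1 h2_group12 (hpiece2.env (bandMid Band.midLowC Band.midUpC).hi (bandMid Band.midLowC Band.midUpC).hi (bandMid Band.midLowC Band.midUpC).pole .omL) (by simp)) m
        | .omU => h2_omU_hi_all m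
        | .tauL => QEx.nonneg_on_box (List.all_eq_true.1 h2_group15 (hpiece2.env (bandMid Band.midLowC Band.midUpC).hi (bandMid Band.midLowC Band.midUpC).hi (bandMid Band.midLowC Band.midUpC).pole .tauL) (by simp)) m
        | .tauU => QEx.nonneg_on_box (List.all_eq_true.1 h2_group15 (hpiece2.env (bandMid Band.midLowC Band.midUpC).hi (bandMid Band.midLowC Band.midUpC).hi (bandMid Band.midLowC Band.midUpC).pole .tauU) (by simp)) m
      wid := QEx.nonneg_on_box (List.all_eq_true.1 h2_group17 (hpiece2.wid - qD 1) (by simp)) m }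
  rayLo := QEx.nonneg_on_box (List.all_eq_true.1 h2_group16 (xLLGM false (bandMid Band.midLowC Band.midUpC).lo (bandMid Band.midLowC Band.midUpC).pole) (by simp)) m
  rayHi := QEx.nonneg_on_box (List.all_eq_true.1 h2_group16 (xLLGM false (bandMid Band.midLowC Band.midUpC).hi (bandMid Band.midLowC Band.midUpC).pole) (by simp)) m

/-- The split check. -/
theorem h3_piL_lo_all {o : PtR} (m : o.InM hbox3) :
    0 ≤ (hpiece3.env (bandMid Band.midLowC Band.midUpC).lo (bandMid Band.midLowC Band.midUpC).hi (bandMid Band.midLowC Band.midUpC).pole .piL).val o.x := by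
  obtain ⟨hu, hX, ha, hI⟩ := m.bounds
  simp only [hbox3] at hu hX ha hI
  norm_num at hu hX ha hI
  rcases le_total (o.a) (51 / 200 : ℝ) with h0 | h0
  ·
    refine QEx.nonneg_on_box h3_piL_lo_0 (PtR.InM.of_bounds ?_ ?_ ?_ ?_) <;>
      simp only [hbox3_piL_lo_0, InChart] <;> norm_num <;> (try constructor) <;> linarith
  ·
    refine QEx.nonneg_on_box h3_piL_lo_1 (PtR.InM.of_bounds ?_ ?_ ?_ ?_) <;>
      simp only [hbox3_piL_lo_1, InChart] <;> norm_num <;> (try constructor) <;> linarith

/-- The split check. -/
theorem h3_piU_hi_all {o : PtR} (m : o.InM hbox3) :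
    0 ≤ (hpiece3.env (bandMid Band.midLowC Band.midUpC).hi (bandMid Band.midLowC Band.midUpC).hi (bandMid Band.midLowC Band.midUpC).pole .piU).val o.x := by
  obtain ⟨hu, hX, ha, hI⟩ := m.bounds
  simp only [hbox3] at hu hX ha hI
  norm_num at hu hX ha hI
  rcases le_total (o.a) (51 / 200 : ℝ) with h0 | h0
  ·
    rcases le_total (o.u) (1 / 2 : ℝ) with h1 | h1
    ·
      refine QEx.nonneg_on_box h3_piU_hi_0 (PtR.InM.of_bounds ?_ ?_ ?_ ?_) <;>
        simp only [hbox3_piU_hi_0, InChart] <;> norm_num <;> (try constructor) <;> linarith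
    ·
      refine QEx.nonneg_on_box h3_piU_hi_1 (PtR.InM.of_bounds ?_ ?_ ?_ ?_) <;>
        simp only [hbox3_piU_hi_1, InChart] <;> norm_num <;> (try constructor) <;> linarith
  ·
    refine QEx.nonneg_on_box h3_piU_hi_2 (PtR.InM.of_bounds ?_ ?_ ?_ ?_) <;>
      simp only [hbox3_piU_hi_2, InChart] <;> norm_num <;> (try constructor) <;> linarith

/-- The split check. -/
theorem h3_omU_lo_all {o : PtR} (m : o.InM hbox3) :
    0 ≤ (hpiece3.env (bandMid Band.midLowC Band.midUpC).lo (bandMid Band.midLowC Band.midUpC).hi (bandMid Band.midLowC Band.midUpC).pole .omU).val o.x := by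
  obtain ⟨hu, hX, ha, hI⟩ := m.bounds
  simp only [hbox3] at hu hX ha hI
  norm_num at hu hX ha hI
  rcases le_total (o.X) (8 / 5 : ℝ) with h0 | h0
  ·
    rcases le_total (o.a) (51 / 200 : ℝ) with h1 | h1
    ·
      refine QEx.nonneg_on_box h3_omU_lo_0 (PtR.InM.of_bounds ?_ ?_ ?_ ?_) <;>
        simp only [hbox3_omU_lo_0, InChart] <;> norm_num <;> (try constructor) <;> linarith
    ·
      refine QEx.nonneg_on_box h3_omU_lo_1 (PtR.InM.of_bounds ?_ ?_ ?_ ?_) <;>
        simp only [hbox3_omU_lo_1, InChart] <;> norm_num <;> (try constructor) <;> linarith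
  ·
    rcases le_total (o.a) (51 / 200 : ℝ) with h1 | h1
    ·
      refine QEx.nonneg_on_box h3_omU_lo_2 (PtR.InM.of_bounds ?_ ?_ ?_ ?_) <;>
        simp only [hbox3_omU_lo_2, InChart] <;> norm_num <;> (try constructor) <;> linarith
    ·
      refine QEx.nonneg_on_box h3_omU_lo_3 (PtR.InM.of_bounds ?_ ?_ ?_ ?_) <;>
        simp only [hbox3_omU_lo_3, InChart] <;> norm_num <;> (try constructor) <;> linarith

/-- The split check. -/
theorem h3_omU_hi_all {o : PtR} (m : o.InM hbox3) :
    0 ≤ (hpiece3.env (bandMid Band.midLowC Band.midUpC).hi (bandMid Band.midLowC Band.midUpC).hi (bandMid Band.midLowC Band.midUpC).pole .omU).val o.x := by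
  obtain ⟨hu, hX, ha, hI⟩ := m.bounds
  simp only [hbox3] at hu hX ha hI
  norm_num at hu hX ha hI
  rcases le_total (o.a) (51 / 200 : ℝ) with h0 | h0
  ·
    rcases le_total (o.X) (8 / 5 : ℝ) with h1 | h1
    ·
      refine QEx.nonneg_on_box h3_omU_hi_0 (PtR.InM.of_bounds ?_ ?_ ?_ ?_) <;>
        simp only [hbox3_omU_hi_0, InChart] <;> norm_num <;> (try constructor) <;> linarith
    ·
      refine QEx.nonneg_on_box h3_omU_hi_1 (PtR.InM.of_bounds ?_ ?_ ?_ ?_) <;>
        simp only [hbox3_omU_hi_1, InChart] <;> norm_num <;> (try constructor) <;> linarith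
  ·
    rcases le_total (o.X) (8 / 5 : ℝ) with h1 | h1
    ·
      refine QEx.nonneg_on_box h3_omU_hi_2 (PtR.InM.of_bounds ?_ ?_ ?_ ?_) <;>
        simp only [hbox3_omU_hi_2, InChart] <;> norm_num <;> (try constructor) <;> linarith
    ·
      refine QEx.nonneg_on_box h3_omU_hi_3 (PtR.InM.of_bounds ?_ ?_ ?_ ?_) <;>
        simp only [hbox3_omU_hi_3, InChart] <;> norm_num <;> (try constructor) <;> linarith

/-- The split check. -/
theorem h3_tauL_lo_all {o : PtR} (m : o.InM hbox3) :
    0 ≤ (hpiece3.env (bandMid Band.midLowC Band.midUpC).lo (bandMid Band.midLowC Band.midUpC).hi (bandMid Band.midLowC Band.midUpC).pole .tauL).val o.x := by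
  obtain ⟨hu, hX, ha, hI⟩ := m.bounds
  simp only [hbox3] at hu hX ha hI
  norm_num at hu hX ha hI
  rcases le_total (o.a) (51 / 200 : ℝ) with h0 | h0
  ·
    refine QEx.nonneg_on_box h3_tauL_lo_0 (PtR.InM.of_bounds ?_ ?_ ?_ ?_) <;>
      simp only [hbox3_tauL_lo_0, InChart] <;> norm_num <;> (try constructor) <;> linarith
  ·
    refine QEx.nonneg_on_box h3_tauL_lo_1 (PtR.InM.of_bounds ?_ ?_ ?_ ?_) <;>
      simp only [hbox3_tauL_lo_1, InChart] <;> norm_num <;> (try constructor) <;> linarith

/-- The split check. -/
theorem h3_tauL_hi_all {o : PtR} (m : o.InM hbox3) :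
    0 ≤ (hpiece3.env (bandMid Band.midLowC Band.midUpC).hi (bandMid Band.midLowC Band.midUpC).hi (bandMid Band.midLowC Band.midUpC).pole .tauL).val o.x := by
  obtain ⟨hu, hX, ha, hI⟩ := m.bounds
  simp only [hbox3] at hu hX ha hI
  norm_num at hu hX ha hI
  rcases le_total (o.a) (51 / 200 : ℝ) with h0 | h0
  ·
    refine QEx.nonneg_on_box h3_tauL_hi_0 (PtR.InM.of_bounds ?_ ?_ ?_ ?_) <;>
      simp only [hbox3_tauL_hi_0, InChart] <;> norm_num <;> (try constructor) <;> linarith
  ·
    refine QEx.nonneg_on_box h3_tauL_hi_1 (PtR.InM.of_bounds ?_ ?_ ?_ ?_) <;>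
      simp only [hbox3_tauL_hi_1, InChart] <;> norm_num <;> (try constructor) <;> linarith

/-- The exit curve on the box of piece 3. -/
theorem hexit3_holds {o : PtR} (h0 : 2 / 5 ≤ o.u) (h1 : o.u ≤ 3 / 5) (h2 : 1 / 5 ≤ o.a) (h3 : o.a ≤ 31 / 100)
    (h4 : 1 / 8 ≤ o.I) (h5 : o.I ≤ 8 / 57) :
    0 ≤ Band.midBracket Band.midExitC o.I o.a o.u * 23 - 1000 * 10 := by
  have h := QEx.nonneg_on_box hexit3_check (x := (⟨o.u, 23 / 10, o.a, o.I⟩ : PtR).x)
    (PtR.InM.of_bounds (o := ⟨o.u, 23 / 10, o.a, o.I⟩) ?_ ?_ ?_ ?_)
  · obtain ⟨eu, -, va, vI, -, -, -, -, -, -, -, -⟩ := (⟨o.u, 23 / 10, o.a, o.I⟩ : PtR).vals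
    simp only [xExitM, xFour, val_add, val_sub, val_mul, val_num, eu, va, vI] at h
    push_cast at h
    simp only [Band.midBracket, Band.midFour]
    linarith
  all_goals simp only [hexit3Box, InChart] <;> norm_num <;> (try constructor) <;> linarith

/-- The piece 3 holds on its box. -/
theorem hpiece3_holds {o : PtR} (m : o.InM hbox3) :
    hpiece3.AllHoldM false (bandMid Band.midLowC Band.midUpC) o where
  forms :=
    { forms := fun q h k =>
        match q, h, k with
        | .g, false, .lo => QEx.nonneg_on_box (List.all_eq_true.1 h3_group0 (hpiece3.checkM false .g false .lo) (by simp)) m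
        | .g, false, .hi => QEx.nonneg_on_box (List.all_eq_true.1 h3_group0 (hpiece3.checkM false .g false .hi) (by simp)) m
        | .g, false, .mid => QEx.nonneg_on_box (List.all_eq_true.1 h3_group0 (hpiece3.checkM false .g false .mid) (by simp)) m
        | .g, true, .lo => QEx.nonneg_on_box (List.all_eq_true.1 h3_group0 (hpiece3.checkM false .g true .lo) (by simp)) m
        | .g, true, .hi => QEx.nonneg_on_box (List.all_eq_true.1 h3_group0 (hpiece3.checkM false .g true .hi) (by simp)) m
        | .g, true, .mid => QEx.nonneg_on_box (List.all_eq_true.1 h3_group0 (hpiece3.checkM false .g true .mid) (by simp)) m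
        | .n, false, .lo => QEx.nonneg_on_box (List.all_eq_true.1 h3_group1 (hpiece3.checkM false .n false .lo) (by simp)) m
        | .n, false, .hi => QEx.nonneg_on_box (List.all_eq_true.1 h3_group1 (hpiece3.checkM false .n false .hi) (by simp)) m
        | .n, false, .mid => QEx.nonneg_on_box (List.all_eq_true.1 h3_group1 (hpiece3.checkM false .n false .mid) (by simp)) m
        | .n, true, .lo => QEx.nonneg_on_box (List.all_eq_true.1 h3_group1 (hpiece3.checkM false .n true .lo) (by simp)) m
        | .n, true, .hi => QEx.nonneg_on_box (List.all_eq_true.1 h3_group1 (hpiece3.checkM false .n true .hi) (by simp)) m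
        | .n, true, .mid => QEx.nonneg_on_box (List.all_eq_true.1 h3_group1 (hpiece3.checkM false .n true .mid) (by simp)) m
        | .tlo, false, .lo => QEx.nonneg_on_box (List.all_eq_true.1 h3_group2 (hpiece3.checkM false .tlo false .lo) (by simp)) m
        | .tlo, false, .hi => QEx.nonneg_on_box (List.all_eq_true.1 h3_group2 (hpiece3.checkM false .tlo false .hi) (by simp)) m
        | .tlo, false, .mid => QEx.nonneg_on_box (List.all_eq_true.1 h3_group2 (hpiece3.checkM false .tlo false .mid) (by simp)) m
        | .tlo, true, .lo => QEx.nonneg_on_box (List.all_eq_true.1 h3_group2 (hpiece3.checkM false .tlo true .lo) (by simp)) m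
        | .tlo, true, .hi => QEx.nonneg_on_box (List.all_eq_true.1 h3_group2 (hpiece3.checkM false .tlo true .hi) (by simp)) m
        | .tlo, true, .mid => QEx.nonneg_on_box (List.all_eq_true.1 h3_group2 (hpiece3.checkM false .tlo true .mid) (by simp)) m
        | .thi, false, .lo => QEx.nonneg_on_box (List.all_eq_true.1 h3_group2 (hpiece3.checkM false .thi false .lo) (by simp)) m
        | .thi, false, .hi => QEx.nonneg_on_box (List.all_eq_true.1 h3_group2 (hpiece3.checkM false .thi false .hi) (by simp)) m
        | .thi, false, .mid => QEx.nonneg_on_box (List.all_eq_true.1 h3_group2 (hpiece3.checkM false .thi false .mid) (by simp)) m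
        | .thi, true, .lo => QEx.nonneg_on_box (List.all_eq_true.1 h3_group2 (hpiece3.checkM false .thi true .lo) (by simp)) m
        | .thi, true, .hi => QEx.nonneg_on_box (List.all_eq_true.1 h3_group2 (hpiece3.checkM false .thi true .hi) (by simp)) m
        | .thi, true, .mid => QEx.nonneg_on_box (List.all_eq_true.1 h3_group2 (hpiece3.checkM false .thi true .mid) (by simp)) m
        | .mlo, false, .lo => QEx.nonneg_on_box (List.all_eq_true.1 h3_group3 (hpiece3.checkM false .mlo false .lo) (by simp)) m
        | .mlo, false, .hi => QEx.nonneg_on_box (List.all_eq_true.1 h3_group3 (hpiece3.checkM false .mlo false .hi) (by simp)) m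
        | .mlo, false, .mid => QEx.nonneg_on_box (List.all_eq_true.1 h3_group3 (hpiece3.checkM false .mlo false .mid) (by simp)) m
        | .mlo, true, .lo => QEx.nonneg_on_box (List.all_eq_true.1 h3_group3 (hpiece3.checkM false .mlo false .lo) (by simp)) m
        | .mlo, true, .hi => QEx.nonneg_on_box (List.all_eq_true.1 h3_group3 (hpiece3.checkM false .mlo false .hi) (by simp)) m
        | .mlo, true, .mid => QEx.nonneg_on_box (List.all_eq_true.1 h3_group3 (hpiece3.checkM false .mlo false .mid) (by simp)) m
        | .mhi, false, .lo => QEx.nonneg_on_box (List.all_eq_true.1 h3_group3 (hpiece3.checkM false .mhi false .lo) (by simp)) m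
        | .mhi, false, .hi => QEx.nonneg_on_box (List.all_eq_true.1 h3_group3 (hpiece3.checkM false .mhi false .hi) (by simp)) m
        | .mhi, false, .mid => QEx.nonneg_on_box (List.all_eq_true.1 h3_group3 (hpiece3.checkM false .mhi false .mid) (by simp)) m
        | .mhi, true, .lo => QEx.nonneg_on_box (List.all_eq_true.1 h3_group3 (hpiece3.checkM false .mhi false .lo) (by simp)) m
        | .mhi, true, .hi => QEx.nonneg_on_box (List.all_eq_true.1 h3_group3 (hpiece3.checkM false .mhi false .hi) (by simp)) m
        | .mhi, true, .mid => QEx.nonneg_on_box (List.all_eq_true.1 h3_group3 (hpiece3.checkM false .mhi false .mid) (by simp)) m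
        | .f, false, .lo => QEx.nonneg_on_box (List.all_eq_true.1 h3_group4 (hpiece3.checkM false .f false .lo) (by simp)) m
        | .f, false, .hi => QEx.nonneg_on_box (List.all_eq_true.1 h3_group5 (hpiece3.checkM false .f false .hi) (by simp)) m
        | .f, false, .mid => QEx.nonneg_on_box (List.all_eq_true.1 h3_group6 (hpiece3.checkM false .f false .mid) (by simp)) m
        | .f, true, .lo => QEx.nonneg_on_box (List.all_eq_true.1 h3_group7 (hpiece3.checkM false .f true .lo) (by simp)) m
        | .f, true, .hi => QEx.nonneg_on_box (List.all_eq_true.1 h3_group8 (hpiece3.checkM false .f true .hi) (by simp)) m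
        | .f, true, .mid => QEx.nonneg_on_box (List.all_eq_true.1 h3_group9 (hpiece3.checkM false .f true .mid) (by simp)) m
      side := fun e =>
        match e with
        | .rA => QEx.nonneg_on_box (List.all_eq_true.1 h3_group21 (hpiece3.side .rA) (by simp)) m
        | .rB => QEx.nonneg_on_box (List.all_eq_true.1 h3_group21 (hpiece3.side .rB) (by simp)) m
        | .rF => QEx.nonneg_on_box (List.all_eq_true.1 h3_group22 (hpiece3.side .rF) (by simp)) m
        | .q => QEx.nonneg_on_box (List.all_eq_true.1 h3_group23 (hpiece3.side .q) (by simp)) m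
        | .om => QEx.nonneg_on_box (List.all_eq_true.1 h3_group24 (hpiece3.side .om) (by simp)) m
      nums := by decide }
  env :=
    { lo := fun e =>
        match e with
        | .piL => h3_piL_lo_all m
        | .piU => QEx.nonneg_on_box (List.all_eq_true.1 h3_group11 (hpiece3.env (bandMid Band.midLowC Band.midUpC).lo (bandMid Band.midLowC Band.midUpC).hi (bandMid Band.midLowC Band.midUpC).pole .piU) (by simp)) m
        | .omL => QEx.nonneg_on_box (List.all_eq_true.1 h3_group13 (hpiece3.env (bandMid Band.midLowC Band.midUpC).lo (bandMid Band.midLowC Band.midUpC).hi (bandMid Band.midLowC Band.midUpC).pole .omL) (by simp)) m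
        | .omU => h3_omU_lo_all m
        | .tauL => h3_tauL_lo_all m
        | .tauU => QEx.nonneg_on_box (List.all_eq_true.1 h3_group18 (hpiece3.env (bandMid Band.midLowC Band.midUpC).lo (bandMid Band.midLowC Band.midUpC).hi (bandMid Band.midLowC Band.midUpC).pole .tauU) (by simp)) m
      hi := fun e =>
        match e with
        | .piL => QEx.nonneg_on_box (List.all_eq_true.1 h3_group11 (hpiece3.env (bandMid Band.midLowC Band.midUpC).hi (bandMid Band.midLowC Band.midUpC).hi (bandMid Band.midLowC Band.midUpC).pole .piL) (by simp)) m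
        | .piU => h3_piU_hi_all m
        | .omL => QEx.nonneg_on_box (List.all_eq_true.1 h3_group13 (hpiece3.env (bandMid Band.midLowC Band.midUpC).hi (bandMid Band.midLowC Band.midUpC).hi (bandMid Band.midLowC Band.midUpC).pole .omL) (by simp)) m
        | .omU => h3_omU_hi_all m
        | .tauL => h3_tauL_hi_all m
        | .tauU => QEx.nonneg_on_box (List.all_eq_true.1 h3_group18 (hpiece3.env (bandMid Band.midLowC Band.midUpC).hi (bandMid Band.midLowC Band.midUpC).hi (bandMid Band.midLowC Band.midUpC).pole .tauU) (by simp)) m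
      wid := QEx.nonneg_on_box (List.all_eq_true.1 h3_group20 (hpiece3.wid - qD 1) (by simp)) m }
  rayLo := QEx.nonneg_on_box (List.all_eq_true.1 h3_group19 (xLLGM false (bandMid Band.midLowC Band.midUpC).lo (bandMid Band.midLowC Band.midUpC).pole) (by simp)) m
  rayHi := QEx.nonneg_on_box (List.all_eq_true.1 h3_group19 (xLLGM false (bandMid Band.midLowC Band.midUpC).hi (bandMid Band.midLowC Band.midUpC).pole) (by simp)) m

/-- The exit curve on the box of piece 4. -/
theorem hexit4_holds {o : PtR} (h0 : 0 ≤ o.u) (h1 : o.u ≤ 3 / 25) (h2 : 3 / 10 ≤ o.a) (h3 : o.a ≤ 31 / 100)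
    (h4 : 1 / 8 ≤ o.I) (h5 : o.I ≤ 8 / 57) :
    0 ≤ Band.midBracket Band.midExitC o.I o.a o.u * 63 - 1000 * 50 := by
  have h := QEx.nonneg_on_box hexit4_check (x := (⟨o.u, 63 / 50, o.a, o.I⟩ : PtR).x)
    (PtR.InM.of_bounds (o := ⟨o.u, 63 / 50, o.a, o.I⟩) ?_ ?_ ?_ ?_)
  · obtain ⟨eu, -, va, vI, -, -, -, -, -, -, -, -⟩ := (⟨o.u, 63 / 50, o.a, o.I⟩ : PtR).vals
    simp only [xExitM, xFour, val_add, val_sub, val_mul, val_num, eu, va, vI] at h
    push_cast at h
    simp only [Band.midBracket, Band.midFour]
    linarith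
  all_goals simp only [hexit4Box, InChart] <;> norm_num <;> (try constructor) <;> linarith

/-- The piece 4 holds on its box. -/
theorem hpiece4_holds {o : PtR} (m : o.InM hbox4) :
    hpiece4.AllHoldM true bandSmall o where
  forms :=
    { forms := fun q h k =>
        match q, h, k with
        | .g, false, .lo => QEx.nonneg_on_box (List.all_eq_true.1 h4_group0 (hpiece4.checkM true .g false .lo) (by simp)) m
        | .g, false, .hi => QEx.nonneg_on_box (List.all_eq_true.1 h4_group0 (hpiece4.checkM true .g false .hi) (by simp)) m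
        | .g, false, .mid => QEx.nonneg_on_box (List.all_eq_true.1 h4_group0 (hpiece4.checkM true .g false .mid) (by simp)) m
        | .g, true, .lo => QEx.nonneg_on_box (List.all_eq_true.1 h4_group0 (hpiece4.checkM true .g true .lo) (by simp)) m
        | .g, true, .hi => QEx.nonneg_on_box (List.all_eq_true.1 h4_group0 (hpiece4.checkM true .g true .hi) (by simp)) m
        | .g, true, .mid => QEx.nonneg_on_box (List.all_eq_true.1 h4_group0 (hpiece4.checkM true .g true .mid) (by simp)) m
        | .n, false, .lo => QEx.nonneg_on_box (List.all_eq_true.1 h4_group1 (hpiece4.checkM true .n false .lo) (by simp)) m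
        | .n, false, .hi => QEx.nonneg_on_box (List.all_eq_true.1 h4_group1 (hpiece4.checkM true .n false .hi) (by simp)) m
        | .n, false, .mid => QEx.nonneg_on_box (List.all_eq_true.1 h4_group1 (hpiece4.checkM true .n false .mid) (by simp)) m
        | .n, true, .lo => QEx.nonneg_on_box (List.all_eq_true.1 h4_group1 (hpiece4.checkM true .n true .lo) (by simp)) m
        | .n, true, .hi => QEx.nonneg_on_box (List.all_eq_true.1 h4_group1 (hpiece4.checkM true .n true .hi) (by simp)) m
        | .n, true, .mid => QEx.nonneg_on_box (List.all_eq_true.1 h4_group1 (hpiece4.checkM true .n true .mid) (by simp)) m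
        | .tlo, false, .lo => QEx.nonneg_on_box (List.all_eq_true.1 h4_group2 (hpiece4.checkM true .tlo false .lo) (by simp)) m
        | .tlo, false, .hi => QEx.nonneg_on_box (List.all_eq_true.1 h4_group2 (hpiece4.checkM true .tlo false .hi) (by simp)) m
        | .tlo, false, .mid => QEx.nonneg_on_box (List.all_eq_true.1 h4_group2 (hpiece4.checkM true .tlo false .mid) (by simp)) m
        | .tlo, true, .lo => QEx.nonneg_on_box (List.all_eq_true.1 h4_group2 (hpiece4.checkM true .tlo true .lo) (by simp)) m
        | .tlo, true, .hi => QEx.nonneg_on_box (List.all_eq_true.1 h4_group2 (hpiece4.checkM true .tlo true .hi) (by simp)) m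
        | .tlo, true, .mid => QEx.nonneg_on_box (List.all_eq_true.1 h4_group2 (hpiece4.checkM true .tlo true .mid) (by simp)) m
        | .thi, false, .lo => QEx.nonneg_on_box (List.all_eq_true.1 h4_group2 (hpiece4.checkM true .thi false .lo) (by simp)) m
        | .thi, false, .hi => QEx.nonneg_on_box (List.all_eq_true.1 h4_group2 (hpiece4.checkM true .thi false .hi) (by simp)) m
        | .thi, false, .mid => QEx.nonneg_on_box (List.all_eq_true.1 h4_group2 (hpiece4.checkM true .thi false .mid) (by simp)) m
        | .thi, true, .lo => QEx.nonneg_on_box (List.all_eq_true.1 h4_group2 (hpiece4.checkM true .thi true .lo) (by simp)) m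
        | .thi, true, .hi => QEx.nonneg_on_box (List.all_eq_true.1 h4_group2 (hpiece4.checkM true .thi true .hi) (by simp)) m
        | .thi, true, .mid => QEx.nonneg_on_box (List.all_eq_true.1 h4_group2 (hpiece4.checkM true .thi true .mid) (by simp)) m
        | .mlo, false, .lo => QEx.nonneg_on_box (List.all_eq_true.1 h4_group3 (hpiece4.checkM true .mlo false .lo) (by simp)) m
        | .mlo, false, .hi => QEx.nonneg_on_box (List.all_eq_true.1 h4_group3 (hpiece4.checkM true .mlo false .hi) (by simp)) m
        | .mlo, false, .mid => QEx.nonneg_on_box (List.all_eq_true.1 h4_group3 (hpiece4.checkM true .mlo false .mid) (by simp)) m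
        | .mlo, true, .lo => QEx.nonneg_on_box (List.all_eq_true.1 h4_group3 (hpiece4.checkM true .mlo false .lo) (by simp)) m
        | .mlo, true, .hi => QEx.nonneg_on_box (List.all_eq_true.1 h4_group3 (hpiece4.checkM true .mlo false .hi) (by simp)) m
        | .mlo, true, .mid => QEx.nonneg_on_box (List.all_eq_true.1 h4_group3 (hpiece4.checkM true .mlo false .mid) (by simp)) m
        | .mhi, false, .lo => QEx.nonneg_on_box (List.all_eq_true.1 h4_group3 (hpiece4.checkM true .mhi false .lo) (by simp)) m
        | .mhi, false, .hi => QEx.nonneg_on_box (List.all_eq_true.1 h4_group3 (hpiece4.checkM true .mhi false .hi) (by simp)) m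
        | .mhi, false, .mid => QEx.nonneg_on_box (List.all_eq_true.1 h4_group3 (hpiece4.checkM true .mhi false .mid) (by simp)) m
        | .mhi, true, .lo => QEx.nonneg_on_box (List.all_eq_true.1 h4_group3 (hpiece4.checkM true .mhi false .lo) (by simp)) m
        | .mhi, true, .hi => QEx.nonneg_on_box (List.all_eq_true.1 h4_group3 (hpiece4.checkM true .mhi false .hi) (by simp)) m
        | .mhi, true, .mid => QEx.nonneg_on_box (List.all_eq_true.1 h4_group3 (hpiece4.checkM true .mhi false .mid) (by simp)) m
        | .f, false, .lo => QEx.nonneg_on_box (List.all_eq_true.1 h4_group4 (hpiece4.checkM true .f false .lo) (by simp)) m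
        | .f, false, .hi => QEx.nonneg_on_box (List.all_eq_true.1 h4_group5 (hpiece4.checkM true .f false .hi) (by simp)) m
        | .f, false, .mid => QEx.nonneg_on_box (List.all_eq_true.1 h4_group6 (hpiece4.checkM true .f false .mid) (by simp)) m
        | .f, true, .lo => QEx.nonneg_on_box (List.all_eq_true.1 h4_group7 (hpiece4.checkM true .f true .lo) (by simp)) m
        | .f, true, .hi => QEx.nonneg_on_box (List.all_eq_true.1 h4_group8 (hpiece4.checkM true .f true .hi) (by simp)) m
        | .f, true, .mid => QEx.nonneg_on_box (List.all_eq_true.1 h4_group9 (hpiece4.checkM true .f true .mid) (by simp)) m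
      side := fun e =>
        match e with
        | .rA => QEx.nonneg_on_box (List.all_eq_true.1 h4_group19 (hpiece4.side .rA) (by simp)) m
        | .rB => QEx.nonneg_on_box (List.all_eq_true.1 h4_group19 (hpiece4.side .rB) (by simp)) m
        | .rF => QEx.nonneg_on_box (List.all_eq_true.1 h4_group20 (hpiece4.side .rF) (by simp)) m
        | .q => QEx.nonneg_on_box (List.all_eq_true.1 h4_group21 (hpiece4.side .q) (by simp)) m
        | .om => QEx.nonneg_on_box (List.all_eq_true.1 h4_group22 (hpiece4.side .om) (by simp)) m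
      nums := by decide }
  env :=
    { lo := fun e =>
        match e with
        | .piL => QEx.nonneg_on_box (List.all_eq_true.1 h4_group10 (hpiece4.env bandSmall.lo bandSmall.hi bandSmall.pole .piL) (by simp)) m
        | .piU => QEx.nonneg_on_box (List.all_eq_true.1 h4_group10 (hpiece4.env bandSmall.lo bandSmall.hi bandSmall.pole .piU) (by simp)) m
        | .omL => QEx.nonneg_on_box (List.all_eq_true.1 h4_group12 (hpiece4.env bandSmall.lo bandSmall.hi bandSmall.pole .omL) (by simp)) m
        | .omU => QEx.nonneg_on_box (List.all_eq_true.1 h4_group12 (hpiece4.env bandSmall.lo bandSmall.hi bandSmall.pole .omU) (by simp)) m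
        | .tauL => QEx.nonneg_on_box (List.all_eq_true.1 h4_group14 (hpiece4.env bandSmall.lo bandSmall.hi bandSmall.pole .tauL) (by simp)) m
        | .tauU => QEx.nonneg_on_box (List.all_eq_true.1 h4_group15 (hpiece4.env bandSmall.lo bandSmall.hi bandSmall.pole .tauU) (by simp)) m
      hi := fun e =>
        match e with
        | .piL => QEx.nonneg_on_box (List.all_eq_true.1 h4_group11 (hpiece4.env bandSmall.hi bandSmall.hi bandSmall.pole .piL) (by simp)) m
        | .piU => QEx.nonneg_on_box (List.all_eq_true.1 h4_group11 (hpiece4.env bandSmall.hi bandSmall.hi bandSmall.pole .piU) (by simp)) m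
        | .omL => QEx.nonneg_on_box (List.all_eq_true.1 h4_group13 (hpiece4.env bandSmall.hi bandSmall.hi bandSmall.pole .omL) (by simp)) m
        | .omU => QEx.nonneg_on_box (List.all_eq_true.1 h4_group13 (hpiece4.env bandSmall.hi bandSmall.hi bandSmall.pole .omU) (by simp)) m
        | .tauL => QEx.nonneg_on_box (List.all_eq_true.1 h4_group14 (hpiece4.env bandSmall.hi bandSmall.hi bandSmall.pole .tauL) (by simp)) m
        | .tauU => QEx.nonneg_on_box (List.all_eq_true.1 h4_group14 (hpiece4.env bandSmall.hi bandSmall.hi bandSmall.pole .tauU) (by simp)) m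
      wid := QEx.nonneg_on_box (List.all_eq_true.1 h4_group18 (hpiece4.wid - qD 1) (by simp)) m }
  rayLo := QEx.nonneg_on_box (List.all_eq_true.1 h4_group16 (xLLGM true bandSmall.lo bandSmall.pole) (by simp)) m
  rayHi := QEx.nonneg_on_box (List.all_eq_true.1 h4_group17 (xLLGM true bandSmall.hi bandSmall.pole) (by simp)) m

/-- The split check. -/
theorem h5_tlo_false_hi_all {o : PtR} (m : o.InM hbox5) :
    0 ≤ (hpiece5.checkM true .tlo false .hi).val o.x := by
  obtain ⟨hu, hX, ha, hI⟩ := m.bounds
  simp only [hbox5] at hu hX ha hI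
  norm_num at hu hX ha hI
  rcases le_total (o.X) (8 / 5 : ℝ) with h0 | h0
  ·
    refine QEx.nonneg_on_box h5_tlo_false_hi_0 (PtR.InM.of_bounds ?_ ?_ ?_ ?_) <;>
      simp only [hbox5_tlo_false_hi_0, InChart] <;> norm_num <;> (try constructor) <;> linarith
  ·
    refine QEx.nonneg_on_box h5_tlo_false_hi_1 (PtR.InM.of_bounds ?_ ?_ ?_ ?_) <;>
      simp only [hbox5_tlo_false_hi_1, InChart] <;> norm_num <;> (try constructor) <;> linarith

/-- The split check. -/
theorem h5_tlo_true_hi_all {o : PtR} (m : o.InM hbox5) :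
    0 ≤ (hpiece5.checkM true .tlo true .hi).val o.x := by
  obtain ⟨hu, hX, ha, hI⟩ := m.bounds
  simp only [hbox5] at hu hX ha hI
  norm_num at hu hX ha hI
  rcases le_total (o.X) (8 / 5 : ℝ) with h0 | h0
  ·
    refine QEx.nonneg_on_box h5_tlo_true_hi_0 (PtR.InM.of_bounds ?_ ?_ ?_ ?_) <;>
      simp only [hbox5_tlo_true_hi_0, InChart] <;> norm_num <;> (try constructor) <;> linarith
  ·
    refine QEx.nonneg_on_box h5_tlo_true_hi_1 (PtR.InM.of_bounds ?_ ?_ ?_ ?_) <;>
      simp only [hbox5_tlo_true_hi_1, InChart] <;> norm_num <;> (try constructor) <;> linarith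

/-- The split check. -/
theorem h5_piU_hi_all {o : PtR} (m : o.InM hbox5) :
    0 ≤ (hpiece5.env (bandMid Band.midLowC Band.midUpC).hi (bandMid Band.midLowC Band.midUpC).hi (bandMid Band.midLowC Band.midUpC).pole .piU).val o.x := by
  obtain ⟨hu, hX, ha, hI⟩ := m.bounds
  simp only [hbox5] at hu hX ha hI
  norm_num at hu hX ha hI
  rcases le_total (o.u) (9 / 25 : ℝ) with h0 | h0
  ·
    refine QEx.nonneg_on_box h5_piU_hi_0 (PtR.InM.of_bounds ?_ ?_ ?_ ?_) <;>
      simp only [hbox5_piU_hi_0, InChart] <;> norm_num <;> (try constructor) <;> linarith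
  ·
    refine QEx.nonneg_on_box h5_piU_hi_1 (PtR.InM.of_bounds ?_ ?_ ?_ ?_) <;>
      simp only [hbox5_piU_hi_1, InChart] <;> norm_num <;> (try constructor) <;> linarith

/-- The split check. -/
theorem h5_omL_lo_all {o : PtR} (m : o.InM hbox5) :
    0 ≤ (hpiece5.env (bandMid Band.midLowC Band.midUpC).lo (bandMid Band.midLowC Band.midUpC).hi (bandMid Band.midLowC Band.midUpC).pole .omL).val o.x := by
  obtain ⟨hu, hX, ha, hI⟩ := m.bounds
  simp only [hbox5] at hu hX ha hI
  norm_num at hu hX ha hI
  rcases le_total (o.u) (9 / 25 : ℝ) with h0 | h0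
  ·
    rcases le_total (o.u) (6 / 25 : ℝ) with h1 | h1
    ·
      refine QEx.nonneg_on_box h5_omL_lo_0 (PtR.InM.of_bounds ?_ ?_ ?_ ?_) <;>
        simp only [hbox5_omL_lo_0, InChart] <;> norm_num <;> (try constructor) <;> linarith
    ·
      refine QEx.nonneg_on_box h5_omL_lo_1 (PtR.InM.of_bounds ?_ ?_ ?_ ?_) <;>
        simp only [hbox5_omL_lo_1, InChart] <;> norm_num <;> (try constructor) <;> linarith
  ·
    refine QEx.nonneg_on_box h5_omL_lo_2 (PtR.InM.of_bounds ?_ ?_ ?_ ?_) <;>
      simp only [hbox5_omL_lo_2, InChart] <;> norm_num <;> (try constructor) <;> linarith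

/-- The split check. -/
theorem h5_omU_lo_all {o : PtR} (m : o.InM hbox5) :
    0 ≤ (hpiece5.env (bandMid Band.midLowC Band.midUpC).lo (bandMid Band.midLowC Band.midUpC).hi (bandMid Band.midLowC Band.midUpC).pole .omU).val o.x := by
  obtain ⟨hu, hX, ha, hI⟩ := m.bounds
  simp only [hbox5] at hu hX ha hI
  norm_num at hu hX ha hI
  rcases le_total (o.u) (9 / 25 : ℝ) with h0 | h0
  ·
    refine QEx.nonneg_on_box h5_omU_lo_0 (PtR.InM.of_bounds ?_ ?_ ?_ ?_) <;>
      simp only [hbox5_omU_lo_0, InChart] <;> norm_num <;> (try constructor) <;> linarith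
  ·
    refine QEx.nonneg_on_box h5_omU_lo_1 (PtR.InM.of_bounds ?_ ?_ ?_ ?_) <;>
      simp only [hbox5_omU_lo_1, InChart] <;> norm_num <;> (try constructor) <;> linarith

/-- The split check. -/
theorem h5_omU_hi_all {o : PtR} (m : o.InM hbox5) :
    0 ≤ (hpiece5.env (bandMid Band.midLowC Band.midUpC).hi (bandMid Band.midLowC Band.midUpC).hi (bandMid Band.midLowC Band.midUpC).pole .omU).val o.x := by
  obtain ⟨hu, hX, ha, hI⟩ := m.bounds
  simp only [hbox5] at hu hX ha hI
  norm_num at hu hX ha hI
  rcases le_total (o.u) (9 / 25 : ℝ) with h0 | h0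
  ·
    rcases le_total (o.X) (8 / 5 : ℝ) with h1 | h1
    ·
      rcases le_total (o.u) (6 / 25 : ℝ) with h2 | h2
      ·
        refine QEx.nonneg_on_box h5_omU_hi_0 (PtR.InM.of_bounds ?_ ?_ ?_ ?_) <;>
          simp only [hbox5_omU_hi_0, InChart] <;> norm_num <;> (try constructor) <;> linarith
      ·
        rcases le_total (o.u) (3 / 10 : ℝ) with h3 | h3
        ·
          refine QEx.nonneg_on_box h5_omU_hi_1 (PtR.InM.of_bounds ?_ ?_ ?_ ?_) <;>
            simp only [hbox5_omU_hi_1, InChart] <;> norm_num <;> (try constructor) <;> linarith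
        ·
          refine QEx.nonneg_on_box h5_omU_hi_2 (PtR.InM.of_bounds ?_ ?_ ?_ ?_) <;>
            simp only [hbox5_omU_hi_2, InChart] <;> norm_num <;> (try constructor) <;> linarith
    ·
      refine QEx.nonneg_on_box h5_omU_hi_3 (PtR.InM.of_bounds ?_ ?_ ?_ ?_) <;>
        simp only [hbox5_omU_hi_3, InChart] <;> norm_num <;> (try constructor) <;> linarith
  ·
    refine QEx.nonneg_on_box h5_omU_hi_4 (PtR.InM.of_bounds ?_ ?_ ?_ ?_) <;>
      simp only [hbox5_omU_hi_4, InChart] <;> norm_num <;> (try constructor) <;> linarith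

/-- The exit curve on the box of piece 5. -/
theorem hexit5_holds {o : PtR} (h0 : 3 / 25 ≤ o.u) (h1 : o.u ≤ 3 / 5) (h2 : 3 / 10 ≤ o.a) (h3 : o.a ≤ 31 / 100)
    (h4 : 1 / 8 ≤ o.I) (h5 : o.I ≤ 8 / 57) :
    0 ≤ Band.midBracket Band.midExitC o.I o.a o.u * 23 - 1000 * 10 := by
  have h := QEx.nonneg_on_box hexit5_check (x := (⟨o.u, 23 / 10, o.a, o.I⟩ : PtR).x)
    (PtR.InM.of_bounds (o := ⟨o.u, 23 / 10, o.a, o.I⟩) ?_ ?_ ?_ ?_)
  · obtain ⟨eu, -, va, vI, -, -, -, -, -, -, -, -⟩ := (⟨o.u, 23 / 10, o.a, o.I⟩ : PtR).vals
    simp only [xExitM, xFour, val_add, val_sub, val_mul, val_num, eu, va, vI] at h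
    push_cast at h
    simp only [Band.midBracket, Band.midFour]
    linarith
  all_goals simp only [hexit5Box, InChart] <;> norm_num <;> (try constructor) <;> linarith

/-- The piece 5 holds on its box. -/
theorem hpiece5_holds {o : PtR} (m : o.InM hbox5) :
    hpiece5.AllHoldM true (bandMid Band.midLowC Band.midUpC) o where
  forms :=
    { forms := fun q h k =>
        match q, h, k with
        | .g, false, .lo => QEx.nonneg_on_box (List.all_eq_true.1 h5_group0 (hpiece5.checkM true .g false .lo) (by simp)) m
        | .g, false, .hi => QEx.nonneg_on_box (List.all_eq_true.1 h5_group0 (hpiece5.checkM true .g false .hi) (by simp)) m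
        | .g, false, .mid => QEx.nonneg_on_box (List.all_eq_true.1 h5_group0 (hpiece5.checkM true .g false .mid) (by simp)) m
        | .g, true, .lo => QEx.nonneg_on_box (List.all_eq_true.1 h5_group0 (hpiece5.checkM true .g true .lo) (by simp)) m
        | .g, true, .hi => QEx.nonneg_on_box (List.all_eq_true.1 h5_group0 (hpiece5.checkM true .g true .hi) (by simp)) m
        | .g, true, .mid => QEx.nonneg_on_box (List.all_eq_true.1 h5_group0 (hpiece5.checkM true .g true .mid) (by simp)) m
        | .n, false, .lo => QEx.nonneg_on_box (List.all_eq_true.1 h5_group1 (hpiece5.checkM true .n false .lo) (by simp)) m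
        | .n, false, .hi => QEx.nonneg_on_box (List.all_eq_true.1 h5_group1 (hpiece5.checkM true .n false .hi) (by simp)) m
        | .n, false, .mid => QEx.nonneg_on_box (List.all_eq_true.1 h5_group1 (hpiece5.checkM true .n false .mid) (by simp)) m
        | .n, true, .lo => QEx.nonneg_on_box (List.all_eq_true.1 h5_group1 (hpiece5.checkM true .n true .lo) (by simp)) m
        | .n, true, .hi => QEx.nonneg_on_box (List.all_eq_true.1 h5_group1 (hpiece5.checkM true .n true .hi) (by simp)) m
        | .n, true, .mid => QEx.nonneg_on_box (List.all_eq_true.1 h5_group1 (hpiece5.checkM true .n true .mid) (by simp)) m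
        | .tlo, false, .lo => QEx.nonneg_on_box (List.all_eq_true.1 h5_group2 (hpiece5.checkM true .tlo false .lo) (by simp)) m
        | .tlo, false, .hi => h5_tlo_false_hi_all m
        | .tlo, false, .mid => QEx.nonneg_on_box (List.all_eq_true.1 h5_group2 (hpiece5.checkM true .tlo false .mid) (by simp)) m
        | .tlo, true, .lo => QEx.nonneg_on_box (List.all_eq_true.1 h5_group2 (hpiece5.checkM true .tlo true .lo) (by simp)) m
        | .tlo, true, .hi => h5_tlo_true_hi_all m
        | .tlo, true, .mid => QEx.nonneg_on_box (List.all_eq_true.1 h5_group2 (hpiece5.checkM true .tlo true .mid) (by simp)) m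
        | .thi, false, .lo => QEx.nonneg_on_box (List.all_eq_true.1 h5_group2 (hpiece5.checkM true .thi false .lo) (by simp)) m
        | .thi, false, .hi => QEx.nonneg_on_box (List.all_eq_true.1 h5_group2 (hpiece5.checkM true .thi false .hi) (by simp)) m
        | .thi, false, .mid => QEx.nonneg_on_box (List.all_eq_true.1 h5_group2 (hpiece5.checkM true .thi false .mid) (by simp)) m
        | .thi, true, .lo => QEx.nonneg_on_box (List.all_eq_true.1 h5_group2 (hpiece5.checkM true .thi true .lo) (by simp)) m
        | .thi, true, .hi => QEx.nonneg_on_box (List.all_eq_true.1 h5_group2 (hpiece5.checkM true .thi true .hi) (by simp)) m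
        | .thi, true, .mid => QEx.nonneg_on_box (List.all_eq_true.1 h5_group2 (hpiece5.checkM true .thi true .mid) (by simp)) m
        | .mlo, false, .lo => QEx.nonneg_on_box (List.all_eq_true.1 h5_group5 (hpiece5.checkM true .mlo false .lo) (by simp)) m
        | .mlo, false, .hi => QEx.nonneg_on_box (List.all_eq_true.1 h5_group5 (hpiece5.checkM true .mlo false .hi) (by simp)) m
        | .mlo, false, .mid => QEx.nonneg_on_box (List.all_eq_true.1 h5_group5 (hpiece5.checkM true .mlo false .mid) (by simp)) m
        | .mlo, true, .lo => QEx.nonneg_on_box (List.all_eq_true.1 h5_group5 (hpiece5.checkM true .mlo false .lo) (by simp)) m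
        | .mlo, true, .hi => QEx.nonneg_on_box (List.all_eq_true.1 h5_group5 (hpiece5.checkM true .mlo false .hi) (by simp)) m
        | .mlo, true, .mid => QEx.nonneg_on_box (List.all_eq_true.1 h5_group5 (hpiece5.checkM true .mlo false .mid) (by simp)) m
        | .mhi, false, .lo => QEx.nonneg_on_box (List.all_eq_true.1 h5_group5 (hpiece5.checkM true .mhi false .lo) (by simp)) m
        | .mhi, false, .hi => QEx.nonneg_on_box (List.all_eq_true.1 h5_group5 (hpiece5.checkM true .mhi false .hi) (by simp)) m
        | .mhi, false, .mid => QEx.nonneg_on_box (List.all_eq_true.1 h5_group5 (hpiece5.checkM true .mhi false .mid) (by simp)) m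
        | .mhi, true, .lo => QEx.nonneg_on_box (List.all_eq_true.1 h5_group5 (hpiece5.checkM true .mhi false .lo) (by simp)) m
        | .mhi, true, .hi => QEx.nonneg_on_box (List.all_eq_true.1 h5_group5 (hpiece5.checkM true .mhi false .hi) (by simp)) m
        | .mhi, true, .mid => QEx.nonneg_on_box (List.all_eq_true.1 h5_group5 (hpiece5.checkM true .mhi false .mid) (by simp)) m
        | .f, false, .lo => QEx.nonneg_on_box (List.all_eq_true.1 h5_group6 (hpiece5.checkM true .f false .lo) (by simp)) m
        | .f, false, .hi => QEx.nonneg_on_box (List.all_eq_true.1 h5_group7 (hpiece5.checkM true .f false .hi) (by simp)) m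
        | .f, false, .mid => QEx.nonneg_on_box (List.all_eq_true.1 h5_group8 (hpiece5.checkM true .f false .mid) (by simp)) m
        | .f, true, .lo => QEx.nonneg_on_box (List.all_eq_true.1 h5_group9 (hpiece5.checkM true .f true .lo) (by simp)) m
        | .f, true, .hi => QEx.nonneg_on_box (List.all_eq_true.1 h5_group10 (hpiece5.checkM true .f true .hi) (by simp)) m
        | .f, true, .mid => QEx.nonneg_on_box (List.all_eq_true.1 h5_group11 (hpiece5.checkM true .f true .mid) (by simp)) m
      side := fun e =>
        match e with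
        | .rA => QEx.nonneg_on_box (List.all_eq_true.1 h5_group21 (hpiece5.side .rA) (by simp)) m
        | .rB => QEx.nonneg_on_box (List.all_eq_true.1 h5_group21 (hpiece5.side .rB) (by simp)) m
        | .rF => QEx.nonneg_on_box (List.all_eq_true.1 h5_group22 (hpiece5.side .rF) (by simp)) m
        | .q => QEx.nonneg_on_box (List.all_eq_true.1 h5_group23 (hpiece5.side .q) (by simp)) m
        | .om => QEx.nonneg_on_box (List.all_eq_true.1 h5_group24 (hpiece5.side .om) (by simp)) m
      nums := by decide }
  env :=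
    { lo := fun e =>
        match e with
        | .piL => QEx.nonneg_on_box (List.all_eq_true.1 h5_group12 (hpiece5.env (bandMid Band.midLowC Band.midUpC).lo (bandMid Band.midLowC Band.midUpC).hi (bandMid Band.midLowC Band.midUpC).pole .piL) (by simp)) m
        | .piU => QEx.nonneg_on_box (List.all_eq_true.1 h5_group12 (hpiece5.env (bandMid Band.midLowC Band.midUpC).lo (bandMid Band.midLowC Band.midUpC).hi (bandMid Band.midLowC Band.midUpC).pole .piU) (by simp)) m
        | .omL => h5_omL_lo_all m
        | .omU => h5_omU_lo_all m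
        | .tauL => QEx.nonneg_on_box (List.all_eq_true.1 h5_group18 (hpiece5.env (bandMid Band.midLowC Band.midUpC).lo (bandMid Band.midLowC Band.midUpC).hi (bandMid Band.midLowC Band.midUpC).pole .tauL) (by simp)) m
        | .tauU => QEx.nonneg_on_box (List.all_eq_true.1 h5_group18 (hpiece5.env (bandMid Band.midLowC Band.midUpC).lo (bandMid Band.midLowC Band.midUpC).hi (bandMid Band.midLowC Band.midUpC).pole .tauU) (by simp)) m
      hi := fun e =>
        match e with
        | .piL => QEx.nonneg_on_box (List.all_eq_true.1 h5_group12 (hpiece5.env (bandMid Band.midLowC Band.midUpC).hi (bandMid Band.midLowC Band.midUpC).hi (bandMid Band.midLowC Band.midUpC).pole .piL) (by simp)) m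
        | .piU => h5_piU_hi_all m
        | .omL => QEx.nonneg_on_box (List.all_eq_true.1 h5_group15 (hpiece5.env (bandMid Band.midLowC Band.midUpC).hi (bandMid Band.midLowC Band.midUpC).hi (bandMid Band.midLowC Band.midUpC).pole .omL) (by simp)) m
        | .omU => h5_omU_hi_all m
        | .tauL => QEx.nonneg_on_box (List.all_eq_true.1 h5_group18 (hpiece5.env (bandMid Band.midLowC Band.midUpC).hi (bandMid Band.midLowC Band.midUpC).hi (bandMid Band.midLowC Band.midUpC).pole .tauL) (by simp)) m
        | .tauU => QEx.nonneg_on_box (List.all_eq_true.1 h5_group18 (hpiece5.env (bandMid Band.midLowC Band.midUpC).hi (bandMid Band.midLowC Band.midUpC).hi (bandMid Band.midLowC Band.midUpC).pole .tauU) (by simp)) m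
      wid := QEx.nonneg_on_box (List.all_eq_true.1 h5_group20 (hpiece5.wid - qD 1) (by simp)) m }
  rayLo := QEx.nonneg_on_box (List.all_eq_true.1 h5_group19 (xLLGM true (bandMid Band.midLowC Band.midUpC).lo (bandMid Band.midLowC Band.midUpC).pole) (by simp)) m
  rayHi := QEx.nonneg_on_box (List.all_eq_true.1 h5_group19 (xLLGM true (bandMid Band.midLowC Band.midUpC).hi (bandMid Band.midLowC Band.midUpC).pole) (by simp)) m

end Vale.Agent.P100.Calib.Closed.All.Low
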