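import Vale.Agent.P100.Calib.SlabMidSignsExpr

/-!
# The pieces of the certificate on `1/8 ≤ I ≤ 8/57`
-/


namespace Vale.Agent.P100.Calib.Closed.All.Low

/-- The piece 0: `u` in [0, 0.08], `a` in [0.125, 0.31]. -/
def hpiece0 : Piece where
  o := ⟨40, 1060, 217, 133⟩
  piL :=
    ⟨(-1814), (-18096), 4756, (-7653), (-6747), (-4562), (-23539), (-207533), (-6672),
     (-11735), 3759⟩
  piU :=
    ⟨(-1149), (-2276), 4802, (-6630), 2128, (-3454), 1454, 7033, (-6723), (-12568), 19403⟩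
  om₀ :=
    ⟨23889, (-17158), 10531, 106937, 997914, (-19596), (-153814), (-630558), 147957, 213861,
     2865001⟩
  om₁ :=
    ⟨23889, (-17158), 10531, 106937, 997914, (-19596), (-153814), (-630558), 147957, 213861,
     2865001⟩
  tau₀ :=
    ⟨1745, (-761), (-134), 4578, 6784, (-66), 2626, 1333, 312, (-602), 94103⟩
  tau₁ :=
    ⟨1745, (-761), (-134), 4578, 6784, (-66), 2626, 1333, 312, (-602), 94103⟩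
  r₀ :=
    ⟨(-865), (-6672), 3180⟩
  r₁ :=
    ⟨3952, 8268, (-3975)⟩
  m₀ :=
    ⟨(-688), 455, (-2135)⟩
  m₁ :=
    ⟨(-216), 4290, (-1990)⟩
  wom := 87236
  wtau := 161
  rA := 1814
  rB := 5420
  rF := 9687
  qa := 1000
  qb := 1830

/-- The piece 1: `u` in [0.08, 0.4], `a` in [0.125, 0.31]. -/
def hpiece1 : Piece where
  o := ⟨240, 1290, 217, 133⟩
  piL :=
    ⟨(-1377), (-5084), 3965, (-11173), (-275), (-3314), (-11598), 7353, (-8853), (-8203),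
     15989⟩
  piU :=
    ⟨(-964), (-5084), 4130, (-10837), (-345), (-3165), (-11723), 40, (-7794), (-6812), 31685⟩
  om₀ :=
    ⟨(-17200), (-29550), 704, 3323, (-34243), (-31033), (-183629), (-717159), 122449, 121989,
     2875⟩
  om₁ :=
    ⟨(-25894), 4444, (-2917), (-15391), (-127691), 3482, 58875, (-102725), 76111, (-8349),
     (-448849)⟩
  tau₀ :=
    ⟨1535, (-922), (-140), 4922, 6858, (-46), 734, 1131, 637, (-788), 104150⟩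
  tau₁ :=
    ⟨1532, (-934), (-141), 4925, 6842, (-51), 742, 1099, 641, (-819), 104200⟩
  r₀ :=
    ⟨(-1046), (-1126), 2590⟩
  r₁ :=
    ⟨3116, (-1634), (-3230)⟩
  m₀ :=
    ⟨(-934), 875, (-1873)⟩
  m₁ :=
    ⟨(-467), 1317, (-1767)⟩
  wom := 8807
  wtau := 235
  rA := 2469
  rB := 5110
  rF := 11041
  qa := 1000
  qb := 2520

/-- The piece 2: `u` in [0.4, 0.6], `a` in [0.125, 0.2]. -/
def hpiece2 : Piece where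
  o := ⟨500, 1450, 163, 133⟩
  piL :=
    ⟨(-1460), (-6292), 3595, (-14961), (-3205), (-3161), (-7600), 4943, (-10328), (-12716),
     (-15828)⟩
  piU :=
    ⟨(-996), (-5587), 3735, (-15106), (-4267), (-3010), (-21620), (-14009), (-9248), (-7783),
     81952⟩
  om₀ :=
    ⟨(-23722), (-1302), (-5900), 351, (-85050), (-1177), (-20479), (-74831), 60830, 9144,
     55819⟩
  om₁ :=
    ⟨(-26117), 413, (-6723), (-1732), (-100284), (-627), (-25930), 108384, 41894, (-23065),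
     (-621864)⟩
  tau₀ :=
    ⟨1009, (-1184), (-161), 3699, 4908, (-25), (-1155), (-440), 210, (-997), 63321⟩
  tau₁ :=
    ⟨1002, (-1209), (-163), 3714, 4874, (-30), (-1041), (-213), 257, (-990), 61898⟩
  r₀ :=
    ⟨(-1352), (-919), 2553⟩
  r₁ :=
    ⟨155, (-802), 381⟩
  m₀ :=
    ⟨(-910), 1212, (-1698)⟩
  m₁ :=
    ⟨(-476), 1494, (-1662)⟩
  wom := 1356
  wtau := 64
  rA := 3031
  rB := 482
  rF := 355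
  qa := 1000
  qb := 2940

/-- The piece 3: `u` in [0.4, 0.6], `a` in [0.2, 0.31]. -/
def hpiece3 : Piece where
  o := ⟨500, 1600, 255, 133⟩
  piL :=
    ⟨(-2560), (-8442), 2714, (-18707), (-3708), (-3577), (-21769), (-6410), (-9109), (-9458),
     (-1298)⟩
  piU :=
    ⟨(-1997), (-7352), 2952, (-16942), 832, (-3159), (-11552), 13849, (-8015), (-6315), 85478⟩
  om₀ :=
    ⟨(-24066), (-5610), (-982), 2434, (-96912), (-8309), (-30836), (-81913), 55544, 36533,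
     (-257401)⟩
  om₁ :=
    ⟨(-27315), (-3572), (-2428), (-14567), (-152787), (-8959), (-128663), (-47531), 70071,
     4909, (-678316)⟩
  tau₀ :=
    ⟨1444, (-1206), (-127), 6141, 9148, (-35), 614, 1631, 175, (-475), 69606⟩
  tau₁ :=
    ⟨1435, (-1242), (-130), 6114, 9017, (-48), 396, 587, 176, (-648), 68706⟩
  r₀ :=
    ⟨(-851), (-2700), 731⟩
  r₁ :=
    ⟨2785, 1197, (-2372)⟩
  m₀ :=
    ⟨(-1117), 1508, (-1677)⟩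
  m₁ :=
    ⟨(-464), 2268, (-1647)⟩
  wom := 2922
  wtau := 225
  rA := 1805
  rB := 5031
  rF := 8946
  qa := 1000
  qb := 2760

/-- The piece 4: `u` in [0, 0.12], `a` in [0.3, 0.31]. -/
def hpiece4 : Piece where
  o := ⟨60, 1080, 305, 133⟩
  piL :=
    ⟨(-2784), (-19915), 3848, (-8137), (-10323), (-9059), (-21314), (-213312), (-8567),
     (-8435), (-41265)⟩
  piU :=
    ⟨(-1688), (-2071), 4129, (-6230), 5676, (-4367), 9604, 52731, (-7858), (-8207), 47069⟩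
  om₀ :=
    ⟨32775, (-29919), 24287, 130787, 1208697, (-14233), (-354377), (-741121), 240790, 429114,
     3943619⟩
  om₁ :=
    ⟨32775, (-29919), 24287, 130787, 1208697, (-14233), (-354377), (-741121), 240790, 429114,
     3943619⟩
  tau₀ :=
    ⟨2214, (-495), (-75), 6810, 11387, (-52), 5329, 4439, 566, 234, 69170⟩
  tau₁ :=
    ⟨2214, (-495), (-75), 6810, 11387, (-52), 5329, 4439, 566, 234, 69170⟩
  r₀ :=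
    ⟨1562, (-1430), (-994)⟩
  r₁ :=
    ⟨2735, 5364, (-1718)⟩
  m₀ :=
    ⟨(-660), 376, (-1996)⟩
  m₁ :=
    ⟨(-189), 5386, (-2046)⟩
  wom := 88283
  wtau := 32
  rA := 2020
  rB := 3713
  rF := 10
  qa := 1000
  qb := 1008

/-- The piece 5: `u` in [0.12, 0.6], `a` in [0.3, 0.31]. -/
def hpiece5 : Piece where
  o := ⟨360, 1600, 305, 133⟩
  piL :=
    ⟨(-2462), (-8137), 2753, (-15329), (-1910), (-3430), (-11731), 1150, (-8037), (-7683),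
     18879⟩
  piU :=
    ⟨(-1769), (-7649), 3027, (-14256), 1620, (-3426), 9000, 14655, (-7368), (-5633), 68460⟩
  om₀ :=
    ⟨(-18747), (-28611), 7793, 10571, (-65071), (-28071), (-256382), (-361039), 103026,
     132871, 2934782⟩
  om₁ :=
    ⟨(-27527), (-3862), 1795, (-35688), (-189209), (-16984), (-233741), (-108936), 69950,
     35377, (-1206329)⟩
  tau₀ :=
    ⟨1946, (-824), (-84), 9051, 13148, (-39), 6058, 5623, 966, 107, 122094⟩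
  tau₁ :=
    ⟨1939, (-849), (-86), 9064, 13047, (-46), 6266, 5331, 853, 159, 77422⟩
  r₀ :=
    ⟨855, (-532), (-735)⟩
  r₁ :=
    ⟨2221, 902, (-1196)⟩
  m₀ :=
    ⟨(-1229), 1647, (-1710)⟩
  m₁ :=
    ⟨(-661), 1767, (-1652)⟩
  wom := 5422
  wtau := 82
  rA := 1659
  rB := 3611
  rF := 10
  qa := 1000
  qb := 1840

/-- The box of piece 0. -/
def hbox0 : ℕ → Pack.Chart
  | 0 => ⟨0, 2, 25, 25⟩
  | 1 => ⟨45, 61, 50, 50⟩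
  | 2 => ⟨25, 62, 200, 200⟩
  | _ => ⟨57, 64, 456, 456⟩

/-- A part of the box of piece 0. -/
def hbox0_tauL_lo_0 : ℕ → Pack.Chart
  | 0 => ⟨0, 2, 25, 25⟩
  | 1 => ⟨45, 61, 50, 50⟩
  | 2 => ⟨50, 87, 400, 400⟩
  | _ => ⟨57, 64, 456, 456⟩

/-- A part of the box of piece 0. -/
def hbox0_tauL_lo_1 : ℕ → Pack.Chart
  | 0 => ⟨0, 2, 25, 25⟩
  | 1 => ⟨45, 61, 50, 50⟩
  | 2 => ⟨87, 124, 400, 400⟩
  | _ => ⟨57, 64, 456, 456⟩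

/-- A part of the box of piece 0. -/
def hbox0_tauL_hi_0 : ℕ → Pack.Chart
  | 0 => ⟨0, 2, 25, 25⟩
  | 1 => ⟨45, 61, 50, 50⟩
  | 2 => ⟨50, 87, 400, 400⟩
  | _ => ⟨57, 64, 456, 456⟩

/-- A part of the box of piece 0. -/
def hbox0_tauL_hi_1 : ℕ → Pack.Chart
  | 0 => ⟨0, 2, 25, 25⟩
  | 1 => ⟨45, 61, 50, 50⟩
  | 2 => ⟨174, 211, 800, 800⟩
  | _ => ⟨57, 64, 456, 456⟩

/-- A part of the box of piece 0. -/
def hbox0_tauL_hi_2 : ℕ → Pack.Chart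
  | 0 => ⟨0, 2, 25, 25⟩
  | 1 => ⟨45, 61, 50, 50⟩
  | 2 => ⟨211, 248, 800, 800⟩
  | _ => ⟨57, 64, 456, 456⟩

/-- The box of an exit curve. -/
def hexit0Box : ℕ → Pack.Chart
  | 0 => ⟨0, 2, 25, 25⟩
  | 1 => ⟨45, 61, 50, 50⟩
  | 2 => ⟨25, 62, 200, 200⟩
  | _ => ⟨57, 64, 456, 456⟩

/-- The box of piece 1. -/
def hbox1 : ℕ → Pack.Chart
  | 0 => ⟨2, 10, 25, 25⟩
  | 1 => ⟨45, 84, 50, 50⟩
  | 2 => ⟨25, 62, 200, 200⟩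
  | _ => ⟨57, 64, 456, 456⟩

/-- A part of the box of piece 1. -/
def hbox1_piL_lo_0 : ℕ → Pack.Chart
  | 0 => ⟨2, 10, 25, 25⟩
  | 1 => ⟨45, 84, 50, 50⟩
  | 2 => ⟨50, 87, 400, 400⟩
  | _ => ⟨57, 64, 456, 456⟩

/-- A part of the box of piece 1. -/
def hbox1_piL_lo_1 : ℕ → Pack.Chart
  | 0 => ⟨2, 6, 25, 25⟩
  | 1 => ⟨45, 84, 50, 50⟩
  | 2 => ⟨87, 124, 400, 400⟩
  | _ => ⟨57, 64, 456, 456⟩

/-- A part of the box of piece 1. -/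
def hbox1_piL_lo_2 : ℕ → Pack.Chart
  | 0 => ⟨6, 10, 25, 25⟩
  | 1 => ⟨45, 84, 50, 50⟩
  | 2 => ⟨174, 211, 800, 800⟩
  | _ => ⟨57, 64, 456, 456⟩

/-- A part of the box of piece 1. -/
def hbox1_piL_lo_3 : ℕ → Pack.Chart
  | 0 => ⟨6, 10, 25, 25⟩
  | 1 => ⟨45, 84, 50, 50⟩
  | 2 => ⟨211, 248, 800, 800⟩
  | _ => ⟨57, 64, 456, 456⟩

/-- A part of the box of piece 1. -/
def hbox1_piU_hi_0 : ℕ → Pack.Chart
  | 0 => ⟨2, 10, 25, 25⟩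
  | 1 => ⟨45, 84, 50, 50⟩
  | 2 => ⟨50, 87, 400, 400⟩
  | _ => ⟨57, 64, 456, 456⟩

/-- A part of the box of piece 1. -/
def hbox1_piU_hi_1 : ℕ → Pack.Chart
  | 0 => ⟨2, 10, 25, 25⟩
  | 1 => ⟨45, 84, 50, 50⟩
  | 2 => ⟨87, 124, 400, 400⟩
  | _ => ⟨57, 64, 456, 456⟩

/-- A part of the box of piece 1. -/
def hbox1_omU_lo_0 : ℕ → Pack.Chart
  | 0 => ⟨2, 10, 25, 25⟩
  | 1 => ⟨45, 84, 50, 50⟩
  | 2 => ⟨50, 87, 400, 400⟩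
  | _ => ⟨57, 64, 456, 456⟩

/-- A part of the box of piece 1. -/
def hbox1_omU_lo_1 : ℕ → Pack.Chart
  | 0 => ⟨2, 6, 25, 25⟩
  | 1 => ⟨45, 84, 50, 50⟩
  | 2 => ⟨87, 124, 400, 400⟩
  | _ => ⟨57, 64, 456, 456⟩

/-- A part of the box of piece 1. -/
def hbox1_omU_lo_2 : ℕ → Pack.Chart
  | 0 => ⟨6, 8, 25, 25⟩
  | 1 => ⟨45, 84, 50, 50⟩
  | 2 => ⟨87, 124, 400, 400⟩
  | _ => ⟨57, 64, 456, 456⟩

/-- A part of the box of piece 1. -/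
def hbox1_omU_lo_3 : ℕ → Pack.Chart
  | 0 => ⟨8, 10, 25, 25⟩
  | 1 => ⟨45, 84, 50, 50⟩
  | 2 => ⟨174, 211, 800, 800⟩
  | _ => ⟨57, 64, 456, 456⟩

/-- A part of the box of piece 1. -/
def hbox1_omU_lo_4 : ℕ → Pack.Chart
  | 0 => ⟨8, 10, 25, 25⟩
  | 1 => ⟨45, 84, 50, 50⟩
  | 2 => ⟨211, 248, 800, 800⟩
  | _ => ⟨57, 64, 456, 456⟩

/-- A part of the box of piece 1. -/
def hbox1_omU_hi_0 : ℕ → Pack.Chart
  | 0 => ⟨2, 10, 25, 25⟩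
  | 1 => ⟨45, 84, 50, 50⟩
  | 2 => ⟨100, 137, 800, 800⟩
  | _ => ⟨57, 64, 456, 456⟩

/-- A part of the box of piece 1. -/
def hbox1_omU_hi_1 : ℕ → Pack.Chart
  | 0 => ⟨2, 6, 25, 25⟩
  | 1 => ⟨45, 84, 50, 50⟩
  | 2 => ⟨137, 174, 800, 800⟩
  | _ => ⟨57, 64, 456, 456⟩

/-- A part of the box of piece 1. -/
def hbox1_omU_hi_2 : ℕ → Pack.Chart
  | 0 => ⟨6, 10, 25, 25⟩
  | 1 => ⟨45, 84, 50, 50⟩
  | 2 => ⟨137, 174, 800, 800⟩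
  | _ => ⟨57, 64, 456, 456⟩

/-- A part of the box of piece 1. -/
def hbox1_omU_hi_3 : ℕ → Pack.Chart
  | 0 => ⟨2, 6, 25, 25⟩
  | 1 => ⟨45, 84, 50, 50⟩
  | 2 => ⟨87, 124, 400, 400⟩
  | _ => ⟨57, 64, 456, 456⟩

/-- A part of the box of piece 1. -/
def hbox1_omU_hi_4 : ℕ → Pack.Chart
  | 0 => ⟨6, 10, 25, 25⟩
  | 1 => ⟨45, 84, 50, 50⟩
  | 2 => ⟨87, 124, 400, 400⟩
  | _ => ⟨57, 64, 456, 456⟩

/-- A part of the box of piece 1. -/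
def hbox1_tauL_lo_0 : ℕ → Pack.Chart
  | 0 => ⟨2, 10, 25, 25⟩
  | 1 => ⟨45, 84, 50, 50⟩
  | 2 => ⟨50, 87, 400, 400⟩
  | _ => ⟨57, 64, 456, 456⟩

/-- A part of the box of piece 1. -/
def hbox1_tauL_lo_1 : ℕ → Pack.Chart
  | 0 => ⟨2, 10, 25, 25⟩
  | 1 => ⟨45, 84, 50, 50⟩
  | 2 => ⟨87, 124, 400, 400⟩
  | _ => ⟨57, 64, 456, 456⟩

/-- A part of the box of piece 1. -/
def hbox1_tauL_hi_0 : ℕ → Pack.Chart
  | 0 => ⟨2, 10, 25, 25⟩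
  | 1 => ⟨45, 84, 50, 50⟩
  | 2 => ⟨50, 87, 400, 400⟩
  | _ => ⟨57, 64, 456, 456⟩

/-- A part of the box of piece 1. -/
def hbox1_tauL_hi_1 : ℕ → Pack.Chart
  | 0 => ⟨2, 10, 25, 25⟩
  | 1 => ⟨45, 84, 50, 50⟩
  | 2 => ⟨87, 124, 400, 400⟩
  | _ => ⟨57, 64, 456, 456⟩

/-- The box of an exit curve. -/
def hexit1Box : ℕ → Pack.Chart
  | 0 => ⟨2, 10, 25, 25⟩
  | 1 => ⟨45, 84, 50, 50⟩
  | 2 => ⟨25, 62, 200, 200⟩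
  | _ => ⟨57, 64, 456, 456⟩

/-- The box of piece 2. -/
def hbox2 : ℕ → Pack.Chart
  | 0 => ⟨2, 3, 5, 5⟩
  | 1 => ⟨47, 98, 50, 50⟩
  | 2 => ⟨5, 8, 40, 40⟩
  | _ => ⟨57, 64, 456, 456⟩

/-- A part of the box of piece 2. -/
def hbox2_piU_hi_0 : ℕ → Pack.Chart
  | 0 => ⟨2, 3, 5, 5⟩
  | 1 => ⟨47, 98, 50, 50⟩
  | 2 => ⟨10, 13, 80, 80⟩
  | _ => ⟨57, 64, 456, 456⟩

/-- A part of the box of piece 2. -/
def hbox2_piU_hi_1 : ℕ → Pack.Chart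
  | 0 => ⟨2, 3, 5, 5⟩
  | 1 => ⟨47, 98, 50, 50⟩
  | 2 => ⟨13, 16, 80, 80⟩
  | _ => ⟨57, 64, 456, 456⟩

/-- A part of the box of piece 2. -/
def hbox2_omU_lo_0 : ℕ → Pack.Chart
  | 0 => ⟨2, 3, 5, 5⟩
  | 1 => ⟨94, 145, 100, 100⟩
  | 2 => ⟨10, 13, 80, 80⟩
  | _ => ⟨57, 64, 456, 456⟩

/-- A part of the box of piece 2. -/
def hbox2_omU_lo_1 : ℕ → Pack.Chart
  | 0 => ⟨2, 3, 5, 5⟩
  | 1 => ⟨145, 196, 100, 100⟩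
  | 2 => ⟨10, 13, 80, 80⟩
  | _ => ⟨57, 64, 456, 456⟩

/-- A part of the box of piece 2. -/
def hbox2_omU_lo_2 : ℕ → Pack.Chart
  | 0 => ⟨2, 3, 5, 5⟩
  | 1 => ⟨94, 145, 100, 100⟩
  | 2 => ⟨13, 16, 80, 80⟩
  | _ => ⟨57, 64, 456, 456⟩

/-- A part of the box of piece 2. -/
def hbox2_omU_lo_3 : ℕ → Pack.Chart
  | 0 => ⟨2, 3, 5, 5⟩
  | 1 => ⟨145, 196, 100, 100⟩
  | 2 => ⟨13, 16, 80, 80⟩
  | _ => ⟨57, 64, 456, 456⟩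

/-- A part of the box of piece 2. -/
def hbox2_omU_hi_0 : ℕ → Pack.Chart
  | 0 => ⟨2, 3, 5, 5⟩
  | 1 => ⟨94, 145, 100, 100⟩
  | 2 => ⟨5, 8, 40, 40⟩
  | _ => ⟨57, 64, 456, 456⟩

/-- A part of the box of piece 2. -/
def hbox2_omU_hi_1 : ℕ → Pack.Chart
  | 0 => ⟨2, 3, 5, 5⟩
  | 1 => ⟨145, 196, 100, 100⟩
  | 2 => ⟨5, 8, 40, 40⟩
  | _ => ⟨57, 64, 456, 456⟩

/-- A part of the box of piece 2. -/
def hbox2_side_rF_0 : ℕ → Pack.Chart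
  | 0 => ⟨2, 3, 5, 5⟩
  | 1 => ⟨94, 145, 100, 100⟩
  | 2 => ⟨5, 8, 40, 40⟩
  | _ => ⟨57, 64, 456, 456⟩

/-- A part of the box of piece 2. -/
def hbox2_side_rF_1 : ℕ → Pack.Chart
  | 0 => ⟨2, 3, 5, 5⟩
  | 1 => ⟨145, 196, 100, 100⟩
  | 2 => ⟨5, 8, 40, 40⟩
  | _ => ⟨57, 64, 456, 456⟩

/-- The box of an exit curve. -/
def hexit2Box : ℕ → Pack.Chart
  | 0 => ⟨2, 3, 5, 5⟩
  | 1 => ⟨47, 98, 50, 50⟩
  | 2 => ⟨5, 8, 40, 40⟩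
  | _ => ⟨57, 64, 456, 456⟩

/-- The box of piece 3. -/
def hbox3 : ℕ → Pack.Chart
  | 0 => ⟨2, 3, 5, 5⟩
  | 1 => ⟨9, 23, 10, 10⟩
  | 2 => ⟨20, 31, 100, 100⟩
  | _ => ⟨57, 64, 456, 456⟩

/-- A part of the box of piece 3. -/
def hbox3_piL_lo_0 : ℕ → Pack.Chart
  | 0 => ⟨2, 3, 5, 5⟩
  | 1 => ⟨9, 23, 10, 10⟩
  | 2 => ⟨40, 51, 200, 200⟩
  | _ => ⟨57, 64, 456, 456⟩

/-- A part of the box of piece 3. -/
def hbox3_piL_lo_1 : ℕ → Pack.Chart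
  | 0 => ⟨2, 3, 5, 5⟩
  | 1 => ⟨9, 23, 10, 10⟩
  | 2 => ⟨51, 62, 200, 200⟩
  | _ => ⟨57, 64, 456, 456⟩

/-- A part of the box of piece 3. -/
def hbox3_piU_hi_0 : ℕ → Pack.Chart
  | 0 => ⟨4, 5, 10, 10⟩
  | 1 => ⟨9, 23, 10, 10⟩
  | 2 => ⟨40, 51, 200, 200⟩
  | _ => ⟨57, 64, 456, 456⟩

/-- A part of the box of piece 3. -/
def hbox3_piU_hi_1 : ℕ → Pack.Chart
  | 0 => ⟨5, 6, 10, 10⟩
  | 1 => ⟨9, 23, 10, 10⟩
  | 2 => ⟨40, 51, 200, 200⟩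
  | _ => ⟨57, 64, 456, 456⟩

/-- A part of the box of piece 3. -/
def hbox3_piU_hi_2 : ℕ → Pack.Chart
  | 0 => ⟨2, 3, 5, 5⟩
  | 1 => ⟨9, 23, 10, 10⟩
  | 2 => ⟨51, 62, 200, 200⟩
  | _ => ⟨57, 64, 456, 456⟩

/-- A part of the box of piece 3. -/
def hbox3_omU_lo_0 : ℕ → Pack.Chart
  | 0 => ⟨2, 3, 5, 5⟩
  | 1 => ⟨9, 16, 10, 10⟩
  | 2 => ⟨40, 51, 200, 200⟩
  | _ => ⟨57, 64, 456, 456⟩

/-- A part of the box of piece 3. -/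
def hbox3_omU_lo_1 : ℕ → Pack.Chart
  | 0 => ⟨2, 3, 5, 5⟩
  | 1 => ⟨9, 16, 10, 10⟩
  | 2 => ⟨51, 62, 200, 200⟩
  | _ => ⟨57, 64, 456, 456⟩

/-- A part of the box of piece 3. -/
def hbox3_omU_lo_2 : ℕ → Pack.Chart
  | 0 => ⟨2, 3, 5, 5⟩
  | 1 => ⟨16, 23, 10, 10⟩
  | 2 => ⟨40, 51, 200, 200⟩
  | _ => ⟨57, 64, 456, 456⟩

/-- A part of the box of piece 3. -/
def hbox3_omU_lo_3 : ℕ → Pack.Chart
  | 0 => ⟨2, 3, 5, 5⟩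
  | 1 => ⟨16, 23, 10, 10⟩
  | 2 => ⟨51, 62, 200, 200⟩
  | _ => ⟨57, 64, 456, 456⟩

/-- A part of the box of piece 3. -/
def hbox3_omU_hi_0 : ℕ → Pack.Chart
  | 0 => ⟨2, 3, 5, 5⟩
  | 1 => ⟨9, 16, 10, 10⟩
  | 2 => ⟨40, 51, 200, 200⟩
  | _ => ⟨57, 64, 456, 456⟩

/-- A part of the box of piece 3. -/
def hbox3_omU_hi_1 : ℕ → Pack.Chart
  | 0 => ⟨2, 3, 5, 5⟩
  | 1 => ⟨16, 23, 10, 10⟩
  | 2 => ⟨40, 51, 200, 200⟩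
  | _ => ⟨57, 64, 456, 456⟩

/-- A part of the box of piece 3. -/
def hbox3_omU_hi_2 : ℕ → Pack.Chart
  | 0 => ⟨2, 3, 5, 5⟩
  | 1 => ⟨9, 16, 10, 10⟩
  | 2 => ⟨51, 62, 200, 200⟩
  | _ => ⟨57, 64, 456, 456⟩

/-- A part of the box of piece 3. -/
def hbox3_omU_hi_3 : ℕ → Pack.Chart
  | 0 => ⟨2, 3, 5, 5⟩
  | 1 => ⟨16, 23, 10, 10⟩
  | 2 => ⟨51, 62, 200, 200⟩
  | _ => ⟨57, 64, 456, 456⟩

/-- A part of the box of piece 3. -/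
def hbox3_tauL_lo_0 : ℕ → Pack.Chart
  | 0 => ⟨2, 3, 5, 5⟩
  | 1 => ⟨9, 23, 10, 10⟩
  | 2 => ⟨40, 51, 200, 200⟩
  | _ => ⟨57, 64, 456, 456⟩

/-- A part of the box of piece 3. -/
def hbox3_tauL_lo_1 : ℕ → Pack.Chart
  | 0 => ⟨2, 3, 5, 5⟩
  | 1 => ⟨9, 23, 10, 10⟩
  | 2 => ⟨51, 62, 200, 200⟩
  | _ => ⟨57, 64, 456, 456⟩

/-- A part of the box of piece 3. -/
def hbox3_tauL_hi_0 : ℕ → Pack.Chart
  | 0 => ⟨2, 3, 5, 5⟩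
  | 1 => ⟨9, 23, 10, 10⟩
  | 2 => ⟨40, 51, 200, 200⟩
  | _ => ⟨57, 64, 456, 456⟩

/-- A part of the box of piece 3. -/
def hbox3_tauL_hi_1 : ℕ → Pack.Chart
  | 0 => ⟨2, 3, 5, 5⟩
  | 1 => ⟨9, 23, 10, 10⟩
  | 2 => ⟨51, 62, 200, 200⟩
  | _ => ⟨57, 64, 456, 456⟩

/-- The box of an exit curve. -/
def hexit3Box : ℕ → Pack.Chart
  | 0 => ⟨2, 3, 5, 5⟩
  | 1 => ⟨9, 23, 10, 10⟩
  | 2 => ⟨20, 31, 100, 100⟩
  | _ => ⟨57, 64, 456, 456⟩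

/-- The box of piece 4. -/
def hbox4 : ℕ → Pack.Chart
  | 0 => ⟨0, 3, 25, 25⟩
  | 1 => ⟨45, 63, 50, 50⟩
  | 2 => ⟨30, 31, 100, 100⟩
  | _ => ⟨57, 64, 456, 456⟩

/-- The box of an exit curve. -/
def hexit4Box : ℕ → Pack.Chart
  | 0 => ⟨0, 3, 25, 25⟩
  | 1 => ⟨45, 63, 50, 50⟩
  | 2 => ⟨30, 31, 100, 100⟩
  | _ => ⟨57, 64, 456, 456⟩

/-- The box of piece 5. -/
def hbox5 : ℕ → Pack.Chart
  | 0 => ⟨3, 15, 25, 25⟩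
  | 1 => ⟨9, 23, 10, 10⟩
  | 2 => ⟨30, 31, 100, 100⟩
  | _ => ⟨57, 64, 456, 456⟩

/-- A part of the box of piece 5. -/
def hbox5_tlo_false_hi_0 : ℕ → Pack.Chart
  | 0 => ⟨3, 15, 25, 25⟩
  | 1 => ⟨9, 16, 10, 10⟩
  | 2 => ⟨30, 31, 100, 100⟩
  | _ => ⟨57, 64, 456, 456⟩

/-- A part of the box of piece 5. -/
def hbox5_tlo_false_hi_1 : ℕ → Pack.Chart
  | 0 => ⟨3, 15, 25, 25⟩
  | 1 => ⟨16, 23, 10, 10⟩
  | 2 => ⟨30, 31, 100, 100⟩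
  | _ => ⟨57, 64, 456, 456⟩

/-- A part of the box of piece 5. -/
def hbox5_tlo_true_hi_0 : ℕ → Pack.Chart
  | 0 => ⟨3, 15, 25, 25⟩
  | 1 => ⟨9, 16, 10, 10⟩
  | 2 => ⟨30, 31, 100, 100⟩
  | _ => ⟨57, 64, 456, 456⟩

/-- A part of the box of piece 5. -/
def hbox5_tlo_true_hi_1 : ℕ → Pack.Chart
  | 0 => ⟨3, 15, 25, 25⟩
  | 1 => ⟨16, 23, 10, 10⟩
  | 2 => ⟨30, 31, 100, 100⟩
  | _ => ⟨57, 64, 456, 456⟩

/-- A part of the box of piece 5. -/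
def hbox5_piU_hi_0 : ℕ → Pack.Chart
  | 0 => ⟨3, 9, 25, 25⟩
  | 1 => ⟨9, 23, 10, 10⟩
  | 2 => ⟨30, 31, 100, 100⟩
  | _ => ⟨57, 64, 456, 456⟩

/-- A part of the box of piece 5. -/
def hbox5_piU_hi_1 : ℕ → Pack.Chart
  | 0 => ⟨9, 15, 25, 25⟩
  | 1 => ⟨9, 23, 10, 10⟩
  | 2 => ⟨30, 31, 100, 100⟩
  | _ => ⟨57, 64, 456, 456⟩

/-- A part of the box of piece 5. -/
def hbox5_omL_lo_0 : ℕ → Pack.Chart
  | 0 => ⟨3, 6, 25, 25⟩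
  | 1 => ⟨9, 23, 10, 10⟩
  | 2 => ⟨30, 31, 100, 100⟩
  | _ => ⟨57, 64, 456, 456⟩

/-- A part of the box of piece 5. -/
def hbox5_omL_lo_1 : ℕ → Pack.Chart
  | 0 => ⟨6, 9, 25, 25⟩
  | 1 => ⟨9, 23, 10, 10⟩
  | 2 => ⟨30, 31, 100, 100⟩
  | _ => ⟨57, 64, 456, 456⟩

/-- A part of the box of piece 5. -/
def hbox5_omL_lo_2 : ℕ → Pack.Chart
  | 0 => ⟨9, 15, 25, 25⟩
  | 1 => ⟨9, 23, 10, 10⟩
  | 2 => ⟨30, 31, 100, 100⟩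
  | _ => ⟨57, 64, 456, 456⟩

/-- A part of the box of piece 5. -/
def hbox5_omU_lo_0 : ℕ → Pack.Chart
  | 0 => ⟨3, 9, 25, 25⟩
  | 1 => ⟨9, 23, 10, 10⟩
  | 2 => ⟨30, 31, 100, 100⟩
  | _ => ⟨57, 64, 456, 456⟩

/-- A part of the box of piece 5. -/
def hbox5_omU_lo_1 : ℕ → Pack.Chart
  | 0 => ⟨9, 15, 25, 25⟩
  | 1 => ⟨9, 23, 10, 10⟩
  | 2 => ⟨30, 31, 100, 100⟩
  | _ => ⟨57, 64, 456, 456⟩

/-- A part of the box of piece 5. -/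
def hbox5_omU_hi_0 : ℕ → Pack.Chart
  | 0 => ⟨3, 6, 25, 25⟩
  | 1 => ⟨9, 16, 10, 10⟩
  | 2 => ⟨30, 31, 100, 100⟩
  | _ => ⟨57, 64, 456, 456⟩

/-- A part of the box of piece 5. -/
def hbox5_omU_hi_1 : ℕ → Pack.Chart
  | 0 => ⟨12, 15, 50, 50⟩
  | 1 => ⟨9, 16, 10, 10⟩
  | 2 => ⟨30, 31, 100, 100⟩
  | _ => ⟨57, 64, 456, 456⟩

/-- A part of the box of piece 5. -/
def hbox5_omU_hi_2 : ℕ → Pack.Chart
  | 0 => ⟨15, 18, 50, 50⟩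
  | 1 => ⟨9, 16, 10, 10⟩
  | 2 => ⟨30, 31, 100, 100⟩
  | _ => ⟨57, 64, 456, 456⟩

/-- A part of the box of piece 5. -/
def hbox5_omU_hi_3 : ℕ → Pack.Chart
  | 0 => ⟨3, 9, 25, 25⟩
  | 1 => ⟨16, 23, 10, 10⟩
  | 2 => ⟨30, 31, 100, 100⟩
  | _ => ⟨57, 64, 456, 456⟩

/-- A part of the box of piece 5. -/
def hbox5_omU_hi_4 : ℕ → Pack.Chart
  | 0 => ⟨9, 15, 25, 25⟩
  | 1 => ⟨9, 23, 10, 10⟩
  | 2 => ⟨30, 31, 100, 100⟩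
  | _ => ⟨57, 64, 456, 456⟩

/-- The box of an exit curve. -/
def hexit5Box : ℕ → Pack.Chart
  | 0 => ⟨3, 15, 25, 25⟩
  | 1 => ⟨9, 23, 10, 10⟩
  | 2 => ⟨30, 31, 100, 100⟩
  | _ => ⟨57, 64, 456, 456⟩

end Vale.Agent.P100.Calib.Closed.All.Low
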