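import Vale.Agent.P100.Calib.SlabAllNegExpr

/-!
# The expressions of the conditions at and below the crossing for the dimensions from seven to twenty

The variables are `(q, w, I, a)`: `u = -q K v`, `v = 2 I X`, `X = (1 - 2 I) + w (3/100 + 29/10 I)`,
`K = (1 - a)(1 + 3/5 I) + 3 I²`.
-/

set_option linter.defProp false

namespace Vale.Agent.P100.Calib.Band.MidNeg

open BoxPos AllNeg

local instance midNegAdd : Add Ex := ⟨Ex.add⟩
local instance midNegSub : Sub Ex := ⟨Ex.sub⟩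
local instance midNegMul : Mul Ex := ⟨Ex.mul⟩

/-- `v`. -/
def mV (w I : Ex) : Ex :=
  nC 2 * I * ((nC 1 - nC 2 * I) + w * (nC 3 100 + nC 29 10 * I))

/-- `K`. -/
def mK (I a : Ex) : Ex := (nC 1 - a) * (nC 1 + nC 3 5 * I) + nC 3 * (I * I)

/-- `u`. -/
def mU (q v I a : Ex) : Ex := nC (-1) * (q * (mK I a * v))

/-- The lower value of `τ`. -/
def mLo (I a : Ex) : Ex := nC 7 5 - nC 21 5 * I - nC 3 5 * a

/-- The upper value of `τ`. -/
def mHi (I a : Ex) : Ex := nC 8 5 + (nC 2 + nC 100 * I) * (a * a)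

/-- `Gn`. -/
def mGn (t v u I a : Ex) : Ex :=
  nS I * (nC 1 + (nC 1 - a) * v) * nM a + u * nGu t I a

/-- The denominator times `Gd`. -/
def mDen (t v u I a : Ex) : Ex :=
  (nC 2 + nD I a * v) * nGd I a - u * nD I a * mGn t v u I a

/-- The numerator of `qv`. -/
def mQn (v u I a : Ex) : Ex :=
  nB I a * (nC 2 + nD I a * v) - nS I * u * (nC 1 + nD I a * v)

/-- `allFlow` times `Gd`. -/
def mFlow (t v u I a : Ex) : Ex :=
  mQn v u I a * mGn t v u I a - nS I * (nC 1 - a * v) * mDen t v u I a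

/-- `allEn` times `Gd`. -/
def mEn (t v u I a : Ex) : Ex :=
  (nGd I a - u * nD I a * mGn t v u I a) * mQn v u I a -
    nS I * (nC 1 - u) * nB I a * mDen t v u I a

/-- The flow at the band times `Gd²`. -/
def mNum (t v u I a : Ex) : Ex :=
  nC 0 - (nGd I a - u * nD I a * mGn t v u I a) *
      (mQn v u I a * mGn t v u I a - nS I * (nC 1 + (nC 1 - a) * v) * mDen t v u I a) -
    mGn t v u I a * mEn t v u I a - u * nGu t I a * mEn t v u I a -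
    u * (nC 1 + nD I a * v) * (nS I * (nC 1 - a) * nM a) * mFlow t v u I a

/-- A variable value of `v`. -/
def vX : Ex := mV .x₁ .x₂

/-- The value of `u`. -/
def uX : Ex := mU .x₀ vX .x₂ .x₃

/-- The lower band of `H`. -/
def chkHi : Ex :=
  mNum (mHi .x₂ .x₃) vX uX .x₂ .x₃ - nC 1 1000 * (.x₀ * (.x₂ * .x₂ * .x₃))

/-- The upper band of `H`. -/
def chkLo : Ex :=
  nC 0 - mNum (mLo .x₂ .x₃) vX uX .x₂ .x₃ - nC 1 1000 * (.x₀ * (.x₂ * .x₂ * .x₃))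

/-- The lower end of `v`. -/
def chkDown (t : Ex) : Ex :=
  nC 0 - mFlow t (mV (nC 0) .x₂) (mU .x₀ (mV (nC 0) .x₂) .x₂ .x₃) .x₂ .x₃ -
    nC 1 1000 * (.x₂ * .x₂ * .x₃)

/-- The upper end of `v`. -/
def chkUp (t : Ex) : Ex :=
  mFlow t (mV (nC 1) .x₂) (mU .x₀ (mV (nC 1) .x₂) .x₂ .x₃) .x₂ .x₃ -
    nC 1 1000 * (.x₂ * .x₂ * .x₃)

/-- The end of the range of `u`. -/
def chkLeft : Ex :=
  mK .x₂ .x₃ * mGn (mHi .x₂ .x₃) vX (mU (nC 1) vX .x₂ .x₃) .x₂ .x₃ - nGd .x₂ .x₃ -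
    nC 1 1000 * .x₂

/-- The charts: `q ∈ (0, 1]`, `w ∈ [0, 17/16)`, `I ∈ (1/20, 1/7]`, `a ∈ (1/20, 31/100]`. -/
def box : ℕ → Pack.Chart
  | 0 => ⟨1, 0, 1, 1⟩
  | 1 => ⟨0, 17, 16, 16⟩
  | 2 => ⟨20, 7, 140, 140⟩
  | _ => ⟨31, 5, 100, 100⟩

def chkHi_ok :
    Ex.checkNonneg chkHi box 451 ⟨4, 5, 29, 17⟩ = true := by decide +kernel

def chkLo_ok :
    Ex.checkNonneg chkLo box 436 ⟨4, 5, 29, 15⟩ = true := by decide +kernel

def downHi_ok :
    Ex.checkNonneg (chkDown (mHi .x₂ .x₃)) box 234 ⟨2, 0, 16, 9⟩ = true := by decide +kernel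

def downLo_ok :
    Ex.checkNonneg (chkDown (mLo .x₂ .x₃)) box 227 ⟨2, 0, 16, 8⟩ = true := by decide +kernel

def upHi_ok :
    Ex.checkNonneg (chkUp (mHi .x₂ .x₃)) box 234 ⟨2, 0, 16, 9⟩ = true := by decide +kernel

def upLo_ok :
    Ex.checkNonneg (chkUp (mLo .x₂ .x₃)) box 227 ⟨2, 0, 16, 8⟩ = true := by decide +kernel

def left_ok :
    Ex.checkNonneg chkLeft box 159 ⟨0, 1, 10, 7⟩ = true := by decide +kernel

end Vale.Agent.P100.Calib.Band.MidNeg
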