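import Vale.Agent.P100.Calib.SlabNegCore
import Vale.Agent.P100.Calib.SlabMidNegExpr

/-!
# The conditions at and below the crossing for the dimensions from seven to twenty

For `7 ≤ N < 20`, `al ≤ 31/100`: on `V₀ ≤ v ≤ V₁`, `-K v ≤ u < 0`, `V₀ = 2 I (1 - 2 I)`,
`V₁ = 2 I (103/100 + 9/10 I)`, `K = (1 - al)(1 + 3/5 I) + 3 I²`, the flow has the signs of
`NegPar.Cert` between the slopes `τ = 7/5 - 21/5 I - 3/5 al` and `8/5 + (2 + 100 I) al²`.
-/

namespace Vale.Agent.P100.Calib.Band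

open Vale.Agent.P100.Bubble Chart

/-- The numbers of the region, `7 ≤ N < 20`. -/
noncomputable def midNegP (a b : ℝ) : NegPar where
  V₀ := 2 * allStabI a b * (1 - 2 * allStabI a b)
  V₁ := 2 * allStabI a b * (103 / 100 + 9 / 10 * allStabI a b)
  K := (1 - a) * (1 + 3 / 5 * allStabI a b) + 3 * allStabI a b ^ 2
  lo := 7 / 5 - 21 / 5 * allStabI a b - 3 / 5 * a
  hi := 8 / 5 + (2 + 100 * allStabI a b) * a ^ 2

namespace MidNeg

open BoxPos AllNeg

local instance midBandAdd : Add Ex := ⟨Ex.add⟩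
local instance midBandSub : Sub Ex := ⟨Ex.sub⟩
local instance midBandMul : Mul Ex := ⟨Ex.mul⟩

/-- The values of the expressions at a band. -/
theorem eval {a b I u v τ : ℝ} {x : ℕ → ℝ} {t tv tu : Ex} (hI : ev4 x .x₂ = I)
    (ha : ev4 x .x₃ = a) (ht : ev4 x t = τ) (hb : b = 1 - 2 * I - a) (hb0 : 0 < b) (hI0 : 0 ≤ I)
    (ha1 : a < 1) (hv : ev4 x tv = v) (hu : ev4 x tu = u) :
    let Gd := b * (1 + 2 * I) * (1 - a) ^ 2
    0 < Gd ∧ ev4 x (nGd .x₂ .x₃) = Gd ∧ ev4 x (mGn t tv tu .x₂ .x₃) = allNegG a b τ u v * Gd ∧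
      ev4 x (mFlow t tv tu .x₂ .x₃) = allFlow a b u v (allNegG a b τ u v) * Gd ∧
      ev4 x (mNum t tv tu .x₂ .x₃) = allDot a b u v (allNegG a b τ u v)
        (-allNegS a b τ) (-allNegGv a b) 1 * Gd ^ 2 := by
  intro Gd
  have h1a : (1 - a) ≠ 0 := by linarith
  have hG : 0 < Gd := mul_pos (mul_pos hb0 (by linarith)) (pow_pos (by linarith) 2)
  have eI : allStabI a b = I := by rw [allStabI, hb]; ring
  have vS : ev4 x (nS .x₂) = a + b := by
    simp only [nS, ev4_sub, ev4_mul, ev4_nC, hI]; push_cast; rw [hb]; ring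
  have vB : ev4 x (nB .x₂ .x₃) = b := by simp only [nB, ev4_sub, vS, ha]; ring
  have vD : ev4 x (nD .x₂ .x₃) = b - a := by simp only [nD, ev4_sub, vB, ha]
  have vGd : ev4 x (nGd .x₂ .x₃) = Gd := by
    simp only [nGd, nM, Gd, ev4_add, ev4_sub, ev4_mul, ev4_nC, vB, hI, ha]; push_cast; ring
  have eJ : 2 - (a + b) = 1 + 2 * I := by linarith
  have vGu : ev4 x (nGu t .x₂ .x₃) = allNegS a b τ * Gd := by
    simp only [nGu, nM, Gd, allNegS, eI, ev4_add, ev4_sub, ev4_mul, ev4_nC, vB, hI, ha, ht]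
    push_cast
    field_simp
  have vGv : ev4 x (nS .x₂ * (nC 1 - .x₃) * nM .x₃) = allNegGv a b * Gd := by
    simp only [nM, Gd, allNegGv, eJ, ev4_sub, ev4_mul, ev4_nC, vS, ha]
    push_cast
    have : 1 + 2 * I ≠ 0 := by linarith
    field_simp
  have vGn : ev4 x (mGn t tv tu .x₂ .x₃) = allNegG a b τ u v * Gd := by
    simp only [mGn, nM, allNegG, allHc, eJ, ev4_add, ev4_sub, ev4_mul, ev4_nC, vS, hv, hu, vGu, ha]
    simp only [Gd]
    push_cast
    have : 1 + 2 * I ≠ 0 := by linarith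
    field_simp
  have vDen : ev4 x (mDen t tv tu .x₂ .x₃) = allDen a b u v (allNegG a b τ u v) * Gd := by
    simp only [mDen, allDen, ev4_add, ev4_sub, ev4_mul, ev4_nC, vD, hv, vGd, hu, vGn]
    push_cast; ring
  have vQn : ev4 x (mQn tv tu .x₂ .x₃) = allQn a b u v := by
    simp only [mQn, allQn, ev4_add, ev4_sub, ev4_mul, ev4_nC, vS, vB, vD, hv, hu]
    push_cast; ring
  have vFl : ev4 x (mFlow t tv tu .x₂ .x₃) = allFlow a b u v (allNegG a b τ u v) * Gd := by
    simp only [mFlow, allFlow, ev4_sub, ev4_mul, ev4_nC, vS, hv, vDen, vQn, vGn, ha]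
    push_cast; ring
  have vEn : ev4 x (mEn t tv tu .x₂ .x₃) = allEn a b u v (allNegG a b τ u v) * Gd := by
    simp only [mEn, allEn, ev4_sub, ev4_mul, ev4_nC, vS, vB, vD, hu, vGd, vDen, vQn, vGn]
    push_cast; ring
  refine ⟨hG, vGd, vGn, vFl, ?_⟩
  simp only [mNum, ev4_sub, ev4_mul, ev4_add, ev4_nC, vS, vD, hv, hu, vGd, vDen, vQn, vGn, vGu,
    vFl, vEn, ha] at vGv ⊢
  rw [vGv]
  simp only [allDot, allFh, allFlow, allEn]
  push_cast
  ring

theorem point_down {y : ℝ} {A B C : ℤ} (hC : 0 < C) (h₁ : (B : ℝ) < y * C) (h₂ : y * C ≤ A) :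
    ∃ t : ℝ, 0 ≤ t ∧ 0 < (C : ℝ) + C * t ∧ (A : ℝ) + B * t = y * ((C : ℝ) + C * t) := by
  have hC' : (0 : ℝ) < C := by exact_mod_cast hC
  refine ⟨(A - y * C) / (y * C - B), div_nonneg (by linarith) (by linarith), ?_, ?_⟩
  · have : 0 ≤ ((A : ℝ) - y * C) / (y * C - B) := div_nonneg (by linarith) (by linarith)
    nlinarith
  · field_simp [(by linarith : y * C - B ≠ 0)]
    ring

theorem point_up {y : ℝ} {A B C : ℤ} (hC : 0 < C) (h₁ : (A : ℝ) ≤ y * C) (h₂ : y * C < B) :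
    ∃ t : ℝ, 0 ≤ t ∧ 0 < (C : ℝ) + C * t ∧ (A : ℝ) + B * t = y * ((C : ℝ) + C * t) := by
  have hC' : (0 : ℝ) < C := by exact_mod_cast hC
  refine ⟨(y * C - A) / (B - y * C), div_nonneg (by linarith) (by linarith), ?_, ?_⟩
  · have : 0 ≤ (y * C - (A : ℝ)) / (B - y * C) := div_nonneg (by linarith) (by linarith)
    nlinarith
  · field_simp [(by linarith : (B : ℝ) - y * C ≠ 0)]
    ring

variable {N a b : ℝ}

theorem box_facts (hb : SlabBoxAll N a b) (h7 : 7 ≤ N) (h20 : N < 20) :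
    1 / 20 < allStabI a b ∧ allStabI a b ≤ 1 / 7 ∧ allStabI a b ≤ a ∧
      b = 1 - 2 * allStabI a b - a := by
  have hN : 0 < N := by linarith
  have hIN : N * allStabI a b = 1 := by
    rw [allStabI, mul_div_assoc', hb.sum]; norm_num
  have hI : 0 < allStabI a b := pos_of_mul_pos_right (by linarith) hN.le
  refine ⟨?_, ?_, ?_, by rw [allStabI]; ring⟩
  · linarith [mul_lt_mul_of_pos_right h20 hI]
  · linarith [mul_le_mul_of_nonneg_right h7 hI.le]
  · exact le_of_mul_le_mul_left (by linarith [hb.one_le]) hN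

/-- A point of the box. -/
theorem place (hb : SlabBoxAll N a b) (h7 : 7 ≤ N) (h20 : N < 20) (ha : a ≤ 31 / 100) {q w : ℝ}
    (hq : 0 < q) (hq1 : q ≤ 1) (hw : 0 ≤ w) (hw1 : w ≤ 1) :
    ∃ x : ℕ → ℝ, x 0 = q ∧ x 1 = w ∧ x 2 = allStabI a b ∧ x 3 = a ∧
      ∀ i < 4, ∃ t : ℝ, 0 ≤ t ∧ 0 < ((box i).c : ℝ) + (box i).d * t ∧
        ((box i).a : ℝ) + (box i).b * t = x i * (((box i).c : ℝ) + (box i).d * t) := by
  obtain ⟨hI, hI1, hIa, -⟩ := box_facts hb h7 h20
  refine ⟨AllNeg.pt q w (allStabI a b) a, rfl, rfl, rfl, rfl, fun i hi => ?_⟩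
  interval_cases i <;> simp only [box, AllNeg.pt] <;> (first
    | exact point_down (by norm_num) (by push_cast; linarith) (by push_cast; linarith)
    | exact point_up (by norm_num) (by push_cast; linarith) (by push_cast; linarith))

theorem K_pos (hI : 0 ≤ allStabI a b) (ha : a < 1) : 0 < (midNegP a b).K := by
  simp only [midNegP]
  have := mul_pos (show 0 < 1 - a by linarith) (show 0 < 1 + 3 / 5 * allStabI a b by linarith)
  positivity

/-- The signs on the region. -/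
theorem cert (hb : SlabBoxAll N a b) (h7 : 7 ≤ N) (h20 : N < 20) (ha : a ≤ 31 / 100) :
    (midNegP a b).Cert N a b := by
  obtain ⟨hI, hI1, hIa, hbI⟩ := box_facts hb h7 h20
  have hN : 0 < N := by linarith
  have hIN : N * allStabI a b = 1 := by
    rw [allStabI, mul_div_assoc', hb.sum]; norm_num
  have ha0 : 0 < a := by linarith
  have ha1 : a < 1 := by linarith
  have hb0 : 0 < b := hb.facts.2.1
  set I := allStabI a b with hId
  have hK : 0 < (midNegP a b).K := K_pos (by linarith) ha1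
  have hV : 0 < (midNegP a b).V₀ := by
    simp only [midNegP, ← hId]; exact mul_pos (by linarith) (by linarith)
  have hA2 : 0 ≤ (2 + 100 * I) * a ^ 2 := mul_nonneg (by linarith) (sq_nonneg a)
  have coords : ∀ u v, (midNegP a b).Reg u v → 0 < v ∧ ∃ q w : ℝ, 0 < q ∧ q ≤ 1 ∧ 0 ≤ w ∧ w ≤ 1 ∧
      v = 2 * I * ((1 - 2 * I) + w * (3 / 100 + 29 / 10 * I)) ∧
      u = -(q * ((midNegP a b).K * v)) := by
    intro u v h
    have hlow := h.low
    have hhigh := h.high
    have hv : 0 < v := hV.trans_le hlow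
    simp only [midNegP, ← hId] at hlow hhigh
    have hKv := mul_pos hK hv
    have hden : 0 < 2 * I * (3 / 100 + 29 / 10 * I) := mul_pos (by linarith) (by linarith)
    refine ⟨hv, -u / ((midNegP a b).K * v),
      (v - 2 * I * (1 - 2 * I)) / (2 * I * (3 / 100 + 29 / 10 * I)),
      div_pos (neg_pos.2 h.neg) hKv, (div_le_one hKv).2 (by linarith [h.left]),
      div_nonneg (by linarith) hden.le, (div_le_one hden).2 (by linarith), ?_, ?_⟩
    · have := div_mul_cancel₀ (v - 2 * I * (1 - 2 * I)) hden.ne'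
      linear_combination -this
    · rw [div_mul_cancel₀ _ hKv.ne', neg_neg]
  have vV : ∀ (x : ℕ → ℝ) (tw : Ex), x 2 = I →
      ev4 x (mV tw .x₂) = 2 * I * ((1 - 2 * I) + ev4 x tw * (3 / 100 + 29 / 10 * I)) := by
    intro x tw h2
    simp only [mV, ev4_add, ev4_sub, ev4_mul, ev4_nC]
    rw [show ev4 x .x₂ = I from h2]
    push_cast; ring
  have vU : ∀ (x : ℕ → ℝ) (tq tv : Ex), x 2 = I → x 3 = a →
      ev4 x (mU tq tv .x₂ .x₃) = -(ev4 x tq * ((midNegP a b).K * ev4 x tv)) := by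
    intro x tq tv h2 h3
    simp only [mU, mK, midNegP, ← hId, ev4_add, ev4_sub, ev4_mul, ev4_nC]
    rw [show ev4 x .x₂ = I from h2, show ev4 x .x₃ = a from h3]
    push_cast; ring
  have tH : ∀ x : ℕ → ℝ, x 2 = I → x 3 = a →
      ev4 x (mHi .x₂ .x₃) = (midNegP a b).hi := by
    intro x h2 h3
    simp only [mHi, midNegP, ← hId, ev4_add, ev4_mul, ev4_nC]
    rw [show ev4 x .x₂ = I from h2, show ev4 x .x₃ = a from h3]
    push_cast; ring
  have tL : ∀ x : ℕ → ℝ, x 2 = I → x 3 = a →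
      ev4 x (mLo .x₂ .x₃) = (midNegP a b).lo := by
    intro x h2 h3
    simp only [mLo, midNegP, ← hId, ev4_sub, ev4_mul, ev4_nC]
    rw [show ev4 x .x₂ = I from h2, show ev4 x .x₃ = a from h3]
    push_cast; ring
  refine ⟨hV, ?_, hK, ?_, ?_, fun u v h => ?_, fun u v H h h1 h2 => ?_, fun u v h => ?_⟩
  · simp only [midNegP, ← hId]; exact mul_pos (by linarith) (by linarith)
  · simp only [midNegP, ← hId]; linarith
  · simp only [midNegP, ← hId]
    have : 2 * I * (1 - 2 * I) * (N + 2 * a) =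
        2 * (1 - 2 * I) * (N * I) + 4 * (a * I) * (1 - 2 * I) := by ring
    rw [this, hIN]
    nlinarith [mul_lt_mul_of_pos_right ha1 (show 0 < I by linarith), mul_pos ha0 (show 0 < I by linarith)]
  · obtain ⟨hv, q, w, hq, hq1, hw, hw1, ev, eu⟩ := coords u v h
    obtain ⟨x, x0, x1, x2, x3, hx⟩ := place hb h7 h20 ha hq hq1 hw hw1
    have ev' : ev4 x vX = v := by rw [vX, vV x .x₁ x2, show ev4 x .x₁ = w from x1, ev]
    have eu' : ev4 x uX = u := by
      rw [uX, vU x .x₀ vX x2 x3, ev', show ev4 x .x₀ = q from x0, eu]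
    obtain ⟨hG, -, -, -, n1⟩ := eval (x := x) x2 x3 (tH x x2 x3) hbI hb0 (by linarith) ha1 ev' eu'
    obtain ⟨-, -, -, -, n2⟩ := eval (x := x) x2 x3 (tL x x2 x3) hbI hb0 (by linarith) ha1 ev' eu'
    have hp : 0 < ev4 x (nC 1 1000 * (.x₀ * (.x₂ * .x₂ * .x₃))) := by
      simp only [ev4_mul, ev4_nC]
      rw [show ev4 x .x₀ = q from x0, show ev4 x .x₂ = I from x2, show ev4 x .x₃ = a from x3]
      have := mul_pos hq (mul_pos (mul_pos (show 0 < I by linarith) (show 0 < I by linarith)) ha0)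
      push_cast
      linarith
    have p1 := pos_of_sub (Ex.nonneg_of_checkNonneg chkHi_ok hx) hp
    have p2 := pos_of_sub (Ex.nonneg_of_checkNonneg chkLo_ok hx) hp
    rw [n1] at p1
    rw [ev4_sub, n2] at p2
    refine ⟨pos_of_mul_pos_left p1 (sq_nonneg _),
      neg_of_mul_neg_left (b := (b * (1 + 2 * I) * (1 - a) ^ 2) ^ 2) ?_ (sq_nonneg _)⟩
    simp only [ev4_nC] at p2
    norm_num at p2
    linarith
  · obtain ⟨hv, q, w, hq, hq1, hw, hw1, -, eu⟩ := coords u v h
    obtain ⟨x, x0, x1, x2, x3, hx⟩ := place hb h7 h20 ha hq hq1 hw hw1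
    have hp : 0 < ev4 x (nC 1 1000 * (.x₂ * .x₂ * .x₃)) := by
      simp only [ev4_mul, ev4_nC]
      rw [show ev4 x .x₂ = I from x2, show ev4 x .x₃ = a from x3]
      have := mul_pos (mul_pos (show 0 < I by linarith) (show 0 < I by linarith)) ha0
      push_cast
      linarith
    constructor <;> intro hvv
    · have ev' : ev4 x (mV (nC 0) .x₂) = v := by
        rw [vV x _ x2, hvv]; simp only [midNegP, ← hId, ev4_nC]; push_cast; ring
      have eu' : ev4 x (mU .x₀ (mV (nC 0) .x₂) .x₂ .x₃) = u := by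
        rw [vU x .x₀ _ x2 x3, ev', show ev4 x .x₀ = q from x0, eu]
      obtain ⟨hG, -, -, f1, -⟩ :=
        eval (x := x) x2 x3 (tH x x2 x3) hbI hb0 (by linarith) ha1 ev' eu'
      obtain ⟨-, -, -, f2, -⟩ :=
        eval (x := x) x2 x3 (tL x x2 x3) hbI hb0 (by linarith) ha1 ev' eu'
      have p1 := pos_of_sub (Ex.nonneg_of_checkNonneg downHi_ok hx) hp
      have p2 := pos_of_sub (Ex.nonneg_of_checkNonneg downLo_ok hx) hp
      rw [ev4_sub, f1, ev4_nC] at p1
      rw [ev4_sub, f2, ev4_nC] at p2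
      norm_num at p1 p2
      have := flow_between (-1) h1 h2
        (by linarith [neg_of_mul_neg_left p1 hG.le]) (by linarith [neg_of_mul_neg_left p2 hG.le])
      linarith
    · have ev' : ev4 x (mV (nC 1) .x₂) = v := by
        rw [vV x _ x2, hvv]; simp only [midNegP, ← hId, ev4_nC]; push_cast; ring
      have eu' : ev4 x (mU .x₀ (mV (nC 1) .x₂) .x₂ .x₃) = u := by
        rw [vU x .x₀ _ x2 x3, ev', show ev4 x .x₀ = q from x0, eu]
      obtain ⟨hG, -, -, f1, -⟩ :=
        eval (x := x) x2 x3 (tH x x2 x3) hbI hb0 (by linarith) ha1 ev' eu'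
      obtain ⟨-, -, -, f2, -⟩ :=
        eval (x := x) x2 x3 (tL x x2 x3) hbI hb0 (by linarith) ha1 ev' eu'
      have p1 := pos_of_sub (Ex.nonneg_of_checkNonneg upHi_ok hx) hp
      have p2 := pos_of_sub (Ex.nonneg_of_checkNonneg upLo_ok hx) hp
      rw [f1] at p1
      rw [f2] at p2
      have := flow_between 1 h1 h2 (by linarith [pos_of_mul_pos_left p1 hG.le])
        (by linarith [pos_of_mul_pos_left p2 hG.le])
      linarith
  · obtain ⟨hv, q, w, hq, hq1, hw, hw1, ev, -⟩ := coords u v h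
    obtain ⟨x, x0, x1, x2, x3, hx⟩ := place hb h7 h20 ha hq hq1 hw hw1
    have ev' : ev4 x vX = v := by rw [vX, vV x .x₁ x2, show ev4 x .x₁ = w from x1, ev]
    have eu' : ev4 x (mU (nC 1) vX .x₂ .x₃) = -((midNegP a b).K * v) := by
      rw [vU x _ vX x2 x3, ev', ev4_nC]; push_cast; ring
    obtain ⟨hG, g1, g2, -, -⟩ :=
      eval (x := x) x2 x3 (tH x x2 x3) hbI hb0 (by linarith) ha1 ev' eu'
    have hp : 0 < ev4 x (nC 1 1000 * .x₂) := by
      simp only [ev4_mul, ev4_nC]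
      rw [show ev4 x .x₂ = I from x2]
      push_cast
      linarith
    have p := pos_of_sub (Ex.nonneg_of_checkNonneg left_ok hx) hp
    rw [ev4_sub, ev4_mul, g1, g2] at p
    have vK : ev4 x (mK .x₂ .x₃) = (midNegP a b).K := by
      simp only [mK, midNegP, ← hId, ev4_add, ev4_sub, ev4_mul, ev4_nC]
      rw [show ev4 x .x₂ = I from x2, show ev4 x .x₃ = a from x3]
      push_cast; ring
    rw [vK] at p
    have h1 : 1 < (midNegP a b).K *
        allNegG a b (midNegP a b).hi (-((midNegP a b).K * v)) v := by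
      refine lt_of_mul_lt_mul_right ?_ hG.le
      linarith
    refine ⟨?_, h1⟩
    have h2 : 0 < allNegG a b (midNegP a b).hi (-((midNegP a b).K * v)) v :=
      pos_of_mul_pos_right (by linarith) hK.le
    have hS : 0 ≤ allNegS a b (midNegP a b).hi := by
      simp only [allNegS, ← hId]
      have : 0 ≤ (midNegP a b).hi := by simp only [midNegP, ← hId]; linarith
      have := show 0 ≤ I by linarith
      positivity
    simp only [allNegG] at h2 ⊢
    linarith [mul_le_mul_of_nonneg_right h.left hS]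

end MidNeg

end Vale.Agent.P100.Calib.Band
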