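import Vale.Agent.P100.Calib.SlabMidDefs

/-!
# The range of the chart and the packed numerators in the dimensions from seven to twenty
-/

namespace Vale.Agent.P100.Calib.Band

namespace AllLow

open Pack

local instance midPlaceAdd : Add Pack.Ex := ⟨Ex.add⟩
local instance midPlaceSub : Sub Pack.Ex := ⟨Ex.sub⟩
local instance midPlaceMul : Mul Pack.Ex := ⟨Ex.mul⟩

/-- What the chart says about `(a, I, X)`, `I = 1/N`, `v = 2 I X`. -/
structure MidPlace (a I X : ℝ) : Prop where
  I_lo : 1 / 20 ≤ I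
  I_hi : I ≤ 1 / 7
  I_le_a : I ≤ a
  a_le : a ≤ 31 / 100
  X_pos : 0 < X
  floor : 1 ≤ X * (1 + 2 * I * a)
  guard : (1 - 2 * I) * (1 - 2 * I - 2 * a) * X < 1
  av : 2 * I * a * X < 1

theorem midPlace_of {N a b v : ℝ} (hb : SlabBoxAll N a b) (h7 : 7 ≤ N) (h20 : N ≤ 20)
    (ha : a ≤ 31 / 100) (hv1 : 2 ≤ (N + 2 * a) * v) (hv2 : (N - 2) * ((b - a) * v) < 2)
    (hv3 : a * v < 1) :
    ∃ I X, v = 2 * I * X ∧ b = 1 - 2 * I - a ∧ I = 1 / N ∧ MidPlace a I X := by
  obtain ⟨ha0, -, -⟩ := hb.facts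
  obtain ⟨I, hI⟩ : ∃ I, I = 1 / N := ⟨_, rfl⟩
  have hN : 0 < N := by linarith
  have hIN : I * N = 1 := by rw [hI]; field_simp
  have hI0 : 0 < I := hI ▸ one_div_pos.2 hN
  have hlo : 1 / 20 ≤ I := hI ▸ one_div_le_one_div_of_le hN h20
  have hhi : I ≤ 1 / 7 := hI ▸ one_div_le_one_div_of_le (by norm_num) h7
  have hIa : I ≤ a := le_of_mul_le_mul_right (by linarith [hb.one_le]) hN
  have hbI : b = 1 - 2 * I - a := by
    have : 1 - (a + b) = 2 * I := by
      refine mul_left_cancel₀ hN.ne' ?_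
      rw [hb.sum]; linarith
    linarith
  obtain ⟨X, rfl⟩ : ∃ X, v = 2 * I * X :=
    ⟨v / (2 * I), (mul_div_cancel₀ v (mul_pos two_pos hI0).ne').symm⟩
  have e1 : (N + 2 * a) * (2 * I * X) = 2 * (X * (1 + 2 * I * a)) := by
    linear_combination 2 * X * hIN
  have e2 : (N - 2) * ((b - a) * (2 * I * X)) = 2 * ((1 - 2 * I) * (1 - 2 * I - 2 * a) * X) := by
    rw [hbI]; linear_combination 2 * (1 - 2 * I - 2 * a) * X * hIN
  have e3 : a * (2 * I * X) = 2 * I * a * X := by ring
  have hX : 0 < X := by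
    refine pos_of_mul_pos_left (b := 1 + 2 * I * a) (by linarith) ?_
    positivity
  exact ⟨I, X, rfl, hbI, hI, hlo, hhi, hIa, ha, hX, by linarith, by linarith, by linarith⟩

namespace MidPlace

variable {a I X : ℝ}

theorem I_pos (h : MidPlace a I X) : 0 < I := by linarith [h.I_lo]

theorem a_pos (h : MidPlace a I X) : 0 < a := by linarith [h.I_lo, h.I_le_a]

theorem d_pos (h : MidPlace a I X) : 0 < 1 - 2 * I - 2 * a := by linarith [h.I_hi, h.a_le]

/-- An upper bound for `X` from the end of the range of `v`. -/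
theorem X_lt (h : MidPlace a I X) (A J K : ℝ) (ha : a ≤ A) (hI : I ≤ J) (hA : A ≤ 31 / 100)
    (hJ : J ≤ 29 / 200) (hK : 1 ≤ (1 - 2 * J) * (1 - 2 * J - 2 * A) * K) : X < K := by
  have h1 : (1 - 2 * J) * (1 - 2 * J - 2 * A) ≤ (1 - 2 * I) * (1 - 2 * I - 2 * a) :=
    mul_le_mul (by linarith) (by linarith) (by linarith) (by linarith [h.I_hi])
  have h2 : 0 < (1 - 2 * J) * (1 - 2 * J - 2 * A) := mul_pos (by linarith) (by linarith)
  refine lt_of_mul_lt_mul_left (a := (1 - 2 * J) * (1 - 2 * J - 2 * A)) ?_ h2.le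
  linarith [mul_le_mul_of_nonneg_right h1 h.X_pos.le, h.guard]

/-- An upper bound for `X` from `a v < 1`. -/
theorem X_lt_av (h : MidPlace a I X) (A J K : ℝ) (ha : A ≤ a) (hI : J ≤ I) (hA : 0 < A)
    (hJ : 0 < J) (hK : 1 ≤ 2 * J * A * K) : X < K := by
  have h1 : 2 * J * A ≤ 2 * I * a :=
    mul_le_mul (by linarith) ha hA.le (by linarith [h.I_pos])
  refine lt_of_mul_lt_mul_left (a := 2 * J * A) ?_ (by positivity)
  linarith [mul_le_mul_of_nonneg_right h1 h.X_pos.le, h.av]

/-- A lower bound for `X`. -/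
theorem le_X (h : MidPlace a I X) (A J K : ℝ) (ha : a ≤ A) (hI : I ≤ J)
    (hK : K * (1 + 2 * J * A) ≤ 1) : K ≤ X := by
  have h1 : 1 + 2 * I * a ≤ 1 + 2 * J * A := by
    linarith [mul_le_mul hI ha h.a_pos.le (show 0 ≤ J by linarith [h.I_pos])]
  have h2 : 0 < 1 + 2 * J * A := by
    linarith [mul_pos h.I_pos h.a_pos]
  refine le_of_mul_le_mul_right (a := 1 + 2 * J * A) ?_ h2
  linarith [mul_le_mul_of_nonneg_left h1 h.X_pos.le, h.floor]

end MidPlace

theorem mid_point {u X I a : ℝ} {u₀ u₁ X₀ X₁ I₀ I₁ a₀ a₁ : ℤ}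
    (g1 : (u₀ : ℝ) ≤ u * 1000) (g2 : u * 1000 < u₁) (g3 : (X₀ : ℝ) ≤ X * 100)
    (g4 : X * 100 < X₁) (g5 : (I₀ : ℝ) ≤ I * 1000) (g6 : I * 1000 < I₁)
    (g7 : (a₀ : ℝ) ≤ a * 1000) (g8 : a * 1000 < a₁) :
    ∀ i < 4, ∃ t : ℝ, 0 ≤ t ∧
      0 < ((midBox u₀ u₁ X₀ X₁ I₀ I₁ a₀ a₁ i).c : ℝ) +
        (midBox u₀ u₁ X₀ X₁ I₀ I₁ a₀ a₁ i).d * t ∧
      ((midBox u₀ u₁ X₀ X₁ I₀ I₁ a₀ a₁ i).a : ℝ) + (midBox u₀ u₁ X₀ X₁ I₀ I₁ a₀ a₁ i).b * t =
        stabPt u X I a i * (((midBox u₀ u₁ X₀ X₁ I₀ I₁ a₀ a₁ i).c : ℝ) +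
          (midBox u₀ u₁ X₀ X₁ I₀ I₁ a₀ a₁ i).d * t) := by
  intro i hi
  interval_cases i <;> simp only [midBox]
  · exact side_point (den := 1000) (by norm_num) (by simpa [stabPt] using g1)
      (by simpa [stabPt] using g2)
  · exact side_point (den := 100) (by norm_num) (by simpa [stabPt] using g3)
      (by simpa [stabPt] using g4)
  · exact side_point (den := 1000) (by norm_num) (by simpa [stabPt] using g5)
      (by simpa [stabPt] using g6)
  · exact side_point (den := 1000) (by norm_num) (by simpa [stabPt] using g7)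
      (by simpa [stabPt] using g8)

section eval

variable {a b I u X : ℝ} (c : MidBand) (e : MidExit)

theorem eval_midFour (f : MidFour) : (eFour f).eval (stabPt u X I a) = midFour f I a := by
  simp only [eFour, eMA, eMI, midFour, eval_add', eval_mul', eval_num', Ex.eval, stabPt]
  norm_num

theorem eval_midSix (f : MidSix) : (eSix f).eval (stabPt u X I a) = midSix f I a := by
  simp only [eSix, eMA, eMI, midSix, eval_add', eval_mul', eval_num', Ex.eval, stabPt]
  norm_num

/-- The values of the packed forms. -/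
theorem eval_mid_base (hb : b = 1 - 2 * I - a) :
    eU.eval (stabPt u X I a) = u ∧ eMI.eval (stabPt u X I a) = I ∧
      eMA.eval (stabPt u X I a) = a ∧ (eS eMI).eval (stabPt u X I a) = a + b ∧
      (eB eMI eMA).eval (stabPt u X I a) = b ∧ (eD eMI eMA).eval (stabPt u X I a) = b - a ∧
      (eV eMI).eval (stabPt u X I a) = 2 * I * X ∧
      (eMidPsi c).eval (stabPt u X I a) = midPsi c I a u ∧
      (eMidK c).eval (stabPt u X I a) = midK c I a b u ∧
      (eMidN c).eval (stabPt u X I a) = midN c I a b u (2 * I * X) ∧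
      (eMidNu c).eval (stabPt u X I a) = midNu c I a u (2 * I * X) ∧
      eMidGd.eval (stabPt u X I a) = 1000 * (b - u * a) := by
  have vU : eU.eval (stabPt u X I a) = u := by simp [eU, Ex.eval, stabPt]
  have vI : eMI.eval (stabPt u X I a) = I := by simp [eMI, Ex.eval, stabPt]
  have vA : eMA.eval (stabPt u X I a) = a := by simp [eMA, Ex.eval, stabPt]
  have vX : (Ex.var 1).eval (stabPt u X I a) = X := by simp [Ex.eval, stabPt]
  have vS : (eS eMI).eval (stabPt u X I a) = a + b := by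
    simp only [eS, eval_sub', eval_mul', eval_num', vI]; push_cast; rw [hb]; ring
  have vB : (eB eMI eMA).eval (stabPt u X I a) = b := by simp only [eB, eval_sub', vS, vA]; ring
  have vD : (eD eMI eMA).eval (stabPt u X I a) = b - a := by simp only [eD, eval_sub', vB, vA]
  have vV : (eV eMI).eval (stabPt u X I a) = 2 * I * X := by
    simp only [eV, eval_mul', eval_num', vI, vX]; push_cast; ring
  have vP : (eMidPsi c).eval (stabPt u X I a) = midPsi c I a u := by
    simp only [eMidPsi, midPsi, eval_add', eval_mul', eval_midSix, vU]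
  have vPu : (eMidPsiU c).eval (stabPt u X I a) = midPsiU c I a u := by
    simp only [eMidPsiU, midPsiU, eval_add', eval_mul', eval_num', eval_midSix, vU]
    push_cast; ring
  have vK : (eMidK c).eval (stabPt u X I a) = midK c I a b u := by
    simp only [eMidK, midK, eval_add', eval_sub', eval_mul', eval_num', eval_midFour, vB, vI, vU]
    push_cast; ring
  have vKu : (eMidKu c).eval (stabPt u X I a) = midKu c I a u := by
    simp only [eMidKu, midKu, eval_add', eval_sub', eval_mul', eval_num', eval_midFour, vI, vU]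
    push_cast; ring
  refine ⟨vU, vI, vA, vS, vB, vD, vV, vP, vK, ?_, ?_, ?_⟩
  · simp only [eMidN, midN, eval_add', eval_mul', eval_num', vK, vV, vI, vP]
    push_cast; ring
  · simp only [eMidNu, midNu, eval_add', eval_mul', vKu, vV, vI, vPu]
  · simp only [eMidGd, eW, eval_sub', eval_mul', eval_num', vB, vU, vA]; push_cast; ring

/-- The values of the range conditions. -/
theorem eval_mid_range :
    eMidGuard.eval (stabPt u X I a) = 1 - (1 - 2 * I) * (1 - 2 * I - 2 * a) * X ∧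
      eMidFloor.eval (stabPt u X I a) = X * (1 + 2 * I * a) - 1 ∧
      eMidAv.eval (stabPt u X I a) = 1 - 2 * I * a * X := by
  have vI : eMI.eval (stabPt u X I a) = I := by simp [eMI, Ex.eval, stabPt]
  have vA : eMA.eval (stabPt u X I a) = a := by simp [eMA, Ex.eval, stabPt]
  have vX : (Ex.var 1).eval (stabPt u X I a) = X := by simp [Ex.eval, stabPt]
  refine ⟨?_, ?_, ?_⟩
  · simp only [eMidGuard, eS, eD, eB, eval_sub', eval_mul', eval_num', vI, vA, vX]
    push_cast; ring
  · simp only [eMidFloor, eval_add', eval_sub', eval_mul', eval_num', vI, vA, vX]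
    push_cast; ring
  · simp only [eMidAv, eval_sub', eval_mul', eval_num', vI, vA, vX]
    push_cast; ring

/-- The band as a quotient. -/
theorem midBandG_eq (hb : b = 1 - 2 * I - a) (hu1 : u ≤ 1) (v : ℝ) :
    midBandG c a b u v = midN c I a b u v / (1000 * (b - u * a)) := by
  have eI : allStabI a b = I := by rw [allStabI, hb]; ring
  rw [midBandG, eI, (allPole_eq (a := a) (b := b) hu1).1]

end eval

end AllLow

end Vale.Agent.P100.Calib.Band
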