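import Vale.Agent.P100.Calib.SlabMidData
import Vale.Agent.P100.Calib.SlabAllEndExpr

/-!
# The rungs at the end of the tail in the dimensions from thirteen to twenty: numerators

The exit function is `H (b - u a) - 1 + I w (5 + 12 a)/(2 d)`, the forward one
`(1 - 2 I) d ^ 2 v - 2 I d + 14 I (a + 2 I) w`, with `w = 1 - u` and `d = b - a`.
-/

namespace Vale.Agent.P100.Calib.Band.AllLow

open Pack

local instance rungAdd : Add Pack.Ex := ⟨Ex.add⟩
local instance rungSub : Sub Pack.Ex := ⟨Ex.sub⟩
local instance rungMul : Mul Pack.Ex := ⟨Ex.mul⟩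

/-- Twice the coefficient of the exit function. -/
def eRungC : Pack.Ex := eN 5 + eN 12 * eMA

/-- The numerator of the zero of the exit function. -/
def eRungN : Pack.Ex := eN 2 * eD eMI eMA - eMI * eEndW * eRungC

/-- Its denominator. -/
def eRungG : Pack.Ex := eN 2 * eD eMI eMA * eW eMI eMA

/-- Minus the exit condition at the zero of the exit function, less a monomial and a multiple
of `1 - (1 - 2 I) d X`. -/
def eRungTop (l : ℤ) : Pack.Ex :=
  eN 0 - ((eN 0 - eMA * eRungN - eMI * eRungC * eW eMI eMA) * eU *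
        eEndEn eRungN eRungG eMI eMA +
      eW eMI eMA * eEndFh eRungN eRungG eMI eMA) -
    eMI * eMI * eMI * eEndW - eN l * (eEndW * eMI * eMidGuard)

/-- The lower band at `X = 49/50`, fifty thousand times `b - u a`. -/
def eRungLow : Pack.Ex :=
  eN 50000 + eMidK midLowA * (eN 98 * eMI) + eN 50 * (eMI * eMidPsi midLowA)

/-- Its denominator. -/
def eRungLowG : Pack.Ex := eN 50000 * eW eMI eMA

/-- Minus the exit condition there, times `2 d`, less a monomial. -/
def eRungBot : Pack.Ex :=
  eN 0 - ((eN 0 - eN 2 * (eMA * eD eMI eMA * eRungLow) -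
          eN 50000 * (eW eMI eMA * eMI * eRungC)) * eU * eEndEn eRungLow eRungLowG eMI eMA +
      eN 2 * eD eMI eMA * eW eMI eMA * eEndFh eRungLow eRungLowG eMI eMA) -
    eMI * eMI * eEndW

/-- The slope of the lower band, less one. -/
def eRungK : Pack.Ex := eMidK midLowA - eN 1

/-- The forward function over `2 I`. -/
def eRungF : Pack.Ex :=
  eN 7 * ((eMA + eN 2 * eMI) * eEndW) - eD eMI eMA +
    eS eMI * eD eMI eMA * eD eMI eMA * .var 1

/-- The radial speed is negative at the upper band where the forward function is not positive. -/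
def eRungEntry (l : ℤ) : Pack.Ex :=
  eN 900 * ((eMA + eN 2 * eMI) * eW eMI eMA) * eRungF - eMidFlow midUpA - eMI * eMI -
    eN l * eMidGuard

/-- `(1 - 2 I) d ^ 2`. -/
def eRungP : Pack.Ex := eS eMI * eD eMI eMA * eD eMI eMA

/-- The numerator of `v` at the zero of the forward function. -/
def eRungM : Pack.Ex := eN 2 * eMI * (eD eMI eMA - eN 7 * ((eMA + eN 2 * eMI) * eEndW))

/-- The numerator of `Qn` there. -/
def eRungQn : Pack.Ex :=
  eB eMI eMA * (eN 2 * eRungP + eD eMI eMA * eRungM) -
    eS eMI * eU * (eRungP + eD eMI eMA * eRungM)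

/-- The numerator of the denominator of `qv` at both zeros. -/
def eRungDen : Pack.Ex :=
  (eN 2 * eRungP + eD eMI eMA * eRungM) * eRungG - eU * eD eMI eMA * eRungN * eRungP

/-- The numerator of `ev` there. -/
def eRungEn : Pack.Ex :=
  (eRungG - eU * eD eMI eMA * eRungN) * eRungQn - eS eMI * eEndW * eB eMI eMA * eRungDen

/-- The numerator of the radial speed there. -/
def eRungFlow : Pack.Ex :=
  eRungP * eRungQn * eRungN - eS eMI * (eRungP - eMA * eRungM) * eRungDen

/-- The numerator of the gap to the upper band there. -/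
def eRungGap : Pack.Ex :=
  eN 2 * eD eMI eMA *
      (eN 1000 * eRungP + eMidK midUpA * eRungM + eRungP * (eMI * eMidPsi midUpA)) -
    eN 1000 * eRungP * eRungN

/-- The forward condition there, less a multiple of the gap and a monomial. -/
def eRungFwd : Pack.Ex :=
  eN 5000 * eU * (eN (-14) * (eMI * (eMA + eN 2 * eMI)) * eRungP * eRungEn +
        (eRungP + eD eMI eMA * eRungM) * eRungFlow) -
      eN 8 * eEndW * eRungP * eRungGap -
    eMI * eMI * eEndW



end Vale.Agent.P100.Calib.Band.AllLow
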