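import Vale.Agent.P100.Calib.SlabAllSignsPieceExpr
import Vale.Agent.P100.Calib.SlabMidData

/-!
# The pieces of the certificate of the closed signs on `0 < u ≤ 3/5`, dimensions from seven to twenty

As `SlabAllSignsPieceExpr`, with the flag `z` of `D2 = 0`: there `S ^ 2 ≤ 2 a (1 - I)`. The bands are
those of the dimensions from seven to twenty.
-/

set_option linter.unusedVariables false

namespace Vale.Agent.P100.Calib.Closed.All.Low

/-- `D2` times its scale, or zero. -/
def xD2 (z : Bool) : QEx := cond z (qN 0) (xS.pow 2 - qN 2 * xa * (qN 1 - xI))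

/-- The atoms with that `D2`. -/
def Atm.withD2 (A : Atm) (z : Bool) : Atm := { A with D2 := xD2 z }

/-- The atoms at a place in `pi`. -/
def Piece.atmM (P : Piece) (z low high : Bool) (k : PiAt) : Atm := (P.atm low high k).withD2 z

/-- The middle Bernstein coefficient in `pi` or the value at an end. -/
def Piece.bernM (P : Piece) (z : Bool) (q : Kind) (high : Bool) : PiAt → QEx
  | .mid => qN 2 * P.form (P.atmM z q.low high .mid) q -
      qD 500 * (P.form (P.atmM z q.low high .lo) q + P.form (P.atmM z q.low high .hi) q)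
  | k => P.form (P.atmM z q.low high k) q

/-- What is checked: a coefficient less the slack, and a margin for strictness. -/
def Piece.checkM (P : Piece) (z : Bool) (q : Kind) (high : Bool) (k : PiAt) : QEx :=
  match q with
  | .g => P.bernM z q high k - qD 1 * (xI * xd.pow 2).pow 2
  | .f => P.bernM z q high k - qD P.rF * (qD P.qa + qD P.qb * xI) * xs1.pow 2 * P.slack -
      qD 1 * (xI * xd.pow 2).pow 2
  | .tlo => P.bernM z q high k - qD P.rA * xs1 * P.slack
  | .thi => P.bernM z q high k - qD P.rB * xs1 * P.slack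
  | _ => P.bernM z q high k

/-- A lower bound of the ray gap at `q = u n/p`, times `p d S ^ 2/a`. -/
def xLLGM (z : Bool) (n p : QEx) : QEx :=
  xd * xS.pow 2 *
      (xb * xv * xD0 * xQ * (xC0 * p + xC1 * (xu * n)) +
        xe2 * xv * xD0.pow 2 * ((xv * xV0a + xV0b) * p + xV1 * (xu * n)) +
        qN 2 * xv * xd * xD0 * (xu * n) * (qN 1 + qN 2 * xI) *
          (qN (-1) * xb * xQ * xI * (qN 1 - qN 3 * xa - xI) - qD 300)) +
    xQ * xS.pow 2 *
      (xdE n p * (xv * xEa + xEb) -
        qD 2500 * (xd * (p - xd * (xu * n))) * (xS * xu * (xv * (qN 4 * xv * xd + qN 8))) +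
        xdE n p * (xS * xu * (xX * (xv * xRa + xRb) + qN 8 * xI))) +
    xD2 z * xD0.pow 2 * xQ * (qN 2 * xS * xu * xI) * xdE n p

/-- The bands up to `3/20`. -/
def bandSmall : BandEx where
  lo := qN 5 * xS * (qN 1 + (qN 1 - xa) * xv) * (xb - xu * xa) + xu * (qN 1 + qN 2 * xI) * (xP5 -
    qN 110 * (qN 1 - qN 2 * xa) * xI * xI - xI * xa)
  hi := qN 5 * xS * (qN 1 + (qN 1 - xa) * xv) * (xb - xu * xa) + xu * (qN 1 + qN 2 * xI) * (xP5 +
    xI * (xI * (qN (-75) + qN 128 * xa + qN 189 * xI) + xv * (qN 7 + qN 23 * xa - qN 56 * xI))) +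
    qN 5 * (xu * xu * xI * (qN 2 * xa + qN 3 * xI))
  pole := qN 5 * (xb * (qN 1 + qN 2 * xI)) * (xb - xu * xa)

/-- A quadratic of the bands. -/
def xSix (c : Band.MidSix) : QEx :=
  qN c.c0 + qN c.c1 * xa + qN c.c2 * xI + qN c.c3 * (xa * xa) + qN c.c4 * (xa * xI) +
    qN c.c5 * (xI * xI)

/-- A bilinear form of the bands. -/
def xFour (c : Band.MidFour) : QEx :=
  qN c.c0 + qN c.c1 * xa + qN c.c2 * xI + qN c.c3 * (xa * xI)

/-- The numerator of a band. -/
def xMidN (c : Band.MidBand) : QEx :=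
  qN 1000 + (qN 1000 * xb - xI * (xFour c.t0 + xu * (xFour c.t1 + xu * xFour c.t2))) * xv +
    xI * (xSix c.p0 + xu * (xSix c.p1 + xu * (xSix c.p2 + xu * xSix c.p3)))

/-- Two bands of a piece. -/
def bandMid (l h : Band.MidBand) : BandEx where
  lo := xMidN l
  hi := xMidN h
  pole := qN 1000 * (xb - xu * xa)

/-- An exit curve at the ratio `xn/xd`. -/
def xExitM (e : Band.MidExit) (xn xd : ℤ) : QEx :=
  (xFour e.e0 + xu * (xFour e.e1 + xu * xFour e.e2)) * qN xn - qN (1000 * xd)

end Vale.Agent.P100.Calib.Closed.All.Low
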