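import Vale.Agent.P100.Calib.SlabAllSignsBlock
import Vale.Agent.P100.Calib.SlabMidSignsExpr

/-!
# The checked quantities of a piece with the flag of `D2 = 0`
-/

set_option linter.unusedVariables false
set_option linter.unusedSimpArgs false

namespace Vale.Agent.P100.Calib.Closed.All.Low

/-- The number `D2`, or zero. -/
noncomputable def PtR.D2M (o : PtR) (z : Bool) : ℝ := cond z 0 o.D2

/-- The numbers of the closed forms. -/
noncomputable def PtR.numM (o : PtR) (z : Bool) (n : Nums) : ClosedGen.Num :=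
  n.num (o.a * (o.a + o.d)) (-(1 - 2 * o.a - (1 - 2 * o.a - o.d) / 4) * ((1 - 2 * o.a - o.d) / 2))
    (o.D2M z)

/-- A block at `g = 1`. -/
noncomputable def PtR.blkM (o : PtR) (z : Bool)
    (F : ℝ → ℝ → ℝ → ℝ → ℝ → ℝ → ℝ → ClosedGen.Num → ℝ) (n : Nums) : ℝ :=
  F o.a o.d o.v 1 n.p n.w 0 (o.numM z n)

theorem PtR.val_xD2 (o : PtR) (h : o.Pos) (z : Bool) :
    (xD2 z).val o.x = o.s2 * o.D2M z := by
  obtain ⟨-, -, ea, eI, -, -, -, -, -, eS, -, -⟩ := o.vals
  cases z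
  · simp only [xD2, PtR.D2M, PtR.D2, cond_false, val_sub, val_mul, val_pow, val_num, ea, eI, eS]
    rw [mul_div_cancel₀ _ h.s2_pos.ne']
    push_cast; ring
  · simp [xD2, PtR.D2M]

theorem PtR.Pos.substM {o : PtR} (h : o.Pos) (z : Bool) (pi om tau : QEx) :
    Subst ((mkAtm pi om tau).withD2 z) o.x o.a o.d o.v
      (o.nums (pi.val o.x) (om.val o.x) (tau.val o.x)).p
      (o.nums (pi.val o.x) (om.val o.x) (tau.val o.x)).E
      (o.nums (pi.val o.x) (om.val o.x) (tau.val o.x)).K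
      (o.nums (pi.val o.x) (om.val o.x) (tau.val o.x)).w
      (o.nums (pi.val o.x) (om.val o.x) (tau.val o.x)).G
      (o.nums (pi.val o.x) (om.val o.x) (tau.val o.x)).G1 (o.D2M z) := by
  have hS := h.subst pi om tau rfl rfl rfl
  obtain ⟨-, -, -, -, -, -, -, -, -, -, -, e2⟩ := o.vals
  exact { hS with D2_eq := (o.val_xD2 h z).trans (by
    show _ = xs2.val o.x * _
    rw [e2]) }

/-- The combination at `g = 1`. -/
noncomputable def Comb.atM (z : Bool) (c : Comb) (o : PtR) (n : Nums) : ℝ :=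
  c.G * o.blkM z ClosedGen.TGGS n + c.T * o.blkM z ClosedGen.TEGS n +
    c.A * o.blkM z ClosedGen.TAS n + c.N * o.blkM z ClosedGen.TMGS n +
    c.E * o.blkM z ClosedGen.TMES n + c.M * o.blkM z ClosedGen.TMMS n

/-- The value of a quantity at atoms. -/
theorem formM_val (P : Piece) (z : Bool) {o : PtR} (h : o.Pos) (q : Kind) (pi om tau : QEx) :
    (P.form ((mkAtm pi om tau).withD2 z) q).val o.x = (P.comb o q).atM z o
      (o.nums (pi.val o.x) (om.val o.x) (tau.val o.x)) := by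
  have hS := h.substM z pi om tau
  have ha := h.a_pos.ne'
  have es1 : ((mkAtm pi om tau).withD2 z).s1.val o.x = o.s1 := by
    simp only [Atm.withD2, mkAtm, xs1, xb, xD0, xd, xv, xa, xI, xX, val_mul, val_add, val_sub, val_num,
      val_var, PtR.x, PtR.s1, PtR.b, PtR.D0, PtR.d, PtR.v]
    push_cast; ring
  have es2 : ((mkAtm pi om tau).withD2 z).s2.val o.x = o.s2 := by
    simp only [Atm.withD2, mkAtm, xs2, xS, xd, xa, xI, val_mul, val_sub, val_pow, val_num, val_var, PtR.x,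
      PtR.s2, PtR.S, PtR.d]
    push_cast; ring
  have es : ((mkAtm pi om tau).withD2 z).s.val o.x = o.s1 * o.s2 := by
    rw [Atm.s, val_mul, es1, es2]
  have eG := val_TGG hS
  have eT := val_TEG hS
  have eA := val_TA hS
  have eN := val_TMG hS
  have eE := val_TME hS
  have eM := val_TMM hS
  rw [es2] at eG
  rw [es] at eT eA eN eE eM
  have hb : o.a + o.d = o.b := by simp only [PtR.b, PtR.d]; ring
  rw [hb] at eM
  have eI : xI.val o.x = o.I := by simp [xI, PtR.x]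
  have eb : xb.val o.x = o.b := by
    simp only [xb, xa, xI, val_sub, val_mul, val_num, val_var, PtR.x, PtR.b]; push_cast; ring
  have a3 : o.a ^ 3 ≠ 0 := pow_ne_zero 3 ha
  rw [mul_comm, ← eq_div_iff a3] at eG eT eA eN
  rw [mul_comm, ← eq_div_iff ha] at eE
  cases q <;> simp only [Piece.form, Piece.comb, Comb.atM, PtR.blkM, PtR.numM, Nums.num, atNum,
    val_add, val_sub, val_mul, val_pow, val_num, val_dec, es, es1, es2, eI, eb, eG, eT, eA, eN,
    eE, eM] <;> push_cast <;> field_simp <;> ring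

section
variable (c : Comb) (z : Bool) (o : PtR)

theorem Comb.quadM (m n : Nums) : IsQuad fun θ => c.atM z o (m.seg n θ) := by
  have e : ∀ {F : ℝ → ℝ → ℝ → ℝ → ℝ → ℝ → ℝ → ClosedGen.Num → ℝ},
      IsQuad (along F o.a o.d o.v (o.a * (o.a + o.d))
        (-(1 - 2 * o.a - (1 - 2 * o.a - o.d) / 4) * ((1 - 2 * o.a - o.d) / 2)) (o.D2M z) m n) →
      IsQuad fun θ => o.blkM z F (m.seg n θ) := fun h => h
  exact ((((((e (quad_TGG o.a o.d o.v _ _ (o.D2M z) m n)).smul c.G).add ((e (quad_TEG o.a o.d o.v _ _ (o.D2M z) m n)).smul c.T)).add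
    ((e (quad_TA o.a o.d o.v _ _ (o.D2M z) m n)).smul c.A)).add ((e (quad_TMG o.a o.d o.v _ _ (o.D2M z) m n)).smul c.N)).add
      ((e (quad_TME o.a o.d o.v _ _ (o.D2M z) m n)).smul c.E)).add ((e (quad_TMM o.a o.d o.v _ _ (o.D2M z) m n)).smul c.M)

theorem Comb.tauM (π ω τ₀ τ₁ s : ℝ) (hd : o.d ≠ 0) : c.atM z o (o.nums π ω (seg s τ₀ τ₁)) =
    seg s (c.atM z o (o.nums π ω τ₀)) (c.atM z o (o.nums π ω τ₁)) +
      c.G * (s * (1 - s) * (Closed.j1 o.a o.d * o.a ^ 3 * o.b * o.Q *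
        (6 / 5 * (τ₁ - τ₀) * o.v * o.D0) ^ 2)) := by
  set n₀ := o.nums π ω τ₀ with h₀
  set n₁ := o.nums π ω τ₁ with h₁
  have e : o.nums π ω (seg s τ₀ τ₁) =
      ⟨n₀.p, n₀.w, n₀.E, n₀.K, seg s n₀.G n₁.G, seg s n₀.G1 n₁.G1⟩ := by
    simp only [h₀, h₁, PtR.nums, seg, Nums.mk.injEq, true_and]
    constructor <;> ring
  have e1 : n₁ = ⟨n₀.p, n₀.w, n₀.E, n₀.K, n₁.G, n₁.G1⟩ := rfl
  have hsq : Closed.j1 o.a o.d * o.a * (o.a + o.d) * o.d ^ 2 * (1 + o.d * o.v) *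
      (4 * (n₁.G - n₀.G) * o.v * o.d * (2 + o.d * o.v)) ^ 2 =
      Closed.j1 o.a o.d * o.a ^ 3 * o.b * o.Q * (6 / 5 * (τ₁ - τ₀) * o.v * o.D0) ^ 2 := by
    have hb : o.a + o.d = o.b := by simp only [PtR.b, PtR.d]; ring
    simp only [h₀, h₁, PtR.nums, hb, PtR.Q, PtR.D0]
    field_simp
    ring
  rw [e, e1]
  simp only [Comb.atM, PtR.blkM, PtR.numM, Nums.num, tau_TGG, tau_TEG, tau_TA, tau_TMG, hsq,
    tau_TME (G₀ := seg s n₀.G n₁.G), tau_TME (G₀ := n₁.G), tau_TME (G₀ := n₀.G),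
    ClosedGen.TMMS]
  simp only [seg]
  ring

theorem Comb.omegaM (π ω ω' τ : ℝ) :
    c.atM z o (o.nums π ω' τ) = c.atM z o (o.nums π ω τ) + (ω' - ω) * c.slope o := by
  simp only [Comb.atM, PtR.blkM, PtR.numM, Nums.num, PtR.nums, Comb.slope]
  rw [w_TGG (w := o.I * ω), w_TEG (w := o.I * ω), w_TA (w := o.I * ω), w_TMG (w := o.I * ω),
    w_TME (w := o.I * ω)]
  simp only [ClosedGen.TMMS]
  ring

end

end Vale.Agent.P100.Calib.Closed.All.Low
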