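import Vale.Agent.P100.Calib.SlabMidSignsPieces

/-!
# Checks of the piece 0
-/

set_option linter.defProp false

namespace Vale.Agent.P100.Calib.Closed.All.Low

/-- Checks of the piece 0. -/
def m0_group0 :
    ([mpiece0.checkM false .g false .lo,
      mpiece0.checkM false .g false .hi,
      mpiece0.checkM false .g false .mid,
      mpiece0.checkM false .g true .lo,
      mpiece0.checkM false .g true .hi,
      mpiece0.checkM false .g true .mid] : List QEx).all (fun q => checkShift mbox0 462 2 7 14 26 q.e) = true := by
  decide +kernel

/-- Checks of the piece 0. -/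
def m0_group1 :
    ([mpiece0.checkM false .n false .lo,
      mpiece0.checkM false .n false .hi,
      mpiece0.checkM false .n false .mid,
      mpiece0.checkM false .n true .lo,
      mpiece0.checkM false .n true .hi,
      mpiece0.checkM false .n true .mid] : List QEx).all (fun q => checkShift mbox0 563 4 8 18 31 q.e) = true := by
  decide +kernel

/-- Checks of the piece 0. -/
def m0_group2 :
    ([mpiece0.checkM false .tlo false .lo,
      mpiece0.checkM false .tlo false .hi,
      mpiece0.checkM false .tlo false .mid,
      mpiece0.checkM false .tlo true .lo,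
      mpiece0.checkM false .tlo true .hi,
      mpiece0.checkM false .tlo true .mid,
      mpiece0.checkM false .thi false .lo,
      mpiece0.checkM false .thi false .hi,
      mpiece0.checkM false .thi false .mid,
      mpiece0.checkM false .thi true .lo,
      mpiece0.checkM false .thi true .hi,
      mpiece0.checkM false .thi true .mid] : List QEx).all (fun q => checkShift mbox0 543 3 9 16 29 q.e) = true := by
  decide +kernel

/-- Checks of the piece 0. -/
def m0_group3 :
    ([mpiece0.checkM false .mlo false .lo,
      mpiece0.checkM false .mlo false .hi,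
      mpiece0.checkM false .mlo false .mid,
      mpiece0.checkM false .mhi false .lo,
      mpiece0.checkM false .mhi false .hi,
      mpiece0.checkM false .mhi false .mid] : List QEx).all (fun q => checkShift mbox0 384 4 5 10 18 q.e) = true := by
  decide +kernel

/-- Checks of the piece 0. -/
def m0_group4 :
    ([mpiece0.checkM false .f false .lo] : List QEx).all (fun q => checkShift mbox0 624 5 11 18 33 q.e) = true := by
  decide +kernel

/-- Checks of the piece 0. -/
def m0_group5 :
    ([mpiece0.checkM false .f false .hi] : List QEx).all (fun q => checkShift mbox0 624 5 11 18 33 q.e) = true := by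
  decide +kernel

/-- Checks of the piece 0. -/
def m0_group6 :
    ([mpiece0.checkM false .f false .mid] : List QEx).all (fun q => checkShift mbox0 646 5 11 18 33 q.e) = true := by
  decide +kernel

/-- Checks of the piece 0. -/
def m0_group7 :
    ([mpiece0.checkM false .f true .lo] : List QEx).all (fun q => checkShift mbox0 624 5 11 18 33 q.e) = true := by
  decide +kernel

/-- Checks of the piece 0. -/
def m0_group8 :
    ([mpiece0.checkM false .f true .hi] : List QEx).all (fun q => checkShift mbox0 624 5 11 18 33 q.e) = true := by
  decide +kernel

/-- Checks of the piece 0. -/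
def m0_group9 :
    ([mpiece0.checkM false .f true .mid] : List QEx).all (fun q => checkShift mbox0 646 5 11 18 33 q.e) = true := by
  decide +kernel

/-- Checks of the piece 0. -/
def m0_group10 :
    ([mpiece0.env bandSmall.lo bandSmall.hi bandSmall.pole .piL,
      mpiece0.env bandSmall.lo bandSmall.hi bandSmall.pole .piU] : List QEx).all (fun q => checkShift mbox0 158 3 2 4 8 q.e) = true := by
  decide +kernel

/-- Checks of the piece 0. -/
def m0_group11 :
    ([mpiece0.env bandSmall.hi bandSmall.hi bandSmall.pole .piL,
      mpiece0.env bandSmall.hi bandSmall.hi bandSmall.pole .piU] : List QEx).all (fun q => checkShift mbox0 163 4 2 4 8 q.e) = true := by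
  decide +kernel

/-- Checks of the piece 0. -/
def m0_group12 :
    ([mpiece0.env bandSmall.lo bandSmall.hi bandSmall.pole .omL] : List QEx).all (fun q => checkShift mbox0 269 5 4 7 12 q.e) = true := by
  decide +kernel

/-- Checks of the piece 0. -/
def m0_group13 :
    ([mpiece0.env bandSmall.hi bandSmall.hi bandSmall.pole .omL,
      mpiece0.env bandSmall.hi bandSmall.hi bandSmall.pole .omU] : List QEx).all (fun q => checkShift mbox0 274 6 4 7 12 q.e) = true := by
  decide +kernel

/-- A check of the piece 0. -/
def m0_omU_lo_0 :
    checkShift mbox0_omU_lo_0 311 5 4 7 12 (mpiece0.env bandSmall.lo bandSmall.hi bandSmall.pole .omU).e = true := by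
  decide +kernel

/-- A check of the piece 0. -/
def m0_omU_lo_1 :
    checkShift mbox0_omU_lo_1 311 5 4 7 12 (mpiece0.env bandSmall.lo bandSmall.hi bandSmall.pole .omU).e = true := by
  decide +kernel

/-- A check of the piece 0. -/
def m0_omU_lo_2 :
    checkShift mbox0_omU_lo_2 311 5 4 7 12 (mpiece0.env bandSmall.lo bandSmall.hi bandSmall.pole .omU).e = true := by
  decide +kernel

/-- A check of the piece 0. -/
def m0_omU_lo_3 :
    checkShift mbox0_omU_lo_3 311 5 4 7 12 (mpiece0.env bandSmall.lo bandSmall.hi bandSmall.pole .omU).e = true := by
  decide +kernel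

/-- A check of the piece 0. -/
def m0_tauL_lo_0 :
    checkShift mbox0_tauL_lo_0 334 7 4 9 15 (mpiece0.env bandSmall.lo bandSmall.hi bandSmall.pole .tauL).e = true := by
  decide +kernel

/-- A check of the piece 0. -/
def m0_tauL_lo_1 :
    checkShift mbox0_tauL_lo_1 334 7 4 9 15 (mpiece0.env bandSmall.lo bandSmall.hi bandSmall.pole .tauL).e = true := by
  decide +kernel

/-- A check of the piece 0. -/
def m0_tauL_hi_0 :
    checkShift mbox0_tauL_hi_0 334 7 4 9 15 (mpiece0.env bandSmall.hi bandSmall.hi bandSmall.pole .tauL).e = true := by
  decide +kernel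

/-- A check of the piece 0. -/
def m0_tauL_hi_1 :
    checkShift mbox0_tauL_hi_1 334 7 4 9 15 (mpiece0.env bandSmall.hi bandSmall.hi bandSmall.pole .tauL).e = true := by
  decide +kernel

/-- Checks of the piece 0. -/
def m0_group17 :
    ([mpiece0.env bandSmall.lo bandSmall.hi bandSmall.pole .tauU] : List QEx).all (fun q => checkShift mbox0 305 5 4 9 15 q.e) = true := by
  decide +kernel

/-- Checks of the piece 0. -/
def m0_group18 :
    ([mpiece0.env bandSmall.hi bandSmall.hi bandSmall.pole .tauU] : List QEx).all (fun q => checkShift mbox0 316 7 4 9 15 q.e) = true := by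
  decide +kernel

/-- Checks of the piece 0. -/
def m0_group19 :
    ([xLLGM false bandSmall.lo bandSmall.pole] : List QEx).all (fun q => checkShift mbox0 277 3 4 11 18 q.e) = true := by
  decide +kernel

/-- Checks of the piece 0. -/
def m0_group20 :
    ([xLLGM false bandSmall.hi bandSmall.pole] : List QEx).all (fun q => checkShift mbox0 282 4 4 11 18 q.e) = true := by
  decide +kernel

/-- Checks of the piece 0. -/
def m0_group21 :
    ([mpiece0.wid - qD 1] : List QEx).all (fun q => checkShift mbox0 67 1 1 1 1 q.e) = true := by
  decide +kernel

/-- Checks of the piece 0. -/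
def m0_group22 :
    ([mpiece0.side .rA,
      mpiece0.side .rB] : List QEx).all (fun q => checkShift mbox0 40 1 1 0 0 q.e) = true := by
  decide +kernel

/-- Checks of the piece 0. -/
def m0_group23 :
    ([mpiece0.side .rF] : List QEx).all (fun q => checkShift mbox0 74 2 2 0 0 q.e) = true := by
  decide +kernel

/-- Checks of the piece 0. -/
def m0_group24 :
    ([mpiece0.side .q] : List QEx).all (fun q => checkShift mbox0 44 0 1 1 2 q.e) = true := by
  decide +kernel

/-- Checks of the piece 0. -/
def m0_group25 :
    ([mpiece0.side .om] : List QEx).all (fun q => checkShift mbox0 131 1 2 4 6 q.e) = true := by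
  decide +kernel

/-- The exit curve on the box of piece 0. -/
def mexit0_check :
    checkShift mexit0Box 80 2 0 1 1 (xExitM Band.midExitA 6 5).e = true := by
  decide +kernel

end Vale.Agent.P100.Calib.Closed.All.Low
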