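import Vale.Agent.P100.Calib.SlabMidSignsPieces

/-!
# Checks of the piece 1
-/

set_option linter.defProp false

namespace Vale.Agent.P100.Calib.Closed.All.Low

/-- Checks of the piece 1. -/
def m1_group0 :
    ([mpiece1.checkM false .g false .lo,
      mpiece1.checkM false .g false .hi,
      mpiece1.checkM false .g false .mid,
      mpiece1.checkM false .g true .lo,
      mpiece1.checkM false .g true .hi,
      mpiece1.checkM false .g true .mid] : List QEx).all (fun q => checkShift mbox1 462 2 7 14 26 q.e) = true := by
  decide +kernel

/-- Checks of the piece 1. -/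
def m1_group1 :
    ([mpiece1.checkM false .n false .lo,
      mpiece1.checkM false .n false .hi,
      mpiece1.checkM false .n false .mid,
      mpiece1.checkM false .n true .lo,
      mpiece1.checkM false .n true .hi,
      mpiece1.checkM false .n true .mid] : List QEx).all (fun q => checkShift mbox1 563 4 8 18 31 q.e) = true := by
  decide +kernel

/-- Checks of the piece 1. -/
def m1_group2 :
    ([mpiece1.checkM false .tlo false .lo,
      mpiece1.checkM false .tlo false .hi,
      mpiece1.checkM false .tlo false .mid,
      mpiece1.checkM false .tlo true .lo,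
      mpiece1.checkM false .tlo true .hi,
      mpiece1.checkM false .tlo true .mid,
      mpiece1.checkM false .thi false .lo,
      mpiece1.checkM false .thi false .hi,
      mpiece1.checkM false .thi false .mid,
      mpiece1.checkM false .thi true .lo,
      mpiece1.checkM false .thi true .hi,
      mpiece1.checkM false .thi true .mid] : List QEx).all (fun q => checkShift mbox1 543 3 9 16 29 q.e) = true := by
  decide +kernel

/-- Checks of the piece 1. -/
def m1_group3 :
    ([mpiece1.checkM false .mlo false .lo,
      mpiece1.checkM false .mlo false .hi,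
      mpiece1.checkM false .mlo false .mid,
      mpiece1.checkM false .mhi false .lo,
      mpiece1.checkM false .mhi false .hi,
      mpiece1.checkM false .mhi false .mid] : List QEx).all (fun q => checkShift mbox1 385 4 5 10 18 q.e) = true := by
  decide +kernel

/-- Checks of the piece 1. -/
def m1_group4 :
    ([mpiece1.checkM false .f false .lo] : List QEx).all (fun q => checkShift mbox1 625 5 11 18 33 q.e) = true := by
  decide +kernel

/-- Checks of the piece 1. -/
def m1_group5 :
    ([mpiece1.checkM false .f false .hi] : List QEx).all (fun q => checkShift mbox1 625 5 11 18 33 q.e) = true := by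
  decide +kernel

/-- Checks of the piece 1. -/
def m1_group6 :
    ([mpiece1.checkM false .f false .mid] : List QEx).all (fun q => checkShift mbox1 647 5 11 18 33 q.e) = true := by
  decide +kernel

/-- Checks of the piece 1. -/
def m1_group7 :
    ([mpiece1.checkM false .f true .lo] : List QEx).all (fun q => checkShift mbox1 625 5 11 18 33 q.e) = true := by
  decide +kernel

/-- Checks of the piece 1. -/
def m1_group8 :
    ([mpiece1.checkM false .f true .hi] : List QEx).all (fun q => checkShift mbox1 625 5 11 18 33 q.e) = true := by
  decide +kernel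

/-- Checks of the piece 1. -/
def m1_group9 :
    ([mpiece1.checkM false .f true .mid] : List QEx).all (fun q => checkShift mbox1 647 5 11 18 33 q.e) = true := by
  decide +kernel

/-- A check of the piece 1. -/
def m1_piL_lo_0 :
    checkShift mbox1_piL_lo_0 199 5 2 4 7 (mpiece1.env (bandMid Band.midLowA Band.midUpA).lo (bandMid Band.midLowA Band.midUpA).hi (bandMid Band.midLowA Band.midUpA).pole .piL).e = true := by
  decide +kernel

/-- A check of the piece 1. -/
def m1_piL_lo_1 :
    checkShift mbox1_piL_lo_1 199 5 2 4 7 (mpiece1.env (bandMid Band.midLowA Band.midUpA).lo (bandMid Band.midLowA Band.midUpA).hi (bandMid Band.midLowA Band.midUpA).pole .piL).e = true := by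
  decide +kernel

/-- A check of the piece 1. -/
def m1_piL_lo_2 :
    checkShift mbox1_piL_lo_2 199 5 2 4 7 (mpiece1.env (bandMid Band.midLowA Band.midUpA).lo (bandMid Band.midLowA Band.midUpA).hi (bandMid Band.midLowA Band.midUpA).pole .piL).e = true := by
  decide +kernel

/-- Checks of the piece 1. -/
def m1_group11 :
    ([mpiece1.env (bandMid Band.midLowA Band.midUpA).hi (bandMid Band.midLowA Band.midUpA).hi (bandMid Band.midLowA Band.midUpA).pole .piL,
      mpiece1.env (bandMid Band.midLowA Band.midUpA).lo (bandMid Band.midLowA Band.midUpA).hi (bandMid Band.midLowA Band.midUpA).pole .piU] : List QEx).all (fun q => checkShift mbox1 169 5 2 4 7 q.e) = true := by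
  decide +kernel

/-- A check of the piece 1. -/
def m1_piU_hi_0 :
    checkShift mbox1_piU_hi_0 187 5 2 4 7 (mpiece1.env (bandMid Band.midLowA Band.midUpA).hi (bandMid Band.midLowA Band.midUpA).hi (bandMid Band.midLowA Band.midUpA).pole .piU).e = true := by
  decide +kernel

/-- A check of the piece 1. -/
def m1_piU_hi_1 :
    checkShift mbox1_piU_hi_1 187 5 2 4 7 (mpiece1.env (bandMid Band.midLowA Band.midUpA).hi (bandMid Band.midLowA Band.midUpA).hi (bandMid Band.midLowA Band.midUpA).pole .piU).e = true := by
  decide +kernel

/-- Checks of the piece 1. -/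
def m1_group13 :
    ([mpiece1.env (bandMid Band.midLowA Band.midUpA).lo (bandMid Band.midLowA Band.midUpA).hi (bandMid Band.midLowA Band.midUpA).pole .omL,
      mpiece1.env (bandMid Band.midLowA Band.midUpA).hi (bandMid Band.midLowA Band.midUpA).hi (bandMid Band.midLowA Band.midUpA).pole .omL] : List QEx).all (fun q => checkShift mbox1 281 7 4 7 11 q.e) = true := by
  decide +kernel

/-- A check of the piece 1. -/
def m1_omU_lo_0 :
    checkShift mbox1_omU_lo_0 299 7 4 7 11 (mpiece1.env (bandMid Band.midLowA Band.midUpA).lo (bandMid Band.midLowA Band.midUpA).hi (bandMid Band.midLowA Band.midUpA).pole .omU).e = true := by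
  decide +kernel

/-- A check of the piece 1. -/
def m1_omU_lo_1 :
    checkShift mbox1_omU_lo_1 299 7 4 7 11 (mpiece1.env (bandMid Band.midLowA Band.midUpA).lo (bandMid Band.midLowA Band.midUpA).hi (bandMid Band.midLowA Band.midUpA).pole .omU).e = true := by
  decide +kernel

/-- A check of the piece 1. -/
def m1_omU_hi_0 :
    checkShift mbox1_omU_hi_0 311 7 4 7 11 (mpiece1.env (bandMid Band.midLowA Band.midUpA).hi (bandMid Band.midLowA Band.midUpA).hi (bandMid Band.midLowA Band.midUpA).pole .omU).e = true := by
  decide +kernel

/-- A check of the piece 1. -/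
def m1_omU_hi_1 :
    checkShift mbox1_omU_hi_1 311 7 4 7 11 (mpiece1.env (bandMid Band.midLowA Band.midUpA).hi (bandMid Band.midLowA Band.midUpA).hi (bandMid Band.midLowA Band.midUpA).pole .omU).e = true := by
  decide +kernel

/-- A check of the piece 1. -/
def m1_omU_hi_2 :
    checkShift mbox1_omU_hi_2 311 7 4 7 11 (mpiece1.env (bandMid Band.midLowA Band.midUpA).hi (bandMid Band.midLowA Band.midUpA).hi (bandMid Band.midLowA Band.midUpA).pole .omU).e = true := by
  decide +kernel

/-- A check of the piece 1. -/
def m1_tauL_lo_0 :
    checkShift mbox1_tauL_lo_0 331 9 4 8 12 (mpiece1.env (bandMid Band.midLowA Band.midUpA).lo (bandMid Band.midLowA Band.midUpA).hi (bandMid Band.midLowA Band.midUpA).pole .tauL).e = true := by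
  decide +kernel

/-- A check of the piece 1. -/
def m1_tauL_lo_1 :
    checkShift mbox1_tauL_lo_1 331 9 4 8 12 (mpiece1.env (bandMid Band.midLowA Band.midUpA).lo (bandMid Band.midLowA Band.midUpA).hi (bandMid Band.midLowA Band.midUpA).pole .tauL).e = true := by
  decide +kernel

/-- A check of the piece 1. -/
def m1_tauL_hi_0 :
    checkShift mbox1_tauL_hi_0 331 9 4 8 12 (mpiece1.env (bandMid Band.midLowA Band.midUpA).hi (bandMid Band.midLowA Band.midUpA).hi (bandMid Band.midLowA Band.midUpA).pole .tauL).e = true := by
  decide +kernel

/-- A check of the piece 1. -/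
def m1_tauL_hi_1 :
    checkShift mbox1_tauL_hi_1 331 9 4 8 12 (mpiece1.env (bandMid Band.midLowA Band.midUpA).hi (bandMid Band.midLowA Band.midUpA).hi (bandMid Band.midLowA Band.midUpA).pole .tauL).e = true := by
  decide +kernel

/-- Checks of the piece 1. -/
def m1_group18 :
    ([mpiece1.env (bandMid Band.midLowA Band.midUpA).lo (bandMid Band.midLowA Band.midUpA).hi (bandMid Band.midLowA Band.midUpA).pole .tauU,
      mpiece1.env (bandMid Band.midLowA Band.midUpA).hi (bandMid Band.midLowA Band.midUpA).hi (bandMid Band.midLowA Band.midUpA).pole .tauU] : List QEx).all (fun q => checkShift mbox1 313 9 4 8 12 q.e) = true := by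
  decide +kernel

/-- Checks of the piece 1. -/
def m1_group19 :
    ([xLLGM false (bandMid Band.midLowA Band.midUpA).lo (bandMid Band.midLowA Band.midUpA).pole,
      xLLGM false (bandMid Band.midLowA Band.midUpA).hi (bandMid Band.midLowA Band.midUpA).pole] : List QEx).all (fun q => checkShift mbox1 288 5 4 11 17 q.e) = true := by
  decide +kernel

/-- Checks of the piece 1. -/
def m1_group20 :
    ([mpiece1.wid - qD 1] : List QEx).all (fun q => checkShift mbox1 67 1 1 1 1 q.e) = true := by
  decide +kernel

/-- Checks of the piece 1. -/
def m1_group21 :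
    ([mpiece1.side .rA,
      mpiece1.side .rB] : List QEx).all (fun q => checkShift mbox1 40 1 1 0 0 q.e) = true := by
  decide +kernel

/-- A check of the piece 1. -/
def m1_side_rF_0 :
    checkShift mbox1_side_rF_0 105 2 2 0 0 (mpiece1.side .rF).e = true := by
  decide +kernel

/-- A check of the piece 1. -/
def m1_side_rF_1 :
    checkShift mbox1_side_rF_1 105 2 2 0 0 (mpiece1.side .rF).e = true := by
  decide +kernel

/-- A check of the piece 1. -/
def m1_side_rF_2 :
    checkShift mbox1_side_rF_2 105 2 2 0 0 (mpiece1.side .rF).e = true := by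
  decide +kernel

/-- Checks of the piece 1. -/
def m1_group23 :
    ([mpiece1.side .q] : List QEx).all (fun q => checkShift mbox1 44 0 1 1 2 q.e) = true := by
  decide +kernel

/-- Checks of the piece 1. -/
def m1_group24 :
    ([mpiece1.side .om] : List QEx).all (fun q => checkShift mbox1 131 1 2 4 6 q.e) = true := by
  decide +kernel

/-- The exit curve on the box of piece 1. -/
def mexit1_check :
    checkShift mexit1Box 80 2 0 1 1 (xExitM Band.midExitA 77 50).e = true := by
  decide +kernel

end Vale.Agent.P100.Calib.Closed.All.Low
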