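import Vale.Agent.P100.Calib.SlabMidSignsPieces

/-!
# Checks of the piece 10
-/

set_option linter.defProp false

namespace Vale.Agent.P100.Calib.Closed.All.Low

/-- Checks of the piece 10. -/
def m10_group0 :
    ([mpiece10.checkM false .g false .lo,
      mpiece10.checkM false .g false .hi,
      mpiece10.checkM false .g false .mid,
      mpiece10.checkM false .g true .lo,
      mpiece10.checkM false .g true .hi,
      mpiece10.checkM false .g true .mid] : List QEx).all (fun q => checkShift mbox10 579 2 7 14 26 q.e) = true := by
  decide +kernel

/-- Checks of the piece 10. -/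
def m10_group1 :
    ([mpiece10.checkM false .n false .lo,
      mpiece10.checkM false .n false .hi,
      mpiece10.checkM false .n false .mid,
      mpiece10.checkM false .n true .lo,
      mpiece10.checkM false .n true .hi,
      mpiece10.checkM false .n true .mid] : List QEx).all (fun q => checkShift mbox10 708 4 8 18 31 q.e) = true := by
  decide +kernel

/-- Checks of the piece 10. -/
def m10_group2 :
    ([mpiece10.checkM false .tlo false .lo,
      mpiece10.checkM false .tlo false .hi,
      mpiece10.checkM false .tlo false .mid,
      mpiece10.checkM false .tlo true .lo,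
      mpiece10.checkM false .tlo true .hi,
      mpiece10.checkM false .tlo true .mid,
      mpiece10.checkM false .thi false .lo,
      mpiece10.checkM false .thi false .hi,
      mpiece10.checkM false .thi false .mid,
      mpiece10.checkM false .thi true .lo,
      mpiece10.checkM false .thi true .hi,
      mpiece10.checkM false .thi true .mid] : List QEx).all (fun q => checkShift mbox10 673 3 9 16 29 q.e) = true := by
  decide +kernel

/-- Checks of the piece 10. -/
def m10_group3 :
    ([mpiece10.checkM false .mlo false .lo,
      mpiece10.checkM false .mlo false .hi,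
      mpiece10.checkM false .mlo false .mid,
      mpiece10.checkM false .mhi false .lo,
      mpiece10.checkM false .mhi false .hi,
      mpiece10.checkM false .mhi false .mid] : List QEx).all (fun q => checkShift mbox10 467 4 5 10 18 q.e) = true := by
  decide +kernel

/-- Checks of the piece 10. -/
def m10_group4 :
    ([mpiece10.checkM false .f false .lo] : List QEx).all (fun q => checkShift mbox10 772 5 11 18 33 q.e) = true := by
  decide +kernel

/-- Checks of the piece 10. -/
def m10_group5 :
    ([mpiece10.checkM false .f false .hi] : List QEx).all (fun q => checkShift mbox10 772 5 11 18 33 q.e) = true := by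
  decide +kernel

/-- Checks of the piece 10. -/
def m10_group6 :
    ([mpiece10.checkM false .f false .mid] : List QEx).all (fun q => checkShift mbox10 794 5 11 18 33 q.e) = true := by
  decide +kernel

/-- Checks of the piece 10. -/
def m10_group7 :
    ([mpiece10.checkM false .f true .lo] : List QEx).all (fun q => checkShift mbox10 772 5 11 18 33 q.e) = true := by
  decide +kernel

/-- Checks of the piece 10. -/
def m10_group8 :
    ([mpiece10.checkM false .f true .hi] : List QEx).all (fun q => checkShift mbox10 772 5 11 18 33 q.e) = true := by
  decide +kernel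

/-- Checks of the piece 10. -/
def m10_group9 :
    ([mpiece10.checkM false .f true .mid] : List QEx).all (fun q => checkShift mbox10 794 5 11 18 33 q.e) = true := by
  decide +kernel

/-- A check of the piece 10. -/
def m10_piL_lo_0 :
    checkShift mbox10_piL_lo_0 220 5 2 4 7 (mpiece10.env (bandMid Band.midLowC Band.midUpC).lo (bandMid Band.midLowC Band.midUpC).hi (bandMid Band.midLowC Band.midUpC).pole .piL).e = true := by
  decide +kernel

/-- A check of the piece 10. -/
def m10_piL_lo_1 :
    checkShift mbox10_piL_lo_1 220 5 2 4 7 (mpiece10.env (bandMid Band.midLowC Band.midUpC).lo (bandMid Band.midLowC Band.midUpC).hi (bandMid Band.midLowC Band.midUpC).pole .piL).e = true := by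
  decide +kernel

/-- Checks of the piece 10. -/
def m10_group11 :
    ([mpiece10.env (bandMid Band.midLowC Band.midUpC).hi (bandMid Band.midLowC Band.midUpC).hi (bandMid Band.midLowC Band.midUpC).pole .piL,
      mpiece10.env (bandMid Band.midLowC Band.midUpC).lo (bandMid Band.midLowC Band.midUpC).hi (bandMid Band.midLowC Band.midUpC).pole .piU] : List QEx).all (fun q => checkShift mbox10 202 5 2 4 7 q.e) = true := by
  decide +kernel

/-- A check of the piece 10. -/
def m10_piU_hi_0 :
    checkShift mbox10_piU_hi_0 220 5 2 4 7 (mpiece10.env (bandMid Band.midLowC Band.midUpC).hi (bandMid Band.midLowC Band.midUpC).hi (bandMid Band.midLowC Band.midUpC).pole .piU).e = true := by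
  decide +kernel

/-- A check of the piece 10. -/
def m10_piU_hi_1 :
    checkShift mbox10_piU_hi_1 220 5 2 4 7 (mpiece10.env (bandMid Band.midLowC Band.midUpC).hi (bandMid Band.midLowC Band.midUpC).hi (bandMid Band.midLowC Band.midUpC).pole .piU).e = true := by
  decide +kernel

/-- Checks of the piece 10. -/
def m10_group13 :
    ([mpiece10.env (bandMid Band.midLowC Band.midUpC).lo (bandMid Band.midLowC Band.midUpC).hi (bandMid Band.midLowC Band.midUpC).pole .omL,
      mpiece10.env (bandMid Band.midLowC Band.midUpC).hi (bandMid Band.midLowC Band.midUpC).hi (bandMid Band.midLowC Band.midUpC).pole .omL] : List QEx).all (fun q => checkShift mbox10 337 7 4 7 11 q.e) = true := by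
  decide +kernel

/-- A check of the piece 10. -/
def m10_omU_lo_0 :
    checkShift mbox10_omU_lo_0 355 7 4 7 11 (mpiece10.env (bandMid Band.midLowC Band.midUpC).lo (bandMid Band.midLowC Band.midUpC).hi (bandMid Band.midLowC Band.midUpC).pole .omU).e = true := by
  decide +kernel

/-- A check of the piece 10. -/
def m10_omU_lo_1 :
    checkShift mbox10_omU_lo_1 355 7 4 7 11 (mpiece10.env (bandMid Band.midLowC Band.midUpC).lo (bandMid Band.midLowC Band.midUpC).hi (bandMid Band.midLowC Band.midUpC).pole .omU).e = true := by
  decide +kernel

/-- A check of the piece 10. -/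
def m10_omU_hi_0 :
    checkShift mbox10_omU_hi_0 367 7 4 7 11 (mpiece10.env (bandMid Band.midLowC Band.midUpC).hi (bandMid Band.midLowC Band.midUpC).hi (bandMid Band.midLowC Band.midUpC).pole .omU).e = true := by
  decide +kernel

/-- A check of the piece 10. -/
def m10_omU_hi_1 :
    checkShift mbox10_omU_hi_1 367 7 4 7 11 (mpiece10.env (bandMid Band.midLowC Band.midUpC).hi (bandMid Band.midLowC Band.midUpC).hi (bandMid Band.midLowC Band.midUpC).pole .omU).e = true := by
  decide +kernel

/-- A check of the piece 10. -/
def m10_omU_hi_2 :
    checkShift mbox10_omU_hi_2 367 7 4 7 11 (mpiece10.env (bandMid Band.midLowC Band.midUpC).hi (bandMid Band.midLowC Band.midUpC).hi (bandMid Band.midLowC Band.midUpC).pole .omU).e = true := by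
  decide +kernel

/-- A check of the piece 10. -/
def m10_omU_hi_3 :
    checkShift mbox10_omU_hi_3 367 7 4 7 11 (mpiece10.env (bandMid Band.midLowC Band.midUpC).hi (bandMid Band.midLowC Band.midUpC).hi (bandMid Band.midLowC Band.midUpC).pole .omU).e = true := by
  decide +kernel

/-- A check of the piece 10. -/
def m10_tauL_lo_0 :
    checkShift mbox10_tauL_lo_0 405 9 4 8 12 (mpiece10.env (bandMid Band.midLowC Band.midUpC).lo (bandMid Band.midLowC Band.midUpC).hi (bandMid Band.midLowC Band.midUpC).pole .tauL).e = true := by
  decide +kernel

/-- A check of the piece 10. -/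
def m10_tauL_lo_1 :
    checkShift mbox10_tauL_lo_1 405 9 4 8 12 (mpiece10.env (bandMid Band.midLowC Band.midUpC).lo (bandMid Band.midLowC Band.midUpC).hi (bandMid Band.midLowC Band.midUpC).pole .tauL).e = true := by
  decide +kernel

/-- A check of the piece 10. -/
def m10_tauL_lo_2 :
    checkShift mbox10_tauL_lo_2 405 9 4 8 12 (mpiece10.env (bandMid Band.midLowC Band.midUpC).lo (bandMid Band.midLowC Band.midUpC).hi (bandMid Band.midLowC Band.midUpC).pole .tauL).e = true := by
  decide +kernel

/-- A check of the piece 10. -/
def m10_tauL_hi_0 :
    checkShift mbox10_tauL_hi_0 405 9 4 8 12 (mpiece10.env (bandMid Band.midLowC Band.midUpC).hi (bandMid Band.midLowC Band.midUpC).hi (bandMid Band.midLowC Band.midUpC).pole .tauL).e = true := by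
  decide +kernel

/-- A check of the piece 10. -/
def m10_tauL_hi_1 :
    checkShift mbox10_tauL_hi_1 405 9 4 8 12 (mpiece10.env (bandMid Band.midLowC Band.midUpC).hi (bandMid Band.midLowC Band.midUpC).hi (bandMid Band.midLowC Band.midUpC).pole .tauL).e = true := by
  decide +kernel

/-- A check of the piece 10. -/
def m10_tauL_hi_2 :
    checkShift mbox10_tauL_hi_2 405 9 4 8 12 (mpiece10.env (bandMid Band.midLowC Band.midUpC).hi (bandMid Band.midLowC Band.midUpC).hi (bandMid Band.midLowC Band.midUpC).pole .tauL).e = true := by
  decide +kernel

/-- Checks of the piece 10. -/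
def m10_group18 :
    ([mpiece10.env (bandMid Band.midLowC Band.midUpC).lo (bandMid Band.midLowC Band.midUpC).hi (bandMid Band.midLowC Band.midUpC).pole .tauU,
      mpiece10.env (bandMid Band.midLowC Band.midUpC).hi (bandMid Band.midLowC Band.midUpC).hi (bandMid Band.midLowC Band.midUpC).pole .tauU] : List QEx).all (fun q => checkShift mbox10 375 9 4 8 12 q.e) = true := by
  decide +kernel

/-- Checks of the piece 10. -/
def m10_group19 :
    ([xLLGM false (bandMid Band.midLowC Band.midUpC).lo (bandMid Band.midLowC Band.midUpC).pole,
      xLLGM false (bandMid Band.midLowC Band.midUpC).hi (bandMid Band.midLowC Band.midUpC).pole] : List QEx).all (fun q => checkShift mbox10 371 5 4 11 17 q.e) = true := by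
  decide +kernel

/-- Checks of the piece 10. -/
def m10_group20 :
    ([mpiece10.wid - qD 1] : List QEx).all (fun q => checkShift mbox10 73 1 1 1 1 q.e) = true := by
  decide +kernel

/-- Checks of the piece 10. -/
def m10_group21 :
    ([mpiece10.side .rA,
      mpiece10.side .rB] : List QEx).all (fun q => checkShift mbox10 39 1 1 0 0 q.e) = true := by
  decide +kernel

/-- Checks of the piece 10. -/
def m10_group22 :
    ([mpiece10.side .rF] : List QEx).all (fun q => checkShift mbox10 73 2 2 0 0 q.e) = true := by
  decide +kernel

/-- Checks of the piece 10. -/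
def m10_group23 :
    ([mpiece10.side .q] : List QEx).all (fun q => checkShift mbox10 52 0 1 1 2 q.e) = true := by
  decide +kernel

/-- Checks of the piece 10. -/
def m10_group24 :
    ([mpiece10.side .om] : List QEx).all (fun q => checkShift mbox10 160 1 2 4 6 q.e) = true := by
  decide +kernel

/-- The exit curve on the box of piece 10. -/
def mexit10_check :
    checkShift mexit10Box 80 2 0 1 1 (xExitM Band.midExitC 42 25).e = true := by
  decide +kernel

end Vale.Agent.P100.Calib.Closed.All.Low
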