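import Vale.Agent.P100.Calib.SlabMidSignsPieces

/-!
# Checks of the piece 11
-/

set_option linter.defProp false

namespace Vale.Agent.P100.Calib.Closed.All.Low

/-- Checks of the piece 11. -/
def m11_group0 :
    ([mpiece11.checkM false .g false .lo,
      mpiece11.checkM false .g false .hi,
      mpiece11.checkM false .g false .mid,
      mpiece11.checkM false .g true .lo,
      mpiece11.checkM false .g true .hi,
      mpiece11.checkM false .g true .mid] : List QEx).all (fun q => checkShift mbox11 575 2 7 14 26 q.e) = true := by
  decide +kernel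

/-- Checks of the piece 11. -/
def m11_group1 :
    ([mpiece11.checkM false .n false .lo,
      mpiece11.checkM false .n false .hi,
      mpiece11.checkM false .n false .mid,
      mpiece11.checkM false .n true .lo,
      mpiece11.checkM false .n true .hi,
      mpiece11.checkM false .n true .mid] : List QEx).all (fun q => checkShift mbox11 699 4 8 18 31 q.e) = true := by
  decide +kernel

/-- Checks of the piece 11. -/
def m11_group2 :
    ([mpiece11.checkM false .tlo false .lo,
      mpiece11.checkM false .tlo false .hi,
      mpiece11.checkM false .tlo false .mid,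
      mpiece11.checkM false .tlo true .lo,
      mpiece11.checkM false .tlo true .hi,
      mpiece11.checkM false .tlo true .mid,
      mpiece11.checkM false .thi false .lo,
      mpiece11.checkM false .thi false .hi,
      mpiece11.checkM false .thi false .mid,
      mpiece11.checkM false .thi true .lo,
      mpiece11.checkM false .thi true .hi,
      mpiece11.checkM false .thi true .mid] : List QEx).all (fun q => checkShift mbox11 667 3 9 16 29 q.e) = true := by
  decide +kernel

/-- Checks of the piece 11. -/
def m11_group3 :
    ([mpiece11.checkM false .mlo false .lo,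
      mpiece11.checkM false .mlo false .hi,
      mpiece11.checkM false .mlo false .mid,
      mpiece11.checkM false .mhi false .lo,
      mpiece11.checkM false .mhi false .hi,
      mpiece11.checkM false .mhi false .mid] : List QEx).all (fun q => checkShift mbox11 458 4 5 10 18 q.e) = true := by
  decide +kernel

/-- Checks of the piece 11. -/
def m11_group4 :
    ([mpiece11.checkM false .f false .lo] : List QEx).all (fun q => checkShift mbox11 762 5 11 18 33 q.e) = true := by
  decide +kernel

/-- Checks of the piece 11. -/
def m11_group5 :
    ([mpiece11.checkM false .f false .hi] : List QEx).all (fun q => checkShift mbox11 762 5 11 18 33 q.e) = true := by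
  decide +kernel

/-- Checks of the piece 11. -/
def m11_group6 :
    ([mpiece11.checkM false .f false .mid] : List QEx).all (fun q => checkShift mbox11 783 5 11 18 33 q.e) = true := by
  decide +kernel

/-- Checks of the piece 11. -/
def m11_group7 :
    ([mpiece11.checkM false .f true .lo] : List QEx).all (fun q => checkShift mbox11 762 5 11 18 33 q.e) = true := by
  decide +kernel

/-- Checks of the piece 11. -/
def m11_group8 :
    ([mpiece11.checkM false .f true .hi] : List QEx).all (fun q => checkShift mbox11 762 5 11 18 33 q.e) = true := by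
  decide +kernel

/-- Checks of the piece 11. -/
def m11_group9 :
    ([mpiece11.checkM false .f true .mid] : List QEx).all (fun q => checkShift mbox11 783 5 11 18 33 q.e) = true := by
  decide +kernel

/-- A check of the piece 11. -/
def m11_piL_lo_0 :
    checkShift mbox11_piL_lo_0 269 5 2 4 7 (mpiece11.env (bandMid Band.midLowC Band.midUpC).lo (bandMid Band.midLowC Band.midUpC).hi (bandMid Band.midLowC Band.midUpC).pole .piL).e = true := by
  decide +kernel

/-- A check of the piece 11. -/
def m11_piL_lo_1 :
    checkShift mbox11_piL_lo_1 269 5 2 4 7 (mpiece11.env (bandMid Band.midLowC Band.midUpC).lo (bandMid Band.midLowC Band.midUpC).hi (bandMid Band.midLowC Band.midUpC).pole .piL).e = true := by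
  decide +kernel

/-- A check of the piece 11. -/
def m11_piL_lo_2 :
    checkShift mbox11_piL_lo_2 269 5 2 4 7 (mpiece11.env (bandMid Band.midLowC Band.midUpC).lo (bandMid Band.midLowC Band.midUpC).hi (bandMid Band.midLowC Band.midUpC).pole .piL).e = true := by
  decide +kernel

/-- A check of the piece 11. -/
def m11_piL_lo_3 :
    checkShift mbox11_piL_lo_3 269 5 2 4 7 (mpiece11.env (bandMid Band.midLowC Band.midUpC).lo (bandMid Band.midLowC Band.midUpC).hi (bandMid Band.midLowC Band.midUpC).pole .piL).e = true := by
  decide +kernel

/-- A check of the piece 11. -/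
def m11_piL_lo_4 :
    checkShift mbox11_piL_lo_4 269 5 2 4 7 (mpiece11.env (bandMid Band.midLowC Band.midUpC).lo (bandMid Band.midLowC Band.midUpC).hi (bandMid Band.midLowC Band.midUpC).pole .piL).e = true := by
  decide +kernel

/-- A check of the piece 11. -/
def m11_piL_lo_5 :
    checkShift mbox11_piL_lo_5 269 5 2 4 7 (mpiece11.env (bandMid Band.midLowC Band.midUpC).lo (bandMid Band.midLowC Band.midUpC).hi (bandMid Band.midLowC Band.midUpC).pole .piL).e = true := by
  decide +kernel

/-- A check of the piece 11. -/
def m11_piL_lo_6 :
    checkShift mbox11_piL_lo_6 269 5 2 4 7 (mpiece11.env (bandMid Band.midLowC Band.midUpC).lo (bandMid Band.midLowC Band.midUpC).hi (bandMid Band.midLowC Band.midUpC).pole .piL).e = true := by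
  decide +kernel

/-- Checks of the piece 11. -/
def m11_group11 :
    ([mpiece11.env (bandMid Band.midLowC Band.midUpC).hi (bandMid Band.midLowC Band.midUpC).hi (bandMid Band.midLowC Band.midUpC).pole .piL,
      mpiece11.env (bandMid Band.midLowC Band.midUpC).lo (bandMid Band.midLowC Band.midUpC).hi (bandMid Band.midLowC Band.midUpC).pole .piU] : List QEx).all (fun q => checkShift mbox11 191 5 2 4 7 q.e) = true := by
  decide +kernel

/-- A check of the piece 11. -/
def m11_piU_hi_0 :
    checkShift mbox11_piU_hi_0 245 5 2 4 7 (mpiece11.env (bandMid Band.midLowC Band.midUpC).hi (bandMid Band.midLowC Band.midUpC).hi (bandMid Band.midLowC Band.midUpC).pole .piU).e = true := by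
  decide +kernel

/-- A check of the piece 11. -/
def m11_piU_hi_1 :
    checkShift mbox11_piU_hi_1 245 5 2 4 7 (mpiece11.env (bandMid Band.midLowC Band.midUpC).hi (bandMid Band.midLowC Band.midUpC).hi (bandMid Band.midLowC Band.midUpC).pole .piU).e = true := by
  decide +kernel

/-- A check of the piece 11. -/
def m11_piU_hi_2 :
    checkShift mbox11_piU_hi_2 245 5 2 4 7 (mpiece11.env (bandMid Band.midLowC Band.midUpC).hi (bandMid Band.midLowC Band.midUpC).hi (bandMid Band.midLowC Band.midUpC).pole .piU).e = true := by
  decide +kernel

/-- A check of the piece 11. -/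
def m11_piU_hi_3 :
    checkShift mbox11_piU_hi_3 245 5 2 4 7 (mpiece11.env (bandMid Band.midLowC Band.midUpC).hi (bandMid Band.midLowC Band.midUpC).hi (bandMid Band.midLowC Band.midUpC).pole .piU).e = true := by
  decide +kernel

/-- A check of the piece 11. -/
def m11_piU_hi_4 :
    checkShift mbox11_piU_hi_4 245 5 2 4 7 (mpiece11.env (bandMid Band.midLowC Band.midUpC).hi (bandMid Band.midLowC Band.midUpC).hi (bandMid Band.midLowC Band.midUpC).pole .piU).e = true := by
  decide +kernel

/-- A check of the piece 11. -/
def m11_piU_hi_5 :
    checkShift mbox11_piU_hi_5 245 5 2 4 7 (mpiece11.env (bandMid Band.midLowC Band.midUpC).hi (bandMid Band.midLowC Band.midUpC).hi (bandMid Band.midLowC Band.midUpC).pole .piU).e = true := by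
  decide +kernel

/-- Checks of the piece 11. -/
def m11_group13 :
    ([mpiece11.env (bandMid Band.midLowC Band.midUpC).lo (bandMid Band.midLowC Band.midUpC).hi (bandMid Band.midLowC Band.midUpC).pole .omL,
      mpiece11.env (bandMid Band.midLowC Band.midUpC).hi (bandMid Band.midLowC Band.midUpC).hi (bandMid Band.midLowC Band.midUpC).pole .omL] : List QEx).all (fun q => checkShift mbox11 321 7 4 7 11 q.e) = true := by
  decide +kernel

/-- A check of the piece 11. -/
def m11_omU_lo_0 :
    checkShift mbox11_omU_lo_0 351 7 4 7 11 (mpiece11.env (bandMid Band.midLowC Band.midUpC).lo (bandMid Band.midLowC Band.midUpC).hi (bandMid Band.midLowC Band.midUpC).pole .omU).e = true := by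
  decide +kernel

/-- A check of the piece 11. -/
def m11_omU_lo_1 :
    checkShift mbox11_omU_lo_1 351 7 4 7 11 (mpiece11.env (bandMid Band.midLowC Band.midUpC).lo (bandMid Band.midLowC Band.midUpC).hi (bandMid Band.midLowC Band.midUpC).pole .omU).e = true := by
  decide +kernel

/-- A check of the piece 11. -/
def m11_omU_lo_2 :
    checkShift mbox11_omU_lo_2 351 7 4 7 11 (mpiece11.env (bandMid Band.midLowC Band.midUpC).lo (bandMid Band.midLowC Band.midUpC).hi (bandMid Band.midLowC Band.midUpC).pole .omU).e = true := by
  decide +kernel

/-- A check of the piece 11. -/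
def m11_omU_lo_3 :
    checkShift mbox11_omU_lo_3 351 7 4 7 11 (mpiece11.env (bandMid Band.midLowC Band.midUpC).lo (bandMid Band.midLowC Band.midUpC).hi (bandMid Band.midLowC Band.midUpC).pole .omU).e = true := by
  decide +kernel

/-- A check of the piece 11. -/
def m11_omU_hi_0 :
    checkShift mbox11_omU_hi_0 387 7 4 7 11 (mpiece11.env (bandMid Band.midLowC Band.midUpC).hi (bandMid Band.midLowC Band.midUpC).hi (bandMid Band.midLowC Band.midUpC).pole .omU).e = true := by
  decide +kernel

/-- A check of the piece 11. -/
def m11_omU_hi_1 :
    checkShift mbox11_omU_hi_1 387 7 4 7 11 (mpiece11.env (bandMid Band.midLowC Band.midUpC).hi (bandMid Band.midLowC Band.midUpC).hi (bandMid Band.midLowC Band.midUpC).pole .omU).e = true := by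
  decide +kernel

/-- A check of the piece 11. -/
def m11_omU_hi_2 :
    checkShift mbox11_omU_hi_2 387 7 4 7 11 (mpiece11.env (bandMid Band.midLowC Band.midUpC).hi (bandMid Band.midLowC Band.midUpC).hi (bandMid Band.midLowC Band.midUpC).pole .omU).e = true := by
  decide +kernel

/-- A check of the piece 11. -/
def m11_omU_hi_3 :
    checkShift mbox11_omU_hi_3 387 7 4 7 11 (mpiece11.env (bandMid Band.midLowC Band.midUpC).hi (bandMid Band.midLowC Band.midUpC).hi (bandMid Band.midLowC Band.midUpC).pole .omU).e = true := by
  decide +kernel

/-- A check of the piece 11. -/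
def m11_omU_hi_4 :
    checkShift mbox11_omU_hi_4 387 7 4 7 11 (mpiece11.env (bandMid Band.midLowC Band.midUpC).hi (bandMid Band.midLowC Band.midUpC).hi (bandMid Band.midLowC Band.midUpC).pole .omU).e = true := by
  decide +kernel

/-- A check of the piece 11. -/
def m11_omU_hi_5 :
    checkShift mbox11_omU_hi_5 387 7 4 7 11 (mpiece11.env (bandMid Band.midLowC Band.midUpC).hi (bandMid Band.midLowC Band.midUpC).hi (bandMid Band.midLowC Band.midUpC).pole .omU).e = true := by
  decide +kernel

/-- A check of the piece 11. -/
def m11_omU_hi_6 :
    checkShift mbox11_omU_hi_6 387 7 4 7 11 (mpiece11.env (bandMid Band.midLowC Band.midUpC).hi (bandMid Band.midLowC Band.midUpC).hi (bandMid Band.midLowC Band.midUpC).pole .omU).e = true := by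
  decide +kernel

/-- A check of the piece 11. -/
def m11_omU_hi_7 :
    checkShift mbox11_omU_hi_7 387 7 4 7 11 (mpiece11.env (bandMid Band.midLowC Band.midUpC).hi (bandMid Band.midLowC Band.midUpC).hi (bandMid Band.midLowC Band.midUpC).pole .omU).e = true := by
  decide +kernel

/-- A check of the piece 11. -/
def m11_omU_hi_8 :
    checkShift mbox11_omU_hi_8 387 7 4 7 11 (mpiece11.env (bandMid Band.midLowC Band.midUpC).hi (bandMid Band.midLowC Band.midUpC).hi (bandMid Band.midLowC Band.midUpC).pole .omU).e = true := by
  decide +kernel

/-- A check of the piece 11. -/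
def m11_tauL_lo_0 :
    checkShift mbox11_tauL_lo_0 397 9 4 8 12 (mpiece11.env (bandMid Band.midLowC Band.midUpC).lo (bandMid Band.midLowC Band.midUpC).hi (bandMid Band.midLowC Band.midUpC).pole .tauL).e = true := by
  decide +kernel

/-- A check of the piece 11. -/
def m11_tauL_lo_1 :
    checkShift mbox11_tauL_lo_1 397 9 4 8 12 (mpiece11.env (bandMid Band.midLowC Band.midUpC).lo (bandMid Band.midLowC Band.midUpC).hi (bandMid Band.midLowC Band.midUpC).pole .tauL).e = true := by
  decide +kernel

/-- A check of the piece 11. -/
def m11_tauL_lo_2 :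
    checkShift mbox11_tauL_lo_2 397 9 4 8 12 (mpiece11.env (bandMid Band.midLowC Band.midUpC).lo (bandMid Band.midLowC Band.midUpC).hi (bandMid Band.midLowC Band.midUpC).pole .tauL).e = true := by
  decide +kernel

/-- A check of the piece 11. -/
def m11_tauL_lo_3 :
    checkShift mbox11_tauL_lo_3 397 9 4 8 12 (mpiece11.env (bandMid Band.midLowC Band.midUpC).lo (bandMid Band.midLowC Band.midUpC).hi (bandMid Band.midLowC Band.midUpC).pole .tauL).e = true := by
  decide +kernel

/-- A check of the piece 11. -/
def m11_tauL_hi_0 :
    checkShift mbox11_tauL_hi_0 397 9 4 8 12 (mpiece11.env (bandMid Band.midLowC Band.midUpC).hi (bandMid Band.midLowC Band.midUpC).hi (bandMid Band.midLowC Band.midUpC).pole .tauL).e = true := by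
  decide +kernel

/-- A check of the piece 11. -/
def m11_tauL_hi_1 :
    checkShift mbox11_tauL_hi_1 397 9 4 8 12 (mpiece11.env (bandMid Band.midLowC Band.midUpC).hi (bandMid Band.midLowC Band.midUpC).hi (bandMid Band.midLowC Band.midUpC).pole .tauL).e = true := by
  decide +kernel

/-- A check of the piece 11. -/
def m11_tauL_hi_2 :
    checkShift mbox11_tauL_hi_2 397 9 4 8 12 (mpiece11.env (bandMid Band.midLowC Band.midUpC).hi (bandMid Band.midLowC Band.midUpC).hi (bandMid Band.midLowC Band.midUpC).pole .tauL).e = true := by
  decide +kernel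

/-- A check of the piece 11. -/
def m11_tauL_hi_3 :
    checkShift mbox11_tauL_hi_3 397 9 4 8 12 (mpiece11.env (bandMid Band.midLowC Band.midUpC).hi (bandMid Band.midLowC Band.midUpC).hi (bandMid Band.midLowC Band.midUpC).pole .tauL).e = true := by
  decide +kernel

/-- Checks of the piece 11. -/
def m11_group18 :
    ([mpiece11.env (bandMid Band.midLowC Band.midUpC).lo (bandMid Band.midLowC Band.midUpC).hi (bandMid Band.midLowC Band.midUpC).pole .tauU,
      mpiece11.env (bandMid Band.midLowC Band.midUpC).hi (bandMid Band.midLowC Band.midUpC).hi (bandMid Band.midLowC Band.midUpC).pole .tauU] : List QEx).all (fun q => checkShift mbox11 355 9 4 8 12 q.e) = true := by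
  decide +kernel

/-- Checks of the piece 11. -/
def m11_group19 :
    ([xLLGM false (bandMid Band.midLowC Band.midUpC).lo (bandMid Band.midLowC Band.midUpC).pole,
      xLLGM false (bandMid Band.midLowC Band.midUpC).hi (bandMid Band.midLowC Band.midUpC).pole] : List QEx).all (fun q => checkShift mbox11 361 5 4 11 17 q.e) = true := by
  decide +kernel

/-- Checks of the piece 11. -/
def m11_group20 :
    ([mpiece11.wid - qD 1] : List QEx).all (fun q => checkShift mbox11 71 1 1 1 1 q.e) = true := by
  decide +kernel

/-- Checks of the piece 11. -/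
def m11_group21 :
    ([mpiece11.side .rA,
      mpiece11.side .rB] : List QEx).all (fun q => checkShift mbox11 37 1 1 0 0 q.e) = true := by
  decide +kernel

/-- Checks of the piece 11. -/
def m11_group22 :
    ([mpiece11.side .rF] : List QEx).all (fun q => checkShift mbox11 69 2 2 0 0 q.e) = true := by
  decide +kernel

/-- Checks of the piece 11. -/
def m11_group23 :
    ([mpiece11.side .q] : List QEx).all (fun q => checkShift mbox11 52 0 1 1 2 q.e) = true := by
  decide +kernel

/-- Checks of the piece 11. -/
def m11_group24 :
    ([mpiece11.side .om] : List QEx).all (fun q => checkShift mbox11 158 1 2 4 6 q.e) = true := by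
  decide +kernel

/-- The exit curve on the box of piece 11. -/
def mexit11_check :
    checkShift mexit11Box 80 2 0 1 1 (xExitM Band.midExitC 57 25).e = true := by
  decide +kernel

end Vale.Agent.P100.Calib.Closed.All.Low
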