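import Vale.Agent.P100.Calib.SlabMidSignsPieces

/-!
# Checks of the piece 12
-/

set_option linter.defProp false

namespace Vale.Agent.P100.Calib.Closed.All.Low

/-- Checks of the piece 12. -/
def m12_group0 :
    ([mpiece12.checkM true .g false .lo,
      mpiece12.checkM true .g false .hi,
      mpiece12.checkM true .g false .mid,
      mpiece12.checkM true .g true .lo,
      mpiece12.checkM true .g true .hi,
      mpiece12.checkM true .g true .mid] : List QEx).all (fun q => checkShift mbox12 568 2 7 14 26 q.e) = true := by
  decide +kernel

/-- Checks of the piece 12. -/
def m12_group1 :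
    ([mpiece12.checkM true .n false .lo,
      mpiece12.checkM true .n false .hi,
      mpiece12.checkM true .n false .mid,
      mpiece12.checkM true .n true .lo,
      mpiece12.checkM true .n true .hi,
      mpiece12.checkM true .n true .mid] : List QEx).all (fun q => checkShift mbox12 694 4 8 18 31 q.e) = true := by
  decide +kernel

/-- Checks of the piece 12. -/
def m12_group2 :
    ([mpiece12.checkM true .tlo false .lo,
      mpiece12.checkM true .tlo false .hi,
      mpiece12.checkM true .tlo false .mid,
      mpiece12.checkM true .tlo true .lo,
      mpiece12.checkM true .tlo true .hi,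
      mpiece12.checkM true .tlo true .mid,
      mpiece12.checkM true .thi false .lo,
      mpiece12.checkM true .thi false .hi,
      mpiece12.checkM true .thi false .mid,
      mpiece12.checkM true .thi true .lo,
      mpiece12.checkM true .thi true .hi,
      mpiece12.checkM true .thi true .mid] : List QEx).all (fun q => checkShift mbox12 662 3 9 16 29 q.e) = true := by
  decide +kernel

/-- Checks of the piece 12. -/
def m12_group3 :
    ([mpiece12.checkM true .mlo false .lo,
      mpiece12.checkM true .mlo false .hi,
      mpiece12.checkM true .mlo false .mid,
      mpiece12.checkM true .mhi false .lo,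
      mpiece12.checkM true .mhi false .hi,
      mpiece12.checkM true .mhi false .mid] : List QEx).all (fun q => checkShift mbox12 460 4 5 10 18 q.e) = true := by
  decide +kernel

/-- Checks of the piece 12. -/
def m12_group4 :
    ([mpiece12.checkM true .f false .lo] : List QEx).all (fun q => checkShift mbox12 761 5 11 18 33 q.e) = true := by
  decide +kernel

/-- Checks of the piece 12. -/
def m12_group5 :
    ([mpiece12.checkM true .f false .hi] : List QEx).all (fun q => checkShift mbox12 761 5 11 18 33 q.e) = true := by
  decide +kernel

/-- Checks of the piece 12. -/
def m12_group6 :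
    ([mpiece12.checkM true .f false .mid] : List QEx).all (fun q => checkShift mbox12 782 5 11 18 33 q.e) = true := by
  decide +kernel

/-- Checks of the piece 12. -/
def m12_group7 :
    ([mpiece12.checkM true .f true .lo] : List QEx).all (fun q => checkShift mbox12 761 5 11 18 33 q.e) = true := by
  decide +kernel

/-- Checks of the piece 12. -/
def m12_group8 :
    ([mpiece12.checkM true .f true .hi] : List QEx).all (fun q => checkShift mbox12 761 5 11 18 33 q.e) = true := by
  decide +kernel

/-- Checks of the piece 12. -/
def m12_group9 :
    ([mpiece12.checkM true .f true .mid] : List QEx).all (fun q => checkShift mbox12 782 5 11 18 33 q.e) = true := by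
  decide +kernel

/-- Checks of the piece 12. -/
def m12_group10 :
    ([mpiece12.env bandSmall.lo bandSmall.hi bandSmall.pole .piL,
      mpiece12.env bandSmall.lo bandSmall.hi bandSmall.pole .piU] : List QEx).all (fun q => checkShift mbox12 190 3 2 4 8 q.e) = true := by
  decide +kernel

/-- Checks of the piece 12. -/
def m12_group11 :
    ([mpiece12.env bandSmall.hi bandSmall.hi bandSmall.pole .piL,
      mpiece12.env bandSmall.hi bandSmall.hi bandSmall.pole .piU] : List QEx).all (fun q => checkShift mbox12 196 4 2 4 8 q.e) = true := by
  decide +kernel

/-- Checks of the piece 12. -/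
def m12_group12 :
    ([mpiece12.env bandSmall.lo bandSmall.hi bandSmall.pole .omL,
      mpiece12.env bandSmall.lo bandSmall.hi bandSmall.pole .omU] : List QEx).all (fun q => checkShift mbox12 323 5 4 7 12 q.e) = true := by
  decide +kernel

/-- Checks of the piece 12. -/
def m12_group13 :
    ([mpiece12.env bandSmall.hi bandSmall.hi bandSmall.pole .omL,
      mpiece12.env bandSmall.hi bandSmall.hi bandSmall.pole .omU] : List QEx).all (fun q => checkShift mbox12 328 6 4 7 12 q.e) = true := by
  decide +kernel

/-- Checks of the piece 12. -/
def m12_group14 :
    ([mpiece12.env bandSmall.lo bandSmall.hi bandSmall.pole .tauL,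
      mpiece12.env bandSmall.hi bandSmall.hi bandSmall.pole .tauL,
      mpiece12.env bandSmall.hi bandSmall.hi bandSmall.pole .tauU] : List QEx).all (fun q => checkShift mbox12 383 7 4 9 15 q.e) = true := by
  decide +kernel

/-- Checks of the piece 12. -/
def m12_group15 :
    ([mpiece12.env bandSmall.lo bandSmall.hi bandSmall.pole .tauU] : List QEx).all (fun q => checkShift mbox12 372 5 4 9 15 q.e) = true := by
  decide +kernel

/-- Checks of the piece 12. -/
def m12_group16 :
    ([xLLGM true bandSmall.lo bandSmall.pole] : List QEx).all (fun q => checkShift mbox12 352 3 4 11 18 q.e) = true := by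
  decide +kernel

/-- Checks of the piece 12. -/
def m12_group17 :
    ([xLLGM true bandSmall.hi bandSmall.pole] : List QEx).all (fun q => checkShift mbox12 358 4 4 11 18 q.e) = true := by
  decide +kernel

/-- Checks of the piece 12. -/
def m12_group18 :
    ([mpiece12.wid - qD 1] : List QEx).all (fun q => checkShift mbox12 73 1 1 1 1 q.e) = true := by
  decide +kernel

/-- Checks of the piece 12. -/
def m12_group19 :
    ([mpiece12.side .rA,
      mpiece12.side .rB] : List QEx).all (fun q => checkShift mbox12 40 1 1 0 0 q.e) = true := by
  decide +kernel

/-- Checks of the piece 12. -/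
def m12_group20 :
    ([mpiece12.side .rF] : List QEx).all (fun q => checkShift mbox12 74 2 2 0 0 q.e) = true := by
  decide +kernel

/-- Checks of the piece 12. -/
def m12_group21 :
    ([mpiece12.side .q] : List QEx).all (fun q => checkShift mbox12 51 0 1 1 2 q.e) = true := by
  decide +kernel

/-- Checks of the piece 12. -/
def m12_group22 :
    ([mpiece12.side .om] : List QEx).all (fun q => checkShift mbox12 157 1 2 4 6 q.e) = true := by
  decide +kernel

/-- The exit curve on the box of piece 12. -/
def mexit12_check :
    checkShift mexit12Box 80 2 0 1 1 (xExitM Band.midExitC 32 25).e = true := by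
  decide +kernel

end Vale.Agent.P100.Calib.Closed.All.Low
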