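import Vale.Agent.P100.Calib.SlabMidSignsPieces

/-!
# Checks of the piece 13
-/

set_option linter.defProp false

namespace Vale.Agent.P100.Calib.Closed.All.Low

/-- Checks of the piece 13. -/
def m13_group0 :
    ([mpiece13.checkM true .g false .lo,
      mpiece13.checkM true .g false .hi,
      mpiece13.checkM true .g false .mid,
      mpiece13.checkM true .g true .lo,
      mpiece13.checkM true .g true .hi,
      mpiece13.checkM true .g true .mid] : List QEx).all (fun q => checkShift mbox13 571 2 7 14 26 q.e) = true := by
  decide +kernel

/-- Checks of the piece 13. -/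
def m13_group1 :
    ([mpiece13.checkM true .n false .lo,
      mpiece13.checkM true .n false .hi,
      mpiece13.checkM true .n false .mid,
      mpiece13.checkM true .n true .lo,
      mpiece13.checkM true .n true .hi,
      mpiece13.checkM true .n true .mid] : List QEx).all (fun q => checkShift mbox13 695 4 8 18 31 q.e) = true := by
  decide +kernel

/-- Checks of the piece 13. -/
def m13_group2 :
    ([mpiece13.checkM true .tlo false .lo,
      mpiece13.checkM true .tlo false .mid,
      mpiece13.checkM true .tlo true .lo,
      mpiece13.checkM true .tlo true .mid,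
      mpiece13.checkM true .thi false .lo,
      mpiece13.checkM true .thi false .hi,
      mpiece13.checkM true .thi false .mid,
      mpiece13.checkM true .thi true .lo,
      mpiece13.checkM true .thi true .hi,
      mpiece13.checkM true .thi true .mid] : List QEx).all (fun q => checkShift mbox13 664 3 9 16 29 q.e) = true := by
  decide +kernel

/-- A check of the piece 13. -/
def m13_tlo_false_hi_0 :
    checkShift mbox13_tlo_false_hi_0 660 3 9 16 29 (mpiece13.checkM true .tlo false .hi).e = true := by
  decide +kernel

/-- A check of the piece 13. -/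
def m13_tlo_false_hi_1 :
    checkShift mbox13_tlo_false_hi_1 660 3 9 16 29 (mpiece13.checkM true .tlo false .hi).e = true := by
  decide +kernel

/-- A check of the piece 13. -/
def m13_tlo_true_hi_0 :
    checkShift mbox13_tlo_true_hi_0 660 3 9 16 29 (mpiece13.checkM true .tlo true .hi).e = true := by
  decide +kernel

/-- A check of the piece 13. -/
def m13_tlo_true_hi_1 :
    checkShift mbox13_tlo_true_hi_1 660 3 9 16 29 (mpiece13.checkM true .tlo true .hi).e = true := by
  decide +kernel

/-- Checks of the piece 13. -/
def m13_group5 :
    ([mpiece13.checkM true .mlo false .lo,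
      mpiece13.checkM true .mlo false .hi,
      mpiece13.checkM true .mlo false .mid,
      mpiece13.checkM true .mhi false .lo,
      mpiece13.checkM true .mhi false .hi,
      mpiece13.checkM true .mhi false .mid] : List QEx).all (fun q => checkShift mbox13 460 4 5 10 18 q.e) = true := by
  decide +kernel

/-- Checks of the piece 13. -/
def m13_group6 :
    ([mpiece13.checkM true .f false .lo] : List QEx).all (fun q => checkShift mbox13 762 5 11 18 33 q.e) = true := by
  decide +kernel

/-- Checks of the piece 13. -/
def m13_group7 :
    ([mpiece13.checkM true .f false .hi] : List QEx).all (fun q => checkShift mbox13 762 5 11 18 33 q.e) = true := by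
  decide +kernel

/-- Checks of the piece 13. -/
def m13_group8 :
    ([mpiece13.checkM true .f false .mid] : List QEx).all (fun q => checkShift mbox13 784 5 11 18 33 q.e) = true := by
  decide +kernel

/-- Checks of the piece 13. -/
def m13_group9 :
    ([mpiece13.checkM true .f true .lo] : List QEx).all (fun q => checkShift mbox13 762 5 11 18 33 q.e) = true := by
  decide +kernel

/-- Checks of the piece 13. -/
def m13_group10 :
    ([mpiece13.checkM true .f true .hi] : List QEx).all (fun q => checkShift mbox13 762 5 11 18 33 q.e) = true := by
  decide +kernel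

/-- Checks of the piece 13. -/
def m13_group11 :
    ([mpiece13.checkM true .f true .mid] : List QEx).all (fun q => checkShift mbox13 784 5 11 18 33 q.e) = true := by
  decide +kernel

/-- Checks of the piece 13. -/
def m13_group12 :
    ([mpiece13.env (bandMid Band.midLowC Band.midUpC).lo (bandMid Band.midLowC Band.midUpC).hi (bandMid Band.midLowC Band.midUpC).pole .piL,
      mpiece13.env (bandMid Band.midLowC Band.midUpC).hi (bandMid Band.midLowC Band.midUpC).hi (bandMid Band.midLowC Band.midUpC).pole .piL,
      mpiece13.env (bandMid Band.midLowC Band.midUpC).lo (bandMid Band.midLowC Band.midUpC).hi (bandMid Band.midLowC Band.midUpC).pole .piU] : List QEx).all (fun q => checkShift mbox13 200 5 2 4 7 q.e) = true := by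
  decide +kernel

/-- A check of the piece 13. -/
def m13_piU_hi_0 :
    checkShift mbox13_piU_hi_0 218 5 2 4 7 (mpiece13.env (bandMid Band.midLowC Band.midUpC).hi (bandMid Band.midLowC Band.midUpC).hi (bandMid Band.midLowC Band.midUpC).pole .piU).e = true := by
  decide +kernel

/-- A check of the piece 13. -/
def m13_piU_hi_1 :
    checkShift mbox13_piU_hi_1 218 5 2 4 7 (mpiece13.env (bandMid Band.midLowC Band.midUpC).hi (bandMid Band.midLowC Band.midUpC).hi (bandMid Band.midLowC Band.midUpC).pole .piU).e = true := by
  decide +kernel

/-- A check of the piece 13. -/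
def m13_omL_lo_0 :
    checkShift mbox13_omL_lo_0 364 7 4 7 11 (mpiece13.env (bandMid Band.midLowC Band.midUpC).lo (bandMid Band.midLowC Band.midUpC).hi (bandMid Band.midLowC Band.midUpC).pole .omL).e = true := by
  decide +kernel

/-- A check of the piece 13. -/
def m13_omL_lo_1 :
    checkShift mbox13_omL_lo_1 364 7 4 7 11 (mpiece13.env (bandMid Band.midLowC Band.midUpC).lo (bandMid Band.midLowC Band.midUpC).hi (bandMid Band.midLowC Band.midUpC).pole .omL).e = true := by
  decide +kernel

/-- A check of the piece 13. -/
def m13_omL_lo_2 :
    checkShift mbox13_omL_lo_2 364 7 4 7 11 (mpiece13.env (bandMid Band.midLowC Band.midUpC).lo (bandMid Band.midLowC Band.midUpC).hi (bandMid Band.midLowC Band.midUpC).pole .omL).e = true := by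
  decide +kernel

/-- Checks of the piece 13. -/
def m13_group15 :
    ([mpiece13.env (bandMid Band.midLowC Band.midUpC).hi (bandMid Band.midLowC Band.midUpC).hi (bandMid Band.midLowC Band.midUpC).pole .omL] : List QEx).all (fun q => checkShift mbox13 334 7 4 7 11 q.e) = true := by
  decide +kernel

/-- A check of the piece 13. -/
def m13_omU_lo_0 :
    checkShift mbox13_omU_lo_0 352 7 4 7 11 (mpiece13.env (bandMid Band.midLowC Band.midUpC).lo (bandMid Band.midLowC Band.midUpC).hi (bandMid Band.midLowC Band.midUpC).pole .omU).e = true := by
  decide +kernel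

/-- A check of the piece 13. -/
def m13_omU_lo_1 :
    checkShift mbox13_omU_lo_1 352 7 4 7 11 (mpiece13.env (bandMid Band.midLowC Band.midUpC).lo (bandMid Band.midLowC Band.midUpC).hi (bandMid Band.midLowC Band.midUpC).pole .omU).e = true := by
  decide +kernel

/-- A check of the piece 13. -/
def m13_omU_hi_0 :
    checkShift mbox13_omU_hi_0 388 7 4 7 11 (mpiece13.env (bandMid Band.midLowC Band.midUpC).hi (bandMid Band.midLowC Band.midUpC).hi (bandMid Band.midLowC Band.midUpC).pole .omU).e = true := by
  decide +kernel

/-- A check of the piece 13. -/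
def m13_omU_hi_1 :
    checkShift mbox13_omU_hi_1 388 7 4 7 11 (mpiece13.env (bandMid Band.midLowC Band.midUpC).hi (bandMid Band.midLowC Band.midUpC).hi (bandMid Band.midLowC Band.midUpC).pole .omU).e = true := by
  decide +kernel

/-- A check of the piece 13. -/
def m13_omU_hi_2 :
    checkShift mbox13_omU_hi_2 388 7 4 7 11 (mpiece13.env (bandMid Band.midLowC Band.midUpC).hi (bandMid Band.midLowC Band.midUpC).hi (bandMid Band.midLowC Band.midUpC).pole .omU).e = true := by
  decide +kernel

/-- A check of the piece 13. -/
def m13_omU_hi_3 :
    checkShift mbox13_omU_hi_3 388 7 4 7 11 (mpiece13.env (bandMid Band.midLowC Band.midUpC).hi (bandMid Band.midLowC Band.midUpC).hi (bandMid Band.midLowC Band.midUpC).pole .omU).e = true := by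
  decide +kernel

/-- A check of the piece 13. -/
def m13_omU_hi_4 :
    checkShift mbox13_omU_hi_4 388 7 4 7 11 (mpiece13.env (bandMid Band.midLowC Band.midUpC).hi (bandMid Band.midLowC Band.midUpC).hi (bandMid Band.midLowC Band.midUpC).pole .omU).e = true := by
  decide +kernel

/-- Checks of the piece 13. -/
def m13_group18 :
    ([mpiece13.env (bandMid Band.midLowC Band.midUpC).lo (bandMid Band.midLowC Band.midUpC).hi (bandMid Band.midLowC Band.midUpC).pole .tauL,
      mpiece13.env (bandMid Band.midLowC Band.midUpC).hi (bandMid Band.midLowC Band.midUpC).hi (bandMid Band.midLowC Band.midUpC).pole .tauL,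
      mpiece13.env (bandMid Band.midLowC Band.midUpC).lo (bandMid Band.midLowC Band.midUpC).hi (bandMid Band.midLowC Band.midUpC).pole .tauU,
      mpiece13.env (bandMid Band.midLowC Band.midUpC).hi (bandMid Band.midLowC Band.midUpC).hi (bandMid Band.midLowC Band.midUpC).pole .tauU] : List QEx).all (fun q => checkShift mbox13 372 9 4 8 12 q.e) = true := by
  decide +kernel

/-- Checks of the piece 13. -/
def m13_group19 :
    ([xLLGM true (bandMid Band.midLowC Band.midUpC).lo (bandMid Band.midLowC Band.midUpC).pole,
      xLLGM true (bandMid Band.midLowC Band.midUpC).hi (bandMid Band.midLowC Band.midUpC).pole] : List QEx).all (fun q => checkShift mbox13 362 5 4 11 17 q.e) = true := by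
  decide +kernel

/-- Checks of the piece 13. -/
def m13_group20 :
    ([mpiece13.wid - qD 1] : List QEx).all (fun q => checkShift mbox13 73 1 1 1 1 q.e) = true := by
  decide +kernel

/-- Checks of the piece 13. -/
def m13_group21 :
    ([mpiece13.side .rA,
      mpiece13.side .rB] : List QEx).all (fun q => checkShift mbox13 40 1 1 0 0 q.e) = true := by
  decide +kernel

/-- Checks of the piece 13. -/
def m13_group22 :
    ([mpiece13.side .rF] : List QEx).all (fun q => checkShift mbox13 74 2 2 0 0 q.e) = true := by
  decide +kernel

/-- Checks of the piece 13. -/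
def m13_group23 :
    ([mpiece13.side .q] : List QEx).all (fun q => checkShift mbox13 52 0 1 1 2 q.e) = true := by
  decide +kernel

/-- Checks of the piece 13. -/
def m13_group24 :
    ([mpiece13.side .om] : List QEx).all (fun q => checkShift mbox13 157 1 2 4 6 q.e) = true := by
  decide +kernel

/-- The exit curve on the box of piece 13. -/
def mexit13_check :
    checkShift mexit13Box 80 2 0 1 1 (xExitM Band.midExitC 58 25).e = true := by
  decide +kernel

end Vale.Agent.P100.Calib.Closed.All.Low
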