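import Vale.Agent.P100.Calib.SlabMidSignsPieces

/-!
# Checks of the piece 2
-/

set_option linter.defProp false

namespace Vale.Agent.P100.Calib.Closed.All.Low

/-- Checks of the piece 2. -/
def m2_group0 :
    ([mpiece2.checkM false .g false .lo,
      mpiece2.checkM false .g false .hi,
      mpiece2.checkM false .g false .mid,
      mpiece2.checkM false .g true .lo,
      mpiece2.checkM false .g true .hi,
      mpiece2.checkM false .g true .mid] : List QEx).all (fun q => checkShift mbox2 425 2 7 14 26 q.e) = true := by
  decide +kernel

/-- Checks of the piece 2. -/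
def m2_group1 :
    ([mpiece2.checkM false .n false .lo,
      mpiece2.checkM false .n false .hi,
      mpiece2.checkM false .n false .mid,
      mpiece2.checkM false .n true .lo,
      mpiece2.checkM false .n true .hi,
      mpiece2.checkM false .n true .mid] : List QEx).all (fun q => checkShift mbox2 513 4 8 18 31 q.e) = true := by
  decide +kernel

/-- Checks of the piece 2. -/
def m2_group2 :
    ([mpiece2.checkM false .tlo false .lo,
      mpiece2.checkM false .tlo false .hi,
      mpiece2.checkM false .tlo false .mid,
      mpiece2.checkM false .tlo true .lo,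
      mpiece2.checkM false .tlo true .hi,
      mpiece2.checkM false .tlo true .mid,
      mpiece2.checkM false .thi false .lo,
      mpiece2.checkM false .thi false .hi,
      mpiece2.checkM false .thi false .mid,
      mpiece2.checkM false .thi true .lo,
      mpiece2.checkM false .thi true .hi,
      mpiece2.checkM false .thi true .mid] : List QEx).all (fun q => checkShift mbox2 500 3 9 16 29 q.e) = true := by
  decide +kernel

/-- Checks of the piece 2. -/
def m2_group3 :
    ([mpiece2.checkM false .mlo false .lo,
      mpiece2.checkM false .mlo false .hi,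
      mpiece2.checkM false .mlo false .mid,
      mpiece2.checkM false .mhi false .lo,
      mpiece2.checkM false .mhi false .hi,
      mpiece2.checkM false .mhi false .mid] : List QEx).all (fun q => checkShift mbox2 354 4 5 10 18 q.e) = true := by
  decide +kernel

/-- Checks of the piece 2. -/
def m2_group4 :
    ([mpiece2.checkM false .f false .lo] : List QEx).all (fun q => checkShift mbox2 574 5 11 18 33 q.e) = true := by
  decide +kernel

/-- Checks of the piece 2. -/
def m2_group5 :
    ([mpiece2.checkM false .f false .hi] : List QEx).all (fun q => checkShift mbox2 574 5 11 18 33 q.e) = true := by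
  decide +kernel

/-- Checks of the piece 2. -/
def m2_group6 :
    ([mpiece2.checkM false .f false .mid] : List QEx).all (fun q => checkShift mbox2 595 5 11 18 33 q.e) = true := by
  decide +kernel

/-- Checks of the piece 2. -/
def m2_group7 :
    ([mpiece2.checkM false .f true .lo] : List QEx).all (fun q => checkShift mbox2 574 5 11 18 33 q.e) = true := by
  decide +kernel

/-- Checks of the piece 2. -/
def m2_group8 :
    ([mpiece2.checkM false .f true .hi] : List QEx).all (fun q => checkShift mbox2 574 5 11 18 33 q.e) = true := by
  decide +kernel

/-- Checks of the piece 2. -/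
def m2_group9 :
    ([mpiece2.checkM false .f true .mid] : List QEx).all (fun q => checkShift mbox2 595 5 11 18 33 q.e) = true := by
  decide +kernel

/-- Checks of the piece 2. -/
def m2_group10 :
    ([mpiece2.env (bandMid Band.midLowA Band.midUpA).lo (bandMid Band.midLowA Band.midUpA).hi (bandMid Band.midLowA Band.midUpA).pole .piL,
      mpiece2.env (bandMid Band.midLowA Band.midUpA).hi (bandMid Band.midLowA Band.midUpA).hi (bandMid Band.midLowA Band.midUpA).pole .piL,
      mpiece2.env (bandMid Band.midLowA Band.midUpA).lo (bandMid Band.midLowA Band.midUpA).hi (bandMid Band.midLowA Band.midUpA).pole .piU] : List QEx).all (fun q => checkShift mbox2 150 5 2 4 7 q.e) = true := by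
  decide +kernel

/-- A check of the piece 2. -/
def m2_piU_hi_0 :
    checkShift mbox2_piU_hi_0 168 5 2 4 7 (mpiece2.env (bandMid Band.midLowA Band.midUpA).hi (bandMid Band.midLowA Band.midUpA).hi (bandMid Band.midLowA Band.midUpA).pole .piU).e = true := by
  decide +kernel

/-- A check of the piece 2. -/
def m2_piU_hi_1 :
    checkShift mbox2_piU_hi_1 168 5 2 4 7 (mpiece2.env (bandMid Band.midLowA Band.midUpA).hi (bandMid Band.midLowA Band.midUpA).hi (bandMid Band.midLowA Band.midUpA).pole .piU).e = true := by
  decide +kernel

/-- Checks of the piece 2. -/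
def m2_group12 :
    ([mpiece2.env (bandMid Band.midLowA Band.midUpA).lo (bandMid Band.midLowA Band.midUpA).hi (bandMid Band.midLowA Band.midUpA).pole .omL,
      mpiece2.env (bandMid Band.midLowA Band.midUpA).hi (bandMid Band.midLowA Band.midUpA).hi (bandMid Band.midLowA Band.midUpA).pole .omL,
      mpiece2.env (bandMid Band.midLowA Band.midUpA).lo (bandMid Band.midLowA Band.midUpA).hi (bandMid Band.midLowA Band.midUpA).pole .omU,
      mpiece2.env (bandMid Band.midLowA Band.midUpA).hi (bandMid Band.midLowA Band.midUpA).hi (bandMid Band.midLowA Band.midUpA).pole .omU] : List QEx).all (fun q => checkShift mbox2 251 7 4 7 11 q.e) = true := by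
  decide +kernel

/-- Checks of the piece 2. -/
def m2_group13 :
    ([mpiece2.env (bandMid Band.midLowA Band.midUpA).lo (bandMid Band.midLowA Band.midUpA).hi (bandMid Band.midLowA Band.midUpA).pole .tauL,
      mpiece2.env (bandMid Band.midLowA Band.midUpA).hi (bandMid Band.midLowA Band.midUpA).hi (bandMid Band.midLowA Band.midUpA).pole .tauL,
      mpiece2.env (bandMid Band.midLowA Band.midUpA).lo (bandMid Band.midLowA Band.midUpA).hi (bandMid Band.midLowA Band.midUpA).pole .tauU,
      mpiece2.env (bandMid Band.midLowA Band.midUpA).hi (bandMid Band.midLowA Band.midUpA).hi (bandMid Band.midLowA Band.midUpA).pole .tauU] : List QEx).all (fun q => checkShift mbox2 277 9 4 8 12 q.e) = true := by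
  decide +kernel

/-- Checks of the piece 2. -/
def m2_group14 :
    ([xLLGM false (bandMid Band.midLowA Band.midUpA).lo (bandMid Band.midLowA Band.midUpA).pole,
      xLLGM false (bandMid Band.midLowA Band.midUpA).hi (bandMid Band.midLowA Band.midUpA).pole] : List QEx).all (fun q => checkShift mbox2 253 5 4 11 17 q.e) = true := by
  decide +kernel

/-- Checks of the piece 2. -/
def m2_group15 :
    ([mpiece2.wid - qD 1] : List QEx).all (fun q => checkShift mbox2 63 1 1 1 1 q.e) = true := by
  decide +kernel

/-- Checks of the piece 2. -/
def m2_group16 :
    ([mpiece2.side .rA,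
      mpiece2.side .rB] : List QEx).all (fun q => checkShift mbox2 39 1 1 0 0 q.e) = true := by
  decide +kernel

/-- Checks of the piece 2. -/
def m2_group17 :
    ([mpiece2.side .rF] : List QEx).all (fun q => checkShift mbox2 72 2 2 0 0 q.e) = true := by
  decide +kernel

/-- Checks of the piece 2. -/
def m2_group18 :
    ([mpiece2.side .q] : List QEx).all (fun q => checkShift mbox2 42 0 1 1 2 q.e) = true := by
  decide +kernel

/-- Checks of the piece 2. -/
def m2_group19 :
    ([mpiece2.side .om] : List QEx).all (fun q => checkShift mbox2 119 1 2 4 6 q.e) = true := by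
  decide +kernel

/-- The exit curve on the box of piece 2. -/
def mexit2_check :
    checkShift mexit2Box 80 2 0 1 1 (xExitM Band.midExitA 83 50).e = true := by
  decide +kernel

end Vale.Agent.P100.Calib.Closed.All.Low
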