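import Vale.Agent.P100.Calib.SlabMidSignsPieces

/-!
# Checks of the piece 3
-/

set_option linter.defProp false

namespace Vale.Agent.P100.Calib.Closed.All.Low

/-- Checks of the piece 3. -/
def m3_group0 :
    ([mpiece3.checkM false .g false .lo,
      mpiece3.checkM false .g false .hi,
      mpiece3.checkM false .g false .mid,
      mpiece3.checkM false .g true .lo,
      mpiece3.checkM false .g true .hi,
      mpiece3.checkM false .g true .mid] : List QEx).all (fun q => checkShift mbox3 460 2 7 14 26 q.e) = true := by
  decide +kernel

/-- Checks of the piece 3. -/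
def m3_group1 :
    ([mpiece3.checkM false .n false .lo,
      mpiece3.checkM false .n false .hi,
      mpiece3.checkM false .n false .mid,
      mpiece3.checkM false .n true .lo,
      mpiece3.checkM false .n true .hi,
      mpiece3.checkM false .n true .mid] : List QEx).all (fun q => checkShift mbox3 558 4 8 18 31 q.e) = true := by
  decide +kernel

/-- Checks of the piece 3. -/
def m3_group2 :
    ([mpiece3.checkM false .tlo false .lo,
      mpiece3.checkM false .tlo false .hi,
      mpiece3.checkM false .tlo false .mid,
      mpiece3.checkM false .tlo true .lo,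
      mpiece3.checkM false .tlo true .hi,
      mpiece3.checkM false .tlo true .mid,
      mpiece3.checkM false .thi false .lo,
      mpiece3.checkM false .thi false .hi,
      mpiece3.checkM false .thi false .mid,
      mpiece3.checkM false .thi true .lo,
      mpiece3.checkM false .thi true .hi,
      mpiece3.checkM false .thi true .mid] : List QEx).all (fun q => checkShift mbox3 540 3 9 16 29 q.e) = true := by
  decide +kernel

/-- Checks of the piece 3. -/
def m3_group3 :
    ([mpiece3.checkM false .mlo false .lo,
      mpiece3.checkM false .mlo false .hi,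
      mpiece3.checkM false .mlo false .mid,
      mpiece3.checkM false .mhi false .lo,
      mpiece3.checkM false .mhi false .hi,
      mpiece3.checkM false .mhi false .mid] : List QEx).all (fun q => checkShift mbox3 378 4 5 10 18 q.e) = true := by
  decide +kernel

/-- Checks of the piece 3. -/
def m3_group4 :
    ([mpiece3.checkM false .f false .lo] : List QEx).all (fun q => checkShift mbox3 617 5 11 18 33 q.e) = true := by
  decide +kernel

/-- Checks of the piece 3. -/
def m3_group5 :
    ([mpiece3.checkM false .f false .hi] : List QEx).all (fun q => checkShift mbox3 617 5 11 18 33 q.e) = true := by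
  decide +kernel

/-- Checks of the piece 3. -/
def m3_group6 :
    ([mpiece3.checkM false .f false .mid] : List QEx).all (fun q => checkShift mbox3 639 5 11 18 33 q.e) = true := by
  decide +kernel

/-- Checks of the piece 3. -/
def m3_group7 :
    ([mpiece3.checkM false .f true .lo] : List QEx).all (fun q => checkShift mbox3 617 5 11 18 33 q.e) = true := by
  decide +kernel

/-- Checks of the piece 3. -/
def m3_group8 :
    ([mpiece3.checkM false .f true .hi] : List QEx).all (fun q => checkShift mbox3 617 5 11 18 33 q.e) = true := by
  decide +kernel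

/-- Checks of the piece 3. -/
def m3_group9 :
    ([mpiece3.checkM false .f true .mid] : List QEx).all (fun q => checkShift mbox3 639 5 11 18 33 q.e) = true := by
  decide +kernel

/-- A check of the piece 3. -/
def m3_piL_lo_0 :
    checkShift mbox3_piL_lo_0 226 5 2 4 7 (mpiece3.env (bandMid Band.midLowA Band.midUpA).lo (bandMid Band.midLowA Band.midUpA).hi (bandMid Band.midLowA Band.midUpA).pole .piL).e = true := by
  decide +kernel

/-- A check of the piece 3. -/
def m3_piL_lo_1 :
    checkShift mbox3_piL_lo_1 226 5 2 4 7 (mpiece3.env (bandMid Band.midLowA Band.midUpA).lo (bandMid Band.midLowA Band.midUpA).hi (bandMid Band.midLowA Band.midUpA).pole .piL).e = true := by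
  decide +kernel

/-- A check of the piece 3. -/
def m3_piL_lo_2 :
    checkShift mbox3_piL_lo_2 226 5 2 4 7 (mpiece3.env (bandMid Band.midLowA Band.midUpA).lo (bandMid Band.midLowA Band.midUpA).hi (bandMid Band.midLowA Band.midUpA).pole .piL).e = true := by
  decide +kernel

/-- A check of the piece 3. -/
def m3_piL_lo_3 :
    checkShift mbox3_piL_lo_3 226 5 2 4 7 (mpiece3.env (bandMid Band.midLowA Band.midUpA).lo (bandMid Band.midLowA Band.midUpA).hi (bandMid Band.midLowA Band.midUpA).pole .piL).e = true := by
  decide +kernel

/-- A check of the piece 3. -/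
def m3_piL_lo_4 :
    checkShift mbox3_piL_lo_4 226 5 2 4 7 (mpiece3.env (bandMid Band.midLowA Band.midUpA).lo (bandMid Band.midLowA Band.midUpA).hi (bandMid Band.midLowA Band.midUpA).pole .piL).e = true := by
  decide +kernel

/-- A check of the piece 3. -/
def m3_piL_lo_5 :
    checkShift mbox3_piL_lo_5 226 5 2 4 7 (mpiece3.env (bandMid Band.midLowA Band.midUpA).lo (bandMid Band.midLowA Band.midUpA).hi (bandMid Band.midLowA Band.midUpA).pole .piL).e = true := by
  decide +kernel

/-- A check of the piece 3. -/
def m3_piL_lo_6 :
    checkShift mbox3_piL_lo_6 226 5 2 4 7 (mpiece3.env (bandMid Band.midLowA Band.midUpA).lo (bandMid Band.midLowA Band.midUpA).hi (bandMid Band.midLowA Band.midUpA).pole .piL).e = true := by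
  decide +kernel

/-- A check of the piece 3. -/
def m3_piL_lo_7 :
    checkShift mbox3_piL_lo_7 226 5 2 4 7 (mpiece3.env (bandMid Band.midLowA Band.midUpA).lo (bandMid Band.midLowA Band.midUpA).hi (bandMid Band.midLowA Band.midUpA).pole .piL).e = true := by
  decide +kernel

/-- A check of the piece 3. -/
def m3_piL_lo_8 :
    checkShift mbox3_piL_lo_8 226 5 2 4 7 (mpiece3.env (bandMid Band.midLowA Band.midUpA).lo (bandMid Band.midLowA Band.midUpA).hi (bandMid Band.midLowA Band.midUpA).pole .piL).e = true := by
  decide +kernel

/-- Checks of the piece 3. -/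
def m3_group11 :
    ([mpiece3.env (bandMid Band.midLowA Band.midUpA).hi (bandMid Band.midLowA Band.midUpA).hi (bandMid Band.midLowA Band.midUpA).pole .piL,
      mpiece3.env (bandMid Band.midLowA Band.midUpA).lo (bandMid Band.midLowA Band.midUpA).hi (bandMid Band.midLowA Band.midUpA).pole .piU,
      mpiece3.env (bandMid Band.midLowA Band.midUpA).hi (bandMid Band.midLowA Band.midUpA).hi (bandMid Band.midLowA Band.midUpA).pole .piU] : List QEx).all (fun q => checkShift mbox3 160 5 2 4 7 q.e) = true := by
  decide +kernel

/-- Checks of the piece 3. -/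
def m3_group12 :
    ([mpiece3.env (bandMid Band.midLowA Band.midUpA).lo (bandMid Band.midLowA Band.midUpA).hi (bandMid Band.midLowA Band.midUpA).pole .omL,
      mpiece3.env (bandMid Band.midLowA Band.midUpA).hi (bandMid Band.midLowA Band.midUpA).hi (bandMid Band.midLowA Band.midUpA).pole .omL] : List QEx).all (fun q => checkShift mbox3 269 7 4 7 11 q.e) = true := by
  decide +kernel

/-- A check of the piece 3. -/
def m3_omU_lo_0 :
    checkShift mbox3_omU_lo_0 287 7 4 7 11 (mpiece3.env (bandMid Band.midLowA Band.midUpA).lo (bandMid Band.midLowA Band.midUpA).hi (bandMid Band.midLowA Band.midUpA).pole .omU).e = true := by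
  decide +kernel

/-- A check of the piece 3. -/
def m3_omU_lo_1 :
    checkShift mbox3_omU_lo_1 287 7 4 7 11 (mpiece3.env (bandMid Band.midLowA Band.midUpA).lo (bandMid Band.midLowA Band.midUpA).hi (bandMid Band.midLowA Band.midUpA).pole .omU).e = true := by
  decide +kernel

/-- A check of the piece 3. -/
def m3_omU_hi_0 :
    checkShift mbox3_omU_hi_0 287 7 4 7 11 (mpiece3.env (bandMid Band.midLowA Band.midUpA).hi (bandMid Band.midLowA Band.midUpA).hi (bandMid Band.midLowA Band.midUpA).pole .omU).e = true := by
  decide +kernel

/-- A check of the piece 3. -/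
def m3_omU_hi_1 :
    checkShift mbox3_omU_hi_1 287 7 4 7 11 (mpiece3.env (bandMid Band.midLowA Band.midUpA).hi (bandMid Band.midLowA Band.midUpA).hi (bandMid Band.midLowA Band.midUpA).pole .omU).e = true := by
  decide +kernel

/-- Checks of the piece 3. -/
def m3_group15 :
    ([mpiece3.env (bandMid Band.midLowA Band.midUpA).lo (bandMid Band.midLowA Band.midUpA).hi (bandMid Band.midLowA Band.midUpA).pole .tauL,
      mpiece3.env (bandMid Band.midLowA Band.midUpA).hi (bandMid Band.midLowA Band.midUpA).hi (bandMid Band.midLowA Band.midUpA).pole .tauL,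
      mpiece3.env (bandMid Band.midLowA Band.midUpA).lo (bandMid Band.midLowA Band.midUpA).hi (bandMid Band.midLowA Band.midUpA).pole .tauU,
      mpiece3.env (bandMid Band.midLowA Band.midUpA).hi (bandMid Band.midLowA Band.midUpA).hi (bandMid Band.midLowA Band.midUpA).pole .tauU] : List QEx).all (fun q => checkShift mbox3 297 9 4 8 12 q.e) = true := by
  decide +kernel

/-- Checks of the piece 3. -/
def m3_group16 :
    ([xLLGM false (bandMid Band.midLowA Band.midUpA).lo (bandMid Band.midLowA Band.midUpA).pole,
      xLLGM false (bandMid Band.midLowA Band.midUpA).hi (bandMid Band.midLowA Band.midUpA).pole] : List QEx).all (fun q => checkShift mbox3 280 5 4 11 17 q.e) = true := by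
  decide +kernel

/-- Checks of the piece 3. -/
def m3_group17 :
    ([mpiece3.wid - qD 1] : List QEx).all (fun q => checkShift mbox3 66 1 1 1 1 q.e) = true := by
  decide +kernel

/-- Checks of the piece 3. -/
def m3_group18 :
    ([mpiece3.side .rA,
      mpiece3.side .rB] : List QEx).all (fun q => checkShift mbox3 39 1 1 0 0 q.e) = true := by
  decide +kernel

/-- A check of the piece 3. -/
def m3_side_rF_0 :
    checkShift mbox3_side_rF_0 100 2 2 0 0 (mpiece3.side .rF).e = true := by
  decide +kernel

/-- A check of the piece 3. -/
def m3_side_rF_1 :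
    checkShift mbox3_side_rF_1 100 2 2 0 0 (mpiece3.side .rF).e = true := by
  decide +kernel

/-- A check of the piece 3. -/
def m3_side_rF_2 :
    checkShift mbox3_side_rF_2 100 2 2 0 0 (mpiece3.side .rF).e = true := by
  decide +kernel

/-- Checks of the piece 3. -/
def m3_group20 :
    ([mpiece3.side .q] : List QEx).all (fun q => checkShift mbox3 44 0 1 1 2 q.e) = true := by
  decide +kernel

/-- Checks of the piece 3. -/
def m3_group21 :
    ([mpiece3.side .om] : List QEx).all (fun q => checkShift mbox3 129 1 2 4 6 q.e) = true := by
  decide +kernel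

/-- The exit curve on the box of piece 3. -/
def mexit3_check :
    checkShift mexit3Box 80 2 0 1 1 (xExitM Band.midExitA 2 1).e = true := by
  decide +kernel

end Vale.Agent.P100.Calib.Closed.All.Low
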