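import Vale.Agent.P100.Calib.SlabMidSignsPieces

/-!
# Checks of the piece 4
-/

set_option linter.defProp false

namespace Vale.Agent.P100.Calib.Closed.All.Low

/-- Checks of the piece 4. -/
def m4_group0 :
    ([mpiece4.checkM false .g false .lo,
      mpiece4.checkM false .g false .hi,
      mpiece4.checkM false .g false .mid,
      mpiece4.checkM false .g true .lo,
      mpiece4.checkM false .g true .hi,
      mpiece4.checkM false .g true .mid] : List QEx).all (fun q => checkShift mbox4 428 2 7 14 26 q.e) = true := by
  decide +kernel

/-- Checks of the piece 4. -/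
def m4_group1 :
    ([mpiece4.checkM false .n false .lo,
      mpiece4.checkM false .n false .hi,
      mpiece4.checkM false .n false .mid,
      mpiece4.checkM false .n true .lo,
      mpiece4.checkM false .n true .hi,
      mpiece4.checkM false .n true .mid] : List QEx).all (fun q => checkShift mbox4 521 4 8 18 31 q.e) = true := by
  decide +kernel

/-- Checks of the piece 4. -/
def m4_group2 :
    ([mpiece4.checkM false .tlo false .lo,
      mpiece4.checkM false .tlo false .hi,
      mpiece4.checkM false .tlo false .mid,
      mpiece4.checkM false .tlo true .lo,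
      mpiece4.checkM false .tlo true .hi,
      mpiece4.checkM false .tlo true .mid,
      mpiece4.checkM false .thi false .lo,
      mpiece4.checkM false .thi false .hi,
      mpiece4.checkM false .thi false .mid,
      mpiece4.checkM false .thi true .lo,
      mpiece4.checkM false .thi true .hi,
      mpiece4.checkM false .thi true .mid] : List QEx).all (fun q => checkShift mbox4 504 3 9 16 29 q.e) = true := by
  decide +kernel

/-- Checks of the piece 4. -/
def m4_group3 :
    ([mpiece4.checkM false .mlo false .lo,
      mpiece4.checkM false .mlo false .hi,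
      mpiece4.checkM false .mlo false .mid,
      mpiece4.checkM false .mhi false .lo,
      mpiece4.checkM false .mhi false .hi,
      mpiece4.checkM false .mhi false .mid] : List QEx).all (fun q => checkShift mbox4 358 4 5 10 18 q.e) = true := by
  decide +kernel

/-- Checks of the piece 4. -/
def m4_group4 :
    ([mpiece4.checkM false .f false .lo] : List QEx).all (fun q => checkShift mbox4 579 5 11 18 33 q.e) = true := by
  decide +kernel

/-- Checks of the piece 4. -/
def m4_group5 :
    ([mpiece4.checkM false .f false .hi] : List QEx).all (fun q => checkShift mbox4 579 5 11 18 33 q.e) = true := by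
  decide +kernel

/-- Checks of the piece 4. -/
def m4_group6 :
    ([mpiece4.checkM false .f false .mid] : List QEx).all (fun q => checkShift mbox4 600 5 11 18 33 q.e) = true := by
  decide +kernel

/-- Checks of the piece 4. -/
def m4_group7 :
    ([mpiece4.checkM false .f true .lo] : List QEx).all (fun q => checkShift mbox4 579 5 11 18 33 q.e) = true := by
  decide +kernel

/-- Checks of the piece 4. -/
def m4_group8 :
    ([mpiece4.checkM false .f true .hi] : List QEx).all (fun q => checkShift mbox4 579 5 11 18 33 q.e) = true := by
  decide +kernel

/-- Checks of the piece 4. -/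
def m4_group9 :
    ([mpiece4.checkM false .f true .mid] : List QEx).all (fun q => checkShift mbox4 600 5 11 18 33 q.e) = true := by
  decide +kernel

/-- Checks of the piece 4. -/
def m4_group10 :
    ([mpiece4.env bandSmall.lo bandSmall.hi bandSmall.pole .piL,
      mpiece4.env bandSmall.lo bandSmall.hi bandSmall.pole .piU] : List QEx).all (fun q => checkShift mbox4 145 3 2 4 8 q.e) = true := by
  decide +kernel

/-- Checks of the piece 4. -/
def m4_group11 :
    ([mpiece4.env bandSmall.hi bandSmall.hi bandSmall.pole .piL,
      mpiece4.env bandSmall.hi bandSmall.hi bandSmall.pole .piU] : List QEx).all (fun q => checkShift mbox4 149 4 2 4 8 q.e) = true := by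
  decide +kernel

/-- Checks of the piece 4. -/
def m4_group12 :
    ([mpiece4.env bandSmall.lo bandSmall.hi bandSmall.pole .omL] : List QEx).all (fun q => checkShift mbox4 249 5 4 7 12 q.e) = true := by
  decide +kernel

/-- Checks of the piece 4. -/
def m4_group13 :
    ([mpiece4.env bandSmall.hi bandSmall.hi bandSmall.pole .omL,
      mpiece4.env bandSmall.hi bandSmall.hi bandSmall.pole .omU] : List QEx).all (fun q => checkShift mbox4 254 6 4 7 12 q.e) = true := by
  decide +kernel

/-- A check of the piece 4. -/
def m4_omU_lo_0 :
    checkShift mbox4_omU_lo_0 291 5 4 7 12 (mpiece4.env bandSmall.lo bandSmall.hi bandSmall.pole .omU).e = true := by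
  decide +kernel

/-- A check of the piece 4. -/
def m4_omU_lo_1 :
    checkShift mbox4_omU_lo_1 291 5 4 7 12 (mpiece4.env bandSmall.lo bandSmall.hi bandSmall.pole .omU).e = true := by
  decide +kernel

/-- A check of the piece 4. -/
def m4_omU_lo_2 :
    checkShift mbox4_omU_lo_2 291 5 4 7 12 (mpiece4.env bandSmall.lo bandSmall.hi bandSmall.pole .omU).e = true := by
  decide +kernel

/-- A check of the piece 4. -/
def m4_omU_lo_3 :
    checkShift mbox4_omU_lo_3 291 5 4 7 12 (mpiece4.env bandSmall.lo bandSmall.hi bandSmall.pole .omU).e = true := by
  decide +kernel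

/-- A check of the piece 4. -/
def m4_tauL_lo_0 :
    checkShift mbox4_tauL_lo_0 309 7 4 9 15 (mpiece4.env bandSmall.lo bandSmall.hi bandSmall.pole .tauL).e = true := by
  decide +kernel

/-- A check of the piece 4. -/
def m4_tauL_lo_1 :
    checkShift mbox4_tauL_lo_1 309 7 4 9 15 (mpiece4.env bandSmall.lo bandSmall.hi bandSmall.pole .tauL).e = true := by
  decide +kernel

/-- A check of the piece 4. -/
def m4_tauL_hi_0 :
    checkShift mbox4_tauL_hi_0 321 7 4 9 15 (mpiece4.env bandSmall.hi bandSmall.hi bandSmall.pole .tauL).e = true := by
  decide +kernel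

/-- A check of the piece 4. -/
def m4_tauL_hi_1 :
    checkShift mbox4_tauL_hi_1 321 7 4 9 15 (mpiece4.env bandSmall.hi bandSmall.hi bandSmall.pole .tauL).e = true := by
  decide +kernel

/-- A check of the piece 4. -/
def m4_tauL_hi_2 :
    checkShift mbox4_tauL_hi_2 321 7 4 9 15 (mpiece4.env bandSmall.hi bandSmall.hi bandSmall.pole .tauL).e = true := by
  decide +kernel

/-- Checks of the piece 4. -/
def m4_group17 :
    ([mpiece4.env bandSmall.lo bandSmall.hi bandSmall.pole .tauU] : List QEx).all (fun q => checkShift mbox4 283 5 4 9 15 q.e) = true := by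
  decide +kernel

/-- Checks of the piece 4. -/
def m4_group18 :
    ([mpiece4.env bandSmall.hi bandSmall.hi bandSmall.pole .tauU] : List QEx).all (fun q => checkShift mbox4 291 7 4 9 15 q.e) = true := by
  decide +kernel

/-- Checks of the piece 4. -/
def m4_group19 :
    ([xLLGM false bandSmall.lo bandSmall.pole] : List QEx).all (fun q => checkShift mbox4 251 3 4 11 18 q.e) = true := by
  decide +kernel

/-- Checks of the piece 4. -/
def m4_group20 :
    ([xLLGM false bandSmall.hi bandSmall.pole] : List QEx).all (fun q => checkShift mbox4 255 4 4 11 18 q.e) = true := by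
  decide +kernel

/-- Checks of the piece 4. -/
def m4_group21 :
    ([mpiece4.wid - qD 1] : List QEx).all (fun q => checkShift mbox4 65 1 1 1 1 q.e) = true := by
  decide +kernel

/-- Checks of the piece 4. -/
def m4_group22 :
    ([mpiece4.side .rA,
      mpiece4.side .rB] : List QEx).all (fun q => checkShift mbox4 39 1 1 0 0 q.e) = true := by
  decide +kernel

/-- Checks of the piece 4. -/
def m4_group23 :
    ([mpiece4.side .rF] : List QEx).all (fun q => checkShift mbox4 72 2 2 0 0 q.e) = true := by
  decide +kernel

/-- Checks of the piece 4. -/
def m4_group24 :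
    ([mpiece4.side .q] : List QEx).all (fun q => checkShift mbox4 41 0 1 1 2 q.e) = true := by
  decide +kernel

/-- Checks of the piece 4. -/
def m4_group25 :
    ([mpiece4.side .om] : List QEx).all (fun q => checkShift mbox4 122 1 2 4 6 q.e) = true := by
  decide +kernel

/-- The exit curve on the box of piece 4. -/
def mexit4B_check :
    checkShift mexit4BBox 80 2 0 1 1 (xExitM Band.midExitB 61 50).e = true := by
  decide +kernel

/-- The exit curve on the box of piece 4. -/
def mexit4C_check :
    checkShift mexit4CBox 80 2 0 1 1 (xExitM Band.midExitC 61 50).e = true := by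
  decide +kernel

end Vale.Agent.P100.Calib.Closed.All.Low
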