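import Vale.Agent.P100.Calib.SlabMidSignsPieces

/-!
# Checks of the piece 5
-/

set_option linter.defProp false

namespace Vale.Agent.P100.Calib.Closed.All.Low

/-- Checks of the piece 5. -/
def m5_group0 :
    ([mpiece5.checkM false .g false .lo,
      mpiece5.checkM false .g false .hi,
      mpiece5.checkM false .g false .mid,
      mpiece5.checkM false .g true .lo,
      mpiece5.checkM false .g true .hi,
      mpiece5.checkM false .g true .mid] : List QEx).all (fun q => checkShift mbox5 576 2 7 14 26 q.e) = true := by
  decide +kernel

/-- Checks of the piece 5. -/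
def m5_group1 :
    ([mpiece5.checkM false .n false .lo,
      mpiece5.checkM false .n false .hi,
      mpiece5.checkM false .n false .mid,
      mpiece5.checkM false .n true .lo,
      mpiece5.checkM false .n true .hi,
      mpiece5.checkM false .n true .mid] : List QEx).all (fun q => checkShift mbox5 698 4 8 18 31 q.e) = true := by
  decide +kernel

/-- Checks of the piece 5. -/
def m5_group2 :
    ([mpiece5.checkM false .tlo false .lo,
      mpiece5.checkM false .tlo false .hi,
      mpiece5.checkM false .tlo false .mid,
      mpiece5.checkM false .tlo true .lo,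
      mpiece5.checkM false .tlo true .hi,
      mpiece5.checkM false .tlo true .mid,
      mpiece5.checkM false .thi false .lo,
      mpiece5.checkM false .thi false .hi,
      mpiece5.checkM false .thi false .mid,
      mpiece5.checkM false .thi true .lo,
      mpiece5.checkM false .thi true .hi,
      mpiece5.checkM false .thi true .mid] : List QEx).all (fun q => checkShift mbox5 668 3 9 16 29 q.e) = true := by
  decide +kernel

/-- Checks of the piece 5. -/
def m5_group3 :
    ([mpiece5.checkM false .mlo false .lo,
      mpiece5.checkM false .mlo false .hi,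
      mpiece5.checkM false .mlo false .mid,
      mpiece5.checkM false .mhi false .lo,
      mpiece5.checkM false .mhi false .hi,
      mpiece5.checkM false .mhi false .mid] : List QEx).all (fun q => checkShift mbox5 460 4 5 10 18 q.e) = true := by
  decide +kernel

/-- Checks of the piece 5. -/
def m5_group4 :
    ([mpiece5.checkM false .f false .lo] : List QEx).all (fun q => checkShift mbox5 764 5 11 18 33 q.e) = true := by
  decide +kernel

/-- Checks of the piece 5. -/
def m5_group5 :
    ([mpiece5.checkM false .f false .hi] : List QEx).all (fun q => checkShift mbox5 764 5 11 18 33 q.e) = true := by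
  decide +kernel

/-- Checks of the piece 5. -/
def m5_group6 :
    ([mpiece5.checkM false .f false .mid] : List QEx).all (fun q => checkShift mbox5 786 5 11 18 33 q.e) = true := by
  decide +kernel

/-- Checks of the piece 5. -/
def m5_group7 :
    ([mpiece5.checkM false .f true .lo] : List QEx).all (fun q => checkShift mbox5 764 5 11 18 33 q.e) = true := by
  decide +kernel

/-- Checks of the piece 5. -/
def m5_group8 :
    ([mpiece5.checkM false .f true .hi] : List QEx).all (fun q => checkShift mbox5 764 5 11 18 33 q.e) = true := by
  decide +kernel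

/-- Checks of the piece 5. -/
def m5_group9 :
    ([mpiece5.checkM false .f true .mid] : List QEx).all (fun q => checkShift mbox5 786 5 11 18 33 q.e) = true := by
  decide +kernel

/-- Checks of the piece 5. -/
def m5_group10 :
    ([mpiece5.env (bandMid Band.midLowB Band.midUpB).lo (bandMid Band.midLowB Band.midUpB).hi (bandMid Band.midLowB Band.midUpB).pole .piL,
      mpiece5.env (bandMid Band.midLowB Band.midUpB).hi (bandMid Band.midLowB Band.midUpB).hi (bandMid Band.midLowB Band.midUpB).pole .piL,
      mpiece5.env (bandMid Band.midLowB Band.midUpB).lo (bandMid Band.midLowB Band.midUpB).hi (bandMid Band.midLowB Band.midUpB).pole .piU] : List QEx).all (fun q => checkShift mbox5 195 5 2 4 7 q.e) = true := by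
  decide +kernel

/-- A check of the piece 5. -/
def m5_piU_hi_0 :
    checkShift mbox5_piU_hi_0 213 5 2 4 7 (mpiece5.env (bandMid Band.midLowB Band.midUpB).hi (bandMid Band.midLowB Band.midUpB).hi (bandMid Band.midLowB Band.midUpB).pole .piU).e = true := by
  decide +kernel

/-- A check of the piece 5. -/
def m5_piU_hi_1 :
    checkShift mbox5_piU_hi_1 213 5 2 4 7 (mpiece5.env (bandMid Band.midLowB Band.midUpB).hi (bandMid Band.midLowB Band.midUpB).hi (bandMid Band.midLowB Band.midUpB).pole .piU).e = true := by
  decide +kernel

/-- Checks of the piece 5. -/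
def m5_group12 :
    ([mpiece5.env (bandMid Band.midLowB Band.midUpB).lo (bandMid Band.midLowB Band.midUpB).hi (bandMid Band.midLowB Band.midUpB).pole .omL,
      mpiece5.env (bandMid Band.midLowB Band.midUpB).hi (bandMid Band.midLowB Band.midUpB).hi (bandMid Band.midLowB Band.midUpB).pole .omL] : List QEx).all (fun q => checkShift mbox5 322 7 4 7 11 q.e) = true := by
  decide +kernel

/-- A check of the piece 5. -/
def m5_omU_lo_0 :
    checkShift mbox5_omU_lo_0 340 7 4 7 11 (mpiece5.env (bandMid Band.midLowB Band.midUpB).lo (bandMid Band.midLowB Band.midUpB).hi (bandMid Band.midLowB Band.midUpB).pole .omU).e = true := by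
  decide +kernel

/-- A check of the piece 5. -/
def m5_omU_lo_1 :
    checkShift mbox5_omU_lo_1 340 7 4 7 11 (mpiece5.env (bandMid Band.midLowB Band.midUpB).lo (bandMid Band.midLowB Band.midUpB).hi (bandMid Band.midLowB Band.midUpB).pole .omU).e = true := by
  decide +kernel

/-- A check of the piece 5. -/
def m5_omU_hi_0 :
    checkShift mbox5_omU_hi_0 352 7 4 7 11 (mpiece5.env (bandMid Band.midLowB Band.midUpB).hi (bandMid Band.midLowB Band.midUpB).hi (bandMid Band.midLowB Band.midUpB).pole .omU).e = true := by
  decide +kernel

/-- A check of the piece 5. -/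
def m5_omU_hi_1 :
    checkShift mbox5_omU_hi_1 352 7 4 7 11 (mpiece5.env (bandMid Band.midLowB Band.midUpB).hi (bandMid Band.midLowB Band.midUpB).hi (bandMid Band.midLowB Band.midUpB).pole .omU).e = true := by
  decide +kernel

/-- A check of the piece 5. -/
def m5_omU_hi_2 :
    checkShift mbox5_omU_hi_2 352 7 4 7 11 (mpiece5.env (bandMid Band.midLowB Band.midUpB).hi (bandMid Band.midLowB Band.midUpB).hi (bandMid Band.midLowB Band.midUpB).pole .omU).e = true := by
  decide +kernel

/-- A check of the piece 5. -/
def m5_tauL_lo_0 :
    checkShift mbox5_tauL_lo_0 375 9 4 8 12 (mpiece5.env (bandMid Band.midLowB Band.midUpB).lo (bandMid Band.midLowB Band.midUpB).hi (bandMid Band.midLowB Band.midUpB).pole .tauL).e = true := by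
  decide +kernel

/-- A check of the piece 5. -/
def m5_tauL_lo_1 :
    checkShift mbox5_tauL_lo_1 375 9 4 8 12 (mpiece5.env (bandMid Band.midLowB Band.midUpB).lo (bandMid Band.midLowB Band.midUpB).hi (bandMid Band.midLowB Band.midUpB).pole .tauL).e = true := by
  decide +kernel

/-- A check of the piece 5. -/
def m5_tauL_hi_0 :
    checkShift mbox5_tauL_hi_0 375 9 4 8 12 (mpiece5.env (bandMid Band.midLowB Band.midUpB).hi (bandMid Band.midLowB Band.midUpB).hi (bandMid Band.midLowB Band.midUpB).pole .tauL).e = true := by
  decide +kernel

/-- A check of the piece 5. -/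
def m5_tauL_hi_1 :
    checkShift mbox5_tauL_hi_1 375 9 4 8 12 (mpiece5.env (bandMid Band.midLowB Band.midUpB).hi (bandMid Band.midLowB Band.midUpB).hi (bandMid Band.midLowB Band.midUpB).pole .tauL).e = true := by
  decide +kernel

/-- Checks of the piece 5. -/
def m5_group17 :
    ([mpiece5.env (bandMid Band.midLowB Band.midUpB).lo (bandMid Band.midLowB Band.midUpB).hi (bandMid Band.midLowB Band.midUpB).pole .tauU,
      mpiece5.env (bandMid Band.midLowB Band.midUpB).hi (bandMid Band.midLowB Band.midUpB).hi (bandMid Band.midLowB Band.midUpB).pole .tauU] : List QEx).all (fun q => checkShift mbox5 357 9 4 8 12 q.e) = true := by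
  decide +kernel

/-- Checks of the piece 5. -/
def m5_group18 :
    ([xLLGM false (bandMid Band.midLowB Band.midUpB).lo (bandMid Band.midLowB Band.midUpB).pole,
      xLLGM false (bandMid Band.midLowB Band.midUpB).hi (bandMid Band.midLowB Band.midUpB).pole] : List QEx).all (fun q => checkShift mbox5 359 5 4 11 17 q.e) = true := by
  decide +kernel

/-- Checks of the piece 5. -/
def m5_group19 :
    ([mpiece5.wid - qD 1] : List QEx).all (fun q => checkShift mbox5 70 1 1 1 1 q.e) = true := by
  decide +kernel

/-- Checks of the piece 5. -/
def m5_group20 :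
    ([mpiece5.side .rA,
      mpiece5.side .rB] : List QEx).all (fun q => checkShift mbox5 39 1 1 0 0 q.e) = true := by
  decide +kernel

/-- Checks of the piece 5. -/
def m5_group21 :
    ([mpiece5.side .rF] : List QEx).all (fun q => checkShift mbox5 69 2 2 0 0 q.e) = true := by
  decide +kernel

/-- Checks of the piece 5. -/
def m5_group22 :
    ([mpiece5.side .q] : List QEx).all (fun q => checkShift mbox5 52 0 1 1 2 q.e) = true := by
  decide +kernel

/-- Checks of the piece 5. -/
def m5_group23 :
    ([mpiece5.side .om] : List QEx).all (fun q => checkShift mbox5 156 1 2 4 6 q.e) = true := by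
  decide +kernel

/-- The exit curve on the box of piece 5. -/
def mexit5_check :
    checkShift mexit5Box 80 2 0 1 1 (xExitM Band.midExitB 39 25).e = true := by
  decide +kernel

end Vale.Agent.P100.Calib.Closed.All.Low
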