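import Vale.Agent.P100.Calib.SlabMidSignsPieces

/-!
# Checks of the piece 6
-/

set_option linter.defProp false

namespace Vale.Agent.P100.Calib.Closed.All.Low

/-- Checks of the piece 6. -/
def m6_group0 :
    ([mpiece6.checkM false .g false .lo,
      mpiece6.checkM false .g false .hi,
      mpiece6.checkM false .g false .mid,
      mpiece6.checkM false .g true .lo,
      mpiece6.checkM false .g true .hi,
      mpiece6.checkM false .g true .mid] : List QEx).all (fun q => checkShift mbox6 582 2 7 14 26 q.e) = true := by
  decide +kernel

/-- Checks of the piece 6. -/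
def m6_group1 :
    ([mpiece6.checkM false .n false .lo,
      mpiece6.checkM false .n false .hi,
      mpiece6.checkM false .n false .mid,
      mpiece6.checkM false .n true .lo,
      mpiece6.checkM false .n true .hi,
      mpiece6.checkM false .n true .mid] : List QEx).all (fun q => checkShift mbox6 703 4 8 18 31 q.e) = true := by
  decide +kernel

/-- Checks of the piece 6. -/
def m6_group2 :
    ([mpiece6.checkM false .tlo false .lo,
      mpiece6.checkM false .tlo false .hi,
      mpiece6.checkM false .tlo false .mid,
      mpiece6.checkM false .tlo true .lo,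
      mpiece6.checkM false .tlo true .hi,
      mpiece6.checkM false .tlo true .mid,
      mpiece6.checkM false .thi false .lo,
      mpiece6.checkM false .thi false .hi,
      mpiece6.checkM false .thi false .mid,
      mpiece6.checkM false .thi true .lo,
      mpiece6.checkM false .thi true .hi,
      mpiece6.checkM false .thi true .mid] : List QEx).all (fun q => checkShift mbox6 676 3 9 16 29 q.e) = true := by
  decide +kernel

/-- Checks of the piece 6. -/
def m6_group3 :
    ([mpiece6.checkM false .mlo false .lo,
      mpiece6.checkM false .mlo false .hi,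
      mpiece6.checkM false .mlo false .mid,
      mpiece6.checkM false .mhi false .lo,
      mpiece6.checkM false .mhi false .hi,
      mpiece6.checkM false .mhi false .mid] : List QEx).all (fun q => checkShift mbox6 463 4 5 10 18 q.e) = true := by
  decide +kernel

/-- Checks of the piece 6. -/
def m6_group4 :
    ([mpiece6.checkM false .f false .lo] : List QEx).all (fun q => checkShift mbox6 772 5 11 18 33 q.e) = true := by
  decide +kernel

/-- Checks of the piece 6. -/
def m6_group5 :
    ([mpiece6.checkM false .f false .hi] : List QEx).all (fun q => checkShift mbox6 772 5 11 18 33 q.e) = true := by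
  decide +kernel

/-- Checks of the piece 6. -/
def m6_group6 :
    ([mpiece6.checkM false .f false .mid] : List QEx).all (fun q => checkShift mbox6 794 5 11 18 33 q.e) = true := by
  decide +kernel

/-- Checks of the piece 6. -/
def m6_group7 :
    ([mpiece6.checkM false .f true .lo] : List QEx).all (fun q => checkShift mbox6 772 5 11 18 33 q.e) = true := by
  decide +kernel

/-- Checks of the piece 6. -/
def m6_group8 :
    ([mpiece6.checkM false .f true .hi] : List QEx).all (fun q => checkShift mbox6 772 5 11 18 33 q.e) = true := by
  decide +kernel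

/-- Checks of the piece 6. -/
def m6_group9 :
    ([mpiece6.checkM false .f true .mid] : List QEx).all (fun q => checkShift mbox6 794 5 11 18 33 q.e) = true := by
  decide +kernel

/-- A check of the piece 6. -/
def m6_piL_lo_0 :
    checkShift mbox6_piL_lo_0 270 5 2 4 7 (mpiece6.env (bandMid Band.midLowB Band.midUpB).lo (bandMid Band.midLowB Band.midUpB).hi (bandMid Band.midLowB Band.midUpB).pole .piL).e = true := by
  decide +kernel

/-- A check of the piece 6. -/
def m6_piL_lo_1 :
    checkShift mbox6_piL_lo_1 270 5 2 4 7 (mpiece6.env (bandMid Band.midLowB Band.midUpB).lo (bandMid Band.midLowB Band.midUpB).hi (bandMid Band.midLowB Band.midUpB).pole .piL).e = true := by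
  decide +kernel

/-- A check of the piece 6. -/
def m6_piL_lo_2 :
    checkShift mbox6_piL_lo_2 270 5 2 4 7 (mpiece6.env (bandMid Band.midLowB Band.midUpB).lo (bandMid Band.midLowB Band.midUpB).hi (bandMid Band.midLowB Band.midUpB).pole .piL).e = true := by
  decide +kernel

/-- A check of the piece 6. -/
def m6_piL_lo_3 :
    checkShift mbox6_piL_lo_3 270 5 2 4 7 (mpiece6.env (bandMid Band.midLowB Band.midUpB).lo (bandMid Band.midLowB Band.midUpB).hi (bandMid Band.midLowB Band.midUpB).pole .piL).e = true := by
  decide +kernel

/-- A check of the piece 6. -/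
def m6_piL_lo_4 :
    checkShift mbox6_piL_lo_4 270 5 2 4 7 (mpiece6.env (bandMid Band.midLowB Band.midUpB).lo (bandMid Band.midLowB Band.midUpB).hi (bandMid Band.midLowB Band.midUpB).pole .piL).e = true := by
  decide +kernel

/-- A check of the piece 6. -/
def m6_piL_lo_5 :
    checkShift mbox6_piL_lo_5 270 5 2 4 7 (mpiece6.env (bandMid Band.midLowB Band.midUpB).lo (bandMid Band.midLowB Band.midUpB).hi (bandMid Band.midLowB Band.midUpB).pole .piL).e = true := by
  decide +kernel

/-- A check of the piece 6. -/
def m6_piL_lo_6 :
    checkShift mbox6_piL_lo_6 270 5 2 4 7 (mpiece6.env (bandMid Band.midLowB Band.midUpB).lo (bandMid Band.midLowB Band.midUpB).hi (bandMid Band.midLowB Band.midUpB).pole .piL).e = true := by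
  decide +kernel

/-- Checks of the piece 6. -/
def m6_group11 :
    ([mpiece6.env (bandMid Band.midLowB Band.midUpB).hi (bandMid Band.midLowB Band.midUpB).hi (bandMid Band.midLowB Band.midUpB).pole .piL,
      mpiece6.env (bandMid Band.midLowB Band.midUpB).lo (bandMid Band.midLowB Band.midUpB).hi (bandMid Band.midLowB Band.midUpB).pole .piU] : List QEx).all (fun q => checkShift mbox6 192 5 2 4 7 q.e) = true := by
  decide +kernel

/-- A check of the piece 6. -/
def m6_piU_hi_0 :
    checkShift mbox6_piU_hi_0 222 5 2 4 7 (mpiece6.env (bandMid Band.midLowB Band.midUpB).hi (bandMid Band.midLowB Band.midUpB).hi (bandMid Band.midLowB Band.midUpB).pole .piU).e = true := by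
  decide +kernel

/-- A check of the piece 6. -/
def m6_piU_hi_1 :
    checkShift mbox6_piU_hi_1 222 5 2 4 7 (mpiece6.env (bandMid Band.midLowB Band.midUpB).hi (bandMid Band.midLowB Band.midUpB).hi (bandMid Band.midLowB Band.midUpB).pole .piU).e = true := by
  decide +kernel

/-- A check of the piece 6. -/
def m6_piU_hi_2 :
    checkShift mbox6_piU_hi_2 222 5 2 4 7 (mpiece6.env (bandMid Band.midLowB Band.midUpB).hi (bandMid Band.midLowB Band.midUpB).hi (bandMid Band.midLowB Band.midUpB).pole .piU).e = true := by
  decide +kernel

/-- Checks of the piece 6. -/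
def m6_group13 :
    ([mpiece6.env (bandMid Band.midLowB Band.midUpB).lo (bandMid Band.midLowB Band.midUpB).hi (bandMid Band.midLowB Band.midUpB).pole .omL,
      mpiece6.env (bandMid Band.midLowB Band.midUpB).hi (bandMid Band.midLowB Band.midUpB).hi (bandMid Band.midLowB Band.midUpB).pole .omL] : List QEx).all (fun q => checkShift mbox6 321 7 4 7 11 q.e) = true := by
  decide +kernel

/-- A check of the piece 6. -/
def m6_omU_lo_0 :
    checkShift mbox6_omU_lo_0 363 7 4 7 11 (mpiece6.env (bandMid Band.midLowB Band.midUpB).lo (bandMid Band.midLowB Band.midUpB).hi (bandMid Band.midLowB Band.midUpB).pole .omU).e = true := by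
  decide +kernel

/-- A check of the piece 6. -/
def m6_omU_lo_1 :
    checkShift mbox6_omU_lo_1 363 7 4 7 11 (mpiece6.env (bandMid Band.midLowB Band.midUpB).lo (bandMid Band.midLowB Band.midUpB).hi (bandMid Band.midLowB Band.midUpB).pole .omU).e = true := by
  decide +kernel

/-- A check of the piece 6. -/
def m6_omU_lo_2 :
    checkShift mbox6_omU_lo_2 363 7 4 7 11 (mpiece6.env (bandMid Band.midLowB Band.midUpB).lo (bandMid Band.midLowB Band.midUpB).hi (bandMid Band.midLowB Band.midUpB).pole .omU).e = true := by
  decide +kernel

/-- A check of the piece 6. -/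
def m6_omU_lo_3 :
    checkShift mbox6_omU_lo_3 363 7 4 7 11 (mpiece6.env (bandMid Band.midLowB Band.midUpB).lo (bandMid Band.midLowB Band.midUpB).hi (bandMid Band.midLowB Band.midUpB).pole .omU).e = true := by
  decide +kernel

/-- A check of the piece 6. -/
def m6_omU_lo_4 :
    checkShift mbox6_omU_lo_4 363 7 4 7 11 (mpiece6.env (bandMid Band.midLowB Band.midUpB).lo (bandMid Band.midLowB Band.midUpB).hi (bandMid Band.midLowB Band.midUpB).pole .omU).e = true := by
  decide +kernel

/-- A check of the piece 6. -/
def m6_omU_hi_0 :
    checkShift mbox6_omU_hi_0 363 7 4 7 11 (mpiece6.env (bandMid Band.midLowB Band.midUpB).hi (bandMid Band.midLowB Band.midUpB).hi (bandMid Band.midLowB Band.midUpB).pole .omU).e = true := by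
  decide +kernel

/-- A check of the piece 6. -/
def m6_omU_hi_1 :
    checkShift mbox6_omU_hi_1 363 7 4 7 11 (mpiece6.env (bandMid Band.midLowB Band.midUpB).hi (bandMid Band.midLowB Band.midUpB).hi (bandMid Band.midLowB Band.midUpB).pole .omU).e = true := by
  decide +kernel

/-- A check of the piece 6. -/
def m6_omU_hi_2 :
    checkShift mbox6_omU_hi_2 363 7 4 7 11 (mpiece6.env (bandMid Band.midLowB Band.midUpB).hi (bandMid Band.midLowB Band.midUpB).hi (bandMid Band.midLowB Band.midUpB).pole .omU).e = true := by
  decide +kernel

/-- A check of the piece 6. -/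
def m6_omU_hi_3 :
    checkShift mbox6_omU_hi_3 363 7 4 7 11 (mpiece6.env (bandMid Band.midLowB Band.midUpB).hi (bandMid Band.midLowB Band.midUpB).hi (bandMid Band.midLowB Band.midUpB).pole .omU).e = true := by
  decide +kernel

/-- A check of the piece 6. -/
def m6_omU_hi_4 :
    checkShift mbox6_omU_hi_4 363 7 4 7 11 (mpiece6.env (bandMid Band.midLowB Band.midUpB).hi (bandMid Band.midLowB Band.midUpB).hi (bandMid Band.midLowB Band.midUpB).pole .omU).e = true := by
  decide +kernel

/-- A check of the piece 6. -/
def m6_tauL_lo_0 :
    checkShift mbox6_tauL_lo_0 383 9 4 8 12 (mpiece6.env (bandMid Band.midLowB Band.midUpB).lo (bandMid Band.midLowB Band.midUpB).hi (bandMid Band.midLowB Band.midUpB).pole .tauL).e = true := by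
  decide +kernel

/-- A check of the piece 6. -/
def m6_tauL_lo_1 :
    checkShift mbox6_tauL_lo_1 383 9 4 8 12 (mpiece6.env (bandMid Band.midLowB Band.midUpB).lo (bandMid Band.midLowB Band.midUpB).hi (bandMid Band.midLowB Band.midUpB).pole .tauL).e = true := by
  decide +kernel

/-- A check of the piece 6. -/
def m6_tauL_lo_2 :
    checkShift mbox6_tauL_lo_2 383 9 4 8 12 (mpiece6.env (bandMid Band.midLowB Band.midUpB).lo (bandMid Band.midLowB Band.midUpB).hi (bandMid Band.midLowB Band.midUpB).pole .tauL).e = true := by
  decide +kernel

/-- A check of the piece 6. -/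
def m6_tauL_hi_0 :
    checkShift mbox6_tauL_hi_0 383 9 4 8 12 (mpiece6.env (bandMid Band.midLowB Band.midUpB).hi (bandMid Band.midLowB Band.midUpB).hi (bandMid Band.midLowB Band.midUpB).pole .tauL).e = true := by
  decide +kernel

/-- A check of the piece 6. -/
def m6_tauL_hi_1 :
    checkShift mbox6_tauL_hi_1 383 9 4 8 12 (mpiece6.env (bandMid Band.midLowB Band.midUpB).hi (bandMid Band.midLowB Band.midUpB).hi (bandMid Band.midLowB Band.midUpB).pole .tauL).e = true := by
  decide +kernel

/-- A check of the piece 6. -/
def m6_tauL_hi_2 :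
    checkShift mbox6_tauL_hi_2 383 9 4 8 12 (mpiece6.env (bandMid Band.midLowB Band.midUpB).hi (bandMid Band.midLowB Band.midUpB).hi (bandMid Band.midLowB Band.midUpB).pole .tauL).e = true := by
  decide +kernel

/-- Checks of the piece 6. -/
def m6_group18 :
    ([mpiece6.env (bandMid Band.midLowB Band.midUpB).lo (bandMid Band.midLowB Band.midUpB).hi (bandMid Band.midLowB Band.midUpB).pole .tauU,
      mpiece6.env (bandMid Band.midLowB Band.midUpB).hi (bandMid Band.midLowB Band.midUpB).hi (bandMid Band.midLowB Band.midUpB).pole .tauU] : List QEx).all (fun q => checkShift mbox6 353 9 4 8 12 q.e) = true := by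
  decide +kernel

/-- Checks of the piece 6. -/
def m6_group19 :
    ([xLLGM false (bandMid Band.midLowB Band.midUpB).lo (bandMid Band.midLowB Band.midUpB).pole,
      xLLGM false (bandMid Band.midLowB Band.midUpB).hi (bandMid Band.midLowB Band.midUpB).pole] : List QEx).all (fun q => checkShift mbox6 359 5 4 11 17 q.e) = true := by
  decide +kernel

/-- Checks of the piece 6. -/
def m6_group20 :
    ([mpiece6.wid - qD 1] : List QEx).all (fun q => checkShift mbox6 71 1 1 1 1 q.e) = true := by
  decide +kernel

/-- Checks of the piece 6. -/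
def m6_group21 :
    ([mpiece6.side .rA,
      mpiece6.side .rB] : List QEx).all (fun q => checkShift mbox6 39 1 1 0 0 q.e) = true := by
  decide +kernel

/-- Checks of the piece 6. -/
def m6_group22 :
    ([mpiece6.side .rF] : List QEx).all (fun q => checkShift mbox6 71 2 2 0 0 q.e) = true := by
  decide +kernel

/-- Checks of the piece 6. -/
def m6_group23 :
    ([mpiece6.side .q] : List QEx).all (fun q => checkShift mbox6 53 0 1 1 2 q.e) = true := by
  decide +kernel

/-- Checks of the piece 6. -/
def m6_group24 :
    ([mpiece6.side .om] : List QEx).all (fun q => checkShift mbox6 157 1 2 4 6 q.e) = true := by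
  decide +kernel

/-- The exit curve on the box of piece 6. -/
def mexit6_check :
    checkShift mexit6Box 80 2 0 1 1 (xExitM Band.midExitB 103 50).e = true := by
  decide +kernel

end Vale.Agent.P100.Calib.Closed.All.Low
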