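import Vale.Agent.P100.Calib.SlabMidSignsPieces

/-!
# Checks of the piece 7
-/

set_option linter.defProp false

namespace Vale.Agent.P100.Calib.Closed.All.Low

/-- Checks of the piece 7. -/
def m7_group0 :
    ([mpiece7.checkM false .g false .lo,
      mpiece7.checkM false .g false .hi,
      mpiece7.checkM false .g false .mid,
      mpiece7.checkM false .g true .lo,
      mpiece7.checkM false .g true .hi,
      mpiece7.checkM false .g true .mid] : List QEx).all (fun q => checkShift mbox7 606 2 7 14 26 q.e) = true := by
  decide +kernel

/-- Checks of the piece 7. -/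
def m7_group1 :
    ([mpiece7.checkM false .n false .lo,
      mpiece7.checkM false .n false .hi,
      mpiece7.checkM false .n false .mid,
      mpiece7.checkM false .n true .lo,
      mpiece7.checkM false .n true .hi,
      mpiece7.checkM false .n true .mid] : List QEx).all (fun q => checkShift mbox7 740 4 8 18 31 q.e) = true := by
  decide +kernel

/-- Checks of the piece 7. -/
def m7_group2 :
    ([mpiece7.checkM false .tlo false .lo,
      mpiece7.checkM false .tlo false .hi,
      mpiece7.checkM false .tlo false .mid,
      mpiece7.checkM false .tlo true .lo,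
      mpiece7.checkM false .tlo true .hi,
      mpiece7.checkM false .tlo true .mid,
      mpiece7.checkM false .thi false .lo,
      mpiece7.checkM false .thi false .hi,
      mpiece7.checkM false .thi false .mid,
      mpiece7.checkM false .thi true .lo,
      mpiece7.checkM false .thi true .hi,
      mpiece7.checkM false .thi true .mid] : List QEx).all (fun q => checkShift mbox7 706 3 9 16 29 q.e) = true := by
  decide +kernel

/-- Checks of the piece 7. -/
def m7_group3 :
    ([mpiece7.checkM false .mlo false .lo,
      mpiece7.checkM false .mlo false .hi,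
      mpiece7.checkM false .mlo false .mid,
      mpiece7.checkM false .mhi false .lo,
      mpiece7.checkM false .mhi false .hi,
      mpiece7.checkM false .mhi false .mid] : List QEx).all (fun q => checkShift mbox7 488 4 5 10 18 q.e) = true := by
  decide +kernel

/-- Checks of the piece 7. -/
def m7_group4 :
    ([mpiece7.checkM false .f false .lo] : List QEx).all (fun q => checkShift mbox7 812 5 11 18 33 q.e) = true := by
  decide +kernel

/-- Checks of the piece 7. -/
def m7_group5 :
    ([mpiece7.checkM false .f false .hi] : List QEx).all (fun q => checkShift mbox7 812 5 11 18 33 q.e) = true := by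
  decide +kernel

/-- Checks of the piece 7. -/
def m7_group6 :
    ([mpiece7.checkM false .f false .mid] : List QEx).all (fun q => checkShift mbox7 833 5 11 18 33 q.e) = true := by
  decide +kernel

/-- Checks of the piece 7. -/
def m7_group7 :
    ([mpiece7.checkM false .f true .lo] : List QEx).all (fun q => checkShift mbox7 812 5 11 18 33 q.e) = true := by
  decide +kernel

/-- Checks of the piece 7. -/
def m7_group8 :
    ([mpiece7.checkM false .f true .hi] : List QEx).all (fun q => checkShift mbox7 812 5 11 18 33 q.e) = true := by
  decide +kernel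

/-- Checks of the piece 7. -/
def m7_group9 :
    ([mpiece7.checkM false .f true .mid] : List QEx).all (fun q => checkShift mbox7 833 5 11 18 33 q.e) = true := by
  decide +kernel

/-- Checks of the piece 7. -/
def m7_group10 :
    ([mpiece7.env (bandMid Band.midLowC Band.midUpC).lo (bandMid Band.midLowC Band.midUpC).hi (bandMid Band.midLowC Band.midUpC).pole .piL,
      mpiece7.env (bandMid Band.midLowC Band.midUpC).hi (bandMid Band.midLowC Band.midUpC).hi (bandMid Band.midLowC Band.midUpC).pole .piL,
      mpiece7.env (bandMid Band.midLowC Band.midUpC).lo (bandMid Band.midLowC Band.midUpC).hi (bandMid Band.midLowC Band.midUpC).pole .piU] : List QEx).all (fun q => checkShift mbox7 214 5 2 4 7 q.e) = true := by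
  decide +kernel

/-- A check of the piece 7. -/
def m7_piU_hi_0 :
    checkShift mbox7_piU_hi_0 232 5 2 4 7 (mpiece7.env (bandMid Band.midLowC Band.midUpC).hi (bandMid Band.midLowC Band.midUpC).hi (bandMid Band.midLowC Band.midUpC).pole .piU).e = true := by
  decide +kernel

/-- A check of the piece 7. -/
def m7_piU_hi_1 :
    checkShift mbox7_piU_hi_1 232 5 2 4 7 (mpiece7.env (bandMid Band.midLowC Band.midUpC).hi (bandMid Band.midLowC Band.midUpC).hi (bandMid Band.midLowC Band.midUpC).pole .piU).e = true := by
  decide +kernel

/-- Checks of the piece 7. -/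
def m7_group12 :
    ([mpiece7.env (bandMid Band.midLowC Band.midUpC).lo (bandMid Band.midLowC Band.midUpC).hi (bandMid Band.midLowC Band.midUpC).pole .omL,
      mpiece7.env (bandMid Band.midLowC Band.midUpC).hi (bandMid Band.midLowC Band.midUpC).hi (bandMid Band.midLowC Band.midUpC).pole .omL] : List QEx).all (fun q => checkShift mbox7 353 7 4 7 11 q.e) = true := by
  decide +kernel

/-- A check of the piece 7. -/
def m7_omU_lo_0 :
    checkShift mbox7_omU_lo_0 371 7 4 7 11 (mpiece7.env (bandMid Band.midLowC Band.midUpC).lo (bandMid Band.midLowC Band.midUpC).hi (bandMid Band.midLowC Band.midUpC).pole .omU).e = true := by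
  decide +kernel

/-- A check of the piece 7. -/
def m7_omU_lo_1 :
    checkShift mbox7_omU_lo_1 371 7 4 7 11 (mpiece7.env (bandMid Band.midLowC Band.midUpC).lo (bandMid Band.midLowC Band.midUpC).hi (bandMid Band.midLowC Band.midUpC).pole .omU).e = true := by
  decide +kernel

/-- A check of the piece 7. -/
def m7_omU_hi_0 :
    checkShift mbox7_omU_hi_0 383 7 4 7 11 (mpiece7.env (bandMid Band.midLowC Band.midUpC).hi (bandMid Band.midLowC Band.midUpC).hi (bandMid Band.midLowC Band.midUpC).pole .omU).e = true := by
  decide +kernel

/-- A check of the piece 7. -/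
def m7_omU_hi_1 :
    checkShift mbox7_omU_hi_1 383 7 4 7 11 (mpiece7.env (bandMid Band.midLowC Band.midUpC).hi (bandMid Band.midLowC Band.midUpC).hi (bandMid Band.midLowC Band.midUpC).pole .omU).e = true := by
  decide +kernel

/-- A check of the piece 7. -/
def m7_omU_hi_2 :
    checkShift mbox7_omU_hi_2 383 7 4 7 11 (mpiece7.env (bandMid Band.midLowC Band.midUpC).hi (bandMid Band.midLowC Band.midUpC).hi (bandMid Band.midLowC Band.midUpC).pole .omU).e = true := by
  decide +kernel

/-- A check of the piece 7. -/
def m7_tauL_lo_0 :
    checkShift mbox7_tauL_lo_0 425 9 4 8 12 (mpiece7.env (bandMid Band.midLowC Band.midUpC).lo (bandMid Band.midLowC Band.midUpC).hi (bandMid Band.midLowC Band.midUpC).pole .tauL).e = true := by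
  decide +kernel

/-- A check of the piece 7. -/
def m7_tauL_lo_1 :
    checkShift mbox7_tauL_lo_1 425 9 4 8 12 (mpiece7.env (bandMid Band.midLowC Band.midUpC).lo (bandMid Band.midLowC Band.midUpC).hi (bandMid Band.midLowC Band.midUpC).pole .tauL).e = true := by
  decide +kernel

/-- A check of the piece 7. -/
def m7_tauL_lo_2 :
    checkShift mbox7_tauL_lo_2 425 9 4 8 12 (mpiece7.env (bandMid Band.midLowC Band.midUpC).lo (bandMid Band.midLowC Band.midUpC).hi (bandMid Band.midLowC Band.midUpC).pole .tauL).e = true := by
  decide +kernel

/-- A check of the piece 7. -/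
def m7_tauL_hi_0 :
    checkShift mbox7_tauL_hi_0 425 9 4 8 12 (mpiece7.env (bandMid Band.midLowC Band.midUpC).hi (bandMid Band.midLowC Band.midUpC).hi (bandMid Band.midLowC Band.midUpC).pole .tauL).e = true := by
  decide +kernel

/-- A check of the piece 7. -/
def m7_tauL_hi_1 :
    checkShift mbox7_tauL_hi_1 425 9 4 8 12 (mpiece7.env (bandMid Band.midLowC Band.midUpC).hi (bandMid Band.midLowC Band.midUpC).hi (bandMid Band.midLowC Band.midUpC).pole .tauL).e = true := by
  decide +kernel

/-- A check of the piece 7. -/
def m7_tauL_hi_2 :
    checkShift mbox7_tauL_hi_2 425 9 4 8 12 (mpiece7.env (bandMid Band.midLowC Band.midUpC).hi (bandMid Band.midLowC Band.midUpC).hi (bandMid Band.midLowC Band.midUpC).pole .tauL).e = true := by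
  decide +kernel

/-- Checks of the piece 7. -/
def m7_group17 :
    ([mpiece7.env (bandMid Band.midLowC Band.midUpC).lo (bandMid Band.midLowC Band.midUpC).hi (bandMid Band.midLowC Band.midUpC).pole .tauU,
      mpiece7.env (bandMid Band.midLowC Band.midUpC).hi (bandMid Band.midLowC Band.midUpC).hi (bandMid Band.midLowC Band.midUpC).pole .tauU] : List QEx).all (fun q => checkShift mbox7 395 9 4 8 12 q.e) = true := by
  decide +kernel

/-- Checks of the piece 7. -/
def m7_group18 :
    ([xLLGM false (bandMid Band.midLowC Band.midUpC).lo (bandMid Band.midLowC Band.midUpC).pole,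
      xLLGM false (bandMid Band.midLowC Band.midUpC).hi (bandMid Band.midLowC Band.midUpC).pole] : List QEx).all (fun q => checkShift mbox7 391 5 4 11 17 q.e) = true := by
  decide +kernel

/-- Checks of the piece 7. -/
def m7_group19 :
    ([mpiece7.wid - qD 1] : List QEx).all (fun q => checkShift mbox7 75 1 1 1 1 q.e) = true := by
  decide +kernel

/-- Checks of the piece 7. -/
def m7_group20 :
    ([mpiece7.side .rA,
      mpiece7.side .rB] : List QEx).all (fun q => checkShift mbox7 42 1 1 0 0 q.e) = true := by
  decide +kernel

/-- Checks of the piece 7. -/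
def m7_group21 :
    ([mpiece7.side .rF] : List QEx).all (fun q => checkShift mbox7 77 2 2 0 0 q.e) = true := by
  decide +kernel

/-- Checks of the piece 7. -/
def m7_group22 :
    ([mpiece7.side .q] : List QEx).all (fun q => checkShift mbox7 54 0 1 1 2 q.e) = true := by
  decide +kernel

/-- Checks of the piece 7. -/
def m7_group23 :
    ([mpiece7.side .om] : List QEx).all (fun q => checkShift mbox7 166 1 2 4 6 q.e) = true := by
  decide +kernel

/-- The exit curve on the box of piece 7. -/
def mexit7_check :
    checkShift mexit7Box 80 2 0 1 1 (xExitM Band.midExitC 79 50).e = true := by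
  decide +kernel

end Vale.Agent.P100.Calib.Closed.All.Low
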