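import Vale.Agent.P100.Calib.SlabMidSignsPieces

/-!
# Checks of the piece 9
-/

set_option linter.defProp false

namespace Vale.Agent.P100.Calib.Closed.All.Low

/-- Checks of the piece 9. -/
def m9_group0 :
    ([mpiece9.checkM false .g false .lo,
      mpiece9.checkM false .g false .hi,
      mpiece9.checkM false .g false .mid,
      mpiece9.checkM false .g true .lo,
      mpiece9.checkM false .g true .hi,
      mpiece9.checkM false .g true .mid] : List QEx).all (fun q => checkShift mbox9 585 2 7 14 26 q.e) = true := by
  decide +kernel

/-- Checks of the piece 9. -/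
def m9_group1 :
    ([mpiece9.checkM false .n false .lo,
      mpiece9.checkM false .n false .hi,
      mpiece9.checkM false .n false .mid,
      mpiece9.checkM false .n true .lo,
      mpiece9.checkM false .n true .hi,
      mpiece9.checkM false .n true .mid] : List QEx).all (fun q => checkShift mbox9 716 4 8 18 31 q.e) = true := by
  decide +kernel

/-- Checks of the piece 9. -/
def m9_group2 :
    ([mpiece9.checkM false .tlo false .lo,
      mpiece9.checkM false .tlo false .hi,
      mpiece9.checkM false .tlo false .mid,
      mpiece9.checkM false .tlo true .lo,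
      mpiece9.checkM false .tlo true .hi,
      mpiece9.checkM false .tlo true .mid,
      mpiece9.checkM false .thi false .lo,
      mpiece9.checkM false .thi false .hi,
      mpiece9.checkM false .thi false .mid,
      mpiece9.checkM false .thi true .lo,
      mpiece9.checkM false .thi true .hi,
      mpiece9.checkM false .thi true .mid] : List QEx).all (fun q => checkShift mbox9 681 3 9 16 29 q.e) = true := by
  decide +kernel

/-- Checks of the piece 9. -/
def m9_group3 :
    ([mpiece9.checkM false .mlo false .lo,
      mpiece9.checkM false .mlo false .hi,
      mpiece9.checkM false .mlo false .mid,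
      mpiece9.checkM false .mhi false .lo,
      mpiece9.checkM false .mhi false .hi,
      mpiece9.checkM false .mhi false .mid] : List QEx).all (fun q => checkShift mbox9 471 4 5 10 18 q.e) = true := by
  decide +kernel

/-- Checks of the piece 9. -/
def m9_group4 :
    ([mpiece9.checkM false .f false .lo] : List QEx).all (fun q => checkShift mbox9 783 5 11 18 33 q.e) = true := by
  decide +kernel

/-- Checks of the piece 9. -/
def m9_group5 :
    ([mpiece9.checkM false .f false .hi] : List QEx).all (fun q => checkShift mbox9 783 5 11 18 33 q.e) = true := by
  decide +kernel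

/-- Checks of the piece 9. -/
def m9_group6 :
    ([mpiece9.checkM false .f false .mid] : List QEx).all (fun q => checkShift mbox9 804 5 11 18 33 q.e) = true := by
  decide +kernel

/-- Checks of the piece 9. -/
def m9_group7 :
    ([mpiece9.checkM false .f true .lo] : List QEx).all (fun q => checkShift mbox9 783 5 11 18 33 q.e) = true := by
  decide +kernel

/-- Checks of the piece 9. -/
def m9_group8 :
    ([mpiece9.checkM false .f true .hi] : List QEx).all (fun q => checkShift mbox9 783 5 11 18 33 q.e) = true := by
  decide +kernel

/-- Checks of the piece 9. -/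
def m9_group9 :
    ([mpiece9.checkM false .f true .mid] : List QEx).all (fun q => checkShift mbox9 804 5 11 18 33 q.e) = true := by
  decide +kernel

/-- Checks of the piece 9. -/
def m9_group10 :
    ([mpiece9.env bandSmall.lo bandSmall.hi bandSmall.pole .piL,
      mpiece9.env bandSmall.lo bandSmall.hi bandSmall.pole .piU] : List QEx).all (fun q => checkShift mbox9 195 3 2 4 8 q.e) = true := by
  decide +kernel

/-- Checks of the piece 9. -/
def m9_group11 :
    ([mpiece9.env bandSmall.hi bandSmall.hi bandSmall.pole .piL,
      mpiece9.env bandSmall.hi bandSmall.hi bandSmall.pole .piU] : List QEx).all (fun q => checkShift mbox9 201 4 2 4 8 q.e) = true := by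
  decide +kernel

/-- Checks of the piece 9. -/
def m9_group12 :
    ([mpiece9.env bandSmall.lo bandSmall.hi bandSmall.pole .omL,
      mpiece9.env bandSmall.lo bandSmall.hi bandSmall.pole .omU] : List QEx).all (fun q => checkShift mbox9 330 5 4 7 12 q.e) = true := by
  decide +kernel

/-- Checks of the piece 9. -/
def m9_group13 :
    ([mpiece9.env bandSmall.hi bandSmall.hi bandSmall.pole .omL,
      mpiece9.env bandSmall.hi bandSmall.hi bandSmall.pole .omU] : List QEx).all (fun q => checkShift mbox9 336 6 4 7 12 q.e) = true := by
  decide +kernel

/-- A check of the piece 9. -/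
def m9_tauL_lo_0 :
    checkShift mbox9_tauL_lo_0 411 7 4 9 15 (mpiece9.env bandSmall.lo bandSmall.hi bandSmall.pole .tauL).e = true := by
  decide +kernel

/-- A check of the piece 9. -/
def m9_tauL_lo_1 :
    checkShift mbox9_tauL_lo_1 411 7 4 9 15 (mpiece9.env bandSmall.lo bandSmall.hi bandSmall.pole .tauL).e = true := by
  decide +kernel

/-- A check of the piece 9. -/
def m9_tauL_hi_0 :
    checkShift mbox9_tauL_hi_0 411 7 4 9 15 (mpiece9.env bandSmall.hi bandSmall.hi bandSmall.pole .tauL).e = true := by
  decide +kernel

/-- A check of the piece 9. -/
def m9_tauL_hi_1 :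
    checkShift mbox9_tauL_hi_1 411 7 4 9 15 (mpiece9.env bandSmall.hi bandSmall.hi bandSmall.pole .tauL).e = true := by
  decide +kernel

/-- Checks of the piece 9. -/
def m9_group16 :
    ([mpiece9.env bandSmall.lo bandSmall.hi bandSmall.pole .tauU] : List QEx).all (fun q => checkShift mbox9 382 5 4 9 15 q.e) = true := by
  decide +kernel

/-- Checks of the piece 9. -/
def m9_group17 :
    ([mpiece9.env bandSmall.hi bandSmall.hi bandSmall.pole .tauU] : List QEx).all (fun q => checkShift mbox9 393 7 4 9 15 q.e) = true := by
  decide +kernel

/-- Checks of the piece 9. -/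
def m9_group18 :
    ([xLLGM false bandSmall.lo bandSmall.pole] : List QEx).all (fun q => checkShift mbox9 366 3 4 11 18 q.e) = true := by
  decide +kernel

/-- Checks of the piece 9. -/
def m9_group19 :
    ([xLLGM false bandSmall.hi bandSmall.pole] : List QEx).all (fun q => checkShift mbox9 371 4 4 11 18 q.e) = true := by
  decide +kernel

/-- Checks of the piece 9. -/
def m9_group20 :
    ([mpiece9.wid - qD 1] : List QEx).all (fun q => checkShift mbox9 74 1 1 1 1 q.e) = true := by
  decide +kernel

/-- Checks of the piece 9. -/
def m9_group21 :
    ([mpiece9.side .rA,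
      mpiece9.side .rB] : List QEx).all (fun q => checkShift mbox9 40 1 1 0 0 q.e) = true := by
  decide +kernel

/-- Checks of the piece 9. -/
def m9_group22 :
    ([mpiece9.side .rF] : List QEx).all (fun q => checkShift mbox9 75 2 2 0 0 q.e) = true := by
  decide +kernel

/-- Checks of the piece 9. -/
def m9_group23 :
    ([mpiece9.side .q] : List QEx).all (fun q => checkShift mbox9 53 0 1 1 2 q.e) = true := by
  decide +kernel

/-- Checks of the piece 9. -/
def m9_group24 :
    ([mpiece9.side .om] : List QEx).all (fun q => checkShift mbox9 162 1 2 4 6 q.e) = true := by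
  decide +kernel

/-- The exit curve on the box of piece 9. -/
def mexit9_check :
    checkShift mexit9Box 80 2 0 1 1 (xExitM Band.midExitC 61 50).e = true := by
  decide +kernel

end Vale.Agent.P100.Calib.Closed.All.Low
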