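import Vale.Agent.P100.Calib.SlabAllSignsSound
import Vale.Agent.P100.Calib.SlabMidSignsBlock

/-!
# The checked quantities between the bounds of a piece, with the flag of `D2 = 0`
-/

set_option linter.unusedVariables false
set_option linter.unusedSimpArgs false

namespace Vale.Agent.P100.Calib.Closed.All.Low

/-- All checks of a piece hold at a point. -/
structure Piece.HoldsM (P : Piece) (z : Bool) (o : PtR) : Prop where
  forms : ∀ q h k, 0 ≤ (P.checkM z q h k).val o.x
  side : ∀ e, 0 ≤ (P.side e).val o.x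
  nums : 0 ≤ P.rA ∧ 0 ≤ P.rB ∧ 0 ≤ P.rF ∧ 0 ≤ P.qa ∧ 0 ≤ P.qb ∧ 0 ≤ P.wom ∧ 0 ≤ P.wtau

variable (P : Piece) (z : Bool) (o : PtR)

/-- A checked quantity at `θ` on an edge. -/
noncomputable def Piece.phiM (q : Kind) (high : Bool) (θ : ℝ) : ℝ :=
  (P.comb o q).atM z o (P.edge o q.low high θ)

/-- What a check subtracts. -/
noncomputable def Piece.extM : Kind → ℝ
  | .g => 1 / 1000 * (o.I * o.d ^ 2) ^ 2
  | .f => (P.rF : ℝ) / 1000 * ((P.qa : ℝ) / 1000 + (P.qb : ℝ) / 1000 * o.I) * o.s1 ^ 2 * P.slackR o +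
      1 / 1000 * (o.I * o.d ^ 2) ^ 2
  | .tlo => (P.rA : ℝ) / 1000 * o.s1 * P.slackR o
  | .thi => (P.rB : ℝ) / 1000 * o.s1 * P.slackR o
  | _ => 0

variable {P z o}

theorem Piece.quad_edgeM (h : o.Pos) (q : Kind) (high : Bool) :
    IsQuad (P.phiM z o q high) := by
  have e : P.phiM z o q high = fun θ =>
      (P.comb o q).atM z o ((P.edge o q.low high 0).seg (P.edge o q.low high 1) θ) := by
    funext θ
    have : P.edge o q.low high θ = (P.edge o q.low high 0).seg (P.edge o q.low high 1) θ := by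
      have hb := h.b_pos.ne'
      have hd := h.d_pos.ne'
      have hI := h.I_pos.ne'
      have hs := h.s1_pos.ne'
      simp only [Piece.edge, Nums.seg, PtR.nums, Nums.mk.injEq, Piece.piR, Piece.omR, Piece.tauR,
        PtR.r, PtR.gom, PtR.gam, seg]
      refine ⟨?_, ?_, ?_, ?_, ?_, ?_⟩ <;> field_simp <;> ring
    rw [Piece.phiM, this]
  rw [e]
  exact Comb.quadM _ _ _ _ _

theorem Piece.bernM_le (H : P.HoldsM z o) (h : o.Pos) (q : Kind) (high : Bool) {θ : ℝ}
    (h0 : 0 ≤ θ) (h1 : θ ≤ 1) : P.extM o q ≤ P.phiM z o q high θ := by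
  obtain ⟨-, -, -, eI, ed, -, -, -, -, -, e1, -⟩ := o.vals
  have ev : ∀ k, (P.form (P.atmM z q.low high k) q).val o.x =
      P.phiM z o q high (match k with | .lo => 0 | .hi => 1 | .mid => 1 / 2) := by
    intro k
    rw [Piece.atmM, Piece.atm, formM_val P z h]
    simp only [Piece.phiM, Piece.edge]
    cases k <;> cases q.low <;> cases high <;>
      simp only [cond_true, cond_false, Piece.piAt, Piece.endAt, Piece.piR, Piece.omR, Piece.tauR,
        val_sub, val_add, val_mul, val_dec, seg] <;>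
      push_cast <;> ring_nf
  have ex : ∀ k, (P.bernM z q high k).val o.x - P.extM o q = (P.checkM z q high k).val o.x := by
    intro k
    cases q <;> simp only [Piece.checkM, Piece.extM, val_sub, val_mul, val_pow, val_add, val_num,
      val_dec, eI, e1, ed, P.slack_val] <;> push_cast <;> ring
  have k0 : P.extM o q ≤ P.phiM z o q high 0 := by
    have := H.forms q high .lo
    rw [← ex] at this
    simp only [Piece.bernM, ev] at this
    linarith
  have k2 : P.extM o q ≤ P.phiM z o q high 1 := by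
    have := H.forms q high .hi
    rw [← ex] at this
    simp only [Piece.bernM, ev] at this
    linarith
  have k1 : P.extM o q ≤
      2 * P.phiM z o q high (1 / 2) - (P.phiM z o q high 0 + P.phiM z o q high 1) / 2 := by
    have := H.forms q high .mid
    rw [← ex] at this
    simp only [Piece.bernM, ev, val_sub, val_mul, val_add, val_num, val_dec] at this
    push_cast at this
    linarith
  rw [Piece.quad_edgeM h q high θ]
  have t : 0 ≤ 1 - θ := by linarith
  nlinarith [mul_le_mul_of_nonneg_left k0 (sq_nonneg (1 - θ)),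
    mul_le_mul_of_nonneg_left k1 (mul_nonneg (mul_nonneg (zero_le_two (α := ℝ)) h0) t),
    mul_le_mul_of_nonneg_left k2 (sq_nonneg θ)]

/-- The bound that a quantity keeps between the bounds: positive for `g` and `f`. -/
noncomputable def Kind.floorM (o : PtR) : Kind → ℝ
  | .g | .f => 1 / 1000 * (o.I * o.d ^ 2) ^ 2
  | _ => 0

theorem Piece.slope_signM (H : P.HoldsM z o) (h : o.Pos) (q : Kind) :
    (q.low = true → 0 ≤ (P.comb o q).slope o) ∧ (q.low = false → (P.comb o q).slope o ≤ 0) := by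
  have := h.a_pos; have := h.d_pos; have := h.v_pos; have := h.I_pos; have := h.b_pos
  have := h.s1_pos; have := h.s2_pos
  have hQ : 0 < 1 + o.d * o.v := h.Q_pos
  have hI2 : 1 - 2 * o.a - o.d = 2 * o.I := by simp only [PtR.d]; ring
  have hb : o.a + o.d = o.b := by simp only [PtR.b, PtR.d]; ring
  have hp : 0 ≤ o.v * (2 * o.a ^ 2 * o.d + 3 * o.a * o.d ^ 2 + o.a * o.d + o.d ^ 3 + o.d ^ 2) +
      4 * o.a ^ 2 + 6 * o.a * o.d + 2 * o.a + 2 * o.d ^ 2 + 2 * o.d := by positivity
  refine ⟨fun hl => ?_, fun hl => ?_⟩ <;> cases q <;> simp [Kind.low] at hl <;>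
    simp only [Comb.slope, Piece.comb, hb, hI2] at hp ⊢
  · simp only [zero_mul, add_zero, sub_zero]; positivity
  · simp only [zero_mul, sub_self, mul_zero, zero_add]; positivity
  · simp
  · simp
  · simp
  · simp only [zero_mul, sub_self, mul_zero, zero_add, neg_mul, mul_neg, neg_nonpos]; positivity
  · have hs := H.side .om
    obtain ⟨-, -, ea, eI, ed, eb, ev, eQ, -, -, -, -⟩ := o.vals
    simp only [Piece.side, val_add, val_mul, val_sub, val_pow, val_num, val_dec, ea, eI, ed, eb,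
      ev, eQ, PtR.Q] at hs
    push_cast at hs
    have k0 : 0 ≤ (o.s1 * o.s2) ^ 2 / o.a ^ 3 * 16 * o.I * o.a ^ 3 * o.b ^ 4 * o.v := by
      positivity
    refine le_of_eq_of_le ?_ (neg_nonpos.2 (mul_nonneg k0 hs))
    ring

theorem Piece.HoldsM.between (H : P.HoldsM z o) (h : o.Pos) (q : Kind) {θ ω τ : ℝ} (h0 : 0 ≤ θ)
    (h1 : θ ≤ 1) (w0 : P.omR o θ - (P.wom : ℝ) / 1000 ≤ ω) (w1 : ω ≤ P.omR o θ)
    (t0 : P.tauR o θ ≤ τ) (t1 : τ ≤ P.tauR o θ + (P.wtau : ℝ) / 1000) :
    Kind.floorM o q ≤ (P.comb o q).atM z o (o.nums (P.piR o θ) ω τ) := by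
  set ω₀ := P.omR o θ - cond q.low ((P.wom : ℝ) / 1000) 0 with hω₀
  have step : Kind.floorM o q ≤ (P.comb o q).atM z o (o.nums (P.piR o θ) ω₀ τ) := by
    have hw : (0 : ℝ) ≤ (P.wtau : ℝ) / 1000 := by
      have : (0 : ℝ) ≤ P.wtau := by exact_mod_cast H.nums.2.2.2.2.2.2
      positivity
    obtain ⟨s, s0, s1, rfl⟩ : ∃ s, 0 ≤ s ∧ s ≤ 1 ∧
        τ = seg s (P.tauR o θ + 0) (P.tauR o θ + (P.wtau : ℝ) / 1000) := by
      rcases hw.eq_or_lt with e | e
      · exact ⟨0, le_rfl, zero_le_one, by simp only [seg]; linarith⟩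
      · refine ⟨(τ - P.tauR o θ) / ((P.wtau : ℝ) / 1000), div_nonneg (by linarith) hw,
          (div_le_one e).2 (by linarith), ?_⟩
        have : (P.wtau : ℝ) ≠ 0 := fun h => by simp [h] at e
        simp only [seg]; field_simp; ring
    rw [Comb.tauM _ _ _ _ _ _ _ _ h.d_pos.ne',
      show P.tauR o θ + (P.wtau : ℝ) / 1000 - (P.tauR o θ + 0) = (P.wtau : ℝ) / 1000 by ring]
    set C := Closed.j1 o.a o.d * o.a ^ 3 * o.b * o.Q *
      (6 / 5 * ((P.wtau : ℝ) / 1000) * o.v * o.D0) ^ 2 with hC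
    have hj : 0 < Closed.j1 o.a o.d := by
      have := h.a_pos; have := h.d_pos; simp only [Closed.j1]; linarith
    have C0 : 0 ≤ C := by
      have := h.a_pos; have := h.b_pos; have := h.Q_pos; positivity
    have q0 : 0 ≤ s * (1 - s) := mul_nonneg s0 (by linarith)
    have q1 : s * (1 - s) * C ≤ 1 / 4 * C :=
      mul_le_mul_of_nonneg_right (by nlinarith [sq_nonneg (s - 1 / 2)]) C0
    have line := seg_le (P.bernM_le H h q false h0 h1) (P.bernM_le H h q true h0 h1) s0 s1
    simp only [Piece.phiM, Piece.edge, cond_true, cond_false, ← hω₀] at line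
    refine le_trans ?_ (add_le_add line (le_refl _))
    have qC := mul_nonneg q0 C0
    have hs : P.slackR o = o.s2 ^ 2 / o.a ^ 3 * (1 / 4 * C) := by
      have := h.a_pos.ne'
      simp only [Piece.slackR, hC]; field_simp
    have hr := H.side
    obtain ⟨-, -, -, eI, -, -, -, -, -, -, -, -⟩ := o.vals
    have hra := hr .rA
    have hrb := hr .rB
    have hrf := hr .rF
    simp only [Piece.side, val_add, val_sub, val_mul, val_dec] at hra hrb hrf
    obtain ⟨nA, nB, nF, na, nb, -, -⟩ := H.nums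
    have hk : 0 ≤ o.s1 * o.s2 ^ 2 / o.a ^ 3 := by
      have := h.a_pos; have := h.s1_pos; positivity
    have gap : ∀ r R : ℝ, 0 ≤ R → r ≤ R →
        0 ≤ R * (o.s1 * o.s2 ^ 2 / o.a ^ 3) * (1 / 4 * C) -
          r * (o.s1 * o.s2 ^ 2 / o.a ^ 3) * (s * (1 - s) * C) := by
      intro r R hR hrR
      have := mul_le_mul_of_nonneg_left q1 (mul_nonneg hR hk)
      have := mul_le_mul_of_nonneg_right (mul_le_mul_of_nonneg_right hrR hk) qC
      linarith
    cases q <;> simp only [Piece.extM, Kind.floorM, Piece.comb, hs]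
    · have : 0 ≤ o.s2 ^ 2 / o.a ^ 3 * (s * (1 - s) * C) :=
        mul_nonneg (by have := h.a_pos; positivity) qC
      linarith
    · simp
    · have := gap _ _ (by positivity : (0 : ℝ) ≤ (P.rA : ℝ) / 1000) (sub_nonneg.1 hra)
      ring_nf at this ⊢
      linarith
    · have := gap (-(P.r₁.ex P.o).val o.x) _ (by positivity : (0 : ℝ) ≤ (P.rB : ℝ) / 1000)
        (by linarith)
      ring_nf at this ⊢
      linarith
    · simp
    · simp
    · have hq : 0 ≤ (P.qa : ℝ) / 1000 + (P.qb : ℝ) / 1000 * o.I := by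
        have := h.I_pos; positivity
      have := mul_nonneg (mul_nonneg hq h.s1_pos.le)
        (gap (-((P.r₀.ex P.o).val o.x * (P.r₁.ex P.o).val o.x)) _
          (by positivity : (0 : ℝ) ≤ (P.rF : ℝ) / 1000) (by linarith))
      ring_nf at this ⊢
      linarith
  rw [(P.comb o q).omegaM z o _ ω₀]
  obtain ⟨s0, s1⟩ := P.slope_signM H h q
  rcases hb : q.low with _ | _
  · have : ω - ω₀ ≤ 0 := by rw [hω₀, hb, cond_false]; linarith
    linarith [mul_nonneg_of_nonpos_of_nonpos this (s1 hb)]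
  · have : 0 ≤ ω - ω₀ := by rw [hω₀, hb, cond_true]; linarith
    linarith [mul_nonneg this (s0 hb)]

end Vale.Agent.P100.Calib.Closed.All.Low
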