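import Vale.Agent.P100.Calib.SlabAllSignsRay
import Vale.Agent.P100.Calib.SlabMidSignsSound

/-!
# The closed signs from a piece that holds at a point, dimensions from seven to twenty
-/

set_option linter.unusedVariables false
set_option linter.unusedSimpArgs false

namespace Vale.Agent.P100.Calib.Closed.All.Low

section
variable {P : Piece} {B : BandEx} {o : PtR} {H : ℝ}

/-- The signs at `g = 1`. -/
theorem Piece.HoldsM.signs_one {z : Bool} (hP : P.HoldsM z o) (h : o.Pos) {θ ω τ : ℝ} (h0 : 0 ≤ θ) (h1 : θ ≤ 1)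
    (w0 : P.omR o θ - (P.wom : ℝ) / 1000 ≤ ω) (w1 : ω ≤ P.omR o θ)
    (t0 : P.tauR o θ ≤ τ) (t1 : τ ≤ P.tauR o θ + (P.wtau : ℝ) / 1000)
    (hr : 0 < o.r (P.piR o θ)) (hE : (o.nums (P.piR o θ) ω τ).E < 0) :
    let n := o.nums (P.piR o θ) ω τ
    0 < o.blkM z ClosedGen.TGGS n ∧ 0 < o.blkM z ClosedGen.TMMS n ∧
      0 < o.blkM z ClosedGen.TArrowS n ∧ 0 ≤ o.blkM z ClosedGen.TMGS n := by
  intro n
  have B' := fun q => hP.between h q h0 h1 w0 w1 t0 t1
  have ha := h.a_pos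
  have hb := h.b_pos
  have hI := h.I_pos
  have hQ := h.Q_pos
  have hs1 := h.s1_pos
  have hs2 := h.s2_pos
  have hab : o.a + o.d = o.b := by simp only [PtR.b, PtR.d]; ring
  have kg : 0 < o.s2 ^ 2 / o.a ^ 3 := by positivity
  have kt : 0 < o.s1 * o.s2 ^ 2 / o.a ^ 3 := by positivity
  have kn : 0 < (o.s1 * o.s2) ^ 2 / o.a ^ 3 := by positivity
  have ke : 0 < o.s1 * o.s2 / o.a := by positivity
  have I2 : (0 : ℝ) < 1 / 1000 * (o.I * o.d ^ 2) ^ 2 := by
    have := h.d_pos; positivity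
  have bg := B' .g; have bn := B' .n; have bl := B' .tlo; have bh := B' .thi
  have ml := B' .mlo; have mh := B' .mhi; have bf := B' .f
  simp only [Kind.floorM, Comb.atM, Piece.comb, zero_mul, add_zero, zero_add]
    at bg bn bl bh ml mh bf
  set G := o.blkM z ClosedGen.TGGS n
  set T := o.blkM z ClosedGen.TEGS n
  set A := o.blkM z ClosedGen.TAS n
  set N := o.blkM z ClosedGen.TMGS n
  set E := o.blkM z ClosedGen.TMES n
  set M := o.blkM z ClosedGen.TMMS n with hM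
  have G0 : 0 < G := pos_of_mul_pos_right (I2.trans_le bg) kg.le
  have M0 : 0 < M := by
    have : M = n.p * -n.E * (2 * o.I * o.Q) := by
      simp only [hM, PtR.blkM, PtR.numM, Nums.num, ClosedGen.TMMS, ClosedGen.TMM_w, PtR.Q]
      rw [show o.I = (1 - 2 * o.a - o.d) / 2 by simp only [PtR.d]; ring]
      ring
    rw [this]
    have hp : 0 < n.p := div_pos hr hb
    have : 0 < -n.E := neg_pos.2 hE
    positivity
  refine ⟨G0, M0, ?_, nonneg_of_mul_nonneg_right bn kn⟩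
  have hq := hP.side .q
  obtain ⟨-, -, -, eI, -, -, -, eQ, -, -, -, -⟩ := o.vals
  simp only [Piece.side, val_add, val_sub, val_mul, val_dec, eI, eQ] at hq
  refine lt_of_lt_of_eq (arrow_pos (T := T) (E := E) (A := A) (r₀ := (P.r₀.ex P.o).val o.x)
    (r₁ := (P.r₁.ex P.o).val o.x) (m₀ := (P.m₀.ex P.o).val o.x) (m₁ := (P.m₁.ex P.o).val o.x)
    (d := o.d) G0 M0 ha hb hI hQ
    (by linarith : o.Q ≤ (P.qa : ℝ) / 1000 + (P.qb : ℝ) / 1000 * o.I) ?_ ?_ ?_ ?_ ?_) ?_
  · refine sub_nonneg.1 (nonneg_of_mul_nonneg_right (le_of_le_of_eq bl ?_) kt)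
    ring
  · refine sub_nonneg.1 (nonneg_of_mul_nonneg_right (le_of_le_of_eq bh ?_) kt)
    ring
  · refine sub_nonneg.1 (nonneg_of_mul_nonneg_right (le_of_le_of_eq ml ?_) ke)
    field_simp
    ring
  · refine sub_nonneg.1 (nonneg_of_mul_nonneg_right (le_of_le_of_eq mh ?_) ke)
    field_simp
    ring
  · refine pos_of_mul_pos_right (lt_of_lt_of_le I2 (le_of_le_of_eq bf ?_)) kn.le
    ring
  · simp only [G, T, A, E, hM, PtR.blkM, PtR.numM, Nums.num, ClosedGen.TArrowS, PtR.Q, hab]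

end

section
variable {d S u v t : ℝ}

/-- The facts of the chart used at a point of `0 < u`. -/
structure BasicM (z : Bool) (d S u v t : ℝ) : Prop where
  d_pos : 0 < d
  S_lt : S < 1
  one : 1 + d ≤ 2 * S
  a_le : (S - d) / 2 ≤ 31 / 100
  S_low : 5 / 7 ≤ S
  u_pos : 0 < u
  u_lt : u < 1
  v_pos : 0 < v
  H_pos : 0 < chH d S u v t
  h_lt : d * chH d S u v t < 1
  r_lt : (S - d) * v < 2
  drift : 2 * S * (1 - (S - d) / 2 * v) / ((1 - S) * ((S + d) / 2)) <
    chG d S u v t * chH d S u v t / 2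
  D2_eq : (allNum ((S - d) / 2) d v (chW d S u v t) (chR S u)).D2 = (ptOf d S u v).D2M z

variable {z : Bool} (hB : BasicM z d S u v t)
include hB

theorem BasicM.pos : (ptOf d S u v).Pos := by
  obtain ⟨e1, -, -, -⟩ := ptOf_eqs (d := d) (u := u) (v := v) hB.S_lt
  refine ⟨hB.u_pos.le, div_pos hB.v_pos (by linarith [hB.S_lt]), ?_, ?_, ?_, by
    rw [e1]; exact hB.d_pos⟩ <;> simp only [ptOf] <;>
    linarith [hB.S_lt, hB.one, hB.S_low, hB.d_pos]

theorem BasicM.den_pos : 0 < (ptOf d S u v).den (chH d S u v t) := by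
  obtain ⟨e1, -, ev, -⟩ := ptOf_eqs (d := d) (u := u) (v := v) hB.S_lt
  have h1 := mul_pos hB.u_pos (sub_pos.2 hB.h_lt)
  have h2 := mul_pos hB.d_pos hB.v_pos
  simp only [PtR.den, PtR.D0, e1, ev, show (ptOf d S u v).u = u from rfl]
  linarith [hB.u_lt]

theorem BasicM.gap_pos : 0 < 1 - d * u * chH d S u v t := by
  have h1 := mul_pos hB.u_pos (sub_pos.2 hB.h_lt)
  linarith [hB.u_lt]

theorem BasicM.chG_pos : 0 < chG d S u v t := by
  have := hB.S_lt; have := hB.S_low; have := hB.d_pos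
  have h1 : 0 < 1 - (S - d) / 2 * v := by linarith [hB.r_lt]
  have h2 : 0 < 2 * S * (1 - (S - d) / 2 * v) / ((1 - S) * ((S + d) / 2)) :=
    div_pos (mul_pos (by linarith) h1) (mul_pos (by linarith) (by linarith))
  exact pos_of_mul_pos_left (b := chH d S u v t) (by linarith [hB.drift]) hB.H_pos.le

theorem BasicM.qn_pos : 0 < (ptOf d S u v).qn := by
  obtain ⟨e1, eb, ev, eS⟩ := ptOf_eqs (d := d) (u := u) (v := v) hB.S_lt
  have h := hB.chG_pos
  have hden := hB.den_pos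
  have hS1 : 0 < 1 - S := by linarith [hB.S_lt]
  have hb : 0 < (S + d) / 2 := by linarith [hB.S_low, hB.d_pos]
  simp only [PtR.den, PtR.D0, e1, ev, show (ptOf d S u v).u = u from rfl] at hden
  simp only [PtR.qn, PtR.D0, PtR.Q, e1, eb, ev, eS, show (ptOf d S u v).u = u from rfl]
  simp only [chG] at h
  rw [lt_div_iff₀ (mul_pos (mul_pos hS1 hb) (by linarith))] at h
  linarith

/-- The numbers of the chart through `(pi, g W1/I, tau)`. -/
theorem BasicM.nums_eq :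
    let o := ptOf d S u v
    let H := chH d S u v t
    let g := chG d S u v t
    let N := allNum ((S - d) / 2) d v (chW d S u v t) (chR S u)
    let n := o.nums (o.piH H) (o.omH H) (o.tauH H)
    g * chW d S u v t = n.p ∧ g * chW1 d S u v t = n.w ∧ g * N.E = n.E ∧ g * N.K = n.K ∧
      N.G = n.G ∧ N.G1 = n.G1 := by
  intro o H g N n
  obtain ⟨e1, eb, ev, eS⟩ : o.d = d ∧ o.b = (S + d) / 2 ∧ o.v = v ∧ o.S = S := ptOf_eqs hB.S_lt
  have hS1 : 1 - S ≠ 0 := by linarith [hB.S_lt]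
  have hS0 : S ≠ 0 := by linarith [hB.S_low]
  have hd : d ≠ 0 := hB.d_pos.ne'
  have hu : u ≠ 0 := hB.u_pos.ne'
  have hb : S + d ≠ 0 := by linarith [hB.S_low, hB.d_pos]
  have h2 : 2 - S ≠ 0 := by linarith [hB.S_lt]
  have hden : 2 + d * v - u * d * H ≠ 0 := by
    have h : 0 < o.den H := hB.den_pos
    simp only [PtR.den, PtR.D0, e1, ev, show o.u = u from rfl] at h
    exact h.ne'
  have hden' : 2 + d * v - d * u * H ≠ 0 := by rwa [mul_comm d u]
  have hD : 2 + d * v ≠ 0 := by have := mul_pos hB.d_pos hB.v_pos; linarith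
  have hQ : 1 + d * v ≠ 0 := by have := mul_pos hB.d_pos hB.v_pos; linarith
  have eT : chR S u * d * chW d S u v t = u * d * H := by
    simp only [chR, chW, H]; field_simp
  have eg : g = 4 * o.qn / ((1 - S) * ((S + d) / 2) * (2 + d * v - d * u * H)) := by
    simp only [g, chG, PtR.qn, PtR.D0, PtR.Q, e1, eb, ev, eS, show o.u = u from rfl, H]
  have et : t = (H - S * (1 + (1 - (S - d) / 2) * v) / ((S + d) / 2 * (2 - S))) / u := by
    simp only [H, chH]; field_simp; ring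
  have eW1 : chW1 d S u v t = (1 - S) / S *
      (H * ((S - d) / 2 - (1 - (S - d) / 2) * d * v) / ((S + d) / 2) - (2 - S) / S *
        ((H - S * (1 + (1 - (S - d) / 2) * v) / ((S + d) / 2 * (2 - S))) / u)) := by
    rw [← et]; rfl
  have eN : dimAll ((S - d) / 2) d = 2 / (1 - S) := by
    simp only [dimAll]; congr 1; ring
  have eW : chW d S u v t = (1 - S) / S * H := rfl
  have ea : o.a = (S - d) / 2 := rfl
  have eI : o.I = (1 - S) / 2 := rfl
  have eu : o.u = u := rfl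
  simp only [N, n]
  clear_value o H g
  simp only [allNum, eT, eN, show (S - d) / 2 + d = (S + d) / 2 by ring]
  simp only [PtR.nums, PtR.piH, PtR.omH, PtR.tauH, PtR.gam, PtR.gom, PtR.r,
    PtR.den, PtR.s1, PtR.D0, PtR.Q, e1, eb, ev, eS, eg, eW1,
    eu, ea, eI, eW]
  simp only [PtR.qn, PtR.D0, PtR.Q, e1, eb, ev, eS, eu]
  refine ⟨?_, ?_, ?_, ?_, ?_, ?_⟩ <;> field_simp <;> ring

theorem BasicM.E_neg :
    ((ptOf d S u v).nums ((ptOf d S u v).piH (chH d S u v t))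
      ((ptOf d S u v).omH (chH d S u v t)) ((ptOf d S u v).tauH (chH d S u v t))).E < 0 ∧
    0 < (ptOf d S u v).r ((ptOf d S u v).piH (chH d S u v t)) := by
  set o := ptOf d S u v with ho
  set H := chH d S u v t with hH
  obtain ⟨e1, eb, ev, eS⟩ : o.d = d ∧ o.b = (S + d) / 2 ∧ o.v = v ∧ o.S = S :=
    ptOf_eqs hB.S_lt
  have hp := hB.pos
  have hd := hB.den_pos
  have hq := hB.qn_pos
  have hg := hB.gap_pos
  have hI := hp.I_pos
  have hS := hp.S_pos
  have hD := hp.D0_pos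
  have hQ := hp.Q_pos
  have eu : o.u = u := rfl
  simp only [← ho, ← hH] at hp hd hq hI hS hD hQ
  have er : o.r (o.piH H) = 4 * o.qn * H / (o.S * o.den H) := by
    simp only [PtR.r, PtR.piH]
    field_simp
    ring
  have eG : o.gam (o.piH H) = 4 * o.qn * o.D0 / o.den H := by
    simp only [PtR.gam, er]
    rw [show o.D0 * o.b - o.S * o.u * o.Q = o.qn from rfl]
    field_simp
    simp only [PtR.den]
    ring
  have eO : o.gom (o.piH H) = 4 * o.qn * o.D0 / o.den H * (1 - d * u * H) := by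
    have eD : o.den H = o.D0 - u * d * H := by simp only [PtR.den, eu, e1]
    simp only [PtR.gom, eG, er, eu, e1]
    field_simp
  refine ⟨?_, by rw [er]; have := hB.H_pos; positivity⟩
  simp only [PtR.nums, eO, eG]
  have c0 : 0 < 1 - 3 * o.I - 2 * o.a ^ 2 := by
    have h1 : o.I ≤ 1 / 7 := by simp only [ho, ptOf]; linarith [hB.S_low]
    have h2 := pow_le_pow_left₀ hp.a_pos.le (show o.a ≤ 31 / 100 from hB.a_le) 2
    linarith
  have hG : 0 < 4 * o.qn * o.D0 / o.den H := by positivity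
  refine div_neg_of_neg_of_pos ?_ (mul_pos (mul_pos hp.s1_pos hp.d_pos) hI)
  have := mul_pos (mul_pos (mul_pos c0 hI) hQ) hG
  have := mul_pos hG hg
  linarith

end

/-- The affine lower bound of `p d S ^ 2/a` times the ray gap, in the numerator `n` of the band. -/
noncomputable def rayAtM (z : Bool) (o : PtR) (n p : ℝ) : ℝ :=
  let a := o.a
  let d := o.d
  let v := o.v
  let I := o.I
  let E := -2 * (1 - 3 * I - 2 * a ^ 2) * I * o.Q * p - 5 / 2 * (p - d * (o.u * n))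
  d * o.S ^ 2 *
      (o.b * v * o.D0 * o.Q * (Closed.LLGc a d v 0 0 * p +
          (Closed.LLGc a d v 1 1 - Closed.LLGc a d v 0 0) * (o.u * n)) +
        (-1 + 2 * a + 1 / 2 * I) * I * v * o.D0 ^ 2 * (Closed.LLGv a d v 0 0 * p +
          (Closed.LLGv a d v 1 1 - Closed.LLGv a d v 0 0) * (o.u * n)) +
        2 * v * d * o.D0 * (o.u * n) * (1 + 2 * I) *
          (-o.b * o.Q * I * (1 - 3 * a - I) - 3 / 10)) +
    o.Q * o.S ^ 2 *
      (E * (v * (8 * a ^ 2 * d + 12 * a * d ^ 2 - 4 * a * d + 4 * d ^ 3 - 4 * d ^ 2) +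
          16 * a ^ 2 + 24 * a * d - 8 * a + 8 * d ^ 2 - 8 * d) -
        5 / 2 * (d * (p - d * (o.u * n))) * (o.S * o.u * (v * (4 * v * d + 8))) +
        E * (o.S * o.u * (o.X * (v * (-2 * a * d ^ 3 + 2 * a * d ^ 2 - d ^ 4 + 2 * d ^ 3 - d ^ 2) +
          16 * a ^ 2 * d + 12 * a * d ^ 2 - 8 * a * d + 2 * d ^ 3 - 2 * d ^ 2) + 8 * I))) +
    cond z 0 (o.S ^ 2 - 2 * a * (1 - I)) * o.D0 ^ 2 * o.Q * (2 * o.S * o.u * I) * E

theorem val_xLLGM (z : Bool) (o : PtR) (n p : QEx) :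
    (xLLGM z n p).val o.x = rayAtM z o (n.val o.x) (p.val o.x) := by
  obtain ⟨eu, eX, ea, eI, ed, eb, ev, eQ, eD, eS, -, -⟩ := o.vals
  cases z <;> simp only [xLLGM, xD2, cond_true, cond_false, xdE, xc0, xe2, xC0, xC1, xV0a, xV0b, xV1, xEa, xEb, xRa, xRb, rayAtM,
    Closed.LLGc, Closed.LLGv, val_add, val_sub, val_mul, val_pow, val_num, val_dec,
    eu, eX, ea, eI, ed, eb, ev, eQ, eD, eS] <;>
    push_cast <;> ring

/-- The ray gap, times `p d S ^ 2/a`, and its lower bound. -/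
theorem rayM_id (z : Bool) {a d b v u I S X R H p : ℝ} (hd : d = 1 - 2 * I - 2 * a) (hb : b = 1 - 2 * I - a)
    (hv : v = 2 * I * X) (hS : S = 1 - 2 * I) (hR : R = S * u / (2 * I)) (a0 : a ≠ 0) (b0 : b ≠ 0)
    (d0 : d ≠ 0) (I0 : I ≠ 0) (S0 : S ≠ 0) (Q0 : 1 + d * v ≠ 0) {W : ℝ} (hW : W * R = u * H)
    (o : PtR) (ho : o = ⟨u, X, a, I⟩) (g W1 : ℝ) :
    rayAtM z o (H * p) p + 2 * v * d * (2 + d * v) * (u * H) * (2 - 2 * a - d) * (d * S ^ 2) *
        (3 / 10) * (d * (u * H)) * p =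
      p * d * S ^ 2 / a * ClosedGen.LLGS a d v g W W1 R
        ⟨a * (a + d), -(1 - 2 * a - 1 / 2 * I) * I,
          (-2 * (1 - 3 * I - 2 * a ^ 2) * I * (1 + d * v) - 5 / 2 * (1 - u * d * H)) / d,
          -(5 / 2) * (1 - u * d * H),
          (-a * (1 - 3 * a - I) * I - 3 / 10 * (a / b) * ((1 - u * d * H) / (1 + d * v))) / d ^ 2,
          -(3 / 10) * (a / b) * ((1 - u * d * H) / (1 + d * v)) / d ^ 2,
          cond z 0 (S ^ 2 - 2 * a * (1 - I)) / (S ^ 2 * d ^ 2)⟩ := by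
  have hab : a + d = b := by rw [hd, hb]; ring
  have eI : 2 * a + d - 1 = -(2 * I) := by rw [hd]; ring
  set E := (-2 * (1 - 3 * I - 2 * a ^ 2) * I * (1 + d * v) - 5 / 2 * (1 - u * d * H)) / d with hE
  set dE := -2 * (1 - 3 * I - 2 * a ^ 2) * I * (1 + d * v) * p - 5 / 2 * (p - d * (u * (H * p)))
    with hdE
  have eE : E * (p * d) = dE := by rw [hE, hdE]; field_simp
  have t1 : p * d * S ^ 2 / a * (a * (a + d) * v * (2 + d * v) * (1 + d * v) *
      Closed.LLGc a d v W R) = d * S ^ 2 * (b * v * (2 + d * v) * (1 + d * v) *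
        (Closed.LLGc a d v 0 0 * p +
          (Closed.LLGc a d v 1 1 - Closed.LLGc a d v 0 0) * (u * (H * p)))) := by
    rw [hab, ← mul_assoc u H, ← hW]
    field_simp
    simp only [Closed.LLGc]
    ring
  have t2 : p * d * S ^ 2 / a * (-(1 - 2 * a - 1 / 2 * I) * I * a * v * (2 + d * v) ^ 2 *
      Closed.LLGv a d v W R) = d * S ^ 2 * ((-1 + 2 * a + 1 / 2 * I) * I * v * (2 + d * v) ^ 2 *
        (Closed.LLGv a d v 0 0 * p +
          (Closed.LLGv a d v 1 1 - Closed.LLGv a d v 0 0) * (u * (H * p)))) := by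
    rw [← mul_assoc u H, ← hW]
    field_simp
    simp only [Closed.LLGv]
    ring
  have t3 : p * d * S ^ 2 / a * (a * (1 + d * v) *
      Closed.LLGw a d v R E (-(5 / 2) * (1 - u * d * H))) = (1 + d * v) * S ^ 2 *
        (dE * (v * (8 * a ^ 2 * d + 12 * a * d ^ 2 - 4 * a * d + 4 * d ^ 3 - 4 * d ^ 2) +
            16 * a ^ 2 + 24 * a * d - 8 * a + 8 * d ^ 2 - 8 * d) -
          5 / 2 * (d * (p - d * (u * (H * p)))) * (S * u * (v * (4 * v * d + 8))) +
          dE * (S * u * (X * (v * (-2 * a * d ^ 3 + 2 * a * d ^ 2 - d ^ 4 + 2 * d ^ 3 - d ^ 2) +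
            16 * a ^ 2 * d + 12 * a * d ^ 2 - 8 * a * d + 2 * d ^ 3 - 2 * d ^ 2) + 8 * I))) := by
    rw [← eE, hR]
    simp only [Closed.LLGw]
    field_simp
    rw [hv, hd]
    ring
  have t4 : p * d * S ^ 2 / a * (2 * ((-a * (1 - 3 * a - I) * I -
        3 / 10 * (a / b) * ((1 - u * d * H) / (1 + d * v))) / d ^ 2) * (a + d) * v * d ^ 3 *
      (2 + d * v) * (1 + d * v) * (W * R * (-2 * a - d + 2))) =
      d * S ^ 2 * (2 * v * d * (2 + d * v) * (u * (H * p)) * (1 + 2 * I) *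
          (-b * (1 + d * v) * I * (1 - 3 * a - I) - 3 / 10)) +
        2 * v * d * (2 + d * v) * (u * H) * (2 - 2 * a - d) * (d * S ^ 2) * (3 / 10) *
          (d * (u * H)) * p := by
    rw [hW, hab, show -2 * a - d + 2 = 1 + 2 * I by rw [hd]; ring,
      show 2 - 2 * a - d = 1 + 2 * I by rw [hd]; ring]
    field_simp
    ring
  have t5 : p * d * S ^ 2 / a * (cond z 0 (S ^ 2 - 2 * a * (1 - I)) / (S ^ 2 * d ^ 2) * a * d ^ 2 *
      (2 + d * v) ^ 2 * (1 + d * v) * (R * E * (4 * a ^ 2 + 4 * a * d - 4 * a + d ^ 2 - 2 * d + 1))) =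
      cond z 0 (S ^ 2 - 2 * a * (1 - I)) * (2 + d * v) ^ 2 * (1 + d * v) * (2 * S * u * I) * dE := by
    rw [← eE, hR, show 4 * a ^ 2 + 4 * a * d - 4 * a + d ^ 2 - 2 * d + 1 = (2 * a + d - 1) ^ 2 by ring,
      eI]
    field_simp
  simp only [ClosedGen.LLGS, ClosedGen.LG_g, ClosedGen.LG_kw]
  rw [mul_add (p * d * S ^ 2 / a), mul_add (p * d * S ^ 2 / a), mul_add (p * d * S ^ 2 / a),
    mul_add (p * d * S ^ 2 / a), t1, t2, t3, t4, t5]
  subst ho
  simp only [rayAtM, PtR.Q, PtR.D0, PtR.d, PtR.b, PtR.v, PtR.S]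
  rw [hdE, hb, hS, hd, hv]
  ring

/-- **The ray gap is nonnegative between the bands.** -/
theorem llgM_nonneg {z : Bool} {d S u v t : ℝ} {B : BandEx} (hB : BasicM z d S u v t)
    (hA : (ptOf d S u v).Adm B (chH d S u v t))
    (lo : 0 ≤ (xLLGM z B.lo B.pole).val (ptOf d S u v).x)
    (hi : 0 ≤ (xLLGM z B.hi B.pole).val (ptOf d S u v).x) :
    0 ≤ ClosedGen.LLGS ((S - d) / 2) d v (chG d S u v t) (chW d S u v t) (chW1 d S u v t) (chR S u)
      (allNum ((S - d) / 2) d v (chW d S u v t) (chR S u)) := by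
  set o := ptOf d S u v with ho
  obtain ⟨e1, eb, ev, eS⟩ : o.d = d ∧ o.b = (S + d) / 2 ∧ o.v = v ∧ o.S = S := ptOf_eqs hB.S_lt
  have hD2 : (allNum ((S - d) / 2) d v (chW d S u v t) (chR S u)).D2 = o.D2M z := hB.D2_eq
  rw [val_xLLGM] at lo hi
  set H := chH d S u v t with hH
  set p := B.pole.val o.x with hp
  set nl := B.lo.val o.x
  set nh := B.hi.val o.x
  have hp0 : 0 < p := hA.pole_pos
  have mid : 0 ≤ rayAtM z o (H * p) p := by
    rcases (hA.lo.trans hA.hi).eq_or_lt with e | e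
    · rw [le_antisymm (e ▸ hA.hi) hA.lo]; exact lo
    · have key : (nh - nl) * rayAtM z o (H * p) p =
          (nh - H * p) * rayAtM z o nl p + (H * p - nl) * rayAtM z o nh p := by
        simp only [rayAtM]; ring
      refine nonneg_of_mul_nonneg_right (a := nh - nl) (key ▸ ?_) (sub_pos.2 e)
      exact add_nonneg (mul_nonneg (sub_nonneg.2 hA.hi) lo) (mul_nonneg (sub_nonneg.2 hA.lo) hi)
  have hpp := hB.pos
  have hS1 : 1 - S ≠ 0 := by linarith [hB.S_lt]
  have hS0 : 0 < S := by linarith [hB.S_low]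
  have hd := hB.d_pos
  have ha : 0 < (S - d) / 2 := hpp.a_pos
  have hv := hB.v_pos
  have hb : 0 < (S + d) / 2 := by linarith
  have hI : 0 < (1 - S) / 2 := by linarith [hB.S_lt]
  have hQ : 0 < 1 + d * v := by positivity
  have hD : 0 < 2 + d * v := by positivity
  have hu := hB.u_pos
  have eN : dimAll ((S - d) / 2) d = 2 / (1 - S) := by
    simp only [dimAll]; congr 1; ring
  have eT : chR S u * d * chW d S u v t = u * d * H := by
    simp only [chR, chW, hH]; field_simp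
  have k0 : 0 < p * d * S ^ 2 / ((S - d) / 2) := by positivity
  refine nonneg_of_mul_nonneg_right (a := p * d * S ^ 2 / ((S - d) / 2)) ?_ k0
  have gap : 0 ≤ 2 * v * d * (2 + d * v) * (u * H) * (2 - (S - d) - d) * (d * S ^ 2) * (3 / 10) *
      (d * (u * H)) * p := by
    have : 0 ≤ 2 - (S - d) - d := by linarith [hB.S_lt]
    have := hB.H_pos
    positivity
  refine le_of_le_of_eq (add_nonneg mid gap) ?_
  have hW : chW d S u v t * chR S u = u * H := by simp only [chR, chW, hH]; field_simp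
  have eN' : allNum ((S - d) / 2) d v (chW d S u v t) (chR S u) =
      ⟨(S - d) / 2 * ((S - d) / 2 + d), -(1 - 2 * ((S - d) / 2) - 1 / 2 * ((1 - S) / 2)) * ((1 - S) / 2),
        (-2 * (1 - 3 * ((1 - S) / 2) - 2 * ((S - d) / 2) ^ 2) * ((1 - S) / 2) * (1 + d * v) -
          5 / 2 * (1 - u * d * H)) / d,
        -(5 / 2) * (1 - u * d * H),
        (-((S - d) / 2) * (1 - 3 * ((S - d) / 2) - (1 - S) / 2) * ((1 - S) / 2) -
          3 / 10 * ((S - d) / 2 / ((S + d) / 2)) * ((1 - u * d * H) / (1 + d * v))) / d ^ 2,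
        -(3 / 10) * ((S - d) / 2 / ((S + d) / 2)) * ((1 - u * d * H) / (1 + d * v)) / d ^ 2,
        cond z 0 (S ^ 2 - 2 * ((S - d) / 2) * (1 - (1 - S) / 2)) / (S ^ 2 * d ^ 2)⟩ := by
    rw [show allNum ((S - d) / 2) d v (chW d S u v t) (chR S u) = ⟨_, _, _, _, _, _, o.D2M z⟩ from
      by rw [← hD2]]
    simp only [allNum, eT, eN, show (S - d) / 2 + d = (S + d) / 2 by ring, ClosedGen.Num.mk.injEq,
      true_and, PtR.D2M, PtR.D2, PtR.s2, eS, e1, show o.a = (S - d) / 2 from rfl,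
      show o.I = (1 - S) / 2 from rfl, and_true]
    refine ⟨?_, ?_, ?_, ?_⟩ <;> (try cases z) <;> (try simp only [cond_true, cond_false, zero_div]) <;>
      (try field_simp)
  rw [eN', ← rayM_id z (X := v / (1 - S)) (by ring) (by ring) (by field_simp) (by ring) ?_
    ha.ne' (show (S + d) / 2 ≠ 0 by linarith) hd.ne' hI.ne' hS0.ne' hQ.ne' hW o rfl]
  · ring
  · simp only [chR]; field_simp

/-- The checks of a piece on a point. -/
structure Piece.AllHoldM (P : Piece) (z : Bool) (B : BandEx) (o : PtR) : Prop where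
  forms : P.HoldsM z o
  env : P.HoldsEnv B o
  rayLo : 0 ≤ (xLLGM z B.lo B.pole).val o.x
  rayHi : 0 ≤ (xLLGM z B.hi B.pole).val o.x

/-- **The signs at a point where a piece holds.** -/
theorem Piece.AllHoldM.signs {P : Piece} {z : Bool} {B : BandEx} {n : ℕ} {d S u v t : ℝ}
    (hb : ChartBox n d S) (hB : BasicM z d S u v t) (hP : P.AllHoldM z B (ptOf d S u v))
    (hA : (ptOf d S u v).Adm B (chH d S u v t)) : ChartSigns d S u v t := by
  refine ChartSigns.of_arrow hb hB.v_pos hB.chG_pos ?_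
  set o := ptOf d S u v with ho
  obtain ⟨e1, eb, ev, eS⟩ : o.d = d ∧ o.b = (S + d) / 2 ∧ o.v = v ∧ o.S = S := ptOf_eqs hB.S_lt
  obtain ⟨θ, h0, h1, eπ, w0, w1, t0, t1⟩ := hP.env.place hB.pos hB.u_pos hA
  obtain ⟨hE, hr⟩ := hB.E_neg
  obtain ⟨ep, ew, eE, eK, eG, eG1⟩ := hB.nums_eq
  have hS := hP.forms.signs_one hB.pos h0 h1 w0 w1 t0 t1 (eπ ▸ hr) (eπ ▸ hE)
  rw [← eπ] at hS
  obtain ⟨s1, s2, s3, s4⟩ := hS
  have eN : allNum ((S - d) / 2) d v (chW d S u v t) (chR S u) =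
      ⟨o.a * (o.a + o.d), -(1 - 2 * o.a - (1 - 2 * o.a - o.d) / 4) * ((1 - 2 * o.a - o.d) / 2),
        (allNum ((S - d) / 2) d v (chW d S u v t) (chR S u)).E,
        (allNum ((S - d) / 2) d v (chW d S u v t) (chR S u)).K,
        (o.nums (o.piH (chH d S u v t)) (o.omH (chH d S u v t)) (o.tauH (chH d S u v t))).G,
        (o.nums (o.piH (chH d S u v t)) (o.omH (chH d S u v t)) (o.tauH (chH d S u v t))).G1,
        o.D2M z⟩ := by
    rw [← eG, ← eG1, ← hB.D2_eq]
    simp only [allNum, dimAll, e1, show o.a = (S - d) / 2 from rfl, ClosedGen.Num.mk.injEq,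
      and_true, true_and]
    have : 1 - S ≠ 0 := by linarith [hB.S_lt]
    have h2 : 1 - ((S - d) / 2 + ((S - d) / 2 + d)) = 1 - S := by ring
    rw [h2]
    field_simp
    ring
  have hL := llgM_nonneg hB hA hP.rayLo hP.rayHi
  rw [eN] at hL ⊢
  simp only [PtR.blkM, PtR.numM, Nums.num, e1, ev, show o.a = (S - d) / 2 from rfl] at s1 s2 s3 s4
  simp only [e1, show o.a = (S - d) / 2 from rfl] at hL ⊢
  refine signs_of_one _ _ _ _ _ _ _ _ _ _ _ _ _ _ hB.chG_pos ?_ ?_ ?_ ?_ hL <;>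
    rw [ep, ew, eE, eK] <;> assumption

end Vale.Agent.P100.Calib.Closed.All.Low
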