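import Vale.Agent.P100.Calib.SlabAllSignsBox
import Vale.Agent.P100.Calib.SlabMidDefs
import Vale.Agent.P100.Calib.SlabMidSignsPoint
import Vale.Agent.P100.Calib.SlabMidSignsCheck0
import Vale.Agent.P100.Calib.SlabMidSignsCheck1
import Vale.Agent.P100.Calib.SlabMidSignsCheck2
import Vale.Agent.P100.Calib.SlabMidSignsCheck3
import Vale.Agent.P100.Calib.SlabMidSignsCheck4
import Vale.Agent.P100.Calib.SlabMidSignsCheck5
import Vale.Agent.P100.Calib.SlabMidSignsCheck6
import Vale.Agent.P100.Calib.SlabMidSignsCheck7
import Vale.Agent.P100.Calib.SlabMidSignsCheck8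
import Vale.Agent.P100.Calib.SlabMidSignsCheck9
import Vale.Agent.P100.Calib.SlabMidSignsCheck10
import Vale.Agent.P100.Calib.SlabMidSignsCheck11
import Vale.Agent.P100.Calib.SlabMidSignsCheck12
import Vale.Agent.P100.Calib.SlabMidSignsCheck13

/-!
# The pieces of the certificate hold on their boxes
-/

set_option linter.unusedVariables false

namespace Vale.Agent.P100.Calib.Closed.All.Low

/-- The point is in the closed box of four charts. -/
def PtR.InM (o : PtR) (C : ℕ → Pack.Chart) : Prop := ∀ i < 4, InChart (C i) (o.x i)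

/-- The bounds of a box. -/
theorem PtR.InM.bounds {o : PtR} {C : ℕ → Pack.Chart} (h : o.InM C) :
    ((C 0).a ≤ o.u * (C 0).c ∧ o.u * (C 0).c ≤ (C 0).b) ∧
      ((C 1).a ≤ o.X * (C 1).c ∧ o.X * (C 1).c ≤ (C 1).b) ∧
      ((C 2).a ≤ o.a * (C 2).c ∧ o.a * (C 2).c ≤ (C 2).b) ∧
      ((C 3).a ≤ o.I * (C 3).c ∧ o.I * (C 3).c ≤ (C 3).b) :=
  ⟨(h 0 (by norm_num)).2.2.2, (h 1 (by norm_num)).2.2.2, (h 2 (by norm_num)).2.2.2,
    (h 3 (by norm_num)).2.2.2⟩

/-- Membership from the bounds. -/
theorem PtR.InM.of_bounds {o : PtR} {C : ℕ → Pack.Chart} (h₀ : InChart (C 0) o.u)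
    (h₁ : InChart (C 1) o.X) (h₂ : InChart (C 2) o.a) (h₃ : InChart (C 3) o.I) : o.InM C := by
  intro i hi
  interval_cases i <;> assumption

/-- The split check. -/
theorem m0_omU_lo_all {o : PtR} (m : o.InM mbox0) :
    0 ≤ (mpiece0.env bandSmall.lo bandSmall.hi bandSmall.pole .omU).val o.x := by
  obtain ⟨hu, hX, ha, hI⟩ := m.bounds
  simp only [mbox0] at hu hX ha hI
  norm_num at hu hX ha hI
  rcases le_total (o.I) (1 / 15 : ℝ) with h0 | h0
  ·
    rcases le_total (o.u) (3 / 40 : ℝ) with h1 | h1
    ·
      refine QEx.nonneg_on_box m0_omU_lo_0 (PtR.InM.of_bounds ?_ ?_ ?_ ?_) <;>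
        simp only [mbox0_omU_lo_0, InChart] <;> norm_num <;> (try constructor) <;> linarith
    ·
      rcases le_total (o.a) (9 / 50 : ℝ) with h2 | h2
      ·
        refine QEx.nonneg_on_box m0_omU_lo_1 (PtR.InM.of_bounds ?_ ?_ ?_ ?_) <;>
          simp only [mbox0_omU_lo_1, InChart] <;> norm_num <;> (try constructor) <;> linarith
      ·
        refine QEx.nonneg_on_box m0_omU_lo_2 (PtR.InM.of_bounds ?_ ?_ ?_ ?_) <;>
          simp only [mbox0_omU_lo_2, InChart] <;> norm_num <;> (try constructor) <;> linarith
  ·
    refine QEx.nonneg_on_box m0_omU_lo_3 (PtR.InM.of_bounds ?_ ?_ ?_ ?_) <;>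
      simp only [mbox0_omU_lo_3, InChart] <;> norm_num <;> (try constructor) <;> linarith

/-- The split check. -/
theorem m0_tauL_lo_all {o : PtR} (m : o.InM mbox0) :
    0 ≤ (mpiece0.env bandSmall.lo bandSmall.hi bandSmall.pole .tauL).val o.x := by
  obtain ⟨hu, hX, ha, hI⟩ := m.bounds
  simp only [mbox0] at hu hX ha hI
  norm_num at hu hX ha hI
  rcases le_total (o.a) (9 / 50 : ℝ) with h0 | h0
  ·
    refine QEx.nonneg_on_box m0_tauL_lo_0 (PtR.InM.of_bounds ?_ ?_ ?_ ?_) <;>
      simp only [mbox0_tauL_lo_0, InChart] <;> norm_num <;> (try constructor) <;> linarith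
  ·
    refine QEx.nonneg_on_box m0_tauL_lo_1 (PtR.InM.of_bounds ?_ ?_ ?_ ?_) <;>
      simp only [mbox0_tauL_lo_1, InChart] <;> norm_num <;> (try constructor) <;> linarith

/-- The split check. -/
theorem m0_tauL_hi_all {o : PtR} (m : o.InM mbox0) :
    0 ≤ (mpiece0.env bandSmall.hi bandSmall.hi bandSmall.pole .tauL).val o.x := by
  obtain ⟨hu, hX, ha, hI⟩ := m.bounds
  simp only [mbox0] at hu hX ha hI
  norm_num at hu hX ha hI
  rcases le_total (o.a) (9 / 50 : ℝ) with h0 | h0
  ·
    refine QEx.nonneg_on_box m0_tauL_hi_0 (PtR.InM.of_bounds ?_ ?_ ?_ ?_) <;>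
      simp only [mbox0_tauL_hi_0, InChart] <;> norm_num <;> (try constructor) <;> linarith
  ·
    refine QEx.nonneg_on_box m0_tauL_hi_1 (PtR.InM.of_bounds ?_ ?_ ?_ ?_) <;>
      simp only [mbox0_tauL_hi_1, InChart] <;> norm_num <;> (try constructor) <;> linarith

/-- The exit curve on the box of piece 0. -/
theorem mexit0_holds {o : PtR} (h0 : 0 ≤ o.u) (h1 : o.u ≤ 3 / 20) (h2 : 1 / 20 ≤ o.a) (h3 : o.a ≤ 31 / 100)
    (h4 : 1 / 20 ≤ o.I) (h5 : o.I ≤ 1 / 12) :
    0 ≤ Band.midBracket Band.midExitA o.I o.a o.u * 6 - 1000 * 5 := by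
  have h := QEx.nonneg_on_box mexit0_check (x := (⟨o.u, 6 / 5, o.a, o.I⟩ : PtR).x)
    (PtR.InM.of_bounds (o := ⟨o.u, 6 / 5, o.a, o.I⟩) ?_ ?_ ?_ ?_)
  · obtain ⟨eu, -, va, vI, -, -, -, -, -, -, -, -⟩ := (⟨o.u, 6 / 5, o.a, o.I⟩ : PtR).vals
    simp only [xExitM, xFour, val_add, val_sub, val_mul, val_num, eu, va, vI] at h
    push_cast at h
    simp only [Band.midBracket, Band.midFour]
    linarith
  all_goals simp only [mexit0Box, InChart] <;> norm_num <;> (try constructor) <;> linarith

/-- The piece 0 holds on its box. -/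
theorem mpiece0_holds {o : PtR} (m : o.InM mbox0) :
    mpiece0.AllHoldM false bandSmall o where
  forms :=
    { forms := fun q h k =>
        match q, h, k with
        | .g, false, .lo => QEx.nonneg_on_box (List.all_eq_true.1 m0_group0 (mpiece0.checkM false .g false .lo) (by simp)) m
        | .g, false, .hi => QEx.nonneg_on_box (List.all_eq_true.1 m0_group0 (mpiece0.checkM false .g false .hi) (by simp)) m
        | .g, false, .mid => QEx.nonneg_on_box (List.all_eq_true.1 m0_group0 (mpiece0.checkM false .g false .mid) (by simp)) m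
        | .g, true, .lo => QEx.nonneg_on_box (List.all_eq_true.1 m0_group0 (mpiece0.checkM false .g true .lo) (by simp)) m
        | .g, true, .hi => QEx.nonneg_on_box (List.all_eq_true.1 m0_group0 (mpiece0.checkM false .g true .hi) (by simp)) m
        | .g, true, .mid => QEx.nonneg_on_box (List.all_eq_true.1 m0_group0 (mpiece0.checkM false .g true .mid) (by simp)) m
        | .n, false, .lo => QEx.nonneg_on_box (List.all_eq_true.1 m0_group1 (mpiece0.checkM false .n false .lo) (by simp)) m
        | .n, false, .hi => QEx.nonneg_on_box (List.all_eq_true.1 m0_group1 (mpiece0.checkM false .n false .hi) (by simp)) m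
        | .n, false, .mid => QEx.nonneg_on_box (List.all_eq_true.1 m0_group1 (mpiece0.checkM false .n false .mid) (by simp)) m
        | .n, true, .lo => QEx.nonneg_on_box (List.all_eq_true.1 m0_group1 (mpiece0.checkM false .n true .lo) (by simp)) m
        | .n, true, .hi => QEx.nonneg_on_box (List.all_eq_true.1 m0_group1 (mpiece0.checkM false .n true .hi) (by simp)) m
        | .n, true, .mid => QEx.nonneg_on_box (List.all_eq_true.1 m0_group1 (mpiece0.checkM false .n true .mid) (by simp)) m
        | .tlo, false, .lo => QEx.nonneg_on_box (List.all_eq_true.1 m0_group2 (mpiece0.checkM false .tlo false .lo) (by simp)) m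
        | .tlo, false, .hi => QEx.nonneg_on_box (List.all_eq_true.1 m0_group2 (mpiece0.checkM false .tlo false .hi) (by simp)) m
        | .tlo, false, .mid => QEx.nonneg_on_box (List.all_eq_true.1 m0_group2 (mpiece0.checkM false .tlo false .mid) (by simp)) m
        | .tlo, true, .lo => QEx.nonneg_on_box (List.all_eq_true.1 m0_group2 (mpiece0.checkM false .tlo true .lo) (by simp)) m
        | .tlo, true, .hi => QEx.nonneg_on_box (List.all_eq_true.1 m0_group2 (mpiece0.checkM false .tlo true .hi) (by simp)) m
        | .tlo, true, .mid => QEx.nonneg_on_box (List.all_eq_true.1 m0_group2 (mpiece0.checkM false .tlo true .mid) (by simp)) m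
        | .thi, false, .lo => QEx.nonneg_on_box (List.all_eq_true.1 m0_group2 (mpiece0.checkM false .thi false .lo) (by simp)) m
        | .thi, false, .hi => QEx.nonneg_on_box (List.all_eq_true.1 m0_group2 (mpiece0.checkM false .thi false .hi) (by simp)) m
        | .thi, false, .mid => QEx.nonneg_on_box (List.all_eq_true.1 m0_group2 (mpiece0.checkM false .thi false .mid) (by simp)) m
        | .thi, true, .lo => QEx.nonneg_on_box (List.all_eq_true.1 m0_group2 (mpiece0.checkM false .thi true .lo) (by simp)) m
        | .thi, true, .hi => QEx.nonneg_on_box (List.all_eq_true.1 m0_group2 (mpiece0.checkM false .thi true .hi) (by simp)) m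
        | .thi, true, .mid => QEx.nonneg_on_box (List.all_eq_true.1 m0_group2 (mpiece0.checkM false .thi true .mid) (by simp)) m
        | .mlo, false, .lo => QEx.nonneg_on_box (List.all_eq_true.1 m0_group3 (mpiece0.checkM false .mlo false .lo) (by simp)) m
        | .mlo, false, .hi => QEx.nonneg_on_box (List.all_eq_true.1 m0_group3 (mpiece0.checkM false .mlo false .hi) (by simp)) m
        | .mlo, false, .mid => QEx.nonneg_on_box (List.all_eq_true.1 m0_group3 (mpiece0.checkM false .mlo false .mid) (by simp)) m
        | .mlo, true, .lo => QEx.nonneg_on_box (List.all_eq_true.1 m0_group3 (mpiece0.checkM false .mlo false .lo) (by simp)) m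
        | .mlo, true, .hi => QEx.nonneg_on_box (List.all_eq_true.1 m0_group3 (mpiece0.checkM false .mlo false .hi) (by simp)) m
        | .mlo, true, .mid => QEx.nonneg_on_box (List.all_eq_true.1 m0_group3 (mpiece0.checkM false .mlo false .mid) (by simp)) m
        | .mhi, false, .lo => QEx.nonneg_on_box (List.all_eq_true.1 m0_group3 (mpiece0.checkM false .mhi false .lo) (by simp)) m
        | .mhi, false, .hi => QEx.nonneg_on_box (List.all_eq_true.1 m0_group3 (mpiece0.checkM false .mhi false .hi) (by simp)) m
        | .mhi, false, .mid => QEx.nonneg_on_box (List.all_eq_true.1 m0_group3 (mpiece0.checkM false .mhi false .mid) (by simp)) m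
        | .mhi, true, .lo => QEx.nonneg_on_box (List.all_eq_true.1 m0_group3 (mpiece0.checkM false .mhi false .lo) (by simp)) m
        | .mhi, true, .hi => QEx.nonneg_on_box (List.all_eq_true.1 m0_group3 (mpiece0.checkM false .mhi false .hi) (by simp)) m
        | .mhi, true, .mid => QEx.nonneg_on_box (List.all_eq_true.1 m0_group3 (mpiece0.checkM false .mhi false .mid) (by simp)) m
        | .f, false, .lo => QEx.nonneg_on_box (List.all_eq_true.1 m0_group4 (mpiece0.checkM false .f false .lo) (by simp)) m
        | .f, false, .hi => QEx.nonneg_on_box (List.all_eq_true.1 m0_group5 (mpiece0.checkM false .f false .hi) (by simp)) m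
        | .f, false, .mid => QEx.nonneg_on_box (List.all_eq_true.1 m0_group6 (mpiece0.checkM false .f false .mid) (by simp)) m
        | .f, true, .lo => QEx.nonneg_on_box (List.all_eq_true.1 m0_group7 (mpiece0.checkM false .f true .lo) (by simp)) m
        | .f, true, .hi => QEx.nonneg_on_box (List.all_eq_true.1 m0_group8 (mpiece0.checkM false .f true .hi) (by simp)) m
        | .f, true, .mid => QEx.nonneg_on_box (List.all_eq_true.1 m0_group9 (mpiece0.checkM false .f true .mid) (by simp)) m
      side := fun e =>
        match e with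
        | .rA => QEx.nonneg_on_box (List.all_eq_true.1 m0_group22 (mpiece0.side .rA) (by simp)) m
        | .rB => QEx.nonneg_on_box (List.all_eq_true.1 m0_group22 (mpiece0.side .rB) (by simp)) m
        | .rF => QEx.nonneg_on_box (List.all_eq_true.1 m0_group23 (mpiece0.side .rF) (by simp)) m
        | .q => QEx.nonneg_on_box (List.all_eq_true.1 m0_group24 (mpiece0.side .q) (by simp)) m
        | .om => QEx.nonneg_on_box (List.all_eq_true.1 m0_group25 (mpiece0.side .om) (by simp)) m
      nums := by decide }
  env :=
    { lo := fun e =>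
        match e with
        | .piL => QEx.nonneg_on_box (List.all_eq_true.1 m0_group10 (mpiece0.env bandSmall.lo bandSmall.hi bandSmall.pole .piL) (by simp)) m
        | .piU => QEx.nonneg_on_box (List.all_eq_true.1 m0_group10 (mpiece0.env bandSmall.lo bandSmall.hi bandSmall.pole .piU) (by simp)) m
        | .omL => QEx.nonneg_on_box (List.all_eq_true.1 m0_group12 (mpiece0.env bandSmall.lo bandSmall.hi bandSmall.pole .omL) (by simp)) m
        | .omU => m0_omU_lo_all m
        | .tauL => m0_tauL_lo_all m
        | .tauU => QEx.nonneg_on_box (List.all_eq_true.1 m0_group17 (mpiece0.env bandSmall.lo bandSmall.hi bandSmall.pole .tauU) (by simp)) m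
      hi := fun e =>
        match e with
        | .piL => QEx.nonneg_on_box (List.all_eq_true.1 m0_group11 (mpiece0.env bandSmall.hi bandSmall.hi bandSmall.pole .piL) (by simp)) m
        | .piU => QEx.nonneg_on_box (List.all_eq_true.1 m0_group11 (mpiece0.env bandSmall.hi bandSmall.hi bandSmall.pole .piU) (by simp)) m
        | .omL => QEx.nonneg_on_box (List.all_eq_true.1 m0_group13 (mpiece0.env bandSmall.hi bandSmall.hi bandSmall.pole .omL) (by simp)) m
        | .omU => QEx.nonneg_on_box (List.all_eq_true.1 m0_group13 (mpiece0.env bandSmall.hi bandSmall.hi bandSmall.pole .omU) (by simp)) m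
        | .tauL => m0_tauL_hi_all m
        | .tauU => QEx.nonneg_on_box (List.all_eq_true.1 m0_group18 (mpiece0.env bandSmall.hi bandSmall.hi bandSmall.pole .tauU) (by simp)) m
      wid := QEx.nonneg_on_box (List.all_eq_true.1 m0_group21 (mpiece0.wid - qD 1) (by simp)) m }
  rayLo := QEx.nonneg_on_box (List.all_eq_true.1 m0_group19 (xLLGM false bandSmall.lo bandSmall.pole) (by simp)) m
  rayHi := QEx.nonneg_on_box (List.all_eq_true.1 m0_group20 (xLLGM false bandSmall.hi bandSmall.pole) (by simp)) m

/-- The split check. -/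
theorem m1_piL_lo_all {o : PtR} (m : o.InM mbox1) :
    0 ≤ (mpiece1.env (bandMid Band.midLowA Band.midUpA).lo (bandMid Band.midLowA Band.midUpA).hi (bandMid Band.midLowA Band.midUpA).pole .piL).val o.x := by
  obtain ⟨hu, hX, ha, hI⟩ := m.bounds
  simp only [mbox1] at hu hX ha hI
  norm_num at hu hX ha hI
  rcases le_total (o.a) (9 / 50 : ℝ) with h0 | h0
  ·
    refine QEx.nonneg_on_box m1_piL_lo_0 (PtR.InM.of_bounds ?_ ?_ ?_ ?_) <;>
      simp only [mbox1_piL_lo_0, InChart] <;> norm_num <;> (try constructor) <;> linarith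
  ·
    rcases le_total (o.I) (1 / 15 : ℝ) with h1 | h1
    ·
      refine QEx.nonneg_on_box m1_piL_lo_1 (PtR.InM.of_bounds ?_ ?_ ?_ ?_) <;>
        simp only [mbox1_piL_lo_1, InChart] <;> norm_num <;> (try constructor) <;> linarith
    ·
      refine QEx.nonneg_on_box m1_piL_lo_2 (PtR.InM.of_bounds ?_ ?_ ?_ ?_) <;>
        simp only [mbox1_piL_lo_2, InChart] <;> norm_num <;> (try constructor) <;> linarith

/-- The split check. -/
theorem m1_piU_hi_all {o : PtR} (m : o.InM mbox1) :
    0 ≤ (mpiece1.env (bandMid Band.midLowA Band.midUpA).hi (bandMid Band.midLowA Band.midUpA).hi (bandMid Band.midLowA Band.midUpA).pole .piU).val o.x := by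
  obtain ⟨hu, hX, ha, hI⟩ := m.bounds
  simp only [mbox1] at hu hX ha hI
  norm_num at hu hX ha hI
  rcases le_total (o.a) (9 / 50 : ℝ) with h0 | h0
  ·
    refine QEx.nonneg_on_box m1_piU_hi_0 (PtR.InM.of_bounds ?_ ?_ ?_ ?_) <;>
      simp only [mbox1_piU_hi_0, InChart] <;> norm_num <;> (try constructor) <;> linarith
  ·
    refine QEx.nonneg_on_box m1_piU_hi_1 (PtR.InM.of_bounds ?_ ?_ ?_ ?_) <;>
      simp only [mbox1_piU_hi_1, InChart] <;> norm_num <;> (try constructor) <;> linarith

/-- The split check. -/
theorem m1_omU_lo_all {o : PtR} (m : o.InM mbox1) :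
    0 ≤ (mpiece1.env (bandMid Band.midLowA Band.midUpA).lo (bandMid Band.midLowA Band.midUpA).hi (bandMid Band.midLowA Band.midUpA).pole .omU).val o.x := by
  obtain ⟨hu, hX, ha, hI⟩ := m.bounds
  simp only [mbox1] at hu hX ha hI
  norm_num at hu hX ha hI
  rcases le_total (o.a) (9 / 50 : ℝ) with h0 | h0
  ·
    refine QEx.nonneg_on_box m1_omU_lo_0 (PtR.InM.of_bounds ?_ ?_ ?_ ?_) <;>
      simp only [mbox1_omU_lo_0, InChart] <;> norm_num <;> (try constructor) <;> linarith
  ·
    refine QEx.nonneg_on_box m1_omU_lo_1 (PtR.InM.of_bounds ?_ ?_ ?_ ?_) <;>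
      simp only [mbox1_omU_lo_1, InChart] <;> norm_num <;> (try constructor) <;> linarith

/-- The split check. -/
theorem m1_omU_hi_all {o : PtR} (m : o.InM mbox1) :
    0 ≤ (mpiece1.env (bandMid Band.midLowA Band.midUpA).hi (bandMid Band.midLowA Band.midUpA).hi (bandMid Band.midLowA Band.midUpA).pole .omU).val o.x := by
  obtain ⟨hu, hX, ha, hI⟩ := m.bounds
  simp only [mbox1] at hu hX ha hI
  norm_num at hu hX ha hI
  rcases le_total (o.a) (9 / 50 : ℝ) with h0 | h0
  ·
    refine QEx.nonneg_on_box m1_omU_hi_0 (PtR.InM.of_bounds ?_ ?_ ?_ ?_) <;>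
      simp only [mbox1_omU_hi_0, InChart] <;> norm_num <;> (try constructor) <;> linarith
  ·
    rcases le_total (o.u) (11 / 40 : ℝ) with h1 | h1
    ·
      refine QEx.nonneg_on_box m1_omU_hi_1 (PtR.InM.of_bounds ?_ ?_ ?_ ?_) <;>
        simp only [mbox1_omU_hi_1, InChart] <;> norm_num <;> (try constructor) <;> linarith
    ·
      refine QEx.nonneg_on_box m1_omU_hi_2 (PtR.InM.of_bounds ?_ ?_ ?_ ?_) <;>
        simp only [mbox1_omU_hi_2, InChart] <;> norm_num <;> (try constructor) <;> linarith

/-- The split check. -/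
theorem m1_tauL_lo_all {o : PtR} (m : o.InM mbox1) :
    0 ≤ (mpiece1.env (bandMid Band.midLowA Band.midUpA).lo (bandMid Band.midLowA Band.midUpA).hi (bandMid Band.midLowA Band.midUpA).pole .tauL).val o.x := by
  obtain ⟨hu, hX, ha, hI⟩ := m.bounds
  simp only [mbox1] at hu hX ha hI
  norm_num at hu hX ha hI
  rcases le_total (o.a) (9 / 50 : ℝ) with h0 | h0
  ·
    refine QEx.nonneg_on_box m1_tauL_lo_0 (PtR.InM.of_bounds ?_ ?_ ?_ ?_) <;>
      simp only [mbox1_tauL_lo_0, InChart] <;> norm_num <;> (try constructor) <;> linarith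
  ·
    refine QEx.nonneg_on_box m1_tauL_lo_1 (PtR.InM.of_bounds ?_ ?_ ?_ ?_) <;>
      simp only [mbox1_tauL_lo_1, InChart] <;> norm_num <;> (try constructor) <;> linarith

/-- The split check. -/
theorem m1_tauL_hi_all {o : PtR} (m : o.InM mbox1) :
    0 ≤ (mpiece1.env (bandMid Band.midLowA Band.midUpA).hi (bandMid Band.midLowA Band.midUpA).hi (bandMid Band.midLowA Band.midUpA).pole .tauL).val o.x := by
  obtain ⟨hu, hX, ha, hI⟩ := m.bounds
  simp only [mbox1] at hu hX ha hI
  norm_num at hu hX ha hI
  rcases le_total (o.a) (9 / 50 : ℝ) with h0 | h0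
  ·
    refine QEx.nonneg_on_box m1_tauL_hi_0 (PtR.InM.of_bounds ?_ ?_ ?_ ?_) <;>
      simp only [mbox1_tauL_hi_0, InChart] <;> norm_num <;> (try constructor) <;> linarith
  ·
    refine QEx.nonneg_on_box m1_tauL_hi_1 (PtR.InM.of_bounds ?_ ?_ ?_ ?_) <;>
      simp only [mbox1_tauL_hi_1, InChart] <;> norm_num <;> (try constructor) <;> linarith

/-- The split check. -/
theorem m1_side_rF_all {o : PtR} (m : o.InM mbox1) :
    0 ≤ (mpiece1.side .rF).val o.x := by
  obtain ⟨hu, hX, ha, hI⟩ := m.bounds
  simp only [mbox1] at hu hX ha hI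
  norm_num at hu hX ha hI
  rcases le_total (o.X) (31 / 25 : ℝ) with h0 | h0
  ·
    refine QEx.nonneg_on_box m1_side_rF_0 (PtR.InM.of_bounds ?_ ?_ ?_ ?_) <;>
      simp only [mbox1_side_rF_0, InChart] <;> norm_num <;> (try constructor) <;> linarith
  ·
    rcases le_total (o.X) (139 / 100 : ℝ) with h1 | h1
    ·
      refine QEx.nonneg_on_box m1_side_rF_1 (PtR.InM.of_bounds ?_ ?_ ?_ ?_) <;>
        simp only [mbox1_side_rF_1, InChart] <;> norm_num <;> (try constructor) <;> linarith
    ·
      refine QEx.nonneg_on_box m1_side_rF_2 (PtR.InM.of_bounds ?_ ?_ ?_ ?_) <;>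
        simp only [mbox1_side_rF_2, InChart] <;> norm_num <;> (try constructor) <;> linarith

/-- The exit curve on the box of piece 1. -/
theorem mexit1_holds {o : PtR} (h0 : 3 / 20 ≤ o.u) (h1 : o.u ≤ 2 / 5) (h2 : 1 / 20 ≤ o.a) (h3 : o.a ≤ 31 / 100)
    (h4 : 1 / 20 ≤ o.I) (h5 : o.I ≤ 1 / 12) :
    0 ≤ Band.midBracket Band.midExitA o.I o.a o.u * 77 - 1000 * 50 := by
  have h := QEx.nonneg_on_box mexit1_check (x := (⟨o.u, 77 / 50, o.a, o.I⟩ : PtR).x)
    (PtR.InM.of_bounds (o := ⟨o.u, 77 / 50, o.a, o.I⟩) ?_ ?_ ?_ ?_)
  · obtain ⟨eu, -, va, vI, -, -, -, -, -, -, -, -⟩ := (⟨o.u, 77 / 50, o.a, o.I⟩ : PtR).vals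
    simp only [xExitM, xFour, val_add, val_sub, val_mul, val_num, eu, va, vI] at h
    push_cast at h
    simp only [Band.midBracket, Band.midFour]
    linarith
  all_goals simp only [mexit1Box, InChart] <;> norm_num <;> (try constructor) <;> linarith

/-- The piece 1 holds on its box. -/
theorem mpiece1_holds {o : PtR} (m : o.InM mbox1) :
    mpiece1.AllHoldM false (bandMid Band.midLowA Band.midUpA) o where
  forms :=
    { forms := fun q h k =>
        match q, h, k with
        | .g, false, .lo => QEx.nonneg_on_box (List.all_eq_true.1 m1_group0 (mpiece1.checkM false .g false .lo) (by simp)) m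
        | .g, false, .hi => QEx.nonneg_on_box (List.all_eq_true.1 m1_group0 (mpiece1.checkM false .g false .hi) (by simp)) m
        | .g, false, .mid => QEx.nonneg_on_box (List.all_eq_true.1 m1_group0 (mpiece1.checkM false .g false .mid) (by simp)) m
        | .g, true, .lo => QEx.nonneg_on_box (List.all_eq_true.1 m1_group0 (mpiece1.checkM false .g true .lo) (by simp)) m
        | .g, true, .hi => QEx.nonneg_on_box (List.all_eq_true.1 m1_group0 (mpiece1.checkM false .g true .hi) (by simp)) m
        | .g, true, .mid => QEx.nonneg_on_box (List.all_eq_true.1 m1_group0 (mpiece1.checkM false .g true .mid) (by simp)) m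
        | .n, false, .lo => QEx.nonneg_on_box (List.all_eq_true.1 m1_group1 (mpiece1.checkM false .n false .lo) (by simp)) m
        | .n, false, .hi => QEx.nonneg_on_box (List.all_eq_true.1 m1_group1 (mpiece1.checkM false .n false .hi) (by simp)) m
        | .n, false, .mid => QEx.nonneg_on_box (List.all_eq_true.1 m1_group1 (mpiece1.checkM false .n false .mid) (by simp)) m
        | .n, true, .lo => QEx.nonneg_on_box (List.all_eq_true.1 m1_group1 (mpiece1.checkM false .n true .lo) (by simp)) m
        | .n, true, .hi => QEx.nonneg_on_box (List.all_eq_true.1 m1_group1 (mpiece1.checkM false .n true .hi) (by simp)) m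
        | .n, true, .mid => QEx.nonneg_on_box (List.all_eq_true.1 m1_group1 (mpiece1.checkM false .n true .mid) (by simp)) m
        | .tlo, false, .lo => QEx.nonneg_on_box (List.all_eq_true.1 m1_group2 (mpiece1.checkM false .tlo false .lo) (by simp)) m
        | .tlo, false, .hi => QEx.nonneg_on_box (List.all_eq_true.1 m1_group2 (mpiece1.checkM false .tlo false .hi) (by simp)) m
        | .tlo, false, .mid => QEx.nonneg_on_box (List.all_eq_true.1 m1_group2 (mpiece1.checkM false .tlo false .mid) (by simp)) m
        | .tlo, true, .lo => QEx.nonneg_on_box (List.all_eq_true.1 m1_group2 (mpiece1.checkM false .tlo true .lo) (by simp)) m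
        | .tlo, true, .hi => QEx.nonneg_on_box (List.all_eq_true.1 m1_group2 (mpiece1.checkM false .tlo true .hi) (by simp)) m
        | .tlo, true, .mid => QEx.nonneg_on_box (List.all_eq_true.1 m1_group2 (mpiece1.checkM false .tlo true .mid) (by simp)) m
        | .thi, false, .lo => QEx.nonneg_on_box (List.all_eq_true.1 m1_group2 (mpiece1.checkM false .thi false .lo) (by simp)) m
        | .thi, false, .hi => QEx.nonneg_on_box (List.all_eq_true.1 m1_group2 (mpiece1.checkM false .thi false .hi) (by simp)) m
        | .thi, false, .mid => QEx.nonneg_on_box (List.all_eq_true.1 m1_group2 (mpiece1.checkM false .thi false .mid) (by simp)) m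
        | .thi, true, .lo => QEx.nonneg_on_box (List.all_eq_true.1 m1_group2 (mpiece1.checkM false .thi true .lo) (by simp)) m
        | .thi, true, .hi => QEx.nonneg_on_box (List.all_eq_true.1 m1_group2 (mpiece1.checkM false .thi true .hi) (by simp)) m
        | .thi, true, .mid => QEx.nonneg_on_box (List.all_eq_true.1 m1_group2 (mpiece1.checkM false .thi true .mid) (by simp)) m
        | .mlo, false, .lo => QEx.nonneg_on_box (List.all_eq_true.1 m1_group3 (mpiece1.checkM false .mlo false .lo) (by simp)) m
        | .mlo, false, .hi => QEx.nonneg_on_box (List.all_eq_true.1 m1_group3 (mpiece1.checkM false .mlo false .hi) (by simp)) m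
        | .mlo, false, .mid => QEx.nonneg_on_box (List.all_eq_true.1 m1_group3 (mpiece1.checkM false .mlo false .mid) (by simp)) m
        | .mlo, true, .lo => QEx.nonneg_on_box (List.all_eq_true.1 m1_group3 (mpiece1.checkM false .mlo false .lo) (by simp)) m
        | .mlo, true, .hi => QEx.nonneg_on_box (List.all_eq_true.1 m1_group3 (mpiece1.checkM false .mlo false .hi) (by simp)) m
        | .mlo, true, .mid => QEx.nonneg_on_box (List.all_eq_true.1 m1_group3 (mpiece1.checkM false .mlo false .mid) (by simp)) m
        | .mhi, false, .lo => QEx.nonneg_on_box (List.all_eq_true.1 m1_group3 (mpiece1.checkM false .mhi false .lo) (by simp)) m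
        | .mhi, false, .hi => QEx.nonneg_on_box (List.all_eq_true.1 m1_group3 (mpiece1.checkM false .mhi false .hi) (by simp)) m
        | .mhi, false, .mid => QEx.nonneg_on_box (List.all_eq_true.1 m1_group3 (mpiece1.checkM false .mhi false .mid) (by simp)) m
        | .mhi, true, .lo => QEx.nonneg_on_box (List.all_eq_true.1 m1_group3 (mpiece1.checkM false .mhi false .lo) (by simp)) m
        | .mhi, true, .hi => QEx.nonneg_on_box (List.all_eq_true.1 m1_group3 (mpiece1.checkM false .mhi false .hi) (by simp)) m
        | .mhi, true, .mid => QEx.nonneg_on_box (List.all_eq_true.1 m1_group3 (mpiece1.checkM false .mhi false .mid) (by simp)) m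
        | .f, false, .lo => QEx.nonneg_on_box (List.all_eq_true.1 m1_group4 (mpiece1.checkM false .f false .lo) (by simp)) m
        | .f, false, .hi => QEx.nonneg_on_box (List.all_eq_true.1 m1_group5 (mpiece1.checkM false .f false .hi) (by simp)) m
        | .f, false, .mid => QEx.nonneg_on_box (List.all_eq_true.1 m1_group6 (mpiece1.checkM false .f false .mid) (by simp)) m
        | .f, true, .lo => QEx.nonneg_on_box (List.all_eq_true.1 m1_group7 (mpiece1.checkM false .f true .lo) (by simp)) m
        | .f, true, .hi => QEx.nonneg_on_box (List.all_eq_true.1 m1_group8 (mpiece1.checkM false .f true .hi) (by simp)) m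
        | .f, true, .mid => QEx.nonneg_on_box (List.all_eq_true.1 m1_group9 (mpiece1.checkM false .f true .mid) (by simp)) m
      side := fun e =>
        match e with
        | .rA => QEx.nonneg_on_box (List.all_eq_true.1 m1_group21 (mpiece1.side .rA) (by simp)) m
        | .rB => QEx.nonneg_on_box (List.all_eq_true.1 m1_group21 (mpiece1.side .rB) (by simp)) m
        | .rF => m1_side_rF_all m
        | .q => QEx.nonneg_on_box (List.all_eq_true.1 m1_group23 (mpiece1.side .q) (by simp)) m
        | .om => QEx.nonneg_on_box (List.all_eq_true.1 m1_group24 (mpiece1.side .om) (by simp)) m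
      nums := by decide }
  env :=
    { lo := fun e =>
        match e with
        | .piL => m1_piL_lo_all m
        | .piU => QEx.nonneg_on_box (List.all_eq_true.1 m1_group11 (mpiece1.env (bandMid Band.midLowA Band.midUpA).lo (bandMid Band.midLowA Band.midUpA).hi (bandMid Band.midLowA Band.midUpA).pole .piU) (by simp)) m
        | .omL => QEx.nonneg_on_box (List.all_eq_true.1 m1_group13 (mpiece1.env (bandMid Band.midLowA Band.midUpA).lo (bandMid Band.midLowA Band.midUpA).hi (bandMid Band.midLowA Band.midUpA).pole .omL) (by simp)) m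
        | .omU => m1_omU_lo_all m
        | .tauL => m1_tauL_lo_all m
        | .tauU => QEx.nonneg_on_box (List.all_eq_true.1 m1_group18 (mpiece1.env (bandMid Band.midLowA Band.midUpA).lo (bandMid Band.midLowA Band.midUpA).hi (bandMid Band.midLowA Band.midUpA).pole .tauU) (by simp)) m
      hi := fun e =>
        match e with
        | .piL => QEx.nonneg_on_box (List.all_eq_true.1 m1_group11 (mpiece1.env (bandMid Band.midLowA Band.midUpA).hi (bandMid Band.midLowA Band.midUpA).hi (bandMid Band.midLowA Band.midUpA).pole .piL) (by simp)) m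
        | .piU => m1_piU_hi_all m
        | .omL => QEx.nonneg_on_box (List.all_eq_true.1 m1_group13 (mpiece1.env (bandMid Band.midLowA Band.midUpA).hi (bandMid Band.midLowA Band.midUpA).hi (bandMid Band.midLowA Band.midUpA).pole .omL) (by simp)) m
        | .omU => m1_omU_hi_all m
        | .tauL => m1_tauL_hi_all m
        | .tauU => QEx.nonneg_on_box (List.all_eq_true.1 m1_group18 (mpiece1.env (bandMid Band.midLowA Band.midUpA).hi (bandMid Band.midLowA Band.midUpA).hi (bandMid Band.midLowA Band.midUpA).pole .tauU) (by simp)) m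
      wid := QEx.nonneg_on_box (List.all_eq_true.1 m1_group20 (mpiece1.wid - qD 1) (by simp)) m }
  rayLo := QEx.nonneg_on_box (List.all_eq_true.1 m1_group19 (xLLGM false (bandMid Band.midLowA Band.midUpA).lo (bandMid Band.midLowA Band.midUpA).pole) (by simp)) m
  rayHi := QEx.nonneg_on_box (List.all_eq_true.1 m1_group19 (xLLGM false (bandMid Band.midLowA Band.midUpA).hi (bandMid Band.midLowA Band.midUpA).pole) (by simp)) m

/-- The split check. -/
theorem m2_piU_hi_all {o : PtR} (m : o.InM mbox2) :
    0 ≤ (mpiece2.env (bandMid Band.midLowA Band.midUpA).hi (bandMid Band.midLowA Band.midUpA).hi (bandMid Band.midLowA Band.midUpA).pole .piU).val o.x := by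
  obtain ⟨hu, hX, ha, hI⟩ := m.bounds
  simp only [mbox2] at hu hX ha hI
  norm_num at hu hX ha hI
  rcases le_total (o.a) (1 / 8 : ℝ) with h0 | h0
  ·
    refine QEx.nonneg_on_box m2_piU_hi_0 (PtR.InM.of_bounds ?_ ?_ ?_ ?_) <;>
      simp only [mbox2_piU_hi_0, InChart] <;> norm_num <;> (try constructor) <;> linarith
  ·
    refine QEx.nonneg_on_box m2_piU_hi_1 (PtR.InM.of_bounds ?_ ?_ ?_ ?_) <;>
      simp only [mbox2_piU_hi_1, InChart] <;> norm_num <;> (try constructor) <;> linarith

/-- The exit curve on the box of piece 2. -/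
theorem mexit2_holds {o : PtR} (h0 : 2 / 5 ≤ o.u) (h1 : o.u ≤ 3 / 5) (h2 : 1 / 20 ≤ o.a) (h3 : o.a ≤ 1 / 5)
    (h4 : 1 / 20 ≤ o.I) (h5 : o.I ≤ 1 / 12) :
    0 ≤ Band.midBracket Band.midExitA o.I o.a o.u * 83 - 1000 * 50 := by
  have h := QEx.nonneg_on_box mexit2_check (x := (⟨o.u, 83 / 50, o.a, o.I⟩ : PtR).x)
    (PtR.InM.of_bounds (o := ⟨o.u, 83 / 50, o.a, o.I⟩) ?_ ?_ ?_ ?_)
  · obtain ⟨eu, -, va, vI, -, -, -, -, -, -, -, -⟩ := (⟨o.u, 83 / 50, o.a, o.I⟩ : PtR).vals
    simp only [xExitM, xFour, val_add, val_sub, val_mul, val_num, eu, va, vI] at h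
    push_cast at h
    simp only [Band.midBracket, Band.midFour]
    linarith
  all_goals simp only [mexit2Box, InChart] <;> norm_num <;> (try constructor) <;> linarith

/-- The piece 2 holds on its box. -/
theorem mpiece2_holds {o : PtR} (m : o.InM mbox2) :
    mpiece2.AllHoldM false (bandMid Band.midLowA Band.midUpA) o where
  forms :=
    { forms := fun q h k =>
        match q, h, k with
        | .g, false, .lo => QEx.nonneg_on_box (List.all_eq_true.1 m2_group0 (mpiece2.checkM false .g false .lo) (by simp)) m
        | .g, false, .hi => QEx.nonneg_on_box (List.all_eq_true.1 m2_group0 (mpiece2.checkM false .g false .hi) (by simp)) m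
        | .g, false, .mid => QEx.nonneg_on_box (List.all_eq_true.1 m2_group0 (mpiece2.checkM false .g false .mid) (by simp)) m
        | .g, true, .lo => QEx.nonneg_on_box (List.all_eq_true.1 m2_group0 (mpiece2.checkM false .g true .lo) (by simp)) m
        | .g, true, .hi => QEx.nonneg_on_box (List.all_eq_true.1 m2_group0 (mpiece2.checkM false .g true .hi) (by simp)) m
        | .g, true, .mid => QEx.nonneg_on_box (List.all_eq_true.1 m2_group0 (mpiece2.checkM false .g true .mid) (by simp)) m
        | .n, false, .lo => QEx.nonneg_on_box (List.all_eq_true.1 m2_group1 (mpiece2.checkM false .n false .lo) (by simp)) m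
        | .n, false, .hi => QEx.nonneg_on_box (List.all_eq_true.1 m2_group1 (mpiece2.checkM false .n false .hi) (by simp)) m
        | .n, false, .mid => QEx.nonneg_on_box (List.all_eq_true.1 m2_group1 (mpiece2.checkM false .n false .mid) (by simp)) m
        | .n, true, .lo => QEx.nonneg_on_box (List.all_eq_true.1 m2_group1 (mpiece2.checkM false .n true .lo) (by simp)) m
        | .n, true, .hi => QEx.nonneg_on_box (List.all_eq_true.1 m2_group1 (mpiece2.checkM false .n true .hi) (by simp)) m
        | .n, true, .mid => QEx.nonneg_on_box (List.all_eq_true.1 m2_group1 (mpiece2.checkM false .n true .mid) (by simp)) m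
        | .tlo, false, .lo => QEx.nonneg_on_box (List.all_eq_true.1 m2_group2 (mpiece2.checkM false .tlo false .lo) (by simp)) m
        | .tlo, false, .hi => QEx.nonneg_on_box (List.all_eq_true.1 m2_group2 (mpiece2.checkM false .tlo false .hi) (by simp)) m
        | .tlo, false, .mid => QEx.nonneg_on_box (List.all_eq_true.1 m2_group2 (mpiece2.checkM false .tlo false .mid) (by simp)) m
        | .tlo, true, .lo => QEx.nonneg_on_box (List.all_eq_true.1 m2_group2 (mpiece2.checkM false .tlo true .lo) (by simp)) m
        | .tlo, true, .hi => QEx.nonneg_on_box (List.all_eq_true.1 m2_group2 (mpiece2.checkM false .tlo true .hi) (by simp)) m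
        | .tlo, true, .mid => QEx.nonneg_on_box (List.all_eq_true.1 m2_group2 (mpiece2.checkM false .tlo true .mid) (by simp)) m
        | .thi, false, .lo => QEx.nonneg_on_box (List.all_eq_true.1 m2_group2 (mpiece2.checkM false .thi false .lo) (by simp)) m
        | .thi, false, .hi => QEx.nonneg_on_box (List.all_eq_true.1 m2_group2 (mpiece2.checkM false .thi false .hi) (by simp)) m
        | .thi, false, .mid => QEx.nonneg_on_box (List.all_eq_true.1 m2_group2 (mpiece2.checkM false .thi false .mid) (by simp)) m
        | .thi, true, .lo => QEx.nonneg_on_box (List.all_eq_true.1 m2_group2 (mpiece2.checkM false .thi true .lo) (by simp)) m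
        | .thi, true, .hi => QEx.nonneg_on_box (List.all_eq_true.1 m2_group2 (mpiece2.checkM false .thi true .hi) (by simp)) m
        | .thi, true, .mid => QEx.nonneg_on_box (List.all_eq_true.1 m2_group2 (mpiece2.checkM false .thi true .mid) (by simp)) m
        | .mlo, false, .lo => QEx.nonneg_on_box (List.all_eq_true.1 m2_group3 (mpiece2.checkM false .mlo false .lo) (by simp)) m
        | .mlo, false, .hi => QEx.nonneg_on_box (List.all_eq_true.1 m2_group3 (mpiece2.checkM false .mlo false .hi) (by simp)) m
        | .mlo, false, .mid => QEx.nonneg_on_box (List.all_eq_true.1 m2_group3 (mpiece2.checkM false .mlo false .mid) (by simp)) m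
        | .mlo, true, .lo => QEx.nonneg_on_box (List.all_eq_true.1 m2_group3 (mpiece2.checkM false .mlo false .lo) (by simp)) m
        | .mlo, true, .hi => QEx.nonneg_on_box (List.all_eq_true.1 m2_group3 (mpiece2.checkM false .mlo false .hi) (by simp)) m
        | .mlo, true, .mid => QEx.nonneg_on_box (List.all_eq_true.1 m2_group3 (mpiece2.checkM false .mlo false .mid) (by simp)) m
        | .mhi, false, .lo => QEx.nonneg_on_box (List.all_eq_true.1 m2_group3 (mpiece2.checkM false .mhi false .lo) (by simp)) m
        | .mhi, false, .hi => QEx.nonneg_on_box (List.all_eq_true.1 m2_group3 (mpiece2.checkM false .mhi false .hi) (by simp)) m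
        | .mhi, false, .mid => QEx.nonneg_on_box (List.all_eq_true.1 m2_group3 (mpiece2.checkM false .mhi false .mid) (by simp)) m
        | .mhi, true, .lo => QEx.nonneg_on_box (List.all_eq_true.1 m2_group3 (mpiece2.checkM false .mhi false .lo) (by simp)) m
        | .mhi, true, .hi => QEx.nonneg_on_box (List.all_eq_true.1 m2_group3 (mpiece2.checkM false .mhi false .hi) (by simp)) m
        | .mhi, true, .mid => QEx.nonneg_on_box (List.all_eq_true.1 m2_group3 (mpiece2.checkM false .mhi false .mid) (by simp)) m
        | .f, false, .lo => QEx.nonneg_on_box (List.all_eq_true.1 m2_group4 (mpiece2.checkM false .f false .lo) (by simp)) m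
        | .f, false, .hi => QEx.nonneg_on_box (List.all_eq_true.1 m2_group5 (mpiece2.checkM false .f false .hi) (by simp)) m
        | .f, false, .mid => QEx.nonneg_on_box (List.all_eq_true.1 m2_group6 (mpiece2.checkM false .f false .mid) (by simp)) m
        | .f, true, .lo => QEx.nonneg_on_box (List.all_eq_true.1 m2_group7 (mpiece2.checkM false .f true .lo) (by simp)) m
        | .f, true, .hi => QEx.nonneg_on_box (List.all_eq_true.1 m2_group8 (mpiece2.checkM false .f true .hi) (by simp)) m
        | .f, true, .mid => QEx.nonneg_on_box (List.all_eq_true.1 m2_group9 (mpiece2.checkM false .f true .mid) (by simp)) m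
      side := fun e =>
        match e with
        | .rA => QEx.nonneg_on_box (List.all_eq_true.1 m2_group16 (mpiece2.side .rA) (by simp)) m
        | .rB => QEx.nonneg_on_box (List.all_eq_true.1 m2_group16 (mpiece2.side .rB) (by simp)) m
        | .rF => QEx.nonneg_on_box (List.all_eq_true.1 m2_group17 (mpiece2.side .rF) (by simp)) m
        | .q => QEx.nonneg_on_box (List.all_eq_true.1 m2_group18 (mpiece2.side .q) (by simp)) m
        | .om => QEx.nonneg_on_box (List.all_eq_true.1 m2_group19 (mpiece2.side .om) (by simp)) m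
      nums := by decide }
  env :=
    { lo := fun e =>
        match e with
        | .piL => QEx.nonneg_on_box (List.all_eq_true.1 m2_group10 (mpiece2.env (bandMid Band.midLowA Band.midUpA).lo (bandMid Band.midLowA Band.midUpA).hi (bandMid Band.midLowA Band.midUpA).pole .piL) (by simp)) m
        | .piU => QEx.nonneg_on_box (List.all_eq_true.1 m2_group10 (mpiece2.env (bandMid Band.midLowA Band.midUpA).lo (bandMid Band.midLowA Band.midUpA).hi (bandMid Band.midLowA Band.midUpA).pole .piU) (by simp)) m
        | .omL => QEx.nonneg_on_box (List.all_eq_true.1 m2_group12 (mpiece2.env (bandMid Band.midLowA Band.midUpA).lo (bandMid Band.midLowA Band.midUpA).hi (bandMid Band.midLowA Band.midUpA).pole .omL) (by simp)) m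
        | .omU => QEx.nonneg_on_box (List.all_eq_true.1 m2_group12 (mpiece2.env (bandMid Band.midLowA Band.midUpA).lo (bandMid Band.midLowA Band.midUpA).hi (bandMid Band.midLowA Band.midUpA).pole .omU) (by simp)) m
        | .tauL => QEx.nonneg_on_box (List.all_eq_true.1 m2_group13 (mpiece2.env (bandMid Band.midLowA Band.midUpA).lo (bandMid Band.midLowA Band.midUpA).hi (bandMid Band.midLowA Band.midUpA).pole .tauL) (by simp)) m
        | .tauU => QEx.nonneg_on_box (List.all_eq_true.1 m2_group13 (mpiece2.env (bandMid Band.midLowA Band.midUpA).lo (bandMid Band.midLowA Band.midUpA).hi (bandMid Band.midLowA Band.midUpA).pole .tauU) (by simp)) m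
      hi := fun e =>
        match e with
        | .piL => QEx.nonneg_on_box (List.all_eq_true.1 m2_group10 (mpiece2.env (bandMid Band.midLowA Band.midUpA).hi (bandMid Band.midLowA Band.midUpA).hi (bandMid Band.midLowA Band.midUpA).pole .piL) (by simp)) m
        | .piU => m2_piU_hi_all m
        | .omL => QEx.nonneg_on_box (List.all_eq_true.1 m2_group12 (mpiece2.env (bandMid Band.midLowA Band.midUpA).hi (bandMid Band.midLowA Band.midUpA).hi (bandMid Band.midLowA Band.midUpA).pole .omL) (by simp)) m
        | .omU => QEx.nonneg_on_box (List.all_eq_true.1 m2_group12 (mpiece2.env (bandMid Band.midLowA Band.midUpA).hi (bandMid Band.midLowA Band.midUpA).hi (bandMid Band.midLowA Band.midUpA).pole .omU) (by simp)) m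
        | .tauL => QEx.nonneg_on_box (List.all_eq_true.1 m2_group13 (mpiece2.env (bandMid Band.midLowA Band.midUpA).hi (bandMid Band.midLowA Band.midUpA).hi (bandMid Band.midLowA Band.midUpA).pole .tauL) (by simp)) m
        | .tauU => QEx.nonneg_on_box (List.all_eq_true.1 m2_group13 (mpiece2.env (bandMid Band.midLowA Band.midUpA).hi (bandMid Band.midLowA Band.midUpA).hi (bandMid Band.midLowA Band.midUpA).pole .tauU) (by simp)) m
      wid := QEx.nonneg_on_box (List.all_eq_true.1 m2_group15 (mpiece2.wid - qD 1) (by simp)) m }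
  rayLo := QEx.nonneg_on_box (List.all_eq_true.1 m2_group14 (xLLGM false (bandMid Band.midLowA Band.midUpA).lo (bandMid Band.midLowA Band.midUpA).pole) (by simp)) m
  rayHi := QEx.nonneg_on_box (List.all_eq_true.1 m2_group14 (xLLGM false (bandMid Band.midLowA Band.midUpA).hi (bandMid Band.midLowA Band.midUpA).pole) (by simp)) m

/-- The split check. -/
theorem m3_piL_lo_all {o : PtR} (m : o.InM mbox3) :
    0 ≤ (mpiece3.env (bandMid Band.midLowA Band.midUpA).lo (bandMid Band.midLowA Band.midUpA).hi (bandMid Band.midLowA Band.midUpA).pole .piL).val o.x := by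
  obtain ⟨hu, hX, ha, hI⟩ := m.bounds
  simp only [mbox3] at hu hX ha hI
  norm_num at hu hX ha hI
  rcases le_total (o.I) (1 / 15 : ℝ) with h0 | h0
  ·
    rcases le_total (o.X) (147 / 100 : ℝ) with h1 | h1
    ·
      refine QEx.nonneg_on_box m3_piL_lo_0 (PtR.InM.of_bounds ?_ ?_ ?_ ?_) <;>
        simp only [mbox3_piL_lo_0, InChart] <;> norm_num <;> (try constructor) <;> linarith
    ·
      rcases le_total (o.u) (1 / 2 : ℝ) with h2 | h2
      ·
        refine QEx.nonneg_on_box m3_piL_lo_1 (PtR.InM.of_bounds ?_ ?_ ?_ ?_) <;>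
          simp only [mbox3_piL_lo_1, InChart] <;> norm_num <;> (try constructor) <;> linarith
      ·
        rcases le_total (o.I) (7 / 120 : ℝ) with h3 | h3
        ·
          refine QEx.nonneg_on_box m3_piL_lo_2 (PtR.InM.of_bounds ?_ ?_ ?_ ?_) <;>
            simp only [mbox3_piL_lo_2, InChart] <;> norm_num <;> (try constructor) <;> linarith
        ·
          rcases le_total (o.a) (51 / 200 : ℝ) with h4 | h4
          ·
            refine QEx.nonneg_on_box m3_piL_lo_3 (PtR.InM.of_bounds ?_ ?_ ?_ ?_) <;>
              simp only [mbox3_piL_lo_3, InChart] <;> norm_num <;> (try constructor) <;> linarith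
          ·
            refine QEx.nonneg_on_box m3_piL_lo_4 (PtR.InM.of_bounds ?_ ?_ ?_ ?_) <;>
              simp only [mbox3_piL_lo_4, InChart] <;> norm_num <;> (try constructor) <;> linarith
  ·
    rcases le_total (o.I) (3 / 40 : ℝ) with h1 | h1
    ·
      rcases le_total (o.u) (1 / 2 : ℝ) with h2 | h2
      ·
        refine QEx.nonneg_on_box m3_piL_lo_5 (PtR.InM.of_bounds ?_ ?_ ?_ ?_) <;>
          simp only [mbox3_piL_lo_5, InChart] <;> norm_num <;> (try constructor) <;> linarith
      ·
        rcases le_total (o.a) (51 / 200 : ℝ) with h3 | h3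
        ·
          refine QEx.nonneg_on_box m3_piL_lo_6 (PtR.InM.of_bounds ?_ ?_ ?_ ?_) <;>
            simp only [mbox3_piL_lo_6, InChart] <;> norm_num <;> (try constructor) <;> linarith
        ·
          refine QEx.nonneg_on_box m3_piL_lo_7 (PtR.InM.of_bounds ?_ ?_ ?_ ?_) <;>
            simp only [mbox3_piL_lo_7, InChart] <;> norm_num <;> (try constructor) <;> linarith
    ·
      refine QEx.nonneg_on_box m3_piL_lo_8 (PtR.InM.of_bounds ?_ ?_ ?_ ?_) <;>
        simp only [mbox3_piL_lo_8, InChart] <;> norm_num <;> (try constructor) <;> linarith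

/-- The split check. -/
theorem m3_omU_lo_all {o : PtR} (m : o.InM mbox3) :
    0 ≤ (mpiece3.env (bandMid Band.midLowA Band.midUpA).lo (bandMid Band.midLowA Band.midUpA).hi (bandMid Band.midLowA Band.midUpA).pole .omU).val o.x := by
  obtain ⟨hu, hX, ha, hI⟩ := m.bounds
  simp only [mbox3] at hu hX ha hI
  norm_num at hu hX ha hI
  rcases le_total (o.a) (51 / 200 : ℝ) with h0 | h0
  ·
    refine QEx.nonneg_on_box m3_omU_lo_0 (PtR.InM.of_bounds ?_ ?_ ?_ ?_) <;>
      simp only [mbox3_omU_lo_0, InChart] <;> norm_num <;> (try constructor) <;> linarith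
  ·
    refine QEx.nonneg_on_box m3_omU_lo_1 (PtR.InM.of_bounds ?_ ?_ ?_ ?_) <;>
      simp only [mbox3_omU_lo_1, InChart] <;> norm_num <;> (try constructor) <;> linarith

/-- The split check. -/
theorem m3_omU_hi_all {o : PtR} (m : o.InM mbox3) :
    0 ≤ (mpiece3.env (bandMid Band.midLowA Band.midUpA).hi (bandMid Band.midLowA Band.midUpA).hi (bandMid Band.midLowA Band.midUpA).pole .omU).val o.x := by
  obtain ⟨hu, hX, ha, hI⟩ := m.bounds
  simp only [mbox3] at hu hX ha hI
  norm_num at hu hX ha hI
  rcases le_total (o.a) (51 / 200 : ℝ) with h0 | h0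
  ·
    refine QEx.nonneg_on_box m3_omU_hi_0 (PtR.InM.of_bounds ?_ ?_ ?_ ?_) <;>
      simp only [mbox3_omU_hi_0, InChart] <;> norm_num <;> (try constructor) <;> linarith
  ·
    refine QEx.nonneg_on_box m3_omU_hi_1 (PtR.InM.of_bounds ?_ ?_ ?_ ?_) <;>
      simp only [mbox3_omU_hi_1, InChart] <;> norm_num <;> (try constructor) <;> linarith

/-- The split check. -/
theorem m3_side_rF_all {o : PtR} (m : o.InM mbox3) :
    0 ≤ (mpiece3.side .rF).val o.x := by
  obtain ⟨hu, hX, ha, hI⟩ := m.bounds
  simp only [mbox3] at hu hX ha hI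
  norm_num at hu hX ha hI
  rcases le_total (o.X) (147 / 100 : ℝ) with h0 | h0
  ·
    refine QEx.nonneg_on_box m3_side_rF_0 (PtR.InM.of_bounds ?_ ?_ ?_ ?_) <;>
      simp only [mbox3_side_rF_0, InChart] <;> norm_num <;> (try constructor) <;> linarith
  ·
    rcases le_total (o.X) (347 / 200 : ℝ) with h1 | h1
    ·
      refine QEx.nonneg_on_box m3_side_rF_1 (PtR.InM.of_bounds ?_ ?_ ?_ ?_) <;>
        simp only [mbox3_side_rF_1, InChart] <;> norm_num <;> (try constructor) <;> linarith
    ·
      refine QEx.nonneg_on_box m3_side_rF_2 (PtR.InM.of_bounds ?_ ?_ ?_ ?_) <;>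
        simp only [mbox3_side_rF_2, InChart] <;> norm_num <;> (try constructor) <;> linarith

/-- The exit curve on the box of piece 3. -/
theorem mexit3_holds {o : PtR} (h0 : 2 / 5 ≤ o.u) (h1 : o.u ≤ 3 / 5) (h2 : 1 / 5 ≤ o.a) (h3 : o.a ≤ 31 / 100)
    (h4 : 1 / 20 ≤ o.I) (h5 : o.I ≤ 1 / 12) :
    0 ≤ Band.midBracket Band.midExitA o.I o.a o.u * 2 - 1000 * 1 := by
  have h := QEx.nonneg_on_box mexit3_check (x := (⟨o.u, 2, o.a, o.I⟩ : PtR).x)
    (PtR.InM.of_bounds (o := ⟨o.u, 2, o.a, o.I⟩) ?_ ?_ ?_ ?_)
  · obtain ⟨eu, -, va, vI, -, -, -, -, -, -, -, -⟩ := (⟨o.u, 2, o.a, o.I⟩ : PtR).vals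
    simp only [xExitM, xFour, val_add, val_sub, val_mul, val_num, eu, va, vI] at h
    push_cast at h
    simp only [Band.midBracket, Band.midFour]
    linarith
  all_goals simp only [mexit3Box, InChart] <;> norm_num <;> (try constructor) <;> linarith

/-- The piece 3 holds on its box. -/
theorem mpiece3_holds {o : PtR} (m : o.InM mbox3) :
    mpiece3.AllHoldM false (bandMid Band.midLowA Band.midUpA) o where
  forms :=
    { forms := fun q h k =>
        match q, h, k with
        | .g, false, .lo => QEx.nonneg_on_box (List.all_eq_true.1 m3_group0 (mpiece3.checkM false .g false .lo) (by simp)) m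
        | .g, false, .hi => QEx.nonneg_on_box (List.all_eq_true.1 m3_group0 (mpiece3.checkM false .g false .hi) (by simp)) m
        | .g, false, .mid => QEx.nonneg_on_box (List.all_eq_true.1 m3_group0 (mpiece3.checkM false .g false .mid) (by simp)) m
        | .g, true, .lo => QEx.nonneg_on_box (List.all_eq_true.1 m3_group0 (mpiece3.checkM false .g true .lo) (by simp)) m
        | .g, true, .hi => QEx.nonneg_on_box (List.all_eq_true.1 m3_group0 (mpiece3.checkM false .g true .hi) (by simp)) m
        | .g, true, .mid => QEx.nonneg_on_box (List.all_eq_true.1 m3_group0 (mpiece3.checkM false .g true .mid) (by simp)) m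
        | .n, false, .lo => QEx.nonneg_on_box (List.all_eq_true.1 m3_group1 (mpiece3.checkM false .n false .lo) (by simp)) m
        | .n, false, .hi => QEx.nonneg_on_box (List.all_eq_true.1 m3_group1 (mpiece3.checkM false .n false .hi) (by simp)) m
        | .n, false, .mid => QEx.nonneg_on_box (List.all_eq_true.1 m3_group1 (mpiece3.checkM false .n false .mid) (by simp)) m
        | .n, true, .lo => QEx.nonneg_on_box (List.all_eq_true.1 m3_group1 (mpiece3.checkM false .n true .lo) (by simp)) m
        | .n, true, .hi => QEx.nonneg_on_box (List.all_eq_true.1 m3_group1 (mpiece3.checkM false .n true .hi) (by simp)) m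
        | .n, true, .mid => QEx.nonneg_on_box (List.all_eq_true.1 m3_group1 (mpiece3.checkM false .n true .mid) (by simp)) m
        | .tlo, false, .lo => QEx.nonneg_on_box (List.all_eq_true.1 m3_group2 (mpiece3.checkM false .tlo false .lo) (by simp)) m
        | .tlo, false, .hi => QEx.nonneg_on_box (List.all_eq_true.1 m3_group2 (mpiece3.checkM false .tlo false .hi) (by simp)) m
        | .tlo, false, .mid => QEx.nonneg_on_box (List.all_eq_true.1 m3_group2 (mpiece3.checkM false .tlo false .mid) (by simp)) m
        | .tlo, true, .lo => QEx.nonneg_on_box (List.all_eq_true.1 m3_group2 (mpiece3.checkM false .tlo true .lo) (by simp)) m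
        | .tlo, true, .hi => QEx.nonneg_on_box (List.all_eq_true.1 m3_group2 (mpiece3.checkM false .tlo true .hi) (by simp)) m
        | .tlo, true, .mid => QEx.nonneg_on_box (List.all_eq_true.1 m3_group2 (mpiece3.checkM false .tlo true .mid) (by simp)) m
        | .thi, false, .lo => QEx.nonneg_on_box (List.all_eq_true.1 m3_group2 (mpiece3.checkM false .thi false .lo) (by simp)) m
        | .thi, false, .hi => QEx.nonneg_on_box (List.all_eq_true.1 m3_group2 (mpiece3.checkM false .thi false .hi) (by simp)) m
        | .thi, false, .mid => QEx.nonneg_on_box (List.all_eq_true.1 m3_group2 (mpiece3.checkM false .thi false .mid) (by simp)) m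
        | .thi, true, .lo => QEx.nonneg_on_box (List.all_eq_true.1 m3_group2 (mpiece3.checkM false .thi true .lo) (by simp)) m
        | .thi, true, .hi => QEx.nonneg_on_box (List.all_eq_true.1 m3_group2 (mpiece3.checkM false .thi true .hi) (by simp)) m
        | .thi, true, .mid => QEx.nonneg_on_box (List.all_eq_true.1 m3_group2 (mpiece3.checkM false .thi true .mid) (by simp)) m
        | .mlo, false, .lo => QEx.nonneg_on_box (List.all_eq_true.1 m3_group3 (mpiece3.checkM false .mlo false .lo) (by simp)) m
        | .mlo, false, .hi => QEx.nonneg_on_box (List.all_eq_true.1 m3_group3 (mpiece3.checkM false .mlo false .hi) (by simp)) m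
        | .mlo, false, .mid => QEx.nonneg_on_box (List.all_eq_true.1 m3_group3 (mpiece3.checkM false .mlo false .mid) (by simp)) m
        | .mlo, true, .lo => QEx.nonneg_on_box (List.all_eq_true.1 m3_group3 (mpiece3.checkM false .mlo false .lo) (by simp)) m
        | .mlo, true, .hi => QEx.nonneg_on_box (List.all_eq_true.1 m3_group3 (mpiece3.checkM false .mlo false .hi) (by simp)) m
        | .mlo, true, .mid => QEx.nonneg_on_box (List.all_eq_true.1 m3_group3 (mpiece3.checkM false .mlo false .mid) (by simp)) m
        | .mhi, false, .lo => QEx.nonneg_on_box (List.all_eq_true.1 m3_group3 (mpiece3.checkM false .mhi false .lo) (by simp)) m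
        | .mhi, false, .hi => QEx.nonneg_on_box (List.all_eq_true.1 m3_group3 (mpiece3.checkM false .mhi false .hi) (by simp)) m
        | .mhi, false, .mid => QEx.nonneg_on_box (List.all_eq_true.1 m3_group3 (mpiece3.checkM false .mhi false .mid) (by simp)) m
        | .mhi, true, .lo => QEx.nonneg_on_box (List.all_eq_true.1 m3_group3 (mpiece3.checkM false .mhi false .lo) (by simp)) m
        | .mhi, true, .hi => QEx.nonneg_on_box (List.all_eq_true.1 m3_group3 (mpiece3.checkM false .mhi false .hi) (by simp)) m
        | .mhi, true, .mid => QEx.nonneg_on_box (List.all_eq_true.1 m3_group3 (mpiece3.checkM false .mhi false .mid) (by simp)) m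
        | .f, false, .lo => QEx.nonneg_on_box (List.all_eq_true.1 m3_group4 (mpiece3.checkM false .f false .lo) (by simp)) m
        | .f, false, .hi => QEx.nonneg_on_box (List.all_eq_true.1 m3_group5 (mpiece3.checkM false .f false .hi) (by simp)) m
        | .f, false, .mid => QEx.nonneg_on_box (List.all_eq_true.1 m3_group6 (mpiece3.checkM false .f false .mid) (by simp)) m
        | .f, true, .lo => QEx.nonneg_on_box (List.all_eq_true.1 m3_group7 (mpiece3.checkM false .f true .lo) (by simp)) m
        | .f, true, .hi => QEx.nonneg_on_box (List.all_eq_true.1 m3_group8 (mpiece3.checkM false .f true .hi) (by simp)) m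
        | .f, true, .mid => QEx.nonneg_on_box (List.all_eq_true.1 m3_group9 (mpiece3.checkM false .f true .mid) (by simp)) m
      side := fun e =>
        match e with
        | .rA => QEx.nonneg_on_box (List.all_eq_true.1 m3_group18 (mpiece3.side .rA) (by simp)) m
        | .rB => QEx.nonneg_on_box (List.all_eq_true.1 m3_group18 (mpiece3.side .rB) (by simp)) m
        | .rF => m3_side_rF_all m
        | .q => QEx.nonneg_on_box (List.all_eq_true.1 m3_group20 (mpiece3.side .q) (by simp)) m
        | .om => QEx.nonneg_on_box (List.all_eq_true.1 m3_group21 (mpiece3.side .om) (by simp)) m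
      nums := by decide }
  env :=
    { lo := fun e =>
        match e with
        | .piL => m3_piL_lo_all m
        | .piU => QEx.nonneg_on_box (List.all_eq_true.1 m3_group11 (mpiece3.env (bandMid Band.midLowA Band.midUpA).lo (bandMid Band.midLowA Band.midUpA).hi (bandMid Band.midLowA Band.midUpA).pole .piU) (by simp)) m
        | .omL => QEx.nonneg_on_box (List.all_eq_true.1 m3_group12 (mpiece3.env (bandMid Band.midLowA Band.midUpA).lo (bandMid Band.midLowA Band.midUpA).hi (bandMid Band.midLowA Band.midUpA).pole .omL) (by simp)) m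
        | .omU => m3_omU_lo_all m
        | .tauL => QEx.nonneg_on_box (List.all_eq_true.1 m3_group15 (mpiece3.env (bandMid Band.midLowA Band.midUpA).lo (bandMid Band.midLowA Band.midUpA).hi (bandMid Band.midLowA Band.midUpA).pole .tauL) (by simp)) m
        | .tauU => QEx.nonneg_on_box (List.all_eq_true.1 m3_group15 (mpiece3.env (bandMid Band.midLowA Band.midUpA).lo (bandMid Band.midLowA Band.midUpA).hi (bandMid Band.midLowA Band.midUpA).pole .tauU) (by simp)) m
      hi := fun e =>
        match e with
        | .piL => QEx.nonneg_on_box (List.all_eq_true.1 m3_group11 (mpiece3.env (bandMid Band.midLowA Band.midUpA).hi (bandMid Band.midLowA Band.midUpA).hi (bandMid Band.midLowA Band.midUpA).pole .piL) (by simp)) m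
        | .piU => QEx.nonneg_on_box (List.all_eq_true.1 m3_group11 (mpiece3.env (bandMid Band.midLowA Band.midUpA).hi (bandMid Band.midLowA Band.midUpA).hi (bandMid Band.midLowA Band.midUpA).pole .piU) (by simp)) m
        | .omL => QEx.nonneg_on_box (List.all_eq_true.1 m3_group12 (mpiece3.env (bandMid Band.midLowA Band.midUpA).hi (bandMid Band.midLowA Band.midUpA).hi (bandMid Band.midLowA Band.midUpA).pole .omL) (by simp)) m
        | .omU => m3_omU_hi_all m
        | .tauL => QEx.nonneg_on_box (List.all_eq_true.1 m3_group15 (mpiece3.env (bandMid Band.midLowA Band.midUpA).hi (bandMid Band.midLowA Band.midUpA).hi (bandMid Band.midLowA Band.midUpA).pole .tauL) (by simp)) m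
        | .tauU => QEx.nonneg_on_box (List.all_eq_true.1 m3_group15 (mpiece3.env (bandMid Band.midLowA Band.midUpA).hi (bandMid Band.midLowA Band.midUpA).hi (bandMid Band.midLowA Band.midUpA).pole .tauU) (by simp)) m
      wid := QEx.nonneg_on_box (List.all_eq_true.1 m3_group17 (mpiece3.wid - qD 1) (by simp)) m }
  rayLo := QEx.nonneg_on_box (List.all_eq_true.1 m3_group16 (xLLGM false (bandMid Band.midLowA Band.midUpA).lo (bandMid Band.midLowA Band.midUpA).pole) (by simp)) m
  rayHi := QEx.nonneg_on_box (List.all_eq_true.1 m3_group16 (xLLGM false (bandMid Band.midLowA Band.midUpA).hi (bandMid Band.midLowA Band.midUpA).pole) (by simp)) m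

/-- The split check. -/
theorem m4_omU_lo_all {o : PtR} (m : o.InM mbox4) :
    0 ≤ (mpiece4.env bandSmall.lo bandSmall.hi bandSmall.pole .omU).val o.x := by
  obtain ⟨hu, hX, ha, hI⟩ := m.bounds
  simp only [mbox4] at hu hX ha hI
  norm_num at hu hX ha hI
  rcases le_total (o.I) (5 / 48 : ℝ) with h0 | h0
  ·
    rcases le_total (o.u) (1 / 20 : ℝ) with h1 | h1
    ·
      refine QEx.nonneg_on_box m4_omU_lo_0 (PtR.InM.of_bounds ?_ ?_ ?_ ?_) <;>
        simp only [mbox4_omU_lo_0, InChart] <;> norm_num <;> (try constructor) <;> linarith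
    ·
      rcases le_total (o.a) (39 / 200 : ℝ) with h2 | h2
      ·
        refine QEx.nonneg_on_box m4_omU_lo_1 (PtR.InM.of_bounds ?_ ?_ ?_ ?_) <;>
          simp only [mbox4_omU_lo_1, InChart] <;> norm_num <;> (try constructor) <;> linarith
      ·
        refine QEx.nonneg_on_box m4_omU_lo_2 (PtR.InM.of_bounds ?_ ?_ ?_ ?_) <;>
          simp only [mbox4_omU_lo_2, InChart] <;> norm_num <;> (try constructor) <;> linarith
  ·
    refine QEx.nonneg_on_box m4_omU_lo_3 (PtR.InM.of_bounds ?_ ?_ ?_ ?_) <;>
      simp only [mbox4_omU_lo_3, InChart] <;> norm_num <;> (try constructor) <;> linarith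

/-- The split check. -/
theorem m4_tauL_lo_all {o : PtR} (m : o.InM mbox4) :
    0 ≤ (mpiece4.env bandSmall.lo bandSmall.hi bandSmall.pole .tauL).val o.x := by
  obtain ⟨hu, hX, ha, hI⟩ := m.bounds
  simp only [mbox4] at hu hX ha hI
  norm_num at hu hX ha hI
  rcases le_total (o.a) (39 / 200 : ℝ) with h0 | h0
  ·
    refine QEx.nonneg_on_box m4_tauL_lo_0 (PtR.InM.of_bounds ?_ ?_ ?_ ?_) <;>
      simp only [mbox4_tauL_lo_0, InChart] <;> norm_num <;> (try constructor) <;> linarith
  ·
    refine QEx.nonneg_on_box m4_tauL_lo_1 (PtR.InM.of_bounds ?_ ?_ ?_ ?_) <;>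
      simp only [mbox4_tauL_lo_1, InChart] <;> norm_num <;> (try constructor) <;> linarith

/-- The split check. -/
theorem m4_tauL_hi_all {o : PtR} (m : o.InM mbox4) :
    0 ≤ (mpiece4.env bandSmall.hi bandSmall.hi bandSmall.pole .tauL).val o.x := by
  obtain ⟨hu, hX, ha, hI⟩ := m.bounds
  simp only [mbox4] at hu hX ha hI
  norm_num at hu hX ha hI
  rcases le_total (o.a) (39 / 200 : ℝ) with h0 | h0
  ·
    refine QEx.nonneg_on_box m4_tauL_hi_0 (PtR.InM.of_bounds ?_ ?_ ?_ ?_) <;>
      simp only [mbox4_tauL_hi_0, InChart] <;> norm_num <;> (try constructor) <;> linarith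
  ·
    rcases le_total (o.a) (101 / 400 : ℝ) with h1 | h1
    ·
      refine QEx.nonneg_on_box m4_tauL_hi_1 (PtR.InM.of_bounds ?_ ?_ ?_ ?_) <;>
        simp only [mbox4_tauL_hi_1, InChart] <;> norm_num <;> (try constructor) <;> linarith
    ·
      refine QEx.nonneg_on_box m4_tauL_hi_2 (PtR.InM.of_bounds ?_ ?_ ?_ ?_) <;>
        simp only [mbox4_tauL_hi_2, InChart] <;> norm_num <;> (try constructor) <;> linarith

/-- The exit curve on the box of piece 4. -/
theorem mexit4B_holds {o : PtR} (h0 : 0 ≤ o.u) (h1 : o.u ≤ 1 / 10) (h2 : 2 / 25 ≤ o.a) (h3 : o.a ≤ 31 / 100)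
    (h4 : 1 / 12 ≤ o.I) (h5 : o.I ≤ 27 / 250) :
    0 ≤ Band.midBracket Band.midExitB o.I o.a o.u * 61 - 1000 * 50 := by
  have h := QEx.nonneg_on_box mexit4B_check (x := (⟨o.u, 61 / 50, o.a, o.I⟩ : PtR).x)
    (PtR.InM.of_bounds (o := ⟨o.u, 61 / 50, o.a, o.I⟩) ?_ ?_ ?_ ?_)
  · obtain ⟨eu, -, va, vI, -, -, -, -, -, -, -, -⟩ := (⟨o.u, 61 / 50, o.a, o.I⟩ : PtR).vals
    simp only [xExitM, xFour, val_add, val_sub, val_mul, val_num, eu, va, vI] at h
    push_cast at h
    simp only [Band.midBracket, Band.midFour]
    linarith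
  all_goals simp only [mexit4BBox, InChart] <;> norm_num <;> (try constructor) <;> linarith

/-- The exit curve on the box of piece 4. -/
theorem mexit4C_holds {o : PtR} (h0 : 0 ≤ o.u) (h1 : o.u ≤ 1 / 10) (h2 : 2 / 25 ≤ o.a) (h3 : o.a ≤ 31 / 100)
    (h4 : 27 / 250 ≤ o.I) (h5 : o.I ≤ 1 / 8) :
    0 ≤ Band.midBracket Band.midExitC o.I o.a o.u * 61 - 1000 * 50 := by
  have h := QEx.nonneg_on_box mexit4C_check (x := (⟨o.u, 61 / 50, o.a, o.I⟩ : PtR).x)
    (PtR.InM.of_bounds (o := ⟨o.u, 61 / 50, o.a, o.I⟩) ?_ ?_ ?_ ?_)
  · obtain ⟨eu, -, va, vI, -, -, -, -, -, -, -, -⟩ := (⟨o.u, 61 / 50, o.a, o.I⟩ : PtR).vals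
    simp only [xExitM, xFour, val_add, val_sub, val_mul, val_num, eu, va, vI] at h
    push_cast at h
    simp only [Band.midBracket, Band.midFour]
    linarith
  all_goals simp only [mexit4CBox, InChart] <;> norm_num <;> (try constructor) <;> linarith

/-- The piece 4 holds on its box. -/
theorem mpiece4_holds {o : PtR} (m : o.InM mbox4) :
    mpiece4.AllHoldM false bandSmall o where
  forms :=
    { forms := fun q h k =>
        match q, h, k with
        | .g, false, .lo => QEx.nonneg_on_box (List.all_eq_true.1 m4_group0 (mpiece4.checkM false .g false .lo) (by simp)) m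
        | .g, false, .hi => QEx.nonneg_on_box (List.all_eq_true.1 m4_group0 (mpiece4.checkM false .g false .hi) (by simp)) m
        | .g, false, .mid => QEx.nonneg_on_box (List.all_eq_true.1 m4_group0 (mpiece4.checkM false .g false .mid) (by simp)) m
        | .g, true, .lo => QEx.nonneg_on_box (List.all_eq_true.1 m4_group0 (mpiece4.checkM false .g true .lo) (by simp)) m
        | .g, true, .hi => QEx.nonneg_on_box (List.all_eq_true.1 m4_group0 (mpiece4.checkM false .g true .hi) (by simp)) m
        | .g, true, .mid => QEx.nonneg_on_box (List.all_eq_true.1 m4_group0 (mpiece4.checkM false .g true .mid) (by simp)) m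
        | .n, false, .lo => QEx.nonneg_on_box (List.all_eq_true.1 m4_group1 (mpiece4.checkM false .n false .lo) (by simp)) m
        | .n, false, .hi => QEx.nonneg_on_box (List.all_eq_true.1 m4_group1 (mpiece4.checkM false .n false .hi) (by simp)) m
        | .n, false, .mid => QEx.nonneg_on_box (List.all_eq_true.1 m4_group1 (mpiece4.checkM false .n false .mid) (by simp)) m
        | .n, true, .lo => QEx.nonneg_on_box (List.all_eq_true.1 m4_group1 (mpiece4.checkM false .n true .lo) (by simp)) m
        | .n, true, .hi => QEx.nonneg_on_box (List.all_eq_true.1 m4_group1 (mpiece4.checkM false .n true .hi) (by simp)) m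
        | .n, true, .mid => QEx.nonneg_on_box (List.all_eq_true.1 m4_group1 (mpiece4.checkM false .n true .mid) (by simp)) m
        | .tlo, false, .lo => QEx.nonneg_on_box (List.all_eq_true.1 m4_group2 (mpiece4.checkM false .tlo false .lo) (by simp)) m
        | .tlo, false, .hi => QEx.nonneg_on_box (List.all_eq_true.1 m4_group2 (mpiece4.checkM false .tlo false .hi) (by simp)) m
        | .tlo, false, .mid => QEx.nonneg_on_box (List.all_eq_true.1 m4_group2 (mpiece4.checkM false .tlo false .mid) (by simp)) m
        | .tlo, true, .lo => QEx.nonneg_on_box (List.all_eq_true.1 m4_group2 (mpiece4.checkM false .tlo true .lo) (by simp)) m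
        | .tlo, true, .hi => QEx.nonneg_on_box (List.all_eq_true.1 m4_group2 (mpiece4.checkM false .tlo true .hi) (by simp)) m
        | .tlo, true, .mid => QEx.nonneg_on_box (List.all_eq_true.1 m4_group2 (mpiece4.checkM false .tlo true .mid) (by simp)) m
        | .thi, false, .lo => QEx.nonneg_on_box (List.all_eq_true.1 m4_group2 (mpiece4.checkM false .thi false .lo) (by simp)) m
        | .thi, false, .hi => QEx.nonneg_on_box (List.all_eq_true.1 m4_group2 (mpiece4.checkM false .thi false .hi) (by simp)) m
        | .thi, false, .mid => QEx.nonneg_on_box (List.all_eq_true.1 m4_group2 (mpiece4.checkM false .thi false .mid) (by simp)) m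
        | .thi, true, .lo => QEx.nonneg_on_box (List.all_eq_true.1 m4_group2 (mpiece4.checkM false .thi true .lo) (by simp)) m
        | .thi, true, .hi => QEx.nonneg_on_box (List.all_eq_true.1 m4_group2 (mpiece4.checkM false .thi true .hi) (by simp)) m
        | .thi, true, .mid => QEx.nonneg_on_box (List.all_eq_true.1 m4_group2 (mpiece4.checkM false .thi true .mid) (by simp)) m
        | .mlo, false, .lo => QEx.nonneg_on_box (List.all_eq_true.1 m4_group3 (mpiece4.checkM false .mlo false .lo) (by simp)) m
        | .mlo, false, .hi => QEx.nonneg_on_box (List.all_eq_true.1 m4_group3 (mpiece4.checkM false .mlo false .hi) (by simp)) m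
        | .mlo, false, .mid => QEx.nonneg_on_box (List.all_eq_true.1 m4_group3 (mpiece4.checkM false .mlo false .mid) (by simp)) m
        | .mlo, true, .lo => QEx.nonneg_on_box (List.all_eq_true.1 m4_group3 (mpiece4.checkM false .mlo false .lo) (by simp)) m
        | .mlo, true, .hi => QEx.nonneg_on_box (List.all_eq_true.1 m4_group3 (mpiece4.checkM false .mlo false .hi) (by simp)) m
        | .mlo, true, .mid => QEx.nonneg_on_box (List.all_eq_true.1 m4_group3 (mpiece4.checkM false .mlo false .mid) (by simp)) m
        | .mhi, false, .lo => QEx.nonneg_on_box (List.all_eq_true.1 m4_group3 (mpiece4.checkM false .mhi false .lo) (by simp)) m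
        | .mhi, false, .hi => QEx.nonneg_on_box (List.all_eq_true.1 m4_group3 (mpiece4.checkM false .mhi false .hi) (by simp)) m
        | .mhi, false, .mid => QEx.nonneg_on_box (List.all_eq_true.1 m4_group3 (mpiece4.checkM false .mhi false .mid) (by simp)) m
        | .mhi, true, .lo => QEx.nonneg_on_box (List.all_eq_true.1 m4_group3 (mpiece4.checkM false .mhi false .lo) (by simp)) m
        | .mhi, true, .hi => QEx.nonneg_on_box (List.all_eq_true.1 m4_group3 (mpiece4.checkM false .mhi false .hi) (by simp)) m
        | .mhi, true, .mid => QEx.nonneg_on_box (List.all_eq_true.1 m4_group3 (mpiece4.checkM false .mhi false .mid) (by simp)) m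
        | .f, false, .lo => QEx.nonneg_on_box (List.all_eq_true.1 m4_group4 (mpiece4.checkM false .f false .lo) (by simp)) m
        | .f, false, .hi => QEx.nonneg_on_box (List.all_eq_true.1 m4_group5 (mpiece4.checkM false .f false .hi) (by simp)) m
        | .f, false, .mid => QEx.nonneg_on_box (List.all_eq_true.1 m4_group6 (mpiece4.checkM false .f false .mid) (by simp)) m
        | .f, true, .lo => QEx.nonneg_on_box (List.all_eq_true.1 m4_group7 (mpiece4.checkM false .f true .lo) (by simp)) m
        | .f, true, .hi => QEx.nonneg_on_box (List.all_eq_true.1 m4_group8 (mpiece4.checkM false .f true .hi) (by simp)) m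
        | .f, true, .mid => QEx.nonneg_on_box (List.all_eq_true.1 m4_group9 (mpiece4.checkM false .f true .mid) (by simp)) m
      side := fun e =>
        match e with
        | .rA => QEx.nonneg_on_box (List.all_eq_true.1 m4_group22 (mpiece4.side .rA) (by simp)) m
        | .rB => QEx.nonneg_on_box (List.all_eq_true.1 m4_group22 (mpiece4.side .rB) (by simp)) m
        | .rF => QEx.nonneg_on_box (List.all_eq_true.1 m4_group23 (mpiece4.side .rF) (by simp)) m
        | .q => QEx.nonneg_on_box (List.all_eq_true.1 m4_group24 (mpiece4.side .q) (by simp)) m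
        | .om => QEx.nonneg_on_box (List.all_eq_true.1 m4_group25 (mpiece4.side .om) (by simp)) m
      nums := by decide }
  env :=
    { lo := fun e =>
        match e with
        | .piL => QEx.nonneg_on_box (List.all_eq_true.1 m4_group10 (mpiece4.env bandSmall.lo bandSmall.hi bandSmall.pole .piL) (by simp)) m
        | .piU => QEx.nonneg_on_box (List.all_eq_true.1 m4_group10 (mpiece4.env bandSmall.lo bandSmall.hi bandSmall.pole .piU) (by simp)) m
        | .omL => QEx.nonneg_on_box (List.all_eq_true.1 m4_group12 (mpiece4.env bandSmall.lo bandSmall.hi bandSmall.pole .omL) (by simp)) m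
        | .omU => m4_omU_lo_all m
        | .tauL => m4_tauL_lo_all m
        | .tauU => QEx.nonneg_on_box (List.all_eq_true.1 m4_group17 (mpiece4.env bandSmall.lo bandSmall.hi bandSmall.pole .tauU) (by simp)) m
      hi := fun e =>
        match e with
        | .piL => QEx.nonneg_on_box (List.all_eq_true.1 m4_group11 (mpiece4.env bandSmall.hi bandSmall.hi bandSmall.pole .piL) (by simp)) m
        | .piU => QEx.nonneg_on_box (List.all_eq_true.1 m4_group11 (mpiece4.env bandSmall.hi bandSmall.hi bandSmall.pole .piU) (by simp)) m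
        | .omL => QEx.nonneg_on_box (List.all_eq_true.1 m4_group13 (mpiece4.env bandSmall.hi bandSmall.hi bandSmall.pole .omL) (by simp)) m
        | .omU => QEx.nonneg_on_box (List.all_eq_true.1 m4_group13 (mpiece4.env bandSmall.hi bandSmall.hi bandSmall.pole .omU) (by simp)) m
        | .tauL => m4_tauL_hi_all m
        | .tauU => QEx.nonneg_on_box (List.all_eq_true.1 m4_group18 (mpiece4.env bandSmall.hi bandSmall.hi bandSmall.pole .tauU) (by simp)) m
      wid := QEx.nonneg_on_box (List.all_eq_true.1 m4_group21 (mpiece4.wid - qD 1) (by simp)) m }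
  rayLo := QEx.nonneg_on_box (List.all_eq_true.1 m4_group19 (xLLGM false bandSmall.lo bandSmall.pole) (by simp)) m
  rayHi := QEx.nonneg_on_box (List.all_eq_true.1 m4_group20 (xLLGM false bandSmall.hi bandSmall.pole) (by simp)) m

/-- The split check. -/
theorem m5_piU_hi_all {o : PtR} (m : o.InM mbox5) :
    0 ≤ (mpiece5.env (bandMid Band.midLowB Band.midUpB).hi (bandMid Band.midLowB Band.midUpB).hi (bandMid Band.midLowB Band.midUpB).pole .piU).val o.x := by
  obtain ⟨hu, hX, ha, hI⟩ := m.bounds
  simp only [mbox5] at hu hX ha hI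
  norm_num at hu hX ha hI
  rcases le_total (o.a) (39 / 200 : ℝ) with h0 | h0
  ·
    refine QEx.nonneg_on_box m5_piU_hi_0 (PtR.InM.of_bounds ?_ ?_ ?_ ?_) <;>
      simp only [mbox5_piU_hi_0, InChart] <;> norm_num <;> (try constructor) <;> linarith
  ·
    refine QEx.nonneg_on_box m5_piU_hi_1 (PtR.InM.of_bounds ?_ ?_ ?_ ?_) <;>
      simp only [mbox5_piU_hi_1, InChart] <;> norm_num <;> (try constructor) <;> linarith

/-- The split check. -/
theorem m5_omU_lo_all {o : PtR} (m : o.InM mbox5) :
    0 ≤ (mpiece5.env (bandMid Band.midLowB Band.midUpB).lo (bandMid Band.midLowB Band.midUpB).hi (bandMid Band.midLowB Band.midUpB).pole .omU).val o.x := by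
  obtain ⟨hu, hX, ha, hI⟩ := m.bounds
  simp only [mbox5] at hu hX ha hI
  norm_num at hu hX ha hI
  rcases le_total (o.a) (39 / 200 : ℝ) with h0 | h0
  ·
    refine QEx.nonneg_on_box m5_omU_lo_0 (PtR.InM.of_bounds ?_ ?_ ?_ ?_) <;>
      simp only [mbox5_omU_lo_0, InChart] <;> norm_num <;> (try constructor) <;> linarith
  ·
    refine QEx.nonneg_on_box m5_omU_lo_1 (PtR.InM.of_bounds ?_ ?_ ?_ ?_) <;>
      simp only [mbox5_omU_lo_1, InChart] <;> norm_num <;> (try constructor) <;> linarith

/-- The split check. -/
theorem m5_omU_hi_all {o : PtR} (m : o.InM mbox5) :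
    0 ≤ (mpiece5.env (bandMid Band.midLowB Band.midUpB).hi (bandMid Band.midLowB Band.midUpB).hi (bandMid Band.midLowB Band.midUpB).pole .omU).val o.x := by
  obtain ⟨hu, hX, ha, hI⟩ := m.bounds
  simp only [mbox5] at hu hX ha hI
  norm_num at hu hX ha hI
  rcases le_total (o.a) (39 / 200 : ℝ) with h0 | h0
  ·
    refine QEx.nonneg_on_box m5_omU_hi_0 (PtR.InM.of_bounds ?_ ?_ ?_ ?_) <;>
      simp only [mbox5_omU_hi_0, InChart] <;> norm_num <;> (try constructor) <;> linarith
  ·
    rcases le_total (o.a) (101 / 400 : ℝ) with h1 | h1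
    ·
      refine QEx.nonneg_on_box m5_omU_hi_1 (PtR.InM.of_bounds ?_ ?_ ?_ ?_) <;>
        simp only [mbox5_omU_hi_1, InChart] <;> norm_num <;> (try constructor) <;> linarith
    ·
      refine QEx.nonneg_on_box m5_omU_hi_2 (PtR.InM.of_bounds ?_ ?_ ?_ ?_) <;>
        simp only [mbox5_omU_hi_2, InChart] <;> norm_num <;> (try constructor) <;> linarith

/-- The split check. -/
theorem m5_tauL_lo_all {o : PtR} (m : o.InM mbox5) :
    0 ≤ (mpiece5.env (bandMid Band.midLowB Band.midUpB).lo (bandMid Band.midLowB Band.midUpB).hi (bandMid Band.midLowB Band.midUpB).pole .tauL).val o.x := by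
  obtain ⟨hu, hX, ha, hI⟩ := m.bounds
  simp only [mbox5] at hu hX ha hI
  norm_num at hu hX ha hI
  rcases le_total (o.a) (39 / 200 : ℝ) with h0 | h0
  ·
    refine QEx.nonneg_on_box m5_tauL_lo_0 (PtR.InM.of_bounds ?_ ?_ ?_ ?_) <;>
      simp only [mbox5_tauL_lo_0, InChart] <;> norm_num <;> (try constructor) <;> linarith
  ·
    refine QEx.nonneg_on_box m5_tauL_lo_1 (PtR.InM.of_bounds ?_ ?_ ?_ ?_) <;>
      simp only [mbox5_tauL_lo_1, InChart] <;> norm_num <;> (try constructor) <;> linarith

/-- The split check. -/
theorem m5_tauL_hi_all {o : PtR} (m : o.InM mbox5) :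
    0 ≤ (mpiece5.env (bandMid Band.midLowB Band.midUpB).hi (bandMid Band.midLowB Band.midUpB).hi (bandMid Band.midLowB Band.midUpB).pole .tauL).val o.x := by
  obtain ⟨hu, hX, ha, hI⟩ := m.bounds
  simp only [mbox5] at hu hX ha hI
  norm_num at hu hX ha hI
  rcases le_total (o.a) (39 / 200 : ℝ) with h0 | h0
  ·
    refine QEx.nonneg_on_box m5_tauL_hi_0 (PtR.InM.of_bounds ?_ ?_ ?_ ?_) <;>
      simp only [mbox5_tauL_hi_0, InChart] <;> norm_num <;> (try constructor) <;> linarith
  ·
    refine QEx.nonneg_on_box m5_tauL_hi_1 (PtR.InM.of_bounds ?_ ?_ ?_ ?_) <;>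
      simp only [mbox5_tauL_hi_1, InChart] <;> norm_num <;> (try constructor) <;> linarith

/-- The exit curve on the box of piece 5. -/
theorem mexit5_holds {o : PtR} (h0 : 1 / 10 ≤ o.u) (h1 : o.u ≤ 2 / 5) (h2 : 2 / 25 ≤ o.a) (h3 : o.a ≤ 31 / 100)
    (h4 : 1 / 12 ≤ o.I) (h5 : o.I ≤ 27 / 250) :
    0 ≤ Band.midBracket Band.midExitB o.I o.a o.u * 39 - 1000 * 25 := by
  have h := QEx.nonneg_on_box mexit5_check (x := (⟨o.u, 39 / 25, o.a, o.I⟩ : PtR).x)
    (PtR.InM.of_bounds (o := ⟨o.u, 39 / 25, o.a, o.I⟩) ?_ ?_ ?_ ?_)
  · obtain ⟨eu, -, va, vI, -, -, -, -, -, -, -, -⟩ := (⟨o.u, 39 / 25, o.a, o.I⟩ : PtR).vals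
    simp only [xExitM, xFour, val_add, val_sub, val_mul, val_num, eu, va, vI] at h
    push_cast at h
    simp only [Band.midBracket, Band.midFour]
    linarith
  all_goals simp only [mexit5Box, InChart] <;> norm_num <;> (try constructor) <;> linarith

/-- The piece 5 holds on its box. -/
theorem mpiece5_holds {o : PtR} (m : o.InM mbox5) :
    mpiece5.AllHoldM false (bandMid Band.midLowB Band.midUpB) o where
  forms :=
    { forms := fun q h k =>
        match q, h, k with
        | .g, false, .lo => QEx.nonneg_on_box (List.all_eq_true.1 m5_group0 (mpiece5.checkM false .g false .lo) (by simp)) m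
        | .g, false, .hi => QEx.nonneg_on_box (List.all_eq_true.1 m5_group0 (mpiece5.checkM false .g false .hi) (by simp)) m
        | .g, false, .mid => QEx.nonneg_on_box (List.all_eq_true.1 m5_group0 (mpiece5.checkM false .g false .mid) (by simp)) m
        | .g, true, .lo => QEx.nonneg_on_box (List.all_eq_true.1 m5_group0 (mpiece5.checkM false .g true .lo) (by simp)) m
        | .g, true, .hi => QEx.nonneg_on_box (List.all_eq_true.1 m5_group0 (mpiece5.checkM false .g true .hi) (by simp)) m
        | .g, true, .mid => QEx.nonneg_on_box (List.all_eq_true.1 m5_group0 (mpiece5.checkM false .g true .mid) (by simp)) m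
        | .n, false, .lo => QEx.nonneg_on_box (List.all_eq_true.1 m5_group1 (mpiece5.checkM false .n false .lo) (by simp)) m
        | .n, false, .hi => QEx.nonneg_on_box (List.all_eq_true.1 m5_group1 (mpiece5.checkM false .n false .hi) (by simp)) m
        | .n, false, .mid => QEx.nonneg_on_box (List.all_eq_true.1 m5_group1 (mpiece5.checkM false .n false .mid) (by simp)) m
        | .n, true, .lo => QEx.nonneg_on_box (List.all_eq_true.1 m5_group1 (mpiece5.checkM false .n true .lo) (by simp)) m
        | .n, true, .hi => QEx.nonneg_on_box (List.all_eq_true.1 m5_group1 (mpiece5.checkM false .n true .hi) (by simp)) m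
        | .n, true, .mid => QEx.nonneg_on_box (List.all_eq_true.1 m5_group1 (mpiece5.checkM false .n true .mid) (by simp)) m
        | .tlo, false, .lo => QEx.nonneg_on_box (List.all_eq_true.1 m5_group2 (mpiece5.checkM false .tlo false .lo) (by simp)) m
        | .tlo, false, .hi => QEx.nonneg_on_box (List.all_eq_true.1 m5_group2 (mpiece5.checkM false .tlo false .hi) (by simp)) m
        | .tlo, false, .mid => QEx.nonneg_on_box (List.all_eq_true.1 m5_group2 (mpiece5.checkM false .tlo false .mid) (by simp)) m
        | .tlo, true, .lo => QEx.nonneg_on_box (List.all_eq_true.1 m5_group2 (mpiece5.checkM false .tlo true .lo) (by simp)) m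
        | .tlo, true, .hi => QEx.nonneg_on_box (List.all_eq_true.1 m5_group2 (mpiece5.checkM false .tlo true .hi) (by simp)) m
        | .tlo, true, .mid => QEx.nonneg_on_box (List.all_eq_true.1 m5_group2 (mpiece5.checkM false .tlo true .mid) (by simp)) m
        | .thi, false, .lo => QEx.nonneg_on_box (List.all_eq_true.1 m5_group2 (mpiece5.checkM false .thi false .lo) (by simp)) m
        | .thi, false, .hi => QEx.nonneg_on_box (List.all_eq_true.1 m5_group2 (mpiece5.checkM false .thi false .hi) (by simp)) m
        | .thi, false, .mid => QEx.nonneg_on_box (List.all_eq_true.1 m5_group2 (mpiece5.checkM false .thi false .mid) (by simp)) m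
        | .thi, true, .lo => QEx.nonneg_on_box (List.all_eq_true.1 m5_group2 (mpiece5.checkM false .thi true .lo) (by simp)) m
        | .thi, true, .hi => QEx.nonneg_on_box (List.all_eq_true.1 m5_group2 (mpiece5.checkM false .thi true .hi) (by simp)) m
        | .thi, true, .mid => QEx.nonneg_on_box (List.all_eq_true.1 m5_group2 (mpiece5.checkM false .thi true .mid) (by simp)) m
        | .mlo, false, .lo => QEx.nonneg_on_box (List.all_eq_true.1 m5_group3 (mpiece5.checkM false .mlo false .lo) (by simp)) m
        | .mlo, false, .hi => QEx.nonneg_on_box (List.all_eq_true.1 m5_group3 (mpiece5.checkM false .mlo false .hi) (by simp)) m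
        | .mlo, false, .mid => QEx.nonneg_on_box (List.all_eq_true.1 m5_group3 (mpiece5.checkM false .mlo false .mid) (by simp)) m
        | .mlo, true, .lo => QEx.nonneg_on_box (List.all_eq_true.1 m5_group3 (mpiece5.checkM false .mlo false .lo) (by simp)) m
        | .mlo, true, .hi => QEx.nonneg_on_box (List.all_eq_true.1 m5_group3 (mpiece5.checkM false .mlo false .hi) (by simp)) m
        | .mlo, true, .mid => QEx.nonneg_on_box (List.all_eq_true.1 m5_group3 (mpiece5.checkM false .mlo false .mid) (by simp)) m
        | .mhi, false, .lo => QEx.nonneg_on_box (List.all_eq_true.1 m5_group3 (mpiece5.checkM false .mhi false .lo) (by simp)) m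
        | .mhi, false, .hi => QEx.nonneg_on_box (List.all_eq_true.1 m5_group3 (mpiece5.checkM false .mhi false .hi) (by simp)) m
        | .mhi, false, .mid => QEx.nonneg_on_box (List.all_eq_true.1 m5_group3 (mpiece5.checkM false .mhi false .mid) (by simp)) m
        | .mhi, true, .lo => QEx.nonneg_on_box (List.all_eq_true.1 m5_group3 (mpiece5.checkM false .mhi false .lo) (by simp)) m
        | .mhi, true, .hi => QEx.nonneg_on_box (List.all_eq_true.1 m5_group3 (mpiece5.checkM false .mhi false .hi) (by simp)) m
        | .mhi, true, .mid => QEx.nonneg_on_box (List.all_eq_true.1 m5_group3 (mpiece5.checkM false .mhi false .mid) (by simp)) m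
        | .f, false, .lo => QEx.nonneg_on_box (List.all_eq_true.1 m5_group4 (mpiece5.checkM false .f false .lo) (by simp)) m
        | .f, false, .hi => QEx.nonneg_on_box (List.all_eq_true.1 m5_group5 (mpiece5.checkM false .f false .hi) (by simp)) m
        | .f, false, .mid => QEx.nonneg_on_box (List.all_eq_true.1 m5_group6 (mpiece5.checkM false .f false .mid) (by simp)) m
        | .f, true, .lo => QEx.nonneg_on_box (List.all_eq_true.1 m5_group7 (mpiece5.checkM false .f true .lo) (by simp)) m
        | .f, true, .hi => QEx.nonneg_on_box (List.all_eq_true.1 m5_group8 (mpiece5.checkM false .f true .hi) (by simp)) m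
        | .f, true, .mid => QEx.nonneg_on_box (List.all_eq_true.1 m5_group9 (mpiece5.checkM false .f true .mid) (by simp)) m
      side := fun e =>
        match e with
        | .rA => QEx.nonneg_on_box (List.all_eq_true.1 m5_group20 (mpiece5.side .rA) (by simp)) m
        | .rB => QEx.nonneg_on_box (List.all_eq_true.1 m5_group20 (mpiece5.side .rB) (by simp)) m
        | .rF => QEx.nonneg_on_box (List.all_eq_true.1 m5_group21 (mpiece5.side .rF) (by simp)) m
        | .q => QEx.nonneg_on_box (List.all_eq_true.1 m5_group22 (mpiece5.side .q) (by simp)) m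
        | .om => QEx.nonneg_on_box (List.all_eq_true.1 m5_group23 (mpiece5.side .om) (by simp)) m
      nums := by decide }
  env :=
    { lo := fun e =>
        match e with
        | .piL => QEx.nonneg_on_box (List.all_eq_true.1 m5_group10 (mpiece5.env (bandMid Band.midLowB Band.midUpB).lo (bandMid Band.midLowB Band.midUpB).hi (bandMid Band.midLowB Band.midUpB).pole .piL) (by simp)) m
        | .piU => QEx.nonneg_on_box (List.all_eq_true.1 m5_group10 (mpiece5.env (bandMid Band.midLowB Band.midUpB).lo (bandMid Band.midLowB Band.midUpB).hi (bandMid Band.midLowB Band.midUpB).pole .piU) (by simp)) m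
        | .omL => QEx.nonneg_on_box (List.all_eq_true.1 m5_group12 (mpiece5.env (bandMid Band.midLowB Band.midUpB).lo (bandMid Band.midLowB Band.midUpB).hi (bandMid Band.midLowB Band.midUpB).pole .omL) (by simp)) m
        | .omU => m5_omU_lo_all m
        | .tauL => m5_tauL_lo_all m
        | .tauU => QEx.nonneg_on_box (List.all_eq_true.1 m5_group17 (mpiece5.env (bandMid Band.midLowB Band.midUpB).lo (bandMid Band.midLowB Band.midUpB).hi (bandMid Band.midLowB Band.midUpB).pole .tauU) (by simp)) m
      hi := fun e =>
        match e with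
        | .piL => QEx.nonneg_on_box (List.all_eq_true.1 m5_group10 (mpiece5.env (bandMid Band.midLowB Band.midUpB).hi (bandMid Band.midLowB Band.midUpB).hi (bandMid Band.midLowB Band.midUpB).pole .piL) (by simp)) m
        | .piU => m5_piU_hi_all m
        | .omL => QEx.nonneg_on_box (List.all_eq_true.1 m5_group12 (mpiece5.env (bandMid Band.midLowB Band.midUpB).hi (bandMid Band.midLowB Band.midUpB).hi (bandMid Band.midLowB Band.midUpB).pole .omL) (by simp)) m
        | .omU => m5_omU_hi_all m
        | .tauL => m5_tauL_hi_all m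
        | .tauU => QEx.nonneg_on_box (List.all_eq_true.1 m5_group17 (mpiece5.env (bandMid Band.midLowB Band.midUpB).hi (bandMid Band.midLowB Band.midUpB).hi (bandMid Band.midLowB Band.midUpB).pole .tauU) (by simp)) m
      wid := QEx.nonneg_on_box (List.all_eq_true.1 m5_group19 (mpiece5.wid - qD 1) (by simp)) m }
  rayLo := QEx.nonneg_on_box (List.all_eq_true.1 m5_group18 (xLLGM false (bandMid Band.midLowB Band.midUpB).lo (bandMid Band.midLowB Band.midUpB).pole) (by simp)) m
  rayHi := QEx.nonneg_on_box (List.all_eq_true.1 m5_group18 (xLLGM false (bandMid Band.midLowB Band.midUpB).hi (bandMid Band.midLowB Band.midUpB).pole) (by simp)) m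

/-- The split check. -/
theorem m6_piL_lo_all {o : PtR} (m : o.InM mbox6) :
    0 ≤ (mpiece6.env (bandMid Band.midLowB Band.midUpB).lo (bandMid Band.midLowB Band.midUpB).hi (bandMid Band.midLowB Band.midUpB).pole .piL).val o.x := by
  obtain ⟨hu, hX, ha, hI⟩ := m.bounds
  simp only [mbox6] at hu hX ha hI
  norm_num at hu hX ha hI
  rcases le_total (o.a) (39 / 200 : ℝ) with h0 | h0
  ·
    refine QEx.nonneg_on_box m6_piL_lo_0 (PtR.InM.of_bounds ?_ ?_ ?_ ?_) <;>
      simp only [mbox6_piL_lo_0, InChart] <;> norm_num <;> (try constructor) <;> linarith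
  ·
    rcases le_total (o.u) (1 / 2 : ℝ) with h1 | h1
    ·
      refine QEx.nonneg_on_box m6_piL_lo_1 (PtR.InM.of_bounds ?_ ?_ ?_ ?_) <;>
        simp only [mbox6_piL_lo_1, InChart] <;> norm_num <;> (try constructor) <;> linarith
    ·
      rcases le_total (o.a) (101 / 400 : ℝ) with h2 | h2
      ·
        refine QEx.nonneg_on_box m6_piL_lo_2 (PtR.InM.of_bounds ?_ ?_ ?_ ?_) <;>
          simp only [mbox6_piL_lo_2, InChart] <;> norm_num <;> (try constructor) <;> linarith
      ·
        rcases le_total (o.u) (11 / 20 : ℝ) with h3 | h3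
        ·
          refine QEx.nonneg_on_box m6_piL_lo_3 (PtR.InM.of_bounds ?_ ?_ ?_ ?_) <;>
            simp only [mbox6_piL_lo_3, InChart] <;> norm_num <;> (try constructor) <;> linarith
        ·
          rcases le_total (o.I) (287 / 3000 : ℝ) with h4 | h4
          ·
            refine QEx.nonneg_on_box m6_piL_lo_4 (PtR.InM.of_bounds ?_ ?_ ?_ ?_) <;>
              simp only [mbox6_piL_lo_4, InChart] <;> norm_num <;> (try constructor) <;> linarith
          ·
            rcases le_total (o.a) (9 / 32 : ℝ) with h5 | h5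
            ·
              refine QEx.nonneg_on_box m6_piL_lo_5 (PtR.InM.of_bounds ?_ ?_ ?_ ?_) <;>
                simp only [mbox6_piL_lo_5, InChart] <;> norm_num <;> (try constructor) <;> linarith
            ·
              refine QEx.nonneg_on_box m6_piL_lo_6 (PtR.InM.of_bounds ?_ ?_ ?_ ?_) <;>
                simp only [mbox6_piL_lo_6, InChart] <;> norm_num <;> (try constructor) <;> linarith

/-- The split check. -/
theorem m6_piU_hi_all {o : PtR} (m : o.InM mbox6) :
    0 ≤ (mpiece6.env (bandMid Band.midLowB Band.midUpB).hi (bandMid Band.midLowB Band.midUpB).hi (bandMid Band.midLowB Band.midUpB).pole .piU).val o.x := by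
  obtain ⟨hu, hX, ha, hI⟩ := m.bounds
  simp only [mbox6] at hu hX ha hI
  norm_num at hu hX ha hI
  rcases le_total (o.a) (39 / 200 : ℝ) with h0 | h0
  ·
    rcases le_total (o.a) (11 / 80 : ℝ) with h1 | h1
    ·
      refine QEx.nonneg_on_box m6_piU_hi_0 (PtR.InM.of_bounds ?_ ?_ ?_ ?_) <;>
        simp only [mbox6_piU_hi_0, InChart] <;> norm_num <;> (try constructor) <;> linarith
    ·
      refine QEx.nonneg_on_box m6_piU_hi_1 (PtR.InM.of_bounds ?_ ?_ ?_ ?_) <;>
        simp only [mbox6_piU_hi_1, InChart] <;> norm_num <;> (try constructor) <;> linarith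
  ·
    refine QEx.nonneg_on_box m6_piU_hi_2 (PtR.InM.of_bounds ?_ ?_ ?_ ?_) <;>
      simp only [mbox6_piU_hi_2, InChart] <;> norm_num <;> (try constructor) <;> linarith

/-- The split check. -/
theorem m6_omU_lo_all {o : PtR} (m : o.InM mbox6) :
    0 ≤ (mpiece6.env (bandMid Band.midLowB Band.midUpB).lo (bandMid Band.midLowB Band.midUpB).hi (bandMid Band.midLowB Band.midUpB).pole .omU).val o.x := by
  obtain ⟨hu, hX, ha, hI⟩ := m.bounds
  simp only [mbox6] at hu hX ha hI
  norm_num at hu hX ha hI
  rcases le_total (o.a) (39 / 200 : ℝ) with h0 | h0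
  ·
    rcases le_total (o.X) (149 / 100 : ℝ) with h1 | h1
    ·
      refine QEx.nonneg_on_box m6_omU_lo_0 (PtR.InM.of_bounds ?_ ?_ ?_ ?_) <;>
        simp only [mbox6_omU_lo_0, InChart] <;> norm_num <;> (try constructor) <;> linarith
    ·
      refine QEx.nonneg_on_box m6_omU_lo_1 (PtR.InM.of_bounds ?_ ?_ ?_ ?_) <;>
        simp only [mbox6_omU_lo_1, InChart] <;> norm_num <;> (try constructor) <;> linarith
  ·
    rcases le_total (o.a) (101 / 400 : ℝ) with h1 | h1
    ·
      rcases le_total (o.X) (149 / 100 : ℝ) with h2 | h2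
      ·
        refine QEx.nonneg_on_box m6_omU_lo_2 (PtR.InM.of_bounds ?_ ?_ ?_ ?_) <;>
          simp only [mbox6_omU_lo_2, InChart] <;> norm_num <;> (try constructor) <;> linarith
      ·
        refine QEx.nonneg_on_box m6_omU_lo_3 (PtR.InM.of_bounds ?_ ?_ ?_ ?_) <;>
          simp only [mbox6_omU_lo_3, InChart] <;> norm_num <;> (try constructor) <;> linarith
    ·
      refine QEx.nonneg_on_box m6_omU_lo_4 (PtR.InM.of_bounds ?_ ?_ ?_ ?_) <;>
        simp only [mbox6_omU_lo_4, InChart] <;> norm_num <;> (try constructor) <;> linarith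

/-- The split check. -/
theorem m6_omU_hi_all {o : PtR} (m : o.InM mbox6) :
    0 ≤ (mpiece6.env (bandMid Band.midLowB Band.midUpB).hi (bandMid Band.midLowB Band.midUpB).hi (bandMid Band.midLowB Band.midUpB).pole .omU).val o.x := by
  obtain ⟨hu, hX, ha, hI⟩ := m.bounds
  simp only [mbox6] at hu hX ha hI
  norm_num at hu hX ha hI
  rcases le_total (o.a) (39 / 200 : ℝ) with h0 | h0
  ·
    rcases le_total (o.X) (149 / 100 : ℝ) with h1 | h1
    ·
      refine QEx.nonneg_on_box m6_omU_hi_0 (PtR.InM.of_bounds ?_ ?_ ?_ ?_) <;>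
        simp only [mbox6_omU_hi_0, InChart] <;> norm_num <;> (try constructor) <;> linarith
    ·
      refine QEx.nonneg_on_box m6_omU_hi_1 (PtR.InM.of_bounds ?_ ?_ ?_ ?_) <;>
        simp only [mbox6_omU_hi_1, InChart] <;> norm_num <;> (try constructor) <;> linarith
  ·
    rcases le_total (o.a) (101 / 400 : ℝ) with h1 | h1
    ·
      rcases le_total (o.X) (149 / 100 : ℝ) with h2 | h2
      ·
        refine QEx.nonneg_on_box m6_omU_hi_2 (PtR.InM.of_bounds ?_ ?_ ?_ ?_) <;>
          simp only [mbox6_omU_hi_2, InChart] <;> norm_num <;> (try constructor) <;> linarith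
      ·
        refine QEx.nonneg_on_box m6_omU_hi_3 (PtR.InM.of_bounds ?_ ?_ ?_ ?_) <;>
          simp only [mbox6_omU_hi_3, InChart] <;> norm_num <;> (try constructor) <;> linarith
    ·
      refine QEx.nonneg_on_box m6_omU_hi_4 (PtR.InM.of_bounds ?_ ?_ ?_ ?_) <;>
        simp only [mbox6_omU_hi_4, InChart] <;> norm_num <;> (try constructor) <;> linarith

/-- The split check. -/
theorem m6_tauL_lo_all {o : PtR} (m : o.InM mbox6) :
    0 ≤ (mpiece6.env (bandMid Band.midLowB Band.midUpB).lo (bandMid Band.midLowB Band.midUpB).hi (bandMid Band.midLowB Band.midUpB).pole .tauL).val o.x := by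
  obtain ⟨hu, hX, ha, hI⟩ := m.bounds
  simp only [mbox6] at hu hX ha hI
  norm_num at hu hX ha hI
  rcases le_total (o.a) (39 / 200 : ℝ) with h0 | h0
  ·
    refine QEx.nonneg_on_box m6_tauL_lo_0 (PtR.InM.of_bounds ?_ ?_ ?_ ?_) <;>
      simp only [mbox6_tauL_lo_0, InChart] <;> norm_num <;> (try constructor) <;> linarith
  ·
    rcases le_total (o.a) (101 / 400 : ℝ) with h1 | h1
    ·
      refine QEx.nonneg_on_box m6_tauL_lo_1 (PtR.InM.of_bounds ?_ ?_ ?_ ?_) <;>
        simp only [mbox6_tauL_lo_1, InChart] <;> norm_num <;> (try constructor) <;> linarith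
    ·
      refine QEx.nonneg_on_box m6_tauL_lo_2 (PtR.InM.of_bounds ?_ ?_ ?_ ?_) <;>
        simp only [mbox6_tauL_lo_2, InChart] <;> norm_num <;> (try constructor) <;> linarith

/-- The split check. -/
theorem m6_tauL_hi_all {o : PtR} (m : o.InM mbox6) :
    0 ≤ (mpiece6.env (bandMid Band.midLowB Band.midUpB).hi (bandMid Band.midLowB Band.midUpB).hi (bandMid Band.midLowB Band.midUpB).pole .tauL).val o.x := by
  obtain ⟨hu, hX, ha, hI⟩ := m.bounds
  simp only [mbox6] at hu hX ha hI
  norm_num at hu hX ha hI
  rcases le_total (o.a) (39 / 200 : ℝ) with h0 | h0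
  ·
    refine QEx.nonneg_on_box m6_tauL_hi_0 (PtR.InM.of_bounds ?_ ?_ ?_ ?_) <;>
      simp only [mbox6_tauL_hi_0, InChart] <;> norm_num <;> (try constructor) <;> linarith
  ·
    rcases le_total (o.a) (101 / 400 : ℝ) with h1 | h1
    ·
      refine QEx.nonneg_on_box m6_tauL_hi_1 (PtR.InM.of_bounds ?_ ?_ ?_ ?_) <;>
        simp only [mbox6_tauL_hi_1, InChart] <;> norm_num <;> (try constructor) <;> linarith
    ·
      refine QEx.nonneg_on_box m6_tauL_hi_2 (PtR.InM.of_bounds ?_ ?_ ?_ ?_) <;>
        simp only [mbox6_tauL_hi_2, InChart] <;> norm_num <;> (try constructor) <;> linarith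

/-- The exit curve on the box of piece 6. -/
theorem mexit6_holds {o : PtR} (h0 : 2 / 5 ≤ o.u) (h1 : o.u ≤ 3 / 5) (h2 : 2 / 25 ≤ o.a) (h3 : o.a ≤ 31 / 100)
    (h4 : 1 / 12 ≤ o.I) (h5 : o.I ≤ 27 / 250) :
    0 ≤ Band.midBracket Band.midExitB o.I o.a o.u * 103 - 1000 * 50 := by
  have h := QEx.nonneg_on_box mexit6_check (x := (⟨o.u, 103 / 50, o.a, o.I⟩ : PtR).x)
    (PtR.InM.of_bounds (o := ⟨o.u, 103 / 50, o.a, o.I⟩) ?_ ?_ ?_ ?_)
  · obtain ⟨eu, -, va, vI, -, -, -, -, -, -, -, -⟩ := (⟨o.u, 103 / 50, o.a, o.I⟩ : PtR).vals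
    simp only [xExitM, xFour, val_add, val_sub, val_mul, val_num, eu, va, vI] at h
    push_cast at h
    simp only [Band.midBracket, Band.midFour]
    linarith
  all_goals simp only [mexit6Box, InChart] <;> norm_num <;> (try constructor) <;> linarith

/-- The piece 6 holds on its box. -/
theorem mpiece6_holds {o : PtR} (m : o.InM mbox6) :
    mpiece6.AllHoldM false (bandMid Band.midLowB Band.midUpB) o where
  forms :=
    { forms := fun q h k =>
        match q, h, k with
        | .g, false, .lo => QEx.nonneg_on_box (List.all_eq_true.1 m6_group0 (mpiece6.checkM false .g false .lo) (by simp)) m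
        | .g, false, .hi => QEx.nonneg_on_box (List.all_eq_true.1 m6_group0 (mpiece6.checkM false .g false .hi) (by simp)) m
        | .g, false, .mid => QEx.nonneg_on_box (List.all_eq_true.1 m6_group0 (mpiece6.checkM false .g false .mid) (by simp)) m
        | .g, true, .lo => QEx.nonneg_on_box (List.all_eq_true.1 m6_group0 (mpiece6.checkM false .g true .lo) (by simp)) m
        | .g, true, .hi => QEx.nonneg_on_box (List.all_eq_true.1 m6_group0 (mpiece6.checkM false .g true .hi) (by simp)) m
        | .g, true, .mid => QEx.nonneg_on_box (List.all_eq_true.1 m6_group0 (mpiece6.checkM false .g true .mid) (by simp)) m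
        | .n, false, .lo => QEx.nonneg_on_box (List.all_eq_true.1 m6_group1 (mpiece6.checkM false .n false .lo) (by simp)) m
        | .n, false, .hi => QEx.nonneg_on_box (List.all_eq_true.1 m6_group1 (mpiece6.checkM false .n false .hi) (by simp)) m
        | .n, false, .mid => QEx.nonneg_on_box (List.all_eq_true.1 m6_group1 (mpiece6.checkM false .n false .mid) (by simp)) m
        | .n, true, .lo => QEx.nonneg_on_box (List.all_eq_true.1 m6_group1 (mpiece6.checkM false .n true .lo) (by simp)) m
        | .n, true, .hi => QEx.nonneg_on_box (List.all_eq_true.1 m6_group1 (mpiece6.checkM false .n true .hi) (by simp)) m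
        | .n, true, .mid => QEx.nonneg_on_box (List.all_eq_true.1 m6_group1 (mpiece6.checkM false .n true .mid) (by simp)) m
        | .tlo, false, .lo => QEx.nonneg_on_box (List.all_eq_true.1 m6_group2 (mpiece6.checkM false .tlo false .lo) (by simp)) m
        | .tlo, false, .hi => QEx.nonneg_on_box (List.all_eq_true.1 m6_group2 (mpiece6.checkM false .tlo false .hi) (by simp)) m
        | .tlo, false, .mid => QEx.nonneg_on_box (List.all_eq_true.1 m6_group2 (mpiece6.checkM false .tlo false .mid) (by simp)) m
        | .tlo, true, .lo => QEx.nonneg_on_box (List.all_eq_true.1 m6_group2 (mpiece6.checkM false .tlo true .lo) (by simp)) m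
        | .tlo, true, .hi => QEx.nonneg_on_box (List.all_eq_true.1 m6_group2 (mpiece6.checkM false .tlo true .hi) (by simp)) m
        | .tlo, true, .mid => QEx.nonneg_on_box (List.all_eq_true.1 m6_group2 (mpiece6.checkM false .tlo true .mid) (by simp)) m
        | .thi, false, .lo => QEx.nonneg_on_box (List.all_eq_true.1 m6_group2 (mpiece6.checkM false .thi false .lo) (by simp)) m
        | .thi, false, .hi => QEx.nonneg_on_box (List.all_eq_true.1 m6_group2 (mpiece6.checkM false .thi false .hi) (by simp)) m
        | .thi, false, .mid => QEx.nonneg_on_box (List.all_eq_true.1 m6_group2 (mpiece6.checkM false .thi false .mid) (by simp)) m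
        | .thi, true, .lo => QEx.nonneg_on_box (List.all_eq_true.1 m6_group2 (mpiece6.checkM false .thi true .lo) (by simp)) m
        | .thi, true, .hi => QEx.nonneg_on_box (List.all_eq_true.1 m6_group2 (mpiece6.checkM false .thi true .hi) (by simp)) m
        | .thi, true, .mid => QEx.nonneg_on_box (List.all_eq_true.1 m6_group2 (mpiece6.checkM false .thi true .mid) (by simp)) m
        | .mlo, false, .lo => QEx.nonneg_on_box (List.all_eq_true.1 m6_group3 (mpiece6.checkM false .mlo false .lo) (by simp)) m
        | .mlo, false, .hi => QEx.nonneg_on_box (List.all_eq_true.1 m6_group3 (mpiece6.checkM false .mlo false .hi) (by simp)) m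
        | .mlo, false, .mid => QEx.nonneg_on_box (List.all_eq_true.1 m6_group3 (mpiece6.checkM false .mlo false .mid) (by simp)) m
        | .mlo, true, .lo => QEx.nonneg_on_box (List.all_eq_true.1 m6_group3 (mpiece6.checkM false .mlo false .lo) (by simp)) m
        | .mlo, true, .hi => QEx.nonneg_on_box (List.all_eq_true.1 m6_group3 (mpiece6.checkM false .mlo false .hi) (by simp)) m
        | .mlo, true, .mid => QEx.nonneg_on_box (List.all_eq_true.1 m6_group3 (mpiece6.checkM false .mlo false .mid) (by simp)) m
        | .mhi, false, .lo => QEx.nonneg_on_box (List.all_eq_true.1 m6_group3 (mpiece6.checkM false .mhi false .lo) (by simp)) m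
        | .mhi, false, .hi => QEx.nonneg_on_box (List.all_eq_true.1 m6_group3 (mpiece6.checkM false .mhi false .hi) (by simp)) m
        | .mhi, false, .mid => QEx.nonneg_on_box (List.all_eq_true.1 m6_group3 (mpiece6.checkM false .mhi false .mid) (by simp)) m
        | .mhi, true, .lo => QEx.nonneg_on_box (List.all_eq_true.1 m6_group3 (mpiece6.checkM false .mhi false .lo) (by simp)) m
        | .mhi, true, .hi => QEx.nonneg_on_box (List.all_eq_true.1 m6_group3 (mpiece6.checkM false .mhi false .hi) (by simp)) m
        | .mhi, true, .mid => QEx.nonneg_on_box (List.all_eq_true.1 m6_group3 (mpiece6.checkM false .mhi false .mid) (by simp)) m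
        | .f, false, .lo => QEx.nonneg_on_box (List.all_eq_true.1 m6_group4 (mpiece6.checkM false .f false .lo) (by simp)) m
        | .f, false, .hi => QEx.nonneg_on_box (List.all_eq_true.1 m6_group5 (mpiece6.checkM false .f false .hi) (by simp)) m
        | .f, false, .mid => QEx.nonneg_on_box (List.all_eq_true.1 m6_group6 (mpiece6.checkM false .f false .mid) (by simp)) m
        | .f, true, .lo => QEx.nonneg_on_box (List.all_eq_true.1 m6_group7 (mpiece6.checkM false .f true .lo) (by simp)) m
        | .f, true, .hi => QEx.nonneg_on_box (List.all_eq_true.1 m6_group8 (mpiece6.checkM false .f true .hi) (by simp)) m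
        | .f, true, .mid => QEx.nonneg_on_box (List.all_eq_true.1 m6_group9 (mpiece6.checkM false .f true .mid) (by simp)) m
      side := fun e =>
        match e with
        | .rA => QEx.nonneg_on_box (List.all_eq_true.1 m6_group21 (mpiece6.side .rA) (by simp)) m
        | .rB => QEx.nonneg_on_box (List.all_eq_true.1 m6_group21 (mpiece6.side .rB) (by simp)) m
        | .rF => QEx.nonneg_on_box (List.all_eq_true.1 m6_group22 (mpiece6.side .rF) (by simp)) m
        | .q => QEx.nonneg_on_box (List.all_eq_true.1 m6_group23 (mpiece6.side .q) (by simp)) m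
        | .om => QEx.nonneg_on_box (List.all_eq_true.1 m6_group24 (mpiece6.side .om) (by simp)) m
      nums := by decide }
  env :=
    { lo := fun e =>
        match e with
        | .piL => m6_piL_lo_all m
        | .piU => QEx.nonneg_on_box (List.all_eq_true.1 m6_group11 (mpiece6.env (bandMid Band.midLowB Band.midUpB).lo (bandMid Band.midLowB Band.midUpB).hi (bandMid Band.midLowB Band.midUpB).pole .piU) (by simp)) m
        | .omL => QEx.nonneg_on_box (List.all_eq_true.1 m6_group13 (mpiece6.env (bandMid Band.midLowB Band.midUpB).lo (bandMid Band.midLowB Band.midUpB).hi (bandMid Band.midLowB Band.midUpB).pole .omL) (by simp)) m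
        | .omU => m6_omU_lo_all m
        | .tauL => m6_tauL_lo_all m
        | .tauU => QEx.nonneg_on_box (List.all_eq_true.1 m6_group18 (mpiece6.env (bandMid Band.midLowB Band.midUpB).lo (bandMid Band.midLowB Band.midUpB).hi (bandMid Band.midLowB Band.midUpB).pole .tauU) (by simp)) m
      hi := fun e =>
        match e with
        | .piL => QEx.nonneg_on_box (List.all_eq_true.1 m6_group11 (mpiece6.env (bandMid Band.midLowB Band.midUpB).hi (bandMid Band.midLowB Band.midUpB).hi (bandMid Band.midLowB Band.midUpB).pole .piL) (by simp)) m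
        | .piU => m6_piU_hi_all m
        | .omL => QEx.nonneg_on_box (List.all_eq_true.1 m6_group13 (mpiece6.env (bandMid Band.midLowB Band.midUpB).hi (bandMid Band.midLowB Band.midUpB).hi (bandMid Band.midLowB Band.midUpB).pole .omL) (by simp)) m
        | .omU => m6_omU_hi_all m
        | .tauL => m6_tauL_hi_all m
        | .tauU => QEx.nonneg_on_box (List.all_eq_true.1 m6_group18 (mpiece6.env (bandMid Band.midLowB Band.midUpB).hi (bandMid Band.midLowB Band.midUpB).hi (bandMid Band.midLowB Band.midUpB).pole .tauU) (by simp)) m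
      wid := QEx.nonneg_on_box (List.all_eq_true.1 m6_group20 (mpiece6.wid - qD 1) (by simp)) m }
  rayLo := QEx.nonneg_on_box (List.all_eq_true.1 m6_group19 (xLLGM false (bandMid Band.midLowB Band.midUpB).lo (bandMid Band.midLowB Band.midUpB).pole) (by simp)) m
  rayHi := QEx.nonneg_on_box (List.all_eq_true.1 m6_group19 (xLLGM false (bandMid Band.midLowB Band.midUpB).hi (bandMid Band.midLowB Band.midUpB).pole) (by simp)) m

/-- The split check. -/
theorem m7_piU_hi_all {o : PtR} (m : o.InM mbox7) :
    0 ≤ (mpiece7.env (bandMid Band.midLowC Band.midUpC).hi (bandMid Band.midLowC Band.midUpC).hi (bandMid Band.midLowC Band.midUpC).pole .piU).val o.x := by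
  obtain ⟨hu, hX, ha, hI⟩ := m.bounds
  simp only [mbox7] at hu hX ha hI
  norm_num at hu hX ha hI
  rcases le_total (o.a) (209 / 1000 : ℝ) with h0 | h0
  ·
    refine QEx.nonneg_on_box m7_piU_hi_0 (PtR.InM.of_bounds ?_ ?_ ?_ ?_) <;>
      simp only [mbox7_piU_hi_0, InChart] <;> norm_num <;> (try constructor) <;> linarith
  ·
    refine QEx.nonneg_on_box m7_piU_hi_1 (PtR.InM.of_bounds ?_ ?_ ?_ ?_) <;>
      simp only [mbox7_piU_hi_1, InChart] <;> norm_num <;> (try constructor) <;> linarith

/-- The split check. -/
theorem m7_omU_lo_all {o : PtR} (m : o.InM mbox7) :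
    0 ≤ (mpiece7.env (bandMid Band.midLowC Band.midUpC).lo (bandMid Band.midLowC Band.midUpC).hi (bandMid Band.midLowC Band.midUpC).pole .omU).val o.x := by
  obtain ⟨hu, hX, ha, hI⟩ := m.bounds
  simp only [mbox7] at hu hX ha hI
  norm_num at hu hX ha hI
  rcases le_total (o.a) (209 / 1000 : ℝ) with h0 | h0
  ·
    refine QEx.nonneg_on_box m7_omU_lo_0 (PtR.InM.of_bounds ?_ ?_ ?_ ?_) <;>
      simp only [mbox7_omU_lo_0, InChart] <;> norm_num <;> (try constructor) <;> linarith
  ·
    refine QEx.nonneg_on_box m7_omU_lo_1 (PtR.InM.of_bounds ?_ ?_ ?_ ?_) <;>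
      simp only [mbox7_omU_lo_1, InChart] <;> norm_num <;> (try constructor) <;> linarith

/-- The split check. -/
theorem m7_omU_hi_all {o : PtR} (m : o.InM mbox7) :
    0 ≤ (mpiece7.env (bandMid Band.midLowC Band.midUpC).hi (bandMid Band.midLowC Band.midUpC).hi (bandMid Band.midLowC Band.midUpC).pole .omU).val o.x := by
  obtain ⟨hu, hX, ha, hI⟩ := m.bounds
  simp only [mbox7] at hu hX ha hI
  norm_num at hu hX ha hI
  rcases le_total (o.a) (209 / 1000 : ℝ) with h0 | h0
  ·
    rcases le_total (o.u) (6 / 25 : ℝ) with h1 | h1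
    ·
      refine QEx.nonneg_on_box m7_omU_hi_0 (PtR.InM.of_bounds ?_ ?_ ?_ ?_) <;>
        simp only [mbox7_omU_hi_0, InChart] <;> norm_num <;> (try constructor) <;> linarith
    ·
      refine QEx.nonneg_on_box m7_omU_hi_1 (PtR.InM.of_bounds ?_ ?_ ?_ ?_) <;>
        simp only [mbox7_omU_hi_1, InChart] <;> norm_num <;> (try constructor) <;> linarith
  ·
    refine QEx.nonneg_on_box m7_omU_hi_2 (PtR.InM.of_bounds ?_ ?_ ?_ ?_) <;>
      simp only [mbox7_omU_hi_2, InChart] <;> norm_num <;> (try constructor) <;> linarith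

/-- The split check. -/
theorem m7_tauL_lo_all {o : PtR} (m : o.InM mbox7) :
    0 ≤ (mpiece7.env (bandMid Band.midLowC Band.midUpC).lo (bandMid Band.midLowC Band.midUpC).hi (bandMid Band.midLowC Band.midUpC).pole .tauL).val o.x := by
  obtain ⟨hu, hX, ha, hI⟩ := m.bounds
  simp only [mbox7] at hu hX ha hI
  norm_num at hu hX ha hI
  rcases le_total (o.a) (209 / 1000 : ℝ) with h0 | h0
  ·
    refine QEx.nonneg_on_box m7_tauL_lo_0 (PtR.InM.of_bounds ?_ ?_ ?_ ?_) <;>
      simp only [mbox7_tauL_lo_0, InChart] <;> norm_num <;> (try constructor) <;> linarith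
  ·
    rcases le_total (o.a) (519 / 2000 : ℝ) with h1 | h1
    ·
      refine QEx.nonneg_on_box m7_tauL_lo_1 (PtR.InM.of_bounds ?_ ?_ ?_ ?_) <;>
        simp only [mbox7_tauL_lo_1, InChart] <;> norm_num <;> (try constructor) <;> linarith
    ·
      refine QEx.nonneg_on_box m7_tauL_lo_2 (PtR.InM.of_bounds ?_ ?_ ?_ ?_) <;>
        simp only [mbox7_tauL_lo_2, InChart] <;> norm_num <;> (try constructor) <;> linarith

/-- The split check. -/
theorem m7_tauL_hi_all {o : PtR} (m : o.InM mbox7) :
    0 ≤ (mpiece7.env (bandMid Band.midLowC Band.midUpC).hi (bandMid Band.midLowC Band.midUpC).hi (bandMid Band.midLowC Band.midUpC).pole .tauL).val o.x := by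
  obtain ⟨hu, hX, ha, hI⟩ := m.bounds
  simp only [mbox7] at hu hX ha hI
  norm_num at hu hX ha hI
  rcases le_total (o.a) (209 / 1000 : ℝ) with h0 | h0
  ·
    refine QEx.nonneg_on_box m7_tauL_hi_0 (PtR.InM.of_bounds ?_ ?_ ?_ ?_) <;>
      simp only [mbox7_tauL_hi_0, InChart] <;> norm_num <;> (try constructor) <;> linarith
  ·
    rcases le_total (o.a) (519 / 2000 : ℝ) with h1 | h1
    ·
      refine QEx.nonneg_on_box m7_tauL_hi_1 (PtR.InM.of_bounds ?_ ?_ ?_ ?_) <;>
        simp only [mbox7_tauL_hi_1, InChart] <;> norm_num <;> (try constructor) <;> linarith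
    ·
      refine QEx.nonneg_on_box m7_tauL_hi_2 (PtR.InM.of_bounds ?_ ?_ ?_ ?_) <;>
        simp only [mbox7_tauL_hi_2, InChart] <;> norm_num <;> (try constructor) <;> linarith

/-- The exit curve on the box of piece 7. -/
theorem mexit7_holds {o : PtR} (h0 : 1 / 10 ≤ o.u) (h1 : o.u ≤ 19 / 50) (h2 : 27 / 250 ≤ o.a) (h3 : o.a ≤ 31 / 100)
    (h4 : 27 / 250 ≤ o.I) (h5 : o.I ≤ 1 / 8) :
    0 ≤ Band.midBracket Band.midExitC o.I o.a o.u * 79 - 1000 * 50 := by
  have h := QEx.nonneg_on_box mexit7_check (x := (⟨o.u, 79 / 50, o.a, o.I⟩ : PtR).x)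
    (PtR.InM.of_bounds (o := ⟨o.u, 79 / 50, o.a, o.I⟩) ?_ ?_ ?_ ?_)
  · obtain ⟨eu, -, va, vI, -, -, -, -, -, -, -, -⟩ := (⟨o.u, 79 / 50, o.a, o.I⟩ : PtR).vals
    simp only [xExitM, xFour, val_add, val_sub, val_mul, val_num, eu, va, vI] at h
    push_cast at h
    simp only [Band.midBracket, Band.midFour]
    linarith
  all_goals simp only [mexit7Box, InChart] <;> norm_num <;> (try constructor) <;> linarith

/-- The piece 7 holds on its box. -/
theorem mpiece7_holds {o : PtR} (m : o.InM mbox7) :
    mpiece7.AllHoldM false (bandMid Band.midLowC Band.midUpC) o where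
  forms :=
    { forms := fun q h k =>
        match q, h, k with
        | .g, false, .lo => QEx.nonneg_on_box (List.all_eq_true.1 m7_group0 (mpiece7.checkM false .g false .lo) (by simp)) m
        | .g, false, .hi => QEx.nonneg_on_box (List.all_eq_true.1 m7_group0 (mpiece7.checkM false .g false .hi) (by simp)) m
        | .g, false, .mid => QEx.nonneg_on_box (List.all_eq_true.1 m7_group0 (mpiece7.checkM false .g false .mid) (by simp)) m
        | .g, true, .lo => QEx.nonneg_on_box (List.all_eq_true.1 m7_group0 (mpiece7.checkM false .g true .lo) (by simp)) m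
        | .g, true, .hi => QEx.nonneg_on_box (List.all_eq_true.1 m7_group0 (mpiece7.checkM false .g true .hi) (by simp)) m
        | .g, true, .mid => QEx.nonneg_on_box (List.all_eq_true.1 m7_group0 (mpiece7.checkM false .g true .mid) (by simp)) m
        | .n, false, .lo => QEx.nonneg_on_box (List.all_eq_true.1 m7_group1 (mpiece7.checkM false .n false .lo) (by simp)) m
        | .n, false, .hi => QEx.nonneg_on_box (List.all_eq_true.1 m7_group1 (mpiece7.checkM false .n false .hi) (by simp)) m
        | .n, false, .mid => QEx.nonneg_on_box (List.all_eq_true.1 m7_group1 (mpiece7.checkM false .n false .mid) (by simp)) m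
        | .n, true, .lo => QEx.nonneg_on_box (List.all_eq_true.1 m7_group1 (mpiece7.checkM false .n true .lo) (by simp)) m
        | .n, true, .hi => QEx.nonneg_on_box (List.all_eq_true.1 m7_group1 (mpiece7.checkM false .n true .hi) (by simp)) m
        | .n, true, .mid => QEx.nonneg_on_box (List.all_eq_true.1 m7_group1 (mpiece7.checkM false .n true .mid) (by simp)) m
        | .tlo, false, .lo => QEx.nonneg_on_box (List.all_eq_true.1 m7_group2 (mpiece7.checkM false .tlo false .lo) (by simp)) m
        | .tlo, false, .hi => QEx.nonneg_on_box (List.all_eq_true.1 m7_group2 (mpiece7.checkM false .tlo false .hi) (by simp)) m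
        | .tlo, false, .mid => QEx.nonneg_on_box (List.all_eq_true.1 m7_group2 (mpiece7.checkM false .tlo false .mid) (by simp)) m
        | .tlo, true, .lo => QEx.nonneg_on_box (List.all_eq_true.1 m7_group2 (mpiece7.checkM false .tlo true .lo) (by simp)) m
        | .tlo, true, .hi => QEx.nonneg_on_box (List.all_eq_true.1 m7_group2 (mpiece7.checkM false .tlo true .hi) (by simp)) m
        | .tlo, true, .mid => QEx.nonneg_on_box (List.all_eq_true.1 m7_group2 (mpiece7.checkM false .tlo true .mid) (by simp)) m
        | .thi, false, .lo => QEx.nonneg_on_box (List.all_eq_true.1 m7_group2 (mpiece7.checkM false .thi false .lo) (by simp)) m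
        | .thi, false, .hi => QEx.nonneg_on_box (List.all_eq_true.1 m7_group2 (mpiece7.checkM false .thi false .hi) (by simp)) m
        | .thi, false, .mid => QEx.nonneg_on_box (List.all_eq_true.1 m7_group2 (mpiece7.checkM false .thi false .mid) (by simp)) m
        | .thi, true, .lo => QEx.nonneg_on_box (List.all_eq_true.1 m7_group2 (mpiece7.checkM false .thi true .lo) (by simp)) m
        | .thi, true, .hi => QEx.nonneg_on_box (List.all_eq_true.1 m7_group2 (mpiece7.checkM false .thi true .hi) (by simp)) m
        | .thi, true, .mid => QEx.nonneg_on_box (List.all_eq_true.1 m7_group2 (mpiece7.checkM false .thi true .mid) (by simp)) m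
        | .mlo, false, .lo => QEx.nonneg_on_box (List.all_eq_true.1 m7_group3 (mpiece7.checkM false .mlo false .lo) (by simp)) m
        | .mlo, false, .hi => QEx.nonneg_on_box (List.all_eq_true.1 m7_group3 (mpiece7.checkM false .mlo false .hi) (by simp)) m
        | .mlo, false, .mid => QEx.nonneg_on_box (List.all_eq_true.1 m7_group3 (mpiece7.checkM false .mlo false .mid) (by simp)) m
        | .mlo, true, .lo => QEx.nonneg_on_box (List.all_eq_true.1 m7_group3 (mpiece7.checkM false .mlo false .lo) (by simp)) m
        | .mlo, true, .hi => QEx.nonneg_on_box (List.all_eq_true.1 m7_group3 (mpiece7.checkM false .mlo false .hi) (by simp)) m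
        | .mlo, true, .mid => QEx.nonneg_on_box (List.all_eq_true.1 m7_group3 (mpiece7.checkM false .mlo false .mid) (by simp)) m
        | .mhi, false, .lo => QEx.nonneg_on_box (List.all_eq_true.1 m7_group3 (mpiece7.checkM false .mhi false .lo) (by simp)) m
        | .mhi, false, .hi => QEx.nonneg_on_box (List.all_eq_true.1 m7_group3 (mpiece7.checkM false .mhi false .hi) (by simp)) m
        | .mhi, false, .mid => QEx.nonneg_on_box (List.all_eq_true.1 m7_group3 (mpiece7.checkM false .mhi false .mid) (by simp)) m
        | .mhi, true, .lo => QEx.nonneg_on_box (List.all_eq_true.1 m7_group3 (mpiece7.checkM false .mhi false .lo) (by simp)) m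
        | .mhi, true, .hi => QEx.nonneg_on_box (List.all_eq_true.1 m7_group3 (mpiece7.checkM false .mhi false .hi) (by simp)) m
        | .mhi, true, .mid => QEx.nonneg_on_box (List.all_eq_true.1 m7_group3 (mpiece7.checkM false .mhi false .mid) (by simp)) m
        | .f, false, .lo => QEx.nonneg_on_box (List.all_eq_true.1 m7_group4 (mpiece7.checkM false .f false .lo) (by simp)) m
        | .f, false, .hi => QEx.nonneg_on_box (List.all_eq_true.1 m7_group5 (mpiece7.checkM false .f false .hi) (by simp)) m
        | .f, false, .mid => QEx.nonneg_on_box (List.all_eq_true.1 m7_group6 (mpiece7.checkM false .f false .mid) (by simp)) m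
        | .f, true, .lo => QEx.nonneg_on_box (List.all_eq_true.1 m7_group7 (mpiece7.checkM false .f true .lo) (by simp)) m
        | .f, true, .hi => QEx.nonneg_on_box (List.all_eq_true.1 m7_group8 (mpiece7.checkM false .f true .hi) (by simp)) m
        | .f, true, .mid => QEx.nonneg_on_box (List.all_eq_true.1 m7_group9 (mpiece7.checkM false .f true .mid) (by simp)) m
      side := fun e =>
        match e with
        | .rA => QEx.nonneg_on_box (List.all_eq_true.1 m7_group20 (mpiece7.side .rA) (by simp)) m
        | .rB => QEx.nonneg_on_box (List.all_eq_true.1 m7_group20 (mpiece7.side .rB) (by simp)) m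
        | .rF => QEx.nonneg_on_box (List.all_eq_true.1 m7_group21 (mpiece7.side .rF) (by simp)) m
        | .q => QEx.nonneg_on_box (List.all_eq_true.1 m7_group22 (mpiece7.side .q) (by simp)) m
        | .om => QEx.nonneg_on_box (List.all_eq_true.1 m7_group23 (mpiece7.side .om) (by simp)) m
      nums := by decide }
  env :=
    { lo := fun e =>
        match e with
        | .piL => QEx.nonneg_on_box (List.all_eq_true.1 m7_group10 (mpiece7.env (bandMid Band.midLowC Band.midUpC).lo (bandMid Band.midLowC Band.midUpC).hi (bandMid Band.midLowC Band.midUpC).pole .piL) (by simp)) m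
        | .piU => QEx.nonneg_on_box (List.all_eq_true.1 m7_group10 (mpiece7.env (bandMid Band.midLowC Band.midUpC).lo (bandMid Band.midLowC Band.midUpC).hi (bandMid Band.midLowC Band.midUpC).pole .piU) (by simp)) m
        | .omL => QEx.nonneg_on_box (List.all_eq_true.1 m7_group12 (mpiece7.env (bandMid Band.midLowC Band.midUpC).lo (bandMid Band.midLowC Band.midUpC).hi (bandMid Band.midLowC Band.midUpC).pole .omL) (by simp)) m
        | .omU => m7_omU_lo_all m
        | .tauL => m7_tauL_lo_all m
        | .tauU => QEx.nonneg_on_box (List.all_eq_true.1 m7_group17 (mpiece7.env (bandMid Band.midLowC Band.midUpC).lo (bandMid Band.midLowC Band.midUpC).hi (bandMid Band.midLowC Band.midUpC).pole .tauU) (by simp)) m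
      hi := fun e =>
        match e with
        | .piL => QEx.nonneg_on_box (List.all_eq_true.1 m7_group10 (mpiece7.env (bandMid Band.midLowC Band.midUpC).hi (bandMid Band.midLowC Band.midUpC).hi (bandMid Band.midLowC Band.midUpC).pole .piL) (by simp)) m
        | .piU => m7_piU_hi_all m
        | .omL => QEx.nonneg_on_box (List.all_eq_true.1 m7_group12 (mpiece7.env (bandMid Band.midLowC Band.midUpC).hi (bandMid Band.midLowC Band.midUpC).hi (bandMid Band.midLowC Band.midUpC).pole .omL) (by simp)) m
        | .omU => m7_omU_hi_all m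
        | .tauL => m7_tauL_hi_all m
        | .tauU => QEx.nonneg_on_box (List.all_eq_true.1 m7_group17 (mpiece7.env (bandMid Band.midLowC Band.midUpC).hi (bandMid Band.midLowC Band.midUpC).hi (bandMid Band.midLowC Band.midUpC).pole .tauU) (by simp)) m
      wid := QEx.nonneg_on_box (List.all_eq_true.1 m7_group19 (mpiece7.wid - qD 1) (by simp)) m }
  rayLo := QEx.nonneg_on_box (List.all_eq_true.1 m7_group18 (xLLGM false (bandMid Band.midLowC Band.midUpC).lo (bandMid Band.midLowC Band.midUpC).pole) (by simp)) m
  rayHi := QEx.nonneg_on_box (List.all_eq_true.1 m7_group18 (xLLGM false (bandMid Band.midLowC Band.midUpC).hi (bandMid Band.midLowC Band.midUpC).pole) (by simp)) m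

/-- The split check. -/
theorem m8_piL_lo_all {o : PtR} (m : o.InM mbox8) :
    0 ≤ (mpiece8.env (bandMid Band.midLowC Band.midUpC).lo (bandMid Band.midLowC Band.midUpC).hi (bandMid Band.midLowC Band.midUpC).pole .piL).val o.x := by
  obtain ⟨hu, hX, ha, hI⟩ := m.bounds
  simp only [mbox8] at hu hX ha hI
  norm_num at hu hX ha hI
  rcases le_total (o.a) (209 / 1000 : ℝ) with h0 | h0
  ·
    refine QEx.nonneg_on_box m8_piL_lo_0 (PtR.InM.of_bounds ?_ ?_ ?_ ?_) <;>
      simp only [mbox8_piL_lo_0, InChart] <;> norm_num <;> (try constructor) <;> linarith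
  ·
    rcases le_total (o.u) (49 / 100 : ℝ) with h1 | h1
    ·
      refine QEx.nonneg_on_box m8_piL_lo_1 (PtR.InM.of_bounds ?_ ?_ ?_ ?_) <;>
        simp only [mbox8_piL_lo_1, InChart] <;> norm_num <;> (try constructor) <;> linarith
    ·
      rcases le_total (o.a) (519 / 2000 : ℝ) with h2 | h2
      ·
        refine QEx.nonneg_on_box m8_piL_lo_2 (PtR.InM.of_bounds ?_ ?_ ?_ ?_) <;>
          simp only [mbox8_piL_lo_2, InChart] <;> norm_num <;> (try constructor) <;> linarith
      ·
        refine QEx.nonneg_on_box m8_piL_lo_3 (PtR.InM.of_bounds ?_ ?_ ?_ ?_) <;>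
          simp only [mbox8_piL_lo_3, InChart] <;> norm_num <;> (try constructor) <;> linarith

/-- The split check. -/
theorem m8_piU_hi_all {o : PtR} (m : o.InM mbox8) :
    0 ≤ (mpiece8.env (bandMid Band.midLowC Band.midUpC).hi (bandMid Band.midLowC Band.midUpC).hi (bandMid Band.midLowC Band.midUpC).pole .piU).val o.x := by
  obtain ⟨hu, hX, ha, hI⟩ := m.bounds
  simp only [mbox8] at hu hX ha hI
  norm_num at hu hX ha hI
  rcases le_total (o.a) (209 / 1000 : ℝ) with h0 | h0
  ·
    rcases le_total (o.a) (317 / 2000 : ℝ) with h1 | h1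
    ·
      refine QEx.nonneg_on_box m8_piU_hi_0 (PtR.InM.of_bounds ?_ ?_ ?_ ?_) <;>
        simp only [mbox8_piU_hi_0, InChart] <;> norm_num <;> (try constructor) <;> linarith
    ·
      rcases le_total (o.u) (49 / 100 : ℝ) with h2 | h2
      ·
        refine QEx.nonneg_on_box m8_piU_hi_1 (PtR.InM.of_bounds ?_ ?_ ?_ ?_) <;>
          simp only [mbox8_piU_hi_1, InChart] <;> norm_num <;> (try constructor) <;> linarith
      ·
        rcases le_total (o.X) (31 / 20 : ℝ) with h3 | h3
        ·
          refine QEx.nonneg_on_box m8_piU_hi_2 (PtR.InM.of_bounds ?_ ?_ ?_ ?_) <;>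
            simp only [mbox8_piU_hi_2, InChart] <;> norm_num <;> (try constructor) <;> linarith
        ·
          refine QEx.nonneg_on_box m8_piU_hi_3 (PtR.InM.of_bounds ?_ ?_ ?_ ?_) <;>
            simp only [mbox8_piU_hi_3, InChart] <;> norm_num <;> (try constructor) <;> linarith
  ·
    refine QEx.nonneg_on_box m8_piU_hi_4 (PtR.InM.of_bounds ?_ ?_ ?_ ?_) <;>
      simp only [mbox8_piU_hi_4, InChart] <;> norm_num <;> (try constructor) <;> linarith

/-- The split check. -/
theorem m8_omU_lo_all {o : PtR} (m : o.InM mbox8) :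
    0 ≤ (mpiece8.env (bandMid Band.midLowC Band.midUpC).lo (bandMid Band.midLowC Band.midUpC).hi (bandMid Band.midLowC Band.midUpC).pole .omU).val o.x := by
  obtain ⟨hu, hX, ha, hI⟩ := m.bounds
  simp only [mbox8] at hu hX ha hI
  norm_num at hu hX ha hI
  rcases le_total (o.a) (209 / 1000 : ℝ) with h0 | h0
  ·
    rcases le_total (o.a) (317 / 2000 : ℝ) with h1 | h1
    ·
      rcases le_total (o.u) (49 / 100 : ℝ) with h2 | h2
      ·
        rcases le_total (o.X) (31 / 20 : ℝ) with h3 | h3
        ·
          refine QEx.nonneg_on_box m8_omU_lo_0 (PtR.InM.of_bounds ?_ ?_ ?_ ?_) <;>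
            simp only [mbox8_omU_lo_0, InChart] <;> norm_num <;> (try constructor) <;> linarith
        ·
          refine QEx.nonneg_on_box m8_omU_lo_1 (PtR.InM.of_bounds ?_ ?_ ?_ ?_) <;>
            simp only [mbox8_omU_lo_1, InChart] <;> norm_num <;> (try constructor) <;> linarith
      ·
        refine QEx.nonneg_on_box m8_omU_lo_2 (PtR.InM.of_bounds ?_ ?_ ?_ ?_) <;>
          simp only [mbox8_omU_lo_2, InChart] <;> norm_num <;> (try constructor) <;> linarith
    ·
      rcases le_total (o.X) (31 / 20 : ℝ) with h2 | h2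
      ·
        refine QEx.nonneg_on_box m8_omU_lo_3 (PtR.InM.of_bounds ?_ ?_ ?_ ?_) <;>
          simp only [mbox8_omU_lo_3, InChart] <;> norm_num <;> (try constructor) <;> linarith
      ·
        refine QEx.nonneg_on_box m8_omU_lo_4 (PtR.InM.of_bounds ?_ ?_ ?_ ?_) <;>
          simp only [mbox8_omU_lo_4, InChart] <;> norm_num <;> (try constructor) <;> linarith
  ·
    rcases le_total (o.X) (31 / 20 : ℝ) with h1 | h1
    ·
      refine QEx.nonneg_on_box m8_omU_lo_5 (PtR.InM.of_bounds ?_ ?_ ?_ ?_) <;>
        simp only [mbox8_omU_lo_5, InChart] <;> norm_num <;> (try constructor) <;> linarith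
    ·
      refine QEx.nonneg_on_box m8_omU_lo_6 (PtR.InM.of_bounds ?_ ?_ ?_ ?_) <;>
        simp only [mbox8_omU_lo_6, InChart] <;> norm_num <;> (try constructor) <;> linarith

/-- The split check. -/
theorem m8_omU_hi_all {o : PtR} (m : o.InM mbox8) :
    0 ≤ (mpiece8.env (bandMid Band.midLowC Band.midUpC).hi (bandMid Band.midLowC Band.midUpC).hi (bandMid Band.midLowC Band.midUpC).pole .omU).val o.x := by
  obtain ⟨hu, hX, ha, hI⟩ := m.bounds
  simp only [mbox8] at hu hX ha hI
  norm_num at hu hX ha hI
  rcases le_total (o.a) (209 / 1000 : ℝ) with h0 | h0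
  ·
    rcases le_total (o.a) (317 / 2000 : ℝ) with h1 | h1
    ·
      rcases le_total (o.X) (31 / 20 : ℝ) with h2 | h2
      ·
        refine QEx.nonneg_on_box m8_omU_hi_0 (PtR.InM.of_bounds ?_ ?_ ?_ ?_) <;>
          simp only [mbox8_omU_hi_0, InChart] <;> norm_num <;> (try constructor) <;> linarith
      ·
        refine QEx.nonneg_on_box m8_omU_hi_1 (PtR.InM.of_bounds ?_ ?_ ?_ ?_) <;>
          simp only [mbox8_omU_hi_1, InChart] <;> norm_num <;> (try constructor) <;> linarith
    ·
      rcases le_total (o.X) (31 / 20 : ℝ) with h2 | h2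
      ·
        rcases le_total (o.u) (49 / 100 : ℝ) with h3 | h3
        ·
          refine QEx.nonneg_on_box m8_omU_hi_2 (PtR.InM.of_bounds ?_ ?_ ?_ ?_) <;>
            simp only [mbox8_omU_hi_2, InChart] <;> norm_num <;> (try constructor) <;> linarith
        ·
          refine QEx.nonneg_on_box m8_omU_hi_3 (PtR.InM.of_bounds ?_ ?_ ?_ ?_) <;>
            simp only [mbox8_omU_hi_3, InChart] <;> norm_num <;> (try constructor) <;> linarith
      ·
        refine QEx.nonneg_on_box m8_omU_hi_4 (PtR.InM.of_bounds ?_ ?_ ?_ ?_) <;>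
          simp only [mbox8_omU_hi_4, InChart] <;> norm_num <;> (try constructor) <;> linarith
  ·
    rcases le_total (o.X) (31 / 20 : ℝ) with h1 | h1
    ·
      refine QEx.nonneg_on_box m8_omU_hi_5 (PtR.InM.of_bounds ?_ ?_ ?_ ?_) <;>
        simp only [mbox8_omU_hi_5, InChart] <;> norm_num <;> (try constructor) <;> linarith
    ·
      refine QEx.nonneg_on_box m8_omU_hi_6 (PtR.InM.of_bounds ?_ ?_ ?_ ?_) <;>
        simp only [mbox8_omU_hi_6, InChart] <;> norm_num <;> (try constructor) <;> linarith

/-- The split check. -/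
theorem m8_tauL_lo_all {o : PtR} (m : o.InM mbox8) :
    0 ≤ (mpiece8.env (bandMid Band.midLowC Band.midUpC).lo (bandMid Band.midLowC Band.midUpC).hi (bandMid Band.midLowC Band.midUpC).pole .tauL).val o.x := by
  obtain ⟨hu, hX, ha, hI⟩ := m.bounds
  simp only [mbox8] at hu hX ha hI
  norm_num at hu hX ha hI
  rcases le_total (o.a) (209 / 1000 : ℝ) with h0 | h0
  ·
    rcases le_total (o.a) (317 / 2000 : ℝ) with h1 | h1
    ·
      refine QEx.nonneg_on_box m8_tauL_lo_0 (PtR.InM.of_bounds ?_ ?_ ?_ ?_) <;>
        simp only [mbox8_tauL_lo_0, InChart] <;> norm_num <;> (try constructor) <;> linarith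
    ·
      refine QEx.nonneg_on_box m8_tauL_lo_1 (PtR.InM.of_bounds ?_ ?_ ?_ ?_) <;>
        simp only [mbox8_tauL_lo_1, InChart] <;> norm_num <;> (try constructor) <;> linarith
  ·
    refine QEx.nonneg_on_box m8_tauL_lo_2 (PtR.InM.of_bounds ?_ ?_ ?_ ?_) <;>
      simp only [mbox8_tauL_lo_2, InChart] <;> norm_num <;> (try constructor) <;> linarith

/-- The split check. -/
theorem m8_tauL_hi_all {o : PtR} (m : o.InM mbox8) :
    0 ≤ (mpiece8.env (bandMid Band.midLowC Band.midUpC).hi (bandMid Band.midLowC Band.midUpC).hi (bandMid Band.midLowC Band.midUpC).pole .tauL).val o.x := by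
  obtain ⟨hu, hX, ha, hI⟩ := m.bounds
  simp only [mbox8] at hu hX ha hI
  norm_num at hu hX ha hI
  rcases le_total (o.a) (209 / 1000 : ℝ) with h0 | h0
  ·
    rcases le_total (o.a) (317 / 2000 : ℝ) with h1 | h1
    ·
      refine QEx.nonneg_on_box m8_tauL_hi_0 (PtR.InM.of_bounds ?_ ?_ ?_ ?_) <;>
        simp only [mbox8_tauL_hi_0, InChart] <;> norm_num <;> (try constructor) <;> linarith
    ·
      refine QEx.nonneg_on_box m8_tauL_hi_1 (PtR.InM.of_bounds ?_ ?_ ?_ ?_) <;>
        simp only [mbox8_tauL_hi_1, InChart] <;> norm_num <;> (try constructor) <;> linarith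
  ·
    refine QEx.nonneg_on_box m8_tauL_hi_2 (PtR.InM.of_bounds ?_ ?_ ?_ ?_) <;>
      simp only [mbox8_tauL_hi_2, InChart] <;> norm_num <;> (try constructor) <;> linarith

/-- The exit curve on the box of piece 8. -/
theorem mexit8_holds {o : PtR} (h0 : 19 / 50 ≤ o.u) (h1 : o.u ≤ 3 / 5) (h2 : 27 / 250 ≤ o.a) (h3 : o.a ≤ 31 / 100)
    (h4 : 27 / 250 ≤ o.I) (h5 : o.I ≤ 1 / 8) :
    0 ≤ Band.midBracket Band.midExitC o.I o.a o.u * 109 - 1000 * 50 := by
  have h := QEx.nonneg_on_box mexit8_check (x := (⟨o.u, 109 / 50, o.a, o.I⟩ : PtR).x)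
    (PtR.InM.of_bounds (o := ⟨o.u, 109 / 50, o.a, o.I⟩) ?_ ?_ ?_ ?_)
  · obtain ⟨eu, -, va, vI, -, -, -, -, -, -, -, -⟩ := (⟨o.u, 109 / 50, o.a, o.I⟩ : PtR).vals
    simp only [xExitM, xFour, val_add, val_sub, val_mul, val_num, eu, va, vI] at h
    push_cast at h
    simp only [Band.midBracket, Band.midFour]
    linarith
  all_goals simp only [mexit8Box, InChart] <;> norm_num <;> (try constructor) <;> linarith

/-- The piece 8 holds on its box. -/
theorem mpiece8_holds {o : PtR} (m : o.InM mbox8) :
    mpiece8.AllHoldM false (bandMid Band.midLowC Band.midUpC) o where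
  forms :=
    { forms := fun q h k =>
        match q, h, k with
        | .g, false, .lo => QEx.nonneg_on_box (List.all_eq_true.1 m8_group0 (mpiece8.checkM false .g false .lo) (by simp)) m
        | .g, false, .hi => QEx.nonneg_on_box (List.all_eq_true.1 m8_group0 (mpiece8.checkM false .g false .hi) (by simp)) m
        | .g, false, .mid => QEx.nonneg_on_box (List.all_eq_true.1 m8_group0 (mpiece8.checkM false .g false .mid) (by simp)) m
        | .g, true, .lo => QEx.nonneg_on_box (List.all_eq_true.1 m8_group0 (mpiece8.checkM false .g true .lo) (by simp)) m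
        | .g, true, .hi => QEx.nonneg_on_box (List.all_eq_true.1 m8_group0 (mpiece8.checkM false .g true .hi) (by simp)) m
        | .g, true, .mid => QEx.nonneg_on_box (List.all_eq_true.1 m8_group0 (mpiece8.checkM false .g true .mid) (by simp)) m
        | .n, false, .lo => QEx.nonneg_on_box (List.all_eq_true.1 m8_group1 (mpiece8.checkM false .n false .lo) (by simp)) m
        | .n, false, .hi => QEx.nonneg_on_box (List.all_eq_true.1 m8_group1 (mpiece8.checkM false .n false .hi) (by simp)) m
        | .n, false, .mid => QEx.nonneg_on_box (List.all_eq_true.1 m8_group1 (mpiece8.checkM false .n false .mid) (by simp)) m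
        | .n, true, .lo => QEx.nonneg_on_box (List.all_eq_true.1 m8_group1 (mpiece8.checkM false .n true .lo) (by simp)) m
        | .n, true, .hi => QEx.nonneg_on_box (List.all_eq_true.1 m8_group1 (mpiece8.checkM false .n true .hi) (by simp)) m
        | .n, true, .mid => QEx.nonneg_on_box (List.all_eq_true.1 m8_group1 (mpiece8.checkM false .n true .mid) (by simp)) m
        | .tlo, false, .lo => QEx.nonneg_on_box (List.all_eq_true.1 m8_group2 (mpiece8.checkM false .tlo false .lo) (by simp)) m
        | .tlo, false, .hi => QEx.nonneg_on_box (List.all_eq_true.1 m8_group2 (mpiece8.checkM false .tlo false .hi) (by simp)) m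
        | .tlo, false, .mid => QEx.nonneg_on_box (List.all_eq_true.1 m8_group2 (mpiece8.checkM false .tlo false .mid) (by simp)) m
        | .tlo, true, .lo => QEx.nonneg_on_box (List.all_eq_true.1 m8_group2 (mpiece8.checkM false .tlo true .lo) (by simp)) m
        | .tlo, true, .hi => QEx.nonneg_on_box (List.all_eq_true.1 m8_group2 (mpiece8.checkM false .tlo true .hi) (by simp)) m
        | .tlo, true, .mid => QEx.nonneg_on_box (List.all_eq_true.1 m8_group2 (mpiece8.checkM false .tlo true .mid) (by simp)) m
        | .thi, false, .lo => QEx.nonneg_on_box (List.all_eq_true.1 m8_group2 (mpiece8.checkM false .thi false .lo) (by simp)) m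
        | .thi, false, .hi => QEx.nonneg_on_box (List.all_eq_true.1 m8_group2 (mpiece8.checkM false .thi false .hi) (by simp)) m
        | .thi, false, .mid => QEx.nonneg_on_box (List.all_eq_true.1 m8_group2 (mpiece8.checkM false .thi false .mid) (by simp)) m
        | .thi, true, .lo => QEx.nonneg_on_box (List.all_eq_true.1 m8_group2 (mpiece8.checkM false .thi true .lo) (by simp)) m
        | .thi, true, .hi => QEx.nonneg_on_box (List.all_eq_true.1 m8_group2 (mpiece8.checkM false .thi true .hi) (by simp)) m
        | .thi, true, .mid => QEx.nonneg_on_box (List.all_eq_true.1 m8_group2 (mpiece8.checkM false .thi true .mid) (by simp)) m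
        | .mlo, false, .lo => QEx.nonneg_on_box (List.all_eq_true.1 m8_group3 (mpiece8.checkM false .mlo false .lo) (by simp)) m
        | .mlo, false, .hi => QEx.nonneg_on_box (List.all_eq_true.1 m8_group3 (mpiece8.checkM false .mlo false .hi) (by simp)) m
        | .mlo, false, .mid => QEx.nonneg_on_box (List.all_eq_true.1 m8_group3 (mpiece8.checkM false .mlo false .mid) (by simp)) m
        | .mlo, true, .lo => QEx.nonneg_on_box (List.all_eq_true.1 m8_group3 (mpiece8.checkM false .mlo false .lo) (by simp)) m
        | .mlo, true, .hi => QEx.nonneg_on_box (List.all_eq_true.1 m8_group3 (mpiece8.checkM false .mlo false .hi) (by simp)) m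
        | .mlo, true, .mid => QEx.nonneg_on_box (List.all_eq_true.1 m8_group3 (mpiece8.checkM false .mlo false .mid) (by simp)) m
        | .mhi, false, .lo => QEx.nonneg_on_box (List.all_eq_true.1 m8_group3 (mpiece8.checkM false .mhi false .lo) (by simp)) m
        | .mhi, false, .hi => QEx.nonneg_on_box (List.all_eq_true.1 m8_group3 (mpiece8.checkM false .mhi false .hi) (by simp)) m
        | .mhi, false, .mid => QEx.nonneg_on_box (List.all_eq_true.1 m8_group3 (mpiece8.checkM false .mhi false .mid) (by simp)) m
        | .mhi, true, .lo => QEx.nonneg_on_box (List.all_eq_true.1 m8_group3 (mpiece8.checkM false .mhi false .lo) (by simp)) m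
        | .mhi, true, .hi => QEx.nonneg_on_box (List.all_eq_true.1 m8_group3 (mpiece8.checkM false .mhi false .hi) (by simp)) m
        | .mhi, true, .mid => QEx.nonneg_on_box (List.all_eq_true.1 m8_group3 (mpiece8.checkM false .mhi false .mid) (by simp)) m
        | .f, false, .lo => QEx.nonneg_on_box (List.all_eq_true.1 m8_group4 (mpiece8.checkM false .f false .lo) (by simp)) m
        | .f, false, .hi => QEx.nonneg_on_box (List.all_eq_true.1 m8_group5 (mpiece8.checkM false .f false .hi) (by simp)) m
        | .f, false, .mid => QEx.nonneg_on_box (List.all_eq_true.1 m8_group6 (mpiece8.checkM false .f false .mid) (by simp)) m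
        | .f, true, .lo => QEx.nonneg_on_box (List.all_eq_true.1 m8_group7 (mpiece8.checkM false .f true .lo) (by simp)) m
        | .f, true, .hi => QEx.nonneg_on_box (List.all_eq_true.1 m8_group8 (mpiece8.checkM false .f true .hi) (by simp)) m
        | .f, true, .mid => QEx.nonneg_on_box (List.all_eq_true.1 m8_group9 (mpiece8.checkM false .f true .mid) (by simp)) m
      side := fun e =>
        match e with
        | .rA => QEx.nonneg_on_box (List.all_eq_true.1 m8_group21 (mpiece8.side .rA) (by simp)) m
        | .rB => QEx.nonneg_on_box (List.all_eq_true.1 m8_group21 (mpiece8.side .rB) (by simp)) m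
        | .rF => QEx.nonneg_on_box (List.all_eq_true.1 m8_group22 (mpiece8.side .rF) (by simp)) m
        | .q => QEx.nonneg_on_box (List.all_eq_true.1 m8_group23 (mpiece8.side .q) (by simp)) m
        | .om => QEx.nonneg_on_box (List.all_eq_true.1 m8_group24 (mpiece8.side .om) (by simp)) m
      nums := by decide }
  env :=
    { lo := fun e =>
        match e with
        | .piL => m8_piL_lo_all m
        | .piU => QEx.nonneg_on_box (List.all_eq_true.1 m8_group11 (mpiece8.env (bandMid Band.midLowC Band.midUpC).lo (bandMid Band.midLowC Band.midUpC).hi (bandMid Band.midLowC Band.midUpC).pole .piU) (by simp)) m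
        | .omL => QEx.nonneg_on_box (List.all_eq_true.1 m8_group13 (mpiece8.env (bandMid Band.midLowC Band.midUpC).lo (bandMid Band.midLowC Band.midUpC).hi (bandMid Band.midLowC Band.midUpC).pole .omL) (by simp)) m
        | .omU => m8_omU_lo_all m
        | .tauL => m8_tauL_lo_all m
        | .tauU => QEx.nonneg_on_box (List.all_eq_true.1 m8_group18 (mpiece8.env (bandMid Band.midLowC Band.midUpC).lo (bandMid Band.midLowC Band.midUpC).hi (bandMid Band.midLowC Band.midUpC).pole .tauU) (by simp)) m
      hi := fun e =>
        match e with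
        | .piL => QEx.nonneg_on_box (List.all_eq_true.1 m8_group11 (mpiece8.env (bandMid Band.midLowC Band.midUpC).hi (bandMid Band.midLowC Band.midUpC).hi (bandMid Band.midLowC Band.midUpC).pole .piL) (by simp)) m
        | .piU => m8_piU_hi_all m
        | .omL => QEx.nonneg_on_box (List.all_eq_true.1 m8_group13 (mpiece8.env (bandMid Band.midLowC Band.midUpC).hi (bandMid Band.midLowC Band.midUpC).hi (bandMid Band.midLowC Band.midUpC).pole .omL) (by simp)) m
        | .omU => m8_omU_hi_all m
        | .tauL => m8_tauL_hi_all m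
        | .tauU => QEx.nonneg_on_box (List.all_eq_true.1 m8_group18 (mpiece8.env (bandMid Band.midLowC Band.midUpC).hi (bandMid Band.midLowC Band.midUpC).hi (bandMid Band.midLowC Band.midUpC).pole .tauU) (by simp)) m
      wid := QEx.nonneg_on_box (List.all_eq_true.1 m8_group20 (mpiece8.wid - qD 1) (by simp)) m }
  rayLo := QEx.nonneg_on_box (List.all_eq_true.1 m8_group19 (xLLGM false (bandMid Band.midLowC Band.midUpC).lo (bandMid Band.midLowC Band.midUpC).pole) (by simp)) m
  rayHi := QEx.nonneg_on_box (List.all_eq_true.1 m8_group19 (xLLGM false (bandMid Band.midLowC Band.midUpC).hi (bandMid Band.midLowC Band.midUpC).pole) (by simp)) m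

/-- The split check. -/
theorem m9_tauL_lo_all {o : PtR} (m : o.InM mbox9) :
    0 ≤ (mpiece9.env bandSmall.lo bandSmall.hi bandSmall.pole .tauL).val o.x := by
  obtain ⟨hu, hX, ha, hI⟩ := m.bounds
  simp only [mbox9] at hu hX ha hI
  norm_num at hu hX ha hI
  rcases le_total (o.a) (441 / 2000 : ℝ) with h0 | h0
  ·
    refine QEx.nonneg_on_box m9_tauL_lo_0 (PtR.InM.of_bounds ?_ ?_ ?_ ?_) <;>
      simp only [mbox9_tauL_lo_0, InChart] <;> norm_num <;> (try constructor) <;> linarith
  ·
    refine QEx.nonneg_on_box m9_tauL_lo_1 (PtR.InM.of_bounds ?_ ?_ ?_ ?_) <;>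
      simp only [mbox9_tauL_lo_1, InChart] <;> norm_num <;> (try constructor) <;> linarith

/-- The split check. -/
theorem m9_tauL_hi_all {o : PtR} (m : o.InM mbox9) :
    0 ≤ (mpiece9.env bandSmall.hi bandSmall.hi bandSmall.pole .tauL).val o.x := by
  obtain ⟨hu, hX, ha, hI⟩ := m.bounds
  simp only [mbox9] at hu hX ha hI
  norm_num at hu hX ha hI
  rcases le_total (o.a) (441 / 2000 : ℝ) with h0 | h0
  ·
    refine QEx.nonneg_on_box m9_tauL_hi_0 (PtR.InM.of_bounds ?_ ?_ ?_ ?_) <;>
      simp only [mbox9_tauL_hi_0, InChart] <;> norm_num <;> (try constructor) <;> linarith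
  ·
    refine QEx.nonneg_on_box m9_tauL_hi_1 (PtR.InM.of_bounds ?_ ?_ ?_ ?_) <;>
      simp only [mbox9_tauL_hi_1, InChart] <;> norm_num <;> (try constructor) <;> linarith

/-- The exit curve on the box of piece 9. -/
theorem mexit9_holds {o : PtR} (h0 : 0 ≤ o.u) (h1 : o.u ≤ 2 / 25) (h2 : 7 / 50 ≤ o.a) (h3 : o.a ≤ 301 / 1000)
    (h4 : 8 / 57 ≤ o.I) (h5 : o.I ≤ 1 / 7) :
    0 ≤ Band.midBracket Band.midExitC o.I o.a o.u * 61 - 1000 * 50 := by
  have h := QEx.nonneg_on_box mexit9_check (x := (⟨o.u, 61 / 50, o.a, o.I⟩ : PtR).x)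
    (PtR.InM.of_bounds (o := ⟨o.u, 61 / 50, o.a, o.I⟩) ?_ ?_ ?_ ?_)
  · obtain ⟨eu, -, va, vI, -, -, -, -, -, -, -, -⟩ := (⟨o.u, 61 / 50, o.a, o.I⟩ : PtR).vals
    simp only [xExitM, xFour, val_add, val_sub, val_mul, val_num, eu, va, vI] at h
    push_cast at h
    simp only [Band.midBracket, Band.midFour]
    linarith
  all_goals simp only [mexit9Box, InChart] <;> norm_num <;> (try constructor) <;> linarith

/-- The piece 9 holds on its box. -/
theorem mpiece9_holds {o : PtR} (m : o.InM mbox9) :
    mpiece9.AllHoldM false bandSmall o where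
  forms :=
    { forms := fun q h k =>
        match q, h, k with
        | .g, false, .lo => QEx.nonneg_on_box (List.all_eq_true.1 m9_group0 (mpiece9.checkM false .g false .lo) (by simp)) m
        | .g, false, .hi => QEx.nonneg_on_box (List.all_eq_true.1 m9_group0 (mpiece9.checkM false .g false .hi) (by simp)) m
        | .g, false, .mid => QEx.nonneg_on_box (List.all_eq_true.1 m9_group0 (mpiece9.checkM false .g false .mid) (by simp)) m
        | .g, true, .lo => QEx.nonneg_on_box (List.all_eq_true.1 m9_group0 (mpiece9.checkM false .g true .lo) (by simp)) m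
        | .g, true, .hi => QEx.nonneg_on_box (List.all_eq_true.1 m9_group0 (mpiece9.checkM false .g true .hi) (by simp)) m
        | .g, true, .mid => QEx.nonneg_on_box (List.all_eq_true.1 m9_group0 (mpiece9.checkM false .g true .mid) (by simp)) m
        | .n, false, .lo => QEx.nonneg_on_box (List.all_eq_true.1 m9_group1 (mpiece9.checkM false .n false .lo) (by simp)) m
        | .n, false, .hi => QEx.nonneg_on_box (List.all_eq_true.1 m9_group1 (mpiece9.checkM false .n false .hi) (by simp)) m
        | .n, false, .mid => QEx.nonneg_on_box (List.all_eq_true.1 m9_group1 (mpiece9.checkM false .n false .mid) (by simp)) m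
        | .n, true, .lo => QEx.nonneg_on_box (List.all_eq_true.1 m9_group1 (mpiece9.checkM false .n true .lo) (by simp)) m
        | .n, true, .hi => QEx.nonneg_on_box (List.all_eq_true.1 m9_group1 (mpiece9.checkM false .n true .hi) (by simp)) m
        | .n, true, .mid => QEx.nonneg_on_box (List.all_eq_true.1 m9_group1 (mpiece9.checkM false .n true .mid) (by simp)) m
        | .tlo, false, .lo => QEx.nonneg_on_box (List.all_eq_true.1 m9_group2 (mpiece9.checkM false .tlo false .lo) (by simp)) m
        | .tlo, false, .hi => QEx.nonneg_on_box (List.all_eq_true.1 m9_group2 (mpiece9.checkM false .tlo false .hi) (by simp)) m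
        | .tlo, false, .mid => QEx.nonneg_on_box (List.all_eq_true.1 m9_group2 (mpiece9.checkM false .tlo false .mid) (by simp)) m
        | .tlo, true, .lo => QEx.nonneg_on_box (List.all_eq_true.1 m9_group2 (mpiece9.checkM false .tlo true .lo) (by simp)) m
        | .tlo, true, .hi => QEx.nonneg_on_box (List.all_eq_true.1 m9_group2 (mpiece9.checkM false .tlo true .hi) (by simp)) m
        | .tlo, true, .mid => QEx.nonneg_on_box (List.all_eq_true.1 m9_group2 (mpiece9.checkM false .tlo true .mid) (by simp)) m
        | .thi, false, .lo => QEx.nonneg_on_box (List.all_eq_true.1 m9_group2 (mpiece9.checkM false .thi false .lo) (by simp)) m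
        | .thi, false, .hi => QEx.nonneg_on_box (List.all_eq_true.1 m9_group2 (mpiece9.checkM false .thi false .hi) (by simp)) m
        | .thi, false, .mid => QEx.nonneg_on_box (List.all_eq_true.1 m9_group2 (mpiece9.checkM false .thi false .mid) (by simp)) m
        | .thi, true, .lo => QEx.nonneg_on_box (List.all_eq_true.1 m9_group2 (mpiece9.checkM false .thi true .lo) (by simp)) m
        | .thi, true, .hi => QEx.nonneg_on_box (List.all_eq_true.1 m9_group2 (mpiece9.checkM false .thi true .hi) (by simp)) m
        | .thi, true, .mid => QEx.nonneg_on_box (List.all_eq_true.1 m9_group2 (mpiece9.checkM false .thi true .mid) (by simp)) m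
        | .mlo, false, .lo => QEx.nonneg_on_box (List.all_eq_true.1 m9_group3 (mpiece9.checkM false .mlo false .lo) (by simp)) m
        | .mlo, false, .hi => QEx.nonneg_on_box (List.all_eq_true.1 m9_group3 (mpiece9.checkM false .mlo false .hi) (by simp)) m
        | .mlo, false, .mid => QEx.nonneg_on_box (List.all_eq_true.1 m9_group3 (mpiece9.checkM false .mlo false .mid) (by simp)) m
        | .mlo, true, .lo => QEx.nonneg_on_box (List.all_eq_true.1 m9_group3 (mpiece9.checkM false .mlo false .lo) (by simp)) m
        | .mlo, true, .hi => QEx.nonneg_on_box (List.all_eq_true.1 m9_group3 (mpiece9.checkM false .mlo false .hi) (by simp)) m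
        | .mlo, true, .mid => QEx.nonneg_on_box (List.all_eq_true.1 m9_group3 (mpiece9.checkM false .mlo false .mid) (by simp)) m
        | .mhi, false, .lo => QEx.nonneg_on_box (List.all_eq_true.1 m9_group3 (mpiece9.checkM false .mhi false .lo) (by simp)) m
        | .mhi, false, .hi => QEx.nonneg_on_box (List.all_eq_true.1 m9_group3 (mpiece9.checkM false .mhi false .hi) (by simp)) m
        | .mhi, false, .mid => QEx.nonneg_on_box (List.all_eq_true.1 m9_group3 (mpiece9.checkM false .mhi false .mid) (by simp)) m
        | .mhi, true, .lo => QEx.nonneg_on_box (List.all_eq_true.1 m9_group3 (mpiece9.checkM false .mhi false .lo) (by simp)) m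
        | .mhi, true, .hi => QEx.nonneg_on_box (List.all_eq_true.1 m9_group3 (mpiece9.checkM false .mhi false .hi) (by simp)) m
        | .mhi, true, .mid => QEx.nonneg_on_box (List.all_eq_true.1 m9_group3 (mpiece9.checkM false .mhi false .mid) (by simp)) m
        | .f, false, .lo => QEx.nonneg_on_box (List.all_eq_true.1 m9_group4 (mpiece9.checkM false .f false .lo) (by simp)) m
        | .f, false, .hi => QEx.nonneg_on_box (List.all_eq_true.1 m9_group5 (mpiece9.checkM false .f false .hi) (by simp)) m
        | .f, false, .mid => QEx.nonneg_on_box (List.all_eq_true.1 m9_group6 (mpiece9.checkM false .f false .mid) (by simp)) m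
        | .f, true, .lo => QEx.nonneg_on_box (List.all_eq_true.1 m9_group7 (mpiece9.checkM false .f true .lo) (by simp)) m
        | .f, true, .hi => QEx.nonneg_on_box (List.all_eq_true.1 m9_group8 (mpiece9.checkM false .f true .hi) (by simp)) m
        | .f, true, .mid => QEx.nonneg_on_box (List.all_eq_true.1 m9_group9 (mpiece9.checkM false .f true .mid) (by simp)) m
      side := fun e =>
        match e with
        | .rA => QEx.nonneg_on_box (List.all_eq_true.1 m9_group21 (mpiece9.side .rA) (by simp)) m
        | .rB => QEx.nonneg_on_box (List.all_eq_true.1 m9_group21 (mpiece9.side .rB) (by simp)) m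
        | .rF => QEx.nonneg_on_box (List.all_eq_true.1 m9_group22 (mpiece9.side .rF) (by simp)) m
        | .q => QEx.nonneg_on_box (List.all_eq_true.1 m9_group23 (mpiece9.side .q) (by simp)) m
        | .om => QEx.nonneg_on_box (List.all_eq_true.1 m9_group24 (mpiece9.side .om) (by simp)) m
      nums := by decide }
  env :=
    { lo := fun e =>
        match e with
        | .piL => QEx.nonneg_on_box (List.all_eq_true.1 m9_group10 (mpiece9.env bandSmall.lo bandSmall.hi bandSmall.pole .piL) (by simp)) m
        | .piU => QEx.nonneg_on_box (List.all_eq_true.1 m9_group10 (mpiece9.env bandSmall.lo bandSmall.hi bandSmall.pole .piU) (by simp)) m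
        | .omL => QEx.nonneg_on_box (List.all_eq_true.1 m9_group12 (mpiece9.env bandSmall.lo bandSmall.hi bandSmall.pole .omL) (by simp)) m
        | .omU => QEx.nonneg_on_box (List.all_eq_true.1 m9_group12 (mpiece9.env bandSmall.lo bandSmall.hi bandSmall.pole .omU) (by simp)) m
        | .tauL => m9_tauL_lo_all m
        | .tauU => QEx.nonneg_on_box (List.all_eq_true.1 m9_group16 (mpiece9.env bandSmall.lo bandSmall.hi bandSmall.pole .tauU) (by simp)) m
      hi := fun e =>
        match e with
        | .piL => QEx.nonneg_on_box (List.all_eq_true.1 m9_group11 (mpiece9.env bandSmall.hi bandSmall.hi bandSmall.pole .piL) (by simp)) m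
        | .piU => QEx.nonneg_on_box (List.all_eq_true.1 m9_group11 (mpiece9.env bandSmall.hi bandSmall.hi bandSmall.pole .piU) (by simp)) m
        | .omL => QEx.nonneg_on_box (List.all_eq_true.1 m9_group13 (mpiece9.env bandSmall.hi bandSmall.hi bandSmall.pole .omL) (by simp)) m
        | .omU => QEx.nonneg_on_box (List.all_eq_true.1 m9_group13 (mpiece9.env bandSmall.hi bandSmall.hi bandSmall.pole .omU) (by simp)) m
        | .tauL => m9_tauL_hi_all m
        | .tauU => QEx.nonneg_on_box (List.all_eq_true.1 m9_group17 (mpiece9.env bandSmall.hi bandSmall.hi bandSmall.pole .tauU) (by simp)) m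
      wid := QEx.nonneg_on_box (List.all_eq_true.1 m9_group20 (mpiece9.wid - qD 1) (by simp)) m }
  rayLo := QEx.nonneg_on_box (List.all_eq_true.1 m9_group18 (xLLGM false bandSmall.lo bandSmall.pole) (by simp)) m
  rayHi := QEx.nonneg_on_box (List.all_eq_true.1 m9_group19 (xLLGM false bandSmall.hi bandSmall.pole) (by simp)) m

/-- The split check. -/
theorem m10_piL_lo_all {o : PtR} (m : o.InM mbox10) :
    0 ≤ (mpiece10.env (bandMid Band.midLowC Band.midUpC).lo (bandMid Band.midLowC Band.midUpC).hi (bandMid Band.midLowC Band.midUpC).pole .piL).val o.x := by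
  obtain ⟨hu, hX, ha, hI⟩ := m.bounds
  simp only [mbox10] at hu hX ha hI
  norm_num at hu hX ha hI
  rcases le_total (o.a) (441 / 2000 : ℝ) with h0 | h0
  ·
    refine QEx.nonneg_on_box m10_piL_lo_0 (PtR.InM.of_bounds ?_ ?_ ?_ ?_) <;>
      simp only [mbox10_piL_lo_0, InChart] <;> norm_num <;> (try constructor) <;> linarith
  ·
    refine QEx.nonneg_on_box m10_piL_lo_1 (PtR.InM.of_bounds ?_ ?_ ?_ ?_) <;>
      simp only [mbox10_piL_lo_1, InChart] <;> norm_num <;> (try constructor) <;> linarith

/-- The split check. -/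
theorem m10_piU_hi_all {o : PtR} (m : o.InM mbox10) :
    0 ≤ (mpiece10.env (bandMid Band.midLowC Band.midUpC).hi (bandMid Band.midLowC Band.midUpC).hi (bandMid Band.midLowC Band.midUpC).pole .piU).val o.x := by
  obtain ⟨hu, hX, ha, hI⟩ := m.bounds
  simp only [mbox10] at hu hX ha hI
  norm_num at hu hX ha hI
  rcases le_total (o.a) (441 / 2000 : ℝ) with h0 | h0
  ·
    refine QEx.nonneg_on_box m10_piU_hi_0 (PtR.InM.of_bounds ?_ ?_ ?_ ?_) <;>
      simp only [mbox10_piU_hi_0, InChart] <;> norm_num <;> (try constructor) <;> linarith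
  ·
    refine QEx.nonneg_on_box m10_piU_hi_1 (PtR.InM.of_bounds ?_ ?_ ?_ ?_) <;>
      simp only [mbox10_piU_hi_1, InChart] <;> norm_num <;> (try constructor) <;> linarith

/-- The split check. -/
theorem m10_omU_lo_all {o : PtR} (m : o.InM mbox10) :
    0 ≤ (mpiece10.env (bandMid Band.midLowC Band.midUpC).lo (bandMid Band.midLowC Band.midUpC).hi (bandMid Band.midLowC Band.midUpC).pole .omU).val o.x := by
  obtain ⟨hu, hX, ha, hI⟩ := m.bounds
  simp only [mbox10] at hu hX ha hI
  norm_num at hu hX ha hI
  rcases le_total (o.a) (441 / 2000 : ℝ) with h0 | h0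
  ·
    refine QEx.nonneg_on_box m10_omU_lo_0 (PtR.InM.of_bounds ?_ ?_ ?_ ?_) <;>
      simp only [mbox10_omU_lo_0, InChart] <;> norm_num <;> (try constructor) <;> linarith
  ·
    refine QEx.nonneg_on_box m10_omU_lo_1 (PtR.InM.of_bounds ?_ ?_ ?_ ?_) <;>
      simp only [mbox10_omU_lo_1, InChart] <;> norm_num <;> (try constructor) <;> linarith

/-- The split check. -/
theorem m10_omU_hi_all {o : PtR} (m : o.InM mbox10) :
    0 ≤ (mpiece10.env (bandMid Band.midLowC Band.midUpC).hi (bandMid Band.midLowC Band.midUpC).hi (bandMid Band.midLowC Band.midUpC).pole .omU).val o.x := by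
  obtain ⟨hu, hX, ha, hI⟩ := m.bounds
  simp only [mbox10] at hu hX ha hI
  norm_num at hu hX ha hI
  rcases le_total (o.a) (441 / 2000 : ℝ) with h0 | h0
  ·
    rcases le_total (o.u) (6 / 25 : ℝ) with h1 | h1
    ·
      refine QEx.nonneg_on_box m10_omU_hi_0 (PtR.InM.of_bounds ?_ ?_ ?_ ?_) <;>
        simp only [mbox10_omU_hi_0, InChart] <;> norm_num <;> (try constructor) <;> linarith
    ·
      refine QEx.nonneg_on_box m10_omU_hi_1 (PtR.InM.of_bounds ?_ ?_ ?_ ?_) <;>
        simp only [mbox10_omU_hi_1, InChart] <;> norm_num <;> (try constructor) <;> linarith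
  ·
    rcases le_total (o.u) (6 / 25 : ℝ) with h1 | h1
    ·
      refine QEx.nonneg_on_box m10_omU_hi_2 (PtR.InM.of_bounds ?_ ?_ ?_ ?_) <;>
        simp only [mbox10_omU_hi_2, InChart] <;> norm_num <;> (try constructor) <;> linarith
    ·
      refine QEx.nonneg_on_box m10_omU_hi_3 (PtR.InM.of_bounds ?_ ?_ ?_ ?_) <;>
        simp only [mbox10_omU_hi_3, InChart] <;> norm_num <;> (try constructor) <;> linarith

/-- The split check. -/
theorem m10_tauL_lo_all {o : PtR} (m : o.InM mbox10) :
    0 ≤ (mpiece10.env (bandMid Band.midLowC Band.midUpC).lo (bandMid Band.midLowC Band.midUpC).hi (bandMid Band.midLowC Band.midUpC).pole .tauL).val o.x := by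
  obtain ⟨hu, hX, ha, hI⟩ := m.bounds
  simp only [mbox10] at hu hX ha hI
  norm_num at hu hX ha hI
  rcases le_total (o.a) (441 / 2000 : ℝ) with h0 | h0
  ·
    refine QEx.nonneg_on_box m10_tauL_lo_0 (PtR.InM.of_bounds ?_ ?_ ?_ ?_) <;>
      simp only [mbox10_tauL_lo_0, InChart] <;> norm_num <;> (try constructor) <;> linarith
  ·
    rcases le_total (o.a) (1043 / 4000 : ℝ) with h1 | h1
    ·
      refine QEx.nonneg_on_box m10_tauL_lo_1 (PtR.InM.of_bounds ?_ ?_ ?_ ?_) <;>
        simp only [mbox10_tauL_lo_1, InChart] <;> norm_num <;> (try constructor) <;> linarith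
    ·
      refine QEx.nonneg_on_box m10_tauL_lo_2 (PtR.InM.of_bounds ?_ ?_ ?_ ?_) <;>
        simp only [mbox10_tauL_lo_2, InChart] <;> norm_num <;> (try constructor) <;> linarith

/-- The split check. -/
theorem m10_tauL_hi_all {o : PtR} (m : o.InM mbox10) :
    0 ≤ (mpiece10.env (bandMid Band.midLowC Band.midUpC).hi (bandMid Band.midLowC Band.midUpC).hi (bandMid Band.midLowC Band.midUpC).pole .tauL).val o.x := by
  obtain ⟨hu, hX, ha, hI⟩ := m.bounds
  simp only [mbox10] at hu hX ha hI
  norm_num at hu hX ha hI
  rcases le_total (o.a) (441 / 2000 : ℝ) with h0 | h0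
  ·
    refine QEx.nonneg_on_box m10_tauL_hi_0 (PtR.InM.of_bounds ?_ ?_ ?_ ?_) <;>
      simp only [mbox10_tauL_hi_0, InChart] <;> norm_num <;> (try constructor) <;> linarith
  ·
    rcases le_total (o.a) (1043 / 4000 : ℝ) with h1 | h1
    ·
      refine QEx.nonneg_on_box m10_tauL_hi_1 (PtR.InM.of_bounds ?_ ?_ ?_ ?_) <;>
        simp only [mbox10_tauL_hi_1, InChart] <;> norm_num <;> (try constructor) <;> linarith
    ·
      refine QEx.nonneg_on_box m10_tauL_hi_2 (PtR.InM.of_bounds ?_ ?_ ?_ ?_) <;>
        simp only [mbox10_tauL_hi_2, InChart] <;> norm_num <;> (try constructor) <;> linarith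

/-- The exit curve on the box of piece 10. -/
theorem mexit10_holds {o : PtR} (h0 : 2 / 25 ≤ o.u) (h1 : o.u ≤ 2 / 5) (h2 : 7 / 50 ≤ o.a) (h3 : o.a ≤ 301 / 1000)
    (h4 : 8 / 57 ≤ o.I) (h5 : o.I ≤ 1 / 7) :
    0 ≤ Band.midBracket Band.midExitC o.I o.a o.u * 42 - 1000 * 25 := by
  have h := QEx.nonneg_on_box mexit10_check (x := (⟨o.u, 42 / 25, o.a, o.I⟩ : PtR).x)
    (PtR.InM.of_bounds (o := ⟨o.u, 42 / 25, o.a, o.I⟩) ?_ ?_ ?_ ?_)
  · obtain ⟨eu, -, va, vI, -, -, -, -, -, -, -, -⟩ := (⟨o.u, 42 / 25, o.a, o.I⟩ : PtR).vals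
    simp only [xExitM, xFour, val_add, val_sub, val_mul, val_num, eu, va, vI] at h
    push_cast at h
    simp only [Band.midBracket, Band.midFour]
    linarith
  all_goals simp only [mexit10Box, InChart] <;> norm_num <;> (try constructor) <;> linarith

/-- The piece 10 holds on its box. -/
theorem mpiece10_holds {o : PtR} (m : o.InM mbox10) :
    mpiece10.AllHoldM false (bandMid Band.midLowC Band.midUpC) o where
  forms :=
    { forms := fun q h k =>
        match q, h, k with
        | .g, false, .lo => QEx.nonneg_on_box (List.all_eq_true.1 m10_group0 (mpiece10.checkM false .g false .lo) (by simp)) m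
        | .g, false, .hi => QEx.nonneg_on_box (List.all_eq_true.1 m10_group0 (mpiece10.checkM false .g false .hi) (by simp)) m
        | .g, false, .mid => QEx.nonneg_on_box (List.all_eq_true.1 m10_group0 (mpiece10.checkM false .g false .mid) (by simp)) m
        | .g, true, .lo => QEx.nonneg_on_box (List.all_eq_true.1 m10_group0 (mpiece10.checkM false .g true .lo) (by simp)) m
        | .g, true, .hi => QEx.nonneg_on_box (List.all_eq_true.1 m10_group0 (mpiece10.checkM false .g true .hi) (by simp)) m
        | .g, true, .mid => QEx.nonneg_on_box (List.all_eq_true.1 m10_group0 (mpiece10.checkM false .g true .mid) (by simp)) m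
        | .n, false, .lo => QEx.nonneg_on_box (List.all_eq_true.1 m10_group1 (mpiece10.checkM false .n false .lo) (by simp)) m
        | .n, false, .hi => QEx.nonneg_on_box (List.all_eq_true.1 m10_group1 (mpiece10.checkM false .n false .hi) (by simp)) m
        | .n, false, .mid => QEx.nonneg_on_box (List.all_eq_true.1 m10_group1 (mpiece10.checkM false .n false .mid) (by simp)) m
        | .n, true, .lo => QEx.nonneg_on_box (List.all_eq_true.1 m10_group1 (mpiece10.checkM false .n true .lo) (by simp)) m
        | .n, true, .hi => QEx.nonneg_on_box (List.all_eq_true.1 m10_group1 (mpiece10.checkM false .n true .hi) (by simp)) m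
        | .n, true, .mid => QEx.nonneg_on_box (List.all_eq_true.1 m10_group1 (mpiece10.checkM false .n true .mid) (by simp)) m
        | .tlo, false, .lo => QEx.nonneg_on_box (List.all_eq_true.1 m10_group2 (mpiece10.checkM false .tlo false .lo) (by simp)) m
        | .tlo, false, .hi => QEx.nonneg_on_box (List.all_eq_true.1 m10_group2 (mpiece10.checkM false .tlo false .hi) (by simp)) m
        | .tlo, false, .mid => QEx.nonneg_on_box (List.all_eq_true.1 m10_group2 (mpiece10.checkM false .tlo false .mid) (by simp)) m
        | .tlo, true, .lo => QEx.nonneg_on_box (List.all_eq_true.1 m10_group2 (mpiece10.checkM false .tlo true .lo) (by simp)) m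
        | .tlo, true, .hi => QEx.nonneg_on_box (List.all_eq_true.1 m10_group2 (mpiece10.checkM false .tlo true .hi) (by simp)) m
        | .tlo, true, .mid => QEx.nonneg_on_box (List.all_eq_true.1 m10_group2 (mpiece10.checkM false .tlo true .mid) (by simp)) m
        | .thi, false, .lo => QEx.nonneg_on_box (List.all_eq_true.1 m10_group2 (mpiece10.checkM false .thi false .lo) (by simp)) m
        | .thi, false, .hi => QEx.nonneg_on_box (List.all_eq_true.1 m10_group2 (mpiece10.checkM false .thi false .hi) (by simp)) m
        | .thi, false, .mid => QEx.nonneg_on_box (List.all_eq_true.1 m10_group2 (mpiece10.checkM false .thi false .mid) (by simp)) m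
        | .thi, true, .lo => QEx.nonneg_on_box (List.all_eq_true.1 m10_group2 (mpiece10.checkM false .thi true .lo) (by simp)) m
        | .thi, true, .hi => QEx.nonneg_on_box (List.all_eq_true.1 m10_group2 (mpiece10.checkM false .thi true .hi) (by simp)) m
        | .thi, true, .mid => QEx.nonneg_on_box (List.all_eq_true.1 m10_group2 (mpiece10.checkM false .thi true .mid) (by simp)) m
        | .mlo, false, .lo => QEx.nonneg_on_box (List.all_eq_true.1 m10_group3 (mpiece10.checkM false .mlo false .lo) (by simp)) m
        | .mlo, false, .hi => QEx.nonneg_on_box (List.all_eq_true.1 m10_group3 (mpiece10.checkM false .mlo false .hi) (by simp)) m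
        | .mlo, false, .mid => QEx.nonneg_on_box (List.all_eq_true.1 m10_group3 (mpiece10.checkM false .mlo false .mid) (by simp)) m
        | .mlo, true, .lo => QEx.nonneg_on_box (List.all_eq_true.1 m10_group3 (mpiece10.checkM false .mlo false .lo) (by simp)) m
        | .mlo, true, .hi => QEx.nonneg_on_box (List.all_eq_true.1 m10_group3 (mpiece10.checkM false .mlo false .hi) (by simp)) m
        | .mlo, true, .mid => QEx.nonneg_on_box (List.all_eq_true.1 m10_group3 (mpiece10.checkM false .mlo false .mid) (by simp)) m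
        | .mhi, false, .lo => QEx.nonneg_on_box (List.all_eq_true.1 m10_group3 (mpiece10.checkM false .mhi false .lo) (by simp)) m
        | .mhi, false, .hi => QEx.nonneg_on_box (List.all_eq_true.1 m10_group3 (mpiece10.checkM false .mhi false .hi) (by simp)) m
        | .mhi, false, .mid => QEx.nonneg_on_box (List.all_eq_true.1 m10_group3 (mpiece10.checkM false .mhi false .mid) (by simp)) m
        | .mhi, true, .lo => QEx.nonneg_on_box (List.all_eq_true.1 m10_group3 (mpiece10.checkM false .mhi false .lo) (by simp)) m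
        | .mhi, true, .hi => QEx.nonneg_on_box (List.all_eq_true.1 m10_group3 (mpiece10.checkM false .mhi false .hi) (by simp)) m
        | .mhi, true, .mid => QEx.nonneg_on_box (List.all_eq_true.1 m10_group3 (mpiece10.checkM false .mhi false .mid) (by simp)) m
        | .f, false, .lo => QEx.nonneg_on_box (List.all_eq_true.1 m10_group4 (mpiece10.checkM false .f false .lo) (by simp)) m
        | .f, false, .hi => QEx.nonneg_on_box (List.all_eq_true.1 m10_group5 (mpiece10.checkM false .f false .hi) (by simp)) m
        | .f, false, .mid => QEx.nonneg_on_box (List.all_eq_true.1 m10_group6 (mpiece10.checkM false .f false .mid) (by simp)) m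
        | .f, true, .lo => QEx.nonneg_on_box (List.all_eq_true.1 m10_group7 (mpiece10.checkM false .f true .lo) (by simp)) m
        | .f, true, .hi => QEx.nonneg_on_box (List.all_eq_true.1 m10_group8 (mpiece10.checkM false .f true .hi) (by simp)) m
        | .f, true, .mid => QEx.nonneg_on_box (List.all_eq_true.1 m10_group9 (mpiece10.checkM false .f true .mid) (by simp)) m
      side := fun e =>
        match e with
        | .rA => QEx.nonneg_on_box (List.all_eq_true.1 m10_group21 (mpiece10.side .rA) (by simp)) m
        | .rB => QEx.nonneg_on_box (List.all_eq_true.1 m10_group21 (mpiece10.side .rB) (by simp)) m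
        | .rF => QEx.nonneg_on_box (List.all_eq_true.1 m10_group22 (mpiece10.side .rF) (by simp)) m
        | .q => QEx.nonneg_on_box (List.all_eq_true.1 m10_group23 (mpiece10.side .q) (by simp)) m
        | .om => QEx.nonneg_on_box (List.all_eq_true.1 m10_group24 (mpiece10.side .om) (by simp)) m
      nums := by decide }
  env :=
    { lo := fun e =>
        match e with
        | .piL => m10_piL_lo_all m
        | .piU => QEx.nonneg_on_box (List.all_eq_true.1 m10_group11 (mpiece10.env (bandMid Band.midLowC Band.midUpC).lo (bandMid Band.midLowC Band.midUpC).hi (bandMid Band.midLowC Band.midUpC).pole .piU) (by simp)) m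
        | .omL => QEx.nonneg_on_box (List.all_eq_true.1 m10_group13 (mpiece10.env (bandMid Band.midLowC Band.midUpC).lo (bandMid Band.midLowC Band.midUpC).hi (bandMid Band.midLowC Band.midUpC).pole .omL) (by simp)) m
        | .omU => m10_omU_lo_all m
        | .tauL => m10_tauL_lo_all m
        | .tauU => QEx.nonneg_on_box (List.all_eq_true.1 m10_group18 (mpiece10.env (bandMid Band.midLowC Band.midUpC).lo (bandMid Band.midLowC Band.midUpC).hi (bandMid Band.midLowC Band.midUpC).pole .tauU) (by simp)) m
      hi := fun e =>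
        match e with
        | .piL => QEx.nonneg_on_box (List.all_eq_true.1 m10_group11 (mpiece10.env (bandMid Band.midLowC Band.midUpC).hi (bandMid Band.midLowC Band.midUpC).hi (bandMid Band.midLowC Band.midUpC).pole .piL) (by simp)) m
        | .piU => m10_piU_hi_all m
        | .omL => QEx.nonneg_on_box (List.all_eq_true.1 m10_group13 (mpiece10.env (bandMid Band.midLowC Band.midUpC).hi (bandMid Band.midLowC Band.midUpC).hi (bandMid Band.midLowC Band.midUpC).pole .omL) (by simp)) m
        | .omU => m10_omU_hi_all m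
        | .tauL => m10_tauL_hi_all m
        | .tauU => QEx.nonneg_on_box (List.all_eq_true.1 m10_group18 (mpiece10.env (bandMid Band.midLowC Band.midUpC).hi (bandMid Band.midLowC Band.midUpC).hi (bandMid Band.midLowC Band.midUpC).pole .tauU) (by simp)) m
      wid := QEx.nonneg_on_box (List.all_eq_true.1 m10_group20 (mpiece10.wid - qD 1) (by simp)) m }
  rayLo := QEx.nonneg_on_box (List.all_eq_true.1 m10_group19 (xLLGM false (bandMid Band.midLowC Band.midUpC).lo (bandMid Band.midLowC Band.midUpC).pole) (by simp)) m
  rayHi := QEx.nonneg_on_box (List.all_eq_true.1 m10_group19 (xLLGM false (bandMid Band.midLowC Band.midUpC).hi (bandMid Band.midLowC Band.midUpC).pole) (by simp)) m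

/-- The split check. -/
theorem m11_piL_lo_all {o : PtR} (m : o.InM mbox11) :
    0 ≤ (mpiece11.env (bandMid Band.midLowC Band.midUpC).lo (bandMid Band.midLowC Band.midUpC).hi (bandMid Band.midLowC Band.midUpC).pole .piL).val o.x := by
  obtain ⟨hu, hX, ha, hI⟩ := m.bounds
  simp only [mbox11] at hu hX ha hI
  norm_num at hu hX ha hI
  rcases le_total (o.a) (441 / 2000 : ℝ) with h0 | h0
  ·
    refine QEx.nonneg_on_box m11_piL_lo_0 (PtR.InM.of_bounds ?_ ?_ ?_ ?_) <;>
      simp only [mbox11_piL_lo_0, InChart] <;> norm_num <;> (try constructor) <;> linarith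
  ·
    rcases le_total (o.u) (1 / 2 : ℝ) with h1 | h1
    ·
      refine QEx.nonneg_on_box m11_piL_lo_1 (PtR.InM.of_bounds ?_ ?_ ?_ ?_) <;>
        simp only [mbox11_piL_lo_1, InChart] <;> norm_num <;> (try constructor) <;> linarith
    ·
      rcases le_total (o.a) (1043 / 4000 : ℝ) with h2 | h2
      ·
        refine QEx.nonneg_on_box m11_piL_lo_2 (PtR.InM.of_bounds ?_ ?_ ?_ ?_) <;>
          simp only [mbox11_piL_lo_2, InChart] <;> norm_num <;> (try constructor) <;> linarith
      ·
        rcases le_total (o.u) (11 / 20 : ℝ) with h3 | h3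
        ·
          refine QEx.nonneg_on_box m11_piL_lo_3 (PtR.InM.of_bounds ?_ ?_ ?_ ?_) <;>
            simp only [mbox11_piL_lo_3, InChart] <;> norm_num <;> (try constructor) <;> linarith
        ·
          rcases le_total (o.X) (8 / 5 : ℝ) with h4 | h4
          ·
            refine QEx.nonneg_on_box m11_piL_lo_4 (PtR.InM.of_bounds ?_ ?_ ?_ ?_) <;>
              simp only [mbox11_piL_lo_4, InChart] <;> norm_num <;> (try constructor) <;> linarith
          ·
            rcases le_total (o.a) (2247 / 8000 : ℝ) with h5 | h5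
            ·
              refine QEx.nonneg_on_box m11_piL_lo_5 (PtR.InM.of_bounds ?_ ?_ ?_ ?_) <;>
                simp only [mbox11_piL_lo_5, InChart] <;> norm_num <;> (try constructor) <;> linarith
            ·
              refine QEx.nonneg_on_box m11_piL_lo_6 (PtR.InM.of_bounds ?_ ?_ ?_ ?_) <;>
                simp only [mbox11_piL_lo_6, InChart] <;> norm_num <;> (try constructor) <;> linarith

/-- The split check. -/
theorem m11_piU_hi_all {o : PtR} (m : o.InM mbox11) :
    0 ≤ (mpiece11.env (bandMid Band.midLowC Band.midUpC).hi (bandMid Band.midLowC Band.midUpC).hi (bandMid Band.midLowC Band.midUpC).pole .piU).val o.x := by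
  obtain ⟨hu, hX, ha, hI⟩ := m.bounds
  simp only [mbox11] at hu hX ha hI
  norm_num at hu hX ha hI
  rcases le_total (o.a) (441 / 2000 : ℝ) with h0 | h0
  ·
    rcases le_total (o.a) (721 / 4000 : ℝ) with h1 | h1
    ·
      rcases le_total (o.u) (1 / 2 : ℝ) with h2 | h2
      ·
        refine QEx.nonneg_on_box m11_piU_hi_0 (PtR.InM.of_bounds ?_ ?_ ?_ ?_) <;>
          simp only [mbox11_piU_hi_0, InChart] <;> norm_num <;> (try constructor) <;> linarith
      ·
        rcases le_total (o.X) (8 / 5 : ℝ) with h3 | h3
        ·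
          refine QEx.nonneg_on_box m11_piU_hi_1 (PtR.InM.of_bounds ?_ ?_ ?_ ?_) <;>
            simp only [mbox11_piU_hi_1, InChart] <;> norm_num <;> (try constructor) <;> linarith
        ·
          refine QEx.nonneg_on_box m11_piU_hi_2 (PtR.InM.of_bounds ?_ ?_ ?_ ?_) <;>
            simp only [mbox11_piU_hi_2, InChart] <;> norm_num <;> (try constructor) <;> linarith
    ·
      rcases le_total (o.u) (1 / 2 : ℝ) with h2 | h2
      ·
        refine QEx.nonneg_on_box m11_piU_hi_3 (PtR.InM.of_bounds ?_ ?_ ?_ ?_) <;>
          simp only [mbox11_piU_hi_3, InChart] <;> norm_num <;> (try constructor) <;> linarith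
      ·
        refine QEx.nonneg_on_box m11_piU_hi_4 (PtR.InM.of_bounds ?_ ?_ ?_ ?_) <;>
          simp only [mbox11_piU_hi_4, InChart] <;> norm_num <;> (try constructor) <;> linarith
  ·
    refine QEx.nonneg_on_box m11_piU_hi_5 (PtR.InM.of_bounds ?_ ?_ ?_ ?_) <;>
      simp only [mbox11_piU_hi_5, InChart] <;> norm_num <;> (try constructor) <;> linarith

/-- The split check. -/
theorem m11_omU_lo_all {o : PtR} (m : o.InM mbox11) :
    0 ≤ (mpiece11.env (bandMid Band.midLowC Band.midUpC).lo (bandMid Band.midLowC Band.midUpC).hi (bandMid Band.midLowC Band.midUpC).pole .omU).val o.x := by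
  obtain ⟨hu, hX, ha, hI⟩ := m.bounds
  simp only [mbox11] at hu hX ha hI
  norm_num at hu hX ha hI
  rcases le_total (o.a) (441 / 2000 : ℝ) with h0 | h0
  ·
    rcases le_total (o.X) (8 / 5 : ℝ) with h1 | h1
    ·
      refine QEx.nonneg_on_box m11_omU_lo_0 (PtR.InM.of_bounds ?_ ?_ ?_ ?_) <;>
        simp only [mbox11_omU_lo_0, InChart] <;> norm_num <;> (try constructor) <;> linarith
    ·
      refine QEx.nonneg_on_box m11_omU_lo_1 (PtR.InM.of_bounds ?_ ?_ ?_ ?_) <;>
        simp only [mbox11_omU_lo_1, InChart] <;> norm_num <;> (try constructor) <;> linarith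
  ·
    rcases le_total (o.X) (8 / 5 : ℝ) with h1 | h1
    ·
      refine QEx.nonneg_on_box m11_omU_lo_2 (PtR.InM.of_bounds ?_ ?_ ?_ ?_) <;>
        simp only [mbox11_omU_lo_2, InChart] <;> norm_num <;> (try constructor) <;> linarith
    ·
      refine QEx.nonneg_on_box m11_omU_lo_3 (PtR.InM.of_bounds ?_ ?_ ?_ ?_) <;>
        simp only [mbox11_omU_lo_3, InChart] <;> norm_num <;> (try constructor) <;> linarith

/-- The split check. -/
theorem m11_omU_hi_all {o : PtR} (m : o.InM mbox11) :
    0 ≤ (mpiece11.env (bandMid Band.midLowC Band.midUpC).hi (bandMid Band.midLowC Band.midUpC).hi (bandMid Band.midLowC Band.midUpC).pole .omU).val o.x := by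
  obtain ⟨hu, hX, ha, hI⟩ := m.bounds
  simp only [mbox11] at hu hX ha hI
  norm_num at hu hX ha hI
  rcases le_total (o.a) (441 / 2000 : ℝ) with h0 | h0
  ·
    rcases le_total (o.X) (8 / 5 : ℝ) with h1 | h1
    ·
      refine QEx.nonneg_on_box m11_omU_hi_0 (PtR.InM.of_bounds ?_ ?_ ?_ ?_) <;>
        simp only [mbox11_omU_hi_0, InChart] <;> norm_num <;> (try constructor) <;> linarith
    ·
      refine QEx.nonneg_on_box m11_omU_hi_1 (PtR.InM.of_bounds ?_ ?_ ?_ ?_) <;>
        simp only [mbox11_omU_hi_1, InChart] <;> norm_num <;> (try constructor) <;> linarith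
  ·
    rcases le_total (o.X) (8 / 5 : ℝ) with h1 | h1
    ·
      rcases le_total (o.a) (1043 / 4000 : ℝ) with h2 | h2
      ·
        rcases le_total (o.a) (77 / 320 : ℝ) with h3 | h3
        ·
          rcases le_total (o.u) (1 / 2 : ℝ) with h4 | h4
          ·
            refine QEx.nonneg_on_box m11_omU_hi_2 (PtR.InM.of_bounds ?_ ?_ ?_ ?_) <;>
              simp only [mbox11_omU_hi_2, InChart] <;> norm_num <;> (try constructor) <;> linarith
          ·
            refine QEx.nonneg_on_box m11_omU_hi_3 (PtR.InM.of_bounds ?_ ?_ ?_ ?_) <;>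
              simp only [mbox11_omU_hi_3, InChart] <;> norm_num <;> (try constructor) <;> linarith
        ·
          rcases le_total (o.u) (1 / 2 : ℝ) with h4 | h4
          ·
            refine QEx.nonneg_on_box m11_omU_hi_4 (PtR.InM.of_bounds ?_ ?_ ?_ ?_) <;>
              simp only [mbox11_omU_hi_4, InChart] <;> norm_num <;> (try constructor) <;> linarith
          ·
            refine QEx.nonneg_on_box m11_omU_hi_5 (PtR.InM.of_bounds ?_ ?_ ?_ ?_) <;>
              simp only [mbox11_omU_hi_5, InChart] <;> norm_num <;> (try constructor) <;> linarith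
      ·
        refine QEx.nonneg_on_box m11_omU_hi_6 (PtR.InM.of_bounds ?_ ?_ ?_ ?_) <;>
          simp only [mbox11_omU_hi_6, InChart] <;> norm_num <;> (try constructor) <;> linarith
    ·
      rcases le_total (o.a) (1043 / 4000 : ℝ) with h2 | h2
      ·
        refine QEx.nonneg_on_box m11_omU_hi_7 (PtR.InM.of_bounds ?_ ?_ ?_ ?_) <;>
          simp only [mbox11_omU_hi_7, InChart] <;> norm_num <;> (try constructor) <;> linarith
      ·
        refine QEx.nonneg_on_box m11_omU_hi_8 (PtR.InM.of_bounds ?_ ?_ ?_ ?_) <;>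
          simp only [mbox11_omU_hi_8, InChart] <;> norm_num <;> (try constructor) <;> linarith

/-- The split check. -/
theorem m11_tauL_lo_all {o : PtR} (m : o.InM mbox11) :
    0 ≤ (mpiece11.env (bandMid Band.midLowC Band.midUpC).lo (bandMid Band.midLowC Band.midUpC).hi (bandMid Band.midLowC Band.midUpC).pole .tauL).val o.x := by
  obtain ⟨hu, hX, ha, hI⟩ := m.bounds
  simp only [mbox11] at hu hX ha hI
  norm_num at hu hX ha hI
  rcases le_total (o.a) (441 / 2000 : ℝ) with h0 | h0
  ·
    rcases le_total (o.a) (721 / 4000 : ℝ) with h1 | h1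
    ·
      refine QEx.nonneg_on_box m11_tauL_lo_0 (PtR.InM.of_bounds ?_ ?_ ?_ ?_) <;>
        simp only [mbox11_tauL_lo_0, InChart] <;> norm_num <;> (try constructor) <;> linarith
    ·
      rcases le_total (o.X) (8 / 5 : ℝ) with h2 | h2
      ·
        refine QEx.nonneg_on_box m11_tauL_lo_1 (PtR.InM.of_bounds ?_ ?_ ?_ ?_) <;>
          simp only [mbox11_tauL_lo_1, InChart] <;> norm_num <;> (try constructor) <;> linarith
      ·
        refine QEx.nonneg_on_box m11_tauL_lo_2 (PtR.InM.of_bounds ?_ ?_ ?_ ?_) <;>
          simp only [mbox11_tauL_lo_2, InChart] <;> norm_num <;> (try constructor) <;> linarith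
  ·
    refine QEx.nonneg_on_box m11_tauL_lo_3 (PtR.InM.of_bounds ?_ ?_ ?_ ?_) <;>
      simp only [mbox11_tauL_lo_3, InChart] <;> norm_num <;> (try constructor) <;> linarith

/-- The split check. -/
theorem m11_tauL_hi_all {o : PtR} (m : o.InM mbox11) :
    0 ≤ (mpiece11.env (bandMid Band.midLowC Band.midUpC).hi (bandMid Band.midLowC Band.midUpC).hi (bandMid Band.midLowC Band.midUpC).pole .tauL).val o.x := by
  obtain ⟨hu, hX, ha, hI⟩ := m.bounds
  simp only [mbox11] at hu hX ha hI
  norm_num at hu hX ha hI
  rcases le_total (o.a) (441 / 2000 : ℝ) with h0 | h0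
  ·
    rcases le_total (o.a) (721 / 4000 : ℝ) with h1 | h1
    ·
      refine QEx.nonneg_on_box m11_tauL_hi_0 (PtR.InM.of_bounds ?_ ?_ ?_ ?_) <;>
        simp only [mbox11_tauL_hi_0, InChart] <;> norm_num <;> (try constructor) <;> linarith
    ·
      rcases le_total (o.X) (8 / 5 : ℝ) with h2 | h2
      ·
        refine QEx.nonneg_on_box m11_tauL_hi_1 (PtR.InM.of_bounds ?_ ?_ ?_ ?_) <;>
          simp only [mbox11_tauL_hi_1, InChart] <;> norm_num <;> (try constructor) <;> linarith
      ·
        refine QEx.nonneg_on_box m11_tauL_hi_2 (PtR.InM.of_bounds ?_ ?_ ?_ ?_) <;>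
          simp only [mbox11_tauL_hi_2, InChart] <;> norm_num <;> (try constructor) <;> linarith
  ·
    refine QEx.nonneg_on_box m11_tauL_hi_3 (PtR.InM.of_bounds ?_ ?_ ?_ ?_) <;>
      simp only [mbox11_tauL_hi_3, InChart] <;> norm_num <;> (try constructor) <;> linarith

/-- The exit curve on the box of piece 11. -/
theorem mexit11_holds {o : PtR} (h0 : 2 / 5 ≤ o.u) (h1 : o.u ≤ 3 / 5) (h2 : 7 / 50 ≤ o.a) (h3 : o.a ≤ 301 / 1000)
    (h4 : 8 / 57 ≤ o.I) (h5 : o.I ≤ 1 / 7) :
    0 ≤ Band.midBracket Band.midExitC o.I o.a o.u * 57 - 1000 * 25 := by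
  have h := QEx.nonneg_on_box mexit11_check (x := (⟨o.u, 57 / 25, o.a, o.I⟩ : PtR).x)
    (PtR.InM.of_bounds (o := ⟨o.u, 57 / 25, o.a, o.I⟩) ?_ ?_ ?_ ?_)
  · obtain ⟨eu, -, va, vI, -, -, -, -, -, -, -, -⟩ := (⟨o.u, 57 / 25, o.a, o.I⟩ : PtR).vals
    simp only [xExitM, xFour, val_add, val_sub, val_mul, val_num, eu, va, vI] at h
    push_cast at h
    simp only [Band.midBracket, Band.midFour]
    linarith
  all_goals simp only [mexit11Box, InChart] <;> norm_num <;> (try constructor) <;> linarith

/-- The piece 11 holds on its box. -/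
theorem mpiece11_holds {o : PtR} (m : o.InM mbox11) :
    mpiece11.AllHoldM false (bandMid Band.midLowC Band.midUpC) o where
  forms :=
    { forms := fun q h k =>
        match q, h, k with
        | .g, false, .lo => QEx.nonneg_on_box (List.all_eq_true.1 m11_group0 (mpiece11.checkM false .g false .lo) (by simp)) m
        | .g, false, .hi => QEx.nonneg_on_box (List.all_eq_true.1 m11_group0 (mpiece11.checkM false .g false .hi) (by simp)) m
        | .g, false, .mid => QEx.nonneg_on_box (List.all_eq_true.1 m11_group0 (mpiece11.checkM false .g false .mid) (by simp)) m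
        | .g, true, .lo => QEx.nonneg_on_box (List.all_eq_true.1 m11_group0 (mpiece11.checkM false .g true .lo) (by simp)) m
        | .g, true, .hi => QEx.nonneg_on_box (List.all_eq_true.1 m11_group0 (mpiece11.checkM false .g true .hi) (by simp)) m
        | .g, true, .mid => QEx.nonneg_on_box (List.all_eq_true.1 m11_group0 (mpiece11.checkM false .g true .mid) (by simp)) m
        | .n, false, .lo => QEx.nonneg_on_box (List.all_eq_true.1 m11_group1 (mpiece11.checkM false .n false .lo) (by simp)) m
        | .n, false, .hi => QEx.nonneg_on_box (List.all_eq_true.1 m11_group1 (mpiece11.checkM false .n false .hi) (by simp)) m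
        | .n, false, .mid => QEx.nonneg_on_box (List.all_eq_true.1 m11_group1 (mpiece11.checkM false .n false .mid) (by simp)) m
        | .n, true, .lo => QEx.nonneg_on_box (List.all_eq_true.1 m11_group1 (mpiece11.checkM false .n true .lo) (by simp)) m
        | .n, true, .hi => QEx.nonneg_on_box (List.all_eq_true.1 m11_group1 (mpiece11.checkM false .n true .hi) (by simp)) m
        | .n, true, .mid => QEx.nonneg_on_box (List.all_eq_true.1 m11_group1 (mpiece11.checkM false .n true .mid) (by simp)) m
        | .tlo, false, .lo => QEx.nonneg_on_box (List.all_eq_true.1 m11_group2 (mpiece11.checkM false .tlo false .lo) (by simp)) m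
        | .tlo, false, .hi => QEx.nonneg_on_box (List.all_eq_true.1 m11_group2 (mpiece11.checkM false .tlo false .hi) (by simp)) m
        | .tlo, false, .mid => QEx.nonneg_on_box (List.all_eq_true.1 m11_group2 (mpiece11.checkM false .tlo false .mid) (by simp)) m
        | .tlo, true, .lo => QEx.nonneg_on_box (List.all_eq_true.1 m11_group2 (mpiece11.checkM false .tlo true .lo) (by simp)) m
        | .tlo, true, .hi => QEx.nonneg_on_box (List.all_eq_true.1 m11_group2 (mpiece11.checkM false .tlo true .hi) (by simp)) m
        | .tlo, true, .mid => QEx.nonneg_on_box (List.all_eq_true.1 m11_group2 (mpiece11.checkM false .tlo true .mid) (by simp)) m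
        | .thi, false, .lo => QEx.nonneg_on_box (List.all_eq_true.1 m11_group2 (mpiece11.checkM false .thi false .lo) (by simp)) m
        | .thi, false, .hi => QEx.nonneg_on_box (List.all_eq_true.1 m11_group2 (mpiece11.checkM false .thi false .hi) (by simp)) m
        | .thi, false, .mid => QEx.nonneg_on_box (List.all_eq_true.1 m11_group2 (mpiece11.checkM false .thi false .mid) (by simp)) m
        | .thi, true, .lo => QEx.nonneg_on_box (List.all_eq_true.1 m11_group2 (mpiece11.checkM false .thi true .lo) (by simp)) m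
        | .thi, true, .hi => QEx.nonneg_on_box (List.all_eq_true.1 m11_group2 (mpiece11.checkM false .thi true .hi) (by simp)) m
        | .thi, true, .mid => QEx.nonneg_on_box (List.all_eq_true.1 m11_group2 (mpiece11.checkM false .thi true .mid) (by simp)) m
        | .mlo, false, .lo => QEx.nonneg_on_box (List.all_eq_true.1 m11_group3 (mpiece11.checkM false .mlo false .lo) (by simp)) m
        | .mlo, false, .hi => QEx.nonneg_on_box (List.all_eq_true.1 m11_group3 (mpiece11.checkM false .mlo false .hi) (by simp)) m
        | .mlo, false, .mid => QEx.nonneg_on_box (List.all_eq_true.1 m11_group3 (mpiece11.checkM false .mlo false .mid) (by simp)) m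
        | .mlo, true, .lo => QEx.nonneg_on_box (List.all_eq_true.1 m11_group3 (mpiece11.checkM false .mlo false .lo) (by simp)) m
        | .mlo, true, .hi => QEx.nonneg_on_box (List.all_eq_true.1 m11_group3 (mpiece11.checkM false .mlo false .hi) (by simp)) m
        | .mlo, true, .mid => QEx.nonneg_on_box (List.all_eq_true.1 m11_group3 (mpiece11.checkM false .mlo false .mid) (by simp)) m
        | .mhi, false, .lo => QEx.nonneg_on_box (List.all_eq_true.1 m11_group3 (mpiece11.checkM false .mhi false .lo) (by simp)) m
        | .mhi, false, .hi => QEx.nonneg_on_box (List.all_eq_true.1 m11_group3 (mpiece11.checkM false .mhi false .hi) (by simp)) m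
        | .mhi, false, .mid => QEx.nonneg_on_box (List.all_eq_true.1 m11_group3 (mpiece11.checkM false .mhi false .mid) (by simp)) m
        | .mhi, true, .lo => QEx.nonneg_on_box (List.all_eq_true.1 m11_group3 (mpiece11.checkM false .mhi false .lo) (by simp)) m
        | .mhi, true, .hi => QEx.nonneg_on_box (List.all_eq_true.1 m11_group3 (mpiece11.checkM false .mhi false .hi) (by simp)) m
        | .mhi, true, .mid => QEx.nonneg_on_box (List.all_eq_true.1 m11_group3 (mpiece11.checkM false .mhi false .mid) (by simp)) m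
        | .f, false, .lo => QEx.nonneg_on_box (List.all_eq_true.1 m11_group4 (mpiece11.checkM false .f false .lo) (by simp)) m
        | .f, false, .hi => QEx.nonneg_on_box (List.all_eq_true.1 m11_group5 (mpiece11.checkM false .f false .hi) (by simp)) m
        | .f, false, .mid => QEx.nonneg_on_box (List.all_eq_true.1 m11_group6 (mpiece11.checkM false .f false .mid) (by simp)) m
        | .f, true, .lo => QEx.nonneg_on_box (List.all_eq_true.1 m11_group7 (mpiece11.checkM false .f true .lo) (by simp)) m
        | .f, true, .hi => QEx.nonneg_on_box (List.all_eq_true.1 m11_group8 (mpiece11.checkM false .f true .hi) (by simp)) m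
        | .f, true, .mid => QEx.nonneg_on_box (List.all_eq_true.1 m11_group9 (mpiece11.checkM false .f true .mid) (by simp)) m
      side := fun e =>
        match e with
        | .rA => QEx.nonneg_on_box (List.all_eq_true.1 m11_group21 (mpiece11.side .rA) (by simp)) m
        | .rB => QEx.nonneg_on_box (List.all_eq_true.1 m11_group21 (mpiece11.side .rB) (by simp)) m
        | .rF => QEx.nonneg_on_box (List.all_eq_true.1 m11_group22 (mpiece11.side .rF) (by simp)) m
        | .q => QEx.nonneg_on_box (List.all_eq_true.1 m11_group23 (mpiece11.side .q) (by simp)) m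
        | .om => QEx.nonneg_on_box (List.all_eq_true.1 m11_group24 (mpiece11.side .om) (by simp)) m
      nums := by decide }
  env :=
    { lo := fun e =>
        match e with
        | .piL => m11_piL_lo_all m
        | .piU => QEx.nonneg_on_box (List.all_eq_true.1 m11_group11 (mpiece11.env (bandMid Band.midLowC Band.midUpC).lo (bandMid Band.midLowC Band.midUpC).hi (bandMid Band.midLowC Band.midUpC).pole .piU) (by simp)) m
        | .omL => QEx.nonneg_on_box (List.all_eq_true.1 m11_group13 (mpiece11.env (bandMid Band.midLowC Band.midUpC).lo (bandMid Band.midLowC Band.midUpC).hi (bandMid Band.midLowC Band.midUpC).pole .omL) (by simp)) m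
        | .omU => m11_omU_lo_all m
        | .tauL => m11_tauL_lo_all m
        | .tauU => QEx.nonneg_on_box (List.all_eq_true.1 m11_group18 (mpiece11.env (bandMid Band.midLowC Band.midUpC).lo (bandMid Band.midLowC Band.midUpC).hi (bandMid Band.midLowC Band.midUpC).pole .tauU) (by simp)) m
      hi := fun e =>
        match e with
        | .piL => QEx.nonneg_on_box (List.all_eq_true.1 m11_group11 (mpiece11.env (bandMid Band.midLowC Band.midUpC).hi (bandMid Band.midLowC Band.midUpC).hi (bandMid Band.midLowC Band.midUpC).pole .piL) (by simp)) m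
        | .piU => m11_piU_hi_all m
        | .omL => QEx.nonneg_on_box (List.all_eq_true.1 m11_group13 (mpiece11.env (bandMid Band.midLowC Band.midUpC).hi (bandMid Band.midLowC Band.midUpC).hi (bandMid Band.midLowC Band.midUpC).pole .omL) (by simp)) m
        | .omU => m11_omU_hi_all m
        | .tauL => m11_tauL_hi_all m
        | .tauU => QEx.nonneg_on_box (List.all_eq_true.1 m11_group18 (mpiece11.env (bandMid Band.midLowC Band.midUpC).hi (bandMid Band.midLowC Band.midUpC).hi (bandMid Band.midLowC Band.midUpC).pole .tauU) (by simp)) m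
      wid := QEx.nonneg_on_box (List.all_eq_true.1 m11_group20 (mpiece11.wid - qD 1) (by simp)) m }
  rayLo := QEx.nonneg_on_box (List.all_eq_true.1 m11_group19 (xLLGM false (bandMid Band.midLowC Band.midUpC).lo (bandMid Band.midLowC Band.midUpC).pole) (by simp)) m
  rayHi := QEx.nonneg_on_box (List.all_eq_true.1 m11_group19 (xLLGM false (bandMid Band.midLowC Band.midUpC).hi (bandMid Band.midLowC Band.midUpC).pole) (by simp)) m

/-- The exit curve on the box of piece 12. -/
theorem mexit12_holds {o : PtR} (h0 : 0 ≤ o.u) (h1 : o.u ≤ 3 / 25) (h2 : 119 / 400 ≤ o.a) (h3 : o.a ≤ 31 / 100)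
    (h4 : 8 / 57 ≤ o.I) (h5 : o.I ≤ 1 / 7) :
    0 ≤ Band.midBracket Band.midExitC o.I o.a o.u * 32 - 1000 * 25 := by
  have h := QEx.nonneg_on_box mexit12_check (x := (⟨o.u, 32 / 25, o.a, o.I⟩ : PtR).x)
    (PtR.InM.of_bounds (o := ⟨o.u, 32 / 25, o.a, o.I⟩) ?_ ?_ ?_ ?_)
  · obtain ⟨eu, -, va, vI, -, -, -, -, -, -, -, -⟩ := (⟨o.u, 32 / 25, o.a, o.I⟩ : PtR).vals
    simp only [xExitM, xFour, val_add, val_sub, val_mul, val_num, eu, va, vI] at h
    push_cast at h
    simp only [Band.midBracket, Band.midFour]
    linarith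
  all_goals simp only [mexit12Box, InChart] <;> norm_num <;> (try constructor) <;> linarith

/-- The piece 12 holds on its box. -/
theorem mpiece12_holds {o : PtR} (m : o.InM mbox12) :
    mpiece12.AllHoldM true bandSmall o where
  forms :=
    { forms := fun q h k =>
        match q, h, k with
        | .g, false, .lo => QEx.nonneg_on_box (List.all_eq_true.1 m12_group0 (mpiece12.checkM true .g false .lo) (by simp)) m
        | .g, false, .hi => QEx.nonneg_on_box (List.all_eq_true.1 m12_group0 (mpiece12.checkM true .g false .hi) (by simp)) m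
        | .g, false, .mid => QEx.nonneg_on_box (List.all_eq_true.1 m12_group0 (mpiece12.checkM true .g false .mid) (by simp)) m
        | .g, true, .lo => QEx.nonneg_on_box (List.all_eq_true.1 m12_group0 (mpiece12.checkM true .g true .lo) (by simp)) m
        | .g, true, .hi => QEx.nonneg_on_box (List.all_eq_true.1 m12_group0 (mpiece12.checkM true .g true .hi) (by simp)) m
        | .g, true, .mid => QEx.nonneg_on_box (List.all_eq_true.1 m12_group0 (mpiece12.checkM true .g true .mid) (by simp)) m
        | .n, false, .lo => QEx.nonneg_on_box (List.all_eq_true.1 m12_group1 (mpiece12.checkM true .n false .lo) (by simp)) m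
        | .n, false, .hi => QEx.nonneg_on_box (List.all_eq_true.1 m12_group1 (mpiece12.checkM true .n false .hi) (by simp)) m
        | .n, false, .mid => QEx.nonneg_on_box (List.all_eq_true.1 m12_group1 (mpiece12.checkM true .n false .mid) (by simp)) m
        | .n, true, .lo => QEx.nonneg_on_box (List.all_eq_true.1 m12_group1 (mpiece12.checkM true .n true .lo) (by simp)) m
        | .n, true, .hi => QEx.nonneg_on_box (List.all_eq_true.1 m12_group1 (mpiece12.checkM true .n true .hi) (by simp)) m
        | .n, true, .mid => QEx.nonneg_on_box (List.all_eq_true.1 m12_group1 (mpiece12.checkM true .n true .mid) (by simp)) m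
        | .tlo, false, .lo => QEx.nonneg_on_box (List.all_eq_true.1 m12_group2 (mpiece12.checkM true .tlo false .lo) (by simp)) m
        | .tlo, false, .hi => QEx.nonneg_on_box (List.all_eq_true.1 m12_group2 (mpiece12.checkM true .tlo false .hi) (by simp)) m
        | .tlo, false, .mid => QEx.nonneg_on_box (List.all_eq_true.1 m12_group2 (mpiece12.checkM true .tlo false .mid) (by simp)) m
        | .tlo, true, .lo => QEx.nonneg_on_box (List.all_eq_true.1 m12_group2 (mpiece12.checkM true .tlo true .lo) (by simp)) m
        | .tlo, true, .hi => QEx.nonneg_on_box (List.all_eq_true.1 m12_group2 (mpiece12.checkM true .tlo true .hi) (by simp)) m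
        | .tlo, true, .mid => QEx.nonneg_on_box (List.all_eq_true.1 m12_group2 (mpiece12.checkM true .tlo true .mid) (by simp)) m
        | .thi, false, .lo => QEx.nonneg_on_box (List.all_eq_true.1 m12_group2 (mpiece12.checkM true .thi false .lo) (by simp)) m
        | .thi, false, .hi => QEx.nonneg_on_box (List.all_eq_true.1 m12_group2 (mpiece12.checkM true .thi false .hi) (by simp)) m
        | .thi, false, .mid => QEx.nonneg_on_box (List.all_eq_true.1 m12_group2 (mpiece12.checkM true .thi false .mid) (by simp)) m
        | .thi, true, .lo => QEx.nonneg_on_box (List.all_eq_true.1 m12_group2 (mpiece12.checkM true .thi true .lo) (by simp)) m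
        | .thi, true, .hi => QEx.nonneg_on_box (List.all_eq_true.1 m12_group2 (mpiece12.checkM true .thi true .hi) (by simp)) m
        | .thi, true, .mid => QEx.nonneg_on_box (List.all_eq_true.1 m12_group2 (mpiece12.checkM true .thi true .mid) (by simp)) m
        | .mlo, false, .lo => QEx.nonneg_on_box (List.all_eq_true.1 m12_group3 (mpiece12.checkM true .mlo false .lo) (by simp)) m
        | .mlo, false, .hi => QEx.nonneg_on_box (List.all_eq_true.1 m12_group3 (mpiece12.checkM true .mlo false .hi) (by simp)) m
        | .mlo, false, .mid => QEx.nonneg_on_box (List.all_eq_true.1 m12_group3 (mpiece12.checkM true .mlo false .mid) (by simp)) m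
        | .mlo, true, .lo => QEx.nonneg_on_box (List.all_eq_true.1 m12_group3 (mpiece12.checkM true .mlo false .lo) (by simp)) m
        | .mlo, true, .hi => QEx.nonneg_on_box (List.all_eq_true.1 m12_group3 (mpiece12.checkM true .mlo false .hi) (by simp)) m
        | .mlo, true, .mid => QEx.nonneg_on_box (List.all_eq_true.1 m12_group3 (mpiece12.checkM true .mlo false .mid) (by simp)) m
        | .mhi, false, .lo => QEx.nonneg_on_box (List.all_eq_true.1 m12_group3 (mpiece12.checkM true .mhi false .lo) (by simp)) m
        | .mhi, false, .hi => QEx.nonneg_on_box (List.all_eq_true.1 m12_group3 (mpiece12.checkM true .mhi false .hi) (by simp)) m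
        | .mhi, false, .mid => QEx.nonneg_on_box (List.all_eq_true.1 m12_group3 (mpiece12.checkM true .mhi false .mid) (by simp)) m
        | .mhi, true, .lo => QEx.nonneg_on_box (List.all_eq_true.1 m12_group3 (mpiece12.checkM true .mhi false .lo) (by simp)) m
        | .mhi, true, .hi => QEx.nonneg_on_box (List.all_eq_true.1 m12_group3 (mpiece12.checkM true .mhi false .hi) (by simp)) m
        | .mhi, true, .mid => QEx.nonneg_on_box (List.all_eq_true.1 m12_group3 (mpiece12.checkM true .mhi false .mid) (by simp)) m
        | .f, false, .lo => QEx.nonneg_on_box (List.all_eq_true.1 m12_group4 (mpiece12.checkM true .f false .lo) (by simp)) m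
        | .f, false, .hi => QEx.nonneg_on_box (List.all_eq_true.1 m12_group5 (mpiece12.checkM true .f false .hi) (by simp)) m
        | .f, false, .mid => QEx.nonneg_on_box (List.all_eq_true.1 m12_group6 (mpiece12.checkM true .f false .mid) (by simp)) m
        | .f, true, .lo => QEx.nonneg_on_box (List.all_eq_true.1 m12_group7 (mpiece12.checkM true .f true .lo) (by simp)) m
        | .f, true, .hi => QEx.nonneg_on_box (List.all_eq_true.1 m12_group8 (mpiece12.checkM true .f true .hi) (by simp)) m
        | .f, true, .mid => QEx.nonneg_on_box (List.all_eq_true.1 m12_group9 (mpiece12.checkM true .f true .mid) (by simp)) m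
      side := fun e =>
        match e with
        | .rA => QEx.nonneg_on_box (List.all_eq_true.1 m12_group19 (mpiece12.side .rA) (by simp)) m
        | .rB => QEx.nonneg_on_box (List.all_eq_true.1 m12_group19 (mpiece12.side .rB) (by simp)) m
        | .rF => QEx.nonneg_on_box (List.all_eq_true.1 m12_group20 (mpiece12.side .rF) (by simp)) m
        | .q => QEx.nonneg_on_box (List.all_eq_true.1 m12_group21 (mpiece12.side .q) (by simp)) m
        | .om => QEx.nonneg_on_box (List.all_eq_true.1 m12_group22 (mpiece12.side .om) (by simp)) m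
      nums := by decide }
  env :=
    { lo := fun e =>
        match e with
        | .piL => QEx.nonneg_on_box (List.all_eq_true.1 m12_group10 (mpiece12.env bandSmall.lo bandSmall.hi bandSmall.pole .piL) (by simp)) m
        | .piU => QEx.nonneg_on_box (List.all_eq_true.1 m12_group10 (mpiece12.env bandSmall.lo bandSmall.hi bandSmall.pole .piU) (by simp)) m
        | .omL => QEx.nonneg_on_box (List.all_eq_true.1 m12_group12 (mpiece12.env bandSmall.lo bandSmall.hi bandSmall.pole .omL) (by simp)) m
        | .omU => QEx.nonneg_on_box (List.all_eq_true.1 m12_group12 (mpiece12.env bandSmall.lo bandSmall.hi bandSmall.pole .omU) (by simp)) m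
        | .tauL => QEx.nonneg_on_box (List.all_eq_true.1 m12_group14 (mpiece12.env bandSmall.lo bandSmall.hi bandSmall.pole .tauL) (by simp)) m
        | .tauU => QEx.nonneg_on_box (List.all_eq_true.1 m12_group15 (mpiece12.env bandSmall.lo bandSmall.hi bandSmall.pole .tauU) (by simp)) m
      hi := fun e =>
        match e with
        | .piL => QEx.nonneg_on_box (List.all_eq_true.1 m12_group11 (mpiece12.env bandSmall.hi bandSmall.hi bandSmall.pole .piL) (by simp)) m
        | .piU => QEx.nonneg_on_box (List.all_eq_true.1 m12_group11 (mpiece12.env bandSmall.hi bandSmall.hi bandSmall.pole .piU) (by simp)) m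
        | .omL => QEx.nonneg_on_box (List.all_eq_true.1 m12_group13 (mpiece12.env bandSmall.hi bandSmall.hi bandSmall.pole .omL) (by simp)) m
        | .omU => QEx.nonneg_on_box (List.all_eq_true.1 m12_group13 (mpiece12.env bandSmall.hi bandSmall.hi bandSmall.pole .omU) (by simp)) m
        | .tauL => QEx.nonneg_on_box (List.all_eq_true.1 m12_group14 (mpiece12.env bandSmall.hi bandSmall.hi bandSmall.pole .tauL) (by simp)) m
        | .tauU => QEx.nonneg_on_box (List.all_eq_true.1 m12_group14 (mpiece12.env bandSmall.hi bandSmall.hi bandSmall.pole .tauU) (by simp)) m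
      wid := QEx.nonneg_on_box (List.all_eq_true.1 m12_group18 (mpiece12.wid - qD 1) (by simp)) m }
  rayLo := QEx.nonneg_on_box (List.all_eq_true.1 m12_group16 (xLLGM true bandSmall.lo bandSmall.pole) (by simp)) m
  rayHi := QEx.nonneg_on_box (List.all_eq_true.1 m12_group17 (xLLGM true bandSmall.hi bandSmall.pole) (by simp)) m

/-- The split check. -/
theorem m13_tlo_false_hi_all {o : PtR} (m : o.InM mbox13) :
    0 ≤ (mpiece13.checkM true .tlo false .hi).val o.x := by
  obtain ⟨hu, hX, ha, hI⟩ := m.bounds
  simp only [mbox13] at hu hX ha hI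
  norm_num at hu hX ha hI
  rcases le_total (o.X) (161 / 100 : ℝ) with h0 | h0
  ·
    refine QEx.nonneg_on_box m13_tlo_false_hi_0 (PtR.InM.of_bounds ?_ ?_ ?_ ?_) <;>
      simp only [mbox13_tlo_false_hi_0, InChart] <;> norm_num <;> (try constructor) <;> linarith
  ·
    refine QEx.nonneg_on_box m13_tlo_false_hi_1 (PtR.InM.of_bounds ?_ ?_ ?_ ?_) <;>
      simp only [mbox13_tlo_false_hi_1, InChart] <;> norm_num <;> (try constructor) <;> linarith

/-- The split check. -/
theorem m13_tlo_true_hi_all {o : PtR} (m : o.InM mbox13) :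
    0 ≤ (mpiece13.checkM true .tlo true .hi).val o.x := by
  obtain ⟨hu, hX, ha, hI⟩ := m.bounds
  simp only [mbox13] at hu hX ha hI
  norm_num at hu hX ha hI
  rcases le_total (o.X) (161 / 100 : ℝ) with h0 | h0
  ·
    refine QEx.nonneg_on_box m13_tlo_true_hi_0 (PtR.InM.of_bounds ?_ ?_ ?_ ?_) <;>
      simp only [mbox13_tlo_true_hi_0, InChart] <;> norm_num <;> (try constructor) <;> linarith
  ·
    refine QEx.nonneg_on_box m13_tlo_true_hi_1 (PtR.InM.of_bounds ?_ ?_ ?_ ?_) <;>
      simp only [mbox13_tlo_true_hi_1, InChart] <;> norm_num <;> (try constructor) <;> linarith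

/-- The split check. -/
theorem m13_piU_hi_all {o : PtR} (m : o.InM mbox13) :
    0 ≤ (mpiece13.env (bandMid Band.midLowC Band.midUpC).hi (bandMid Band.midLowC Band.midUpC).hi (bandMid Band.midLowC Band.midUpC).pole .piU).val o.x := by
  obtain ⟨hu, hX, ha, hI⟩ := m.bounds
  simp only [mbox13] at hu hX ha hI
  norm_num at hu hX ha hI
  rcases le_total (o.u) (9 / 25 : ℝ) with h0 | h0
  ·
    refine QEx.nonneg_on_box m13_piU_hi_0 (PtR.InM.of_bounds ?_ ?_ ?_ ?_) <;>
      simp only [mbox13_piU_hi_0, InChart] <;> norm_num <;> (try constructor) <;> linarith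
  ·
    refine QEx.nonneg_on_box m13_piU_hi_1 (PtR.InM.of_bounds ?_ ?_ ?_ ?_) <;>
      simp only [mbox13_piU_hi_1, InChart] <;> norm_num <;> (try constructor) <;> linarith

/-- The split check. -/
theorem m13_omL_lo_all {o : PtR} (m : o.InM mbox13) :
    0 ≤ (mpiece13.env (bandMid Band.midLowC Band.midUpC).lo (bandMid Band.midLowC Band.midUpC).hi (bandMid Band.midLowC Band.midUpC).pole .omL).val o.x := by
  obtain ⟨hu, hX, ha, hI⟩ := m.bounds
  simp only [mbox13] at hu hX ha hI
  norm_num at hu hX ha hI
  rcases le_total (o.u) (9 / 25 : ℝ) with h0 | h0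
  ·
    rcases le_total (o.u) (6 / 25 : ℝ) with h1 | h1
    ·
      refine QEx.nonneg_on_box m13_omL_lo_0 (PtR.InM.of_bounds ?_ ?_ ?_ ?_) <;>
        simp only [mbox13_omL_lo_0, InChart] <;> norm_num <;> (try constructor) <;> linarith
    ·
      refine QEx.nonneg_on_box m13_omL_lo_1 (PtR.InM.of_bounds ?_ ?_ ?_ ?_) <;>
        simp only [mbox13_omL_lo_1, InChart] <;> norm_num <;> (try constructor) <;> linarith
  ·
    refine QEx.nonneg_on_box m13_omL_lo_2 (PtR.InM.of_bounds ?_ ?_ ?_ ?_) <;>
      simp only [mbox13_omL_lo_2, InChart] <;> norm_num <;> (try constructor) <;> linarith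

/-- The split check. -/
theorem m13_omU_lo_all {o : PtR} (m : o.InM mbox13) :
    0 ≤ (mpiece13.env (bandMid Band.midLowC Band.midUpC).lo (bandMid Band.midLowC Band.midUpC).hi (bandMid Band.midLowC Band.midUpC).pole .omU).val o.x := by
  obtain ⟨hu, hX, ha, hI⟩ := m.bounds
  simp only [mbox13] at hu hX ha hI
  norm_num at hu hX ha hI
  rcases le_total (o.u) (9 / 25 : ℝ) with h0 | h0
  ·
    refine QEx.nonneg_on_box m13_omU_lo_0 (PtR.InM.of_bounds ?_ ?_ ?_ ?_) <;>
      simp only [mbox13_omU_lo_0, InChart] <;> norm_num <;> (try constructor) <;> linarith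
  ·
    refine QEx.nonneg_on_box m13_omU_lo_1 (PtR.InM.of_bounds ?_ ?_ ?_ ?_) <;>
      simp only [mbox13_omU_lo_1, InChart] <;> norm_num <;> (try constructor) <;> linarith

/-- The split check. -/
theorem m13_omU_hi_all {o : PtR} (m : o.InM mbox13) :
    0 ≤ (mpiece13.env (bandMid Band.midLowC Band.midUpC).hi (bandMid Band.midLowC Band.midUpC).hi (bandMid Band.midLowC Band.midUpC).pole .omU).val o.x := by
  obtain ⟨hu, hX, ha, hI⟩ := m.bounds
  simp only [mbox13] at hu hX ha hI
  norm_num at hu hX ha hI
  rcases le_total (o.u) (9 / 25 : ℝ) with h0 | h0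
  ·
    rcases le_total (o.X) (161 / 100 : ℝ) with h1 | h1
    ·
      rcases le_total (o.u) (6 / 25 : ℝ) with h2 | h2
      ·
        refine QEx.nonneg_on_box m13_omU_hi_0 (PtR.InM.of_bounds ?_ ?_ ?_ ?_) <;>
          simp only [mbox13_omU_hi_0, InChart] <;> norm_num <;> (try constructor) <;> linarith
      ·
        rcases le_total (o.u) (3 / 10 : ℝ) with h3 | h3
        ·
          refine QEx.nonneg_on_box m13_omU_hi_1 (PtR.InM.of_bounds ?_ ?_ ?_ ?_) <;>
            simp only [mbox13_omU_hi_1, InChart] <;> norm_num <;> (try constructor) <;> linarith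
        ·
          refine QEx.nonneg_on_box m13_omU_hi_2 (PtR.InM.of_bounds ?_ ?_ ?_ ?_) <;>
            simp only [mbox13_omU_hi_2, InChart] <;> norm_num <;> (try constructor) <;> linarith
    ·
      refine QEx.nonneg_on_box m13_omU_hi_3 (PtR.InM.of_bounds ?_ ?_ ?_ ?_) <;>
        simp only [mbox13_omU_hi_3, InChart] <;> norm_num <;> (try constructor) <;> linarith
  ·
    refine QEx.nonneg_on_box m13_omU_hi_4 (PtR.InM.of_bounds ?_ ?_ ?_ ?_) <;>
      simp only [mbox13_omU_hi_4, InChart] <;> norm_num <;> (try constructor) <;> linarith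

/-- The exit curve on the box of piece 13. -/
theorem mexit13_holds {o : PtR} (h0 : 3 / 25 ≤ o.u) (h1 : o.u ≤ 3 / 5) (h2 : 119 / 400 ≤ o.a) (h3 : o.a ≤ 31 / 100)
    (h4 : 8 / 57 ≤ o.I) (h5 : o.I ≤ 1 / 7) :
    0 ≤ Band.midBracket Band.midExitC o.I o.a o.u * 58 - 1000 * 25 := by
  have h := QEx.nonneg_on_box mexit13_check (x := (⟨o.u, 58 / 25, o.a, o.I⟩ : PtR).x)
    (PtR.InM.of_bounds (o := ⟨o.u, 58 / 25, o.a, o.I⟩) ?_ ?_ ?_ ?_)
  · obtain ⟨eu, -, va, vI, -, -, -, -, -, -, -, -⟩ := (⟨o.u, 58 / 25, o.a, o.I⟩ : PtR).vals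
    simp only [xExitM, xFour, val_add, val_sub, val_mul, val_num, eu, va, vI] at h
    push_cast at h
    simp only [Band.midBracket, Band.midFour]
    linarith
  all_goals simp only [mexit13Box, InChart] <;> norm_num <;> (try constructor) <;> linarith

/-- The piece 13 holds on its box. -/
theorem mpiece13_holds {o : PtR} (m : o.InM mbox13) :
    mpiece13.AllHoldM true (bandMid Band.midLowC Band.midUpC) o where
  forms :=
    { forms := fun q h k =>
        match q, h, k with
        | .g, false, .lo => QEx.nonneg_on_box (List.all_eq_true.1 m13_group0 (mpiece13.checkM true .g false .lo) (by simp)) m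
        | .g, false, .hi => QEx.nonneg_on_box (List.all_eq_true.1 m13_group0 (mpiece13.checkM true .g false .hi) (by simp)) m
        | .g, false, .mid => QEx.nonneg_on_box (List.all_eq_true.1 m13_group0 (mpiece13.checkM true .g false .mid) (by simp)) m
        | .g, true, .lo => QEx.nonneg_on_box (List.all_eq_true.1 m13_group0 (mpiece13.checkM true .g true .lo) (by simp)) m
        | .g, true, .hi => QEx.nonneg_on_box (List.all_eq_true.1 m13_group0 (mpiece13.checkM true .g true .hi) (by simp)) m
        | .g, true, .mid => QEx.nonneg_on_box (List.all_eq_true.1 m13_group0 (mpiece13.checkM true .g true .mid) (by simp)) m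
        | .n, false, .lo => QEx.nonneg_on_box (List.all_eq_true.1 m13_group1 (mpiece13.checkM true .n false .lo) (by simp)) m
        | .n, false, .hi => QEx.nonneg_on_box (List.all_eq_true.1 m13_group1 (mpiece13.checkM true .n false .hi) (by simp)) m
        | .n, false, .mid => QEx.nonneg_on_box (List.all_eq_true.1 m13_group1 (mpiece13.checkM true .n false .mid) (by simp)) m
        | .n, true, .lo => QEx.nonneg_on_box (List.all_eq_true.1 m13_group1 (mpiece13.checkM true .n true .lo) (by simp)) m
        | .n, true, .hi => QEx.nonneg_on_box (List.all_eq_true.1 m13_group1 (mpiece13.checkM true .n true .hi) (by simp)) m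
        | .n, true, .mid => QEx.nonneg_on_box (List.all_eq_true.1 m13_group1 (mpiece13.checkM true .n true .mid) (by simp)) m
        | .tlo, false, .lo => QEx.nonneg_on_box (List.all_eq_true.1 m13_group2 (mpiece13.checkM true .tlo false .lo) (by simp)) m
        | .tlo, false, .hi => m13_tlo_false_hi_all m
        | .tlo, false, .mid => QEx.nonneg_on_box (List.all_eq_true.1 m13_group2 (mpiece13.checkM true .tlo false .mid) (by simp)) m
        | .tlo, true, .lo => QEx.nonneg_on_box (List.all_eq_true.1 m13_group2 (mpiece13.checkM true .tlo true .lo) (by simp)) m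
        | .tlo, true, .hi => m13_tlo_true_hi_all m
        | .tlo, true, .mid => QEx.nonneg_on_box (List.all_eq_true.1 m13_group2 (mpiece13.checkM true .tlo true .mid) (by simp)) m
        | .thi, false, .lo => QEx.nonneg_on_box (List.all_eq_true.1 m13_group2 (mpiece13.checkM true .thi false .lo) (by simp)) m
        | .thi, false, .hi => QEx.nonneg_on_box (List.all_eq_true.1 m13_group2 (mpiece13.checkM true .thi false .hi) (by simp)) m
        | .thi, false, .mid => QEx.nonneg_on_box (List.all_eq_true.1 m13_group2 (mpiece13.checkM true .thi false .mid) (by simp)) m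
        | .thi, true, .lo => QEx.nonneg_on_box (List.all_eq_true.1 m13_group2 (mpiece13.checkM true .thi true .lo) (by simp)) m
        | .thi, true, .hi => QEx.nonneg_on_box (List.all_eq_true.1 m13_group2 (mpiece13.checkM true .thi true .hi) (by simp)) m
        | .thi, true, .mid => QEx.nonneg_on_box (List.all_eq_true.1 m13_group2 (mpiece13.checkM true .thi true .mid) (by simp)) m
        | .mlo, false, .lo => QEx.nonneg_on_box (List.all_eq_true.1 m13_group5 (mpiece13.checkM true .mlo false .lo) (by simp)) m
        | .mlo, false, .hi => QEx.nonneg_on_box (List.all_eq_true.1 m13_group5 (mpiece13.checkM true .mlo false .hi) (by simp)) m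
        | .mlo, false, .mid => QEx.nonneg_on_box (List.all_eq_true.1 m13_group5 (mpiece13.checkM true .mlo false .mid) (by simp)) m
        | .mlo, true, .lo => QEx.nonneg_on_box (List.all_eq_true.1 m13_group5 (mpiece13.checkM true .mlo false .lo) (by simp)) m
        | .mlo, true, .hi => QEx.nonneg_on_box (List.all_eq_true.1 m13_group5 (mpiece13.checkM true .mlo false .hi) (by simp)) m
        | .mlo, true, .mid => QEx.nonneg_on_box (List.all_eq_true.1 m13_group5 (mpiece13.checkM true .mlo false .mid) (by simp)) m
        | .mhi, false, .lo => QEx.nonneg_on_box (List.all_eq_true.1 m13_group5 (mpiece13.checkM true .mhi false .lo) (by simp)) m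
        | .mhi, false, .hi => QEx.nonneg_on_box (List.all_eq_true.1 m13_group5 (mpiece13.checkM true .mhi false .hi) (by simp)) m
        | .mhi, false, .mid => QEx.nonneg_on_box (List.all_eq_true.1 m13_group5 (mpiece13.checkM true .mhi false .mid) (by simp)) m
        | .mhi, true, .lo => QEx.nonneg_on_box (List.all_eq_true.1 m13_group5 (mpiece13.checkM true .mhi false .lo) (by simp)) m
        | .mhi, true, .hi => QEx.nonneg_on_box (List.all_eq_true.1 m13_group5 (mpiece13.checkM true .mhi false .hi) (by simp)) m
        | .mhi, true, .mid => QEx.nonneg_on_box (List.all_eq_true.1 m13_group5 (mpiece13.checkM true .mhi false .mid) (by simp)) m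
        | .f, false, .lo => QEx.nonneg_on_box (List.all_eq_true.1 m13_group6 (mpiece13.checkM true .f false .lo) (by simp)) m
        | .f, false, .hi => QEx.nonneg_on_box (List.all_eq_true.1 m13_group7 (mpiece13.checkM true .f false .hi) (by simp)) m
        | .f, false, .mid => QEx.nonneg_on_box (List.all_eq_true.1 m13_group8 (mpiece13.checkM true .f false .mid) (by simp)) m
        | .f, true, .lo => QEx.nonneg_on_box (List.all_eq_true.1 m13_group9 (mpiece13.checkM true .f true .lo) (by simp)) m
        | .f, true, .hi => QEx.nonneg_on_box (List.all_eq_true.1 m13_group10 (mpiece13.checkM true .f true .hi) (by simp)) m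
        | .f, true, .mid => QEx.nonneg_on_box (List.all_eq_true.1 m13_group11 (mpiece13.checkM true .f true .mid) (by simp)) m
      side := fun e =>
        match e with
        | .rA => QEx.nonneg_on_box (List.all_eq_true.1 m13_group21 (mpiece13.side .rA) (by simp)) m
        | .rB => QEx.nonneg_on_box (List.all_eq_true.1 m13_group21 (mpiece13.side .rB) (by simp)) m
        | .rF => QEx.nonneg_on_box (List.all_eq_true.1 m13_group22 (mpiece13.side .rF) (by simp)) m
        | .q => QEx.nonneg_on_box (List.all_eq_true.1 m13_group23 (mpiece13.side .q) (by simp)) m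
        | .om => QEx.nonneg_on_box (List.all_eq_true.1 m13_group24 (mpiece13.side .om) (by simp)) m
      nums := by decide }
  env :=
    { lo := fun e =>
        match e with
        | .piL => QEx.nonneg_on_box (List.all_eq_true.1 m13_group12 (mpiece13.env (bandMid Band.midLowC Band.midUpC).lo (bandMid Band.midLowC Band.midUpC).hi (bandMid Band.midLowC Band.midUpC).pole .piL) (by simp)) m
        | .piU => QEx.nonneg_on_box (List.all_eq_true.1 m13_group12 (mpiece13.env (bandMid Band.midLowC Band.midUpC).lo (bandMid Band.midLowC Band.midUpC).hi (bandMid Band.midLowC Band.midUpC).pole .piU) (by simp)) m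
        | .omL => m13_omL_lo_all m
        | .omU => m13_omU_lo_all m
        | .tauL => QEx.nonneg_on_box (List.all_eq_true.1 m13_group18 (mpiece13.env (bandMid Band.midLowC Band.midUpC).lo (bandMid Band.midLowC Band.midUpC).hi (bandMid Band.midLowC Band.midUpC).pole .tauL) (by simp)) m
        | .tauU => QEx.nonneg_on_box (List.all_eq_true.1 m13_group18 (mpiece13.env (bandMid Band.midLowC Band.midUpC).lo (bandMid Band.midLowC Band.midUpC).hi (bandMid Band.midLowC Band.midUpC).pole .tauU) (by simp)) m
      hi := fun e =>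
        match e with
        | .piL => QEx.nonneg_on_box (List.all_eq_true.1 m13_group12 (mpiece13.env (bandMid Band.midLowC Band.midUpC).hi (bandMid Band.midLowC Band.midUpC).hi (bandMid Band.midLowC Band.midUpC).pole .piL) (by simp)) m
        | .piU => m13_piU_hi_all m
        | .omL => QEx.nonneg_on_box (List.all_eq_true.1 m13_group15 (mpiece13.env (bandMid Band.midLowC Band.midUpC).hi (bandMid Band.midLowC Band.midUpC).hi (bandMid Band.midLowC Band.midUpC).pole .omL) (by simp)) m
        | .omU => m13_omU_hi_all m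
        | .tauL => QEx.nonneg_on_box (List.all_eq_true.1 m13_group18 (mpiece13.env (bandMid Band.midLowC Band.midUpC).hi (bandMid Band.midLowC Band.midUpC).hi (bandMid Band.midLowC Band.midUpC).pole .tauL) (by simp)) m
        | .tauU => QEx.nonneg_on_box (List.all_eq_true.1 m13_group18 (mpiece13.env (bandMid Band.midLowC Band.midUpC).hi (bandMid Band.midLowC Band.midUpC).hi (bandMid Band.midLowC Band.midUpC).pole .tauU) (by simp)) m
      wid := QEx.nonneg_on_box (List.all_eq_true.1 m13_group20 (mpiece13.wid - qD 1) (by simp)) m }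
  rayLo := QEx.nonneg_on_box (List.all_eq_true.1 m13_group19 (xLLGM true (bandMid Band.midLowC Band.midUpC).lo (bandMid Band.midLowC Band.midUpC).pole) (by simp)) m
  rayHi := QEx.nonneg_on_box (List.all_eq_true.1 m13_group19 (xLLGM true (bandMid Band.midLowC Band.midUpC).hi (bandMid Band.midLowC Band.midUpC).pole) (by simp)) m

end Vale.Agent.P100.Calib.Closed.All.Low
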