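import Vale.Agent.P100.Calib.SlabMidSignsPieces

/-!
# Checks of the piece 8
-/

set_option linter.defProp false

namespace Vale.Agent.P100.Calib.Closed.All.Low

/-- Checks of the piece 8. -/
def m8_group0 :
    ([mpiece8.checkM false .g false .lo,
      mpiece8.checkM false .g false .hi,
      mpiece8.checkM false .g false .mid,
      mpiece8.checkM false .g true .lo,
      mpiece8.checkM false .g true .hi,
      mpiece8.checkM false .g true .mid] : List QEx).all (fun q => checkShift mbox8 607 2 7 14 26 q.e) = true := by
  decide +kernel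

/-- Checks of the piece 8. -/
def m8_group1 :
    ([mpiece8.checkM false .n false .lo,
      mpiece8.checkM false .n false .hi,
      mpiece8.checkM false .n false .mid,
      mpiece8.checkM false .n true .lo,
      mpiece8.checkM false .n true .hi,
      mpiece8.checkM false .n true .mid] : List QEx).all (fun q => checkShift mbox8 742 4 8 18 31 q.e) = true := by
  decide +kernel

/-- Checks of the piece 8. -/
def m8_group2 :
    ([mpiece8.checkM false .tlo false .lo,
      mpiece8.checkM false .tlo false .hi,
      mpiece8.checkM false .tlo false .mid,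
      mpiece8.checkM false .tlo true .lo,
      mpiece8.checkM false .tlo true .hi,
      mpiece8.checkM false .tlo true .mid,
      mpiece8.checkM false .thi false .lo,
      mpiece8.checkM false .thi false .hi,
      mpiece8.checkM false .thi false .mid,
      mpiece8.checkM false .thi true .lo,
      mpiece8.checkM false .thi true .hi,
      mpiece8.checkM false .thi true .mid] : List QEx).all (fun q => checkShift mbox8 707 3 9 16 29 q.e) = true := by
  decide +kernel

/-- Checks of the piece 8. -/
def m8_group3 :
    ([mpiece8.checkM false .mlo false .lo,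
      mpiece8.checkM false .mlo false .hi,
      mpiece8.checkM false .mlo false .mid,
      mpiece8.checkM false .mhi false .lo,
      mpiece8.checkM false .mhi false .hi,
      mpiece8.checkM false .mhi false .mid] : List QEx).all (fun q => checkShift mbox8 489 4 5 10 18 q.e) = true := by
  decide +kernel

/-- Checks of the piece 8. -/
def m8_group4 :
    ([mpiece8.checkM false .f false .lo] : List QEx).all (fun q => checkShift mbox8 813 5 11 18 33 q.e) = true := by
  decide +kernel

/-- Checks of the piece 8. -/
def m8_group5 :
    ([mpiece8.checkM false .f false .hi] : List QEx).all (fun q => checkShift mbox8 813 5 11 18 33 q.e) = true := by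
  decide +kernel

/-- Checks of the piece 8. -/
def m8_group6 :
    ([mpiece8.checkM false .f false .mid] : List QEx).all (fun q => checkShift mbox8 835 5 11 18 33 q.e) = true := by
  decide +kernel

/-- Checks of the piece 8. -/
def m8_group7 :
    ([mpiece8.checkM false .f true .lo] : List QEx).all (fun q => checkShift mbox8 813 5 11 18 33 q.e) = true := by
  decide +kernel

/-- Checks of the piece 8. -/
def m8_group8 :
    ([mpiece8.checkM false .f true .hi] : List QEx).all (fun q => checkShift mbox8 813 5 11 18 33 q.e) = true := by
  decide +kernel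

/-- Checks of the piece 8. -/
def m8_group9 :
    ([mpiece8.checkM false .f true .mid] : List QEx).all (fun q => checkShift mbox8 835 5 11 18 33 q.e) = true := by
  decide +kernel

/-- A check of the piece 8. -/
def m8_piL_lo_0 :
    checkShift mbox8_piL_lo_0 257 5 2 4 7 (mpiece8.env (bandMid Band.midLowC Band.midUpC).lo (bandMid Band.midLowC Band.midUpC).hi (bandMid Band.midLowC Band.midUpC).pole .piL).e = true := by
  decide +kernel

/-- A check of the piece 8. -/
def m8_piL_lo_1 :
    checkShift mbox8_piL_lo_1 257 5 2 4 7 (mpiece8.env (bandMid Band.midLowC Band.midUpC).lo (bandMid Band.midLowC Band.midUpC).hi (bandMid Band.midLowC Band.midUpC).pole .piL).e = true := by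
  decide +kernel

/-- A check of the piece 8. -/
def m8_piL_lo_2 :
    checkShift mbox8_piL_lo_2 257 5 2 4 7 (mpiece8.env (bandMid Band.midLowC Band.midUpC).lo (bandMid Band.midLowC Band.midUpC).hi (bandMid Band.midLowC Band.midUpC).pole .piL).e = true := by
  decide +kernel

/-- A check of the piece 8. -/
def m8_piL_lo_3 :
    checkShift mbox8_piL_lo_3 257 5 2 4 7 (mpiece8.env (bandMid Band.midLowC Band.midUpC).lo (bandMid Band.midLowC Band.midUpC).hi (bandMid Band.midLowC Band.midUpC).pole .piL).e = true := by
  decide +kernel

/-- Checks of the piece 8. -/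
def m8_group11 :
    ([mpiece8.env (bandMid Band.midLowC Band.midUpC).hi (bandMid Band.midLowC Band.midUpC).hi (bandMid Band.midLowC Band.midUpC).pole .piL,
      mpiece8.env (bandMid Band.midLowC Band.midUpC).lo (bandMid Band.midLowC Band.midUpC).hi (bandMid Band.midLowC Band.midUpC).pole .piU] : List QEx).all (fun q => checkShift mbox8 215 5 2 4 7 q.e) = true := by
  decide +kernel

/-- A check of the piece 8. -/
def m8_piU_hi_0 :
    checkShift mbox8_piU_hi_0 269 5 2 4 7 (mpiece8.env (bandMid Band.midLowC Band.midUpC).hi (bandMid Band.midLowC Band.midUpC).hi (bandMid Band.midLowC Band.midUpC).pole .piU).e = true := by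
  decide +kernel

/-- A check of the piece 8. -/
def m8_piU_hi_1 :
    checkShift mbox8_piU_hi_1 269 5 2 4 7 (mpiece8.env (bandMid Band.midLowC Band.midUpC).hi (bandMid Band.midLowC Band.midUpC).hi (bandMid Band.midLowC Band.midUpC).pole .piU).e = true := by
  decide +kernel

/-- A check of the piece 8. -/
def m8_piU_hi_2 :
    checkShift mbox8_piU_hi_2 269 5 2 4 7 (mpiece8.env (bandMid Band.midLowC Band.midUpC).hi (bandMid Band.midLowC Band.midUpC).hi (bandMid Band.midLowC Band.midUpC).pole .piU).e = true := by
  decide +kernel

/-- A check of the piece 8. -/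
def m8_piU_hi_3 :
    checkShift mbox8_piU_hi_3 269 5 2 4 7 (mpiece8.env (bandMid Band.midLowC Band.midUpC).hi (bandMid Band.midLowC Band.midUpC).hi (bandMid Band.midLowC Band.midUpC).pole .piU).e = true := by
  decide +kernel

/-- A check of the piece 8. -/
def m8_piU_hi_4 :
    checkShift mbox8_piU_hi_4 269 5 2 4 7 (mpiece8.env (bandMid Band.midLowC Band.midUpC).hi (bandMid Band.midLowC Band.midUpC).hi (bandMid Band.midLowC Band.midUpC).pole .piU).e = true := by
  decide +kernel

/-- Checks of the piece 8. -/
def m8_group13 :
    ([mpiece8.env (bandMid Band.midLowC Band.midUpC).lo (bandMid Band.midLowC Band.midUpC).hi (bandMid Band.midLowC Band.midUpC).pole .omL,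
      mpiece8.env (bandMid Band.midLowC Band.midUpC).hi (bandMid Band.midLowC Band.midUpC).hi (bandMid Band.midLowC Band.midUpC).pole .omL] : List QEx).all (fun q => checkShift mbox8 355 7 4 7 11 q.e) = true := by
  decide +kernel

/-- A check of the piece 8. -/
def m8_omU_lo_0 :
    checkShift mbox8_omU_lo_0 409 7 4 7 11 (mpiece8.env (bandMid Band.midLowC Band.midUpC).lo (bandMid Band.midLowC Band.midUpC).hi (bandMid Band.midLowC Band.midUpC).pole .omU).e = true := by
  decide +kernel

/-- A check of the piece 8. -/
def m8_omU_lo_1 :
    checkShift mbox8_omU_lo_1 409 7 4 7 11 (mpiece8.env (bandMid Band.midLowC Band.midUpC).lo (bandMid Band.midLowC Band.midUpC).hi (bandMid Band.midLowC Band.midUpC).pole .omU).e = true := by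
  decide +kernel

/-- A check of the piece 8. -/
def m8_omU_lo_2 :
    checkShift mbox8_omU_lo_2 409 7 4 7 11 (mpiece8.env (bandMid Band.midLowC Band.midUpC).lo (bandMid Band.midLowC Band.midUpC).hi (bandMid Band.midLowC Band.midUpC).pole .omU).e = true := by
  decide +kernel

/-- A check of the piece 8. -/
def m8_omU_lo_3 :
    checkShift mbox8_omU_lo_3 409 7 4 7 11 (mpiece8.env (bandMid Band.midLowC Band.midUpC).lo (bandMid Band.midLowC Band.midUpC).hi (bandMid Band.midLowC Band.midUpC).pole .omU).e = true := by
  decide +kernel

/-- A check of the piece 8. -/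
def m8_omU_lo_4 :
    checkShift mbox8_omU_lo_4 409 7 4 7 11 (mpiece8.env (bandMid Band.midLowC Band.midUpC).lo (bandMid Band.midLowC Band.midUpC).hi (bandMid Band.midLowC Band.midUpC).pole .omU).e = true := by
  decide +kernel

/-- A check of the piece 8. -/
def m8_omU_lo_5 :
    checkShift mbox8_omU_lo_5 409 7 4 7 11 (mpiece8.env (bandMid Band.midLowC Band.midUpC).lo (bandMid Band.midLowC Band.midUpC).hi (bandMid Band.midLowC Band.midUpC).pole .omU).e = true := by
  decide +kernel

/-- A check of the piece 8. -/
def m8_omU_lo_6 :
    checkShift mbox8_omU_lo_6 409 7 4 7 11 (mpiece8.env (bandMid Band.midLowC Band.midUpC).lo (bandMid Band.midLowC Band.midUpC).hi (bandMid Band.midLowC Band.midUpC).pole .omU).e = true := by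
  decide +kernel

/-- A check of the piece 8. -/
def m8_omU_hi_0 :
    checkShift mbox8_omU_hi_0 409 7 4 7 11 (mpiece8.env (bandMid Band.midLowC Band.midUpC).hi (bandMid Band.midLowC Band.midUpC).hi (bandMid Band.midLowC Band.midUpC).pole .omU).e = true := by
  decide +kernel

/-- A check of the piece 8. -/
def m8_omU_hi_1 :
    checkShift mbox8_omU_hi_1 409 7 4 7 11 (mpiece8.env (bandMid Band.midLowC Band.midUpC).hi (bandMid Band.midLowC Band.midUpC).hi (bandMid Band.midLowC Band.midUpC).pole .omU).e = true := by
  decide +kernel

/-- A check of the piece 8. -/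
def m8_omU_hi_2 :
    checkShift mbox8_omU_hi_2 409 7 4 7 11 (mpiece8.env (bandMid Band.midLowC Band.midUpC).hi (bandMid Band.midLowC Band.midUpC).hi (bandMid Band.midLowC Band.midUpC).pole .omU).e = true := by
  decide +kernel

/-- A check of the piece 8. -/
def m8_omU_hi_3 :
    checkShift mbox8_omU_hi_3 409 7 4 7 11 (mpiece8.env (bandMid Band.midLowC Band.midUpC).hi (bandMid Band.midLowC Band.midUpC).hi (bandMid Band.midLowC Band.midUpC).pole .omU).e = true := by
  decide +kernel

/-- A check of the piece 8. -/
def m8_omU_hi_4 :
    checkShift mbox8_omU_hi_4 409 7 4 7 11 (mpiece8.env (bandMid Band.midLowC Band.midUpC).hi (bandMid Band.midLowC Band.midUpC).hi (bandMid Band.midLowC Band.midUpC).pole .omU).e = true := by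
  decide +kernel

/-- A check of the piece 8. -/
def m8_omU_hi_5 :
    checkShift mbox8_omU_hi_5 409 7 4 7 11 (mpiece8.env (bandMid Band.midLowC Band.midUpC).hi (bandMid Band.midLowC Band.midUpC).hi (bandMid Band.midLowC Band.midUpC).pole .omU).e = true := by
  decide +kernel

/-- A check of the piece 8. -/
def m8_omU_hi_6 :
    checkShift mbox8_omU_hi_6 409 7 4 7 11 (mpiece8.env (bandMid Band.midLowC Band.midUpC).hi (bandMid Band.midLowC Band.midUpC).hi (bandMid Band.midLowC Band.midUpC).pole .omU).e = true := by
  decide +kernel

/-- A check of the piece 8. -/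
def m8_tauL_lo_0 :
    checkShift mbox8_tauL_lo_0 426 9 4 8 12 (mpiece8.env (bandMid Band.midLowC Band.midUpC).lo (bandMid Band.midLowC Band.midUpC).hi (bandMid Band.midLowC Band.midUpC).pole .tauL).e = true := by
  decide +kernel

/-- A check of the piece 8. -/
def m8_tauL_lo_1 :
    checkShift mbox8_tauL_lo_1 426 9 4 8 12 (mpiece8.env (bandMid Band.midLowC Band.midUpC).lo (bandMid Band.midLowC Band.midUpC).hi (bandMid Band.midLowC Band.midUpC).pole .tauL).e = true := by
  decide +kernel

/-- A check of the piece 8. -/
def m8_tauL_lo_2 :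
    checkShift mbox8_tauL_lo_2 426 9 4 8 12 (mpiece8.env (bandMid Band.midLowC Band.midUpC).lo (bandMid Band.midLowC Band.midUpC).hi (bandMid Band.midLowC Band.midUpC).pole .tauL).e = true := by
  decide +kernel

/-- A check of the piece 8. -/
def m8_tauL_hi_0 :
    checkShift mbox8_tauL_hi_0 426 9 4 8 12 (mpiece8.env (bandMid Band.midLowC Band.midUpC).hi (bandMid Band.midLowC Band.midUpC).hi (bandMid Band.midLowC Band.midUpC).pole .tauL).e = true := by
  decide +kernel

/-- A check of the piece 8. -/
def m8_tauL_hi_1 :
    checkShift mbox8_tauL_hi_1 426 9 4 8 12 (mpiece8.env (bandMid Band.midLowC Band.midUpC).hi (bandMid Band.midLowC Band.midUpC).hi (bandMid Band.midLowC Band.midUpC).pole .tauL).e = true := by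
  decide +kernel

/-- A check of the piece 8. -/
def m8_tauL_hi_2 :
    checkShift mbox8_tauL_hi_2 426 9 4 8 12 (mpiece8.env (bandMid Band.midLowC Band.midUpC).hi (bandMid Band.midLowC Band.midUpC).hi (bandMid Band.midLowC Band.midUpC).pole .tauL).e = true := by
  decide +kernel

/-- Checks of the piece 8. -/
def m8_group18 :
    ([mpiece8.env (bandMid Band.midLowC Band.midUpC).lo (bandMid Band.midLowC Band.midUpC).hi (bandMid Band.midLowC Band.midUpC).pole .tauU,
      mpiece8.env (bandMid Band.midLowC Band.midUpC).hi (bandMid Band.midLowC Band.midUpC).hi (bandMid Band.midLowC Band.midUpC).pole .tauU] : List QEx).all (fun q => checkShift mbox8 396 9 4 8 12 q.e) = true := by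
  decide +kernel

/-- Checks of the piece 8. -/
def m8_group19 :
    ([xLLGM false (bandMid Band.midLowC Band.midUpC).lo (bandMid Band.midLowC Band.midUpC).pole,
      xLLGM false (bandMid Band.midLowC Band.midUpC).hi (bandMid Band.midLowC Band.midUpC).pole] : List QEx).all (fun q => checkShift mbox8 392 5 4 11 17 q.e) = true := by
  decide +kernel

/-- Checks of the piece 8. -/
def m8_group20 :
    ([mpiece8.wid - qD 1] : List QEx).all (fun q => checkShift mbox8 76 1 1 1 1 q.e) = true := by
  decide +kernel

/-- Checks of the piece 8. -/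
def m8_group21 :
    ([mpiece8.side .rA,
      mpiece8.side .rB] : List QEx).all (fun q => checkShift mbox8 42 1 1 0 0 q.e) = true := by
  decide +kernel

/-- Checks of the piece 8. -/
def m8_group22 :
    ([mpiece8.side .rF] : List QEx).all (fun q => checkShift mbox8 77 2 2 0 0 q.e) = true := by
  decide +kernel

/-- Checks of the piece 8. -/
def m8_group23 :
    ([mpiece8.side .q] : List QEx).all (fun q => checkShift mbox8 55 0 1 1 2 q.e) = true := by
  decide +kernel

/-- Checks of the piece 8. -/
def m8_group24 :
    ([mpiece8.side .om] : List QEx).all (fun q => checkShift mbox8 167 1 2 4 6 q.e) = true := by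
  decide +kernel

/-- The exit curve on the box of piece 8. -/
def mexit8_check :
    checkShift mexit8Box 80 2 0 1 1 (xExitM Band.midExitC 109 50).e = true := by
  decide +kernel

end Vale.Agent.P100.Calib.Closed.All.Low
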