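import Vale.Agent.P100.Calib.SlabMidExpr
import Vale.Agent.P100.Calib.SlabAllUpExpr

/-!
# Bands near the crossing for the dimensions from seven to twenty: numerators and packed signs

The lower band is `allLowG`; the upper one has the slope of the centre raised by
`I (I (128 a + 189 I - 75) + v (7 + 23 a - 56 I))` and a term in `u ^ 2`.
-/

namespace Vale.Agent.P100.Calib.Band.AllLow

open Pack

set_option linter.defProp false

local instance midSmallAdd : Add Pack.Ex := ⟨Ex.add⟩
local instance midSmallSub : Sub Pack.Ex := ⟨Ex.sub⟩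
local instance midSmallMul : Mul Pack.Ex := ⟨Ex.mul⟩

/-- Five times the slope of the upper band at the centre. -/
def eMidUpP : Pack.Ex :=
  eN 5 * eMA + eN 10 * eMI - eN 40 * eMI * eMA - eN 5 * eMA * (eN 1 - eMA) * eV eMI +
    eMI * (eMI * (eN (-75) + eN 128 * eMA + eN 189 * eMI) +
      eV eMI * (eN 7 + eN 23 * eMA - eN 56 * eMI))

/-- `Gn`. -/
def eMidUpN : Pack.Ex :=
  eN 5 * eS eMI * eQ eMI eMA * eW eMI eMA + eU * eJ eMI * eMidUpP +
    eN 5 * (eU * eU * eMI * (eN 2 * eMA + eN 3 * eMI))

/-- The derivative of `Gn` in `u`. -/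
def eMidUpNu : Pack.Ex :=
  eJ eMI * eMidUpP - eN 5 * eS eMI * eQ eMI eMA * eMA +
    eN 10 * (eU * eMI * (eN 2 * eMA + eN 3 * eMI))

/-- The derivative of `Gn` in `v`. -/
def eMidUpNv : Pack.Ex :=
  eGv eMI eMA + eU * eJ eMI * eMI * (eN 7 + eN 23 * eMA - eN 56 * eMI)

/-- The range conditions with multipliers. -/
def eMidRange (l m n : ℤ) : Pack.Ex :=
  eN l * eMidGuard + eN m * (eMidGuard * (.var 1 * .var 1)) + eN n * eMidFloor

/-- The flow at the lower band less a monomial and the range conditions. -/
def eMidSmallLow (l m n : ℤ) : Pack.Ex := eLowI - eMidRange l m n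

/-- The flow at the upper band less a monomial and the range conditions. -/
def eMidSmallUp (l m n : ℤ) : Pack.Ex :=
  eN (-16) * eBandNum eMidUpN eMidUpNu eMidUpNv eMI eMA - eU * eMI * eMA - eMidRange l m n

/-- The denominator at the upper band. -/
def eMidSmallUpDen : Pack.Ex := eN 4 * eBandDen eMidUpN eMI eMA - eN 1

def midSmallLow_sign0 :
    checkFour (midBox 0 151 95 396 50 143 50 180) 560 5 3 14 9 (eMidSmallLow 0 0 0) = true := by
  decide +kernel

def midSmallLow_sign1 :
    checkFour (midBox 0 151 93 626 50 143 180 245) 560 5 3 14 9 (eMidSmallLow 0 0 0) = true := by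
  decide +kernel

def midSmallLow_sign2 :
    checkFour (midBox 0 151 94 659 50 96 245 311) 560 5 3 14 9 (eMidSmallLow 0 0 0) = true := by
  decide +kernel

def midSmallLow_sign3 :
    checkFour (midBox 0 151 91 1490 96 143 245 311) 560 5 3 14 9 (eMidSmallLow 0 0 0) = true := by
  decide +kernel

def midSmallLow_den0 :
    checkFour (midBox 0 151 91 1490 50 143 50 311) 560 2 1 5 3 eDenI = true := by
  decide +kernel

def midSmallUp_sign0 :
    checkFour (midBox 0 151 91 440 50 143 50 311) 560 7 3 15 9 (eMidSmallUp 0 0 0) = true := by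
  decide +kernel

def midSmallUp_sign1 :
    checkFour (midBox 0 151 440 790 50 143 50 311) 560 7 3 15 9 (eMidSmallUp 0 0 0) = true := by
  decide +kernel

def midSmallUp_sign2 :
    checkFour (midBox 0 151 790 1490 50 143 50 311) 560 7 3 15 9 (eMidSmallUp 0 0 0) = true := by
  decide +kernel

def midSmallUp_den0 :
    checkFour (midBox 0 151 91 1490 50 143 50 311) 560 3 1 5 3 eMidSmallUpDen = true := by
  decide +kernel

end Vale.Agent.P100.Calib.Band.AllLow
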