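import Vale.Agent.P100.Calib.SlabMidSound
import Vale.Agent.P100.Calib.SlabMidSmallExpr
import Vale.Agent.P100.Calib.SlabAllUp

/-!
# Bands near the crossing for the dimensions from seven to twenty

For `0 < u ≤ 3/20` the orbit stays between `allLowG` and `midSmallUpG`, both exact at `u = 0`.
-/

open Set Filter Topology

namespace Vale.Agent.P100.Calib.Band

open Vale.Agent.P100.Bubble Chart

/-- Five times the slope of the upper band at the centre. -/
def midSmallUpP (a I v : ℝ) : ℝ :=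
  5 * a + 10 * I - 40 * I * a - 5 * a * (1 - a) * v +
    I * (I * (-75 + 128 * a + 189 * I) + v * (7 + 23 * a - 56 * I))

/-- The numerator of the band. -/
def midSmallUpN (a I b u v : ℝ) : ℝ :=
  5 * (1 - 2 * I) * (1 + (1 - a) * v) * (b - u * a) + u * (1 + 2 * I) * midSmallUpP a I v +
    5 * (u * u * I * (2 * a + 3 * I))

/-- The derivative of `midSmallUpN` in `u`. -/
def midSmallUpNu (a I u v : ℝ) : ℝ :=
  (1 + 2 * I) * midSmallUpP a I v - 5 * (1 - 2 * I) * (1 + (1 - a) * v) * a +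
    10 * (u * I * (2 * a + 3 * I))

/-- The derivative of `midSmallUpN` in `v`. -/
def midSmallUpNv (a I b u : ℝ) : ℝ :=
  allLowNv a I b u + u * (1 + 2 * I) * I * (7 + 23 * a - 56 * I)

/-- **The upper band near the crossing.** -/
noncomputable def midSmallUpG (a b u v : ℝ) : ℝ :=
  midSmallUpN a ((1 - (a + b)) / 2) b u v / (5 * (b * (2 - (a + b))) * allPole a b u)

theorem hasGradTwo_midSmallUp {a b : ℝ} (ha : 0 < a) (hd : 0 < b - a) (hS : a + b < 2) :
    HasGradTwo (midSmallUpG a b)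
      (fun u v => (midSmallUpNu a ((1 - (a + b)) / 2) u v * allPole a b u -
          midSmallUpN a ((1 - (a + b)) / 2) b u v * allPole' a b u) /
        (5 * (b * (2 - (a + b))) * allPole a b u ^ 2))
      (fun u _ => midSmallUpNv a ((1 - (a + b)) / 2) b u /
        (5 * (b * (2 - (a + b))) * allPole a b u)) := by
  intro u v du dv t hu hv
  have hp := allPole_pos (u := u t) ha hd
  have hb : 0 < b := by linarith
  have hk : 0 < 5 * (b * (2 - (a + b))) := by nlinarith
  set I := (1 - (a + b)) / 2 with hI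
  have hN : HasDerivAt (fun s => midSmallUpN a I b (u s) (v s))
      (midSmallUpNu a I (u t) (v t) * du + midSmallUpNv a I b (u t) * dv) t := by
    have h1 := ((hv.const_mul (1 - a)).const_add 1).const_mul (5 * (1 - 2 * I))
    have h2 := ((hv.const_mul (5 * a * (1 - a))).const_sub
      (5 * a + 10 * I - 40 * I * a)).fun_add
        (((hv.mul_const (7 + 23 * a - 56 * I)).const_add
          (I * (-75 + 128 * a + 189 * I))).const_mul I)
    have h3 := (((hu.fun_mul hu).mul_const I).mul_const (2 * a + 3 * I)).const_mul (5 : ℝ)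
    refine (((h1.fun_mul ((hu.mul_const a).const_sub b)).fun_add
      ((hu.mul_const (1 + 2 * I)).fun_mul h2)).fun_add h3).congr_deriv ?_
    simp only [midSmallUpNu, midSmallUpNv, allLowNv, midSmallUpP]
    ring
  refine (hN.fun_div (((hasDerivAt_allPole a b (u t)).comp t hu).const_mul
    (5 * (b * (2 - (a + b))))) (by positivity)).congr_deriv ?_
  simp only [Function.comp_apply]
  generalize midSmallUpNu a I (u t) (v t) = A
  generalize midSmallUpNv a I b (u t) = B
  generalize midSmallUpN a I b (u t) (v t) = C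
  generalize allPole' a b (u t) = P'
  generalize allPole a b (u t) = P at hp ⊢
  generalize 5 * (b * (2 - (a + b))) = K at hk ⊢
  field_simp
  ring

theorem continuous_midSmallUp {a b : ℝ} (ha : 0 < a) (hd : 0 < b - a) (hS : a + b < 2) :
    Continuous (fun w : ℝ × ℝ => midSmallUpG a b w.1 w.2) ∧
      Continuous (fun w : ℝ × ℝ => (midSmallUpNu a ((1 - (a + b)) / 2) w.1 w.2 * allPole a b w.1 -
          midSmallUpN a ((1 - (a + b)) / 2) b w.1 w.2 * allPole' a b w.1) /
        (5 * (b * (2 - (a + b))) * allPole a b w.1 ^ 2)) ∧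
      Continuous (fun w : ℝ × ℝ => midSmallUpNv a ((1 - (a + b)) / 2) b w.1 /
        (5 * (b * (2 - (a + b))) * allPole a b w.1)) := by
  have cp : Continuous fun w : ℝ × ℝ => allPole a b w.1 := by unfold allPole; fun_prop
  have cp' : Continuous fun w : ℝ × ℝ => allPole' a b w.1 := by unfold allPole'; fun_prop
  have hk : 5 * (b * (2 - (a + b))) ≠ 0 :=
    mul_ne_zero (by norm_num) (mul_ne_zero (by linarith) (by linarith))
  have hp : ∀ w : ℝ × ℝ, allPole a b w.1 ≠ 0 := fun w => (allPole_pos ha hd).ne'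
  have cN : Continuous fun w : ℝ × ℝ =>
      midSmallUpN a ((1 - (a + b)) / 2) b w.1 w.2 := by
    unfold midSmallUpN midSmallUpP; fun_prop
  have cU : Continuous fun w : ℝ × ℝ =>
      midSmallUpNu a ((1 - (a + b)) / 2) w.1 w.2 := by
    unfold midSmallUpNu midSmallUpP; fun_prop
  have cV : Continuous fun w : ℝ × ℝ => midSmallUpNv a ((1 - (a + b)) / 2) b w.1 := by
    unfold midSmallUpNv allLowNv; fun_prop
  refine ⟨cN.div (continuous_const.mul cp) fun w => mul_ne_zero hk (hp w), ?_, ?_⟩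
  · exact ((cU.mul cp).sub (cN.mul cp')).div (continuous_const.mul (cp.pow 2))
      fun w => mul_ne_zero hk (pow_ne_zero 2 (hp w))
  · exact cV.div (continuous_const.mul cp) fun w => mul_ne_zero hk (hp w)

namespace AllLow

open Pack

local instance midSmallSoundAdd : Add Pack.Ex := ⟨Ex.add⟩
local instance midSmallSoundSub : Sub Pack.Ex := ⟨Ex.sub⟩
local instance midSmallSoundMul : Mul Pack.Ex := ⟨Ex.mul⟩

variable {a b I u X : ℝ}

theorem eval_mid_rangeSum (l m n : ℤ) :
    (eMidRange l m n).eval (stabPt u X I a) = l * (1 - (1 - 2 * I) * (1 - 2 * I - 2 * a) * X) +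
      m * ((1 - (1 - 2 * I) * (1 - 2 * I - 2 * a) * X) * (X * X)) +
      n * (X * (1 + 2 * I * a) - 1) := by
  obtain ⟨r1, r2, -⟩ := eval_mid_range (u := u) (a := a) (I := I) (X := X)
  have vX : (Ex.var 1).eval (stabPt u X I a) = X := by simp [Ex.eval, stabPt]
  simp only [eMidRange, eval_add', eval_mul', eval_num', r1, r2, vX]

theorem mid_range_nonneg (hP : MidPlace a I X) {l m n : ℤ} (hl : 0 ≤ l ∧ 0 ≤ m ∧ 0 ≤ n) :
    0 ≤ (eMidRange l m n).eval (stabPt u X I a) := by
  rw [eval_mid_rangeSum]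
  have hg : 0 ≤ 1 - (1 - 2 * I) * (1 - 2 * I - 2 * a) * X := by linarith [hP.guard]
  have hf : 0 ≤ X * (1 + 2 * I * a) - 1 := by linarith [hP.floor]
  exact add_nonneg (add_nonneg (mul_nonneg (by exact_mod_cast hl.1) hg)
    (mul_nonneg (by exact_mod_cast hl.2.1) (mul_nonneg hg (mul_self_nonneg X))))
    (mul_nonneg (by exact_mod_cast hl.2.2) hf)

/-- The sign at the lower band from a box. -/
theorem mid_small_low_box (hP : MidPlace a I X) (hu : 0 < u) {u₀ u₁ X₀ X₁ I₀ I₁ a₀ a₁ l m n : ℤ}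
    (hl : 0 ≤ l ∧ 0 ≤ m ∧ 0 ≤ n)
    (h : checkFour (midBox u₀ u₁ X₀ X₁ I₀ I₁ a₀ a₁) 560 5 3 14 9 (eMidSmallLow l m n) = true)
    (g : ((u₀ : ℝ) ≤ u * 1000 ∧ u * 1000 < u₁) ∧ ((X₀ : ℝ) ≤ X * 100 ∧ X * 100 < X₁) ∧
      ((I₀ : ℝ) ≤ I * 1000 ∧ I * 1000 < I₁) ∧ ((a₀ : ℝ) ≤ a * 1000 ∧ a * 1000 < a₁)) :
    0 < (eLowNum eMI eMA).eval (stabPt u X I a) := by
  obtain ⟨⟨g1, g2⟩, ⟨g3, g4⟩, ⟨g5, g6⟩, g7, g8⟩ := g
  have h1 := nonneg_of_checkFour h (mid_point g1 g2 g3 g4 g5 g6 g7 g8)
  have hr := mid_range_nonneg (u := u) hP hl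
  have h0 : 0 < u * I * a := mul_pos (mul_pos hu hP.I_pos) hP.a_pos
  have hm : (eU * (.var 2) * (.var 3)).eval (stabPt u X I a) = u * I * a := by
    simp [eU, Ex.eval, stabPt, eval_mul']
  simp only [eMidSmallLow, eLowI, eval_sub', eval_mul' _ (eN 16), eval_num', hm] at h1
  simp only [eMI, eMA]
  push_cast at h1
  linarith

/-- The denominator at the lower band from a box. -/
theorem mid_small_low_den_box {u₀ u₁ X₀ X₁ I₀ I₁ a₀ a₁ : ℤ}
    (h : checkFour (midBox u₀ u₁ X₀ X₁ I₀ I₁ a₀ a₁) 560 2 1 5 3 eDenI = true)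
    (g : ((u₀ : ℝ) ≤ u * 1000 ∧ u * 1000 < u₁) ∧ ((X₀ : ℝ) ≤ X * 100 ∧ X * 100 < X₁) ∧
      ((I₀ : ℝ) ≤ I * 1000 ∧ I * 1000 < I₁) ∧ ((a₀ : ℝ) ≤ a * 1000 ∧ a * 1000 < a₁)) :
    0 < (eLowDen eMI eMA).eval (stabPt u X I a) := by
  obtain ⟨⟨g1, g2⟩, ⟨g3, g4⟩, ⟨g5, g6⟩, g7, g8⟩ := g
  have h1 := nonneg_of_checkFour h (mid_point g1 g2 g3 g4 g5 g6 g7 g8)
  simp only [eDenI, eval_sub', eval_mul', eval_num'] at h1
  simp only [eMI, eMA]
  push_cast at h1
  linarith

/-- The sign at the upper band from a box. -/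
theorem mid_small_up_box (hP : MidPlace a I X) (hu : 0 < u) {u₀ u₁ X₀ X₁ I₀ I₁ a₀ a₁ l m n : ℤ}
    (hl : 0 ≤ l ∧ 0 ≤ m ∧ 0 ≤ n)
    (h : checkFour (midBox u₀ u₁ X₀ X₁ I₀ I₁ a₀ a₁) 560 7 3 15 9 (eMidSmallUp l m n) = true)
    (g : ((u₀ : ℝ) ≤ u * 1000 ∧ u * 1000 < u₁) ∧ ((X₀ : ℝ) ≤ X * 100 ∧ X * 100 < X₁) ∧
      ((I₀ : ℝ) ≤ I * 1000 ∧ I * 1000 < I₁) ∧ ((a₀ : ℝ) ≤ a * 1000 ∧ a * 1000 < a₁)) :
    (eBandNum eMidUpN eMidUpNu eMidUpNv eMI eMA).eval (stabPt u X I a) < 0 := by
  obtain ⟨⟨g1, g2⟩, ⟨g3, g4⟩, ⟨g5, g6⟩, g7, g8⟩ := g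
  have h1 := nonneg_of_checkFour h (mid_point g1 g2 g3 g4 g5 g6 g7 g8)
  have hr := mid_range_nonneg (u := u) hP hl
  have h0 : 0 < u * I * a := mul_pos (mul_pos hu hP.I_pos) hP.a_pos
  have hm : (eU * eMI * eMA).eval (stabPt u X I a) = u * I * a := by
    simp [eU, eMI, eMA, Ex.eval, stabPt, eval_mul']
  simp only [eMidSmallUp, eval_sub', eval_mul' _ (eN (-16)), eval_num', hm] at h1
  push_cast at h1
  linarith

/-- The denominator at the upper band from a box. -/
theorem mid_small_up_den_box {u₀ u₁ X₀ X₁ I₀ I₁ a₀ a₁ : ℤ}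
    (h : checkFour (midBox u₀ u₁ X₀ X₁ I₀ I₁ a₀ a₁) 560 3 1 5 3 eMidSmallUpDen = true)
    (g : ((u₀ : ℝ) ≤ u * 1000 ∧ u * 1000 < u₁) ∧ ((X₀ : ℝ) ≤ X * 100 ∧ X * 100 < X₁) ∧
      ((I₀ : ℝ) ≤ I * 1000 ∧ I * 1000 < I₁) ∧ ((a₀ : ℝ) ≤ a * 1000 ∧ a * 1000 < a₁)) :
    0 < (eBandDen eMidUpN eMI eMA).eval (stabPt u X I a) := by
  obtain ⟨⟨g1, g2⟩, ⟨g3, g4⟩, ⟨g5, g6⟩, g7, g8⟩ := g
  have h1 := nonneg_of_checkFour h (mid_point g1 g2 g3 g4 g5 g6 g7 g8)
  simp only [eMidSmallUpDen, eval_sub', eval_mul', eval_num'] at h1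
  push_cast at h1
  linarith

/-- The values at the upper band. -/
theorem eval_midSmallUp (hb : b = 1 - 2 * I - a) (hu1 : u ≤ 1) (ha0 : 0 < a) (hd : 0 < b - a)
    (hI0 : 0 ≤ I) :
    let v := 2 * I * X
    let G := midSmallUpG a b u v
    let Gd := 5 * (b * (1 + 2 * I)) * (b - u * a)
    0 < Gd ∧ allDen a b u v G * Gd = (eBandDen eMidUpN eMI eMA).eval (stabPt u X I a) ∧
      allDot a b u v G
          (-((midSmallUpNu a ((1 - (a + b)) / 2) u v * allPole a b u -
              midSmallUpN a ((1 - (a + b)) / 2) b u v * allPole' a b u) /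
            (5 * (b * (2 - (a + b))) * allPole a b u ^ 2)))
          (-(midSmallUpNv a ((1 - (a + b)) / 2) b u /
            (5 * (b * (2 - (a + b))) * allPole a b u))) 1 * Gd ^ 3 =
        (eBandNum eMidUpN eMidUpNu eMidUpNv eMI eMA).eval (stabPt u X I a) := by
  intro v G Gd
  obtain ⟨hp, hp'⟩ := allPole_eq (a := a) (b := b) hu1
  have hb0 : 0 < b := by linarith
  have hw : 0 < b - u * a := by linarith [mul_le_mul_of_nonneg_right hu1 ha0.le]
  have eS2 : 2 - (a + b) = 1 + 2 * I := by rw [hb]; ring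
  have eI' : (1 - (a + b)) / 2 = I := by rw [hb]; ring
  have eG : G = midSmallUpN a I b u v / Gd := by
    simp only [G, Gd, midSmallUpG, hp, eS2, eI']
  have eu : -((midSmallUpNu a ((1 - (a + b)) / 2) u v * allPole a b u -
      midSmallUpN a ((1 - (a + b)) / 2) b u v * allPole' a b u) /
        (5 * (b * (2 - (a + b))) * allPole a b u ^ 2)) =
      -((midSmallUpNu a I u v * Gd -
        midSmallUpN a I b u v * ((-5) * (b * (1 + 2 * I)) * a)) / Gd ^ 2) := by
    simp only [Gd, hp, hp', eS2, eI']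
    field_simp
  have ev : -(midSmallUpNv a ((1 - (a + b)) / 2) b u /
      (5 * (b * (2 - (a + b))) * allPole a b u)) = -(midSmallUpNv a I b u / Gd) := by
    simp only [Gd, hp, eS2, eI']
  set x := stabPt u X I a with hx
  have vI : eMI.eval x = I := by simp [hx, eMI, Ex.eval, stabPt]
  have vA : eMA.eval x = a := by simp [hx, eMA, Ex.eval, stabPt]
  have x0 : x 0 = u := by simp [hx, stabPt]
  have x1 : x 1 = X := by simp [hx, stabPt]
  have vU : eU.eval x = u := by simp [eU, Ex.eval, x0]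
  have vV : (eV eMI).eval x = v := by
    simp only [eV, eval_mul', eval_num', vI, Ex.eval, x1]; push_cast; ring
  have vP : eMidUpP.eval x = midSmallUpP a I v := by
    simp only [eMidUpP, midSmallUpP, eval_add', eval_sub', eval_mul', eval_num', vI, vA, vV]
    push_cast; ring
  have hn : eMidUpN.eval x = midSmallUpN a I b u v := by
    simp only [eMidUpN, midSmallUpN, AllLow.eS, AllLow.eQ, eW, eB, eJ, eval_add', eval_sub',
      eval_mul', eval_num', vI, vA, vU, vV, vP, hb]
    push_cast; ring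
  have hnu : eMidUpNu.eval x = midSmallUpNu a I u v := by
    simp only [eMidUpNu, midSmallUpNu, AllLow.eS, AllLow.eQ, eJ, eval_add', eval_sub',
      eval_mul', eval_num', vI, vA, vU, vV, vP]
    push_cast; ring
  have hnv : eMidUpNv.eval x = midSmallUpNv a I b u := by
    simp only [eMidUpNv, eGv, midSmallUpNv, allLowNv, AllLow.eS, eW, eB, eJ, eval_add',
      eval_sub', eval_mul', eval_num', vI, vA, vU, hb]
    push_cast; ring
  obtain ⟨hG, k1, k2⟩ := eval_bandAll _ _ _ eMI eMA vI vA hn hnu hnv x0 x1 hb hu1 ha0 hd hI0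
  exact ⟨hG, by rw [eG]; exact k1, by rw [eG, eu, ev]; exact k2⟩

theorem midSmallLow_num {a I X u : ℝ} (hP : MidPlace a I X) (hu : 0 < u) (hu1 : u ≤ 3 / 20) :
    0 < (eLowNum eMI eMA).eval (stabPt u X I a) := by
  have := hP.I_lo
  have := hP.I_hi
  have := hP.I_le_a
  have := hP.a_le
  rcases lt_or_ge a (9 / 50) with h0 | h0
  · have := hP.X_lt (9 / 50) (143 / 1000) (99 / 25) (by linarith) (by linarith) (by norm_num) (by norm_num) (by norm_num)
    have := hP.le_X (9 / 50) (143 / 1000) (19 / 20) (by linarith) (by linarith) (by norm_num)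
    exact mid_small_low_box hP hu (by decide) midSmallLow_sign0
      ⟨⟨(by push_cast; linarith), (by push_cast; linarith)⟩, ⟨(by push_cast; linarith), (by push_cast; linarith)⟩,
        ⟨(by push_cast; linarith), (by push_cast; linarith)⟩, (by push_cast; linarith), (by push_cast; linarith)⟩
  · rcases lt_or_ge a (49 / 200) with h1 | h1
    · have := hP.X_lt (49 / 200) (143 / 1000) (313 / 50) (by linarith) (by linarith) (by norm_num) (by norm_num) (by norm_num)
      have := hP.le_X (49 / 200) (143 / 1000) (93 / 100) (by linarith) (by linarith) (by norm_num)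
      exact mid_small_low_box hP hu (by decide) midSmallLow_sign1
        ⟨⟨(by push_cast; linarith), (by push_cast; linarith)⟩, ⟨(by push_cast; linarith), (by push_cast; linarith)⟩,
        ⟨(by push_cast; linarith), (by push_cast; linarith)⟩, (by push_cast; linarith), (by push_cast; linarith)⟩
    · rcases lt_or_ge I (12 / 125) with h2 | h2
      · have := hP.X_lt (31 / 100) (12 / 125) (659 / 100) (by linarith) (by linarith) (by norm_num) (by norm_num) (by norm_num)
        have := hP.le_X (31 / 100) (12 / 125) (47 / 50) (by linarith) (by linarith) (by norm_num)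
        exact mid_small_low_box hP hu (by decide) midSmallLow_sign2
          ⟨⟨(by push_cast; linarith), (by push_cast; linarith)⟩, ⟨(by push_cast; linarith), (by push_cast; linarith)⟩,
        ⟨(by push_cast; linarith), (by push_cast; linarith)⟩, (by push_cast; linarith), (by push_cast; linarith)⟩
      · have := hP.X_lt (31 / 100) (143 / 1000) (149 / 10) (by linarith) (by linarith) (by norm_num) (by norm_num) (by norm_num)
        have := hP.le_X (31 / 100) (143 / 1000) (91 / 100) (by linarith) (by linarith) (by norm_num)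
        exact mid_small_low_box hP hu (by decide) midSmallLow_sign3
          ⟨⟨(by push_cast; linarith), (by push_cast; linarith)⟩, ⟨(by push_cast; linarith), (by push_cast; linarith)⟩,
        ⟨(by push_cast; linarith), (by push_cast; linarith)⟩, (by push_cast; linarith), (by push_cast; linarith)⟩

theorem midSmallLow_den {a I X u : ℝ} (hP : MidPlace a I X) (hu : 0 < u) (hu1 : u ≤ 3 / 20) :
    0 < (eLowDen eMI eMA).eval (stabPt u X I a) := by
  have := hP.I_lo
  have := hP.I_hi
  have := hP.I_le_a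
  have := hP.a_le
  have := hP.X_lt (31 / 100) (143 / 1000) (149 / 10) (by linarith) (by linarith) (by norm_num) (by norm_num) (by norm_num)
  have := hP.le_X (31 / 100) (143 / 1000) (91 / 100) (by linarith) (by linarith) (by norm_num)
  exact mid_small_low_den_box midSmallLow_den0
    ⟨⟨(by push_cast; linarith), (by push_cast; linarith)⟩, ⟨(by push_cast; linarith), (by push_cast; linarith)⟩,
        ⟨(by push_cast; linarith), (by push_cast; linarith)⟩, (by push_cast; linarith), (by push_cast; linarith)⟩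

theorem midSmallUp_num {a I X u : ℝ} (hP : MidPlace a I X) (hu : 0 < u) (hu1 : u ≤ 3 / 20) :
    (eBandNum eMidUpN eMidUpNu eMidUpNv eMI eMA).eval (stabPt u X I a) < 0 := by
  have := hP.I_lo
  have := hP.I_hi
  have := hP.I_le_a
  have := hP.a_le
  rcases lt_or_ge X (79 / 10) with h0 | h0
  · rcases lt_or_ge X (22 / 5) with h1 | h1
    · have := hP.X_lt (31 / 100) (143 / 1000) (149 / 10) (by linarith) (by linarith) (by norm_num) (by norm_num) (by norm_num)
      have := hP.le_X (31 / 100) (143 / 1000) (91 / 100) (by linarith) (by linarith) (by norm_num)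
      exact mid_small_up_box hP hu (by decide) midSmallUp_sign0
        ⟨⟨(by push_cast; linarith), (by push_cast; linarith)⟩, ⟨(by push_cast; linarith), (by push_cast; linarith)⟩,
        ⟨(by push_cast; linarith), (by push_cast; linarith)⟩, (by push_cast; linarith), (by push_cast; linarith)⟩
    · have := hP.X_lt (31 / 100) (143 / 1000) (149 / 10) (by linarith) (by linarith) (by norm_num) (by norm_num) (by norm_num)
      have := hP.le_X (31 / 100) (143 / 1000) (91 / 100) (by linarith) (by linarith) (by norm_num)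
      exact mid_small_up_box hP hu (by decide) midSmallUp_sign1
        ⟨⟨(by push_cast; linarith), (by push_cast; linarith)⟩, ⟨(by push_cast; linarith), (by push_cast; linarith)⟩,
        ⟨(by push_cast; linarith), (by push_cast; linarith)⟩, (by push_cast; linarith), (by push_cast; linarith)⟩
  · have := hP.X_lt (31 / 100) (143 / 1000) (149 / 10) (by linarith) (by linarith) (by norm_num) (by norm_num) (by norm_num)
    have := hP.le_X (31 / 100) (143 / 1000) (91 / 100) (by linarith) (by linarith) (by norm_num)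
    exact mid_small_up_box hP hu (by decide) midSmallUp_sign2
      ⟨⟨(by push_cast; linarith), (by push_cast; linarith)⟩, ⟨(by push_cast; linarith), (by push_cast; linarith)⟩,
        ⟨(by push_cast; linarith), (by push_cast; linarith)⟩, (by push_cast; linarith), (by push_cast; linarith)⟩

theorem midSmallUp_den {a I X u : ℝ} (hP : MidPlace a I X) (hu : 0 < u) (hu1 : u ≤ 3 / 20) :
    0 < (eBandDen eMidUpN eMI eMA).eval (stabPt u X I a) := by
  have := hP.I_lo
  have := hP.I_hi
  have := hP.I_le_a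
  have := hP.a_le
  have := hP.X_lt (31 / 100) (143 / 1000) (149 / 10) (by linarith) (by linarith) (by norm_num) (by norm_num) (by norm_num)
  have := hP.le_X (31 / 100) (143 / 1000) (91 / 100) (by linarith) (by linarith) (by norm_num)
  exact mid_small_up_den_box midSmallUp_den0
    ⟨⟨(by push_cast; linarith), (by push_cast; linarith)⟩, ⟨(by push_cast; linarith), (by push_cast; linarith)⟩,
        ⟨(by push_cast; linarith), (by push_cast; linarith)⟩, (by push_cast; linarith), (by push_cast; linarith)⟩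

end AllLow

variable {N p q : ℝ} {S : Set ℝ} {R x y s dx dy : ℝ → ℝ}

/-- **The lower band near the crossing** for `7 ≤ N ≤ 20`, exact at `u = 0`. -/
theorem orbit_midSmall_low (hf : IsOrbitFns N p q S R x y s dx dy)
    (hb : SlabBoxAll N (1 / (p + 1)) (1 / (q + 1))) (h7 : 7 ≤ N) (h20 : N ≤ 20)
    (ha : 1 / (p + 1) ≤ 31 / 100) {w : ℝ} (hw : w ∈ S) (hw0 : 0 < R w)
    (hwu : uOf N (R w) (x w) ≤ 3 / 20) :
    allLowG (1 / (p + 1)) (1 / (q + 1)) (uOf N (R w) (x w))
        (vOf (1 / (p + 1)) (1 / (q + 1)) (y w / x w)) <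
      hOf N (R w) (x w) (y w) w / (1 / (q + 1) - 1 / (p + 1)) := by
  obtain ⟨ha0, hb0, hd, -⟩ := hb.facts
  have hS : 1 / (p + 1) + 1 / (q + 1) < 2 := by linarith [hb.S_lt]
  obtain ⟨c1, c2, c3⟩ := continuous_allLow ha0 hd hS
  have key := band_step_all hf hb (u₁ := 3 / 20) (one_mul 1) (hasGradTwo_allLow ha0 hd hS) c1 c2 c3
    (fun _ _ => True) (fun _ _ _ _ => trivial) (fun v _ _ _ => ?_)
    (fun u v hu _ hu1 hv _ => ?_) hw hw0 hwu
  · linarith
  · refine le_of_eq ?_
    generalize 1 / (p + 1) = al at ha0 hd hS ⊢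
    generalize 1 / (q + 1) = be at hb0 hd hS ⊢
    obtain ⟨hp, -⟩ := allPole_eq (a := al) (b := be) zero_le_one
    have h2 : (2 : ℝ) - (al + be) ≠ 0 := by linarith
    simp only [allLowG, allHc, allLowN, hp, zero_mul, sub_zero, add_zero]
    field_simp
    ring
  · obtain ⟨I, X, rfl, hbI, -, hP⟩ := AllLow.midPlace_of hb h7 h20 ha hv.low.le hv.high hv.av
    obtain ⟨hG, k1, k2⟩ := AllLow.eval_band (u := u) (X := X)
      (x := AllLow.stabPt u X I (1 / (p + 1)))
      AllLow.eMI AllLow.eMA (by simp [AllLow.eMI, Pack.Ex.eval, AllLow.stabPt])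
      (by simp [AllLow.eMA, Pack.Ex.eval, AllLow.stabPt]) (by simp [AllLow.stabPt])
      (by simp [AllLow.stabPt]) hbI (by linarith) ha0 hd hP.I_pos.le
    rw [one_mul]
    exact ⟨pos_of_mul_pos_left (k1 ▸ AllLow.midSmallLow_den hP hu hu1) hG.le,
      pos_of_mul_pos_left (k2 ▸ AllLow.midSmallLow_num hP hu hu1) (pow_pos hG 3).le⟩

/-- **The upper band near the crossing** for `7 ≤ N ≤ 20`, exact at `u = 0`. -/
theorem orbit_midSmall_up (hf : IsOrbitFns N p q S R x y s dx dy)
    (hb : SlabBoxAll N (1 / (p + 1)) (1 / (q + 1))) (h7 : 7 ≤ N) (h20 : N ≤ 20)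
    (ha : 1 / (p + 1) ≤ 31 / 100) {w : ℝ} (hw : w ∈ S) (hw0 : 0 < R w)
    (hwu : uOf N (R w) (x w) ≤ 3 / 20) :
    hOf N (R w) (x w) (y w) w / (1 / (q + 1) - 1 / (p + 1)) <
      midSmallUpG (1 / (p + 1)) (1 / (q + 1)) (uOf N (R w) (x w))
        (vOf (1 / (p + 1)) (1 / (q + 1)) (y w / x w)) := by
  obtain ⟨ha0, hb0, hd, -⟩ := hb.facts
  have hS : 1 / (p + 1) + 1 / (q + 1) < 2 := by linarith [hb.S_lt]
  obtain ⟨c1, c2, c3⟩ := continuous_midSmallUp ha0 hd hS
  have key := band_step_all hf hb (e := -1) (u₁ := 3 / 20) (by norm_num)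
    (hasGradTwo_midSmallUp ha0 hd hS) c1 c2 c3 (fun _ _ => True) (fun _ _ _ _ => trivial)
    (fun v _ _ _ => ?_) (fun u v hu _ hu1 hv _ => ?_) hw hw0 hwu
  · linarith
  · refine le_of_eq ?_
    generalize 1 / (p + 1) = al at ha0 hd hS ⊢
    generalize 1 / (q + 1) = be at hb0 hd hS ⊢
    obtain ⟨hp, -⟩ := allPole_eq (a := al) (b := be) zero_le_one
    have h2 : (2 : ℝ) - (al + be) ≠ 0 := by linarith
    simp only [midSmallUpG, allHc, midSmallUpN, hp, zero_mul, mul_zero, sub_zero, add_zero]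
    field_simp
    ring
  · obtain ⟨I, X, rfl, hbI, -, hP⟩ := AllLow.midPlace_of hb h7 h20 ha hv.low.le hv.high hv.av
    obtain ⟨hG, k1, k2⟩ := AllLow.eval_midSmallUp (u := u) (X := X) hbI (by linarith) ha0 hd
      hP.I_pos.le
    refine ⟨pos_of_mul_pos_left (k1 ▸ AllLow.midSmallUp_den hP hu hu1) hG.le, ?_⟩
    rw [neg_one_mul, neg_pos]
    exact neg_of_mul_neg_left (k2 ▸ AllLow.midSmallUp_num hP hu hu1) (pow_pos hG 3).le

end Vale.Agent.P100.Calib.Band
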