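import Vale.Agent.P100.Calib.SlabMidSignsCert
import Vale.Agent.P100.Calib.SlabMidHoleCert
import Vale.Agent.P100.Calib.SlabMidSmall
import Vale.Agent.P100.Calib.SlabMidDefs

/-!
# The closed signs on `0 < u ≤ 3/5` in the dimensions from seven to twenty

The hypotheses are the bands of the orbit: `allLowG`, `midSmallUpG` up to `3/20`, the bands of the
three ranges of `I = (1 - S)/2`, and their exit curves.
-/

set_option linter.unusedVariables false

namespace Vale.Agent.P100.Calib.Closed.All.Low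

open Band

/-- The upper end of `X` before the exit. -/
theorem X_high_mid {X B xn xd : ℝ} (hX : 0 < X) (hd : 0 < xd) (hn : 0 < xn) (h : X * B < 1000)
    (hB : 0 ≤ B * xn - 1000 * xd) : X ≤ xn / xd := by
  rw [le_div_iff₀ hd]
  refine le_of_mul_le_mul_right (a := 1000) ?_ (by norm_num)
  have h1 := mul_le_mul_of_nonneg_left (show 1000 * xd ≤ B * xn by linarith) hX.le
  have h2 := mul_le_mul_of_nonneg_right h.le hn.le
  linarith

/-- The lower end of `X`. -/
theorem X_low_mid {X a a₁ I I₁ c : ℝ} (hX : 0 < X) (h : 1 < X * (1 + 2 * a * I)) (ha0 : 0 ≤ a)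
    (ha : a ≤ a₁) (hI0 : 0 ≤ I) (hI : I ≤ I₁) (hc : c * (1 + 2 * a₁ * I₁) ≤ 1) : c ≤ X := by
  have h1 : 1 + 2 * a * I ≤ 1 + 2 * a₁ * I₁ := by
    linarith [mul_le_mul ha hI hI0 (ha0.trans ha)]
  have h2 : 0 < 1 + 2 * a₁ * I₁ := by
    linarith [mul_nonneg ha0 hI0]
  refine le_of_mul_le_mul_right (a := 1 + 2 * a₁ * I₁) ?_ h2
  exact hc.trans (h.le.trans (mul_le_mul_of_nonneg_left h1 hX.le))

section
variable {d S u v t : ℝ} {z : Bool}

/-- The facts used, from those of the chart. -/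
theorem BasicM.of_facts {n : ℕ} (hb : ChartBox n d S) (hn : 7 ≤ n) (ha : (S - d) / 2 ≤ 31 / 100)
    (hF : ChartFacts d S u v t)
    (hz : cond z (S ^ 2 ≤ (S - d) * ((1 + S) / 2)) ((S - d) * ((1 + S) / 2) ≤ S ^ 2)) :
    BasicM z d S u v t := by
  have hS : 0 < 1 - S := sub_pos.2 hb.S_lt
  have hdim : (7 : ℝ) < 2 / (1 - S) := lt_of_le_of_lt (by exact_mod_cast hn) hb.dim_low
  rw [lt_div_iff₀ hS] at hdim
  have hk : 0 < 2 + (S - d) * (1 - S) := by
    have := mul_nonneg (show 0 ≤ S - d by linarith [hb.one, hb.S_lt]) hS.le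
    linarith
  refine ⟨hb.pos, hb.S_lt, hb.one, ha, by linarith, hF.u_pos, hF.u_lt,
    pos_of_mul_pos_left ((mul_pos two_pos hS).trans hF.v_crit) hk.le, hF.H_pos, hF.h_lt, hF.r_lt,
    hF.drift, ?_⟩
  obtain ⟨e1, -, -, eS⟩ := ptOf_eqs (d := d) (u := u) (v := v) hb.S_lt
  have hS0 : 0 < S := by linarith
  have hS2 : 0 < S ^ 2 := by positivity
  have eN : dimAll ((S - d) / 2) d = 2 / (1 - S) := by
    simp only [dimAll]; congr 1; ring
  have key : 2 * (2 / (1 - S) * ((S - d) / 2)) * (2 / (1 - S) - 1) / (2 / (1 - S) - 2) ^ 2 =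
      (S - d) * ((1 + S) / 2) / S ^ 2 := by
    rw [show 2 / (1 - S) - 2 = 2 * S / (1 - S) by field_simp; ring]
    field_simp
    ring
  have hd := hb.pos.ne'
  cases z
  · have le1 : (S - d) * ((1 + S) / 2) / S ^ 2 ≤ 1 := (div_le_one hS2).2 hz
    simp only [allNum, AllN.kapAll, eN, key, max_eq_right (neg_le_neg le1), PtR.D2M, cond_false,
      PtR.D2, PtR.s2, eS, e1, show (ptOf d S u v).a = (S - d) / 2 from rfl,
      show (ptOf d S u v).I = (1 - S) / 2 from rfl]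
    field_simp
    ring
  · have le1 : 1 ≤ (S - d) * ((1 + S) / 2) / S ^ 2 := (one_le_div hS2).2 hz
    simp only [allNum, AllN.kapAll, eN, key, max_eq_left (neg_le_neg le1), PtR.D2M, cond_true]
    norm_num

/-- The band near the crossing. -/
theorem BasicM.adm_small (hB : BasicM z d S u v t)
    (hl : allLowG ((S - d) / 2) ((S + d) / 2) u v ≤ chH d S u v t)
    (hr : chH d S u v t ≤ midSmallUpG ((S - d) / 2) ((S + d) / 2) u v) :
    (ptOf d S u v).Adm bandSmall (chH d S u v t) := by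
  set o := ptOf d S u v with ho
  obtain ⟨e1, eb, ev, eS⟩ : o.d = d ∧ o.b = (S + d) / 2 ∧ o.v = v ∧ o.S = S :=
    ptOf_eqs hB.S_lt
  have hp := hB.pos
  have hI : 0 < o.I := hp.I_pos
  have ha0 : 0 < o.a := hp.a_pos
  have hab : o.a < (S + d) / 2 := by simp only [ho, ptOf]; linarith [hB.d_pos]
  have eP : allPole o.a ((S + d) / 2) u = (S + d) / 2 - u * o.a :=
    (allPole_eq (by linarith [hB.u_lt])).1
  have hP : 0 < (S + d) / 2 - u * o.a := by
    rw [← eP]
    exact allPole_pos ha0 (sub_pos.2 hab)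
  have hbb : 0 < (S + d) / 2 := ha0.trans hab
  obtain ⟨vu, vX, va, vI, vd, vb, vv, vQ, vD, vS, -, -⟩ := o.vals
  have eu : o.u = u := rfl
  have eIb : (1 - ((S - d) / 2 + (S + d) / 2)) / 2 = o.I := by simp only [ho, ptOf]; ring
  have ea : (S - d) / 2 = o.a := rfl
  have eI2 : 2 - ((S - d) / 2 + (S + d) / 2) = 1 + 2 * o.I := by simp only [ho, ptOf]; ring
  have l := hl
  have r := hr
  have ep : bandSmall.pole.val o.x =
      5 * ((S + d) / 2 * (1 + 2 * o.I)) * ((S + d) / 2 - u * o.a) := by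
    simp only [bandSmall, val_mul, val_sub, val_add, val_num, vu, va, vI, vb, eb, eu]
    push_cast
    ring
  have p0 : 0 < bandSmall.pole.val o.x := by rw [ep]; positivity
  simp only [allLowG, midSmallUpG, eIb, eI2] at l r
  rw [ea, eP] at l r
  rw [← ep, div_le_iff₀ p0] at l
  rw [← ep, le_div_iff₀ p0] at r
  refine ⟨hB.den_pos, p0, le_of_eq_of_le ?_ l, le_of_le_of_eq r ?_⟩
  · simp only [bandSmall, xP5, xS, val_mul, val_sub, val_add, val_num, vu, va, vI, vb, vv, eb,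
      ev, eu, allLowN, allLowP]
    push_cast
    ring
  · simp only [bandSmall, xP5, xS, val_mul, val_sub, val_add, val_num, vu, va, vI, vb, vv, eb,
      ev, eu, midSmallUpN, midSmallUpP, allLowP]
    push_cast
    ring

theorem val_xFour (o : PtR) (c : MidFour) : (xFour c).val o.x = midFour c o.I o.a := by
  obtain ⟨-, -, va, vI, -, -, -, -, -, -, -, -⟩ := o.vals
  simp only [xFour, midFour, val_add, val_mul, val_num, va, vI]

theorem val_xSix (o : PtR) (c : MidSix) : (xSix c).val o.x = midSix c o.I o.a := by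
  obtain ⟨-, -, va, vI, -, -, -, -, -, -, -, -⟩ := o.vals
  simp only [xSix, midSix, val_add, val_mul, val_num, va, vI]

/-- The bands of a range of `I`. -/
theorem BasicM.adm_mid (hB : BasicM z d S u v t) {cl ch : MidBand}
    (hl : midBandG cl ((S - d) / 2) ((S + d) / 2) u v ≤ chH d S u v t)
    (hr : chH d S u v t ≤ midBandG ch ((S - d) / 2) ((S + d) / 2) u v) :
    (ptOf d S u v).Adm (bandMid cl ch) (chH d S u v t) := by
  set o := ptOf d S u v with ho
  obtain ⟨e1, eb, ev, eS⟩ : o.d = d ∧ o.b = (S + d) / 2 ∧ o.v = v ∧ o.S = S :=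
    ptOf_eqs hB.S_lt
  have hp := hB.pos
  have ha0 : 0 < o.a := hp.a_pos
  have hab : o.a < (S + d) / 2 := by simp only [ho, ptOf]; linarith [hB.d_pos]
  have eP : allPole o.a ((S + d) / 2) u = (S + d) / 2 - u * o.a :=
    (allPole_eq (by linarith [hB.u_lt])).1
  have hP : 0 < (S + d) / 2 - u * o.a := by
    rw [← eP]
    exact allPole_pos ha0 (sub_pos.2 hab)
  obtain ⟨vu, vX, va, vI, vd, vb, vv, vQ, vD, vS, -, -⟩ := o.vals
  have eu : o.u = u := rfl
  have eIb : allStabI ((S - d) / 2) ((S + d) / 2) = o.I := by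
    simp only [allStabI, ho, ptOf]; ring
  have ea : (S - d) / 2 = o.a := rfl
  have ep : (bandMid cl ch).pole.val o.x = 1000 * ((S + d) / 2 - u * o.a) := by
    simp only [bandMid, val_mul, val_sub, val_num, vu, va, vb, eb, eu]
    push_cast
    ring
  have p0 : 0 < (bandMid cl ch).pole.val o.x := by rw [ep]; positivity
  have l := hl
  have r := hr
  simp only [midBandG, eIb] at l r
  rw [ea, eP] at l r
  rw [← ep, div_le_iff₀ p0] at l
  rw [← ep, le_div_iff₀ p0] at r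
  refine ⟨hB.den_pos, p0, le_of_eq_of_le ?_ l, le_of_le_of_eq r ?_⟩ <;>
  · simp only [bandMid, xMidN, val_mul, val_sub, val_add, val_num, vu, vI, vb, vv, eb,
      ev, eu, val_xFour, val_xSix, midN, midK, midPsi]
    push_cast
    ring

/-- The signs on the piece 0. -/
theorem signs_piece0 {n : ℕ} (hb : ChartBox n d S) (hB : BasicM false d S u v t)
    (u0 : 0 ≤ (ptOf d S u v).u)
    (u1 : (ptOf d S u v).u ≤ 3 / 20)
    (x0 : 47 / 50 ≤ (ptOf d S u v).X)
    (x1 : (ptOf d S u v).X ≤ 6 / 5)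
    (a0 : 1 / 20 ≤ (ptOf d S u v).a)
    (a1 : (ptOf d S u v).a ≤ 31 / 100)
    (i0 : 1 / 20 ≤ (ptOf d S u v).I)
    (i1 : (ptOf d S u v).I ≤ 1 / 12)
    (hA : (ptOf d S u v).Adm bandSmall (chH d S u v t)) : ChartSigns d S u v t := by
  refine Piece.AllHoldM.signs hb hB (mpiece0_holds ?_) hA
  refine PtR.InM.of_bounds ?_ ?_ ?_ ?_ <;> simp only [mbox0, InChart] <;> norm_num <;>
    (try constructor) <;> linarith

/-- The signs on the piece 1. -/
theorem signs_piece1 {n : ℕ} (hb : ChartBox n d S) (hB : BasicM false d S u v t)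
    (u0 : 3 / 20 ≤ (ptOf d S u v).u)
    (u1 : (ptOf d S u v).u ≤ 2 / 5)
    (x0 : 47 / 50 ≤ (ptOf d S u v).X)
    (x1 : (ptOf d S u v).X ≤ 77 / 50)
    (a0 : 1 / 20 ≤ (ptOf d S u v).a)
    (a1 : (ptOf d S u v).a ≤ 31 / 100)
    (i0 : 1 / 20 ≤ (ptOf d S u v).I)
    (i1 : (ptOf d S u v).I ≤ 1 / 12)
    (hA : (ptOf d S u v).Adm (bandMid Band.midLowA Band.midUpA) (chH d S u v t)) : ChartSigns d S u v t := by
  refine Piece.AllHoldM.signs hb hB (mpiece1_holds ?_) hA
  refine PtR.InM.of_bounds ?_ ?_ ?_ ?_ <;> simp only [mbox1, InChart] <;> norm_num <;>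
    (try constructor) <;> linarith

/-- The signs on the piece 2. -/
theorem signs_piece2 {n : ℕ} (hb : ChartBox n d S) (hB : BasicM false d S u v t)
    (u0 : 2 / 5 ≤ (ptOf d S u v).u)
    (u1 : (ptOf d S u v).u ≤ 3 / 5)
    (x0 : 24 / 25 ≤ (ptOf d S u v).X)
    (x1 : (ptOf d S u v).X ≤ 83 / 50)
    (a0 : 1 / 20 ≤ (ptOf d S u v).a)
    (a1 : (ptOf d S u v).a ≤ 1 / 5)
    (i0 : 1 / 20 ≤ (ptOf d S u v).I)
    (i1 : (ptOf d S u v).I ≤ 1 / 12)
    (hA : (ptOf d S u v).Adm (bandMid Band.midLowA Band.midUpA) (chH d S u v t)) : ChartSigns d S u v t := by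
  refine Piece.AllHoldM.signs hb hB (mpiece2_holds ?_) hA
  refine PtR.InM.of_bounds ?_ ?_ ?_ ?_ <;> simp only [mbox2, InChart] <;> norm_num <;>
    (try constructor) <;> linarith

/-- The signs on the piece 3. -/
theorem signs_piece3 {n : ℕ} (hb : ChartBox n d S) (hB : BasicM false d S u v t)
    (u0 : 2 / 5 ≤ (ptOf d S u v).u)
    (u1 : (ptOf d S u v).u ≤ 3 / 5)
    (x0 : 47 / 50 ≤ (ptOf d S u v).X)
    (x1 : (ptOf d S u v).X ≤ 2)
    (a0 : 1 / 5 ≤ (ptOf d S u v).a)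
    (a1 : (ptOf d S u v).a ≤ 31 / 100)
    (i0 : 1 / 20 ≤ (ptOf d S u v).I)
    (i1 : (ptOf d S u v).I ≤ 1 / 12)
    (hA : (ptOf d S u v).Adm (bandMid Band.midLowA Band.midUpA) (chH d S u v t)) : ChartSigns d S u v t := by
  refine Piece.AllHoldM.signs hb hB (mpiece3_holds ?_) hA
  refine PtR.InM.of_bounds ?_ ?_ ?_ ?_ <;> simp only [mbox3, InChart] <;> norm_num <;>
    (try constructor) <;> linarith

/-- The signs on the piece 4. -/
theorem signs_piece4 {n : ℕ} (hb : ChartBox n d S) (hB : BasicM false d S u v t)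
    (u0 : 0 ≤ (ptOf d S u v).u)
    (u1 : (ptOf d S u v).u ≤ 1 / 10)
    (x0 : 23 / 25 ≤ (ptOf d S u v).X)
    (x1 : (ptOf d S u v).X ≤ 61 / 50)
    (a0 : 2 / 25 ≤ (ptOf d S u v).a)
    (a1 : (ptOf d S u v).a ≤ 31 / 100)
    (i0 : 1 / 12 ≤ (ptOf d S u v).I)
    (i1 : (ptOf d S u v).I ≤ 1 / 8)
    (hA : (ptOf d S u v).Adm bandSmall (chH d S u v t)) : ChartSigns d S u v t := by
  refine Piece.AllHoldM.signs hb hB (mpiece4_holds ?_) hA
  refine PtR.InM.of_bounds ?_ ?_ ?_ ?_ <;> simp only [mbox4, InChart] <;> norm_num <;>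
    (try constructor) <;> linarith

/-- The signs on the piece 5. -/
theorem signs_piece5 {n : ℕ} (hb : ChartBox n d S) (hB : BasicM false d S u v t)
    (u0 : 1 / 10 ≤ (ptOf d S u v).u)
    (u1 : (ptOf d S u v).u ≤ 2 / 5)
    (x0 : 23 / 25 ≤ (ptOf d S u v).X)
    (x1 : (ptOf d S u v).X ≤ 39 / 25)
    (a0 : 2 / 25 ≤ (ptOf d S u v).a)
    (a1 : (ptOf d S u v).a ≤ 31 / 100)
    (i0 : 1 / 12 ≤ (ptOf d S u v).I)
    (i1 : (ptOf d S u v).I ≤ 27 / 250)
    (hA : (ptOf d S u v).Adm (bandMid Band.midLowB Band.midUpB) (chH d S u v t)) : ChartSigns d S u v t := by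
  refine Piece.AllHoldM.signs hb hB (mpiece5_holds ?_) hA
  refine PtR.InM.of_bounds ?_ ?_ ?_ ?_ <;> simp only [mbox5, InChart] <;> norm_num <;>
    (try constructor) <;> linarith

/-- The signs on the piece 6. -/
theorem signs_piece6 {n : ℕ} (hb : ChartBox n d S) (hB : BasicM false d S u v t)
    (u0 : 2 / 5 ≤ (ptOf d S u v).u)
    (u1 : (ptOf d S u v).u ≤ 3 / 5)
    (x0 : 23 / 25 ≤ (ptOf d S u v).X)
    (x1 : (ptOf d S u v).X ≤ 103 / 50)
    (a0 : 2 / 25 ≤ (ptOf d S u v).a)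
    (a1 : (ptOf d S u v).a ≤ 31 / 100)
    (i0 : 1 / 12 ≤ (ptOf d S u v).I)
    (i1 : (ptOf d S u v).I ≤ 27 / 250)
    (hA : (ptOf d S u v).Adm (bandMid Band.midLowB Band.midUpB) (chH d S u v t)) : ChartSigns d S u v t := by
  refine Piece.AllHoldM.signs hb hB (mpiece6_holds ?_) hA
  refine PtR.InM.of_bounds ?_ ?_ ?_ ?_ <;> simp only [mbox6, InChart] <;> norm_num <;>
    (try constructor) <;> linarith

/-- The signs on the piece 7. -/
theorem signs_piece7 {n : ℕ} (hb : ChartBox n d S) (hB : BasicM false d S u v t)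
    (u0 : 1 / 10 ≤ (ptOf d S u v).u)
    (u1 : (ptOf d S u v).u ≤ 19 / 50)
    (x0 : 23 / 25 ≤ (ptOf d S u v).X)
    (x1 : (ptOf d S u v).X ≤ 79 / 50)
    (a0 : 27 / 250 ≤ (ptOf d S u v).a)
    (a1 : (ptOf d S u v).a ≤ 31 / 100)
    (i0 : 27 / 250 ≤ (ptOf d S u v).I)
    (i1 : (ptOf d S u v).I ≤ 1 / 8)
    (hA : (ptOf d S u v).Adm (bandMid Band.midLowC Band.midUpC) (chH d S u v t)) : ChartSigns d S u v t := by
  refine Piece.AllHoldM.signs hb hB (mpiece7_holds ?_) hA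
  refine PtR.InM.of_bounds ?_ ?_ ?_ ?_ <;> simp only [mbox7, InChart] <;> norm_num <;>
    (try constructor) <;> linarith

/-- The signs on the piece 8. -/
theorem signs_piece8 {n : ℕ} (hb : ChartBox n d S) (hB : BasicM false d S u v t)
    (u0 : 19 / 50 ≤ (ptOf d S u v).u)
    (u1 : (ptOf d S u v).u ≤ 3 / 5)
    (x0 : 23 / 25 ≤ (ptOf d S u v).X)
    (x1 : (ptOf d S u v).X ≤ 109 / 50)
    (a0 : 27 / 250 ≤ (ptOf d S u v).a)
    (a1 : (ptOf d S u v).a ≤ 31 / 100)
    (i0 : 27 / 250 ≤ (ptOf d S u v).I)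
    (i1 : (ptOf d S u v).I ≤ 1 / 8)
    (hA : (ptOf d S u v).Adm (bandMid Band.midLowC Band.midUpC) (chH d S u v t)) : ChartSigns d S u v t := by
  refine Piece.AllHoldM.signs hb hB (mpiece8_holds ?_) hA
  refine PtR.InM.of_bounds ?_ ?_ ?_ ?_ <;> simp only [mbox8, InChart] <;> norm_num <;>
    (try constructor) <;> linarith

/-- The signs on the piece 9. -/
theorem signs_piece9 {n : ℕ} (hb : ChartBox n d S) (hB : BasicM false d S u v t)
    (u0 : 0 ≤ (ptOf d S u v).u)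
    (u1 : (ptOf d S u v).u ≤ 2 / 25)
    (x0 : 23 / 25 ≤ (ptOf d S u v).X)
    (x1 : (ptOf d S u v).X ≤ 61 / 50)
    (a0 : 7 / 50 ≤ (ptOf d S u v).a)
    (a1 : (ptOf d S u v).a ≤ 301 / 1000)
    (i0 : 8 / 57 ≤ (ptOf d S u v).I)
    (i1 : (ptOf d S u v).I ≤ 1 / 7)
    (hA : (ptOf d S u v).Adm bandSmall (chH d S u v t)) : ChartSigns d S u v t := by
  refine Piece.AllHoldM.signs hb hB (mpiece9_holds ?_) hA
  refine PtR.InM.of_bounds ?_ ?_ ?_ ?_ <;> simp only [mbox9, InChart] <;> norm_num <;>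
    (try constructor) <;> linarith

/-- The signs on the piece 10. -/
theorem signs_piece10 {n : ℕ} (hb : ChartBox n d S) (hB : BasicM false d S u v t)
    (u0 : 2 / 25 ≤ (ptOf d S u v).u)
    (u1 : (ptOf d S u v).u ≤ 2 / 5)
    (x0 : 23 / 25 ≤ (ptOf d S u v).X)
    (x1 : (ptOf d S u v).X ≤ 42 / 25)
    (a0 : 7 / 50 ≤ (ptOf d S u v).a)
    (a1 : (ptOf d S u v).a ≤ 301 / 1000)
    (i0 : 8 / 57 ≤ (ptOf d S u v).I)
    (i1 : (ptOf d S u v).I ≤ 1 / 7)
    (hA : (ptOf d S u v).Adm (bandMid Band.midLowC Band.midUpC) (chH d S u v t)) : ChartSigns d S u v t := by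
  refine Piece.AllHoldM.signs hb hB (mpiece10_holds ?_) hA
  refine PtR.InM.of_bounds ?_ ?_ ?_ ?_ <;> simp only [mbox10, InChart] <;> norm_num <;>
    (try constructor) <;> linarith

/-- The signs on the piece 11. -/
theorem signs_piece11 {n : ℕ} (hb : ChartBox n d S) (hB : BasicM false d S u v t)
    (u0 : 2 / 5 ≤ (ptOf d S u v).u)
    (u1 : (ptOf d S u v).u ≤ 3 / 5)
    (x0 : 23 / 25 ≤ (ptOf d S u v).X)
    (x1 : (ptOf d S u v).X ≤ 57 / 25)
    (a0 : 7 / 50 ≤ (ptOf d S u v).a)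
    (a1 : (ptOf d S u v).a ≤ 301 / 1000)
    (i0 : 8 / 57 ≤ (ptOf d S u v).I)
    (i1 : (ptOf d S u v).I ≤ 1 / 7)
    (hA : (ptOf d S u v).Adm (bandMid Band.midLowC Band.midUpC) (chH d S u v t)) : ChartSigns d S u v t := by
  refine Piece.AllHoldM.signs hb hB (mpiece11_holds ?_) hA
  refine PtR.InM.of_bounds ?_ ?_ ?_ ?_ <;> simp only [mbox11, InChart] <;> norm_num <;>
    (try constructor) <;> linarith

/-- The signs on the piece 12. -/
theorem signs_piece12 {n : ℕ} (hb : ChartBox n d S) (hB : BasicM true d S u v t)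
    (u0 : 0 ≤ (ptOf d S u v).u)
    (u1 : (ptOf d S u v).u ≤ 3 / 25)
    (x0 : 9 / 10 ≤ (ptOf d S u v).X)
    (x1 : (ptOf d S u v).X ≤ 32 / 25)
    (a0 : 119 / 400 ≤ (ptOf d S u v).a)
    (a1 : (ptOf d S u v).a ≤ 31 / 100)
    (i0 : 8 / 57 ≤ (ptOf d S u v).I)
    (i1 : (ptOf d S u v).I ≤ 1 / 7)
    (hA : (ptOf d S u v).Adm bandSmall (chH d S u v t)) : ChartSigns d S u v t := by
  refine Piece.AllHoldM.signs hb hB (mpiece12_holds ?_) hA
  refine PtR.InM.of_bounds ?_ ?_ ?_ ?_ <;> simp only [mbox12, InChart] <;> norm_num <;>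
    (try constructor) <;> linarith

/-- The signs on the piece 13. -/
theorem signs_piece13 {n : ℕ} (hb : ChartBox n d S) (hB : BasicM true d S u v t)
    (u0 : 3 / 25 ≤ (ptOf d S u v).u)
    (u1 : (ptOf d S u v).u ≤ 3 / 5)
    (x0 : 9 / 10 ≤ (ptOf d S u v).X)
    (x1 : (ptOf d S u v).X ≤ 58 / 25)
    (a0 : 119 / 400 ≤ (ptOf d S u v).a)
    (a1 : (ptOf d S u v).a ≤ 31 / 100)
    (i0 : 8 / 57 ≤ (ptOf d S u v).I)
    (i1 : (ptOf d S u v).I ≤ 1 / 7)
    (hA : (ptOf d S u v).Adm (bandMid Band.midLowC Band.midUpC) (chH d S u v t)) : ChartSigns d S u v t := by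
  refine Piece.AllHoldM.signs hb hB (mpiece13_holds ?_) hA
  refine PtR.InM.of_bounds ?_ ?_ ?_ ?_ <;> simp only [mbox13, InChart] <;> norm_num <;>
    (try constructor) <;> linarith

/-- The signs for `I ≤ 1/12`. -/
theorem signs_rangeA {n : ℕ} (h7 : 7 ≤ n) (hb : ChartBox n d S) (ha : (S - d) / 2 ≤ 31 / 100)
    (hF : ChartFacts d S u v t) {o : PtR} (ho : o = ptOf d S u v) (hI : 0 < o.I) (hI0 : 1 / 20 ≤ o.I)
    (hI7 : o.I ≤ 1 / 7) (hX : 0 < o.X) (ha' : o.a ≤ 31 / 100) (haI : o.I ≤ o.a) (ha0 : 0 < o.a)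
    (hu0 : 0 < o.u) (u6 : o.u ≤ 3 / 5) (hXl : 1 < o.X * (1 + 2 * o.a * o.I))
    (hex : ∀ B : ℝ, v * B < 2000 * ((1 - S) / 2) → o.X * B < 1000)
    (hsmall : u ≤ 3 / 20 →
      allLowG ((S - d) / 2) ((S + d) / 2) u v ≤ chH d S u v t ∧
        chH d S u v t ≤ midSmallUpG ((S - d) / 2) ((S + d) / 2) u v)
    (hA : (1 - S) / 2 ≤ 1 / 12 →
      (midBandG midLowA ((S - d) / 2) ((S + d) / 2) u v ≤ chH d S u v t ∧
        chH d S u v t ≤ midBandG midUpA ((S - d) / 2) ((S + d) / 2) u v) ∧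
      v * midBracket midExitA ((1 - S) / 2) ((S - d) / 2) u < 2000 * ((1 - S) / 2))
    (hM : 1 / 12 < (1 - S) / 2 → (1 - S) / 2 < 27 / 250 →
      (midBandG midLowB ((S - d) / 2) ((S + d) / 2) u v ≤ chH d S u v t ∧
        chH d S u v t ≤ midBandG midUpB ((S - d) / 2) ((S + d) / 2) u v) ∧
      v * midBracket midExitB ((1 - S) / 2) ((S - d) / 2) u < 2000 * ((1 - S) / 2))
    (hC : 27 / 250 ≤ (1 - S) / 2 →
      (midBandG midLowC ((S - d) / 2) ((S + d) / 2) u v ≤ chH d S u v t ∧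
        chH d S u v t ≤ midBandG midUpC ((S - d) / 2) ((S + d) / 2) u v) ∧
      v * midBracket midExitC ((1 - S) / 2) ((S - d) / 2) u < 2000 * ((1 - S) / 2))
    (d2e : o.I ≤ 1 / 8 → (S - d) * ((1 + S) / 2) ≤ S ^ 2) (i1 : o.I ≤ 1 / 12) :
    ChartSigns d S u v t := by
  subst ho
  set o := ptOf d S u v with ho
  have eu : o.u = u := rfl
  have eI : o.I = (1 - S) / 2 := rfl
  rcases le_or_gt o.u (3 / 20) with u1 | u1
  ·
    have hB := BasicM.of_facts (z := false) hb h7 ha hF (d2e (by linarith))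
    have xl : (47 / 50 : ℝ) ≤ o.X := X_low_mid (a₁ := 31 / 100) (I₁ := 1 / 12) hX hXl ha0.le (by linarith) hI.le
      (by linarith) (by norm_num)
    have xr : o.X ≤ 6 / 5 := X_high_mid hX (by norm_num) (by norm_num) (hex _ (hA i1).2)
      (mexit0_holds (o := o) (by linarith) (by linarith) (by linarith) (by linarith) (by linarith) (by linarith))
    refine signs_piece0 hb hB ?_ ?_ xl xr ?_ ?_ ?_ ?_ (hB.adm_small (hsmall (by linarith)).1 (hsmall (by linarith)).2) <;> linarith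
  rcases le_or_gt o.u (2 / 5) with u2 | u2
  ·
    have hB := BasicM.of_facts (z := false) hb h7 ha hF (d2e (by linarith))
    have xl : (47 / 50 : ℝ) ≤ o.X := X_low_mid (a₁ := 31 / 100) (I₁ := 1 / 12) hX hXl ha0.le (by linarith) hI.le
      (by linarith) (by norm_num)
    have xr : o.X ≤ 77 / 50 := X_high_mid hX (by norm_num) (by norm_num) (hex _ (hA i1).2)
      (mexit1_holds (o := o) (by linarith) (by linarith) (by linarith) (by linarith) (by linarith) (by linarith))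
    refine signs_piece1 hb hB ?_ ?_ xl xr ?_ ?_ ?_ ?_ (hB.adm_mid (hA i1).1.1 (hA i1).1.2) <;> linarith
  rcases le_or_gt o.a (1 / 5) with a2 | a2
  ·
    have hB := BasicM.of_facts (z := false) hb h7 ha hF (d2e (by linarith))
    have xl : (24 / 25 : ℝ) ≤ o.X := X_low_mid (a₁ := 1 / 5) (I₁ := 1 / 12) hX hXl ha0.le (by linarith) hI.le
      (by linarith) (by norm_num)
    have xr : o.X ≤ 83 / 50 := X_high_mid hX (by norm_num) (by norm_num) (hex _ (hA i1).2)
      (mexit2_holds (o := o) (by linarith) (by linarith) (by linarith) (by linarith) (by linarith) (by linarith))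
    refine signs_piece2 hb hB ?_ ?_ xl xr ?_ ?_ ?_ ?_ (hB.adm_mid (hA i1).1.1 (hA i1).1.2) <;> linarith
  ·
    have hB := BasicM.of_facts (z := false) hb h7 ha hF (d2e (by linarith))
    have xl : (47 / 50 : ℝ) ≤ o.X := X_low_mid (a₁ := 31 / 100) (I₁ := 1 / 12) hX hXl ha0.le (by linarith) hI.le
      (by linarith) (by norm_num)
    have xr : o.X ≤ 2 / 1 := X_high_mid hX (by norm_num) (by norm_num) (hex _ (hA i1).2)
      (mexit3_holds (o := o) (by linarith) (by linarith) (by linarith) (by linarith) (by linarith) (by linarith))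
    refine signs_piece3 hb hB ?_ ?_ xl (by linarith) ?_ ?_ ?_ ?_ (hB.adm_mid (hA i1).1.1 (hA i1).1.2) <;> linarith

/-- The signs for `1/12 < I ≤ 1/8`. -/
theorem signs_rangeM {n : ℕ} (h7 : 7 ≤ n) (hb : ChartBox n d S) (ha : (S - d) / 2 ≤ 31 / 100)
    (hF : ChartFacts d S u v t) {o : PtR} (ho : o = ptOf d S u v) (hI : 0 < o.I) (hI0 : 1 / 20 ≤ o.I)
    (hI7 : o.I ≤ 1 / 7) (hX : 0 < o.X) (ha' : o.a ≤ 31 / 100) (haI : o.I ≤ o.a) (ha0 : 0 < o.a)
    (hu0 : 0 < o.u) (u6 : o.u ≤ 3 / 5) (hXl : 1 < o.X * (1 + 2 * o.a * o.I))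
    (hex : ∀ B : ℝ, v * B < 2000 * ((1 - S) / 2) → o.X * B < 1000)
    (hsmall : u ≤ 3 / 20 →
      allLowG ((S - d) / 2) ((S + d) / 2) u v ≤ chH d S u v t ∧
        chH d S u v t ≤ midSmallUpG ((S - d) / 2) ((S + d) / 2) u v)
    (hA : (1 - S) / 2 ≤ 1 / 12 →
      (midBandG midLowA ((S - d) / 2) ((S + d) / 2) u v ≤ chH d S u v t ∧
        chH d S u v t ≤ midBandG midUpA ((S - d) / 2) ((S + d) / 2) u v) ∧
      v * midBracket midExitA ((1 - S) / 2) ((S - d) / 2) u < 2000 * ((1 - S) / 2))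
    (hM : 1 / 12 < (1 - S) / 2 → (1 - S) / 2 < 27 / 250 →
      (midBandG midLowB ((S - d) / 2) ((S + d) / 2) u v ≤ chH d S u v t ∧
        chH d S u v t ≤ midBandG midUpB ((S - d) / 2) ((S + d) / 2) u v) ∧
      v * midBracket midExitB ((1 - S) / 2) ((S - d) / 2) u < 2000 * ((1 - S) / 2))
    (hC : 27 / 250 ≤ (1 - S) / 2 →
      (midBandG midLowC ((S - d) / 2) ((S + d) / 2) u v ≤ chH d S u v t ∧
        chH d S u v t ≤ midBandG midUpC ((S - d) / 2) ((S + d) / 2) u v) ∧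
      v * midBracket midExitC ((1 - S) / 2) ((S - d) / 2) u < 2000 * ((1 - S) / 2))
    (d2e : o.I ≤ 1 / 8 → (S - d) * ((1 + S) / 2) ≤ S ^ 2) (i1 : 1 / 12 < o.I) (i8 : o.I ≤ 1 / 8) :
    ChartSigns d S u v t := by
  subst ho
  set o := ptOf d S u v with ho
  have eu : o.u = u := rfl
  have eI : o.I = (1 - S) / 2 := rfl
  rcases le_or_gt o.u (1 / 10) with u1 | u1
  ·
    have hB := BasicM.of_facts (z := false) hb h7 ha hF (d2e (by linarith))
    have xl : (23 / 25 : ℝ) ≤ o.X := X_low_mid (a₁ := 31 / 100) (I₁ := 1 / 8) hX hXl ha0.le (by linarith) hI.le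
      (by linarith) (by norm_num)
    have xr : o.X ≤ 61 / 50 := by
      rcases lt_or_ge o.I (27 / 250) with i2 | i2
      · refine X_high_mid hX (by norm_num) (by norm_num) (hex _ (hM i1 i2).2)
          (mexit4B_holds (o := o) ?_ ?_ ?_ ?_ ?_ ?_) <;> linarith
      · refine X_high_mid hX (by norm_num) (by norm_num) (hex _ (hC i2).2)
          (mexit4C_holds (o := o) ?_ ?_ ?_ ?_ ?_ ?_) <;> linarith
    refine signs_piece4 hb hB ?_ ?_ xl xr ?_ ?_ ?_ ?_ (hB.adm_small (hsmall (by linarith)).1 (hsmall (by linarith)).2) <;> linarith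
  rcases lt_or_ge o.I (27 / 250) with i2 | i2
  · rcases le_or_gt o.u (2 / 5) with u2 | u2
    ·
      have hB := BasicM.of_facts (z := false) hb h7 ha hF (d2e (by linarith))
      have xl : (23 / 25 : ℝ) ≤ o.X := X_low_mid (a₁ := 31 / 100) (I₁ := 27 / 250) hX hXl ha0.le (by linarith) hI.le
        (by linarith) (by norm_num)
      have xr : o.X ≤ 39 / 25 := X_high_mid hX (by norm_num) (by norm_num) (hex _ (hM i1 i2).2)
        (mexit5_holds (o := o) (by linarith) (by linarith) (by linarith) (by linarith) (by linarith) (by linarith))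
      refine signs_piece5 hb hB ?_ ?_ xl xr ?_ ?_ ?_ ?_ (hB.adm_mid (hM i1 i2).1.1 (hM i1 i2).1.2) <;> linarith
    ·
      have hB := BasicM.of_facts (z := false) hb h7 ha hF (d2e (by linarith))
      have xl : (23 / 25 : ℝ) ≤ o.X := X_low_mid (a₁ := 31 / 100) (I₁ := 27 / 250) hX hXl ha0.le (by linarith) hI.le
        (by linarith) (by norm_num)
      have xr : o.X ≤ 103 / 50 := X_high_mid hX (by norm_num) (by norm_num) (hex _ (hM i1 i2).2)
        (mexit6_holds (o := o) (by linarith) (by linarith) (by linarith) (by linarith) (by linarith) (by linarith))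
      refine signs_piece6 hb hB ?_ ?_ xl xr ?_ ?_ ?_ ?_ (hB.adm_mid (hM i1 i2).1.1 (hM i1 i2).1.2) <;> linarith
  · rcases le_or_gt o.u (19 / 50) with u2 | u2
    ·
      have hB := BasicM.of_facts (z := false) hb h7 ha hF (d2e (by linarith))
      have xl : (23 / 25 : ℝ) ≤ o.X := X_low_mid (a₁ := 31 / 100) (I₁ := 1 / 8) hX hXl ha0.le (by linarith) hI.le
        (by linarith) (by norm_num)
      have xr : o.X ≤ 79 / 50 := X_high_mid hX (by norm_num) (by norm_num) (hex _ (hC i2).2)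
        (mexit7_holds (o := o) (by linarith) (by linarith) (by linarith) (by linarith) (by linarith) (by linarith))
      refine signs_piece7 hb hB ?_ ?_ xl xr ?_ ?_ ?_ ?_ (hB.adm_mid (hC i2).1.1 (hC i2).1.2) <;> linarith
    ·
      have hB := BasicM.of_facts (z := false) hb h7 ha hF (d2e (by linarith))
      have xl : (23 / 25 : ℝ) ≤ o.X := X_low_mid (a₁ := 31 / 100) (I₁ := 1 / 8) hX hXl ha0.le (by linarith) hI.le
        (by linarith) (by norm_num)
      have xr : o.X ≤ 109 / 50 := X_high_mid hX (by norm_num) (by norm_num) (hex _ (hC i2).2)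
        (mexit8_holds (o := o) (by linarith) (by linarith) (by linarith) (by linarith) (by linarith) (by linarith))
      refine signs_piece8 hb hB ?_ ?_ xl xr ?_ ?_ ?_ ?_ (hB.adm_mid (hC i2).1.1 (hC i2).1.2) <;> linarith

/-- The signs on the piece 0 of `1/8 ≤ I ≤ 8/57`. -/
theorem signs_hpiece0 {n : ℕ} (hb : ChartBox n d S) (hB : BasicM false d S u v t)
    (u0 : 0 ≤ (ptOf d S u v).u)
    (u1 : (ptOf d S u v).u ≤ 2 / 25)
    (x0 : 9 / 10 ≤ (ptOf d S u v).X)
    (x1 : (ptOf d S u v).X ≤ 61 / 50)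
    (a0 : 1 / 8 ≤ (ptOf d S u v).a)
    (a1 : (ptOf d S u v).a ≤ 31 / 100)
    (i0 : 1 / 8 ≤ (ptOf d S u v).I)
    (i1 : (ptOf d S u v).I ≤ 8 / 57)
    (hA : (ptOf d S u v).Adm bandSmall (chH d S u v t)) : ChartSigns d S u v t := by
  refine Piece.AllHoldM.signs hb hB (hpiece0_holds ?_) hA
  refine PtR.InM.of_bounds ?_ ?_ ?_ ?_ <;> simp only [hbox0, InChart] <;> norm_num <;>
    (try constructor) <;> linarith

/-- The signs on the piece 1 of `1/8 ≤ I ≤ 8/57`. -/
theorem signs_hpiece1 {n : ℕ} (hb : ChartBox n d S) (hB : BasicM false d S u v t)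
    (u0 : 2 / 25 ≤ (ptOf d S u v).u)
    (u1 : (ptOf d S u v).u ≤ 2 / 5)
    (x0 : 9 / 10 ≤ (ptOf d S u v).X)
    (x1 : (ptOf d S u v).X ≤ 42 / 25)
    (a0 : 1 / 8 ≤ (ptOf d S u v).a)
    (a1 : (ptOf d S u v).a ≤ 31 / 100)
    (i0 : 1 / 8 ≤ (ptOf d S u v).I)
    (i1 : (ptOf d S u v).I ≤ 8 / 57)
    (hA : (ptOf d S u v).Adm (bandMid Band.midLowC Band.midUpC) (chH d S u v t)) : ChartSigns d S u v t := by
  refine Piece.AllHoldM.signs hb hB (hpiece1_holds ?_) hA
  refine PtR.InM.of_bounds ?_ ?_ ?_ ?_ <;> simp only [hbox1, InChart] <;> norm_num <;>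
    (try constructor) <;> linarith

/-- The signs on the piece 2 of `1/8 ≤ I ≤ 8/57`. -/
theorem signs_hpiece2 {n : ℕ} (hb : ChartBox n d S) (hB : BasicM false d S u v t)
    (u0 : 2 / 5 ≤ (ptOf d S u v).u)
    (u1 : (ptOf d S u v).u ≤ 3 / 5)
    (x0 : 47 / 50 ≤ (ptOf d S u v).X)
    (x1 : (ptOf d S u v).X ≤ 49 / 25)
    (a0 : 1 / 8 ≤ (ptOf d S u v).a)
    (a1 : (ptOf d S u v).a ≤ 1 / 5)
    (i0 : 1 / 8 ≤ (ptOf d S u v).I)
    (i1 : (ptOf d S u v).I ≤ 8 / 57)
    (hA : (ptOf d S u v).Adm (bandMid Band.midLowC Band.midUpC) (chH d S u v t)) : ChartSigns d S u v t := by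
  refine Piece.AllHoldM.signs hb hB (hpiece2_holds ?_) hA
  refine PtR.InM.of_bounds ?_ ?_ ?_ ?_ <;> simp only [hbox2, InChart] <;> norm_num <;>
    (try constructor) <;> linarith

/-- The signs on the piece 3 of `1/8 ≤ I ≤ 8/57`. -/
theorem signs_hpiece3 {n : ℕ} (hb : ChartBox n d S) (hB : BasicM false d S u v t)
    (u0 : 2 / 5 ≤ (ptOf d S u v).u)
    (u1 : (ptOf d S u v).u ≤ 3 / 5)
    (x0 : 9 / 10 ≤ (ptOf d S u v).X)
    (x1 : (ptOf d S u v).X ≤ 23 / 10)
    (a0 : 1 / 5 ≤ (ptOf d S u v).a)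
    (a1 : (ptOf d S u v).a ≤ 31 / 100)
    (i0 : 1 / 8 ≤ (ptOf d S u v).I)
    (i1 : (ptOf d S u v).I ≤ 8 / 57)
    (hA : (ptOf d S u v).Adm (bandMid Band.midLowC Band.midUpC) (chH d S u v t)) : ChartSigns d S u v t := by
  refine Piece.AllHoldM.signs hb hB (hpiece3_holds ?_) hA
  refine PtR.InM.of_bounds ?_ ?_ ?_ ?_ <;> simp only [hbox3, InChart] <;> norm_num <;>
    (try constructor) <;> linarith

/-- The signs on the piece 4 of `1/8 ≤ I ≤ 8/57`. -/
theorem signs_hpiece4 {n : ℕ} (hb : ChartBox n d S) (hB : BasicM true d S u v t)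
    (u0 : 0 ≤ (ptOf d S u v).u)
    (u1 : (ptOf d S u v).u ≤ 3 / 25)
    (x0 : 9 / 10 ≤ (ptOf d S u v).X)
    (x1 : (ptOf d S u v).X ≤ 63 / 50)
    (a0 : 3 / 10 ≤ (ptOf d S u v).a)
    (a1 : (ptOf d S u v).a ≤ 31 / 100)
    (i0 : 1 / 8 ≤ (ptOf d S u v).I)
    (i1 : (ptOf d S u v).I ≤ 8 / 57)
    (hA : (ptOf d S u v).Adm bandSmall (chH d S u v t)) : ChartSigns d S u v t := by
  refine Piece.AllHoldM.signs hb hB (hpiece4_holds ?_) hA
  refine PtR.InM.of_bounds ?_ ?_ ?_ ?_ <;> simp only [hbox4, InChart] <;> norm_num <;>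
    (try constructor) <;> linarith

/-- The signs on the piece 5 of `1/8 ≤ I ≤ 8/57`. -/
theorem signs_hpiece5 {n : ℕ} (hb : ChartBox n d S) (hB : BasicM true d S u v t)
    (u0 : 3 / 25 ≤ (ptOf d S u v).u)
    (u1 : (ptOf d S u v).u ≤ 3 / 5)
    (x0 : 9 / 10 ≤ (ptOf d S u v).X)
    (x1 : (ptOf d S u v).X ≤ 23 / 10)
    (a0 : 3 / 10 ≤ (ptOf d S u v).a)
    (a1 : (ptOf d S u v).a ≤ 31 / 100)
    (i0 : 1 / 8 ≤ (ptOf d S u v).I)
    (i1 : (ptOf d S u v).I ≤ 8 / 57)
    (hA : (ptOf d S u v).Adm (bandMid Band.midLowC Band.midUpC) (chH d S u v t)) : ChartSigns d S u v t := by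
  refine Piece.AllHoldM.signs hb hB (hpiece5_holds ?_) hA
  refine PtR.InM.of_bounds ?_ ?_ ?_ ?_ <;> simp only [hbox5, InChart] <;> norm_num <;>
    (try constructor) <;> linarith

/-- The signs for `1/8 < I ≤ 8/57`. -/
theorem signs_rangeH {n : ℕ} (h7 : 7 ≤ n) (hb : ChartBox n d S) (ha : (S - d) / 2 ≤ 31 / 100)
    (hF : ChartFacts d S u v t) {o : PtR} (ho : o = ptOf d S u v) (hI : 0 < o.I) (hI0 : 1 / 20 ≤ o.I)
    (hI7 : o.I ≤ 1 / 7) (hX : 0 < o.X) (ha' : o.a ≤ 31 / 100) (haI : o.I ≤ o.a) (ha0 : 0 < o.a)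
    (hu0 : 0 < o.u) (u6 : o.u ≤ 3 / 5) (hXl : 1 < o.X * (1 + 2 * o.a * o.I))
    (hex : ∀ B : ℝ, v * B < 2000 * ((1 - S) / 2) → o.X * B < 1000)
    (hsmall : u ≤ 3 / 20 →
      allLowG ((S - d) / 2) ((S + d) / 2) u v ≤ chH d S u v t ∧
        chH d S u v t ≤ midSmallUpG ((S - d) / 2) ((S + d) / 2) u v)
    (hA : (1 - S) / 2 ≤ 1 / 12 →
      (midBandG midLowA ((S - d) / 2) ((S + d) / 2) u v ≤ chH d S u v t ∧
        chH d S u v t ≤ midBandG midUpA ((S - d) / 2) ((S + d) / 2) u v) ∧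
      v * midBracket midExitA ((1 - S) / 2) ((S - d) / 2) u < 2000 * ((1 - S) / 2))
    (hM : 1 / 12 < (1 - S) / 2 → (1 - S) / 2 < 27 / 250 →
      (midBandG midLowB ((S - d) / 2) ((S + d) / 2) u v ≤ chH d S u v t ∧
        chH d S u v t ≤ midBandG midUpB ((S - d) / 2) ((S + d) / 2) u v) ∧
      v * midBracket midExitB ((1 - S) / 2) ((S - d) / 2) u < 2000 * ((1 - S) / 2))
    (hC : 27 / 250 ≤ (1 - S) / 2 →
      (midBandG midLowC ((S - d) / 2) ((S + d) / 2) u v ≤ chH d S u v t ∧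
        chH d S u v t ≤ midBandG midUpC ((S - d) / 2) ((S + d) / 2) u v) ∧
      v * midBracket midExitC ((1 - S) / 2) ((S - d) / 2) u < 2000 * ((1 - S) / 2))
    (i8 : 1 / 8 < o.I) (i9 : o.I ≤ 8 / 57) :
    ChartSigns d S u v t := by
  subst ho
  set o := ptOf d S u v with ho
  have eu : o.u = u := rfl
  have eI : o.I = (1 - S) / 2 := rfl
  have hd2 : (S - d) * ((1 + S) / 2) ≤ S ^ 2 ∨ S ^ 2 ≤ (S - d) * ((1 + S) / 2) := le_total _ _
  have i2 : 27 / 250 ≤ o.I := by linarith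
  have e1 : S - d = 2 * o.a := by simp only [ho, ptOf]; ring
  have e2 : S = 1 - 2 * o.I := by simp only [ho, ptOf]; ring
  rcases hd2 with d2 | d2
  · rcases le_or_gt o.u (2 / 25) with u1 | u1
    ·
      have hB := BasicM.of_facts (z := false) hb h7 ha hF d2
      have xl : (9 / 10 : ℝ) ≤ o.X := X_low_mid (a₁ := 31 / 100) (I₁ := 8 / 57) hX hXl ha0.le (by linarith)
        hI.le (by linarith) (by norm_num)
      have xr : o.X ≤ 61 / 50 := X_high_mid hX (by norm_num) (by norm_num) (hex _ (hC i2).2)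
        (hexit0_holds (o := o) (by linarith) (by linarith) (by linarith) (by linarith) (by linarith)
          (by linarith))
      refine signs_hpiece0 hb hB ?_ ?_ xl xr ?_ ?_ ?_ ?_ (hB.adm_small (hsmall (by linarith)).1 (hsmall (by linarith)).2) <;> linarith
    rcases le_or_gt o.u (2 / 5) with u2 | u2
    ·
      have hB := BasicM.of_facts (z := false) hb h7 ha hF d2
      have xl : (9 / 10 : ℝ) ≤ o.X := X_low_mid (a₁ := 31 / 100) (I₁ := 8 / 57) hX hXl ha0.le (by linarith)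
        hI.le (by linarith) (by norm_num)
      have xr : o.X ≤ 42 / 25 := X_high_mid hX (by norm_num) (by norm_num) (hex _ (hC i2).2)
        (hexit1_holds (o := o) (by linarith) (by linarith) (by linarith) (by linarith) (by linarith)
          (by linarith))
      refine signs_hpiece1 hb hB ?_ ?_ xl xr ?_ ?_ ?_ ?_ (hB.adm_mid (hC i2).1.1 (hC i2).1.2) <;> linarith
    rcases le_or_gt o.a (1 / 5) with a2 | a2
    ·
      have hB := BasicM.of_facts (z := false) hb h7 ha hF d2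
      have xl : (47 / 50 : ℝ) ≤ o.X := X_low_mid (a₁ := 1 / 5) (I₁ := 8 / 57) hX hXl ha0.le (by linarith)
        hI.le (by linarith) (by norm_num)
      have xr : o.X ≤ 49 / 25 := X_high_mid hX (by norm_num) (by norm_num) (hex _ (hC i2).2)
        (hexit2_holds (o := o) (by linarith) (by linarith) (by linarith) (by linarith) (by linarith)
          (by linarith))
      refine signs_hpiece2 hb hB ?_ ?_ xl xr ?_ ?_ ?_ ?_ (hB.adm_mid (hC i2).1.1 (hC i2).1.2) <;> linarith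
    ·
      have hB := BasicM.of_facts (z := false) hb h7 ha hF d2
      have xl : (9 / 10 : ℝ) ≤ o.X := X_low_mid (a₁ := 31 / 100) (I₁ := 8 / 57) hX hXl ha0.le (by linarith)
        hI.le (by linarith) (by norm_num)
      have xr : o.X ≤ 23 / 10 := X_high_mid hX (by norm_num) (by norm_num) (hex _ (hC i2).2)
        (hexit3_holds (o := o) (by linarith) (by linarith) (by linarith) (by linarith) (by linarith)
          (by linarith))
      refine signs_hpiece3 hb hB ?_ ?_ xl xr ?_ ?_ ?_ ?_ (hB.adm_mid (hC i2).1.1 (hC i2).1.2) <;> linarith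
  · have a3 : 3 / 10 ≤ o.a := by
      by_contra h
      rw [e1, e2] at d2
      have h1 := mul_lt_mul_of_pos_right (not_le.1 h) (show 0 < 1 - o.I by linarith)
      have h2 := mul_nonneg (sub_nonneg.2 i9) (show 0 ≤ 162 / 57 - 4 * o.I by linarith)
      linarith
    rcases le_or_gt o.u (3 / 25) with u1 | u1
    ·
      have hB := BasicM.of_facts (z := true) hb h7 ha hF d2
      have xl : (9 / 10 : ℝ) ≤ o.X := X_low_mid (a₁ := 31 / 100) (I₁ := 8 / 57) hX hXl ha0.le (by linarith)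
        hI.le (by linarith) (by norm_num)
      have xr : o.X ≤ 63 / 50 := X_high_mid hX (by norm_num) (by norm_num) (hex _ (hC i2).2)
        (hexit4_holds (o := o) (by linarith) (by linarith) (by linarith) (by linarith) (by linarith)
          (by linarith))
      refine signs_hpiece4 hb hB ?_ ?_ xl xr ?_ ?_ ?_ ?_ (hB.adm_small (hsmall (by linarith)).1 (hsmall (by linarith)).2) <;> linarith
    ·
      have hB := BasicM.of_facts (z := true) hb h7 ha hF d2
      have xl : (9 / 10 : ℝ) ≤ o.X := X_low_mid (a₁ := 31 / 100) (I₁ := 8 / 57) hX hXl ha0.le (by linarith)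
        hI.le (by linarith) (by norm_num)
      have xr : o.X ≤ 23 / 10 := X_high_mid hX (by norm_num) (by norm_num) (hex _ (hC i2).2)
        (hexit5_holds (o := o) (by linarith) (by linarith) (by linarith) (by linarith) (by linarith)
          (by linarith))
      refine signs_hpiece5 hb hB ?_ ?_ xl xr ?_ ?_ ?_ ?_ (hB.adm_mid (hC i2).1.1 (hC i2).1.2) <;> linarith

/-- The signs for `8/57 ≤ I`. -/
theorem signs_rangeC {n : ℕ} (h7 : 7 ≤ n) (hb : ChartBox n d S) (ha : (S - d) / 2 ≤ 31 / 100)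
    (hF : ChartFacts d S u v t) {o : PtR} (ho : o = ptOf d S u v) (hI : 0 < o.I) (hI0 : 1 / 20 ≤ o.I)
    (hI7 : o.I ≤ 1 / 7) (hX : 0 < o.X) (ha' : o.a ≤ 31 / 100) (haI : o.I ≤ o.a) (ha0 : 0 < o.a)
    (hu0 : 0 < o.u) (u6 : o.u ≤ 3 / 5) (hXl : 1 < o.X * (1 + 2 * o.a * o.I))
    (hex : ∀ B : ℝ, v * B < 2000 * ((1 - S) / 2) → o.X * B < 1000)
    (hsmall : u ≤ 3 / 20 →
      allLowG ((S - d) / 2) ((S + d) / 2) u v ≤ chH d S u v t ∧
        chH d S u v t ≤ midSmallUpG ((S - d) / 2) ((S + d) / 2) u v)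
    (hA : (1 - S) / 2 ≤ 1 / 12 →
      (midBandG midLowA ((S - d) / 2) ((S + d) / 2) u v ≤ chH d S u v t ∧
        chH d S u v t ≤ midBandG midUpA ((S - d) / 2) ((S + d) / 2) u v) ∧
      v * midBracket midExitA ((1 - S) / 2) ((S - d) / 2) u < 2000 * ((1 - S) / 2))
    (hM : 1 / 12 < (1 - S) / 2 → (1 - S) / 2 < 27 / 250 →
      (midBandG midLowB ((S - d) / 2) ((S + d) / 2) u v ≤ chH d S u v t ∧
        chH d S u v t ≤ midBandG midUpB ((S - d) / 2) ((S + d) / 2) u v) ∧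
      v * midBracket midExitB ((1 - S) / 2) ((S - d) / 2) u < 2000 * ((1 - S) / 2))
    (hC : 27 / 250 ≤ (1 - S) / 2 →
      (midBandG midLowC ((S - d) / 2) ((S + d) / 2) u v ≤ chH d S u v t ∧
        chH d S u v t ≤ midBandG midUpC ((S - d) / 2) ((S + d) / 2) u v) ∧
      v * midBracket midExitC ((1 - S) / 2) ((S - d) / 2) u < 2000 * ((1 - S) / 2))
    (i7 : 8 / 57 ≤ o.I) :
    ChartSigns d S u v t := by
  subst ho
  set o := ptOf d S u v with ho
  have eu : o.u = u := rfl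
  have eI : o.I = (1 - S) / 2 := rfl
  have hd2 : (S - d) * ((1 + S) / 2) ≤ S ^ 2 ∨ S ^ 2 ≤ (S - d) * ((1 + S) / 2) := le_total _ _
  have i2 : 27 / 250 ≤ o.I := by linarith
  have e1 : S - d = 2 * o.a := by simp only [ho, ptOf]; ring
  have e2 : S = 1 - 2 * o.I := by simp only [ho, ptOf]; ring
  rcases hd2 with d2 | d2
  · have a3 : o.a ≤ 301 / 1000 := by
      by_contra h
      rw [e1, e2] at d2
      have h1 := mul_lt_mul_of_pos_right (not_le.1 h) (show 0 < 1 - o.I by linarith)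
      have h2 := mul_nonneg (sub_nonneg.2 i7) (sub_nonneg.2 hI7)
      linarith
    rcases le_or_gt o.u (2 / 25) with u1 | u1
    ·
      have hB := BasicM.of_facts (z := false) hb h7 ha hF (d2)
      have xl : (23 / 25 : ℝ) ≤ o.X := X_low_mid (a₁ := 301 / 1000) (I₁ := 1 / 7) hX hXl ha0.le (by linarith) hI.le
        (by linarith) (by norm_num)
      have xr : o.X ≤ 61 / 50 := X_high_mid hX (by norm_num) (by norm_num) (hex _ (hC i2).2)
        (mexit9_holds (o := o) (by linarith) (by linarith) (by linarith) (by linarith) (by linarith) (by linarith))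
      refine signs_piece9 hb hB ?_ ?_ xl xr ?_ ?_ ?_ ?_ (hB.adm_small (hsmall (by linarith)).1 (hsmall (by linarith)).2) <;> linarith
    rcases le_or_gt o.u (2 / 5) with u2 | u2
    ·
      have hB := BasicM.of_facts (z := false) hb h7 ha hF (d2)
      have xl : (23 / 25 : ℝ) ≤ o.X := X_low_mid (a₁ := 301 / 1000) (I₁ := 1 / 7) hX hXl ha0.le (by linarith) hI.le
        (by linarith) (by norm_num)
      have xr : o.X ≤ 42 / 25 := X_high_mid hX (by norm_num) (by norm_num) (hex _ (hC i2).2)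
        (mexit10_holds (o := o) (by linarith) (by linarith) (by linarith) (by linarith) (by linarith) (by linarith))
      refine signs_piece10 hb hB ?_ ?_ xl xr ?_ ?_ ?_ ?_ (hB.adm_mid (hC i2).1.1 (hC i2).1.2) <;> linarith
    ·
      have hB := BasicM.of_facts (z := false) hb h7 ha hF (d2)
      have xl : (23 / 25 : ℝ) ≤ o.X := X_low_mid (a₁ := 301 / 1000) (I₁ := 1 / 7) hX hXl ha0.le (by linarith) hI.le
        (by linarith) (by norm_num)
      have xr : o.X ≤ 57 / 25 := X_high_mid hX (by norm_num) (by norm_num) (hex _ (hC i2).2)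
        (mexit11_holds (o := o) (by linarith) (by linarith) (by linarith) (by linarith) (by linarith) (by linarith))
      refine signs_piece11 hb hB ?_ ?_ xl xr ?_ ?_ ?_ ?_ (hB.adm_mid (hC i2).1.1 (hC i2).1.2) <;> linarith
  · have a3 : 119 / 400 ≤ o.a := by
      by_contra h
      rw [e1, e2] at d2
      have h1 := mul_lt_mul_of_pos_right (not_le.1 h) (show 0 < 1 - o.I by linarith)
      have h2 := sq_nonneg (o.I - 1 / 7)
      linarith
    rcases le_or_gt o.u (3 / 25) with u1 | u1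
    ·
      have hB := BasicM.of_facts (z := true) hb h7 ha hF (d2)
      have xl : (9 / 10 : ℝ) ≤ o.X := X_low_mid (a₁ := 31 / 100) (I₁ := 1 / 7) hX hXl ha0.le (by linarith) hI.le
        (by linarith) (by norm_num)
      have xr : o.X ≤ 32 / 25 := X_high_mid hX (by norm_num) (by norm_num) (hex _ (hC i2).2)
        (mexit12_holds (o := o) (by linarith) (by linarith) (by linarith) (by linarith) (by linarith) (by linarith))
      refine signs_piece12 hb hB ?_ ?_ xl xr ?_ ?_ ?_ ?_ (hB.adm_small (hsmall (by linarith)).1 (hsmall (by linarith)).2) <;> linarith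
    ·
      have hB := BasicM.of_facts (z := true) hb h7 ha hF (d2)
      have xl : (9 / 10 : ℝ) ≤ o.X := X_low_mid (a₁ := 31 / 100) (I₁ := 1 / 7) hX hXl ha0.le (by linarith) hI.le
        (by linarith) (by norm_num)
      have xr : o.X ≤ 58 / 25 := X_high_mid hX (by norm_num) (by norm_num) (hex _ (hC i2).2)
        (mexit13_holds (o := o) (by linarith) (by linarith) (by linarith) (by linarith) (by linarith) (by linarith))
      refine signs_piece13 hb hB ?_ ?_ xl xr ?_ ?_ ?_ ?_ (hB.adm_mid (hC i2).1.1 (hC i2).1.2) <;> linarith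

/-- **The closed signs on `0 < u ≤ 3/5`, dimensions from seven to twenty, `a ≤ 31/100`.** -/
theorem signsMidLow {n : ℕ} (h7 : 7 ≤ n) (h20 : n < 20) (hb : ChartBox n d S)
    (ha : (S - d) / 2 ≤ 31 / 100) (hu : u ≤ 3 / 5) (hF : ChartFacts d S u v t)
    (hsmall : u ≤ 3 / 20 →
      allLowG ((S - d) / 2) ((S + d) / 2) u v ≤ chH d S u v t ∧
        chH d S u v t ≤ midSmallUpG ((S - d) / 2) ((S + d) / 2) u v)
    (hA : (1 - S) / 2 ≤ 1 / 12 →
      (midBandG midLowA ((S - d) / 2) ((S + d) / 2) u v ≤ chH d S u v t ∧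
        chH d S u v t ≤ midBandG midUpA ((S - d) / 2) ((S + d) / 2) u v) ∧
      v * midBracket midExitA ((1 - S) / 2) ((S - d) / 2) u < 2000 * ((1 - S) / 2))
    (hM : 1 / 12 < (1 - S) / 2 → (1 - S) / 2 < 27 / 250 →
      (midBandG midLowB ((S - d) / 2) ((S + d) / 2) u v ≤ chH d S u v t ∧
        chH d S u v t ≤ midBandG midUpB ((S - d) / 2) ((S + d) / 2) u v) ∧
      v * midBracket midExitB ((1 - S) / 2) ((S - d) / 2) u < 2000 * ((1 - S) / 2))
    (hC : 27 / 250 ≤ (1 - S) / 2 →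
      (midBandG midLowC ((S - d) / 2) ((S + d) / 2) u v ≤ chH d S u v t ∧
        chH d S u v t ≤ midBandG midUpC ((S - d) / 2) ((S + d) / 2) u v) ∧
      v * midBracket midExitC ((1 - S) / 2) ((S - d) / 2) u < 2000 * ((1 - S) / 2)) :
    ChartSigns d S u v t := by
  have hS : 0 < 1 - S := sub_pos.2 hb.S_lt
  set o := ptOf d S u v with ho
  have hN1 : (n : ℝ) ≤ 19 := by
    have : n ≤ 19 := by omega
    exact_mod_cast this
  have dl : (n : ℝ) * (1 - S) < 2 := (lt_div_iff₀ hS).1 hb.dim_low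
  have dh : 2 < 20 * (1 - S) := (div_lt_iff₀ hS).1 (hb.dim_high (by omega))
  have eI : o.I = (1 - S) / 2 := rfl
  have eu : o.u = u := rfl
  have hn7 : (7 : ℝ) ≤ n := by exact_mod_cast h7
  have hI : 0 < o.I := by rw [eI]; linarith
  have hI0 : 1 / 20 ≤ o.I := by
    rw [eI]
    linarith
  have hI7 : o.I ≤ 1 / 7 := by
    rw [eI]; linarith [mul_le_mul_of_nonneg_right hn7 hS.le]
  have hk : 0 < 2 + (S - d) * (1 - S) := by
    have := mul_nonneg (show 0 ≤ S - d by linarith [hb.one, hb.S_lt]) hS.le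
    linarith
  have hv : 0 < v := pos_of_mul_pos_left ((mul_pos two_pos hS).trans hF.v_crit) hk.le
  have hX : 0 < o.X := div_pos hv hS
  have ha' : o.a ≤ 31 / 100 := ha
  have haI : o.I ≤ o.a := by simp only [ho, ptOf]; linarith [hb.one]
  have ha0 : 0 < o.a := by linarith
  have hu0 : 0 < o.u := hF.u_pos
  have eX : v = 2 * o.I * o.X := by
    have : 1 - S ≠ 0 := hS.ne'
    simp only [ho, ptOf]
    field_simp
  have hXl : 1 < o.X * (1 + 2 * o.a * o.I) := by
    refine lt_of_mul_lt_mul_left (a := 2 * (2 * o.I)) ?_ (by positivity)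
    have h := hF.v_crit
    rw [show 1 - S = 2 * o.I by simp only [ho, ptOf]; ring,
      show S - d = 2 * o.a by simp only [ho, ptOf]; ring, eX] at h
    linarith
  have hex : ∀ B : ℝ, v * B < 2000 * ((1 - S) / 2) → o.X * B < 1000 := by
    intro B h
    rw [← eI, eX] at h
    refine lt_of_mul_lt_mul_left (a := 2 * o.I) ?_ (by positivity)
    linarith
  have u6 : o.u ≤ 3 / 5 := hu
  have d2e : o.I ≤ 1 / 8 → (S - d) * ((1 + S) / 2) ≤ S ^ 2 := fun h => by
    have e1 : S - d = 2 * o.a := by simp only [ho, ptOf]; ring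
    have e2 : S = 1 - 2 * o.I := by simp only [ho, ptOf]; ring
    rw [e1, e2]
    have h1 := mul_le_mul_of_nonneg_right ha' (show 0 ≤ 1 - o.I by linarith)
    have h2 := mul_nonneg (sub_nonneg.2 h) (show 0 ≤ 72 / 25 - 4 * o.I by linarith)
    linarith
  rcases le_or_gt o.I (1 / 12) with i1 | i1
  · exact signs_rangeA h7 hb ha hF ho hI hI0 hI7 hX ha' haI ha0 hu0 u6 hXl hex hsmall hA hM hC d2e i1
  rcases le_or_gt o.I (1 / 8) with i8 | i8
  · exact signs_rangeM h7 hb ha hF ho hI hI0 hI7 hX ha' haI ha0 hu0 u6 hXl hex hsmall hA hM hC d2e i1 i8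
  rcases le_or_gt o.I (8 / 57) with i9 | i9
  · exact signs_rangeH h7 hb ha hF ho hI hI0 hI7 hX ha' haI ha0 hu0 u6 hXl hex hsmall hA hM hC i8 i9
  exact signs_rangeC h7 hb ha hF ho hI hI0 hI7 hX ha' haI ha0 hu0 u6 hXl hex hsmall hA hM hC i9.le

end

end Vale.Agent.P100.Calib.Closed.All.Low
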