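import Vale.Agent.P100.Calib.SlabMidSignsLow
import Vale.Agent.P100.Calib.SlabMidBands
import Vale.Agent.P100.Calib.SlabMidExit
import Vale.Agent.P100.Calib.SlabChartOrbitAll

/-!
# The closed signs along orbits up to `u = 3/5`, dimensions from seven to twenty

The hypothesis `1/(p + 1) ≤ 31/100` holds throughout.
-/

set_option linter.unusedVariables false

open Set Filter Topology

namespace Vale.Agent.P100.Calib.Band

open Vale.Agent.P100.Bubble Chart Closed

variable {N p q : ℝ} {S : Set ℝ} {R x y s dx dy : ℝ → ℝ}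

/-- **The closed signs on orbits at `0 < u ≤ 3/5`** in the dimensions from seven to twenty. -/
theorem orbit_signs_low_mid {n : ℕ} (h7 : 7 ≤ n) (h20 : n < 20) (hc : IsCrit N p q)
    (hf : IsOrbitFns N p q S R x y s dx dy)
    (hb : SlabBoxAll N (1 / (p + 1)) (1 / (q + 1)))
    (hcb : All.ChartBox n (1 / (q + 1) - 1 / (p + 1)) (1 / (p + 1) + 1 / (q + 1)))
    (ha : 1 / (p + 1) ≤ 31 / 100) {z : ℝ} (hz : z ∈ S) (hR : 0 < R z)
    (hu : uOf N (R z) (x z) ≤ 3 / 5) :
    All.ChartSigns (1 / (q + 1) - 1 / (p + 1)) (1 / (p + 1) + 1 / (q + 1)) (uOf N (R z) (x z))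
      (vOf (1 / (p + 1)) (1 / (q + 1)) (y z / x z)) (slopeAt N p q R x y dx dy z) := by
  have hlo := hcb.dim_low
  have hhi := hcb.dim_high (by omega)
  rw [← hb.dim_eq] at hlo hhi
  have n7 : (7 : ℝ) ≤ n := by exact_mod_cast h7
  have n19 : (n : ℝ) ≤ 19 := by
    have : n ≤ 19 := by omega
    exact_mod_cast this
  have N7 : 7 ≤ N := by linarith
  have N20 : N ≤ 20 := by linarith
  have hN : 0 < N := by linarith
  obtain ⟨-, -, hd, -⟩ := hb.facts
  have eI : (1 - (1 / (p + 1) + 1 / (q + 1))) / 2 = 1 / N := by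
    rw [div_eq_div_iff two_ne_zero hN.ne']
    linarith [hb.sum]
  obtain ⟨-, eH⟩ := slopeAt_eq_all hc hf hb hz hR.ne'
  have e1 : (1 / (p + 1) + 1 / (q + 1) - (1 / (q + 1) - 1 / (p + 1))) / 2 = 1 / (p + 1) := by ring
  have e2 : (1 / (p + 1) + 1 / (q + 1) + (1 / (q + 1) - 1 / (p + 1))) / 2 = 1 / (q + 1) := by ring
  have eq : chH (1 / (q + 1) - 1 / (p + 1)) (1 / (p + 1) + 1 / (q + 1)) (uOf N (R z) (x z))
      (vOf (1 / (p + 1)) (1 / (q + 1)) (y z / x z)) (slopeAt N p q R x y dx dy z) =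
      hOf N (R z) (x z) (y z) z / (1 / (q + 1) - 1 / (p + 1)) := by
    rw [eq_div_iff hd.ne', mul_comm]
    exact eH
  refine All.Low.signsMidLow h7 h20 hcb (by rw [e1]; exact ha) hu
    (chartFacts_orbit_all hc hf hb hz hR) (fun h => ?_) (fun h => ?_) (fun h g => ?_) (fun h => ?_)
  · rw [e1, e2, eq]
    exact ⟨(orbit_midSmall_low hf hb N7 N20 ha hz hR h).le,
      (orbit_midSmall_up hf hb N7 N20 ha hz hR h).le⟩
  · have h12 : 12 ≤ N := le_of_one_div_le_one_div hN (eI ▸ h)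
    have hx := orbit_midExitA hf hb h12 N20 ha hz hR (by linarith)
    simp only [allStabI] at hx
    rw [e1, e2, eq]
    exact ⟨⟨(orbit_midA hf hb h12 N20 ha hz hR).1.le, (orbit_midA hf hb h12 N20 ha hz hR).2.le⟩, hx⟩
  · rw [eI, div_lt_iff₀ hN] at g
    rw [eI, lt_div_iff₀ hN] at h
    have g9 : 250 / 27 < N := by linarith
    have g12 : N ≤ 12 := by linarith
    have hx := orbit_midExitB hf hb g9 g12 ha hz hR (by linarith)
    simp only [allStabI] at hx
    rw [e1, e2, eq]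
    exact ⟨⟨(orbit_midB hf hb g9 g12 ha hz hR).1.le, (orbit_midB hf hb g9 g12 ha hz hR).2.le⟩, hx⟩
  · rw [eI, le_div_iff₀ hN] at h
    have g9 : N ≤ 250 / 27 := by linarith
    have hx := orbit_midExitC hf hb N7 g9 ha hz hR (by linarith)
    simp only [allStabI] at hx
    rw [e1, e2, eq]
    exact ⟨⟨(orbit_midC hf hb N7 g9 ha hz hR).1.le, (orbit_midC hf hb N7 g9 ha hz hR).2.le⟩, hx⟩

end Vale.Agent.P100.Calib.Band
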