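import Vale.Agent.P100.Calib.SlabMidSignsExpr

/-!
# The pieces of the certificate of the signs on `0 < u ≤ 3/5`, dimensions from seven to twenty
-/


namespace Vale.Agent.P100.Calib.Closed.All.Low

/-- The piece 0: `u` in [0, 0.15], `a` in [0.05, 0.31]. -/
def mpiece0 : Piece where
  o := ⟨75, 1070, 180, 67⟩
  piL :=
    ⟨(-1509), (-8377), 5341, (-8808), (-5573), (-5915), (-16639), (-91890), (-7280),
     (-10550), 13022⟩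
  piU :=
    ⟨(-1034), (-2619), 5592, (-8399), 2181, (-2245), (-11656), 5700, (-7999), (-17412), 21261⟩
  om₀ :=
    ⟨(-9048), (-2278), (-477), 24885, 174414, (-15615), (-28739), (-106955), 62934, 60913,
     399910⟩
  om₁ :=
    ⟨(-9048), (-2278), (-477), 24885, 174414, (-15615), (-28739), (-106955), 62934, 60913,
     399910⟩
  tau₀ :=
    ⟨1284, (-897), (-88), 2655, 3025, (-27), 938, 1074, 170, (-1068), 15460⟩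
  tau₁ :=
    ⟨1284, (-897), (-88), 2655, 3025, (-27), 938, 1074, 170, (-1068), 15460⟩
  r₀ :=
    ⟨(-1370), (-6455), 5111⟩
  r₁ :=
    ⟨250, (-1402), 1841⟩
  m₀ :=
    ⟨(-503), 207, (-2056)⟩
  m₁ :=
    ⟨(-77), 2362, (-2041)⟩
  wom := 21968
  wtau := 133
  rA := 2780
  rB := 662
  rF := 557
  qa := 1000
  qb := 2160

/-- The piece 1: `u` in [0.15, 0.4], `a` in [0.05, 0.31]. -/
def mpiece1 : Piece where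
  o := ⟨275, 1240, 180, 67⟩
  piL :=
    ⟨(-1276), (-5010), 4842, (-12344), (-1899), (-3711), (-12658), 3181, (-9134), (-10123),
     29442⟩
  piU :=
    ⟨(-901), (-4323), 5014, (-12309), (-1826), (-2255), (-14594), (-9985), (-9016), (-14836),
     41504⟩
  om₀ :=
    ⟨(-17078), (-4894), (-3648), 5311, (-36019), (-775), (-30647), (-125328), 40526,
     (-15940), (-39663)⟩
  om₁ :=
    ⟨(-19455), 1076, (-4761), 3633, (-58740), (-5100), (-2663), (-39467), 37671, 8238,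
     (-48341)⟩
  tau₀ :=
    ⟨1074, (-1016), (-89), 2473, 3017, (-9), (-2285), 715, 191, (-1097), 16764⟩
  tau₁ :=
    ⟨1072, (-1024), (-90), 2473, 2995, (-17), (-2280), 636, 190, (-1086), 16743⟩
  r₀ :=
    ⟨(-1585), (-3583), 3465⟩
  r₁ :=
    ⟨606, (-1195), 2610⟩
  m₀ :=
    ⟨(-688), 652, (-1900)⟩
  m₁ :=
    ⟨(-105), 1932, (-1875)⟩
  wom := 3733
  wtau := 227
  rA := 3389
  rB := 1702
  rF := 1486
  qa := 1000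
  qb := 2773

/-- The piece 2: `u` in [0.4, 0.6], `a` in [0.05, 0.2]. -/
def mpiece2 : Piece where
  o := ⟨500, 1310, 125, 67⟩
  piL :=
    ⟨(-1154), (-5082), 4900, (-15778), (-7432), (-2661), (-11396), (-7365), (-11306),
     (-16999), 34337⟩
  piU :=
    ⟨(-708), (-4086), 4987, (-16883), (-7945), (-2295), (-22248), (-20762), (-10353),
     (-17233), 72068⟩
  om₀ :=
    ⟨(-18937), (-879), (-6706), 4610, (-40912), (-2904), (-28200), (-7542), 28498, (-11983),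
     4329⟩
  om₁ :=
    ⟨(-20212), (-597), (-6998), 6492, (-49866), (-349), (-3387), 8262, 28235, (-14011),
     (-99687)⟩
  tau₀ :=
    ⟨706, (-1128), (-97), 1873, 2193, (-5), (-1125), 15, 458, (-1253), 17842⟩
  tau₁ :=
    ⟨703, (-1140), (-97), 1869, 2150, (-8), (-1078), (-94), 504, (-1258), 15271⟩
  r₀ :=
    ⟨(-2309), (-8777), 3773⟩
  r₁ :=
    ⟨406, (-401), 4066⟩
  m₀ :=
    ⟨(-640), 656, (-1815)⟩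
  m₁ :=
    ⟨(-61), 1332, (-1674)⟩
  wom := 1194
  wtau := 73
  rA := 4967
  rB := 2065
  rF := 4012
  qa := 1000
  qb := 2988

/-- The piece 3: `u` in [0.4, 0.6], `a` in [0.2, 0.31]. -/
def mpiece3 : Piece where
  o := ⟨500, 1470, 255, 67⟩
  piL :=
    ⟨(-2815), (-7831), 3435, (-20070), (-3983), (-3148), (-24642), (-5010), (-10955),
     (-13721), 36501⟩
  piU :=
    ⟨(-2284), (-7233), 3692, (-17691), (-1304), (-2602), (-21290), (-4713), (-9826),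
     (-14335), 77782⟩
  om₀ :=
    ⟨(-18827), (-4791), (-2298), 7868, (-47937), (-3761), (-39362), 11636, 39871, 14671,
     39237⟩
  om₁ :=
    ⟨(-20530), (-2564), (-3157), (-4460), (-71237), (-4568), 13587, 14086, 32995, 8829,
     (-229250)⟩
  tau₀ :=
    ⟨1023, (-1257), (-78), 3290, 4656, (-12), (-559), 497, 98, (-922), 20000⟩
  tau₁ :=
    ⟨1019, (-1270), (-80), 3271, 4573, (-19), (-649), 212, 91, (-931), 19326⟩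
  r₀ :=
    ⟨(-2372), (-1013), 3948⟩
  r₁ :=
    ⟨223, (-618), 792⟩
  m₀ :=
    ⟨(-703), 1547, (-1715)⟩
  m₁ :=
    ⟨(-8), 2070, (-1569)⟩
  wom := 1787
  wtau := 124
  rA := 5032
  rB := 785
  rF := 808
  qa := 1000
  qb := 2400

/-- The piece 4: `u` in [0, 0.1], `a` in [0.08, 0.31]. -/
def mpiece4 : Piece where
  o := ⟨50, 1070, 195, 104⟩
  piL :=
    ⟨(-1589), (-13001), 4962, (-7925), (-5921), (-7015), (-15898), (-145066), (-7099),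
     (-11376), 8395⟩
  piU :=
    ⟨(-1014), (-2349), 5191, (-7477), 2684, (-2402), (-8321), 19719, (-7218), (-12042), 16876⟩
  om₀ :=
    ⟨4575, (-8440), 5923, 57616, 474668, (-28687), (-78671), (-255564), 115706, 93215,
     1079496⟩
  om₁ :=
    ⟨4575, (-8440), 5923, 57616, 474668, (-28687), (-78671), (-255564), 115706, 93215,
     1079496⟩
  tau₀ :=
    ⟨1488, (-832), (-120), 3446, 4624, (-46), 1821, 1001, 211, (-853), 47569⟩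
  tau₁ :=
    ⟨1488, (-832), (-120), 3446, 4624, (-46), 1821, 1001, 211, (-853), 47569⟩
  r₀ :=
    ⟨(-1294), (-8502), 4747⟩
  r₁ :=
    ⟨1753, 1686, (-684)⟩
  m₀ :=
    ⟨(-684), 117, (-2102)⟩
  m₁ :=
    ⟨(-162), 3218, (-2029)⟩
  wom := 60261
  wtau := 203
  rA := 2684
  rB := 2143
  rF := 5666
  qa := 1000
  qb := 2050

/-- The piece 5: `u` in [0.1, 0.4], `a` in [0.08, 0.31]. -/
def mpiece5 : Piece where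
  o := ⟨250, 1240, 195, 96⟩
  piL :=
    ⟨(-1350), (-4734), 4569, (-11233), (-929), (-3329), (-12510), 6743, (-9721), (-10828),
     23223⟩
  piU :=
    ⟨(-1014), (-4621), 4616, (-11344), (-979), (-2837), (-12938), 115, (-8198), (-10255),
     33401⟩
  om₀ :=
    ⟨(-17230), (-13513), (-3934), 435, (-29586), (-6925), (-62212), (-356664), 80840, 28513,
     (-39997)⟩
  om₁ :=
    ⟨(-21346), 914, (-4121), (-540), (-76672), (-8902), (-65267), (-78136), 52198, (-1054),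
     (-97312)⟩
  tau₀ :=
    ⟨1243, (-977), (-117), 2878, 4294, (-29), 49, 679, 88, (-1036), 19030⟩
  tau₁ :=
    ⟨1242, (-985), (-117), 2878, 4264, (-30), 53, 729, 73, (-1048), 18921⟩
  r₀ :=
    ⟨(-1581), (-1053), 4708⟩
  r₁ :=
    ⟨816, (-1211), (-8)⟩
  m₀ :=
    ⟨(-756), 796, (-1885)⟩
  m₁ :=
    ⟨(-253), 1332, (-1750)⟩
  wom := 6174
  wtau := 272
  rA := 3580
  rB := 1110
  rF := 3522
  qa := 1000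
  qb := 2621

/-- The piece 6: `u` in [0.4, 0.6], `a` in [0.08, 0.31]. -/
def mpiece6 : Piece where
  o := ⟨500, 1490, 195, 96⟩
  piL :=
    ⟨(-1774), (-7052), 3765, (-17442), (-3736), (-2730), (-15496), 16124, (-10507), (-13667),
     25833⟩
  piU :=
    ⟨(-1275), (-6091), 3867, (-17222), (-3447), (-2882), (-17586), (-6585), (-9295),
     (-11999), 69390⟩
  om₀ :=
    ⟨(-20761), (-2653), (-4783), 9668, (-62400), (-4235), (-37431), (-108836), 38773, 5086,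
     (-46195)⟩
  om₁ :=
    ⟨(-22703), (-1342), (-5238), 4381, (-80016), (-4838), (-1082), 19695, 40687, (-5462),
     (-28453)⟩
  tau₀ :=
    ⟨947, (-1206), (-119), 3259, 4159, (-23), (-703), (-127), 272, (-955), (-14525)⟩
  tau₁ :=
    ⟨941, (-1227), (-119), 3255, 4101, (-22), (-700), (-150), 258, (-973), (-15007)⟩
  r₀ :=
    ⟨(-3937), (-762), 6328⟩
  r₁ :=
    ⟨1312, 1109, 834⟩
  m₀ :=
    ⟨(-992), 1046, (-1710)⟩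
  m₁ :=
    ⟨(-175), 2513, (-1690)⟩
  wom := 4040
  wtau := 309
  rA := 8392
  rB := 2098
  rF := 8666
  qa := 1000
  qb := 3461

/-- The piece 7: `u` in [0.1, 0.38], `a` in [0.108, 0.31]. -/
def mpiece7 : Piece where
  o := ⟨240, 1250, 209, 116⟩
  piL :=
    ⟨(-1438), (-4921), 4236, (-10959), (-393), (-3254), (-11192), 6853, (-9359), (-12335),
     3644⟩
  piU :=
    ⟨(-1034), (-4692), 4334, (-10583), (-925), (-3160), (-12232), (-2736), (-7971), (-9547),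
     15047⟩
  om₀ :=
    ⟨(-17840), (-18564), (-1842), (-82), (-37719), (-18915), (-117316), (-494978), 100002,
     157303, 436546⟩
  om₁ :=
    ⟨(-23812), 1976, (-3337), (-7678), (-98424), (-10099), (-72133), 4863, 57692, 11253,
     (-100026)⟩
  tau₀ :=
    ⟨1402, (-944), (-130), 4106, 5652, (-40), 4054, 839, 408, (-874), 26775⟩
  tau₁ :=
    ⟨1399, (-956), (-131), 4104, 5624, (-41), 4005, 795, 414, (-764), 25668⟩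
  r₀ :=
    ⟨(-1420), (-888), 4230⟩
  r₁ :=
    ⟨1470, (-1197), (-1073)⟩
  m₀ :=
    ⟨(-817), 836, (-1888)⟩
  m₁ :=
    ⟨(-370), 1642, (-1925)⟩
  wom := 6927
  wtau := 198
  rA := 3244
  rB := 2201
  rF := 6440
  qa := 1000
  qb := 2478

/-- The piece 8: `u` in [0.38, 0.6], `a` in [0.108, 0.31]. -/
def mpiece8 : Piece where
  o := ⟨490, 1550, 209, 116⟩
  piL :=
    ⟨(-1879), (-7946), 3449, (-16966), (-2723), (-2900), (-14208), 16309, (-9629), (-14948),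
     (-7684)⟩
  piU :=
    ⟨(-1264), (-6648), 3517, (-17291), (-3969), (-3110), (-17917), 7464, (-8581), (-10842),
     45158⟩
  om₀ :=
    ⟨(-21914), (-2210), (-4239), 5025, (-76893), (-4987), (-96577), (-77773), 39398, 26922,
     85989⟩
  om₁ :=
    ⟨(-24872), (-288), (-4650), 7193, (-96689), (-3517), (-17394), (-156442), 42402, 3444,
     (-165937)⟩
  tau₀ :=
    ⟨1098, (-1198), (-134), 3627, 5533, (-34), (-870), (-137), 186, (-877), 28862⟩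
  tau₁ :=
    ⟨1090, (-1232), (-134), 3627, 5478, (-31), (-881), (-366), 164, (-941), 28054⟩
  r₀ :=
    ⟨(-2424), (-649), 3396⟩
  r₁ :=
    ⟨1422, (-786), (-1031)⟩
  m₀ :=
    ⟨(-1138), 1074, (-1687)⟩
  m₁ :=
    ⟨(-366), 2500, (-1712)⟩
  wom := 5047
  wtau := 355
  rA := 5108
  rB := 2383
  rF := 11634
  qa := 1000
  qb := 3419

/-- The piece 9: `u` in [0, 0.08], `a` in [0.14, 0.301]. -/
def mpiece9 : Piece where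
  o := ⟨40, 1070, 221, 142⟩
  piL :=
    ⟨(-1857), (-20204), 4659, (-7698), (-7842), (-4733), (-25726), (-233446), (-6335),
     (-12270), 1553⟩
  piU :=
    ⟨(-1112), (-2182), 4678, (-6561), 2638, (-4280), 2488, 22436, (-6375), (-16174), 26681⟩
  om₀ :=
    ⟨33182, (-20182), 13295, 134216, 1217696, (-9112), (-185096), (-1176050), 176807, 390654,
     3587181⟩
  om₁ :=
    ⟨33182, (-20182), 13295, 134216, 1217696, (-9112), (-185096), (-1176050), 176807, 390654,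
     3587181⟩
  tau₀ :=
    ⟨1828, (-746), (-137), 4908, 7605, (-71), (-8597), 1508, 535, (-519), 47790⟩
  tau₁ :=
    ⟨1828, (-746), (-137), 4908, 7605, (-71), (-8597), 1508, 535, (-519), 47790⟩
  r₀ :=
    ⟨(-507), (-4898), 2493⟩
  r₁ :=
    ⟨2921, 2802, (-2501)⟩
  m₀ :=
    ⟨(-692), 460, (-2074)⟩
  m₁ :=
    ⟨(-251), 4839, (-1962)⟩
  wom := 89271
  wtau := 154
  rA := 1194
  rB := 3758
  rF := 4410
  qa := 1000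
  qb := 1757

/-- The piece 10: `u` in [0.08, 0.4], `a` in [0.14, 0.301]. -/
def mpiece10 : Piece where
  o := ⟨240, 1300, 221, 142⟩
  piL :=
    ⟨(-1377), (-5123), 3785, (-11459), (-216), (-2954), (-10038), 6990, (-8590), (-6093),
     24080⟩
  piU :=
    ⟨(-969), (-5144), 4040, (-10792), 218, (-3021), (-14594), 736, (-8025), (-5183), 19665⟩
  om₀ :=
    ⟨(-17676), (-36054), 3736, 22993, (-44995), (-40870), (-301557), (-712171), 120300,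
     96560, (-165273)⟩
  om₁ :=
    ⟨(-27206), 7205, (-2765), (-18486), (-152317), (-11653), 99266, (-2181181), 65030,
     (-25969), (-4615373)⟩
  tau₀ :=
    ⟨1620, (-905), (-143), 5469, 7729, (-52), 5105, 1157, 420, (-547), 41558⟩
  tau₁ :=
    ⟨1617, (-918), (-145), 5474, 7713, (-58), 5145, 1109, 419, (-552), 41580⟩
  r₀ :=
    ⟨(-734), (-821), 2057⟩
  r₁ :=
    ⟨2409, (-1265), (-2374)⟩
  m₀ :=
    ⟨(-954), 884, (-1857)⟩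
  m₁ :=
    ⟨(-560), 1372, (-1774)⟩
  wom := 9115
  wtau := 183
  rA := 1821
  rB := 3874
  rF := 6148
  qa := 1000
  qb := 2420

/-- The piece 11: `u` in [0.4, 0.6], `a` in [0.14, 0.301]. -/
def mpiece11 : Piece where
  o := ⟨500, 1600, 221, 142⟩
  piL :=
    ⟨(-2006), (-8043), 2964, (-17660), (-3422), (-3504), (-17130), 4931, (-9050), (-9566),
     18881⟩
  piU :=
    ⟨(-1438), (-6819), 3178, (-16483), (-302), (-3432), (-11140), 75055, (-8141), (-5326),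
     92376⟩
  om₀ :=
    ⟨(-24787), (-2820), (-2957), 2786, (-100288), (-2314), (-107701), (-119408), 46696,
     22787, (-44424)⟩
  om₁ :=
    ⟨(-28200), (-1783), (-4323), (-11951), (-150454), (-2560), (-59444), 116737, 72449,
     (-15324), (-1848249)⟩
  tau₀ :=
    ⟨1309, (-1217), (-149), 5060, 7793, (-35), (-330), 417, 341, (-669), 43712⟩
  tau₁ :=
    ⟨1299, (-1258), (-152), 5035, 7626, (-42), (-513), (-1143), 326, (-830), 42807⟩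
  r₀ :=
    ⟨(-1219), (-3912), 946⟩
  r₁ :=
    ⟨2154, 985, (-1684)⟩
  m₀ :=
    ⟨(-1191), 1336, (-1665)⟩
  m₁ :=
    ⟨(-541), 2276, (-1672)⟩
  wom := 4319
  wtau := 315
  rA := 2488
  rB := 3747
  rF := 9191
  qa := 1000
  qb := 3284

/-- The piece 12: `u` in [0, 0.12], `a` in [0.2975, 0.31]. -/
def mpiece12 : Piece where
  o := ⟨60, 1090, 304, 142⟩
  piL :=
    ⟨(-2835), (-21991), 3789, (-8472), (-12505), (-9102), (-27298), (-246817), (-6957),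
     (-10255), (-94148)⟩
  piU :=
    ⟨(-1592), (-1646), 4061, (-5922), 5897, (-4577), 14109, 58852, (-6713), (-9188), 82881⟩
  om₀ :=
    ⟨44258, (-36699), 27990, 170380, 1514509, (-15302), (-383477), (-977169), 263388, 512170,
     5143965⟩
  om₁ :=
    ⟨44258, (-36699), 27990, 170380, 1514509, (-15302), (-383477), (-977169), 263388, 512170,
     5143965⟩
  tau₀ :=
    ⟨2314, (-458), (-73), 7509, 12516, (-52), 5957, 4958, 1100, 397, 76687⟩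
  tau₁ :=
    ⟨2314, (-458), (-73), 7509, 12516, (-52), 5957, 4958, 1100, 397, 76687⟩
  r₀ :=
    ⟨1834, (-2002), (-1438)⟩
  r₁ :=
    ⟨2901, 6160, (-1848)⟩
  m₀ :=
    ⟨(-688), 343, (-1989)⟩
  m₁ :=
    ⟨(-217), 5917, (-2028)⟩
  wom := 94210
  wtau := 29
  rA := 2460
  rB := 3994
  rF := 10
  qa := 1000
  qb := 1037

/-- The piece 13: `u` in [0.12, 0.6], `a` in [0.2975, 0.31]. -/
def mpiece13 : Piece where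
  o := ⟨360, 1610, 304, 142⟩
  piL :=
    ⟨(-2431), (-8127), 2702, (-14719), (-527), (-3400), (-9538), 4507, (-7653), (-5414),
     (-135754)⟩
  piU :=
    ⟨(-1708), (-7493), 2987, (-13752), 3429, (-3518), 10144, 21450, (-7383), (-3100), 80364⟩
  om₀ :=
    ⟨(-19470), (-31715), 8737, (-4497), (-90835), (-30596), (-265559), (-397802), 117884,
     117816, 5402039⟩
  om₁ :=
    ⟨(-29321), (-4782), 2019, (-48024), (-233760), (-14247), (-541701), (-190445), 78078,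
     16021, (-1632647)⟩
  tau₀ :=
    ⟨2061, (-776), (-83), 10217, 14601, (-41), 7478, 6607, 1065, 282, 131382⟩
  tau₁ :=
    ⟨2053, (-803), (-85), 10240, 14526, (-48), 7479, 6316, 1078, 240, 132010⟩
  r₀ :=
    ⟨925, (-665), (-912)⟩
  r₁ :=
    ⟨2317, 901, (-1288)⟩
  m₀ :=
    ⟨(-1256), 1688, (-1706)⟩
  m₁ :=
    ⟨(-729), 1790, (-1673)⟩
  wom := 5593
  wtau := 76
  rA := 1917
  rB := 3801
  rF := 10
  qa := 1000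
  qb := 1880

/-- The box of piece 0. -/
def mbox0 : ℕ → Pack.Chart
  | 0 => ⟨0, 3, 20, 20⟩
  | 1 => ⟨47, 60, 50, 50⟩
  | 2 => ⟨5, 31, 100, 100⟩
  | _ => ⟨3, 5, 60, 60⟩

/-- A part of the box of piece 0. -/
def mbox0_omU_lo_0 : ℕ → Pack.Chart
  | 0 => ⟨0, 3, 40, 40⟩
  | 1 => ⟨47, 60, 50, 50⟩
  | 2 => ⟨5, 31, 100, 100⟩
  | _ => ⟨3, 4, 60, 60⟩

/-- A part of the box of piece 0. -/
def mbox0_omU_lo_1 : ℕ → Pack.Chart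
  | 0 => ⟨3, 6, 40, 40⟩
  | 1 => ⟨47, 60, 50, 50⟩
  | 2 => ⟨5, 18, 100, 100⟩
  | _ => ⟨3, 4, 60, 60⟩

/-- A part of the box of piece 0. -/
def mbox0_omU_lo_2 : ℕ → Pack.Chart
  | 0 => ⟨3, 6, 40, 40⟩
  | 1 => ⟨47, 60, 50, 50⟩
  | 2 => ⟨18, 31, 100, 100⟩
  | _ => ⟨3, 4, 60, 60⟩

/-- A part of the box of piece 0. -/
def mbox0_omU_lo_3 : ℕ → Pack.Chart
  | 0 => ⟨0, 3, 20, 20⟩
  | 1 => ⟨47, 60, 50, 50⟩
  | 2 => ⟨5, 31, 100, 100⟩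
  | _ => ⟨4, 5, 60, 60⟩

/-- A part of the box of piece 0. -/
def mbox0_tauL_lo_0 : ℕ → Pack.Chart
  | 0 => ⟨0, 3, 20, 20⟩
  | 1 => ⟨47, 60, 50, 50⟩
  | 2 => ⟨5, 18, 100, 100⟩
  | _ => ⟨3, 5, 60, 60⟩

/-- A part of the box of piece 0. -/
def mbox0_tauL_lo_1 : ℕ → Pack.Chart
  | 0 => ⟨0, 3, 20, 20⟩
  | 1 => ⟨47, 60, 50, 50⟩
  | 2 => ⟨18, 31, 100, 100⟩
  | _ => ⟨3, 5, 60, 60⟩

/-- A part of the box of piece 0. -/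
def mbox0_tauL_hi_0 : ℕ → Pack.Chart
  | 0 => ⟨0, 3, 20, 20⟩
  | 1 => ⟨47, 60, 50, 50⟩
  | 2 => ⟨5, 18, 100, 100⟩
  | _ => ⟨3, 5, 60, 60⟩

/-- A part of the box of piece 0. -/
def mbox0_tauL_hi_1 : ℕ → Pack.Chart
  | 0 => ⟨0, 3, 20, 20⟩
  | 1 => ⟨47, 60, 50, 50⟩
  | 2 => ⟨18, 31, 100, 100⟩
  | _ => ⟨3, 5, 60, 60⟩

/-- The box of an exit curve. -/
def mexit0Box : ℕ → Pack.Chart
  | 0 => ⟨0, 3, 20, 20⟩
  | 1 => ⟨47, 60, 50, 50⟩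
  | 2 => ⟨5, 31, 100, 100⟩
  | _ => ⟨3, 5, 60, 60⟩

/-- The box of piece 1. -/
def mbox1 : ℕ → Pack.Chart
  | 0 => ⟨3, 8, 20, 20⟩
  | 1 => ⟨47, 77, 50, 50⟩
  | 2 => ⟨5, 31, 100, 100⟩
  | _ => ⟨3, 5, 60, 60⟩

/-- A part of the box of piece 1. -/
def mbox1_piL_lo_0 : ℕ → Pack.Chart
  | 0 => ⟨3, 8, 20, 20⟩
  | 1 => ⟨47, 77, 50, 50⟩
  | 2 => ⟨5, 18, 100, 100⟩
  | _ => ⟨3, 5, 60, 60⟩

/-- A part of the box of piece 1. -/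
def mbox1_piL_lo_1 : ℕ → Pack.Chart
  | 0 => ⟨3, 8, 20, 20⟩
  | 1 => ⟨47, 77, 50, 50⟩
  | 2 => ⟨18, 31, 100, 100⟩
  | _ => ⟨3, 4, 60, 60⟩

/-- A part of the box of piece 1. -/
def mbox1_piL_lo_2 : ℕ → Pack.Chart
  | 0 => ⟨3, 8, 20, 20⟩
  | 1 => ⟨47, 77, 50, 50⟩
  | 2 => ⟨18, 31, 100, 100⟩
  | _ => ⟨4, 5, 60, 60⟩

/-- A part of the box of piece 1. -/
def mbox1_piU_hi_0 : ℕ → Pack.Chart
  | 0 => ⟨3, 8, 20, 20⟩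
  | 1 => ⟨47, 77, 50, 50⟩
  | 2 => ⟨5, 18, 100, 100⟩
  | _ => ⟨3, 5, 60, 60⟩

/-- A part of the box of piece 1. -/
def mbox1_piU_hi_1 : ℕ → Pack.Chart
  | 0 => ⟨3, 8, 20, 20⟩
  | 1 => ⟨47, 77, 50, 50⟩
  | 2 => ⟨18, 31, 100, 100⟩
  | _ => ⟨3, 5, 60, 60⟩

/-- A part of the box of piece 1. -/
def mbox1_omU_lo_0 : ℕ → Pack.Chart
  | 0 => ⟨3, 8, 20, 20⟩
  | 1 => ⟨47, 77, 50, 50⟩
  | 2 => ⟨5, 18, 100, 100⟩
  | _ => ⟨3, 5, 60, 60⟩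

/-- A part of the box of piece 1. -/
def mbox1_omU_lo_1 : ℕ → Pack.Chart
  | 0 => ⟨3, 8, 20, 20⟩
  | 1 => ⟨47, 77, 50, 50⟩
  | 2 => ⟨18, 31, 100, 100⟩
  | _ => ⟨3, 5, 60, 60⟩

/-- A part of the box of piece 1. -/
def mbox1_omU_hi_0 : ℕ → Pack.Chart
  | 0 => ⟨3, 8, 20, 20⟩
  | 1 => ⟨47, 77, 50, 50⟩
  | 2 => ⟨5, 18, 100, 100⟩
  | _ => ⟨3, 5, 60, 60⟩

/-- A part of the box of piece 1. -/
def mbox1_omU_hi_1 : ℕ → Pack.Chart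
  | 0 => ⟨6, 11, 40, 40⟩
  | 1 => ⟨47, 77, 50, 50⟩
  | 2 => ⟨18, 31, 100, 100⟩
  | _ => ⟨3, 5, 60, 60⟩

/-- A part of the box of piece 1. -/
def mbox1_omU_hi_2 : ℕ → Pack.Chart
  | 0 => ⟨11, 16, 40, 40⟩
  | 1 => ⟨47, 77, 50, 50⟩
  | 2 => ⟨18, 31, 100, 100⟩
  | _ => ⟨3, 5, 60, 60⟩

/-- A part of the box of piece 1. -/
def mbox1_tauL_lo_0 : ℕ → Pack.Chart
  | 0 => ⟨3, 8, 20, 20⟩
  | 1 => ⟨47, 77, 50, 50⟩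
  | 2 => ⟨5, 18, 100, 100⟩
  | _ => ⟨3, 5, 60, 60⟩

/-- A part of the box of piece 1. -/
def mbox1_tauL_lo_1 : ℕ → Pack.Chart
  | 0 => ⟨3, 8, 20, 20⟩
  | 1 => ⟨47, 77, 50, 50⟩
  | 2 => ⟨18, 31, 100, 100⟩
  | _ => ⟨3, 5, 60, 60⟩

/-- A part of the box of piece 1. -/
def mbox1_tauL_hi_0 : ℕ → Pack.Chart
  | 0 => ⟨3, 8, 20, 20⟩
  | 1 => ⟨47, 77, 50, 50⟩
  | 2 => ⟨5, 18, 100, 100⟩
  | _ => ⟨3, 5, 60, 60⟩

/-- A part of the box of piece 1. -/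
def mbox1_tauL_hi_1 : ℕ → Pack.Chart
  | 0 => ⟨3, 8, 20, 20⟩
  | 1 => ⟨47, 77, 50, 50⟩
  | 2 => ⟨18, 31, 100, 100⟩
  | _ => ⟨3, 5, 60, 60⟩

/-- A part of the box of piece 1. -/
def mbox1_side_rF_0 : ℕ → Pack.Chart
  | 0 => ⟨3, 8, 20, 20⟩
  | 1 => ⟨47, 62, 50, 50⟩
  | 2 => ⟨5, 31, 100, 100⟩
  | _ => ⟨3, 5, 60, 60⟩

/-- A part of the box of piece 1. -/
def mbox1_side_rF_1 : ℕ → Pack.Chart
  | 0 => ⟨3, 8, 20, 20⟩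
  | 1 => ⟨124, 139, 100, 100⟩
  | 2 => ⟨5, 31, 100, 100⟩
  | _ => ⟨3, 5, 60, 60⟩

/-- A part of the box of piece 1. -/
def mbox1_side_rF_2 : ℕ → Pack.Chart
  | 0 => ⟨3, 8, 20, 20⟩
  | 1 => ⟨139, 154, 100, 100⟩
  | 2 => ⟨5, 31, 100, 100⟩
  | _ => ⟨3, 5, 60, 60⟩

/-- The box of an exit curve. -/
def mexit1Box : ℕ → Pack.Chart
  | 0 => ⟨3, 8, 20, 20⟩
  | 1 => ⟨47, 77, 50, 50⟩
  | 2 => ⟨5, 31, 100, 100⟩
  | _ => ⟨3, 5, 60, 60⟩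

/-- The box of piece 2. -/
def mbox2 : ℕ → Pack.Chart
  | 0 => ⟨2, 3, 5, 5⟩
  | 1 => ⟨48, 83, 50, 50⟩
  | 2 => ⟨1, 4, 20, 20⟩
  | _ => ⟨3, 5, 60, 60⟩

/-- A part of the box of piece 2. -/
def mbox2_piU_hi_0 : ℕ → Pack.Chart
  | 0 => ⟨2, 3, 5, 5⟩
  | 1 => ⟨48, 83, 50, 50⟩
  | 2 => ⟨2, 5, 40, 40⟩
  | _ => ⟨3, 5, 60, 60⟩

/-- A part of the box of piece 2. -/
def mbox2_piU_hi_1 : ℕ → Pack.Chart
  | 0 => ⟨2, 3, 5, 5⟩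
  | 1 => ⟨48, 83, 50, 50⟩
  | 2 => ⟨5, 8, 40, 40⟩
  | _ => ⟨3, 5, 60, 60⟩

/-- The box of an exit curve. -/
def mexit2Box : ℕ → Pack.Chart
  | 0 => ⟨2, 3, 5, 5⟩
  | 1 => ⟨48, 83, 50, 50⟩
  | 2 => ⟨1, 4, 20, 20⟩
  | _ => ⟨3, 5, 60, 60⟩

/-- The box of piece 3. -/
def mbox3 : ℕ → Pack.Chart
  | 0 => ⟨2, 3, 5, 5⟩
  | 1 => ⟨47, 100, 50, 50⟩
  | 2 => ⟨20, 31, 100, 100⟩
  | _ => ⟨3, 5, 60, 60⟩

/-- A part of the box of piece 3. -/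
def mbox3_piL_lo_0 : ℕ → Pack.Chart
  | 0 => ⟨2, 3, 5, 5⟩
  | 1 => ⟨94, 147, 100, 100⟩
  | 2 => ⟨20, 31, 100, 100⟩
  | _ => ⟨3, 4, 60, 60⟩

/-- A part of the box of piece 3. -/
def mbox3_piL_lo_1 : ℕ → Pack.Chart
  | 0 => ⟨4, 5, 10, 10⟩
  | 1 => ⟨147, 200, 100, 100⟩
  | 2 => ⟨20, 31, 100, 100⟩
  | _ => ⟨3, 4, 60, 60⟩

/-- A part of the box of piece 3. -/
def mbox3_piL_lo_2 : ℕ → Pack.Chart
  | 0 => ⟨5, 6, 10, 10⟩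
  | 1 => ⟨147, 200, 100, 100⟩
  | 2 => ⟨20, 31, 100, 100⟩
  | _ => ⟨6, 7, 120, 120⟩

/-- A part of the box of piece 3. -/
def mbox3_piL_lo_3 : ℕ → Pack.Chart
  | 0 => ⟨5, 6, 10, 10⟩
  | 1 => ⟨147, 200, 100, 100⟩
  | 2 => ⟨40, 51, 200, 200⟩
  | _ => ⟨7, 8, 120, 120⟩

/-- A part of the box of piece 3. -/
def mbox3_piL_lo_4 : ℕ → Pack.Chart
  | 0 => ⟨5, 6, 10, 10⟩
  | 1 => ⟨147, 200, 100, 100⟩
  | 2 => ⟨51, 62, 200, 200⟩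
  | _ => ⟨7, 8, 120, 120⟩

/-- A part of the box of piece 3. -/
def mbox3_piL_lo_5 : ℕ → Pack.Chart
  | 0 => ⟨4, 5, 10, 10⟩
  | 1 => ⟨47, 100, 50, 50⟩
  | 2 => ⟨20, 31, 100, 100⟩
  | _ => ⟨8, 9, 120, 120⟩

/-- A part of the box of piece 3. -/
def mbox3_piL_lo_6 : ℕ → Pack.Chart
  | 0 => ⟨5, 6, 10, 10⟩
  | 1 => ⟨47, 100, 50, 50⟩
  | 2 => ⟨40, 51, 200, 200⟩
  | _ => ⟨8, 9, 120, 120⟩

/-- A part of the box of piece 3. -/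
def mbox3_piL_lo_7 : ℕ → Pack.Chart
  | 0 => ⟨5, 6, 10, 10⟩
  | 1 => ⟨47, 100, 50, 50⟩
  | 2 => ⟨51, 62, 200, 200⟩
  | _ => ⟨8, 9, 120, 120⟩

/-- A part of the box of piece 3. -/
def mbox3_piL_lo_8 : ℕ → Pack.Chart
  | 0 => ⟨2, 3, 5, 5⟩
  | 1 => ⟨47, 100, 50, 50⟩
  | 2 => ⟨20, 31, 100, 100⟩
  | _ => ⟨9, 10, 120, 120⟩

/-- A part of the box of piece 3. -/
def mbox3_omU_lo_0 : ℕ → Pack.Chart
  | 0 => ⟨2, 3, 5, 5⟩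
  | 1 => ⟨47, 100, 50, 50⟩
  | 2 => ⟨40, 51, 200, 200⟩
  | _ => ⟨3, 5, 60, 60⟩

/-- A part of the box of piece 3. -/
def mbox3_omU_lo_1 : ℕ → Pack.Chart
  | 0 => ⟨2, 3, 5, 5⟩
  | 1 => ⟨47, 100, 50, 50⟩
  | 2 => ⟨51, 62, 200, 200⟩
  | _ => ⟨3, 5, 60, 60⟩

/-- A part of the box of piece 3. -/
def mbox3_omU_hi_0 : ℕ → Pack.Chart
  | 0 => ⟨2, 3, 5, 5⟩
  | 1 => ⟨47, 100, 50, 50⟩
  | 2 => ⟨40, 51, 200, 200⟩
  | _ => ⟨3, 5, 60, 60⟩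

/-- A part of the box of piece 3. -/
def mbox3_omU_hi_1 : ℕ → Pack.Chart
  | 0 => ⟨2, 3, 5, 5⟩
  | 1 => ⟨47, 100, 50, 50⟩
  | 2 => ⟨51, 62, 200, 200⟩
  | _ => ⟨3, 5, 60, 60⟩

/-- A part of the box of piece 3. -/
def mbox3_side_rF_0 : ℕ → Pack.Chart
  | 0 => ⟨2, 3, 5, 5⟩
  | 1 => ⟨94, 147, 100, 100⟩
  | 2 => ⟨20, 31, 100, 100⟩
  | _ => ⟨3, 5, 60, 60⟩

/-- A part of the box of piece 3. -/
def mbox3_side_rF_1 : ℕ → Pack.Chart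
  | 0 => ⟨2, 3, 5, 5⟩
  | 1 => ⟨294, 347, 200, 200⟩
  | 2 => ⟨20, 31, 100, 100⟩
  | _ => ⟨3, 5, 60, 60⟩

/-- A part of the box of piece 3. -/
def mbox3_side_rF_2 : ℕ → Pack.Chart
  | 0 => ⟨2, 3, 5, 5⟩
  | 1 => ⟨347, 400, 200, 200⟩
  | 2 => ⟨20, 31, 100, 100⟩
  | _ => ⟨3, 5, 60, 60⟩

/-- The box of an exit curve. -/
def mexit3Box : ℕ → Pack.Chart
  | 0 => ⟨2, 3, 5, 5⟩
  | 1 => ⟨47, 100, 50, 50⟩
  | 2 => ⟨20, 31, 100, 100⟩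
  | _ => ⟨3, 5, 60, 60⟩

/-- The box of piece 4. -/
def mbox4 : ℕ → Pack.Chart
  | 0 => ⟨0, 1, 10, 10⟩
  | 1 => ⟨46, 61, 50, 50⟩
  | 2 => ⟨8, 31, 100, 100⟩
  | _ => ⟨2, 3, 24, 24⟩

/-- A part of the box of piece 4. -/
def mbox4_omU_lo_0 : ℕ → Pack.Chart
  | 0 => ⟨0, 1, 20, 20⟩
  | 1 => ⟨46, 61, 50, 50⟩
  | 2 => ⟨8, 31, 100, 100⟩
  | _ => ⟨4, 5, 48, 48⟩

/-- A part of the box of piece 4. -/
def mbox4_omU_lo_1 : ℕ → Pack.Chart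
  | 0 => ⟨1, 2, 20, 20⟩
  | 1 => ⟨46, 61, 50, 50⟩
  | 2 => ⟨16, 39, 200, 200⟩
  | _ => ⟨4, 5, 48, 48⟩

/-- A part of the box of piece 4. -/
def mbox4_omU_lo_2 : ℕ → Pack.Chart
  | 0 => ⟨1, 2, 20, 20⟩
  | 1 => ⟨46, 61, 50, 50⟩
  | 2 => ⟨39, 62, 200, 200⟩
  | _ => ⟨4, 5, 48, 48⟩

/-- A part of the box of piece 4. -/
def mbox4_omU_lo_3 : ℕ → Pack.Chart
  | 0 => ⟨0, 1, 10, 10⟩
  | 1 => ⟨46, 61, 50, 50⟩
  | 2 => ⟨8, 31, 100, 100⟩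
  | _ => ⟨5, 6, 48, 48⟩

/-- A part of the box of piece 4. -/
def mbox4_tauL_lo_0 : ℕ → Pack.Chart
  | 0 => ⟨0, 1, 10, 10⟩
  | 1 => ⟨46, 61, 50, 50⟩
  | 2 => ⟨16, 39, 200, 200⟩
  | _ => ⟨2, 3, 24, 24⟩

/-- A part of the box of piece 4. -/
def mbox4_tauL_lo_1 : ℕ → Pack.Chart
  | 0 => ⟨0, 1, 10, 10⟩
  | 1 => ⟨46, 61, 50, 50⟩
  | 2 => ⟨39, 62, 200, 200⟩
  | _ => ⟨2, 3, 24, 24⟩

/-- A part of the box of piece 4. -/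
def mbox4_tauL_hi_0 : ℕ → Pack.Chart
  | 0 => ⟨0, 1, 10, 10⟩
  | 1 => ⟨46, 61, 50, 50⟩
  | 2 => ⟨16, 39, 200, 200⟩
  | _ => ⟨2, 3, 24, 24⟩

/-- A part of the box of piece 4. -/
def mbox4_tauL_hi_1 : ℕ → Pack.Chart
  | 0 => ⟨0, 1, 10, 10⟩
  | 1 => ⟨46, 61, 50, 50⟩
  | 2 => ⟨78, 101, 400, 400⟩
  | _ => ⟨2, 3, 24, 24⟩

/-- A part of the box of piece 4. -/
def mbox4_tauL_hi_2 : ℕ → Pack.Chart
  | 0 => ⟨0, 1, 10, 10⟩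
  | 1 => ⟨46, 61, 50, 50⟩
  | 2 => ⟨101, 124, 400, 400⟩
  | _ => ⟨2, 3, 24, 24⟩

/-- The box of an exit curve. -/
def mexit4BBox : ℕ → Pack.Chart
  | 0 => ⟨0, 1, 10, 10⟩
  | 1 => ⟨46, 61, 50, 50⟩
  | 2 => ⟨8, 31, 100, 100⟩
  | _ => ⟨125, 162, 1500, 1500⟩

/-- The box of an exit curve. -/
def mexit4CBox : ℕ → Pack.Chart
  | 0 => ⟨0, 1, 10, 10⟩
  | 1 => ⟨46, 61, 50, 50⟩
  | 2 => ⟨8, 31, 100, 100⟩
  | _ => ⟨108, 125, 1000, 1000⟩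

/-- The box of piece 5. -/
def mbox5 : ℕ → Pack.Chart
  | 0 => ⟨1, 4, 10, 10⟩
  | 1 => ⟨23, 39, 25, 25⟩
  | 2 => ⟨8, 31, 100, 100⟩
  | _ => ⟨125, 162, 1500, 1500⟩

/-- A part of the box of piece 5. -/
def mbox5_piU_hi_0 : ℕ → Pack.Chart
  | 0 => ⟨1, 4, 10, 10⟩
  | 1 => ⟨23, 39, 25, 25⟩
  | 2 => ⟨16, 39, 200, 200⟩
  | _ => ⟨125, 162, 1500, 1500⟩

/-- A part of the box of piece 5. -/
def mbox5_piU_hi_1 : ℕ → Pack.Chart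
  | 0 => ⟨1, 4, 10, 10⟩
  | 1 => ⟨23, 39, 25, 25⟩
  | 2 => ⟨39, 62, 200, 200⟩
  | _ => ⟨125, 162, 1500, 1500⟩

/-- A part of the box of piece 5. -/
def mbox5_omU_lo_0 : ℕ → Pack.Chart
  | 0 => ⟨1, 4, 10, 10⟩
  | 1 => ⟨23, 39, 25, 25⟩
  | 2 => ⟨16, 39, 200, 200⟩
  | _ => ⟨125, 162, 1500, 1500⟩

/-- A part of the box of piece 5. -/
def mbox5_omU_lo_1 : ℕ → Pack.Chart
  | 0 => ⟨1, 4, 10, 10⟩
  | 1 => ⟨23, 39, 25, 25⟩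
  | 2 => ⟨39, 62, 200, 200⟩
  | _ => ⟨125, 162, 1500, 1500⟩

/-- A part of the box of piece 5. -/
def mbox5_omU_hi_0 : ℕ → Pack.Chart
  | 0 => ⟨1, 4, 10, 10⟩
  | 1 => ⟨23, 39, 25, 25⟩
  | 2 => ⟨16, 39, 200, 200⟩
  | _ => ⟨125, 162, 1500, 1500⟩

/-- A part of the box of piece 5. -/
def mbox5_omU_hi_1 : ℕ → Pack.Chart
  | 0 => ⟨1, 4, 10, 10⟩
  | 1 => ⟨23, 39, 25, 25⟩
  | 2 => ⟨78, 101, 400, 400⟩
  | _ => ⟨125, 162, 1500, 1500⟩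

/-- A part of the box of piece 5. -/
def mbox5_omU_hi_2 : ℕ → Pack.Chart
  | 0 => ⟨1, 4, 10, 10⟩
  | 1 => ⟨23, 39, 25, 25⟩
  | 2 => ⟨101, 124, 400, 400⟩
  | _ => ⟨125, 162, 1500, 1500⟩

/-- A part of the box of piece 5. -/
def mbox5_tauL_lo_0 : ℕ → Pack.Chart
  | 0 => ⟨1, 4, 10, 10⟩
  | 1 => ⟨23, 39, 25, 25⟩
  | 2 => ⟨16, 39, 200, 200⟩
  | _ => ⟨125, 162, 1500, 1500⟩

/-- A part of the box of piece 5. -/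
def mbox5_tauL_lo_1 : ℕ → Pack.Chart
  | 0 => ⟨1, 4, 10, 10⟩
  | 1 => ⟨23, 39, 25, 25⟩
  | 2 => ⟨39, 62, 200, 200⟩
  | _ => ⟨125, 162, 1500, 1500⟩

/-- A part of the box of piece 5. -/
def mbox5_tauL_hi_0 : ℕ → Pack.Chart
  | 0 => ⟨1, 4, 10, 10⟩
  | 1 => ⟨23, 39, 25, 25⟩
  | 2 => ⟨16, 39, 200, 200⟩
  | _ => ⟨125, 162, 1500, 1500⟩

/-- A part of the box of piece 5. -/
def mbox5_tauL_hi_1 : ℕ → Pack.Chart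
  | 0 => ⟨1, 4, 10, 10⟩
  | 1 => ⟨23, 39, 25, 25⟩
  | 2 => ⟨39, 62, 200, 200⟩
  | _ => ⟨125, 162, 1500, 1500⟩

/-- The box of an exit curve. -/
def mexit5Box : ℕ → Pack.Chart
  | 0 => ⟨1, 4, 10, 10⟩
  | 1 => ⟨23, 39, 25, 25⟩
  | 2 => ⟨8, 31, 100, 100⟩
  | _ => ⟨125, 162, 1500, 1500⟩

/-- The box of piece 6. -/
def mbox6 : ℕ → Pack.Chart
  | 0 => ⟨2, 3, 5, 5⟩
  | 1 => ⟨46, 103, 50, 50⟩
  | 2 => ⟨8, 31, 100, 100⟩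
  | _ => ⟨125, 162, 1500, 1500⟩

/-- A part of the box of piece 6. -/
def mbox6_piL_lo_0 : ℕ → Pack.Chart
  | 0 => ⟨2, 3, 5, 5⟩
  | 1 => ⟨46, 103, 50, 50⟩
  | 2 => ⟨16, 39, 200, 200⟩
  | _ => ⟨125, 162, 1500, 1500⟩

/-- A part of the box of piece 6. -/
def mbox6_piL_lo_1 : ℕ → Pack.Chart
  | 0 => ⟨4, 5, 10, 10⟩
  | 1 => ⟨46, 103, 50, 50⟩
  | 2 => ⟨39, 62, 200, 200⟩
  | _ => ⟨125, 162, 1500, 1500⟩

/-- A part of the box of piece 6. -/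
def mbox6_piL_lo_2 : ℕ → Pack.Chart
  | 0 => ⟨5, 6, 10, 10⟩
  | 1 => ⟨46, 103, 50, 50⟩
  | 2 => ⟨78, 101, 400, 400⟩
  | _ => ⟨125, 162, 1500, 1500⟩

/-- A part of the box of piece 6. -/
def mbox6_piL_lo_3 : ℕ → Pack.Chart
  | 0 => ⟨10, 11, 20, 20⟩
  | 1 => ⟨46, 103, 50, 50⟩
  | 2 => ⟨101, 124, 400, 400⟩
  | _ => ⟨125, 162, 1500, 1500⟩

/-- A part of the box of piece 6. -/
def mbox6_piL_lo_4 : ℕ → Pack.Chart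
  | 0 => ⟨11, 12, 20, 20⟩
  | 1 => ⟨46, 103, 50, 50⟩
  | 2 => ⟨101, 124, 400, 400⟩
  | _ => ⟨250, 287, 3000, 3000⟩

/-- A part of the box of piece 6. -/
def mbox6_piL_lo_5 : ℕ → Pack.Chart
  | 0 => ⟨11, 12, 20, 20⟩
  | 1 => ⟨46, 103, 50, 50⟩
  | 2 => ⟨202, 225, 800, 800⟩
  | _ => ⟨287, 324, 3000, 3000⟩

/-- A part of the box of piece 6. -/
def mbox6_piL_lo_6 : ℕ → Pack.Chart
  | 0 => ⟨11, 12, 20, 20⟩
  | 1 => ⟨46, 103, 50, 50⟩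
  | 2 => ⟨225, 248, 800, 800⟩
  | _ => ⟨287, 324, 3000, 3000⟩

/-- A part of the box of piece 6. -/
def mbox6_piU_hi_0 : ℕ → Pack.Chart
  | 0 => ⟨2, 3, 5, 5⟩
  | 1 => ⟨46, 103, 50, 50⟩
  | 2 => ⟨32, 55, 400, 400⟩
  | _ => ⟨125, 162, 1500, 1500⟩

/-- A part of the box of piece 6. -/
def mbox6_piU_hi_1 : ℕ → Pack.Chart
  | 0 => ⟨2, 3, 5, 5⟩
  | 1 => ⟨46, 103, 50, 50⟩
  | 2 => ⟨55, 78, 400, 400⟩
  | _ => ⟨125, 162, 1500, 1500⟩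

/-- A part of the box of piece 6. -/
def mbox6_piU_hi_2 : ℕ → Pack.Chart
  | 0 => ⟨2, 3, 5, 5⟩
  | 1 => ⟨46, 103, 50, 50⟩
  | 2 => ⟨39, 62, 200, 200⟩
  | _ => ⟨125, 162, 1500, 1500⟩

/-- A part of the box of piece 6. -/
def mbox6_omU_lo_0 : ℕ → Pack.Chart
  | 0 => ⟨2, 3, 5, 5⟩
  | 1 => ⟨92, 149, 100, 100⟩
  | 2 => ⟨16, 39, 200, 200⟩
  | _ => ⟨125, 162, 1500, 1500⟩

/-- A part of the box of piece 6. -/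
def mbox6_omU_lo_1 : ℕ → Pack.Chart
  | 0 => ⟨2, 3, 5, 5⟩
  | 1 => ⟨149, 206, 100, 100⟩
  | 2 => ⟨16, 39, 200, 200⟩
  | _ => ⟨125, 162, 1500, 1500⟩

/-- A part of the box of piece 6. -/
def mbox6_omU_lo_2 : ℕ → Pack.Chart
  | 0 => ⟨2, 3, 5, 5⟩
  | 1 => ⟨92, 149, 100, 100⟩
  | 2 => ⟨78, 101, 400, 400⟩
  | _ => ⟨125, 162, 1500, 1500⟩

/-- A part of the box of piece 6. -/
def mbox6_omU_lo_3 : ℕ → Pack.Chart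
  | 0 => ⟨2, 3, 5, 5⟩
  | 1 => ⟨149, 206, 100, 100⟩
  | 2 => ⟨78, 101, 400, 400⟩
  | _ => ⟨125, 162, 1500, 1500⟩

/-- A part of the box of piece 6. -/
def mbox6_omU_lo_4 : ℕ → Pack.Chart
  | 0 => ⟨2, 3, 5, 5⟩
  | 1 => ⟨46, 103, 50, 50⟩
  | 2 => ⟨101, 124, 400, 400⟩
  | _ => ⟨125, 162, 1500, 1500⟩

/-- A part of the box of piece 6. -/
def mbox6_omU_hi_0 : ℕ → Pack.Chart
  | 0 => ⟨2, 3, 5, 5⟩
  | 1 => ⟨92, 149, 100, 100⟩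
  | 2 => ⟨16, 39, 200, 200⟩
  | _ => ⟨125, 162, 1500, 1500⟩

/-- A part of the box of piece 6. -/
def mbox6_omU_hi_1 : ℕ → Pack.Chart
  | 0 => ⟨2, 3, 5, 5⟩
  | 1 => ⟨149, 206, 100, 100⟩
  | 2 => ⟨16, 39, 200, 200⟩
  | _ => ⟨125, 162, 1500, 1500⟩

/-- A part of the box of piece 6. -/
def mbox6_omU_hi_2 : ℕ → Pack.Chart
  | 0 => ⟨2, 3, 5, 5⟩
  | 1 => ⟨92, 149, 100, 100⟩
  | 2 => ⟨78, 101, 400, 400⟩
  | _ => ⟨125, 162, 1500, 1500⟩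

/-- A part of the box of piece 6. -/
def mbox6_omU_hi_3 : ℕ → Pack.Chart
  | 0 => ⟨2, 3, 5, 5⟩
  | 1 => ⟨149, 206, 100, 100⟩
  | 2 => ⟨78, 101, 400, 400⟩
  | _ => ⟨125, 162, 1500, 1500⟩

/-- A part of the box of piece 6. -/
def mbox6_omU_hi_4 : ℕ → Pack.Chart
  | 0 => ⟨2, 3, 5, 5⟩
  | 1 => ⟨46, 103, 50, 50⟩
  | 2 => ⟨101, 124, 400, 400⟩
  | _ => ⟨125, 162, 1500, 1500⟩

/-- A part of the box of piece 6. -/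
def mbox6_tauL_lo_0 : ℕ → Pack.Chart
  | 0 => ⟨2, 3, 5, 5⟩
  | 1 => ⟨46, 103, 50, 50⟩
  | 2 => ⟨16, 39, 200, 200⟩
  | _ => ⟨125, 162, 1500, 1500⟩

/-- A part of the box of piece 6. -/
def mbox6_tauL_lo_1 : ℕ → Pack.Chart
  | 0 => ⟨2, 3, 5, 5⟩
  | 1 => ⟨46, 103, 50, 50⟩
  | 2 => ⟨78, 101, 400, 400⟩
  | _ => ⟨125, 162, 1500, 1500⟩

/-- A part of the box of piece 6. -/
def mbox6_tauL_lo_2 : ℕ → Pack.Chart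
  | 0 => ⟨2, 3, 5, 5⟩
  | 1 => ⟨46, 103, 50, 50⟩
  | 2 => ⟨101, 124, 400, 400⟩
  | _ => ⟨125, 162, 1500, 1500⟩

/-- A part of the box of piece 6. -/
def mbox6_tauL_hi_0 : ℕ → Pack.Chart
  | 0 => ⟨2, 3, 5, 5⟩
  | 1 => ⟨46, 103, 50, 50⟩
  | 2 => ⟨16, 39, 200, 200⟩
  | _ => ⟨125, 162, 1500, 1500⟩

/-- A part of the box of piece 6. -/
def mbox6_tauL_hi_1 : ℕ → Pack.Chart
  | 0 => ⟨2, 3, 5, 5⟩
  | 1 => ⟨46, 103, 50, 50⟩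
  | 2 => ⟨78, 101, 400, 400⟩
  | _ => ⟨125, 162, 1500, 1500⟩

/-- A part of the box of piece 6. -/
def mbox6_tauL_hi_2 : ℕ → Pack.Chart
  | 0 => ⟨2, 3, 5, 5⟩
  | 1 => ⟨46, 103, 50, 50⟩
  | 2 => ⟨101, 124, 400, 400⟩
  | _ => ⟨125, 162, 1500, 1500⟩

/-- The box of an exit curve. -/
def mexit6Box : ℕ → Pack.Chart
  | 0 => ⟨2, 3, 5, 5⟩
  | 1 => ⟨46, 103, 50, 50⟩
  | 2 => ⟨8, 31, 100, 100⟩
  | _ => ⟨125, 162, 1500, 1500⟩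

/-- The box of piece 7. -/
def mbox7 : ℕ → Pack.Chart
  | 0 => ⟨5, 19, 50, 50⟩
  | 1 => ⟨46, 79, 50, 50⟩
  | 2 => ⟨54, 155, 500, 500⟩
  | _ => ⟨108, 125, 1000, 1000⟩

/-- A part of the box of piece 7. -/
def mbox7_piU_hi_0 : ℕ → Pack.Chart
  | 0 => ⟨5, 19, 50, 50⟩
  | 1 => ⟨46, 79, 50, 50⟩
  | 2 => ⟨108, 209, 1000, 1000⟩
  | _ => ⟨108, 125, 1000, 1000⟩

/-- A part of the box of piece 7. -/
def mbox7_piU_hi_1 : ℕ → Pack.Chart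
  | 0 => ⟨5, 19, 50, 50⟩
  | 1 => ⟨46, 79, 50, 50⟩
  | 2 => ⟨209, 310, 1000, 1000⟩
  | _ => ⟨108, 125, 1000, 1000⟩

/-- A part of the box of piece 7. -/
def mbox7_omU_lo_0 : ℕ → Pack.Chart
  | 0 => ⟨5, 19, 50, 50⟩
  | 1 => ⟨46, 79, 50, 50⟩
  | 2 => ⟨108, 209, 1000, 1000⟩
  | _ => ⟨108, 125, 1000, 1000⟩

/-- A part of the box of piece 7. -/
def mbox7_omU_lo_1 : ℕ → Pack.Chart
  | 0 => ⟨5, 19, 50, 50⟩
  | 1 => ⟨46, 79, 50, 50⟩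
  | 2 => ⟨209, 310, 1000, 1000⟩
  | _ => ⟨108, 125, 1000, 1000⟩

/-- A part of the box of piece 7. -/
def mbox7_omU_hi_0 : ℕ → Pack.Chart
  | 0 => ⟨5, 12, 50, 50⟩
  | 1 => ⟨46, 79, 50, 50⟩
  | 2 => ⟨108, 209, 1000, 1000⟩
  | _ => ⟨108, 125, 1000, 1000⟩

/-- A part of the box of piece 7. -/
def mbox7_omU_hi_1 : ℕ → Pack.Chart
  | 0 => ⟨12, 19, 50, 50⟩
  | 1 => ⟨46, 79, 50, 50⟩
  | 2 => ⟨108, 209, 1000, 1000⟩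
  | _ => ⟨108, 125, 1000, 1000⟩

/-- A part of the box of piece 7. -/
def mbox7_omU_hi_2 : ℕ → Pack.Chart
  | 0 => ⟨5, 19, 50, 50⟩
  | 1 => ⟨46, 79, 50, 50⟩
  | 2 => ⟨209, 310, 1000, 1000⟩
  | _ => ⟨108, 125, 1000, 1000⟩

/-- A part of the box of piece 7. -/
def mbox7_tauL_lo_0 : ℕ → Pack.Chart
  | 0 => ⟨5, 19, 50, 50⟩
  | 1 => ⟨46, 79, 50, 50⟩
  | 2 => ⟨108, 209, 1000, 1000⟩
  | _ => ⟨108, 125, 1000, 1000⟩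

/-- A part of the box of piece 7. -/
def mbox7_tauL_lo_1 : ℕ → Pack.Chart
  | 0 => ⟨5, 19, 50, 50⟩
  | 1 => ⟨46, 79, 50, 50⟩
  | 2 => ⟨418, 519, 2000, 2000⟩
  | _ => ⟨108, 125, 1000, 1000⟩

/-- A part of the box of piece 7. -/
def mbox7_tauL_lo_2 : ℕ → Pack.Chart
  | 0 => ⟨5, 19, 50, 50⟩
  | 1 => ⟨46, 79, 50, 50⟩
  | 2 => ⟨519, 620, 2000, 2000⟩
  | _ => ⟨108, 125, 1000, 1000⟩

/-- A part of the box of piece 7. -/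
def mbox7_tauL_hi_0 : ℕ → Pack.Chart
  | 0 => ⟨5, 19, 50, 50⟩
  | 1 => ⟨46, 79, 50, 50⟩
  | 2 => ⟨108, 209, 1000, 1000⟩
  | _ => ⟨108, 125, 1000, 1000⟩

/-- A part of the box of piece 7. -/
def mbox7_tauL_hi_1 : ℕ → Pack.Chart
  | 0 => ⟨5, 19, 50, 50⟩
  | 1 => ⟨46, 79, 50, 50⟩
  | 2 => ⟨418, 519, 2000, 2000⟩
  | _ => ⟨108, 125, 1000, 1000⟩

/-- A part of the box of piece 7. -/
def mbox7_tauL_hi_2 : ℕ → Pack.Chart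
  | 0 => ⟨5, 19, 50, 50⟩
  | 1 => ⟨46, 79, 50, 50⟩
  | 2 => ⟨519, 620, 2000, 2000⟩
  | _ => ⟨108, 125, 1000, 1000⟩

/-- The box of an exit curve. -/
def mexit7Box : ℕ → Pack.Chart
  | 0 => ⟨5, 19, 50, 50⟩
  | 1 => ⟨46, 79, 50, 50⟩
  | 2 => ⟨54, 155, 500, 500⟩
  | _ => ⟨108, 125, 1000, 1000⟩

/-- The box of piece 8. -/
def mbox8 : ℕ → Pack.Chart
  | 0 => ⟨19, 30, 50, 50⟩
  | 1 => ⟨46, 109, 50, 50⟩
  | 2 => ⟨54, 155, 500, 500⟩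
  | _ => ⟨108, 125, 1000, 1000⟩

/-- A part of the box of piece 8. -/
def mbox8_piL_lo_0 : ℕ → Pack.Chart
  | 0 => ⟨19, 30, 50, 50⟩
  | 1 => ⟨46, 109, 50, 50⟩
  | 2 => ⟨108, 209, 1000, 1000⟩
  | _ => ⟨108, 125, 1000, 1000⟩

/-- A part of the box of piece 8. -/
def mbox8_piL_lo_1 : ℕ → Pack.Chart
  | 0 => ⟨38, 49, 100, 100⟩
  | 1 => ⟨46, 109, 50, 50⟩
  | 2 => ⟨209, 310, 1000, 1000⟩
  | _ => ⟨108, 125, 1000, 1000⟩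

/-- A part of the box of piece 8. -/
def mbox8_piL_lo_2 : ℕ → Pack.Chart
  | 0 => ⟨49, 60, 100, 100⟩
  | 1 => ⟨46, 109, 50, 50⟩
  | 2 => ⟨418, 519, 2000, 2000⟩
  | _ => ⟨108, 125, 1000, 1000⟩

/-- A part of the box of piece 8. -/
def mbox8_piL_lo_3 : ℕ → Pack.Chart
  | 0 => ⟨49, 60, 100, 100⟩
  | 1 => ⟨46, 109, 50, 50⟩
  | 2 => ⟨519, 620, 2000, 2000⟩
  | _ => ⟨108, 125, 1000, 1000⟩

/-- A part of the box of piece 8. -/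
def mbox8_piU_hi_0 : ℕ → Pack.Chart
  | 0 => ⟨19, 30, 50, 50⟩
  | 1 => ⟨46, 109, 50, 50⟩
  | 2 => ⟨216, 317, 2000, 2000⟩
  | _ => ⟨108, 125, 1000, 1000⟩

/-- A part of the box of piece 8. -/
def mbox8_piU_hi_1 : ℕ → Pack.Chart
  | 0 => ⟨38, 49, 100, 100⟩
  | 1 => ⟨46, 109, 50, 50⟩
  | 2 => ⟨317, 418, 2000, 2000⟩
  | _ => ⟨108, 125, 1000, 1000⟩

/-- A part of the box of piece 8. -/
def mbox8_piU_hi_2 : ℕ → Pack.Chart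
  | 0 => ⟨49, 60, 100, 100⟩
  | 1 => ⟨92, 155, 100, 100⟩
  | 2 => ⟨317, 418, 2000, 2000⟩
  | _ => ⟨108, 125, 1000, 1000⟩

/-- A part of the box of piece 8. -/
def mbox8_piU_hi_3 : ℕ → Pack.Chart
  | 0 => ⟨49, 60, 100, 100⟩
  | 1 => ⟨155, 218, 100, 100⟩
  | 2 => ⟨317, 418, 2000, 2000⟩
  | _ => ⟨108, 125, 1000, 1000⟩

/-- A part of the box of piece 8. -/
def mbox8_piU_hi_4 : ℕ → Pack.Chart
  | 0 => ⟨19, 30, 50, 50⟩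
  | 1 => ⟨46, 109, 50, 50⟩
  | 2 => ⟨209, 310, 1000, 1000⟩
  | _ => ⟨108, 125, 1000, 1000⟩

/-- A part of the box of piece 8. -/
def mbox8_omU_lo_0 : ℕ → Pack.Chart
  | 0 => ⟨38, 49, 100, 100⟩
  | 1 => ⟨92, 155, 100, 100⟩
  | 2 => ⟨216, 317, 2000, 2000⟩
  | _ => ⟨108, 125, 1000, 1000⟩

/-- A part of the box of piece 8. -/
def mbox8_omU_lo_1 : ℕ → Pack.Chart
  | 0 => ⟨38, 49, 100, 100⟩
  | 1 => ⟨155, 218, 100, 100⟩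
  | 2 => ⟨216, 317, 2000, 2000⟩
  | _ => ⟨108, 125, 1000, 1000⟩

/-- A part of the box of piece 8. -/
def mbox8_omU_lo_2 : ℕ → Pack.Chart
  | 0 => ⟨49, 60, 100, 100⟩
  | 1 => ⟨46, 109, 50, 50⟩
  | 2 => ⟨216, 317, 2000, 2000⟩
  | _ => ⟨108, 125, 1000, 1000⟩

/-- A part of the box of piece 8. -/
def mbox8_omU_lo_3 : ℕ → Pack.Chart
  | 0 => ⟨19, 30, 50, 50⟩
  | 1 => ⟨92, 155, 100, 100⟩
  | 2 => ⟨317, 418, 2000, 2000⟩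
  | _ => ⟨108, 125, 1000, 1000⟩

/-- A part of the box of piece 8. -/
def mbox8_omU_lo_4 : ℕ → Pack.Chart
  | 0 => ⟨19, 30, 50, 50⟩
  | 1 => ⟨155, 218, 100, 100⟩
  | 2 => ⟨317, 418, 2000, 2000⟩
  | _ => ⟨108, 125, 1000, 1000⟩

/-- A part of the box of piece 8. -/
def mbox8_omU_lo_5 : ℕ → Pack.Chart
  | 0 => ⟨19, 30, 50, 50⟩
  | 1 => ⟨92, 155, 100, 100⟩
  | 2 => ⟨209, 310, 1000, 1000⟩
  | _ => ⟨108, 125, 1000, 1000⟩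

/-- A part of the box of piece 8. -/
def mbox8_omU_lo_6 : ℕ → Pack.Chart
  | 0 => ⟨19, 30, 50, 50⟩
  | 1 => ⟨155, 218, 100, 100⟩
  | 2 => ⟨209, 310, 1000, 1000⟩
  | _ => ⟨108, 125, 1000, 1000⟩

/-- A part of the box of piece 8. -/
def mbox8_omU_hi_0 : ℕ → Pack.Chart
  | 0 => ⟨19, 30, 50, 50⟩
  | 1 => ⟨92, 155, 100, 100⟩
  | 2 => ⟨216, 317, 2000, 2000⟩
  | _ => ⟨108, 125, 1000, 1000⟩

/-- A part of the box of piece 8. -/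
def mbox8_omU_hi_1 : ℕ → Pack.Chart
  | 0 => ⟨19, 30, 50, 50⟩
  | 1 => ⟨155, 218, 100, 100⟩
  | 2 => ⟨216, 317, 2000, 2000⟩
  | _ => ⟨108, 125, 1000, 1000⟩

/-- A part of the box of piece 8. -/
def mbox8_omU_hi_2 : ℕ → Pack.Chart
  | 0 => ⟨38, 49, 100, 100⟩
  | 1 => ⟨92, 155, 100, 100⟩
  | 2 => ⟨317, 418, 2000, 2000⟩
  | _ => ⟨108, 125, 1000, 1000⟩

/-- A part of the box of piece 8. -/
def mbox8_omU_hi_3 : ℕ → Pack.Chart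
  | 0 => ⟨49, 60, 100, 100⟩
  | 1 => ⟨92, 155, 100, 100⟩
  | 2 => ⟨317, 418, 2000, 2000⟩
  | _ => ⟨108, 125, 1000, 1000⟩

/-- A part of the box of piece 8. -/
def mbox8_omU_hi_4 : ℕ → Pack.Chart
  | 0 => ⟨19, 30, 50, 50⟩
  | 1 => ⟨155, 218, 100, 100⟩
  | 2 => ⟨317, 418, 2000, 2000⟩
  | _ => ⟨108, 125, 1000, 1000⟩

/-- A part of the box of piece 8. -/
def mbox8_omU_hi_5 : ℕ → Pack.Chart
  | 0 => ⟨19, 30, 50, 50⟩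
  | 1 => ⟨92, 155, 100, 100⟩
  | 2 => ⟨209, 310, 1000, 1000⟩
  | _ => ⟨108, 125, 1000, 1000⟩

/-- A part of the box of piece 8. -/
def mbox8_omU_hi_6 : ℕ → Pack.Chart
  | 0 => ⟨19, 30, 50, 50⟩
  | 1 => ⟨155, 218, 100, 100⟩
  | 2 => ⟨209, 310, 1000, 1000⟩
  | _ => ⟨108, 125, 1000, 1000⟩

/-- A part of the box of piece 8. -/
def mbox8_tauL_lo_0 : ℕ → Pack.Chart
  | 0 => ⟨19, 30, 50, 50⟩
  | 1 => ⟨46, 109, 50, 50⟩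
  | 2 => ⟨216, 317, 2000, 2000⟩
  | _ => ⟨108, 125, 1000, 1000⟩

/-- A part of the box of piece 8. -/
def mbox8_tauL_lo_1 : ℕ → Pack.Chart
  | 0 => ⟨19, 30, 50, 50⟩
  | 1 => ⟨46, 109, 50, 50⟩
  | 2 => ⟨317, 418, 2000, 2000⟩
  | _ => ⟨108, 125, 1000, 1000⟩

/-- A part of the box of piece 8. -/
def mbox8_tauL_lo_2 : ℕ → Pack.Chart
  | 0 => ⟨19, 30, 50, 50⟩
  | 1 => ⟨46, 109, 50, 50⟩
  | 2 => ⟨209, 310, 1000, 1000⟩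
  | _ => ⟨108, 125, 1000, 1000⟩

/-- A part of the box of piece 8. -/
def mbox8_tauL_hi_0 : ℕ → Pack.Chart
  | 0 => ⟨19, 30, 50, 50⟩
  | 1 => ⟨46, 109, 50, 50⟩
  | 2 => ⟨216, 317, 2000, 2000⟩
  | _ => ⟨108, 125, 1000, 1000⟩

/-- A part of the box of piece 8. -/
def mbox8_tauL_hi_1 : ℕ → Pack.Chart
  | 0 => ⟨19, 30, 50, 50⟩
  | 1 => ⟨46, 109, 50, 50⟩
  | 2 => ⟨317, 418, 2000, 2000⟩
  | _ => ⟨108, 125, 1000, 1000⟩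

/-- A part of the box of piece 8. -/
def mbox8_tauL_hi_2 : ℕ → Pack.Chart
  | 0 => ⟨19, 30, 50, 50⟩
  | 1 => ⟨46, 109, 50, 50⟩
  | 2 => ⟨209, 310, 1000, 1000⟩
  | _ => ⟨108, 125, 1000, 1000⟩

/-- The box of an exit curve. -/
def mexit8Box : ℕ → Pack.Chart
  | 0 => ⟨19, 30, 50, 50⟩
  | 1 => ⟨46, 109, 50, 50⟩
  | 2 => ⟨54, 155, 500, 500⟩
  | _ => ⟨108, 125, 1000, 1000⟩

/-- The box of piece 9. -/
def mbox9 : ℕ → Pack.Chart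
  | 0 => ⟨0, 2, 25, 25⟩
  | 1 => ⟨46, 61, 50, 50⟩
  | 2 => ⟨140, 301, 1000, 1000⟩
  | _ => ⟨56, 57, 399, 399⟩

/-- A part of the box of piece 9. -/
def mbox9_tauL_lo_0 : ℕ → Pack.Chart
  | 0 => ⟨0, 2, 25, 25⟩
  | 1 => ⟨46, 61, 50, 50⟩
  | 2 => ⟨280, 441, 2000, 2000⟩
  | _ => ⟨56, 57, 399, 399⟩

/-- A part of the box of piece 9. -/
def mbox9_tauL_lo_1 : ℕ → Pack.Chart
  | 0 => ⟨0, 2, 25, 25⟩
  | 1 => ⟨46, 61, 50, 50⟩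
  | 2 => ⟨441, 602, 2000, 2000⟩
  | _ => ⟨56, 57, 399, 399⟩

/-- A part of the box of piece 9. -/
def mbox9_tauL_hi_0 : ℕ → Pack.Chart
  | 0 => ⟨0, 2, 25, 25⟩
  | 1 => ⟨46, 61, 50, 50⟩
  | 2 => ⟨280, 441, 2000, 2000⟩
  | _ => ⟨56, 57, 399, 399⟩

/-- A part of the box of piece 9. -/
def mbox9_tauL_hi_1 : ℕ → Pack.Chart
  | 0 => ⟨0, 2, 25, 25⟩
  | 1 => ⟨46, 61, 50, 50⟩
  | 2 => ⟨441, 602, 2000, 2000⟩
  | _ => ⟨56, 57, 399, 399⟩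

/-- The box of an exit curve. -/
def mexit9Box : ℕ → Pack.Chart
  | 0 => ⟨0, 2, 25, 25⟩
  | 1 => ⟨46, 61, 50, 50⟩
  | 2 => ⟨140, 301, 1000, 1000⟩
  | _ => ⟨56, 57, 399, 399⟩

/-- The box of piece 10. -/
def mbox10 : ℕ → Pack.Chart
  | 0 => ⟨2, 10, 25, 25⟩
  | 1 => ⟨23, 42, 25, 25⟩
  | 2 => ⟨140, 301, 1000, 1000⟩
  | _ => ⟨56, 57, 399, 399⟩

/-- A part of the box of piece 10. -/
def mbox10_piL_lo_0 : ℕ → Pack.Chart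
  | 0 => ⟨2, 10, 25, 25⟩
  | 1 => ⟨23, 42, 25, 25⟩
  | 2 => ⟨280, 441, 2000, 2000⟩
  | _ => ⟨56, 57, 399, 399⟩

/-- A part of the box of piece 10. -/
def mbox10_piL_lo_1 : ℕ → Pack.Chart
  | 0 => ⟨2, 10, 25, 25⟩
  | 1 => ⟨23, 42, 25, 25⟩
  | 2 => ⟨441, 602, 2000, 2000⟩
  | _ => ⟨56, 57, 399, 399⟩

/-- A part of the box of piece 10. -/
def mbox10_piU_hi_0 : ℕ → Pack.Chart
  | 0 => ⟨2, 10, 25, 25⟩
  | 1 => ⟨23, 42, 25, 25⟩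
  | 2 => ⟨280, 441, 2000, 2000⟩
  | _ => ⟨56, 57, 399, 399⟩

/-- A part of the box of piece 10. -/
def mbox10_piU_hi_1 : ℕ → Pack.Chart
  | 0 => ⟨2, 10, 25, 25⟩
  | 1 => ⟨23, 42, 25, 25⟩
  | 2 => ⟨441, 602, 2000, 2000⟩
  | _ => ⟨56, 57, 399, 399⟩

/-- A part of the box of piece 10. -/
def mbox10_omU_lo_0 : ℕ → Pack.Chart
  | 0 => ⟨2, 10, 25, 25⟩
  | 1 => ⟨23, 42, 25, 25⟩
  | 2 => ⟨280, 441, 2000, 2000⟩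
  | _ => ⟨56, 57, 399, 399⟩

/-- A part of the box of piece 10. -/
def mbox10_omU_lo_1 : ℕ → Pack.Chart
  | 0 => ⟨2, 10, 25, 25⟩
  | 1 => ⟨23, 42, 25, 25⟩
  | 2 => ⟨441, 602, 2000, 2000⟩
  | _ => ⟨56, 57, 399, 399⟩

/-- A part of the box of piece 10. -/
def mbox10_omU_hi_0 : ℕ → Pack.Chart
  | 0 => ⟨2, 6, 25, 25⟩
  | 1 => ⟨23, 42, 25, 25⟩
  | 2 => ⟨280, 441, 2000, 2000⟩
  | _ => ⟨56, 57, 399, 399⟩

/-- A part of the box of piece 10. -/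
def mbox10_omU_hi_1 : ℕ → Pack.Chart
  | 0 => ⟨6, 10, 25, 25⟩
  | 1 => ⟨23, 42, 25, 25⟩
  | 2 => ⟨280, 441, 2000, 2000⟩
  | _ => ⟨56, 57, 399, 399⟩

/-- A part of the box of piece 10. -/
def mbox10_omU_hi_2 : ℕ → Pack.Chart
  | 0 => ⟨2, 6, 25, 25⟩
  | 1 => ⟨23, 42, 25, 25⟩
  | 2 => ⟨441, 602, 2000, 2000⟩
  | _ => ⟨56, 57, 399, 399⟩

/-- A part of the box of piece 10. -/
def mbox10_omU_hi_3 : ℕ → Pack.Chart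
  | 0 => ⟨6, 10, 25, 25⟩
  | 1 => ⟨23, 42, 25, 25⟩
  | 2 => ⟨441, 602, 2000, 2000⟩
  | _ => ⟨56, 57, 399, 399⟩

/-- A part of the box of piece 10. -/
def mbox10_tauL_lo_0 : ℕ → Pack.Chart
  | 0 => ⟨2, 10, 25, 25⟩
  | 1 => ⟨23, 42, 25, 25⟩
  | 2 => ⟨280, 441, 2000, 2000⟩
  | _ => ⟨56, 57, 399, 399⟩

/-- A part of the box of piece 10. -/
def mbox10_tauL_lo_1 : ℕ → Pack.Chart
  | 0 => ⟨2, 10, 25, 25⟩
  | 1 => ⟨23, 42, 25, 25⟩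
  | 2 => ⟨882, 1043, 4000, 4000⟩
  | _ => ⟨56, 57, 399, 399⟩

/-- A part of the box of piece 10. -/
def mbox10_tauL_lo_2 : ℕ → Pack.Chart
  | 0 => ⟨2, 10, 25, 25⟩
  | 1 => ⟨23, 42, 25, 25⟩
  | 2 => ⟨1043, 1204, 4000, 4000⟩
  | _ => ⟨56, 57, 399, 399⟩

/-- A part of the box of piece 10. -/
def mbox10_tauL_hi_0 : ℕ → Pack.Chart
  | 0 => ⟨2, 10, 25, 25⟩
  | 1 => ⟨23, 42, 25, 25⟩
  | 2 => ⟨280, 441, 2000, 2000⟩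
  | _ => ⟨56, 57, 399, 399⟩

/-- A part of the box of piece 10. -/
def mbox10_tauL_hi_1 : ℕ → Pack.Chart
  | 0 => ⟨2, 10, 25, 25⟩
  | 1 => ⟨23, 42, 25, 25⟩
  | 2 => ⟨882, 1043, 4000, 4000⟩
  | _ => ⟨56, 57, 399, 399⟩

/-- A part of the box of piece 10. -/
def mbox10_tauL_hi_2 : ℕ → Pack.Chart
  | 0 => ⟨2, 10, 25, 25⟩
  | 1 => ⟨23, 42, 25, 25⟩
  | 2 => ⟨1043, 1204, 4000, 4000⟩
  | _ => ⟨56, 57, 399, 399⟩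

/-- The box of an exit curve. -/
def mexit10Box : ℕ → Pack.Chart
  | 0 => ⟨2, 10, 25, 25⟩
  | 1 => ⟨23, 42, 25, 25⟩
  | 2 => ⟨140, 301, 1000, 1000⟩
  | _ => ⟨56, 57, 399, 399⟩

/-- The box of piece 11. -/
def mbox11 : ℕ → Pack.Chart
  | 0 => ⟨2, 3, 5, 5⟩
  | 1 => ⟨23, 57, 25, 25⟩
  | 2 => ⟨140, 301, 1000, 1000⟩
  | _ => ⟨56, 57, 399, 399⟩

/-- A part of the box of piece 11. -/
def mbox11_piL_lo_0 : ℕ → Pack.Chart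
  | 0 => ⟨2, 3, 5, 5⟩
  | 1 => ⟨23, 57, 25, 25⟩
  | 2 => ⟨280, 441, 2000, 2000⟩
  | _ => ⟨56, 57, 399, 399⟩

/-- A part of the box of piece 11. -/
def mbox11_piL_lo_1 : ℕ → Pack.Chart
  | 0 => ⟨4, 5, 10, 10⟩
  | 1 => ⟨23, 57, 25, 25⟩
  | 2 => ⟨441, 602, 2000, 2000⟩
  | _ => ⟨56, 57, 399, 399⟩

/-- A part of the box of piece 11. -/
def mbox11_piL_lo_2 : ℕ → Pack.Chart
  | 0 => ⟨5, 6, 10, 10⟩
  | 1 => ⟨23, 57, 25, 25⟩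
  | 2 => ⟨882, 1043, 4000, 4000⟩
  | _ => ⟨56, 57, 399, 399⟩

/-- A part of the box of piece 11. -/
def mbox11_piL_lo_3 : ℕ → Pack.Chart
  | 0 => ⟨10, 11, 20, 20⟩
  | 1 => ⟨23, 57, 25, 25⟩
  | 2 => ⟨1043, 1204, 4000, 4000⟩
  | _ => ⟨56, 57, 399, 399⟩

/-- A part of the box of piece 11. -/
def mbox11_piL_lo_4 : ℕ → Pack.Chart
  | 0 => ⟨11, 12, 20, 20⟩
  | 1 => ⟨23, 40, 25, 25⟩
  | 2 => ⟨1043, 1204, 4000, 4000⟩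
  | _ => ⟨56, 57, 399, 399⟩

/-- A part of the box of piece 11. -/
def mbox11_piL_lo_5 : ℕ → Pack.Chart
  | 0 => ⟨11, 12, 20, 20⟩
  | 1 => ⟨40, 57, 25, 25⟩
  | 2 => ⟨2086, 2247, 8000, 8000⟩
  | _ => ⟨56, 57, 399, 399⟩

/-- A part of the box of piece 11. -/
def mbox11_piL_lo_6 : ℕ → Pack.Chart
  | 0 => ⟨11, 12, 20, 20⟩
  | 1 => ⟨40, 57, 25, 25⟩
  | 2 => ⟨2247, 2408, 8000, 8000⟩
  | _ => ⟨56, 57, 399, 399⟩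

/-- A part of the box of piece 11. -/
def mbox11_piU_hi_0 : ℕ → Pack.Chart
  | 0 => ⟨4, 5, 10, 10⟩
  | 1 => ⟨23, 57, 25, 25⟩
  | 2 => ⟨560, 721, 4000, 4000⟩
  | _ => ⟨56, 57, 399, 399⟩

/-- A part of the box of piece 11. -/
def mbox11_piU_hi_1 : ℕ → Pack.Chart
  | 0 => ⟨5, 6, 10, 10⟩
  | 1 => ⟨23, 40, 25, 25⟩
  | 2 => ⟨560, 721, 4000, 4000⟩
  | _ => ⟨56, 57, 399, 399⟩

/-- A part of the box of piece 11. -/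
def mbox11_piU_hi_2 : ℕ → Pack.Chart
  | 0 => ⟨5, 6, 10, 10⟩
  | 1 => ⟨40, 57, 25, 25⟩
  | 2 => ⟨560, 721, 4000, 4000⟩
  | _ => ⟨56, 57, 399, 399⟩

/-- A part of the box of piece 11. -/
def mbox11_piU_hi_3 : ℕ → Pack.Chart
  | 0 => ⟨4, 5, 10, 10⟩
  | 1 => ⟨23, 57, 25, 25⟩
  | 2 => ⟨721, 882, 4000, 4000⟩
  | _ => ⟨56, 57, 399, 399⟩

/-- A part of the box of piece 11. -/
def mbox11_piU_hi_4 : ℕ → Pack.Chart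
  | 0 => ⟨5, 6, 10, 10⟩
  | 1 => ⟨23, 57, 25, 25⟩
  | 2 => ⟨721, 882, 4000, 4000⟩
  | _ => ⟨56, 57, 399, 399⟩

/-- A part of the box of piece 11. -/
def mbox11_piU_hi_5 : ℕ → Pack.Chart
  | 0 => ⟨2, 3, 5, 5⟩
  | 1 => ⟨23, 57, 25, 25⟩
  | 2 => ⟨441, 602, 2000, 2000⟩
  | _ => ⟨56, 57, 399, 399⟩

/-- A part of the box of piece 11. -/
def mbox11_omU_lo_0 : ℕ → Pack.Chart
  | 0 => ⟨2, 3, 5, 5⟩
  | 1 => ⟨23, 40, 25, 25⟩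
  | 2 => ⟨280, 441, 2000, 2000⟩
  | _ => ⟨56, 57, 399, 399⟩

/-- A part of the box of piece 11. -/
def mbox11_omU_lo_1 : ℕ → Pack.Chart
  | 0 => ⟨2, 3, 5, 5⟩
  | 1 => ⟨40, 57, 25, 25⟩
  | 2 => ⟨280, 441, 2000, 2000⟩
  | _ => ⟨56, 57, 399, 399⟩

/-- A part of the box of piece 11. -/
def mbox11_omU_lo_2 : ℕ → Pack.Chart
  | 0 => ⟨2, 3, 5, 5⟩
  | 1 => ⟨23, 40, 25, 25⟩
  | 2 => ⟨441, 602, 2000, 2000⟩
  | _ => ⟨56, 57, 399, 399⟩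

/-- A part of the box of piece 11. -/
def mbox11_omU_lo_3 : ℕ → Pack.Chart
  | 0 => ⟨2, 3, 5, 5⟩
  | 1 => ⟨40, 57, 25, 25⟩
  | 2 => ⟨441, 602, 2000, 2000⟩
  | _ => ⟨56, 57, 399, 399⟩

/-- A part of the box of piece 11. -/
def mbox11_omU_hi_0 : ℕ → Pack.Chart
  | 0 => ⟨2, 3, 5, 5⟩
  | 1 => ⟨23, 40, 25, 25⟩
  | 2 => ⟨280, 441, 2000, 2000⟩
  | _ => ⟨56, 57, 399, 399⟩

/-- A part of the box of piece 11. -/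
def mbox11_omU_hi_1 : ℕ → Pack.Chart
  | 0 => ⟨2, 3, 5, 5⟩
  | 1 => ⟨40, 57, 25, 25⟩
  | 2 => ⟨280, 441, 2000, 2000⟩
  | _ => ⟨56, 57, 399, 399⟩

/-- A part of the box of piece 11. -/
def mbox11_omU_hi_2 : ℕ → Pack.Chart
  | 0 => ⟨4, 5, 10, 10⟩
  | 1 => ⟨23, 40, 25, 25⟩
  | 2 => ⟨1764, 1925, 8000, 8000⟩
  | _ => ⟨56, 57, 399, 399⟩

/-- A part of the box of piece 11. -/
def mbox11_omU_hi_3 : ℕ → Pack.Chart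
  | 0 => ⟨5, 6, 10, 10⟩
  | 1 => ⟨23, 40, 25, 25⟩
  | 2 => ⟨1764, 1925, 8000, 8000⟩
  | _ => ⟨56, 57, 399, 399⟩

/-- A part of the box of piece 11. -/
def mbox11_omU_hi_4 : ℕ → Pack.Chart
  | 0 => ⟨4, 5, 10, 10⟩
  | 1 => ⟨23, 40, 25, 25⟩
  | 2 => ⟨1925, 2086, 8000, 8000⟩
  | _ => ⟨56, 57, 399, 399⟩

/-- A part of the box of piece 11. -/
def mbox11_omU_hi_5 : ℕ → Pack.Chart
  | 0 => ⟨5, 6, 10, 10⟩
  | 1 => ⟨23, 40, 25, 25⟩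
  | 2 => ⟨1925, 2086, 8000, 8000⟩
  | _ => ⟨56, 57, 399, 399⟩

/-- A part of the box of piece 11. -/
def mbox11_omU_hi_6 : ℕ → Pack.Chart
  | 0 => ⟨2, 3, 5, 5⟩
  | 1 => ⟨23, 40, 25, 25⟩
  | 2 => ⟨1043, 1204, 4000, 4000⟩
  | _ => ⟨56, 57, 399, 399⟩

/-- A part of the box of piece 11. -/
def mbox11_omU_hi_7 : ℕ → Pack.Chart
  | 0 => ⟨2, 3, 5, 5⟩
  | 1 => ⟨40, 57, 25, 25⟩
  | 2 => ⟨882, 1043, 4000, 4000⟩
  | _ => ⟨56, 57, 399, 399⟩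

/-- A part of the box of piece 11. -/
def mbox11_omU_hi_8 : ℕ → Pack.Chart
  | 0 => ⟨2, 3, 5, 5⟩
  | 1 => ⟨40, 57, 25, 25⟩
  | 2 => ⟨1043, 1204, 4000, 4000⟩
  | _ => ⟨56, 57, 399, 399⟩

/-- A part of the box of piece 11. -/
def mbox11_tauL_lo_0 : ℕ → Pack.Chart
  | 0 => ⟨2, 3, 5, 5⟩
  | 1 => ⟨23, 57, 25, 25⟩
  | 2 => ⟨560, 721, 4000, 4000⟩
  | _ => ⟨56, 57, 399, 399⟩

/-- A part of the box of piece 11. -/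
def mbox11_tauL_lo_1 : ℕ → Pack.Chart
  | 0 => ⟨2, 3, 5, 5⟩
  | 1 => ⟨23, 40, 25, 25⟩
  | 2 => ⟨721, 882, 4000, 4000⟩
  | _ => ⟨56, 57, 399, 399⟩

/-- A part of the box of piece 11. -/
def mbox11_tauL_lo_2 : ℕ → Pack.Chart
  | 0 => ⟨2, 3, 5, 5⟩
  | 1 => ⟨40, 57, 25, 25⟩
  | 2 => ⟨721, 882, 4000, 4000⟩
  | _ => ⟨56, 57, 399, 399⟩

/-- A part of the box of piece 11. -/
def mbox11_tauL_lo_3 : ℕ → Pack.Chart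
  | 0 => ⟨2, 3, 5, 5⟩
  | 1 => ⟨23, 57, 25, 25⟩
  | 2 => ⟨441, 602, 2000, 2000⟩
  | _ => ⟨56, 57, 399, 399⟩

/-- A part of the box of piece 11. -/
def mbox11_tauL_hi_0 : ℕ → Pack.Chart
  | 0 => ⟨2, 3, 5, 5⟩
  | 1 => ⟨23, 57, 25, 25⟩
  | 2 => ⟨560, 721, 4000, 4000⟩
  | _ => ⟨56, 57, 399, 399⟩

/-- A part of the box of piece 11. -/
def mbox11_tauL_hi_1 : ℕ → Pack.Chart
  | 0 => ⟨2, 3, 5, 5⟩
  | 1 => ⟨23, 40, 25, 25⟩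
  | 2 => ⟨721, 882, 4000, 4000⟩
  | _ => ⟨56, 57, 399, 399⟩

/-- A part of the box of piece 11. -/
def mbox11_tauL_hi_2 : ℕ → Pack.Chart
  | 0 => ⟨2, 3, 5, 5⟩
  | 1 => ⟨40, 57, 25, 25⟩
  | 2 => ⟨721, 882, 4000, 4000⟩
  | _ => ⟨56, 57, 399, 399⟩

/-- A part of the box of piece 11. -/
def mbox11_tauL_hi_3 : ℕ → Pack.Chart
  | 0 => ⟨2, 3, 5, 5⟩
  | 1 => ⟨23, 57, 25, 25⟩
  | 2 => ⟨441, 602, 2000, 2000⟩
  | _ => ⟨56, 57, 399, 399⟩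

/-- The box of an exit curve. -/
def mexit11Box : ℕ → Pack.Chart
  | 0 => ⟨2, 3, 5, 5⟩
  | 1 => ⟨23, 57, 25, 25⟩
  | 2 => ⟨140, 301, 1000, 1000⟩
  | _ => ⟨56, 57, 399, 399⟩

/-- The box of piece 12. -/
def mbox12 : ℕ → Pack.Chart
  | 0 => ⟨0, 3, 25, 25⟩
  | 1 => ⟨45, 64, 50, 50⟩
  | 2 => ⟨119, 124, 400, 400⟩
  | _ => ⟨56, 57, 399, 399⟩

/-- The box of an exit curve. -/
def mexit12Box : ℕ → Pack.Chart
  | 0 => ⟨0, 3, 25, 25⟩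
  | 1 => ⟨45, 64, 50, 50⟩
  | 2 => ⟨119, 124, 400, 400⟩
  | _ => ⟨56, 57, 399, 399⟩

/-- The box of piece 13. -/
def mbox13 : ℕ → Pack.Chart
  | 0 => ⟨3, 15, 25, 25⟩
  | 1 => ⟨45, 116, 50, 50⟩
  | 2 => ⟨119, 124, 400, 400⟩
  | _ => ⟨56, 57, 399, 399⟩

/-- A part of the box of piece 13. -/
def mbox13_tlo_false_hi_0 : ℕ → Pack.Chart
  | 0 => ⟨3, 15, 25, 25⟩
  | 1 => ⟨90, 161, 100, 100⟩
  | 2 => ⟨119, 124, 400, 400⟩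
  | _ => ⟨56, 57, 399, 399⟩

/-- A part of the box of piece 13. -/
def mbox13_tlo_false_hi_1 : ℕ → Pack.Chart
  | 0 => ⟨3, 15, 25, 25⟩
  | 1 => ⟨161, 232, 100, 100⟩
  | 2 => ⟨119, 124, 400, 400⟩
  | _ => ⟨56, 57, 399, 399⟩

/-- A part of the box of piece 13. -/
def mbox13_tlo_true_hi_0 : ℕ → Pack.Chart
  | 0 => ⟨3, 15, 25, 25⟩
  | 1 => ⟨90, 161, 100, 100⟩
  | 2 => ⟨119, 124, 400, 400⟩
  | _ => ⟨56, 57, 399, 399⟩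

/-- A part of the box of piece 13. -/
def mbox13_tlo_true_hi_1 : ℕ → Pack.Chart
  | 0 => ⟨3, 15, 25, 25⟩
  | 1 => ⟨161, 232, 100, 100⟩
  | 2 => ⟨119, 124, 400, 400⟩
  | _ => ⟨56, 57, 399, 399⟩

/-- A part of the box of piece 13. -/
def mbox13_piU_hi_0 : ℕ → Pack.Chart
  | 0 => ⟨3, 9, 25, 25⟩
  | 1 => ⟨45, 116, 50, 50⟩
  | 2 => ⟨119, 124, 400, 400⟩
  | _ => ⟨56, 57, 399, 399⟩

/-- A part of the box of piece 13. -/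
def mbox13_piU_hi_1 : ℕ → Pack.Chart
  | 0 => ⟨9, 15, 25, 25⟩
  | 1 => ⟨45, 116, 50, 50⟩
  | 2 => ⟨119, 124, 400, 400⟩
  | _ => ⟨56, 57, 399, 399⟩

/-- A part of the box of piece 13. -/
def mbox13_omL_lo_0 : ℕ → Pack.Chart
  | 0 => ⟨3, 6, 25, 25⟩
  | 1 => ⟨45, 116, 50, 50⟩
  | 2 => ⟨119, 124, 400, 400⟩
  | _ => ⟨56, 57, 399, 399⟩

/-- A part of the box of piece 13. -/
def mbox13_omL_lo_1 : ℕ → Pack.Chart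
  | 0 => ⟨6, 9, 25, 25⟩
  | 1 => ⟨45, 116, 50, 50⟩
  | 2 => ⟨119, 124, 400, 400⟩
  | _ => ⟨56, 57, 399, 399⟩

/-- A part of the box of piece 13. -/
def mbox13_omL_lo_2 : ℕ → Pack.Chart
  | 0 => ⟨9, 15, 25, 25⟩
  | 1 => ⟨45, 116, 50, 50⟩
  | 2 => ⟨119, 124, 400, 400⟩
  | _ => ⟨56, 57, 399, 399⟩

/-- A part of the box of piece 13. -/
def mbox13_omU_lo_0 : ℕ → Pack.Chart
  | 0 => ⟨3, 9, 25, 25⟩
  | 1 => ⟨45, 116, 50, 50⟩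
  | 2 => ⟨119, 124, 400, 400⟩
  | _ => ⟨56, 57, 399, 399⟩

/-- A part of the box of piece 13. -/
def mbox13_omU_lo_1 : ℕ → Pack.Chart
  | 0 => ⟨9, 15, 25, 25⟩
  | 1 => ⟨45, 116, 50, 50⟩
  | 2 => ⟨119, 124, 400, 400⟩
  | _ => ⟨56, 57, 399, 399⟩

/-- A part of the box of piece 13. -/
def mbox13_omU_hi_0 : ℕ → Pack.Chart
  | 0 => ⟨3, 6, 25, 25⟩
  | 1 => ⟨90, 161, 100, 100⟩
  | 2 => ⟨119, 124, 400, 400⟩
  | _ => ⟨56, 57, 399, 399⟩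

/-- A part of the box of piece 13. -/
def mbox13_omU_hi_1 : ℕ → Pack.Chart
  | 0 => ⟨12, 15, 50, 50⟩
  | 1 => ⟨90, 161, 100, 100⟩
  | 2 => ⟨119, 124, 400, 400⟩
  | _ => ⟨56, 57, 399, 399⟩

/-- A part of the box of piece 13. -/
def mbox13_omU_hi_2 : ℕ → Pack.Chart
  | 0 => ⟨15, 18, 50, 50⟩
  | 1 => ⟨90, 161, 100, 100⟩
  | 2 => ⟨119, 124, 400, 400⟩
  | _ => ⟨56, 57, 399, 399⟩

/-- A part of the box of piece 13. -/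
def mbox13_omU_hi_3 : ℕ → Pack.Chart
  | 0 => ⟨3, 9, 25, 25⟩
  | 1 => ⟨161, 232, 100, 100⟩
  | 2 => ⟨119, 124, 400, 400⟩
  | _ => ⟨56, 57, 399, 399⟩

/-- A part of the box of piece 13. -/
def mbox13_omU_hi_4 : ℕ → Pack.Chart
  | 0 => ⟨9, 15, 25, 25⟩
  | 1 => ⟨45, 116, 50, 50⟩
  | 2 => ⟨119, 124, 400, 400⟩
  | _ => ⟨56, 57, 399, 399⟩

/-- The box of an exit curve. -/
def mexit13Box : ℕ → Pack.Chart
  | 0 => ⟨3, 15, 25, 25⟩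
  | 1 => ⟨45, 116, 50, 50⟩
  | 2 => ⟨119, 124, 400, 400⟩
  | _ => ⟨56, 57, 399, 399⟩

end Vale.Agent.P100.Calib.Closed.All.Low
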