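import Vale.Agent.P100.Calib.SlabMidPlace
import Vale.Agent.P100.Calib.SlabAllExit

/-!
# Bands and exit curves for the dimensions from seven to twenty: soundness

`orbit_mid_low`, `orbit_mid_up` and `orbit_mid_exit` turn the signs of the packed numerators on the
range of `(u, X, I, a)` into the bands and exit curves on orbits.
-/

open Set Filter Topology

namespace Vale.Agent.P100.Calib.Band

open Vale.Agent.P100.Bubble Chart

theorem hasGradTwo_mid {a b : ℝ} (ha : 0 < a) (hd : 0 < b - a) (c : MidBand) :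
    HasGradTwo (midBandG c a b)
      (fun u v => (midNu c (allStabI a b) a u v * allPole a b u -
        midN c (allStabI a b) a b u v * allPole' a b u) / (1000 * allPole a b u ^ 2))
      (fun u _ => midK c (allStabI a b) a b u / (1000 * allPole a b u)) := by
  intro u v du dv t hu hv
  have hp := allPole_pos (u := u t) ha hd
  set I := allStabI a b
  have hK : HasDerivAt (fun s => midK c I a b (u s)) (midKu c I a (u t) * du) t := by
    refine ((((hu.fun_mul ((hu.mul_const (midFour c.t2 I a)).const_add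
      (midFour c.t1 I a))).const_add (midFour c.t0 I a)).const_mul I).const_sub
        (1000 * b)).congr_deriv ?_
    simp only [midKu]
    ring
  have hP : HasDerivAt (fun s => midPsi c I a (u s)) (midPsiU c I a (u t) * du) t := by
    refine ((hu.fun_mul ((hu.fun_mul ((hu.mul_const (midSix c.p3 I a)).const_add
      (midSix c.p2 I a))).const_add (midSix c.p1 I a))).const_add
        (midSix c.p0 I a)).congr_deriv ?_
    simp only [midPsiU]
    ring
  have hN : HasDerivAt (fun s => midN c I a b (u s) (v s))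
      (midNu c I a (u t) (v t) * du + midK c I a b (u t) * dv) t := by
    refine (((hK.fun_mul hv).const_add 1000).fun_add (hP.const_mul I)).congr_deriv ?_
    simp only [midNu]
    ring
  refine (hN.fun_div (((hasDerivAt_allPole a b (u t)).comp t hu).const_mul 1000)
    (by positivity)).congr_deriv ?_
  simp only [Function.comp_apply]
  generalize midNu c I a (u t) (v t) = A
  generalize midK c I a b (u t) = B
  generalize midN c I a b (u t) (v t) = C
  generalize allPole' a b (u t) = P'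
  generalize allPole a b (u t) = P at hp ⊢
  field_simp
  ring

theorem continuous_mid {a b : ℝ} (ha : 0 < a) (hd : 0 < b - a) (c : MidBand) :
    Continuous (fun w : ℝ × ℝ => midBandG c a b w.1 w.2) ∧
      Continuous (fun w : ℝ × ℝ => (midNu c (allStabI a b) a w.1 w.2 * allPole a b w.1 -
        midN c (allStabI a b) a b w.1 w.2 * allPole' a b w.1) / (1000 * allPole a b w.1 ^ 2)) ∧
      Continuous (fun w : ℝ × ℝ => midK c (allStabI a b) a b w.1 / (1000 * allPole a b w.1)) := by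
  have cp : Continuous fun w : ℝ × ℝ => allPole a b w.1 := by unfold allPole; fun_prop
  have cp' : Continuous fun w : ℝ × ℝ => allPole' a b w.1 := by unfold allPole'; fun_prop
  have hp : ∀ w : ℝ × ℝ, allPole a b w.1 ≠ 0 := fun w => (allPole_pos ha hd).ne'
  have cK : Continuous fun w : ℝ × ℝ => midK c (allStabI a b) a b w.1 := by
    unfold midK; fun_prop
  have cN : Continuous fun w : ℝ × ℝ => midN c (allStabI a b) a b w.1 w.2 := by
    unfold midN midK midPsi; fun_prop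
  have cU : Continuous fun w : ℝ × ℝ => midNu c (allStabI a b) a w.1 w.2 := by
    unfold midNu midKu midPsiU; fun_prop
  refine ⟨cN.div (continuous_const.mul cp) fun w => mul_ne_zero (by norm_num) (hp w), ?_, ?_⟩
  · exact ((cU.mul cp).sub (cN.mul cp')).div (continuous_const.mul (cp.pow 2))
      fun w => mul_ne_zero (by norm_num) (pow_ne_zero 2 (hp w))
  · exact cK.div (continuous_const.mul cp) fun w => mul_ne_zero (by norm_num) (hp w)

namespace AllLow

open Pack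

local instance midSoundAdd : Add Pack.Ex := ⟨Ex.add⟩
local instance midSoundSub : Sub Pack.Ex := ⟨Ex.sub⟩
local instance midSoundMul : Mul Pack.Ex := ⟨Ex.mul⟩

variable {a b I u X : ℝ} {c : MidBand} {e : MidExit}

/-- The values of the packed numerators at a band. -/
theorem eval_mid_num (hb : b = 1 - 2 * I - a) (hu1 : u ≤ 1) (ha0 : 0 < a) (hd : 0 < b - a) :
    let x := stabPt u X I a
    let v := 2 * I * X
    let Gd := 1000 * (b - u * a)
    0 < Gd ∧ allDen a b u v (midBandG c a b u v) * Gd = (eMidDen c).eval x ∧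
      allEn a b u v (midBandG c a b u v) * Gd = (eMidEn c).eval x ∧
      allDot a b u v (midBandG c a b u v)
          (-((midNu c (allStabI a b) a u v * allPole a b u -
            midN c (allStabI a b) a b u v * allPole' a b u) / (1000 * allPole a b u ^ 2)))
          (-(midK c (allStabI a b) a b u / (1000 * allPole a b u))) 1 * Gd ^ 3 =
        (eMidNum c).eval x := by
  intro x v Gd
  obtain ⟨hp, hp'⟩ := allPole_eq (a := a) (b := b) hu1
  have hw : 0 < b - u * a := by linarith [mul_le_mul_of_nonneg_right hu1 ha0.le]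
  have hG : 0 < Gd := by positivity
  have eI : allStabI a b = I := by rw [allStabI, hb]; ring
  obtain ⟨vU, vI, vA, vS, vB, vD, vV, vP, vK, vN, vNu, vGd⟩ :=
    eval_mid_base (u := u) (X := X) c hb
  have eG : midBandG c a b u v = midN c I a b u v / Gd := midBandG_eq c hb hu1 v
  have eu : -((midNu c (allStabI a b) a u v * allPole a b u -
      midN c (allStabI a b) a b u v * allPole' a b u) / (1000 * allPole a b u ^ 2)) =
      -((midNu c I a u v * Gd - midN c I a b u v * (-1000 * a)) / Gd ^ 2) := by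
    simp only [Gd, hp, hp', eI]
    field_simp
  have ev : -(midK c (allStabI a b) a b u / (1000 * allPole a b u)) =
      -(midK c I a b u / Gd) := by simp only [Gd, hp, eI]
  have vDV : (eDV eMI eMA).eval x = (b - a) * v := by simp only [eDV, eval_mul', x, vD, vV, v]
  have vQn : (eQn eMI eMA).eval x = allQn a b u v := by
    simp only [eQn, allQn, eval_add', eval_sub', eval_mul', eval_num', vDV]
    simp only [x, vS, vB, vU]
    push_cast; ring
  have vQ : (eQ eMI eMA).eval x = 1 + (1 - a) * v := by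
    simp only [eQ, eval_add', eval_sub', eval_mul', eval_num', x, vA, vV, v]; push_cast; ring
  have vDen : (eMidDen c).eval x = (2 + (b - a) * v) * Gd - u * (b - a) * midN c I a b u v := by
    simp only [eMidDen, eval_add', eval_sub', eval_mul', eval_num', vDV]
    simp only [x, vGd, vU, vD, vN, v, Gd]
    push_cast; ring
  have vEn : (eMidEn c).eval x = (Gd - u * (b - a) * midN c I a b u v) * allQn a b u v -
      (a + b) * (1 - u) * b * ((2 + (b - a) * v) * Gd - u * (b - a) * midN c I a b u v) := by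
    simp only [eMidEn, eval_sub', eval_mul', eval_num', vDen, vQn]
    simp only [x, vGd, vU, vD, vN, vS, vB, v, Gd]
    push_cast; ring
  obtain ⟨k1, k2⟩ := dot_band (a := a) (b := b) (u := u) (v := v)
    (Gn := midN c I a b u v) (Gu := midNu c I a u v)
    (dU := -1000 * a) (Gv := midK c I a b u) hG.ne'
  refine ⟨hG, ?_, ?_, ?_⟩
  · rw [eG, k1, vDen]
  · rw [eG, vEn]
    simp only [allEn, allDen]
    generalize midN c I a b u v = n
    generalize allQn a b u v = Q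
    field_simp
  · rw [eG, eu, ev, k2]
    simp only [eMidNum, eMidFlow, eval_add', eval_sub', eval_mul', eval_num', vEn, vDen, vQn, vQ,
      vDV]
    simp only [x, vGd, vS, vB, vU, vD, vV, vA, vN, vNu, vK, v]
    push_cast
    ring

/-- The value of the start condition. -/
theorem eval_mid_start (hb : b = 1 - 2 * I - a) (hI : 0 < I) (hb0 : 0 < b) :
    (allHc a b (2 * I * X) - midBandG c a b 0 (2 * I * X)) * (1000 * b * (1 + 2 * I)) =
      I * (eMidStart c).eval (stabPt 0 X I a) := by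
  obtain ⟨-, vI, vA, vS, vB, vD, vV, -⟩ := eval_mid_base (u := 0) (X := X) c hb
  rw [midBandG_eq c hb zero_le_one]
  have h2 : 2 - (a + b) = 1 + 2 * I := by rw [hb]; ring
  simp only [eMidStart, eJ, eval_add', eval_sub', eval_mul', eval_num', eval_midFour, eval_midSix,
    vI, vV, vD, allHc, midN, midK, midPsi, zero_mul, mul_zero, add_zero, sub_zero, h2]
  field_simp
  push_cast
  rw [hb]
  ring

/-- A sign at a lower band from a box. -/
theorem mid_low_box (hP : MidPlace a I X) {u₀ u₁ X₀ X₁ I₀ I₁ a₀ a₁ l m n : ℤ}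
    (hl : 0 ≤ l ∧ 0 ≤ m ∧ 0 ≤ n)
    (h : checkFour (midBox u₀ u₁ X₀ X₁ I₀ I₁ a₀ a₁) 560 9 3 11 8 (eMidLow c l m n) = true)
    (g : ((u₀ : ℝ) ≤ u * 1000 ∧ u * 1000 < u₁) ∧ ((X₀ : ℝ) ≤ X * 100 ∧ X * 100 < X₁) ∧
      ((I₀ : ℝ) ≤ I * 1000 ∧ I * 1000 < I₁) ∧ ((a₀ : ℝ) ≤ a * 1000 ∧ a * 1000 < a₁)) :
    0 < (eMidNum c).eval (stabPt u X I a) := by
  obtain ⟨⟨g1, g2⟩, ⟨g3, g4⟩, ⟨g5, g6⟩, g7, g8⟩ := g
  have h1 := nonneg_of_checkFour h (mid_point g1 g2 g3 g4 g5 g6 g7 g8)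
  obtain ⟨r1, r2, -⟩ := eval_mid_range (u := u) (a := a) (I := I) (X := X)
  have vI : eMI.eval (stabPt u X I a) = I := by simp [eMI, Ex.eval, stabPt]
  have vX : (Ex.var 1).eval (stabPt u X I a) = X := by simp [Ex.eval, stabPt]
  simp only [eMidLow, eval_sub', eval_mul', eval_num', r1, r2, vI, vX] at h1
  push_cast at h1
  have hg : 0 ≤ 1 - (1 - 2 * I) * (1 - 2 * I - 2 * a) * X := by linarith [hP.guard]
  have hf : 0 ≤ X * (1 + 2 * I * a) - 1 := by linarith [hP.floor]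
  have := hP.I_pos
  linarith [mul_nonneg (show (0 : ℝ) ≤ l by exact_mod_cast hl.1) hg,
    mul_nonneg (show (0 : ℝ) ≤ m by exact_mod_cast hl.2.1) (mul_nonneg hg (mul_self_nonneg X)),
    mul_nonneg (show (0 : ℝ) ≤ n by exact_mod_cast hl.2.2) hf]

/-- A sign at an upper band from a box. -/
theorem mid_up_box (hP : MidPlace a I X) {u₀ u₁ X₀ X₁ I₀ I₁ a₀ a₁ l m n : ℤ}
    (hl : 0 ≤ l ∧ 0 ≤ m ∧ 0 ≤ n)
    (h : checkFour (midBox u₀ u₁ X₀ X₁ I₀ I₁ a₀ a₁) 560 9 3 11 8 (eMidUp c l m n) = true)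
    (g : ((u₀ : ℝ) ≤ u * 1000 ∧ u * 1000 < u₁) ∧ ((X₀ : ℝ) ≤ X * 100 ∧ X * 100 < X₁) ∧
      ((I₀ : ℝ) ≤ I * 1000 ∧ I * 1000 < I₁) ∧ ((a₀ : ℝ) ≤ a * 1000 ∧ a * 1000 < a₁)) :
    (eMidNum c).eval (stabPt u X I a) < 0 := by
  obtain ⟨⟨g1, g2⟩, ⟨g3, g4⟩, ⟨g5, g6⟩, g7, g8⟩ := g
  have h1 := nonneg_of_checkFour h (mid_point g1 g2 g3 g4 g5 g6 g7 g8)
  obtain ⟨r1, r2, -⟩ := eval_mid_range (u := u) (a := a) (I := I) (X := X)
  have vI : eMI.eval (stabPt u X I a) = I := by simp [eMI, Ex.eval, stabPt]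
  have vX : (Ex.var 1).eval (stabPt u X I a) = X := by simp [Ex.eval, stabPt]
  simp only [eMidUp, eval_sub', eval_mul', eval_num', r1, r2, vI, vX] at h1
  push_cast at h1
  have hg : 0 ≤ 1 - (1 - 2 * I) * (1 - 2 * I - 2 * a) * X := by linarith [hP.guard]
  have hf : 0 ≤ X * (1 + 2 * I * a) - 1 := by linarith [hP.floor]
  have := hP.I_pos
  linarith [mul_nonneg (show (0 : ℝ) ≤ l by exact_mod_cast hl.1) hg,
    mul_nonneg (show (0 : ℝ) ≤ m by exact_mod_cast hl.2.1) (mul_nonneg hg (mul_self_nonneg X)),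
    mul_nonneg (show (0 : ℝ) ≤ n by exact_mod_cast hl.2.2) hf]

/-- The denominator at a band from a box. -/
theorem mid_den_box {u₀ u₁ X₀ X₁ I₀ I₁ a₀ a₁ : ℤ}
    (h : checkFour (midBox u₀ u₁ X₀ X₁ I₀ I₁ a₀ a₁) 560 4 1 4 3 (eMidDenOne c) = true)
    (g : ((u₀ : ℝ) ≤ u * 1000 ∧ u * 1000 < u₁) ∧ ((X₀ : ℝ) ≤ X * 100 ∧ X * 100 < X₁) ∧
      ((I₀ : ℝ) ≤ I * 1000 ∧ I * 1000 < I₁) ∧ ((a₀ : ℝ) ≤ a * 1000 ∧ a * 1000 < a₁)) :
    0 < (eMidDen c).eval (stabPt u X I a) := by
  obtain ⟨⟨g1, g2⟩, ⟨g3, g4⟩, ⟨g5, g6⟩, g7, g8⟩ := g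
  have h1 := nonneg_of_checkFour h (mid_point g1 g2 g3 g4 g5 g6 g7 g8)
  simp only [eMidDenOne, eval_sub', eval_num'] at h1
  push_cast at h1
  linarith

/-- The start of a lower band from a box. -/
theorem mid_start_low_box (hP : MidPlace a I X) {u₀ u₁ X₀ X₁ I₀ I₁ a₀ a₁ l m : ℤ}
    (hl : 0 ≤ l ∧ 0 ≤ m)
    (h : checkFour (midBox u₀ u₁ X₀ X₁ I₀ I₁ a₀ a₁) 560 0 1 3 2 (eMidStartLow c l m) = true)
    (g : ((u₀ : ℝ) ≤ 0 * 1000 ∧ 0 * 1000 < (u₁ : ℝ)) ∧ ((X₀ : ℝ) ≤ X * 100 ∧ X * 100 < X₁) ∧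
      ((I₀ : ℝ) ≤ I * 1000 ∧ I * 1000 < I₁) ∧ ((a₀ : ℝ) ≤ a * 1000 ∧ a * 1000 < a₁)) :
    0 ≤ (eMidStart c).eval (stabPt 0 X I a) := by
  obtain ⟨⟨g1, g2⟩, ⟨g3, g4⟩, ⟨g5, g6⟩, g7, g8⟩ := g
  have h1 := nonneg_of_checkFour h (mid_point g1 g2 g3 g4 g5 g6 g7 g8)
  obtain ⟨r1, -, r3⟩ := eval_mid_range (u := 0) (a := a) (I := I) (X := X)
  simp only [eMidStartLow, eval_sub', eval_mul', eval_num', r1, r3] at h1
  linarith [mul_nonneg (show (0 : ℝ) ≤ l by exact_mod_cast hl.1)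
      (show 0 ≤ 1 - (1 - 2 * I) * (1 - 2 * I - 2 * a) * X by linarith [hP.guard]),
    mul_nonneg (show (0 : ℝ) ≤ m by exact_mod_cast hl.2)
      (show 0 ≤ 1 - 2 * I * a * X by linarith [hP.av])]

/-- The start of an upper band from a box. -/
theorem mid_start_up_box (hP : MidPlace a I X) {u₀ u₁ X₀ X₁ I₀ I₁ a₀ a₁ l m : ℤ}
    (hl : 0 ≤ l ∧ 0 ≤ m)
    (h : checkFour (midBox u₀ u₁ X₀ X₁ I₀ I₁ a₀ a₁) 560 0 1 3 2 (eMidStartUp c l m) = true)
    (g : ((u₀ : ℝ) ≤ 0 * 1000 ∧ 0 * 1000 < (u₁ : ℝ)) ∧ ((X₀ : ℝ) ≤ X * 100 ∧ X * 100 < X₁) ∧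
      ((I₀ : ℝ) ≤ I * 1000 ∧ I * 1000 < I₁) ∧ ((a₀ : ℝ) ≤ a * 1000 ∧ a * 1000 < a₁)) :
    (eMidStart c).eval (stabPt 0 X I a) ≤ 0 := by
  obtain ⟨⟨g1, g2⟩, ⟨g3, g4⟩, ⟨g5, g6⟩, g7, g8⟩ := g
  have h1 := nonneg_of_checkFour h (mid_point g1 g2 g3 g4 g5 g6 g7 g8)
  obtain ⟨r1, -, r3⟩ := eval_mid_range (u := 0) (a := a) (I := I) (X := X)
  simp only [eMidStartUp, eval_sub', eval_mul', eval_num', r1, r3] at h1
  push_cast at h1
  linarith [mul_nonneg (show (0 : ℝ) ≤ l by exact_mod_cast hl.1)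
      (show 0 ≤ 1 - (1 - 2 * I) * (1 - 2 * I - 2 * a) * X by linarith [hP.guard]),
    mul_nonneg (show (0 : ℝ) ≤ m by exact_mod_cast hl.2)
      (show 0 ≤ 1 - 2 * I * a * X by linarith [hP.av])]

/-- `ev` decreases in `H`. -/
theorem allEn_anti {a b u v H G : ℝ} (ha : 0 ≤ a) (hd : 0 ≤ b - a) (hS : a + b ≤ 2) (hv : 0 ≤ v)
    (hav : a * v ≤ 1) (hu : 0 ≤ u) (hu1 : u ≤ 1) (hH : G ≤ H) :
    allEn a b u v H ≤ allEn a b u v G := by
  have hb : 0 ≤ b := by linarith
  have hdv : 0 ≤ (b - a) * v := by positivity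
  have key : 0 ≤ allQn a b u v - (a + b) * (1 - u) * b := by
    have e : allQn a b u v - (a + b) * (1 - u) * b =
        (1 - u) * ((2 - (a + b)) * b + b * ((b - a) * v)) + u * ((b - a) * (1 - a * v)) := by
      simp only [allQn]; ring
    rw [e]
    exact add_nonneg (mul_nonneg (by linarith) (add_nonneg (mul_nonneg (by linarith) hb)
      (mul_nonneg hb hdv))) (mul_nonneg hu (mul_nonneg hd (by linarith)))
  have e : allEn a b u v G - allEn a b u v H =
      (H - G) * (u * (b - a) * (allQn a b u v - (a + b) * (1 - u) * b)) := by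
    simp only [allEn, allDen]; ring
  have h2 : 0 ≤ H - G := by linarith
  rw [← sub_nonneg, e]
  positivity

/-- The values on an exit curve. -/
theorem eval_mid_exit {v : ℝ} (hb : b = 1 - 2 * I - a) (hu1 : u ≤ 1) (ha0 : 0 < a)
    (hd : 0 < b - a) (hV : v * midBracket e I a u = 2000 * I) :
    let x := stabPt u X I a
    let E := midBracket e I a u
    let G := 1000 * (b - u * a)
    0 < G ∧ (eMidE e).eval x = E ∧ (eMidDl e).eval x = midBracketDl e I a u ∧
      allEn a b u v (midBandG c a b u v) * G * E ^ 2 = (eMidExitEn c e).eval x ∧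
      (eMidExitFlow c e * (eMidE e + eD eMI eMA * eMidW) * eMidE e -
          eMidW * eMidDl e * eMidExitEn c e).eval x * u =
        -allDot a b u v (midBandG c a b u v) (v * midBracketDl e I a u) (-E) 0 *
          (E ^ 2 * G) * E := by
  intro x E G
  have hw : 0 < b - u * a := by linarith [mul_le_mul_of_nonneg_right hu1 ha0.le]
  have hG : 0 < G := by positivity
  obtain ⟨vU, vI, vA, vS, vB, vD, -, vP, vK, -, -, vGd⟩ := eval_mid_base (u := u) (X := X) c hb
  have vE : (eMidE e).eval x = E := by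
    simp only [eMidE, midBracket, eval_add', eval_mul', eval_midFour, x, vU, E]
  have vL : (eMidDl e).eval x = midBracketDl e I a u := by
    simp only [eMidDl, midBracketDl, eval_add', eval_mul', eval_num', eval_midFour, x, vU]
    push_cast; ring
  have vW : eMidW.eval x = v * E := by
    rw [hV]; simp only [eMidW, eval_mul', eval_num', x, vI]; push_cast; ring
  have vNe : (eMidNe c e).eval x = midN c I a b u v * E := by
    simp only [eMidNe, midN, eval_add', eval_mul', eval_num', vE, vW, x, vK, vP, vI]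
    push_cast; ring
  have vQn : (eMidQe e).eval x = allQn a b u v * E := by
    simp only [eMidQe, allQn, eval_add', eval_sub', eval_mul', eval_num', vE, vW]
    simp only [x, vS, vB, vD, vU]
    push_cast; ring
  have vBig : (eMidBig c e).eval x =
      E * ((2 + (b - a) * v) * G - u * (b - a) * midN c I a b u v) := by
    simp only [eMidBig, eval_add', eval_sub', eval_mul', eval_num', vE, vW, vNe]
    simp only [x, vD, vGd, vU, G]
    push_cast; ring
  have eG : midBandG c a b u v = midN c I a b u v / G := midBandG_eq c hb hu1 v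
  have vEn : allEn a b u v (midBandG c a b u v) * G * E ^ 2 = (eMidExitEn c e).eval x := by
    rw [eG]
    simp only [eMidExitEn, eval_sub', eval_mul', eval_num', vE, vQn, vBig, vNe, allEn, allDen]
    simp only [x, vS, vB, vD, vU, vGd]
    generalize midN c I a b u v = n
    generalize allQn a b u v = Q
    field_simp
    push_cast
    ring
  refine ⟨hG, vE, vL, vEn, ?_⟩
  simp only [eMidExitFlow, eval_add', eval_sub', eval_mul', eval_num', ← vEn, vE, vL, vW, vQn,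
    vNe, vBig, allDot, allFlow, allDen]
  simp only [x, vS, vB, vD, vA, eG]
  generalize allEn a b u v (midN c I a b u v / G) = En
  generalize allQn a b u v = Q
  generalize midN c I a b u v = n
  push_cast
  field_simp
  ring

/-- The exit sign at the band from a box. -/
theorem mid_exit_box {v : ℝ} (hP : MidPlace a I X) (hb : b = 1 - 2 * I - a) (hu : 0 < u)
    (hu1 : u ≤ 1) (hv : v = 2 * I * X) (hV : v * midBracket e I a u = 2000 * I)
    (hE : 0 < midBracket e I a u) (hen : 0 < allEn a b u v (midBandG c a b u v))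
    {u₀ u₁ X₀ X₁ I₀ I₁ a₀ a₁ k l m n : ℤ} (hl : 0 ≤ k ∧ 0 ≤ l ∧ 0 ≤ m ∧ 0 ≤ n)
    (h : checkFour (midBox u₀ u₁ X₀ X₁ I₀ I₁ a₀ a₁) 560 12 0 10 7 (eMidExit c e k l m n) = true)
    (g : ((u₀ : ℝ) ≤ u * 1000 ∧ u * 1000 < u₁) ∧ ((X₀ : ℝ) = 100 ∧ (X₁ : ℝ) = 101) ∧
      ((I₀ : ℝ) ≤ I * 1000 ∧ I * 1000 < I₁) ∧ ((a₀ : ℝ) ≤ a * 1000 ∧ a * 1000 < a₁)) :
    allDot a b u v (midBandG c a b u v) (v * midBracketDl e I a u) (-midBracket e I a u) 0 < 0 := by
  obtain ⟨⟨g1, g2⟩, ⟨g3, g4⟩, ⟨g5, g6⟩, g7, g8⟩ := g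
  have ha0 := hP.a_pos
  have hI0 := hP.I_pos
  have hd : 0 < b - a := by linarith [hP.d_pos]
  have h1 := nonneg_of_checkFour h (mid_point (X := 1) g1 g2 (by linarith) (by linarith) g5 g6 g7 g8)
  obtain ⟨hG, vE, -, vEn, k2⟩ := eval_mid_exit (c := c) (X := 1) hb hu1 ha0 hd hV
  obtain ⟨vU, vI, vA, vS, -, vD, -⟩ := eval_mid_base (u := u) (X := 1) c hb
  have vW : eMidW.eval (stabPt u 1 I a) = 2000 * I := by
    simp only [eMidW, eval_mul', eval_num', vI]; push_cast; ring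
  set E := midBracket e I a u
  have hXE : X * E = 1000 := mul_left_cancel₀ (mul_pos two_pos hI0).ne'
    (by rw [← mul_assoc, ← hv, hV]; ring)
  have c1 : 0 ≤ E - 1000 * ((a + b) * (b - a)) := by
    rw [show (a + b) * (b - a) = (1 - 2 * I) * (1 - 2 * I - 2 * a) by rw [hb]; ring]
    have := mul_le_mul_of_nonneg_right hP.guard.le hE.le
    rw [mul_assoc, hXE] at this
    linarith
  have c2 : 0 ≤ E - 2000 * I * a := by
    have := mul_le_mul_of_nonneg_right hP.av.le hE.le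
    rw [mul_assoc, hXE] at this
    linarith
  have c3 : 0 ≤ 1000 * (1 + 2 * I * a) - E := by
    have := mul_le_mul_of_nonneg_left hP.floor hE.le
    rw [← mul_assoc, mul_comm E X, hXE] at this
    linarith
  have ce : 0 ≤ (eMidExitEn c e).eval (stabPt u 1 I a) := by rw [← vEn]; positivity
  simp only [eMidExit, eval_add', eval_sub', eval_mul', eval_num', vE, vI, vA, vS, vD, vW] at h1 k2
  push_cast at h1
  rw [← neg_pos]
  refine pos_of_mul_pos_left (b := E ^ 2 * (1000 * (b - u * a))) ?_ (by positivity)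
  refine pos_of_mul_pos_left (b := E) ?_ hE.le
  rw [← k2]
  refine mul_pos ?_ hu
  linarith [mul_nonneg (show (0 : ℝ) ≤ k by exact_mod_cast hl.1) ce,
    mul_nonneg (show (0 : ℝ) ≤ l by exact_mod_cast hl.2.1) c1,
    mul_nonneg (show (0 : ℝ) ≤ m by exact_mod_cast hl.2.2.1) c2,
    mul_nonneg (show (0 : ℝ) ≤ n by exact_mod_cast hl.2.2.2) c3, mul_pos hI0 ha0]

/-- The end condition from a box: where the curve is crossed, `ev` at the band is negative. -/
theorem mid_end_box (hP : MidPlace a I X) (hb : b = 1 - 2 * I - a) (hu1 : u ≤ 1)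
    (hX : 1000 ≤ X * midBracket e I a u) {u₀ u₁ X₀ X₁ I₀ I₁ a₀ a₁ l m : ℤ}
    (hl : 0 ≤ l ∧ 0 ≤ m)
    (h : checkFour (midBox u₀ u₁ X₀ X₁ I₀ I₁ a₀ a₁) 560 5 2 7 5 (eMidEnd c e l m) = true)
    (g : ((u₀ : ℝ) ≤ u * 1000 ∧ u * 1000 < u₁) ∧ ((X₀ : ℝ) ≤ X * 100 ∧ X * 100 < X₁) ∧
      ((I₀ : ℝ) ≤ I * 1000 ∧ I * 1000 < I₁) ∧ ((a₀ : ℝ) ≤ a * 1000 ∧ a * 1000 < a₁)) :
    allEn a b u (2 * I * X) (midBandG c a b u (2 * I * X)) < 0 := by
  obtain ⟨⟨g1, g2⟩, ⟨g3, g4⟩, ⟨g5, g6⟩, g7, g8⟩ := g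
  have hd : 0 < b - a := by linarith [hP.d_pos]
  have h1 := nonneg_of_checkFour h (mid_point g1 g2 g3 g4 g5 g6 g7 g8)
  obtain ⟨hG, -, k, -⟩ := eval_mid_num (c := c) (X := X) hb hu1 hP.a_pos hd
  obtain ⟨r1, -, -⟩ := eval_mid_range (u := u) (a := a) (I := I) (X := X)
  obtain ⟨vU, vI, -⟩ := eval_mid_base (u := u) (X := X) c hb
  have vX : (Ex.var 1).eval (stabPt u X I a) = X := by simp [Ex.eval, stabPt]
  have vE : (eMidE e).eval (stabPt u X I a) = midBracket e I a u := by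
    simp only [eMidE, midBracket, eval_add', eval_mul', eval_midFour, vU]
  simp only [eMidEnd, eval_sub', eval_mul', eval_num', r1, vI, vX, vE, ← k] at h1
  push_cast at h1
  refine neg_of_mul_neg_left (b := 1000 * (b - u * a)) ?_ hG.le
  linarith [mul_nonneg (show (0 : ℝ) ≤ l by exact_mod_cast hl.1) (sub_nonneg.2 hX),
    mul_nonneg (show (0 : ℝ) ≤ m by exact_mod_cast hl.2)
      (show 0 ≤ 1 - (1 - 2 * I) * (1 - 2 * I - 2 * a) * X by linarith [hP.guard]), hP.I_pos]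

/-- The bracket of an exit curve and the opposite of its slope from boxes. -/
theorem mid_bracket_box (e : MidExit) {u₀ u₁ X₀ X₁ I₀ I₁ a₀ a₁ : ℤ}
    (hD : checkFour (midBox u₀ u₁ X₀ X₁ I₀ I₁ a₀ a₁) 200 2 0 1 1 (eMidEOne e) = true)
    (hL : checkFour (midBox u₀ u₁ X₀ X₁ I₀ I₁ a₀ a₁) 200 1 0 1 1 (eMidDl e) = true)
    (g : ((u₀ : ℝ) ≤ u * 1000 ∧ u * 1000 < u₁) ∧ ((X₀ : ℝ) = 100 ∧ (X₁ : ℝ) = 101) ∧
      ((I₀ : ℝ) ≤ I * 1000 ∧ I * 1000 < I₁) ∧ ((a₀ : ℝ) ≤ a * 1000 ∧ a * 1000 < a₁)) :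
    0 < midBracket e I a u ∧ 0 ≤ midBracketDl e I a u := by
  obtain ⟨⟨g1, g2⟩, ⟨g3, g4⟩, ⟨g5, g6⟩, g7, g8⟩ := g
  have p := mid_point (X := 1) (X₀ := X₀) (X₁ := X₁) g1 g2 (by linarith) (by linarith) g5 g6 g7 g8
  have h1 := nonneg_of_checkFour hD p
  have h2 := nonneg_of_checkFour hL p
  have vU : eU.eval (stabPt u 1 I a) = u := by simp [eU, Ex.eval, stabPt]
  simp only [eMidEOne, eMidE, eMidDl, eval_add', eval_sub', eval_mul', eval_num', eval_midFour,
    vU] at h1 h2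
  push_cast at h1 h2
  simp only [midBracket, midBracketDl]
  constructor <;> linarith

end AllLow

/-- The sign of `c` asked at every point of a piece `J`. -/
def MidSigns (J : ℝ → Prop) (P : ℝ → ℝ → ℝ → ℝ → Prop) : Prop :=
  ∀ a I X u, AllLow.MidPlace a I X → J I → 0 < u → u < 1 → P a I X u

variable {N p q : ℝ} {S : Set ℝ} {R x y s dx dy : ℝ → ℝ}

/-- **A lower band from the packed signs.** -/
theorem orbit_mid_low (hf : IsOrbitFns N p q S R x y s dx dy)
    (hb : SlabBoxAll N (1 / (p + 1)) (1 / (q + 1))) (h7 : 7 ≤ N) (h20 : N ≤ 20)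
    (ha : 1 / (p + 1) ≤ 31 / 100) (c : MidBand) {J : ℝ → Prop} (hJ : J (1 / N))
    (hs : ∀ a I X, AllLow.MidPlace a I X → J I →
      0 ≤ (AllLow.eMidStart c).eval (AllLow.stabPt 0 X I a))
    (hden : MidSigns J fun a I X u => 0 < (AllLow.eMidDen c).eval (AllLow.stabPt u X I a))
    (hnum : MidSigns J fun a I X u => 0 < (AllLow.eMidNum c).eval (AllLow.stabPt u X I a))
    {w : ℝ} (hw : w ∈ S) (hw0 : 0 < R w) :
    midBandG c (1 / (p + 1)) (1 / (q + 1)) (uOf N (R w) (x w))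
        (vOf (1 / (p + 1)) (1 / (q + 1)) (y w / x w)) <
      hOf N (R w) (x w) (y w) w / (1 / (q + 1) - 1 / (p + 1)) := by
  obtain ⟨ha0, hb0, hd, -⟩ := hb.facts
  have hu1 : uOf N (R w) (x w) ≤ 1 := (orbit_point_all hf hb hw hw0).1.u_lt.le
  obtain ⟨c1, c2, c3⟩ := continuous_mid ha0 hd c
  have key := band_step_all hf hb (u₁ := 1) (one_mul 1) (hasGradTwo_mid ha0 hd c) c1 c2 c3
    (fun _ _ => True) (fun _ _ _ _ => trivial) (fun v h1 h2 h3 => ?_)
    (fun u v hu hu' _ hv _ => ?_) hw hw0 hu1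
  · linarith
  · obtain ⟨I, X, rfl, hbI, hI, hP⟩ := AllLow.midPlace_of hb h7 h20 ha h1 h2 h3
    have k := AllLow.eval_mid_start (c := c) (X := X) hbI hP.I_pos hb0
    have h0 := hs _ _ _ hP (hI ▸ hJ)
    rw [one_mul]
    refine nonneg_of_mul_nonneg_left (b := 1000 * (1 / (q + 1)) * (1 + 2 * I)) ?_
      (by have := hP.I_pos; positivity)
    rw [k]
    exact mul_nonneg hP.I_pos.le h0
  · obtain ⟨I, X, rfl, hbI, hI, hP⟩ := AllLow.midPlace_of hb h7 h20 ha hv.low.le hv.high hv.av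
    obtain ⟨hG, k1, -, k2⟩ := AllLow.eval_mid_num (c := c) (X := X) hbI hu'.le ha0 hd
    rw [one_mul]
    exact ⟨pos_of_mul_pos_left (k1 ▸ hden _ _ _ _ hP (hI ▸ hJ) hu hu') hG.le,
      pos_of_mul_pos_left (k2 ▸ hnum _ _ _ _ hP (hI ▸ hJ) hu hu') (pow_pos hG 3).le⟩

/-- **An upper band from the packed signs.** -/
theorem orbit_mid_up (hf : IsOrbitFns N p q S R x y s dx dy)
    (hb : SlabBoxAll N (1 / (p + 1)) (1 / (q + 1))) (h7 : 7 ≤ N) (h20 : N ≤ 20)
    (ha : 1 / (p + 1) ≤ 31 / 100) (c : MidBand) {J : ℝ → Prop} (hJ : J (1 / N))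
    (hs : ∀ a I X, AllLow.MidPlace a I X → J I →
      (AllLow.eMidStart c).eval (AllLow.stabPt 0 X I a) ≤ 0)
    (hden : MidSigns J fun a I X u => 0 < (AllLow.eMidDen c).eval (AllLow.stabPt u X I a))
    (hnum : MidSigns J fun a I X u => (AllLow.eMidNum c).eval (AllLow.stabPt u X I a) < 0)
    {w : ℝ} (hw : w ∈ S) (hw0 : 0 < R w) :
    hOf N (R w) (x w) (y w) w / (1 / (q + 1) - 1 / (p + 1)) <
      midBandG c (1 / (p + 1)) (1 / (q + 1)) (uOf N (R w) (x w))
        (vOf (1 / (p + 1)) (1 / (q + 1)) (y w / x w)) := by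
  obtain ⟨ha0, hb0, hd, -⟩ := hb.facts
  have hu1 : uOf N (R w) (x w) ≤ 1 := (orbit_point_all hf hb hw hw0).1.u_lt.le
  obtain ⟨c1, c2, c3⟩ := continuous_mid ha0 hd c
  have key := band_step_all hf hb (e := -1) (u₁ := 1) (by norm_num) (hasGradTwo_mid ha0 hd c)
    c1 c2 c3 (fun _ _ => True) (fun _ _ _ _ => trivial) (fun v h1 h2 h3 => ?_)
    (fun u v hu hu' _ hv _ => ?_) hw hw0 hu1
  · linarith
  · obtain ⟨I, X, rfl, hbI, hI, hP⟩ := AllLow.midPlace_of hb h7 h20 ha h1 h2 h3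
    have k := AllLow.eval_mid_start (c := c) (X := X) hbI hP.I_pos hb0
    have h0 := hs _ _ _ hP (hI ▸ hJ)
    rw [neg_one_mul, neg_nonneg]
    refine nonpos_of_mul_nonpos_left (b := 1000 * (1 / (q + 1)) * (1 + 2 * I)) ?_
      (by have := hP.I_pos; positivity)
    rw [k]
    exact mul_nonpos_of_nonneg_of_nonpos hP.I_pos.le h0
  · obtain ⟨I, X, rfl, hbI, hI, hP⟩ := AllLow.midPlace_of hb h7 h20 ha hv.low.le hv.high hv.av
    obtain ⟨hG, k1, -, k2⟩ := AllLow.eval_mid_num (c := c) (X := X) hbI hu'.le ha0 hd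
    refine ⟨pos_of_mul_pos_left (k1 ▸ hden _ _ _ _ hP (hI ▸ hJ) hu hu') hG.le, ?_⟩
    rw [neg_one_mul, neg_pos]
    exact neg_of_mul_neg_left (k2 ▸ hnum _ _ _ _ hP (hI ▸ hJ) hu hu') (pow_pos hG 3).le

theorem hasGrad_mid_exit (a b : ℝ) (e : MidExit) :
    HasGrad (fun u v _ => 2000 * allStabI a b - v * midBracket e (allStabI a b) a u)
      (fun u v _ => v * midBracketDl e (allStabI a b) a u)
      (fun u _ _ => -midBracket e (allStabI a b) a u) (fun _ _ _ => 0) := by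
  intro u v H du dv dh t hu hv _
  refine ((hv.fun_mul ((hu.fun_mul ((hu.mul_const (midFour e.e2 (allStabI a b) a)).const_add
    (midFour e.e1 (allStabI a b) a))).const_add (midFour e.e0 (allStabI a b) a))).const_sub
      (2000 * allStabI a b)).congr_deriv ?_
  simp only [midBracket, midBracketDl]
  ring

/-- **An exit curve from the packed signs.** -/
theorem orbit_mid_exit (hf : IsOrbitFns N p q S R x y s dx dy)
    (hb : SlabBoxAll N (1 / (p + 1)) (1 / (q + 1))) (h7 : 7 ≤ N) (h20 : N ≤ 20)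
    (ha : 1 / (p + 1) ≤ 31 / 100) (c : MidBand) (e : MidExit) {u₁ : ℝ} (hu₁ : u₁ < 1)
    {J : ℝ → Prop} (hJ : J (1 / N))
    (hlow : ∀ z ∈ S, 0 < R z →
      midBandG c (1 / (p + 1)) (1 / (q + 1)) (uOf N (R z) (x z))
          (vOf (1 / (p + 1)) (1 / (q + 1)) (y z / x z)) <
        hOf N (R z) (x z) (y z) z / (1 / (q + 1) - 1 / (p + 1)))
    (hpos : ∀ a I X u, AllLow.MidPlace a I X → J I → 0 < u → u ≤ u₁ →
      0 < midBracket e I a u ∧ 0 ≤ midBracketDl e I a u)
    (hsign : ∀ a b I X u, AllLow.MidPlace a I X → b = 1 - 2 * I - a → J I → 0 < u → u ≤ u₁ →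
      2 * I * X * midBracket e I a u = 2000 * I →
      0 < allEn a b u (2 * I * X) (midBandG c a b u (2 * I * X)) →
      allDot a b u (2 * I * X) (midBandG c a b u (2 * I * X))
        (2 * I * X * midBracketDl e I a u) (-midBracket e I a u) 0 < 0)
    (hend : ∀ a b I X, AllLow.MidPlace a I X → b = 1 - 2 * I - a → J I → 0 < u₁ →
      1000 ≤ X * midBracket e I a u₁ →
      allEn a b u₁ (2 * I * X) (midBandG c a b u₁ (2 * I * X)) < 0)
    {w : ℝ} (hw : w ∈ S) (hw0 : 0 < R w) (hwu : uOf N (R w) (x w) ≤ u₁) :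
    vOf (1 / (p + 1)) (1 / (q + 1)) (y w / x w) *
        midBracket e (allStabI (1 / (p + 1)) (1 / (q + 1))) (1 / (p + 1))
          (uOf N (R w) (x w)) < 2000 * allStabI (1 / (p + 1)) (1 / (q + 1)) := by
  obtain ⟨ha0, hb0, hd, -⟩ := hb.facts
  refine sub_pos.1 (exit_step_all hf hb hu₁ (hasGrad_mid_exit _ _ e)
    (fun u v H => midBandG c (1 / (p + 1)) (1 / (q + 1)) u v < H)
    (fun z hz hz0 _ => hlow z hz hz0) (fun v H hP hen hE => ?_)
    (fun u v H hP hen hu hE hF => ?_) hw hw0 hwu)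
  · obtain ⟨I, X, rfl, hbI, hI, hM⟩ :=
      AllLow.midPlace_of hb h7 h20 ha hP.low.le hP.high hP.av
    have eI : allStabI (1 / (p + 1)) (1 / (q + 1)) = I := by rw [allStabI, hbI]; ring
    simp only [eI]
    by_contra hn
    have h1 : 1000 ≤ X * midBracket e I (1 / (p + 1)) u₁ := by
      refine le_of_mul_le_mul_left (a := 2 * I) ?_ (mul_pos two_pos hM.I_pos)
      linarith [not_lt.1 hn]
    have h2 := hend _ _ _ _ hM hbI (hI ▸ hJ) hP.u_pos h1
    have h3 := AllLow.allEn_anti (u := u₁) ha0.le hd.le (by linarith [hM.I_pos])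
      (mul_nonneg (mul_nonneg zero_le_two hM.I_pos.le) hM.X_pos.le) hP.av.le hP.u_pos.le
      hP.u_lt.le hE.le
    linarith
  · obtain ⟨I, X, rfl, hbI, hI, hM⟩ :=
      AllLow.midPlace_of hb h7 h20 ha hP.low.le hP.high hP.av
    have eI : allStabI (1 / (p + 1)) (1 / (q + 1)) = I := by rw [allStabI, hbI]; ring
    simp only [eI] at hF ⊢
    obtain ⟨hD, hDl⟩ := hpos _ _ _ _ hM (hI ▸ hJ) hP.u_pos hu
    have hv0 : 0 ≤ 2 * I * X := mul_nonneg (mul_nonneg zero_le_two hM.I_pos.le) hM.X_pos.le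
    have hS : 1 / (p + 1) + 1 / (q + 1) ≤ 2 := by linarith [hM.I_pos]
    have hen' := lt_of_lt_of_le hen
      (AllLow.allEn_anti ha0.le hd.le hS hv0 hP.av.le hP.u_pos.le hP.u_lt.le hE.le)
    exact (AllLow.exit_affine (dl := midBracketDl e I (1 / (p + 1)) u)
      (den := midBracket e I (1 / (p + 1)) u) ha0.le hd.le hS hv0 hP.av.le hP.u_pos.le hP.u_lt.le
      hDl hD.le hE.le).trans_lt
      (hsign _ _ _ _ _ hM hbI (hI ▸ hJ) hP.u_pos hu (by linarith) hen')

end Vale.Agent.P100.Calib.Band
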