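import Vale.Agent.P100.Calib.SlabMidTailPieces

/-!
# The signs on a box of the middle tail

`u, I, a` lie in the box of `root`; the surrogates and leaves are checked by the kernel.
-/

namespace Vale.Agent.P100.Calib.MidTail.BoxII1U3e

open Pack EndAll Band

/-- A surrogate. -/
def root_s0 : List (List (List (List (List ℤ)))) :=
  [[[[[6198490854,(-287464015),1779234,(-4627),3],[(-248348143),5474887,(-20456),(-18)],[2845365,(-30474),(-92),2],[(-10477),(-91),4],[(-38),2],[1]],[[(-40123676),186473,(-661),3],[462690,(-1121),16],[1679,(-12)],[(-57)]],[[(-22527),1119,(-5)],[913,(-22)],[(-11)]],[[174],[(-2)]]],[[[3354291535,(-230188061),1294918,(-3570),4],[(-176309192),4367880,(-16430),2],[2215414,(-27868),(-8),1],[(-10278),20,1],[2,1]],[[(-34782934),(-2574),731,(-2)],[304651,4071,(-23)],[3858,(-84)],[(-79),1],[1]],[[(-7105),844,(-3)],[414,(-12)],[(-2)]],[[222],[(-3)]]],[[[(-204680190),(-54981615),230149,(-561),1],[(-26817432),1005733,(-2815),(-1)],[441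961,(-6812),(-1)],[(-2470),14],[3]],[[(-10309395),(-50608),529,(-1)],[77003,2364,(-10)],[1333,(-29)],[(-21)]],[[22,234,(-1)],[85,(-3)]],[[83],[(-1)]]],[[[(-231682838),(-6623698),20062,(-18)],[400480,117751,(-173)],[23716,(-660)],[(-107)]],[[(-1694994),(-8991),76],[16531,298],[123]],[[1112,25],[(-28)]],[[14]]],[[[(-36817218),(-369793),780],[477421,5319],[(-2600)]],[[(-132990),(-504)],[940]],[[284]]],[[[(-2070492),(-5216)],[32243]],[[(-2547)]]],[[[(-30335)]]]],[[[[3198271208,(-133510638),495651,1116,(-16)],[(-125380823),2249201,792,(-97)],[1406170,(-7447),(-177),2],[(-4958),(-105),2],[(-19),1]],[[(-17945925),(-277587),1532,(-3)],[98479,5828,(-21)],[1635,(-50)],[(-21)]],[[(-76903),156],[1212,(-1)],[(-7)]],[[(-50),1],[1]]],[[[1891587012,(-117389450),497911,(-610),(-6)],[(-97936338),2222360,(-6165),(-22)],[1307492,(-16086),(-11)],[(-7857),34],[20]],[[(-18528749),(-337156),1982,(-5)],[82718,7682,(-32)],[2191,(-64)],[(-26)]],[[(-86170),33,2],[1421,2],[(-6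)]],[[(-74),1],[1]]],[[[(-22751054),(-31906700),121107,(-308)],[(-18020421),620681,(-2051)],[310189,(-4863)],[(-2117)]],[[(-8278136),(-105139),509],[78853,2086],[194]],[[(-33345),15],[513]],[[(-24)]]],[[[(-121913484),(-4191091),14251],[(-166560),76273],[22478]],[[(-1861645),(-11040)],[23997]],[[(-5295)]]],[[[(-21978582),(-226324)],[255431]],[[(-180447)]]],[[[(-1215076)]]]],[[[[166124827,(-4696674),(-74456),855,(-5)],[(-5086979),(-46004),3121,(-27)],[9867,2728,(-52)],[689,(-38)],[(-9)]],[[(-98066),(-63943),118],[(-38831),1257,(-1)],[717,(-8)],[(-5)]],[[(-8888),(-155)],[86,3]],[[(-32)]]],[[[118630151,(-6675786),4,(-33)],[(-5967168),106635,(-85)],[76862,(-729)],[(-462)]],[[(-732920),(-52924),59],[(-16873),831],[382]],[[(-10176),(-119)],[92]],[[(-27)]]],[[[(-5827294),(-1658892),(-4108)],[(-846079),21387],[13042]],[[(-498899),(-14486)],[172]],[[(-3689)]]],[[[(-6095913),(-269038)],[(-38336)]],[[(-127724)]]],[[[(-1247665)]]]],[[[[(-2189144),95655,(-694),1],[86969,(-2109),8],[(-1166),13],[6]],[[11733,276,(-2)],[(-73),(-6)],[(-1)]],[[88],[(-1)]]],[[[(-1668409),98673,(-608)],[79261,(-1817)],[(-967)]],[[17199,226],[(-108)]],[[82]]],[[[2299,26036],[15168]],[[7338]]],[[[151747]]]]]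

/-- A surrogate. -/
def root_s1 : List (List (List (List (List ℤ)))) :=
  [[[[[21586636338,(-170048048),39207,3938,(-23)],[(-484085677),2723385,9591,(-162),1],[4291819,(-8458),(-322),3],[(-16468),(-203),5],[(-30),4],[1]],[[(-48078744),617375,(-2853),7],[1290921,(-15649),81],[(-15400),202,(-1)],[122,(-2)],[(-1)]],[[(-46996),169],[991,(-4)],[(-11)]],[[18]]],[[[28098857606,(-218916229),208568,2827,(-19)],[(-623428435),3708142,2104,(-105)],[5549125,(-22208),(-151),1],[(-24634),(-23),2],[30,1]],[[(-64654987),636243,(-1796),4],[1567439,(-12766),45],[(-15395),129],[91,(-1)]],[[(-13707),(-129)],[48,1],[(-1)]],[[20]]],[[[12664150494,(-97816249),138962,738,(-5)],[(-276742830),1696669,(-1256),(-21)],[2444999,(-11925),(-16)],[(-11249),21],[17]],[[(-30076706),254092,(-471),1],[690288,(-4464),10],[(-6205),34],[28]],[[1415,(-97)],[(-153),1],[1]],[[7]]],[[[2422447477,(-18783831),37582,56],[(-51831223),338201,(-506)],[456356,(-2197)],[(-1787)]],[[(-5875800),44081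,(-67)],[127224,(-705)],[(-1045)]],[[965,(-17)],[(-35)]],[[1]]],[[[229784272,(-1827244),4275],[(-4816046),29580],[36210]],[[(-565969),3861],[11589]],[[104]]],[[[11239777,(-82755)],[(-200361)]],[[(-28851)]]],[[[229243]]]],[[[[10868245159,(-95591577),(-182146),4619,(-26)],[(-259972418),1110609,15717,(-176),1],[2187060,7498,(-360),2],[(-5058),(-258),4],[(-54),2],[1]],[[2536232,189649,(-1399),4],[148085,(-4900),28],[(-3141),53],[27]],[[8578,(-107)],[(-328),2],[4]],[[(-6)]]],[[[13955830940,(-124039717),83808,1869,(-10)],[(-332329160),1987184,3055,(-61)],[3017188,(-10164),(-99)],[(-13318),(-33)],[11]],[[7469538,86908,(-540),2],[(-41),(-2019),11],[(-1045),21],[10]],[[(-5940),7],[62,1],[1]],[[(-7)]]],[[[6188284007,(-51895494),67872,225],[(-142648882),867115,(-447)],[1282476,(-5039)],[(-5155)]],[[3493965,17076,(-90)],[(-22447),(-394)],[(-165)]],[[(-4398),20],[79]],[[(-2)]]],[[[1163156150,(-8875107),11441],[(-25474334),133444],[201700]],[[635898,921],[(-5640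)]],[[(-723)]]],[[[108759767,(-707960)],[(-2138496)]],[[60742]]],[[[5172856]]]],[[[[411549734,(-8452396),(-144706),1790,(-8)],[(-19328793),(-79403),6034,(-48)],[136002,4885,(-92)],[549,(-68)],[(-16)]],[[3332086,(-54764),399,(-1)],[(-93884),1572,(-8)],[1327,(-17)],[(-9)]],[[912,24],[25],[(-1)]],[[(-1)]]],[[[642146525,(-16790096),(-2086),418],[(-29793274),253740,944],[337660,(-701)],[(-1323)]],[[3227815,(-34450),160],[(-78405),720],[736]],[[2644,14],[(-7)]],[[(-1)]]],[[[294130999,(-6595949),7570],[(-12086705),98958],[122704]],[[1215839,(-9523)],[(-25971)]],[[1064]]],[[[58038854,(-890261)],[(-1819281)]],[[168323]]],[[[4736254]]]],[[[[(-119359571),(-548641),866],[748430,10093,(-7)],[3021,(-52)],[(-33)]],[[(-218783),(-1942),2],[431,27],[19]],[[133,(-2)],[(-4)]]],[[[(-133210988),(-648408),798],[803948,9273],[3137]],[[(-250128),(-1782)],[164]],[[140]]],[[[(-44205764),(-217016)],[221532]],[[(-76329)]]],[[[(-3811175)]]]],[[[[(-8039897)],[113451],[(-493)]],[[(-38874)],[430]],[[(-55)]]],[[[(-8811440)],[100546]],[[(-34411)]]],[[[(-2619027)]]]]]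

/-- A surrogate. -/
def root_s3 : List (List (List (List (List ℤ)))) :=
  [[[[[815232553,(-92748527),844361,(-4634),20],[(-73412635),2816621,(-23323),135,(-1)],[1499471,(-36341),301,(-2)],[(-14471),285,(-3)],[86,(-2)]],[[18305385,(-67075),1088,(-8)],[(-278951),1669,(-36)],[2104,(-37),1],[(-20)]],[[(-8697),11],[23],[1]],[[(-68)],[1]]],[[[238467101,(-92328297),888994,(-4855),21],[(-57925415),2761798,(-23750),137],[1293409,(-35197),300,(-1)],[(-12691),273,(-2)],[74,(-1)]],[[12117204,(-36219),1014,(-8)],[(-163434),1178,(-34)],[1133,(-33)],[(-15)]],[[(-2950),30],[(-33)],[1]],[[(-54)],[1]]],[[[(-483046862),(-28220865),311388,(-1737),6],[(-5903994),854854,(-8081),41],[278934,(-10937),87],[(-3111),73],[17]],[[1685858,(-207),321,(-2)],[(-8014),213,(-9)],[(-49),(-6)],[(-1)]],[[1807,14],[(-38)]],[[(-12)]]],[[[(-275642604),(-2630963),43989,(-250)],[3761483,94715,(-1054)],[(-6954),(-1188)],[(-161)]],[[104926,732,37],[3171,(-15)],[(-58)]],[[691,2],[(-10)]],[[(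-1)]]],[[[(-43483627),22376,2356],[816165,2253],[(-5121)]],[[335,126],[326]],[[93]]],[[[(-2770978),12898],[49774]],[[658]]],[[[(-55843)]]]],[[[[933960156,(-75329038),512822,(-2350),13],[(-59189341),1810660,(-10440),59],[965874,(-17694),106,(-1)],[(-7266),102,(-1)],[31]],[[7172299,(-55972),365,(-3)],[(-158944),1888,(-15)],[1926,(-30)],[(-17)]],[[27084,66,(-1)],[(-404),(-2)],[2]],[[31],[(-1)]]],[[[74730573,(-58203893),396663,(-1729),9],[(-32315922),1386755,(-7811),39],[609369,(-13164),68],[(-4564),62],[16]],[[4967438,(-58795),396,(-2)],[(-118360),1852,(-11)],[1562,(-21)],[(-12)]],[[22455,31,(-1)],[(-361),(-2)],[2]],[[29],[(-1)]]],[[[(-463076373),(-11572546),83416,(-294)],[2905668,276730,(-1349)],[35814,(-2194)],[(-349)]],[[504044,(-19515),110],[(-17623),470],[308]],[[5558,(-2)],[(-98)]],[[8]]],[[[(-172878876),(-592548),6469],[2869389,16862],[(-16264)]],[[(-154593),(-2028)],[955]],[[631]]],[[[(-22092990),32395],[377331]],[[(-30169)]]],[[[(-1197706)]]]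],[[[[439454892,(-22966234),103252,(-38)],[(-20195549),448342,(-1121)],[266145,(-3224),2],[(-1559),7],[3]],[[(-684170),(-53320),305],[(-23161),1336,(-4)],[618,(-10)],[(-5)]],[[(-2117),(-41)],[22,1]]],[[[121859151,(-16069272),75699,(-11)],[(-10744936),319671,(-687)],[158927,(-2017)],[(-881)]],[[(-1132663),(-39443),206],[(-4199),880],[339]],[[(-2633),(-28)],[25]],[[(-1)]]],[[[(-96034593),(-2497788),12997],[425669,50505],[10110]],[[(-604788),(-6691)],[5648]],[[(-963)]]],[[[(-28299702),(-96969)],[418187]],[[(-113425)]]],[[[(-2435890)]]]],[[[[35970221,(-1782815),11857,(-19)],[(-1604319),39657,(-162)],[22214,(-307)],[(-136)]],[[(-112767),(-4658),36],[(-492),106],[36]],[[(-642),(-2)],[8]],[[(-1)]]],[[[9137217,(-1063826),7107],[(-725825),22903],[11393]],[[(-138872),(-2494)],[719]],[[(-465)]]],[[[(-6494997),(-82726)],[64055]],[[(-48135)]]],[[[(-1085258)]]]]]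

/-- A surrogate. -/
def root_s5 : List (List (List (List (List ℤ)))) :=
  [[[[[7140257123,(-279935736),1381569,(-1122),(-5)],[(-263358401),4703332,(-9005),(-47)],[2687179,(-15089),(-159),1],[(-5232),(-204),3],[(-86),3],[1]],[[(-65826041),683941,(-2566),5],[1357059,(-11986),46],[(-10631),90],[38]],[[32537,595,(-3)],[49,(-14)],[(-9)]],[[148,(-1)],[(-3)]]],[[[4920711514,(-250618075),1155019,(-712),(-4)],[(-220774534),4350494,(-7959),(-41)],[2539216,(-18291),(-115),1],[(-8410),(-115),2],[(-42),1]],[[(-60898652),554030,(-1682),3],[1246263,(-8984),27],[(-9647),58],[33]],[[44562,512,(-3)],[(-326),(-11)],[(-3)]],[[171,(-1)],[(-3)]]],[[[464499771,(-72527950),291589,111,(-1)],[(-51598216),1318078,(-1614),(-16)],[745553,(-6802),(-33)],[(-3625),(-18)],[(-3)]],[[(-18758289),149952,(-375),1],[393924,(-2459),6],[(-3308),17],[13]],[[18605,157,(-1)],[(-213),(-3)],[1]],[[62],[(-1)]]],[[[(-172704104),(-9859539),37914,65],[(-3098236),192155,(-144)],[81830,(-1000)],[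(-454)]],[[(-2718591),20665,(-53)],[58888,(-363)],[(-476)]],[[4064,14],[(-71)]],[[9]]],[[[(-38674032),(-659209),2601],[295535,12555],[1949]],[[(-188225),1376],[3438]],[[467]]],[[[(-2620060),(-18720)],[31797]],[[(-4141)]]],[[[(-51764)]]]],[[[[3389786480,(-136708421),607985,(-188),(-6)],[(-126468971),2186680,(-1624),(-52)],[1262458,(-4366),(-139),1],[(-1766),(-142),2],[(-50),1]],[[(-25672723),(-19784),66,3],[366698,310,8],[(-1700),4],[2]],[[(-49213),251],[853,(-3)],[(-6)]],[[6]]],[[[2189828985,(-122924814),543723,(-602),(-2)],[(-105040812),2162312,(-4631),(-16)],[1262720,(-10837),(-41)],[(-5166),(-36)],[(-11)]],[[(-25276869),(-88853),583,1],[337961,2085,(-2)],[(-1263),(-12)],[(-3)]],[[(-56339),235],[1039,(-2)],[(-6)]],[[(-1)]]],[[[96798524,(-35442788),136442,(-62)],[(-23050250),666738,(-1260)],[366068,(-3950)],[(-2034)]],[[(-9632772),(-38164),236],[140150,793],[(-589)]],[[(-21378),77],[361]]],[[[(-115886170),(-4929049),19201],[(-912569),94054],[36589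]],[[(-1903788),(-3719)],[28850]],[[(-3227)]]],[[[(-23772597),(-292168)],[237630]],[[(-176370)]]],[[[(-1506505)]]]],[[[[194234545,(-6588383),(-22584),437,(-3)],[(-6359837),29585,1645,(-15)],[32645,1549,(-31)],[470,(-26)],[(-8)]],[[(-816114),(-38267),114],[(-12013),755,(-1)],[356,(-5)],[(-3)]],[[(-7496),(-51)],[107,1]],[[(-16)]]],[[[129682611,(-7138636),14640,(-44)],[(-6249138),113736,(-118)],[73670,(-474)],[(-274)]],[[(-1173318),(-31666),39],[1643,461],[153]],[[(-7967),(-45)],[92]],[[(-14)]]],[[[(-1536857),(-1828315),(-157)],[(-1087858),26910],[16903]],[[(-544271),(-9395)],[3404]],[[(-2726)]]],[[[(-6471248),(-274618)],[(-47775)]],[[(-119856)]]],[[[(-1298737)]]]],[[[[(-2289898),100057,(-726),1],[90971,(-2206),8],[(-1219),14],[6]],[[14666,170,(-2)],[(-179),(-4)]],[[73],[(-1)]]],[[[(-1745198),103215,(-636)],[82909,(-1901)],[(-1012)]],[[19694,136],[(-195)]],[[67]]],[[[2400,27235],[15866]],[[7702]]],[[[158730]]]]]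

/-- A surrogate. -/
def root_s11 : List (List (List (List (List ℤ)))) :=
  [[[[[6110443774,(-48084995),98615,18],[(-109640111),621790,(-727)],[725601,(-2436)],[(-1836)],[(-1)]],[[(-4872303),30605,(-42)],[86893,(-409)],[(-660),3],[3]],[[(-17587),130],[315,(-2)],[(-2)]],[[4]]],[[[807093790,(-6615519),14288,4],[(-14499856),85074,(-101)],[93057,(-300)],[(-189)],[(-1)]],[[(-162723),41,3],[2835,(-3)],[(-33)]],[[(-2291),17],[41]],[[(-1)]]],[[[30471273,(-271840),645],[(-548946),3458,(-4)],[3280,(-9)],[(-2)]],[[16416,(-209),1],[(-300),2],[1]],[[(-66)],[1]]],[[[242468,(-2880),9],[(-4417),36],[19]],[[507,(-6)],[(-9)]]]],[[[[2153673015,(-15468628),27692],[(-38542080),202664,(-231)],[271322,(-980),1],[(-945),2],[2]],[[6725127,(-49552),92],[(-120437),646,(-1)],[833,(-3)],[(-3)]],[[942,(-9)],[(-17)]],[[(-8)]]],[[[192531413,(-1330959),2228],[(-3441980),17538,(-19)],[24799,(-91)],[(-94)]],[[876020,(-6381),12],[(-15681),82],[108]],[[781,(-6)],[(-14)]]],[[[2955452,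(-14326),5],[(-52418),202],[445,(-2)],[(-3)]],[[25115,(-174)],[(-449),2],[3]],[[43],[(-1)]]],[[[(-48494),576,(-2)],[883,(-7)],[(-4)]],[[(-101),1],[2]]]],[[[[(-212187537),1643470,(-3299),(-1)],[3805493,(-21301),25],[(-25477),88],[70]],[[492296,(-3302),5],[(-8791),42],[62]],[[2321,(-16)],[(-41)]],[[2]]],[[[(-45241196),343916,(-672)],[810936,(-4467),5],[(-5497),18],[15]],[[(-61796),492,(-1)],[1107,(-5)],[(-6)]],[[103,(-1)],[(-2)]]],[[[(-1809942),13739,(-27)],[32441,(-178)],[(-219)]],[[(-5680),43],[101]],[[(-6)]]]],[[[[(-73813175),539227,(-992)],[1321580,(-7045),8],[(-9201),31],[29]],[[(-230265),1688,(-3)],[4121,(-21)],[(-27)]],[[(-155),1],[2]]],[[[(-5109769),37380,(-69)],[91490,(-486)],[(-632)]],[[(-21380),155],[379]],[[(-33)]]]],[[[[(-3755959),27101,(-49)],[67225,(-353)],[(-469)]],[[(-19644),141],[348]],[[(-41)]]]]]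

/-- A surrogate. -/
def root_s12 : List (List (List (List (List ℤ)))) :=
  [[[[[(-617778060),(-12543639),130251,(-315)],[(-1961050),493939,(-3117),5],[253893,(-6480),26],[(-3063),38],[16]],[[8675545,(-40723),(-53)],[(-160961),345,2],[1067,1],[(-2)]],[[(-515),38],[48,(-1)],[(-1)]],[[(-24)]]],[[[(-562154273),(-2626319),49523,(-144)],[6349686,139634,(-1116),2],[25419,(-1957),9],[(-734),12],[5]],[[2657705,(-16039),14],[(-52076),208],[386,(-1)],[(-1)]],[[1691,3],[(-21)]],[[(-6)]]],[[[(-148278253),88974,6794,(-24)],[2322984,11640,(-155)],[(-9284),(-212),1],[(-34),1]],[[323178,(-2347),5],[(-6600),36],[51]],[[584,(-2)],[(-10)]]],[[[(-16231801),52302,392,(-2)],[287905,(-36),(-9)],[(-1859),(-8)],[3]],[[18510,(-149)],[(-365),3],[4]],[[65],[(-1)]]],[[[(-778092),3776,8],[14883,(-31)],[(-98)]],[[410,(-5)],[(-12)]],[[3]]],[[[(-13447),72],[245]],[[5]]]],[[[[(-101639983),(-18202995),145934,(-309)],[(-11316875),509015,(-2720),4],[273173,(-5364),19],[(-2460),28],[1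1]],[[1334889,(-18057),97],[(-37118),514,(-3)],[494,(-6)],[(-4)]],[[8672,(-10)],[(-147)],[1]],[[9]]],[[[(-370447850),(-2370365),35933,(-96)],[4096664,96316,(-713),1],[12440,(-1199),5],[(-391),6],[2]],[[(-153859),(-4334),45],[(-1273),153,(-1)],[77,(-2)],[(-1)]],[[2510,(-11)],[(-47)]],[[3]]],[[[(-98459142),205499,2957,(-10)],[1675678,2663,(-63)],[(-9515),(-75)],[6]],[[(-154278),307,4],[2611,6],[(-10)]],[[195,(-1)],[(-4)]]],[[[(-9714359),47601,69],[184506,(-447)],[(-1270)]],[[(-21622),100],[378]]],[[[(-405594),2418],[7790]],[[(-1065)]]],[[[(-5912)]]]],[[[[67379941,(-6063221),42157,(-80)],[(-4921688),144343,(-684),1],[81900,(-1331),4],[(-614),6],[2]],[[(-369178),(-12735),110],[(-2404),344,(-2)],[137,(-3)],[(-1)]],[[(-721),(-4)],[9]],[[1]]],[[[(-64377673),(-585013),7141,(-16)],[660548,18656,(-120)],[2089,(-196)],[(-58)]],[[(-327846),(-788),19],[4754,41],[(-13)]],[[(-423)],[6]]],[[[(-14107751),36254,325],[248962,68],[(-1524)]],[[(-59126),199],[1025]],[[(-75)]]],[[[(-910777),4971],[17345]],[[(-3674)]]],[[[(-17762)]]]],[[[[6515516,(-410794),2729,(-5)],[(-355900),9287,(-41)],[5354,(-80)],[(-37)]],[[(-28394),(-1459),12],[(-412),36],[15]],[[(-192),(-2)],[2]]],[[[(-3605285),(-18654),282],[47201,650],[(-91)]],[[(-26615),(-11)],[413]],[[(-70)]]],[[[(-498468),2255],[9307]],[[(-2771)]]],[[[(-13342)]]]]]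

/-- A surrogate. -/
def root_s13 : List (List (List (List (List ℤ)))) :=
  [[[[[(-34481781),898161,16942,(-152)],[1196387,(-721),(-305),1],[(-12424),18],[120,(-3)],[(-1)]],[[271789,7293,(-118),1],[(-2508),(-152),1],[28],[(-1)]],[[1046,(-41)],[(-30),1]],[[(-5)]]],[[[(-43280289),2016325,4000,(-97)],[1910670,(-27784),(-114),1],[(-23206),212,(-1)],[170,(-3)],[(-1)]],[[572202,139,(-63)],[(-10766),(-15),1],[108,(-1)],[(-1)]],[[56,(-28)],[(-9),1]],[[(-5)]]],[[[(-8619952),1033163,(-3569),(-10)],[722480,(-18810),36],[(-10376),143],[70,(-1)]],[[291848,(-2619)],[(-6510),47],[65]],[[(-405),(-4)],[6]],[[(-1)]]],[[[3439877,138008,(-772)],[18914,(-2872),8],[(-918),19],[7]],[[41412,(-496),2],[(-993),9],[9]],[[(-104)],[2]]],[[[699179,6799,(-45)],[(-8466),(-140)],[16]],[[2389,(-32)],[(-47)]],[[(-11)]]],[[[40949,85],[(-589)]],[[19]]],[[[560]]]],[[[[(-30143916),1064050,2728,(-61)],[1212904,(-17616),(-50),1],[(-16283),179,(-1)],[134,(-2)],[(-1)]],[[164857,5593,(-48)]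,[(-780),(-106),1],[(-2),1]],[[1150,(-8)],[(-22)]]],[[[(-33061375),1696519,(-4470),(-33)],[1584398,(-33599),64],[(-22621),313,(-1)],[172,(-2)],[(-1)]],[[335024,3703,(-42)],[(-4584),(-80),1],[30]],[[1185,(-9)],[(-25)]]],[[[(-5685010),754719,(-4197),(-1)],[525362,(-16529),56],[(-8635),134],[60]],[[191483,378,(-10)],[(-3369),(-13)],[22]],[[417,(-3)],[(-8)]]],[[[2555450,94479,(-686)],[5847,(-2171)],[(-669)]],[[39412,(-50)],[(-704)]],[[60]]],[[[508764,4098],[(-6672)]],[[3526]]],[[[29564]]]],[[[[(-1675050),55260,322,(-5)],[69460,(-944),(-3)],[(-1008),15],[11]],[[3244,574,(-4)],[178,(-12)],[(-3)]],[[100],[(-2)]]],[[[(-1874499),95582,(-216),(-2)],[92128,(-2065),3],[(-1408),18],[11]],[[14162,492,(-3)],[(-75),(-10)],[(-1)]],[[123],[(-2)]]],[[[(-276364),41446,(-231)],[27759,(-923)],[(-481)]],[[10360,106],[(-132)]],[[45]]],[[[165493,3780],[(-991)]],[[2249]]],[[[22973]]]],[[[[71559,(-3127),23],[(-2843),69],[38]],[[(-458),(-5)],[6]],[[(-2)]]],[[[54537,(-3225),20],[(-2591),59],[32]],[[(-615),(-4)],[6]],[[(-2)]]],[[[(-75),(-851)],[(-496)]],[[(-241)]]],[[[(-4960)]]]]]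

/-- A surrogate. -/
def root_s14 : List (List (List (List (List ℤ)))) :=
  [[[[[(-32964583),858642,16197,(-146)],[1143746,(-689),(-292),1],[(-11877),17],[115,(-3)],[(-1)]],[[225350,7870,(-96)],[(-1201),(-146),1],[15],[(-1)]],[[1272,(-32)],[(-31),1]],[[(-4)]]],[[[(-41375956),1927607,3824,(-92)],[1826601,(-26562),(-109),1],[(-22185),203,(-1)],[163,(-3)],[(-1)]],[[503743,2148,(-57)],[(-8381),(-42),1],[80],[(-1)]],[[625,(-27)],[(-19)]],[[(-4)]]],[[[(-8240674),987703,(-3412),(-10)],[690691,(-17983),34],[(-9920),137],[67,(-1)]],[[270379,(-1469),(-3)],[(-5502),26],[51]],[[(-95),(-7)],[(-1)]],[[(-2)]]],[[[3288522,131936,(-738)],[18082,(-2746),7],[(-878),18],[6]],[[43039,(-335),1],[(-931),6],[8]],[[(-58)],[1]]],[[[668416,6500,(-43)],[(-8094),(-134)],[15]],[[2991,(-24)],[(-52)]],[[(-9)]]],[[[39147,82],[(-563)]],[[54]]],[[[535]]]],[[[[(-28817584),1017232,2608,(-58)],[1159536,(-16841),(-48)],[(-15567),171,(-1)],[128,(-2)],[(-1)]],[[127457,6412,(-43)],[468,(-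120),1],[(-19),1]],[[1264,(-2)],[(-22)]],[[1]]],[[[(-31606675),1621872,(-4273),(-32)],[1514685,(-32121),61],[(-21625),299,(-1)],[165,(-2)],[(-1)]],[[287217,5239,(-45)],[(-2799),(-111),1],[5,1]],[[1469,(-5)],[(-29)]],[[1]]],[[[(-5434871),721511,(-4012),(-1)],[502246,(-15801),54],[(-8255),128],[57]],[[177392,1118,(-14)],[(-2702),(-28)],[12]],[[593,(-3)],[(-11)]]],[[[2443012,90322,(-656)],[5589,(-2075)],[(-639)]],[[40260,42],[(-666)]],[[94]]],[[[486380,3918],[(-6378)]],[[3856]]],[[[28263]]]],[[[[(-1601348),52829,308,(-4)],[66404,(-902),(-3)],[(-964),15],[10]],[[1424,604,(-3)],[240,(-13)],[(-4)]],[[99,1],[(-2)]]],[[[(-1792022),91376,(-207),(-2)],[88075,(-1974),3],[(-1346),18],[10]],[[11666,569,(-3)],[20,(-11)],[(-3)]],[[133,1],[(-2)]]],[[[(-264204),39623,(-221)],[26538,(-882)],[(-460)]],[[9650,141],[(-98)]],[[53]]],[[[158213,3614],[(-947)]],[[2309]]],[[[21963]]]],[[[[68411,(-2989),22],[(-2718),66],[36]],[[(-367),(-9)],[2]],[[(-3)]]],[[[52138,(-3084),19],[(-2477),57],[30]],[[(-537),(-7)],[3]],[[(-3)]]],[[[(-72),(-814)],[(-474)]],[[(-229)]]],[[[(-4742)]]]]]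

/-- A surrogate. -/
def root_s15 : List (List (List (List (List ℤ)))) :=
  [[[[[(-3156281048),(-32589938),365260,(-658),(-1)],[35781140,473562,(-2117),(-3)],[(-301443),1840,(-23)],[4020,(-54)],[(-32)]],[[(-3603003),187761,(-1282),3],[56618,(-2137),9],[666,(-5)],[(-17)]],[[49698,(-498),2],[(-814),6],[4]],[[(-44)],[1]]],[[[(-3454057156),8951221,62052,(-102)],[55772294,(-95096),(-189),(-2)],[(-402494),1582,(-9)],[2307,(-19)],[(-13)]],[[6460973,(-5839),(-257),1],[(-123426),122,3],[1124,(-3)],[(-7)]],[[16755,(-161),1],[(-303),2],[2]],[[(-17)]]],[[[(-703865896),3197918,1654,1],[12121916,(-40591),42],[(-90268),362,(-1)],[480,(-3)],[(-2)]],[[1568539,(-7339),(-18)],[(-30159),93],[232,(-1)],[(-1)]],[[2583,(-23)],[(-49)]],[[(-2)]]],[[[(-58106687),303702,(-260),1],[1043003,(-4302),7],[(-8416),29],[38]],[[135916,(-769)],[(-2576),11],[21]],[[206,(-2)],[(-4)]]],[[[(-2089822),11350,(-15)],[39384,(-140)],[(-288)]],[[5166,(-37)],[(-110)]],[[8]]],[[[(-22161),66],[3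55]],[[88]]],[[[219]]]],[[[[(-3046783691),(-5931477),175054,(-451)],[49823744,54982,(-1159),1],[(-429400),1911,(-8)],[3132,(-27)],[(-18)]],[[(-10572339),93148,(-269)],[170912,(-1110),2],[(-825),3],[(-1)]],[[8725,(-36)],[(-147),1],[1]],[[11]]],[[[(-2879770188),14550122,14768,(-136)],[53519811,(-213241),(-96),1],[(-421781),1615,(-1)],[1978,(-8)],[(-6)]],[[(-4296235),35340,(-97)],[76819,(-505),1],[(-527),2],[1]],[[4745,(-30)],[(-91)],[1]],[[4]]],[[[(-562335939),3559257,(-2451),(-16)],[10857980,(-52652),17],[(-86725),305],[351]],[[(-778271),6199,(-14)],[14986,(-85)],[(-103)]],[[574,(-4)],[(-12)]],[[1]]],[[[(-45546463),312839,(-358)],[903833,(-4482)],[(-6998)]],[[(-70353),510],[1297]],[[22]]],[[[(-1680026),11675],[33030]],[[(-2915)]]],[[[(-23055)]]]],[[[[(-404716231),(-787789),23734,(-67)],[7014283,4120,(-164)],[(-63865),295,(-1)],[471,(-3)],[(-2)]],[[(-2360904),12556,4],[39574,(-172)],[(-268),1],[1]],[[(-2467),20],[42]],[[1]]],[[[(-366953612),2052057,9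17,(-18)],[7143872,(-31893),(-11)],[(-58637),211],[253]],[[(-1282867),8879,(-11)],[24394,(-124)],[(-175)]],[[(-1065),8],[18]]],[[[(-58240829),393546,(-348)],[1171758,(-5824)],[(-9281)]],[[(-187459),1325],[3565]],[[(-154)]]],[[[(-3365851),23657],[67576]],[[(-10473)]]],[[[(-65309)]]]],[[[[(-7421109),(-94406),1067,(-3)],[145738,762,(-7)],[(-1940),9],[16]],[[(-102703),335,2],[1838,(-5)],[(-13)]],[[(-279),2],[4]]],[[[(-8593801),47538,53],[191365,(-880)],[(-1734)]],[[(-57045),382],[1137]],[[(-120)]]],[[[(-1124921),7887],[24719]],[[(-5864)]]],[[[(-37158)]]]],[[[[596678,(-4346),7],[(-9836),47],[55]],[[2520,(-17)],[(-39)]],[[4]]],[[[323139,(-2296)],[(-5193)]],[[1326]]],[[[12288]]]]]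

/-- A root. -/
def root : Root where
  cl := true
  box := fun i => match i with
    | 0 => ⟨33, 21, 400, 80⟩
    | 1 => ⟨191, 957, 200, 1000⟩
    | 2 => ⟨11, 279, 80, 2000⟩
    | _ => ⟨307, 310001, 1000, 1000000⟩
  De := 400
  e0 := 50
  e1 := 159
  p := fun i => match i with
    | 0 => 11
    | 1 => 1000
    | 2 => 1000
    | 3 => 666
    | _ => 7
  q := fun i => match i with
    | 0 => 2
    | 1 => 956
    | 2 => 138
    | 3 => 205
    | _ => 2
  den := 17179869184
  sur := fun k => match k with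
    | 0 => root_s0
    | 1 => root_s1
    | 3 => root_s3
    | 5 => root_s5
    | 11 => root_s11
    | 12 => root_s12
    | 13 => root_s13
    | 14 => root_s14
    | 15 => root_s15
    | _ => []
  eps := fun k => match k with
    | 0 => 41467
    | 1 => 144535
    | 3 => 61942
    | 5 => 42389
    | 11 => 60
    | 12 => 705
    | 13 => 798
    | 14 => 788
    | 15 => 1419
    | _ => 0

/-- A leaf. -/
def leaf0 : Leaf :=
  ⟨⟨191, 239, 200, 250⟩, ⟨11, 69, 80, 500⟩, ⟨307, 617001, 1000, 2000000⟩,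
    16384, (3356, -31343, -23111, 11747), (-5002, -37052, -12034, 21847), 16384, (23127, 56429, 71032, -47579), (21650, -6174, -28222, -18255), (19978, 64137, 81012, -47918), (-4155, 7573, 11714, 604),
    true, 0, 1, 3274, (-310), 2320, 4096, (-3121), 2071⟩

/-- A leaf. -/
def leaf1 : Leaf :=
  ⟨⟨191, 239, 200, 250⟩, ⟨11, 69, 80, 500⟩, ⟨307, 617001, 1000, 2000000⟩,
    16384, (-5002, -37052, -12034, 21847), (-13361, -42760, -956, 31947), 16384, (41143, 47290, 38323, -61054), (-89548, 37770, 69820, 72062), (19019, 63557, 82552, -46858), (13055, -418, -14460, -12679),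
    true, 0, 1, 2735, (-383), 4096, 3907, (-3059), 2636⟩

/-- A tile. -/
def tile0 : Tile :=
  ⟨⟨191, 239, 200, 250⟩, ⟨11, 69, 80, 500⟩, ⟨307, 617001, 1000, 2000000⟩, 16384, (3356, -31343, -23111, 11747), (-13361, -42760, -956, 31947), 6595,
    (1024, 0), (57, 1024), 0, 3, (leaf0, ⟨(1024, 0), (215, 1024)⟩),
    [(leaf1, ⟨(109, 1024), (1024, 1)⟩)]⟩

/-- A leaf. -/
def leaf2 : Leaf :=
  ⟨⟨191, 239, 200, 250⟩, ⟨69, 277, 500, 2000⟩, ⟨307, 617001, 1000, 2000000⟩,
    16384, (3519, -31510, -23494, 11686), (-4876, -37381, -12491, 21888), 16384, (23000, 56935, 71638, -47698), (21958, -6207, -28566, -18517), (19659, 64983, 81874, -47974), (-4166, 7545, 11680, 628),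
    true, 0, 1, 3317, (-321), 2368, 4096, (-3174), 2095⟩

/-- A leaf. -/
def leaf3 : Leaf :=
  ⟨⟨191, 239, 200, 250⟩, ⟨69, 277, 500, 2000⟩, ⟨307, 617001, 1000, 2000000⟩,
    16384, (-4876, -37381, -12491, 21888), (-13272, -43252, -1488, 32090), 16384, (41754, 47640, 38300, -61802), (-92792, 39440, 72694, 74502), (18906, 64083, 82987, -46973), (13180, -353, -14566, -12816),
    true, 0, 1, 2586, (-366), 4096, 3857, (-3058), 2630⟩

/-- A tile. -/
def tile1 : Tile :=
  ⟨⟨191, 239, 200, 250⟩, ⟨69, 277, 500, 2000⟩, ⟨307, 617001, 1000, 2000000⟩, 16384, (3519, -31510, -23494, 11686), (-13272, -43252, -1488, 32090), 6636,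
    (1024, 0), (95, 1024), 0, 3, (leaf2, ⟨(1024, 1), (230, 1024)⟩),
    [(leaf3, ⟨(102, 1024), (1024, 0)⟩)]⟩

/-- A leaf. -/
def leaf4 : Leaf :=
  ⟨⟨191, 239, 200, 250⟩, ⟨11, 69, 80, 500⟩, ⟨617001, 310001, 2000000, 1000000⟩,
    16384, (3784, -31689, -23683, 11494), (-4468, -37701, -13065, 21647), 16384, (22811, 58171, 72698, -48052), (22076, -6196, -28344, -18675), (19231, 66479, 83492, -48234), (-4178, 7417, 11721, 676),
    true, 0, 1, 3386, (-311), 2435, 4096, (-3332), 2104⟩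

/-- A leaf. -/
def leaf5 : Leaf :=
  ⟨⟨191, 239, 200, 250⟩, ⟨11, 69, 80, 500⟩, ⟨617001, 310001, 2000000, 1000000⟩,
    16384, (-4468, -37701, -13065, 21647), (-12721, -43713, -2447, 31800), 16384, (41369, 48852, 39614, -61983), (-94834, 40561, 74749, 75980), (18750, 65128, 84214, -47324), (13198, -295, -14297, -12892),
    true, 0, 1, 2537, (-337), 4096, 3645, (-3054), 2540⟩

/-- A tile. -/
def tile2 : Tile :=
  ⟨⟨191, 239, 200, 250⟩, ⟨11, 69, 80, 500⟩, ⟨617001, 310001, 2000000, 1000000⟩, 16384, (3784, -31689, -23683, 11494), (-12721, -43713, -2447, 31800), 6595,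
    (1024, 0), (76, 1024), 0, 3, (leaf4, ⟨(1024, 0), (244, 1024)⟩),
    [(leaf5, ⟨(101, 1024), (1024, 0)⟩)]⟩

/-- A leaf. -/
def leaf6 : Leaf :=
  ⟨⟨191, 239, 200, 250⟩, ⟨69, 277, 500, 2000⟩, ⟨617001, 310001, 2000000, 1000000⟩,
    16384, (3866, -31877, -24045, 11521), (-4376, -38049, -13523, 21729), 16384, (22792, 58752, 73312, -48309), (22321, -6233, -28667, -18873), (18824, 67316, 84382, -48202), (-4111, 7425, 11676, 610),
    true, 0, 1, 3379, (-310), 2468, 4096, (-3365), 2095⟩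

/-- A leaf. -/
def leaf7 : Leaf :=
  ⟨⟨191, 239, 200, 250⟩, ⟨69, 277, 500, 2000⟩, ⟨617001, 310001, 2000000, 1000000⟩,
    16384, (-4376, -38049, -13523, 21729), (-12618, -44221, -3001, 31937), 16384, (43318, 49116, 39122, -64037), (-98721, 42406, 78054, 78973), (18671, 65701, 84663, -47491), (13278, -242, -14390, -12980),
    true, 0, 1, 2495, (-304), 4096, 3380, (-2987), 2451⟩

/-- A tile. -/
def tile3 : Tile :=
  ⟨⟨191, 239, 200, 250⟩, ⟨69, 277, 500, 2000⟩, ⟨617001, 310001, 2000000, 1000000⟩, 16384, (3866, -31877, -24045, 11521), (-12618, -44221, -3001, 31937), 6636,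
    (1024, 0), (104, 1024), 0, 3, (leaf6, ⟨(1024, 0), (256, 1024)⟩),
    [(leaf7, ⟨(95, 1024), (1024, 0)⟩)]⟩

/-- A leaf. -/
def leaf8 : Leaf :=
  ⟨⟨239, 957, 250, 1000⟩, ⟨11, 69, 80, 500⟩, ⟨307, 617001, 1000, 2000000⟩,
    16384, (3186, -31443, -23255, 11978), (-5364, -37148, -11962, 22246), 16384, (23837, 56013, 70827, -48158), (22108, -6397, -28755, -18585), (20721, 63984, 80892, -48629), (-4165, 7546, 11772, 614),
    true, 0, 1, 3392, (-311), 2378, 4096, (-3104), 2066⟩

/-- A leaf. -/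
def leaf9 : Leaf :=
  ⟨⟨239, 957, 250, 1000⟩, ⟨11, 69, 80, 500⟩, ⟨307, 617001, 1000, 2000000⟩,
    16384, (-5364, -37148, -11962, 22246), (-13913, -42852, -668, 32513), 16384, (50130, 45711, 34497, -69384), (-95591, 40373, 74671, 76837), (19744, 63212, 82335, -47473), (13341, -528, -14748, -12903),
    true, 0, 1, 2545, (-343), 4096, 3869, (-3099), 2687⟩

/-- A tile. -/
def tile4 : Tile :=
  ⟨⟨239, 957, 250, 1000⟩, ⟨11, 69, 80, 500⟩, ⟨307, 617001, 1000, 2000000⟩, 16384, (3186, -31443, -23255, 11978), (-13913, -42852, -668, 32513), 6595,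
    (1024, 0), (97, 1024), 0, 3, (leaf8, ⟨(1024, 0), (218, 1024)⟩),
    [(leaf9, ⟨(74, 1024), (1024, 1)⟩)]⟩

/-- A leaf. -/
def leaf10 : Leaf :=
  ⟨⟨239, 957, 250, 1000⟩, ⟨69, 277, 500, 2000⟩, ⟨307, 617001, 1000, 2000000⟩,
    16384, (3284, -31629, -23583, 11983), (-5272, -37488, -12391, 22322), 16384, (23812, 56544, 71347, -48379), (22377, -6450, -29069, -18804), (20349, 64816, 81804, -48632), (-4112, 7540, 11685, 572),
    true, 0, 1, 3408, (-310), 2419, 4096, (-3171), 2085⟩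

/-- A leaf. -/
def leaf11 : Leaf :=
  ⟨⟨239, 957, 250, 1000⟩, ⟨69, 277, 500, 2000⟩, ⟨307, 617001, 1000, 2000000⟩,
    16384, (-5272, -37488, -12391, 22322), (-13828, -43347, -1199, 32660), 16384, (53258, 45756, 33449, -72524), (-97819, 42125, 77493, 78197), (19673, 63744, 82735, -47629), (13432, -468, -14826, -13005),
    true, 0, 1, 2570, (-366), 4096, 3849, (-2994), 2610⟩

/-- A tile. -/
def tile5 : Tile :=
  ⟨⟨239, 957, 250, 1000⟩, ⟨69, 277, 500, 2000⟩, ⟨307, 617001, 1000, 2000000⟩, 16384, (3284, -31629, -23583, 11983), (-13828, -43347, -1199, 32660), 6636,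
    (1024, 0), (110, 1024), 0, 3, (leaf10, ⟨(1024, 0), (231, 1024)⟩),
    [(leaf11, ⟨(57, 1024), (1024, 0)⟩)]⟩

/-- A leaf. -/
def leaf12 : Leaf :=
  ⟨⟨239, 957, 250, 1000⟩, ⟨11, 69, 80, 500⟩, ⟨617001, 310001, 2000000, 1000000⟩,
    16384, (3504, -31825, -23824, 11851), (-4884, -37820, -12996, 22110), 16384, (23705, 57797, 72481, -48835), (22461, -6448, -28891, -18918), (19885, 66291, 83375, -48842), (-4076, 7432, 11783, 556),
    true, 0, 1, 3439, (-318), 2436, 4096, (-3165), 2035⟩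

/-- A leaf. -/
def leaf13 : Leaf :=
  ⟨⟨239, 957, 250, 1000⟩, ⟨11, 69, 80, 500⟩, ⟨617001, 310001, 2000000, 1000000⟩,
    16384, (-4884, -37820, -12996, 22110), (-13273, -43816, -2169, 32370), 16384, (52750, 46976, 34837, -72587), (-100575, 43356, 79825, 80342), (19553, 64794, 83985, -48022), (13427, -420, -14582, -13051),
    true, 0, 1, 2505, (-353), 4096, 3675, (-2993), 2530⟩

/-- A tile. -/
def tile6 : Tile :=
  ⟨⟨239, 957, 250, 1000⟩, ⟨11, 69, 80, 500⟩, ⟨617001, 310001, 2000000, 1000000⟩, 16384, (3504, -31825, -23824, 11851), (-13273, -43816, -2169, 32370), 6595,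
    (1024, 0), (68, 1024), 0, 3, (leaf12, ⟨(1024, 0), (246, 1024)⟩),
    [(leaf13, ⟨(60, 1024), (1024, 0)⟩)]⟩

/-- A leaf. -/
def leaf14 : Leaf :=
  ⟨⟨239, 957, 250, 1000⟩, ⟨69, 277, 500, 2000⟩, ⟨617001, 310001, 2000000, 1000000⟩,
    16384, (3742, -32002, -24148, 11706), (-4716, -38165, -13436, 22109), 16384, (23459, 58354, 73028, -48836), (22833, -6479, -29187, -19254), (19605, 67149, 84313, -48956), (-4160, 7425, 11693, 659),
    true, 0, 1, 3366, (-316), 2503, 4096, (-3277), 2074⟩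

/-- A leaf. -/
def leaf15 : Leaf :=
  ⟨⟨239, 957, 250, 1000⟩, ⟨69, 277, 500, 2000⟩, ⟨617001, 310001, 2000000, 1000000⟩,
    16384, (-4716, -38165, -13436, 22109), (-13173, -44328, -2723, 32512), 16384, (55207, 47097, 34000, -75080), (-102397, 45213, 82699, 81232), (19394, 65357, 84409, -48098), (13601, -365, -14659, -13240),
    true, 0, 1, 2468, (-303), 4096, 3349, (-2936), 2441⟩

/-- A tile. -/
def tile7 : Tile :=
  ⟨⟨239, 957, 250, 1000⟩, ⟨69, 277, 500, 2000⟩, ⟨617001, 310001, 2000000, 1000000⟩, 16384, (3742, -32002, -24148, 11706), (-13173, -44328, -2723, 32512), 6636,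
    (1024, 0), (158, 1024), 0, 3, (leaf14, ⟨(1024, 0), (257, 1024)⟩),
    [(leaf15, ⟨(42, 1024), (1024, 1)⟩)]⟩

/-- A leaf. -/
def leaf16 : Leaf :=
  ⟨⟨191, 239, 200, 250⟩, ⟨277, 139, 2000, 1000⟩, ⟨307, 617001, 1000, 2000000⟩,
    16384, (3642, -31691, -23752, 11653), (-4768, -37721, -12890, 21942), 16384, (22928, 57477, 72071, -47860), (22234, -6240, -28814, -18759), (19304, 65808, 82830, -48000), (-4140, 7540, 11527, 624),
    true, 0, 1, 3325, (-315), 2430, 4096, (-3192), 2073⟩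

/-- A leaf. -/
def leaf17 : Leaf :=
  ⟨⟨191, 239, 200, 250⟩, ⟨277, 139, 2000, 1000⟩, ⟨307, 617001, 1000, 2000000⟩,
    16384, (-4768, -37721, -12890, 21942), (-13178, -43751, -2027, 32230), 16384, (43638, 47887, 37755, -63774), (-96437, 41193, 75927, 77282), (18812, 64631, 83360, -47104), (13282, -294, -14605, -12936),
    true, 0, 1, 2491, (-352), 4096, 3629, (-3047), 2574⟩

/-- A tile. -/
def tile8 : Tile :=
  ⟨⟨191, 239, 200, 250⟩, ⟨277, 139, 2000, 1000⟩, ⟨307, 617001, 1000, 2000000⟩, 16384, (3642, -31691, -23752, 11653), (-13178, -43751, -2027, 32230), 6677,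
    (1024, 0), (87, 1024), 0, 3, (leaf16, ⟨(1024, 0), (241, 1024)⟩),
    [(leaf17, ⟨(97, 1024), (1024, 1)⟩)]⟩

/-- A leaf. -/
def leaf18 : Leaf :=
  ⟨⟨191, 239, 200, 250⟩, ⟨139, 279, 1000, 2000⟩, ⟨307, 617001, 1000, 2000000⟩,
    16384, (3798, -31901, -24092, 11607), (-4641, -38080, -13334, 21989), 16384, (22806, 58072, 72634, -48006), (22537, -6293, -29124, -19014), (18961, 66627, 83738, -48032), (-4142, 7561, 11448, 632),
    true, 0, 1, 3432, (-319), 2489, 4096, (-3323), 2128⟩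

/-- A leaf. -/
def leaf19 : Leaf :=
  ⟨⟨191, 239, 200, 250⟩, ⟨139, 279, 1000, 2000⟩, ⟨307, 617001, 1000, 2000000⟩,
    16384, (-4641, -38080, -13334, 21989), (-13080, -44258, -2575, 32371), 16384, (45671, 48123, 37166, -65893), (-100142, 43047, 79257, 80078), (18698, 65203, 83780, -47230), (13408, -256, -14694, -13068),
    true, 0, 1, 2449, (-302), 4096, 3351, (-2966), 2481⟩

/-- A tile. -/
def tile9 : Tile :=
  ⟨⟨191, 239, 200, 250⟩, ⟨139, 279, 1000, 2000⟩, ⟨307, 617001, 1000, 2000000⟩, 16384, (3798, -31901, -24092, 11607), (-13080, -44258, -2575, 32371), 6677,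
    (1024, 0), (125, 1024), 0, 3, (leaf18, ⟨(1024, 0), (252, 1024)⟩),
    [(leaf19, ⟨(90, 1024), (1024, 0)⟩)]⟩

/-- A leaf. -/
def leaf20 : Leaf :=
  ⟨⟨191, 239, 200, 250⟩, ⟨277, 139, 2000, 1000⟩, ⟨617001, 310001, 2000000, 1000000⟩,
    16384, (4074, -32074, -24336, 11410), (-4218, -38406, -13950, 21742), 16384, (22591, 59342, 73817, -48363), (22668, -6281, -28944, -19181), (18498, 68208, 85393, -48287), (-4159, 7413, 11536, 683),
    true, 0, 1, 3398, (-302), 2511, 4096, (-3446), 2099⟩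

/-- A leaf. -/
def leaf21 : Leaf :=
  ⟨⟨191, 239, 200, 250⟩, ⟨277, 139, 2000, 1000⟩, ⟨617001, 310001, 2000000, 1000000⟩,
    16384, (-4218, -38406, -13950, 21742), (-12510, -44738, -3563, 32073), 16384, (45699, 49318, 38380, -66487), (-102692, 44342, 81588, 81991), (18526, 66277, 85072, -47586), (13425, -183, -14441, -13145),
    true, 0, 1, 2369, (-281), 4096, 3129, (-2950), 2383⟩

/-- A tile. -/
def tile10 : Tile :=
  ⟨⟨191, 239, 200, 250⟩, ⟨277, 139, 2000, 1000⟩, ⟨617001, 310001, 2000000, 1000000⟩, 16384, (4074, -32074, -24336, 11410), (-12510, -44738, -3563, 32073), 6677,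
    (1024, 0), (133, 1024), 0, 3, (leaf20, ⟨(1024, 0), (266, 1024)⟩),
    [(leaf21, ⟨(88, 1024), (1024, 0)⟩)]⟩

/-- A leaf. -/
def leaf22 : Leaf :=
  ⟨⟨191, 239, 200, 250⟩, ⟨139, 279, 1000, 2000⟩, ⟨617001, 310001, 2000000, 1000000⟩,
    16384, (4177, -32246, -24630, 11400), (-4110, -38754, -14382, 21804), 16384, (22534, 59926, 74353, -48570), (22939, -6311, -29231, -19414), (18082, 69084, 86370, -48271), (-4106, 7410, 11421, 646),
    true, 0, 1, 3303, (-307), 2539, 4096, (-3481), 2079⟩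

/-- A leaf. -/
def leaf23 : Leaf :=
  ⟨⟨191, 239, 200, 250⟩, ⟨139, 279, 1000, 2000⟩, ⟨617001, 310001, 2000000, 1000000⟩,
    16384, (-4110, -38754, -14382, 21804), (-12397, -45262, -4134, 32207), 16384, (47668, 49556, 37796, -68545), (-106605, 46195, 84989, 84988), (18434, 66856, 85488, -47737), (13515, -113, -14497, -13254),
    true, 0, 1, 2528, (-216), 4096, 2381, (-2699), 2142⟩

/-- A tile. -/
def tile11 : Tile :=
  ⟨⟨191, 239, 200, 250⟩, ⟨139, 279, 1000, 2000⟩, ⟨617001, 310001, 2000000, 1000000⟩, 16384, (4177, -32246, -24630, 11400), (-12397, -45262, -4134, 32207), 6677,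
    (1024, 0), (132, 1024), 0, 3, (leaf22, ⟨(1024, 0), (276, 1024)⟩),
    [(leaf23, ⟨(77, 1024), (1024, 0)⟩)]⟩

/-- A leaf. -/
def leaf24 : Leaf :=
  ⟨⟨239, 957, 250, 1000⟩, ⟨277, 139, 2000, 1000⟩, ⟨307, 617001, 1000, 2000000⟩,
    16384, (3439, -31856, -23846, 11932), (-5150, -37853, -12793, 22369), 16384, (23697, 57152, 71783, -48518), (22679, -6511, -29320, -19062), (20021, 65597, 82754, -48674), (-4116, 7583, 11534, 586),
    true, 0, 1, 3334, (-318), 2447, 4096, (-3240), 2090⟩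

/-- A leaf. -/
def leaf25 : Leaf :=
  ⟨⟨239, 957, 250, 1000⟩, ⟨277, 139, 2000, 1000⟩, ⟨307, 617001, 1000, 2000000⟩,
    16384, (-5150, -37853, -12793, 22369), (-13738, -43850, -1740, 32806), 16384, (55285, 45962, 32747, -74611), (-99615, 43795, 80239, 79136), (19564, 64320, 83107, -47753), (13561, -442, -14872, -13142),
    true, 0, 1, 2408, (-356), 4096, 3668, (-3000), 2580⟩

/-- A tile. -/
def tile12 : Tile :=
  ⟨⟨239, 957, 250, 1000⟩, ⟨277, 139, 2000, 1000⟩, ⟨307, 617001, 1000, 2000000⟩, 16384, (3439, -31856, -23846, 11932), (-13738, -43850, -1740, 32806), 6677,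
    (1024, 0), (124, 1024), 0, 3, (leaf24, ⟨(1024, 1), (241, 1024)⟩),
    [(leaf25, ⟨(43, 1024), (1024, 1)⟩)]⟩

/-- A leaf. -/
def leaf26 : Leaf :=
  ⟨⟨239, 957, 250, 1000⟩, ⟨139, 279, 1000, 2000⟩, ⟨307, 617001, 1000, 2000000⟩,
    16384, (3594, -32059, -24120, 11875), (-5025, -38210, -13206, 22414), 16384, (23582, 57733, 72244, -48651), (23001, -6580, -29604, -19337), (19669, 66438, 83738, -48711), (-4111, 7598, 11393, 596),
    true, 0, 1, 3398, (-304), 2496, 4096, (-3312), 2098⟩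

/-- A leaf. -/
def leaf27 : Leaf :=
  ⟨⟨239, 957, 250, 1000⟩, ⟨139, 279, 1000, 2000⟩, ⟨307, 617001, 1000, 2000000⟩,
    16384, (-5025, -38210, -13206, 22414), (-13644, -44360, -2291, 32952), 16384, (57655, 46091, 31907, -76948), (-100289, 45490, 82665, 78944), (19461, 64877, 83485, -47881), (13684, -391, -14922, -13280),
    true, 0, 1, 2423, (-345), 4096, 3424, (-2924), 2474⟩

/-- A tile. -/
def tile13 : Tile :=
  ⟨⟨239, 957, 250, 1000⟩, ⟨139, 279, 1000, 2000⟩, ⟨307, 617001, 1000, 2000000⟩, 16384, (3594, -32059, -24120, 11875), (-13644, -44360, -2291, 32952), 6677,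
    (1024, 0), (159, 1024), 0, 3, (leaf26, ⟨(1024, 0), (250, 1024)⟩),
    [(leaf27, ⟨(88, 1024), (1024, 0)⟩)]⟩

/-- A leaf. -/
def leaf28 : Leaf :=
  ⟨⟨239, 957, 250, 1000⟩, ⟨277, 139, 2000, 1000⟩, ⟨617001, 310001, 2000000, 1000000⟩,
    16384, (3869, -32205, -24374, 11672), (-3794, -39098, -14861, 21656), 16384, (23384, 58952, 73431, -49011), (21916, -5693, -27877, -18743), (19781, 67641, 84649, -49336), (-4993, 8043, 12617, 1194),
    true, 0, 1, 3218, (-313), 2471, 4096, (-3418), 2083⟩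

/-- A leaf. -/
def leaf29 : Leaf :=
  ⟨⟨239, 957, 250, 1000⟩, ⟨277, 139, 2000, 1000⟩, ⟨617001, 310001, 2000000, 1000000⟩,
    16384, (-3794, -39098, -14861, 21656), (-11458, -45992, -5348, 31639), 16384, (56482, 48372, 35098, -76926), (-98290, 44059, 79791, 77740), (18399, 66565, 85932, -47673), (12796, 340, -13511, -12791),
    true, 0, 1, 2426, (-310), 4096, 3112, (-2874), 2349⟩

/-- A tile. -/
def tile14 : Tile :=
  ⟨⟨239, 957, 250, 1000⟩, ⟨277, 139, 2000, 1000⟩, ⟨617001, 310001, 2000000, 1000000⟩, 16384, (3869, -32205, -24374, 11672), (-11458, -45992, -5348, 31639), 6677,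
    (1024, 0), (447, 1024), 0, 3, (leaf28, ⟨(1024, 1), (265, 1024)⟩),
    [(leaf29, ⟨(82, 1024), (1024, 0)⟩)]⟩

/-- A leaf. -/
def leaf30 : Leaf :=
  ⟨⟨239, 957, 250, 1000⟩, ⟨139, 279, 1000, 2000⟩, ⟨617001, 310001, 2000000, 1000000⟩,
    16384, (4003, -32408, -24692, 11644), (-384, -40837, -17504, 19038), 16384, (23297, 59563, 73985, -49198), (17171, -3630, -24806, -14896), (21800, 67496, 83987, -51297), (-8533, 9546, 14904, 4076),
    true, 0, 1, 3268, (-307), 2575, 4096, (-3517), 2105⟩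

/-- A leaf. -/
def leaf31 : Leaf :=
  ⟨⟨239, 957, 250, 1000⟩, ⟨139, 279, 1000, 2000⟩, ⟨617001, 310001, 2000000, 1000000⟩,
    16384, (-384, -40837, -17504, 19038), (-4770, -49266, -10316, 26431), 16384, (50690, 51721, 39550, -72607), (-82150, 38843, 71017, 63835), (14586, 68707, 88839, -44802), (9199, 1930, -11107, -9898),
    true, 0, 1, 2476, (-408), 4096, 2562, (-2693), 2141⟩

/-- A tile. -/
def tile15 : Tile :=
  ⟨⟨239, 957, 250, 1000⟩, ⟨139, 279, 1000, 2000⟩, ⟨617001, 310001, 2000000, 1000000⟩, 16384, (4003, -32408, -24692, 11644), (-4770, -49266, -10316, 26431), 6677,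
    (1024, 0), (1024, 553), 0, 3, (leaf30, ⟨(1024, 0), (274, 1024)⟩),
    [(leaf31, ⟨(65, 1024), (1024, 0)⟩)]⟩

/-- The subdivision. -/
def tree : Tree :=
  (.node 1 277 2000
    (.node 0 239 250
    (.node 2 617001 2000000
    (.node 1 69 500
    (.tile tile0)
    (.tile tile1))
    (.node 1 69 500
    (.tile tile2)
    (.tile tile3)))
    (.node 2 617001 2000000
    (.node 1 69 500
    (.tile tile4)
    (.tile tile5))
    (.node 1 69 500
    (.tile tile6)
    (.tile tile7))))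
    (.node 0 239 250
    (.node 2 617001 2000000
    (.node 1 139 1000
    (.tile tile8)
    (.tile tile9))
    (.node 1 139 1000
    (.tile tile10)
    (.tile tile11)))
    (.node 2 617001 2000000
    (.node 1 139 1000
    (.tile tile12)
    (.tile tile13))
    (.node 1 139 1000
    (.tile tile14)
    (.tile tile15)))))

def tree_ok : tree.ok pieceC 448 ⟨191, 957, 200, 1000⟩ ⟨11, 279, 80, 2000⟩ ⟨307, 310001, 1000, 1000000⟩ = true := by
  decide +kernel

def root_ok0 : root.okEnt 576 0 = true := by decide +kernel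

def root_ok1 : root.okEnt 576 1 = true := by decide +kernel

def root_ok3 : root.okEnt 576 3 = true := by decide +kernel

def root_ok5 : root.okEnt 576 5 = true := by decide +kernel

def root_ok11 : root.okEnt 576 11 = true := by decide +kernel

def root_ok12 : root.okEnt 576 12 = true := by decide +kernel

def root_ok13 : root.okEnt 576 13 = true := by decide +kernel

def root_ok14 : root.okEnt 576 14 = true := by decide +kernel

def root_ok15 : root.okEnt 576 15 = true := by decide +kernel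

def leaf0_ok : leaf0.okLeaf root 640 = true := by decide +kernel

def leaf1_ok : leaf1.okLeaf root 640 = true := by decide +kernel

def leaf2_ok : leaf2.okLeaf root 640 = true := by decide +kernel

def leaf3_ok : leaf3.okLeaf root 640 = true := by decide +kernel

def leaf4_ok : leaf4.okLeaf root 640 = true := by decide +kernel

def leaf5_ok : leaf5.okLeaf root 640 = true := by decide +kernel

def leaf6_ok : leaf6.okLeaf root 640 = true := by decide +kernel

def leaf7_ok : leaf7.okLeaf root 640 = true := by decide +kernel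

def leaf8_ok : leaf8.okLeaf root 640 = true := by decide +kernel

def leaf9_ok : leaf9.okLeaf root 640 = true := by decide +kernel

def leaf10_ok : leaf10.okLeaf root 640 = true := by decide +kernel

def leaf11_ok : leaf11.okLeaf root 640 = true := by decide +kernel

def leaf12_ok : leaf12.okLeaf root 640 = true := by decide +kernel

def leaf13_ok : leaf13.okLeaf root 640 = true := by decide +kernel

def leaf14_ok : leaf14.okLeaf root 640 = true := by decide +kernel

def leaf15_ok : leaf15.okLeaf root 640 = true := by decide +kernel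

def leaf16_ok : leaf16.okLeaf root 640 = true := by decide +kernel

def leaf17_ok : leaf17.okLeaf root 640 = true := by decide +kernel

def leaf18_ok : leaf18.okLeaf root 640 = true := by decide +kernel

def leaf19_ok : leaf19.okLeaf root 640 = true := by decide +kernel

def leaf20_ok : leaf20.okLeaf root 640 = true := by decide +kernel

def leaf21_ok : leaf21.okLeaf root 640 = true := by decide +kernel

def leaf22_ok : leaf22.okLeaf root 640 = true := by decide +kernel

def leaf23_ok : leaf23.okLeaf root 640 = true := by decide +kernel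

def leaf24_ok : leaf24.okLeaf root 640 = true := by decide +kernel

def leaf25_ok : leaf25.okLeaf root 640 = true := by decide +kernel

def leaf26_ok : leaf26.okLeaf root 640 = true := by decide +kernel

def leaf27_ok : leaf27.okLeaf root 640 = true := by decide +kernel

def leaf28_ok : leaf28.okLeaf root 640 = true := by decide +kernel

def leaf29_ok : leaf29.okLeaf root 640 = true := by decide +kernel

def leaf30_ok : leaf30.okLeaf root 640 = true := by decide +kernel

def leaf31_ok : leaf31.okLeaf root 640 = true := by decide +kernel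

theorem leaves_eq : tree.leaves =
    [leaf0, leaf1, leaf2, leaf3, leaf4, leaf5, leaf6, leaf7,
    leaf8, leaf9, leaf10, leaf11, leaf12, leaf13, leaf14, leaf15,
    leaf16, leaf17, leaf18, leaf19, leaf20, leaf21, leaf22, leaf23,
    leaf24, leaf25, leaf26, leaf27, leaf28, leaf29, leaf30, leaf31] := rfl

theorem leaves_ok : ∀ F ∈ tree.leaves, Leaf.okLeaf F root 640 = true := by
  rw [leaves_eq]
  exact all'_cons leaf0_ok (all'_cons leaf1_ok (all'_cons leaf2_ok (all'_cons leaf3_ok (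
    all'_cons leaf4_ok (all'_cons leaf5_ok (all'_cons leaf6_ok (all'_cons leaf7_ok (
    all'_cons leaf8_ok (all'_cons leaf9_ok (all'_cons leaf10_ok (all'_cons leaf11_ok (
    all'_cons leaf12_ok (all'_cons leaf13_ok (all'_cons leaf14_ok (all'_cons leaf15_ok (
    all'_cons leaf16_ok (all'_cons leaf17_ok (all'_cons leaf18_ok (all'_cons leaf19_ok (
    all'_cons leaf20_ok (all'_cons leaf21_ok (all'_cons leaf22_ok (all'_cons leaf23_ok (
    all'_cons leaf24_ok (all'_cons leaf25_ok (all'_cons leaf26_ok (all'_cons leaf27_ok (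
    all'_cons leaf28_ok (all'_cons leaf29_ok (all'_cons leaf30_ok (all'_cons leaf31_ok (
    (fun F hF => absurd hF List.not_mem_nil)))))))))))))))))))))))))))))))))

theorem root_ok : ∀ k ∈ [0, 1, 3, 5, 11, 12, 13, 14, 15], root.okEnt 576 k = true := by
  intro k hk
  simp only [List.mem_cons, List.not_mem_nil, or_false] at hk
  rcases hk with rfl | rfl | rfl | rfl | rfl | rfl | rfl | rfl | rfl
  · exact root_ok0
  · exact root_ok1
  · exact root_ok3
  · exact root_ok5
  · exact root_ok11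
  · exact root_ok12
  · exact root_ok13
  · exact root_ok14
  · exact root_ok15

theorem used_ok : ∀ F ∈ tree.leaves, ∀ k ∈ Leaf.used F, root.okEnt 576 k = true := by
  intro F hF k hk
  refine root_ok k ?_
  rw [leaves_eq] at hF
  have h : ([leaf0, leaf1, leaf2, leaf3, leaf4, leaf5, leaf6, leaf7,
    leaf8, leaf9, leaf10, leaf11, leaf12, leaf13, leaf14, leaf15,
    leaf16, leaf17, leaf18, leaf19, leaf20, leaf21, leaf22, leaf23,
    leaf24, leaf25, leaf26, leaf27, leaf28, leaf29, leaf30, leaf31]).all (fun G => G.used.all fun j => [0, 1, 3, 5, 11, 12, 13, 14, 15].any (Nat.beq j)) = true := by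
    decide +kernel
  simp only [List.all_eq_true, List.any_eq_true] at h
  obtain ⟨j, hj, e⟩ := h F hF k hk
  exact Nat.eq_of_beq_eq_true e ▸ hj

/-- **The signs on the box.** -/
theorem signs {a I u X η : ℝ} (hf : Facts pieceC a I u X η) (hu : In1 ⟨191, 957, 200, 1000⟩ u)
    (hI : In1 ⟨11, 279, 80, 2000⟩ I) (ha : In1 ⟨307, 310001, 1000, 1000000⟩ a) :
    ClosedGen.SignsMult a (rd (mk4 X u I a)) (rv (mk4 X u I a)) (rg (mk4 X u I a) η)
      (rW (mk4 X u I a) η) (rW1 (mk4 X u I a) η) (rR (mk4 X u I a))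
      (rNum true (mk4 X u I a) η) :=
  Tree.signs (T := tree) (R := root) tree_ok leaves_ok used_ok hf hu hI ha

end Vale.Agent.P100.Calib.MidTail.BoxII1U3e
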