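import Vale.Agent.P100.Calib.SlabMidTailReal

/-!
# The chart in the coordinates `X = d v`, `η = 1 - d H`
-/

set_option linter.unusedVariables false

namespace Vale.Agent.P100.Calib.MidTail

variable {cl : Bool} {x : ℕ → ℝ} {θ : ℝ}

/-- Which of the two values the last number takes. -/
def ClipAt : Bool → (ℕ → ℝ) → Prop
  | false, x => 2 * x 3 * (1 - x 2) ≤ rS x ^ 2
  | true, x => rS x ^ 2 ≤ 2 * x 3 * (1 - x 2)

/-- **The signs in the chart.** -/
theorem chartSigns_of {d S u v t : ℝ} (h : MPt x θ) (hd : d = rd x) (hS : S = rS x) (hu : u = x 1)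
    (hv : v = rv x) (hH : Closed.chH d S u v t = rH x θ) (hc : ClipAt cl x)
    (hs : ClosedGen.SignsMult (x 3) (rd x) (rv x) (rg x θ) (rW x θ) (rW1 x θ) (rR x)
      (rNum cl x θ)) : Closed.All.ChartSigns d S u v t := by
  have pb := h.b_pos
  have pQ := h.Q_pos
  obtain ⟨pX, pu, pI, pa, pS, pd, pn⟩ := h
  subst hd hS hu hv
  have ea : (rS x - rd x) / 2 = x 3 := by simp only [rS, rd]; ring
  have eb : (rS x + rd x) / 2 = rb x := by simp only [rS, rd, rb]; ring
  have eI : 1 - rS x = 2 * x 2 := by simp only [rS]; ring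
  have ev : rd x * rv x = x 0 := by rw [rv]; field_simp
  have eH : rd x * rH x θ = 1 - θ := by rw [rH]; field_simp
  have eg : Closed.chG (rd x) (rS x) (x 1) (rv x) t = rg x θ := by
    rw [Closed.chG, hH, eb, eI, ev, show rd x * x 1 * rH x θ = x 1 * (1 - θ) by
      rw [mul_right_comm, eH, mul_comm], rg]
    rw [show (2 + x 0 - x 1 * (1 - θ)) = rDn x θ from rfl]
    field_simp
    ring
  have eW : Closed.chW (rd x) (rS x) (x 1) (rv x) t = rW x θ := by
    rw [Closed.chW, hH, eI, rW]; field_simp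
  have eW1 : Closed.chW1 (rd x) (rS x) (x 1) (rv x) t = rW1 x θ := by
    have h2 : (2 : ℝ) - rS x = 1 + 2 * x 2 := by simp only [rS]; ring
    have p2 : 0 < 1 + 2 * x 2 := by linarith
    have h1 : rS x * (1 + (1 - x 3) * rv x) / (rb x * (1 + 2 * x 2)) + x 1 * t = rH x θ := by
      rw [← hH, Closed.chH, ea, eb, h2]
    have et : t = (rH x θ - rS x * (1 + (1 - x 3) * rv x) / (rb x * (1 + 2 * x 2))) / x 1 := by
      rw [eq_div_iff pu.ne']; linarith
    rw [Closed.chW1, hH, ea, eb, eI, h2, et, rW1, ← ev]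
    field_simp
    ring
  have eR : Closed.chR (rS x) (x 1) = rR x := by
    rw [Closed.chR, eI, rR]; field_simp
  have eN : allNum (x 3) (rd x) (rv x) (rW x θ) (rR x) = rNum cl x θ := by
    have eab : x 3 + rd x = rb x := by simp only [rd, rb]; ring
    have eD : dimAll (x 3) (rd x) = (x 2)⁻¹ := by
      rw [dimAll, eab, show 1 - (x 3 + rb x) = 2 * x 2 by simp only [rb]; ring]; field_simp
    have eh : 1 - rR x * rd x * rW x θ = rh0 x θ := by
      have : rR x * rd x * rW x θ = x 1 * (rd x * rH x θ) := by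
        rw [rR, rW]; field_simp
      rw [this, eH, rh0]
    have e : 2 * ((x 2)⁻¹ * x 3) * ((x 2)⁻¹ - 1) / ((x 2)⁻¹ - 2) ^ 2 =
        2 * x 3 * (1 - x 2) / rS x ^ 2 := by
      have : (x 2)⁻¹ - 2 = rS x / x 2 := by simp only [rS]; field_simp
      rw [this]; field_simp
    simp only [allNum, eD, eh, ev, eab, rNum, rG1, AllN.kapAll, e, ClosedGen.Num.mk.injEq]
    refine ⟨trivial, ?_, ?_, trivial, ?_, ?_, ?_⟩
    · field_simp
    · field_simp; ring
    · field_simp; ring
    · field_simp
    · cases cl <;> simp only [ClipAt] at hc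
      · rw [max_eq_right (by rw [neg_le_neg_iff, div_le_one (by positivity)]; exact hc)]
        simp only [cond_false]
        field_simp
        ring
      · rw [max_eq_left (by rw [neg_le_neg_iff, one_le_div (by positivity)]; exact hc)]
        simp
  unfold Closed.All.ChartSigns
  rw [ea, eg, eW, eW1, eR, eN]
  exact hs

end Vale.Agent.P100.Calib.MidTail
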