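import Vale.Agent.P100.Calib.SlabMidTailForms
import Vale.Agent.P100.Calib.SlabMidTailNumFour
import Vale.Agent.P100.Calib.SlabMidTailNumFive

/-!
# The fractions of the block entries and their reduced forms
-/

set_option linter.unusedVariables false

namespace Vale.Agent.P100.Calib.MidTail

open Pack EndAll

local instance midTailClosedAdd : Add Pack.Ex := ⟨Ex.add⟩
local instance midTailClosedSub : Sub Pack.Ex := ⟨Ex.sub⟩
local instance midTailClosedMul : Mul Pack.Ex := ⟨Ex.mul⟩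

variable (cl : Bool)

def fgM : Fn := eG_gMS atoms fa fd fv fg fW fW1 fR fc fe2 fEm fK fG fG1 (fD2 cl)
def fgE : Fn := eG_gES atoms fa fd fv fg fW fW1 fR fc fe2 fEm fK fG fG1 (fD2 cl)
def fgG : Fn := eG_gGS atoms fa fd fv fg fW fW1 fR fc fe2 fEm fK fG fG1 (fD2 cl)
def fhE : Fn := eG_hES atoms fa fd fv fg fW fW1 fR fc fe2 fEm fK fG fG1 (fD2 cl)
def fhG : Fn := eG_hGS atoms fa fd fv fg fW fW1 fR fc fe2 fEm fK fG fG1 (fD2 cl)
def fhM : Fn := Fn.mul fc (eG_hM_c atoms fa fd fv fg fW)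
def fab : Fn := Fn.mul fa fb
def fcabv : Fn := Fn.mul (Fn.mul fc fab) fv
def fd2Q : Fn := Fn.mul (Fn.mul fd fd) fQ
def fsq : Fn :=
  Fn.add atoms (Fn.mul (Fn.mul fc fd2Q) (Fn.mul (fgE cl) (fgE cl)))
    (Fn.mul fab (Fn.mul (fhE cl) (fhE cl)))
def fgg : Fn := Fn.mul fcabv (Fn.mul (fgM cl) (fgG cl))
def fhh : Fn := Fn.mul (Fn.mul (Fn.mul fab fv) fd2Q) (Fn.mul fhM (fhG cl))
def fS2 : Fn := Fn.add atoms (Fn.int 1) fS

/-- The fraction of `TEE`. -/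
def cEE : Fn :=
  Fn.sub atoms (Fn.sub atoms (Fn.sub atoms
    (Fn.mul (Fn.mul (Fn.int 8) fcabv)
      (eG_LEESLin atoms fa fd fv fg fW fW1 fR fc fe2 fEm fK fG fG1 (fD2 cl) (Fn.mul fg fW)))
    (Fn.mul (Fn.divNat fS 2) (fsq cl))) (Fn.mul (Fn.int 16) (fgg cl)))
    (Fn.mul (Fn.int 8) (fhh cl))

/-- The fraction of `TMG`. -/
def cMG : Fn :=
  Fn.sub atoms (Fn.add atoms (Fn.add atoms
    (Fn.mul (Fn.mul (Fn.int 4) fcabv)
      (eG_LMGSLin atoms fa fd fv fg fW fW1 fR fc fe2 fEm fK fG fG1 (fD2 cl) (Fn.mul fg fW)))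
    (Fn.mul (Fn.mul (Fn.int 8) (Fn.sub atoms (Fn.int 1) fS)) (fgg cl)))
    (Fn.mul (Fn.mul (Fn.int 4) (Fn.sub atoms (Fn.int 1) fS)) (fhh cl)))
    (Fn.divNat (fsq cl) 2)

/-- The fraction of `TGG`. -/
def cGG : Fn :=
  Fn.sub atoms (Fn.mul (Fn.mul (Fn.mul (Fn.int 8) fcabv)
      (Fn.mul (Fn.add atoms (Fn.int 2) fX) fQ))
      (eG_LGGS atoms fa fd fv fg fW fW1 fR fc fe2 fEm fK fG fG1 (fD2 cl)))
    (Fn.mul (Fn.divNat fS2 2) (Fn.add atoms (Fn.mul fc (Fn.mul (fgG cl) (fgG cl)))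
      (Fn.mul (Fn.mul fab fd2Q) (Fn.mul (fhG cl) (fhG cl)))))

/-- The fraction of `TEG`. -/
def cEG : Fn :=
  Fn.sub atoms (Fn.mul (Fn.mul (Fn.int 4) fcabv)
      (eG_LEGS atoms fa fd fv fg fW fW1 fR fc fe2 fEm fK fG fG1 (fD2 cl)))
    (Fn.mul fS2 (Fn.add atoms (Fn.mul fc (Fn.mul (fgE cl) (fgG cl)))
      (Fn.mul fab (Fn.mul (fhE cl) (fhG cl)))))

/-- The fraction of `LLG`. -/
def cLG : Fn := eG_LLGS atoms fa fd fv fg fW fW1 fR fc fe2 fEm fK fG fG1 (fD2 cl)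

/-- The fraction of `TMM`. -/
def cMM : Fn := eG_TMMS atoms fa fd fv fg fW fW1 fR fc fe2 fEm fK fG fG1 (fD2 cl)

/-- The fraction of `TME`. -/
def cME : Fn := eG_TMES atoms fa fd fv fg fW fW1 fR fc fe2 fEm fK fG fG1 (fD2 cl)

/-- A polynomial in `(η, X, u, I, a)` at the variables. -/
def numEx (l : List (List (List (List (List ℤ))))) : List (List Ex) := poly5 vU vI vA l

/-- A reduced fraction. -/
def fRed (l : List (List (List (List (List ℤ))))) (den : ℕ) (ex : List ℤ) : Fn :=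
  ⟨sub2 (.num 1) vX (.num 1) [.num 0, .num 1] (numEx l), den, ex⟩

def redMM : Fn := fRed numMM 1 [0, -2, 0, 1, 0, 2, -1, 0]
def redME : Fn := fRed numME 1 [-1, -1, 1, 2, 0, 2, 0, 1]
def redLG : Fn := fRed (cond cl numLGCl numLG) 5 [-1, 0, 0, 1, 0, 1, 0, 0]
def redGG : Fn := fRed (cond cl numGGCl numGG) 25 [-3, 0, 0, 4, 1, 2, 1, 2]
def redEG : Fn := fRed (cond cl numEGCl numEG) 5 [-3, 0, 0, 3, -1, 3, 1, 2]
def redEE : Fn := fRed (cond cl numEECl numEE) 1 [-3, 0, 1, 3, 1, 2, 0, 2]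
def redMG : Fn := fRed (cond cl numMGCl numMG) 5 [-3, 0, 1, 4, 1, 2, 0, 2]

/-- The differences whose numerators vanish. -/
def redDiffs : List Fn :=
  [Fn.sub atoms (cMM cl) redMM, Fn.sub atoms (cME cl) redME, Fn.sub atoms (cLG cl) (redLG cl),
    Fn.sub atoms (cGG cl) (redGG cl), Fn.sub atoms (cEG cl) (redEG cl),
    Fn.sub atoms (cEE cl) (redEE cl), Fn.sub atoms (cMG cl) (redMG cl)]

variable {cl} {x : ℕ → ℝ} {θ : ℝ}

theorem lee_eq (a d v g W W1 R : ℝ) (t : ClosedGen.Num) :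
    LEESLin a d v g W W1 R t (g * W) = ClosedGen.LEES a d v g W W1 R t := by
  simp only [ClosedGen.LEES, LEESLin, LEEcLin, Closed.LEEc]; ring

theorem lmg_eq (a d v g W W1 R : ℝ) (t : ClosedGen.Num) :
    LMGSLin a d v g W W1 R t (g * W) = ClosedGen.LMGS a d v g W W1 R t := by
  simp only [ClosedGen.LMGS, LMGSLin, LMGcLin, Closed.LMGc]; ring

namespace MPt

variable (h : MPt x θ)
include h

theorem rgM : Rep atoms x θ (fgM cl) (rForm ClosedGen.gMS cl x θ) :=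
  rG_gMS h.pos h.ra h.rd' h.rv' h.rg' h.rW' h.rW1' h.rR' (tt := rNum cl x θ) h.rc (h.re2 cl)
    (h.rEm cl) (h.rK cl) (h.rG cl) h.rG1' (h.rD2 cl)

theorem rgE : Rep atoms x θ (fgE cl) (rForm ClosedGen.gES cl x θ) :=
  rG_gES h.pos h.ra h.rd' h.rv' h.rg' h.rW' h.rW1' h.rR' (tt := rNum cl x θ) h.rc (h.re2 cl)
    (h.rEm cl) (h.rK cl) (h.rG cl) h.rG1' (h.rD2 cl)

theorem rgG : Rep atoms x θ (fgG cl) (rForm ClosedGen.gGS cl x θ) :=
  rG_gGS h.pos h.ra h.rd' h.rv' h.rg' h.rW' h.rW1' h.rR' (tt := rNum cl x θ) h.rc (h.re2 cl)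
    (h.rEm cl) (h.rK cl) (h.rG cl) h.rG1' (h.rD2 cl)

theorem rhE : Rep atoms x θ (fhE cl) (rForm ClosedGen.hES cl x θ) :=
  rG_hES h.pos h.ra h.rd' h.rv' h.rg' h.rW' h.rW1' h.rR' (tt := rNum cl x θ) h.rc (h.re2 cl)
    (h.rEm cl) (h.rK cl) (h.rG cl) h.rG1' (h.rD2 cl)

theorem rhG : Rep atoms x θ (fhG cl) (rForm ClosedGen.hGS cl x θ) :=
  rG_hGS h.pos h.ra h.rd' h.rv' h.rg' h.rW' h.rW1' h.rR' (tt := rNum cl x θ) h.rc (h.re2 cl)
    (h.rEm cl) (h.rK cl) (h.rG cl) h.rG1' (h.rD2 cl)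

theorem rhM : Rep atoms x θ fhM (rForm ClosedGen.hMS cl x θ) :=
  h.rc.mul (rG_hM_c h.pos h.ra h.rd' h.rv' h.rg' h.rW')

theorem rLG' : Rep atoms x θ (cLG cl) (rForm ClosedGen.LLGS cl x θ) :=
  rG_LLGS h.pos h.ra h.rd' h.rv' h.rg' h.rW' h.rW1' h.rR' (tt := rNum cl x θ) h.rc (h.re2 cl)
    (h.rEm cl) (h.rK cl) (h.rG cl) h.rG1' (h.rD2 cl)

theorem rMM : Rep atoms x θ (cMM cl) (rForm ClosedGen.TMMS cl x θ) :=
  rG_TMMS h.pos h.ra h.rd' h.rv' h.rg' h.rW' h.rW1' h.rR' (tt := rNum cl x θ) h.rc (h.re2 cl)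
    (h.rEm cl) (h.rK cl) (h.rG cl) h.rG1' (h.rD2 cl)

theorem rME : Rep atoms x θ (cME cl) (rForm ClosedGen.TMES cl x θ) :=
  rG_TMES h.pos h.ra h.rd' h.rv' h.rg' h.rW' h.rW1' h.rR' (tt := rNum cl x θ) h.rc (h.re2 cl)
    (h.rEm cl) (h.rK cl) (h.rG cl) h.rG1' (h.rD2 cl)

theorem rab : Rep atoms x θ fab (x 3 * rb x) := h.ra.mul h.rb'
theorem rcabv : Rep atoms x θ fcabv (x 3 * rb x * (x 3 * rb x) * rv x) :=
  (h.rc.mul h.rab).mul h.rv'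
theorem rd2Q : Rep atoms x θ fd2Q (rd x * rd x * (1 + x 0)) := (h.rd'.mul h.rd').mul h.rQ

theorem rEE : Rep atoms x θ (cEE cl) (rForm ClosedGen.TEES cl x θ) := by
  have hl := rG_LEESLin h.pos h.ra h.rd' h.rv' h.rg' h.rW' h.rW1' h.rR' (tt := rNum cl x θ) h.rc
    (h.re2 cl) (h.rEm cl) (h.rK cl) (h.rG cl) h.rG1' (h.rD2 cl) (h.rg'.mul h.rW')
  rw [lee_eq] at hl
  refine (((((Rep.natLit h.pos 8).mul h.rcabv).mul hl).sub ((h.rS'.divLit 2).mul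
    (((h.rc.mul h.rd2Q).mul (h.rgE.mul h.rgE)).add (h.rab.mul (h.rhE.mul h.rhE))))).sub
    ((Rep.natLit h.pos 16).mul (h.rcabv.mul (h.rgM.mul h.rgG)))).sub
    ((Rep.natLit h.pos 8).mul (((h.rab.mul h.rv').mul h.rd2Q).mul ((h.rhM (cl := cl)).mul h.rhG)))
    |>.cast ?_
  have e : x 3 + rd x = rb x := by simp only [rd, rb]; ring
  have eX : rd x * rv x = x 0 := by
    rw [rv, mul_left_comm, mul_inv_cancel₀ h.d_pos.ne', mul_one]
  simp only [rForm, ClosedGen.TEES, Closed.j1, e, eX, rNum]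
  simp only [rd, rb, rS]
  ring

theorem rMG : Rep atoms x θ (cMG cl) (rForm ClosedGen.TMGS cl x θ) := by
  have hl := rG_LMGSLin h.pos h.ra h.rd' h.rv' h.rg' h.rW' h.rW1' h.rR' (tt := rNum cl x θ) h.rc
    (h.re2 cl) (h.rEm cl) (h.rK cl) (h.rG cl) h.rG1' (h.rD2 cl) (h.rg'.mul h.rW')
  rw [lmg_eq] at hl
  refine (((((Rep.natLit h.pos 4).mul h.rcabv).mul hl).add
    (((Rep.natLit h.pos 8).mul (h.one'.sub h.rS')).mul (h.rcabv.mul (h.rgM.mul h.rgG)))).add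
    (((Rep.natLit h.pos 4).mul (h.one'.sub h.rS')).mul
      (((h.rab.mul h.rv').mul h.rd2Q).mul ((h.rhM (cl := cl)).mul h.rhG)))).sub
    ((((h.rc.mul h.rd2Q).mul (h.rgE.mul h.rgE)).add (h.rab.mul (h.rhE.mul h.rhE))).divLit 2)
    |>.cast ?_
  have e : x 3 + rd x = rb x := by simp only [rd, rb]; ring
  have eX : rd x * rv x = x 0 := by
    rw [rv, mul_left_comm, mul_inv_cancel₀ h.d_pos.ne', mul_one]
  simp only [rForm, ClosedGen.TMGS, Closed.j1, e, eX, rNum]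
  simp only [rd, rb, rS]
  ring

theorem rGG : Rep atoms x θ (cGG cl) (rForm ClosedGen.TGGS cl x θ) := by
  have hl := rG_LGGS h.pos h.ra h.rd' h.rv' h.rg' h.rW' h.rW1' h.rR' (tt := rNum cl x θ) h.rc
    (h.re2 cl) (h.rEm cl) (h.rK cl) (h.rG cl) h.rG1' (h.rD2 cl)
  refine ((((Rep.natLit h.pos 8).mul h.rcabv).mul ((h.two'.add h.rX).mul h.rQ)).mul hl).sub
    (((h.one'.add h.rS').divLit 2).mul ((h.rc.mul (h.rgG.mul h.rgG)).add
      ((h.rab.mul h.rd2Q).mul (h.rhG.mul h.rhG)))) |>.cast ?_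
  have e : x 3 + rd x = rb x := by simp only [rd, rb]; ring
  have eX : rd x * rv x = x 0 := by
    rw [rv, mul_left_comm, mul_inv_cancel₀ h.d_pos.ne', mul_one]
  simp only [rForm, ClosedGen.TGGS, Closed.j1, e, eX, rNum]
  simp only [rd, rb, rS]
  ring

theorem rEG : Rep atoms x θ (cEG cl) (rForm ClosedGen.TEGS cl x θ) := by
  have hl := rG_LEGS h.pos h.ra h.rd' h.rv' h.rg' h.rW' h.rW1' h.rR' (tt := rNum cl x θ) h.rc
    (h.re2 cl) (h.rEm cl) (h.rK cl) (h.rG cl) h.rG1' (h.rD2 cl)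
  refine (((Rep.natLit h.pos 4).mul h.rcabv).mul hl).sub
    ((h.one'.add h.rS').mul ((h.rc.mul (h.rgE.mul h.rgG)).add (h.rab.mul (h.rhE.mul h.rhG))))
    |>.cast ?_
  have e : x 3 + rd x = rb x := by simp only [rd, rb]; ring
  have eX : rd x * rv x = x 0 := by
    rw [rv, mul_left_comm, mul_inv_cancel₀ h.d_pos.ne', mul_one]
  simp only [rForm, ClosedGen.TEGS, Closed.j1, e, eX, rNum]
  simp only [rd, rb, rS]
  ring

end MPt

end Vale.Agent.P100.Calib.MidTail
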