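import Vale.Agent.P100.Calib.SlabMidTailClosed

/-!
# A test for vanishing coefficients
-/

namespace Vale.Agent.P100.Calib.MidTail

open Pack EndAll

/-- The chart `x = t` for all variables. -/
def idBox : ℕ → Chart := fun _ => idChart

/-- The degrees of an expression, from one pass. -/
noncomputable def degs (e : Ex) : Res4 := eval4 (pt4 idBox 1 (deg4 0 0 0 0)) e

/-- `0 ≤ e` in the boxes `C`, with the degrees found by the pass. -/
noncomputable def checkAuto (C : ℕ → Chart) (K : ℕ) (e : Ex) : Bool :=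
  checkLong C K (degs e).n₀ (degs e).n₁ (degs e).n₂ (degs e).n₃ e

/-- All the coefficients vanish. -/
noncomputable def zeroList (K : ℕ) : List Ex → Bool
  | [] => true
  | c :: cs => checkAuto idBox K c && checkAuto idBox K (.sub (.num 0) c) && zeroList K cs

theorem nonneg_of_checkAuto {C : ℕ → Chart} {K : ℕ} {e : Ex} (h : checkAuto C K e = true)
    {x : ℕ → ℝ} (hx : ∀ i < 4, ∃ t : ℝ, 0 ≤ t ∧ 0 < ((C i).c : ℝ) + (C i).d * t ∧
      ((C i).a : ℝ) + (C i).b * t = x i * (((C i).c : ℝ) + (C i).d * t)) :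
    0 ≤ e.eval x := by
  rw [checkAuto, checkLong_eq] at h
  exact nonneg_of_checkFour h hx

theorem bv_zero {K : ℕ} {x : ℕ → ℝ} {θ : ℝ} (hx : ∀ i < 4, 0 ≤ x i) :
    ∀ {l : List Ex}, zeroList K l = true → bv x θ l = 0
  | [], _ => rfl
  | c :: cs, h => by
    simp only [zeroList, Bool.and_eq_true] at h
    obtain ⟨⟨h1, h2⟩, h3⟩ := h
    have hp : ∀ i < 4, ∃ t : ℝ, 0 ≤ t ∧ 0 < ((idBox i).c : ℝ) + (idBox i).d * t ∧
        ((idBox i).a : ℝ) + (idBox i).b * t = x i * (((idBox i).c : ℝ) + (idBox i).d * t) :=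
      fun i hi => ⟨x i, hx i hi, by simp [idBox, idChart], by simp [idBox, idChart]⟩
    have e1 := nonneg_of_checkAuto h1 hp
    have e2 := nonneg_of_checkAuto h2 hp
    simp only [Ex.eval, Int.cast_zero] at e2
    rw [bv, bv_zero hx h3, le_antisymm (by linarith) e1]
    ring

/-- A difference with vanishing numerator. -/
theorem eq_of_zero {K : ℕ} {x : ℕ → ℝ} {θ : ℝ} {F G : Fn} {r s : ℝ}
    (hF : Rep atoms x θ F r) (hG : Rep atoms x θ G s) (hx : ∀ i < 4, 0 ≤ x i)
    (h : zeroList K (Fn.sub atoms F G).num = true) : r = s := by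
  obtain ⟨ha, hd, he⟩ := hF.sub hG
  rw [bv_zero hx h] at he
  have hp := mul_pos (Nat.cast_pos (α := ℝ).2 hd) (apow_pos (Rep.apos ha) (Fn.sub atoms F G).ex)
  exact sub_eq_zero.1 ((mul_eq_zero.1 he).resolve_right hp.ne')

end Vale.Agent.P100.Calib.MidTail
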