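import Vale.Agent.P100.Calib.SlabMidTailReal
import Vale.Agent.P100.Calib.SlabMidTailZero

/-!
# The entries of the matrix in five variables

`entV` is the real value.
-/

set_option linter.unusedVariables false

namespace Vale.Agent.P100.Calib.MidTail

open Pack EndAll

/-- The values. -/
noncomputable def entV (cl : Bool) (x : ℕ → ℝ) (η : ℝ) : ℕ → ℝ
  | 0 => x 1 * (5 * rS x * nv cl x η 0 + nv cl x η 5)
  | 1 => nv cl x η 1
  | 2 => rb x ^ 2 * rS x ^ 3 * rDn x η ^ 2 * nv cl x η 2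
  | 3 => x 1 * rb x ^ 2 * rS x * nv cl x η 3
  | 4 => rb x ^ 2 * rS x ^ 2 * rDn x η * nv cl x η 4
  | 5 => nv cl x η 5
  | 6 => rb x ^ 2 * nv cl x η 6
  | 7 => x 1 * zK x η
  | 8 => x 2 * rS x ^ 4 * rd x * rDn x η ^ 2
  | 9 => x 1 * rS x ^ 2 * rd x * x 2
  | 10 => zK x η
  | 11 => x 1 ^ 2 * (rb x ^ 2 * rS x ^ 3 * rDn x η ^ 2 * nv cl x η 2)
  | 12 => x 1 * (rb x ^ 2 * rS x ^ 2 * rDn x η * nv cl x η 4)
  | 13 => rb x ^ 2 * rS x ^ 2 * rDn x η * x 0 * rgn x * nv cl x η 6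
  | 14 => x 1 * (rb x ^ 2 * rS x ^ 2 * rDn x η * x 0 * rgn x * nv cl x η 6)
  | _ => rb x ^ 2 * rS x ^ 2 * rDn x η ^ 2 * nv cl x η 6

end Vale.Agent.P100.Calib.MidTail
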