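import Vale.Agent.P100.Calib.SlabMidTailZero

/-!
# Kernel checks of the reduced forms, part three
-/

namespace Vale.Agent.P100.Calib.MidTail

open Pack EndAll

theorem zeroEE_false : zeroList 224 (Fn.sub atoms (cEE false) (redEE false)).num = true := by
  decide +kernel

theorem zeroEE_true : zeroList 224 (Fn.sub atoms (cEE true) (redEE true)).num = true := by
  decide +kernel

end Vale.Agent.P100.Calib.MidTail
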