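import Vale.Agent.P100.Calib.SlabMidTailRedOne
import Vale.Agent.P100.Calib.SlabMidTailRedTwo
import Vale.Agent.P100.Calib.SlabMidTailRedThree
import Vale.Agent.P100.Calib.SlabMidTailRedFour

/-!
# The block entries by their reduced numerators
-/

set_option linter.unusedVariables false

namespace Vale.Agent.P100.Calib.MidTail

open Pack EndAll

variable {cl : Bool} {x : ℕ → ℝ} {θ : ℝ}

theorem apow_atoms (h : MPt x θ) (e : List ℤ) : apow (atoms.map (bv x θ)) e =
    x 3 ^ e.headD 0 * (x 2 ^ e.tail.headD 0 * (x 1 ^ e.tail.tail.headD 0 *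
      (rS x ^ e.tail.tail.tail.headD 0 * (rb x ^ e.tail.tail.tail.tail.headD 0 *
      (rd x ^ e.tail.tail.tail.tail.tail.headD 0 *
      ((1 + x 0) ^ e.tail.tail.tail.tail.tail.tail.headD 0 *
      (rDn x θ ^ e.tail.tail.tail.tail.tail.tail.tail.headD 0 * 1))))))) := by
  simp only [atoms, List.map_cons, List.map_nil, apow, h.bv_S, h.bv_B, h.bv_D, h.bv_Q, h.bv_Dn]
  simp [bv, vA, vI, vU, Ex.eval]

theorem red_eq (h : MPt x θ) {C : Fn} {r : ℝ} (hC : Rep atoms x θ C r) {F : Fn}
    {l : List (List Ex)} (hz : zeroList 224 (Fn.sub atoms C F).num = true)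
    (hF : F = ⟨sub2 (.num 1) vX (.num 1) [.num 0, .num 1] l, F.den, F.ex⟩) {n : ℕ}
    (hl : (rect n l && decide (0 < F.den)) = true) :
    r * (F.den * apow (atoms.map (bv x θ)) F.ex) = pv2 x (x 0) θ l := by
  simp only [Bool.and_eq_true, decide_eq_true_eq] at hl
  obtain ⟨hr, hden⟩ := hl
  have ha : AtomsPos atoms x θ := h.pos
  have hp := mul_pos (Nat.cast_pos (α := ℝ).2 hden) (apow_pos (Rep.apos ha) F.ex)
  have hR : Rep atoms x θ F (pv2 x (x 0) θ l / (F.den * apow (atoms.map (bv x θ)) F.ex)) := by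
    refine ⟨ha, hden, ?_⟩
    rw [div_mul_cancel₀ _ hp.ne', hF,
      bv_sub2 (X := x 0) (y := θ) (by simp [vX, Ex.eval]) (by simp [bv, Ex.eval]) hr]
    simp [Ex.eval]
  have := eq_of_zero hC hR (fun i hi => by
    interval_cases i
    · exact h.X_pos.le
    · exact h.u_pos.le
    · exact h.I_pos.le
    · exact h.a_pos.le) hz
  rw [this, div_mul_cancel₀ _ hp.ne']

section
variable (h : MPt x θ)
include h

theorem redMM_eq :
    rForm ClosedGen.TMMS cl x θ * (rS x * rd x ^ 2) = x 2 ^ 2 * (1 + x 0) * pv2 x (x 0) θ (numEx numMM) := by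
  have hz : zeroList 224 (Fn.sub atoms (cMM cl) redMM).num = true := by
    cases cl
    · exact zeroMM_false
    · exact zeroMM_true
  have hl : (rect (((numEx numMM).headD []).length - 1) (numEx numMM) && decide (0 < (redMM).den)) = true := by
    cases cl <;> decide +kernel
  have hv := red_eq h h.rMM (F := redMM) (l := numEx numMM) hz rfl hl
  simp only [redMM, fRed, apow_atoms h, List.headD_cons, List.tail_cons] at hv
  norm_num [zpow_neg] at hv
  obtain ⟨pX, pu, pI, pa, pS, pd, pn⟩ := h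
  have pb := MPt.b_pos (θ := θ) ⟨pX, pu, pI, pa, pS, pd, pn⟩
  have pQ : 0 < 1 + x 0 := by linarith
  rw [← hv]
  field_simp
  try ring

theorem redME_eq :
    rForm ClosedGen.TMES cl x θ * (x 1 * rS x ^ 2 * rd x ^ 2 * rDn x θ) = x 3 * x 2 * pv2 x (x 0) θ (numEx numME) := by
  have hz : zeroList 224 (Fn.sub atoms (cME cl) redME).num = true := by
    cases cl
    · exact zeroME_false
    · exact zeroME_true
  have hl : (rect (((numEx numME).headD []).length - 1) (numEx numME) && decide (0 < (redME).den)) = true := by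
    cases cl <;> decide +kernel
  have hv := red_eq h h.rME (F := redME) (l := numEx numME) hz rfl hl
  simp only [redME, fRed, apow_atoms h, List.headD_cons, List.tail_cons] at hv
  norm_num [zpow_neg] at hv
  obtain ⟨pX, pu, pI, pa, pS, pd, pn⟩ := h
  have pb := MPt.b_pos (θ := θ) ⟨pX, pu, pI, pa, pS, pd, pn⟩
  have pQ : 0 < 1 + x 0 := by linarith
  rw [← hv]
  field_simp
  try ring

theorem redLG_eq :
    rForm ClosedGen.LLGS cl x θ * (5 * rS x * rd x) = x 3 * pv2 x (x 0) θ (numEx (cond cl numLGCl numLG)) := by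
  have hz : zeroList 224 (Fn.sub atoms (cLG cl) (redLG cl)).num = true := by
    cases cl
    · exact zeroLG_false
    · exact zeroLG_true
  have hl : (rect (((numEx numLG).headD []).length - 1) (numEx (cond cl numLGCl numLG)) && decide (0 < ((redLG cl)).den)) = true := by
    cases cl <;> decide +kernel
  have hv := red_eq h h.rLG' (F := (redLG cl)) (l := numEx (cond cl numLGCl numLG)) hz rfl hl
  simp only [redLG, fRed, apow_atoms h, List.headD_cons, List.tail_cons] at hv
  norm_num [zpow_neg] at hv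
  obtain ⟨pX, pu, pI, pa, pS, pd, pn⟩ := h
  have pb := MPt.b_pos (θ := θ) ⟨pX, pu, pI, pa, pS, pd, pn⟩
  have pQ : 0 < 1 + x 0 := by linarith
  rw [← hv]
  field_simp
  try ring

theorem redGG_eq :
    rForm ClosedGen.TGGS cl x θ * (25 * rS x ^ 4 * rb x * rd x ^ 2 * (1 + x 0) * rDn x θ ^ 2) = x 3 ^ 3 * pv2 x (x 0) θ (numEx (cond cl numGGCl numGG)) := by
  have hz : zeroList 224 (Fn.sub atoms (cGG cl) (redGG cl)).num = true := by
    cases cl
    · exact zeroGG_false
    · exact zeroGG_true
  have hl : (rect (((numEx numGG).headD []).length - 1) (numEx (cond cl numGGCl numGG)) && decide (0 < ((redGG cl)).den)) = true := by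
    cases cl <;> decide +kernel
  have hv := red_eq h h.rGG (F := (redGG cl)) (l := numEx (cond cl numGGCl numGG)) hz rfl hl
  simp only [redGG, fRed, apow_atoms h, List.headD_cons, List.tail_cons] at hv
  norm_num [zpow_neg] at hv
  obtain ⟨pX, pu, pI, pa, pS, pd, pn⟩ := h
  have pb := MPt.b_pos (θ := θ) ⟨pX, pu, pI, pa, pS, pd, pn⟩
  have pQ : 0 < 1 + x 0 := by linarith
  rw [← hv]
  field_simp
  try ring

theorem redEG_eq :
    rForm ClosedGen.TEGS cl x θ * (5 * rS x ^ 3 * rd x ^ 3 * (1 + x 0) * rDn x θ ^ 2) = x 3 ^ 3 * rb x * pv2 x (x 0) θ (numEx (cond cl numEGCl numEG)) := by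
  have hz : zeroList 224 (Fn.sub atoms (cEG cl) (redEG cl)).num = true := by
    cases cl
    · exact zeroEG_false
    · exact zeroEG_true
  have hl : (rect (((numEx numEG).headD []).length - 1) (numEx (cond cl numEGCl numEG)) && decide (0 < ((redEG cl)).den)) = true := by
    cases cl <;> decide +kernel
  have hv := red_eq h h.rEG (F := (redEG cl)) (l := numEx (cond cl numEGCl numEG)) hz rfl hl
  simp only [redEG, fRed, apow_atoms h, List.headD_cons, List.tail_cons] at hv
  norm_num [zpow_neg] at hv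
  obtain ⟨pX, pu, pI, pa, pS, pd, pn⟩ := h
  have pb := MPt.b_pos (θ := θ) ⟨pX, pu, pI, pa, pS, pd, pn⟩
  have pQ : 0 < 1 + x 0 := by linarith
  rw [← hv]
  field_simp
  try ring

theorem redEE_eq :
    rForm ClosedGen.TEES cl x θ * (x 1 * rS x ^ 3 * rb x * rd x ^ 2 * rDn x θ ^ 2) = x 3 ^ 3 * pv2 x (x 0) θ (numEx (cond cl numEECl numEE)) := by
  have hz : zeroList 224 (Fn.sub atoms (cEE cl) (redEE cl)).num = true := by
    cases cl
    · exact zeroEE_false
    · exact zeroEE_true
  have hl : (rect (((numEx numEE).headD []).length - 1) (numEx (cond cl numEECl numEE)) && decide (0 < ((redEE cl)).den)) = true := by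
    cases cl <;> decide +kernel
  have hv := red_eq h h.rEE (F := (redEE cl)) (l := numEx (cond cl numEECl numEE)) hz rfl hl
  simp only [redEE, fRed, apow_atoms h, List.headD_cons, List.tail_cons] at hv
  norm_num [zpow_neg] at hv
  obtain ⟨pX, pu, pI, pa, pS, pd, pn⟩ := h
  have pb := MPt.b_pos (θ := θ) ⟨pX, pu, pI, pa, pS, pd, pn⟩
  have pQ : 0 < 1 + x 0 := by linarith
  rw [← hv]
  field_simp
  try ring

theorem redMG_eq :
    rForm ClosedGen.TMGS cl x θ * (5 * x 1 * rS x ^ 4 * rb x * rd x ^ 2 * rDn x θ ^ 2) = x 3 ^ 3 * pv2 x (x 0) θ (numEx (cond cl numMGCl numMG)) := by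
  have hz : zeroList 224 (Fn.sub atoms (cMG cl) (redMG cl)).num = true := by
    cases cl
    · exact zeroMG_false
    · exact zeroMG_true
  have hl : (rect (((numEx numMG).headD []).length - 1) (numEx (cond cl numMGCl numMG)) && decide (0 < ((redMG cl)).den)) = true := by
    cases cl <;> decide +kernel
  have hv := red_eq h h.rMG (F := (redMG cl)) (l := numEx (cond cl numMGCl numMG)) hz rfl hl
  simp only [redMG, fRed, apow_atoms h, List.headD_cons, List.tail_cons] at hv
  norm_num [zpow_neg] at hv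
  obtain ⟨pX, pu, pI, pa, pS, pd, pn⟩ := h
  have pb := MPt.b_pos (θ := θ) ⟨pX, pu, pI, pa, pS, pd, pn⟩
  have pQ : 0 < 1 + x 0 := by linarith
  rw [← hv]
  field_simp
  try ring

end

end Vale.Agent.P100.Calib.MidTail
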