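import Vale.Agent.P100.Calib.SlabMidTailPieces
import Vale.Agent.P100.Calib.SlabMidTailChart
import Vale.Agent.P100.Calib.SlabMidCorner

/-!
# The facts of the middle tail from those of the chart

The coordinates are `a = (S - d)/2`, `I = (1 - S)/2`, `X = d v`, `η = 1 - d H`.
-/

set_option linter.unusedVariables false

namespace Vale.Agent.P100.Calib.MidTail

open Pack EndAll Band

/-- The point of the chart in the coordinates of the boxes. -/
noncomputable def chartPt (d S u v : ℝ) : ℕ → ℝ := mk4 (d * v) u ((1 - S) / 2) ((S - d) / 2)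

/-- The coordinate `η`. -/
noncomputable def chartEta (d S u v t : ℝ) : ℝ := 1 - d * Closed.chH d S u v t

/-- The facts of a piece at a point of the chart. -/
abbrev ChartFactsP (P : Piece) (d S u v t : ℝ) : Prop :=
  Facts P ((S - d) / 2) ((1 - S) / 2) u (d * v) (chartEta d S u v t)

section

variable {P : Piece} {d S u v t : ℝ}

theorem chart_band {c : MidBand} {a b I w H : ℝ} (hI : allStabI a b = I) (hu : u ≤ 1) (ha : 0 < a)
    (hb : b = 1 - 2 * I - a) (hd : 0 < b - a) :
    (H < midBandG c a b u w →
      ((b - a) * H) * (1000 * (1 - 2 * I - a - u * a)) < nbV c a I u ((b - a) * w)) ∧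
    (midBandG c a b u w < H →
      nbV c a I u ((b - a) * w) < ((b - a) * H) * (1000 * (1 - 2 * I - a - u * a))) := by
  have hw : 0 < b - u * a := by linarith [mul_le_mul_of_nonneg_right hu ha.le]
  have eP : allPole a b u = b - u * a := (allPole_eq hu).1
  have e : nbV c a I u ((b - a) * w) = (b - a) * midN c I a b u w := by
    rw [nbV, midN, hb]; ring
  rw [midBandG, hI, eP, e, show 1 - 2 * I - a - u * a = b - u * a by rw [hb]]
  constructor <;> intro h
  · rw [lt_div_iff₀ (by positivity)] at h
    rw [mul_assoc]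
    exact mul_lt_mul_of_pos_left h hd
  · rw [div_lt_iff₀ (by positivity)] at h
    rw [mul_assoc]
    exact mul_lt_mul_of_pos_left h hd

/-- **The facts from the chart.** -/
theorem facts_of {n : ℕ} (hb : Closed.All.ChartBox n d S)
    (hF : Closed.All.ChartFacts d S u v t)
    (hband : midBandG P.lo ((S - d) / 2) ((S + d) / 2) u v < Closed.chH d S u v t ∧
      Closed.chH d S u v t < midBandG P.up ((S - d) / 2) ((S + d) / 2) u v)
    (hex : ∀ l ∈ P.ex, v * brV l ((S - d) / 2) ((1 - S) / 2) u < 2000 * ((1 - S) / 2)) :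
    ChartFactsP P d S u v t := by
  have pd := hb.pos
  have pS1 : 0 < 1 - S := sub_pos.2 hb.S_lt
  have pS : 0 < S := by linarith [hb.one]
  have pa : 0 < (S - d) / 2 := by linarith [hb.one, hb.S_lt]
  have pb : 0 < (S + d) / 2 := by linarith
  have hk : 0 < 2 + (S - d) * (1 - S) := by
    have := mul_pos (show 0 < S - d by linarith) pS1
    linarith
  have pv : 0 < v := pos_of_mul_pos_left ((mul_pos two_pos pS1).trans hF.v_crit) hk.le
  obtain ⟨pu, hu1, pH, hH, hcrit, hr, hkap, hdrift, hev⟩ := hF
  have eI : allStabI ((S - d) / 2) ((S + d) / 2) = (1 - S) / 2 := by rw [allStabI]; ring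
  have eb : (S + d) / 2 = 1 - 2 * ((1 - S) / 2) - (S - d) / 2 := by ring
  have ed : (S + d) / 2 - (S - d) / 2 = d := by ring
  have hbd : 0 < (S + d) / 2 - (S - d) / 2 := by linarith
  obtain ⟨H, hHd⟩ : ∃ H, H = Closed.chH d S u v t := ⟨_, rfl⟩
  rw [← hHd] at hband pH hH hdrift hev
  have pDn : 0 < 2 + d * v - d * u * H := by
    have : u * (d * H) ≤ 1 * 1 := mul_le_mul hu1.le hH.le (by positivity) zero_le_one
    have := mul_pos pd pv
    linarith
  have hG : Closed.chG d S u v t * ((1 - S) / 2 * ((S + d) / 2) * (2 + d * v - d * u * H)) =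
      2 * ((2 + d * v) * ((S + d) / 2) - S * u * (1 + d * v)) := by
    rw [Closed.chG, ← hHd, div_mul_eq_mul_div, div_eq_iff (by positivity)]
    ring
  have pK : 0 < (1 - S) / 2 * ((S + d) / 2) * (2 + d * v - d * u * H) := by positivity
  refine ⟨mul_pos pd pv, pu, hu1, by linarith, by linarith [hb.one], by linarith, ?_, ?_, ?_, ?_, ?_,
    ?_, ?_, ?_, ?_, ?_⟩
  · simp only [chartEta, ← hHd]; linarith
  · simp only [chartEta, ← hHd]; linarith [mul_pos pd pH]
  · have := mul_lt_mul_of_pos_left hcrit pd
    linarith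
  · have := mul_lt_mul_of_pos_left hr pd
    linarith
  · linarith
  · simp only [chartEta, gnV, ← hHd]
    have e1 : 2 * S * (1 - (S - d) / 2 * v) / ((1 - S) * ((S + d) / 2)) *
        ((1 - S) / 2 * ((S + d) / 2) * (2 + d * v - d * u * H)) =
        S * (1 - (S - d) / 2 * v) * (2 + d * v - d * u * H) := by field_simp
    have h := mul_lt_mul_of_pos_right hdrift pK
    rw [e1, show Closed.chG d S u v t * H / 2 *
        ((1 - S) / 2 * ((S + d) / 2) * (2 + d * v - d * u * H)) =
        H / 2 * (Closed.chG d S u v t * ((1 - S) / 2 * ((S + d) / 2) * (2 + d * v - d * u * H)))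
        by ring, hG] at h
    have := mul_lt_mul_of_pos_left h pd
    linarith
  · simp only [chartEta, gnV, ← hHd]
    have h := mul_pos hev pK
    have e1 : 2 * S / (1 - S) * (u - 1) * ((1 - S) / 2 * ((S + d) / 2) * (2 + d * v - d * u * H)) =
        S * (u - 1) * ((S + d) / 2) * (2 + d * v - d * u * H) := by field_simp
    rw [add_mul, e1, show (1 - d * u * H) * Closed.chG d S u v t / 2 *
        ((1 - S) / 2 * ((S + d) / 2) * (2 + d * v - d * u * H)) =
        (1 - d * u * H) / 2 * (Closed.chG d S u v t *
          ((1 - S) / 2 * ((S + d) / 2) * (2 + d * v - d * u * H))) by ring, hG] at h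
    linarith
  · have h := (chart_band (u := u) (w := v) (H := H) (c := P.up) eI hu1.le pa eb hbd).1 hband.2
    rw [ed] at h
    simp only [chartEta, ← hHd]
    linarith
  · have h := (chart_band (u := u) (w := v) (H := H) (c := P.lo) eI hu1.le pa eb hbd).2 hband.1
    rw [ed] at h
    simp only [chartEta, ← hHd]
    linarith
  · intro l hl
    have := mul_lt_mul_of_pos_left (hex l hl) pd
    linarith

theorem brV_exitL (e : MidExit) (a I : ℝ) : brV (exitL e) a I u = midBracket e I a u := by
  simp only [brV, exitL, rpv, midBracket]; ring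

theorem brV_cubicL (e : MidCubic) (a I : ℝ) : brV (cubicL e) a I u = cubBracket e I a u := by
  simp only [brV, cubicL, rpv, cubBracket]; ring

/-- **The signs in the chart from those of a box.** -/
theorem chart_of_box {cl : Bool} (h : ChartFactsP P d S u v t)
    (hs : ClosedGen.SignsMult ((S - d) / 2) (rd (chartPt d S u v)) (rv (chartPt d S u v))
      (rg (chartPt d S u v) (chartEta d S u v t)) (rW (chartPt d S u v) (chartEta d S u v t))
      (rW1 (chartPt d S u v) (chartEta d S u v t)) (rR (chartPt d S u v))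
      (rNum cl (chartPt d S u v) (chartEta d S u v t)))
    (hc : ClipAt cl (chartPt d S u v)) : Closed.All.ChartSigns d S u v t := by
  have pd : 0 < 1 - 2 * ((1 - S) / 2) - (S - d) / 2 - (S - d) / 2 := h.d_pos
  have hd : 0 < d := by linarith
  have ed : rd (chartPt d S u v) = d := by simp only [rd, chartPt, mk4]; ring
  have hn : 0 < 2 + d * v - u * (1 - chartEta d S u v t) := by
    have : u * (1 - chartEta d S u v t) ≤ 1 * 1 :=
      mul_le_mul h.u_lt.le (by linarith [h.eta_pos]) (by linarith [h.eta_lt]) zero_le_one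
    linarith [h.X_pos]
  have hI := h.I_pos
  have hI2 := h.I_le
  refine chartSigns_of (x := chartPt d S u v) (θ := chartEta d S u v t)
    ⟨h.X_pos, h.u_pos, hI, show (0 : ℝ) < (S - d) / 2 by linarith,
      show (0 : ℝ) < 1 - 2 * ((1 - S) / 2) by linarith,
      show (0 : ℝ) < rd (chartPt d S u v) by rw [ed]; exact hd, hn⟩
    ed.symm (by simp only [rS, chartPt, mk4]; ring) rfl ?_ ?_ hc hs
  · rw [rv, ed]; simp only [chartPt, mk4]; field_simp
  · rw [rH, ed, chartEta]; field_simp; ring

end

end Vale.Agent.P100.Calib.MidTail
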