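import Vale.Agent.P100.Calib.SlabAllEndBig
import Vale.Agent.P100.Pack.Fast

/-!
# A fast sign test for a coefficient list in five coordinates

The five nested Horner schemes are homogenised level by level with given numerators and
denominators, so that the value at a packing point and the bound take one step for each coefficient.
-/

namespace Vale.Agent.P100.Calib.MidTail

open Pack EndAll

/-- A coefficient list in five coordinates. -/
abbrev L5 := List (List (List (List (List ℤ))))

/-- The value of a list. -/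
def rpv {α : Type} {R : Type*} [CommRing R] (g : α → R) (y : R) : List α → R
  | [] => 0
  | c :: l => g c + y * rpv g y l

theorem rpv_mul {α : Type} {R : Type*} [CommRing R] (c : R) (g : α → R) (y : R) :
    ∀ l : List α, rpv (fun a => c * g a) y l = c * rpv g y l
  | [] => by simp [rpv]
  | a :: l => by simp only [rpv, rpv_mul c g y l]; ring

/-- One homogenised level on integers. -/
noncomputable def horZ {α : Type} (f : ℕ → α → ℤ) (N D : ℤ) (k : ℕ) (l : List α) : ℤ :=
  List.rec (motive := fun _ => ℕ → ℤ) (fun _ => 0)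
    (fun c _ g k => Int.add (Int.mul (f k c) (D ^ k)) (Int.mul N (g (Nat.sub k 1)))) l k

/-- One level of bounds. -/
noncomputable def horN {α : Type} (f : ℕ → α → ℕ) (N D : ℕ) (k : ℕ) (l : List α) : ℕ :=
  List.rec (motive := fun _ => ℕ → ℕ) (fun _ => 0)
    (fun c _ g k => Nat.add (Nat.mul (f k c) (Nat.pow D k)) (Nat.mul N (g (Nat.sub k 1)))) l k

/-- One level on expressions. -/
def horE {α : Type} (f : ℕ → α → Ex) (N D : Ex) : ℕ → List α → Ex
  | _, [] => .num 0
  | k, [c] => .mul (f k c) (.pow D k)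
  | k, c :: d :: l => .add (.mul (f k c) (.pow D k)) (.mul N (horE f N D (k - 1) (d :: l)))

section

variable {α : Type} {fE : ℕ → α → Ex} {N D : Ex}

theorem eval_horE {t : ℕ → ℤ} {fZ : ℕ → α → ℤ} (hf : ∀ k c, (fE k c).eval t = fZ k c) :
    ∀ (k : ℕ) (l : List α), (horE fE N D k l).eval t = horZ fZ (N.eval t) (D.eval t) k l
  | k, [] => by simp [horE, horZ, Ex.eval]
  | k, [c] => by simp [horE, horZ, Ex.eval, hf]
  | k, c :: d :: l => by
    simp only [horE, Ex.eval, hf, eval_horE hf (k - 1) (d :: l)]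
    rfl

theorem bound_horE {fN : ℕ → α → ℕ} (hf : ∀ k c, bound (fun _ => idChart) 5 (fE k c) = fN k c) :
    ∀ (k : ℕ) (l : List α), bound (fun _ => idChart) 5 (horE fE N D k l) =
      horN fN (bound (fun _ => idChart) 5 N) (bound (fun _ => idChart) 5 D) k l
  | k, [] => by simp [horE, horN, bound]
  | k, [c] => by simp [horE, horN, bound, hf]
  | k, c :: d :: l => by
    simp only [horE, bound, hf, bound_horE hf (k - 1) (d :: l)]
    simp [denB, prodTo, idChart, horN]

theorem ok_horE (hf : ∀ k c, (fE k c).ok 5 = true) (hN : N.ok 5 = true) (hD : D.ok 5 = true) :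
    ∀ (k : ℕ) (l : List α), (horE fE N D k l).ok 5 = true
  | k, [] => by simp [horE, Ex.ok]
  | k, [c] => by simp [horE, Ex.ok, hf, hD]
  | k, c :: d :: l => by simp [horE, Ex.ok, hf, hN, hD, ok_horE hf hN hD (k - 1) (d :: l)]

/-- The degree in one variable. -/
theorem deg_horE {j g E : ℕ} {S : α → Prop}
    (hf : ∀ k c, S c → (fE k c).deg j + k * D.deg j ≤ g + k * E) (hN : N.deg j ≤ E) :
    ∀ (k : ℕ) (l : List α), (∀ c ∈ l, S c) → l.length ≤ k + 1 →
      (horE fE N D k l).deg j ≤ g + k * E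
  | k, [], _, _ => by simp [horE, Ex.deg]
  | k, [c], hS, _ => by
    simp only [horE, Ex.deg]
    exact hf k c (hS c List.mem_cons_self)
  | 0, c :: d :: l, _, h => absurd h (by simp)
  | k + 1, c :: d :: l, hS, h => by
    have h1 := hf (k + 1) c (hS c List.mem_cons_self)
    have h2 := deg_horE hf hN k (d :: l) (fun b hb => hS b (List.mem_cons_of_mem _ hb))
      (Nat.le_of_succ_le_succ h)
    simp only [horE, Ex.deg, Nat.add_sub_cancel]
    simp only [Nat.add_mul, Nat.one_mul] at *
    omega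

theorem real_horE {t : ℕ → ℝ} {G : α → ℝ} {M y : ℝ} {S : α → Prop}
    (hf : ∀ k c, S c → (fE k c).eval t = M ^ k * G c)
    (hN : N.eval t = y * (M * D.eval t)) :
    ∀ (k : ℕ) (l : List α), (∀ c ∈ l, S c) → l.length ≤ k + 1 →
      (horE fE N D k l).eval t = (M * D.eval t) ^ k * rpv G y l
  | k, [], _, _ => by simp [horE, rpv, Ex.eval]
  | k, [c], hS, _ => by
    simp only [horE, Ex.eval, hf k c (hS c List.mem_cons_self), rpv]
    ring
  | 0, c :: d :: l, _, h => absurd h (by simp)
  | k + 1, c :: d :: l, hS, h => by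
    simp only [horE, Ex.eval, Nat.add_sub_cancel, hf (k + 1) c (hS c List.mem_cons_self), hN,
      real_horE hf hN k (d :: l) (fun b hb => hS b (List.mem_cons_of_mem _ hb))
        (Nat.le_of_succ_le_succ h), rpv]
    ring

end

theorem hom_idChart {R : Type*} [CommRing R] (s : ℕ → R) : ∀ e : Ex, e.ok 5 = true →
    hom (fun _ => idChart) 5 s e = e.eval s
  | .var i, _ => by simp [hom, idChart, Ex.eval]
  | .num z, _ => by simp [hom, Ex.eval]
  | .add e f, he => by
    simp only [Ex.ok, Bool.and_eq_true] at he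
    simp only [hom, Ex.eval, hom_idChart s e he.1, hom_idChart s f he.2]
    simp [den, prodTo, idChart]
  | .sub e f, he => by
    simp only [Ex.ok, Bool.and_eq_true] at he
    simp only [hom, Ex.eval, hom_idChart s e he.1, hom_idChart s f he.2]
    simp [den, prodTo, idChart]
  | .mul e f, he => by
    simp only [Ex.ok, Bool.and_eq_true] at he
    simp [hom, Ex.eval, hom_idChart s e he.1, hom_idChart s f he.2]
  | .pow e n, he => by
    simp only [Ex.ok] at he
    simp [hom, Ex.eval, hom_idChart s e he]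

/-- An expression of known degrees, value and bound with nonnegative coefficients. -/
theorem nonneg_fast {e : Ex} {K B : ℕ} {V : ℤ} {d : ℕ → ℕ} (hok : e.ok 5 = true) (hK : 1 ≤ K)
    (hdeg : ∀ i < 5, e.deg i = d i) (hB : bound (fun _ => idChart) 5 e ≤ B) (hb : 2 * B < 2 ^ K)
    (hV : e.eval (base K 5 d) = V) (hv : 0 ≤ V)
    (hm : maskDigits K ((d 0 + 1) * width 4 d) V.toNat = true) {t : ℕ → ℝ}
    (ht : ∀ i < 5, 0 ≤ t i) : 0 ≤ e.eval t := by
  have hbase : ∀ q < 5, base K 5 e.deg q = base K 5 d q :=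
    fun q hq => base_congr K 5 hdeg q hq
  have hval : hom (fun _ => idChart) 5 (base K 5 e.deg) e = V := by
    have h1 := runAt_congr (fun _ => idChart) 5 hbase e
    rw [runAt_eq _ _ _ _ hok, runAt_eq _ _ _ _ hok] at h1
    rw [show hom (fun _ => idChart) 5 (base K 5 e.deg) e = hom (fun _ => idChart) 5 (base K 5 d) e
      from congrArg Res.val h1, hom_idChart _ _ hok, hV]
  have hN : checkNonneg (fun _ => idChart) 5 K e = true := by
    simp only [checkNonneg, Bool.and_eq_true, decide_eq_true_eq]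
    refine ⟨⟨⟨⟨hok, hK⟩, lt_of_le_of_lt (Nat.mul_le_mul_left 2 hB) hb⟩, hval ▸ hv⟩, ?_⟩
    rw [hval, hdeg 0 (by norm_num), width_congr 4 fun q hq => hdeg q (by omega)]
    exact hm
  exact nonneg_of_checkNonneg hN (x := t) fun q hq =>
    ⟨t q, ht q hq, by simp [idChart], by simp [idChart]⟩

/-- The numerators and denominators of the five levels, in five packing variables. -/
structure Sub where
  NA : Ex
  DA : Ex
  NI : Ex
  DI : Ex
  NU : Ex
  DU : Ex
  NX : Ex
  DX : Ex
  NE : Ex
  DE : Ex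

/-- The five levels at the packing point, from the ten values. -/
noncomputable def val5 (na da ni di nu du nx dx ne de : ℤ) (l : L5) : ℤ :=
  horZ (fun k row => horZ (fun m b => horZ (fun _ p => horZ (fun _ r => horZ (fun _ c => c) na da m r)
    ni di m p) nu du m b) nx dx (k + 2) row) ne de 4 l

/-- The five levels of bounds. -/
noncomputable def bnd5 (na da ni di nu du nx dx ne de : ℕ) (l : L5) : ℕ :=
  horN (fun k row => horN (fun m b => horN (fun _ p => horN (fun _ r =>
    horN (fun _ c => c.natAbs) na da m r) ni di m p) nu du m b) nx dx (k + 2) row) ne de 4 l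

/-- Truth for all members of a list. -/
def all' {α : Type} (p : α → Bool) : List α → Bool
  | [] => true
  | c :: l => p c && all' p l

theorem of_all' {α : Type} {p : α → Bool} : ∀ {l : List α}, all' p l = true → ∀ c ∈ l, p c = true
  | [], _, c, h => absurd h List.not_mem_nil
  | d :: l, h, c, hc => by
    simp only [all', Bool.and_eq_true] at h
    rcases List.mem_cons.1 hc with rfl | hc
    · exact h.1
    · exact of_all' h.2 c hc

/-- A block fits in degree `m`. -/
def shpB (m : ℕ) (b : List (List (List ℤ))) : Bool :=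
  Nat.ble b.length (m + 1) && all' (fun p =>
    Nat.ble p.length (m + 1) && all' (fun r => Nat.ble r.length (m + 1)) p) b

/-- A row fits in degree `k`. -/
def shpR : ℕ → List (List (List (List ℤ))) → Bool
  | _, [] => true
  | k, [b] => shpB k b
  | 0, _ :: _ :: _ => false
  | k + 1, b :: c :: l => shpB (k + 1) b && shpR k (c :: l)

/-- The list fits. -/
def shp5 : ℕ → L5 → Bool
  | _, [] => true
  | k, [row] => shpR (k + 2) row
  | 0, _ :: _ :: _ => false
  | k + 1, r :: s :: l => shpR (k + 3) r && shp5 k (s :: l)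

namespace Sub

variable (P : Sub)

def aE (m : ℕ) (r : List ℤ) : Ex := horE (fun _ c => .num c) P.NA P.DA m r
def iE (m : ℕ) (p : List (List ℤ)) : Ex := horE (fun _ r => P.aE m r) P.NI P.DI m p
def uE (m : ℕ) (b : List (List (List ℤ))) : Ex := horE (fun _ p => P.iE m p) P.NU P.DU m b
def xE (k : ℕ) (row : List (List (List (List ℤ)))) : Ex := horE P.uE P.NX P.DX (k + 2) row
def eE (l : L5) : Ex := horE P.xE P.NE P.DE 4 l

/-- The degree bounds of the levels and the shape. -/
def degOk : Bool :=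
  all' (fun p : Ex × List ℕ => p.1.ok 5 && all' (fun j => Nat.ble (p.1.deg j) (p.2.getD j 0))
      [0, 1, 2, 3, 4])
    [(P.NA, [0, 0, 0, 0, 1]), (P.DA, [0, 0, 0, 0, 1]), (P.NI, [0, 0, 0, 1, 0]),
      (P.DI, [0, 0, 0, 1, 0]), (P.NU, [0, 0, 1, 0, 0]), (P.DU, [0, 0, 1, 0, 0]),
      (P.NX, [0, 1, 1, 1, 1]), (P.DX, [0, 1, 0, 0, 0]), (P.NE, [1, 1, 1, 1, 1]),
      (P.DE, [1, 0, 0, 0, 0])]

/-- The value at a point. -/
noncomputable def valAt (t : ℕ → ℤ) (l : L5) : ℤ :=
  val5 (P.NA.eval t) (P.DA.eval t) (P.NI.eval t) (P.DI.eval t) (P.NU.eval t) (P.DU.eval t)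
    (P.NX.eval t) (P.DX.eval t) (P.NE.eval t) (P.DE.eval t) l

/-- The bound. -/
noncomputable def bd (l : L5) : ℕ :=
  bnd5 (bound (fun _ => idChart) 5 P.NA) (bound (fun _ => idChart) 5 P.DA)
    (bound (fun _ => idChart) 5 P.NI) (bound (fun _ => idChart) 5 P.DI)
    (bound (fun _ => idChart) 5 P.NU) (bound (fun _ => idChart) 5 P.DU)
    (bound (fun _ => idChart) 5 P.NX) (bound (fun _ => idChart) 5 P.DX)
    (bound (fun _ => idChart) 5 P.NE) (bound (fun _ => idChart) 5 P.DE) l

theorem eval_eE (t : ℕ → ℤ) (l : L5) : (P.eE l).eval t = P.valAt t l :=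
  eval_horE (fun _ _ => eval_horE (fun _ _ => eval_horE (fun _ _ => eval_horE (fun _ _ =>
    eval_horE (fun _ _ => by simp [Ex.eval]) _ _) _ _) _ _) _ _) _ _

theorem bound_eE (l : L5) : bound (fun _ => idChart) 5 (P.eE l) = P.bd l :=
  bound_horE (fun _ _ => bound_horE (fun _ _ => bound_horE (fun _ _ => bound_horE (fun _ _ =>
    bound_horE (fun _ _ => by simp [bound]) _ _) _ _) _ _) _ _) _ _

/-- The scale of the values: the denominators to their full degrees. -/
def scE : Ex := .mul (.pow (.mul (.mul (.mul P.DA P.DI) P.DU) P.DX) 6) (.pow P.DE 4)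

/-- A combination of the lists. -/
def cmbE (sur : ℕ → L5) : List (ℤ × ℕ) → Ex
  | [] => .num 0
  | t :: ts => .add (.mul (.num t.1) (P.eE (sur t.2))) (cmbE sur ts)

/-- The values of the lists `0, …, 15`; each is computed once. -/
noncomputable def vals (t : ℕ → ℤ) (sur : ℕ → L5) : List ℤ :=
  [P.valAt t (sur 0), P.valAt t (sur 1), P.valAt t (sur 2), P.valAt t (sur 3), P.valAt t (sur 4),
    P.valAt t (sur 5), P.valAt t (sur 6), P.valAt t (sur 7), P.valAt t (sur 8), P.valAt t (sur 9),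
    P.valAt t (sur 10), P.valAt t (sur 11), P.valAt t (sur 12), P.valAt t (sur 13),
    P.valAt t (sur 14), P.valAt t (sur 15)]

/-- The bounds of the lists `0, …, 15`. -/
noncomputable def bds (sur : ℕ → L5) : List ℕ :=
  [P.bd (sur 0), P.bd (sur 1), P.bd (sur 2), P.bd (sur 3), P.bd (sur 4), P.bd (sur 5), P.bd (sur 6),
    P.bd (sur 7), P.bd (sur 8), P.bd (sur 9), P.bd (sur 10), P.bd (sur 11), P.bd (sur 12),
    P.bd (sur 13), P.bd (sur 14), P.bd (sur 15)]

/-- The flags of the shapes. -/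
def shps (sur : ℕ → L5) : List Bool :=
  [shp5 4 (sur 0), shp5 4 (sur 1), shp5 4 (sur 2), shp5 4 (sur 3), shp5 4 (sur 4), shp5 4 (sur 5),
    shp5 4 (sur 6), shp5 4 (sur 7), shp5 4 (sur 8), shp5 4 (sur 9), shp5 4 (sur 10), shp5 4 (sur 11),
    shp5 4 (sur 12), shp5 4 (sur 13), shp5 4 (sur 14), shp5 4 (sur 15)]

/-- The value of a combination. -/
noncomputable def cmbV (V : List ℤ) : List (ℤ × ℕ) → ℤ
  | [] => 0
  | t :: ts => Int.add (Int.mul t.1 (V.getD t.2 0)) (cmbV V ts)

/-- The bound of a combination. -/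
noncomputable def cmbB (B : List ℕ) : List (ℤ × ℕ) → ℕ
  | [] => 0
  | t :: ts => Nat.add (Nat.mul t.1.natAbs (B.getD t.2 0)) (cmbB B ts)

/-- The expression checked: the combination minus a constant times the scale. -/
def topE (sur : ℕ → L5) (c : ℤ) (ts : List (ℤ × ℕ)) : Ex :=
  .sub (P.cmbE sur ts) (.mul (.num c) P.scE)

/-- The packing degrees. -/
def dg : ℕ → ℕ
  | 0 => 4
  | 1 => 6
  | 2 => 6
  | 3 => 6
  | 4 => 6
  | _ => 0

/-- `c ≤` the normalised combination on the whole orthant. -/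
noncomputable def check (K : ℕ) (sur : ℕ → L5) (c : ℤ) (ts : List (ℤ × ℕ)) : Bool :=
  P.degOk && all' (fun t : ℤ × ℕ => Nat.blt t.2 16 && (shps sur).getD t.2 false) ts &&
    decide (1 ≤ K) && all' (fun j => Nat.beq (P.scE.deg j) (dg j)) [0, 1, 2, 3, 4] &&
    decide (2 * (cmbB (P.bds sur) ts + c.natAbs * bound (fun _ => idChart) 5 P.scE) < 2 ^ K) &&
    decide (0 ≤ cmbV (P.vals (base K 5 dg) sur) ts - c * P.scE.eval (base K 5 dg)) &&
    maskLong K ((dg 0 + 1) * width 4 dg)
      (cmbV (P.vals (base K 5 dg) sur) ts - c * P.scE.eval (base K 5 dg)).toNat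

variable {P}

theorem deg_facts (h : P.degOk = true) {j : ℕ} (hj : j < 5) :
    P.NA.deg j ≤ [0, 0, 0, 0, 1].getD j 0 ∧ P.DA.deg j ≤ [0, 0, 0, 0, 1].getD j 0 ∧
      P.NI.deg j ≤ [0, 0, 0, 1, 0].getD j 0 ∧ P.DI.deg j ≤ [0, 0, 0, 1, 0].getD j 0 ∧
      P.NU.deg j ≤ [0, 0, 1, 0, 0].getD j 0 ∧ P.DU.deg j ≤ [0, 0, 1, 0, 0].getD j 0 ∧
      P.NX.deg j ≤ [0, 1, 1, 1, 1].getD j 0 ∧ P.DX.deg j ≤ [0, 1, 0, 0, 0].getD j 0 ∧
      P.NE.deg j ≤ [1, 1, 1, 1, 1].getD j 0 ∧ P.DE.deg j ≤ [1, 0, 0, 0, 0].getD j 0 := by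
  simp only [degOk, all', Bool.and_eq_true, Nat.ble_eq] at h
  interval_cases j <;> simp_all

theorem ok_facts (h : P.degOk = true) :
    P.NA.ok 5 = true ∧ P.DA.ok 5 = true ∧ P.NI.ok 5 = true ∧ P.DI.ok 5 = true ∧
      P.NU.ok 5 = true ∧ P.DU.ok 5 = true ∧ P.NX.ok 5 = true ∧ P.DX.ok 5 = true ∧
      P.NE.ok 5 = true ∧ P.DE.ok 5 = true := by
  simp only [degOk, all', Bool.and_eq_true] at h
  simp_all

theorem ok_eE (h : P.degOk = true) (l : L5) : (P.eE l).ok 5 = true := by
  obtain ⟨a, b, c, d, e, f, g, i, j, k⟩ := ok_facts h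
  exact ok_horE (fun _ _ => ok_horE (fun _ _ => ok_horE (fun _ _ => ok_horE (fun _ _ =>
    ok_horE (fun _ _ => by simp [Ex.ok]) a b _ _) c d _ _) e f _ _) g i _ _) j k _ _

end Sub

theorem shpR_sound : ∀ {k : ℕ} {l : List (List (List (List ℤ)))}, shpR k l = true →
    l.length ≤ k + 1
  | _, [], _ => by simp
  | k, [b], _ => by simp
  | 0, _ :: _ :: _, h => by simp [shpR] at h
  | k + 1, b :: c :: l, h => by
    simp only [shpR, Bool.and_eq_true] at h
    simpa using shpR_sound h.2

theorem shp5_sound : ∀ {k : ℕ} {l : L5}, shp5 k l = true → l.length ≤ k + 1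
  | _, [], _ => by simp
  | k, [b], _ => by simp
  | 0, _ :: _ :: _, h => by simp [shp5] at h
  | k + 1, b :: c :: l, h => by
    simp only [shp5, Bool.and_eq_true] at h
    simpa using shp5_sound h.2

/-- The degree of a level whose shapes follow the remaining degree. -/
theorem deg_tri {α : Type} {fE : ℕ → α → Ex} {N D : Ex} {j g E : ℕ} {ok : ℕ → List α → Bool}
    {ok1 : ℕ → α → Bool} (hsplit : ∀ k c l, ok k (c :: l) = true → ok1 k c = true ∧
      (∀ d m, l = d :: m → 1 ≤ k ∧ ok (k - 1) l = true))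
    (hf : ∀ k c, ok1 k c = true → (fE k c).deg j + k * D.deg j ≤ g + k * E) (hN : N.deg j ≤ E) :
    ∀ (k : ℕ) (l : List α), ok k l = true → (horE fE N D k l).deg j ≤ g + k * E
  | k, [], _ => by simp [horE, Ex.deg]
  | k, [c], h => by
    simp only [horE, Ex.deg]
    exact hf k c (hsplit k c [] h).1
  | k, c :: d :: l, h => by
    obtain ⟨h1, h2⟩ := hsplit k c (d :: l) h
    obtain ⟨hk, h3⟩ := h2 d l rfl
    have a1 := hf k c h1
    have a2 := deg_tri hsplit hf hN (k - 1) (d :: l) h3
    obtain ⟨k, rfl⟩ : ∃ m, k = m + 1 := ⟨k - 1, by omega⟩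
    simp only [horE, Ex.deg, Nat.add_sub_cancel] at a2 ⊢
    simp only [Nat.add_mul, Nat.one_mul] at *
    omega

theorem real_tri {α : Type} {fE : ℕ → α → Ex} {N D : Ex} {t : ℕ → ℝ} {G : α → ℝ} {M y : ℝ}
    {ok : ℕ → List α → Bool} {ok1 : ℕ → α → Bool}
    (hsplit : ∀ k c l, ok k (c :: l) = true → ok1 k c = true ∧
      (∀ d m, l = d :: m → 1 ≤ k ∧ ok (k - 1) l = true))
    (hf : ∀ k c, ok1 k c = true → (fE k c).eval t = M ^ k * G c)
    (hN : N.eval t = y * (M * D.eval t)) :
    ∀ (k : ℕ) (l : List α), ok k l = true →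
      (horE fE N D k l).eval t = (M * D.eval t) ^ k * rpv G y l
  | k, [], _ => by simp [horE, rpv, Ex.eval]
  | k, [c], h => by
    simp only [horE, Ex.eval, hf k c (hsplit k c [] h).1, rpv]
    ring
  | k, c :: d :: l, h => by
    obtain ⟨h1, h2⟩ := hsplit k c (d :: l) h
    obtain ⟨hk, h3⟩ := h2 d l rfl
    have a2 := real_tri hsplit hf hN (k - 1) (d :: l) h3
    obtain ⟨k, rfl⟩ : ∃ m, k = m + 1 := ⟨k - 1, by omega⟩
    simp only [horE, Ex.eval, Nat.add_sub_cancel, hf _ c h1, hN, rpv] at a2 ⊢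
    rw [a2]
    ring

theorem split_R : ∀ k c l, shpR k (c :: l) = true → shpB k c = true ∧
    (∀ d m, l = d :: m → 1 ≤ k ∧ shpR (k - 1) l = true) := by
  rintro k c (_ | ⟨d, l⟩) h
  · exact ⟨by simpa [shpR] using h, fun d m e => absurd e (by simp)⟩
  · rcases k with _ | k
    · simp [shpR] at h
    · simp only [shpR, Bool.and_eq_true] at h
      exact ⟨h.1, fun _ _ _ => ⟨by omega, h.2⟩⟩

theorem split_5 : ∀ k c l, shp5 k (c :: l) = true → shpR (k + 2) c = true ∧
    (∀ d m, l = d :: m → 1 ≤ k ∧ shp5 (k - 1) l = true) := by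
  rintro k c (_ | ⟨d, l⟩) h
  · exact ⟨by simpa [shp5] using h, fun d m e => absurd e (by simp)⟩
  · rcases k with _ | k
    · simp [shp5] at h
    · simp only [shp5, Bool.and_eq_true] at h
      exact ⟨h.1, fun _ _ _ => ⟨by omega, h.2⟩⟩

namespace Sub

variable {P : Sub}

theorem deg_eE (h : P.degOk = true) {l : L5} (hl : shp5 4 l = true) {j : ℕ} (hj : j < 5) :
    (P.eE l).deg j ≤ dg j := by
  obtain ⟨nA, dA, nI, dI, nU, dU, nX, dX, nE, dE⟩ := deg_facts h hj
  have hw : ∀ m b, shpB m b = true →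
      (P.uE m b).deg j ≤ m * [0, 0, 1, 1, 1].getD j 0 := by
    intro m b hb
    simp only [shpB, Bool.and_eq_true, Nat.ble_eq] at hb
    obtain ⟨hb0, hb⟩ := hb
    have := deg_horE (fE := fun _ p => P.iE m p) (N := P.NU) (D := P.DU) (j := j)
      (g := m * [0, 0, 0, 1, 1].getD j 0) (E := [0, 0, 1, 0, 0].getD j 0)
      (S := fun p => (Nat.ble p.length (m + 1) && all' (fun r => Nat.ble r.length (m + 1)) p) = true)
      (fun k p hp => by
        simp only [Bool.and_eq_true, Nat.ble_eq] at hp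
        have := deg_horE (fE := fun _ r => P.aE m r) (N := P.NI) (D := P.DI) (j := j)
          (g := m * [0, 0, 0, 0, 1].getD j 0) (E := [0, 0, 0, 1, 0].getD j 0)
          (S := fun r => Nat.ble r.length (m + 1) = true)
          (fun k' r hr => by
            have := deg_horE (fE := fun _ c => Ex.num c) (N := P.NA) (D := P.DA) (j := j)
              (g := 0) (E := [0, 0, 0, 0, 1].getD j 0) (S := fun _ => True)
              (fun k'' c _ => by simpa [Ex.deg] using Nat.mul_le_mul_left k'' dA) nA m r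
              (fun _ _ => trivial) (Nat.le_of_ble_eq_true hr)
            have h2 := Nat.mul_le_mul_left k' dI
            simp only [aE] at this ⊢
            omega)
          nI m p (of_all' hp.2) hp.1
        have h2 := Nat.mul_le_mul_left k dU
        have e : m * [0, 0, 0, 0, 1].getD j 0 + m * [0, 0, 0, 1, 0].getD j 0 =
            m * [0, 0, 0, 1, 1].getD j 0 := by interval_cases j <;> simp
        simp only [iE] at this ⊢
        omega)
      nU m b (of_all' hb) hb0
    have e : m * [0, 0, 0, 1, 1].getD j 0 + m * [0, 0, 1, 0, 0].getD j 0 =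
        m * [0, 0, 1, 1, 1].getD j 0 := by interval_cases j <;> simp
    simp only [uE] at this ⊢
    omega
  have hx : ∀ k row, shpR (k + 2) row = true →
      (P.xE k row).deg j ≤ (k + 2) * [0, 1, 1, 1, 1].getD j 0 := by
    intro k row hr
    have := deg_tri (fE := P.uE) (N := P.NX) (D := P.DX) (j := j) (g := 0)
      (E := [0, 1, 1, 1, 1].getD j 0) (ok := shpR) (ok1 := shpB) split_R
      (fun m b hb => by
        have h1 := hw m b hb
        have h2 := Nat.mul_le_mul_left m dX
        have e : m * [0, 0, 1, 1, 1].getD j 0 + m * [0, 1, 0, 0, 0].getD j 0 =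
            m * [0, 1, 1, 1, 1].getD j 0 := by interval_cases j <;> simp
        omega) nX (k + 2) row hr
    simpa [xE] using this
  have := deg_tri (fE := P.xE) (N := P.NE) (D := P.DE) (j := j)
    (g := 2 * [0, 1, 1, 1, 1].getD j 0) (E := [1, 1, 1, 1, 1].getD j 0) (ok := shp5)
    (ok1 := fun k row => shpR (k + 2) row) split_5
    (fun k row hr => by
      have h1 := hx k row hr
      have h2 := Nat.mul_le_mul_left k dE
      have e : (k + 2) * [0, 1, 1, 1, 1].getD j 0 + k * [1, 0, 0, 0, 0].getD j 0 =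
          2 * [0, 1, 1, 1, 1].getD j 0 + k * [1, 1, 1, 1, 1].getD j 0 := by
        interval_cases j <;> simp <;> omega
      omega) nE 4 l hl
  refine le_trans this ?_
  interval_cases j <;> simp [dg]

theorem getD_facts (P : Sub) (t : ℕ → ℤ) (sur : ℕ → L5) {k : ℕ} (hk : k < 16) :
    (P.vals t sur).getD k 0 = P.valAt t (sur k) ∧ (P.bds sur).getD k 0 = P.bd (sur k) ∧
      (shps sur).getD k false = shp5 4 (sur k) := by
  interval_cases k <;> exact ⟨rfl, rfl, rfl⟩

theorem cmb_facts {sur : ℕ → L5} (hd : P.degOk = true) (t : ℕ → ℤ) : ∀ {ts : List (ℤ × ℕ)},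
    all' (fun t : ℤ × ℕ => Nat.blt t.2 16 && (shps sur).getD t.2 false) ts = true →
    (P.cmbE sur ts).ok 5 = true ∧ (∀ j < 5, (P.cmbE sur ts).deg j ≤ dg j) ∧
      (P.cmbE sur ts).eval t = cmbV (P.vals t sur) ts ∧
      bound (fun _ => idChart) 5 (P.cmbE sur ts) = cmbB (P.bds sur) ts
  | [], _ => by
    simp [cmbE, Ex.ok, Ex.deg, Ex.eval, bound, cmbV, cmbB]
  | s :: ts, h => by
    simp only [all', Bool.and_eq_true] at h
    obtain ⟨⟨hk, hs⟩, h⟩ := h
    have hk : s.2 < 16 := by simpa [Nat.blt] using hk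
    obtain ⟨g1, g2, g3⟩ := getD_facts P t sur hk
    obtain ⟨i1, i2, i3, i4⟩ := cmb_facts hd t h
    rw [g3] at hs
    refine ⟨?_, fun j hj => ?_, ?_, ?_⟩
    · simp [cmbE, Ex.ok, ok_eE hd, i1]
    · have := deg_eE hd hs hj
      have := i2 j hj
      simp only [cmbE, Ex.deg]
      omega
    · simp only [cmbE, Ex.eval, i3, eval_eE, cmbV, g1]
      simp
    · simp only [cmbE, bound, i4, bound_eE, cmbB, g2]
      simp [denB, prodTo, idChart]

/-- **The test bounds the value from below.** -/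
theorem le_of_check {K : ℕ} {sur : ℕ → L5} {c : ℤ} {l : List (ℤ × ℕ)}
    (h : P.check K sur c l = true) {t : ℕ → ℝ} (ht : ∀ i < 5, 0 ≤ t i) :
    (c : ℝ) * P.scE.eval t ≤ (P.cmbE sur l).eval t := by
  simp only [check, Bool.and_eq_true, decide_eq_true_eq, maskLong_eq] at h
  obtain ⟨⟨⟨⟨⟨⟨hd, hs⟩, hK⟩, hsd⟩, hb⟩, hv⟩, hm⟩ := h
  obtain ⟨oC, dC, vC, bC⟩ := cmb_facts hd (base K 5 dg) hs
  have hdeg : ∀ i < 5, (P.topE sur c l).deg i = dg i := fun i hi => by
    have h1 := Nat.eq_of_beq_eq_true (of_all' hsd i (by interval_cases i <;> simp))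
    have h2 := dC i hi
    simp only [topE, Ex.deg]
    omega
  obtain ⟨a, b, c', d, e, f, g, i, j, k⟩ := ok_facts hd
  have hok : (P.topE sur c l).ok 5 = true := by
    simp [topE, scE, Ex.ok, oC, a, b, c', d, e, f, g, i, j, k]
  have hbound : bound (fun _ => idChart) 5 (P.topE sur c l) =
      cmbB (P.bds sur) l + c.natAbs * bound (fun _ => idChart) 5 P.scE := by
    simp only [topE, bound, bC]
    simp [denB, prodTo, idChart]
  have h0 := nonneg_fast (e := P.topE sur c l) hok hK hdeg (hbound ▸ le_refl _) hb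
    (show (P.topE sur c l).eval (base K 5 dg) = _ by simp [topE, Ex.eval, vC]) hv hm ht
  simp only [topE, Ex.eval] at h0
  linarith

/-- The value of the list at the point with coordinates `y`. -/
noncomputable def lval (yA yI yU yX yE : ℝ) (l : L5) : ℝ :=
  rpv (rpv (rpv (rpv (rpv (fun c : ℤ => (c : ℝ)) yA) yI) yU) yX) yE l

theorem real_eE {t : ℕ → ℝ} {yA yI yU yX yE : ℝ} {l : L5} (hl : shp5 4 l = true)
    (hA : P.NA.eval t = yA * P.DA.eval t) (hI : P.NI.eval t = yI * P.DI.eval t)
    (hU : P.NU.eval t = yU * P.DU.eval t)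
    (hX : P.NX.eval t = yX * (P.DA.eval t * P.DI.eval t * P.DU.eval t * P.DX.eval t))
    (hE : P.NE.eval t = yE *
      (P.DA.eval t * P.DI.eval t * P.DU.eval t * P.DX.eval t * P.DE.eval t)) :
    (P.eE l).eval t = P.scE.eval t * lval yA yI yU yX yE l := by
  set dA := P.DA.eval t
  set dI := P.DI.eval t
  set dU := P.DU.eval t
  have hu : ∀ m b, shpB m b = true → (P.uE m b).eval t =
      (dA * dI * dU) ^ m * rpv (rpv (rpv (fun c : ℤ => (c : ℝ)) yA) yI) yU b := by
    intro m b hb
    simp only [shpB, Bool.and_eq_true, Nat.ble_eq] at hb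
    rw [uE, real_horE (M := 1) (y := yU)
      (G := fun p => (dA * dI) ^ m * rpv (rpv (fun c : ℤ => (c : ℝ)) yA) yI p)
      (S := fun p => (Nat.ble p.length (m + 1) && all' (fun r => Nat.ble r.length (m + 1)) p) = true)
      (fun k p hp => by
        simp only [Bool.and_eq_true, Nat.ble_eq] at hp
        rw [iE, real_horE (M := 1) (y := yI) (G := fun r => dA ^ m * rpv (fun c : ℤ => (c : ℝ)) yA r)
          (S := fun r => Nat.ble r.length (m + 1) = true)
          (fun k' r hr => by
            rw [aE, real_horE (M := 1) (y := yA) (G := fun c : ℤ => (c : ℝ)) (S := fun _ => True)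
              (fun k'' c _ => by simp [Ex.eval]) (by rw [hA, one_mul]) m r (fun _ _ => trivial)
              (Nat.le_of_ble_eq_true hr)]
            ring)
          (by rw [hI, one_mul]) m p (of_all' hp.2) hp.1, rpv_mul]
        ring)
      (by rw [hU, one_mul]) m b (of_all' hb.2) hb.1, rpv_mul]
    ring
  rw [eE, real_tri (fE := P.xE) (M := dA * dI * dU * P.DX.eval t) (y := yE) (ok := shp5)
    (ok1 := fun k row => shpR (k + 2) row) split_5
    (G := fun row => (dA * dI * dU * P.DX.eval t) ^ 2 *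
      rpv (rpv (rpv (rpv (fun c : ℤ => (c : ℝ)) yA) yI) yU) yX row)
    (fun k row hr => by
      rw [xE, real_tri (fE := P.uE) (M := dA * dI * dU) (y := yX) (ok := shpR) (ok1 := shpB) split_R
        hu hX (k + 2) row hr]
      ring)
    hE 4 l hl, rpv_mul]
  simp only [scE, Ex.eval, lval]
  ring

end Sub

end Vale.Agent.P100.Calib.MidTail
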