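import Mathlib

/-!
# Reduced numerators of the closed forms in `(η, X, u, I, a)`, part one

In `X = d v`, `η = 1 - d H`; the nesting is `η, X, u, I, a`.
-/

namespace Vale.Agent.P100.Calib.MidTail

/-- The reduced numerator of `TMM`, the coefficient of `η ^ 0 X ^ 0`. -/
def numMM_0_0 : List (List (List ℤ)) :=
  [[[10], [8, 0, (-16)], [(-24)]], [[(-10)]]]

/-- The reduced numerator of `TMM`, the coefficient of `η ^ 0 X ^ 1`. -/
def numMM_0_1 : List (List (List ℤ)) :=
  [[[], [8, 0, (-16)], [(-24)]]]

/-- The reduced numerator of `TMM`, the coefficient of `η ^ 0`. -/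
def numMM_0 : List (List (List (List ℤ))) :=
  [numMM_0_0, numMM_0_1]

/-- The reduced numerator of `TMM`, the coefficient of `η ^ 1 X ^ 0`. -/
def numMM_1_0 : List (List (List ℤ)) :=
  [[[(-10)], [(-8), 0, 16], [24]], [[20]]]

/-- The reduced numerator of `TMM`, the coefficient of `η ^ 1 X ^ 1`. -/
def numMM_1_1 : List (List (List ℤ)) :=
  [[[], [(-8), 0, 16], [24]]]

/-- The reduced numerator of `TMM`, the coefficient of `η ^ 1`. -/
def numMM_1 : List (List (List (List ℤ))) :=
  [numMM_1_0, numMM_1_1]

/-- The reduced numerator of `TMM`, the coefficient of `η ^ 2 X ^ 0`. -/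
def numMM_2_0 : List (List (List ℤ)) :=
  [[], [[(-10)]]]

/-- The reduced numerator of `TMM`, the coefficient of `η ^ 2 X ^ 1`. -/
def numMM_2_1 : List (List (List ℤ)) :=
  []

/-- The reduced numerator of `TMM`, the coefficient of `η ^ 2`. -/
def numMM_2 : List (List (List (List ℤ))) :=
  [numMM_2_0, numMM_2_1]

/-- The reduced numerator of `TMM`. -/
def numMM : List (List (List (List (List ℤ)))) :=
  [numMM_0, numMM_1, numMM_2]

/-- The reduced numerator of `TME`, the coefficient of `η ^ 0 X ^ 0`. -/
def numME_0_0 : List (List (List ℤ)) :=
  [[], [[0, (-40)], [(-80), 208, 0, 64], [256, (-32), 128, (-384)], [128, (-832), (-512), 512], [(-1024), 768, 512], [768]], [[0, 80], [120, (-368), 0, (-64)], [(-448), 256, (-64), 256], [256, 512, 256, (-256)], [512, (-384), (-256)], [(-384)]], [[0, (-40)], [(-40), 160], [160, (-160)], [(-160)]]]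

/-- The reduced numerator of `TME`, the coefficient of `η ^ 0 X ^ 1`. -/
def numME_0_1 : List (List (List ℤ)) :=
  [[[0, (-16), 32, (-16)], [(-64), 304, (-352), 112], [448, (-1248), 832, (-96)], [(-1152), 1856, (-512)], [1280, (-896)], [(-512)]], [[0, (-76), (-48), 24], [(-80), (-16), 512, 56], [(-96), 1984, (-800), (-1072)], [2064, (-4896), (-1072), 1664], [(-4576), 3008, 2016], [3008, 384], [(-128)]], [[20, 152, 16, (-8)], [132, (-544), (-200), (-104)], [(-672), (-208), 352, 592], [184, 1968, 408, (-704)], [1520, (-1088), (-880)], [(-1184), (-192)], [64]], [[(-20), (-60)], [20, 240], [160, (-240)], [(-240)]]]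

/-- The reduced numerator of `TME`, the coefficient of `η ^ 0 X ^ 2`. -/
def numME_0_2 : List (List (List ℤ)) :=
  [[[16, (-64), 80, (-32)], [(-176), 576, (-560), 160], [736, (-1792), 1120, (-128)], [(-1472), 2304, (-640)], [1408, (-1024)], [(-512)]], [[(-36), (-4), (-104), 44], [196, (-540), 768, 44], [(-880), 3176, (-1104), (-1208)], [3096, (-5920), (-1224), 1856], [(-5264), 3232, 2384], [3296, 576], [(-192)]], [[54, 80, 28, (-12)], [(-108), (-172), (-268), (-60)], [(-152), (-632), 520, 456], [(-56), 1824, 184, (-576)], [1200, (-928), (-752)], [(-992), (-192)], [64]], [[(-30), (-20)], [100, 80], [(-40), (-80)], [(-80)]]]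

/-- The reduced numerator of `TME`, the coefficient of `η ^ 0 X ^ 3`. -/
def numME_0_3 : List (List (List ℤ)) :=
  [[[16, (-52), 56, (-20)], [(-128), 348, (-296), 76], [400, (-856), 496, (-56)], [(-608), 912, (-256)], [448, (-352)], [(-128)]], [[(-46), 36, (-64), 24], [268, (-440), 368, 40], [(-796), 1720, (-396), (-608)], [1756, (-2696), (-740), 864], [(-2376), 1280, 1144], [1296, 352], [(-32)]], [[44, 8, 12, (-4)], [(-164), 20, (-88), (-12)], [134, (-236), 158, 112], [(-18), 428, 38, (-144)], [188, (-160), (-196)], [(-152), (-80)], [(-16)]], [[(-10)], [40], [(-40)]]]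

/-- The reduced numerator of `TME`, the coefficient of `η ^ 0 X ^ 4`. -/
def numME_0_4 : List (List (List ℤ)) :=
  [[[4, (-12), 12, (-4)], [(-28), 68, (-52), 12], [72, (-136), 72, (-8)], [(-80), 112, (-32)], [32, (-32)]], [[(-14), 12, (-12), 4], [80, (-100), 56, 12], [(-206), 316, (-30), (-112)], [354, (-428), (-166), 144], [(-380), 160, 196], [152, 80], [16]], [[10], [(-40)], [40]]]

/-- The reduced numerator of `TME`, the coefficient of `η ^ 0`. -/
def numME_0 : List (List (List (List ℤ))) :=
  [numME_0_0, numME_0_1, numME_0_2, numME_0_3, numME_0_4]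

/-- The reduced numerator of `TME`, the coefficient of `η ^ 1 X ^ 0`. -/
def numME_1_0 : List (List (List ℤ)) :=
  [[], [[40, (-40)], [(-128), 48, (-64), 64], [(-64), 160, 256, (-128)], [512, (-192), (-256)], [(-384)]], [[(-40), (-40)], [40, 288, 0, 64], [288, (-256), 64, (-256)], [(-256), (-512), (-256), 256], [(-512), 384, 256], [384]], [[0, 80], [80, (-320)], [(-320), 320], [320]]]

/-- The reduced numerator of `TME`, the coefficient of `η ^ 1 X ^ 1`. -/
def numME_1_1 : List (List (List ℤ)) :=
  [[[16, (-48), 48, (-16)], [(-80), 144, (-48), (-16)], [64, 96, (-192), 32], [256, (-576), 192], [(-512), 384], [256]], [[52, (-60), 24, (-16)], [(-200), 392, (-648), 336], [192, (-1328), 1920, (-480)], [(-208), 2112, (-1200), (-128)], [800, (-896), (-480)], [(-832), (-384)], [128]], [[(-80), (-84), (-32), 16], [132, 288, 368, 48], [272, 736, (-736), (-544)], [208, (-2656), (-304), 768], [(-1952), 1216, 1120], [1408, 384], [(-128)]], [[40, 120], [(-40), (-480)], [(-320), 480], [480]]]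

/-- The reduced numerator of `TME`, the coefficient of `η ^ 1 X ^ 2`. -/
def numME_1_2 : List (List (List ℤ)) :=
  [[[16, (-48), 48, (-16)], [(-80), 144, (-48), (-16)], [64, 96, (-192), 32], [256, (-576), 192], [(-512), 384], [256]], [[32, (-84), 92, (-40)], [(-196), 696, (-916), 376], [496, (-2144), 2208, (-464)], [(-824), 2736, (-1128), (-192)], [1104, (-832), (-720)], [(-864), (-576)], [192]], [[(-78), (-40), (-56), 24], [240, (-72), 488, (-8)], [(-160), 1296, (-976), (-400)], [528, (-2624), (-48), 640], [(-1664), 1088, 992], [1216, 384], [(-128)]], [[60, 40], [(-200), (-160)], [80, 160], [160]]]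

/-- The reduced numerator of `TME`, the coefficient of `η ^ 1 X ^ 3`. -/
def numME_1_3 : List (List (List ℤ)) :=
  [[[4, (-12), 12, (-4)], [(-20), 36, (-12), (-4)], [16, 24, (-48), 8], [64, (-144), 48], [(-128), 96], [64]], [[16, (-56), 64, (-24)], [(-128), 424, (-448), 152], [380, (-1128), 908, (-160)], [(-524), 1160, (-348), (-96)], [360, (-128), (-376)], [(-144), (-352)], [32]], [[(-48), 4, (-24), 8], [196, (-104), 160, (-8)], [(-228), 440, (-284), (-96)], [132, (-600), (-12), 160], [(-216), 128, 264], [112, 160], [32]], [[20], [(-80)], [80]]]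

/-- The reduced numerator of `TME`, the coefficient of `η ^ 1 X ^ 4`. -/
def numME_1_4 : List (List (List ℤ)) :=
  [[], [[4, (-12), 12, (-4)], [(-32), 84, (-72), 20], [94, (-204), 126, (-16)], [(-114), 172, (-26), (-16)], [28, 32, (-68)], [40, (-80)], [(-16)]], [[(-10)], [40], [(-40)]]]

/-- The reduced numerator of `TME`, the coefficient of `η ^ 1`. -/
def numME_1 : List (List (List (List ℤ))) :=
  [numME_1_0, numME_1_1, numME_1_2, numME_1_3, numME_1_4]

/-- The reduced numerator of `TME`, the coefficient of `η ^ 2 X ^ 0`. -/
def numME_2_0 : List (List (List ℤ)) :=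
  [[], [], [[40, (-40)], [(-160), 80], [160]], [[0, (-40)], [(-40), 160], [160, (-160)], [(-160)]]]

/-- The reduced numerator of `TME`, the coefficient of `η ^ 2 X ^ 1`. -/
def numME_2_1 : List (List (List ℤ)) :=
  [[], [[8, (-24), 24, (-8)], [(-40), 72, (-24), (-8)], [32, 48, (-96), 16], [128, (-288), 96], [(-256), 192], [128]], [[60, (-68), 16, (-8)], [(-264), 256, (-168), 56], [400, (-528), 384, (-48)], [(-392), 688, (-104), (-64)], [432, (-128), (-240)], [(-224), (-192)], [64]], [[(-20), (-60)], [20, 240], [160, (-240)], [(-240)]]]

/-- The reduced numerator of `TME`, the coefficient of `η ^ 2 X ^ 2`. -/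
def numME_2_2 : List (List (List ℤ)) :=
  [[], [[4, (-12), 12, (-4)], [(-20), 36, (-12), (-4)], [16, 24, (-48), 8], [64, (-144), 48], [(-128), 96], [64]], [[24, (-40), 28, (-12)], [(-132), 244, (-220), 68], [312, (-664), 456, (-56)], [(-472), 800, (-136), (-64)], [464, (-160), (-240)], [(-224), (-192)], [64]], [[(-30), (-20)], [100, 80], [(-40), (-80)], [(-80)]]]

/-- The reduced numerator of `TME`, the coefficient of `η ^ 2 X ^ 3`. -/
def numME_2_3 : List (List (List ℤ)) :=
  [[], [], [[4, (-12), 12, (-4)], [(-32), 84, (-72), 20], [94, (-204), 126, (-16)], [(-114), 172, (-26), (-16)], [28, 32, (-68)], [40, (-80)], [(-16)]], [[(-10)], [40], [(-40)]]]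

/-- The reduced numerator of `TME`, the coefficient of `η ^ 2 X ^ 4`. -/
def numME_2_4 : List (List (List ℤ)) :=
  []

/-- The reduced numerator of `TME`, the coefficient of `η ^ 2`. -/
def numME_2 : List (List (List (List ℤ))) :=
  [numME_2_0, numME_2_1, numME_2_2, numME_2_3, numME_2_4]

/-- The reduced numerator of `TME`. -/
def numME : List (List (List (List (List ℤ)))) :=
  [numME_0, numME_1, numME_2]

/-- The reduced numerator of `LLG`, the coefficient of `η ^ 0 X ^ 0`. -/
def numLG_0_0 : List (List (List ℤ)) :=
  [[[], [200, (-200)], [(-640), 240, (-320), 320], [(-320), 800, 1280, (-640)], [2560, (-960), (-1280)], [(-1920)]], [[], [(-400), 400], [1440, (-440), 320, (-320)], [(-480), (-640), (-1280), 320], [(-2560), 480, 1280], [1920]], [[], [200, (-200)], [(-800), 200], [800]]]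

/-- The reduced numerator of `LLG`, the coefficient of `η ^ 0 X ^ 1`. -/
def numLG_0_1 : List (List (List ℤ)) :=
  [[[40, (-80), 40], [60, 20, (-80)], [(-360), (-200), (-520), 640], [(-1640), 2560, 2040, (-1280)], [5680, (-3680), (-2000)], [(-4000), 960], [(-320)]], [[(-121), 170, (-120), 40], [(-70), (-20), 340, (-160)], [1124, 340, 600, (-600)], [1340, (-2040), (-3260), 560], [(-7000), 1200, 3320], [4400, 160], [480]], [[81, (-50)], [50, (-200)], [(-1124), 200], [1400]]]

/-- The reduced numerator of `LLG`, the coefficient of `η ^ 0 X ^ 2`. -/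
def numLG_0_2 : List (List (List ℤ)) :=
  [[[60, (-120), 60], [(-260), 380, (-120)], [580, (-720), (-220), 400], [(-1900), 2440, 820, (-800)], [4040, (-3840), (-760)], [(-2640), 1440], [(-480)]], [[(-188), 255, (-180), 60], [680, (-690), 490, (-320)], [(-1078), 1000, 560, (-220)], [3120, (-1200), (-3260), 200], [(-6160), 0, 3240], [3200, 640], [800]], [[128, (-75)], [(-350), 50], [(-112), (-50)], [600]]]

/-- The reduced numerator of `LLG`, the coefficient of `η ^ 0 X ^ 3`. -/
def numLG_0_3 : List (List (List ℤ)) :=
  [[[20, (-40), 20], [(-120), 160, (-40)], [320, (-360), 80, 40], [(-710), 1100, (-310), (-80)], [1220, (-1840), 300], [(-840), 880], [(-80)]], [[(-70), 85, (-60), 20], [350, (-250), 150, (-200)], [(-760), 160, 230, 160], [1365, 150, (-1095), (-160)], [(-1870), (-480), 1030], [860, 280], [280]], [[50, (-25)], [(-200), 50], [200, (-50)]]]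

/-- The reduced numerator of `LLG`, the coefficient of `η ^ 0 X ^ 4`. -/
def numLG_0_4 : List (List (List ℤ)) :=
  [[[], [], [10, (-40), 50, (-20)], [(-65), 210, (-185), 40], [150, (-360), 170], [(-140), 200], [40]], [[], [0, 20, 0, (-40)], [0, (-100), 0, 80], [0, 160, 0, (-80)], [0, (-120)]]]

/-- The reduced numerator of `LLG`, the coefficient of `η ^ 0`. -/
def numLG_0 : List (List (List (List ℤ))) :=
  [numLG_0_0, numLG_0_1, numLG_0_2, numLG_0_3, numLG_0_4]

/-- The reduced numerator of `LLG`, the coefficient of `η ^ 1 X ^ 0`. -/
def numLG_1_0 : List (List (List ℤ)) :=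
  [[], [[], [200, (-200)], [(-800), 400], [800]], [[], [(-200), 200], [800, (-200)], [(-800)]]]

/-- The reduced numerator of `LLG`, the coefficient of `η ^ 1 X ^ 1`. -/
def numLG_1_1 : List (List (List ℤ)) :=
  [[], [[46, (-120), 120, (-40)], [40, 260, (-380), 80], [(-604), (-340), 440, (-40)], [660, 760, (-420), 80], [(-280), (-240), 200], [880, (-160)], [(-480)]], [[(-87), 50], [(-50), 200], [1148, (-200)], [(-1400)]]]

/-- The reduced numerator of `LLG`, the coefficient of `η ^ 1 X ^ 2`. -/
def numLG_1_2 : List (List (List ℤ)) :=
  [[], [[63, (-180), 180, (-60)], [(-290), 740, (-570), 120], [498, (-1130), 560, (-20)], [(-280), 720, (-260), 40], [(-720), 360, (-40)], [1600, (-640)], [(-800)]], [[(-131), 75], [350, (-50)], [124, 50], [(-600)]]]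

/-- The reduced numerator of `LLG`, the coefficient of `η ^ 1 X ^ 3`. -/
def numLG_1_3 : List (List (List ℤ)) :=
  [[], [[20, (-60), 60, (-20)], [(-130), 280, (-190), 40], [300, (-430), 170], [(-205), 170, (-25)], [(-290), 240, (-70)], [580, (-280)], [(-280)]], [[(-50), 25], [200, (-50)], [(-200), 50]]]

/-- The reduced numerator of `LLG`, the coefficient of `η ^ 1 X ^ 4`. -/
def numLG_1_4 : List (List (List ℤ)) :=
  []

/-- The reduced numerator of `LLG`, the coefficient of `η ^ 1`. -/
def numLG_1 : List (List (List (List ℤ))) :=
  [numLG_1_0, numLG_1_1, numLG_1_2, numLG_1_3, numLG_1_4]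

/-- The reduced numerator of `LLG`, the coefficient of `η ^ 2 X ^ 0`. -/
def numLG_2_0 : List (List (List ℤ)) :=
  []

/-- The reduced numerator of `LLG`, the coefficient of `η ^ 2 X ^ 1`. -/
def numLG_2_1 : List (List (List ℤ)) :=
  [[], [], [[6], [], [(-24)]]]

/-- The reduced numerator of `LLG`, the coefficient of `η ^ 2 X ^ 2`. -/
def numLG_2_2 : List (List (List ℤ)) :=
  [[], [], [[3], [], [(-12)]]]

/-- The reduced numerator of `LLG`, the coefficient of `η ^ 2 X ^ 3`. -/
def numLG_2_3 : List (List (List ℤ)) :=
  []

/-- The reduced numerator of `LLG`, the coefficient of `η ^ 2 X ^ 4`. -/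
def numLG_2_4 : List (List (List ℤ)) :=
  []

/-- The reduced numerator of `LLG`, the coefficient of `η ^ 2`. -/
def numLG_2 : List (List (List (List ℤ))) :=
  [numLG_2_0, numLG_2_1, numLG_2_2, numLG_2_3, numLG_2_4]

/-- The reduced numerator of `LLG`. -/
def numLG : List (List (List (List (List ℤ)))) :=
  [numLG_0, numLG_1, numLG_2]

/-- The reduced numerator of `TEG`, the coefficient of `η ^ 0 X ^ 0`. -/
def numEG_0_0 : List (List (List ℤ)) :=
  [[[], [0, 5120, (-20480), 25600, (-10240)], [10240, (-107520), 266240, (-230400), 61440], [(-112640), 696320, (-1167360), 655360, (-92160)], [512000, (-2109440), 2314240, (-737280), 40960], [(-1228800), 3317760, (-2129920), 286720], [1638400, (-2621440), 737280], [(-1146880), 819200], [327680]], [[], [0, (-7680), 30720, (-38400), 15360], [(-10240), 130560, (-332800), 284160, (-71680)], [112640, (-778240), 1326080, (-727040), 97280], [(-512000), 2252800, (-2478080), 768000, (-40960)], [1228800, (-3440640), 2191360, (-286720)], [(-1638400), 2662400, (-737280)], [1146880, (-819200)], [(-327680)]], [[], [0, 2560, (-10240), 12800, (-5120)], [2560, (-38400),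 99840, (-84480), 20480], [(-28160), 215040, (-371200), 199680, (-25600)], [128000, (-599040), 660480, (-199680), 10240], [(-307200), 890880, (-563200), 71680], [409600, (-675840), 184320], [(-286720), 204800], [81920]]]

/-- The reduced numerator of `TEG`, the coefficient of `η ^ 0 X ^ 1`. -/
def numEG_0_1 : List (List (List ℤ)) :=
  [[[0, (-896), 7040, (-12800), 5120], [(-6912), 69760, (-231040), 258560, (-88320)], [123136, (-892416), 1957120, (-1507840), 352000], [(-923648), 4755456, (-7024640), 3368960, (-330240)], [3661824, (-12941312), 12026880, (-2641920), (-143360)], [(-8241152), 18718720, (-8919040), (-337920), 204800], [10547200, (-13127680), 778240, 962560], [(-7127040), 2580480, 1556480], [1966080, 901120]], [[0, (-320), (-8960), 19200, (-7680)], [1024, (-42048), 253440, (-316160), 112640], [(-49152), 706048, (-1998080), 1616640, (-384000)], [562176, (-4125696), 6846720, (-3338240), 360960], [(-2746368), 11636224, (-11279360), 2462720, 81920], [6897664, (-16957440), 7951360, 399360, (-163840)], [(-9338880), 11724800, (-348160), (-921600)], [6471680, (-2109440), (-1556480)], [(-1802240),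 (-901120)]], [[0, 2048, 1920, (-6400), 2560], [2880, (-17408), (-62080), 90880, (-34560)], [(-26560), (-35584), 483840, (-421120), 108800], [38400, 677376, (-1615360), 814080, (-107520)], [281600, (-2387200), 2580480, (-565760)], [(-1228800), 3717120, (-1725440), (-115200), 30720], [1981440, (-2570240), (-20480), 220160], [(-1454080), 409600, 389120], [409600, 225280]], [[0, (-832)], [(-832), 10176], [10176, (-44288)], [(-44288), 88064], [88064, (-79872)], [(-79872), 25600], [25600]]]

/-- The reduced numerator of `TEG`, the coefficient of `η ^ 0 X ^ 2`. -/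
def numEG_0_2 : List (List (List ℤ)) :=
  [[[2560, (-11136), 39680, (-59520), 23040], [(-52352), 321920, (-837120), 845440, (-270080)], [492928, (-2962048), 5624320, (-3943680), 856320], [(-2772352), 13166208, (-17210880), 7363840, (-609280)], [9600000, (-31766016), 25425920, (-4225280), (-419840)], [(-20183552), 41494016, (-14471680), (-2114560), 143360], [24738816, (-25072640), (-3353600), 1735680, 245760], [(-15882240), 1515520, 4843520, 675840], [3686400, 3379200, 471040], [450560, 163840], [(-81920)]], [[(-2112), (-2080), (-30720), 68160, (-28160)], [17344, (-116896), 672000, (-816960), 284160], [(-109056), 1730240, (-4537600), 3448320, (-814080)], [958464, (-9174976), 13745920, (-6026880), 634880], [(-4966400), 23878656, (-19741440), 3196800, 204800], [13209088, (-31854592), 10224640, 1761280, (-92160)], [(-18394112), 18652160, 3758080, (-1139200), (-163840)], [12554240, (-220160), (-4055040), (-696320)], [(-2908160), (-2949120), (-471040)], [(-450560), (-163840)], [81920]], [[1248, 10880, 2560, (-17600), 7680], [2880, (-89408), (-106560), 180800, (-72960)], [(-111520), 103488, 805120,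 (-688640), 203520], [463520, 1004864, (-2496320), 1107200, (-184320)], [(-459520), (-4041216), 3510400, (-496000)], [(-1062016), 5973120, (-1582720), (-375040), 20480], [2901760, (-3372800), (-979200), 145920, 20480], [(-2373120), (-202240), 816640, 179200], [552960, 629760, 117760], [112640, 40960], [(-20480)]], [[(-416), (-4064)], [448, 37984], [25248, (-131200)], [(-144352), 194304], [325760, (-80384)], [(-337920), (-70144)], [142336, 51200], [(-12800)]]]

/-- The reduced numerator of `TEG`, the coefficient of `η ^ 0 X ^ 3`. -/
def numEG_0_3 : List (List (List ℤ)) :=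
  [[[8192, (-34656), 92000, (-117760), 44160], [(-127936), 674208, (-1475360), 1353600, (-410560)], [922944, (-4986752), 8352320, (-5364480), 1106880], [(-4157440), 18990464, (-22164480), 8663040, (-796800)], [12417024, (-40357888), 27756800, (-4218880), 199680], [(-23834368), 46145280, (-10140160), (-1116160), (-1187840)], [27207680, (-21486080), (-8949760), (-1418240), 942080], [(-15462400), (-4510720), 5529600, 2549760], [1495040, 5212160, 1761280], [1863680, 696320], [(-327680)]], [[(-6368), (-192), (-45760), 96800, (-40960)], [56416, (-219328), 871680, (-981920), 339840], [(-211584), 2489632, (-5240000), 3575360, (-855680)], [871424, (-11281696), 14042560, (-5374400), 664320], [(-4009088), 25623296, (-16843520), 2495680, (-222720)], [11150848, (-28932352), 4334080, (-192000), 721920], [(-15974912), 11133440, 7390720, 2640640, (-532480)], [10209280, 5537280, (-3558400), (-2447360)], [(-788480), (-4014080), (-1484800)], [(-1597440), (-614400)], [286720]], [[4128, 17408, (-320), (-17120), 8320], [(-16704), (-114400), (-83840), 144800, (-66240)], [(-104512), 36768, 665280, (-446400), 167360],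 [753792, 1433184, (-1904000), 535680, (-146560)], [(-1550784), (-4470592), 2173760, (-150720), 42240], [747200, 5159488, (-167680), 256640, (-69120)], [1312768, (-1406080), (-1392640), (-881920), 51200], [(-1505280), (-1486080), 496640, 581120], [92160, 755200, 302080], [332800, 133120], [(-61440)]], [[(-1632), (-6240)], [9984, 48960], [2112, (-128448)], [(-148416), 75648], [437568, 209664], [(-531840), (-354816)], [271104, 153600], [(-38400)]]]

/-- The reduced numerator of `TEG`, the coefficient of `η ^ 0 X ^ 4`. -/
def numEG_0_4 : List (List (List ℤ)) :=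
  [[[8704, (-40640), 100960, (-120160), 44800], [(-128416), 672576, (-1364960), 1176480, (-342400)], [823936, (-4391488), 6807680, (-4063360), 802560], [(-3167616), 14892480, (-15895360), 5832960, (-766080)], [8104832, (-27863296), 16317440, (-3326720), 1372160], [(-13632256), 26302720, (-1386240), 2995200, (-2723840)], [13371392, (-5752320), (-8688640), (-6272000), 1474560], [(-4823040), (-8611840), 1904640, 3962880], [(-2938880), 3799040, 2785280], [2887680, 1269760], [(-491520)]], [[(-6752), 2976, (-35200), 68160, (-29440)], [69696, (-229952), 607040, (-598240), 207040], [(-264128), 2130192, (-3322240), 1869920, (-456320)], [594240, (-8234832), 7871360, (-2480800), 425920], [(-1554368), 15569728, (-7336320), 2093600, (-706560)], [4110592, (-12534784), (-1208960), (-4410880), 1318400], [(-6070528), (-1707520), 5515520, 6915200, (-675840)], [3169280, 8536320, (-540160), (-3517440)], [1489920, (-2744320), (-1879040)], [(-1904640), (-962560)], [348160]], [[4704, 11552, (-640), (-7040), 3840], [(-32080), (-41344), (-47840), 44960, (-25920)], [10808, (-247792), 369200, (-79360), 55680], [413368,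 1713360, (-967760), 17600, (-44480)], [(-1268640), (-3679328), 892960, (-239840), 48000], [1330080, 2846112, 243360, 1213760, (-94720)], [(-91328), 697920, (-713920), (-1704320), 46080], [(-535680), (-1962880), (-17280), 753920], [(-43520), 513280, 282880], [268800, 174080], [(-56320)]], [[(-2016), (-3808)], [15600, 24160], [(-34376), (-29792)], [(-25512), (-117248)], [218336, 399616], [(-336896), (-439808)], [201984, 166400], [(-35200)]]]

/-- The reduced numerator of `TEG`, the coefficient of `η ^ 0 X ^ 5`. -/
def numEG_0_5 : List (List (List ℤ)) :=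
  [[[3008, (-18656), 52160, (-64000), 24800], [(-49440), 304992, (-640640), 548320, (-156000)], [312448, (-1912544), 2929600, (-1668640), 318720], [(-1067264), 6027904, (-6109760), 2255680, (-516480)], [2219072, (-9857152), 4875840, (-2365440), 1596160], [(-2718592), 6492800, 1488000, 4960640, (-2572800)], [1090048, 2717440, (-3078400), (-6890240), 1208320], [2135040, (-5593600), (-1676800), 3266560], [(-3599360), 701440, 2416640], [2017280, 1269760], [(-327680)]], [[(-2400), 1200, (-12800), 23440, (-10400)], [34176, (-118576), 217280, (-170000), 59360], [(-164224), 1031464, (-1134400), 427360, (-106080)], [376576, (-3570936), 2461600, (-650640), 167200], [(-567520), 5466208, (-1810560), 1993520, (-580480)], [957696, (-1712768), (-927680), (-5377280), 935680], [(-1437568), (-5162240), 1127040, 6415040, (-419840)], [819200, 5613440, 1204480, (-2654720)], [570880, (-814080), (-1231360)], [(-757760), (-788480)], [153600]], [[1664, 3536, 560, (-1200), 640], [(-15408), 7872, (-24080), 2160, (-2880)], [38232, (-250104), 159520, 18000, 1760], [38456, 1082184, (-419280), 3840, 2080], [(-301664),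 (-1879472), 477280, (-404880), 18240], [377552, 998896, (-171520), 1176000, (-42240)], [96832, 922400, 17280, (-1288960), 17920], [(-485760), (-1208000), (-154880), 490880], [262400, 215680, 122880], [(-1280), 110080], [(-10240)]], [[(-752), (-800)], [6912, 2352], [(-23896), 17984], [34872, (-109952)], [(-7408), 231936], [(-34336), (-218368)], [31808, 76800], [(-6400)]]]

/-- The reduced numerator of `TEG`, the coefficient of `η ^ 0 X ^ 6`. -/
def numEG_0_6 : List (List (List ℤ)) :=
  [[[(-224), (-1872), 10720, (-16240), 7040], [(-2672), 47344, (-127680), 119440, (-34240)], [31256, (-339352), 558160, (-313440), 60000], [(-100296), 1071464, (-1065200), 496240, (-228000)], [74272, (-1484960), 677760, (-1302960), 867840], [325280, 196640, 161760, 3216320, (-1258240)], [(-1068736), 1633600, 670400, (-3715520), 547840], [1560960, (-1048320), (-2038400), 1514240], [(-1282560), (-764160), 1219840], [545280, 727040], [(-76800)]], [[80, (-368), (-1520), 3120, (-1440)], [5984, (-28800), 34000, (-12560), 4640], [(-54416), 271280, (-195680), 12800, (-1440)], [194816, (-899488), 474800, (-186960), 38560],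 [(-394192), 1107792, (-545360), 1218480, (-206080)], [593248, 469344, 438240, (-2907520), 305920], [(-796288), (-2495040), (-704960), 2987840, (-128000)], [794880, 1968000, 923520, (-1107200)], [(-410880), (-66560), (-440320)], [58880, (-332800)]], [[(-16), 560, 240, (-80)], [(-1632), 5536, (-5360), (-720), 320], [13040, (-75848), 35120, 1680, (-1760)], [(-36960), 284504, (-109440), 40640, 2400], [46480, (-431632), 191040, (-226800), 2240], [(-42128), 108816, (-208160), 478720, (-6400)], [94144, 422240, 161600, (-453760), 2560], [(-167040), (-426560), (-94080), 159360], [131840, 83840, 29440], [(-42240), 28160], [5120]], [[], [400, (-800)], [(-3800), 7200], [14600, (-25600)], [(-28800), 44800], [30400, (-38400)], [(-16000), 12800], [3200]]]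

/-- The reduced numerator of `TEG`, the coefficient of `η ^ 0 X ^ 7`. -/
def numEG_0_7 : List (List (List ℤ)) :=
  [[[(-208), 640, 0, (-1280), 800], [1120, (-2752), (-1600), 5280, (-1760)], [64, (-6824), 11840, (-6160), 2240], [(-10288), 54312, (-35840), 66960, (-58560)], [13552, (-84416), 102160, (-423200), 233920], [36496, (-1872), (-349600), 1000640, (-314880)], [(-115648), 4640, 763840, (-1020480), 130560], [110080, 303680, (-818560), 375680], [(-23040), (-484480), 337920], [(-21760), 222720], [10240]], [[128, (-160), 80], [160, (-2848), 1360, 1920, (-640)], [(-8024), 31224, (-16480), (-2880), 2240], [37128, (-94232), 73360, (-69920), 4160], [(-73632), 38576, (-191120), 365920, (-27520)], [72544, 341472, 333600, (-745600), 38400], [(-53952), (-722240), (-386880), 691200, (-15360)], [79360, 526080, 264320, (-239360)], [(-96000), (-61440), (-79360)], [51200, (-56320)], [(-10240)]], [[], [(-400), 800], [3480, (-6560), 640, (-1280)], [(-10600), 17920, (-6080), 11520], [8000, (-7040), 23360, (-40960)], [27680, (-58880), (-46080), 71680], [(-77440), 125440, 48640, (-61440)], [82560, (-102400),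 (-25600), 20480], [(-40960), 30720, 5120], [7680]]]

/-- The reduced numerator of `TEG`, the coefficient of `η ^ 0 X ^ 8`. -/
def numEG_0_8 : List (List (List ℤ)) :=
  [[[0, 80, (-160), 80], [(-160), (-560), 1600, (-1200), 320], [1840, 720, (-5520), 3760, (-480)], [(-8880), 4160, 4080, 6240, (-6560)], [23680, (-19360), 26320, (-57200), 25280], [(-39920), 44560, (-94720), 123520, (-32000)], [49600, (-78880), 148480, (-114560), 12800], [(-53120), 105280, (-119040), 39040], [46080, (-83840), 39680], [(-24320), 28160], [5120]], [[], [], [320, (-640), (-640), 1280], [(-4000), 7680, 6080, (-11520)], [20800, (-37760), (-23360), 40960], [(-58080), 97280, 46080, (-71680)], [93440, (-138240), (-48640), 61440], [(-85760), 102400, 25600, (-20480)], [40960, (-30720), (-5120)], [(-7680)]]]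

/-- The reduced numerator of `TEG`, the coefficient of `η ^ 0`. -/
def numEG_0 : List (List (List (List ℤ))) :=
  [numEG_0_0, numEG_0_1, numEG_0_2, numEG_0_3, numEG_0_4, numEG_0_5, numEG_0_6, numEG_0_7, numEG_0_8]

/-- The reduced numerator of `TEG`, the coefficient of `η ^ 1 X ^ 0`. -/
def numEG_1_0 : List (List (List ℤ)) :=
  [[[], [(-5120), 25600, (-46080), 35840, (-10240)], [56320, (-220160), 291840, (-148480), 20480], [(-256000), 747520, (-675840), 194560, (-10240)], [614400, (-1249280), 675840, (-81920)], [(-819200), 1024000, (-245760)], [573440, (-327680)], [(-163840)]], [[], [2560, (-5120), (-7680), 20480, (-10240)], [(-17920), (-20480), 186880, (-209920), 61440], [15360, 404480, (-988160), 629760, (-92160)], [204800, (-1628160), 2140160, (-727040), 40960], [(-819200), 2928640, (-2068480), 286720], [1351680, (-2498560), 737280], [(-1064960), 819200], [327680]], [[], [0, (-5120), 20480, (-25600), 10240], [(-5120), 76800, (-199680), 168960, (-40960)], [56320, (-430080), 742400, (-399360), 51200], [(-256000), 1198080, (-1320960), 399360, (-20480)], [614400, (-1781760), 1126400, (-143360)],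 [(-819200), 1351680, (-368640)], [573440, (-409600)], [(-163840)]]]

/-- The reduced numerator of `TEG`, the coefficient of `η ^ 1 X ^ 1`. -/
def numEG_1_1 : List (List (List ℤ)) :=
  [[[896, (-7936), 19840, (-17920), 5120], [(-28288), 173056, (-321920), 232960, (-58880)], [280064, (-1185792), 1553920, (-739840), 89600], [(-1293312), 3811328, (-3294720), 839680, (-15360)], [3198976, (-6379520), 3225600, (-256000), (-20480)], [(-4372480), 5406720, (-1146880), (-81920)], [3112960, (-1843200), (-81920)], [(-901120)]], [[1216, (-576), 640, (-10240), 5120], [(-11712), 6464, (-109440), 204800, (-81920)], [38016, (-308480), 1295360, (-1274880), 327680], [(-227328), 2561024, (-5381120), 3008000, (-332800)], [1488384, (-8666624), 9958400, (-2524160), (-81920)], [(-4731904), 14120960, (-7710720), (-153600), 163840], [7424000, (-10516480), 634880, 839680], [(-5652480), 1986560, 1474560], [1679360, 901120]], [[(-832), (-64), (-3840), 12800, (-5120)], [9216, (-4416), 124160, (-184320), 69120], [(-33088), 207872, (-970240), 865280, (-217600)], [149504, (-1549568), 3253760, (-1710080), 215040], [(-836352),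 4810240, (-5242880), 1274880], [2519040, (-7234560), 3594240, 107520, (-61440)], [(-3763200), 4935680, (-81920), (-399360)], [2703360, (-757760), (-737280)], [(-757760), (-450560)]], [[0, 896], [896, (-16128)], [(-16128), 81664], [81664, (-174592)], [(-174592), 162816], [162816, (-51200)], [(-51200)]]]

/-- The reduced numerator of `TEG`, the coefficient of `η ^ 1 X ^ 2`. -/
def numEG_1_2 : List (List (List ℤ)) :=
  [[[0, (-19840), 61440, (-59520), 17920], [(-26240), 316160, (-666880), 484480, (-115200)], [382720, (-1990400), 2670080, (-1173760), 99840], [(-2091520), 6324480, (-5022720), 851200, 110080], [5702400, (-10755840), 4281600, 352000, (-122880)], [(-8348160), 9267200, (-688640), (-624640), 20480], [6338560, (-2938880), (-988160), 117760], [(-2068480), (-389120), 215040], [143360, 102400], [(-40960)]], [[9696, (-10144), 10560, (-42880), 20480], [(-103136), 169440, (-442560), 627840, (-227840)], [408832, (-1496768), 3643520, (-3080960), 729600], [(-1092672), 7291968, (-12312960), 6124800, (-614400)], [3371904, (-19340416), 19338880, (-4140800), (-184320)], [(-8805888), 26995712, (-11843840),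 (-957440), 81920], [13084672, (-16783360), (-1789440), 1162240, 163840], [(-9262080), 619520, 3374080, 532480], [1955840, 2652160, 512000], [532480, 163840], [(-81920)]], [[(-5760), (-4896), (-5120), 35200, (-15360)], [48032, 33952, 211840, (-373120), 145920], [(-89056), 225792, (-1610240), 1475840, (-407040)], [(-64352), (-2426880), 5057920, (-2536960), 368640], [(-225024), 7703552, (-7339520), 1473280], [2489472, (-10924800), 3820800, 483840, (-40960)], [(-4945920), 6223360, 1313280, (-353280), (-40960)], [3683840, 271360, (-1367040), (-276480)], [(-696320), (-1136640), (-256000)], [(-256000), (-81920)], [40960]], [[448, 6592], [256, (-66752)], [(-49344), 243200], [285056, (-371712)], [(-657280), 151552], [687360, 146432], [(-286208), (-102400)], [25600]]]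

/-- The reduced numerator of `TEG`, the coefficient of `η ^ 1 X ^ 3`. -/
def numEG_1_3 : List (List (List ℤ)) :=
  [[[(-6304), (-6336), 56800, (-65920), 21760], [55008, 108800, (-464480), 384000, (-90240)], [(-49152), (-842368), 1422080, (-509440), (-37760)], [(-888320), 3226624, (-1861760), (-568320), 321280], [3881728, (-6316800), 262400, 1752320, (-245760)], [(-7040000), 5826560, 2199040, (-1367040), 61440], [6287360, (-1341440), (-2401280), 353280], [(-2600960), (-1064960), 645120], [471040, 307200], [(-122880)]], [[20352, (-30912), 35520, (-74560), 33280], [(-216192), 456416, (-808000), 899520, (-300800)], [874144, (-2986976), 5236160, (-3758080), 823040], [(-1903840), 10883424, (-14937280), 6584960, (-698880)], [3290304, (-22842176), 19983040, (-4242560), 271360], [(-5845248), 25914112, (-9576320), 483840, (-747520)], [7240192, (-11796480), (-2750720), (-1415680), 532480], [(-3212800), (-2675200), 1712640, 1710080], [(-1868800), 2780160, 1669120], [1925120, 614400], [(-286720)]], [[(-12096), (-8576), 640, 34240, (-16640)], [100896, 29792, 162560, (-310080), 132480], [(-216064), 393536,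 (-1304960), 1056640, (-334720)], [(-213568), (-2885440), 3838720, (-1542400), 293120], [1171584, 7502464, (-4803200), 792960, (-84480)], [(-685440), (-8562816), 1523200, (-349440), 138240], [(-1115136), 2873600, 1433600, 1108480, (-102400)], [783360, 1825280, (-337920), (-834560)], [839680, (-1018880), (-686080)], [(-788480), (-266240)], [122880]], [[2496, 11520], [(-15552), (-91680)], [(-13536), 241344], [308448, (-130944)], [(-890304), (-436992)], [1077120, 718848], [(-544512), (-307200)], [76800]]]

/-- The reduced numerator of `TEG`, the coefficient of `η ^ 1 X ^ 4`. -/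
def numEG_1_4 : List (List (List ℤ)) :=
  [[[(-9376), 15776, 8160, (-24800), 10240], [105792, (-183680), 43040, 44960, (-12800)], [(-432768), 763008, (-605760), 413440, (-146560)], [672320, (-1393664), 2096320, (-1580160), 341120], [296192, 1012480, (-3581440), 2112000, (-227840)], [(-2424320), (-279040), 3736320, (-1344000), 71680], [3240960, 819200, (-2508800), 414720], [(-1868800), (-1198080), 768000], [532480, 389120], [(-122880)]], [[17216, (-33280), 41920, (-63680), 26880], [(-189440), 470528, (-713760), 657600, (-202240)], [783696, (-2754928), 3974240, (-2416960), 476800], [(-1496432), 8575472, (-10020320), 3876480, (-478080)], [1104928, (-14887328), 11783840, (-2966080), 747520], [729728, 13188864, (-4933440), 2684160, (-1341440)], [(-3053312), (-3173120), (-150400), (-3895040), 675840], [5100800, (-2748160), (-1870080), 2165760], [(-5056000), 586240, 2196480], [2416640, 962560], [(-348160)]], [[(-10816), (-4096), 1280, 14080, (-7680)], [99152, (-39488), 88000, (-107840), 51840], [(-287976), 650112, (-686560), 288000, (-111360)], [109336, (-2859296), 1860320, (-320640), 88960], [947328,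 5577536, (-2036480), 459200, (-96000)], [(-1844640), (-4537664), 532160, (-1495680), 189440], [1519616, (-26240), 63360, 2159360, (-92160)], [(-1207680), 1795840, 787200, (-995840)], [1274880, (-258560), (-683520)], [(-714240), (-348160)], [112640]], [[3648, 7424], [(-28800), (-46880)], [63328, 54976], [56736, 242944], [(-440608), (-808448)], [676288, 884224], [(-404352), (-332800)], [70400]]]

/-- The reduced numerator of `TEG`, the coefficient of `η ^ 1 X ^ 5`. -/
def numEG_1_5 : List (List (List ℤ)) :=
  [[[(-4608), 12768, (-10880), 2080, 640], [56416, (-159360), 170080, (-87040), 19520], [(-271904), 771744, (-885920), 492000, (-107200)], [635200, (-1879872), 2191680, (-1092800), 172800], [(-640384), 2481920, (-2926080), 1153920, (-106240)], [(-115200), (-1884160), 2351360, (-666880), 40960], [852480, 1113600, (-1333760), 240640], [(-711680), (-732160), 460800], [235520, 266240], [(-40960)]], [[5488, (-13408), 19120, (-25600), 10560], [(-68304), 203728, (-292240), 231680, (-64320)], [303560, (-1191176), 1516960, (-763040), 124480], [(-538120), 3508616, (-3610640), 1201280, (-191040)],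 [(-86800), (-5493168), 4158960, (-1467360), 595200], [2044224, 4167168, (-2474720), 2570240, (-944640)], [(-4034432), (-941440), 2089920, (-3130240), 419840], [4376960, 214400, (-2810240), 1364480], [(-2981120), (-1189120), 1482240], [1136640, 788480], [(-153600)]], [[(-3328), (-672), (-1120), 2400, (-1280)], [36928, (-44656), 43040, (-12000), 5760], [(-144616), 447696, (-278720), 8800, (-3520)], [218552, (-1648336), 735840, (-34560), (-4160)], [12032, 2811104, (-930560), 461600, (-36480)], [(-368704), (-1928672), 675840, (-1358720), 84480], [303616, (-229440), (-625920), 1533440, (-35840)], [(-48000), 654720, 683520, (-592640)], [69120, 152320, (-312320)], [(-97280), (-220160)], [20480]], [[1456, 1600], [(-13536), (-4656)], [47288, (-36352)], [(-69816), 221056], [15824, (-465408)], [67808, 437504], [(-63424), (-153600)], [12800]]]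

/-- The reduced numerator of `TEG`, the coefficient of `η ^ 1 X ^ 6`. -/
def numEG_1_6 : List (List (List ℤ)) :=
  [[[(-560), 2480, (-4080), 2960, (-800)], [8032, (-36352), 58640, (-40400), 10080], [(-45152), 202048, (-295520), 171520, (-32800)], [125904, (-564848), 714320, (-321680), 41440], [(-171056), 865840, (-915920), 297040, (-23680)], [61600, (-755840), 675680, (-162560), 11520], [105600, 437120, (-359360), 69440], [(-115200), (-244480), 140160], [26880, 96000], [2560]], [[160, (-1312), 2720, (-3840), 1600], [(-7296), 33792, (-47040), 29440, (-6080)], [51408, (-240208), 258400, (-85280), 5120], [(-139120), 788816, (-664640), 170400, (-42240)], [116928, (-1389312), 974560, (-469120), 208000], [190752, 1448736, (-1162560), 1048960, (-307200)], [(-549632), (-1206080), 1494400, (-1132160), 128000], [545280, 1200000, (-1365760), 431360], [(-261120), (-961280), 517120], [53760, 332800]], [[32, (-320), (-480), 160], [2704, (-10432), 9440, 160, (-640)], [(-23880), 109296, (-58080), (-800), 3520], [80920, (-399408), 173760, (-41600), (-4800)], [(-145760), 665504, (-303040), 238560, (-4480)],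 [187776, (-427552), 360000, (-517120), 12800], [(-252928), (-94400), (-330880), 497920, (-5120)], [306560, 167040, 213760, (-175360)], [(-222720), 47360, (-64000)], [76800, (-56320)], [(-10240)]], [[], [(-800), 1600], [7600, (-14400)], [(-29200), 51200], [57600, (-89600)], [(-60800), 76800], [32000, (-25600)], [(-6400)]]]

/-- The reduced numerator of `TEG`, the coefficient of `η ^ 1 X ^ 7`. -/
def numEG_1_7 : List (List (List ℤ)) :=
  [[[80, (-80), (-240), 400, (-160)], [(-720), (-720), 5040, (-5040), 1440], [2400, 10720, (-29440), 20000, (-3680)], [(-3440), (-44400), 76880, (-34640), 3680], [2000, 87600, (-101840), 28880, (-1920)], [(-2400), (-92800), 74080, (-15360), 1280], [5760, 60800, (-39360), 8000], [(-2560), (-34560), 17280], [(-3840), 14080], [2560]], [[(-128), 160, (-80)], [240, 1408, (-1360), (-640), 640], [5184, (-22104), 14560, 2880, (-2240)], [(-33568), 99992, (-57040), 7200, (-4160)], [96352, (-236336), 137040, (-68960), 27520], [(-166784), 357408, (-246560), 161920, (-38400)], [203072, (-406720), 317760, (-158720), 15360], [(-192640), 364800, (-238720), 55040], [136960,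 (-215040), 74240], [(-58880), 56320], [10240]], [[], [400, (-800)], [(-3480), 6560, (-640), 1280], [10600, (-17920), 6080, (-11520)], [(-8000), 7040, (-23360), 40960], [(-27680), 58880, 46080, (-71680)], [77440, (-125440), (-48640), 61440], [(-82560), 102400, 25600, (-20480)], [40960, (-30720), (-5120)], [(-7680)]]]

/-- The reduced numerator of `TEG`, the coefficient of `η ^ 1 X ^ 8`. -/
def numEG_1_8 : List (List (List ℤ)) :=
  []

/-- The reduced numerator of `TEG`, the coefficient of `η ^ 1`. -/
def numEG_1 : List (List (List (List ℤ))) :=
  [numEG_1_0, numEG_1_1, numEG_1_2, numEG_1_3, numEG_1_4, numEG_1_5, numEG_1_6, numEG_1_7, numEG_1_8]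

/-- The reduced numerator of `TEG`, the coefficient of `η ^ 2 X ^ 0`. -/
def numEG_2_0 : List (List (List ℤ)) :=
  [[], [[], [(-2560), 12800, (-23040), 17920, (-5120)], [28160, (-110080), 145920, (-74240), 10240], [(-128000), 373760, (-337920), 97280, (-5120)], [307200, (-624640), 337920, (-40960)], [(-409600), 512000, (-122880)], [286720, (-163840)], [(-81920)]], [[], [0, 2560, (-10240), 12800, (-5120)], [2560, (-38400), 99840, (-84480), 20480], [(-28160), 215040, (-371200), 199680, (-25600)], [128000, (-599040), 660480, (-199680), 10240], [(-307200), 890880, (-563200), 71680], [409600, (-675840), 184320], [(-286720), 204800], [81920]]]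

/-- The reduced numerator of `TEG`, the coefficient of `η ^ 2 X ^ 1`. -/
def numEG_2_1 : List (List (List ℤ)) :=
  [[[], [(-1280), 5120, (-7680), 5120, (-1280)], [14080, (-46080), 53760, (-25600), 3840], [(-64000), 163840, (-138240), 40960, (-2560)], [153600, (-286720), 153600, (-20480)], [(-204800), 245760, (-61440)], [143360, (-81920)], [(-40960)]], [[384, (-2304), 8320, (-8960), 2560], [(-5632), 61824, (-146560), 116480, (-30720)], [73216, (-469248), 730880, (-387840), 56320], [(-420608), 1592832, (-1593600), 494080, (-28160)], [1168384, (-2734080), 1628160, (-225280)], [(-1679360), 2334720, (-650240)], [1208320, (-798720)], [(-348160)]], [[64, (-1216), 1920, (-6400), 2560], [(-7872), 19136, (-62080), 93440, (-34560)], [52736, (-170752), 486400, (-444160), 108800], [(-186368), 873728, (-1638400), 896000, (-107520)], [557824, (-2423040), 2662400, (-709120)], [(-1290240), 3517440, (-1868800), 7680, 30720], [1781760, (-2365440), 102400, 179200], [(-1249280), 348160, 348160], [348160, 225280]], [[0, 704], [704, 1728], [1728, (-30464)], [(-30464), 84992], [84992, (-86016)], [(-86016), 25600],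 [25600]]]

/-- The reduced numerator of `TEG`, the coefficient of `η ^ 2 X ^ 2`. -/
def numEG_2_2 : List (List (List ℤ)) :=
  [[[], [(-3840), 15360, (-23040), 15360, (-3840)], [42240, (-138240), 161280, (-76800), 11520], [(-192000), 491520, (-414720), 122880, (-7680)], [460800, (-860160), 460800, (-61440)], [(-614400), 737280, (-184320)], [430080, (-245760)], [(-122880)]], [[(-1984), (-576), 20160, (-25280), 7680], [28352, 43456, (-240960), 214720, (-56320)], [(-84096), (-436992), 1023360, (-587520), 84480], [(-120192), 1701248, (-2037120), 629120, (-20480)], [1009536, (-3150720), 1910400, (-161920), (-20480)], [(-1921280), 2769920, (-510720), (-148480), 10240], [1602560, (-824320), (-330240), 58880], [(-573440), (-194560), 107520], [71680, 51200], [(-20480)]], [[2976, (-4448), 2560, (-17600), 7680], [(-42464), 50080, (-105280), 192320, (-72960)], [186752, (-326208), 805120, (-787200), 203520], [(-396096), 1425088, (-2561600), 1429760, (-184320)], [690688, (-3662336), 3829120, (-977280)], [(-1427456), 4951680, (-2238080), (-108800), 20480], [2044160, (-2850560), (-334080), 207360, 20480],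 [(-1310720), (-69120), 550400, 97280], [143360, 506880, 138240], [143360, 40960], [(-20480)]], [[352, (-992)], [(-1856), 19552], [22944, (-92800)], [(-137056), 160512], [337280, (-61952)], [(-360960), (-82432)], [145408, 51200], [(-12800)]]]

/-- The reduced numerator of `TEG`, the coefficient of `η ^ 2 X ^ 3`. -/
def numEG_2_3 : List (List (List ℤ)) :=
  [[[640, (-2560), 3840, (-2560), 640], [(-11200), 39680, (-51840), 29440, (-6080)], [77760, (-231680), 243840, (-103680), 13760], [(-284800), 675840, (-526080), 143360, (-8320)], [601600, (-1054720), 529920, (-66560)], [(-737280), 839680, (-199680)], [486400, (-266240)], [(-133120)]], [[(-6784), 11104, 10240, (-22240), 7680], [85216, (-105728), (-84160), 134880, (-39040)], [(-390080), 350784, 240640, (-243520), 32640], [824576, (-470208), (-256000), 54080, 34560], [(-739136), 142400, (-117440), 282560, (-48640)], [(-56960), 97280, 675200, (-353280), 25600], [632320, 243200, (-779520), 147200], [(-506880), (-435200), 268800], [199680, 128000], [(-51200)]], [[7008, (-7872), (-320), (-17120), 8320], [(-78720), 81056, (-78720), 165280, (-66240)],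 [310784, (-427616), 639680, (-610240), 167360], [(-536000), 1453408, (-1934720), 1006720, (-146560)], [381504, (-3031872), 2629440, (-642240), 42240], [(-61760), 3403328, (-1355520), 92800, (-69120)], [(-197632), (-1467520), (-40960), (-226560), 51200], [721920, (-339200), (-158720), 253440], [(-931840), 263680, 384000], [455680, 133120], [(-61440)]], [[(-96), (-4320)], [1152, 36480], [20736, (-97344)], [(-171648), 34944], [467904, 244992], [(-558720), (-373248)], [275712, 153600], [(-38400)]]]

/-- The reduced numerator of `TEG`, the coefficient of `η ^ 2 X ^ 4`. -/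
def numEG_2_4 : List (List (List ℤ)) :=
  [[[1280, (-5120), 7680, (-5120), 1280], [(-16000), 53760, (-65280), 33280, (-5760)], [85120, (-232960), 218880, (-79360), 8320], [(-249600), 532480, (-360960), 81920, (-3840)], [435200, (-675840), 291840, (-30720)], [(-450560), 450560, (-92160)], [256000, (-122880)], [(-61440)]], [[(-6464), 15104, (-6720), (-4480), 2560], [78304, (-162336), 88800, (-3040), (-4800)], [(-383008), 707616, (-435680), 124640, (-20480)], [977632, (-1616800), 1039840, (-353760), 52160], [(-1379040), 2078560, (-1340320), 421920, (-40960)], [988480, (-1532160), 1073600, (-300800), 23040], [(-154880), 748800, (-670080), 133760], [(-256000), (-381440), 249600], [166400, 130560], [(-35840)]], [[5920, (-7264), (-640), (-7040), 3840], [(-65824), 79968, (-40160), 62880, (-25920)], [274288, (-401168), 317360, (-208640), 55680], [(-520016), 1145552, (-892560), 303040, (-44480)], [320544, (-1898208), 1143520, (-219360), 48000], [514560, 1691552, (-775520), 281920, (-94720)], [(-1428288), (-671680), 650560, (-455040), 46080], [1743360, 167040, (-769920), 241920], [(-1231360), (-254720),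 400640], [445440, 174080], [(-56320)]], [[(-1248), (-3424)], [10800, 21280], [(-23528), (-20576)], [(-36936), (-134144)], [226208, 418048], [(-341888), (-449024)], [202752, 166400], [(-35200)]]]

/-- The reduced numerator of `TEG`, the coefficient of `η ^ 2 X ^ 5`. -/
def numEG_2_5 : List (List (List ℤ)) :=
  [[[800, (-3200), 4800, (-3200), 800], [(-9120), 30080, (-35520), 17280, (-2720)], [43520, (-113920), 99840, (-32000), 2560], [(-112000), 220160, (-130560), 23040, (-640)], [166400, (-225280), 76800, (-5120)], [(-140800), 112640, (-15360)], [61440, (-20480)], [(-10240)]], [[(-2288), 6608, (-6320), 2160, (-160)], [27168, (-71392), 67280, (-28400), 4960], [(-134816), 319872, (-284640), 116800, (-18400)], [358704, (-762000), 610480, (-211440), 23840], [(-539600), 1028560, (-712240), 190640, (-14720)], [427360, (-790400), 489120, (-111360), 8960], [(-110720), 376960, (-260160), 53440], [(-58880), (-175360), 105600], [34560, 67840], [(-2560)]], [[1664, (-2864), 560, (-1200), 640], [(-21472), 36736, (-18960), 9840, (-2880)], [106096, (-197400), 119200, (-26800), 1760], [(-256432), 565960,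 (-316560), 30720, 2080], [289248, (-931632), 453280, (-56720), 18240], [(-8848), 929776, (-504320), 182720, (-42240)], [(-400448), (-692960), 608640, (-244480), 17920], [533760, 553280, (-528640), 101760], [(-331520), (-368000), 189440], [98560, 110080], [(-10240)]], [[(-656), (-800)], [6336, 2256], [(-22888), 18752], [35016, (-112256)], [(-9424), 235008], [(-32608), (-219904)], [31424, 76800], [(-6400)]]]

/-- The reduced numerator of `TEG`, the coefficient of `η ^ 2 X ^ 6`. -/
def numEG_2_6 : List (List (List ℤ)) :=
  [[[160, (-640), 960, (-640), 160], [(-1760), 5760, (-6720), 3200, (-480)], [8000, (-20480), 17280, (-5120), 320], [(-19200), 35840, (-19200), 2560], [25600, (-30720), 7680], [(-17920), 10240], [5120]], [[(-240), 880, (-1200), 720, (-160)], [2752, (-9312), 11760, (-6640), 1440], [(-13312), 41248, (-46720), 22560, (-3680)], [34384, (-97968), 96080, (-35920), 3680], [(-48816), 133680, (-109520), 28880, (-1920)], [33440, (-108160), 74080, (-15360), 1280], [(-4480), 60800, (-39360), 8000], [(-2560), (-34560), 17280], [(-3840), 14080], [2560]], [[(-16), (-240), 240, (-80)], [(-1072),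 4896, (-4080), 560, 320], [10840, (-33448), 22960, (-880), (-1760)], [(-43960), 114904, (-64320), 960, 2400], [99280, (-233872), 112000, (-11760), 2240], [(-145648), 318736, (-151840), 38400, (-6400)], [158784, (-327840), 169280, (-44160), 2560], [(-139520), 259520, (-119680), 16000], [90880, (-131200), 34560], [(-34560), 28160], [5120]], [[], [400, (-800)], [(-3800), 7200], [14600, (-25600)], [(-28800), 44800], [30400, (-38400)], [(-16000), 12800], [3200]]]

/-- The reduced numerator of `TEG`, the coefficient of `η ^ 2 X ^ 7`. -/
def numEG_2_7 : List (List (List ℤ)) :=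
  []

/-- The reduced numerator of `TEG`, the coefficient of `η ^ 2 X ^ 8`. -/
def numEG_2_8 : List (List (List ℤ)) :=
  []

/-- The reduced numerator of `TEG`, the coefficient of `η ^ 2`. -/
def numEG_2 : List (List (List (List ℤ))) :=
  [numEG_2_0, numEG_2_1, numEG_2_2, numEG_2_3, numEG_2_4, numEG_2_5, numEG_2_6, numEG_2_7, numEG_2_8]

/-- The reduced numerator of `TEG`, the coefficient of `η ^ 3 X ^ 0`. -/
def numEG_3_0 : List (List (List ℤ)) :=
  []

/-- The reduced numerator of `TEG`, the coefficient of `η ^ 3 X ^ 1`. -/
def numEG_3_1 : List (List (List ℤ)) :=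
  [[], [], [[768, (-768)], [(-4224), 2688], [6912, (-1536)], [(-1536), (-1536)], [(-3072)]], [[0, (-768)], [(-768), 4224], [4224, (-6912)], [(-6912), 1536], [1536, 3072], [3072]]]

/-- The reduced numerator of `TEG`, the coefficient of `η ^ 3 X ^ 2`. -/
def numEG_3_2 : List (List (List ℤ)) :=
  [[], [], [[1536, (-1536)], [(-8448), 5376], [13824, (-3072)], [(-3072), (-3072)], [(-6144)]], [[(-384), (-1536)], [1152, 9216], [1152, (-19200)], [(-3648), 16896], [(-5760), (-9216)], [11520, 6144], [(-1536)]]]

/-- The reduced numerator of `TEG`, the coefficient of `η ^ 3 X ^ 3`. -/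
def numEG_3_3 : List (List (List ℤ)) :=
  [[], [], [[960, (-960)], [(-5472), 3552], [9792, (-2688)], [(-4224), (-1152)], [(-2304)]], [[(-768), (-960)], [4416, 6240], [(-9312), (-15552)], [11616, 20352], [(-15168), (-17664)], [13440, 9216], [(-2304)]]]

/-- The reduced numerator of `TEG`, the coefficient of `η ^ 3 X ^ 4`. -/
def numEG_3_4 : List (List (List ℤ)) :=
  [[], [], [[192, (-192)], [(-1248), 864], [2880, (-1152)], [(-2688), 384], [768]], [[(-384), (-192)], [2400, 1440], [(-5424), (-4608)], [5712, 8448], [(-3936), (-9216)], [2496, 4608], [(-384)]]]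

/-- The reduced numerator of `TEG`, the coefficient of `η ^ 3 X ^ 5`. -/
def numEG_3_5 : List (List (List ℤ)) :=
  [[], [], [[], [(-48), 48], [288, (-192)], [(-576), 192], [384]], [[(-48)], [288, 48], [(-504), (-384)], [(-72), 1152], [1008, (-1536)], [(-864), 768], [192]]]

/-- The reduced numerator of `TEG`, the coefficient of `η ^ 3 X ^ 6`. -/
def numEG_3_6 : List (List (List ℤ)) :=
  []

/-- The reduced numerator of `TEG`, the coefficient of `η ^ 3 X ^ 7`. -/
def numEG_3_7 : List (List (List ℤ)) :=
  []

/-- The reduced numerator of `TEG`, the coefficient of `η ^ 3 X ^ 8`. -/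
def numEG_3_8 : List (List (List ℤ)) :=
  []

/-- The reduced numerator of `TEG`, the coefficient of `η ^ 3`. -/
def numEG_3 : List (List (List (List ℤ))) :=
  [numEG_3_0, numEG_3_1, numEG_3_2, numEG_3_3, numEG_3_4, numEG_3_5, numEG_3_6, numEG_3_7, numEG_3_8]

/-- The reduced numerator of `TEG`. -/
def numEG : List (List (List (List (List ℤ)))) :=
  [numEG_0, numEG_1, numEG_2, numEG_3]

end Vale.Agent.P100.Calib.MidTail
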