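import Vale.Agent.P100.Calib.SlabAllEndFn
import Vale.Agent.P100.Calib.SlabAllEndBig

/-!
# Dense polynomials in five variables

A polynomial in `(η, x₀, x₁, x₂, x₃)` is a list over the powers of `η` of lists over the powers of
`x₀` of expressions in the other three. `hE` substitutes a fraction for `x₀`, `hsub` a fraction
whose numerator is a list in `θ` for `η`, both cleared of the denominators.
-/

namespace Vale.Agent.P100.Calib.MidTail

open Pack EndAll

/-- Horner's scheme in `v`. -/
def hor (v : Ex) : List Ex → Ex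
  | [] => .num 0
  | [c] => c
  | c :: d :: cs => .add c (.mul v (hor v (d :: cs)))

/-- `∑ c_k ^ k`. -/
noncomputable def pv (x : ℕ → ℝ) (y : ℝ) : List Ex → ℝ
  | [] => 0
  | c :: cs => c.eval x + y * pv x y cs

/-- `∑ c_k (∑ c_kj X ^ j) y ^ k`. -/
noncomputable def pv2 (x : ℕ → ℝ) (X y : ℝ) : List (List Ex) → ℝ
  | [] => 0
  | c :: cs => pv x X c + y * pv2 x X y cs

theorem eval_hor (x : ℕ → ℝ) (v : Ex) : ∀ l : List Ex, (hor v l).eval x = pv x (v.eval x) l
  | [] => by simp [hor, pv, Ex.eval]
  | [c] => by simp [hor, pv]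
  | c :: d :: cs => by
    rw [hor, pv, ← eval_hor x v (d :: cs)]
    rfl

/-- Horner's scheme over nested coefficient lists, innermost in `v₂`. -/
def hor3 (v₀ v₁ v₂ : Ex) (l : List (List (List ℤ))) : Ex :=
  hor v₀ (l.map fun m => hor v₁ (m.map fun r => hor v₂ (r.map Ex.num)))

/-- A polynomial in five variables from its integer coefficients. -/
def poly5 (v₀ v₁ v₂ : Ex) (l : List (List (List (List (List ℤ))))) : List (List Ex) :=
  l.map fun m => m.map (hor3 v₀ v₁ v₂)

/-- The value at the fraction `N/D`, times `D` to the degree. -/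
def hE (D N : Ex) : List Ex → Ex
  | [] => .num 0
  | [c] => c
  | c :: d :: cs => .add (.mul c (.pow D (cs.length + 1))) (.mul N (hE D N (d :: cs)))

theorem eval_hE {x : ℕ → ℝ} {D N : Ex} {X : ℝ} (hN : N.eval x = X * D.eval x) :
    ∀ l : List Ex, (hE D N l).eval x = D.eval x ^ (l.length - 1) * pv x X l
  | [] => by simp [hE, pv, Ex.eval]
  | [c] => by simp [hE, pv]
  | c :: d :: cs => by
    simp only [hE, Ex.eval, eval_hE hN (d :: cs), hN, pv, List.length_cons, Nat.add_sub_cancel]
    ring

/-- The substitution of `N/D` for `η`, `N` a list in `θ`. -/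
def hsub (D : Ex) (N : List Ex) : List Ex → List Ex
  | [] => []
  | [c] => [c]
  | c :: d :: cs => ladd [.mul c (.pow D (cs.length + 1))] (conv N (hsub D N (d :: cs)))

theorem bv_hsub {x : ℕ → ℝ} {θ : ℝ} {D : Ex} {N : List Ex} {y : ℝ}
    (hN : bv x θ N = y * D.eval x) :
    ∀ l : List Ex, bv x θ (hsub D N l) = D.eval x ^ (l.length - 1) * pv x y l
  | [] => by simp [hsub, pv, bv]
  | [c] => by simp [hsub, pv, bv]
  | c :: d :: cs => by
    simp only [hsub, bv_ladd, bv_conv, bv_hsub hN (d :: cs), hN, pv, bv, Ex.eval, List.length_cons,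
      List.length_nil, Nat.add_sub_cancel, pow_zero, mul_one, mul_zero, add_zero]
    ring

theorem pv_map_mul {x : ℕ → ℝ} {y c : ℝ} {f : Ex → Ex} (hf : ∀ e, (f e).eval x = c * e.eval x) :
    ∀ l : List Ex, pv x y (l.map f) = c * pv x y l
  | [] => by simp [pv]
  | e :: l => by simp only [List.map_cons, pv, hf, pv_map_mul hf l]; ring

/-- All inner lists have length `n + 1`. -/
def rect (n : ℕ) : List (List Ex) → Bool
  | [] => true
  | l :: ls => Nat.beq l.length (n + 1) && rect n ls

theorem pv_rows {x : ℕ → ℝ} {D N : Ex} {X y : ℝ} {n : ℕ} (hN : N.eval x = X * D.eval x) :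
    ∀ l : List (List Ex), rect n l = true →
      pv x y (l.map (hE D N)) = D.eval x ^ n * pv2 x X y l
  | [], _ => by simp [pv, pv2]
  | r :: rs, h => by
    simp only [rect, Bool.and_eq_true] at h
    simp only [List.map_cons, pv, pv2, eval_hE hN r, pv_rows hN rs h.2, Nat.eq_of_beq_eq_true h.1,
      Nat.add_sub_cancel]
    ring

/-- The substitution of both fractions. -/
def sub2 (DX NX De : Ex) (Ne : List Ex) (l : List (List Ex)) : List Ex :=
  hsub De Ne (l.map (hE DX NX))

theorem bv_sub2 {x : ℕ → ℝ} {θ : ℝ} {DX NX De : Ex} {Ne : List Ex} {X y : ℝ} {n : ℕ}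
    (hX : NX.eval x = X * DX.eval x) (hy : bv x θ Ne = y * De.eval x) {l : List (List Ex)}
    (hl : rect n l = true) :
    bv x θ (sub2 DX NX De Ne l) =
      De.eval x ^ (l.length - 1) * (DX.eval x ^ n * pv2 x X y l) := by
  rw [sub2, bv_hsub hy, pv_rows hX l hl, List.length_map]

end Vale.Agent.P100.Calib.MidTail
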