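import Vale.Agent.P100.Calib.SlabAllEndArgs
import Vale.Agent.P100.Calib.SlabMidTailPoly
import Vale.Agent.P100.Calib.SlabMidTailNumOne
import Vale.Agent.P100.Calib.SlabMidTailNumTwo
import Vale.Agent.P100.Calib.SlabMidTailNumThree

/-!
# The closed forms at `X = d v`, `η = 1 - d H`

The variables are `x₀ = X`, `x₁ = u`, `x₂ = I`, `x₃ = a`, and `θ = η`. With the numbers of
`genSlope`, `cl` tells whether the maximum in its last number is attained at `-1`.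
-/

set_option linter.unusedVariables false
set_option linter.unusedSectionVars false

namespace Vale.Agent.P100.Calib.MidTail

open Pack EndAll

local instance midTailFormsAdd : Add Pack.Ex := ⟨Ex.add⟩
local instance midTailFormsSub : Sub Pack.Ex := ⟨Ex.sub⟩
local instance midTailFormsMul : Mul Pack.Ex := ⟨Ex.mul⟩

def vX : Ex := .var 0
def vU : Ex := .var 1
def vI : Ex := .var 2
def vA : Ex := .var 3
def eS : Ex := .num 1 - .num 2 * vI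
def eB : Ex := eS - vA
def eD : Ex := eB - vA
def eQ : Ex := .num 1 + vX

/-- The atoms. -/
def atoms : List (List Ex) :=
  [[vA], [vI], [vU], [eS], [eB], [eD], [eQ], [.num 2 + vX - vU, .num 2 + vX]]

def fa : Fn := Fn.inv 0 (-1)
def fI : Fn := Fn.inv 1 (-1)
def fiI : Fn := Fn.inv 1 1
def fu : Fn := Fn.inv 2 (-1)
def fiu : Fn := Fn.inv 2 1
def fS : Fn := Fn.inv 3 (-1)
def fiS : Fn := Fn.inv 3 1
def fb : Fn := Fn.inv 4 (-1)
def fib : Fn := Fn.inv 4 1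
def fd : Fn := Fn.inv 5 (-1)
def fid : Fn := Fn.inv 5 1
def fQ : Fn := Fn.inv 6 (-1)
def fiQ : Fn := Fn.inv 6 1
def fiDn : Fn := Fn.inv 7 1
def fX : Fn := Fn.poly [vX]
def fv : Fn := Fn.mul fX fid
def fdv : Fn := fX
def fH : Fn := Fn.mul (Fn.poly [.num 1, .num 0]) fid
def fh0 : Fn := Fn.poly [.num 1 - vU, .num 1]
def fg : Fn :=
  Fn.mul (Fn.mul (Fn.mul (Fn.mul (Fn.int 2)
    (Fn.poly [(.num 2 + vX) * eB - eS * vU * eQ])) fiI) fib) fiDn
def fW : Fn := Fn.mul (Fn.mul (Fn.mul (Fn.int 2) fI) fH) fiS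
def fW1 : Fn :=
  Fn.mul (Fn.mul (Fn.mul (Fn.mul (Fn.mul (Fn.int 2) fI)
    (Fn.add atoms (Fn.sub atoms (Fn.mul (Fn.mul fu fH)
        (Fn.sub atoms fa (Fn.mul (Fn.sub atoms (Fn.int 1) fa) fdv)))
      (Fn.mul (Fn.mul (Fn.add atoms (Fn.int 1) (Fn.mul (Fn.int 2) fI)) (Fn.mul fb fH)) fiS))
      (Fn.add atoms (Fn.int 1) (Fn.mul (Fn.sub atoms (Fn.int 1) fa) fv)))) fiS) fib) fiu
def fR : Fn := Fn.mul (Fn.divNat (Fn.mul fu fS) 2) fiI
def fc : Fn := Fn.mul fa fb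
def fe2 : Fn :=
  Fn.mul (Fn.neg (Fn.sub atoms (Fn.sub atoms (Fn.int 1) (Fn.mul (Fn.int 2) fa)) (Fn.divNat fI 2)))
    fI
def fK : Fn := Fn.mul (Fn.neg (Fn.divNat (Fn.int 5) 2)) fh0
def fEm : Fn :=
  Fn.mul (Fn.add atoms (Fn.mul (Fn.mul (Fn.mul (Fn.neg (Fn.int 2))
    (Fn.sub atoms (Fn.sub atoms (Fn.int 1) (Fn.mul (Fn.int 3) fI))
      (Fn.mul (Fn.mul (Fn.int 2) fa) fa))) fI) fQ) fK) fid
def fG1 : Fn :=
  Fn.mul (Fn.mul (Fn.mul (Fn.mul (Fn.mul (Fn.neg (Fn.divNat (Fn.int 3) 10)) fa)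
    (Fn.mul fh0 fiQ)) fib) fid) fid
def fG : Fn :=
  Fn.sub atoms fG1 (Fn.mul (Fn.mul (Fn.mul (Fn.mul fa
    (Fn.sub atoms (Fn.sub atoms (Fn.int 1) (Fn.mul (Fn.int 3) fa)) fI)) fI) fid) fid)
def fD2 (cl : Bool) : Fn :=
  cond cl (Fn.int 0) (Fn.mul (Fn.mul (Fn.sub atoms (Fn.int 1) (Fn.mul (Fn.mul (Fn.mul
    (Fn.mul (Fn.int 2) fa) (Fn.sub atoms (Fn.int 1) fI)) fiS) fiS)) fid) fid)

/-! ### Real values -/

noncomputable def rS (x : ℕ → ℝ) : ℝ := 1 - 2 * x 2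
noncomputable def rb (x : ℕ → ℝ) : ℝ := 1 - 2 * x 2 - x 3
noncomputable def rd (x : ℕ → ℝ) : ℝ := 1 - 2 * x 2 - x 3 - x 3
noncomputable def rDn (x : ℕ → ℝ) (θ : ℝ) : ℝ := 2 + x 0 - x 1 * (1 - θ)
noncomputable def rv (x : ℕ → ℝ) : ℝ := x 0 * (rd x)⁻¹
noncomputable def rH (x : ℕ → ℝ) (θ : ℝ) : ℝ := (1 - θ) * (rd x)⁻¹
noncomputable def rg (x : ℕ → ℝ) (θ : ℝ) : ℝ :=
  2 * ((2 + x 0) * rb x - rS x * x 1 * (1 + x 0)) * (x 2)⁻¹ * (rb x)⁻¹ * (rDn x θ)⁻¹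
noncomputable def rW (x : ℕ → ℝ) (θ : ℝ) : ℝ := 2 * x 2 * rH x θ * (rS x)⁻¹
noncomputable def rW1 (x : ℕ → ℝ) (θ : ℝ) : ℝ :=
  2 * x 2 * (x 1 * rH x θ * (x 3 - (1 - x 3) * x 0) -
      (1 + 2 * x 2) * (rb x * rH x θ) * (rS x)⁻¹ + (1 + (1 - x 3) * rv x)) *
    (rS x)⁻¹ * (rb x)⁻¹ * (x 1)⁻¹
noncomputable def rR (x : ℕ → ℝ) : ℝ := x 1 * rS x / 2 * (x 2)⁻¹
noncomputable def rh0 (x : ℕ → ℝ) (θ : ℝ) : ℝ := 1 - x 1 * (1 - θ)
noncomputable def rG1 (x : ℕ → ℝ) (θ : ℝ) : ℝ :=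
  -(3 / 10) * x 3 * (rh0 x θ * (1 + x 0)⁻¹) * (rb x)⁻¹ * (rd x)⁻¹ * (rd x)⁻¹

/-- The numbers of the family in these coordinates. -/
noncomputable def rNum (cl : Bool) (x : ℕ → ℝ) (θ : ℝ) : ClosedGen.Num :=
  ⟨x 3 * rb x, -(1 - 2 * x 3 - x 2 / 2) * x 2,
    (-2 * (1 - 3 * x 2 - 2 * x 3 * x 3) * x 2 * (1 + x 0) + -(5 / 2) * rh0 x θ) * (rd x)⁻¹,
    -(5 / 2) * rh0 x θ,
    rG1 x θ - x 3 * (1 - 3 * x 3 - x 2) * x 2 * (rd x)⁻¹ * (rd x)⁻¹,
    rG1 x θ,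
    cond cl 0 ((1 - 2 * x 3 * (1 - x 2) * (rS x)⁻¹ * (rS x)⁻¹) * (rd x)⁻¹ * (rd x)⁻¹)⟩

/-- A closed form in these coordinates. -/
noncomputable def rForm (f : ℝ → ℝ → ℝ → ℝ → ℝ → ℝ → ℝ → ClosedGen.Num → ℝ) (cl : Bool)
    (x : ℕ → ℝ) (θ : ℝ) : ℝ :=
  f (x 3) (rd x) (rv x) (rg x θ) (rW x θ) (rW1 x θ) (rR x) (rNum cl x θ)

/-- A point of the coordinates. -/
structure MPt (x : ℕ → ℝ) (θ : ℝ) : Prop where
  X_pos : 0 < x 0
  u_pos : 0 < x 1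
  I_pos : 0 < x 2
  a_pos : 0 < x 3
  S_pos : 0 < rS x
  d_pos : 0 < rd x
  den_pos : 0 < rDn x θ

section
variable {x : ℕ → ℝ}
theorem ev_add (e f : Ex) : (e + f).eval x = e.eval x + f.eval x := rfl
theorem ev_sub (e f : Ex) : (e - f).eval x = e.eval x - f.eval x := rfl
theorem ev_mul (e f : Ex) : (e * f).eval x = e.eval x * f.eval x := rfl
theorem ev_num (k : ℤ) : (Ex.num k).eval x = (k : ℝ) := rfl
theorem ev_var (i : ℕ) : (Ex.var i).eval x = x i := rfl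
end

namespace MPt

variable {x : ℕ → ℝ} {θ : ℝ} (h : MPt x θ)
include h

theorem b_pos : 0 < rb x := by
  have := h.d_pos; have := h.a_pos; simp only [rd, rb] at *; linarith

theorem Q_pos : 0 < 1 + x 0 := by linarith [h.X_pos]

theorem bv_S : bv x θ [eS] = rS x := by
  simp only [bv, eS, vI, rS, ev_add, ev_sub, ev_mul, ev_num, ev_var, List.length_nil, List.length_cons]
  push_cast; ring

theorem bv_B : bv x θ [eB] = rb x := by
  simp only [bv, eB, eS, vI, vA, rb, ev_add, ev_sub, ev_mul, ev_num, ev_var, List.length_nil, List.length_cons]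
  push_cast; ring

theorem bv_D : bv x θ [eD] = rd x := by
  simp only [bv, eD, eB, eS, vI, vA, rd, ev_add, ev_sub, ev_mul, ev_num, ev_var, List.length_nil, List.length_cons]
  push_cast; ring

theorem bv_Q : bv x θ [eQ] = 1 + x 0 := by
  simp only [bv, eQ, vX, ev_add, ev_sub, ev_mul, ev_num, ev_var, List.length_nil, List.length_cons]
  push_cast; ring

theorem bv_Dn : bv x θ [.num 2 + vX - vU, .num 2 + vX] = rDn x θ := by
  simp only [bv, vX, vU, rDn, ev_add, ev_sub, ev_mul, ev_num, ev_var, List.length_nil, List.length_cons]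
  push_cast; ring

theorem pos : AtomsPos atoms x θ := by
  intro l hl
  simp only [atoms, List.mem_cons, List.not_mem_nil, or_false] at hl
  rcases hl with rfl | rfl | rfl | rfl | rfl | rfl | rfl | rfl
  · simpa [bv, vA, Ex.eval] using h.a_pos
  · simpa [bv, vI, Ex.eval] using h.I_pos
  · simpa [bv, vU, Ex.eval] using h.u_pos
  · rw [h.bv_S]; exact h.S_pos
  · rw [h.bv_B]; exact h.b_pos
  · rw [h.bv_D]; exact h.d_pos
  · rw [h.bv_Q]; exact h.Q_pos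
  · rw [h.bv_Dn]; exact h.den_pos

theorem rinv (i : ℕ) {l : List Ex} {r : ℝ} (hl : atoms[i]? = some l) (e : bv x θ l = r) :
    Rep atoms x θ (Fn.inv i 1) r⁻¹ := by
  have := Rep.inv h.pos i 1 hl
  rwa [e, zpow_one, one_div] at this

theorem ratom (i : ℕ) {l : List Ex} {r : ℝ} (hl : atoms[i]? = some l) (e : bv x θ l = r) :
    Rep atoms x θ (Fn.inv i (-1)) r := by
  have := Rep.inv h.pos i (-1) hl
  rwa [e, zpow_neg_one, one_div, inv_inv] at this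

theorem ra : Rep atoms x θ fa (x 3) := h.ratom 0 rfl (by simp [bv, vA, Ex.eval])
theorem rI : Rep atoms x θ fI (x 2) := h.ratom 1 rfl (by simp [bv, vI, Ex.eval])
theorem riI : Rep atoms x θ fiI (x 2)⁻¹ := h.rinv 1 rfl (by simp [bv, vI, Ex.eval])
theorem ru : Rep atoms x θ fu (x 1) := h.ratom 2 rfl (by simp [bv, vU, Ex.eval])
theorem riu : Rep atoms x θ fiu (x 1)⁻¹ := h.rinv 2 rfl (by simp [bv, vU, Ex.eval])
theorem rS' : Rep atoms x θ fS (rS x) := h.ratom 3 rfl h.bv_S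
theorem riS : Rep atoms x θ fiS (rS x)⁻¹ := h.rinv 3 rfl h.bv_S
theorem rb' : Rep atoms x θ fb (rb x) := h.ratom 4 rfl h.bv_B
theorem rib : Rep atoms x θ fib (rb x)⁻¹ := h.rinv 4 rfl h.bv_B
theorem rd' : Rep atoms x θ fd (rd x) := h.ratom 5 rfl h.bv_D
theorem rid : Rep atoms x θ fid (rd x)⁻¹ := h.rinv 5 rfl h.bv_D
theorem rQ : Rep atoms x θ fQ (1 + x 0) := h.ratom 6 rfl h.bv_Q
theorem riQ : Rep atoms x θ fiQ (1 + x 0)⁻¹ := h.rinv 6 rfl h.bv_Q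
theorem riDn : Rep atoms x θ fiDn (rDn x θ)⁻¹ := h.rinv 7 rfl h.bv_Dn
theorem one' : Rep atoms x θ (Fn.int 1) (1 : ℝ) := Rep.lit_one h.pos
theorem two' : Rep atoms x θ (Fn.int 2) (2 : ℝ) := Rep.natLit h.pos 2
theorem three' : Rep atoms x θ (Fn.int 3) (3 : ℝ) := Rep.natLit h.pos 3

theorem rX : Rep atoms x θ fX (x 0) := (Rep.poly h.pos [vX]).cast (by simp [bv, vX, Ex.eval])

theorem rv' : Rep atoms x θ fv (rv x) := h.rX.mul h.rid

theorem rH' : Rep atoms x θ fH (rH x θ) :=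
  ((Rep.poly h.pos [.num 1, .num 0]).cast (by simp [bv, Ex.eval])).mul h.rid

theorem rh0' : Rep atoms x θ fh0 (rh0 x θ) :=
  (Rep.poly h.pos _).cast (by
    simp only [bv, rh0, vU, ev_add, ev_sub, ev_mul, ev_num, ev_var, List.length_nil, List.length_cons]
    push_cast; ring)

theorem rg' : Rep atoms x θ fg (rg x θ) :=
  (((h.two'.mul ((Rep.poly h.pos _).cast
    (s := (2 + x 0) * rb x - rS x * x 1 * (1 + x 0)) (by
      simp only [bv, rb, rS, eB, eS, eQ, vX, vU, vI, vA, ev_add, ev_sub, ev_mul, ev_num, ev_var, List.length_nil, List.length_cons]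
      push_cast; ring))).mul h.riI).mul h.rib).mul h.riDn

theorem rW' : Rep atoms x θ fW (rW x θ) := ((h.two'.mul h.rI).mul h.rH').mul h.riS

theorem rW1' : Rep atoms x θ fW1 (rW1 x θ) :=
  ((((h.two'.mul h.rI).mul
    ((((h.ru.mul h.rH').mul (h.ra.sub ((h.one'.sub h.ra).mul h.rX))).sub
      (((h.one'.add (h.two'.mul h.rI)).mul (h.rb'.mul h.rH')).mul h.riS)).add
      (h.one'.add ((h.one'.sub h.ra).mul h.rv')))).mul h.riS).mul h.rib).mul h.riu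

theorem rR' : Rep atoms x θ fR (rR x) := ((h.ru.mul h.rS').divLit 2).mul h.riI

theorem rc : Rep atoms x θ fc (x 3 * rb x) := h.ra.mul h.rb'

theorem re2 (cl : Bool) : Rep atoms x θ fe2 (rNum cl x θ).e2 :=
  ((h.one'.sub (h.two'.mul h.ra)).sub (h.rI.divLit 2)).neg.mul h.rI

theorem rK (cl : Bool) : Rep atoms x θ fK (rNum cl x θ).K :=
  ((Rep.natLit h.pos 5).divLit 2).neg.mul h.rh0'

theorem rEm (cl : Bool) : Rep atoms x θ fEm (rNum cl x θ).E :=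
  ((((h.two'.neg.mul ((h.one'.sub (h.three'.mul h.rI)).sub ((h.two'.mul h.ra).mul h.ra))).mul
    h.rI).mul h.rQ).add (h.rK cl)).mul h.rid

theorem rG1' : Rep atoms x θ fG1 (rG1 x θ) :=
  (((((Rep.natLit h.pos 3).divLit 10).neg.mul h.ra).mul (h.rh0'.mul h.riQ)).mul h.rib).mul h.rid
    |>.mul h.rid

theorem rG (cl : Bool) : Rep atoms x θ fG (rNum cl x θ).G :=
  h.rG1'.sub (((((h.ra.mul ((h.one'.sub (h.three'.mul h.ra)).sub h.rI)).mul h.rI).mul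
    h.rid).mul h.rid))

theorem rD2 : ∀ cl : Bool, Rep atoms x θ (fD2 cl) (rNum cl x θ).D2
  | true => (Rep.int h.pos 0).cast (by simp [rNum])
  | false => ((h.one'.sub ((((h.two'.mul h.ra).mul (h.one'.sub h.rI)).mul h.riS).mul h.riS)).mul
      h.rid).mul h.rid

end MPt

end Vale.Agent.P100.Calib.MidTail
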