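import Mathlib

/-!
# Positive minors from dominance after a triangular congruence
-/

namespace Vale.Agent.P100.Calib.MidTail

/-- A strictly dominant symmetric matrix has positive leading minors. -/
theorem minors_of_dom {a b c p q r : ℝ} (ha : |p| + |q| < a) (hb : |p| + |r| < b)
    (hc : |q| + |r| < c) :
    0 < a ∧ 0 < a * b - p ^ 2 ∧
      0 < a * (b * c - r ^ 2) - p * (p * c - r * q) + q * (p * r - b * q) := by
  have hp := abs_nonneg p
  have hq := abs_nonneg q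
  have hr := abs_nonneg r
  have a0 : 0 < a := by linarith
  have h1 : |a * r - p * q| ≤ a * |r| + |p| * |q| := by
    refine (abs_sub _ _).trans ?_
    rw [abs_mul, abs_mul, abs_of_pos a0]
  have m1 : |a * r - p * q| < a * b - p ^ 2 := by
    have e1 := mul_lt_mul_of_pos_left hb a0
    have e2 := mul_le_mul_of_nonneg_left ha.le hp
    rw [← sq_abs p]
    linarith
  have m2 : |a * r - p * q| < a * c - q ^ 2 := by
    have e1 := mul_lt_mul_of_pos_left hc a0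
    have e2 := mul_le_mul_of_nonneg_left ha.le hq
    rw [← sq_abs q]
    linarith
  refine ⟨a0, lt_of_le_of_lt (abs_nonneg _) m1, ?_⟩
  refine pos_of_mul_pos_right (a := a) ?_ a0.le
  have h2 := mul_lt_mul'' m1 m2 (abs_nonneg _) (abs_nonneg _)
  rw [abs_mul_abs_self] at h2
  linarith

/-- The congruent matrix by `[[t₀, t₁, t₂], [0, t₃, t₄], [0, 0, t₅]]`. -/
theorem minors_of_congr {a b c p q r A B C P Q R t₀ t₁ t₂ t₃ t₄ t₅ : ℝ}
    (eA : A = t₀ * t₀ * a) (eP : P = t₀ * t₁ * a + t₀ * t₃ * p)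
    (eQ : Q = t₀ * t₂ * a + t₀ * t₄ * p + t₀ * t₅ * q)
    (eB : B = t₁ * t₁ * a + 2 * t₁ * t₃ * p + t₃ * t₃ * b)
    (eR : R = t₁ * t₂ * a + (t₁ * t₄ + t₃ * t₂) * p + t₁ * t₅ * q + t₃ * t₄ * b + t₃ * t₅ * r)
    (eC : C = t₂ * t₂ * a + t₄ * t₄ * b + t₅ * t₅ * c + 2 * t₂ * t₄ * p + 2 * t₂ * t₅ * q +
      2 * t₄ * t₅ * r)
    (hA : |P| + |Q| < A) (hB : |P| + |R| < B) (hC : |Q| + |R| < C) :
    0 < b ∧ 0 < a * b - p ^ 2 ∧
      0 < a * (b * c - r ^ 2) - p * (p * c - r * q) + q * (p * r - b * q) := by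
  obtain ⟨h0, h1, h2⟩ := minors_of_dom hA hB hC
  subst eA eP eQ eB eR eC
  have a0 : 0 < a := pos_of_mul_pos_right h0 (mul_self_nonneg t₀)
  have m0 : 0 < a * b - p ^ 2 := by
    refine pos_of_mul_pos_right (a := (t₀ * t₃) ^ 2) (lt_of_lt_of_eq h1 ?_) (sq_nonneg _)
    ring
  refine ⟨pos_of_mul_pos_right (a := a) (by linarith [sq_nonneg p]) a0.le, m0, ?_⟩
  refine pos_of_mul_pos_right (a := (t₀ * t₃ * t₅) ^ 2) (lt_of_lt_of_eq h2 ?_) (sq_nonneg _)
  ring

end Vale.Agent.P100.Calib.MidTail
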