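import Vale.Agent.P100.Calib.SlabMidTailRoot
import Vale.Agent.P100.Calib.SlabMidTailPd
import Vale.Agent.P100.Calib.SlabMidTailFast

/-!
# Leaves of a root

On a leaf `X = (L + (H - L) T)/Dx` and `η = (E₀ (1 - θ) + E₁ θ)/De`, with `L, H` affine in
`(a, I, u)` and `E₀, E₁` also in `T`. The surrogates give lower bounds of integer combinations of
the entries; those combinations are the rows of a congruent matrix.
-/

set_option linter.unusedVariables false

namespace Vale.Agent.P100.Calib.MidTail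

open Pack EndAll

/-- A combination of entries. -/
abbrev Comb := List (ℤ × ℕ)

/-- Add one term, joining equal entries. -/
def ins (t : ℤ × ℕ) : Comb → Comb
  | [] => [t]
  | s :: l => cond (Nat.beq s.2 t.2) ((t.1 + s.1, s.2) :: l) (s :: ins t l)

/-- Join equal entries. -/
def merge : Comb → Comb
  | [] => []
  | t :: l => ins t (merge l)

/-- A multiple. -/
def cmul (c : ℤ) : Comb → Comb
  | [] => []
  | t :: l => (c * t.1, t.2) :: cmul c l

/-- The value. -/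
noncomputable def cval (f : ℕ → ℝ) : Comb → ℝ
  | [] => 0
  | t :: l => t.1 * f t.2 + cval f l

theorem cval_append (f : ℕ → ℝ) : ∀ l m : Comb, cval f (l ++ m) = cval f l + cval f m
  | [], m => by simp [cval]
  | t :: l, m => by simp [cval, cval_append f l m]; ring

theorem cval_cmul (f : ℕ → ℝ) (c : ℤ) : ∀ l : Comb, cval f (cmul c l) = c * cval f l
  | [] => by simp [cval, cmul]
  | t :: l => by simp [cval, cmul, cval_cmul f c l]; ring

theorem cval_ins (f : ℕ → ℝ) (t : ℤ × ℕ) : ∀ l : Comb, cval f (ins t l) = t.1 * f t.2 + cval f l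
  | [] => by simp [ins, cval]
  | s :: l => by
    rcases h : Nat.beq s.2 t.2 with _ | _
    · simp [ins, h, cval, cval_ins f t l]; ring
    · simp [ins, h, cval, Nat.eq_of_beq_eq_true h]; ring

theorem cval_merge (f : ℕ → ℝ) : ∀ l : Comb, cval f (merge l) = cval f l
  | [] => rfl
  | t :: l => by simp [merge, cval, cval_ins, cval_merge f l]

/-- The sum of the errors. -/
def cerr (eps : ℕ → ℕ) : Comb → ℕ
  | [] => 0
  | t :: l => t.1.natAbs * eps t.2 + cerr eps l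

/-- All entries are among `ks`. -/
def cin (ks : List ℕ) : Comb → Bool
  | [] => true
  | t :: l => ks.any (Nat.beq t.2) && cin ks l

theorem cval_ge {f g : ℕ → ℝ} {eps : ℕ → ℕ} {ks : List ℕ} (h : ∀ k ∈ ks, |f k - g k| ≤ eps k) :
    ∀ l : Comb, cin ks l = true → cval g l - cerr eps l ≤ cval f l
  | [], _ => by simp [cval, cerr]
  | t :: l, hl => by
    simp only [cin, Bool.and_eq_true, List.any_eq_true] at hl
    obtain ⟨⟨k, hk, e⟩, hl⟩ := hl
    have h1 := h k hk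
    rw [← Nat.eq_of_beq_eq_true e] at h1
    have h2 := cval_ge h l hl
    have h3 : |(t.1 : ℝ) * (f t.2 - g t.2)| ≤ (t.1.natAbs : ℝ) * eps t.2 := by
      rw [abs_mul, Nat.cast_natAbs, Int.cast_abs]
      exact mul_le_mul_of_nonneg_left h1 (abs_nonneg _)
    have h4 := (abs_le.1 h3).1
    simp only [cval, cerr]
    push_cast
    linarith

/-- `(c₀ + c₁ a + c₂ I + c₃ u)`. -/
def lin4 : ℤ × ℤ × ℤ × ℤ → Ex
  | (c0, ca, ci, cu) =>
    .add (.add (.num c0) (.mul (.num ca) (.var 3)))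
      (.add (.mul (.num ci) (.var 2)) (.mul (.num cu) (.var 1)))

/-- The value of `lin4`. -/
def lv4 (a I u : ℝ) : ℤ × ℤ × ℤ × ℤ → ℝ
  | (c0, ca, ci, cu) => c0 + ca * a + ci * I + cu * u

/-- A leaf: charts of `(u, I, a)`, the ends of `X` and of `η`, the multiplier, the congruence. -/
structure Leaf where
  cu : Chart
  cI : Chart
  ca : Chart
  Dx : ℤ
  L : ℤ × ℤ × ℤ × ℤ
  H : ℤ × ℤ × ℤ × ℤ
  De : ℤ
  A0 : ℤ × ℤ × ℤ × ℤ
  B0 : ℤ × ℤ × ℤ × ℤ
  A1 : ℤ × ℤ × ℤ × ℤ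
  B1 : ℤ × ℤ × ℤ × ℤ
  lim : Bool
  zn : ℤ
  zd : ℤ
  t0 : ℤ
  t1 : ℤ
  t2 : ℤ
  t3 : ℤ
  t4 : ℤ
  t5 : ℤ

namespace Leaf

variable (F : Leaf)

/-- The chart of `[0, 1]`. -/
def unit : Chart := ⟨0, 1025, 1, 1024⟩

/-- The box in `(T, u, I, a)`. -/
def box : ℕ → Chart
  | 0 => unit
  | 1 => F.cu
  | 2 => F.cI
  | _ => F.ca

def eL : Ex := lin4 F.L
def eX : Ex := .add (lin4 F.L) (.mul (.var 0) (.sub (lin4 F.H) (lin4 F.L)))
def eE0 : Ex := .add (lin4 F.A0) (.mul (.var 0) (lin4 F.B0))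
def eE1 : Ex := .add (lin4 F.A1) (.mul (.var 0) (lin4 F.B1))

/-- The entries of the matrix, of the multiplier and of the linear sign. -/
def c00 : Comb := cond F.lim [(40, 0), (1280, 14)] [(40 * F.zd, 0), (-400 * F.zn, 7)]
def c11 : Comb := cond F.lim [(8, 1)] [(8 * F.zd, 1)]
def c22 : Comb := cond F.lim [(200, 11)] [(200 * F.zd, 2)]
def c01 : Comb := cond F.lim [(20, 3)] [(20 * F.zd, 3)]
def c02 : Comb := cond F.lim [(400, 12)] [(400 * F.zd, 4)]
def c12 : Comb := cond F.lim [(-80, 15)] [(25 * F.zn, 8)]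
def cN : Comb := cond F.lim [(1, 5), (32, 13)] [(F.zd, 5), (-10 * F.zn, 10)]
def cL : Comb := cond F.lim [] [(5 * F.zn, 9), (16 * F.zd, 6)]

def r00 : Comb := cmul (F.t0 * F.t0) F.c00
def r01 : Comb := cmul (F.t0 * F.t1) F.c00 ++ cmul (F.t0 * F.t3) F.c01
def r02 : Comb :=
  cmul (F.t0 * F.t2) F.c00 ++ cmul (F.t0 * F.t4) F.c01 ++ cmul (F.t0 * F.t5) F.c02
def r11 : Comb :=
  cmul (F.t1 * F.t1) F.c00 ++ cmul (2 * F.t1 * F.t3) F.c01 ++ cmul (F.t3 * F.t3) F.c11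
def r12 : Comb :=
  cmul (F.t1 * F.t2) F.c00 ++ cmul (F.t1 * F.t4 + F.t3 * F.t2) F.c01 ++
    cmul (F.t1 * F.t5) F.c02 ++ cmul (F.t3 * F.t4) F.c11 ++ cmul (F.t3 * F.t5) F.c12
def r22 : Comb :=
  cmul (F.t2 * F.t2) F.c00 ++ cmul (F.t4 * F.t4) F.c11 ++ cmul (F.t5 * F.t5) F.c22 ++
    cmul (2 * F.t2 * F.t4) F.c01 ++ cmul (2 * F.t2 * F.t5) F.c02 ++ cmul (2 * F.t4 * F.t5) F.c12

/-- The four combinations of a row. -/
def rowForms (d p q : Comb) : List (Comb × ℕ) :=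
  [(d ++ p ++ q, 1), (d ++ p ++ cmul (-1) q, 1), (d ++ cmul (-1) p ++ q, 1),
    (d ++ cmul (-1) p ++ cmul (-1) q, 1)]

/-- All combinations, each with its margin. -/
def forms : List (Comb × ℕ) :=
  rowForms F.r00 F.r01 F.r02 ++ rowForms F.r11 F.r01 F.r12 ++ rowForms F.r22 F.r02 F.r12 ++
    [(F.cN, 0), (F.cL, 0)]

variable (R : Root)

/-- The numerator of a chart in a packing variable. -/
def cnum (i : ℕ) (C : Chart) : Ex := .add (.num C.a) (.mul (.num C.b) (.var i))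

/-- Its denominator. -/
def cden (i : ℕ) (C : Chart) : Ex := .add (.num C.c) (.mul (.num C.d) (.var i))

/-- The product of the denominators of `a, I, u`. -/
def d3 : Ex := .mul (.mul (cden 4 F.ca) (cden 3 F.cI)) (cden 2 F.cu)

/-- An affine form in `(a, I, u)`, times `d3`. -/
def lh : ℤ × ℤ × ℤ × ℤ → Ex
  | (c0, ca, ci, cu) =>
    .add
      (.add (.mul (.num c0) F.d3)
        (.mul (.num ca) (.mul (.mul (cnum 4 F.ca) (cden 3 F.cI)) (cden 2 F.cu))))
      (.add (.mul (.num ci) (.mul (.mul (cden 4 F.ca) (cnum 3 F.cI)) (cden 2 F.cu)))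
        (.mul (.num cu) (.mul (.mul (cden 4 F.ca) (cden 3 F.cI)) (cnum 2 F.cu))))

/-- `A + T B`, times `d3` and the denominator of `T`. -/
def lt2 (A B : Ex) : Ex := .add (.mul A (cden 1 unit)) (.mul (cnum 1 unit) B)

/-- The substitution of the leaf, in packing variables `(θ, T, u, I, a)`. -/
def pk : Sub where
  NA := .sub (.mul (.num (R.p 3)) (cnum 4 F.ca)) (.mul (.num (R.q 3)) (cden 4 F.ca))
  DA := cden 4 F.ca
  NI := .sub (.mul (.num (R.p 2)) (cnum 3 F.cI)) (.mul (.num (R.q 2)) (cden 3 F.cI))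
  DI := cden 3 F.cI
  NU := .sub (.mul (.num (R.p 1)) (cnum 2 F.cu)) (.mul (.num (R.q 1)) (cden 2 F.cu))
  DU := cden 2 F.cu
  NX := .sub (.mul (.num (R.p 0)) (lt2 (F.lh F.L) (.sub (F.lh F.H) (F.lh F.L))))
    (.mul (.num (R.q 0 * F.Dx)) (.mul F.d3 (cden 1 unit)))
  DX := .mul (.num F.Dx) (cden 1 unit)
  NE := .mul (.num F.Dx) (.sub
    (.mul (.num (R.p 4)) (.add (.mul (lt2 (F.lh F.A0) (F.lh F.B0)) (cden 0 unit))
      (.mul (cnum 0 unit) (.sub (lt2 (F.lh F.A1) (F.lh F.B1)) (lt2 (F.lh F.A0) (F.lh F.B0))))))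
    (.mul (.num (R.q 4 * F.De)) (.mul (.mul F.d3 (cden 1 unit)) (cden 0 unit))))
  DE := .mul (.num F.De) (cden 0 unit)

/-- The entries used. -/
def used : List ℕ :=
  cond F.lim [0, 1, 3, 5, 11, 12, 13, 14, 15] [0, 1, 2, 3, 4, 5, 6, 7, 8, 9, 10]

/-- One combination passes. -/
noncomputable def okForm (K : ℕ) (c : Comb × ℕ) : Bool :=
  cin F.used (merge c.1) &&
    (F.pk R).check K R.sur ((cerr R.eps (merge c.1) + c.2 : ℕ) : ℤ) (merge c.1)

/-- One chart inside another. -/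
def sub1 (A B : Chart) : Bool :=
  decide (0 < A.c ∧ 0 < B.c ∧ 0 < A.d ∧ 0 < B.d ∧ B.a * A.c ≤ A.a * B.c ∧
    A.b * B.d ≤ B.b * A.d ∧ 0 < B.c * B.b - B.a * B.d)

/-- The leaf lies on its root. -/
noncomputable def okPlace (K : ℕ) : Bool :=
  decide (0 < F.Dx ∧ 0 < F.De ∧ 0 < R.De ∧ R.e0 < R.e1 ∧ 0 < R.den ∧ 0 < (R.box 0).c ∧
      0 < (R.box 0).c * (R.box 0).b - (R.box 0).a * (R.box 0).d) &&
    (decide (F.lim = true ∨ 0 < F.zd) &&
    (sub1 F.cu (R.box 1) && (sub1 F.cI (R.box 2) && (sub1 F.ca (R.box 3) &&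
    posList F.box K
      [.sub (.mul F.eX (.num (R.box 0).c)) (.num ((R.box 0).a * F.Dx)),
        .sub (.num ((R.box 0).b * F.Dx - 1)) (.mul F.eX (.num (R.box 0).d)),
        .sub (.mul (.num R.De) F.eE0) (.num (R.e0 * F.De)),
        .sub (.num (R.e1 * F.De)) (.mul (.num R.De) F.eE0),
        .sub (.mul (.num R.De) F.eE1) (.num (R.e0 * F.De)),
        .sub (.num (R.e1 * F.De)) (.mul (.num R.De) F.eE1)]))))

/-- The whole leaf. -/
noncomputable def okLeaf (K : ℕ) : Bool := F.okPlace R K && F.forms.all (F.okForm R K)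

end Leaf

end Vale.Agent.P100.Calib.MidTail
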