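import Vale.Agent.P100.Calib.SlabMidTailPlace
import Vale.Agent.P100.Calib.SlabMidData
import Vale.Agent.P100.Calib.SlabMidCornerExpr

/-!
# The data of the ranges of dimensions in the middle tail
-/

namespace Vale.Agent.P100.Calib.MidTail

open Band

/-- The coefficients of an exit bracket. -/
def exitL (e : MidExit) : List MidFour := [e.e0, e.e1, e.e2]

/-- The coefficients of a cubic bracket. -/
def cubicL (e : MidCubic) : List MidFour := [e.e0, e.e1, e.e2, e.e3]

/-- `12 ≤ N ≤ 20`. -/
def pieceA : Piece := ⟨midLowA, midUpA, [exitL midExitA]⟩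

/-- `250/27 < N ≤ 12`. -/
def pieceB : Piece := ⟨midLowB, midUpB, [exitL midExitB]⟩

/-- `7 ≤ N ≤ 250/27`. -/
def pieceC : Piece := ⟨midLowC, midUpC, [exitL midExitC, exitL midExitD]⟩

/-- The corner `3/10 ≤ a`, `N ≤ 50/7`. -/
def pieceCor : Piece :=
  ⟨midLowD, midUpC, [exitL midExitC, exitL midExitD, cubicL midExitE]⟩

end Vale.Agent.P100.Calib.MidTail
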