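import Vale.Agent.P100.Calib.SlabMidTailSound
import Vale.Agent.P100.Calib.SlabMidDefs
import Vale.Agent.P100.Calib.SlabMidCornerExpr

/-!
# Placing a point of an orbit on a leaf

The bands, the exit curves and the facts of the chart bound `X` between two affine forms and `η`
between two forms affine in `(a, I, u)` and in the position of `X`. Each bound is a nonnegative
combination of two facts, checked on the box.
-/

set_option linter.unusedVariables false

namespace Vale.Agent.P100.Calib.MidTail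

open Pack EndAll Band

/-- The data of one range of dimensions: the two bands and the exit brackets. -/
structure Piece where
  lo : MidBand
  up : MidBand
  ex : List (List MidFour)

/-- The numerator of a band times `d`. -/
noncomputable def nbV (c : MidBand) (a I u X : ℝ) : ℝ :=
  (1 - 2 * I - a - a) * (1000 + I * midPsi c I a u) + midK c I a (1 - 2 * I - a) u * X

/-- A bracket. -/
noncomputable def brV (l : List MidFour) (a I u : ℝ) : ℝ := rpv (fun c => midFour c I a) u l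

/-- `(2 + X) b - S u (1 + X)`. -/
noncomputable def gnV (a I u X : ℝ) : ℝ :=
  (2 + X) * (1 - 2 * I - a) - (1 - 2 * I) * u * (1 + X)

/-- What is known at a point of an orbit. -/
structure Facts (P : Piece) (a I u X η : ℝ) : Prop where
  X_pos : 0 < X
  u_pos : 0 < u
  u_lt : u < 1
  I_pos : 0 < I
  I_le : I ≤ a
  d_pos : 0 < 1 - 2 * I - a - a
  eta_pos : 0 < η
  eta_lt : η < 1
  crit : 2 * I * (1 - 2 * I - a - a) < X * (1 + 2 * a * I)
  r_lt : a * X < 1 - 2 * I - a - a
  kap : (1 - 2 * I) * X < 2 * I * 1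
  drift : (1 - 2 * I) * (1 - 2 * I - a - a - a * X) * (2 + X - u * (1 - η)) <
    gnV a I u X * (1 - η)
  ev : (1 - 2 * I) * (1 - u) * (1 - 2 * I - a) * (2 + X - u * (1 - η)) <
    (1 - u * (1 - η)) * gnV a I u X
  up : (1 - η) * (1000 * (1 - 2 * I - a - u * a)) < nbV P.up a I u X
  low : nbV P.lo a I u X < (1 - η) * (1000 * (1 - 2 * I - a - u * a))
  exits : ∀ l ∈ P.ex, X * brV l a I u < 2000 * I * (1 - 2 * I - a - a)

section

variable {P : Piece} {a I u X η : ℝ}

theorem Facts.gn_pos (h : Facts P a I u X η) : 0 < gnV a I u X := by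
  have := h.r_lt
  have hX := h.X_pos
  have hS : 0 < 1 - 2 * I := by linarith [h.d_pos, h.I_le, h.I_pos]
  have : 0 ≤ (1 - u) * ((1 - 2 * I) * (1 + X)) :=
    mul_nonneg (by linarith [h.u_lt]) (mul_nonneg hS.le (by linarith))
  rw [gnV]
  linarith

theorem Facts.gn_sub_pos (h : Facts P a I u X η) :
    0 < gnV a I u X - (1 - 2 * I) * (1 - u) * (1 - 2 * I - a) := by
  have := h.r_lt
  have hX := h.X_pos
  have hS : 0 < 1 - 2 * I := by linarith [h.d_pos, h.I_le, h.I_pos]
  have : 0 ≤ (1 - u) * ((1 - 2 * I) * (1 + X - (1 - 2 * I - a))) :=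
    mul_nonneg (by linarith [h.u_lt]) (mul_nonneg hS.le (by linarith [h.I_pos, h.I_le]))
  rw [gnV]
  linarith

end

/-! ### The expressions, in `(T, u, I, a)` -/

namespace PlaceEx

def pU : Ex := .var 1
def pI : Ex := .var 2
def pA : Ex := .var 3
def pS : Ex := .sub (.num 1) (.mul (.num 2) pI)
def pBb : Ex := .sub pS pA
def pDd : Ex := .sub pBb pA
def four (c : MidFour) : Ex :=
  .add (.add (.num c.c0) (.mul (.num c.c1) pA))
    (.add (.mul (.num c.c2) pI) (.mul (.num c.c3) (.mul pA pI)))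
def six (c : MidSix) : Ex :=
  .add (.add (.add (.num c.c0) (.mul (.num c.c1) pA)) (.add (.mul (.num c.c2) pI)
    (.mul (.num c.c3) (.mul pA pA))))
    (.add (.mul (.num c.c4) (.mul pA pI)) (.mul (.num c.c5) (.mul pI pI)))
def pol : List Ex → Ex := hor pU
def psi (c : MidBand) : Ex := pol [six c.p0, six c.p1, six c.p2, six c.p3]
def slp (c : MidBand) : Ex :=
  .sub (.mul (.num 1000) pBb) (.mul pI (pol [four c.t0, four c.t1, four c.t2]))
def pole : Ex := .mul (.num 1000) (.sub pBb (.mul pU pA))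

variable (Dx : ℤ) (Xn : Ex)

def nb (c : MidBand) : Ex :=
  .add (.mul (.mul (.num Dx) pDd) (.add (.num 1000) (.mul pI (psi c)))) (.mul (slp c) Xn)
def gn : Ex :=
  .sub (.mul (.add (.num (2 * Dx)) Xn) pBb) (.mul (.mul pS pU) (.add (.num Dx) Xn))
def qH : Ex := .sub (.mul (.num Dx) pDd) (.mul pA Xn)
def cD : Ex := .add (gn Dx Xn) (.mul (.mul pS pU) (qH Dx Xn))
def rD : Ex := .mul (.mul pS (qH Dx Xn)) (.add (.num (2 * Dx)) Xn)
def cE : Ex :=
  .sub (.mul pU (gn Dx Xn)) (.mul (.mul (.mul pS (.sub (.num 1) pU)) (.mul pBb pU)) (.num Dx))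
def e0 : Ex :=
  .sub (.mul (.sub (.num 1) pU) (gn Dx Xn))
    (.mul (.mul (.mul pS (.sub (.num 1) pU)) pBb)
      (.sub (.add (.num (2 * Dx)) Xn) (.mul pU (.num Dx))))

end PlaceEx

open PlaceEx

/-- The nonnegative quantities used to bound `X` from above. -/
def highK (P : Piece) (Dx : ℤ) (Xn : Ex) : ℕ → Ex
  | 0 => .add (.mul (.mul pole (e0 Dx Xn)) (.num Dx))
      (.mul (cE Dx Xn) (.sub (.mul pole (.num Dx)) (nb Dx Xn P.lo)))
  | 1 => .mul (.num (1000 * Dx)) (.sub (.mul (.num (2 * Dx)) pI) (.mul pS Xn))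
  | k + 2 => .mul (.num Dx) (.sub (.mul (.mul (.num (2000 * Dx)) pI) pDd)
      (.mul Xn (pol ((P.ex.getD k []).map four))))

/-- Minus a combination. -/
def negComb (w : ℤ × ℤ) (e f : Ex) : Ex :=
  .sub (.num 0) (.add (.mul (.num w.1) e) (.mul (.num w.2) f))

/-- The weights are admissible. -/
def wOk (w : ℤ × ℤ) : Bool := decide (0 ≤ w.1 ∧ 0 ≤ w.2 ∧ 0 < w.1 + w.2)

/-- The weights of the bounds of `η` on a leaf. -/
structure Cert where
  w0 : ℤ × ℤ
  w1 : ℤ × ℤ

/-- The box of a leaf in `(T, u, I, a)`, the bound of `η` below. -/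
def lowE (P : Piece) (F : Leaf) (w : ℤ × ℤ) : Ex :=
  negComb w
    (.sub (.mul (.mul F.eE0 pole) (.num F.Dx))
      (.mul (.num F.De) (.sub (.mul pole (.num F.Dx)) (nb F.Dx F.eX P.up))))
    (.mul (.num 1000) (.add (.mul F.eE0 (cE F.Dx F.eX)) (.mul (.num F.De) (e0 F.Dx F.eX))))

/-- The bound of `η` above. -/
def highE (P : Piece) (F : Leaf) (w : ℤ × ℤ) : Ex :=
  negComb w
    (.mul (.num F.Dx) (.sub (.mul (.mul (.sub (.num F.De) F.eE1) pole) (.num F.Dx))
      (.mul (.num F.De) (nb F.Dx F.eX P.lo))))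
    (.mul (.num 1000) (.sub (.mul (.mul (.sub (.num F.De) F.eE1) (cD F.Dx F.eX)) (.num F.Dx))
      (.mul (.num F.De) (rD F.Dx F.eX))))

/-- The bounds of `η` hold on a leaf. -/
noncomputable def okCert (P : Piece) (K : ℕ) (F : Leaf) (c : Cert) : Bool :=
  decide (0 < F.Dx ∧ 0 < F.De) &&
    ((decide (F.A0 = (0, 0, 0, 0) ∧ F.B0 = (0, 0, 0, 0)) ||
      (wOk c.w0 && checkAuto F.box K (lowE P F c.w0))) &&
    (wOk c.w1 && checkAuto F.box K (highE P F c.w1)))

/-- A box of `(u, I, a)`, the ends of `X`, their weights and the leaves between them. -/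
structure Tile where
  cu : Chart
  cI : Chart
  ca : Chart
  Dx : ℤ
  L : ℤ × ℤ × ℤ × ℤ
  H : ℤ × ℤ × ℤ × ℤ
  top : ℤ
  wl : ℤ × ℤ
  wh : ℤ × ℤ
  k1 : ℕ
  k2 : ℕ
  head : Leaf × Cert
  rest : List (Leaf × Cert)

namespace Tile

variable (t : Tile) (P : Piece)

/-- The box in `(T, u, I, a)`. -/
def box : ℕ → Chart
  | 0 => Leaf.unit
  | 1 => t.cu
  | 2 => t.cI
  | _ => t.ca

/-- `X` between `0` and the lower end. -/
def lowX : Ex := .mul (.var 0) (lin4 t.L)

/-- `X` between the upper end and the top. -/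
def highX : Ex :=
  .add (lin4 t.H) (.mul (.var 0) (.sub (.num t.top) (lin4 t.H)))

/-- The bound of `X` below. -/
def lowCert : Ex :=
  negComb t.wl
    (.sub (.mul (cD t.Dx t.lowX) (nb t.Dx t.lowX P.up)) (.mul pole (rD t.Dx t.lowX)))
    (.mul (.num (1000 * t.Dx)) (.sub (.mul (.add (.num 1) (.mul (.num 2) (.mul pI pA))) t.lowX)
      (.mul (.mul (.num (2 * t.Dx)) pI) pDd)))

/-- The bound of `X` above. -/
def highCert : Ex :=
  negComb t.wh (highK P t.Dx t.highX t.k1) (highK P t.Dx t.highX t.k2)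

/-- The leaves follow one another. -/
def chain : ℤ × ℤ × ℤ × ℤ → List (Leaf × Cert) → Bool
  | prev, [] => decide (prev = t.H)
  | prev, F :: l => decide (F.1.L = prev) && chain F.1.H l

/-- A leaf lies on the box and has certified bounds. -/
noncomputable def okKid (K : ℕ) (F : Leaf × Cert) : Bool :=
  decide (F.1.Dx = t.Dx) && (Leaf.sub1 t.cu F.1.cu && (Leaf.sub1 t.cI F.1.cI &&
    (Leaf.sub1 t.ca F.1.ca && okCert P K F.1 F.2)))

/-- The whole test. -/
noncomputable def ok (K : ℕ) : Bool :=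
  decide (0 < t.Dx ∧ 0 < t.cI.c ∧ 0 < t.cI.d) && (wOk t.wl && (wOk t.wh &&
    (decide (2 * t.cI.b * t.Dx ≤ t.top * (t.cI.d - 2 * t.cI.b) ∧ 0 < t.cI.d - 2 * t.cI.b) &&
    (checkAuto t.box K (t.lowCert P) && (checkAuto t.box K (t.highCert P) &&
    (decide (t.head.1.L = t.L) && (chain t t.head.1.H t.rest &&
      all' (okKid t P K) (t.head :: t.rest))))))))

/-- The leaves. -/
def leaves : List Leaf := t.head.1 :: t.rest.map Prod.fst

end Tile

section

variable {P : Piece} {a I u X η : ℝ} {K : ℕ}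

theorem box_point {F0 cu cI ca : Chart} {T : ℝ} (h0 : In1 F0 T) (hu : In1 cu u) (hI : In1 cI I)
    (ha : In1 ca a) {C : ℕ → Chart} (e0 : C 0 = F0) (e1 : C 1 = cu) (e2 : C 2 = cI)
    (e3 : C 3 = ca) : ∀ i < 4, ∃ t : ℝ, 0 ≤ t ∧ 0 < ((C i).c : ℝ) + (C i).d * t ∧
      ((C i).a : ℝ) + (C i).b * t = mk4 T u I a i * (((C i).c : ℝ) + (C i).d * t) := by
  intro i hi
  interval_cases i
  · rw [e0]; exact h0.point
  · rw [e1]; exact hu.point
  · rw [e2]; exact hI.point
  · rw [e3]; exact ha.point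

theorem unit_mem {T : ℝ} (h0 : 0 ≤ T) (h1 : T ≤ 1) : In1 Leaf.unit T :=
  ⟨by norm_num [Leaf.unit], by norm_num [Leaf.unit, h0], by norm_num [Leaf.unit]; linarith⟩

theorem pol_eval (x : ℕ → ℝ) (l : List MidFour) :
    (pol (l.map four)).eval x = rpv (fun c => midFour c (x 2) (x 3)) (x 1) l := by
  rw [pol, eval_hor, rpv_map]
  congr 1
  funext c
  simp only [four, midFour, pA, pI, Ex.eval]
  ring

theorem nb_eval (x : ℕ → ℝ) (Dx : ℤ) (Xn : Ex) (c : MidBand) {X : ℝ}
    (hX : Xn.eval x = X * Dx) :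
    (nb Dx Xn c).eval x = (Dx : ℝ) * nbV c (x 3) (x 2) (x 1) X := by
  simp only [nb, psi, slp, pol, eval_hor, pv, six, four, pDd, pBb, pS, pA, pI, pU, Ex.eval, hX,
    nbV, midPsi, midK, midSix, midFour]
  push_cast
  ring

theorem comb_pos {w : ℤ × ℤ} (hw : wOk w = true) {g₁ g₂ : ℝ} (h1 : 0 < g₁) (h2 : 0 < g₂) :
    0 < (w.1 : ℝ) * g₁ + w.2 * g₂ := by
  simp only [wOk, decide_eq_true_eq] at hw
  obtain ⟨w1, w2, w3⟩ := hw
  have e1 : (0 : ℝ) ≤ w.1 := Int.cast_nonneg w1
  have e2 : (0 : ℝ) ≤ w.2 := Int.cast_nonneg w2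
  have e3 : (0 : ℝ) < w.1 + w.2 := by exact_mod_cast w3
  rcases e1.lt_or_eq with h | h
  · exact add_pos_of_pos_of_nonneg (mul_pos h h1) (mul_nonneg e2 h2.le)
  · rw [← h] at e3 ⊢
    rw [zero_mul, zero_add]
    exact mul_pos (by linarith) h2

namespace Facts

variable (hf : Facts P a I u X η)

include hf

/-- The quantity `k` is positive. -/
theorem high_pos {Dx : ℤ} (hD : 0 < Dx) {Xn : Ex} {x : ℕ → ℝ} (h1 : x 1 = u) (h2 : x 2 = I)
    (h3 : x 3 = a) (hX : Xn.eval x = X * Dx) : ∀ k, 0 < (highK P Dx Xn k).eval x := by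
  have hD' : (0 : ℝ) < Dx := Int.cast_pos.2 hD
  intro k
  match k with
  | 0 =>
    have g := hf.gn_sub_pos
    have e := hf.ev
    have cE0 : 0 < u * (gnV a I u X - (1 - 2 * I) * (1 - u) * (1 - 2 * I - a)) :=
      mul_pos hf.u_pos g
    have E0 : 0 < 1000 * (1 - 2 * I - a - u * a) := by
      have : 0 ≤ (1 - u) * a := mul_nonneg (by linarith [hf.u_lt]) (by linarith [hf.I_le, hf.I_pos])
      linarith [hf.d_pos]
    have key : 0 < (1000 * (1 - 2 * I - a - u * a)) * ((1 - u) * gnV a I u X -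
        (1 - 2 * I) * (1 - u) * (1 - 2 * I - a) * (2 + X - u)) +
        u * (gnV a I u X - (1 - 2 * I) * (1 - u) * (1 - 2 * I - a)) *
          (1000 * (1 - 2 * I - a - u * a) - nbV P.lo a I u X) := by
      have l1 := mul_lt_mul_of_pos_left hf.low cE0
      have l2 : 0 < 1000 * (1 - 2 * I - a - u * a) * ((1 - u * (1 - η)) * gnV a I u X -
          (1 - 2 * I) * (1 - u) * (1 - 2 * I - a) * (2 + X - u * (1 - η))) :=
        mul_pos E0 (sub_pos.2 e)
      nlinarith [l1, l2]
    refine lt_of_lt_of_eq (mul_pos (mul_pos hD' hD') key) ?_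
    simp only [highK, nb_eval x Dx Xn P.lo hX, pole, e0, cE, gn, pS, pBb, pA, pI, pU, Ex.eval, hX,
      h1, h2, h3, gnV]
    push_cast
    ring
  | 1 =>
    refine lt_of_lt_of_eq (mul_pos (mul_pos hD' hD')
      (mul_pos (show (0 : ℝ) < 1000 by norm_num) (sub_pos.2 hf.kap))) ?_
    simp only [highK, pS, pI, Ex.eval, hX, h2]
    push_cast
    ring
  | j + 2 =>
    have hd := hf.d_pos
    have hI := hf.I_pos
    have hb : X * brV (P.ex.getD j []) a I u < 2000 * I * (1 - 2 * I - a - a) := by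
      rcases lt_or_ge j P.ex.length with hj | hj
      · rw [List.getD_eq_getElem _ _ hj]
        exact hf.exits _ (List.getElem_mem hj)
      · rw [List.getD_eq_default _ _ hj, brV, rpv, mul_zero]
        positivity
    refine lt_of_lt_of_eq (mul_pos (mul_pos hD' hD') (sub_pos.2 hb)) ?_
    simp only [highK, pDd, pBb, pS, pA, pI, Ex.eval, hX, pol_eval, h1, h2, h3, brV]
    push_cast
    ring

end Facts

namespace Tile

variable {t : Tile}

theorem X_bounds (h : t.ok P K = true) (hf : Facts P a I u X η) (hu : In1 t.cu u)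
    (hI : In1 t.cI I) (ha : In1 t.ca a) :
    lv4 a I u t.L ≤ X * t.Dx ∧ X * t.Dx ≤ lv4 a I u t.H := by
  simp only [ok, Bool.and_eq_true, decide_eq_true_eq] at h
  obtain ⟨⟨hD, hc, hdd⟩, hwl, hwh, ⟨htop, hS⟩, hlc, hhc, -⟩ := h
  have hD' : (0 : ℝ) < t.Dx := Int.cast_pos.2 hD
  have hXD : 0 < X * t.Dx := mul_pos hf.X_pos hD'
  have el : ∀ (x : ℕ → ℝ) (q : ℤ × ℤ × ℤ × ℤ), (lin4 q).eval x = lv4 (x 3) (x 2) (x 1) q :=
    fun x q => Leaf.eval_lin4 x q
  constructor <;> by_contra hlt <;> rw [not_le] at hlt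
  · have hL : 0 < lv4 a I u t.L := hXD.trans hlt
    obtain ⟨T, hT⟩ : ∃ T : ℝ, T = X * t.Dx / lv4 a I u t.L := ⟨_, rfl⟩
    have hT0 : 0 ≤ T := hT ▸ (div_pos hXD hL).le
    have hT1 : T ≤ 1 := by rw [hT, div_le_one hL]; exact hlt.le
    have hXn : t.lowX.eval (mk4 T u I a) = X * t.Dx := by
      simp only [lowX, Ex.eval, el, mk4]
      rw [hT, div_mul_cancel₀ _ hL.ne']
    have g := nonneg_of_checkAuto hlc
      (box_point (C := t.box) (unit_mem hT0 hT1) hu hI ha rfl rfl rfl rfl)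
    have c0 : 0 < gnV a I u X + (1 - 2 * I) * u * (1 - 2 * I - a - a - a * X) := by
      have := hf.gn_pos
      have : 0 ≤ (1 - 2 * I) * u * (1 - 2 * I - a - a - a * X) :=
        mul_nonneg (mul_nonneg (by linarith [hf.d_pos, hf.I_le, hf.I_pos]) hf.u_pos.le)
          (by linarith [hf.r_lt])
      linarith
    have E0 : 0 < 1000 * (1 - 2 * I - a - u * a) := by
      have : 0 ≤ (1 - u) * a := mul_nonneg (by linarith [hf.u_lt]) (by linarith [hf.I_le, hf.I_pos])
      linarith [hf.d_pos]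
    have key : 0 < (gnV a I u X + (1 - 2 * I) * u * (1 - 2 * I - a - a - a * X)) *
          nbV P.up a I u X -
        1000 * (1 - 2 * I - a - u * a) * ((1 - 2 * I) * (1 - 2 * I - a - a - a * X) * (2 + X)) := by
      have l1 := mul_lt_mul_of_pos_left hf.up c0
      have l2 := mul_lt_mul_of_pos_left hf.drift E0
      nlinarith [l1, l2]
    have k2 : 0 < 1000 * ((1 + 2 * (I * a)) * X - 2 * I * (1 - 2 * I - a - a)) := by
      linarith [hf.crit]
    have := comb_pos hwl (mul_pos (mul_pos hD' hD') key) (mul_pos (mul_pos hD' hD') k2)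
    simp only [lowCert, negComb, nb_eval _ t.Dx t.lowX P.up hXn, cD, rD, qH, gn, pole, pDd, pBb, pS,
      pA, pI, pU, Ex.eval, hXn, mk4] at g
    simp only [gnV] at this
    push_cast at g
    linarith
  · have htop' : X * t.Dx < t.top := by
      have e1 : (I : ℝ) * t.cI.d < t.cI.b := hI.high
      have e2 : (2 * t.cI.b * t.Dx : ℝ) ≤ t.top * (t.cI.d - 2 * t.cI.b) := by exact_mod_cast htop
      have e3 : (0 : ℝ) < (t.cI.d : ℝ) - 2 * t.cI.b := by exact_mod_cast hS
      have hk := hf.kap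
      have hdR : (0 : ℝ) < t.cI.d := Int.cast_pos.2 hdd
      by_contra hn
      rw [not_lt] at hn
      have a1 : (t.top : ℝ) * (t.cI.d - 2 * t.cI.b) ≤ X * t.Dx * (t.cI.d - 2 * t.cI.b) :=
        mul_le_mul_of_nonneg_right hn e3.le
      have a2 : X * (t.cI.d - 2 * t.cI.b) < X * ((1 - 2 * I) * t.cI.d) :=
        mul_lt_mul_of_pos_left (by linarith) hf.X_pos
      have a3 : (1 - 2 * I) * X * t.cI.d < 2 * I * t.cI.d := by
        have := mul_lt_mul_of_pos_right hk hdR
        linarith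
      have a4 : X * t.Dx * (t.cI.d - 2 * t.cI.b) < 2 * t.cI.b * t.Dx := by
        have : X * (t.cI.d - 2 * t.cI.b) < 2 * t.cI.b := by linarith
        have := mul_lt_mul_of_pos_right this hD'
        linarith
      linarith
    obtain ⟨T, hT0, hT1, hT⟩ := exists_mix' hlt.le htop'.le
    have hXn : t.highX.eval (mk4 T u I a) = X * t.Dx := by
      simp only [highX, Ex.eval, el, mk4]
      exact hT
    have g := nonneg_of_checkAuto hhc
      (box_point (C := t.box) (unit_mem hT0 hT1) hu hI ha rfl rfl rfl rfl)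
    have := comb_pos hwh (hf.high_pos hD (x := mk4 T u I a) rfl rfl rfl hXn t.k1)
      (hf.high_pos hD (x := mk4 T u I a) rfl rfl rfl hXn t.k2)
    simp only [highCert, negComb, Ex.eval] at g
    push_cast at g
    linarith

theorem on_kid (h : t.ok P K = true) (hf : Facts P a I u X η) (hu : In1 t.cu u)
    (hI : In1 t.cI I) (ha : In1 t.ca a) {F : Leaf × Cert} (hF : F ∈ t.head :: t.rest)
    (hl : lv4 a I u F.1.L ≤ X * t.Dx) (hh : X * t.Dx ≤ lv4 a I u F.1.H) :
    F.1.On a I u X η := by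
  simp only [ok, Bool.and_eq_true, decide_eq_true_eq] at h
  obtain ⟨-, -, -, -, -, -, -, -, hall⟩ := h
  have hk := of_all' hall F hF
  simp only [okKid, okCert, Bool.and_eq_true, Bool.or_eq_true, decide_eq_true_eq] at hk
  obtain ⟨hDx, su, sI, sa, ⟨hD, hDe⟩, hlo, hwh, hhi⟩ := hk
  have hu' := hu.mono su
  have hI' := hI.mono sI
  have ha' := ha.mono sa
  rw [← hDx] at hl hh
  have hD' : (0 : ℝ) < F.1.Dx := Int.cast_pos.2 hD
  have hDe' : (0 : ℝ) < F.1.De := Int.cast_pos.2 hDe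
  have E0 : 0 < 1000 * (1 - 2 * I - a - u * a) := by
    have : 0 ≤ (1 - u) * a := mul_nonneg (by linarith [hf.u_lt]) (by linarith [hf.I_le, hf.I_pos])
    linarith [hf.d_pos]
  refine ⟨ha', hI', hu', hl, hh, fun T hT0 hT1 hT => ?_, fun T hT0 hT1 hT => ?_⟩
  · rcases hlo with ⟨e1, e2⟩ | ⟨hw0, hc⟩
    · rw [e1, e2]
      simp only [lv4, Int.cast_zero, zero_mul, add_zero, mul_zero]
      exact (mul_pos hf.eta_pos hDe').le
    by_contra hlt
    rw [not_le] at hlt
    have g := nonneg_of_checkAuto hc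
      (box_point (C := F.1.box) (unit_mem hT0 hT1) hu' hI' ha' rfl rfl rfl rfl)
    have hXn : F.1.eX.eval (mk4 T u I a) = X * F.1.Dx := by
      simp only [Leaf.eX, Ex.eval, Leaf.eval_lin4, mk4]; exact hT
    have hA : F.1.eE0.eval (mk4 T u I a) = lv4 a I u F.1.A0 + T * lv4 a I u F.1.B0 := by
      simp only [Leaf.eE0, Ex.eval, Leaf.eval_lin4, mk4]
    simp only [lowE, negComb, nb_eval _ F.1.Dx F.1.eX P.up hXn, cE, e0, gn, pole, pBb, pS, pA, pI,
      pU, Ex.eval, hXn, hA] at g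
    simp only [mk4] at g
    push_cast at g
    obtain ⟨A, hAd⟩ : ∃ A : ℝ, lv4 a I u F.1.A0 + T * lv4 a I u F.1.B0 = A := ⟨_, rfl⟩
    rw [hAd] at g hlt
    have g1 : 0 < A * (1000 * (1 - 2 * I - a - u * a)) -
        F.1.De * (1000 * (1 - 2 * I - a - u * a) - nbV P.up a I u X) := by
      have := mul_lt_mul_of_pos_left hf.up hDe'
      have := mul_lt_mul_of_pos_right hlt E0
      linarith
    have g2 : 0 < 1000 * (A * (u * (gnV a I u X - (1 - 2 * I) * (1 - u) * (1 - 2 * I - a))) +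
        F.1.De * ((1 - u) * gnV a I u X -
          (1 - 2 * I) * (1 - u) * (1 - 2 * I - a) * (2 + X - u))) := by
      have := mul_lt_mul_of_pos_right hlt (mul_pos hf.u_pos hf.gn_sub_pos)
      have := mul_lt_mul_of_pos_left hf.ev hDe'
      linarith
    have := comb_pos hw0 (mul_pos hD' g1) (mul_pos hD' g2)
    simp only [gnV] at this
    linarith
  · by_contra hlt
    rw [not_le] at hlt
    have g := nonneg_of_checkAuto hhi
      (box_point (C := F.1.box) (unit_mem hT0 hT1) hu' hI' ha' rfl rfl rfl rfl)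
    have hXn : F.1.eX.eval (mk4 T u I a) = X * F.1.Dx := by
      simp only [Leaf.eX, Ex.eval, Leaf.eval_lin4, mk4]; exact hT
    have hA : F.1.eE1.eval (mk4 T u I a) = lv4 a I u F.1.A1 + T * lv4 a I u F.1.B1 := by
      simp only [Leaf.eE1, Ex.eval, Leaf.eval_lin4, mk4]
    simp only [highE, negComb, nb_eval _ F.1.Dx F.1.eX P.lo hXn, cD, rD, qH, gn, pole, pDd, pBb, pS,
      pA, pI, pU, Ex.eval, hXn, hA] at g
    simp only [mk4] at g
    push_cast at g
    obtain ⟨A, hAd⟩ : ∃ A : ℝ, lv4 a I u F.1.A1 + T * lv4 a I u F.1.B1 = A := ⟨_, rfl⟩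
    rw [hAd] at g hlt
    have c0 : 0 < gnV a I u X + (1 - 2 * I) * u * (1 - 2 * I - a - a - a * X) := by
      have := hf.gn_pos
      have : 0 ≤ (1 - 2 * I) * u * (1 - 2 * I - a - a - a * X) :=
        mul_nonneg (mul_nonneg (by linarith [hf.d_pos, hf.I_le, hf.I_pos]) hf.u_pos.le)
          (by linarith [hf.r_lt])
      linarith
    have g1 : 0 < (F.1.De - A) * (1000 * (1 - 2 * I - a - u * a)) -
        F.1.De * nbV P.lo a I u X := by
      have := mul_lt_mul_of_pos_left hf.low hDe'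
      have := mul_lt_mul_of_pos_right hlt E0
      linarith
    have g2 : 0 < 1000 * ((F.1.De - A) *
        (gnV a I u X + (1 - 2 * I) * u * (1 - 2 * I - a - a - a * X)) -
        F.1.De * ((1 - 2 * I) * (1 - 2 * I - a - a - a * X) * (2 + X))) := by
      have := mul_lt_mul_of_pos_right hlt c0
      have := mul_lt_mul_of_pos_left hf.drift hDe'
      linarith
    have := comb_pos hwh (mul_pos (mul_pos hD' hD') g1) (mul_pos (mul_pos hD' hD') g2)
    simp only [gnV] at this
    linarith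

theorem pick (h : t.ok P K = true) (hf : Facts P a I u X η) (hu : In1 t.cu u) (hI : In1 t.cI I)
    (ha : In1 t.ca a) : ∃ F ∈ t.leaves, F.On a I u X η := by
  obtain ⟨b1, b2⟩ := X_bounds h hf hu hI ha
  have h' := h
  simp only [ok, Bool.and_eq_true, decide_eq_true_eq] at h'
  obtain ⟨-, -, -, -, -, -, hL, hch, -⟩ := h'
  have go : ∀ (l : List (Leaf × Cert)) (G : Leaf × Cert), chain t G.1.H l = true →
      (∀ F ∈ G :: l, F ∈ t.head :: t.rest) → lv4 a I u G.1.L ≤ X * t.Dx →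
      ∃ F ∈ G :: l, F.1.On a I u X η := by
    intro l
    induction l with
    | nil =>
      intro G hc hm hl
      simp only [chain, decide_eq_true_eq] at hc
      exact ⟨G, List.mem_cons_self,
        on_kid h hf hu hI ha (hm G List.mem_cons_self) hl (hc ▸ b2)⟩
    | cons G' l ih =>
      intro G hc hm hl
      simp only [chain, Bool.and_eq_true, decide_eq_true_eq] at hc
      rcases le_total (X * t.Dx) (lv4 a I u G.1.H) with hle | hle
      · exact ⟨G, List.mem_cons_self, on_kid h hf hu hI ha (hm G List.mem_cons_self) hl hle⟩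
      · obtain ⟨F, hF, ho⟩ := ih G' hc.2 (fun F hF => hm F (List.mem_cons_of_mem _ hF))
          (hc.1 ▸ hle)
        exact ⟨F, List.mem_cons_of_mem _ hF, ho⟩
  obtain ⟨F, hF, ho⟩ := go t.rest t.head hch (fun F hF => hF) (hL ▸ b1)
  refine ⟨F.1, ?_, ho⟩
  rcases List.mem_cons.1 hF with rfl | hF
  · exact List.mem_cons_self
  · exact List.mem_cons_of_mem _ (List.mem_map_of_mem hF)

end Tile

/-- A subdivision of a box of `(u, I, a)`; an empty box has `a` below `I`. -/
inductive Tree where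
  | tile : Tile → Tree
  | skip : Tree
  | node : ℕ → ℤ → ℤ → Tree → Tree → Tree

namespace Tree

/-- The leaves. -/
def leaves : Tree → List Leaf
  | .tile t => t.leaves
  | .skip => []
  | .node _ _ _ l r => l.leaves ++ r.leaves

/-- The lower part of a chart. -/
def cutLo (c : Chart) (m den : ℤ) : Chart := ⟨c.a, m, c.c, den⟩
/-- The upper part of a chart. -/
def cutHi (c : Chart) (m den : ℤ) : Chart := ⟨m, c.b, den, c.d⟩
/-- A chart can be cut there. -/
def cutOk (c : Chart) (m den : ℤ) : Bool :=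
  decide (0 < c.c * m - c.a * den ∧ 0 < den * c.b - m * c.d)

/-- The subdivision covers the box with certified tiles. -/
noncomputable def ok (P : Piece) (K : ℕ) : Tree → Chart → Chart → Chart → Bool
  | .tile t, cu, cI, ca =>
    Leaf.sub1 cu t.cu && (Leaf.sub1 cI t.cI && (Leaf.sub1 ca t.ca && t.ok P K))
  | .skip, _, cI, ca => decide (0 < cI.c ∧ 0 < ca.d ∧ ca.b * cI.c ≤ cI.a * ca.d)
  | .node 0 m den l r, cu, cI, ca =>
    cutOk cu m den && (ok P K l (cutLo cu m den) cI ca && ok P K r (cutHi cu m den) cI ca)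
  | .node 1 m den l r, cu, cI, ca =>
    cutOk cI m den && (ok P K l cu (cutLo cI m den) ca && ok P K r cu (cutHi cI m den) ca)
  | .node _ m den l r, cu, cI, ca =>
    cutOk ca m den && (ok P K l cu cI (cutLo ca m den) && ok P K r cu cI (cutHi ca m den))

theorem cut_mem {c : Chart} {m den : ℤ} (h : cutOk c m den = true) {y : ℝ} (hy : In1 c y) :
    In1 (cutLo c m den) y ∨ In1 (cutHi c m den) y := by
  simp only [cutOk, decide_eq_true_eq] at h
  rcases lt_or_ge (y * den) (m : ℝ) with hl | hl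
  · exact Or.inl ⟨by simp only [cutLo]; exact_mod_cast h.1, hy.low, hl⟩
  · exact Or.inr ⟨by simp only [cutHi]; exact_mod_cast h.2, hl, hy.high⟩

theorem pick (hf : Facts P a I u X η) : ∀ {T : Tree} {cu cI ca : Chart},
    T.ok P K cu cI ca = true → In1 cu u → In1 cI I → In1 ca a →
      ∃ F ∈ T.leaves, F.On a I u X η
  | .tile t, cu, cI, ca, h, hu, hI, ha => by
    simp only [ok, Bool.and_eq_true] at h
    exact Tile.pick h.2.2.2 hf (hu.mono h.1) (hI.mono h.2.1) (ha.mono h.2.2.1)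
  | .skip, cu, cI, ca, h, hu, hI, ha => by
    simp only [ok, decide_eq_true_eq] at h
    obtain ⟨h1, h2, h3⟩ := h
    have e1 : (ca.b : ℝ) * cI.c ≤ cI.a * ca.d := by exact_mod_cast h3
    have c1 : (0 : ℝ) < cI.c := Int.cast_pos.2 h1
    have c2 : (0 : ℝ) < ca.d := Int.cast_pos.2 h2
    have a1 := mul_lt_mul_of_pos_right ha.high c1
    have a2 := mul_le_mul_of_nonneg_right hI.low c2.le
    have a3 := mul_le_mul_of_nonneg_right hf.I_le (mul_pos c1 c2).le
    nlinarith
  | .node 0 m den l r, cu, cI, ca, h, hu, hI, ha => by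
    simp only [ok, Bool.and_eq_true] at h
    rcases cut_mem h.1 hu with hc | hc
    · obtain ⟨F, hF, ho⟩ := pick hf h.2.1 hc hI ha
      exact ⟨F, List.mem_append_left _ hF, ho⟩
    · obtain ⟨F, hF, ho⟩ := pick hf h.2.2 hc hI ha
      exact ⟨F, List.mem_append_right _ hF, ho⟩
  | .node 1 m den l r, cu, cI, ca, h, hu, hI, ha => by
    simp only [ok, Bool.and_eq_true] at h
    rcases cut_mem h.1 hI with hc | hc
    · obtain ⟨F, hF, ho⟩ := pick hf h.2.1 hu hc ha
      exact ⟨F, List.mem_append_left _ hF, ho⟩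
    · obtain ⟨F, hF, ho⟩ := pick hf h.2.2 hu hc ha
      exact ⟨F, List.mem_append_right _ hF, ho⟩
  | .node (_ + 2) m den l r, cu, cI, ca, h, hu, hI, ha => by
    simp only [ok, Bool.and_eq_true] at h
    rcases cut_mem h.1 ha with hc | hc
    · obtain ⟨F, hF, ho⟩ := pick hf h.2.1 hu hI hc
      exact ⟨F, List.mem_append_left _ hF, ho⟩
    · obtain ⟨F, hF, ho⟩ := pick hf h.2.2 hu hI hc
      exact ⟨F, List.mem_append_right _ hF, ho⟩

/-- **The signs on the box of a tree.** -/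
theorem signs {T : Tree} {R : Root} {K' K'' : ℕ} {cu cI ca : Chart}
    (h : T.ok P K cu cI ca = true)
    (hL : ∀ F ∈ T.leaves, Leaf.okLeaf F R K' = true)
    (hR : ∀ F ∈ T.leaves, ∀ k ∈ Leaf.used F, R.okEnt K'' k = true)
    (hf : Facts P a I u X η) (hu : In1 cu u) (hI : In1 cI I) (ha : In1 ca a) :
    ClosedGen.SignsMult a (rd (mk4 X u I a)) (rv (mk4 X u I a)) (rg (mk4 X u I a) η)
      (rW (mk4 X u I a) η) (rW1 (mk4 X u I a) η) (rR (mk4 X u I a))
      (rNum R.cl (mk4 X u I a) η) := by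
  obtain ⟨F, hF, ho⟩ := pick hf h hu hI ha
  have hn : 0 < 2 + X - u * (1 - η) := by
    have : u * (1 - η) ≤ 1 * 1 :=
      mul_le_mul hf.u_lt.le (by linarith [hf.eta_pos]) (by linarith [hf.eta_lt]) zero_le_one
    linarith [hf.X_pos]
  exact Leaf.signs (hL F hF) (hR F hF) ho
    ⟨hf.X_pos, hf.u_pos, hf.I_pos, show (0 : ℝ) < a by linarith [hf.I_pos, hf.I_le],
      show (0 : ℝ) < 1 - 2 * I by linarith [hf.d_pos, hf.I_le, hf.I_pos],
      show (0 : ℝ) < 1 - 2 * I - a - a from hf.d_pos, hn⟩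
    (show (0 : ℝ) < (2 + X) * (1 - 2 * I - a) - (1 - 2 * I) * u * (1 + X) from hf.gn_pos)

end Tree

end

theorem all'_cons {α : Type} {p : α → Prop} {c : α} {l : List α} (h1 : p c)
    (h2 : ∀ F ∈ l, p F) : ∀ F ∈ c :: l, p F := by
  intro F hF
  rcases List.mem_cons.1 hF with rfl | hF
  · exact h1
  · exact h2 F hF

end Vale.Agent.P100.Calib.MidTail
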