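import Vale.Agent.P100.Calib.SlabMidTailEntries

/-!
# The signs from a positive definite polynomial matrix

With the reduced numerators `E, G, M, T, Y, N, L` of the block entries and `z = a ζ`, the block is
congruent, up to positive factors, to a symmetric matrix of polynomials.
-/

set_option linter.unusedVariables false

namespace Vale.Agent.P100.Calib.MidTail

open Pack EndAll

/-- `(2 + X) b - S u (1 + X)`. -/
noncomputable def rgn (x : ℕ → ℝ) : ℝ := (2 + x 0) * rb x - rS x * x 1 * (1 + x 0)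

/-- The reduced numerators of a variant. -/
def numOf (cl : Bool) : ℕ → List (List Ex)
  | 0 => numEx (cond cl numEECl numEE)
  | 1 => numEx (cond cl numGGCl numGG)
  | 2 => numEx numMM
  | 3 => numEx (cond cl numEGCl numEG)
  | 4 => numEx numME
  | 5 => numEx (cond cl numMGCl numMG)
  | _ => numEx (cond cl numLGCl numLG)

/-- The value of a numerator. -/
noncomputable def nv (cl : Bool) (x : ℕ → ℝ) (θ : ℝ) (k : ℕ) : ℝ := pv2 x (x 0) θ (numOf cl k)

/-- The part of `ζ` in the diagonal. -/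
noncomputable def zK (x : ℕ → ℝ) (θ : ℝ) : ℝ :=
  x 1 * rS x ^ 4 * rd x * rDn x θ * x 0 * x 2 * rgn x

/-- The entries of the matrix. -/
noncomputable def m00 (cl : Bool) (x : ℕ → ℝ) (θ ζ : ℝ) : ℝ :=
  40 * (x 1 * (5 * rS x * nv cl x θ 0 + nv cl x θ 5)) - 400 * ζ * (x 1 * zK x θ)
noncomputable def m11 (cl : Bool) (x : ℕ → ℝ) (θ : ℝ) : ℝ := 8 * nv cl x θ 1
noncomputable def m22 (cl : Bool) (x : ℕ → ℝ) (θ : ℝ) : ℝ :=
  200 * (rb x ^ 2 * rS x ^ 3 * rDn x θ ^ 2 * nv cl x θ 2)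
noncomputable def m01 (cl : Bool) (x : ℕ → ℝ) (θ : ℝ) : ℝ :=
  20 * (x 1 * rb x ^ 2 * rS x * nv cl x θ 3)
noncomputable def m02 (cl : Bool) (x : ℕ → ℝ) (θ : ℝ) : ℝ :=
  400 * (rb x ^ 2 * rS x ^ 2 * rDn x θ * nv cl x θ 4)
noncomputable def m12 (x : ℕ → ℝ) (θ ζ : ℝ) : ℝ :=
  25 * ζ * (x 2 * rS x ^ 4 * rd x * rDn x θ ^ 2)

/-- The determinant of a symmetric matrix. -/
def det3 (a b c p q r : ℝ) : ℝ := a * (b * c - r ^ 2) - p * (p * c - r * q) + q * (p * r - b * q)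

variable {cl : Bool} {x : ℕ → ℝ} {θ : ℝ}

/-- **The signs from the matrix.** -/
theorem signs_of_matrix (h : MPt x θ) (hgn : 0 < rgn x) {ζ : ℝ}
    (hN : 0 ≤ nv cl x θ 5 - 10 * ζ * zK x θ)
    (hL : 0 ≤ 5 * ζ * (x 1 * rS x ^ 2 * rd x * x 2) + 16 * (rb x ^ 2 * nv cl x θ 6))
    (hG : 0 < m11 cl x θ) (hM : 0 < m00 cl x θ ζ * m11 cl x θ - m01 cl x θ ^ 2)
    (hD : 0 < det3 (m00 cl x θ ζ) (m11 cl x θ) (m22 cl x θ) (m01 cl x θ) (m02 cl x θ)
      (m12 x θ ζ)) :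
    ClosedGen.SignsMult (x 3) (rd x) (rv x) (rg x θ) (rW x θ) (rW1 x θ) (rR x) (rNum cl x θ) := by
  have hE := redEE_eq (cl := cl) h
  have hGG := redGG_eq (cl := cl) h
  have hMM := redMM_eq (cl := cl) h
  have hX := redEG_eq (cl := cl) h
  have hY := redME_eq (cl := cl) h
  have hMG := redMG_eq (cl := cl) h
  have hLL := redLG_eq (cl := cl) h
  have pb := h.b_pos
  have pQ := h.Q_pos
  obtain ⟨pX, pu, pI, pa, pS, pd, pn⟩ := h
  have ea : x 3 + rd x = rb x := by simp only [rd, rb]; ring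
  have eg : rg x θ = 2 * rgn x / (x 2 * rb x * rDn x θ) := by
    simp only [rg, rgn]; field_simp
  have pg : 0 < rg x θ := by rw [eg]; positivity
  have ev : rd x * rv x = x 0 := by rw [rv]; field_simp
  have pv : 0 < rv x := by rw [rv]; positivity
  have ec : (rNum cl x θ).c = x 3 * rb x := rfl
  simp only [rForm] at hE hGG hMM hX hY hMG hLL
  simp only [nv, numOf, m00, m11, m22, m01, m02, m12, zK, det3] at *
  generalize pv2 x (x 0) θ (numEx (bif cl then numEECl else numEE)) = rE at *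
  generalize pv2 x (x 0) θ (numEx (bif cl then numGGCl else numGG)) = rG at *
  generalize pv2 x (x 0) θ (numEx numMM) = rM at *
  generalize pv2 x (x 0) θ (numEx (bif cl then numEGCl else numEG)) = rT at *
  generalize pv2 x (x 0) θ (numEx numME) = rY at *
  generalize pv2 x (x 0) θ (numEx (bif cl then numMGCl else numMG)) = rN at *
  generalize pv2 x (x 0) θ (numEx (bif cl then numLGCl else numLG)) = rL at *
  refine ⟨x 3 ^ 3 / (5 * x 1 * rS x ^ 4 * rb x * rd x ^ 2 * rDn x θ ^ 2) *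
    (rN - 10 * ζ * (x 1 * rS x ^ 4 * rd x * rDn x θ * x 0 * x 2 * rgn x)), ?_⟩
  unfold ClosedGen.SignsNu ClosedGen.TDetS
  rw [ec, ea, ev]
  generalize ClosedGen.TEES (x 3) (rd x) (rv x) (rg x θ) (rW x θ) (rW1 x θ) (rR x)
    (rNum cl x θ) = tE at *
  generalize ClosedGen.TGGS (x 3) (rd x) (rv x) (rg x θ) (rW x θ) (rW1 x θ) (rR x)
    (rNum cl x θ) = tG at *
  generalize ClosedGen.TMMS (x 3) (rd x) (rv x) (rg x θ) (rW x θ) (rW1 x θ) (rR x)
    (rNum cl x θ) = tM at *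
  generalize ClosedGen.TEGS (x 3) (rd x) (rv x) (rg x θ) (rW x θ) (rW1 x θ) (rR x)
    (rNum cl x θ) = tX at *
  generalize ClosedGen.TMES (x 3) (rd x) (rv x) (rg x θ) (rW x θ) (rW1 x θ) (rR x)
    (rNum cl x θ) = tY at *
  generalize ClosedGen.TMGS (x 3) (rd x) (rv x) (rg x θ) (rW x θ) (rW1 x θ) (rR x)
    (rNum cl x θ) = tN at *
  generalize ClosedGen.LLGS (x 3) (rd x) (rv x) (rg x θ) (rW x θ) (rW1 x θ) (rR x)
    (rNum cl x θ) = tL at *
  rw [← eq_div_iff (by positivity)] at hE hGG hMM hX hY hMG hLL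
  subst tE tG tM tX tY tN tL
  rw [eg, rR, rv]
  refine ⟨div_pos (mul_pos (by positivity) (by linarith)) (by positivity), ?_, ?_,
    mul_nonneg (by positivity) hN, ?_⟩
  · refine lt_of_lt_of_eq (mul_pos (show (0 : ℝ) < x 3 ^ 6 /
      (10000 * (rS x ^ 8 * rb x ^ 2 * rd x ^ 4 * rDn x θ ^ 4 * x 1 ^ 2 * (1 + x 0))) by positivity) hM)
      ?_
    field_simp
    ring
  · refine lt_of_lt_of_eq (mul_pos (show (0 : ℝ) < x 3 ^ 9 * x 0 ^ 2 * x 2 ^ 2 *
      (2 * rgn x / (x 2 * rb x * rDn x θ)) ^ 2 / (125000 * (rS x ^ 12 * rb x * rd x ^ 6 *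
        rDn x θ ^ 6 * x 1 ^ 2)) by positivity) hD) ?_
    field_simp
    ring
  · rw [← sub_nonneg]
    refine le_of_le_of_eq (mul_nonneg (show (0 : ℝ) ≤ x 3 ^ 3 * x 0 * rgn x /
      (5 * (rS x * rb x * rd x ^ 2 * rDn x θ * x 2)) by positivity) hL) ?_
    field_simp
    ring

end Vale.Agent.P100.Calib.MidTail
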