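import Vale.Agent.P100.Calib.SlabMidTailZero

/-!
# Kernel checks of the reduced forms, part one
-/

namespace Vale.Agent.P100.Calib.MidTail

open Pack EndAll

theorem zeroMM_false : zeroList 224 (Fn.sub atoms (cMM false) redMM).num = true := by
  decide +kernel

theorem zeroMM_true : zeroList 224 (Fn.sub atoms (cMM true) redMM).num = true := by
  decide +kernel

theorem zeroME_false : zeroList 224 (Fn.sub atoms (cME false) redME).num = true := by
  decide +kernel

theorem zeroME_true : zeroList 224 (Fn.sub atoms (cME true) redME).num = true := by
  decide +kernel

theorem zeroLG_false : zeroList 224 (Fn.sub atoms (cLG false) (redLG false)).num = true := by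
  decide +kernel

theorem zeroLG_true : zeroList 224 (Fn.sub atoms (cLG true) (redLG true)).num = true := by
  decide +kernel

theorem zeroEG_false : zeroList 224 (Fn.sub atoms (cEG false) (redEG false)).num = true := by
  decide +kernel

theorem zeroEG_true : zeroList 224 (Fn.sub atoms (cEG true) (redEG true)).num = true := by
  decide +kernel

end Vale.Agent.P100.Calib.MidTail
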