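import Vale.Agent.P100.Calib.SlabMidTailRootFast

/-!
# Surrogates on a root box

On a box of `(X, u, I, a)` and a range of `η` each entry is within `eps/den` of `P/den`, `P` of
low degree in the affine coordinates of the box.
-/

set_option linter.unusedVariables false

namespace Vale.Agent.P100.Calib.MidTail

open Pack EndAll

/-- A value in a chart without its upper end. -/
structure In1 (C : Chart) (y : ℝ) : Prop where
  det : 0 < (C.c : ℝ) * C.b - C.a * C.d
  low : (C.a : ℝ) ≤ y * C.c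
  high : y * C.d < C.b

theorem In1.point {C : Chart} {y : ℝ} (h : In1 C y) : ∃ t : ℝ, 0 ≤ t ∧
    0 < (C.c : ℝ) + C.d * t ∧ (C.a : ℝ) + C.b * t = y * ((C.c : ℝ) + C.d * t) := by
  obtain ⟨hd, hl, hh⟩ := h
  have h0 : 0 < (C.b : ℝ) - y * C.d := sub_pos.2 hh
  refine ⟨(y * C.c - C.a) / (C.b - y * C.d), div_nonneg (sub_nonneg.2 hl) h0.le, ?_, ?_⟩
  · refine lt_of_lt_of_eq (div_pos hd h0) ?_
    rw [← mul_div_assoc, add_div' _ _ _ h0.ne']
    congr 1
    ring
  · field_simp; ring

/-- All coefficients of a list pass. -/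
noncomputable def posList (C : ℕ → Chart) (K : ℕ) : List Ex → Bool
  | [] => true
  | c :: cs => checkAuto C K c && posList C K cs

theorem bv_nonneg_of_pos {C : ℕ → Chart} {K : ℕ} {x : ℕ → ℝ} {θ : ℝ}
    (hx : ∀ i < 4, In1 (C i) (x i)) (h0 : 0 ≤ θ) (h1 : θ ≤ 1) :
    ∀ {l : List Ex}, posList C K l = true → 0 ≤ bv x θ l
  | [], _ => le_rfl
  | c :: cs, h => by
    simp only [posList, Bool.and_eq_true] at h
    have e1 := nonneg_of_checkAuto h.1 fun i hi => (hx i hi).point
    have e2 := bv_nonneg_of_pos hx h0 h1 h.2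
    have : 0 ≤ 1 - θ := by linarith
    rw [bv]; positivity

/-- A root: charts of `(X, u, I, a)`, the range of `η`, the affine coordinates and surrogates. -/
structure Root where
  cl : Bool
  box : ℕ → Chart
  De : ℤ
  e0 : ℤ
  e1 : ℤ
  p : ℕ → ℤ
  q : ℕ → ℤ
  den : ℕ
  sur : ℕ → List (List (List (List (List ℤ))))
  eps : ℕ → ℕ

namespace Root

variable (R : Root)

/-- An affine coordinate. -/
def aff (i : ℕ) : Ex := .sub (.mul (.num (R.p i)) (.var i)) (.num (R.q i))

/-- The surrogate as a nested list. -/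
def pol (k : ℕ) : List (List Ex) := poly5 (R.aff 1) (R.aff 2) (R.aff 3) (R.sur k)

/-- The value of a surrogate, with `p 4, q 4` the coordinate of `η`. -/
noncomputable def pval (x : ℕ → ℝ) (η : ℝ) (k : ℕ) : ℝ :=
  pv2 x (R.p 0 * x 0 - R.q 0) (R.p 4 * η - R.q 4) (R.pol k)

/-- The charts in the order `(η, X, u, I, a)`. -/
def box5 : ℕ → Chart
  | 0 => ⟨R.e0, R.e1 + 1, R.De, R.De⟩
  | 1 => R.box 0
  | 2 => R.box 1
  | 3 => R.box 2
  | _ => R.box 3

/-- The affine coordinates in that order. -/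
def perm (f : ℕ → ℤ) : ℕ → ℤ
  | 0 => f 4
  | 1 => f 0
  | 2 => f 1
  | 3 => f 2
  | _ => f 3

/-- The entry `k` is within its error. -/
noncomputable def okEnt (K k : ℕ) : Bool :=
  checkEnt R.box5 R.cl K k (perm R.p) (perm R.q) R.den (R.eps k) (R.sur k)

/-- The point is on the root. -/
structure Mem (x : ℕ → ℝ) (η : ℝ) : Prop where
  box : ∀ i < 4, In1 (R.box i) (x i)
  De_pos : 0 < R.De
  e_lt : R.e0 < R.e1
  low : (R.e0 : ℝ) ≤ η * R.De
  high : η * R.De ≤ R.e1

theorem abs_sub_le {K k : ℕ} (h : R.okEnt K k = true) {x : ℕ → ℝ} {η : ℝ} (hm : R.Mem x η) :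
    |(R.den : ℝ) * entV R.cl x η k - R.pval x η k| ≤ R.eps k := by
  obtain ⟨hb, hD, he, hlo, hhi⟩ := hm
  have hD' : (0 : ℝ) < R.De := Int.cast_pos.2 hD
  obtain ⟨y, hy⟩ : ∃ y : ℕ → ℝ, y = fun i : ℕ =>
      match i with | 0 => η | 1 => x 0 | 2 => x 1 | 3 => x 2 | _ => x 3 := ⟨_, rfl⟩
  have hη : In1 (R.box5 0) η := by
    refine ⟨?_, hlo, ?_⟩
    · simp only [box5]
      push_cast
      have : (R.e0 : ℝ) < R.e1 := Int.cast_lt.2 he
      nlinarith
    · simp only [box5]; push_cast; linarith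
  have g := abs_le_of_checkEnt h (y := y) (x := x) (fun i hi => by
    subst hy
    interval_cases i
    · exact hη.point
    · exact (hb 0 (by norm_num)).point
    · exact (hb 1 (by norm_num)).point
    · exact (hb 2 (by norm_num)).point
    · exact (hb 3 (by norm_num)).point)
    (by subst hy; rfl) (by subst hy; rfl) (by subst hy; rfl) (by subst hy; rfl)
  subst hy
  simp only [perm] at g
  rw [pval, pol, pv2_lval]
  simpa [aff, Ex.eval] using g

end Root

end Vale.Agent.P100.Calib.MidTail
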