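import Vale.Agent.P100.Calib.SlabMidTailPoly

/-!
# Substitution into short coefficient lists, and linear combinations of lists
-/

namespace Vale.Agent.P100.Calib.MidTail

open Pack EndAll

/-- All inner lists have at most `n + 1` elements. -/
def short (n : ℕ) : List (List Ex) → Bool
  | [] => true
  | l :: ls => Nat.ble l.length (n + 1) && short n ls

/-- The value at `N/D`, times `D ^ k`, for a list of length at most `k + 1`. -/
def hEk (D N : Ex) : ℕ → List Ex → Ex
  | _, [] => .num 0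
  | k, [c] => .mul c (.pow D k)
  | k, c :: d :: cs => .add (.mul c (.pow D k)) (.mul N (hEk D N (k - 1) (d :: cs)))

theorem eval_hEk {x : ℕ → ℝ} {D N : Ex} {X : ℝ} (hN : N.eval x = X * D.eval x) :
    ∀ (k : ℕ) (l : List Ex), l.length ≤ k + 1 → (hEk D N k l).eval x = D.eval x ^ k * pv x X l
  | k, [], _ => by simp [hEk, pv, Ex.eval]
  | k, [c], _ => by simp [hEk, pv, Ex.eval]; ring
  | 0, c :: d :: cs, h => absurd h (by simp)
  | k + 1, c :: d :: cs, h => by
    simp only [hEk, Ex.eval, Nat.add_sub_cancel,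
      eval_hEk hN k (d :: cs) (Nat.le_of_succ_le_succ h), hN, pv]
    ring

theorem pv_rowsK {x : ℕ → ℝ} {D N : Ex} {X y : ℝ} {n : ℕ} (hN : N.eval x = X * D.eval x) :
    ∀ l : List (List Ex), short n l = true →
      pv x y (l.map (hEk D N n)) = D.eval x ^ n * pv2 x X y l
  | [], _ => by simp [pv, pv2]
  | r :: rs, h => by
    simp only [short, Bool.and_eq_true, Nat.ble_eq] at h
    simp only [List.map_cons, pv, pv2, eval_hEk hN n r h.1, pv_rowsK hN rs h.2]
    ring

/-- The substitution of both fractions, the first to the degree `n`. -/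
def subK (n : ℕ) (DX NX De : Ex) (Ne : List Ex) (l : List (List Ex)) : List Ex :=
  hsub De Ne (l.map (hEk DX NX n))

theorem bv_subK {x : ℕ → ℝ} {θ : ℝ} {DX NX De : Ex} {Ne : List Ex} {X y : ℝ} {n : ℕ}
    (hX : NX.eval x = X * DX.eval x) (hy : bv x θ Ne = y * De.eval x) {l : List (List Ex)}
    (hl : short n l = true) :
    bv x θ (subK n DX NX De Ne l) =
      De.eval x ^ (l.length - 1) * (DX.eval x ^ n * pv2 x X y l) := by
  rw [subK, bv_hsub hy, pv_rowsK hX l hl, List.length_map]

/-! ### Linear combinations of coefficient lists -/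

/-- The entrywise sum, the shorter list padded. -/
def zipAdd {α : Type} (f : α → α → α) : List α → List α → List α
  | [], q => q
  | p :: ps, [] => p :: ps
  | p :: ps, q :: qs => f p q :: zipAdd f ps qs

/-- The sum of coefficient lists. -/
def add5 : List (List (List (List (List ℤ)))) → List (List (List (List (List ℤ)))) →
    List (List (List (List (List ℤ)))) :=
  zipAdd (zipAdd (zipAdd (zipAdd (zipAdd (· + ·)))))

/-- A multiple of a coefficient list. -/
def smul5 (c : ℤ) (l : List (List (List (List (List ℤ))))) : List (List (List (List (List ℤ)))) :=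
  l.map (List.map (List.map (List.map (List.map (c * ·)))))

theorem pv_zipAdd {α : Type} {f : α → α → α} {g : α → Ex} {x : ℕ → ℝ}
    (hf : ∀ p q, (g (f p q)).eval x = (g p).eval x + (g q).eval x) (y : ℝ) :
    ∀ p q : List α, pv x y ((zipAdd f p q).map g) = pv x y (p.map g) + pv x y (q.map g)
  | [], q => by simp [zipAdd, pv]
  | p :: ps, [] => by simp [zipAdd, pv]
  | p :: ps, q :: qs => by
    simp only [zipAdd, List.map_cons, pv, hf, pv_zipAdd hf y ps qs]; ring

theorem pv_smul {α : Type} {f : α → α} {g : α → Ex} {x : ℕ → ℝ} {c : ℝ}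
    (hf : ∀ p, (g (f p)).eval x = c * (g p).eval x) (y : ℝ) :
    ∀ p : List α, pv x y ((p.map f).map g) = c * pv x y (p.map g)
  | [] => by simp [pv]
  | p :: ps => by simp only [List.map_cons, pv, hf, pv_smul hf y ps]; ring

theorem hor3_zipAdd (x : ℕ → ℝ) (v₀ v₁ v₂ : Ex) (p q : List (List (List ℤ))) :
    (hor3 v₀ v₁ v₂ (zipAdd (zipAdd (zipAdd (· + ·))) p q)).eval x =
      (hor3 v₀ v₁ v₂ p).eval x + (hor3 v₀ v₁ v₂ q).eval x := by
  simp only [hor3, eval_hor]
  refine pv_zipAdd (fun a b => ?_) _ p q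
  simp only [eval_hor]
  refine pv_zipAdd (fun a b => ?_) _ a b
  simp only [eval_hor]
  exact pv_zipAdd (fun a b => by simp [Ex.eval]) _ a b

theorem hor3_smul (x : ℕ → ℝ) (v₀ v₁ v₂ : Ex) (c : ℤ) (p : List (List (List ℤ))) :
    (hor3 v₀ v₁ v₂ (p.map (List.map (List.map (c * ·))))).eval x =
      c * (hor3 v₀ v₁ v₂ p).eval x := by
  simp only [hor3, eval_hor]
  refine pv_smul (fun a => ?_) _ p
  simp only [eval_hor]
  refine pv_smul (fun a => ?_) _ a
  simp only [eval_hor]
  exact pv_smul (fun a => by simp [Ex.eval]) _ a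

theorem pv2_add5 (x : ℕ → ℝ) (v₀ v₁ v₂ : Ex) (X y : ℝ) :
    ∀ p q : List (List (List (List (List ℤ)))), pv2 x X y (poly5 v₀ v₁ v₂ (add5 p q)) =
      pv2 x X y (poly5 v₀ v₁ v₂ p) + pv2 x X y (poly5 v₀ v₁ v₂ q)
  | [], q => by simp [add5, zipAdd, poly5, pv2]
  | p :: ps, [] => by simp [add5, zipAdd, poly5, pv2]
  | p :: ps, q :: qs => by
    have ih := pv2_add5 x v₀ v₁ v₂ X y ps qs
    simp only [poly5, add5] at ih ⊢
    simp only [zipAdd, List.map_cons, pv2, ih,
      pv_zipAdd (hor3_zipAdd x v₀ v₁ v₂) X p q]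
    ring

theorem pv2_smul5 (x : ℕ → ℝ) (v₀ v₁ v₂ : Ex) (c : ℤ) (X y : ℝ) :
    ∀ p : List (List (List (List (List ℤ)))), pv2 x X y (poly5 v₀ v₁ v₂ (smul5 c p)) =
      c * pv2 x X y (poly5 v₀ v₁ v₂ p)
  | [] => by simp [smul5, poly5, pv2]
  | p :: ps => by
    have ih := pv2_smul5 x v₀ v₁ v₂ c X y ps
    simp only [poly5, smul5] at ih ⊢
    simp only [List.map_cons, pv2, ih, pv_smul (fun a => hor3_smul x v₀ v₁ v₂ c a) X p]
    ring

end Vale.Agent.P100.Calib.MidTail
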