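import Vale.Agent.P100.Calib.SlabMidTailEnt
import Vale.Agent.P100.Calib.SlabMidTailFast
import Vale.Agent.P100.Calib.SlabMidTailSubst

/-!
# The fast test of a surrogate against an entry

Each entry is a sum of products of a small factor and a stored numerator. Both sides are
homogenised to the degrees `nTot` in the packing variables `(η, X, u, I, a)` of a box.
-/

set_option linter.unusedVariables false

namespace Vale.Agent.P100.Calib.MidTail

open Pack EndAll

theorem rpv_map {α : Type} (x : ℕ → ℝ) (y : ℝ) (g : α → Ex) :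
    ∀ l : List α, pv x y (l.map g) = rpv (fun c => (g c).eval x) y l
  | [] => rfl
  | c :: l => by simp only [List.map_cons, pv, rpv, rpv_map x y g l]

theorem pv2_lval (x : ℕ → ℝ) (v₀ v₁ v₂ : Ex) (X y : ℝ) : ∀ l : L5,
    pv2 x X y (poly5 v₀ v₁ v₂ l) = Sub.lval (v₂.eval x) (v₁.eval x) (v₀.eval x) X y l
  | [] => rfl
  | m :: l => by
    have ih := pv2_lval x v₀ v₁ v₂ X y l
    simp only [poly5, Sub.lval] at ih
    simp only [poly5, List.map_cons, pv2, ih, Sub.lval, rpv, rpv_map, hor3, eval_hor, Ex.eval]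

/-! ### Expressions -/

/-- The numerator of a chart. -/
def chN (C : ℕ → Chart) (i : ℕ) : Ex := .add (.num (C i).a) (.mul (.num (C i).b) (.var i))

/-- The denominator of a chart. -/
def chD (C : ℕ → Chart) (i : ℕ) : Ex := .add (.num (C i).c) (.mul (.num (C i).d) (.var i))

/-- The product of powers of the denominators. -/
def denX (C : ℕ → Chart) (k : ℕ → ℕ) : Ex :=
  .mul (.mul (.mul (.mul (.pow (chD C 0) (k 0)) (.pow (chD C 1) (k 1))) (.pow (chD C 2) (k 2)))
    (.pow (chD C 3) (k 3))) (.pow (chD C 4) (k 4))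

/-- The homogenised expression, as an expression. -/
def homX (C : ℕ → Chart) : Ex → Ex
  | .var i => chN C i
  | .num z => .num z
  | .add e f => .add (.mul (homX C e) (denX C fun j => max (e.deg j) (f.deg j) - e.deg j))
      (.mul (homX C f) (denX C fun j => max (e.deg j) (f.deg j) - f.deg j))
  | .sub e f => .sub (.mul (homX C e) (denX C fun j => max (e.deg j) (f.deg j) - e.deg j))
      (.mul (homX C f) (denX C fun j => max (e.deg j) (f.deg j) - f.deg j))
  | .mul e f => .mul (homX C e) (homX C f)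
  | .pow e n => .pow (homX C e) n

theorem eval_denX (C : ℕ → Chart) {R : Type*} [CommRing R] (t : ℕ → R) (k : ℕ → ℕ) :
    (denX C k).eval t = den C 5 t k := by
  simp [denX, chD, Ex.eval, den, prodTo]

theorem eval_homX (C : ℕ → Chart) {R : Type*} [CommRing R] (t : ℕ → R) :
    ∀ e : Ex, (homX C e).eval t = hom C 5 t e
  | .var i => by simp [homX, chN, Ex.eval, hom]
  | .num z => rfl
  | .add e f => by simp [homX, Ex.eval, hom, eval_homX C t e, eval_homX C t f, eval_denX]
  | .sub e f => by simp [homX, Ex.eval, hom, eval_homX C t e, eval_homX C t f, eval_denX]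
  | .mul e f => by simp [homX, Ex.eval, hom, eval_homX C t e, eval_homX C t f]
  | .pow e n => by simp [homX, Ex.eval, hom, eval_homX C t e]

/-- A degree function from five numbers. -/
def d5 (a b c d e : ℕ) : ℕ → ℕ
  | 0 => a
  | 1 => b
  | 2 => c
  | 3 => d
  | 4 => e
  | _ => 0

/-- Five levels with numerators `N` and denominators `D`, to the degrees `n`. -/
def levE (N D : ℕ → Ex) (n : ℕ → ℕ) (l : L5) : Ex :=
  horE (fun _ p1 => horE (fun _ p2 => horE (fun _ p3 => horE (fun _ p4 => horE (fun _ c => .num c)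
    (N 4) (D 4) (n 4) p4) (N 3) (D 3) (n 3) p3) (N 2) (D 2) (n 2) p2) (N 1) (D 1) (n 1) p1)
    (N 0) (D 0) (n 0) l

/-- Its value. -/
noncomputable def levZ (N D : ℕ → ℤ) (n : ℕ → ℕ) (l : L5) : ℤ :=
  horZ (fun _ p1 => horZ (fun _ p2 => horZ (fun _ p3 => horZ (fun _ p4 => horZ (fun _ c => c)
    (N 4) (D 4) (n 4) p4) (N 3) (D 3) (n 3) p3) (N 2) (D 2) (n 2) p2) (N 1) (D 1) (n 1) p1)
    (N 0) (D 0) (n 0) l

/-- Its bound. -/
noncomputable def levN (N D : ℕ → ℕ) (n : ℕ → ℕ) (l : L5) : ℕ :=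
  horN (fun _ p1 => horN (fun _ p2 => horN (fun _ p3 => horN (fun _ p4 =>
    horN (fun _ c => c.natAbs) (N 4) (D 4) (n 4) p4) (N 3) (D 3) (n 3) p3) (N 2) (D 2) (n 2) p2)
    (N 1) (D 1) (n 1) p1) (N 0) (D 0) (n 0) l

/-- All lists fit in the degrees. -/
def shpN (n : ℕ → ℕ) (l : L5) : Bool :=
  Nat.ble l.length (n 0 + 1) && all' (fun p1 => Nat.ble p1.length (n 1 + 1) && all' (fun p2 =>
    Nat.ble p2.length (n 2 + 1) && all' (fun p3 => Nat.ble p3.length (n 3 + 1) && all' (fun p4 =>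
      Nat.ble p4.length (n 4 + 1)) p3) p2) p1) l

/-- The levels are in their own variables only, with degree at most one. -/
def lineOk (N D : ℕ → Ex) : Bool :=
  all' (fun i => (N i).ok 5 && (D i).ok 5 && all' (fun j =>
    Nat.ble ((N i).deg j) (cond (Nat.beq i j) 1 0) && Nat.ble ((D i).deg j) (cond (Nat.beq i j) 1 0))
      [0, 1, 2, 3, 4]) [0, 1, 2, 3, 4]

section

variable {N D : ℕ → Ex} {n : ℕ → ℕ} {l : L5}

theorem line_facts (h : lineOk N D = true) {i : ℕ} (hi : i < 5) :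
    (N i).ok 5 = true ∧ (D i).ok 5 = true ∧ ∀ j < 5,
      (N i).deg j ≤ (if i = j then 1 else 0) ∧ (D i).deg j ≤ (if i = j then 1 else 0) := by
  have h1 := of_all' h i (by interval_cases i <;> simp)
  simp only [Bool.and_eq_true] at h1
  refine ⟨h1.1.1, h1.1.2, fun j hj => ?_⟩
  have h2 := of_all' h1.2 j (by interval_cases j <;> simp)
  simp only [Bool.and_eq_true, Nat.ble_eq] at h2
  interval_cases i <;> interval_cases j <;> exact h2

theorem levE_ok (h : lineOk N D = true) (n : ℕ → ℕ) (l : L5) : (levE N D n l).ok 5 = true := by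
  have f := fun i (hi : i < 5) => line_facts h hi
  exact ok_horE (fun _ _ => ok_horE (fun _ _ => ok_horE (fun _ _ => ok_horE (fun _ _ =>
    ok_horE (fun _ _ => by simp [Ex.ok]) (f 4 (by norm_num)).1 (f 4 (by norm_num)).2.1 _ _)
    (f 3 (by norm_num)).1 (f 3 (by norm_num)).2.1 _ _) (f 2 (by norm_num)).1
    (f 2 (by norm_num)).2.1 _ _) (f 1 (by norm_num)).1 (f 1 (by norm_num)).2.1 _ _)
    (f 0 (by norm_num)).1 (f 0 (by norm_num)).2.1 _ _

theorem levE_deg (h : lineOk N D = true) (hl : shpN n l = true) {j : ℕ} (hj : j < 5) :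
    (levE N D n l).deg j ≤ n j := by
  simp only [shpN, Bool.and_eq_true, Nat.ble_eq] at hl
  obtain ⟨l0, hl⟩ := hl
  have f := fun i (hi : i < 5) => (line_facts h hi).2.2 j hj
  have step : ∀ {i : ℕ}, i < 5 → ∀ k, k * (D i).deg j ≤ k * (if i = j then 1 else 0) :=
    fun hi k => Nat.mul_le_mul_left k (f _ hi).2
  have := deg_horE (N := N 0) (D := D 0) (fE := fun _ p1 => horE (fun _ p2 => horE (fun _ p3 =>
    horE (fun _ p4 => horE (fun _ c => .num c) (N 4) (D 4) (n 4) p4) (N 3) (D 3) (n 3) p3)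
    (N 2) (D 2) (n 2) p2) (N 1) (D 1) (n 1) p1) (j := j)
    (g := n 1 * (if 1 = j then 1 else 0) + (n 2 * (if 2 = j then 1 else 0) +
      (n 3 * (if 3 = j then 1 else 0) + n 4 * (if 4 = j then 1 else 0))))
    (E := if 0 = j then 1 else 0)
    (S := fun p1 => (Nat.ble p1.length (n 1 + 1) && all' (fun p2 =>
      Nat.ble p2.length (n 2 + 1) && all' (fun p3 => Nat.ble p3.length (n 3 + 1) && all' (fun p4 =>
        Nat.ble p4.length (n 4 + 1)) p3) p2) p1) = true)
    (fun k p1 h1 => by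
      simp only [Bool.and_eq_true, Nat.ble_eq] at h1
      have := deg_horE (N := N 1) (D := D 1) (fE := fun _ p2 => horE (fun _ p3 =>
        horE (fun _ p4 => horE (fun _ c => .num c) (N 4) (D 4) (n 4) p4) (N 3) (D 3) (n 3) p3)
        (N 2) (D 2) (n 2) p2) (j := j)
        (g := n 2 * (if 2 = j then 1 else 0) + (n 3 * (if 3 = j then 1 else 0) +
          n 4 * (if 4 = j then 1 else 0)))
        (E := if 1 = j then 1 else 0)
        (S := fun p2 => (Nat.ble p2.length (n 2 + 1) && all' (fun p3 => Nat.ble p3.length (n 3 + 1)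
          && all' (fun p4 => Nat.ble p4.length (n 4 + 1)) p3) p2) = true)
        (fun k p2 h2 => by
          simp only [Bool.and_eq_true, Nat.ble_eq] at h2
          have := deg_horE (N := N 2) (D := D 2) (fE := fun _ p3 =>
            horE (fun _ p4 => horE (fun _ c => .num c) (N 4) (D 4) (n 4) p4) (N 3) (D 3) (n 3) p3)
            (j := j) (g := n 3 * (if 3 = j then 1 else 0) + n 4 * (if 4 = j then 1 else 0))
            (E := if 2 = j then 1 else 0)
            (S := fun p3 => (Nat.ble p3.length (n 3 + 1) &&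
              all' (fun p4 => Nat.ble p4.length (n 4 + 1)) p3) = true)
            (fun k p3 h3 => by
              simp only [Bool.and_eq_true, Nat.ble_eq] at h3
              have := deg_horE (N := N 3) (D := D 3)
                (fE := fun _ p4 => horE (fun _ c => .num c) (N 4) (D 4) (n 4) p4) (j := j)
                (g := n 4 * (if 4 = j then 1 else 0)) (E := if 3 = j then 1 else 0)
                (S := fun p4 => Nat.ble p4.length (n 4 + 1) = true)
                (fun k p4 h4 => by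
                  have := deg_horE (N := N 4) (D := D 4) (fE := fun _ c => Ex.num c) (j := j)
                    (g := 0) (E := if 4 = j then 1 else 0) (S := fun _ => True)
                    (fun k c _ => by simpa [Ex.deg] using step (by norm_num : 4 < 5) k)
                    (f 4 (by norm_num)).1 (n 4) p4 (fun _ _ => trivial) (Nat.le_of_ble_eq_true h4)
                  have := step (by norm_num : 3 < 5) k
                  omega)
                (f 3 (by norm_num)).1 (n 3) p3 (of_all' h3.2) h3.1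
              have := step (by norm_num : 2 < 5) k
              omega)
            (f 2 (by norm_num)).1 (n 2) p2 (of_all' h2.2) h2.1
          have := step (by norm_num : 1 < 5) k
          omega)
        (f 1 (by norm_num)).1 (n 1) p1 (of_all' h1.2) h1.1
      have := step (by norm_num : 0 < 5) k
      omega)
    (f 0 (by norm_num)).1 (n 0) l (of_all' hl) l0
  refine le_trans this (le_of_eq ?_)
  interval_cases j <;> simp

theorem levE_eval (t : ℕ → ℤ) (n : ℕ → ℕ) (l : L5) : (levE N D n l).eval t =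
    levZ (fun i => (N i).eval t) (fun i => (D i).eval t) n l :=
  eval_horE (fun _ _ => eval_horE (fun _ _ => eval_horE (fun _ _ => eval_horE (fun _ _ =>
    eval_horE (fun _ _ => by simp [Ex.eval]) _ _) _ _) _ _) _ _) _ _

theorem levE_bound (n : ℕ → ℕ) (l : L5) : bound (fun _ => idChart) 5 (levE N D n l) =
    levN (fun i => bound (fun _ => idChart) 5 (N i)) (fun i => bound (fun _ => idChart) 5 (D i))
      n l :=
  bound_horE (fun _ _ => bound_horE (fun _ _ => bound_horE (fun _ _ => bound_horE (fun _ _ =>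
    bound_horE (fun _ _ => by simp [bound]) _ _) _ _) _ _) _ _) _ _

theorem levE_real {t y : ℕ → ℝ} (hl : shpN n l = true)
    (h : ∀ i < 5, (N i).eval t = y i * (D i).eval t) :
    (levE N D n l).eval t = ((D 0).eval t ^ n 0 * ((D 1).eval t ^ n 1 * ((D 2).eval t ^ n 2 *
      ((D 3).eval t ^ n 3 * (D 4).eval t ^ n 4)))) * Sub.lval (y 4) (y 3) (y 2) (y 1) (y 0) l := by
  simp only [shpN, Bool.and_eq_true, Nat.ble_eq] at hl
  obtain ⟨l0, hl⟩ := hl
  have e : ∀ i < 5, (N i).eval t = y i * (1 * (D i).eval t) := fun i hi => by rw [one_mul, h i hi]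
  rw [levE, real_horE (M := 1) (y := y 0) (G := fun p1 => ((D 1).eval t ^ n 1 *
      ((D 2).eval t ^ n 2 * ((D 3).eval t ^ n 3 * (D 4).eval t ^ n 4))) *
      rpv (rpv (rpv (rpv (fun c : ℤ => (c : ℝ)) (y 4)) (y 3)) (y 2)) (y 1) p1)
    (S := fun p1 => (Nat.ble p1.length (n 1 + 1) && all' (fun p2 =>
      Nat.ble p2.length (n 2 + 1) && all' (fun p3 => Nat.ble p3.length (n 3 + 1) && all' (fun p4 =>
        Nat.ble p4.length (n 4 + 1)) p3) p2) p1) = true)
    ?_ (e 0 (by norm_num)) (n 0) l (of_all' hl) l0, rpv_mul]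
  · simp only [Sub.lval, one_mul]; ring
  intro k p1 h1
  simp only [Bool.and_eq_true, Nat.ble_eq] at h1
  rw [real_horE (M := 1) (y := y 1) (G := fun p2 => ((D 2).eval t ^ n 2 * ((D 3).eval t ^ n 3 *
      (D 4).eval t ^ n 4)) * rpv (rpv (rpv (fun c : ℤ => (c : ℝ)) (y 4)) (y 3)) (y 2) p2)
    (S := fun p2 => (Nat.ble p2.length (n 2 + 1) && all' (fun p3 => Nat.ble p3.length (n 3 + 1)
      && all' (fun p4 => Nat.ble p4.length (n 4 + 1)) p3) p2) = true)
    ?_ (e 1 (by norm_num)) (n 1) p1 (of_all' h1.2) h1.1, rpv_mul]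
  · ring
  intro k p2 h2
  simp only [Bool.and_eq_true, Nat.ble_eq] at h2
  rw [real_horE (M := 1) (y := y 2) (G := fun p3 => ((D 3).eval t ^ n 3 * (D 4).eval t ^ n 4) *
      rpv (rpv (fun c : ℤ => (c : ℝ)) (y 4)) (y 3) p3)
    (S := fun p3 => (Nat.ble p3.length (n 3 + 1) &&
      all' (fun p4 => Nat.ble p4.length (n 4 + 1)) p3) = true)
    ?_ (e 2 (by norm_num)) (n 2) p2 (of_all' h2.2) h2.1, rpv_mul]
  · ring
  intro k p3 h3
  simp only [Bool.and_eq_true, Nat.ble_eq] at h3
  rw [real_horE (M := 1) (y := y 3)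
    (G := fun p4 => (D 4).eval t ^ n 4 * rpv (fun c : ℤ => (c : ℝ)) (y 4) p4)
    (S := fun p4 => Nat.ble p4.length (n 4 + 1) = true)
    ?_ (e 3 (by norm_num)) (n 3) p3 (of_all' h3.2) h3.1, rpv_mul]
  · ring
  intro k p4 h4
  rw [real_horE (M := 1) (y := y 4) (G := fun c : ℤ => (c : ℝ)) (S := fun _ => True)
    (fun k c _ => by simp [Ex.eval]) (e 4 (by norm_num)) (n 4) p4 (fun _ _ => trivial)
    (Nat.le_of_ble_eq_true h4)]
  ring

end

/-! ### The entries -/

def gH : Ex := .var 0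
def gX : Ex := .var 1
def gU : Ex := .var 2
def gI : Ex := .var 3
def gA : Ex := .var 4
def gS : Ex := .sub (.num 1) (.mul (.num 2) gI)
def gB : Ex := .sub gS gA
def gD : Ex := .sub gB gA
def gDn : Ex := .sub (.add (.num 2) gX) (.mul gU (.sub (.num 1) gH))
def gGn : Ex :=
  .sub (.mul (.add (.num 2) gX) gB) (.mul (.mul gS gU) (.add (.num 1) gX))
def gZK : Ex := .mul (.mul (.mul (.mul (.mul gU (.pow gS 4)) gD) (.mul gDn gX)) gI) gGn
def gBS (k : ℕ) : Ex := .mul (.pow gB 2) (.pow gS k)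

/-- The stored numerators, and `1`. -/
def rawNum (cl : Bool) : ℕ → L5
  | 0 => cond cl numEECl numEE
  | 1 => cond cl numGGCl numGG
  | 2 => numMM
  | 3 => cond cl numEGCl numEG
  | 4 => numME
  | 5 => cond cl numMGCl numMG
  | 6 => cond cl numLGCl numLG
  | _ => [[[[[1]]]]]

/-- The degrees of the stored numerators. -/
def nNum : ℕ → ℕ → ℕ
  | 0 => d5 2 8 5 12 6
  | 1 => d5 4 9 4 13 6
  | 2 => d5 2 1 1 2 2
  | 3 => d5 3 8 3 10 4
  | 4 => d5 2 4 3 6 3
  | 5 => d5 3 8 5 12 6
  | 6 => d5 2 4 2 6 3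
  | _ => d5 0 0 0 0 0

/-- The products whose sum is the entry. -/
def terms : ℕ → List (Ex × ℕ)
  | 0 => [(.mul (.num 5) (.mul gU gS), 0), (gU, 5)]
  | 1 => [(.num 1, 1)]
  | 2 => [(.mul (gBS 3) (.pow gDn 2), 2)]
  | 3 => [(.mul (.mul gU (.pow gB 2)) gS, 3)]
  | 4 => [(.mul (gBS 2) gDn, 4)]
  | 5 => [(.num 1, 5)]
  | 6 => [(.pow gB 2, 6)]
  | 7 => [(.mul gU gZK, 7)]
  | 8 => [(.mul (.mul (.mul gI (.pow gS 4)) gD) (.pow gDn 2), 7)]
  | 9 => [(.mul (.mul (.mul gU (.pow gS 2)) gD) gI, 7)]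
  | 10 => [(gZK, 7)]
  | 11 => [(.mul (.pow gU 2) (.mul (gBS 3) (.pow gDn 2)), 2)]
  | 12 => [(.mul gU (.mul (gBS 2) gDn), 4)]
  | 13 => [(.mul (.mul (.mul (gBS 2) gDn) gX) gGn, 6)]
  | 14 => [(.mul gU (.mul (.mul (.mul (gBS 2) gDn) gX) gGn), 6)]
  | _ => [(.mul (gBS 2) (.pow gDn 2), 6)]

/-- The degrees of the entry: the largest of its products. -/
def nTot (k : ℕ) (j : ℕ) : ℕ :=
  (terms k).foldr (fun t m => max (t.1.deg j + nNum t.2 j) m) 0

/-- The padding of a product. -/
def padT (k : ℕ) (t : Ex × ℕ) (j : ℕ) : ℕ := nTot k j - (t.1.deg j + nNum t.2 j)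

/-- A product, homogenised. -/
def termE (C : ℕ → Chart) (cl : Bool) (k : ℕ) (t : Ex × ℕ) : Ex :=
  .mul (.mul (homX C t.1) (denX C (padT k t))) (levE (chN C) (chD C) (nNum t.2) (rawNum cl t.2))

/-- The entry, homogenised. -/
def entE (C : ℕ → Chart) (cl : Bool) (k : ℕ) : List (Ex × ℕ) → Ex
  | [] => .num 0
  | t :: ts => .add (termE C cl k t) (entE C cl k ts)

/-- The value of the products. -/
noncomputable def entZ (C : ℕ → Chart) (cl : Bool) (k : ℕ) (s : ℕ → ℤ) : List (Ex × ℕ) → ℤ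
  | [] => 0
  | t :: ts => Int.add (Int.mul (Int.mul ((homX C t.1).eval s) ((denX C (padT k t)).eval s))
      (levZ (fun i => (chN C i).eval s) (fun i => (chD C i).eval s) (nNum t.2) (rawNum cl t.2)))
      (entZ C cl k s ts)

/-- The bound of the products. -/
noncomputable def entB (C : ℕ → Chart) (cl : Bool) (k : ℕ) : List (Ex × ℕ) → ℕ
  | [] => 0
  | t :: ts => Nat.add (Nat.mul (Nat.mul (bound (fun _ => idChart) 5 (homX C t.1))
      (bound (fun _ => idChart) 5 (denX C (padT k t))))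
      (levN (fun i => bound (fun _ => idChart) 5 (chN C i))
        (fun i => bound (fun _ => idChart) 5 (chD C i)) (nNum t.2) (rawNum cl t.2)))
      (entB C cl k ts)

/-- The degrees and shapes of the products are right. -/
def entOk (C : ℕ → Chart) (cl : Bool) (k : ℕ) : Bool :=
  lineOk (chN C) (chD C) && all' (fun t : Ex × ℕ => (t.1.ok 5 && (homX C t.1).ok 5) &&
    shpN (nNum t.2) (rawNum cl t.2) && all' (fun j =>
      Nat.ble ((homX C t.1).deg j + (denX C (padT k t)).deg j + nNum t.2 j) (nTot k j) &&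
        Nat.beq (t.1.deg j + padT k t j + nNum t.2 j) (nTot k j)) [0, 1, 2, 3, 4]) (terms k)

/-- The coordinates of a surrogate. -/
def yN (C : ℕ → Chart) (p q : ℕ → ℤ) (i : ℕ) : Ex :=
  .sub (.mul (.num (p i)) (chN C i)) (.mul (.num (q i)) (chD C i))

/-- The two sides of the test: `± (den · entry - P) + eps`. -/
def sideE (C : ℕ → Chart) (cl : Bool) (k : ℕ) (p q : ℕ → ℤ) (den : ℕ) (eps : ℕ) (l : L5)
    (s : ℤ) : Ex :=
  .add (.mul (.num s) (.sub (.mul (.num den) (entE C cl k (terms k)))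
    (levE (yN C p q) (chD C) (nTot k) l))) (.mul (.num eps) (denX C (nTot k)))

/-- The value of a side. -/
noncomputable def sideZ (C : ℕ → Chart) (cl : Bool) (k : ℕ) (p q : ℕ → ℤ) (den : ℕ) (eps : ℕ)
    (l : L5) (s : ℤ) (t : ℕ → ℤ) : ℤ :=
  Int.add (Int.mul s (Int.sub (Int.mul den (entZ C cl k t (terms k)))
    (levZ (fun i => (yN C p q i).eval t) (fun i => (chD C i).eval t) (nTot k) l)))
    (Int.mul eps ((denX C (nTot k)).eval t))

/-- The common bound of the sides. -/
noncomputable def sideB (C : ℕ → Chart) (cl : Bool) (k : ℕ) (p q : ℕ → ℤ) (den : ℕ) (eps : ℕ)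
    (l : L5) : ℕ :=
  Nat.add (Nat.add (Nat.mul den (entB C cl k (terms k)))
    (levN (fun i => bound (fun _ => idChart) 5 (yN C p q i))
      (fun i => bound (fun _ => idChart) 5 (chD C i)) (nTot k) l))
    (Nat.mul eps (bound (fun _ => idChart) 5 (denX C (nTot k))))

/-- The test. -/
noncomputable def checkEnt (C : ℕ → Chart) (cl : Bool) (K k : ℕ) (p q : ℕ → ℤ) (den : ℕ)
    (eps : ℕ) (l : L5) : Bool :=
  entOk C cl k && lineOk (yN C p q) (chD C) && shpN (nTot k) l && decide (1 ≤ K) &&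
    all' (fun j => Nat.beq ((denX C (nTot k)).deg j) (nTot k j)) [0, 1, 2, 3, 4] &&
    (denX C (nTot k)).ok 5 &&
    decide (2 * sideB C cl k p q den eps l < 2 ^ K) &&
    all' (fun s => decide (0 ≤ sideZ C cl k p q den eps l s (base K 5 (nTot k))) &&
      maskLong K ((nTot k 0 + 1) * width 4 (nTot k))
        (sideZ C cl k p q den eps l s (base K 5 (nTot k))).toNat) [1, -1]

theorem entE_facts {C : ℕ → Chart} {cl : Bool} {k : ℕ} (hl : lineOk (chN C) (chD C) = true)
    (s : ℕ → ℤ) : ∀ {ts : List (Ex × ℕ)}, all' (fun t : Ex × ℕ => (t.1.ok 5 && (homX C t.1).ok 5) &&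
    shpN (nNum t.2) (rawNum cl t.2) && all' (fun j =>
      Nat.ble ((homX C t.1).deg j + (denX C (padT k t)).deg j + nNum t.2 j) (nTot k j) &&
        Nat.beq (t.1.deg j + padT k t j + nNum t.2 j) (nTot k j)) [0, 1, 2, 3, 4]) ts = true →
    (entE C cl k ts).ok 5 = true ∧ (∀ j < 5, (entE C cl k ts).deg j ≤ nTot k j) ∧
      (entE C cl k ts).eval s = entZ C cl k s ts ∧
      bound (fun _ => idChart) 5 (entE C cl k ts) = entB C cl k ts
  | [], _ => by simp [entE, entZ, entB, Ex.ok, Ex.deg, Ex.eval, bound]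
  | t :: ts, h => by
    simp only [all', Bool.and_eq_true] at h
    obtain ⟨⟨⟨⟨-, hho⟩, hsh⟩, hj⟩, h⟩ := h
    obtain ⟨i1, i2, i3, i4⟩ := entE_facts hl s h
    have f := fun i (hi : i < 5) => line_facts hl hi
    have hd : ∀ k', (denX C k').ok 5 = true := fun k' => by
      simp [denX, Ex.ok, (f 0 (by norm_num)).2.1, (f 1 (by norm_num)).2.1, (f 2 (by norm_num)).2.1,
        (f 3 (by norm_num)).2.1, (f 4 (by norm_num)).2.1]
    refine ⟨?_, fun j hj5 => ?_, ?_, ?_⟩
    · simp [entE, termE, Ex.ok, hho, hd, levE_ok hl, i1]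
    · have h1 : (homX C t.1).deg j + (denX C (padT k t)).deg j + nNum t.2 j ≤ nTot k j := by
        obtain ⟨⟨a0, -⟩, ⟨a1, -⟩, ⟨a2, -⟩, ⟨a3, -⟩, ⟨a4, -⟩, -⟩ := hj
        interval_cases j <;> exact Nat.le_of_ble_eq_true (by assumption)
      have h2 := levE_deg hl hsh hj5
      have h3 := i2 j hj5
      simp only [entE, termE, Ex.deg]
      omega
    · simp only [entE, termE, Ex.eval, i3, levE_eval, entZ]
      simp
    · simp only [entE, termE, bound, i4, levE_bound, entB]
      simp [denB, prodTo, idChart]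

theorem entE_real {C : ℕ → Chart} {cl : Bool} {k : ℕ} {t x : ℕ → ℝ}
    (hx : ∀ i < 5, ((C i).a : ℝ) + (C i).b * t i = x i * (((C i).c : ℝ) + (C i).d * t i)) :
    ∀ {ts : List (Ex × ℕ)}, all' (fun t : Ex × ℕ => (t.1.ok 5 && (homX C t.1).ok 5) &&
      shpN (nNum t.2) (rawNum cl t.2) && all' (fun j =>
        Nat.ble ((homX C t.1).deg j + (denX C (padT k t)).deg j + nNum t.2 j) (nTot k j) &&
          Nat.beq (t.1.deg j + padT k t j + nNum t.2 j) (nTot k j)) [0, 1, 2, 3, 4]) ts = true →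
    (entE C cl k ts).eval t = den C 5 t (nTot k) *
      (ts.map fun s => s.1.eval x * Sub.lval (x 4) (x 3) (x 2) (x 1) (x 0) (rawNum cl s.2)).sum
  | [], _ => by simp [entE, Ex.eval]
  | s :: ts, h => by
    simp only [all', Bool.and_eq_true] at h
    obtain ⟨⟨⟨⟨hok, -⟩, hsh⟩, hj⟩, h⟩ := h
    obtain ⟨⟨-, b0⟩, ⟨-, b1⟩, ⟨-, b2⟩, ⟨-, b3⟩, ⟨-, b4⟩, -⟩ := hj
    have e0 := Nat.eq_of_beq_eq_true b0
    have e1 := Nat.eq_of_beq_eq_true b1
    have e2 := Nat.eq_of_beq_eq_true b2
    have e3 := Nat.eq_of_beq_eq_true b3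
    have e4 := Nat.eq_of_beq_eq_true b4
    simp only [entE, termE, Ex.eval, eval_homX, eval_denX, hom_eq C 5 hx s.1 hok,
      levE_real (N := chN C) (D := chD C) (t := t) (y := x) hsh
        (fun i hi => by simpa [chN, chD, Ex.eval] using hx i hi),
      entE_real hx h, List.map_cons, List.sum_cons]
    simp only [den, prodTo, ← e0, ← e1, ← e2, ← e3, ← e4, chD, Ex.eval, pow_add]
    ring

/-- The factors and numerators give the entry. -/
theorem terms_eq (cl : Bool) (k : ℕ) (η X u I a : ℝ) {x y : ℕ → ℝ}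
    (h0 : x 0 = X) (h1 : x 1 = u) (h2 : x 2 = I) (h3 : x 3 = a)
    (g0 : y 0 = η) (g1 : y 1 = X) (g2 : y 2 = u) (g3 : y 3 = I) (g4 : y 4 = a) :
    ((terms k).map fun s =>
      s.1.eval y * Sub.lval (y 4) (y 3) (y 2) (y 1) (y 0) (rawNum cl s.2)).sum = entV cl x η k := by
  have hn : ∀ i, i < 7 → Sub.lval a I u X η (rawNum cl i) = nv cl x η i := by
    intro i hi
    interval_cases i <;>
      simp [rawNum, nv, numOf, numEx, pv2_lval, vU, vI, vA, Ex.eval, h0, h1, h2, h3]
  have h7 : Sub.lval a I u X η (rawNum cl 7) = 1 := by simp [rawNum, Sub.lval, rpv]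
  match k with
  | 0 | 1 | 2 | 3 | 4 | 5 | 6 | 7 | 8 | 9 | 10 | 11 | 12 | 13 | 14 | _ + 15 =>
    simp only [terms, List.map_cons, List.map_nil, List.sum_cons, List.sum_nil, g0, g1, g2, g3, g4,
      hn 0 (by norm_num), hn 1 (by norm_num), hn 2 (by norm_num), hn 3 (by norm_num),
      hn 4 (by norm_num), hn 5 (by norm_num), hn 6 (by norm_num), h7, entV, gU, gS, gB, gD, gDn,
      gGn, gZK, gBS, gI, gA, gH, gX, Ex.eval, zK, rS, rb, rd, rDn, rgn, h0, h1, h2, h3]
    push_cast
    ring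

/-- **The surrogate is within its error.** -/
theorem abs_le_of_checkEnt {C : ℕ → Chart} {cl : Bool} {K k : ℕ} {p q : ℕ → ℤ} {den' : ℕ}
    {eps : ℕ} {l : L5} (h : checkEnt C cl K k p q den' eps l = true) {y : ℕ → ℝ}
    (hy : ∀ i < 5, ∃ t : ℝ, 0 ≤ t ∧ 0 < ((C i).c : ℝ) + (C i).d * t ∧
      ((C i).a : ℝ) + (C i).b * t = y i * (((C i).c : ℝ) + (C i).d * t)) {x : ℕ → ℝ}
    (h0 : x 0 = y 1) (h1 : x 1 = y 2) (h2 : x 2 = y 3) (h3 : x 3 = y 4) :
    |(den' : ℝ) * entV cl x (y 0) k - Sub.lval (p 4 * y 4 - q 4) (p 3 * y 3 - q 3)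
      (p 2 * y 2 - q 2) (p 1 * y 1 - q 1) (p 0 * y 0 - q 0) l| ≤ eps := by
  simp only [checkEnt, Bool.and_eq_true, decide_eq_true_eq, maskLong_eq] at h
  obtain ⟨⟨⟨⟨⟨⟨⟨he, hyl⟩, hsl⟩, hK⟩, hdd⟩, hdo⟩, hb⟩, hs⟩ := h
  simp only [entOk, Bool.and_eq_true] at he
  obtain ⟨hl, he⟩ := he
  obtain ⟨oE, dE, vE, bE⟩ := entE_facts hl (base K 5 (nTot k)) he
  have hdeg : ∀ s : ℤ, ∀ i < 5, (sideE C cl k p q den' eps l s).deg i = nTot k i := fun s i hi => by
    have h1 := Nat.eq_of_beq_eq_true (of_all' hdd i (by interval_cases i <;> simp))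
    have h2 := dE i hi
    have h3 := levE_deg hyl hsl hi
    simp only [sideE, Ex.deg]
    omega
  choose t ht using hy
  obtain ⟨s, hs'⟩ : ∃ s : ℕ → ℝ, s = fun i => if hi : i < 5 then t i hi else 0 := ⟨_, rfl⟩
  have hsv : ∀ i (hi : i < 5), s i = t i hi := fun i hi => by simp [hs', hi]
  have side : ∀ g ∈ [(1 : ℤ), -1], 0 ≤ (sideE C cl k p q den' eps l g).eval s := fun g hg => by
    have h1 := of_all' hs g hg
    simp only [Bool.and_eq_true, decide_eq_true_eq, maskLong_eq] at h1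
    refine nonneg_fast (B := sideB C cl k p q den' eps l) ?_ hK (hdeg g) ?_ hb ?_ h1.1 h1.2
      fun i hi => by rw [hsv i hi]; exact (ht i hi).1
    · simp [sideE, Ex.ok, oE, hdo, levE_ok hyl]
    · simp only [sideE, bound, bE, levE_bound, sideB]
      have : g.natAbs = 1 := by
        rcases List.mem_cons.1 hg with rfl | hg
        · rfl
        · obtain rfl := List.mem_singleton.1 hg; rfl
      simp [denB, prodTo, idChart, this]
    · simp only [sideE, Ex.eval, vE, levE_eval, sideZ]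
      simp
      exact Or.inl rfl
  have hx5 : ∀ i < 5, ((C i).a : ℝ) + (C i).b * s i = y i * (((C i).c : ℝ) + (C i).d * s i) :=
    fun i hi => by rw [hsv i hi]; exact (ht i hi).2.2
  have hpos : 0 < den C 5 s (nTot k) :=
    den_pos C 5 (fun i hi => by rw [hsv i hi]; exact (ht i hi).2.1) _
  have hlev := levE_real (N := yN C p q) (D := chD C) (n := nTot k) (l := l) (t := s)
    (y := fun i => p i * y i - q i) hsl fun i hi => by
      simp only [yN, chN, chD, Ex.eval, hx5 i hi]; push_cast; ring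
  have hd5 : den C 5 s (nTot k) = (chD C 0).eval s ^ nTot k 0 * ((chD C 1).eval s ^ nTot k 1 *
      ((chD C 2).eval s ^ nTot k 2 * ((chD C 3).eval s ^ nTot k 3 *
        (chD C 4).eval s ^ nTot k 4))) := by
    simp only [den, prodTo, chD, Ex.eval]; ring
  have g1 := side 1 List.mem_cons_self
  have g2 := side (-1) (List.mem_cons_of_mem _ List.mem_cons_self)
  simp only [sideE, Ex.eval, hlev, ← hd5, eval_denX, entE_real hx5 he,
    terms_eq cl k (y 0) (y 1) (y 2) (y 3) (y 4) (x := x) (y := y) h0 h1 h2 h3 rfl rfl rfl rfl rfl]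
    at g1 g2
  push_cast at g1 g2
  rw [abs_le]
  constructor <;> refine le_of_mul_le_mul_left ?_ hpos <;> linarith

end Vale.Agent.P100.Calib.MidTail
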