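import Vale.Agent.P100.Calib.SlabMidTailLeaf
import Vale.Agent.P100.Calib.SlabMidTailChart

/-!
# The signs on a leaf
-/

set_option linter.unusedVariables false

namespace Vale.Agent.P100.Calib.MidTail

open Pack EndAll

/-- The four values as a point. -/
def mk4 (a0 a1 a2 a3 : ℝ) : ℕ → ℝ
  | 0 => a0
  | 1 => a1
  | 2 => a2
  | _ => a3

theorem posList_mem {C : ℕ → Chart} {K : ℕ} {x : ℕ → ℝ} (hx : ∀ i < 4, In1 (C i) (x i)) :
    ∀ {l : List Ex}, posList C K l = true → ∀ e ∈ l, 0 ≤ e.eval x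
  | [], _, e, h => absurd h List.not_mem_nil
  | c :: cs, h, e, he => by
    simp only [posList, Bool.and_eq_true] at h
    rcases List.mem_cons.1 he with rfl | he
    · exact nonneg_of_checkAuto h.1 fun i hi => (hx i hi).point
    · exact posList_mem hx h.2 e he

theorem pv_congr {x y : ℕ → ℝ} {f : Ex → Ex} (hf : ∀ e, (f e).eval x = (f e).eval y) (t : ℝ) :
    ∀ l : List Ex, pv x t (l.map f) = pv y t (l.map f)
  | [] => rfl
  | e :: l => by simp only [List.map_cons, pv, hf, pv_congr hf t l]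

theorem hor3_congr {x y : ℕ → ℝ} {v₀ v₁ v₂ : Ex} (h0 : v₀.eval x = v₀.eval y)
    (h1 : v₁.eval x = v₁.eval y) (h2 : v₂.eval x = v₂.eval y) (l : List (List (List ℤ))) :
    (hor3 v₀ v₁ v₂ l).eval x = (hor3 v₀ v₁ v₂ l).eval y := by
  have e2 : ∀ (t : ℝ) (r : List ℤ), pv x t (r.map Ex.num) = pv y t (r.map Ex.num) := by
    intro t r
    induction r with
    | nil => rfl
    | cons a r ih => simp only [List.map_cons, pv, ih, Ex.eval]
  have e1 : ∀ (t : ℝ) (m : List (List ℤ)), pv x t (m.map fun r => hor v₂ (r.map Ex.num)) =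
      pv y t (m.map fun r => hor v₂ (r.map Ex.num)) := by
    intro t m
    induction m with
    | nil => rfl
    | cons r m ih => simp only [List.map_cons, pv, ih, eval_hor, h2, e2]
  rw [hor3, eval_hor, eval_hor, h0]
  induction l with
  | nil => rfl
  | cons m l ih => simp only [List.map_cons, pv, ih, eval_hor, h1, e1]

theorem pv2_congr {x y : ℕ → ℝ} {v₀ v₁ v₂ : Ex} (h0 : v₀.eval x = v₀.eval y)
    (h1 : v₁.eval x = v₁.eval y) (h2 : v₂.eval x = v₂.eval y) (X η : ℝ) :
    ∀ l : List (List (List (List (List ℤ)))),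
      pv2 x X η (poly5 v₀ v₁ v₂ l) = pv2 y X η (poly5 v₀ v₁ v₂ l)
  | [] => rfl
  | m :: l => by
    have e : pv x X (m.map (hor3 v₀ v₁ v₂)) = pv y X (m.map (hor3 v₀ v₁ v₂)) := by
      induction m with
      | nil => rfl
      | cons r m ih => simp only [List.map_cons, pv, ih, hor3_congr h0 h1 h2]
    have := pv2_congr h0 h1 h2 X η l
    simp only [poly5] at this
    simp only [poly5, List.map_cons, pv2, e, this]

theorem In1.mono {A B : Chart} {y : ℝ} (h : In1 A y) (hs : Leaf.sub1 A B = true) : In1 B y := by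
  simp only [Leaf.sub1, decide_eq_true_eq] at hs
  obtain ⟨hA, hB, hAd, hBd, h1, h2, h3⟩ := hs
  refine ⟨?_, ?_, ?_⟩
  · exact_mod_cast h3
  · refine le_of_mul_le_mul_right ?_ (Int.cast_pos (R := ℝ).2 hA)
    have e1 : (B.a : ℝ) * A.c ≤ A.a * B.c := by exact_mod_cast h1
    have e2 := mul_le_mul_of_nonneg_right h.low (Int.cast_pos (R := ℝ).2 hB).le
    linarith
  · refine lt_of_mul_lt_mul_right (a := (A.d : ℝ)) ?_ (Int.cast_pos (R := ℝ).2 hAd).le
    have e1 : (A.b : ℝ) * B.d ≤ B.b * A.d := by exact_mod_cast h2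
    have e2 := mul_lt_mul_of_pos_right h.high (Int.cast_pos (R := ℝ).2 hBd)
    linarith

theorem exists_mix' {A B y : ℝ} (h0 : A ≤ y) (h1 : y ≤ B) :
    ∃ θ : ℝ, 0 ≤ θ ∧ θ ≤ 1 ∧ A + θ * (B - A) = y := by
  rcases (h0.trans h1).lt_or_eq with h | h
  · have hp : 0 < B - A := sub_pos.2 h
    refine ⟨(y - A) / (B - A), div_nonneg (by linarith) hp.le, (div_le_one hp).2 (by linarith), ?_⟩
    field_simp; ring
  · exact ⟨0, le_rfl, zero_le_one, by linarith⟩

namespace Leaf

variable {F : Leaf} {R : Root} {K : ℕ} {a I u X η : ℝ}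

/-- The point is on the leaf. -/
structure On (F : Leaf) (a I u X η : ℝ) : Prop where
  a_in : In1 F.ca a
  I_in : In1 F.cI I
  u_in : In1 F.cu u
  X_low : lv4 a I u F.L ≤ X * F.Dx
  X_high : X * F.Dx ≤ lv4 a I u F.H
  e_low : ∀ T : ℝ, 0 ≤ T → T ≤ 1 → lv4 a I u F.L + T * (lv4 a I u F.H - lv4 a I u F.L) = X * F.Dx →
    lv4 a I u F.A0 + T * lv4 a I u F.B0 ≤ η * F.De
  e_high : ∀ T : ℝ, 0 ≤ T → T ≤ 1 → lv4 a I u F.L + T * (lv4 a I u F.H - lv4 a I u F.L) = X * F.Dx →
    η * F.De ≤ lv4 a I u F.A1 + T * lv4 a I u F.B1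

theorem eval_lin4 (x : ℕ → ℝ) (c : ℤ × ℤ × ℤ × ℤ) :
    (lin4 c).eval x = lv4 (x 3) (x 2) (x 1) c := by
  obtain ⟨c0, ca, ci, cu⟩ := c
  simp only [lin4, lv4, Ex.eval]; ring

/-- The values of the combinations are positive. -/
theorem forms_pos {K' : ℕ} (hL : F.okLeaf R K = true) (hR : ∀ k ∈ F.used, R.okEnt K' k = true)
    (h : F.On a I u X η) :
    ∀ c ∈ F.forms, (c.2 : ℝ) ≤
      (R.den : ℝ) * cval (entV R.cl (mk4 X u I a) η) c.1 := by
  simp only [okLeaf, okPlace, Bool.and_eq_true, decide_eq_true_eq, List.all_eq_true] at hL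
  obtain ⟨⟨⟨hDx, hDe, hRD, hRe, hden, hc0, hdet⟩, -, hsu, hsI, hsa, hpl⟩, hfo⟩ := hL
  have hDx' : (0 : ℝ) < F.Dx := Int.cast_pos.2 hDx
  have hDe' : (0 : ℝ) < F.De := Int.cast_pos.2 hDe
  obtain ⟨T, hT0, hT1, hT⟩ := exists_mix' h.X_low h.X_high
  obtain ⟨θ, hθ0, hθ1, hθ⟩ := exists_mix' (h.e_low T hT0 hT1 hT) (h.e_high T hT0 hT1 hT)
  have hbox : ∀ i < 4, In1 (F.box i) (mk4 T u I a i) := by
    intro i hi
    interval_cases i
    · exact ⟨by norm_num [box, unit], by norm_num [box, unit, mk4, hT0],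
        by norm_num [box, unit, mk4]; linarith⟩
    · exact h.u_in
    · exact h.I_in
    · exact h.a_in
  have eX : F.eX.eval (mk4 T u I a) = X * F.Dx := by
    simp only [eX, Ex.eval, eval_lin4, mk4]; exact hT
  have e0 : F.eE0.eval (mk4 T u I a) = lv4 a I u F.A0 + T * lv4 a I u F.B0 := by
    simp only [eE0, Ex.eval, eval_lin4, mk4]
  have e1 : F.eE1.eval (mk4 T u I a) = lv4 a I u F.A1 + T * lv4 a I u F.B1 := by
    simp only [eE1, Ex.eval, eval_lin4, mk4]
  have hp := posList_mem hbox hpl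
  simp only [List.forall_mem_cons, List.not_mem_nil, false_implies, implies_true, and_true,
    Ex.eval, eX, e0, e1] at hp
  obtain ⟨p1, p2, p3, p4, p5, p6⟩ := hp
  push_cast at p1 p2 p3 p4 p5 p6
  have hRD' : (0 : ℝ) < R.De := Int.cast_pos.2 hRD
  have hθ' : 0 ≤ 1 - θ := by linarith
  have hm : R.Mem (mk4 X u I a) η := by
    refine ⟨fun i hi => ?_, hRD, hRe, ?_, ?_⟩
    · interval_cases i
      · refine ⟨by exact_mod_cast hdet, ?_, ?_⟩
        · refine le_of_mul_le_mul_right ?_ hDx'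
          simp only [mk4]; linarith
        · refine lt_of_mul_lt_mul_right ?_ hDx'.le
          simp only [mk4]; linarith
      · exact h.u_in.mono hsu
      · exact h.I_in.mono hsI
      · exact h.a_in.mono hsa
    · refine le_of_mul_le_mul_right ?_ hDe'
      rw [mul_right_comm, ← hθ]
      linarith [mul_nonneg hθ' p3, mul_nonneg hθ0 p5]
    · refine le_of_mul_le_mul_right ?_ hDe'
      rw [mul_right_comm, ← hθ]
      linarith [mul_nonneg hθ' p4, mul_nonneg hθ0 p6]
  obtain ⟨tT, hT2, hTd, hTe⟩ := (hbox 0 (by norm_num)).point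
  obtain ⟨tu, hu2, hud, hue⟩ := (hbox 1 (by norm_num)).point
  obtain ⟨tI, hI2, hId, hIe⟩ := (hbox 2 (by norm_num)).point
  obtain ⟨ta, ha2, had, hae⟩ := (hbox 3 (by norm_num)).point
  simp only [box, mk4] at hTd hTe hud hue hId hIe had hae
  obtain ⟨ts, hs2, hsd, hse⟩ : ∃ t : ℝ, 0 ≤ t ∧ 0 < (unit.c : ℝ) + unit.d * t ∧
      (unit.a : ℝ) + unit.b * t = θ * ((unit.c : ℝ) + unit.d * t) :=
    In1.point ⟨by norm_num [unit], by norm_num [unit, hθ0], by norm_num [unit]; linarith⟩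
  obtain ⟨t, ht⟩ : ∃ t : ℕ → ℝ, t = fun i : ℕ =>
      match i with | 0 => ts | 1 => tT | 2 => tu | 3 => tI | _ => ta := ⟨_, rfl⟩
  intro c hc
  have hok := hfo c hc
  simp only [okForm, Bool.and_eq_true] at hok
  obtain ⟨hin, hck⟩ := hok
  have g := Sub.le_of_check hck (t := t) fun i hi => by
    subst ht; interval_cases i <;> assumption
  have hshp : all' (fun t : ℤ × ℕ => Nat.blt t.2 16 && (Sub.shps R.sur).getD t.2 false)
      (merge c.1) = true := by
    simp only [Sub.check, Bool.and_eq_true] at hck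
    exact hck.1.1.1.1.1.2
  have elh : ∀ q : ℤ × ℤ × ℤ × ℤ, (F.lh q).eval t =
      lv4 a I u q * ((((F.ca).c : ℝ) + F.ca.d * ta) * ((F.cI.c : ℝ) + F.cI.d * tI) *
        ((F.cu.c : ℝ) + F.cu.d * tu)) := by
    rintro ⟨c0, ca, ci, cu⟩
    subst ht
    simp only [lh, d3, cnum, cden, Ex.eval, lv4, hae, hIe, hue]
    ring
  have hone : ∀ k, shp5 4 (R.sur k) = true → ((F.pk R).eE (R.sur k)).eval t =
      (F.pk R).scE.eval t * R.pval (mk4 X u I a) η k := fun k hk => by
    rw [Sub.real_eE (yA := R.p 3 * a - R.q 3) (yI := R.p 2 * I - R.q 2) (yU := R.p 1 * u - R.q 1)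
      (yX := R.p 0 * X - R.q 0) (yE := R.p 4 * η - R.q 4) hk
      (by subst ht; simp only [pk, cnum, cden, Ex.eval, hae]; ring)
      (by subst ht; simp only [pk, cnum, cden, Ex.eval, hIe]; ring)
      (by subst ht; simp only [pk, cnum, cden, Ex.eval, hue]; ring)
      (by simp only [pk, lt2, Ex.eval, elh, d3]
          subst ht
          simp only [cnum, cden, Ex.eval, hTe]
          push_cast
          linear_combination (R.p 0 : ℝ) * ((((F.ca).c : ℝ) + F.ca.d * ta) *
            ((F.cI.c : ℝ) + F.cI.d * tI) * ((F.cu.c : ℝ) + F.cu.d * tu) *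
            ((unit.c : ℝ) + unit.d * tT)) * hT)
      (by simp only [pk, lt2, Ex.eval, elh, d3]
          subst ht
          simp only [cnum, cden, Ex.eval, hTe, hse]
          push_cast
          linear_combination (F.Dx : ℝ) * (R.p 4 : ℝ) * ((((F.ca).c : ℝ) + F.ca.d * ta) *
            ((F.cI.c : ℝ) + F.cI.d * tI) * ((F.cu.c : ℝ) + F.cu.d * tu) *
            ((unit.c : ℝ) + unit.d * tT) * ((unit.c : ℝ) + unit.d * ts)) * hθ)
      ]
    rw [Root.pval, Root.pol, pv2_lval]
    simp [Root.aff, Ex.eval, mk4]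
  have hsum : ∀ l : Comb, all' (fun t : ℤ × ℕ => Nat.blt t.2 16 && (Sub.shps R.sur).getD t.2 false)
      l = true → ((F.pk R).cmbE R.sur l).eval t =
        (F.pk R).scE.eval t * cval (R.pval (mk4 X u I a) η) l := by
    intro l
    induction l with
    | nil => intro; simp [Sub.cmbE, Ex.eval, cval]
    | cons s l ih =>
      intro hl
      simp only [all', Bool.and_eq_true] at hl
      obtain ⟨⟨hk, hs⟩, hl⟩ := hl
      rw [(Sub.getD_facts (F.pk R) (fun _ => 0) R.sur (by simpa [Nat.blt] using hk)).2.2] at hs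
      simp only [Sub.cmbE, Ex.eval, hone _ hs, ih hl, cval]
      ring
  rw [hsum _ hshp] at g
  have hsc : 0 < (F.pk R).scE.eval t := by
    subst ht
    simp only [Sub.scE, pk, cden, Ex.eval]
    positivity
  have g2 : (cerr R.eps (merge c.1) : ℝ) + c.2 ≤ cval (R.pval (mk4 X u I a) η) (merge c.1) := by
    refine le_of_mul_le_mul_left ?_ hsc
    push_cast at g
    linarith
  have g3 := cval_ge (f := fun k => (R.den : ℝ) * entV R.cl (mk4 X u I a) η k)
    (g := R.pval (mk4 X u I a) η) (eps := R.eps) (ks := F.used)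
    (fun k hk => R.abs_sub_le (hR k hk) hm) (merge c.1) hin
  have e : ∀ l : Comb, cval (fun k => (R.den : ℝ) * entV R.cl (mk4 X u I a) η k) l =
      (R.den : ℝ) * cval (entV R.cl (mk4 X u I a) η) l := by
    intro l
    induction l with
    | nil => simp [cval]
    | cons t l ih => simp only [cval, ih]; ring
  rw [e] at g3
  simp only [cval_merge] at g2 g3
  linarith

theorem abs_add_abs_lt {d p q den : ℝ} (hd : 0 < den) (h1 : 1 ≤ den * (d + p + q))
    (h2 : 1 ≤ den * (d + p - q)) (h3 : 1 ≤ den * (d - p + q)) (h4 : 1 ≤ den * (d - p - q)) :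
    |p| + |q| < d := by
  have e : ∀ y : ℝ, 1 ≤ den * y → 0 < y := fun y hy =>
    pos_of_mul_pos_right (lt_of_lt_of_le one_pos hy) hd.le
  rcases abs_choice p with hp | hp <;> rcases abs_choice q with hq | hq <;> rw [hp, hq] <;>
    linarith [e _ h1, e _ h2, e _ h3, e _ h4]

theorem cval_two (f : ℕ → ℝ) (c₁ c₂ : ℤ) (k₁ k₂ : ℕ) :
    cval f [(c₁, k₁), (c₂, k₂)] = c₁ * f k₁ + c₂ * f k₂ := by simp [cval]

theorem cval_one (f : ℕ → ℝ) (c₁ : ℤ) (k₁ : ℕ) : cval f [(c₁, k₁)] = c₁ * f k₁ := by simp [cval]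

/-- **The signs on a leaf.** -/
theorem signs {K' : ℕ} (hL : F.okLeaf R K = true) (hR : ∀ k ∈ F.used, R.okEnt K' k = true)
    (h : F.On a I u X η) (hp : MPt (mk4 X u I a) η) (hgn : 0 < rgn (mk4 X u I a)) :
    ClosedGen.SignsMult a (rd (mk4 X u I a)) (rv (mk4 X u I a)) (rg (mk4 X u I a) η)
      (rW (mk4 X u I a) η) (rW1 (mk4 X u I a) η) (rR (mk4 X u I a))
      (rNum R.cl (mk4 X u I a) η) := by
  have hf := forms_pos hL hR h
  simp only [forms, rowForms, List.cons_append, List.nil_append, List.forall_mem_cons,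
    List.not_mem_nil, false_implies, implies_true, and_true] at hf
  simp only [okLeaf, okPlace, Bool.and_eq_true, decide_eq_true_eq] at hL
  obtain ⟨⟨⟨-, -, -, -, hden, -, -⟩, hz, -⟩, -⟩ := hL
  have hd : (0 : ℝ) < R.den := Nat.cast_pos.2 hden
  simp only [r00, r01, r02, r11, r12, r22, cval_append, cval_cmul, Nat.cast_one,
    Nat.cast_zero] at hf
  push_cast at hf
  obtain ⟨a1, a2, a3, a4, b1, b2, b3, b4, c1, c2, c3, c4, gN, gL⟩ := hf
  set x := mk4 X u I a with hx
  set f := entV R.cl x η with hfdef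
  obtain ⟨m1, m2, m3⟩ := minors_of_congr (a := cval f F.c00) (b := cval f F.c11)
    (c := cval f F.c22) (p := cval f F.c01) (q := cval f F.c02) (r := cval f F.c12)
    (t₀ := F.t0) (t₁ := F.t1) (t₂ := F.t2) (t₃ := F.t3) (t₄ := F.t4) (t₅ := F.t5)
    rfl rfl rfl rfl rfl rfl
    (abs_add_abs_lt hd (by linarith) (by linarith) (by linarith) (by linarith))
    (abs_add_abs_lt hd (by linarith) (by linarith) (by linarith) (by linarith))
    (abs_add_abs_lt hd (by linarith) (by linarith) (by linarith) (by linarith))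
  have hN0 : 0 ≤ cval f F.cN := nonneg_of_mul_nonneg_right gN hd
  have hL0 : 0 ≤ cval f F.cL := nonneg_of_mul_nonneg_right gL hd
  have pb := hp.b_pos
  have pu := hp.u_pos
  have pS := hp.S_pos
  have pd := hp.d_pos
  have pI := hp.I_pos
  rcases hlim : F.lim with _ | _
  · have hzd : 0 < F.zd := hz.resolve_left (by rw [hlim]; exact Bool.false_ne_true)
    have hz' : (0 : ℝ) < F.zd := Int.cast_pos.2 hzd
    simp only [c00, c11, c22, c01, c02, c12, cN, cL, hlim, cond_false, cval_two, cval_one,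
      hfdef, entV] at m1 m2 m3 hN0 hL0
    push_cast at m1 m2 m3 hN0 hL0
    refine signs_of_matrix hp hgn (ζ := (F.zn : ℝ) / F.zd) ?_ ?_ ?_ ?_ ?_
    · refine le_of_le_of_eq (div_nonneg hN0 hz'.le) ?_
      field_simp; ring
    · refine le_of_le_of_eq (div_nonneg hL0 hz'.le) ?_
      field_simp
    · refine lt_of_lt_of_eq (div_pos m1 hz') ?_
      simp only [m11]; field_simp
    · refine lt_of_lt_of_eq (div_pos m2 (pow_pos hz' 2)) ?_
      simp only [m00, m11, m01]; field_simp; ring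
    · refine lt_of_lt_of_eq (div_pos m3 (pow_pos hz' 3)) ?_
      simp only [det3, m00, m11, m22, m01, m02, m12]; field_simp; ring
  · simp only [c00, c11, c22, c01, c02, c12, cN, cL, hlim, cond_true, cval_two, cval_one,
      hfdef, entV, zK] at m1 m2 m3 hN0
    push_cast at m1 m2 m3 hN0
    refine signs_of_matrix hp hgn
      (ζ := -16 * (rb x ^ 2 * nv R.cl x η 6) / (5 * (x 1 * rS x ^ 2 * rd x * x 2))) ?_ ?_ ?_ ?_ ?_
    · refine le_of_le_of_eq hN0 ?_
      simp only [zK]; field_simp; ring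
    · refine le_of_eq ?_
      field_simp; ring
    · exact lt_of_lt_of_eq m1 (by simp only [m11])
    · refine lt_of_lt_of_eq m2 ?_
      simp only [m00, m11, m01, zK]; field_simp; ring
    · refine lt_of_lt_of_eq (div_pos m3 (pow_pos pu 2)) ?_
      simp only [det3, m00, m11, m22, m01, m02, m12, zK]; field_simp; ring

end Leaf

end Vale.Agent.P100.Calib.MidTail
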