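import Vale.Agent.P100.Calib.SlabMidUpPieces

/-!
# Checks of the piece 0
-/

set_option linter.defProp false

namespace Vale.Agent.P100.Calib.Closed.All.Low

/-- Checks of the piece 0. -/
def u0_group0 :
    ([upiece0.checkM false .g false .lo,
      upiece0.checkM false .g false .hi,
      upiece0.checkM false .g false .mid,
      upiece0.checkM false .g true .lo,
      upiece0.checkM false .g true .hi,
      upiece0.checkM false .g true .mid] : List QEx).all (fun q => checkShift ubox0 460 2 7 14 26 q.e) = true := by
  decide +kernel

/-- Checks of the piece 0. -/
def u0_group1 :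
    ([upiece0.checkM false .n false .lo,
      upiece0.checkM false .n false .hi,
      upiece0.checkM false .n false .mid,
      upiece0.checkM false .n true .lo,
      upiece0.checkM false .n true .hi,
      upiece0.checkM false .n true .mid] : List QEx).all (fun q => checkShift ubox0 559 4 8 18 31 q.e) = true := by
  decide +kernel

/-- Checks of the piece 0. -/
def u0_group2 :
    ([upiece0.checkM false .tlo false .lo,
      upiece0.checkM false .tlo false .hi,
      upiece0.checkM false .tlo false .mid,
      upiece0.checkM false .tlo true .lo,
      upiece0.checkM false .tlo true .hi,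
      upiece0.checkM false .tlo true .mid,
      upiece0.checkM false .thi false .lo,
      upiece0.checkM false .thi false .hi,
      upiece0.checkM false .thi false .mid,
      upiece0.checkM false .thi true .lo,
      upiece0.checkM false .thi true .hi,
      upiece0.checkM false .thi true .mid] : List QEx).all (fun q => checkShift ubox0 541 3 9 16 29 q.e) = true := by
  decide +kernel

/-- Checks of the piece 0. -/
def u0_group3 :
    ([upiece0.checkM false .mlo false .lo,
      upiece0.checkM false .mlo false .hi,
      upiece0.checkM false .mlo false .mid,
      upiece0.checkM false .mhi false .lo,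
      upiece0.checkM false .mhi false .hi,
      upiece0.checkM false .mhi false .mid] : List QEx).all (fun q => checkShift ubox0 382 4 5 10 18 q.e) = true := by
  decide +kernel

/-- Checks of the piece 0. -/
def u0_group4 :
    ([upiece0.checkM false .f false .lo] : List QEx).all (fun q => checkShift ubox0 621 5 11 18 33 q.e) = true := by
  decide +kernel

/-- Checks of the piece 0. -/
def u0_group5 :
    ([upiece0.checkM false .f false .hi] : List QEx).all (fun q => checkShift ubox0 621 5 11 18 33 q.e) = true := by
  decide +kernel

/-- Checks of the piece 0. -/
def u0_group6 :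
    ([upiece0.checkM false .f false .mid] : List QEx).all (fun q => checkShift ubox0 643 5 11 18 33 q.e) = true := by
  decide +kernel

/-- Checks of the piece 0. -/
def u0_group7 :
    ([upiece0.checkM false .f true .lo] : List QEx).all (fun q => checkShift ubox0 621 5 11 18 33 q.e) = true := by
  decide +kernel

/-- Checks of the piece 0. -/
def u0_group8 :
    ([upiece0.checkM false .f true .hi] : List QEx).all (fun q => checkShift ubox0 621 5 11 18 33 q.e) = true := by
  decide +kernel

/-- Checks of the piece 0. -/
def u0_group9 :
    ([upiece0.checkM false .f true .mid] : List QEx).all (fun q => checkShift ubox0 643 5 11 18 33 q.e) = true := by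
  decide +kernel

/-- Checks of the piece 0. -/
def u0_group10 :
    ([upiece0.env (bandMid Band.midLowA Band.midUpA).lo (bandMid Band.midLowA Band.midUpA).hi (bandMid Band.midLowA Band.midUpA).pole .piL,
      upiece0.env (bandMid Band.midLowA Band.midUpA).hi (bandMid Band.midLowA Band.midUpA).hi (bandMid Band.midLowA Band.midUpA).pole .piL,
      upiece0.env (bandMid Band.midLowA Band.midUpA).lo (bandMid Band.midLowA Band.midUpA).hi (bandMid Band.midLowA Band.midUpA).pole .piU] : List QEx).all (fun q => checkShift ubox0 164 5 2 4 7 q.e) = true := by
  decide +kernel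

/-- A check of the piece 0. -/
def u0_piU_hi_0 :
    checkShift ubox0_piU_hi_0 182 5 2 4 7 (upiece0.env (bandMid Band.midLowA Band.midUpA).hi (bandMid Band.midLowA Band.midUpA).hi (bandMid Band.midLowA Band.midUpA).pole .piU).e = true := by
  decide +kernel

/-- A check of the piece 0. -/
def u0_piU_hi_1 :
    checkShift ubox0_piU_hi_1 182 5 2 4 7 (upiece0.env (bandMid Band.midLowA Band.midUpA).hi (bandMid Band.midLowA Band.midUpA).hi (bandMid Band.midLowA Band.midUpA).pole .piU).e = true := by
  decide +kernel

/-- Checks of the piece 0. -/
def u0_group12 :
    ([upiece0.env (bandMid Band.midLowA Band.midUpA).lo (bandMid Band.midLowA Band.midUpA).hi (bandMid Band.midLowA Band.midUpA).pole .omL,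
      upiece0.env (bandMid Band.midLowA Band.midUpA).hi (bandMid Band.midLowA Band.midUpA).hi (bandMid Band.midLowA Band.midUpA).pole .omL,
      upiece0.env (bandMid Band.midLowA Band.midUpA).lo (bandMid Band.midLowA Band.midUpA).hi (bandMid Band.midLowA Band.midUpA).pole .omU,
      upiece0.env (bandMid Band.midLowA Band.midUpA).hi (bandMid Band.midLowA Band.midUpA).hi (bandMid Band.midLowA Band.midUpA).pole .omU] : List QEx).all (fun q => checkShift ubox0 275 7 4 7 11 q.e) = true := by
  decide +kernel

/-- Checks of the piece 0. -/
def u0_group13 :
    ([upiece0.env (bandMid Band.midLowA Band.midUpA).lo (bandMid Band.midLowA Band.midUpA).hi (bandMid Band.midLowA Band.midUpA).pole .tauL,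
      upiece0.env (bandMid Band.midLowA Band.midUpA).hi (bandMid Band.midLowA Band.midUpA).hi (bandMid Band.midLowA Band.midUpA).pole .tauL,
      upiece0.env (bandMid Band.midLowA Band.midUpA).lo (bandMid Band.midLowA Band.midUpA).hi (bandMid Band.midLowA Band.midUpA).pole .tauU,
      upiece0.env (bandMid Band.midLowA Band.midUpA).hi (bandMid Band.midLowA Band.midUpA).hi (bandMid Band.midLowA Band.midUpA).pole .tauU] : List QEx).all (fun q => checkShift ubox0 305 9 4 8 12 q.e) = true := by
  decide +kernel

/-- Checks of the piece 0. -/
def u0_group14 :
    ([xLLGQ false (bandMid Band.midLowA Band.midUpA) (bandMid Band.midLowA Band.midUpA).lo,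
      xLLGQ false (bandMid Band.midLowA Band.midUpA) (bandMid Band.midLowA Band.midUpA).hi] : List QEx).all (fun q => checkShift ubox0 322 8 4 12 18 q.e) = true := by
  decide +kernel

/-- Checks of the piece 0. -/
def u0_group15 :
    ([upiece0.wid - qD 1] : List QEx).all (fun q => checkShift ubox0 67 1 1 1 1 q.e) = true := by
  decide +kernel

/-- Checks of the piece 0. -/
def u0_group16 :
    ([upiece0.side .rA,
      upiece0.side .rB] : List QEx).all (fun q => checkShift ubox0 40 1 1 0 0 q.e) = true := by
  decide +kernel

/-- A check of the piece 0. -/
def u0_side_rF_0 :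
    checkShift ubox0_side_rF_0 92 2 2 0 0 (upiece0.side .rF).e = true := by
  decide +kernel

/-- A check of the piece 0. -/
def u0_side_rF_1 :
    checkShift ubox0_side_rF_1 92 2 2 0 0 (upiece0.side .rF).e = true := by
  decide +kernel

/-- Checks of the piece 0. -/
def u0_group18 :
    ([upiece0.side .q] : List QEx).all (fun q => checkShift ubox0 44 0 1 1 2 q.e) = true := by
  decide +kernel

/-- Checks of the piece 0. -/
def u0_group19 :
    ([upiece0.side .om] : List QEx).all (fun q => checkShift ubox0 130 1 2 4 6 q.e) = true := by
  decide +kernel

/-- The drift below the box of piece 0. -/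
def u0_drift :
    checkShift ubox0x 123 4 2 4 6 (xDrift (bandMid Band.midLowA Band.midUpA).hi (bandMid Band.midLowA Band.midUpA).pole).e = true := by
  decide +kernel

/-- The exit curve on the box of piece 0. -/
def uexit0_check :
    checkShift uexit0Box 80 2 0 1 1 (xExitM Band.midExitA 89 50).e = true := by
  decide +kernel

end Vale.Agent.P100.Calib.Closed.All.Low
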