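import Vale.Agent.P100.Calib.SlabMidUpPieces

/-!
# Checks of the piece 1
-/

set_option linter.defProp false

namespace Vale.Agent.P100.Calib.Closed.All.Low

/-- Checks of the piece 1. -/
def u1_group0 :
    ([upiece1.checkM false .g false .lo,
      upiece1.checkM false .g false .hi,
      upiece1.checkM false .g false .mid,
      upiece1.checkM false .g true .lo,
      upiece1.checkM false .g true .hi,
      upiece1.checkM false .g true .mid] : List QEx).all (fun q => checkShift ubox1 463 2 7 14 26 q.e) = true := by
  decide +kernel

/-- Checks of the piece 1. -/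
def u1_group1 :
    ([upiece1.checkM false .n false .lo,
      upiece1.checkM false .n false .hi,
      upiece1.checkM false .n false .mid,
      upiece1.checkM false .n true .lo,
      upiece1.checkM false .n true .hi,
      upiece1.checkM false .n true .mid] : List QEx).all (fun q => checkShift ubox1 563 4 8 18 31 q.e) = true := by
  decide +kernel

/-- Checks of the piece 1. -/
def u1_group2 :
    ([upiece1.checkM false .tlo false .lo,
      upiece1.checkM false .tlo false .hi,
      upiece1.checkM false .tlo false .mid,
      upiece1.checkM false .tlo true .lo,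
      upiece1.checkM false .tlo true .hi,
      upiece1.checkM false .tlo true .mid,
      upiece1.checkM false .thi false .lo,
      upiece1.checkM false .thi false .hi,
      upiece1.checkM false .thi false .mid,
      upiece1.checkM false .thi true .lo,
      upiece1.checkM false .thi true .hi,
      upiece1.checkM false .thi true .mid] : List QEx).all (fun q => checkShift ubox1 543 3 9 16 29 q.e) = true := by
  decide +kernel

/-- Checks of the piece 1. -/
def u1_group3 :
    ([upiece1.checkM false .mlo false .lo,
      upiece1.checkM false .mlo false .hi,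
      upiece1.checkM false .mlo false .mid,
      upiece1.checkM false .mhi false .lo,
      upiece1.checkM false .mhi false .hi,
      upiece1.checkM false .mhi false .mid] : List QEx).all (fun q => checkShift ubox1 383 4 5 10 18 q.e) = true := by
  decide +kernel

/-- Checks of the piece 1. -/
def u1_group4 :
    ([upiece1.checkM false .f false .lo] : List QEx).all (fun q => checkShift ubox1 623 5 11 18 33 q.e) = true := by
  decide +kernel

/-- Checks of the piece 1. -/
def u1_group5 :
    ([upiece1.checkM false .f false .hi] : List QEx).all (fun q => checkShift ubox1 623 5 11 18 33 q.e) = true := by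
  decide +kernel

/-- Checks of the piece 1. -/
def u1_group6 :
    ([upiece1.checkM false .f false .mid] : List QEx).all (fun q => checkShift ubox1 645 5 11 18 33 q.e) = true := by
  decide +kernel

/-- Checks of the piece 1. -/
def u1_group7 :
    ([upiece1.checkM false .f true .lo] : List QEx).all (fun q => checkShift ubox1 623 5 11 18 33 q.e) = true := by
  decide +kernel

/-- Checks of the piece 1. -/
def u1_group8 :
    ([upiece1.checkM false .f true .hi] : List QEx).all (fun q => checkShift ubox1 623 5 11 18 33 q.e) = true := by
  decide +kernel

/-- Checks of the piece 1. -/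
def u1_group9 :
    ([upiece1.checkM false .f true .mid] : List QEx).all (fun q => checkShift ubox1 645 5 11 18 33 q.e) = true := by
  decide +kernel

/-- A check of the piece 1. -/
def u1_piL_lo_0 :
    checkShift ubox1_piL_lo_0 219 5 2 4 7 (upiece1.env (bandMid Band.midLowA Band.midUpA).lo (bandMid Band.midLowA Band.midUpA).hi (bandMid Band.midLowA Band.midUpA).pole .piL).e = true := by
  decide +kernel

/-- A check of the piece 1. -/
def u1_piL_lo_1 :
    checkShift ubox1_piL_lo_1 219 5 2 4 7 (upiece1.env (bandMid Band.midLowA Band.midUpA).lo (bandMid Band.midLowA Band.midUpA).hi (bandMid Band.midLowA Band.midUpA).pole .piL).e = true := by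
  decide +kernel

/-- A check of the piece 1. -/
def u1_piL_lo_2 :
    checkShift ubox1_piL_lo_2 219 5 2 4 7 (upiece1.env (bandMid Band.midLowA Band.midUpA).lo (bandMid Band.midLowA Band.midUpA).hi (bandMid Band.midLowA Band.midUpA).pole .piL).e = true := by
  decide +kernel

/-- A check of the piece 1. -/
def u1_piL_lo_3 :
    checkShift ubox1_piL_lo_3 219 5 2 4 7 (upiece1.env (bandMid Band.midLowA Band.midUpA).lo (bandMid Band.midLowA Band.midUpA).hi (bandMid Band.midLowA Band.midUpA).pole .piL).e = true := by
  decide +kernel

/-- A check of the piece 1. -/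
def u1_piL_lo_4 :
    checkShift ubox1_piL_lo_4 219 5 2 4 7 (upiece1.env (bandMid Band.midLowA Band.midUpA).lo (bandMid Band.midLowA Band.midUpA).hi (bandMid Band.midLowA Band.midUpA).pole .piL).e = true := by
  decide +kernel

/-- A check of the piece 1. -/
def u1_piL_lo_5 :
    checkShift ubox1_piL_lo_5 219 5 2 4 7 (upiece1.env (bandMid Band.midLowA Band.midUpA).lo (bandMid Band.midLowA Band.midUpA).hi (bandMid Band.midLowA Band.midUpA).pole .piL).e = true := by
  decide +kernel

/-- A check of the piece 1. -/
def u1_piL_lo_6 :
    checkShift ubox1_piL_lo_6 219 5 2 4 7 (upiece1.env (bandMid Band.midLowA Band.midUpA).lo (bandMid Band.midLowA Band.midUpA).hi (bandMid Band.midLowA Band.midUpA).pole .piL).e = true := by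
  decide +kernel

/-- A check of the piece 1. -/
def u1_piL_lo_7 :
    checkShift ubox1_piL_lo_7 219 5 2 4 7 (upiece1.env (bandMid Band.midLowA Band.midUpA).lo (bandMid Band.midLowA Band.midUpA).hi (bandMid Band.midLowA Band.midUpA).pole .piL).e = true := by
  decide +kernel

/-- Checks of the piece 1. -/
def u1_group11 :
    ([upiece1.env (bandMid Band.midLowA Band.midUpA).hi (bandMid Band.midLowA Band.midUpA).hi (bandMid Band.midLowA Band.midUpA).pole .piL,
      upiece1.env (bandMid Band.midLowA Band.midUpA).lo (bandMid Band.midLowA Band.midUpA).hi (bandMid Band.midLowA Band.midUpA).pole .piU,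
      upiece1.env (bandMid Band.midLowA Band.midUpA).hi (bandMid Band.midLowA Band.midUpA).hi (bandMid Band.midLowA Band.midUpA).pole .piU] : List QEx).all (fun q => checkShift ubox1 165 5 2 4 7 q.e) = true := by
  decide +kernel

/-- Checks of the piece 1. -/
def u1_group12 :
    ([upiece1.env (bandMid Band.midLowA Band.midUpA).lo (bandMid Band.midLowA Band.midUpA).hi (bandMid Band.midLowA Band.midUpA).pole .omL,
      upiece1.env (bandMid Band.midLowA Band.midUpA).hi (bandMid Band.midLowA Band.midUpA).hi (bandMid Band.midLowA Band.midUpA).pole .omL] : List QEx).all (fun q => checkShift ubox1 277 7 4 7 11 q.e) = true := by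
  decide +kernel

/-- A check of the piece 1. -/
def u1_omU_lo_0 :
    checkShift ubox1_omU_lo_0 295 7 4 7 11 (upiece1.env (bandMid Band.midLowA Band.midUpA).lo (bandMid Band.midLowA Band.midUpA).hi (bandMid Band.midLowA Band.midUpA).pole .omU).e = true := by
  decide +kernel

/-- A check of the piece 1. -/
def u1_omU_lo_1 :
    checkShift ubox1_omU_lo_1 295 7 4 7 11 (upiece1.env (bandMid Band.midLowA Band.midUpA).lo (bandMid Band.midLowA Band.midUpA).hi (bandMid Band.midLowA Band.midUpA).pole .omU).e = true := by
  decide +kernel

/-- A check of the piece 1. -/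
def u1_omU_hi_0 :
    checkShift ubox1_omU_hi_0 295 7 4 7 11 (upiece1.env (bandMid Band.midLowA Band.midUpA).hi (bandMid Band.midLowA Band.midUpA).hi (bandMid Band.midLowA Band.midUpA).pole .omU).e = true := by
  decide +kernel

/-- A check of the piece 1. -/
def u1_omU_hi_1 :
    checkShift ubox1_omU_hi_1 295 7 4 7 11 (upiece1.env (bandMid Band.midLowA Band.midUpA).hi (bandMid Band.midLowA Band.midUpA).hi (bandMid Band.midLowA Band.midUpA).pole .omU).e = true := by
  decide +kernel

/-- Checks of the piece 1. -/
def u1_group15 :
    ([upiece1.env (bandMid Band.midLowA Band.midUpA).lo (bandMid Band.midLowA Band.midUpA).hi (bandMid Band.midLowA Band.midUpA).pole .tauL,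
      upiece1.env (bandMid Band.midLowA Band.midUpA).hi (bandMid Band.midLowA Band.midUpA).hi (bandMid Band.midLowA Band.midUpA).pole .tauL,
      upiece1.env (bandMid Band.midLowA Band.midUpA).lo (bandMid Band.midLowA Band.midUpA).hi (bandMid Band.midLowA Band.midUpA).pole .tauU,
      upiece1.env (bandMid Band.midLowA Band.midUpA).hi (bandMid Band.midLowA Band.midUpA).hi (bandMid Band.midLowA Band.midUpA).pole .tauU] : List QEx).all (fun q => checkShift ubox1 307 9 4 8 12 q.e) = true := by
  decide +kernel

/-- Checks of the piece 1. -/
def u1_group16 :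
    ([xLLGQ false (bandMid Band.midLowA Band.midUpA) (bandMid Band.midLowA Band.midUpA).lo,
      xLLGQ false (bandMid Band.midLowA Band.midUpA) (bandMid Band.midLowA Band.midUpA).hi] : List QEx).all (fun q => checkShift ubox1 323 8 4 12 18 q.e) = true := by
  decide +kernel

/-- Checks of the piece 1. -/
def u1_group17 :
    ([upiece1.wid - qD 1] : List QEx).all (fun q => checkShift ubox1 68 1 1 1 1 q.e) = true := by
  decide +kernel

/-- Checks of the piece 1. -/
def u1_group18 :
    ([upiece1.side .rA,
      upiece1.side .rB] : List QEx).all (fun q => checkShift ubox1 39 1 1 0 0 q.e) = true := by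
  decide +kernel

/-- A check of the piece 1. -/
def u1_side_rF_0 :
    checkShift ubox1_side_rF_0 90 2 2 0 0 (upiece1.side .rF).e = true := by
  decide +kernel

/-- A check of the piece 1. -/
def u1_side_rF_1 :
    checkShift ubox1_side_rF_1 90 2 2 0 0 (upiece1.side .rF).e = true := by
  decide +kernel

/-- Checks of the piece 1. -/
def u1_group20 :
    ([upiece1.side .q] : List QEx).all (fun q => checkShift ubox1 44 0 1 1 2 q.e) = true := by
  decide +kernel

/-- Checks of the piece 1. -/
def u1_group21 :
    ([upiece1.side .om] : List QEx).all (fun q => checkShift ubox1 130 1 2 4 6 q.e) = true := by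
  decide +kernel

/-- The drift below the box of piece 1. -/
def u1_drift :
    checkShift ubox1x 123 4 2 4 6 (xDrift (bandMid Band.midLowA Band.midUpA).hi (bandMid Band.midLowA Band.midUpA).pole).e = true := by
  decide +kernel

/-- The exit curve on the box of piece 1. -/
def uexit1_check :
    checkShift uexit1Box 80 2 0 1 1 (xExitM Band.midExitA 12 5).e = true := by
  decide +kernel

end Vale.Agent.P100.Calib.Closed.All.Low
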