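import Vale.Agent.P100.Calib.SlabMidUpPieces

/-!
# Checks of the piece 2
-/

set_option linter.defProp false

namespace Vale.Agent.P100.Calib.Closed.All.Low

/-- Checks of the piece 2. -/
def u2_group0 :
    ([upiece2.checkM false .g false .lo,
      upiece2.checkM false .g false .hi,
      upiece2.checkM false .g false .mid,
      upiece2.checkM false .g true .lo,
      upiece2.checkM false .g true .hi,
      upiece2.checkM false .g true .mid] : List QEx).all (fun q => checkShift ubox2 555 2 7 14 26 q.e) = true := by
  decide +kernel

/-- Checks of the piece 2. -/
def u2_group1 :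
    ([upiece2.checkM false .n false .lo,
      upiece2.checkM false .n false .hi,
      upiece2.checkM false .n false .mid,
      upiece2.checkM false .n true .lo,
      upiece2.checkM false .n true .hi,
      upiece2.checkM false .n true .mid] : List QEx).all (fun q => checkShift ubox2 670 4 8 18 31 q.e) = true := by
  decide +kernel

/-- Checks of the piece 2. -/
def u2_group2 :
    ([upiece2.checkM false .tlo false .lo,
      upiece2.checkM false .tlo false .hi,
      upiece2.checkM false .tlo false .mid,
      upiece2.checkM false .tlo true .lo,
      upiece2.checkM false .tlo true .hi,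
      upiece2.checkM false .tlo true .mid,
      upiece2.checkM false .thi false .lo,
      upiece2.checkM false .thi false .hi,
      upiece2.checkM false .thi false .mid,
      upiece2.checkM false .thi true .lo,
      upiece2.checkM false .thi true .hi,
      upiece2.checkM false .thi true .mid] : List QEx).all (fun q => checkShift ubox2 646 3 9 16 29 q.e) = true := by
  decide +kernel

/-- Checks of the piece 2. -/
def u2_group3 :
    ([upiece2.checkM false .mlo false .lo,
      upiece2.checkM false .mlo false .hi,
      upiece2.checkM false .mlo false .mid,
      upiece2.checkM false .mhi false .lo,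
      upiece2.checkM false .mhi false .hi,
      upiece2.checkM false .mhi false .mid] : List QEx).all (fun q => checkShift ubox2 447 4 5 10 18 q.e) = true := by
  decide +kernel

/-- Checks of the piece 2. -/
def u2_group4 :
    ([upiece2.checkM false .f false .lo] : List QEx).all (fun q => checkShift ubox2 741 5 11 18 33 q.e) = true := by
  decide +kernel

/-- Checks of the piece 2. -/
def u2_group5 :
    ([upiece2.checkM false .f false .hi] : List QEx).all (fun q => checkShift ubox2 741 5 11 18 33 q.e) = true := by
  decide +kernel

/-- Checks of the piece 2. -/
def u2_group6 :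
    ([upiece2.checkM false .f false .mid] : List QEx).all (fun q => checkShift ubox2 762 5 11 18 33 q.e) = true := by
  decide +kernel

/-- Checks of the piece 2. -/
def u2_group7 :
    ([upiece2.checkM false .f true .lo] : List QEx).all (fun q => checkShift ubox2 741 5 11 18 33 q.e) = true := by
  decide +kernel

/-- Checks of the piece 2. -/
def u2_group8 :
    ([upiece2.checkM false .f true .hi] : List QEx).all (fun q => checkShift ubox2 741 5 11 18 33 q.e) = true := by
  decide +kernel

/-- Checks of the piece 2. -/
def u2_group9 :
    ([upiece2.checkM false .f true .mid] : List QEx).all (fun q => checkShift ubox2 762 5 11 18 33 q.e) = true := by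
  decide +kernel

/-- Checks of the piece 2. -/
def u2_group10 :
    ([upiece2.env (bandMid Band.midLowB Band.midUpB).lo (bandMid Band.midLowB Band.midUpB).hi (bandMid Band.midLowB Band.midUpB).pole .piL,
      upiece2.env (bandMid Band.midLowB Band.midUpB).hi (bandMid Band.midLowB Band.midUpB).hi (bandMid Band.midLowB Band.midUpB).pole .piL,
      upiece2.env (bandMid Band.midLowB Band.midUpB).lo (bandMid Band.midLowB Band.midUpB).hi (bandMid Band.midLowB Band.midUpB).pole .piU] : List QEx).all (fun q => checkShift ubox2 190 5 2 4 7 q.e) = true := by
  decide +kernel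

/-- A check of the piece 2. -/
def u2_piU_hi_0 :
    checkShift ubox2_piU_hi_0 208 5 2 4 7 (upiece2.env (bandMid Band.midLowB Band.midUpB).hi (bandMid Band.midLowB Band.midUpB).hi (bandMid Band.midLowB Band.midUpB).pole .piU).e = true := by
  decide +kernel

/-- A check of the piece 2. -/
def u2_piU_hi_1 :
    checkShift ubox2_piU_hi_1 208 5 2 4 7 (upiece2.env (bandMid Band.midLowB Band.midUpB).hi (bandMid Band.midLowB Band.midUpB).hi (bandMid Band.midLowB Band.midUpB).pole .piU).e = true := by
  decide +kernel

/-- Checks of the piece 2. -/
def u2_group12 :
    ([upiece2.env (bandMid Band.midLowB Band.midUpB).lo (bandMid Band.midLowB Band.midUpB).hi (bandMid Band.midLowB Band.midUpB).pole .omL,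
      upiece2.env (bandMid Band.midLowB Band.midUpB).hi (bandMid Band.midLowB Band.midUpB).hi (bandMid Band.midLowB Band.midUpB).pole .omL,
      upiece2.env (bandMid Band.midLowB Band.midUpB).lo (bandMid Band.midLowB Band.midUpB).hi (bandMid Band.midLowB Band.midUpB).pole .omU,
      upiece2.env (bandMid Band.midLowB Band.midUpB).hi (bandMid Band.midLowB Band.midUpB).hi (bandMid Band.midLowB Band.midUpB).pole .omU] : List QEx).all (fun q => checkShift ubox2 314 7 4 7 11 q.e) = true := by
  decide +kernel

/-- Checks of the piece 2. -/
def u2_group13 :
    ([upiece2.env (bandMid Band.midLowB Band.midUpB).lo (bandMid Band.midLowB Band.midUpB).hi (bandMid Band.midLowB Band.midUpB).pole .tauL,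
      upiece2.env (bandMid Band.midLowB Band.midUpB).hi (bandMid Band.midLowB Band.midUpB).hi (bandMid Band.midLowB Band.midUpB).pole .tauL,
      upiece2.env (bandMid Band.midLowB Band.midUpB).lo (bandMid Band.midLowB Band.midUpB).hi (bandMid Band.midLowB Band.midUpB).pole .tauU,
      upiece2.env (bandMid Band.midLowB Band.midUpB).hi (bandMid Band.midLowB Band.midUpB).hi (bandMid Band.midLowB Band.midUpB).pole .tauU] : List QEx).all (fun q => checkShift ubox2 346 9 4 8 12 q.e) = true := by
  decide +kernel

/-- Checks of the piece 2. -/
def u2_group14 :
    ([xLLGQ false (bandMid Band.midLowB Band.midUpB) (bandMid Band.midLowB Band.midUpB).lo,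
      xLLGQ false (bandMid Band.midLowB Band.midUpB) (bandMid Band.midLowB Band.midUpB).hi] : List QEx).all (fun q => checkShift ubox2 383 8 4 12 18 q.e) = true := by
  decide +kernel

/-- Checks of the piece 2. -/
def u2_group15 :
    ([upiece2.wid - qD 1] : List QEx).all (fun q => checkShift ubox2 70 1 1 1 1 q.e) = true := by
  decide +kernel

/-- Checks of the piece 2. -/
def u2_group16 :
    ([upiece2.side .rA,
      upiece2.side .rB] : List QEx).all (fun q => checkShift ubox2 39 1 1 0 0 q.e) = true := by
  decide +kernel

/-- A check of the piece 2. -/
def u2_side_rF_0 :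
    checkShift ubox2_side_rF_0 91 2 2 0 0 (upiece2.side .rF).e = true := by
  decide +kernel

/-- A check of the piece 2. -/
def u2_side_rF_1 :
    checkShift ubox2_side_rF_1 91 2 2 0 0 (upiece2.side .rF).e = true := by
  decide +kernel

/-- Checks of the piece 2. -/
def u2_group18 :
    ([upiece2.side .q] : List QEx).all (fun q => checkShift ubox2 51 0 1 1 2 q.e) = true := by
  decide +kernel

/-- Checks of the piece 2. -/
def u2_group19 :
    ([upiece2.side .om] : List QEx).all (fun q => checkShift ubox2 150 1 2 4 6 q.e) = true := by
  decide +kernel

/-- The drift below the box of piece 2. -/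
def u2_drift :
    checkShift ubox2x 143 4 2 4 6 (xDrift (bandMid Band.midLowB Band.midUpB).hi (bandMid Band.midLowB Band.midUpB).pole).e = true := by
  decide +kernel

/-- The exit curve on the box of piece 2. -/
def uexit2_check :
    checkShift uexit2Box 80 2 0 1 1 (xExitM Band.midExitB 99 50).e = true := by
  decide +kernel

end Vale.Agent.P100.Calib.Closed.All.Low
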