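import Vale.Agent.P100.Calib.SlabMidUpPieces

/-!
# Checks of the piece 3
-/

set_option linter.defProp false

namespace Vale.Agent.P100.Calib.Closed.All.Low

/-- Checks of the piece 3. -/
def u3_group0 :
    ([upiece3.checkM false .g false .lo,
      upiece3.checkM false .g false .hi,
      upiece3.checkM false .g false .mid,
      upiece3.checkM false .g true .lo,
      upiece3.checkM false .g true .hi,
      upiece3.checkM false .g true .mid] : List QEx).all (fun q => checkShift ubox3 570 2 7 14 26 q.e) = true := by
  decide +kernel

/-- Checks of the piece 3. -/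
def u3_group1 :
    ([upiece3.checkM false .n false .lo,
      upiece3.checkM false .n false .hi,
      upiece3.checkM false .n false .mid,
      upiece3.checkM false .n true .lo,
      upiece3.checkM false .n true .hi,
      upiece3.checkM false .n true .mid] : List QEx).all (fun q => checkShift ubox3 691 4 8 18 31 q.e) = true := by
  decide +kernel

/-- Checks of the piece 3. -/
def u3_group2 :
    ([upiece3.checkM false .tlo false .lo,
      upiece3.checkM false .tlo false .hi,
      upiece3.checkM false .tlo false .mid,
      upiece3.checkM false .tlo true .lo,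
      upiece3.checkM false .tlo true .hi,
      upiece3.checkM false .tlo true .mid,
      upiece3.checkM false .thi false .lo,
      upiece3.checkM false .thi false .hi,
      upiece3.checkM false .thi false .mid,
      upiece3.checkM false .thi true .lo,
      upiece3.checkM false .thi true .hi,
      upiece3.checkM false .thi true .mid] : List QEx).all (fun q => checkShift ubox3 659 3 9 16 29 q.e) = true := by
  decide +kernel

/-- Checks of the piece 3. -/
def u3_group3 :
    ([upiece3.checkM false .mlo false .lo,
      upiece3.checkM false .mlo false .hi,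
      upiece3.checkM false .mlo false .mid,
      upiece3.checkM false .mhi false .lo,
      upiece3.checkM false .mhi false .hi,
      upiece3.checkM false .mhi false .mid] : List QEx).all (fun q => checkShift ubox3 457 4 5 10 18 q.e) = true := by
  decide +kernel

/-- Checks of the piece 3. -/
def u3_group4 :
    ([upiece3.checkM false .f false .lo] : List QEx).all (fun q => checkShift ubox3 753 5 11 18 33 q.e) = true := by
  decide +kernel

/-- Checks of the piece 3. -/
def u3_group5 :
    ([upiece3.checkM false .f false .hi] : List QEx).all (fun q => checkShift ubox3 753 5 11 18 33 q.e) = true := by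
  decide +kernel

/-- Checks of the piece 3. -/
def u3_group6 :
    ([upiece3.checkM false .f false .mid] : List QEx).all (fun q => checkShift ubox3 775 5 11 18 33 q.e) = true := by
  decide +kernel

/-- Checks of the piece 3. -/
def u3_group7 :
    ([upiece3.checkM false .f true .lo] : List QEx).all (fun q => checkShift ubox3 753 5 11 18 33 q.e) = true := by
  decide +kernel

/-- Checks of the piece 3. -/
def u3_group8 :
    ([upiece3.checkM false .f true .hi] : List QEx).all (fun q => checkShift ubox3 753 5 11 18 33 q.e) = true := by
  decide +kernel

/-- Checks of the piece 3. -/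
def u3_group9 :
    ([upiece3.checkM false .f true .mid] : List QEx).all (fun q => checkShift ubox3 775 5 11 18 33 q.e) = true := by
  decide +kernel

/-- A check of the piece 3. -/
def u3_piL_lo_0 :
    checkShift ubox3_piL_lo_0 224 5 2 4 7 (upiece3.env (bandMid Band.midLowB Band.midUpB).lo (bandMid Band.midLowB Band.midUpB).hi (bandMid Band.midLowB Band.midUpB).pole .piL).e = true := by
  decide +kernel

/-- A check of the piece 3. -/
def u3_piL_lo_1 :
    checkShift ubox3_piL_lo_1 224 5 2 4 7 (upiece3.env (bandMid Band.midLowB Band.midUpB).lo (bandMid Band.midLowB Band.midUpB).hi (bandMid Band.midLowB Band.midUpB).pole .piL).e = true := by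
  decide +kernel

/-- A check of the piece 3. -/
def u3_piL_lo_2 :
    checkShift ubox3_piL_lo_2 224 5 2 4 7 (upiece3.env (bandMid Band.midLowB Band.midUpB).lo (bandMid Band.midLowB Band.midUpB).hi (bandMid Band.midLowB Band.midUpB).pole .piL).e = true := by
  decide +kernel

/-- Checks of the piece 3. -/
def u3_group11 :
    ([upiece3.env (bandMid Band.midLowB Band.midUpB).hi (bandMid Band.midLowB Band.midUpB).hi (bandMid Band.midLowB Band.midUpB).pole .piL,
      upiece3.env (bandMid Band.midLowB Band.midUpB).lo (bandMid Band.midLowB Band.midUpB).hi (bandMid Band.midLowB Band.midUpB).pole .piU,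
      upiece3.env (bandMid Band.midLowB Band.midUpB).hi (bandMid Band.midLowB Band.midUpB).hi (bandMid Band.midLowB Band.midUpB).pole .piU] : List QEx).all (fun q => checkShift ubox3 194 5 2 4 7 q.e) = true := by
  decide +kernel

/-- Checks of the piece 3. -/
def u3_group12 :
    ([upiece3.env (bandMid Band.midLowB Band.midUpB).lo (bandMid Band.midLowB Band.midUpB).hi (bandMid Band.midLowB Band.midUpB).pole .omL,
      upiece3.env (bandMid Band.midLowB Band.midUpB).hi (bandMid Band.midLowB Band.midUpB).hi (bandMid Band.midLowB Band.midUpB).pole .omL] : List QEx).all (fun q => checkShift ubox3 321 7 4 7 11 q.e) = true := by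
  decide +kernel

/-- A check of the piece 3. -/
def u3_omU_lo_0 :
    checkShift ubox3_omU_lo_0 339 7 4 7 11 (upiece3.env (bandMid Band.midLowB Band.midUpB).lo (bandMid Band.midLowB Band.midUpB).hi (bandMid Band.midLowB Band.midUpB).pole .omU).e = true := by
  decide +kernel

/-- A check of the piece 3. -/
def u3_omU_lo_1 :
    checkShift ubox3_omU_lo_1 339 7 4 7 11 (upiece3.env (bandMid Band.midLowB Band.midUpB).lo (bandMid Band.midLowB Band.midUpB).hi (bandMid Band.midLowB Band.midUpB).pole .omU).e = true := by
  decide +kernel

/-- A check of the piece 3. -/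
def u3_omU_hi_0 :
    checkShift ubox3_omU_hi_0 339 7 4 7 11 (upiece3.env (bandMid Band.midLowB Band.midUpB).hi (bandMid Band.midLowB Band.midUpB).hi (bandMid Band.midLowB Band.midUpB).pole .omU).e = true := by
  decide +kernel

/-- A check of the piece 3. -/
def u3_omU_hi_1 :
    checkShift ubox3_omU_hi_1 339 7 4 7 11 (upiece3.env (bandMid Band.midLowB Band.midUpB).hi (bandMid Band.midLowB Band.midUpB).hi (bandMid Band.midLowB Band.midUpB).pole .omU).e = true := by
  decide +kernel

/-- A check of the piece 3. -/
def u3_tauL_lo_0 :
    checkShift ubox3_tauL_lo_0 373 9 4 8 12 (upiece3.env (bandMid Band.midLowB Band.midUpB).lo (bandMid Band.midLowB Band.midUpB).hi (bandMid Band.midLowB Band.midUpB).pole .tauL).e = true := by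
  decide +kernel

/-- A check of the piece 3. -/
def u3_tauL_lo_1 :
    checkShift ubox3_tauL_lo_1 373 9 4 8 12 (upiece3.env (bandMid Band.midLowB Band.midUpB).lo (bandMid Band.midLowB Band.midUpB).hi (bandMid Band.midLowB Band.midUpB).pole .tauL).e = true := by
  decide +kernel

/-- A check of the piece 3. -/
def u3_tauL_hi_0 :
    checkShift ubox3_tauL_hi_0 373 9 4 8 12 (upiece3.env (bandMid Band.midLowB Band.midUpB).hi (bandMid Band.midLowB Band.midUpB).hi (bandMid Band.midLowB Band.midUpB).pole .tauL).e = true := by
  decide +kernel

/-- A check of the piece 3. -/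
def u3_tauL_hi_1 :
    checkShift ubox3_tauL_hi_1 373 9 4 8 12 (upiece3.env (bandMid Band.midLowB Band.midUpB).hi (bandMid Band.midLowB Band.midUpB).hi (bandMid Band.midLowB Band.midUpB).pole .tauL).e = true := by
  decide +kernel

/-- Checks of the piece 3. -/
def u3_group17 :
    ([upiece3.env (bandMid Band.midLowB Band.midUpB).lo (bandMid Band.midLowB Band.midUpB).hi (bandMid Band.midLowB Band.midUpB).pole .tauU,
      upiece3.env (bandMid Band.midLowB Band.midUpB).hi (bandMid Band.midLowB Band.midUpB).hi (bandMid Band.midLowB Band.midUpB).pole .tauU] : List QEx).all (fun q => checkShift ubox3 355 9 4 8 12 q.e) = true := by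
  decide +kernel

/-- Checks of the piece 3. -/
def u3_group18 :
    ([xLLGQ false (bandMid Band.midLowB Band.midUpB) (bandMid Band.midLowB Band.midUpB).lo,
      xLLGQ false (bandMid Band.midLowB Band.midUpB) (bandMid Band.midLowB Band.midUpB).hi] : List QEx).all (fun q => checkShift ubox3 399 8 4 12 18 q.e) = true := by
  decide +kernel

/-- Checks of the piece 3. -/
def u3_group19 :
    ([upiece3.wid - qD 1] : List QEx).all (fun q => checkShift ubox3 70 1 1 1 1 q.e) = true := by
  decide +kernel

/-- Checks of the piece 3. -/
def u3_group20 :
    ([upiece3.side .rA,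
      upiece3.side .rB] : List QEx).all (fun q => checkShift ubox3 36 1 1 0 0 q.e) = true := by
  decide +kernel

/-- Checks of the piece 3. -/
def u3_group21 :
    ([upiece3.side .rF] : List QEx).all (fun q => checkShift ubox3 65 2 2 0 0 q.e) = true := by
  decide +kernel

/-- Checks of the piece 3. -/
def u3_group22 :
    ([upiece3.side .q] : List QEx).all (fun q => checkShift ubox3 51 0 1 1 2 q.e) = true := by
  decide +kernel

/-- Checks of the piece 3. -/
def u3_group23 :
    ([upiece3.side .om] : List QEx).all (fun q => checkShift ubox3 154 1 2 4 6 q.e) = true := by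
  decide +kernel

/-- The drift below the box of piece 3. -/
def u3_drift :
    checkShift ubox3x 151 4 2 4 6 (xDrift (bandMid Band.midLowB Band.midUpB).hi (bandMid Band.midLowB Band.midUpB).pole).e = true := by
  decide +kernel

/-- The exit curve on the box of piece 3. -/
def uexit3_check :
    checkShift uexit3Box 80 2 0 1 1 (xExitM Band.midExitB 5 2).e = true := by
  decide +kernel

end Vale.Agent.P100.Calib.Closed.All.Low
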