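import Vale.Agent.P100.Calib.SlabMidUpPieces

/-!
# Checks of the piece 4
-/

set_option linter.defProp false

namespace Vale.Agent.P100.Calib.Closed.All.Low

/-- Checks of the piece 4. -/
def u4_group0 :
    ([upiece4.checkM false .g false .lo,
      upiece4.checkM false .g false .hi,
      upiece4.checkM false .g false .mid,
      upiece4.checkM false .g true .lo,
      upiece4.checkM false .g true .hi,
      upiece4.checkM false .g true .mid] : List QEx).all (fun q => checkShift ubox4 594 2 7 14 26 q.e) = true := by
  decide +kernel

/-- Checks of the piece 4. -/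
def u4_group1 :
    ([upiece4.checkM false .n false .lo,
      upiece4.checkM false .n false .hi,
      upiece4.checkM false .n false .mid,
      upiece4.checkM false .n true .lo,
      upiece4.checkM false .n true .hi,
      upiece4.checkM false .n true .mid] : List QEx).all (fun q => checkShift ubox4 721 4 8 18 31 q.e) = true := by
  decide +kernel

/-- Checks of the piece 4. -/
def u4_group2 :
    ([upiece4.checkM false .tlo false .lo,
      upiece4.checkM false .tlo false .hi,
      upiece4.checkM false .tlo false .mid,
      upiece4.checkM false .tlo true .lo,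
      upiece4.checkM false .tlo true .hi,
      upiece4.checkM false .tlo true .mid,
      upiece4.checkM false .thi false .lo,
      upiece4.checkM false .thi false .hi,
      upiece4.checkM false .thi false .mid,
      upiece4.checkM false .thi true .lo,
      upiece4.checkM false .thi true .hi,
      upiece4.checkM false .thi true .mid] : List QEx).all (fun q => checkShift ubox4 687 3 9 16 29 q.e) = true := by
  decide +kernel

/-- Checks of the piece 4. -/
def u4_group3 :
    ([upiece4.checkM false .mlo false .lo,
      upiece4.checkM false .mlo false .hi,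
      upiece4.checkM false .mlo false .mid,
      upiece4.checkM false .mhi false .lo,
      upiece4.checkM false .mhi false .hi,
      upiece4.checkM false .mhi false .mid] : List QEx).all (fun q => checkShift ubox4 474 4 5 10 18 q.e) = true := by
  decide +kernel

/-- Checks of the piece 4. -/
def u4_group4 :
    ([upiece4.checkM false .f false .lo] : List QEx).all (fun q => checkShift ubox4 785 5 11 18 33 q.e) = true := by
  decide +kernel

/-- Checks of the piece 4. -/
def u4_group5 :
    ([upiece4.checkM false .f false .hi] : List QEx).all (fun q => checkShift ubox4 785 5 11 18 33 q.e) = true := by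
  decide +kernel

/-- Checks of the piece 4. -/
def u4_group6 :
    ([upiece4.checkM false .f false .mid] : List QEx).all (fun q => checkShift ubox4 806 5 11 18 33 q.e) = true := by
  decide +kernel

/-- Checks of the piece 4. -/
def u4_group7 :
    ([upiece4.checkM false .f true .lo] : List QEx).all (fun q => checkShift ubox4 785 5 11 18 33 q.e) = true := by
  decide +kernel

/-- Checks of the piece 4. -/
def u4_group8 :
    ([upiece4.checkM false .f true .hi] : List QEx).all (fun q => checkShift ubox4 785 5 11 18 33 q.e) = true := by
  decide +kernel

/-- Checks of the piece 4. -/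
def u4_group9 :
    ([upiece4.checkM false .f true .mid] : List QEx).all (fun q => checkShift ubox4 806 5 11 18 33 q.e) = true := by
  decide +kernel

/-- Checks of the piece 4. -/
def u4_group10 :
    ([upiece4.env (bandMid Band.midLowC Band.midUpC).lo (bandMid Band.midLowC Band.midUpC).hi (bandMid Band.midLowC Band.midUpC).pole .piL,
      upiece4.env (bandMid Band.midLowC Band.midUpC).hi (bandMid Band.midLowC Band.midUpC).hi (bandMid Band.midLowC Band.midUpC).pole .piL,
      upiece4.env (bandMid Band.midLowC Band.midUpC).lo (bandMid Band.midLowC Band.midUpC).hi (bandMid Band.midLowC Band.midUpC).pole .piU] : List QEx).all (fun q => checkShift ubox4 201 5 2 4 7 q.e) = true := by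
  decide +kernel

/-- A check of the piece 4. -/
def u4_piU_hi_0 :
    checkShift ubox4_piU_hi_0 242 5 2 4 7 (upiece4.env (bandMid Band.midLowC Band.midUpC).hi (bandMid Band.midLowC Band.midUpC).hi (bandMid Band.midLowC Band.midUpC).pole .piU).e = true := by
  decide +kernel

/-- A check of the piece 4. -/
def u4_piU_hi_1 :
    checkShift ubox4_piU_hi_1 242 5 2 4 7 (upiece4.env (bandMid Band.midLowC Band.midUpC).hi (bandMid Band.midLowC Band.midUpC).hi (bandMid Band.midLowC Band.midUpC).pole .piU).e = true := by
  decide +kernel

/-- A check of the piece 4. -/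
def u4_piU_hi_2 :
    checkShift ubox4_piU_hi_2 242 5 2 4 7 (upiece4.env (bandMid Band.midLowC Band.midUpC).hi (bandMid Band.midLowC Band.midUpC).hi (bandMid Band.midLowC Band.midUpC).pole .piU).e = true := by
  decide +kernel

/-- A check of the piece 4. -/
def u4_piU_hi_3 :
    checkShift ubox4_piU_hi_3 242 5 2 4 7 (upiece4.env (bandMid Band.midLowC Band.midUpC).hi (bandMid Band.midLowC Band.midUpC).hi (bandMid Band.midLowC Band.midUpC).pole .piU).e = true := by
  decide +kernel

/-- Checks of the piece 4. -/
def u4_group12 :
    ([upiece4.env (bandMid Band.midLowC Band.midUpC).lo (bandMid Band.midLowC Band.midUpC).hi (bandMid Band.midLowC Band.midUpC).pole .omL,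
      upiece4.env (bandMid Band.midLowC Band.midUpC).hi (bandMid Band.midLowC Band.midUpC).hi (bandMid Band.midLowC Band.midUpC).pole .omL] : List QEx).all (fun q => checkShift ubox4 332 7 4 7 11 q.e) = true := by
  decide +kernel

/-- A check of the piece 4. -/
def u4_omU_lo_0 :
    checkShift ubox4_omU_lo_0 362 7 4 7 11 (upiece4.env (bandMid Band.midLowC Band.midUpC).lo (bandMid Band.midLowC Band.midUpC).hi (bandMid Band.midLowC Band.midUpC).pole .omU).e = true := by
  decide +kernel

/-- A check of the piece 4. -/
def u4_omU_lo_1 :
    checkShift ubox4_omU_lo_1 362 7 4 7 11 (upiece4.env (bandMid Band.midLowC Band.midUpC).lo (bandMid Band.midLowC Band.midUpC).hi (bandMid Band.midLowC Band.midUpC).pole .omU).e = true := by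
  decide +kernel

/-- A check of the piece 4. -/
def u4_omU_lo_2 :
    checkShift ubox4_omU_lo_2 362 7 4 7 11 (upiece4.env (bandMid Band.midLowC Band.midUpC).lo (bandMid Band.midLowC Band.midUpC).hi (bandMid Band.midLowC Band.midUpC).pole .omU).e = true := by
  decide +kernel

/-- A check of the piece 4. -/
def u4_omU_lo_3 :
    checkShift ubox4_omU_lo_3 362 7 4 7 11 (upiece4.env (bandMid Band.midLowC Band.midUpC).lo (bandMid Band.midLowC Band.midUpC).hi (bandMid Band.midLowC Band.midUpC).pole .omU).e = true := by
  decide +kernel

/-- A check of the piece 4. -/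
def u4_omU_hi_0 :
    checkShift ubox4_omU_hi_0 350 7 4 7 11 (upiece4.env (bandMid Band.midLowC Band.midUpC).hi (bandMid Band.midLowC Band.midUpC).hi (bandMid Band.midLowC Band.midUpC).pole .omU).e = true := by
  decide +kernel

/-- A check of the piece 4. -/
def u4_omU_hi_1 :
    checkShift ubox4_omU_hi_1 350 7 4 7 11 (upiece4.env (bandMid Band.midLowC Band.midUpC).hi (bandMid Band.midLowC Band.midUpC).hi (bandMid Band.midLowC Band.midUpC).pole .omU).e = true := by
  decide +kernel

/-- Checks of the piece 4. -/
def u4_group15 :
    ([upiece4.env (bandMid Band.midLowC Band.midUpC).lo (bandMid Band.midLowC Band.midUpC).hi (bandMid Band.midLowC Band.midUpC).pole .tauL,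
      upiece4.env (bandMid Band.midLowC Band.midUpC).hi (bandMid Band.midLowC Band.midUpC).hi (bandMid Band.midLowC Band.midUpC).pole .tauL,
      upiece4.env (bandMid Band.midLowC Band.midUpC).lo (bandMid Band.midLowC Band.midUpC).hi (bandMid Band.midLowC Band.midUpC).pole .tauU,
      upiece4.env (bandMid Band.midLowC Band.midUpC).hi (bandMid Band.midLowC Band.midUpC).hi (bandMid Band.midLowC Band.midUpC).pole .tauU] : List QEx).all (fun q => checkShift ubox4 368 9 4 8 12 q.e) = true := by
  decide +kernel

/-- Checks of the piece 4. -/
def u4_group16 :
    ([xLLGX false (bandMid Band.midLowC Band.midUpC) Band.midExitC 45 (bandMid Band.midLowC Band.midUpC).lo,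
      xLLGX false (bandMid Band.midLowC Band.midUpC) Band.midExitC 45 (bandMid Band.midLowC Band.midUpC).hi] : List QEx).all (fun q => checkShift ubox4 418 8 4 12 18 q.e) = true := by
  decide +kernel

/-- Checks of the piece 4. -/
def u4_group17 :
    ([upiece4.wid - qD 1] : List QEx).all (fun q => checkShift ubox4 71 1 1 1 1 q.e) = true := by
  decide +kernel

/-- Checks of the piece 4. -/
def u4_group18 :
    ([upiece4.side .rA,
      upiece4.side .rB] : List QEx).all (fun q => checkShift ubox4 37 1 1 0 0 q.e) = true := by
  decide +kernel

/-- A check of the piece 4. -/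
def u4_side_rF_0 :
    checkShift ubox4_side_rF_0 84 2 2 0 0 (upiece4.side .rF).e = true := by
  decide +kernel

/-- A check of the piece 4. -/
def u4_side_rF_1 :
    checkShift ubox4_side_rF_1 84 2 2 0 0 (upiece4.side .rF).e = true := by
  decide +kernel

/-- Checks of the piece 4. -/
def u4_group20 :
    ([upiece4.side .q] : List QEx).all (fun q => checkShift ubox4 53 0 1 1 2 q.e) = true := by
  decide +kernel

/-- Checks of the piece 4. -/
def u4_group21 :
    ([upiece4.side .om] : List QEx).all (fun q => checkShift ubox4 161 1 2 4 6 q.e) = true := by
  decide +kernel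

/-- The drift below the box of piece 4. -/
def u4_drift :
    checkShift ubox4x 156 4 2 4 6 (xDrift (bandMid Band.midLowC Band.midUpC).hi (bandMid Band.midLowC Band.midUpC).pole).e = true := by
  decide +kernel

/-- The exit curve on the box of piece 4. -/
def uexit4_check :
    checkShift uexit4Box 80 2 0 1 1 (xExitM Band.midExitC 23 10).e = true := by
  decide +kernel

end Vale.Agent.P100.Calib.Closed.All.Low
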