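import Vale.Agent.P100.Calib.SlabMidUpPieces

/-!
# Checks of the piece 5
-/

set_option linter.defProp false

namespace Vale.Agent.P100.Calib.Closed.All.Low

/-- Checks of the piece 5. -/
def u5_group0 :
    ([upiece5.checkM false .g false .lo,
      upiece5.checkM false .g false .hi,
      upiece5.checkM false .g false .mid,
      upiece5.checkM false .g true .lo,
      upiece5.checkM false .g true .hi,
      upiece5.checkM false .g true .mid] : List QEx).all (fun q => checkShift ubox5 578 2 7 14 26 q.e) = true := by
  decide +kernel

/-- Checks of the piece 5. -/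
def u5_group1 :
    ([upiece5.checkM false .n false .lo,
      upiece5.checkM false .n false .hi,
      upiece5.checkM false .n false .mid,
      upiece5.checkM false .n true .lo,
      upiece5.checkM false .n true .hi,
      upiece5.checkM false .n true .mid] : List QEx).all (fun q => checkShift ubox5 700 4 8 18 31 q.e) = true := by
  decide +kernel

/-- Checks of the piece 5. -/
def u5_group2 :
    ([upiece5.checkM false .tlo false .lo,
      upiece5.checkM false .tlo false .hi,
      upiece5.checkM false .tlo false .mid,
      upiece5.checkM false .tlo true .lo,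
      upiece5.checkM false .tlo true .hi,
      upiece5.checkM false .tlo true .mid,
      upiece5.checkM false .thi false .lo,
      upiece5.checkM false .thi false .hi,
      upiece5.checkM false .thi false .mid,
      upiece5.checkM false .thi true .lo,
      upiece5.checkM false .thi true .hi,
      upiece5.checkM false .thi true .mid] : List QEx).all (fun q => checkShift ubox5 669 3 9 16 29 q.e) = true := by
  decide +kernel

/-- Checks of the piece 5. -/
def u5_group3 :
    ([upiece5.checkM false .mlo false .lo,
      upiece5.checkM false .mlo false .hi,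
      upiece5.checkM false .mlo false .mid,
      upiece5.checkM false .mhi false .lo,
      upiece5.checkM false .mhi false .hi,
      upiece5.checkM false .mhi false .mid] : List QEx).all (fun q => checkShift ubox5 462 4 5 10 18 q.e) = true := by
  decide +kernel

/-- Checks of the piece 5. -/
def u5_group4 :
    ([upiece5.checkM false .f false .lo] : List QEx).all (fun q => checkShift ubox5 764 5 11 18 33 q.e) = true := by
  decide +kernel

/-- Checks of the piece 5. -/
def u5_group5 :
    ([upiece5.checkM false .f false .hi] : List QEx).all (fun q => checkShift ubox5 764 5 11 18 33 q.e) = true := by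
  decide +kernel

/-- Checks of the piece 5. -/
def u5_group6 :
    ([upiece5.checkM false .f false .mid] : List QEx).all (fun q => checkShift ubox5 785 5 11 18 33 q.e) = true := by
  decide +kernel

/-- Checks of the piece 5. -/
def u5_group7 :
    ([upiece5.checkM false .f true .lo] : List QEx).all (fun q => checkShift ubox5 764 5 11 18 33 q.e) = true := by
  decide +kernel

/-- Checks of the piece 5. -/
def u5_group8 :
    ([upiece5.checkM false .f true .hi] : List QEx).all (fun q => checkShift ubox5 764 5 11 18 33 q.e) = true := by
  decide +kernel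

/-- Checks of the piece 5. -/
def u5_group9 :
    ([upiece5.checkM false .f true .mid] : List QEx).all (fun q => checkShift ubox5 785 5 11 18 33 q.e) = true := by
  decide +kernel

/-- A check of the piece 5. -/
def u5_piL_lo_0 :
    checkShift ubox5_piL_lo_0 214 5 2 4 7 (upiece5.env (bandMid Band.midLowC Band.midUpC).lo (bandMid Band.midLowC Band.midUpC).hi (bandMid Band.midLowC Band.midUpC).pole .piL).e = true := by
  decide +kernel

/-- A check of the piece 5. -/
def u5_piL_lo_1 :
    checkShift ubox5_piL_lo_1 214 5 2 4 7 (upiece5.env (bandMid Band.midLowC Band.midUpC).lo (bandMid Band.midLowC Band.midUpC).hi (bandMid Band.midLowC Band.midUpC).pole .piL).e = true := by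
  decide +kernel

/-- Checks of the piece 5. -/
def u5_group11 :
    ([upiece5.env (bandMid Band.midLowC Band.midUpC).hi (bandMid Band.midLowC Band.midUpC).hi (bandMid Band.midLowC Band.midUpC).pole .piL,
      upiece5.env (bandMid Band.midLowC Band.midUpC).lo (bandMid Band.midLowC Band.midUpC).hi (bandMid Band.midLowC Band.midUpC).pole .piU] : List QEx).all (fun q => checkShift ubox5 196 5 2 4 7 q.e) = true := by
  decide +kernel

/-- A check of the piece 5. -/
def u5_piU_hi_0 :
    checkShift ubox5_piU_hi_0 226 5 2 4 7 (upiece5.env (bandMid Band.midLowC Band.midUpC).hi (bandMid Band.midLowC Band.midUpC).hi (bandMid Band.midLowC Band.midUpC).pole .piU).e = true := by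
  decide +kernel

/-- A check of the piece 5. -/
def u5_piU_hi_1 :
    checkShift ubox5_piU_hi_1 226 5 2 4 7 (upiece5.env (bandMid Band.midLowC Band.midUpC).hi (bandMid Band.midLowC Band.midUpC).hi (bandMid Band.midLowC Band.midUpC).pole .piU).e = true := by
  decide +kernel

/-- A check of the piece 5. -/
def u5_piU_hi_2 :
    checkShift ubox5_piU_hi_2 226 5 2 4 7 (upiece5.env (bandMid Band.midLowC Band.midUpC).hi (bandMid Band.midLowC Band.midUpC).hi (bandMid Band.midLowC Band.midUpC).pole .piU).e = true := by
  decide +kernel

/-- Checks of the piece 5. -/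
def u5_group13 :
    ([upiece5.env (bandMid Band.midLowC Band.midUpC).lo (bandMid Band.midLowC Band.midUpC).hi (bandMid Band.midLowC Band.midUpC).pole .omL,
      upiece5.env (bandMid Band.midLowC Band.midUpC).hi (bandMid Band.midLowC Band.midUpC).hi (bandMid Band.midLowC Band.midUpC).pole .omL] : List QEx).all (fun q => checkShift ubox5 324 7 4 7 11 q.e) = true := by
  decide +kernel

/-- A check of the piece 5. -/
def u5_omU_lo_0 :
    checkShift ubox5_omU_lo_0 354 7 4 7 11 (upiece5.env (bandMid Band.midLowC Band.midUpC).lo (bandMid Band.midLowC Band.midUpC).hi (bandMid Band.midLowC Band.midUpC).pole .omU).e = true := by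
  decide +kernel

/-- A check of the piece 5. -/
def u5_omU_lo_1 :
    checkShift ubox5_omU_lo_1 354 7 4 7 11 (upiece5.env (bandMid Band.midLowC Band.midUpC).lo (bandMid Band.midLowC Band.midUpC).hi (bandMid Band.midLowC Band.midUpC).pole .omU).e = true := by
  decide +kernel

/-- A check of the piece 5. -/
def u5_omU_lo_2 :
    checkShift ubox5_omU_lo_2 354 7 4 7 11 (upiece5.env (bandMid Band.midLowC Band.midUpC).lo (bandMid Band.midLowC Band.midUpC).hi (bandMid Band.midLowC Band.midUpC).pole .omU).e = true := by
  decide +kernel

/-- A check of the piece 5. -/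
def u5_omU_lo_3 :
    checkShift ubox5_omU_lo_3 354 7 4 7 11 (upiece5.env (bandMid Band.midLowC Band.midUpC).lo (bandMid Band.midLowC Band.midUpC).hi (bandMid Band.midLowC Band.midUpC).pole .omU).e = true := by
  decide +kernel

/-- A check of the piece 5. -/
def u5_omU_hi_0 :
    checkShift ubox5_omU_hi_0 354 7 4 7 11 (upiece5.env (bandMid Band.midLowC Band.midUpC).hi (bandMid Band.midLowC Band.midUpC).hi (bandMid Band.midLowC Band.midUpC).pole .omU).e = true := by
  decide +kernel

/-- A check of the piece 5. -/
def u5_omU_hi_1 :
    checkShift ubox5_omU_hi_1 354 7 4 7 11 (upiece5.env (bandMid Band.midLowC Band.midUpC).hi (bandMid Band.midLowC Band.midUpC).hi (bandMid Band.midLowC Band.midUpC).pole .omU).e = true := by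
  decide +kernel

/-- A check of the piece 5. -/
def u5_omU_hi_2 :
    checkShift ubox5_omU_hi_2 354 7 4 7 11 (upiece5.env (bandMid Band.midLowC Band.midUpC).hi (bandMid Band.midLowC Band.midUpC).hi (bandMid Band.midLowC Band.midUpC).pole .omU).e = true := by
  decide +kernel

/-- A check of the piece 5. -/
def u5_omU_hi_3 :
    checkShift ubox5_omU_hi_3 354 7 4 7 11 (upiece5.env (bandMid Band.midLowC Band.midUpC).hi (bandMid Band.midLowC Band.midUpC).hi (bandMid Band.midLowC Band.midUpC).pole .omU).e = true := by
  decide +kernel

/-- A check of the piece 5. -/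
def u5_tauL_lo_0 :
    checkShift ubox5_tauL_lo_0 389 9 4 8 12 (upiece5.env (bandMid Band.midLowC Band.midUpC).lo (bandMid Band.midLowC Band.midUpC).hi (bandMid Band.midLowC Band.midUpC).pole .tauL).e = true := by
  decide +kernel

/-- A check of the piece 5. -/
def u5_tauL_lo_1 :
    checkShift ubox5_tauL_lo_1 389 9 4 8 12 (upiece5.env (bandMid Band.midLowC Band.midUpC).lo (bandMid Band.midLowC Band.midUpC).hi (bandMid Band.midLowC Band.midUpC).pole .tauL).e = true := by
  decide +kernel

/-- A check of the piece 5. -/
def u5_tauL_lo_2 :
    checkShift ubox5_tauL_lo_2 389 9 4 8 12 (upiece5.env (bandMid Band.midLowC Band.midUpC).lo (bandMid Band.midLowC Band.midUpC).hi (bandMid Band.midLowC Band.midUpC).pole .tauL).e = true := by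
  decide +kernel

/-- A check of the piece 5. -/
def u5_tauL_hi_0 :
    checkShift ubox5_tauL_hi_0 377 9 4 8 12 (upiece5.env (bandMid Band.midLowC Band.midUpC).hi (bandMid Band.midLowC Band.midUpC).hi (bandMid Band.midLowC Band.midUpC).pole .tauL).e = true := by
  decide +kernel

/-- A check of the piece 5. -/
def u5_tauL_hi_1 :
    checkShift ubox5_tauL_hi_1 377 9 4 8 12 (upiece5.env (bandMid Band.midLowC Band.midUpC).hi (bandMid Band.midLowC Band.midUpC).hi (bandMid Band.midLowC Band.midUpC).pole .tauL).e = true := by
  decide +kernel

/-- Checks of the piece 5. -/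
def u5_group18 :
    ([upiece5.env (bandMid Band.midLowC Band.midUpC).lo (bandMid Band.midLowC Band.midUpC).hi (bandMid Band.midLowC Band.midUpC).pole .tauU,
      upiece5.env (bandMid Band.midLowC Band.midUpC).hi (bandMid Band.midLowC Band.midUpC).hi (bandMid Band.midLowC Band.midUpC).pole .tauU] : List QEx).all (fun q => checkShift ubox5 359 9 4 8 12 q.e) = true := by
  decide +kernel

/-- Checks of the piece 5. -/
def u5_group19 :
    ([xLLGX false (bandMid Band.midLowC Band.midUpC) Band.midExitC 14 (bandMid Band.midLowC Band.midUpC).lo,
      xLLGX false (bandMid Band.midLowC Band.midUpC) Band.midExitC 14 (bandMid Band.midLowC Band.midUpC).hi] : List QEx).all (fun q => checkShift ubox5 404 8 4 12 18 q.e) = true := by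
  decide +kernel

/-- Checks of the piece 5. -/
def u5_group20 :
    ([upiece5.wid - qD 1] : List QEx).all (fun q => checkShift ubox5 70 1 1 1 1 q.e) = true := by
  decide +kernel

/-- Checks of the piece 5. -/
def u5_group21 :
    ([upiece5.side .rA,
      upiece5.side .rB] : List QEx).all (fun q => checkShift ubox5 37 1 1 0 0 q.e) = true := by
  decide +kernel

/-- Checks of the piece 5. -/
def u5_group22 :
    ([upiece5.side .rF] : List QEx).all (fun q => checkShift ubox5 67 2 2 0 0 q.e) = true := by
  decide +kernel

/-- Checks of the piece 5. -/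
def u5_group23 :
    ([upiece5.side .q] : List QEx).all (fun q => checkShift ubox5 52 0 1 1 2 q.e) = true := by
  decide +kernel

/-- Checks of the piece 5. -/
def u5_group24 :
    ([upiece5.side .om] : List QEx).all (fun q => checkShift ubox5 156 1 2 4 6 q.e) = true := by
  decide +kernel

/-- The drift below the box of piece 5. -/
def u5_drift :
    checkShift ubox5x 153 4 2 4 6 (xDrift (bandMid Band.midLowC Band.midUpC).hi (bandMid Band.midLowC Band.midUpC).pole).e = true := by
  decide +kernel

/-- The exit curve on the box of piece 5. -/
def uexit5_check :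
    checkShift uexit5Box 80 2 0 1 1 (xExitM Band.midExitC 29 10).e = true := by
  decide +kernel

end Vale.Agent.P100.Calib.Closed.All.Low
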