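import Vale.Agent.P100.Calib.SlabMidUpPieces

/-!
# Checks of the piece 6
-/

set_option linter.defProp false

namespace Vale.Agent.P100.Calib.Closed.All.Low

/-- Checks of the piece 6. -/
def u6_group0 :
    ([upiece6.checkM true .g false .lo,
      upiece6.checkM true .g false .hi,
      upiece6.checkM true .g false .mid,
      upiece6.checkM true .g true .lo,
      upiece6.checkM true .g true .hi,
      upiece6.checkM true .g true .mid] : List QEx).all (fun q => checkShift ubox6 496 2 7 14 26 q.e) = true := by
  decide +kernel

/-- Checks of the piece 6. -/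
def u6_group1 :
    ([upiece6.checkM true .n false .lo,
      upiece6.checkM true .n false .hi,
      upiece6.checkM true .n false .mid,
      upiece6.checkM true .n true .lo,
      upiece6.checkM true .n true .hi,
      upiece6.checkM true .n true .mid] : List QEx).all (fun q => checkShift ubox6 603 4 8 18 31 q.e) = true := by
  decide +kernel

/-- Checks of the piece 6. -/
def u6_group2 :
    ([upiece6.checkM true .tlo false .lo,
      upiece6.checkM true .tlo false .hi,
      upiece6.checkM true .tlo false .mid,
      upiece6.checkM true .tlo true .lo,
      upiece6.checkM true .tlo true .hi,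
      upiece6.checkM true .tlo true .mid,
      upiece6.checkM true .thi false .lo,
      upiece6.checkM true .thi false .hi,
      upiece6.checkM true .thi false .mid,
      upiece6.checkM true .thi true .lo,
      upiece6.checkM true .thi true .hi,
      upiece6.checkM true .thi true .mid] : List QEx).all (fun q => checkShift ubox6 580 3 9 16 29 q.e) = true := by
  decide +kernel

/-- Checks of the piece 6. -/
def u6_group3 :
    ([upiece6.checkM true .mlo false .lo,
      upiece6.checkM true .mlo false .hi,
      upiece6.checkM true .mlo false .mid,
      upiece6.checkM true .mhi false .lo,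
      upiece6.checkM true .mhi false .hi,
      upiece6.checkM true .mhi false .mid] : List QEx).all (fun q => checkShift ubox6 406 4 5 10 18 q.e) = true := by
  decide +kernel

/-- Checks of the piece 6. -/
def u6_group4 :
    ([upiece6.checkM true .f false .lo] : List QEx).all (fun q => checkShift ubox6 663 5 11 18 33 q.e) = true := by
  decide +kernel

/-- Checks of the piece 6. -/
def u6_group5 :
    ([upiece6.checkM true .f false .hi] : List QEx).all (fun q => checkShift ubox6 664 5 11 18 33 q.e) = true := by
  decide +kernel

/-- Checks of the piece 6. -/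
def u6_group6 :
    ([upiece6.checkM true .f false .mid] : List QEx).all (fun q => checkShift ubox6 685 5 11 18 33 q.e) = true := by
  decide +kernel

/-- Checks of the piece 6. -/
def u6_group7 :
    ([upiece6.checkM true .f true .lo] : List QEx).all (fun q => checkShift ubox6 663 5 11 18 33 q.e) = true := by
  decide +kernel

/-- Checks of the piece 6. -/
def u6_group8 :
    ([upiece6.checkM true .f true .hi] : List QEx).all (fun q => checkShift ubox6 664 5 11 18 33 q.e) = true := by
  decide +kernel

/-- Checks of the piece 6. -/
def u6_group9 :
    ([upiece6.checkM true .f true .mid] : List QEx).all (fun q => checkShift ubox6 685 5 11 18 33 q.e) = true := by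
  decide +kernel

/-- Checks of the piece 6. -/
def u6_group10 :
    ([upiece6.env (bandMid Band.midLowC Band.midUpC).lo (bandMid Band.midLowC Band.midUpC).hi (bandMid Band.midLowC Band.midUpC).pole .piL,
      upiece6.env (bandMid Band.midLowC Band.midUpC).hi (bandMid Band.midLowC Band.midUpC).hi (bandMid Band.midLowC Band.midUpC).pole .piL,
      upiece6.env (bandMid Band.midLowC Band.midUpC).lo (bandMid Band.midLowC Band.midUpC).hi (bandMid Band.midLowC Band.midUpC).pole .piU] : List QEx).all (fun q => checkShift ubox6 174 5 2 4 7 q.e) = true := by
  decide +kernel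

/-- A check of the piece 6. -/
def u6_piU_hi_0 :
    checkShift ubox6_piU_hi_0 192 5 2 4 7 (upiece6.env (bandMid Band.midLowC Band.midUpC).hi (bandMid Band.midLowC Band.midUpC).hi (bandMid Band.midLowC Band.midUpC).pole .piU).e = true := by
  decide +kernel

/-- A check of the piece 6. -/
def u6_piU_hi_1 :
    checkShift ubox6_piU_hi_1 192 5 2 4 7 (upiece6.env (bandMid Band.midLowC Band.midUpC).hi (bandMid Band.midLowC Band.midUpC).hi (bandMid Band.midLowC Band.midUpC).pole .piU).e = true := by
  decide +kernel

/-- Checks of the piece 6. -/
def u6_group12 :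
    ([upiece6.env (bandMid Band.midLowC Band.midUpC).lo (bandMid Band.midLowC Band.midUpC).hi (bandMid Band.midLowC Band.midUpC).pole .omL,
      upiece6.env (bandMid Band.midLowC Band.midUpC).hi (bandMid Band.midLowC Band.midUpC).hi (bandMid Band.midLowC Band.midUpC).pole .omL] : List QEx).all (fun q => checkShift ubox6 295 7 4 7 11 q.e) = true := by
  decide +kernel

/-- A check of the piece 6. -/
def u6_omU_lo_0 :
    checkShift ubox6_omU_lo_0 313 7 4 7 11 (upiece6.env (bandMid Band.midLowC Band.midUpC).lo (bandMid Band.midLowC Band.midUpC).hi (bandMid Band.midLowC Band.midUpC).pole .omU).e = true := by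
  decide +kernel

/-- A check of the piece 6. -/
def u6_omU_lo_1 :
    checkShift ubox6_omU_lo_1 313 7 4 7 11 (upiece6.env (bandMid Band.midLowC Band.midUpC).lo (bandMid Band.midLowC Band.midUpC).hi (bandMid Band.midLowC Band.midUpC).pole .omU).e = true := by
  decide +kernel

/-- A check of the piece 6. -/
def u6_omU_hi_0 :
    checkShift ubox6_omU_hi_0 313 7 4 7 11 (upiece6.env (bandMid Band.midLowC Band.midUpC).hi (bandMid Band.midLowC Band.midUpC).hi (bandMid Band.midLowC Band.midUpC).pole .omU).e = true := by
  decide +kernel

/-- A check of the piece 6. -/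
def u6_omU_hi_1 :
    checkShift ubox6_omU_hi_1 313 7 4 7 11 (upiece6.env (bandMid Band.midLowC Band.midUpC).hi (bandMid Band.midLowC Band.midUpC).hi (bandMid Band.midLowC Band.midUpC).pole .omU).e = true := by
  decide +kernel

/-- Checks of the piece 6. -/
def u6_group15 :
    ([upiece6.env (bandMid Band.midLowC Band.midUpC).lo (bandMid Band.midLowC Band.midUpC).hi (bandMid Band.midLowC Band.midUpC).pole .tauL,
      upiece6.env (bandMid Band.midLowC Band.midUpC).hi (bandMid Band.midLowC Band.midUpC).hi (bandMid Band.midLowC Band.midUpC).pole .tauL,
      upiece6.env (bandMid Band.midLowC Band.midUpC).lo (bandMid Band.midLowC Band.midUpC).hi (bandMid Band.midLowC Band.midUpC).pole .tauU,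
      upiece6.env (bandMid Band.midLowC Band.midUpC).hi (bandMid Band.midLowC Band.midUpC).hi (bandMid Band.midLowC Band.midUpC).pole .tauU] : List QEx).all (fun q => checkShift ubox6 327 9 4 8 12 q.e) = true := by
  decide +kernel

/-- Checks of the piece 6. -/
def u6_group16 :
    ([xLLGQ true (bandMid Band.midLowC Band.midUpC) (bandMid Band.midLowC Band.midUpC).lo,
      xLLGQ true (bandMid Band.midLowC Band.midUpC) (bandMid Band.midLowC Band.midUpC).hi] : List QEx).all (fun q => checkShift ubox6 349 8 4 12 18 q.e) = true := by
  decide +kernel

/-- Checks of the piece 6. -/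
def u6_group17 :
    ([upiece6.wid - qD 1] : List QEx).all (fun q => checkShift ubox6 70 1 1 1 1 q.e) = true := by
  decide +kernel

/-- Checks of the piece 6. -/
def u6_group18 :
    ([upiece6.side .rA,
      upiece6.side .rB] : List QEx).all (fun q => checkShift ubox6 38 1 1 0 0 q.e) = true := by
  decide +kernel

/-- Checks of the piece 6. -/
def u6_group19 :
    ([upiece6.side .rF] : List QEx).all (fun q => checkShift ubox6 71 2 2 0 0 q.e) = true := by
  decide +kernel

/-- Checks of the piece 6. -/
def u6_group20 :
    ([upiece6.side .q] : List QEx).all (fun q => checkShift ubox6 46 0 1 1 2 q.e) = true := by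
  decide +kernel

/-- Checks of the piece 6. -/
def u6_group21 :
    ([upiece6.side .om] : List QEx).all (fun q => checkShift ubox6 139 1 2 4 6 q.e) = true := by
  decide +kernel

/-- The drift below the box of piece 6. -/
def u6_drift :
    checkShift ubox6x 131 4 2 4 6 (xDrift (bandMid Band.midLowC Band.midUpC).hi (bandMid Band.midLowC Band.midUpC).pole).e = true := by
  decide +kernel

/-- The exit curve on the box of piece 6. -/
def uexit6_check :
    checkShift uexit6Box 80 2 0 1 1 (xExitM Band.midExitC 29 10).e = true := by
  decide +kernel

end Vale.Agent.P100.Calib.Closed.All.Low
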