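import Vale.Agent.P100.Calib.SlabMidSignsExpr

/-!
# The additional quantities of the certificate on `3/5 ≤ u ≤ 7/10`, dimensions from seven to twenty

`xLLGQ` keeps the part of the ray gap that is quadratic in `H`. `xDrift` excludes the points that
the drift does not reach, and `xExitX` is the room below an exit curve.
-/

set_option linter.unusedVariables false

namespace Vale.Agent.P100.Calib.Closed.All.Low

/-- What the drift forbids: `S (1 - a v) D0 p - (qn + S (1 - a v) u d) n`. -/
def xDrift (n p : QEx) : QEx :=
  xS * (qN 1 - xa * xv) * xD0 * p - (xqn + xS * (qN 1 - xa * xv) * (xu * xd)) * n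

/-- A lower bound of the ray gap at `H = n/p`, with its quadratic part, times `p ^ 2 d S ^ 2/a`. -/
def xLLGQ (z : Bool) (B : BandEx) (n : QEx) : QEx :=
  xLLGM z n B.pole * B.pole +
    qN 2 * xv * xd.pow 3 * xD0 * xS.pow 2 * (qN 1 + qN 2 * xI) * qD 300 * xu.pow 2 * (n * B.lo)

/-- The room below an exit curve. -/
def xExitX (e : Band.MidExit) : QEx :=
  qN 1000 - xX * (xFour e.e0 + xu * (xFour e.e1 + xu * xFour e.e2))

/-- The ray check where the exit curve is used, with the multiplier `c`. -/
def xLLGX (z : Bool) (B : BandEx) (e : Band.MidExit) (c : ℤ) (n : QEx) : QEx :=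
  xLLGQ z B n - qN c * xExitX e

end Vale.Agent.P100.Calib.Closed.All.Low
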