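import Vale.Agent.P100.Calib.SlabMidSignsPoint
import Vale.Agent.P100.Calib.SlabMidUpExpr
import Vale.Agent.P100.Calib.SlabMidDefs

/-!
# The closed signs from a piece that holds with the sharper ray, and the drift bound on `X`
-/

set_option linter.unusedVariables false
set_option linter.unusedSimpArgs false

namespace Vale.Agent.P100.Calib.Closed.All.Low

theorem val_xLLGQ (z : Bool) (o : PtR) (B : BandEx) (n : QEx) :
    (xLLGQ z B n).val o.x = rayAtM z o (n.val o.x) (B.pole.val o.x) * B.pole.val o.x +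
      2 * o.v * o.d ^ 3 * o.D0 * o.S ^ 2 * (1 + 2 * o.I) * (3 / 10) * o.u ^ 2 *
        (n.val o.x * B.lo.val o.x) := by
  obtain ⟨eu, -, -, eI, ed, -, ev, -, eD, eS, -, -⟩ := o.vals
  simp only [xLLGQ, val_add, val_mul, val_pow, val_num, val_dec, val_xLLGM, eu, eI, ed, ev, eD, eS]
  push_cast
  ring

/-- **The ray gap is nonnegative between the bands, with its quadratic part.** -/
theorem llgQ_nonneg {z : Bool} {d S u v t : ℝ} {B : BandEx} (hB : BasicM z d S u v t)
    (hA : (ptOf d S u v).Adm B (chH d S u v t))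
    (lo : 0 ≤ (xLLGQ z B B.lo).val (ptOf d S u v).x)
    (hi : 0 ≤ (xLLGQ z B B.hi).val (ptOf d S u v).x) :
    0 ≤ ClosedGen.LLGS ((S - d) / 2) d v (chG d S u v t) (chW d S u v t) (chW1 d S u v t) (chR S u)
      (allNum ((S - d) / 2) d v (chW d S u v t) (chR S u)) := by
  set o := ptOf d S u v with ho
  obtain ⟨e1, eb, ev, eS⟩ : o.d = d ∧ o.b = (S + d) / 2 ∧ o.v = v ∧ o.S = S := ptOf_eqs hB.S_lt
  have hD2 : (allNum ((S - d) / 2) d v (chW d S u v t) (chR S u)).D2 = o.D2M z := hB.D2_eq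
  rw [val_xLLGQ] at lo hi
  set H := chH d S u v t with hH
  set p := B.pole.val o.x with hp
  set nl := B.lo.val o.x
  set nh := B.hi.val o.x
  set K := 2 * o.v * o.d ^ 3 * o.D0 * o.S ^ 2 * (1 + 2 * o.I) * (3 / 10) * o.u ^ 2 with hK
  have hp0 : 0 < p := hA.pole_pos
  have mid : 0 ≤ rayAtM z o (H * p) p * p + K * (H * p * nl) := by
    rcases (hA.lo.trans hA.hi).eq_or_lt with e | e
    · rw [le_antisymm (e ▸ hA.hi) hA.lo]; exact lo
    · have key : (nh - nl) * (rayAtM z o (H * p) p * p + K * (H * p * nl)) =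
          (nh - H * p) * (rayAtM z o nl p * p + K * (nl * nl)) +
            (H * p - nl) * (rayAtM z o nh p * p + K * (nh * nl)) := by
        simp only [rayAtM]; ring
      refine nonneg_of_mul_nonneg_right (a := nh - nl) (key ▸ ?_) (sub_pos.2 e)
      exact add_nonneg (mul_nonneg (sub_nonneg.2 hA.hi) lo) (mul_nonneg (sub_nonneg.2 hA.lo) hi)
  have hpp := hB.pos
  have hS1 : 1 - S ≠ 0 := by linarith [hB.S_lt]
  have hS0 : 0 < S := by linarith [hB.S_low]
  have hd := hB.d_pos
  have ha : 0 < (S - d) / 2 := hpp.a_pos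
  have hv := hB.v_pos
  have hb : 0 < (S + d) / 2 := by linarith
  have hI : 0 < (1 - S) / 2 := by linarith [hB.S_lt]
  have hQ : 0 < 1 + d * v := by positivity
  have hD : 0 < 2 + d * v := by positivity
  have hu := hB.u_pos
  have eN : dimAll ((S - d) / 2) d = 2 / (1 - S) := by
    simp only [dimAll]; congr 1; ring
  have eT : chR S u * d * chW d S u v t = u * d * H := by
    simp only [chR, chW, hH]; field_simp
  have k0 : 0 < p * d * S ^ 2 / ((S - d) / 2) := by positivity
  refine nonneg_of_mul_nonneg_right (a := p * d * S ^ 2 / ((S - d) / 2)) ?_ k0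
  have sum : 0 ≤ rayAtM z o (H * p) p +
      2 * v * d * (2 + d * v) * (u * H) * (2 - (S - d) - d) * (d * S ^ 2) * (3 / 10) *
        (d * (u * H)) * p := by
    have hH0 := hB.H_pos
    have hlt : 0 ≤ 2 - (S - d) - d := by linarith [hB.S_lt]
    have eK : K = 2 * v * d * (2 + d * v) * u * (2 - (S - d) - d) * (d * S ^ 2) * (3 / 10) *
        (d * u) := by
      simp only [hK, PtR.D0, e1, ev, eS, show o.u = u from rfl,
        show o.I = (1 - S) / 2 from rfl]
      ring
    have hK0 : 0 ≤ K := by rw [eK]; positivity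
    have h2 : K * (H * p * nl) ≤ K * (H * p * (H * p)) :=
      mul_le_mul_of_nonneg_left (mul_le_mul_of_nonneg_left hA.lo (mul_pos hH0 hp0).le) hK0
    refine nonneg_of_mul_nonneg_left (b := p) ?_ hp0
    refine le_of_le_of_eq (mid.trans (add_le_add_right h2 _)) ?_
    rw [eK]
    ring
  refine le_of_le_of_eq sum ?_
  have hW : chW d S u v t * chR S u = u * H := by simp only [chR, chW, hH]; field_simp
  have eN' : allNum ((S - d) / 2) d v (chW d S u v t) (chR S u) =
      ⟨(S - d) / 2 * ((S - d) / 2 + d), -(1 - 2 * ((S - d) / 2) - 1 / 2 * ((1 - S) / 2)) * ((1 - S) / 2),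
        (-2 * (1 - 3 * ((1 - S) / 2) - 2 * ((S - d) / 2) ^ 2) * ((1 - S) / 2) * (1 + d * v) -
          5 / 2 * (1 - u * d * H)) / d,
        -(5 / 2) * (1 - u * d * H),
        (-((S - d) / 2) * (1 - 3 * ((S - d) / 2) - (1 - S) / 2) * ((1 - S) / 2) -
          3 / 10 * ((S - d) / 2 / ((S + d) / 2)) * ((1 - u * d * H) / (1 + d * v))) / d ^ 2,
        -(3 / 10) * ((S - d) / 2 / ((S + d) / 2)) * ((1 - u * d * H) / (1 + d * v)) / d ^ 2,
        cond z 0 (S ^ 2 - 2 * ((S - d) / 2) * (1 - (1 - S) / 2)) / (S ^ 2 * d ^ 2)⟩ := by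
    rw [show allNum ((S - d) / 2) d v (chW d S u v t) (chR S u) = ⟨_, _, _, _, _, _, o.D2M z⟩ from
      by rw [← hD2]]
    simp only [allNum, eT, eN, show (S - d) / 2 + d = (S + d) / 2 by ring, ClosedGen.Num.mk.injEq,
      true_and, PtR.D2M, PtR.D2, PtR.s2, eS, e1, show o.a = (S - d) / 2 from rfl,
      show o.I = (1 - S) / 2 from rfl, and_true]
    refine ⟨?_, ?_, ?_, ?_⟩ <;> (try cases z) <;> (try simp only [cond_true, cond_false, zero_div]) <;>
      (try field_simp)
  rw [eN', ← rayM_id z (X := v / (1 - S)) (by ring) (by ring) (by field_simp) (by ring) ?_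
    ha.ne' (show (S + d) / 2 ≠ 0 by linarith) hd.ne' hI.ne' hS0.ne' hQ.ne' hW o rfl]
  · ring
  · simp only [chR]; field_simp

/-- The ray check with the exit curve gives the ray check. -/
theorem xLLGX_le {z : Bool} {o : PtR} {B : BandEx} {e : Band.MidExit} {c : ℤ} {n : QEx}
    (hx : o.X * Band.midBracket e o.I o.a o.u < 1000) (h : 0 ≤ (xLLGX z B e c n).val o.x)
    (hc : 0 ≤ c) : 0 ≤ (xLLGQ z B n).val o.x := by
  obtain ⟨eu, eX, ea, eI, -, -, -, -, -, -, -, -⟩ := o.vals
  simp only [xLLGX, xExitX, xFour, val_sub, val_add, val_mul, val_num, eu, eX, ea, eI] at h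
  simp only [Band.midBracket, Band.midFour] at hx
  push_cast at h
  have := mul_nonneg (show (0 : ℝ) ≤ c by exact_mod_cast hc) (sub_nonneg.2 hx.le)
  linarith

/-- The checks of a piece on a point, with the sharper ray. -/
structure Piece.AllHoldQ (P : Piece) (z : Bool) (B : BandEx) (o : PtR) : Prop where
  forms : P.HoldsM z o
  env : P.HoldsEnv B o
  rayLo : 0 ≤ (xLLGQ z B B.lo).val o.x
  rayHi : 0 ≤ (xLLGQ z B B.hi).val o.x

/-- **The signs at a point where a piece holds with the sharper ray.** -/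
theorem Piece.AllHoldQ.signs {P : Piece} {z : Bool} {B : BandEx} {n : ℕ} {d S u v t : ℝ}
    (hb : ChartBox n d S) (hB : BasicM z d S u v t) (hP : P.AllHoldQ z B (ptOf d S u v))
    (hA : (ptOf d S u v).Adm B (chH d S u v t)) : ChartSigns d S u v t := by
  refine ChartSigns.of_arrow hb hB.v_pos hB.chG_pos ?_
  set o := ptOf d S u v with ho
  obtain ⟨e1, eb, ev, eS⟩ : o.d = d ∧ o.b = (S + d) / 2 ∧ o.v = v ∧ o.S = S := ptOf_eqs hB.S_lt
  obtain ⟨θ, h0, h1, eπ, w0, w1, t0, t1⟩ := hP.env.place hB.pos hB.u_pos hA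
  obtain ⟨hE, hr⟩ := hB.E_neg
  obtain ⟨ep, ew, eE, eK, eG, eG1⟩ := hB.nums_eq
  have hS := hP.forms.signs_one hB.pos h0 h1 w0 w1 t0 t1 (eπ ▸ hr) (eπ ▸ hE)
  rw [← eπ] at hS
  obtain ⟨s1, s2, s3, s4⟩ := hS
  have eN : allNum ((S - d) / 2) d v (chW d S u v t) (chR S u) =
      ⟨o.a * (o.a + o.d), -(1 - 2 * o.a - (1 - 2 * o.a - o.d) / 4) * ((1 - 2 * o.a - o.d) / 2),
        (allNum ((S - d) / 2) d v (chW d S u v t) (chR S u)).E,
        (allNum ((S - d) / 2) d v (chW d S u v t) (chR S u)).K,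
        (o.nums (o.piH (chH d S u v t)) (o.omH (chH d S u v t)) (o.tauH (chH d S u v t))).G,
        (o.nums (o.piH (chH d S u v t)) (o.omH (chH d S u v t)) (o.tauH (chH d S u v t))).G1,
        o.D2M z⟩ := by
    rw [← eG, ← eG1, ← hB.D2_eq]
    simp only [allNum, dimAll, e1, show o.a = (S - d) / 2 from rfl, ClosedGen.Num.mk.injEq,
      and_true, true_and]
    have : 1 - S ≠ 0 := by linarith [hB.S_lt]
    have h2 : 1 - ((S - d) / 2 + ((S - d) / 2 + d)) = 1 - S := by ring
    rw [h2]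
    field_simp
    ring
  have hL := llgQ_nonneg hB hA hP.rayLo hP.rayHi
  rw [eN] at hL ⊢
  simp only [PtR.blkM, PtR.numM, Nums.num, e1, ev, show o.a = (S - d) / 2 from rfl] at s1 s2 s3 s4
  simp only [e1, show o.a = (S - d) / 2 from rfl] at hL ⊢
  refine signs_of_one _ _ _ _ _ _ _ _ _ _ _ _ _ _ hB.chG_pos ?_ ?_ ?_ ?_ hL <;>
    rw [ep, ew, eE, eK] <;> assumption

/-- **The drift keeps the point off the boxes where `xDrift` is nonnegative.** -/
theorem BasicM.xDrift_neg {z : Bool} {d S u v t : ℝ} {B : BandEx} (hB : BasicM z d S u v t)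
    (hA : (ptOf d S u v).Adm B (chH d S u v t)) :
    (xDrift B.hi B.pole).val (ptOf d S u v).x < 0 := by
  set o := ptOf d S u v with ho
  obtain ⟨e1, eb, ev, eS⟩ : o.d = d ∧ o.b = (S + d) / 2 ∧ o.v = v ∧ o.S = S := ptOf_eqs hB.S_lt
  obtain ⟨vu, -, va, -, vd, vb, vv, vQ, vD, vS, -, -⟩ := o.vals
  set H := chH d S u v t with hH
  set p := B.pole.val o.x with hp
  have hp0 : 0 < p := hA.pole_pos
  have hden : 0 < o.den H := hA.den_pos
  have hbS : 0 < (1 - S) * ((S + d) / 2) :=
    mul_pos (by linarith [hB.S_lt]) (by linarith [hB.S_low, hB.d_pos])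
  have hq := hB.qn_pos
  have hav : 0 < 1 - (S - d) / 2 * v := by linarith [hB.r_lt]
  have eg : chG d S u v t * H / 2 = 2 * o.qn * H / ((1 - S) * ((S + d) / 2) * o.den H) := by
    simp only [chG, PtR.qn, PtR.den, PtR.D0, PtR.Q, e1, eb, ev, eS, show o.u = u from rfl, hH]
    ring
  have h := hB.drift
  rw [eg, div_lt_div_iff₀ hbS (mul_pos hbS hden)] at h
  have h1 : S * (1 - (S - d) / 2 * v) * o.den H < o.qn * H := by
    refine lt_of_mul_lt_mul_left (a := 2 * ((1 - S) * ((S + d) / 2))) ?_ (by positivity)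
    linarith
  have h2 : S * (1 - (S - d) / 2 * v) * o.D0 * p <
      (o.qn + S * (1 - (S - d) / 2 * v) * (u * d)) * (H * p) := by
    have := mul_lt_mul_of_pos_right h1 hp0
    simp only [PtR.den, e1, show o.u = u from rfl] at this
    linarith
  have hc : 0 < o.qn + S * (1 - (S - d) / 2 * v) * (u * d) := by
    have := hB.S_low; have := hB.u_pos; have := hB.d_pos; positivity
  have h3 := h2.trans_le (mul_le_mul_of_nonneg_left hA.hi hc.le)
  have eqn : xqn.val o.x = o.qn := by
    simp only [xqn, val_sub, val_mul, vu, vb, vQ, vD, vS, PtR.qn]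
  simp only [xDrift, val_sub, val_add, val_mul, val_num, vu, va, vd, vv, vD, vS, eqn, e1, ev, eS,
    show o.a = (S - d) / 2 from rfl, show o.u = u from rfl]
  push_cast
  linarith

end Vale.Agent.P100.Calib.Closed.All.Low
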