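import Vale.Agent.P100.Calib.SlabMidSignsCert
import Vale.Agent.P100.Calib.SlabMidUpPoint
import Vale.Agent.P100.Calib.SlabMidUpCheck0
import Vale.Agent.P100.Calib.SlabMidUpCheck1
import Vale.Agent.P100.Calib.SlabMidUpCheck2
import Vale.Agent.P100.Calib.SlabMidUpCheck3
import Vale.Agent.P100.Calib.SlabMidUpCheck4
import Vale.Agent.P100.Calib.SlabMidUpCheck5
import Vale.Agent.P100.Calib.SlabMidUpCheck6

/-!
# The pieces of the certificate hold on their boxes
-/

set_option linter.unusedVariables false

namespace Vale.Agent.P100.Calib.Closed.All.Low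

/-- The split check. -/
theorem u0_piU_hi_all {o : PtR} (m : o.InM ubox0) :
    0 ≤ (upiece0.env (bandMid Band.midLowA Band.midUpA).hi (bandMid Band.midLowA Band.midUpA).hi (bandMid Band.midLowA Band.midUpA).pole .piU).val o.x := by
  obtain ⟨hu, hX, ha, hI⟩ := m.bounds
  simp only [ubox0] at hu hX ha hI
  norm_num at hu hX ha hI
  rcases le_total (o.a) (23 / 200 : ℝ) with h0 | h0
  ·
    refine QEx.nonneg_on_box u0_piU_hi_0 (PtR.InM.of_bounds ?_ ?_ ?_ ?_) <;>
      simp only [ubox0_piU_hi_0, InChart] <;> norm_num <;> (try constructor) <;> linarith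
  ·
    refine QEx.nonneg_on_box u0_piU_hi_1 (PtR.InM.of_bounds ?_ ?_ ?_ ?_) <;>
      simp only [ubox0_piU_hi_1, InChart] <;> norm_num <;> (try constructor) <;> linarith

/-- The split check. -/
theorem u0_side_rF_all {o : PtR} (m : o.InM ubox0) :
    0 ≤ (upiece0.side .rF).val o.x := by
  obtain ⟨hu, hX, ha, hI⟩ := m.bounds
  simp only [ubox0] at hu hX ha hI
  norm_num at hu hX ha hI
  rcases le_total (o.X) (147 / 100 : ℝ) with h0 | h0
  ·
    refine QEx.nonneg_on_box u0_side_rF_0 (PtR.InM.of_bounds ?_ ?_ ?_ ?_) <;>
      simp only [ubox0_side_rF_0, InChart] <;> norm_num <;> (try constructor) <;> linarith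
  ·
    refine QEx.nonneg_on_box u0_side_rF_1 (PtR.InM.of_bounds ?_ ?_ ?_ ?_) <;>
      simp only [ubox0_side_rF_1, InChart] <;> norm_num <;> (try constructor) <;> linarith

/-- The drift does not reach below the box of piece 0. -/
theorem u0_drift_holds {o : PtR} (m : o.InM ubox0x) :
    0 ≤ (xDrift (bandMid Band.midLowA Band.midUpA).hi (bandMid Band.midLowA Band.midUpA).pole).val o.x :=
  QEx.nonneg_on_box u0_drift m

/-- The exit curve on the box of piece 0. -/
theorem uexit0_holds {o : PtR} (h0 : 3 / 5 ≤ o.u) (h1 : o.u ≤ 7 / 10) (h2 : 1 / 20 ≤ o.a) (h3 : o.a ≤ 9 / 50)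
    (h4 : 1 / 20 ≤ o.I) (h5 : o.I ≤ 1 / 12) :
    0 ≤ Band.midBracket Band.midExitA o.I o.a o.u * 89 - 1000 * 50 := by
  have h := QEx.nonneg_on_box uexit0_check (x := (⟨o.u, 89 / 50, o.a, o.I⟩ : PtR).x)
    (PtR.InM.of_bounds (o := ⟨o.u, 89 / 50, o.a, o.I⟩) ?_ ?_ ?_ ?_)
  · obtain ⟨eu, -, va, vI, -, -, -, -, -, -, -, -⟩ := (⟨o.u, 89 / 50, o.a, o.I⟩ : PtR).vals
    simp only [xExitM, xFour, val_add, val_sub, val_mul, val_num, eu, va, vI] at h
    push_cast at h
    simp only [Band.midBracket, Band.midFour]
    linarith
  all_goals simp only [uexit0Box, InChart] <;> norm_num <;> (try constructor) <;> linarith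

/-- The piece 0 holds on its box. -/
theorem upiece0_holds {o : PtR} (m : o.InM ubox0) :
    upiece0.AllHoldQ false (bandMid Band.midLowA Band.midUpA) o where
  forms :=
    { forms := fun q h k =>
        match q, h, k with
        | .g, false, .lo => QEx.nonneg_on_box (List.all_eq_true.1 u0_group0 (upiece0.checkM false .g false .lo) (by simp)) m
        | .g, false, .hi => QEx.nonneg_on_box (List.all_eq_true.1 u0_group0 (upiece0.checkM false .g false .hi) (by simp)) m
        | .g, false, .mid => QEx.nonneg_on_box (List.all_eq_true.1 u0_group0 (upiece0.checkM false .g false .mid) (by simp)) m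
        | .g, true, .lo => QEx.nonneg_on_box (List.all_eq_true.1 u0_group0 (upiece0.checkM false .g true .lo) (by simp)) m
        | .g, true, .hi => QEx.nonneg_on_box (List.all_eq_true.1 u0_group0 (upiece0.checkM false .g true .hi) (by simp)) m
        | .g, true, .mid => QEx.nonneg_on_box (List.all_eq_true.1 u0_group0 (upiece0.checkM false .g true .mid) (by simp)) m
        | .n, false, .lo => QEx.nonneg_on_box (List.all_eq_true.1 u0_group1 (upiece0.checkM false .n false .lo) (by simp)) m
        | .n, false, .hi => QEx.nonneg_on_box (List.all_eq_true.1 u0_group1 (upiece0.checkM false .n false .hi) (by simp)) m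
        | .n, false, .mid => QEx.nonneg_on_box (List.all_eq_true.1 u0_group1 (upiece0.checkM false .n false .mid) (by simp)) m
        | .n, true, .lo => QEx.nonneg_on_box (List.all_eq_true.1 u0_group1 (upiece0.checkM false .n true .lo) (by simp)) m
        | .n, true, .hi => QEx.nonneg_on_box (List.all_eq_true.1 u0_group1 (upiece0.checkM false .n true .hi) (by simp)) m
        | .n, true, .mid => QEx.nonneg_on_box (List.all_eq_true.1 u0_group1 (upiece0.checkM false .n true .mid) (by simp)) m
        | .tlo, false, .lo => QEx.nonneg_on_box (List.all_eq_true.1 u0_group2 (upiece0.checkM false .tlo false .lo) (by simp)) m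
        | .tlo, false, .hi => QEx.nonneg_on_box (List.all_eq_true.1 u0_group2 (upiece0.checkM false .tlo false .hi) (by simp)) m
        | .tlo, false, .mid => QEx.nonneg_on_box (List.all_eq_true.1 u0_group2 (upiece0.checkM false .tlo false .mid) (by simp)) m
        | .tlo, true, .lo => QEx.nonneg_on_box (List.all_eq_true.1 u0_group2 (upiece0.checkM false .tlo true .lo) (by simp)) m
        | .tlo, true, .hi => QEx.nonneg_on_box (List.all_eq_true.1 u0_group2 (upiece0.checkM false .tlo true .hi) (by simp)) m
        | .tlo, true, .mid => QEx.nonneg_on_box (List.all_eq_true.1 u0_group2 (upiece0.checkM false .tlo true .mid) (by simp)) m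
        | .thi, false, .lo => QEx.nonneg_on_box (List.all_eq_true.1 u0_group2 (upiece0.checkM false .thi false .lo) (by simp)) m
        | .thi, false, .hi => QEx.nonneg_on_box (List.all_eq_true.1 u0_group2 (upiece0.checkM false .thi false .hi) (by simp)) m
        | .thi, false, .mid => QEx.nonneg_on_box (List.all_eq_true.1 u0_group2 (upiece0.checkM false .thi false .mid) (by simp)) m
        | .thi, true, .lo => QEx.nonneg_on_box (List.all_eq_true.1 u0_group2 (upiece0.checkM false .thi true .lo) (by simp)) m
        | .thi, true, .hi => QEx.nonneg_on_box (List.all_eq_true.1 u0_group2 (upiece0.checkM false .thi true .hi) (by simp)) m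
        | .thi, true, .mid => QEx.nonneg_on_box (List.all_eq_true.1 u0_group2 (upiece0.checkM false .thi true .mid) (by simp)) m
        | .mlo, false, .lo => QEx.nonneg_on_box (List.all_eq_true.1 u0_group3 (upiece0.checkM false .mlo false .lo) (by simp)) m
        | .mlo, false, .hi => QEx.nonneg_on_box (List.all_eq_true.1 u0_group3 (upiece0.checkM false .mlo false .hi) (by simp)) m
        | .mlo, false, .mid => QEx.nonneg_on_box (List.all_eq_true.1 u0_group3 (upiece0.checkM false .mlo false .mid) (by simp)) m
        | .mlo, true, .lo => QEx.nonneg_on_box (List.all_eq_true.1 u0_group3 (upiece0.checkM false .mlo false .lo) (by simp)) m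
        | .mlo, true, .hi => QEx.nonneg_on_box (List.all_eq_true.1 u0_group3 (upiece0.checkM false .mlo false .hi) (by simp)) m
        | .mlo, true, .mid => QEx.nonneg_on_box (List.all_eq_true.1 u0_group3 (upiece0.checkM false .mlo false .mid) (by simp)) m
        | .mhi, false, .lo => QEx.nonneg_on_box (List.all_eq_true.1 u0_group3 (upiece0.checkM false .mhi false .lo) (by simp)) m
        | .mhi, false, .hi => QEx.nonneg_on_box (List.all_eq_true.1 u0_group3 (upiece0.checkM false .mhi false .hi) (by simp)) m
        | .mhi, false, .mid => QEx.nonneg_on_box (List.all_eq_true.1 u0_group3 (upiece0.checkM false .mhi false .mid) (by simp)) m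
        | .mhi, true, .lo => QEx.nonneg_on_box (List.all_eq_true.1 u0_group3 (upiece0.checkM false .mhi false .lo) (by simp)) m
        | .mhi, true, .hi => QEx.nonneg_on_box (List.all_eq_true.1 u0_group3 (upiece0.checkM false .mhi false .hi) (by simp)) m
        | .mhi, true, .mid => QEx.nonneg_on_box (List.all_eq_true.1 u0_group3 (upiece0.checkM false .mhi false .mid) (by simp)) m
        | .f, false, .lo => QEx.nonneg_on_box (List.all_eq_true.1 u0_group4 (upiece0.checkM false .f false .lo) (by simp)) m
        | .f, false, .hi => QEx.nonneg_on_box (List.all_eq_true.1 u0_group5 (upiece0.checkM false .f false .hi) (by simp)) m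
        | .f, false, .mid => QEx.nonneg_on_box (List.all_eq_true.1 u0_group6 (upiece0.checkM false .f false .mid) (by simp)) m
        | .f, true, .lo => QEx.nonneg_on_box (List.all_eq_true.1 u0_group7 (upiece0.checkM false .f true .lo) (by simp)) m
        | .f, true, .hi => QEx.nonneg_on_box (List.all_eq_true.1 u0_group8 (upiece0.checkM false .f true .hi) (by simp)) m
        | .f, true, .mid => QEx.nonneg_on_box (List.all_eq_true.1 u0_group9 (upiece0.checkM false .f true .mid) (by simp)) m
      side := fun e =>
        match e with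
        | .rA => QEx.nonneg_on_box (List.all_eq_true.1 u0_group16 (upiece0.side .rA) (by simp)) m
        | .rB => QEx.nonneg_on_box (List.all_eq_true.1 u0_group16 (upiece0.side .rB) (by simp)) m
        | .rF => u0_side_rF_all m
        | .q => QEx.nonneg_on_box (List.all_eq_true.1 u0_group18 (upiece0.side .q) (by simp)) m
        | .om => QEx.nonneg_on_box (List.all_eq_true.1 u0_group19 (upiece0.side .om) (by simp)) m
      nums := by decide }
  env :=
    { lo := fun e =>
        match e with
        | .piL => QEx.nonneg_on_box (List.all_eq_true.1 u0_group10 (upiece0.env (bandMid Band.midLowA Band.midUpA).lo (bandMid Band.midLowA Band.midUpA).hi (bandMid Band.midLowA Band.midUpA).pole .piL) (by simp)) m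
        | .piU => QEx.nonneg_on_box (List.all_eq_true.1 u0_group10 (upiece0.env (bandMid Band.midLowA Band.midUpA).lo (bandMid Band.midLowA Band.midUpA).hi (bandMid Band.midLowA Band.midUpA).pole .piU) (by simp)) m
        | .omL => QEx.nonneg_on_box (List.all_eq_true.1 u0_group12 (upiece0.env (bandMid Band.midLowA Band.midUpA).lo (bandMid Band.midLowA Band.midUpA).hi (bandMid Band.midLowA Band.midUpA).pole .omL) (by simp)) m
        | .omU => QEx.nonneg_on_box (List.all_eq_true.1 u0_group12 (upiece0.env (bandMid Band.midLowA Band.midUpA).lo (bandMid Band.midLowA Band.midUpA).hi (bandMid Band.midLowA Band.midUpA).pole .omU) (by simp)) m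
        | .tauL => QEx.nonneg_on_box (List.all_eq_true.1 u0_group13 (upiece0.env (bandMid Band.midLowA Band.midUpA).lo (bandMid Band.midLowA Band.midUpA).hi (bandMid Band.midLowA Band.midUpA).pole .tauL) (by simp)) m
        | .tauU => QEx.nonneg_on_box (List.all_eq_true.1 u0_group13 (upiece0.env (bandMid Band.midLowA Band.midUpA).lo (bandMid Band.midLowA Band.midUpA).hi (bandMid Band.midLowA Band.midUpA).pole .tauU) (by simp)) m
      hi := fun e =>
        match e with
        | .piL => QEx.nonneg_on_box (List.all_eq_true.1 u0_group10 (upiece0.env (bandMid Band.midLowA Band.midUpA).hi (bandMid Band.midLowA Band.midUpA).hi (bandMid Band.midLowA Band.midUpA).pole .piL) (by simp)) m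
        | .piU => u0_piU_hi_all m
        | .omL => QEx.nonneg_on_box (List.all_eq_true.1 u0_group12 (upiece0.env (bandMid Band.midLowA Band.midUpA).hi (bandMid Band.midLowA Band.midUpA).hi (bandMid Band.midLowA Band.midUpA).pole .omL) (by simp)) m
        | .omU => QEx.nonneg_on_box (List.all_eq_true.1 u0_group12 (upiece0.env (bandMid Band.midLowA Band.midUpA).hi (bandMid Band.midLowA Band.midUpA).hi (bandMid Band.midLowA Band.midUpA).pole .omU) (by simp)) m
        | .tauL => QEx.nonneg_on_box (List.all_eq_true.1 u0_group13 (upiece0.env (bandMid Band.midLowA Band.midUpA).hi (bandMid Band.midLowA Band.midUpA).hi (bandMid Band.midLowA Band.midUpA).pole .tauL) (by simp)) m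
        | .tauU => QEx.nonneg_on_box (List.all_eq_true.1 u0_group13 (upiece0.env (bandMid Band.midLowA Band.midUpA).hi (bandMid Band.midLowA Band.midUpA).hi (bandMid Band.midLowA Band.midUpA).pole .tauU) (by simp)) m
      wid := QEx.nonneg_on_box (List.all_eq_true.1 u0_group15 (upiece0.wid - qD 1) (by simp)) m }
  rayLo := QEx.nonneg_on_box (List.all_eq_true.1 u0_group14 (xLLGQ false (bandMid Band.midLowA Band.midUpA) (bandMid Band.midLowA Band.midUpA).lo) (by simp)) m
  rayHi := QEx.nonneg_on_box (List.all_eq_true.1 u0_group14 (xLLGQ false (bandMid Band.midLowA Band.midUpA) (bandMid Band.midLowA Band.midUpA).hi) (by simp)) m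

/-- The split check. -/
theorem u1_piL_lo_all {o : PtR} (m : o.InM ubox1) :
    0 ≤ (upiece1.env (bandMid Band.midLowA Band.midUpA).lo (bandMid Band.midLowA Band.midUpA).hi (bandMid Band.midLowA Band.midUpA).pole .piL).val o.x := by
  obtain ⟨hu, hX, ha, hI⟩ := m.bounds
  simp only [ubox1] at hu hX ha hI
  norm_num at hu hX ha hI
  rcases le_total (o.I) (1 / 15 : ℝ) with h0 | h0
  ·
    rcases le_total (o.a) (49 / 200 : ℝ) with h1 | h1
    ·
      refine QEx.nonneg_on_box u1_piL_lo_0 (PtR.InM.of_bounds ?_ ?_ ?_ ?_) <;>
        simp only [ubox1_piL_lo_0, InChart] <;> norm_num <;> (try constructor) <;> linarith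
    ·
      rcases le_total (o.I) (7 / 120 : ℝ) with h2 | h2
      ·
        refine QEx.nonneg_on_box u1_piL_lo_1 (PtR.InM.of_bounds ?_ ?_ ?_ ?_) <;>
          simp only [ubox1_piL_lo_1, InChart] <;> norm_num <;> (try constructor) <;> linarith
      ·
        rcases le_total (o.a) (111 / 400 : ℝ) with h3 | h3
        ·
          refine QEx.nonneg_on_box u1_piL_lo_2 (PtR.InM.of_bounds ?_ ?_ ?_ ?_) <;>
            simp only [ubox1_piL_lo_2, InChart] <;> norm_num <;> (try constructor) <;> linarith
        ·
          refine QEx.nonneg_on_box u1_piL_lo_3 (PtR.InM.of_bounds ?_ ?_ ?_ ?_) <;>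
            simp only [ubox1_piL_lo_3, InChart] <;> norm_num <;> (try constructor) <;> linarith
  ·
    rcases le_total (o.I) (3 / 40 : ℝ) with h1 | h1
    ·
      rcases le_total (o.a) (49 / 200 : ℝ) with h2 | h2
      ·
        refine QEx.nonneg_on_box u1_piL_lo_4 (PtR.InM.of_bounds ?_ ?_ ?_ ?_) <;>
          simp only [ubox1_piL_lo_4, InChart] <;> norm_num <;> (try constructor) <;> linarith
      ·
        rcases le_total (o.a) (111 / 400 : ℝ) with h3 | h3
        ·
          refine QEx.nonneg_on_box u1_piL_lo_5 (PtR.InM.of_bounds ?_ ?_ ?_ ?_) <;>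
            simp only [ubox1_piL_lo_5, InChart] <;> norm_num <;> (try constructor) <;> linarith
        ·
          refine QEx.nonneg_on_box u1_piL_lo_6 (PtR.InM.of_bounds ?_ ?_ ?_ ?_) <;>
            simp only [ubox1_piL_lo_6, InChart] <;> norm_num <;> (try constructor) <;> linarith
    ·
      refine QEx.nonneg_on_box u1_piL_lo_7 (PtR.InM.of_bounds ?_ ?_ ?_ ?_) <;>
        simp only [ubox1_piL_lo_7, InChart] <;> norm_num <;> (try constructor) <;> linarith

/-- The split check. -/
theorem u1_omU_lo_all {o : PtR} (m : o.InM ubox1) :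
    0 ≤ (upiece1.env (bandMid Band.midLowA Band.midUpA).lo (bandMid Band.midLowA Band.midUpA).hi (bandMid Band.midLowA Band.midUpA).pole .omU).val o.x := by
  obtain ⟨hu, hX, ha, hI⟩ := m.bounds
  simp only [ubox1] at hu hX ha hI
  norm_num at hu hX ha hI
  rcases le_total (o.a) (49 / 200 : ℝ) with h0 | h0
  ·
    refine QEx.nonneg_on_box u1_omU_lo_0 (PtR.InM.of_bounds ?_ ?_ ?_ ?_) <;>
      simp only [ubox1_omU_lo_0, InChart] <;> norm_num <;> (try constructor) <;> linarith
  ·
    refine QEx.nonneg_on_box u1_omU_lo_1 (PtR.InM.of_bounds ?_ ?_ ?_ ?_) <;>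
      simp only [ubox1_omU_lo_1, InChart] <;> norm_num <;> (try constructor) <;> linarith

/-- The split check. -/
theorem u1_omU_hi_all {o : PtR} (m : o.InM ubox1) :
    0 ≤ (upiece1.env (bandMid Band.midLowA Band.midUpA).hi (bandMid Band.midLowA Band.midUpA).hi (bandMid Band.midLowA Band.midUpA).pole .omU).val o.x := by
  obtain ⟨hu, hX, ha, hI⟩ := m.bounds
  simp only [ubox1] at hu hX ha hI
  norm_num at hu hX ha hI
  rcases le_total (o.a) (49 / 200 : ℝ) with h0 | h0
  ·
    refine QEx.nonneg_on_box u1_omU_hi_0 (PtR.InM.of_bounds ?_ ?_ ?_ ?_) <;>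
      simp only [ubox1_omU_hi_0, InChart] <;> norm_num <;> (try constructor) <;> linarith
  ·
    refine QEx.nonneg_on_box u1_omU_hi_1 (PtR.InM.of_bounds ?_ ?_ ?_ ?_) <;>
      simp only [ubox1_omU_hi_1, InChart] <;> norm_num <;> (try constructor) <;> linarith

/-- The split check. -/
theorem u1_side_rF_all {o : PtR} (m : o.InM ubox1) :
    0 ≤ (upiece1.side .rF).val o.x := by
  obtain ⟨hu, hX, ha, hI⟩ := m.bounds
  simp only [ubox1] at hu hX ha hI
  norm_num at hu hX ha hI
  rcases le_total (o.X) (187 / 100 : ℝ) with h0 | h0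
  ·
    refine QEx.nonneg_on_box u1_side_rF_0 (PtR.InM.of_bounds ?_ ?_ ?_ ?_) <;>
      simp only [ubox1_side_rF_0, InChart] <;> norm_num <;> (try constructor) <;> linarith
  ·
    refine QEx.nonneg_on_box u1_side_rF_1 (PtR.InM.of_bounds ?_ ?_ ?_ ?_) <;>
      simp only [ubox1_side_rF_1, InChart] <;> norm_num <;> (try constructor) <;> linarith

/-- The drift does not reach below the box of piece 1. -/
theorem u1_drift_holds {o : PtR} (m : o.InM ubox1x) :
    0 ≤ (xDrift (bandMid Band.midLowA Band.midUpA).hi (bandMid Band.midLowA Band.midUpA).pole).val o.x :=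
  QEx.nonneg_on_box u1_drift m

/-- The exit curve on the box of piece 1. -/
theorem uexit1_holds {o : PtR} (h0 : 3 / 5 ≤ o.u) (h1 : o.u ≤ 7 / 10) (h2 : 9 / 50 ≤ o.a) (h3 : o.a ≤ 31 / 100)
    (h4 : 1 / 20 ≤ o.I) (h5 : o.I ≤ 1 / 12) :
    0 ≤ Band.midBracket Band.midExitA o.I o.a o.u * 12 - 1000 * 5 := by
  have h := QEx.nonneg_on_box uexit1_check (x := (⟨o.u, 12 / 5, o.a, o.I⟩ : PtR).x)
    (PtR.InM.of_bounds (o := ⟨o.u, 12 / 5, o.a, o.I⟩) ?_ ?_ ?_ ?_)
  · obtain ⟨eu, -, va, vI, -, -, -, -, -, -, -, -⟩ := (⟨o.u, 12 / 5, o.a, o.I⟩ : PtR).vals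
    simp only [xExitM, xFour, val_add, val_sub, val_mul, val_num, eu, va, vI] at h
    push_cast at h
    simp only [Band.midBracket, Band.midFour]
    linarith
  all_goals simp only [uexit1Box, InChart] <;> norm_num <;> (try constructor) <;> linarith

/-- The piece 1 holds on its box. -/
theorem upiece1_holds {o : PtR} (m : o.InM ubox1) :
    upiece1.AllHoldQ false (bandMid Band.midLowA Band.midUpA) o where
  forms :=
    { forms := fun q h k =>
        match q, h, k with
        | .g, false, .lo => QEx.nonneg_on_box (List.all_eq_true.1 u1_group0 (upiece1.checkM false .g false .lo) (by simp)) m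
        | .g, false, .hi => QEx.nonneg_on_box (List.all_eq_true.1 u1_group0 (upiece1.checkM false .g false .hi) (by simp)) m
        | .g, false, .mid => QEx.nonneg_on_box (List.all_eq_true.1 u1_group0 (upiece1.checkM false .g false .mid) (by simp)) m
        | .g, true, .lo => QEx.nonneg_on_box (List.all_eq_true.1 u1_group0 (upiece1.checkM false .g true .lo) (by simp)) m
        | .g, true, .hi => QEx.nonneg_on_box (List.all_eq_true.1 u1_group0 (upiece1.checkM false .g true .hi) (by simp)) m
        | .g, true, .mid => QEx.nonneg_on_box (List.all_eq_true.1 u1_group0 (upiece1.checkM false .g true .mid) (by simp)) m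
        | .n, false, .lo => QEx.nonneg_on_box (List.all_eq_true.1 u1_group1 (upiece1.checkM false .n false .lo) (by simp)) m
        | .n, false, .hi => QEx.nonneg_on_box (List.all_eq_true.1 u1_group1 (upiece1.checkM false .n false .hi) (by simp)) m
        | .n, false, .mid => QEx.nonneg_on_box (List.all_eq_true.1 u1_group1 (upiece1.checkM false .n false .mid) (by simp)) m
        | .n, true, .lo => QEx.nonneg_on_box (List.all_eq_true.1 u1_group1 (upiece1.checkM false .n true .lo) (by simp)) m
        | .n, true, .hi => QEx.nonneg_on_box (List.all_eq_true.1 u1_group1 (upiece1.checkM false .n true .hi) (by simp)) m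
        | .n, true, .mid => QEx.nonneg_on_box (List.all_eq_true.1 u1_group1 (upiece1.checkM false .n true .mid) (by simp)) m
        | .tlo, false, .lo => QEx.nonneg_on_box (List.all_eq_true.1 u1_group2 (upiece1.checkM false .tlo false .lo) (by simp)) m
        | .tlo, false, .hi => QEx.nonneg_on_box (List.all_eq_true.1 u1_group2 (upiece1.checkM false .tlo false .hi) (by simp)) m
        | .tlo, false, .mid => QEx.nonneg_on_box (List.all_eq_true.1 u1_group2 (upiece1.checkM false .tlo false .mid) (by simp)) m
        | .tlo, true, .lo => QEx.nonneg_on_box (List.all_eq_true.1 u1_group2 (upiece1.checkM false .tlo true .lo) (by simp)) m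
        | .tlo, true, .hi => QEx.nonneg_on_box (List.all_eq_true.1 u1_group2 (upiece1.checkM false .tlo true .hi) (by simp)) m
        | .tlo, true, .mid => QEx.nonneg_on_box (List.all_eq_true.1 u1_group2 (upiece1.checkM false .tlo true .mid) (by simp)) m
        | .thi, false, .lo => QEx.nonneg_on_box (List.all_eq_true.1 u1_group2 (upiece1.checkM false .thi false .lo) (by simp)) m
        | .thi, false, .hi => QEx.nonneg_on_box (List.all_eq_true.1 u1_group2 (upiece1.checkM false .thi false .hi) (by simp)) m
        | .thi, false, .mid => QEx.nonneg_on_box (List.all_eq_true.1 u1_group2 (upiece1.checkM false .thi false .mid) (by simp)) m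
        | .thi, true, .lo => QEx.nonneg_on_box (List.all_eq_true.1 u1_group2 (upiece1.checkM false .thi true .lo) (by simp)) m
        | .thi, true, .hi => QEx.nonneg_on_box (List.all_eq_true.1 u1_group2 (upiece1.checkM false .thi true .hi) (by simp)) m
        | .thi, true, .mid => QEx.nonneg_on_box (List.all_eq_true.1 u1_group2 (upiece1.checkM false .thi true .mid) (by simp)) m
        | .mlo, false, .lo => QEx.nonneg_on_box (List.all_eq_true.1 u1_group3 (upiece1.checkM false .mlo false .lo) (by simp)) m
        | .mlo, false, .hi => QEx.nonneg_on_box (List.all_eq_true.1 u1_group3 (upiece1.checkM false .mlo false .hi) (by simp)) m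
        | .mlo, false, .mid => QEx.nonneg_on_box (List.all_eq_true.1 u1_group3 (upiece1.checkM false .mlo false .mid) (by simp)) m
        | .mlo, true, .lo => QEx.nonneg_on_box (List.all_eq_true.1 u1_group3 (upiece1.checkM false .mlo false .lo) (by simp)) m
        | .mlo, true, .hi => QEx.nonneg_on_box (List.all_eq_true.1 u1_group3 (upiece1.checkM false .mlo false .hi) (by simp)) m
        | .mlo, true, .mid => QEx.nonneg_on_box (List.all_eq_true.1 u1_group3 (upiece1.checkM false .mlo false .mid) (by simp)) m
        | .mhi, false, .lo => QEx.nonneg_on_box (List.all_eq_true.1 u1_group3 (upiece1.checkM false .mhi false .lo) (by simp)) m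
        | .mhi, false, .hi => QEx.nonneg_on_box (List.all_eq_true.1 u1_group3 (upiece1.checkM false .mhi false .hi) (by simp)) m
        | .mhi, false, .mid => QEx.nonneg_on_box (List.all_eq_true.1 u1_group3 (upiece1.checkM false .mhi false .mid) (by simp)) m
        | .mhi, true, .lo => QEx.nonneg_on_box (List.all_eq_true.1 u1_group3 (upiece1.checkM false .mhi false .lo) (by simp)) m
        | .mhi, true, .hi => QEx.nonneg_on_box (List.all_eq_true.1 u1_group3 (upiece1.checkM false .mhi false .hi) (by simp)) m
        | .mhi, true, .mid => QEx.nonneg_on_box (List.all_eq_true.1 u1_group3 (upiece1.checkM false .mhi false .mid) (by simp)) m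
        | .f, false, .lo => QEx.nonneg_on_box (List.all_eq_true.1 u1_group4 (upiece1.checkM false .f false .lo) (by simp)) m
        | .f, false, .hi => QEx.nonneg_on_box (List.all_eq_true.1 u1_group5 (upiece1.checkM false .f false .hi) (by simp)) m
        | .f, false, .mid => QEx.nonneg_on_box (List.all_eq_true.1 u1_group6 (upiece1.checkM false .f false .mid) (by simp)) m
        | .f, true, .lo => QEx.nonneg_on_box (List.all_eq_true.1 u1_group7 (upiece1.checkM false .f true .lo) (by simp)) m
        | .f, true, .hi => QEx.nonneg_on_box (List.all_eq_true.1 u1_group8 (upiece1.checkM false .f true .hi) (by simp)) m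
        | .f, true, .mid => QEx.nonneg_on_box (List.all_eq_true.1 u1_group9 (upiece1.checkM false .f true .mid) (by simp)) m
      side := fun e =>
        match e with
        | .rA => QEx.nonneg_on_box (List.all_eq_true.1 u1_group18 (upiece1.side .rA) (by simp)) m
        | .rB => QEx.nonneg_on_box (List.all_eq_true.1 u1_group18 (upiece1.side .rB) (by simp)) m
        | .rF => u1_side_rF_all m
        | .q => QEx.nonneg_on_box (List.all_eq_true.1 u1_group20 (upiece1.side .q) (by simp)) m
        | .om => QEx.nonneg_on_box (List.all_eq_true.1 u1_group21 (upiece1.side .om) (by simp)) m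
      nums := by decide }
  env :=
    { lo := fun e =>
        match e with
        | .piL => u1_piL_lo_all m
        | .piU => QEx.nonneg_on_box (List.all_eq_true.1 u1_group11 (upiece1.env (bandMid Band.midLowA Band.midUpA).lo (bandMid Band.midLowA Band.midUpA).hi (bandMid Band.midLowA Band.midUpA).pole .piU) (by simp)) m
        | .omL => QEx.nonneg_on_box (List.all_eq_true.1 u1_group12 (upiece1.env (bandMid Band.midLowA Band.midUpA).lo (bandMid Band.midLowA Band.midUpA).hi (bandMid Band.midLowA Band.midUpA).pole .omL) (by simp)) m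
        | .omU => u1_omU_lo_all m
        | .tauL => QEx.nonneg_on_box (List.all_eq_true.1 u1_group15 (upiece1.env (bandMid Band.midLowA Band.midUpA).lo (bandMid Band.midLowA Band.midUpA).hi (bandMid Band.midLowA Band.midUpA).pole .tauL) (by simp)) m
        | .tauU => QEx.nonneg_on_box (List.all_eq_true.1 u1_group15 (upiece1.env (bandMid Band.midLowA Band.midUpA).lo (bandMid Band.midLowA Band.midUpA).hi (bandMid Band.midLowA Band.midUpA).pole .tauU) (by simp)) m
      hi := fun e =>
        match e with
        | .piL => QEx.nonneg_on_box (List.all_eq_true.1 u1_group11 (upiece1.env (bandMid Band.midLowA Band.midUpA).hi (bandMid Band.midLowA Band.midUpA).hi (bandMid Band.midLowA Band.midUpA).pole .piL) (by simp)) m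
        | .piU => QEx.nonneg_on_box (List.all_eq_true.1 u1_group11 (upiece1.env (bandMid Band.midLowA Band.midUpA).hi (bandMid Band.midLowA Band.midUpA).hi (bandMid Band.midLowA Band.midUpA).pole .piU) (by simp)) m
        | .omL => QEx.nonneg_on_box (List.all_eq_true.1 u1_group12 (upiece1.env (bandMid Band.midLowA Band.midUpA).hi (bandMid Band.midLowA Band.midUpA).hi (bandMid Band.midLowA Band.midUpA).pole .omL) (by simp)) m
        | .omU => u1_omU_hi_all m
        | .tauL => QEx.nonneg_on_box (List.all_eq_true.1 u1_group15 (upiece1.env (bandMid Band.midLowA Band.midUpA).hi (bandMid Band.midLowA Band.midUpA).hi (bandMid Band.midLowA Band.midUpA).pole .tauL) (by simp)) m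
        | .tauU => QEx.nonneg_on_box (List.all_eq_true.1 u1_group15 (upiece1.env (bandMid Band.midLowA Band.midUpA).hi (bandMid Band.midLowA Band.midUpA).hi (bandMid Band.midLowA Band.midUpA).pole .tauU) (by simp)) m
      wid := QEx.nonneg_on_box (List.all_eq_true.1 u1_group17 (upiece1.wid - qD 1) (by simp)) m }
  rayLo := QEx.nonneg_on_box (List.all_eq_true.1 u1_group16 (xLLGQ false (bandMid Band.midLowA Band.midUpA) (bandMid Band.midLowA Band.midUpA).lo) (by simp)) m
  rayHi := QEx.nonneg_on_box (List.all_eq_true.1 u1_group16 (xLLGQ false (bandMid Band.midLowA Band.midUpA) (bandMid Band.midLowA Band.midUpA).hi) (by simp)) m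

/-- The split check. -/
theorem u2_piU_hi_all {o : PtR} (m : o.InM ubox2) :
    0 ≤ (upiece2.env (bandMid Band.midLowB Band.midUpB).hi (bandMid Band.midLowB Band.midUpB).hi (bandMid Band.midLowB Band.midUpB).pole .piU).val o.x := by
  obtain ⟨hu, hX, ha, hI⟩ := m.bounds
  simp only [ubox2] at hu hX ha hI
  norm_num at hu hX ha hI
  rcases le_total (o.a) (7 / 50 : ℝ) with h0 | h0
  ·
    refine QEx.nonneg_on_box u2_piU_hi_0 (PtR.InM.of_bounds ?_ ?_ ?_ ?_) <;>
      simp only [ubox2_piU_hi_0, InChart] <;> norm_num <;> (try constructor) <;> linarith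
  ·
    refine QEx.nonneg_on_box u2_piU_hi_1 (PtR.InM.of_bounds ?_ ?_ ?_ ?_) <;>
      simp only [ubox2_piU_hi_1, InChart] <;> norm_num <;> (try constructor) <;> linarith

/-- The split check. -/
theorem u2_side_rF_all {o : PtR} (m : o.InM ubox2) :
    0 ≤ (upiece2.side .rF).val o.x := by
  obtain ⟨hu, hX, ha, hI⟩ := m.bounds
  simp only [ubox2] at hu hX ha hI
  norm_num at hu hX ha hI
  rcases le_total (o.X) (81 / 50 : ℝ) with h0 | h0
  ·
    refine QEx.nonneg_on_box u2_side_rF_0 (PtR.InM.of_bounds ?_ ?_ ?_ ?_) <;>
      simp only [ubox2_side_rF_0, InChart] <;> norm_num <;> (try constructor) <;> linarith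
  ·
    refine QEx.nonneg_on_box u2_side_rF_1 (PtR.InM.of_bounds ?_ ?_ ?_ ?_) <;>
      simp only [ubox2_side_rF_1, InChart] <;> norm_num <;> (try constructor) <;> linarith

/-- The drift does not reach below the box of piece 2. -/
theorem u2_drift_holds {o : PtR} (m : o.InM ubox2x) :
    0 ≤ (xDrift (bandMid Band.midLowB Band.midUpB).hi (bandMid Band.midLowB Band.midUpB).pole).val o.x :=
  QEx.nonneg_on_box u2_drift m

/-- The exit curve on the box of piece 2. -/
theorem uexit2_holds {o : PtR} (h0 : 3 / 5 ≤ o.u) (h1 : o.u ≤ 7 / 10) (h2 : 2 / 25 ≤ o.a) (h3 : o.a ≤ 1 / 5)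
    (h4 : 1 / 12 ≤ o.I) (h5 : o.I ≤ 27 / 250) :
    0 ≤ Band.midBracket Band.midExitB o.I o.a o.u * 99 - 1000 * 50 := by
  have h := QEx.nonneg_on_box uexit2_check (x := (⟨o.u, 99 / 50, o.a, o.I⟩ : PtR).x)
    (PtR.InM.of_bounds (o := ⟨o.u, 99 / 50, o.a, o.I⟩) ?_ ?_ ?_ ?_)
  · obtain ⟨eu, -, va, vI, -, -, -, -, -, -, -, -⟩ := (⟨o.u, 99 / 50, o.a, o.I⟩ : PtR).vals
    simp only [xExitM, xFour, val_add, val_sub, val_mul, val_num, eu, va, vI] at h
    push_cast at h
    simp only [Band.midBracket, Band.midFour]
    linarith
  all_goals simp only [uexit2Box, InChart] <;> norm_num <;> (try constructor) <;> linarith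

/-- The piece 2 holds on its box. -/
theorem upiece2_holds {o : PtR} (m : o.InM ubox2) :
    upiece2.AllHoldQ false (bandMid Band.midLowB Band.midUpB) o where
  forms :=
    { forms := fun q h k =>
        match q, h, k with
        | .g, false, .lo => QEx.nonneg_on_box (List.all_eq_true.1 u2_group0 (upiece2.checkM false .g false .lo) (by simp)) m
        | .g, false, .hi => QEx.nonneg_on_box (List.all_eq_true.1 u2_group0 (upiece2.checkM false .g false .hi) (by simp)) m
        | .g, false, .mid => QEx.nonneg_on_box (List.all_eq_true.1 u2_group0 (upiece2.checkM false .g false .mid) (by simp)) m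
        | .g, true, .lo => QEx.nonneg_on_box (List.all_eq_true.1 u2_group0 (upiece2.checkM false .g true .lo) (by simp)) m
        | .g, true, .hi => QEx.nonneg_on_box (List.all_eq_true.1 u2_group0 (upiece2.checkM false .g true .hi) (by simp)) m
        | .g, true, .mid => QEx.nonneg_on_box (List.all_eq_true.1 u2_group0 (upiece2.checkM false .g true .mid) (by simp)) m
        | .n, false, .lo => QEx.nonneg_on_box (List.all_eq_true.1 u2_group1 (upiece2.checkM false .n false .lo) (by simp)) m
        | .n, false, .hi => QEx.nonneg_on_box (List.all_eq_true.1 u2_group1 (upiece2.checkM false .n false .hi) (by simp)) m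
        | .n, false, .mid => QEx.nonneg_on_box (List.all_eq_true.1 u2_group1 (upiece2.checkM false .n false .mid) (by simp)) m
        | .n, true, .lo => QEx.nonneg_on_box (List.all_eq_true.1 u2_group1 (upiece2.checkM false .n true .lo) (by simp)) m
        | .n, true, .hi => QEx.nonneg_on_box (List.all_eq_true.1 u2_group1 (upiece2.checkM false .n true .hi) (by simp)) m
        | .n, true, .mid => QEx.nonneg_on_box (List.all_eq_true.1 u2_group1 (upiece2.checkM false .n true .mid) (by simp)) m
        | .tlo, false, .lo => QEx.nonneg_on_box (List.all_eq_true.1 u2_group2 (upiece2.checkM false .tlo false .lo) (by simp)) m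
        | .tlo, false, .hi => QEx.nonneg_on_box (List.all_eq_true.1 u2_group2 (upiece2.checkM false .tlo false .hi) (by simp)) m
        | .tlo, false, .mid => QEx.nonneg_on_box (List.all_eq_true.1 u2_group2 (upiece2.checkM false .tlo false .mid) (by simp)) m
        | .tlo, true, .lo => QEx.nonneg_on_box (List.all_eq_true.1 u2_group2 (upiece2.checkM false .tlo true .lo) (by simp)) m
        | .tlo, true, .hi => QEx.nonneg_on_box (List.all_eq_true.1 u2_group2 (upiece2.checkM false .tlo true .hi) (by simp)) m
        | .tlo, true, .mid => QEx.nonneg_on_box (List.all_eq_true.1 u2_group2 (upiece2.checkM false .tlo true .mid) (by simp)) m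
        | .thi, false, .lo => QEx.nonneg_on_box (List.all_eq_true.1 u2_group2 (upiece2.checkM false .thi false .lo) (by simp)) m
        | .thi, false, .hi => QEx.nonneg_on_box (List.all_eq_true.1 u2_group2 (upiece2.checkM false .thi false .hi) (by simp)) m
        | .thi, false, .mid => QEx.nonneg_on_box (List.all_eq_true.1 u2_group2 (upiece2.checkM false .thi false .mid) (by simp)) m
        | .thi, true, .lo => QEx.nonneg_on_box (List.all_eq_true.1 u2_group2 (upiece2.checkM false .thi true .lo) (by simp)) m
        | .thi, true, .hi => QEx.nonneg_on_box (List.all_eq_true.1 u2_group2 (upiece2.checkM false .thi true .hi) (by simp)) m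
        | .thi, true, .mid => QEx.nonneg_on_box (List.all_eq_true.1 u2_group2 (upiece2.checkM false .thi true .mid) (by simp)) m
        | .mlo, false, .lo => QEx.nonneg_on_box (List.all_eq_true.1 u2_group3 (upiece2.checkM false .mlo false .lo) (by simp)) m
        | .mlo, false, .hi => QEx.nonneg_on_box (List.all_eq_true.1 u2_group3 (upiece2.checkM false .mlo false .hi) (by simp)) m
        | .mlo, false, .mid => QEx.nonneg_on_box (List.all_eq_true.1 u2_group3 (upiece2.checkM false .mlo false .mid) (by simp)) m
        | .mlo, true, .lo => QEx.nonneg_on_box (List.all_eq_true.1 u2_group3 (upiece2.checkM false .mlo false .lo) (by simp)) m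
        | .mlo, true, .hi => QEx.nonneg_on_box (List.all_eq_true.1 u2_group3 (upiece2.checkM false .mlo false .hi) (by simp)) m
        | .mlo, true, .mid => QEx.nonneg_on_box (List.all_eq_true.1 u2_group3 (upiece2.checkM false .mlo false .mid) (by simp)) m
        | .mhi, false, .lo => QEx.nonneg_on_box (List.all_eq_true.1 u2_group3 (upiece2.checkM false .mhi false .lo) (by simp)) m
        | .mhi, false, .hi => QEx.nonneg_on_box (List.all_eq_true.1 u2_group3 (upiece2.checkM false .mhi false .hi) (by simp)) m
        | .mhi, false, .mid => QEx.nonneg_on_box (List.all_eq_true.1 u2_group3 (upiece2.checkM false .mhi false .mid) (by simp)) m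
        | .mhi, true, .lo => QEx.nonneg_on_box (List.all_eq_true.1 u2_group3 (upiece2.checkM false .mhi false .lo) (by simp)) m
        | .mhi, true, .hi => QEx.nonneg_on_box (List.all_eq_true.1 u2_group3 (upiece2.checkM false .mhi false .hi) (by simp)) m
        | .mhi, true, .mid => QEx.nonneg_on_box (List.all_eq_true.1 u2_group3 (upiece2.checkM false .mhi false .mid) (by simp)) m
        | .f, false, .lo => QEx.nonneg_on_box (List.all_eq_true.1 u2_group4 (upiece2.checkM false .f false .lo) (by simp)) m
        | .f, false, .hi => QEx.nonneg_on_box (List.all_eq_true.1 u2_group5 (upiece2.checkM false .f false .hi) (by simp)) m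
        | .f, false, .mid => QEx.nonneg_on_box (List.all_eq_true.1 u2_group6 (upiece2.checkM false .f false .mid) (by simp)) m
        | .f, true, .lo => QEx.nonneg_on_box (List.all_eq_true.1 u2_group7 (upiece2.checkM false .f true .lo) (by simp)) m
        | .f, true, .hi => QEx.nonneg_on_box (List.all_eq_true.1 u2_group8 (upiece2.checkM false .f true .hi) (by simp)) m
        | .f, true, .mid => QEx.nonneg_on_box (List.all_eq_true.1 u2_group9 (upiece2.checkM false .f true .mid) (by simp)) m
      side := fun e =>
        match e with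
        | .rA => QEx.nonneg_on_box (List.all_eq_true.1 u2_group16 (upiece2.side .rA) (by simp)) m
        | .rB => QEx.nonneg_on_box (List.all_eq_true.1 u2_group16 (upiece2.side .rB) (by simp)) m
        | .rF => u2_side_rF_all m
        | .q => QEx.nonneg_on_box (List.all_eq_true.1 u2_group18 (upiece2.side .q) (by simp)) m
        | .om => QEx.nonneg_on_box (List.all_eq_true.1 u2_group19 (upiece2.side .om) (by simp)) m
      nums := by decide }
  env :=
    { lo := fun e =>
        match e with
        | .piL => QEx.nonneg_on_box (List.all_eq_true.1 u2_group10 (upiece2.env (bandMid Band.midLowB Band.midUpB).lo (bandMid Band.midLowB Band.midUpB).hi (bandMid Band.midLowB Band.midUpB).pole .piL) (by simp)) m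
        | .piU => QEx.nonneg_on_box (List.all_eq_true.1 u2_group10 (upiece2.env (bandMid Band.midLowB Band.midUpB).lo (bandMid Band.midLowB Band.midUpB).hi (bandMid Band.midLowB Band.midUpB).pole .piU) (by simp)) m
        | .omL => QEx.nonneg_on_box (List.all_eq_true.1 u2_group12 (upiece2.env (bandMid Band.midLowB Band.midUpB).lo (bandMid Band.midLowB Band.midUpB).hi (bandMid Band.midLowB Band.midUpB).pole .omL) (by simp)) m
        | .omU => QEx.nonneg_on_box (List.all_eq_true.1 u2_group12 (upiece2.env (bandMid Band.midLowB Band.midUpB).lo (bandMid Band.midLowB Band.midUpB).hi (bandMid Band.midLowB Band.midUpB).pole .omU) (by simp)) m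
        | .tauL => QEx.nonneg_on_box (List.all_eq_true.1 u2_group13 (upiece2.env (bandMid Band.midLowB Band.midUpB).lo (bandMid Band.midLowB Band.midUpB).hi (bandMid Band.midLowB Band.midUpB).pole .tauL) (by simp)) m
        | .tauU => QEx.nonneg_on_box (List.all_eq_true.1 u2_group13 (upiece2.env (bandMid Band.midLowB Band.midUpB).lo (bandMid Band.midLowB Band.midUpB).hi (bandMid Band.midLowB Band.midUpB).pole .tauU) (by simp)) m
      hi := fun e =>
        match e with
        | .piL => QEx.nonneg_on_box (List.all_eq_true.1 u2_group10 (upiece2.env (bandMid Band.midLowB Band.midUpB).hi (bandMid Band.midLowB Band.midUpB).hi (bandMid Band.midLowB Band.midUpB).pole .piL) (by simp)) m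
        | .piU => u2_piU_hi_all m
        | .omL => QEx.nonneg_on_box (List.all_eq_true.1 u2_group12 (upiece2.env (bandMid Band.midLowB Band.midUpB).hi (bandMid Band.midLowB Band.midUpB).hi (bandMid Band.midLowB Band.midUpB).pole .omL) (by simp)) m
        | .omU => QEx.nonneg_on_box (List.all_eq_true.1 u2_group12 (upiece2.env (bandMid Band.midLowB Band.midUpB).hi (bandMid Band.midLowB Band.midUpB).hi (bandMid Band.midLowB Band.midUpB).pole .omU) (by simp)) m
        | .tauL => QEx.nonneg_on_box (List.all_eq_true.1 u2_group13 (upiece2.env (bandMid Band.midLowB Band.midUpB).hi (bandMid Band.midLowB Band.midUpB).hi (bandMid Band.midLowB Band.midUpB).pole .tauL) (by simp)) m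
        | .tauU => QEx.nonneg_on_box (List.all_eq_true.1 u2_group13 (upiece2.env (bandMid Band.midLowB Band.midUpB).hi (bandMid Band.midLowB Band.midUpB).hi (bandMid Band.midLowB Band.midUpB).pole .tauU) (by simp)) m
      wid := QEx.nonneg_on_box (List.all_eq_true.1 u2_group15 (upiece2.wid - qD 1) (by simp)) m }
  rayLo := QEx.nonneg_on_box (List.all_eq_true.1 u2_group14 (xLLGQ false (bandMid Band.midLowB Band.midUpB) (bandMid Band.midLowB Band.midUpB).lo) (by simp)) m
  rayHi := QEx.nonneg_on_box (List.all_eq_true.1 u2_group14 (xLLGQ false (bandMid Band.midLowB Band.midUpB) (bandMid Band.midLowB Band.midUpB).hi) (by simp)) m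

/-- The split check. -/
theorem u3_piL_lo_all {o : PtR} (m : o.InM ubox3) :
    0 ≤ (upiece3.env (bandMid Band.midLowB Band.midUpB).lo (bandMid Band.midLowB Band.midUpB).hi (bandMid Band.midLowB Band.midUpB).pole .piL).val o.x := by
  obtain ⟨hu, hX, ha, hI⟩ := m.bounds
  simp only [ubox3] at hu hX ha hI
  norm_num at hu hX ha hI
  rcases le_total (o.a) (51 / 200 : ℝ) with h0 | h0
  ·
    refine QEx.nonneg_on_box u3_piL_lo_0 (PtR.InM.of_bounds ?_ ?_ ?_ ?_) <;>
      simp only [ubox3_piL_lo_0, InChart] <;> norm_num <;> (try constructor) <;> linarith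
  ·
    rcases le_total (o.I) (287 / 3000 : ℝ) with h1 | h1
    ·
      refine QEx.nonneg_on_box u3_piL_lo_1 (PtR.InM.of_bounds ?_ ?_ ?_ ?_) <;>
        simp only [ubox3_piL_lo_1, InChart] <;> norm_num <;> (try constructor) <;> linarith
    ·
      refine QEx.nonneg_on_box u3_piL_lo_2 (PtR.InM.of_bounds ?_ ?_ ?_ ?_) <;>
        simp only [ubox3_piL_lo_2, InChart] <;> norm_num <;> (try constructor) <;> linarith

/-- The split check. -/
theorem u3_omU_lo_all {o : PtR} (m : o.InM ubox3) :
    0 ≤ (upiece3.env (bandMid Band.midLowB Band.midUpB).lo (bandMid Band.midLowB Band.midUpB).hi (bandMid Band.midLowB Band.midUpB).pole .omU).val o.x := by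
  obtain ⟨hu, hX, ha, hI⟩ := m.bounds
  simp only [ubox3] at hu hX ha hI
  norm_num at hu hX ha hI
  rcases le_total (o.a) (51 / 200 : ℝ) with h0 | h0
  ·
    refine QEx.nonneg_on_box u3_omU_lo_0 (PtR.InM.of_bounds ?_ ?_ ?_ ?_) <;>
      simp only [ubox3_omU_lo_0, InChart] <;> norm_num <;> (try constructor) <;> linarith
  ·
    refine QEx.nonneg_on_box u3_omU_lo_1 (PtR.InM.of_bounds ?_ ?_ ?_ ?_) <;>
      simp only [ubox3_omU_lo_1, InChart] <;> norm_num <;> (try constructor) <;> linarith

/-- The split check. -/
theorem u3_omU_hi_all {o : PtR} (m : o.InM ubox3) :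
    0 ≤ (upiece3.env (bandMid Band.midLowB Band.midUpB).hi (bandMid Band.midLowB Band.midUpB).hi (bandMid Band.midLowB Band.midUpB).pole .omU).val o.x := by
  obtain ⟨hu, hX, ha, hI⟩ := m.bounds
  simp only [ubox3] at hu hX ha hI
  norm_num at hu hX ha hI
  rcases le_total (o.a) (51 / 200 : ℝ) with h0 | h0
  ·
    refine QEx.nonneg_on_box u3_omU_hi_0 (PtR.InM.of_bounds ?_ ?_ ?_ ?_) <;>
      simp only [ubox3_omU_hi_0, InChart] <;> norm_num <;> (try constructor) <;> linarith
  ·
    refine QEx.nonneg_on_box u3_omU_hi_1 (PtR.InM.of_bounds ?_ ?_ ?_ ?_) <;>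
      simp only [ubox3_omU_hi_1, InChart] <;> norm_num <;> (try constructor) <;> linarith

/-- The split check. -/
theorem u3_tauL_lo_all {o : PtR} (m : o.InM ubox3) :
    0 ≤ (upiece3.env (bandMid Band.midLowB Band.midUpB).lo (bandMid Band.midLowB Band.midUpB).hi (bandMid Band.midLowB Band.midUpB).pole .tauL).val o.x := by
  obtain ⟨hu, hX, ha, hI⟩ := m.bounds
  simp only [ubox3] at hu hX ha hI
  norm_num at hu hX ha hI
  rcases le_total (o.a) (51 / 200 : ℝ) with h0 | h0
  ·
    refine QEx.nonneg_on_box u3_tauL_lo_0 (PtR.InM.of_bounds ?_ ?_ ?_ ?_) <;>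
      simp only [ubox3_tauL_lo_0, InChart] <;> norm_num <;> (try constructor) <;> linarith
  ·
    refine QEx.nonneg_on_box u3_tauL_lo_1 (PtR.InM.of_bounds ?_ ?_ ?_ ?_) <;>
      simp only [ubox3_tauL_lo_1, InChart] <;> norm_num <;> (try constructor) <;> linarith

/-- The split check. -/
theorem u3_tauL_hi_all {o : PtR} (m : o.InM ubox3) :
    0 ≤ (upiece3.env (bandMid Band.midLowB Band.midUpB).hi (bandMid Band.midLowB Band.midUpB).hi (bandMid Band.midLowB Band.midUpB).pole .tauL).val o.x := by
  obtain ⟨hu, hX, ha, hI⟩ := m.bounds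
  simp only [ubox3] at hu hX ha hI
  norm_num at hu hX ha hI
  rcases le_total (o.a) (51 / 200 : ℝ) with h0 | h0
  ·
    refine QEx.nonneg_on_box u3_tauL_hi_0 (PtR.InM.of_bounds ?_ ?_ ?_ ?_) <;>
      simp only [ubox3_tauL_hi_0, InChart] <;> norm_num <;> (try constructor) <;> linarith
  ·
    refine QEx.nonneg_on_box u3_tauL_hi_1 (PtR.InM.of_bounds ?_ ?_ ?_ ?_) <;>
      simp only [ubox3_tauL_hi_1, InChart] <;> norm_num <;> (try constructor) <;> linarith

/-- The drift does not reach below the box of piece 3. -/
theorem u3_drift_holds {o : PtR} (m : o.InM ubox3x) :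
    0 ≤ (xDrift (bandMid Band.midLowB Band.midUpB).hi (bandMid Band.midLowB Band.midUpB).pole).val o.x :=
  QEx.nonneg_on_box u3_drift m

/-- The exit curve on the box of piece 3. -/
theorem uexit3_holds {o : PtR} (h0 : 3 / 5 ≤ o.u) (h1 : o.u ≤ 7 / 10) (h2 : 1 / 5 ≤ o.a) (h3 : o.a ≤ 31 / 100)
    (h4 : 1 / 12 ≤ o.I) (h5 : o.I ≤ 27 / 250) :
    0 ≤ Band.midBracket Band.midExitB o.I o.a o.u * 5 - 1000 * 2 := by
  have h := QEx.nonneg_on_box uexit3_check (x := (⟨o.u, 5 / 2, o.a, o.I⟩ : PtR).x)
    (PtR.InM.of_bounds (o := ⟨o.u, 5 / 2, o.a, o.I⟩) ?_ ?_ ?_ ?_)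
  · obtain ⟨eu, -, va, vI, -, -, -, -, -, -, -, -⟩ := (⟨o.u, 5 / 2, o.a, o.I⟩ : PtR).vals
    simp only [xExitM, xFour, val_add, val_sub, val_mul, val_num, eu, va, vI] at h
    push_cast at h
    simp only [Band.midBracket, Band.midFour]
    linarith
  all_goals simp only [uexit3Box, InChart] <;> norm_num <;> (try constructor) <;> linarith

/-- The piece 3 holds on its box. -/
theorem upiece3_holds {o : PtR} (m : o.InM ubox3) :
    upiece3.AllHoldQ false (bandMid Band.midLowB Band.midUpB) o where
  forms :=
    { forms := fun q h k =>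
        match q, h, k with
        | .g, false, .lo => QEx.nonneg_on_box (List.all_eq_true.1 u3_group0 (upiece3.checkM false .g false .lo) (by simp)) m
        | .g, false, .hi => QEx.nonneg_on_box (List.all_eq_true.1 u3_group0 (upiece3.checkM false .g false .hi) (by simp)) m
        | .g, false, .mid => QEx.nonneg_on_box (List.all_eq_true.1 u3_group0 (upiece3.checkM false .g false .mid) (by simp)) m
        | .g, true, .lo => QEx.nonneg_on_box (List.all_eq_true.1 u3_group0 (upiece3.checkM false .g true .lo) (by simp)) m
        | .g, true, .hi => QEx.nonneg_on_box (List.all_eq_true.1 u3_group0 (upiece3.checkM false .g true .hi) (by simp)) m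
        | .g, true, .mid => QEx.nonneg_on_box (List.all_eq_true.1 u3_group0 (upiece3.checkM false .g true .mid) (by simp)) m
        | .n, false, .lo => QEx.nonneg_on_box (List.all_eq_true.1 u3_group1 (upiece3.checkM false .n false .lo) (by simp)) m
        | .n, false, .hi => QEx.nonneg_on_box (List.all_eq_true.1 u3_group1 (upiece3.checkM false .n false .hi) (by simp)) m
        | .n, false, .mid => QEx.nonneg_on_box (List.all_eq_true.1 u3_group1 (upiece3.checkM false .n false .mid) (by simp)) m
        | .n, true, .lo => QEx.nonneg_on_box (List.all_eq_true.1 u3_group1 (upiece3.checkM false .n true .lo) (by simp)) m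
        | .n, true, .hi => QEx.nonneg_on_box (List.all_eq_true.1 u3_group1 (upiece3.checkM false .n true .hi) (by simp)) m
        | .n, true, .mid => QEx.nonneg_on_box (List.all_eq_true.1 u3_group1 (upiece3.checkM false .n true .mid) (by simp)) m
        | .tlo, false, .lo => QEx.nonneg_on_box (List.all_eq_true.1 u3_group2 (upiece3.checkM false .tlo false .lo) (by simp)) m
        | .tlo, false, .hi => QEx.nonneg_on_box (List.all_eq_true.1 u3_group2 (upiece3.checkM false .tlo false .hi) (by simp)) m
        | .tlo, false, .mid => QEx.nonneg_on_box (List.all_eq_true.1 u3_group2 (upiece3.checkM false .tlo false .mid) (by simp)) m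
        | .tlo, true, .lo => QEx.nonneg_on_box (List.all_eq_true.1 u3_group2 (upiece3.checkM false .tlo true .lo) (by simp)) m
        | .tlo, true, .hi => QEx.nonneg_on_box (List.all_eq_true.1 u3_group2 (upiece3.checkM false .tlo true .hi) (by simp)) m
        | .tlo, true, .mid => QEx.nonneg_on_box (List.all_eq_true.1 u3_group2 (upiece3.checkM false .tlo true .mid) (by simp)) m
        | .thi, false, .lo => QEx.nonneg_on_box (List.all_eq_true.1 u3_group2 (upiece3.checkM false .thi false .lo) (by simp)) m
        | .thi, false, .hi => QEx.nonneg_on_box (List.all_eq_true.1 u3_group2 (upiece3.checkM false .thi false .hi) (by simp)) m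
        | .thi, false, .mid => QEx.nonneg_on_box (List.all_eq_true.1 u3_group2 (upiece3.checkM false .thi false .mid) (by simp)) m
        | .thi, true, .lo => QEx.nonneg_on_box (List.all_eq_true.1 u3_group2 (upiece3.checkM false .thi true .lo) (by simp)) m
        | .thi, true, .hi => QEx.nonneg_on_box (List.all_eq_true.1 u3_group2 (upiece3.checkM false .thi true .hi) (by simp)) m
        | .thi, true, .mid => QEx.nonneg_on_box (List.all_eq_true.1 u3_group2 (upiece3.checkM false .thi true .mid) (by simp)) m
        | .mlo, false, .lo => QEx.nonneg_on_box (List.all_eq_true.1 u3_group3 (upiece3.checkM false .mlo false .lo) (by simp)) m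
        | .mlo, false, .hi => QEx.nonneg_on_box (List.all_eq_true.1 u3_group3 (upiece3.checkM false .mlo false .hi) (by simp)) m
        | .mlo, false, .mid => QEx.nonneg_on_box (List.all_eq_true.1 u3_group3 (upiece3.checkM false .mlo false .mid) (by simp)) m
        | .mlo, true, .lo => QEx.nonneg_on_box (List.all_eq_true.1 u3_group3 (upiece3.checkM false .mlo false .lo) (by simp)) m
        | .mlo, true, .hi => QEx.nonneg_on_box (List.all_eq_true.1 u3_group3 (upiece3.checkM false .mlo false .hi) (by simp)) m
        | .mlo, true, .mid => QEx.nonneg_on_box (List.all_eq_true.1 u3_group3 (upiece3.checkM false .mlo false .mid) (by simp)) m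
        | .mhi, false, .lo => QEx.nonneg_on_box (List.all_eq_true.1 u3_group3 (upiece3.checkM false .mhi false .lo) (by simp)) m
        | .mhi, false, .hi => QEx.nonneg_on_box (List.all_eq_true.1 u3_group3 (upiece3.checkM false .mhi false .hi) (by simp)) m
        | .mhi, false, .mid => QEx.nonneg_on_box (List.all_eq_true.1 u3_group3 (upiece3.checkM false .mhi false .mid) (by simp)) m
        | .mhi, true, .lo => QEx.nonneg_on_box (List.all_eq_true.1 u3_group3 (upiece3.checkM false .mhi false .lo) (by simp)) m
        | .mhi, true, .hi => QEx.nonneg_on_box (List.all_eq_true.1 u3_group3 (upiece3.checkM false .mhi false .hi) (by simp)) m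
        | .mhi, true, .mid => QEx.nonneg_on_box (List.all_eq_true.1 u3_group3 (upiece3.checkM false .mhi false .mid) (by simp)) m
        | .f, false, .lo => QEx.nonneg_on_box (List.all_eq_true.1 u3_group4 (upiece3.checkM false .f false .lo) (by simp)) m
        | .f, false, .hi => QEx.nonneg_on_box (List.all_eq_true.1 u3_group5 (upiece3.checkM false .f false .hi) (by simp)) m
        | .f, false, .mid => QEx.nonneg_on_box (List.all_eq_true.1 u3_group6 (upiece3.checkM false .f false .mid) (by simp)) m
        | .f, true, .lo => QEx.nonneg_on_box (List.all_eq_true.1 u3_group7 (upiece3.checkM false .f true .lo) (by simp)) m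
        | .f, true, .hi => QEx.nonneg_on_box (List.all_eq_true.1 u3_group8 (upiece3.checkM false .f true .hi) (by simp)) m
        | .f, true, .mid => QEx.nonneg_on_box (List.all_eq_true.1 u3_group9 (upiece3.checkM false .f true .mid) (by simp)) m
      side := fun e =>
        match e with
        | .rA => QEx.nonneg_on_box (List.all_eq_true.1 u3_group20 (upiece3.side .rA) (by simp)) m
        | .rB => QEx.nonneg_on_box (List.all_eq_true.1 u3_group20 (upiece3.side .rB) (by simp)) m
        | .rF => QEx.nonneg_on_box (List.all_eq_true.1 u3_group21 (upiece3.side .rF) (by simp)) m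
        | .q => QEx.nonneg_on_box (List.all_eq_true.1 u3_group22 (upiece3.side .q) (by simp)) m
        | .om => QEx.nonneg_on_box (List.all_eq_true.1 u3_group23 (upiece3.side .om) (by simp)) m
      nums := by decide }
  env :=
    { lo := fun e =>
        match e with
        | .piL => u3_piL_lo_all m
        | .piU => QEx.nonneg_on_box (List.all_eq_true.1 u3_group11 (upiece3.env (bandMid Band.midLowB Band.midUpB).lo (bandMid Band.midLowB Band.midUpB).hi (bandMid Band.midLowB Band.midUpB).pole .piU) (by simp)) m
        | .omL => QEx.nonneg_on_box (List.all_eq_true.1 u3_group12 (upiece3.env (bandMid Band.midLowB Band.midUpB).lo (bandMid Band.midLowB Band.midUpB).hi (bandMid Band.midLowB Band.midUpB).pole .omL) (by simp)) m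
        | .omU => u3_omU_lo_all m
        | .tauL => u3_tauL_lo_all m
        | .tauU => QEx.nonneg_on_box (List.all_eq_true.1 u3_group17 (upiece3.env (bandMid Band.midLowB Band.midUpB).lo (bandMid Band.midLowB Band.midUpB).hi (bandMid Band.midLowB Band.midUpB).pole .tauU) (by simp)) m
      hi := fun e =>
        match e with
        | .piL => QEx.nonneg_on_box (List.all_eq_true.1 u3_group11 (upiece3.env (bandMid Band.midLowB Band.midUpB).hi (bandMid Band.midLowB Band.midUpB).hi (bandMid Band.midLowB Band.midUpB).pole .piL) (by simp)) m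
        | .piU => QEx.nonneg_on_box (List.all_eq_true.1 u3_group11 (upiece3.env (bandMid Band.midLowB Band.midUpB).hi (bandMid Band.midLowB Band.midUpB).hi (bandMid Band.midLowB Band.midUpB).pole .piU) (by simp)) m
        | .omL => QEx.nonneg_on_box (List.all_eq_true.1 u3_group12 (upiece3.env (bandMid Band.midLowB Band.midUpB).hi (bandMid Band.midLowB Band.midUpB).hi (bandMid Band.midLowB Band.midUpB).pole .omL) (by simp)) m
        | .omU => u3_omU_hi_all m
        | .tauL => u3_tauL_hi_all m
        | .tauU => QEx.nonneg_on_box (List.all_eq_true.1 u3_group17 (upiece3.env (bandMid Band.midLowB Band.midUpB).hi (bandMid Band.midLowB Band.midUpB).hi (bandMid Band.midLowB Band.midUpB).pole .tauU) (by simp)) m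
      wid := QEx.nonneg_on_box (List.all_eq_true.1 u3_group19 (upiece3.wid - qD 1) (by simp)) m }
  rayLo := QEx.nonneg_on_box (List.all_eq_true.1 u3_group18 (xLLGQ false (bandMid Band.midLowB Band.midUpB) (bandMid Band.midLowB Band.midUpB).lo) (by simp)) m
  rayHi := QEx.nonneg_on_box (List.all_eq_true.1 u3_group18 (xLLGQ false (bandMid Band.midLowB Band.midUpB) (bandMid Band.midLowB Band.midUpB).hi) (by simp)) m

/-- The split check. -/
theorem u4_piU_hi_all {o : PtR} (m : o.InM ubox4) :
    0 ≤ (upiece4.env (bandMid Band.midLowC Band.midUpC).hi (bandMid Band.midLowC Band.midUpC).hi (bandMid Band.midLowC Band.midUpC).pole .piU).val o.x := by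
  obtain ⟨hu, hX, ha, hI⟩ := m.bounds
  simp only [ubox4] at hu hX ha hI
  norm_num at hu hX ha hI
  rcases le_total (o.a) (77 / 500 : ℝ) with h0 | h0
  ·
    refine QEx.nonneg_on_box u4_piU_hi_0 (PtR.InM.of_bounds ?_ ?_ ?_ ?_) <;>
      simp only [ubox4_piU_hi_0, InChart] <;> norm_num <;> (try constructor) <;> linarith
  ·
    rcases le_total (o.I) (439 / 3500 : ℝ) with h1 | h1
    ·
      refine QEx.nonneg_on_box u4_piU_hi_1 (PtR.InM.of_bounds ?_ ?_ ?_ ?_) <;>
        simp only [ubox4_piU_hi_1, InChart] <;> norm_num <;> (try constructor) <;> linarith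
    ·
      rcases le_total (o.X) (9 / 5 : ℝ) with h2 | h2
      ·
        refine QEx.nonneg_on_box u4_piU_hi_2 (PtR.InM.of_bounds ?_ ?_ ?_ ?_) <;>
          simp only [ubox4_piU_hi_2, InChart] <;> norm_num <;> (try constructor) <;> linarith
      ·
        refine QEx.nonneg_on_box u4_piU_hi_3 (PtR.InM.of_bounds ?_ ?_ ?_ ?_) <;>
          simp only [ubox4_piU_hi_3, InChart] <;> norm_num <;> (try constructor) <;> linarith

/-- The split check. -/
theorem u4_omU_lo_all {o : PtR} (m : o.InM ubox4) :
    0 ≤ (upiece4.env (bandMid Band.midLowC Band.midUpC).lo (bandMid Band.midLowC Band.midUpC).hi (bandMid Band.midLowC Band.midUpC).pole .omU).val o.x := by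
  obtain ⟨hu, hX, ha, hI⟩ := m.bounds
  simp only [ubox4] at hu hX ha hI
  norm_num at hu hX ha hI
  rcases le_total (o.a) (77 / 500 : ℝ) with h0 | h0
  ·
    rcases le_total (o.X) (9 / 5 : ℝ) with h1 | h1
    ·
      refine QEx.nonneg_on_box u4_omU_lo_0 (PtR.InM.of_bounds ?_ ?_ ?_ ?_) <;>
        simp only [ubox4_omU_lo_0, InChart] <;> norm_num <;> (try constructor) <;> linarith
    ·
      refine QEx.nonneg_on_box u4_omU_lo_1 (PtR.InM.of_bounds ?_ ?_ ?_ ?_) <;>
        simp only [ubox4_omU_lo_1, InChart] <;> norm_num <;> (try constructor) <;> linarith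
  ·
    rcases le_total (o.X) (9 / 5 : ℝ) with h1 | h1
    ·
      refine QEx.nonneg_on_box u4_omU_lo_2 (PtR.InM.of_bounds ?_ ?_ ?_ ?_) <;>
        simp only [ubox4_omU_lo_2, InChart] <;> norm_num <;> (try constructor) <;> linarith
    ·
      refine QEx.nonneg_on_box u4_omU_lo_3 (PtR.InM.of_bounds ?_ ?_ ?_ ?_) <;>
        simp only [ubox4_omU_lo_3, InChart] <;> norm_num <;> (try constructor) <;> linarith

/-- The split check. -/
theorem u4_omU_hi_all {o : PtR} (m : o.InM ubox4) :
    0 ≤ (upiece4.env (bandMid Band.midLowC Band.midUpC).hi (bandMid Band.midLowC Band.midUpC).hi (bandMid Band.midLowC Band.midUpC).pole .omU).val o.x := by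
  obtain ⟨hu, hX, ha, hI⟩ := m.bounds
  simp only [ubox4] at hu hX ha hI
  norm_num at hu hX ha hI
  rcases le_total (o.X) (9 / 5 : ℝ) with h0 | h0
  ·
    refine QEx.nonneg_on_box u4_omU_hi_0 (PtR.InM.of_bounds ?_ ?_ ?_ ?_) <;>
      simp only [ubox4_omU_hi_0, InChart] <;> norm_num <;> (try constructor) <;> linarith
  ·
    refine QEx.nonneg_on_box u4_omU_hi_1 (PtR.InM.of_bounds ?_ ?_ ?_ ?_) <;>
      simp only [ubox4_omU_hi_1, InChart] <;> norm_num <;> (try constructor) <;> linarith

/-- The split check. -/
theorem u4_side_rF_all {o : PtR} (m : o.InM ubox4) :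
    0 ≤ (upiece4.side .rF).val o.x := by
  obtain ⟨hu, hX, ha, hI⟩ := m.bounds
  simp only [ubox4] at hu hX ha hI
  norm_num at hu hX ha hI
  rcases le_total (o.X) (9 / 5 : ℝ) with h0 | h0
  ·
    refine QEx.nonneg_on_box u4_side_rF_0 (PtR.InM.of_bounds ?_ ?_ ?_ ?_) <;>
      simp only [ubox4_side_rF_0, InChart] <;> norm_num <;> (try constructor) <;> linarith
  ·
    refine QEx.nonneg_on_box u4_side_rF_1 (PtR.InM.of_bounds ?_ ?_ ?_ ?_) <;>
      simp only [ubox4_side_rF_1, InChart] <;> norm_num <;> (try constructor) <;> linarith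

/-- The drift does not reach below the box of piece 4. -/
theorem u4_drift_holds {o : PtR} (m : o.InM ubox4x) :
    0 ≤ (xDrift (bandMid Band.midLowC Band.midUpC).hi (bandMid Band.midLowC Band.midUpC).pole).val o.x :=
  QEx.nonneg_on_box u4_drift m

/-- The exit curve on the box of piece 4. -/
theorem uexit4_holds {o : PtR} (h0 : 3 / 5 ≤ o.u) (h1 : o.u ≤ 7 / 10) (h2 : 27 / 250 ≤ o.a) (h3 : o.a ≤ 1 / 5)
    (h4 : 27 / 250 ≤ o.I) (h5 : o.I ≤ 1 / 7) :
    0 ≤ Band.midBracket Band.midExitC o.I o.a o.u * 23 - 1000 * 10 := by
  have h := QEx.nonneg_on_box uexit4_check (x := (⟨o.u, 23 / 10, o.a, o.I⟩ : PtR).x)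
    (PtR.InM.of_bounds (o := ⟨o.u, 23 / 10, o.a, o.I⟩) ?_ ?_ ?_ ?_)
  · obtain ⟨eu, -, va, vI, -, -, -, -, -, -, -, -⟩ := (⟨o.u, 23 / 10, o.a, o.I⟩ : PtR).vals
    simp only [xExitM, xFour, val_add, val_sub, val_mul, val_num, eu, va, vI] at h
    push_cast at h
    simp only [Band.midBracket, Band.midFour]
    linarith
  all_goals simp only [uexit4Box, InChart] <;> norm_num <;> (try constructor) <;> linarith

/-- The piece 4 holds on its box. -/
theorem upiece4_holds {o : PtR} (m : o.InM ubox4)
    (hx : o.X * Band.midBracket Band.midExitC o.I o.a o.u < 1000) :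
    upiece4.AllHoldQ false (bandMid Band.midLowC Band.midUpC) o where
  forms :=
    { forms := fun q h k =>
        match q, h, k with
        | .g, false, .lo => QEx.nonneg_on_box (List.all_eq_true.1 u4_group0 (upiece4.checkM false .g false .lo) (by simp)) m
        | .g, false, .hi => QEx.nonneg_on_box (List.all_eq_true.1 u4_group0 (upiece4.checkM false .g false .hi) (by simp)) m
        | .g, false, .mid => QEx.nonneg_on_box (List.all_eq_true.1 u4_group0 (upiece4.checkM false .g false .mid) (by simp)) m
        | .g, true, .lo => QEx.nonneg_on_box (List.all_eq_true.1 u4_group0 (upiece4.checkM false .g true .lo) (by simp)) m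
        | .g, true, .hi => QEx.nonneg_on_box (List.all_eq_true.1 u4_group0 (upiece4.checkM false .g true .hi) (by simp)) m
        | .g, true, .mid => QEx.nonneg_on_box (List.all_eq_true.1 u4_group0 (upiece4.checkM false .g true .mid) (by simp)) m
        | .n, false, .lo => QEx.nonneg_on_box (List.all_eq_true.1 u4_group1 (upiece4.checkM false .n false .lo) (by simp)) m
        | .n, false, .hi => QEx.nonneg_on_box (List.all_eq_true.1 u4_group1 (upiece4.checkM false .n false .hi) (by simp)) m
        | .n, false, .mid => QEx.nonneg_on_box (List.all_eq_true.1 u4_group1 (upiece4.checkM false .n false .mid) (by simp)) m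
        | .n, true, .lo => QEx.nonneg_on_box (List.all_eq_true.1 u4_group1 (upiece4.checkM false .n true .lo) (by simp)) m
        | .n, true, .hi => QEx.nonneg_on_box (List.all_eq_true.1 u4_group1 (upiece4.checkM false .n true .hi) (by simp)) m
        | .n, true, .mid => QEx.nonneg_on_box (List.all_eq_true.1 u4_group1 (upiece4.checkM false .n true .mid) (by simp)) m
        | .tlo, false, .lo => QEx.nonneg_on_box (List.all_eq_true.1 u4_group2 (upiece4.checkM false .tlo false .lo) (by simp)) m
        | .tlo, false, .hi => QEx.nonneg_on_box (List.all_eq_true.1 u4_group2 (upiece4.checkM false .tlo false .hi) (by simp)) m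
        | .tlo, false, .mid => QEx.nonneg_on_box (List.all_eq_true.1 u4_group2 (upiece4.checkM false .tlo false .mid) (by simp)) m
        | .tlo, true, .lo => QEx.nonneg_on_box (List.all_eq_true.1 u4_group2 (upiece4.checkM false .tlo true .lo) (by simp)) m
        | .tlo, true, .hi => QEx.nonneg_on_box (List.all_eq_true.1 u4_group2 (upiece4.checkM false .tlo true .hi) (by simp)) m
        | .tlo, true, .mid => QEx.nonneg_on_box (List.all_eq_true.1 u4_group2 (upiece4.checkM false .tlo true .mid) (by simp)) m
        | .thi, false, .lo => QEx.nonneg_on_box (List.all_eq_true.1 u4_group2 (upiece4.checkM false .thi false .lo) (by simp)) m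
        | .thi, false, .hi => QEx.nonneg_on_box (List.all_eq_true.1 u4_group2 (upiece4.checkM false .thi false .hi) (by simp)) m
        | .thi, false, .mid => QEx.nonneg_on_box (List.all_eq_true.1 u4_group2 (upiece4.checkM false .thi false .mid) (by simp)) m
        | .thi, true, .lo => QEx.nonneg_on_box (List.all_eq_true.1 u4_group2 (upiece4.checkM false .thi true .lo) (by simp)) m
        | .thi, true, .hi => QEx.nonneg_on_box (List.all_eq_true.1 u4_group2 (upiece4.checkM false .thi true .hi) (by simp)) m
        | .thi, true, .mid => QEx.nonneg_on_box (List.all_eq_true.1 u4_group2 (upiece4.checkM false .thi true .mid) (by simp)) m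
        | .mlo, false, .lo => QEx.nonneg_on_box (List.all_eq_true.1 u4_group3 (upiece4.checkM false .mlo false .lo) (by simp)) m
        | .mlo, false, .hi => QEx.nonneg_on_box (List.all_eq_true.1 u4_group3 (upiece4.checkM false .mlo false .hi) (by simp)) m
        | .mlo, false, .mid => QEx.nonneg_on_box (List.all_eq_true.1 u4_group3 (upiece4.checkM false .mlo false .mid) (by simp)) m
        | .mlo, true, .lo => QEx.nonneg_on_box (List.all_eq_true.1 u4_group3 (upiece4.checkM false .mlo false .lo) (by simp)) m
        | .mlo, true, .hi => QEx.nonneg_on_box (List.all_eq_true.1 u4_group3 (upiece4.checkM false .mlo false .hi) (by simp)) m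
        | .mlo, true, .mid => QEx.nonneg_on_box (List.all_eq_true.1 u4_group3 (upiece4.checkM false .mlo false .mid) (by simp)) m
        | .mhi, false, .lo => QEx.nonneg_on_box (List.all_eq_true.1 u4_group3 (upiece4.checkM false .mhi false .lo) (by simp)) m
        | .mhi, false, .hi => QEx.nonneg_on_box (List.all_eq_true.1 u4_group3 (upiece4.checkM false .mhi false .hi) (by simp)) m
        | .mhi, false, .mid => QEx.nonneg_on_box (List.all_eq_true.1 u4_group3 (upiece4.checkM false .mhi false .mid) (by simp)) m
        | .mhi, true, .lo => QEx.nonneg_on_box (List.all_eq_true.1 u4_group3 (upiece4.checkM false .mhi false .lo) (by simp)) m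
        | .mhi, true, .hi => QEx.nonneg_on_box (List.all_eq_true.1 u4_group3 (upiece4.checkM false .mhi false .hi) (by simp)) m
        | .mhi, true, .mid => QEx.nonneg_on_box (List.all_eq_true.1 u4_group3 (upiece4.checkM false .mhi false .mid) (by simp)) m
        | .f, false, .lo => QEx.nonneg_on_box (List.all_eq_true.1 u4_group4 (upiece4.checkM false .f false .lo) (by simp)) m
        | .f, false, .hi => QEx.nonneg_on_box (List.all_eq_true.1 u4_group5 (upiece4.checkM false .f false .hi) (by simp)) m
        | .f, false, .mid => QEx.nonneg_on_box (List.all_eq_true.1 u4_group6 (upiece4.checkM false .f false .mid) (by simp)) m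
        | .f, true, .lo => QEx.nonneg_on_box (List.all_eq_true.1 u4_group7 (upiece4.checkM false .f true .lo) (by simp)) m
        | .f, true, .hi => QEx.nonneg_on_box (List.all_eq_true.1 u4_group8 (upiece4.checkM false .f true .hi) (by simp)) m
        | .f, true, .mid => QEx.nonneg_on_box (List.all_eq_true.1 u4_group9 (upiece4.checkM false .f true .mid) (by simp)) m
      side := fun e =>
        match e with
        | .rA => QEx.nonneg_on_box (List.all_eq_true.1 u4_group18 (upiece4.side .rA) (by simp)) m
        | .rB => QEx.nonneg_on_box (List.all_eq_true.1 u4_group18 (upiece4.side .rB) (by simp)) m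
        | .rF => u4_side_rF_all m
        | .q => QEx.nonneg_on_box (List.all_eq_true.1 u4_group20 (upiece4.side .q) (by simp)) m
        | .om => QEx.nonneg_on_box (List.all_eq_true.1 u4_group21 (upiece4.side .om) (by simp)) m
      nums := by decide }
  env :=
    { lo := fun e =>
        match e with
        | .piL => QEx.nonneg_on_box (List.all_eq_true.1 u4_group10 (upiece4.env (bandMid Band.midLowC Band.midUpC).lo (bandMid Band.midLowC Band.midUpC).hi (bandMid Band.midLowC Band.midUpC).pole .piL) (by simp)) m
        | .piU => QEx.nonneg_on_box (List.all_eq_true.1 u4_group10 (upiece4.env (bandMid Band.midLowC Band.midUpC).lo (bandMid Band.midLowC Band.midUpC).hi (bandMid Band.midLowC Band.midUpC).pole .piU) (by simp)) m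
        | .omL => QEx.nonneg_on_box (List.all_eq_true.1 u4_group12 (upiece4.env (bandMid Band.midLowC Band.midUpC).lo (bandMid Band.midLowC Band.midUpC).hi (bandMid Band.midLowC Band.midUpC).pole .omL) (by simp)) m
        | .omU => u4_omU_lo_all m
        | .tauL => QEx.nonneg_on_box (List.all_eq_true.1 u4_group15 (upiece4.env (bandMid Band.midLowC Band.midUpC).lo (bandMid Band.midLowC Band.midUpC).hi (bandMid Band.midLowC Band.midUpC).pole .tauL) (by simp)) m
        | .tauU => QEx.nonneg_on_box (List.all_eq_true.1 u4_group15 (upiece4.env (bandMid Band.midLowC Band.midUpC).lo (bandMid Band.midLowC Band.midUpC).hi (bandMid Band.midLowC Band.midUpC).pole .tauU) (by simp)) m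
      hi := fun e =>
        match e with
        | .piL => QEx.nonneg_on_box (List.all_eq_true.1 u4_group10 (upiece4.env (bandMid Band.midLowC Band.midUpC).hi (bandMid Band.midLowC Band.midUpC).hi (bandMid Band.midLowC Band.midUpC).pole .piL) (by simp)) m
        | .piU => u4_piU_hi_all m
        | .omL => QEx.nonneg_on_box (List.all_eq_true.1 u4_group12 (upiece4.env (bandMid Band.midLowC Band.midUpC).hi (bandMid Band.midLowC Band.midUpC).hi (bandMid Band.midLowC Band.midUpC).pole .omL) (by simp)) m
        | .omU => u4_omU_hi_all m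
        | .tauL => QEx.nonneg_on_box (List.all_eq_true.1 u4_group15 (upiece4.env (bandMid Band.midLowC Band.midUpC).hi (bandMid Band.midLowC Band.midUpC).hi (bandMid Band.midLowC Band.midUpC).pole .tauL) (by simp)) m
        | .tauU => QEx.nonneg_on_box (List.all_eq_true.1 u4_group15 (upiece4.env (bandMid Band.midLowC Band.midUpC).hi (bandMid Band.midLowC Band.midUpC).hi (bandMid Band.midLowC Band.midUpC).pole .tauU) (by simp)) m
      wid := QEx.nonneg_on_box (List.all_eq_true.1 u4_group17 (upiece4.wid - qD 1) (by simp)) m }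
  rayLo := xLLGX_le hx (QEx.nonneg_on_box (List.all_eq_true.1 u4_group16 (xLLGX false (bandMid Band.midLowC Band.midUpC) Band.midExitC 45 (bandMid Band.midLowC Band.midUpC).lo) (by simp)) m) (by norm_num)
  rayHi := xLLGX_le hx (QEx.nonneg_on_box (List.all_eq_true.1 u4_group16 (xLLGX false (bandMid Band.midLowC Band.midUpC) Band.midExitC 45 (bandMid Band.midLowC Band.midUpC).hi) (by simp)) m) (by norm_num)

/-- The split check. -/
theorem u5_piL_lo_all {o : PtR} (m : o.InM ubox5) :
    0 ≤ (upiece5.env (bandMid Band.midLowC Band.midUpC).lo (bandMid Band.midLowC Band.midUpC).hi (bandMid Band.midLowC Band.midUpC).pole .piL).val o.x := by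
  obtain ⟨hu, hX, ha, hI⟩ := m.bounds
  simp only [ubox5] at hu hX ha hI
  norm_num at hu hX ha hI
  rcases le_total (o.a) (51 / 200 : ℝ) with h0 | h0
  ·
    refine QEx.nonneg_on_box u5_piL_lo_0 (PtR.InM.of_bounds ?_ ?_ ?_ ?_) <;>
      simp only [ubox5_piL_lo_0, InChart] <;> norm_num <;> (try constructor) <;> linarith
  ·
    refine QEx.nonneg_on_box u5_piL_lo_1 (PtR.InM.of_bounds ?_ ?_ ?_ ?_) <;>
      simp only [ubox5_piL_lo_1, InChart] <;> norm_num <;> (try constructor) <;> linarith

/-- The split check. -/
theorem u5_piU_hi_all {o : PtR} (m : o.InM ubox5) :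
    0 ≤ (upiece5.env (bandMid Band.midLowC Band.midUpC).hi (bandMid Band.midLowC Band.midUpC).hi (bandMid Band.midLowC Band.midUpC).pole .piU).val o.x := by
  obtain ⟨hu, hX, ha, hI⟩ := m.bounds
  simp only [ubox5] at hu hX ha hI
  norm_num at hu hX ha hI
  rcases le_total (o.a) (51 / 200 : ℝ) with h0 | h0
  ·
    rcases le_total (o.X) (43 / 20 : ℝ) with h1 | h1
    ·
      refine QEx.nonneg_on_box u5_piU_hi_0 (PtR.InM.of_bounds ?_ ?_ ?_ ?_) <;>
        simp only [ubox5_piU_hi_0, InChart] <;> norm_num <;> (try constructor) <;> linarith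
    ·
      refine QEx.nonneg_on_box u5_piU_hi_1 (PtR.InM.of_bounds ?_ ?_ ?_ ?_) <;>
        simp only [ubox5_piU_hi_1, InChart] <;> norm_num <;> (try constructor) <;> linarith
  ·
    refine QEx.nonneg_on_box u5_piU_hi_2 (PtR.InM.of_bounds ?_ ?_ ?_ ?_) <;>
      simp only [ubox5_piU_hi_2, InChart] <;> norm_num <;> (try constructor) <;> linarith

/-- The split check. -/
theorem u5_omU_lo_all {o : PtR} (m : o.InM ubox5) :
    0 ≤ (upiece5.env (bandMid Band.midLowC Band.midUpC).lo (bandMid Band.midLowC Band.midUpC).hi (bandMid Band.midLowC Band.midUpC).pole .omU).val o.x := by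
  obtain ⟨hu, hX, ha, hI⟩ := m.bounds
  simp only [ubox5] at hu hX ha hI
  norm_num at hu hX ha hI
  rcases le_total (o.a) (51 / 200 : ℝ) with h0 | h0
  ·
    rcases le_total (o.X) (43 / 20 : ℝ) with h1 | h1
    ·
      refine QEx.nonneg_on_box u5_omU_lo_0 (PtR.InM.of_bounds ?_ ?_ ?_ ?_) <;>
        simp only [ubox5_omU_lo_0, InChart] <;> norm_num <;> (try constructor) <;> linarith
    ·
      refine QEx.nonneg_on_box u5_omU_lo_1 (PtR.InM.of_bounds ?_ ?_ ?_ ?_) <;>
        simp only [ubox5_omU_lo_1, InChart] <;> norm_num <;> (try constructor) <;> linarith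
  ·
    rcases le_total (o.X) (43 / 20 : ℝ) with h1 | h1
    ·
      refine QEx.nonneg_on_box u5_omU_lo_2 (PtR.InM.of_bounds ?_ ?_ ?_ ?_) <;>
        simp only [ubox5_omU_lo_2, InChart] <;> norm_num <;> (try constructor) <;> linarith
    ·
      refine QEx.nonneg_on_box u5_omU_lo_3 (PtR.InM.of_bounds ?_ ?_ ?_ ?_) <;>
        simp only [ubox5_omU_lo_3, InChart] <;> norm_num <;> (try constructor) <;> linarith

/-- The split check. -/
theorem u5_omU_hi_all {o : PtR} (m : o.InM ubox5) :
    0 ≤ (upiece5.env (bandMid Band.midLowC Band.midUpC).hi (bandMid Band.midLowC Band.midUpC).hi (bandMid Band.midLowC Band.midUpC).pole .omU).val o.x := by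
  obtain ⟨hu, hX, ha, hI⟩ := m.bounds
  simp only [ubox5] at hu hX ha hI
  norm_num at hu hX ha hI
  rcases le_total (o.X) (43 / 20 : ℝ) with h0 | h0
  ·
    rcases le_total (o.a) (51 / 200 : ℝ) with h1 | h1
    ·
      refine QEx.nonneg_on_box u5_omU_hi_0 (PtR.InM.of_bounds ?_ ?_ ?_ ?_) <;>
        simp only [ubox5_omU_hi_0, InChart] <;> norm_num <;> (try constructor) <;> linarith
    ·
      refine QEx.nonneg_on_box u5_omU_hi_1 (PtR.InM.of_bounds ?_ ?_ ?_ ?_) <;>
        simp only [ubox5_omU_hi_1, InChart] <;> norm_num <;> (try constructor) <;> linarith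
  ·
    rcases le_total (o.a) (51 / 200 : ℝ) with h1 | h1
    ·
      refine QEx.nonneg_on_box u5_omU_hi_2 (PtR.InM.of_bounds ?_ ?_ ?_ ?_) <;>
        simp only [ubox5_omU_hi_2, InChart] <;> norm_num <;> (try constructor) <;> linarith
    ·
      refine QEx.nonneg_on_box u5_omU_hi_3 (PtR.InM.of_bounds ?_ ?_ ?_ ?_) <;>
        simp only [ubox5_omU_hi_3, InChart] <;> norm_num <;> (try constructor) <;> linarith

/-- The split check. -/
theorem u5_tauL_lo_all {o : PtR} (m : o.InM ubox5) :
    0 ≤ (upiece5.env (bandMid Band.midLowC Band.midUpC).lo (bandMid Band.midLowC Band.midUpC).hi (bandMid Band.midLowC Band.midUpC).pole .tauL).val o.x := by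
  obtain ⟨hu, hX, ha, hI⟩ := m.bounds
  simp only [ubox5] at hu hX ha hI
  norm_num at hu hX ha hI
  rcases le_total (o.a) (51 / 200 : ℝ) with h0 | h0
  ·
    rcases le_total (o.a) (91 / 400 : ℝ) with h1 | h1
    ·
      refine QEx.nonneg_on_box u5_tauL_lo_0 (PtR.InM.of_bounds ?_ ?_ ?_ ?_) <;>
        simp only [ubox5_tauL_lo_0, InChart] <;> norm_num <;> (try constructor) <;> linarith
    ·
      refine QEx.nonneg_on_box u5_tauL_lo_1 (PtR.InM.of_bounds ?_ ?_ ?_ ?_) <;>
        simp only [ubox5_tauL_lo_1, InChart] <;> norm_num <;> (try constructor) <;> linarith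
  ·
    refine QEx.nonneg_on_box u5_tauL_lo_2 (PtR.InM.of_bounds ?_ ?_ ?_ ?_) <;>
      simp only [ubox5_tauL_lo_2, InChart] <;> norm_num <;> (try constructor) <;> linarith

/-- The split check. -/
theorem u5_tauL_hi_all {o : PtR} (m : o.InM ubox5) :
    0 ≤ (upiece5.env (bandMid Band.midLowC Band.midUpC).hi (bandMid Band.midLowC Band.midUpC).hi (bandMid Band.midLowC Band.midUpC).pole .tauL).val o.x := by
  obtain ⟨hu, hX, ha, hI⟩ := m.bounds
  simp only [ubox5] at hu hX ha hI
  norm_num at hu hX ha hI
  rcases le_total (o.a) (51 / 200 : ℝ) with h0 | h0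
  ·
    refine QEx.nonneg_on_box u5_tauL_hi_0 (PtR.InM.of_bounds ?_ ?_ ?_ ?_) <;>
      simp only [ubox5_tauL_hi_0, InChart] <;> norm_num <;> (try constructor) <;> linarith
  ·
    refine QEx.nonneg_on_box u5_tauL_hi_1 (PtR.InM.of_bounds ?_ ?_ ?_ ?_) <;>
      simp only [ubox5_tauL_hi_1, InChart] <;> norm_num <;> (try constructor) <;> linarith

/-- The drift does not reach below the box of piece 5. -/
theorem u5_drift_holds {o : PtR} (m : o.InM ubox5x) :
    0 ≤ (xDrift (bandMid Band.midLowC Band.midUpC).hi (bandMid Band.midLowC Band.midUpC).pole).val o.x :=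
  QEx.nonneg_on_box u5_drift m

/-- The exit curve on the box of piece 5. -/
theorem uexit5_holds {o : PtR} (h0 : 3 / 5 ≤ o.u) (h1 : o.u ≤ 7 / 10) (h2 : 1 / 5 ≤ o.a) (h3 : o.a ≤ 31 / 100)
    (h4 : 27 / 250 ≤ o.I) (h5 : o.I ≤ 1 / 7) :
    0 ≤ Band.midBracket Band.midExitC o.I o.a o.u * 29 - 1000 * 10 := by
  have h := QEx.nonneg_on_box uexit5_check (x := (⟨o.u, 29 / 10, o.a, o.I⟩ : PtR).x)
    (PtR.InM.of_bounds (o := ⟨o.u, 29 / 10, o.a, o.I⟩) ?_ ?_ ?_ ?_)
  · obtain ⟨eu, -, va, vI, -, -, -, -, -, -, -, -⟩ := (⟨o.u, 29 / 10, o.a, o.I⟩ : PtR).vals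
    simp only [xExitM, xFour, val_add, val_sub, val_mul, val_num, eu, va, vI] at h
    push_cast at h
    simp only [Band.midBracket, Band.midFour]
    linarith
  all_goals simp only [uexit5Box, InChart] <;> norm_num <;> (try constructor) <;> linarith

/-- The piece 5 holds on its box. -/
theorem upiece5_holds {o : PtR} (m : o.InM ubox5)
    (hx : o.X * Band.midBracket Band.midExitC o.I o.a o.u < 1000) :
    upiece5.AllHoldQ false (bandMid Band.midLowC Band.midUpC) o where
  forms :=
    { forms := fun q h k =>
        match q, h, k with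
        | .g, false, .lo => QEx.nonneg_on_box (List.all_eq_true.1 u5_group0 (upiece5.checkM false .g false .lo) (by simp)) m
        | .g, false, .hi => QEx.nonneg_on_box (List.all_eq_true.1 u5_group0 (upiece5.checkM false .g false .hi) (by simp)) m
        | .g, false, .mid => QEx.nonneg_on_box (List.all_eq_true.1 u5_group0 (upiece5.checkM false .g false .mid) (by simp)) m
        | .g, true, .lo => QEx.nonneg_on_box (List.all_eq_true.1 u5_group0 (upiece5.checkM false .g true .lo) (by simp)) m
        | .g, true, .hi => QEx.nonneg_on_box (List.all_eq_true.1 u5_group0 (upiece5.checkM false .g true .hi) (by simp)) m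
        | .g, true, .mid => QEx.nonneg_on_box (List.all_eq_true.1 u5_group0 (upiece5.checkM false .g true .mid) (by simp)) m
        | .n, false, .lo => QEx.nonneg_on_box (List.all_eq_true.1 u5_group1 (upiece5.checkM false .n false .lo) (by simp)) m
        | .n, false, .hi => QEx.nonneg_on_box (List.all_eq_true.1 u5_group1 (upiece5.checkM false .n false .hi) (by simp)) m
        | .n, false, .mid => QEx.nonneg_on_box (List.all_eq_true.1 u5_group1 (upiece5.checkM false .n false .mid) (by simp)) m
        | .n, true, .lo => QEx.nonneg_on_box (List.all_eq_true.1 u5_group1 (upiece5.checkM false .n true .lo) (by simp)) m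
        | .n, true, .hi => QEx.nonneg_on_box (List.all_eq_true.1 u5_group1 (upiece5.checkM false .n true .hi) (by simp)) m
        | .n, true, .mid => QEx.nonneg_on_box (List.all_eq_true.1 u5_group1 (upiece5.checkM false .n true .mid) (by simp)) m
        | .tlo, false, .lo => QEx.nonneg_on_box (List.all_eq_true.1 u5_group2 (upiece5.checkM false .tlo false .lo) (by simp)) m
        | .tlo, false, .hi => QEx.nonneg_on_box (List.all_eq_true.1 u5_group2 (upiece5.checkM false .tlo false .hi) (by simp)) m
        | .tlo, false, .mid => QEx.nonneg_on_box (List.all_eq_true.1 u5_group2 (upiece5.checkM false .tlo false .mid) (by simp)) m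
        | .tlo, true, .lo => QEx.nonneg_on_box (List.all_eq_true.1 u5_group2 (upiece5.checkM false .tlo true .lo) (by simp)) m
        | .tlo, true, .hi => QEx.nonneg_on_box (List.all_eq_true.1 u5_group2 (upiece5.checkM false .tlo true .hi) (by simp)) m
        | .tlo, true, .mid => QEx.nonneg_on_box (List.all_eq_true.1 u5_group2 (upiece5.checkM false .tlo true .mid) (by simp)) m
        | .thi, false, .lo => QEx.nonneg_on_box (List.all_eq_true.1 u5_group2 (upiece5.checkM false .thi false .lo) (by simp)) m
        | .thi, false, .hi => QEx.nonneg_on_box (List.all_eq_true.1 u5_group2 (upiece5.checkM false .thi false .hi) (by simp)) m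
        | .thi, false, .mid => QEx.nonneg_on_box (List.all_eq_true.1 u5_group2 (upiece5.checkM false .thi false .mid) (by simp)) m
        | .thi, true, .lo => QEx.nonneg_on_box (List.all_eq_true.1 u5_group2 (upiece5.checkM false .thi true .lo) (by simp)) m
        | .thi, true, .hi => QEx.nonneg_on_box (List.all_eq_true.1 u5_group2 (upiece5.checkM false .thi true .hi) (by simp)) m
        | .thi, true, .mid => QEx.nonneg_on_box (List.all_eq_true.1 u5_group2 (upiece5.checkM false .thi true .mid) (by simp)) m
        | .mlo, false, .lo => QEx.nonneg_on_box (List.all_eq_true.1 u5_group3 (upiece5.checkM false .mlo false .lo) (by simp)) m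
        | .mlo, false, .hi => QEx.nonneg_on_box (List.all_eq_true.1 u5_group3 (upiece5.checkM false .mlo false .hi) (by simp)) m
        | .mlo, false, .mid => QEx.nonneg_on_box (List.all_eq_true.1 u5_group3 (upiece5.checkM false .mlo false .mid) (by simp)) m
        | .mlo, true, .lo => QEx.nonneg_on_box (List.all_eq_true.1 u5_group3 (upiece5.checkM false .mlo false .lo) (by simp)) m
        | .mlo, true, .hi => QEx.nonneg_on_box (List.all_eq_true.1 u5_group3 (upiece5.checkM false .mlo false .hi) (by simp)) m
        | .mlo, true, .mid => QEx.nonneg_on_box (List.all_eq_true.1 u5_group3 (upiece5.checkM false .mlo false .mid) (by simp)) m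
        | .mhi, false, .lo => QEx.nonneg_on_box (List.all_eq_true.1 u5_group3 (upiece5.checkM false .mhi false .lo) (by simp)) m
        | .mhi, false, .hi => QEx.nonneg_on_box (List.all_eq_true.1 u5_group3 (upiece5.checkM false .mhi false .hi) (by simp)) m
        | .mhi, false, .mid => QEx.nonneg_on_box (List.all_eq_true.1 u5_group3 (upiece5.checkM false .mhi false .mid) (by simp)) m
        | .mhi, true, .lo => QEx.nonneg_on_box (List.all_eq_true.1 u5_group3 (upiece5.checkM false .mhi false .lo) (by simp)) m
        | .mhi, true, .hi => QEx.nonneg_on_box (List.all_eq_true.1 u5_group3 (upiece5.checkM false .mhi false .hi) (by simp)) m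
        | .mhi, true, .mid => QEx.nonneg_on_box (List.all_eq_true.1 u5_group3 (upiece5.checkM false .mhi false .mid) (by simp)) m
        | .f, false, .lo => QEx.nonneg_on_box (List.all_eq_true.1 u5_group4 (upiece5.checkM false .f false .lo) (by simp)) m
        | .f, false, .hi => QEx.nonneg_on_box (List.all_eq_true.1 u5_group5 (upiece5.checkM false .f false .hi) (by simp)) m
        | .f, false, .mid => QEx.nonneg_on_box (List.all_eq_true.1 u5_group6 (upiece5.checkM false .f false .mid) (by simp)) m
        | .f, true, .lo => QEx.nonneg_on_box (List.all_eq_true.1 u5_group7 (upiece5.checkM false .f true .lo) (by simp)) m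
        | .f, true, .hi => QEx.nonneg_on_box (List.all_eq_true.1 u5_group8 (upiece5.checkM false .f true .hi) (by simp)) m
        | .f, true, .mid => QEx.nonneg_on_box (List.all_eq_true.1 u5_group9 (upiece5.checkM false .f true .mid) (by simp)) m
      side := fun e =>
        match e with
        | .rA => QEx.nonneg_on_box (List.all_eq_true.1 u5_group21 (upiece5.side .rA) (by simp)) m
        | .rB => QEx.nonneg_on_box (List.all_eq_true.1 u5_group21 (upiece5.side .rB) (by simp)) m
        | .rF => QEx.nonneg_on_box (List.all_eq_true.1 u5_group22 (upiece5.side .rF) (by simp)) m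
        | .q => QEx.nonneg_on_box (List.all_eq_true.1 u5_group23 (upiece5.side .q) (by simp)) m
        | .om => QEx.nonneg_on_box (List.all_eq_true.1 u5_group24 (upiece5.side .om) (by simp)) m
      nums := by decide }
  env :=
    { lo := fun e =>
        match e with
        | .piL => u5_piL_lo_all m
        | .piU => QEx.nonneg_on_box (List.all_eq_true.1 u5_group11 (upiece5.env (bandMid Band.midLowC Band.midUpC).lo (bandMid Band.midLowC Band.midUpC).hi (bandMid Band.midLowC Band.midUpC).pole .piU) (by simp)) m
        | .omL => QEx.nonneg_on_box (List.all_eq_true.1 u5_group13 (upiece5.env (bandMid Band.midLowC Band.midUpC).lo (bandMid Band.midLowC Band.midUpC).hi (bandMid Band.midLowC Band.midUpC).pole .omL) (by simp)) m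
        | .omU => u5_omU_lo_all m
        | .tauL => u5_tauL_lo_all m
        | .tauU => QEx.nonneg_on_box (List.all_eq_true.1 u5_group18 (upiece5.env (bandMid Band.midLowC Band.midUpC).lo (bandMid Band.midLowC Band.midUpC).hi (bandMid Band.midLowC Band.midUpC).pole .tauU) (by simp)) m
      hi := fun e =>
        match e with
        | .piL => QEx.nonneg_on_box (List.all_eq_true.1 u5_group11 (upiece5.env (bandMid Band.midLowC Band.midUpC).hi (bandMid Band.midLowC Band.midUpC).hi (bandMid Band.midLowC Band.midUpC).pole .piL) (by simp)) m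
        | .piU => u5_piU_hi_all m
        | .omL => QEx.nonneg_on_box (List.all_eq_true.1 u5_group13 (upiece5.env (bandMid Band.midLowC Band.midUpC).hi (bandMid Band.midLowC Band.midUpC).hi (bandMid Band.midLowC Band.midUpC).pole .omL) (by simp)) m
        | .omU => u5_omU_hi_all m
        | .tauL => u5_tauL_hi_all m
        | .tauU => QEx.nonneg_on_box (List.all_eq_true.1 u5_group18 (upiece5.env (bandMid Band.midLowC Band.midUpC).hi (bandMid Band.midLowC Band.midUpC).hi (bandMid Band.midLowC Band.midUpC).pole .tauU) (by simp)) m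
      wid := QEx.nonneg_on_box (List.all_eq_true.1 u5_group20 (upiece5.wid - qD 1) (by simp)) m }
  rayLo := xLLGX_le hx (QEx.nonneg_on_box (List.all_eq_true.1 u5_group19 (xLLGX false (bandMid Band.midLowC Band.midUpC) Band.midExitC 14 (bandMid Band.midLowC Band.midUpC).lo) (by simp)) m) (by norm_num)
  rayHi := xLLGX_le hx (QEx.nonneg_on_box (List.all_eq_true.1 u5_group19 (xLLGX false (bandMid Band.midLowC Band.midUpC) Band.midExitC 14 (bandMid Band.midLowC Band.midUpC).hi) (by simp)) m) (by norm_num)

/-- The split check. -/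
theorem u6_piU_hi_all {o : PtR} (m : o.InM ubox6) :
    0 ≤ (upiece6.env (bandMid Band.midLowC Band.midUpC).hi (bandMid Band.midLowC Band.midUpC).hi (bandMid Band.midLowC Band.midUpC).pole .piU).val o.x := by
  obtain ⟨hu, hX, ha, hI⟩ := m.bounds
  simp only [ubox6] at hu hX ha hI
  norm_num at hu hX ha hI
  rcases le_total (o.u) (13 / 20 : ℝ) with h0 | h0
  ·
    refine QEx.nonneg_on_box u6_piU_hi_0 (PtR.InM.of_bounds ?_ ?_ ?_ ?_) <;>
      simp only [ubox6_piU_hi_0, InChart] <;> norm_num <;> (try constructor) <;> linarith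
  ·
    refine QEx.nonneg_on_box u6_piU_hi_1 (PtR.InM.of_bounds ?_ ?_ ?_ ?_) <;>
      simp only [ubox6_piU_hi_1, InChart] <;> norm_num <;> (try constructor) <;> linarith

/-- The split check. -/
theorem u6_omU_lo_all {o : PtR} (m : o.InM ubox6) :
    0 ≤ (upiece6.env (bandMid Band.midLowC Band.midUpC).lo (bandMid Band.midLowC Band.midUpC).hi (bandMid Band.midLowC Band.midUpC).pole .omU).val o.x := by
  obtain ⟨hu, hX, ha, hI⟩ := m.bounds
  simp only [ubox6] at hu hX ha hI
  norm_num at hu hX ha hI
  rcases le_total (o.X) (221 / 100 : ℝ) with h0 | h0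
  ·
    refine QEx.nonneg_on_box u6_omU_lo_0 (PtR.InM.of_bounds ?_ ?_ ?_ ?_) <;>
      simp only [ubox6_omU_lo_0, InChart] <;> norm_num <;> (try constructor) <;> linarith
  ·
    refine QEx.nonneg_on_box u6_omU_lo_1 (PtR.InM.of_bounds ?_ ?_ ?_ ?_) <;>
      simp only [ubox6_omU_lo_1, InChart] <;> norm_num <;> (try constructor) <;> linarith

/-- The split check. -/
theorem u6_omU_hi_all {o : PtR} (m : o.InM ubox6) :
    0 ≤ (upiece6.env (bandMid Band.midLowC Band.midUpC).hi (bandMid Band.midLowC Band.midUpC).hi (bandMid Band.midLowC Band.midUpC).pole .omU).val o.x := by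
  obtain ⟨hu, hX, ha, hI⟩ := m.bounds
  simp only [ubox6] at hu hX ha hI
  norm_num at hu hX ha hI
  rcases le_total (o.X) (221 / 100 : ℝ) with h0 | h0
  ·
    refine QEx.nonneg_on_box u6_omU_hi_0 (PtR.InM.of_bounds ?_ ?_ ?_ ?_) <;>
      simp only [ubox6_omU_hi_0, InChart] <;> norm_num <;> (try constructor) <;> linarith
  ·
    refine QEx.nonneg_on_box u6_omU_hi_1 (PtR.InM.of_bounds ?_ ?_ ?_ ?_) <;>
      simp only [ubox6_omU_hi_1, InChart] <;> norm_num <;> (try constructor) <;> linarith

/-- The drift does not reach below the box of piece 6. -/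
theorem u6_drift_holds {o : PtR} (m : o.InM ubox6x) :
    0 ≤ (xDrift (bandMid Band.midLowC Band.midUpC).hi (bandMid Band.midLowC Band.midUpC).pole).val o.x :=
  QEx.nonneg_on_box u6_drift m

/-- The exit curve on the box of piece 6. -/
theorem uexit6_holds {o : PtR} (h0 : 3 / 5 ≤ o.u) (h1 : o.u ≤ 7 / 10) (h2 : 119 / 400 ≤ o.a) (h3 : o.a ≤ 31 / 100)
    (h4 : 1 / 8 ≤ o.I) (h5 : o.I ≤ 1 / 7) :
    0 ≤ Band.midBracket Band.midExitC o.I o.a o.u * 29 - 1000 * 10 := by
  have h := QEx.nonneg_on_box uexit6_check (x := (⟨o.u, 29 / 10, o.a, o.I⟩ : PtR).x)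
    (PtR.InM.of_bounds (o := ⟨o.u, 29 / 10, o.a, o.I⟩) ?_ ?_ ?_ ?_)
  · obtain ⟨eu, -, va, vI, -, -, -, -, -, -, -, -⟩ := (⟨o.u, 29 / 10, o.a, o.I⟩ : PtR).vals
    simp only [xExitM, xFour, val_add, val_sub, val_mul, val_num, eu, va, vI] at h
    push_cast at h
    simp only [Band.midBracket, Band.midFour]
    linarith
  all_goals simp only [uexit6Box, InChart] <;> norm_num <;> (try constructor) <;> linarith

/-- The piece 6 holds on its box. -/
theorem upiece6_holds {o : PtR} (m : o.InM ubox6) :
    upiece6.AllHoldQ true (bandMid Band.midLowC Band.midUpC) o where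
  forms :=
    { forms := fun q h k =>
        match q, h, k with
        | .g, false, .lo => QEx.nonneg_on_box (List.all_eq_true.1 u6_group0 (upiece6.checkM true .g false .lo) (by simp)) m
        | .g, false, .hi => QEx.nonneg_on_box (List.all_eq_true.1 u6_group0 (upiece6.checkM true .g false .hi) (by simp)) m
        | .g, false, .mid => QEx.nonneg_on_box (List.all_eq_true.1 u6_group0 (upiece6.checkM true .g false .mid) (by simp)) m
        | .g, true, .lo => QEx.nonneg_on_box (List.all_eq_true.1 u6_group0 (upiece6.checkM true .g true .lo) (by simp)) m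
        | .g, true, .hi => QEx.nonneg_on_box (List.all_eq_true.1 u6_group0 (upiece6.checkM true .g true .hi) (by simp)) m
        | .g, true, .mid => QEx.nonneg_on_box (List.all_eq_true.1 u6_group0 (upiece6.checkM true .g true .mid) (by simp)) m
        | .n, false, .lo => QEx.nonneg_on_box (List.all_eq_true.1 u6_group1 (upiece6.checkM true .n false .lo) (by simp)) m
        | .n, false, .hi => QEx.nonneg_on_box (List.all_eq_true.1 u6_group1 (upiece6.checkM true .n false .hi) (by simp)) m
        | .n, false, .mid => QEx.nonneg_on_box (List.all_eq_true.1 u6_group1 (upiece6.checkM true .n false .mid) (by simp)) m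
        | .n, true, .lo => QEx.nonneg_on_box (List.all_eq_true.1 u6_group1 (upiece6.checkM true .n true .lo) (by simp)) m
        | .n, true, .hi => QEx.nonneg_on_box (List.all_eq_true.1 u6_group1 (upiece6.checkM true .n true .hi) (by simp)) m
        | .n, true, .mid => QEx.nonneg_on_box (List.all_eq_true.1 u6_group1 (upiece6.checkM true .n true .mid) (by simp)) m
        | .tlo, false, .lo => QEx.nonneg_on_box (List.all_eq_true.1 u6_group2 (upiece6.checkM true .tlo false .lo) (by simp)) m
        | .tlo, false, .hi => QEx.nonneg_on_box (List.all_eq_true.1 u6_group2 (upiece6.checkM true .tlo false .hi) (by simp)) m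
        | .tlo, false, .mid => QEx.nonneg_on_box (List.all_eq_true.1 u6_group2 (upiece6.checkM true .tlo false .mid) (by simp)) m
        | .tlo, true, .lo => QEx.nonneg_on_box (List.all_eq_true.1 u6_group2 (upiece6.checkM true .tlo true .lo) (by simp)) m
        | .tlo, true, .hi => QEx.nonneg_on_box (List.all_eq_true.1 u6_group2 (upiece6.checkM true .tlo true .hi) (by simp)) m
        | .tlo, true, .mid => QEx.nonneg_on_box (List.all_eq_true.1 u6_group2 (upiece6.checkM true .tlo true .mid) (by simp)) m
        | .thi, false, .lo => QEx.nonneg_on_box (List.all_eq_true.1 u6_group2 (upiece6.checkM true .thi false .lo) (by simp)) m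
        | .thi, false, .hi => QEx.nonneg_on_box (List.all_eq_true.1 u6_group2 (upiece6.checkM true .thi false .hi) (by simp)) m
        | .thi, false, .mid => QEx.nonneg_on_box (List.all_eq_true.1 u6_group2 (upiece6.checkM true .thi false .mid) (by simp)) m
        | .thi, true, .lo => QEx.nonneg_on_box (List.all_eq_true.1 u6_group2 (upiece6.checkM true .thi true .lo) (by simp)) m
        | .thi, true, .hi => QEx.nonneg_on_box (List.all_eq_true.1 u6_group2 (upiece6.checkM true .thi true .hi) (by simp)) m
        | .thi, true, .mid => QEx.nonneg_on_box (List.all_eq_true.1 u6_group2 (upiece6.checkM true .thi true .mid) (by simp)) m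
        | .mlo, false, .lo => QEx.nonneg_on_box (List.all_eq_true.1 u6_group3 (upiece6.checkM true .mlo false .lo) (by simp)) m
        | .mlo, false, .hi => QEx.nonneg_on_box (List.all_eq_true.1 u6_group3 (upiece6.checkM true .mlo false .hi) (by simp)) m
        | .mlo, false, .mid => QEx.nonneg_on_box (List.all_eq_true.1 u6_group3 (upiece6.checkM true .mlo false .mid) (by simp)) m
        | .mlo, true, .lo => QEx.nonneg_on_box (List.all_eq_true.1 u6_group3 (upiece6.checkM true .mlo false .lo) (by simp)) m
        | .mlo, true, .hi => QEx.nonneg_on_box (List.all_eq_true.1 u6_group3 (upiece6.checkM true .mlo false .hi) (by simp)) m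
        | .mlo, true, .mid => QEx.nonneg_on_box (List.all_eq_true.1 u6_group3 (upiece6.checkM true .mlo false .mid) (by simp)) m
        | .mhi, false, .lo => QEx.nonneg_on_box (List.all_eq_true.1 u6_group3 (upiece6.checkM true .mhi false .lo) (by simp)) m
        | .mhi, false, .hi => QEx.nonneg_on_box (List.all_eq_true.1 u6_group3 (upiece6.checkM true .mhi false .hi) (by simp)) m
        | .mhi, false, .mid => QEx.nonneg_on_box (List.all_eq_true.1 u6_group3 (upiece6.checkM true .mhi false .mid) (by simp)) m
        | .mhi, true, .lo => QEx.nonneg_on_box (List.all_eq_true.1 u6_group3 (upiece6.checkM true .mhi false .lo) (by simp)) m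
        | .mhi, true, .hi => QEx.nonneg_on_box (List.all_eq_true.1 u6_group3 (upiece6.checkM true .mhi false .hi) (by simp)) m
        | .mhi, true, .mid => QEx.nonneg_on_box (List.all_eq_true.1 u6_group3 (upiece6.checkM true .mhi false .mid) (by simp)) m
        | .f, false, .lo => QEx.nonneg_on_box (List.all_eq_true.1 u6_group4 (upiece6.checkM true .f false .lo) (by simp)) m
        | .f, false, .hi => QEx.nonneg_on_box (List.all_eq_true.1 u6_group5 (upiece6.checkM true .f false .hi) (by simp)) m
        | .f, false, .mid => QEx.nonneg_on_box (List.all_eq_true.1 u6_group6 (upiece6.checkM true .f false .mid) (by simp)) m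
        | .f, true, .lo => QEx.nonneg_on_box (List.all_eq_true.1 u6_group7 (upiece6.checkM true .f true .lo) (by simp)) m
        | .f, true, .hi => QEx.nonneg_on_box (List.all_eq_true.1 u6_group8 (upiece6.checkM true .f true .hi) (by simp)) m
        | .f, true, .mid => QEx.nonneg_on_box (List.all_eq_true.1 u6_group9 (upiece6.checkM true .f true .mid) (by simp)) m
      side := fun e =>
        match e with
        | .rA => QEx.nonneg_on_box (List.all_eq_true.1 u6_group18 (upiece6.side .rA) (by simp)) m
        | .rB => QEx.nonneg_on_box (List.all_eq_true.1 u6_group18 (upiece6.side .rB) (by simp)) m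
        | .rF => QEx.nonneg_on_box (List.all_eq_true.1 u6_group19 (upiece6.side .rF) (by simp)) m
        | .q => QEx.nonneg_on_box (List.all_eq_true.1 u6_group20 (upiece6.side .q) (by simp)) m
        | .om => QEx.nonneg_on_box (List.all_eq_true.1 u6_group21 (upiece6.side .om) (by simp)) m
      nums := by decide }
  env :=
    { lo := fun e =>
        match e with
        | .piL => QEx.nonneg_on_box (List.all_eq_true.1 u6_group10 (upiece6.env (bandMid Band.midLowC Band.midUpC).lo (bandMid Band.midLowC Band.midUpC).hi (bandMid Band.midLowC Band.midUpC).pole .piL) (by simp)) m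
        | .piU => QEx.nonneg_on_box (List.all_eq_true.1 u6_group10 (upiece6.env (bandMid Band.midLowC Band.midUpC).lo (bandMid Band.midLowC Band.midUpC).hi (bandMid Band.midLowC Band.midUpC).pole .piU) (by simp)) m
        | .omL => QEx.nonneg_on_box (List.all_eq_true.1 u6_group12 (upiece6.env (bandMid Band.midLowC Band.midUpC).lo (bandMid Band.midLowC Band.midUpC).hi (bandMid Band.midLowC Band.midUpC).pole .omL) (by simp)) m
        | .omU => u6_omU_lo_all m
        | .tauL => QEx.nonneg_on_box (List.all_eq_true.1 u6_group15 (upiece6.env (bandMid Band.midLowC Band.midUpC).lo (bandMid Band.midLowC Band.midUpC).hi (bandMid Band.midLowC Band.midUpC).pole .tauL) (by simp)) m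
        | .tauU => QEx.nonneg_on_box (List.all_eq_true.1 u6_group15 (upiece6.env (bandMid Band.midLowC Band.midUpC).lo (bandMid Band.midLowC Band.midUpC).hi (bandMid Band.midLowC Band.midUpC).pole .tauU) (by simp)) m
      hi := fun e =>
        match e with
        | .piL => QEx.nonneg_on_box (List.all_eq_true.1 u6_group10 (upiece6.env (bandMid Band.midLowC Band.midUpC).hi (bandMid Band.midLowC Band.midUpC).hi (bandMid Band.midLowC Band.midUpC).pole .piL) (by simp)) m
        | .piU => u6_piU_hi_all m
        | .omL => QEx.nonneg_on_box (List.all_eq_true.1 u6_group12 (upiece6.env (bandMid Band.midLowC Band.midUpC).hi (bandMid Band.midLowC Band.midUpC).hi (bandMid Band.midLowC Band.midUpC).pole .omL) (by simp)) m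
        | .omU => u6_omU_hi_all m
        | .tauL => QEx.nonneg_on_box (List.all_eq_true.1 u6_group15 (upiece6.env (bandMid Band.midLowC Band.midUpC).hi (bandMid Band.midLowC Band.midUpC).hi (bandMid Band.midLowC Band.midUpC).pole .tauL) (by simp)) m
        | .tauU => QEx.nonneg_on_box (List.all_eq_true.1 u6_group15 (upiece6.env (bandMid Band.midLowC Band.midUpC).hi (bandMid Band.midLowC Band.midUpC).hi (bandMid Band.midLowC Band.midUpC).pole .tauU) (by simp)) m
      wid := QEx.nonneg_on_box (List.all_eq_true.1 u6_group17 (upiece6.wid - qD 1) (by simp)) m }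
  rayLo := QEx.nonneg_on_box (List.all_eq_true.1 u6_group16 (xLLGQ true (bandMid Band.midLowC Band.midUpC) (bandMid Band.midLowC Band.midUpC).lo) (by simp)) m
  rayHi := QEx.nonneg_on_box (List.all_eq_true.1 u6_group16 (xLLGQ true (bandMid Band.midLowC Band.midUpC) (bandMid Band.midLowC Band.midUpC).hi) (by simp)) m

end Vale.Agent.P100.Calib.Closed.All.Low
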