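import Vale.Agent.P100.Calib.SlabMidUpExpr

/-!
# The pieces of the certificate on `3/5 ≤ u ≤ 7/10`
-/


namespace Vale.Agent.P100.Calib.Closed.All.Low

/-- The piece 0: `u` in [0.6, 0.7], `a` in [0.05, 0.18]. -/
def upiece0 : Piece where
  o := ⟨650, 1470, 115, 67⟩
  piL :=
    ⟨(-944), (-6091), 4782, (-20008), (-13781), (-1690), (-17813), (-16617), (-13139),
     (-20828), 41009⟩
  piU :=
    ⟨(-391), (-4639), 4733, (-21490), (-14953), (-2385), (-27164), (-33294), (-11740),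
     (-20372), 87603⟩
  om₀ :=
    ⟨(-20455), (-208), (-7636), 8850, (-41056), (-1206), (-21472), 20888, 25925, (-15340),
     3229⟩
  om₁ :=
    ⟨(-21588), (-833), (-7612), 10128, (-48578), (-35), (-9287), 38149, 24439, (-16240),
     (-33392)⟩
  tau₀ :=
    ⟨500, (-1208), (-98), 1570, 1848, (-14), (-1954), (-458), 436, (-1191), 7967⟩
  tau₁ :=
    ⟨495, (-1225), (-97), 1582, 1781, (-4), (-1745), (-626), 436, (-1208), 14452⟩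
  r₀ :=
    ⟨(-1437), (-7410), 2854⟩
  r₁ :=
    ⟨997, 438, 4296⟩
  m₀ :=
    ⟨(-815), 592, (-1805)⟩
  m₁ :=
    ⟨(-170), 1928, (-1689)⟩
  wom := 885
  wtau := 64
  rA := 2970
  rB := 2596
  rF := 2668
  qa := 1000
  qb := 3204

/-- The piece 1: `u` in [0.6, 0.7], `a` in [0.18, 0.31]. -/
def upiece1 : Piece where
  o := ⟨650, 1870, 245, 67⟩
  piL :=
    ⟨(-2607), (-10686), 3072, (-29434), (-13547), (-3098), (-36313), (-17027), (-12052),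
     (-17192), 65382⟩
  piU :=
    ⟨(-1877), (-9765), 3305, (-25438), (-7390), (-2592), (-34688), (-21954), (-11027),
     (-17459), 140749⟩
  om₀ :=
    ⟨(-20867), (-3814), (-3574), 20179, (-39876), (-3744), (-38889), 7953, 31302, 9438, 22784⟩
  om₁ :=
    ⟨(-22503), (-1982), (-4168), 8369, (-68720), (-2059), (-63369), 62579, 27250, 3995,
     (-212087)⟩
  tau₀ :=
    ⟨757, (-1487), (-79), 2963, 3992, (-14), (-2102), (-557), 222, (-965), 33043⟩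
  tau₁ :=
    ⟨750, (-1507), (-81), 2926, 3830, (-24), (-2072), (-1135), 224, (-994), 32233⟩
  r₀ :=
    ⟨(-809), (-3953), 878⟩
  r₁ :=
    ⟨474, 185, 897⟩
  m₀ :=
    ⟨(-1145), 1985, (-1598)⟩
  m₁ :=
    ⟨(-236), 3569, (-1540)⟩
  wom := 1886
  wtau := 130
  rA := 1629
  rB := 1064
  rF := 665
  qa := 1000
  qb := 3072

/-- The piece 2: `u` in [0.6, 0.7], `a` in [0.08, 0.2]. -/
def upiece2 : Piece where
  o := ⟨650, 1620, 140, 96⟩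
  piL :=
    ⟨(-1176), (-7744), 3890, (-19818), (-9353), (-3162), (-15767), (-1856), (-11747),
     (-18696), 4236⟩
  piU :=
    ⟨(-642), (-6337), 3922, (-20571), (-10995), (-3099), (-18263), (-17768), (-10815),
     (-14897), 90835⟩
  om₀ :=
    ⟨(-22677), 1001, (-7346), 9905, (-58572), 344, (-19120), 67950, 33389, (-4127), 6631⟩
  om₁ :=
    ⟨(-24116), (-151), (-7505), 11675, (-66725), (-461), (-7961), 38076, 32975, (-15778),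
     (-120858)⟩
  tau₀ :=
    ⟨596, (-1272), (-125), 2227, 2746, (-10), (-4576), (-747), (-30), (-1010), 10030⟩
  tau₁ :=
    ⟨590, (-1299), (-125), 2280, 2688, (-9), (-3448), (-865), (-59), (-1050), 31414⟩
  r₀ :=
    ⟨(-829), (-4391), 1595⟩
  r₁ :=
    ⟨253, (-1003), 1990⟩
  m₀ :=
    ⟨(-948), 1365, (-1660)⟩
  m₁ :=
    ⟨(-412), 2469, (-1640)⟩
  wom := 961
  wtau := 75
  rA := 1795
  rB := 1131
  rF := 532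
  qa := 1000
  qb := 3327

/-- The piece 3: `u` in [0.6, 0.7], `a` in [0.2, 0.31]. -/
def upiece3 : Piece where
  o := ⟨650, 1950, 255, 96⟩
  piL :=
    ⟨(-2849), (-12014), 2576, (-27477), (-11161), (-3819), (-36375), (-19008), (-9943),
     (-13707), 30924⟩
  piU :=
    ⟨(-2205), (-10267), 2774, (-24284), (-3205), (-2907), (-25100), 10300, (-9275), (-12071),
     131828⟩
  om₀ :=
    ⟨(-22757), (-1742), (-3047), 17219, (-54700), (-1829), 26671, 125488, 47495, 17908,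
     228501⟩
  om₁ :=
    ⟨(-24655), (-2840), (-3690), 6874, (-95548), (-4571), 21129, (-133767), 33280, 6418,
     (-674475)⟩
  tau₀ :=
    ⟨928, (-1523), (-102), 4629, 5897, (-19), (-2023), (-198), (-624), (-790), 52274⟩
  tau₁ :=
    ⟨919, (-1565), (-104), 4577, 5674, (-34), (-2364), (-1353), (-640), (-845), 49898⟩
  r₀ :=
    ⟨(-509), (-3307), 559⟩
  r₁ :=
    ⟨532, 610, (-100)⟩
  m₀ :=
    ⟨(-1275), 2069, (-1557)⟩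
  m₁ :=
    ⟨(-518), 3785, (-1569)⟩
  wom := 1540
  wtau := 153
  rA := 1089
  rB := 688
  rF := 735
  qa := 1000
  qb := 3000

/-- The piece 4: `u` in [0.6, 0.7], `a` in [0.108, 0.2]. -/
def upiece4 : Piece where
  o := ⟨650, 1800, 154, 125⟩
  piL :=
    ⟨(-1236), (-9484), 3297, (-18914), (-7612), (-3404), (-7859), 1851, (-11288), (-15826),
     (-38278)⟩
  piU :=
    ⟨(-498), (-7483), 3383, (-20954), (-9591), (-3842), (-9125), (-6154), (-9181), (-10726),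
     53701⟩
  om₀ :=
    ⟨(-25239), 3470, (-7298), 6800, (-76734), (-300), (-73237), (-53723), 49261, 3141, 154288⟩
  om₁ :=
    ⟨(-27860), 986, (-7739), 14109, (-92953), 1563, (-24739), 30986, 37637, (-18828),
     (-203520)⟩
  tau₀ :=
    ⟨706, (-1314), (-149), 3220, 3893, (-21), (-2610), (-999), (-211), (-922), 30130⟩
  tau₁ :=
    ⟨694, (-1369), (-149), 3136, 3801, (-8), (-2501), (-1411), (-308), (-982), 47020⟩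
  r₀ :=
    ⟨(-756), (-4459), 970⟩
  r₁ :=
    ⟨265, (-506), 522⟩
  m₀ :=
    ⟨(-1267), 1805, (-1521)⟩
  m₁ :=
    ⟨(-724), 2703, (-1599)⟩
  wom := 1327
  wtau := 85
  rA := 1620
  rB := 616
  rF := 330
  qa := 1000
  qb := 3607

/-- The piece 5: `u` in [0.6, 0.7], `a` in [0.2, 0.31]. -/
def upiece5 : Piece where
  o := ⟨650, 2150, 255, 125⟩
  piL :=
    ⟨(-2701), (-13367), 2202, (-28178), (-12719), (-4167), (-35254), (-15927), (-9636),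
     (-11943), (-1942)⟩
  piU :=
    ⟨(-1786), (-10650), 2499, (-24113), (-1550), (-2925), (-16695), 27480, (-7928), (-7844),
     147055⟩
  om₀ :=
    ⟨(-25109), (-804), (-2543), 27487, (-63694), (-2920), (-82338), 45394, 57512, 31446,
     283440⟩
  om₁ :=
    ⟨(-28664), (-3615), (-3805), 6796, (-140849), (-5262), (-14183), 37166, 39954, 2539,
     (-362131)⟩
  tau₀ :=
    ⟨1109, (-1528), (-119), 5843, 8265, (-24), (-1297), 389, 325, (-590), 46301⟩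
  tau₁ :=
    ⟨1091, (-1618), (-124), 5692, 7886, (-54), (-2199), (-2149), 243, (-646), 63346⟩
  r₀ :=
    ⟨(-453), (-2333), 169⟩
  r₁ :=
    ⟨1694, 1759, (-1244)⟩
  m₀ :=
    ⟨(-1738), 1970, (-1514)⟩
  m₁ :=
    ⟨(-880), 3814, (-1546)⟩
  wom := 3378
  wtau := 302
  rA := 775
  rB := 2996
  rF := 2274
  qa := 1000
  qb := 3480

/-- The piece 6: `u` in [0.6, 0.7], `a` in [0.2975, 0.31]. -/
def upiece6 : Piece where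
  o := ⟨650, 2210, 304, 134⟩
  piL :=
    ⟨(-3996), (-15457), 1703, (-23506), (-6250), (-4100), (-21765), (-19077), (-6885),
     (-6601), 228130⟩
  piU :=
    ⟨(-2873), (-11681), 2003, (-17265), 8378, (-3472), 17915, 53742, (-5526), (-4005), 325131⟩
  om₀ :=
    ⟨(-25432), (-3909), 481, (-20152), (-107701), (-6527), (-106957), 99727, 57075, 41649,
     (-1764866)⟩
  om₁ :=
    ⟨(-30350), (-9268), (-917), (-50876), (-219406), (-6809), (-141696), (-150930), 49086,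
     16542, (-2311197)⟩
  tau₀ :=
    ⟨1624, (-1446), (-93), 11616, 14949, (-35), 5100, 6045, 900, 65, 156970⟩
  tau₁ :=
    ⟨1603, (-1575), (-98), 11610, 14590, (-59), 5092, 3169, 936, 11, 180800⟩
  r₀ :=
    ⟨441, 293, (-599)⟩
  r₁ :=
    ⟨1027, 1676, (-779)⟩
  m₀ :=
    ⟨(-1642), 2436, (-1542)⟩
  m₁ :=
    ⟨(-1048), 3743, (-1546)⟩
  wom := 768
  wtau := 48
  rA := 968
  rB := 1823
  rF := 10
  qa := 1000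
  qb := 2349

/-- The box of piece 0. -/
def ubox0 : ℕ → Pack.Chart
  | 0 => ⟨6, 7, 10, 10⟩
  | 1 => ⟨58, 89, 50, 50⟩
  | 2 => ⟨5, 18, 100, 100⟩
  | _ => ⟨3, 5, 60, 60⟩

/-- A part of the box of piece 0. -/
def ubox0_piU_hi_0 : ℕ → Pack.Chart
  | 0 => ⟨6, 7, 10, 10⟩
  | 1 => ⟨58, 89, 50, 50⟩
  | 2 => ⟨10, 23, 200, 200⟩
  | _ => ⟨3, 5, 60, 60⟩

/-- A part of the box of piece 0. -/
def ubox0_piU_hi_1 : ℕ → Pack.Chart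
  | 0 => ⟨6, 7, 10, 10⟩
  | 1 => ⟨58, 89, 50, 50⟩
  | 2 => ⟨23, 36, 200, 200⟩
  | _ => ⟨3, 5, 60, 60⟩

/-- A part of the box of piece 0. -/
def ubox0_side_rF_0 : ℕ → Pack.Chart
  | 0 => ⟨6, 7, 10, 10⟩
  | 1 => ⟨116, 147, 100, 100⟩
  | 2 => ⟨5, 18, 100, 100⟩
  | _ => ⟨3, 5, 60, 60⟩

/-- A part of the box of piece 0. -/
def ubox0_side_rF_1 : ℕ → Pack.Chart
  | 0 => ⟨6, 7, 10, 10⟩
  | 1 => ⟨147, 178, 100, 100⟩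
  | 2 => ⟨5, 18, 100, 100⟩
  | _ => ⟨3, 5, 60, 60⟩

/-- The box of piece 0 below its lower end of `X`. -/
def ubox0x : ℕ → Pack.Chart
  | 0 => ⟨6, 7, 10, 10⟩
  | 1 => ⟨97, 116, 100, 100⟩
  | 2 => ⟨5, 18, 100, 100⟩
  | _ => ⟨3, 5, 60, 60⟩

/-- The box of an exit curve. -/
def uexit0Box : ℕ → Pack.Chart
  | 0 => ⟨6, 7, 10, 10⟩
  | 1 => ⟨58, 89, 50, 50⟩
  | 2 => ⟨5, 18, 100, 100⟩
  | _ => ⟨3, 5, 60, 60⟩

/-- The box of piece 1. -/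
def ubox1 : ℕ → Pack.Chart
  | 0 => ⟨6, 7, 10, 10⟩
  | 1 => ⟨67, 120, 50, 50⟩
  | 2 => ⟨18, 31, 100, 100⟩
  | _ => ⟨3, 5, 60, 60⟩

/-- A part of the box of piece 1. -/
def ubox1_piL_lo_0 : ℕ → Pack.Chart
  | 0 => ⟨6, 7, 10, 10⟩
  | 1 => ⟨67, 120, 50, 50⟩
  | 2 => ⟨36, 49, 200, 200⟩
  | _ => ⟨3, 4, 60, 60⟩

/-- A part of the box of piece 1. -/
def ubox1_piL_lo_1 : ℕ → Pack.Chart
  | 0 => ⟨6, 7, 10, 10⟩
  | 1 => ⟨67, 120, 50, 50⟩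
  | 2 => ⟨49, 62, 200, 200⟩
  | _ => ⟨6, 7, 120, 120⟩

/-- A part of the box of piece 1. -/
def ubox1_piL_lo_2 : ℕ → Pack.Chart
  | 0 => ⟨6, 7, 10, 10⟩
  | 1 => ⟨67, 120, 50, 50⟩
  | 2 => ⟨98, 111, 400, 400⟩
  | _ => ⟨7, 8, 120, 120⟩

/-- A part of the box of piece 1. -/
def ubox1_piL_lo_3 : ℕ → Pack.Chart
  | 0 => ⟨6, 7, 10, 10⟩
  | 1 => ⟨67, 120, 50, 50⟩
  | 2 => ⟨111, 124, 400, 400⟩
  | _ => ⟨7, 8, 120, 120⟩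

/-- A part of the box of piece 1. -/
def ubox1_piL_lo_4 : ℕ → Pack.Chart
  | 0 => ⟨6, 7, 10, 10⟩
  | 1 => ⟨67, 120, 50, 50⟩
  | 2 => ⟨36, 49, 200, 200⟩
  | _ => ⟨8, 9, 120, 120⟩

/-- A part of the box of piece 1. -/
def ubox1_piL_lo_5 : ℕ → Pack.Chart
  | 0 => ⟨6, 7, 10, 10⟩
  | 1 => ⟨67, 120, 50, 50⟩
  | 2 => ⟨98, 111, 400, 400⟩
  | _ => ⟨8, 9, 120, 120⟩

/-- A part of the box of piece 1. -/
def ubox1_piL_lo_6 : ℕ → Pack.Chart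
  | 0 => ⟨6, 7, 10, 10⟩
  | 1 => ⟨67, 120, 50, 50⟩
  | 2 => ⟨111, 124, 400, 400⟩
  | _ => ⟨8, 9, 120, 120⟩

/-- A part of the box of piece 1. -/
def ubox1_piL_lo_7 : ℕ → Pack.Chart
  | 0 => ⟨6, 7, 10, 10⟩
  | 1 => ⟨67, 120, 50, 50⟩
  | 2 => ⟨18, 31, 100, 100⟩
  | _ => ⟨9, 10, 120, 120⟩

/-- A part of the box of piece 1. -/
def ubox1_omU_lo_0 : ℕ → Pack.Chart
  | 0 => ⟨6, 7, 10, 10⟩
  | 1 => ⟨67, 120, 50, 50⟩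
  | 2 => ⟨36, 49, 200, 200⟩
  | _ => ⟨3, 5, 60, 60⟩

/-- A part of the box of piece 1. -/
def ubox1_omU_lo_1 : ℕ → Pack.Chart
  | 0 => ⟨6, 7, 10, 10⟩
  | 1 => ⟨67, 120, 50, 50⟩
  | 2 => ⟨49, 62, 200, 200⟩
  | _ => ⟨3, 5, 60, 60⟩

/-- A part of the box of piece 1. -/
def ubox1_omU_hi_0 : ℕ → Pack.Chart
  | 0 => ⟨6, 7, 10, 10⟩
  | 1 => ⟨67, 120, 50, 50⟩
  | 2 => ⟨36, 49, 200, 200⟩
  | _ => ⟨3, 5, 60, 60⟩

/-- A part of the box of piece 1. -/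
def ubox1_omU_hi_1 : ℕ → Pack.Chart
  | 0 => ⟨6, 7, 10, 10⟩
  | 1 => ⟨67, 120, 50, 50⟩
  | 2 => ⟨49, 62, 200, 200⟩
  | _ => ⟨3, 5, 60, 60⟩

/-- A part of the box of piece 1. -/
def ubox1_side_rF_0 : ℕ → Pack.Chart
  | 0 => ⟨6, 7, 10, 10⟩
  | 1 => ⟨134, 187, 100, 100⟩
  | 2 => ⟨18, 31, 100, 100⟩
  | _ => ⟨3, 5, 60, 60⟩

/-- A part of the box of piece 1. -/
def ubox1_side_rF_1 : ℕ → Pack.Chart
  | 0 => ⟨6, 7, 10, 10⟩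
  | 1 => ⟨187, 240, 100, 100⟩
  | 2 => ⟨18, 31, 100, 100⟩
  | _ => ⟨3, 5, 60, 60⟩

/-- The box of piece 1 below its lower end of `X`. -/
def ubox1x : ℕ → Pack.Chart
  | 0 => ⟨6, 7, 10, 10⟩
  | 1 => ⟨95, 134, 100, 100⟩
  | 2 => ⟨18, 31, 100, 100⟩
  | _ => ⟨3, 5, 60, 60⟩

/-- The box of an exit curve. -/
def uexit1Box : ℕ → Pack.Chart
  | 0 => ⟨6, 7, 10, 10⟩
  | 1 => ⟨67, 120, 50, 50⟩
  | 2 => ⟨18, 31, 100, 100⟩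
  | _ => ⟨3, 5, 60, 60⟩

/-- The box of piece 2. -/
def ubox2 : ℕ → Pack.Chart
  | 0 => ⟨6, 7, 10, 10⟩
  | 1 => ⟨63, 99, 50, 50⟩
  | 2 => ⟨2, 5, 25, 25⟩
  | _ => ⟨125, 162, 1500, 1500⟩

/-- A part of the box of piece 2. -/
def ubox2_piU_hi_0 : ℕ → Pack.Chart
  | 0 => ⟨6, 7, 10, 10⟩
  | 1 => ⟨63, 99, 50, 50⟩
  | 2 => ⟨4, 7, 50, 50⟩
  | _ => ⟨125, 162, 1500, 1500⟩

/-- A part of the box of piece 2. -/
def ubox2_piU_hi_1 : ℕ → Pack.Chart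
  | 0 => ⟨6, 7, 10, 10⟩
  | 1 => ⟨63, 99, 50, 50⟩
  | 2 => ⟨7, 10, 50, 50⟩
  | _ => ⟨125, 162, 1500, 1500⟩

/-- A part of the box of piece 2. -/
def ubox2_side_rF_0 : ℕ → Pack.Chart
  | 0 => ⟨6, 7, 10, 10⟩
  | 1 => ⟨63, 81, 50, 50⟩
  | 2 => ⟨2, 5, 25, 25⟩
  | _ => ⟨125, 162, 1500, 1500⟩

/-- A part of the box of piece 2. -/
def ubox2_side_rF_1 : ℕ → Pack.Chart
  | 0 => ⟨6, 7, 10, 10⟩
  | 1 => ⟨81, 99, 50, 50⟩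
  | 2 => ⟨2, 5, 25, 25⟩
  | _ => ⟨125, 162, 1500, 1500⟩

/-- The box of piece 2 below its lower end of `X`. -/
def ubox2x : ℕ → Pack.Chart
  | 0 => ⟨6, 7, 10, 10⟩
  | 1 => ⟨95, 126, 100, 100⟩
  | 2 => ⟨2, 5, 25, 25⟩
  | _ => ⟨125, 162, 1500, 1500⟩

/-- The box of an exit curve. -/
def uexit2Box : ℕ → Pack.Chart
  | 0 => ⟨6, 7, 10, 10⟩
  | 1 => ⟨63, 99, 50, 50⟩
  | 2 => ⟨2, 5, 25, 25⟩
  | _ => ⟨125, 162, 1500, 1500⟩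

/-- The box of piece 3. -/
def ubox3 : ℕ → Pack.Chart
  | 0 => ⟨6, 7, 10, 10⟩
  | 1 => ⟨14, 25, 10, 10⟩
  | 2 => ⟨20, 31, 100, 100⟩
  | _ => ⟨125, 162, 1500, 1500⟩

/-- A part of the box of piece 3. -/
def ubox3_piL_lo_0 : ℕ → Pack.Chart
  | 0 => ⟨6, 7, 10, 10⟩
  | 1 => ⟨14, 25, 10, 10⟩
  | 2 => ⟨40, 51, 200, 200⟩
  | _ => ⟨125, 162, 1500, 1500⟩

/-- A part of the box of piece 3. -/
def ubox3_piL_lo_1 : ℕ → Pack.Chart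
  | 0 => ⟨6, 7, 10, 10⟩
  | 1 => ⟨14, 25, 10, 10⟩
  | 2 => ⟨51, 62, 200, 200⟩
  | _ => ⟨250, 287, 3000, 3000⟩

/-- A part of the box of piece 3. -/
def ubox3_piL_lo_2 : ℕ → Pack.Chart
  | 0 => ⟨6, 7, 10, 10⟩
  | 1 => ⟨14, 25, 10, 10⟩
  | 2 => ⟨51, 62, 200, 200⟩
  | _ => ⟨287, 324, 3000, 3000⟩

/-- A part of the box of piece 3. -/
def ubox3_omU_lo_0 : ℕ → Pack.Chart
  | 0 => ⟨6, 7, 10, 10⟩
  | 1 => ⟨14, 25, 10, 10⟩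
  | 2 => ⟨40, 51, 200, 200⟩
  | _ => ⟨125, 162, 1500, 1500⟩

/-- A part of the box of piece 3. -/
def ubox3_omU_lo_1 : ℕ → Pack.Chart
  | 0 => ⟨6, 7, 10, 10⟩
  | 1 => ⟨14, 25, 10, 10⟩
  | 2 => ⟨51, 62, 200, 200⟩
  | _ => ⟨125, 162, 1500, 1500⟩

/-- A part of the box of piece 3. -/
def ubox3_omU_hi_0 : ℕ → Pack.Chart
  | 0 => ⟨6, 7, 10, 10⟩
  | 1 => ⟨14, 25, 10, 10⟩
  | 2 => ⟨40, 51, 200, 200⟩
  | _ => ⟨125, 162, 1500, 1500⟩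

/-- A part of the box of piece 3. -/
def ubox3_omU_hi_1 : ℕ → Pack.Chart
  | 0 => ⟨6, 7, 10, 10⟩
  | 1 => ⟨14, 25, 10, 10⟩
  | 2 => ⟨51, 62, 200, 200⟩
  | _ => ⟨125, 162, 1500, 1500⟩

/-- A part of the box of piece 3. -/
def ubox3_tauL_lo_0 : ℕ → Pack.Chart
  | 0 => ⟨6, 7, 10, 10⟩
  | 1 => ⟨14, 25, 10, 10⟩
  | 2 => ⟨40, 51, 200, 200⟩
  | _ => ⟨125, 162, 1500, 1500⟩

/-- A part of the box of piece 3. -/
def ubox3_tauL_lo_1 : ℕ → Pack.Chart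
  | 0 => ⟨6, 7, 10, 10⟩
  | 1 => ⟨14, 25, 10, 10⟩
  | 2 => ⟨51, 62, 200, 200⟩
  | _ => ⟨125, 162, 1500, 1500⟩

/-- A part of the box of piece 3. -/
def ubox3_tauL_hi_0 : ℕ → Pack.Chart
  | 0 => ⟨6, 7, 10, 10⟩
  | 1 => ⟨14, 25, 10, 10⟩
  | 2 => ⟨40, 51, 200, 200⟩
  | _ => ⟨125, 162, 1500, 1500⟩

/-- A part of the box of piece 3. -/
def ubox3_tauL_hi_1 : ℕ → Pack.Chart
  | 0 => ⟨6, 7, 10, 10⟩
  | 1 => ⟨14, 25, 10, 10⟩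
  | 2 => ⟨51, 62, 200, 200⟩
  | _ => ⟨125, 162, 1500, 1500⟩

/-- The box of piece 3 below its lower end of `X`. -/
def ubox3x : ℕ → Pack.Chart
  | 0 => ⟨6, 7, 10, 10⟩
  | 1 => ⟨93, 140, 100, 100⟩
  | 2 => ⟨20, 31, 100, 100⟩
  | _ => ⟨125, 162, 1500, 1500⟩

/-- The box of an exit curve. -/
def uexit3Box : ℕ → Pack.Chart
  | 0 => ⟨6, 7, 10, 10⟩
  | 1 => ⟨14, 25, 10, 10⟩
  | 2 => ⟨20, 31, 100, 100⟩
  | _ => ⟨125, 162, 1500, 1500⟩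

/-- The box of piece 4. -/
def ubox4 : ℕ → Pack.Chart
  | 0 => ⟨6, 7, 10, 10⟩
  | 1 => ⟨13, 23, 10, 10⟩
  | 2 => ⟨27, 50, 250, 250⟩
  | _ => ⟨189, 250, 1750, 1750⟩

/-- A part of the box of piece 4. -/
def ubox4_piU_hi_0 : ℕ → Pack.Chart
  | 0 => ⟨6, 7, 10, 10⟩
  | 1 => ⟨13, 23, 10, 10⟩
  | 2 => ⟨54, 77, 500, 500⟩
  | _ => ⟨189, 250, 1750, 1750⟩

/-- A part of the box of piece 4. -/
def ubox4_piU_hi_1 : ℕ → Pack.Chart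
  | 0 => ⟨6, 7, 10, 10⟩
  | 1 => ⟨13, 23, 10, 10⟩
  | 2 => ⟨77, 100, 500, 500⟩
  | _ => ⟨378, 439, 3500, 3500⟩

/-- A part of the box of piece 4. -/
def ubox4_piU_hi_2 : ℕ → Pack.Chart
  | 0 => ⟨6, 7, 10, 10⟩
  | 1 => ⟨13, 18, 10, 10⟩
  | 2 => ⟨77, 100, 500, 500⟩
  | _ => ⟨439, 500, 3500, 3500⟩

/-- A part of the box of piece 4. -/
def ubox4_piU_hi_3 : ℕ → Pack.Chart
  | 0 => ⟨6, 7, 10, 10⟩
  | 1 => ⟨18, 23, 10, 10⟩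
  | 2 => ⟨77, 100, 500, 500⟩
  | _ => ⟨439, 500, 3500, 3500⟩

/-- A part of the box of piece 4. -/
def ubox4_omU_lo_0 : ℕ → Pack.Chart
  | 0 => ⟨6, 7, 10, 10⟩
  | 1 => ⟨13, 18, 10, 10⟩
  | 2 => ⟨54, 77, 500, 500⟩
  | _ => ⟨189, 250, 1750, 1750⟩

/-- A part of the box of piece 4. -/
def ubox4_omU_lo_1 : ℕ → Pack.Chart
  | 0 => ⟨6, 7, 10, 10⟩
  | 1 => ⟨18, 23, 10, 10⟩
  | 2 => ⟨54, 77, 500, 500⟩
  | _ => ⟨189, 250, 1750, 1750⟩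

/-- A part of the box of piece 4. -/
def ubox4_omU_lo_2 : ℕ → Pack.Chart
  | 0 => ⟨6, 7, 10, 10⟩
  | 1 => ⟨13, 18, 10, 10⟩
  | 2 => ⟨77, 100, 500, 500⟩
  | _ => ⟨189, 250, 1750, 1750⟩

/-- A part of the box of piece 4. -/
def ubox4_omU_lo_3 : ℕ → Pack.Chart
  | 0 => ⟨6, 7, 10, 10⟩
  | 1 => ⟨18, 23, 10, 10⟩
  | 2 => ⟨77, 100, 500, 500⟩
  | _ => ⟨189, 250, 1750, 1750⟩

/-- A part of the box of piece 4. -/
def ubox4_omU_hi_0 : ℕ → Pack.Chart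
  | 0 => ⟨6, 7, 10, 10⟩
  | 1 => ⟨13, 18, 10, 10⟩
  | 2 => ⟨27, 50, 250, 250⟩
  | _ => ⟨189, 250, 1750, 1750⟩

/-- A part of the box of piece 4. -/
def ubox4_omU_hi_1 : ℕ → Pack.Chart
  | 0 => ⟨6, 7, 10, 10⟩
  | 1 => ⟨18, 23, 10, 10⟩
  | 2 => ⟨27, 50, 250, 250⟩
  | _ => ⟨189, 250, 1750, 1750⟩

/-- A part of the box of piece 4. -/
def ubox4_side_rF_0 : ℕ → Pack.Chart
  | 0 => ⟨6, 7, 10, 10⟩
  | 1 => ⟨13, 18, 10, 10⟩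
  | 2 => ⟨27, 50, 250, 250⟩
  | _ => ⟨189, 250, 1750, 1750⟩

/-- A part of the box of piece 4. -/
def ubox4_side_rF_1 : ℕ → Pack.Chart
  | 0 => ⟨6, 7, 10, 10⟩
  | 1 => ⟨18, 23, 10, 10⟩
  | 2 => ⟨27, 50, 250, 250⟩
  | _ => ⟨189, 250, 1750, 1750⟩

/-- The box of piece 4 below its lower end of `X`. -/
def ubox4x : ℕ → Pack.Chart
  | 0 => ⟨6, 7, 10, 10⟩
  | 1 => ⟨47, 65, 50, 50⟩
  | 2 => ⟨27, 50, 250, 250⟩
  | _ => ⟨189, 250, 1750, 1750⟩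

/-- The box of an exit curve. -/
def uexit4Box : ℕ → Pack.Chart
  | 0 => ⟨6, 7, 10, 10⟩
  | 1 => ⟨13, 23, 10, 10⟩
  | 2 => ⟨27, 50, 250, 250⟩
  | _ => ⟨189, 250, 1750, 1750⟩

/-- The box of piece 5. -/
def ubox5 : ℕ → Pack.Chart
  | 0 => ⟨6, 7, 10, 10⟩
  | 1 => ⟨14, 29, 10, 10⟩
  | 2 => ⟨20, 31, 100, 100⟩
  | _ => ⟨189, 250, 1750, 1750⟩

/-- A part of the box of piece 5. -/
def ubox5_piL_lo_0 : ℕ → Pack.Chart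
  | 0 => ⟨6, 7, 10, 10⟩
  | 1 => ⟨14, 29, 10, 10⟩
  | 2 => ⟨40, 51, 200, 200⟩
  | _ => ⟨189, 250, 1750, 1750⟩

/-- A part of the box of piece 5. -/
def ubox5_piL_lo_1 : ℕ → Pack.Chart
  | 0 => ⟨6, 7, 10, 10⟩
  | 1 => ⟨14, 29, 10, 10⟩
  | 2 => ⟨51, 62, 200, 200⟩
  | _ => ⟨189, 250, 1750, 1750⟩

/-- A part of the box of piece 5. -/
def ubox5_piU_hi_0 : ℕ → Pack.Chart
  | 0 => ⟨6, 7, 10, 10⟩
  | 1 => ⟨28, 43, 20, 20⟩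
  | 2 => ⟨40, 51, 200, 200⟩
  | _ => ⟨189, 250, 1750, 1750⟩

/-- A part of the box of piece 5. -/
def ubox5_piU_hi_1 : ℕ → Pack.Chart
  | 0 => ⟨6, 7, 10, 10⟩
  | 1 => ⟨43, 58, 20, 20⟩
  | 2 => ⟨40, 51, 200, 200⟩
  | _ => ⟨189, 250, 1750, 1750⟩

/-- A part of the box of piece 5. -/
def ubox5_piU_hi_2 : ℕ → Pack.Chart
  | 0 => ⟨6, 7, 10, 10⟩
  | 1 => ⟨14, 29, 10, 10⟩
  | 2 => ⟨51, 62, 200, 200⟩
  | _ => ⟨189, 250, 1750, 1750⟩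

/-- A part of the box of piece 5. -/
def ubox5_omU_lo_0 : ℕ → Pack.Chart
  | 0 => ⟨6, 7, 10, 10⟩
  | 1 => ⟨28, 43, 20, 20⟩
  | 2 => ⟨40, 51, 200, 200⟩
  | _ => ⟨189, 250, 1750, 1750⟩

/-- A part of the box of piece 5. -/
def ubox5_omU_lo_1 : ℕ → Pack.Chart
  | 0 => ⟨6, 7, 10, 10⟩
  | 1 => ⟨43, 58, 20, 20⟩
  | 2 => ⟨40, 51, 200, 200⟩
  | _ => ⟨189, 250, 1750, 1750⟩

/-- A part of the box of piece 5. -/
def ubox5_omU_lo_2 : ℕ → Pack.Chart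
  | 0 => ⟨6, 7, 10, 10⟩
  | 1 => ⟨28, 43, 20, 20⟩
  | 2 => ⟨51, 62, 200, 200⟩
  | _ => ⟨189, 250, 1750, 1750⟩

/-- A part of the box of piece 5. -/
def ubox5_omU_lo_3 : ℕ → Pack.Chart
  | 0 => ⟨6, 7, 10, 10⟩
  | 1 => ⟨43, 58, 20, 20⟩
  | 2 => ⟨51, 62, 200, 200⟩
  | _ => ⟨189, 250, 1750, 1750⟩

/-- A part of the box of piece 5. -/
def ubox5_omU_hi_0 : ℕ → Pack.Chart
  | 0 => ⟨6, 7, 10, 10⟩
  | 1 => ⟨28, 43, 20, 20⟩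
  | 2 => ⟨40, 51, 200, 200⟩
  | _ => ⟨189, 250, 1750, 1750⟩

/-- A part of the box of piece 5. -/
def ubox5_omU_hi_1 : ℕ → Pack.Chart
  | 0 => ⟨6, 7, 10, 10⟩
  | 1 => ⟨28, 43, 20, 20⟩
  | 2 => ⟨51, 62, 200, 200⟩
  | _ => ⟨189, 250, 1750, 1750⟩

/-- A part of the box of piece 5. -/
def ubox5_omU_hi_2 : ℕ → Pack.Chart
  | 0 => ⟨6, 7, 10, 10⟩
  | 1 => ⟨43, 58, 20, 20⟩
  | 2 => ⟨40, 51, 200, 200⟩
  | _ => ⟨189, 250, 1750, 1750⟩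

/-- A part of the box of piece 5. -/
def ubox5_omU_hi_3 : ℕ → Pack.Chart
  | 0 => ⟨6, 7, 10, 10⟩
  | 1 => ⟨43, 58, 20, 20⟩
  | 2 => ⟨51, 62, 200, 200⟩
  | _ => ⟨189, 250, 1750, 1750⟩

/-- A part of the box of piece 5. -/
def ubox5_tauL_lo_0 : ℕ → Pack.Chart
  | 0 => ⟨6, 7, 10, 10⟩
  | 1 => ⟨14, 29, 10, 10⟩
  | 2 => ⟨80, 91, 400, 400⟩
  | _ => ⟨189, 250, 1750, 1750⟩

/-- A part of the box of piece 5. -/
def ubox5_tauL_lo_1 : ℕ → Pack.Chart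
  | 0 => ⟨6, 7, 10, 10⟩
  | 1 => ⟨14, 29, 10, 10⟩
  | 2 => ⟨91, 102, 400, 400⟩
  | _ => ⟨189, 250, 1750, 1750⟩

/-- A part of the box of piece 5. -/
def ubox5_tauL_lo_2 : ℕ → Pack.Chart
  | 0 => ⟨6, 7, 10, 10⟩
  | 1 => ⟨14, 29, 10, 10⟩
  | 2 => ⟨51, 62, 200, 200⟩
  | _ => ⟨189, 250, 1750, 1750⟩

/-- A part of the box of piece 5. -/
def ubox5_tauL_hi_0 : ℕ → Pack.Chart
  | 0 => ⟨6, 7, 10, 10⟩
  | 1 => ⟨14, 29, 10, 10⟩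
  | 2 => ⟨40, 51, 200, 200⟩
  | _ => ⟨189, 250, 1750, 1750⟩

/-- A part of the box of piece 5. -/
def ubox5_tauL_hi_1 : ℕ → Pack.Chart
  | 0 => ⟨6, 7, 10, 10⟩
  | 1 => ⟨14, 29, 10, 10⟩
  | 2 => ⟨51, 62, 200, 200⟩
  | _ => ⟨189, 250, 1750, 1750⟩

/-- The box of piece 5 below its lower end of `X`. -/
def ubox5x : ℕ → Pack.Chart
  | 0 => ⟨6, 7, 10, 10⟩
  | 1 => ⟨91, 140, 100, 100⟩
  | 2 => ⟨20, 31, 100, 100⟩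
  | _ => ⟨189, 250, 1750, 1750⟩

/-- The box of an exit curve. -/
def uexit5Box : ℕ → Pack.Chart
  | 0 => ⟨6, 7, 10, 10⟩
  | 1 => ⟨14, 29, 10, 10⟩
  | 2 => ⟨20, 31, 100, 100⟩
  | _ => ⟨189, 250, 1750, 1750⟩

/-- The box of piece 6. -/
def ubox6 : ℕ → Pack.Chart
  | 0 => ⟨6, 7, 10, 10⟩
  | 1 => ⟨76, 145, 50, 50⟩
  | 2 => ⟨119, 124, 400, 400⟩
  | _ => ⟨7, 8, 56, 56⟩

/-- A part of the box of piece 6. -/
def ubox6_piU_hi_0 : ℕ → Pack.Chart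
  | 0 => ⟨12, 13, 20, 20⟩
  | 1 => ⟨76, 145, 50, 50⟩
  | 2 => ⟨119, 124, 400, 400⟩
  | _ => ⟨7, 8, 56, 56⟩

/-- A part of the box of piece 6. -/
def ubox6_piU_hi_1 : ℕ → Pack.Chart
  | 0 => ⟨13, 14, 20, 20⟩
  | 1 => ⟨76, 145, 50, 50⟩
  | 2 => ⟨119, 124, 400, 400⟩
  | _ => ⟨7, 8, 56, 56⟩

/-- A part of the box of piece 6. -/
def ubox6_omU_lo_0 : ℕ → Pack.Chart
  | 0 => ⟨6, 7, 10, 10⟩
  | 1 => ⟨152, 221, 100, 100⟩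
  | 2 => ⟨119, 124, 400, 400⟩
  | _ => ⟨7, 8, 56, 56⟩

/-- A part of the box of piece 6. -/
def ubox6_omU_lo_1 : ℕ → Pack.Chart
  | 0 => ⟨6, 7, 10, 10⟩
  | 1 => ⟨221, 290, 100, 100⟩
  | 2 => ⟨119, 124, 400, 400⟩
  | _ => ⟨7, 8, 56, 56⟩

/-- A part of the box of piece 6. -/
def ubox6_omU_hi_0 : ℕ → Pack.Chart
  | 0 => ⟨6, 7, 10, 10⟩
  | 1 => ⟨152, 221, 100, 100⟩
  | 2 => ⟨119, 124, 400, 400⟩
  | _ => ⟨7, 8, 56, 56⟩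

/-- A part of the box of piece 6. -/
def ubox6_omU_hi_1 : ℕ → Pack.Chart
  | 0 => ⟨6, 7, 10, 10⟩
  | 1 => ⟨221, 290, 100, 100⟩
  | 2 => ⟨119, 124, 400, 400⟩
  | _ => ⟨7, 8, 56, 56⟩

/-- The box of piece 6 below its lower end of `X`. -/
def ubox6x : ℕ → Pack.Chart
  | 0 => ⟨6, 7, 10, 10⟩
  | 1 => ⟨91, 152, 100, 100⟩
  | 2 => ⟨119, 124, 400, 400⟩
  | _ => ⟨7, 8, 56, 56⟩

/-- The box of an exit curve. -/
def uexit6Box : ℕ → Pack.Chart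
  | 0 => ⟨6, 7, 10, 10⟩
  | 1 => ⟨76, 145, 50, 50⟩
  | 2 => ⟨119, 124, 400, 400⟩
  | _ => ⟨7, 8, 56, 56⟩

end Vale.Agent.P100.Calib.Closed.All.Low
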