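import Vale.Agent.P100.Calib.SlabMidSignsLow
import Vale.Agent.P100.Calib.SlabMidUpCert

/-!
# The closed signs on `3/5 ≤ u ≤ 7/10` in the dimensions from seven to twenty

The hypotheses are the bands of the three ranges of `I = (1 - S)/2` and their exit curves.
-/

set_option linter.unusedVariables false

namespace Vale.Agent.P100.Calib.Closed.All.Low

open Band

section
variable {d S u v t : ℝ} {z : Bool}

/-- The signs on the piece 0. -/
theorem signs_upiece0 {n : ℕ} (hb : ChartBox n d S) (hB : BasicM false d S u v t)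
    (u0 : 3 / 5 ≤ (ptOf d S u v).u)
    (u1 : (ptOf d S u v).u ≤ 7 / 10)
    (x0 : 97 / 100 ≤ (ptOf d S u v).X)
    (x1 : (ptOf d S u v).X ≤ 89 / 50)
    (a0 : 1 / 20 ≤ (ptOf d S u v).a)
    (a1 : (ptOf d S u v).a ≤ 9 / 50)
    (i0 : 1 / 20 ≤ (ptOf d S u v).I)
    (i1 : (ptOf d S u v).I ≤ 1 / 12)
    (hA : (ptOf d S u v).Adm (bandMid Band.midLowA Band.midUpA) (chH d S u v t)) : ChartSigns d S u v t := by
  rcases le_or_gt (29 / 25 : ℝ) (ptOf d S u v).X with hl | hl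
  · refine Piece.AllHoldQ.signs hb hB (upiece0_holds ?_) hA
    refine PtR.InM.of_bounds ?_ ?_ ?_ ?_ <;> simp only [ubox0, InChart] <;> norm_num <;>
      (try constructor) <;> linarith
  · refine absurd (hB.xDrift_neg hA) (not_lt.2 (u0_drift_holds ?_))
    refine PtR.InM.of_bounds ?_ ?_ ?_ ?_ <;> simp only [ubox0x, InChart] <;> norm_num <;>
      (try constructor) <;> linarith

/-- The signs on the piece 1. -/
theorem signs_upiece1 {n : ℕ} (hb : ChartBox n d S) (hB : BasicM false d S u v t)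
    (u0 : 3 / 5 ≤ (ptOf d S u v).u)
    (u1 : (ptOf d S u v).u ≤ 7 / 10)
    (x0 : 19 / 20 ≤ (ptOf d S u v).X)
    (x1 : (ptOf d S u v).X ≤ 12 / 5)
    (a0 : 9 / 50 ≤ (ptOf d S u v).a)
    (a1 : (ptOf d S u v).a ≤ 31 / 100)
    (i0 : 1 / 20 ≤ (ptOf d S u v).I)
    (i1 : (ptOf d S u v).I ≤ 1 / 12)
    (hA : (ptOf d S u v).Adm (bandMid Band.midLowA Band.midUpA) (chH d S u v t)) : ChartSigns d S u v t := by
  rcases le_or_gt (67 / 50 : ℝ) (ptOf d S u v).X with hl | hl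
  · refine Piece.AllHoldQ.signs hb hB (upiece1_holds ?_) hA
    refine PtR.InM.of_bounds ?_ ?_ ?_ ?_ <;> simp only [ubox1, InChart] <;> norm_num <;>
      (try constructor) <;> linarith
  · refine absurd (hB.xDrift_neg hA) (not_lt.2 (u1_drift_holds ?_))
    refine PtR.InM.of_bounds ?_ ?_ ?_ ?_ <;> simp only [ubox1x, InChart] <;> norm_num <;>
      (try constructor) <;> linarith

/-- The signs on the piece 2. -/
theorem signs_upiece2 {n : ℕ} (hb : ChartBox n d S) (hB : BasicM false d S u v t)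
    (u0 : 3 / 5 ≤ (ptOf d S u v).u)
    (u1 : (ptOf d S u v).u ≤ 7 / 10)
    (x0 : 19 / 20 ≤ (ptOf d S u v).X)
    (x1 : (ptOf d S u v).X ≤ 99 / 50)
    (a0 : 2 / 25 ≤ (ptOf d S u v).a)
    (a1 : (ptOf d S u v).a ≤ 1 / 5)
    (i0 : 1 / 12 ≤ (ptOf d S u v).I)
    (i1 : (ptOf d S u v).I ≤ 27 / 250)
    (hA : (ptOf d S u v).Adm (bandMid Band.midLowB Band.midUpB) (chH d S u v t)) : ChartSigns d S u v t := by
  rcases le_or_gt (63 / 50 : ℝ) (ptOf d S u v).X with hl | hl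
  · refine Piece.AllHoldQ.signs hb hB (upiece2_holds ?_) hA
    refine PtR.InM.of_bounds ?_ ?_ ?_ ?_ <;> simp only [ubox2, InChart] <;> norm_num <;>
      (try constructor) <;> linarith
  · refine absurd (hB.xDrift_neg hA) (not_lt.2 (u2_drift_holds ?_))
    refine PtR.InM.of_bounds ?_ ?_ ?_ ?_ <;> simp only [ubox2x, InChart] <;> norm_num <;>
      (try constructor) <;> linarith

/-- The signs on the piece 3. -/
theorem signs_upiece3 {n : ℕ} (hb : ChartBox n d S) (hB : BasicM false d S u v t)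
    (u0 : 3 / 5 ≤ (ptOf d S u v).u)
    (u1 : (ptOf d S u v).u ≤ 7 / 10)
    (x0 : 93 / 100 ≤ (ptOf d S u v).X)
    (x1 : (ptOf d S u v).X ≤ 5 / 2)
    (a0 : 1 / 5 ≤ (ptOf d S u v).a)
    (a1 : (ptOf d S u v).a ≤ 31 / 100)
    (i0 : 1 / 12 ≤ (ptOf d S u v).I)
    (i1 : (ptOf d S u v).I ≤ 27 / 250)
    (hA : (ptOf d S u v).Adm (bandMid Band.midLowB Band.midUpB) (chH d S u v t)) : ChartSigns d S u v t := by
  rcases le_or_gt (7 / 5 : ℝ) (ptOf d S u v).X with hl | hl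
  · refine Piece.AllHoldQ.signs hb hB (upiece3_holds ?_) hA
    refine PtR.InM.of_bounds ?_ ?_ ?_ ?_ <;> simp only [ubox3, InChart] <;> norm_num <;>
      (try constructor) <;> linarith
  · refine absurd (hB.xDrift_neg hA) (not_lt.2 (u3_drift_holds ?_))
    refine PtR.InM.of_bounds ?_ ?_ ?_ ?_ <;> simp only [ubox3x, InChart] <;> norm_num <;>
      (try constructor) <;> linarith

/-- The signs on the piece 4. -/
theorem signs_upiece4 {n : ℕ} (hb : ChartBox n d S) (hB : BasicM false d S u v t)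
    (u0 : 3 / 5 ≤ (ptOf d S u v).u)
    (u1 : (ptOf d S u v).u ≤ 7 / 10)
    (x0 : 47 / 50 ≤ (ptOf d S u v).X)
    (x1 : (ptOf d S u v).X ≤ 23 / 10)
    (a0 : 27 / 250 ≤ (ptOf d S u v).a)
    (a1 : (ptOf d S u v).a ≤ 1 / 5)
    (i0 : 27 / 250 ≤ (ptOf d S u v).I)
    (i1 : (ptOf d S u v).I ≤ 1 / 7)
    (hx : (ptOf d S u v).X * Band.midBracket Band.midExitC (ptOf d S u v).I (ptOf d S u v).a (ptOf d S u v).u < 1000)
    (hA : (ptOf d S u v).Adm (bandMid Band.midLowC Band.midUpC) (chH d S u v t)) : ChartSigns d S u v t := by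
  rcases le_or_gt (13 / 10 : ℝ) (ptOf d S u v).X with hl | hl
  · refine Piece.AllHoldQ.signs hb hB (upiece4_holds ?_ hx) hA
    refine PtR.InM.of_bounds ?_ ?_ ?_ ?_ <;> simp only [ubox4, InChart] <;> norm_num <;>
      (try constructor) <;> linarith
  · refine absurd (hB.xDrift_neg hA) (not_lt.2 (u4_drift_holds ?_))
    refine PtR.InM.of_bounds ?_ ?_ ?_ ?_ <;> simp only [ubox4x, InChart] <;> norm_num <;>
      (try constructor) <;> linarith

/-- The signs on the piece 5. -/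
theorem signs_upiece5 {n : ℕ} (hb : ChartBox n d S) (hB : BasicM false d S u v t)
    (u0 : 3 / 5 ≤ (ptOf d S u v).u)
    (u1 : (ptOf d S u v).u ≤ 7 / 10)
    (x0 : 91 / 100 ≤ (ptOf d S u v).X)
    (x1 : (ptOf d S u v).X ≤ 29 / 10)
    (a0 : 1 / 5 ≤ (ptOf d S u v).a)
    (a1 : (ptOf d S u v).a ≤ 31 / 100)
    (i0 : 27 / 250 ≤ (ptOf d S u v).I)
    (i1 : (ptOf d S u v).I ≤ 1 / 7)
    (hx : (ptOf d S u v).X * Band.midBracket Band.midExitC (ptOf d S u v).I (ptOf d S u v).a (ptOf d S u v).u < 1000)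
    (hA : (ptOf d S u v).Adm (bandMid Band.midLowC Band.midUpC) (chH d S u v t)) : ChartSigns d S u v t := by
  rcases le_or_gt (7 / 5 : ℝ) (ptOf d S u v).X with hl | hl
  · refine Piece.AllHoldQ.signs hb hB (upiece5_holds ?_ hx) hA
    refine PtR.InM.of_bounds ?_ ?_ ?_ ?_ <;> simp only [ubox5, InChart] <;> norm_num <;>
      (try constructor) <;> linarith
  · refine absurd (hB.xDrift_neg hA) (not_lt.2 (u5_drift_holds ?_))
    refine PtR.InM.of_bounds ?_ ?_ ?_ ?_ <;> simp only [ubox5x, InChart] <;> norm_num <;>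
      (try constructor) <;> linarith

/-- The signs on the piece 6. -/
theorem signs_upiece6 {n : ℕ} (hb : ChartBox n d S) (hB : BasicM true d S u v t)
    (u0 : 3 / 5 ≤ (ptOf d S u v).u)
    (u1 : (ptOf d S u v).u ≤ 7 / 10)
    (x0 : 91 / 100 ≤ (ptOf d S u v).X)
    (x1 : (ptOf d S u v).X ≤ 29 / 10)
    (a0 : 119 / 400 ≤ (ptOf d S u v).a)
    (a1 : (ptOf d S u v).a ≤ 31 / 100)
    (i0 : 1 / 8 ≤ (ptOf d S u v).I)
    (i1 : (ptOf d S u v).I ≤ 1 / 7)
    (hA : (ptOf d S u v).Adm (bandMid Band.midLowC Band.midUpC) (chH d S u v t)) : ChartSigns d S u v t := by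
  rcases le_or_gt (38 / 25 : ℝ) (ptOf d S u v).X with hl | hl
  · refine Piece.AllHoldQ.signs hb hB (upiece6_holds ?_) hA
    refine PtR.InM.of_bounds ?_ ?_ ?_ ?_ <;> simp only [ubox6, InChart] <;> norm_num <;>
      (try constructor) <;> linarith
  · refine absurd (hB.xDrift_neg hA) (not_lt.2 (u6_drift_holds ?_))
    refine PtR.InM.of_bounds ?_ ?_ ?_ ?_ <;> simp only [ubox6x, InChart] <;> norm_num <;>
      (try constructor) <;> linarith

/-- The signs for `I ≤ 1/12`. -/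
theorem signs_upA {n : ℕ} (h7 : 7 ≤ n) (hb : ChartBox n d S) (ha : (S - d) / 2 ≤ 31 / 100)
    (hF : ChartFacts d S u v t) {o : PtR} (ho : o = ptOf d S u v) (hI : 0 < o.I) (hI0 : 1 / 20 ≤ o.I)
    (hI7 : o.I ≤ 1 / 7) (hX : 0 < o.X) (ha' : o.a ≤ 31 / 100) (haI : o.I ≤ o.a) (ha0 : 0 < o.a)
    (hu0 : 0 < o.u) (u5 : 3 / 5 ≤ o.u) (u6 : o.u ≤ 7 / 10) (hXl : 1 < o.X * (1 + 2 * o.a * o.I))
    (hex : ∀ B : ℝ, v * B < 2000 * ((1 - S) / 2) → o.X * B < 1000)
    (hA : (1 - S) / 2 ≤ 1 / 12 →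
      (midBandG midLowA ((S - d) / 2) ((S + d) / 2) u v ≤ chH d S u v t ∧
        chH d S u v t ≤ midBandG midUpA ((S - d) / 2) ((S + d) / 2) u v) ∧
      v * midBracket midExitA ((1 - S) / 2) ((S - d) / 2) u < 2000 * ((1 - S) / 2))
    (hM : 1 / 12 < (1 - S) / 2 → (1 - S) / 2 < 27 / 250 →
      (midBandG midLowB ((S - d) / 2) ((S + d) / 2) u v ≤ chH d S u v t ∧
        chH d S u v t ≤ midBandG midUpB ((S - d) / 2) ((S + d) / 2) u v) ∧
      v * midBracket midExitB ((1 - S) / 2) ((S - d) / 2) u < 2000 * ((1 - S) / 2))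
    (hC : 27 / 250 ≤ (1 - S) / 2 →
      (midBandG midLowC ((S - d) / 2) ((S + d) / 2) u v ≤ chH d S u v t ∧
        chH d S u v t ≤ midBandG midUpC ((S - d) / 2) ((S + d) / 2) u v) ∧
      v * midBracket midExitC ((1 - S) / 2) ((S - d) / 2) u < 2000 * ((1 - S) / 2))
    (d2e : o.I ≤ 1 / 8 → (S - d) * ((1 + S) / 2) ≤ S ^ 2) 
    (i1 : o.I ≤ 1 / 12) :
    ChartSigns d S u v t := by
  subst ho
  set o := ptOf d S u v with ho
  have eu : o.u = u := rfl
  have eI : o.I = (1 - S) / 2 := rfl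
  rcases le_or_gt o.a (9 / 50) with a1 | a1
  ·
    have hB := BasicM.of_facts (z := false) hb h7 ha hF (d2e (by linarith))
    obtain ⟨⟨bl, br⟩, bx⟩ := hA (by linarith)
    have xl : (97 / 100 : ℝ) ≤ o.X := X_low_mid (a₁ := 9 / 50) (I₁ := 1 / 12) hX hXl ha0.le (by linarith)
      hI.le (by linarith) (by norm_num)
    have xr : o.X ≤ 89 / 50 := X_high_mid hX (by norm_num) (by norm_num) (hex _ bx)
      (uexit0_holds (o := o) (by linarith) (by linarith) (by linarith) (by linarith) (by linarith)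
        (by linarith))
    refine signs_upiece0 hb hB ?_ ?_ xl xr ?_ ?_ ?_ ?_ (hB.adm_mid bl br) <;> linarith
  ·
    have hB := BasicM.of_facts (z := false) hb h7 ha hF (d2e (by linarith))
    obtain ⟨⟨bl, br⟩, bx⟩ := hA (by linarith)
    have xl : (19 / 20 : ℝ) ≤ o.X := X_low_mid (a₁ := 31 / 100) (I₁ := 1 / 12) hX hXl ha0.le (by linarith)
      hI.le (by linarith) (by norm_num)
    have xr : o.X ≤ 12 / 5 := X_high_mid hX (by norm_num) (by norm_num) (hex _ bx)
      (uexit1_holds (o := o) (by linarith) (by linarith) (by linarith) (by linarith) (by linarith)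
        (by linarith))
    refine signs_upiece1 hb hB ?_ ?_ xl xr ?_ ?_ ?_ ?_ (hB.adm_mid bl br) <;> linarith

/-- The signs for `1/12 < I < 27/250`. -/
theorem signs_upM {n : ℕ} (h7 : 7 ≤ n) (hb : ChartBox n d S) (ha : (S - d) / 2 ≤ 31 / 100)
    (hF : ChartFacts d S u v t) {o : PtR} (ho : o = ptOf d S u v) (hI : 0 < o.I) (hI0 : 1 / 20 ≤ o.I)
    (hI7 : o.I ≤ 1 / 7) (hX : 0 < o.X) (ha' : o.a ≤ 31 / 100) (haI : o.I ≤ o.a) (ha0 : 0 < o.a)
    (hu0 : 0 < o.u) (u5 : 3 / 5 ≤ o.u) (u6 : o.u ≤ 7 / 10) (hXl : 1 < o.X * (1 + 2 * o.a * o.I))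
    (hex : ∀ B : ℝ, v * B < 2000 * ((1 - S) / 2) → o.X * B < 1000)
    (hA : (1 - S) / 2 ≤ 1 / 12 →
      (midBandG midLowA ((S - d) / 2) ((S + d) / 2) u v ≤ chH d S u v t ∧
        chH d S u v t ≤ midBandG midUpA ((S - d) / 2) ((S + d) / 2) u v) ∧
      v * midBracket midExitA ((1 - S) / 2) ((S - d) / 2) u < 2000 * ((1 - S) / 2))
    (hM : 1 / 12 < (1 - S) / 2 → (1 - S) / 2 < 27 / 250 →
      (midBandG midLowB ((S - d) / 2) ((S + d) / 2) u v ≤ chH d S u v t ∧
        chH d S u v t ≤ midBandG midUpB ((S - d) / 2) ((S + d) / 2) u v) ∧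
      v * midBracket midExitB ((1 - S) / 2) ((S - d) / 2) u < 2000 * ((1 - S) / 2))
    (hC : 27 / 250 ≤ (1 - S) / 2 →
      (midBandG midLowC ((S - d) / 2) ((S + d) / 2) u v ≤ chH d S u v t ∧
        chH d S u v t ≤ midBandG midUpC ((S - d) / 2) ((S + d) / 2) u v) ∧
      v * midBracket midExitC ((1 - S) / 2) ((S - d) / 2) u < 2000 * ((1 - S) / 2))
    (d2e : o.I ≤ 1 / 8 → (S - d) * ((1 + S) / 2) ≤ S ^ 2) 
    (i1 : 1 / 12 < o.I) (i2 : o.I < 27 / 250) :
    ChartSigns d S u v t := by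
  subst ho
  set o := ptOf d S u v with ho
  have eu : o.u = u := rfl
  have eI : o.I = (1 - S) / 2 := rfl
  rcases le_or_gt o.a (1 / 5) with a1 | a1
  ·
    have hB := BasicM.of_facts (z := false) hb h7 ha hF (d2e (by linarith))
    obtain ⟨⟨bl, br⟩, bx⟩ := hM (by linarith) (by linarith)
    have xl : (19 / 20 : ℝ) ≤ o.X := X_low_mid (a₁ := 1 / 5) (I₁ := 27 / 250) hX hXl ha0.le (by linarith)
      hI.le (by linarith) (by norm_num)
    have xr : o.X ≤ 99 / 50 := X_high_mid hX (by norm_num) (by norm_num) (hex _ bx)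
      (uexit2_holds (o := o) (by linarith) (by linarith) (by linarith) (by linarith) (by linarith)
        (by linarith))
    refine signs_upiece2 hb hB ?_ ?_ xl xr ?_ ?_ ?_ ?_ (hB.adm_mid bl br) <;> linarith
  ·
    have hB := BasicM.of_facts (z := false) hb h7 ha hF (d2e (by linarith))
    obtain ⟨⟨bl, br⟩, bx⟩ := hM (by linarith) (by linarith)
    have xl : (93 / 100 : ℝ) ≤ o.X := X_low_mid (a₁ := 31 / 100) (I₁ := 27 / 250) hX hXl ha0.le (by linarith)
      hI.le (by linarith) (by norm_num)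
    have xr : o.X ≤ 5 / 2 := X_high_mid hX (by norm_num) (by norm_num) (hex _ bx)
      (uexit3_holds (o := o) (by linarith) (by linarith) (by linarith) (by linarith) (by linarith)
        (by linarith))
    refine signs_upiece3 hb hB ?_ ?_ xl xr ?_ ?_ ?_ ?_ (hB.adm_mid bl br) <;> linarith

/-- The signs for `27/250 ≤ I`. -/
theorem signs_upC {n : ℕ} (h7 : 7 ≤ n) (hb : ChartBox n d S) (ha : (S - d) / 2 ≤ 31 / 100)
    (hF : ChartFacts d S u v t) {o : PtR} (ho : o = ptOf d S u v) (hI : 0 < o.I) (hI0 : 1 / 20 ≤ o.I)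
    (hI7 : o.I ≤ 1 / 7) (hX : 0 < o.X) (ha' : o.a ≤ 31 / 100) (haI : o.I ≤ o.a) (ha0 : 0 < o.a)
    (hu0 : 0 < o.u) (u5 : 3 / 5 ≤ o.u) (u6 : o.u ≤ 7 / 10) (hXl : 1 < o.X * (1 + 2 * o.a * o.I))
    (hex : ∀ B : ℝ, v * B < 2000 * ((1 - S) / 2) → o.X * B < 1000)
    (hA : (1 - S) / 2 ≤ 1 / 12 →
      (midBandG midLowA ((S - d) / 2) ((S + d) / 2) u v ≤ chH d S u v t ∧
        chH d S u v t ≤ midBandG midUpA ((S - d) / 2) ((S + d) / 2) u v) ∧
      v * midBracket midExitA ((1 - S) / 2) ((S - d) / 2) u < 2000 * ((1 - S) / 2))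
    (hM : 1 / 12 < (1 - S) / 2 → (1 - S) / 2 < 27 / 250 →
      (midBandG midLowB ((S - d) / 2) ((S + d) / 2) u v ≤ chH d S u v t ∧
        chH d S u v t ≤ midBandG midUpB ((S - d) / 2) ((S + d) / 2) u v) ∧
      v * midBracket midExitB ((1 - S) / 2) ((S - d) / 2) u < 2000 * ((1 - S) / 2))
    (hC : 27 / 250 ≤ (1 - S) / 2 →
      (midBandG midLowC ((S - d) / 2) ((S + d) / 2) u v ≤ chH d S u v t ∧
        chH d S u v t ≤ midBandG midUpC ((S - d) / 2) ((S + d) / 2) u v) ∧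
      v * midBracket midExitC ((1 - S) / 2) ((S - d) / 2) u < 2000 * ((1 - S) / 2))
    (d2e : o.I ≤ 1 / 8 → (S - d) * ((1 + S) / 2) ≤ S ^ 2) 
    (i2 : 27 / 250 ≤ o.I) :
    ChartSigns d S u v t := by
  subst ho
  set o := ptOf d S u v with ho
  have eu : o.u = u := rfl
  have eI : o.I = (1 - S) / 2 := rfl
  have e1 : S - d = 2 * o.a := by simp only [ho, ptOf]; ring
  have e2 : S = 1 - 2 * o.I := by simp only [ho, ptOf]; ring
  rcases le_or_gt o.a (1 / 5) with a1 | a1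
  · have d2 : (S - d) * ((1 + S) / 2) ≤ S ^ 2 := by
      rw [e1, e2]
      have h1 := mul_le_mul_of_nonneg_right a1 (show 0 ≤ 1 - o.I by linarith)
      have h2 := mul_nonneg (sub_nonneg.2 hI7) (show 0 ≤ 106 / 35 - 4 * o.I by linarith)
      linarith
    have hB := BasicM.of_facts (z := false) hb h7 ha hF d2
    obtain ⟨⟨bl, br⟩, bx⟩ := hC (by linarith)
    have xl : (47 / 50 : ℝ) ≤ o.X := X_low_mid (a₁ := 1 / 5) (I₁ := 1 / 7) hX hXl ha0.le (by linarith)
      hI.le (by linarith) (by norm_num)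
    have xr : o.X ≤ 23 / 10 := X_high_mid hX (by norm_num) (by norm_num) (hex _ bx)
      (uexit4_holds (o := o) (by linarith) (by linarith) (by linarith) (by linarith) (by linarith)
        (by linarith))
    refine signs_upiece4 hb hB ?_ ?_ xl xr ?_ ?_ ?_ ?_ (hex _ bx) (hB.adm_mid bl br) <;> linarith
  rcases le_or_gt ((S - d) * ((1 + S) / 2)) (S ^ 2) with d2 | d2
  ·
    have hB := BasicM.of_facts (z := false) hb h7 ha hF d2
    obtain ⟨⟨bl, br⟩, bx⟩ := hC (by linarith)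
    have xl : (91 / 100 : ℝ) ≤ o.X := X_low_mid (a₁ := 31 / 100) (I₁ := 1 / 7) hX hXl ha0.le (by linarith)
      hI.le (by linarith) (by norm_num)
    have xr : o.X ≤ 29 / 10 := X_high_mid hX (by norm_num) (by norm_num) (hex _ bx)
      (uexit5_holds (o := o) (by linarith) (by linarith) (by linarith) (by linarith) (by linarith)
        (by linarith))
    refine signs_upiece5 hb hB ?_ ?_ xl xr ?_ ?_ ?_ ?_ (hex _ bx) (hB.adm_mid bl br) <;> linarith
  · have i8 : 1 / 8 ≤ o.I := by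
      by_contra h
      linarith [d2e (not_le.1 h).le]
    have a3 : 119 / 400 ≤ o.a := by
      by_contra h
      rw [e1, e2] at d2
      have h1 := mul_lt_mul_of_pos_right (not_le.1 h) (show 0 < 1 - o.I by linarith)
      have h2 := mul_nonneg (sub_nonneg.2 hI7) (show 0 ≤ 3967 / 1400 - 4 * o.I by linarith)
      linarith
    have hB := BasicM.of_facts (z := true) hb h7 ha hF d2.le
    obtain ⟨⟨bl, br⟩, bx⟩ := hC (by linarith)
    have xl : (91 / 100 : ℝ) ≤ o.X := X_low_mid (a₁ := 31 / 100) (I₁ := 1 / 7) hX hXl ha0.le (by linarith)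
      hI.le (by linarith) (by norm_num)
    have xr : o.X ≤ 29 / 10 := X_high_mid hX (by norm_num) (by norm_num) (hex _ bx)
      (uexit6_holds (o := o) (by linarith) (by linarith) (by linarith) (by linarith) (by linarith)
        (by linarith))
    refine signs_upiece6 hb hB ?_ ?_ xl xr ?_ ?_ ?_ ?_ (hB.adm_mid bl br) <;> linarith

/-- **The closed signs on `3/5 ≤ u ≤ 7/10`, dimensions from seven to twenty, `a ≤ 31/100`.** -/
theorem signsMidUp {n : ℕ} (h7 : 7 ≤ n) (h20 : n < 20) (hb : ChartBox n d S)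
    (ha : (S - d) / 2 ≤ 31 / 100) (hu1 : 3 / 5 ≤ u) (hu : u ≤ 7 / 10) (hF : ChartFacts d S u v t)
    (hA : (1 - S) / 2 ≤ 1 / 12 →
      (midBandG midLowA ((S - d) / 2) ((S + d) / 2) u v ≤ chH d S u v t ∧
        chH d S u v t ≤ midBandG midUpA ((S - d) / 2) ((S + d) / 2) u v) ∧
      v * midBracket midExitA ((1 - S) / 2) ((S - d) / 2) u < 2000 * ((1 - S) / 2))
    (hM : 1 / 12 < (1 - S) / 2 → (1 - S) / 2 < 27 / 250 →
      (midBandG midLowB ((S - d) / 2) ((S + d) / 2) u v ≤ chH d S u v t ∧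
        chH d S u v t ≤ midBandG midUpB ((S - d) / 2) ((S + d) / 2) u v) ∧
      v * midBracket midExitB ((1 - S) / 2) ((S - d) / 2) u < 2000 * ((1 - S) / 2))
    (hC : 27 / 250 ≤ (1 - S) / 2 →
      (midBandG midLowC ((S - d) / 2) ((S + d) / 2) u v ≤ chH d S u v t ∧
        chH d S u v t ≤ midBandG midUpC ((S - d) / 2) ((S + d) / 2) u v) ∧
      v * midBracket midExitC ((1 - S) / 2) ((S - d) / 2) u < 2000 * ((1 - S) / 2)) :
    ChartSigns d S u v t := by
  have hS : 0 < 1 - S := sub_pos.2 hb.S_lt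
  set o := ptOf d S u v with ho
  have hN1 : (n : ℝ) ≤ 19 := by
    have : n ≤ 19 := by omega
    exact_mod_cast this
  have dl : (n : ℝ) * (1 - S) < 2 := (lt_div_iff₀ hS).1 hb.dim_low
  have dh : 2 < 20 * (1 - S) := (div_lt_iff₀ hS).1 (hb.dim_high (by omega))
  have eI : o.I = (1 - S) / 2 := rfl
  have eu : o.u = u := rfl
  have hn7 : (7 : ℝ) ≤ n := by exact_mod_cast h7
  have hI : 0 < o.I := by rw [eI]; linarith
  have hI0 : 1 / 20 ≤ o.I := by
    rw [eI]
    linarith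
  have hI7 : o.I ≤ 1 / 7 := by
    rw [eI]; linarith [mul_le_mul_of_nonneg_right hn7 hS.le]
  have hk : 0 < 2 + (S - d) * (1 - S) := by
    have := mul_nonneg (show 0 ≤ S - d by linarith [hb.one, hb.S_lt]) hS.le
    linarith
  have hv : 0 < v := pos_of_mul_pos_left ((mul_pos two_pos hS).trans hF.v_crit) hk.le
  have hX : 0 < o.X := div_pos hv hS
  have ha' : o.a ≤ 31 / 100 := ha
  have haI : o.I ≤ o.a := by simp only [ho, ptOf]; linarith [hb.one]
  have ha0 : 0 < o.a := by linarith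
  have hu0 : 0 < o.u := hF.u_pos
  have eX : v = 2 * o.I * o.X := by
    have : 1 - S ≠ 0 := hS.ne'
    simp only [ho, ptOf]
    field_simp
  have hXl : 1 < o.X * (1 + 2 * o.a * o.I) := by
    refine lt_of_mul_lt_mul_left (a := 2 * (2 * o.I)) ?_ (by positivity)
    have h := hF.v_crit
    rw [show 1 - S = 2 * o.I by simp only [ho, ptOf]; ring,
      show S - d = 2 * o.a by simp only [ho, ptOf]; ring, eX] at h
    linarith
  have hex : ∀ B : ℝ, v * B < 2000 * ((1 - S) / 2) → o.X * B < 1000 := by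
    intro B h
    rw [← eI, eX] at h
    refine lt_of_mul_lt_mul_left (a := 2 * o.I) ?_ (by positivity)
    linarith
  have u5 : 3 / 5 ≤ o.u := hu1
  have u6 : o.u ≤ 7 / 10 := hu
  have d2e : o.I ≤ 1 / 8 → (S - d) * ((1 + S) / 2) ≤ S ^ 2 := fun h => by
    have e1 : S - d = 2 * o.a := by simp only [ho, ptOf]; ring
    have e2 : S = 1 - 2 * o.I := by simp only [ho, ptOf]; ring
    rw [e1, e2]
    have h1 := mul_le_mul_of_nonneg_right ha' (show 0 ≤ 1 - o.I by linarith)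
    have h2 := mul_nonneg (sub_nonneg.2 h) (show 0 ≤ 72 / 25 - 4 * o.I by linarith)
    linarith
  rcases le_or_gt o.I (1 / 12) with i1 | i1
  · exact signs_upA h7 hb ha hF ho hI hI0 hI7 hX ha' haI ha0 hu0 u5 u6 hXl hex hA hM hC d2e i1
  rcases lt_or_ge o.I (27 / 250) with i2 | i2
  · exact signs_upM h7 hb ha hF ho hI hI0 hI7 hX ha' haI ha0 hu0 u5 u6 hXl hex hA hM hC d2e i1 i2
  exact signs_upC h7 hb ha hF ho hI hI0 hI7 hX ha' haI ha0 hu0 u5 u6 hXl hex hA hM hC d2e i2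

end

end Vale.Agent.P100.Calib.Closed.All.Low
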