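import Vale.Agent.P100.Calib.SlabNegExpr

/-!
# The signs of the bands for `u < 0`, checked
-/

namespace Vale.Agent.P100.Calib.Band

open BoxPos

/-- A box with `-u` in `[a, b) / 1000`, `ω` in `[0, 1.001)` and `d` in `[0, 0.201)`. -/
def nBox (a b : ℤ) : Box := ⟨⟨a, b, 1000⟩, ⟨0, 1001, 1000⟩, sideD, sideS⟩

theorem negL_check : negL.check ⟨300, ⟨6, 3, 10, 9⟩⟩ (nBox 0 406) = true := by decide +kernel

theorem negU_check₁ : negU.check ⟨310, ⟨6, 3, 10, 9⟩⟩ (nBox 0 250) = true := by decide +kernel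

theorem negU_check₂ : negU.check ⟨310, ⟨6, 3, 10, 9⟩⟩ (nBox 250 406) = true := by decide +kernel

theorem negLoU_check : negLoU.check ⟨240, ⟨5, 0, 8, 7⟩⟩ (nBox 0 406) = true := by decide +kernel

theorem negLoL_check : negLoL.check ⟨240, ⟨4, 0, 8, 7⟩⟩ (nBox 0 406) = true := by decide +kernel

theorem negHiU_check : negHiU.check ⟨210, ⟨5, 0, 8, 4⟩⟩ (nBox 0 406) = true := by decide +kernel

theorem negHiL_check : negHiL.check ⟨210, ⟨4, 0, 8, 4⟩⟩ (nBox 0 406) = true := by decide +kernel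

theorem negEnd_check : negEnd.check ⟨180, ⟨0, 2, 7, 4⟩⟩ (nBox 0 1001) = true := by decide +kernel

end Vale.Agent.P100.Calib.Band
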