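import Vale.Agent.P100.Calib.SlabBandExpr
import Vale.Agent.P100.Calib.SlabGeneric

/-!
# The signs of the bands for `u < 0` on the slab

The variables are `(-u, ω, d, S)`, with `v = w + (9/50) u` and `w = w₀ + ω (w₁ - w₀)`,
`w₀ = 89/250 + d/16 - (S - 3/5)`, `w₁ = 14/25 - d/20`.
-/

namespace Vale.Agent.P100.Calib.Band

open BoxPos

local instance negExprAdd : Add Ex := ⟨Ex.add⟩
local instance negExprSub : Sub Ex := ⟨Ex.sub⟩
local instance negExprMul : Mul Ex := ⟨Ex.mul⟩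

/-- `w₀`. -/
def nW₀ : Ex := eC 89 250 + eC 1 16 * eD - (eS - eC 3 5)

/-- `w₁`. -/
def nW₁ : Ex := eC 14 25 - eC 1 20 * eD

/-- The bound of `-u`. -/
def nUm (w : Ex) : Ex := eC 1 500 + eC 7 40 * eD + (eC 5 8 + eC 1 5 * eD) * w

/-- `w` in the box. -/
def nW : Ex := nW₀ + eV * (nW₁ - nW₀)

/-- `u` in the box. -/
def nU : Ex := eC (-1) * eU

/-- The slope of the lower band. -/
def nCl : Ex := eC 143 100 - eC 5 * eD + eC 25 4 * (eD * eD)

/-- The constant of the upper band. -/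
def nCu : Ex := eC 131 100 - eC 26 5 * eD + eC 43 5 * (eD * eD)

/-- The slope in `u` of the upper band. -/
def nSu : Ex := eC 93 100 - eC 9 2 * eD + eC 7 * (eD * eD)

/-- `bandB`. -/
def nB : Ex := eC 1 2 * (eS + eD) * (eC 2 - eS)

/-- `bandK` at `(u, v, t)`. -/
def nK (u v t : Ex) : Ex := eS * (eC 1 + (eC 1 - eA) * v) + nB * u * t

/-- `lieT` at `(u, v)`. -/
def nLie (u v c₁ c₂ : Ex) : Ex :=
  let B := nB
  let P := c₁ + c₂ * u
  let K := eS * (eC 1 + (eC 1 - eA) * v) + B * u * P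
  let D := B * (eC 2 + eD * v) - eD * u * K
  let c := eC 1 + (eC 1 - eA) * v
  let Qn := (eS + eD) * (eC 2 + eD * v) - eC 2 * eS * u * (eC 1 + eD * v)
  let be := eC 1 2 * (eS + eD)
  eC (-2) * B * B * B * (eC 2 + eD * v) * P +
    B * (eC 4 * eS * (eC 1 + eD * v) * K - eC 2 * eS * c * eD * K) -
    eD * K * (eC 2 * eS * c * D - eC 2 * Qn * K) -
    eC 2 * eS * be * eD * K * K -
    eC 2 * eS * be * K * D -
    (c₁ + eC 2 * c₂ * u) * B *
      ((B - u * eD * K) * Qn + eC 2 * eS * (u - eC 1) * be * D) -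
    eS * (eC 1 - eA) * (eC 1 + eD * v) *
      (Qn * K - eC 2 * eS * (eC 1 - eA * v) * D)

/-- `exitP` at `(u, v, t)` with `W = 1`, `g = 9/50`. -/
def nExit (u v t : Ex) : Ex :=
  let B := nB
  let K := nK u v t
  let D := B * (eC 2 + eD * v) - eD * u * K
  let be := eC 1 2 * (eS + eD)
  let Qn := (eS + eD) * (eC 2 + eD * v) - eC 2 * eS * u * (eC 1 + eD * v)
  (eC 1 + eD * v) * (Qn * K - eC 2 * eS * (eC 1 - eA * v) * D) -
    eC 9 50 * ((B - u * eD * K) * Qn + eC 2 * eS * (u - eC 1) * be * D)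

/-- `v` from `u` and `w`. -/
def nV (u w : Ex) : Ex := w + eC 9 50 * u

/-- The lower band: `-lieT`. -/
def negL : Ex := eC 0 - nLie nU (nV nU nW) nCl (eC 0)

/-- The upper band: `lieT`. -/
def negU : Ex := nLie nU (nV nU nW) nCu nSu

/-- The lower line at the upper band. -/
def negLoU : Ex :=
  eC 0 - nExit nU (nV nU nW₀) (nCu + nSu * nU)

/-- The lower line at the lower band. -/
def negLoL : Ex := eC 0 - nExit nU (nV nU nW₀) nCl

/-- The upper line at the upper band. -/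
def negHiU : Ex :=
  nExit nU (nV nU nW₁) (nCu + nSu * nU)

/-- The upper line at the lower band. -/
def negHiL : Ex := nExit nU (nV nU nW₁) nCl

/-- The end of the range of `u`. -/
def negEnd : Ex :=
  let u := eC (-1) * nUm nW
  let v := nV u nW
  eC (-1) * u * nK u v nCl - nB * v

end Vale.Agent.P100.Calib.Band
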