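import Vale.Agent.P100.Calib.SlabUpperExpr

/-!
# The exit threshold `psi` from an upper band

Where `h - hc < d u (T + b v)`, the flow `dv > 0` gives `exitP (T + b v) 1 0 > 0`. A certified sign of
this numerator below `vCrit + psi` then bounds `v` from below.
-/

namespace Vale.Agent.P100.Calib.Band

open Vale.Agent.P100.Bubble Chart BoxPos

local instance psiAdd : Add Ex := ⟨Ex.add⟩
local instance psiSub : Sub Ex := ⟨Ex.sub⟩
local instance psiMul : Mul Ex := ⟨Ex.mul⟩

variable {N p q : ℝ} {S : Set ℝ} {R x y s dx dy : ℝ → ℝ}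

/-- The critical value of `v`. -/
noncomputable def vCrit (S d : ℝ) : ℝ := 2 * (1 - S) / (2 + (S - d) * (1 - S))

/-- The threshold at `u = 39/40`. -/
noncomputable def psiTwo (d : ℝ) : ℝ := 3 / 2 - 94 / 10 * d + 28 * d ^ 2

/-- **`dv > 0` under an upper band.** -/
theorem exitP_pos_of_upper (hf : IsOrbitFns N p q S R x y s dx dy)
    (hb : SlabBox N (1 / (p + 1)) (1 / (q + 1))) {w : ℝ} (hw : w ∈ S) (hw0 : 0 < R w) {T b : ℝ}
    {Tf : ℝ → ℝ} (hT : Tf (uOf N (R w) (x w)) = T)
    (hal : (1 / (p + 1)) * vOf (1 / (p + 1)) (1 / (q + 1)) (y w / x w) ≤ 1)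
    (hup : hOf N (R w) (x w) (y w) w < bandT N (1 / (p + 1)) (1 / (q + 1))
        (1 / (q + 1) - 1 / (p + 1)) Tf (uOf N (R w) (x w)) (y w / x w) +
      (1 / (q + 1) - 1 / (p + 1)) * uOf N (R w) (x w) *
        (b * vOf (1 / (p + 1)) (1 / (q + 1)) (y w / x w))) :
    0 < exitP (1 / (p + 1) + 1 / (q + 1)) (1 / (q + 1) - 1 / (p + 1)) (uOf N (R w) (x w))
      (vOf (1 / (p + 1)) (1 / (q + 1)) (y w / x w))
      (T + b * vOf (1 / (p + 1)) (1 / (q + 1)) (y w / x w)) 1 0 := by
  obtain ⟨hu0, hu1, -, hr1, hh0, hh1, -, hc0, hk, hflow⟩ := hf.chart hb.five hb.low w hw hw0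
  obtain ⟨halp, hbe, hd, hS1, hS2, -, -⟩ := hb.facts
  set al := 1 / (p + 1) with hald
  set be := 1 / (q + 1) with hbed
  set d := be - al with hdd
  set u := uOf N (R w) (x w)
  set r := y w / x w
  set h := hOf N (R w) (x w) (y w) w
  set v := vOf al be r with hvd
  set t := tauOf N al be d u r h with htd
  set Sg := al + be with hSg
  have hv : 33 / 100 ≤ v := (hb.v_mem hc0 hr1 hk).1
  have hdu : 0 < d * u := mul_pos hd hu0
  have e : d * u * t = h - hc N al be r := by
    simp only [t, tauOf]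
    field_simp
  have ht : t < T + b * v := by
    refine lt_of_mul_lt_mul_left ?_ hdu.le
    rw [e]
    simp only [bandT, hT] at hup
    linarith
  have hr : al / be * (1 + d * v) = r := hb.r_eq r
  have hh : h = d * bandK Sg d u v t 0 0 / bandB Sg d := by
    have := band_value (u := u) (v := v) (c₁ := t) (c₂ := 0) (c₃ := 0)
      hb.sum rfl rfl halp.ne' hbe.ne' hS1 hS2
    rw [hr] at this
    rw [← this]
    have e2 : bandL N al be d t 0 0 u r = hc N al be r + d * u * t := by
      simp only [bandL]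
      ring
    rw [← hdd, e2]
    linarith
  have hB : 0 < bandB Sg d := by
    unfold bandB; exact mul_pos (by linarith) (by linarith [hb.S_high])
  have huh : u * h < 1 := lt_of_le_of_lt (mul_le_of_le_one_right hu0.le hh1.le) hu1
  have hdv : 0 < d * v := mul_pos hd (lt_of_lt_of_le (by norm_num) hv)
  have hD : 0 < denV Sg d u v t := by
    have e : denV Sg d u v t = bandB Sg d * (2 + d * v - u * h) := by
      rw [hh]
      simp only [denV, bandD]
      field_simp
    rw [e]
    exact mul_pos hB (by linarith)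
  have hp : 0 < exitP Sg d u v t 1 0 := by
    have := exitP_band (u := u) (v := v) (t := t) (W := 1) (g := 0)
      hb.sum rfl rfl halp.ne' hbe.ne' hS1 hS2 hD.ne'
    rw [← hh, hr] at this
    refine pos_of_mul_pos_right (this ▸ ?_) hd.le
    refine mul_pos ?_ (mul_pos (mul_pos (by linarith [hb.S_high]) hbe) hD)
    have := mul_pos (show 0 < 1 + d * v by linarith) (sub_pos.2 hflow)
    linarith
  have hSpos : 0 < Sg := by linarith
  have e2 : (Sg - d) / 2 = al := by simp only [Sg, d]; ring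
  have hQ : 0 ≤ bandQ Sg d u v := by
    have h1 := mul_nonneg (mul_nonneg hSpos.le (show (0 : ℝ) ≤ 1 + d * v by linarith))
      (sub_nonneg.2 hu1.le)
    have h2 := mul_nonneg hd.le (show (0 : ℝ) ≤ 2 - (Sg - d) * v by
      linarith [show (Sg - d) * v = 2 * (al * v) by rw [← e2]; ring])
    have h3 := mul_nonneg hd.le hdv.le
    simp only [bandQ]
    linarith
  have h1 : 0 ≤ (1 - (Sg - d) / 2 * v) := by rw [e2]; linarith
  refine lt_of_lt_of_le hp (sub_nonneg.1 ?_)
  have h4 := mul_nonneg (show (0 : ℝ) ≤ 1 + d * v by linarith)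
    (mul_nonneg (mul_nonneg (mul_nonneg hB.le hu0.le) (sub_nonneg.2 ht.le))
      (add_nonneg hQ (mul_nonneg (mul_nonneg (mul_nonneg zero_le_two hSpos.le) h1) hdu.le)))
  simp only [exitP, bandK, bandD]
  generalize bandQ Sg d u v = Q at h4 ⊢
  generalize bandB Sg d = B at h4 ⊢
  linarith

/-- `(2 + (S - d) (1 - S)) (vCrit + psi - v)`. -/
def ePsiGap : Ex :=
  eC 2 * (eC 1 - eS) +
    ((eC 3 2 - eC 94 10 * eD + eC 28 * (eD * eD)) - eV) * (eC 2 + (eS - eD) * (eC 1 - eS))

/-- `- dv - m gap` on the band. -/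
def ePsiCond (N G b : Ex) (m : ℕ) : Ex :=
  eC 0 - eDvH (N + b * eV * G) G - eC m 1000 * (G * ePsiGap)

theorem val_psiGap {u v d S : ℝ} (hden : 0 < 2 + (S - d) * (1 - S)) :
    ePsiGap.val u v d S = (2 + (S - d) * (1 - S)) * (vCrit S d + psiTwo d - v) := by
  have e : (2 + (S - d) * (1 - S)) * vCrit S d = 2 * (1 - S) := mul_div_cancel₀ _ hden.ne'
  simp only [ePsiGap, val_addU, val_mulU, val_subU, Ex.val, psiTwo]
  push_cast
  linear_combination -e

theorem exitP_neg_of_cond {u v d S : ℝ} {N G b : Ex} {m : ℕ} {a β : ℝ}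
    (h : 0 < (ePsiCond N G b m).val u v d S) (hG : 0 < G.val u v d S)
    (hn : N.val u v d S = a * G.val u v d S) (hβ : b.val u v d S = β)
    (hgap : 0 ≤ ePsiGap.val u v d S) : exitP S d u v (a + β * v) 1 0 < 0 := by
  obtain ⟨hB, hA, hQ⟩ := val_rat_parts u v d S
  have e2 : (eDvH (N + b * eV * G) G).val u v d S =
      G.val u v d S * exitP S d u v (a + β * v) 1 0 := by
    have hn' : (N + b * eV * G).val u v d S = (a + β * v) * G.val u v d S := by
      simp only [val_addU, val_mulU, Ex.val, hn, hβ]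
      ring
    generalize hN : N + b * eV * G = n at hn' ⊢
    simp only [eDvH, val_addT, val_subT, val_mulT, Ex.val, hB, hA, hQ, exitP, bandD, bandK, hn']
    push_cast
    ring
  simp only [ePsiCond, val_subU, val_mulU (eC m 1000), val_mulU G, e2, Ex.val] at h
  push_cast at h
  have := mul_nonneg (show (0 : ℝ) ≤ (m : ℝ) / 1000 by positivity) (mul_nonneg hG.le hgap)
  refine (pos_of_mul_pos_right (a := G.val u v d S) (b := -exitP S d u v (a + β * v) 1 0) ?_
    hG.le) |> neg_pos.1
  linarith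

end Vale.Agent.P100.Calib.Band
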