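import Vale.Agent.P100.Calib.SlabPsiLowExpr

/-!
# Certificates of the exit threshold, `d ≤ 1/20`
-/

namespace Vale.Agent.P100.Calib.Band

open BoxPos

theorem low_psi_0 : (lowPsiFlat 0).checkQuick lowFlatCfg
    (lowUpBox 9750 9751 10000 3300 13905 373 501 600837) = true := by decide +kernel

theorem low_psi_1 : (lowPsiFlat 0).checkQuick lowFlatCfg
    (lowUpBox 9750 9751 10000 13905 15230 373 389 600505) = true := by decide +kernel

theorem low_psi_2 : (lowPsiFlat 0).checkQuick lowFlatCfg
    (lowUpBox 9750 9751 10000 15230 15893 373 381 600484) = true := by decide +kernel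

theorem low_psi_3 : (lowPsiFlat 116).checkQuick lowFlatCfg
    (lowUpBox 9750 9751 10000 15893 16556 373 381 600484) = true := by decide +kernel

theorem low_psi_4 : (lowPsiFlat 116).checkQuick lowFlatCfg
    (lowUpBox 9750 9751 10000 15230 16556 381 389 600505) = true := by decide +kernel

theorem low_psi_5 : (lowPsiFlat 116).checkQuick lowFlatCfg
    (lowUpBox 9750 9751 10000 13905 16556 389 405 600547) = true := by decide +kernel

theorem low_psi_6 : (lowPsiFlat 116).checkQuick lowFlatCfg
    (lowUpBox 9750 9751 10000 13905 19207 405 437 600637) = true := by decide +kernel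

theorem low_psi_7 : (lowPsiFlat 116).checkQuick lowFlatCfg
    (lowUpBox 9750 9751 10000 13905 19207 437 469 600734) = true := by decide +kernel

theorem low_psi_8 : (lowPsiFlat 116).checkQuick lowFlatCfg
    (lowUpBox 9750 9751 10000 13905 19207 469 501 600837) = true := by decide +kernel

theorem low_psi_9 : (lowPsiCorn 0).checkQuick lowCornCfg
    (lowUpBox 0 2502 100000 3300 13905 14925 14926 600465) = true := by decide +kernel

theorem low_psi_10 : (lowPsiCorn 0).checkQuick lowCornCfg
    (lowUpBox 0 625 100000 13905 19207 14925 14926 600030) = true := by decide +kernel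

theorem low_psi_11 : (lowPsiCorn 0).checkQuick lowCornCfg
    (lowUpBox 625 1251 100000 13905 19207 14925 14926 600117) = true := by decide +kernel

theorem low_psi_12 : (lowPsiCorn 74).checkQuick lowCornCfg
    (lowUpBox 0 625 100000 19207 24510 14925 14926 600030) = true := by decide +kernel

theorem low_psi_13 : (lowPsiCorn 0).checkQuick lowCornCfg
    (lowUpBox 625 938 100000 19207 20532 14925 14926 600066) = true := by decide +kernel

theorem low_psi_14 : (lowPsiCorn 0).checkQuick lowCornCfg
    (lowUpBox 625 781 100000 20532 21195 14925 14926 600046) = true := by decide +kernel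

theorem low_psi_15 : (lowPsiCorn 74).checkQuick lowCornCfg
    (lowUpBox 625 781 100000 21195 21858 14925 14926 600046) = true := by decide +kernel

theorem low_psi_16 : (lowPsiCorn 74).checkQuick lowCornCfg
    (lowUpBox 781 938 100000 20532 21195 14925 14926 600066) = true := by decide +kernel

theorem low_psi_17 : (lowPsiCorn 93).checkQuick lowCornCfg
    (lowUpBox 781 938 100000 21195 21858 14925 14926 600066) = true := by decide +kernel

theorem low_psi_18 : (lowPsiCorn 0).checkQuick lowCornCfg
    (lowUpBox 938 1094 100000 19207 19869 14925 14926 600089) = true := by decide +kernel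

theorem low_psi_19 : (lowPsiCorn 74).checkQuick lowCornCfg
    (lowUpBox 938 1094 100000 19869 20532 14925 14926 600089) = true := by decide +kernel

theorem low_psi_20 : (lowPsiCorn 74).checkQuick lowCornCfg
    (lowUpBox 1094 1251 100000 19207 19869 14925 14926 600117) = true := by decide +kernel

theorem low_psi_21 : (lowPsiCorn 74).checkQuick lowCornCfg
    (lowUpBox 1094 1172 100000 19869 20532 14925 14926 600103) = true := by decide +kernel

theorem low_psi_22 : (lowPsiCorn 93).checkQuick lowCornCfg
    (lowUpBox 1172 1251 100000 19869 20532 14925 14926 600117) = true := by decide +kernel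

theorem low_psi_23 : (lowPsiCorn 93).checkQuick lowCornCfg
    (lowUpBox 938 1094 100000 20532 21195 14925 14926 600089) = true := by decide +kernel

theorem low_psi_24 : (lowPsiCorn 0).checkQuick lowCornCfg
    (lowUpBox 1251 1876 100000 13905 16556 14925 14926 600262) = true := by decide +kernel

theorem low_psi_25 : (lowPsiCorn 0).checkQuick lowCornCfg
    (lowUpBox 1251 1563 100000 16556 17881 14925 14926 600182) = true := by decide +kernel

theorem low_psi_26 : (lowPsiCorn 0).checkQuick lowCornCfg
    (lowUpBox 1251 1407 100000 17881 19207 14925 14926 600148) = true := by decide +kernel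

theorem low_psi_27 : (lowPsiCorn 0).checkQuick lowCornCfg
    (lowUpBox 1407 1563 100000 17881 18544 14925 14926 600182) = true := by decide +kernel

theorem low_psi_28 : (lowPsiCorn 74).checkQuick lowCornCfg
    (lowUpBox 1407 1563 100000 18544 19207 14925 14926 600182) = true := by decide +kernel

theorem low_psi_29 : (lowPsiCorn 0).checkQuick lowCornCfg
    (lowUpBox 1563 1876 100000 16556 17881 14925 14926 600262) = true := by decide +kernel

theorem low_psi_30 : (lowPsiCorn 74).checkQuick lowCornCfg
    (lowUpBox 1563 1719 100000 17881 18544 14925 14926 600220) = true := by decide +kernel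

theorem low_psi_31 : (lowPsiCorn 93).checkQuick lowCornCfg
    (lowUpBox 1563 1719 100000 18544 19207 14925 14926 600220) = true := by decide +kernel

theorem low_psi_32 : (lowPsiCorn 93).checkQuick lowCornCfg
    (lowUpBox 1719 1876 100000 17881 18544 14925 14926 600262) = true := by decide +kernel

theorem low_psi_33 : (lowPsiCorn 0).checkQuick lowCornCfg
    (lowUpBox 1876 2189 100000 13905 16556 14925 14926 600356) = true := by decide +kernel

theorem low_psi_34 : (lowPsiCorn 0).checkQuick lowCornCfg
    (lowUpBox 2189 2502 100000 13905 15230 14925 14926 600465) = true := by decide +kernel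

theorem low_psi_35 : (lowPsiCorn 0).checkQuick lowCornCfg
    (lowUpBox 2189 2345 100000 15230 16556 14925 14926 600409) = true := by decide +kernel

theorem low_psi_36 : (lowPsiCorn 0).checkQuick lowCornCfg
    (lowUpBox 2345 2502 100000 15230 15893 14925 14926 600465) = true := by decide +kernel

theorem low_psi_37 : (lowPsiCorn 93).checkQuick lowCornCfg
    (lowUpBox 2345 2502 100000 15893 16556 14925 14926 600465) = true := by decide +kernel

theorem low_psi_38 : (lowPsiCorn 0).checkQuick lowCornCfg
    (lowUpBox 1876 2032 100000 16556 17218 14925 14926 600307) = true := by decide +kernel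

theorem low_psi_39 : (lowPsiCorn 93).checkQuick lowCornCfg
    (lowUpBox 1876 2032 100000 17218 17881 14925 14926 600307) = true := by decide +kernel

theorem low_psi_40 : (lowPsiCorn 0).checkQuick lowCornCfg
    (lowUpBox 2032 2189 100000 16556 17218 14925 14926 600356) = true := by decide +kernel

theorem low_psi_41 : (lowPsiCorn 93).checkQuick lowCornCfg
    (lowUpBox 2032 2189 100000 17218 17881 14925 14926 600356) = true := by decide +kernel

theorem low_psi_42 : (lowPsiCorn 116).checkQuick lowCornCfg
    (lowUpBox 1876 2032 100000 17881 18544 14925 14926 600307) = true := by decide +kernel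

theorem low_psi_43 : (lowPsiCorn 93).checkQuick lowCornCfg
    (lowUpBox 2189 2345 100000 16556 17218 14925 14926 600409) = true := by decide +kernel

theorem low_psi_44 : (lowPsiCorn 116).checkQuick lowCornCfg
    (lowUpBox 2189 2345 100000 17218 17881 14925 14926 600409) = true := by decide +kernel

theorem low_psi_45 : (lowPsiCorn 116).checkQuick lowCornCfg
    (lowUpBox 2345 2502 100000 16556 17218 14925 14926 600465) = true := by decide +kernel

theorem low_psi_46 : (lowPsiCorn 74).checkQuick lowCornCfg
    (lowUpBox 1251 1407 100000 19207 19869 14925 14926 600148) = true := by decide +kernel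

theorem low_psi_47 : (lowPsiCorn 93).checkQuick lowCornCfg
    (lowUpBox 1407 1563 100000 19207 19869 14925 14926 600182) = true := by decide +kernel

theorem low_psi_out_0 : (Ex.sub (eC 0) ePsiGapLow).checkQuick lowFlatCfg
    (lowUpBox 9750 9751 10000 16556 19207 373 405 600547) = true := by decide +kernel

theorem low_psi_out_1 : (Ex.sub (eC 0) ePsiGapLow).checkQuick lowFlatCfg
    (lowUpBox 9750 9751 10000 19207 24510 373 437 600637) = true := by decide +kernel

theorem low_psi_out_2 : (Ex.sub (eC 0) ePsiGapLow).checkQuick lowFlatCfg
    (lowUpBox 9750 9751 10000 19207 24510 437 501 600837) = true := by decide +kernel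

theorem low_psi_out_3 : (Ex.sub (eC 0) (toCorner ePsiGapLow)).checkQuick lowCornCfg
    (lowUpBox 938 1094 100000 21195 21858 14925 14926 600089) = true := by decide +kernel

theorem low_psi_out_4 : (Ex.sub (eC 0) (toCorner ePsiGapLow)).checkQuick lowCornCfg
    (lowUpBox 1094 1251 100000 20532 21858 14925 14926 600117) = true := by decide +kernel

theorem low_psi_out_5 : (Ex.sub (eC 0) (toCorner ePsiGapLow)).checkQuick lowCornCfg
    (lowUpBox 625 1251 100000 21858 24510 14925 14926 600117) = true := by decide +kernel

theorem low_psi_out_6 : (Ex.sub (eC 0) (toCorner ePsiGapLow)).checkQuick lowCornCfg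
    (lowUpBox 1719 1876 100000 18544 19207 14925 14926 600262) = true := by decide +kernel

theorem low_psi_out_7 : (Ex.sub (eC 0) (toCorner ePsiGapLow)).checkQuick lowCornCfg
    (lowUpBox 1876 2032 100000 18544 19207 14925 14926 600307) = true := by decide +kernel

theorem low_psi_out_8 : (Ex.sub (eC 0) (toCorner ePsiGapLow)).checkQuick lowCornCfg
    (lowUpBox 2032 2189 100000 17881 19207 14925 14926 600356) = true := by decide +kernel

theorem low_psi_out_9 : (Ex.sub (eC 0) (toCorner ePsiGapLow)).checkQuick lowCornCfg
    (lowUpBox 2345 2502 100000 17218 17881 14925 14926 600465) = true := by decide +kernel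

theorem low_psi_out_10 : (Ex.sub (eC 0) (toCorner ePsiGapLow)).checkQuick lowCornCfg
    (lowUpBox 2189 2502 100000 17881 19207 14925 14926 600465) = true := by decide +kernel

theorem low_psi_out_11 : (Ex.sub (eC 0) (toCorner ePsiGapLow)).checkQuick lowCornCfg
    (lowUpBox 1251 1407 100000 19869 20532 14925 14926 600148) = true := by decide +kernel

theorem low_psi_out_12 : (Ex.sub (eC 0) (toCorner ePsiGapLow)).checkQuick lowCornCfg
    (lowUpBox 1407 1563 100000 19869 20532 14925 14926 600182) = true := by decide +kernel

theorem low_psi_out_13 : (Ex.sub (eC 0) (toCorner ePsiGapLow)).checkQuick lowCornCfg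
    (lowUpBox 1251 1563 100000 20532 21858 14925 14926 600182) = true := by decide +kernel

theorem low_psi_out_14 : (Ex.sub (eC 0) (toCorner ePsiGapLow)).checkQuick lowCornCfg
    (lowUpBox 1563 1876 100000 19207 21858 14925 14926 600262) = true := by decide +kernel

theorem low_psi_out_15 : (Ex.sub (eC 0) (toCorner ePsiGapLow)).checkQuick lowCornCfg
    (lowUpBox 1251 1876 100000 21858 24510 14925 14926 600262) = true := by decide +kernel

theorem low_psi_out_16 : (Ex.sub (eC 0) (toCorner ePsiGapLow)).checkQuick lowCornCfg
    (lowUpBox 1876 2502 100000 19207 24510 14925 14926 600465) = true := by decide +kernel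

end Vale.Agent.P100.Calib.Band
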