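import Vale.Agent.P100.Calib.SlabUpperLowExpr

/-!
# The tilted upper band of the piece `d ≤ 1/20`: definitions
-/

namespace Vale.Agent.P100.Calib.Band

/-- The band at `v = 0`. -/
noncomputable def upTailLow (d : ℝ) : ℝ → ℝ :=
  upLA (2752 / 100000 + -591490 / 100000 * d + 3423010 / 100000 * (d * d))
    (28203 / 10000 + 12200 / 10000 * d + -1679960 / 10000 * (d * d))
    (14906 / 10000 + -148016 / 10000 * d + 343779 / 10000 * (d * d))
    (6491 / 10000 + -196057 / 10000 * d + 1629351 / 10000 * (d * d))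
    (21003 / 10000 * d) (714 / 10000) (24 / 100000)

/-- Its slope. -/
noncomputable def upTailLowD (d : ℝ) : ℝ → ℝ :=
  upLD (2752 / 100000 + -591490 / 100000 * d + 3423010 / 100000 * (d * d))
    (14906 / 10000 + -148016 / 10000 * d + 343779 / 10000 * (d * d))
    (6491 / 10000 + -196057 / 10000 * d + 1629351 / 10000 * (d * d))
    (21003 / 10000 * d) (714 / 10000) (24 / 100000)

/-- The tilt. -/
noncomputable def tiltLow (d : ℝ) : ℝ :=
  25092 / 10000 + -35066 / 10000 * d + 29962 / 10000 * (d * d)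

/-- Where the band ends. -/
noncomputable def upEndLow (d : ℝ) : ℝ := max (39 / 40) (1 - 67 / 100 * d)

theorem upEndLow_lt {d : ℝ} (hd : 0 < d) : upEndLow d < 1 := max_lt (by norm_num) (by linarith)

theorem tiltLow_nonneg {d : ℝ} (h0 : 0 ≤ d) (h1 : d ≤ 1 / 20) : 0 ≤ tiltLow d := by
  have := mul_self_nonneg d
  unfold tiltLow
  linarith

end Vale.Agent.P100.Calib.Band
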