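import Vale.Agent.P100.Calib.SlabUpperLowBox
import Vale.Agent.P100.Calib.SlabUpperLowBand
import Vale.Agent.P100.Calib.SlabPsiExpr

/-!
# The exit threshold of the piece `d ≤ 1/20`: expressions
-/

namespace Vale.Agent.P100.Calib.Band

open BoxPos

local instance psiLowAdd : Add Ex := ⟨Ex.add⟩
local instance psiLowSub : Sub Ex := ⟨Ex.sub⟩
local instance psiLowMul : Mul Ex := ⟨Ex.mul⟩

/-- The threshold at `u = upEndLow d`. -/
noncomputable def psiLow (d : ℝ) : ℝ := 41 / 20 - 126 / 5 * d + 130 * d ^ 2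

/-- `(2 + (S - d) (1 - S)) (vCrit + psi - v)`. -/
def ePsiGapLow : Ex :=
  eC 2 * (eC 1 - eS) +
    ((eC 41 20 - eC 126 5 * eD + eC 130 * (eD * eD)) - eV) * (eC 2 + (eS - eD) * (eC 1 - eS))

/-- `- dv - m gap` on the band. -/
def lowPsiFlat (m : ℕ) : Ex :=
  eC 0 - eDvH (lowUpN + lowUb * eV * lowUpG) lowUpG - eC m 1000 * (lowUpG * ePsiGapLow)

/-- `- dv - m gap` on the band, in the corner. -/
def lowPsiCorn (m : ℕ) : Ex :=
  eC 0 - cDvH (toCorner lowUpN + toCorner lowUb * eV * (.x₀ * lowUpg)) lowUpg -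
    eC m 1000 * (lowUpg * toCorner ePsiGapLow)

theorem val_psiGapLow {u v d S : ℝ} (hden : 0 < 2 + (S - d) * (1 - S)) :
    ePsiGapLow.val u v d S = (2 + (S - d) * (1 - S)) * (vCrit S d + psiLow d - v) := by
  have e : (2 + (S - d) * (1 - S)) * vCrit S d = 2 * (1 - S) := mul_div_cancel₀ _ hden.ne'
  simp only [ePsiGapLow, val_addU, val_mulU, val_subU, Ex.val, psiLow]
  push_cast
  linear_combination -e

theorem exitP_neg_of_lowFlat {u v d S : ℝ} {m : ℕ} {a β : ℝ}
    (h : 0 < (lowPsiFlat m).val u v d S) (hG : 0 < lowUpG.val u v d S)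
    (hn : lowUpN.val u v d S = a * lowUpG.val u v d S) (hβ : lowUb.val u v d S = β)
    (hgap : 0 ≤ ePsiGapLow.val u v d S) : exitP S d u v (a + β * v) 1 0 < 0 := by
  obtain ⟨hB, hA, hQ⟩ := val_rat_parts u v d S
  have e2 : (eDvH (lowUpN + lowUb * eV * lowUpG) lowUpG).val u v d S =
      lowUpG.val u v d S * exitP S d u v (a + β * v) 1 0 := by
    have hn' : (lowUpN + lowUb * eV * lowUpG).val u v d S = (a + β * v) * lowUpG.val u v d S := by
      simp only [val_addU, val_mulU, Ex.val, hn, hβ]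
      ring
    generalize hN : lowUpN + lowUb * eV * lowUpG = n at hn' ⊢
    simp only [eDvH, val_addT, val_subT, val_mulT, Ex.val, hB, hA, hQ, exitP, bandD, bandK, hn']
    push_cast
    ring
  simp only [lowPsiFlat, val_subU, val_mulU (eC m 1000), val_mulU lowUpG, e2, Ex.val] at h
  push_cast at h
  have := mul_nonneg (show (0 : ℝ) ≤ (m : ℝ) / 1000 by positivity) (mul_nonneg hG.le hgap)
  refine (pos_of_mul_pos_right (a := lowUpG.val u v d S)
    (b := -exitP S d u v (a + β * v) 1 0) ?_ hG.le) |> neg_pos.1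
  linarith

theorem exitP_neg_of_lowCorn {e v ρ S : ℝ} {m : ℕ} {a β : ℝ} (hpe : 0 < e)
    (h : 0 < (lowPsiCorn m).val e v ρ S) (hg : 0 < lowUpg.val e v ρ S)
    (hn : (toCorner lowUpN).val e v ρ S = a * (e * lowUpg.val e v ρ S))
    (hβ : (toCorner lowUb).val e v ρ S = β)
    (hgap : 0 ≤ (toCorner ePsiGapLow).val e v ρ S) :
    exitP S (ρ * e) (1 - e) v (a + β * v) 1 0 < 0 := by
  set n := toCorner lowUpN + toCorner lowUb * eV * (.x₀ * lowUpg) with hnd
  have hn' : n.val e v ρ S = (a + β * v) * (e * lowUpg.val e v ρ S) := by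
    simp only [n, val_addK, Ex.val, hn, hβ]
    ring
  have kX := val_cDvH e v ρ S n lowUpg
  rw [hn'] at kX
  set X := (cDvH n lowUpg).val e v ρ S
  set g := lowUpg.val e v ρ S
  have e2 : e * X = e * g * exitP S (ρ * e) (1 - e) v (a + β * v) 1 0 := by
    rw [kX]
    simp only [exitP, bandK, bandD]
    ring
  simp only [lowPsiCorn, val_subK, Ex.val] at h
  push_cast at h
  have := mul_nonneg (show (0 : ℝ) ≤ (m : ℝ) / 1000 by positivity) (mul_nonneg hg.le hgap)
  have hX : X < 0 := by simp only [X, g, n] at *; linarith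
  refine (pos_of_mul_pos_right (a := e * g)
    (b := -exitP S (ρ * e) (1 - e) v (a + β * v) 1 0) ?_ (mul_pos hpe hg).le) |> neg_pos.1
  rw [mul_neg, ← e2, ← mul_neg]
  exact mul_pos hpe (neg_pos.2 hX)

end Vale.Agent.P100.Calib.Band
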