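import Vale.Agent.P100.Calib.SlabPsiLowChecks

/-!
# The sign of `dv` below the threshold, `d ≤ 1/20`
-/

namespace Vale.Agent.P100.Calib.Band

open BoxPos

theorem low_psi_flat_2 {v d S' : ℝ}
    (hx0 : 373 / 10000 ≤ d) (hx1 : d < 501 / 10000) (hy0 : 3300 / 10000 ≤ v) (hy1 : v < 13905 / 10000)
    (hs0 : 3 / 5 ≤ S') (hs : S' ≤ 3 / 5 + d * d / 3)
    (_hgap : 0 ≤ ePsiGapLow.val (39 / 40) v d S') :
    ∃ m : ℕ, 0 < (lowPsiFlat m).val (39 / 40) v d S' := by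
  exact ⟨0, Ex.pos_of_checkQuick low_psi_0 (lowMem 10000 (by norm_num) (by norm_num)) (lowMem 10000 hy0 hy1) (lowMem 10000 hx0 hx1)
    (lowS_mem (s := 600837) (le_trans (by norm_num) hx0) (show d ≤ (501 / 10000 : ℝ) by linarith) hs hs0 (by norm_num))⟩

theorem low_psi_flat_9 {v d S' : ℝ}
    (hx0 : 373 / 10000 ≤ d) (hx1 : d < 389 / 10000) (hy0 : 13905 / 10000 ≤ v) (hy1 : v < 15230 / 10000)
    (hs0 : 3 / 5 ≤ S') (hs : S' ≤ 3 / 5 + d * d / 3)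
    (_hgap : 0 ≤ ePsiGapLow.val (39 / 40) v d S') :
    ∃ m : ℕ, 0 < (lowPsiFlat m).val (39 / 40) v d S' := by
  exact ⟨0, Ex.pos_of_checkQuick low_psi_1 (lowMem 10000 (by norm_num) (by norm_num)) (lowMem 10000 hy0 hy1) (lowMem 10000 hx0 hx1)
    (lowS_mem (s := 600505) (le_trans (by norm_num) hx0) (show d ≤ (389 / 10000 : ℝ) by linarith) hs hs0 (by norm_num))⟩

theorem low_psi_flat_12 {v d S' : ℝ}
    (hx0 : 373 / 10000 ≤ d) (hx1 : d < 381 / 10000) (hy0 : 15230 / 10000 ≤ v) (hy1 : v < 15893 / 10000)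
    (hs0 : 3 / 5 ≤ S') (hs : S' ≤ 3 / 5 + d * d / 3)
    (_hgap : 0 ≤ ePsiGapLow.val (39 / 40) v d S') :
    ∃ m : ℕ, 0 < (lowPsiFlat m).val (39 / 40) v d S' := by
  exact ⟨0, Ex.pos_of_checkQuick low_psi_2 (lowMem 10000 (by norm_num) (by norm_num)) (lowMem 10000 hy0 hy1) (lowMem 10000 hx0 hx1)
    (lowS_mem (s := 600484) (le_trans (by norm_num) hx0) (show d ≤ (381 / 10000 : ℝ) by linarith) hs hs0 (by norm_num))⟩

theorem low_psi_flat_13 {v d S' : ℝ}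
    (hx0 : 373 / 10000 ≤ d) (hx1 : d < 381 / 10000) (hy0 : 15893 / 10000 ≤ v) (hy1 : v < 16556 / 10000)
    (hs0 : 3 / 5 ≤ S') (hs : S' ≤ 3 / 5 + d * d / 3)
    (_hgap : 0 ≤ ePsiGapLow.val (39 / 40) v d S') :
    ∃ m : ℕ, 0 < (lowPsiFlat m).val (39 / 40) v d S' := by
  exact ⟨116, Ex.pos_of_checkQuick low_psi_3 (lowMem 10000 (by norm_num) (by norm_num)) (lowMem 10000 hy0 hy1) (lowMem 10000 hx0 hx1)
    (lowS_mem (s := 600484) (le_trans (by norm_num) hx0) (show d ≤ (381 / 10000 : ℝ) by linarith) hs hs0 (by norm_num))⟩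

theorem low_psi_flat_11 {v d S' : ℝ}
    (hx0 : 373 / 10000 ≤ d) (hx1 : d < 381 / 10000) (hy0 : 15230 / 10000 ≤ v) (hy1 : v < 16556 / 10000)
    (hs0 : 3 / 5 ≤ S') (hs : S' ≤ 3 / 5 + d * d / 3)
    (hgap : 0 ≤ ePsiGapLow.val (39 / 40) v d S') :
    ∃ m : ℕ, 0 < (lowPsiFlat m).val (39 / 40) v d S' := by
  rcases lt_or_ge v (15893 / 10000) with g | g
  · exact low_psi_flat_12 hx0 hx1 hy0 g hs0 hs hgap
  · exact low_psi_flat_13 hx0 hx1 g hy1 hs0 hs hgap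

theorem low_psi_flat_14 {v d S' : ℝ}
    (hx0 : 381 / 10000 ≤ d) (hx1 : d < 389 / 10000) (hy0 : 15230 / 10000 ≤ v) (hy1 : v < 16556 / 10000)
    (hs0 : 3 / 5 ≤ S') (hs : S' ≤ 3 / 5 + d * d / 3)
    (_hgap : 0 ≤ ePsiGapLow.val (39 / 40) v d S') :
    ∃ m : ℕ, 0 < (lowPsiFlat m).val (39 / 40) v d S' := by
  exact ⟨116, Ex.pos_of_checkQuick low_psi_4 (lowMem 10000 (by norm_num) (by norm_num)) (lowMem 10000 hy0 hy1) (lowMem 10000 hx0 hx1)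
    (lowS_mem (s := 600505) (le_trans (by norm_num) hx0) (show d ≤ (389 / 10000 : ℝ) by linarith) hs hs0 (by norm_num))⟩

theorem low_psi_flat_10 {v d S' : ℝ}
    (hx0 : 373 / 10000 ≤ d) (hx1 : d < 389 / 10000) (hy0 : 15230 / 10000 ≤ v) (hy1 : v < 16556 / 10000)
    (hs0 : 3 / 5 ≤ S') (hs : S' ≤ 3 / 5 + d * d / 3)
    (hgap : 0 ≤ ePsiGapLow.val (39 / 40) v d S') :
    ∃ m : ℕ, 0 < (lowPsiFlat m).val (39 / 40) v d S' := by
  rcases lt_or_ge d (381 / 10000) with g | g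
  · exact low_psi_flat_11 hx0 g hy0 hy1 hs0 hs hgap
  · exact low_psi_flat_14 g hx1 hy0 hy1 hs0 hs hgap

theorem low_psi_flat_8 {v d S' : ℝ}
    (hx0 : 373 / 10000 ≤ d) (hx1 : d < 389 / 10000) (hy0 : 13905 / 10000 ≤ v) (hy1 : v < 16556 / 10000)
    (hs0 : 3 / 5 ≤ S') (hs : S' ≤ 3 / 5 + d * d / 3)
    (hgap : 0 ≤ ePsiGapLow.val (39 / 40) v d S') :
    ∃ m : ℕ, 0 < (lowPsiFlat m).val (39 / 40) v d S' := by
  rcases lt_or_ge v (15230 / 10000) with g | g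
  · exact low_psi_flat_9 hx0 hx1 hy0 g hs0 hs hgap
  · exact low_psi_flat_10 hx0 hx1 g hy1 hs0 hs hgap

theorem low_psi_flat_15 {v d S' : ℝ}
    (hx0 : 389 / 10000 ≤ d) (hx1 : d < 405 / 10000) (hy0 : 13905 / 10000 ≤ v) (hy1 : v < 16556 / 10000)
    (hs0 : 3 / 5 ≤ S') (hs : S' ≤ 3 / 5 + d * d / 3)
    (_hgap : 0 ≤ ePsiGapLow.val (39 / 40) v d S') :
    ∃ m : ℕ, 0 < (lowPsiFlat m).val (39 / 40) v d S' := by
  exact ⟨116, Ex.pos_of_checkQuick low_psi_5 (lowMem 10000 (by norm_num) (by norm_num)) (lowMem 10000 hy0 hy1) (lowMem 10000 hx0 hx1)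
    (lowS_mem (s := 600547) (le_trans (by norm_num) hx0) (show d ≤ (81 / 2000 : ℝ) by linarith) hs hs0 (by norm_num))⟩

theorem low_psi_flat_7 {v d S' : ℝ}
    (hx0 : 373 / 10000 ≤ d) (hx1 : d < 405 / 10000) (hy0 : 13905 / 10000 ≤ v) (hy1 : v < 16556 / 10000)
    (hs0 : 3 / 5 ≤ S') (hs : S' ≤ 3 / 5 + d * d / 3)
    (hgap : 0 ≤ ePsiGapLow.val (39 / 40) v d S') :
    ∃ m : ℕ, 0 < (lowPsiFlat m).val (39 / 40) v d S' := by
  rcases lt_or_ge d (389 / 10000) with g | g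
  · exact low_psi_flat_8 hx0 g hy0 hy1 hs0 hs hgap
  · exact low_psi_flat_15 g hx1 hy0 hy1 hs0 hs hgap

theorem low_psi_flat_16 {v d S' : ℝ}
    (hx0 : 373 / 10000 ≤ d) (hx1 : d < 405 / 10000) (hy0 : 16556 / 10000 ≤ v) (hy1 : v < 19207 / 10000)
    (hs0 : 3 / 5 ≤ S') (hs : S' ≤ 3 / 5 + d * d / 3)
    (hgap : 0 ≤ ePsiGapLow.val (39 / 40) v d S') :
    ∃ m : ℕ, 0 < (lowPsiFlat m).val (39 / 40) v d S' := by
  have k : 0 < (Ex.sub (eC 0) ePsiGapLow).val (39 / 40) v d S' := Ex.pos_of_checkQuick low_psi_out_0 (lowMem 10000 (by norm_num) (by norm_num)) (lowMem 10000 hy0 hy1) (lowMem 10000 hx0 hx1)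
    (lowS_mem (s := 600547) (le_trans (by norm_num) hx0) (show d ≤ (81 / 2000 : ℝ) by linarith) hs hs0 (by norm_num))
  simp only [Ex.val] at k
  push_cast at k
  exact absurd hgap (not_le.2 (by linarith))

theorem low_psi_flat_6 {v d S' : ℝ}
    (hx0 : 373 / 10000 ≤ d) (hx1 : d < 405 / 10000) (hy0 : 13905 / 10000 ≤ v) (hy1 : v < 19207 / 10000)
    (hs0 : 3 / 5 ≤ S') (hs : S' ≤ 3 / 5 + d * d / 3)
    (hgap : 0 ≤ ePsiGapLow.val (39 / 40) v d S') :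
    ∃ m : ℕ, 0 < (lowPsiFlat m).val (39 / 40) v d S' := by
  rcases lt_or_ge v (16556 / 10000) with g | g
  · exact low_psi_flat_7 hx0 hx1 hy0 g hs0 hs hgap
  · exact low_psi_flat_16 hx0 hx1 g hy1 hs0 hs hgap

theorem low_psi_flat_17 {v d S' : ℝ}
    (hx0 : 405 / 10000 ≤ d) (hx1 : d < 437 / 10000) (hy0 : 13905 / 10000 ≤ v) (hy1 : v < 19207 / 10000)
    (hs0 : 3 / 5 ≤ S') (hs : S' ≤ 3 / 5 + d * d / 3)
    (_hgap : 0 ≤ ePsiGapLow.val (39 / 40) v d S') :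
    ∃ m : ℕ, 0 < (lowPsiFlat m).val (39 / 40) v d S' := by
  exact ⟨116, Ex.pos_of_checkQuick low_psi_6 (lowMem 10000 (by norm_num) (by norm_num)) (lowMem 10000 hy0 hy1) (lowMem 10000 hx0 hx1)
    (lowS_mem (s := 600637) (le_trans (by norm_num) hx0) (show d ≤ (437 / 10000 : ℝ) by linarith) hs hs0 (by norm_num))⟩

theorem low_psi_flat_5 {v d S' : ℝ}
    (hx0 : 373 / 10000 ≤ d) (hx1 : d < 437 / 10000) (hy0 : 13905 / 10000 ≤ v) (hy1 : v < 19207 / 10000)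
    (hs0 : 3 / 5 ≤ S') (hs : S' ≤ 3 / 5 + d * d / 3)
    (hgap : 0 ≤ ePsiGapLow.val (39 / 40) v d S') :
    ∃ m : ℕ, 0 < (lowPsiFlat m).val (39 / 40) v d S' := by
  rcases lt_or_ge d (405 / 10000) with g | g
  · exact low_psi_flat_6 hx0 g hy0 hy1 hs0 hs hgap
  · exact low_psi_flat_17 g hx1 hy0 hy1 hs0 hs hgap

theorem low_psi_flat_18 {v d S' : ℝ}
    (hx0 : 373 / 10000 ≤ d) (hx1 : d < 437 / 10000) (hy0 : 19207 / 10000 ≤ v) (hy1 : v < 24510 / 10000)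
    (hs0 : 3 / 5 ≤ S') (hs : S' ≤ 3 / 5 + d * d / 3)
    (hgap : 0 ≤ ePsiGapLow.val (39 / 40) v d S') :
    ∃ m : ℕ, 0 < (lowPsiFlat m).val (39 / 40) v d S' := by
  have k : 0 < (Ex.sub (eC 0) ePsiGapLow).val (39 / 40) v d S' := Ex.pos_of_checkQuick low_psi_out_1 (lowMem 10000 (by norm_num) (by norm_num)) (lowMem 10000 hy0 hy1) (lowMem 10000 hx0 hx1)
    (lowS_mem (s := 600637) (le_trans (by norm_num) hx0) (show d ≤ (437 / 10000 : ℝ) by linarith) hs hs0 (by norm_num))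
  simp only [Ex.val] at k
  push_cast at k
  exact absurd hgap (not_le.2 (by linarith))

theorem low_psi_flat_4 {v d S' : ℝ}
    (hx0 : 373 / 10000 ≤ d) (hx1 : d < 437 / 10000) (hy0 : 13905 / 10000 ≤ v) (hy1 : v < 24510 / 10000)
    (hs0 : 3 / 5 ≤ S') (hs : S' ≤ 3 / 5 + d * d / 3)
    (hgap : 0 ≤ ePsiGapLow.val (39 / 40) v d S') :
    ∃ m : ℕ, 0 < (lowPsiFlat m).val (39 / 40) v d S' := by
  rcases lt_or_ge v (19207 / 10000) with g | g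
  · exact low_psi_flat_5 hx0 hx1 hy0 g hs0 hs hgap
  · exact low_psi_flat_18 hx0 hx1 g hy1 hs0 hs hgap

theorem low_psi_flat_21 {v d S' : ℝ}
    (hx0 : 437 / 10000 ≤ d) (hx1 : d < 469 / 10000) (hy0 : 13905 / 10000 ≤ v) (hy1 : v < 19207 / 10000)
    (hs0 : 3 / 5 ≤ S') (hs : S' ≤ 3 / 5 + d * d / 3)
    (_hgap : 0 ≤ ePsiGapLow.val (39 / 40) v d S') :
    ∃ m : ℕ, 0 < (lowPsiFlat m).val (39 / 40) v d S' := by
  exact ⟨116, Ex.pos_of_checkQuick low_psi_7 (lowMem 10000 (by norm_num) (by norm_num)) (lowMem 10000 hy0 hy1) (lowMem 10000 hx0 hx1)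
    (lowS_mem (s := 600734) (le_trans (by norm_num) hx0) (show d ≤ (469 / 10000 : ℝ) by linarith) hs hs0 (by norm_num))⟩

theorem low_psi_flat_22 {v d S' : ℝ}
    (hx0 : 469 / 10000 ≤ d) (hx1 : d < 501 / 10000) (hy0 : 13905 / 10000 ≤ v) (hy1 : v < 19207 / 10000)
    (hs0 : 3 / 5 ≤ S') (hs : S' ≤ 3 / 5 + d * d / 3)
    (_hgap : 0 ≤ ePsiGapLow.val (39 / 40) v d S') :
    ∃ m : ℕ, 0 < (lowPsiFlat m).val (39 / 40) v d S' := by
  exact ⟨116, Ex.pos_of_checkQuick low_psi_8 (lowMem 10000 (by norm_num) (by norm_num)) (lowMem 10000 hy0 hy1) (lowMem 10000 hx0 hx1)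
    (lowS_mem (s := 600837) (le_trans (by norm_num) hx0) (show d ≤ (501 / 10000 : ℝ) by linarith) hs hs0 (by norm_num))⟩

theorem low_psi_flat_20 {v d S' : ℝ}
    (hx0 : 437 / 10000 ≤ d) (hx1 : d < 501 / 10000) (hy0 : 13905 / 10000 ≤ v) (hy1 : v < 19207 / 10000)
    (hs0 : 3 / 5 ≤ S') (hs : S' ≤ 3 / 5 + d * d / 3)
    (hgap : 0 ≤ ePsiGapLow.val (39 / 40) v d S') :
    ∃ m : ℕ, 0 < (lowPsiFlat m).val (39 / 40) v d S' := by
  rcases lt_or_ge d (469 / 10000) with g | g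
  · exact low_psi_flat_21 hx0 g hy0 hy1 hs0 hs hgap
  · exact low_psi_flat_22 g hx1 hy0 hy1 hs0 hs hgap

theorem low_psi_flat_23 {v d S' : ℝ}
    (hx0 : 437 / 10000 ≤ d) (hx1 : d < 501 / 10000) (hy0 : 19207 / 10000 ≤ v) (hy1 : v < 24510 / 10000)
    (hs0 : 3 / 5 ≤ S') (hs : S' ≤ 3 / 5 + d * d / 3)
    (hgap : 0 ≤ ePsiGapLow.val (39 / 40) v d S') :
    ∃ m : ℕ, 0 < (lowPsiFlat m).val (39 / 40) v d S' := by
  have k : 0 < (Ex.sub (eC 0) ePsiGapLow).val (39 / 40) v d S' := Ex.pos_of_checkQuick low_psi_out_2 (lowMem 10000 (by norm_num) (by norm_num)) (lowMem 10000 hy0 hy1) (lowMem 10000 hx0 hx1)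
    (lowS_mem (s := 600837) (le_trans (by norm_num) hx0) (show d ≤ (501 / 10000 : ℝ) by linarith) hs hs0 (by norm_num))
  simp only [Ex.val] at k
  push_cast at k
  exact absurd hgap (not_le.2 (by linarith))

theorem low_psi_flat_19 {v d S' : ℝ}
    (hx0 : 437 / 10000 ≤ d) (hx1 : d < 501 / 10000) (hy0 : 13905 / 10000 ≤ v) (hy1 : v < 24510 / 10000)
    (hs0 : 3 / 5 ≤ S') (hs : S' ≤ 3 / 5 + d * d / 3)
    (hgap : 0 ≤ ePsiGapLow.val (39 / 40) v d S') :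
    ∃ m : ℕ, 0 < (lowPsiFlat m).val (39 / 40) v d S' := by
  rcases lt_or_ge v (19207 / 10000) with g | g
  · exact low_psi_flat_20 hx0 hx1 hy0 g hs0 hs hgap
  · exact low_psi_flat_23 hx0 hx1 g hy1 hs0 hs hgap

theorem low_psi_flat_3 {v d S' : ℝ}
    (hx0 : 373 / 10000 ≤ d) (hx1 : d < 501 / 10000) (hy0 : 13905 / 10000 ≤ v) (hy1 : v < 24510 / 10000)
    (hs0 : 3 / 5 ≤ S') (hs : S' ≤ 3 / 5 + d * d / 3)
    (hgap : 0 ≤ ePsiGapLow.val (39 / 40) v d S') :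
    ∃ m : ℕ, 0 < (lowPsiFlat m).val (39 / 40) v d S' := by
  rcases lt_or_ge d (437 / 10000) with g | g
  · exact low_psi_flat_4 hx0 g hy0 hy1 hs0 hs hgap
  · exact low_psi_flat_19 g hx1 hy0 hy1 hs0 hs hgap

theorem low_psi_flat_1 {v d S' : ℝ}
    (hx0 : 373 / 10000 ≤ d) (hx1 : d < 501 / 10000) (hy0 : 3300 / 10000 ≤ v) (hy1 : v < 24510 / 10000)
    (hs0 : 3 / 5 ≤ S') (hs : S' ≤ 3 / 5 + d * d / 3)
    (hgap : 0 ≤ ePsiGapLow.val (39 / 40) v d S') :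
    ∃ m : ℕ, 0 < (lowPsiFlat m).val (39 / 40) v d S' := by
  rcases lt_or_ge v (13905 / 10000) with g | g
  · exact low_psi_flat_2 hx0 hx1 hy0 g hs0 hs hgap
  · exact low_psi_flat_3 hx0 hx1 g hy1 hs0 hs hgap

theorem low_psi_corn_25 {e v ρ S' : ℝ} (hρ : ρ = 100 / 67)
    (hx0 : 0 / 100000 ≤ e) (hx1 : e < 2502 / 100000) (hy0 : 3300 / 10000 ≤ v) (hy1 : v < 13905 / 10000)
    (hs0 : 3 / 5 ≤ S') (hs : S' ≤ 3 / 5 + ρ * e * (ρ * e) / 3)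
    (_hgap : 0 ≤ (toCorner ePsiGapLow).val e v ρ S') :
    ∃ m : ℕ, 0 < (lowPsiCorn m).val e v ρ S' := by
  exact ⟨0, Ex.pos_of_checkQuick low_psi_9 (lowMem 100000 (by push_cast; linarith) hx1) (lowMem 10000 hy0 hy1) (lowMem 10000 (by rw [hρ]; norm_num) (by rw [hρ]; norm_num))
    (lowS_mem (s := 600465) (mul_nonneg (by rw [hρ]; norm_num) (le_trans (by norm_num) hx0)) (show ρ * e ≤ (9336213 / 250000000 : ℝ) by rw [hρ]; linarith) hs hs0 (by norm_num))⟩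

theorem low_psi_corn_29 {e v ρ S' : ℝ} (hρ : ρ = 100 / 67)
    (hx0 : 0 / 100000 ≤ e) (hx1 : e < 625 / 100000) (hy0 : 13905 / 10000 ≤ v) (hy1 : v < 19207 / 10000)
    (hs0 : 3 / 5 ≤ S') (hs : S' ≤ 3 / 5 + ρ * e * (ρ * e) / 3)
    (_hgap : 0 ≤ (toCorner ePsiGapLow).val e v ρ S') :
    ∃ m : ℕ, 0 < (lowPsiCorn m).val e v ρ S' := by
  exact ⟨0, Ex.pos_of_checkQuick low_psi_10 (lowMem 100000 (by push_cast; linarith) hx1) (lowMem 10000 hy0 hy1) (lowMem 10000 (by rw [hρ]; norm_num) (by rw [hρ]; norm_num))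
    (lowS_mem (s := 600030) (mul_nonneg (by rw [hρ]; norm_num) (le_trans (by norm_num) hx0)) (show ρ * e ≤ (7463 / 800000 : ℝ) by rw [hρ]; linarith) hs hs0 (by norm_num))⟩

theorem low_psi_corn_30 {e v ρ S' : ℝ} (hρ : ρ = 100 / 67)
    (hx0 : 625 / 100000 ≤ e) (hx1 : e < 1251 / 100000) (hy0 : 13905 / 10000 ≤ v) (hy1 : v < 19207 / 10000)
    (hs0 : 3 / 5 ≤ S') (hs : S' ≤ 3 / 5 + ρ * e * (ρ * e) / 3)
    (_hgap : 0 ≤ (toCorner ePsiGapLow).val e v ρ S') :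
    ∃ m : ℕ, 0 < (lowPsiCorn m).val e v ρ S' := by
  exact ⟨0, Ex.pos_of_checkQuick low_psi_11 (lowMem 100000 (by push_cast; linarith) hx1) (lowMem 10000 hy0 hy1) (lowMem 10000 (by rw [hρ]; norm_num) (by rw [hρ]; norm_num))
    (lowS_mem (s := 600117) (mul_nonneg (by rw [hρ]; norm_num) (le_trans (by norm_num) hx0)) (show ρ * e ≤ (9336213 / 500000000 : ℝ) by rw [hρ]; linarith) hs hs0 (by norm_num))⟩

theorem low_psi_corn_28 {e v ρ S' : ℝ} (hρ : ρ = 100 / 67)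
    (hx0 : 0 / 100000 ≤ e) (hx1 : e < 1251 / 100000) (hy0 : 13905 / 10000 ≤ v) (hy1 : v < 19207 / 10000)
    (hs0 : 3 / 5 ≤ S') (hs : S' ≤ 3 / 5 + ρ * e * (ρ * e) / 3)
    (hgap : 0 ≤ (toCorner ePsiGapLow).val e v ρ S') :
    ∃ m : ℕ, 0 < (lowPsiCorn m).val e v ρ S' := by
  rcases lt_or_ge e (625 / 100000) with g | g
  · exact low_psi_corn_29 hρ hx0 g hy0 hy1 hs0 hs hgap
  · exact low_psi_corn_30 hρ g hx1 hy0 hy1 hs0 hs hgap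

theorem low_psi_corn_32 {e v ρ S' : ℝ} (hρ : ρ = 100 / 67)
    (hx0 : 0 / 100000 ≤ e) (hx1 : e < 625 / 100000) (hy0 : 19207 / 10000 ≤ v) (hy1 : v < 24510 / 10000)
    (hs0 : 3 / 5 ≤ S') (hs : S' ≤ 3 / 5 + ρ * e * (ρ * e) / 3)
    (_hgap : 0 ≤ (toCorner ePsiGapLow).val e v ρ S') :
    ∃ m : ℕ, 0 < (lowPsiCorn m).val e v ρ S' := by
  exact ⟨74, Ex.pos_of_checkQuick low_psi_12 (lowMem 100000 (by push_cast; linarith) hx1) (lowMem 10000 hy0 hy1) (lowMem 10000 (by rw [hρ]; norm_num) (by rw [hρ]; norm_num))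
    (lowS_mem (s := 600030) (mul_nonneg (by rw [hρ]; norm_num) (le_trans (by norm_num) hx0)) (show ρ * e ≤ (7463 / 800000 : ℝ) by rw [hρ]; linarith) hs hs0 (by norm_num))⟩

theorem low_psi_corn_36 {e v ρ S' : ℝ} (hρ : ρ = 100 / 67)
    (hx0 : 625 / 100000 ≤ e) (hx1 : e < 938 / 100000) (hy0 : 19207 / 10000 ≤ v) (hy1 : v < 20532 / 10000)
    (hs0 : 3 / 5 ≤ S') (hs : S' ≤ 3 / 5 + ρ * e * (ρ * e) / 3)
    (_hgap : 0 ≤ (toCorner ePsiGapLow).val e v ρ S') :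
    ∃ m : ℕ, 0 < (lowPsiCorn m).val e v ρ S' := by
  exact ⟨0, Ex.pos_of_checkQuick low_psi_13 (lowMem 100000 (by push_cast; linarith) hx1) (lowMem 10000 hy0 hy1) (lowMem 10000 (by rw [hρ]; norm_num) (by rw [hρ]; norm_num))
    (lowS_mem (s := 600066) (mul_nonneg (by rw [hρ]; norm_num) (le_trans (by norm_num) hx0)) (show ρ * e ≤ (3500147 / 250000000 : ℝ) by rw [hρ]; linarith) hs hs0 (by norm_num))⟩

theorem low_psi_corn_39 {e v ρ S' : ℝ} (hρ : ρ = 100 / 67)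
    (hx0 : 625 / 100000 ≤ e) (hx1 : e < 781 / 100000) (hy0 : 20532 / 10000 ≤ v) (hy1 : v < 21195 / 10000)
    (hs0 : 3 / 5 ≤ S') (hs : S' ≤ 3 / 5 + ρ * e * (ρ * e) / 3)
    (_hgap : 0 ≤ (toCorner ePsiGapLow).val e v ρ S') :
    ∃ m : ℕ, 0 < (lowPsiCorn m).val e v ρ S' := by
  exact ⟨0, Ex.pos_of_checkQuick low_psi_14 (lowMem 100000 (by push_cast; linarith) hx1) (lowMem 10000 hy0 hy1) (lowMem 10000 (by rw [hρ]; norm_num) (by rw [hρ]; norm_num))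
    (lowS_mem (s := 600046) (mul_nonneg (by rw [hρ]; norm_num) (le_trans (by norm_num) hx0)) (show ρ * e ≤ (5828603 / 500000000 : ℝ) by rw [hρ]; linarith) hs hs0 (by norm_num))⟩

theorem low_psi_corn_40 {e v ρ S' : ℝ} (hρ : ρ = 100 / 67)
    (hx0 : 625 / 100000 ≤ e) (hx1 : e < 781 / 100000) (hy0 : 21195 / 10000 ≤ v) (hy1 : v < 21858 / 10000)
    (hs0 : 3 / 5 ≤ S') (hs : S' ≤ 3 / 5 + ρ * e * (ρ * e) / 3)
    (_hgap : 0 ≤ (toCorner ePsiGapLow).val e v ρ S') :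
    ∃ m : ℕ, 0 < (lowPsiCorn m).val e v ρ S' := by
  exact ⟨74, Ex.pos_of_checkQuick low_psi_15 (lowMem 100000 (by push_cast; linarith) hx1) (lowMem 10000 hy0 hy1) (lowMem 10000 (by rw [hρ]; norm_num) (by rw [hρ]; norm_num))
    (lowS_mem (s := 600046) (mul_nonneg (by rw [hρ]; norm_num) (le_trans (by norm_num) hx0)) (show ρ * e ≤ (5828603 / 500000000 : ℝ) by rw [hρ]; linarith) hs hs0 (by norm_num))⟩

theorem low_psi_corn_38 {e v ρ S' : ℝ} (hρ : ρ = 100 / 67)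
    (hx0 : 625 / 100000 ≤ e) (hx1 : e < 781 / 100000) (hy0 : 20532 / 10000 ≤ v) (hy1 : v < 21858 / 10000)
    (hs0 : 3 / 5 ≤ S') (hs : S' ≤ 3 / 5 + ρ * e * (ρ * e) / 3)
    (hgap : 0 ≤ (toCorner ePsiGapLow).val e v ρ S') :
    ∃ m : ℕ, 0 < (lowPsiCorn m).val e v ρ S' := by
  rcases lt_or_ge v (21195 / 10000) with g | g
  · exact low_psi_corn_39 hρ hx0 hx1 hy0 g hs0 hs hgap
  · exact low_psi_corn_40 hρ hx0 hx1 g hy1 hs0 hs hgap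

theorem low_psi_corn_42 {e v ρ S' : ℝ} (hρ : ρ = 100 / 67)
    (hx0 : 781 / 100000 ≤ e) (hx1 : e < 938 / 100000) (hy0 : 20532 / 10000 ≤ v) (hy1 : v < 21195 / 10000)
    (hs0 : 3 / 5 ≤ S') (hs : S' ≤ 3 / 5 + ρ * e * (ρ * e) / 3)
    (_hgap : 0 ≤ (toCorner ePsiGapLow).val e v ρ S') :
    ∃ m : ℕ, 0 < (lowPsiCorn m).val e v ρ S' := by
  exact ⟨74, Ex.pos_of_checkQuick low_psi_16 (lowMem 100000 (by push_cast; linarith) hx1) (lowMem 10000 hy0 hy1) (lowMem 10000 (by rw [hρ]; norm_num) (by rw [hρ]; norm_num))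
    (lowS_mem (s := 600066) (mul_nonneg (by rw [hρ]; norm_num) (le_trans (by norm_num) hx0)) (show ρ * e ≤ (3500147 / 250000000 : ℝ) by rw [hρ]; linarith) hs hs0 (by norm_num))⟩

theorem low_psi_corn_43 {e v ρ S' : ℝ} (hρ : ρ = 100 / 67)
    (hx0 : 781 / 100000 ≤ e) (hx1 : e < 938 / 100000) (hy0 : 21195 / 10000 ≤ v) (hy1 : v < 21858 / 10000)
    (hs0 : 3 / 5 ≤ S') (hs : S' ≤ 3 / 5 + ρ * e * (ρ * e) / 3)
    (_hgap : 0 ≤ (toCorner ePsiGapLow).val e v ρ S') :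
    ∃ m : ℕ, 0 < (lowPsiCorn m).val e v ρ S' := by
  exact ⟨93, Ex.pos_of_checkQuick low_psi_17 (lowMem 100000 (by push_cast; linarith) hx1) (lowMem 10000 hy0 hy1) (lowMem 10000 (by rw [hρ]; norm_num) (by rw [hρ]; norm_num))
    (lowS_mem (s := 600066) (mul_nonneg (by rw [hρ]; norm_num) (le_trans (by norm_num) hx0)) (show ρ * e ≤ (3500147 / 250000000 : ℝ) by rw [hρ]; linarith) hs hs0 (by norm_num))⟩

theorem low_psi_corn_41 {e v ρ S' : ℝ} (hρ : ρ = 100 / 67)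
    (hx0 : 781 / 100000 ≤ e) (hx1 : e < 938 / 100000) (hy0 : 20532 / 10000 ≤ v) (hy1 : v < 21858 / 10000)
    (hs0 : 3 / 5 ≤ S') (hs : S' ≤ 3 / 5 + ρ * e * (ρ * e) / 3)
    (hgap : 0 ≤ (toCorner ePsiGapLow).val e v ρ S') :
    ∃ m : ℕ, 0 < (lowPsiCorn m).val e v ρ S' := by
  rcases lt_or_ge v (21195 / 10000) with g | g
  · exact low_psi_corn_42 hρ hx0 hx1 hy0 g hs0 hs hgap
  · exact low_psi_corn_43 hρ hx0 hx1 g hy1 hs0 hs hgap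

theorem low_psi_corn_37 {e v ρ S' : ℝ} (hρ : ρ = 100 / 67)
    (hx0 : 625 / 100000 ≤ e) (hx1 : e < 938 / 100000) (hy0 : 20532 / 10000 ≤ v) (hy1 : v < 21858 / 10000)
    (hs0 : 3 / 5 ≤ S') (hs : S' ≤ 3 / 5 + ρ * e * (ρ * e) / 3)
    (hgap : 0 ≤ (toCorner ePsiGapLow).val e v ρ S') :
    ∃ m : ℕ, 0 < (lowPsiCorn m).val e v ρ S' := by
  rcases lt_or_ge e (781 / 100000) with g | g
  · exact low_psi_corn_38 hρ hx0 g hy0 hy1 hs0 hs hgap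
  · exact low_psi_corn_41 hρ g hx1 hy0 hy1 hs0 hs hgap

theorem low_psi_corn_35 {e v ρ S' : ℝ} (hρ : ρ = 100 / 67)
    (hx0 : 625 / 100000 ≤ e) (hx1 : e < 938 / 100000) (hy0 : 19207 / 10000 ≤ v) (hy1 : v < 21858 / 10000)
    (hs0 : 3 / 5 ≤ S') (hs : S' ≤ 3 / 5 + ρ * e * (ρ * e) / 3)
    (hgap : 0 ≤ (toCorner ePsiGapLow).val e v ρ S') :
    ∃ m : ℕ, 0 < (lowPsiCorn m).val e v ρ S' := by
  rcases lt_or_ge v (20532 / 10000) with g | g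
  · exact low_psi_corn_36 hρ hx0 hx1 hy0 g hs0 hs hgap
  · exact low_psi_corn_37 hρ hx0 hx1 g hy1 hs0 hs hgap

theorem low_psi_corn_47 {e v ρ S' : ℝ} (hρ : ρ = 100 / 67)
    (hx0 : 938 / 100000 ≤ e) (hx1 : e < 1094 / 100000) (hy0 : 19207 / 10000 ≤ v) (hy1 : v < 19869 / 10000)
    (hs0 : 3 / 5 ≤ S') (hs : S' ≤ 3 / 5 + ρ * e * (ρ * e) / 3)
    (_hgap : 0 ≤ (toCorner ePsiGapLow).val e v ρ S') :
    ∃ m : ℕ, 0 < (lowPsiCorn m).val e v ρ S' := by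
  exact ⟨0, Ex.pos_of_checkQuick low_psi_18 (lowMem 100000 (by push_cast; linarith) hx1) (lowMem 10000 hy0 hy1) (lowMem 10000 (by rw [hρ]; norm_num) (by rw [hρ]; norm_num))
    (lowS_mem (s := 600089) (mul_nonneg (by rw [hρ]; norm_num) (le_trans (by norm_num) hx0)) (show ρ * e ≤ (4082261 / 250000000 : ℝ) by rw [hρ]; linarith) hs hs0 (by norm_num))⟩

theorem low_psi_corn_48 {e v ρ S' : ℝ} (hρ : ρ = 100 / 67)
    (hx0 : 938 / 100000 ≤ e) (hx1 : e < 1094 / 100000) (hy0 : 19869 / 10000 ≤ v) (hy1 : v < 20532 / 10000)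
    (hs0 : 3 / 5 ≤ S') (hs : S' ≤ 3 / 5 + ρ * e * (ρ * e) / 3)
    (_hgap : 0 ≤ (toCorner ePsiGapLow).val e v ρ S') :
    ∃ m : ℕ, 0 < (lowPsiCorn m).val e v ρ S' := by
  exact ⟨74, Ex.pos_of_checkQuick low_psi_19 (lowMem 100000 (by push_cast; linarith) hx1) (lowMem 10000 hy0 hy1) (lowMem 10000 (by rw [hρ]; norm_num) (by rw [hρ]; norm_num))
    (lowS_mem (s := 600089) (mul_nonneg (by rw [hρ]; norm_num) (le_trans (by norm_num) hx0)) (show ρ * e ≤ (4082261 / 250000000 : ℝ) by rw [hρ]; linarith) hs hs0 (by norm_num))⟩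

theorem low_psi_corn_46 {e v ρ S' : ℝ} (hρ : ρ = 100 / 67)
    (hx0 : 938 / 100000 ≤ e) (hx1 : e < 1094 / 100000) (hy0 : 19207 / 10000 ≤ v) (hy1 : v < 20532 / 10000)
    (hs0 : 3 / 5 ≤ S') (hs : S' ≤ 3 / 5 + ρ * e * (ρ * e) / 3)
    (hgap : 0 ≤ (toCorner ePsiGapLow).val e v ρ S') :
    ∃ m : ℕ, 0 < (lowPsiCorn m).val e v ρ S' := by
  rcases lt_or_ge v (19869 / 10000) with g | g
  · exact low_psi_corn_47 hρ hx0 hx1 hy0 g hs0 hs hgap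
  · exact low_psi_corn_48 hρ hx0 hx1 g hy1 hs0 hs hgap

theorem low_psi_corn_50 {e v ρ S' : ℝ} (hρ : ρ = 100 / 67)
    (hx0 : 1094 / 100000 ≤ e) (hx1 : e < 1251 / 100000) (hy0 : 19207 / 10000 ≤ v) (hy1 : v < 19869 / 10000)
    (hs0 : 3 / 5 ≤ S') (hs : S' ≤ 3 / 5 + ρ * e * (ρ * e) / 3)
    (_hgap : 0 ≤ (toCorner ePsiGapLow).val e v ρ S') :
    ∃ m : ℕ, 0 < (lowPsiCorn m).val e v ρ S' := by
  exact ⟨74, Ex.pos_of_checkQuick low_psi_20 (lowMem 100000 (by push_cast; linarith) hx1) (lowMem 10000 hy0 hy1) (lowMem 10000 (by rw [hρ]; norm_num) (by rw [hρ]; norm_num))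
    (lowS_mem (s := 600117) (mul_nonneg (by rw [hρ]; norm_num) (le_trans (by norm_num) hx0)) (show ρ * e ≤ (9336213 / 500000000 : ℝ) by rw [hρ]; linarith) hs hs0 (by norm_num))⟩

theorem low_psi_corn_52 {e v ρ S' : ℝ} (hρ : ρ = 100 / 67)
    (hx0 : 1094 / 100000 ≤ e) (hx1 : e < 1172 / 100000) (hy0 : 19869 / 10000 ≤ v) (hy1 : v < 20532 / 10000)
    (hs0 : 3 / 5 ≤ S') (hs : S' ≤ 3 / 5 + ρ * e * (ρ * e) / 3)
    (_hgap : 0 ≤ (toCorner ePsiGapLow).val e v ρ S') :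
    ∃ m : ℕ, 0 < (lowPsiCorn m).val e v ρ S' := by
  exact ⟨74, Ex.pos_of_checkQuick low_psi_21 (lowMem 100000 (by push_cast; linarith) hx1) (lowMem 10000 hy0 hy1) (lowMem 10000 (by rw [hρ]; norm_num) (by rw [hρ]; norm_num))
    (lowS_mem (s := 600103) (mul_nonneg (by rw [hρ]; norm_num) (le_trans (by norm_num) hx0)) (show ρ * e ≤ (2186659 / 125000000 : ℝ) by rw [hρ]; linarith) hs hs0 (by norm_num))⟩

theorem low_psi_corn_53 {e v ρ S' : ℝ} (hρ : ρ = 100 / 67)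
    (hx0 : 1172 / 100000 ≤ e) (hx1 : e < 1251 / 100000) (hy0 : 19869 / 10000 ≤ v) (hy1 : v < 20532 / 10000)
    (hs0 : 3 / 5 ≤ S') (hs : S' ≤ 3 / 5 + ρ * e * (ρ * e) / 3)
    (_hgap : 0 ≤ (toCorner ePsiGapLow).val e v ρ S') :
    ∃ m : ℕ, 0 < (lowPsiCorn m).val e v ρ S' := by
  exact ⟨93, Ex.pos_of_checkQuick low_psi_22 (lowMem 100000 (by push_cast; linarith) hx1) (lowMem 10000 hy0 hy1) (lowMem 10000 (by rw [hρ]; norm_num) (by rw [hρ]; norm_num))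
    (lowS_mem (s := 600117) (mul_nonneg (by rw [hρ]; norm_num) (le_trans (by norm_num) hx0)) (show ρ * e ≤ (9336213 / 500000000 : ℝ) by rw [hρ]; linarith) hs hs0 (by norm_num))⟩

theorem low_psi_corn_51 {e v ρ S' : ℝ} (hρ : ρ = 100 / 67)
    (hx0 : 1094 / 100000 ≤ e) (hx1 : e < 1251 / 100000) (hy0 : 19869 / 10000 ≤ v) (hy1 : v < 20532 / 10000)
    (hs0 : 3 / 5 ≤ S') (hs : S' ≤ 3 / 5 + ρ * e * (ρ * e) / 3)
    (hgap : 0 ≤ (toCorner ePsiGapLow).val e v ρ S') :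
    ∃ m : ℕ, 0 < (lowPsiCorn m).val e v ρ S' := by
  rcases lt_or_ge e (1172 / 100000) with g | g
  · exact low_psi_corn_52 hρ hx0 g hy0 hy1 hs0 hs hgap
  · exact low_psi_corn_53 hρ g hx1 hy0 hy1 hs0 hs hgap

theorem low_psi_corn_49 {e v ρ S' : ℝ} (hρ : ρ = 100 / 67)
    (hx0 : 1094 / 100000 ≤ e) (hx1 : e < 1251 / 100000) (hy0 : 19207 / 10000 ≤ v) (hy1 : v < 20532 / 10000)
    (hs0 : 3 / 5 ≤ S') (hs : S' ≤ 3 / 5 + ρ * e * (ρ * e) / 3)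
    (hgap : 0 ≤ (toCorner ePsiGapLow).val e v ρ S') :
    ∃ m : ℕ, 0 < (lowPsiCorn m).val e v ρ S' := by
  rcases lt_or_ge v (19869 / 10000) with g | g
  · exact low_psi_corn_50 hρ hx0 hx1 hy0 g hs0 hs hgap
  · exact low_psi_corn_51 hρ hx0 hx1 g hy1 hs0 hs hgap

theorem low_psi_corn_45 {e v ρ S' : ℝ} (hρ : ρ = 100 / 67)
    (hx0 : 938 / 100000 ≤ e) (hx1 : e < 1251 / 100000) (hy0 : 19207 / 10000 ≤ v) (hy1 : v < 20532 / 10000)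
    (hs0 : 3 / 5 ≤ S') (hs : S' ≤ 3 / 5 + ρ * e * (ρ * e) / 3)
    (hgap : 0 ≤ (toCorner ePsiGapLow).val e v ρ S') :
    ∃ m : ℕ, 0 < (lowPsiCorn m).val e v ρ S' := by
  rcases lt_or_ge e (1094 / 100000) with g | g
  · exact low_psi_corn_46 hρ hx0 g hy0 hy1 hs0 hs hgap
  · exact low_psi_corn_49 hρ g hx1 hy0 hy1 hs0 hs hgap

theorem low_psi_corn_56 {e v ρ S' : ℝ} (hρ : ρ = 100 / 67)
    (hx0 : 938 / 100000 ≤ e) (hx1 : e < 1094 / 100000) (hy0 : 20532 / 10000 ≤ v) (hy1 : v < 21195 / 10000)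
    (hs0 : 3 / 5 ≤ S') (hs : S' ≤ 3 / 5 + ρ * e * (ρ * e) / 3)
    (_hgap : 0 ≤ (toCorner ePsiGapLow).val e v ρ S') :
    ∃ m : ℕ, 0 < (lowPsiCorn m).val e v ρ S' := by
  exact ⟨93, Ex.pos_of_checkQuick low_psi_23 (lowMem 100000 (by push_cast; linarith) hx1) (lowMem 10000 hy0 hy1) (lowMem 10000 (by rw [hρ]; norm_num) (by rw [hρ]; norm_num))
    (lowS_mem (s := 600089) (mul_nonneg (by rw [hρ]; norm_num) (le_trans (by norm_num) hx0)) (show ρ * e ≤ (4082261 / 250000000 : ℝ) by rw [hρ]; linarith) hs hs0 (by norm_num))⟩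

theorem low_psi_corn_57 {e v ρ S' : ℝ} (hρ : ρ = 100 / 67)
    (hx0 : 938 / 100000 ≤ e) (hx1 : e < 1094 / 100000) (hy0 : 21195 / 10000 ≤ v) (hy1 : v < 21858 / 10000)
    (hs0 : 3 / 5 ≤ S') (hs : S' ≤ 3 / 5 + ρ * e * (ρ * e) / 3)
    (hgap : 0 ≤ (toCorner ePsiGapLow).val e v ρ S') :
    ∃ m : ℕ, 0 < (lowPsiCorn m).val e v ρ S' := by
  have k : 0 < (Ex.sub (eC 0) (toCorner ePsiGapLow)).val e v ρ S' := Ex.pos_of_checkQuick low_psi_out_3 (lowMem 100000 (by push_cast; linarith) hx1) (lowMem 10000 hy0 hy1) (lowMem 10000 (by rw [hρ]; norm_num) (by rw [hρ]; norm_num))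
    (lowS_mem (s := 600089) (mul_nonneg (by rw [hρ]; norm_num) (le_trans (by norm_num) hx0)) (show ρ * e ≤ (4082261 / 250000000 : ℝ) by rw [hρ]; linarith) hs hs0 (by norm_num))
  simp only [Ex.val] at k
  push_cast at k
  exact absurd hgap (not_le.2 (by linarith))

theorem low_psi_corn_55 {e v ρ S' : ℝ} (hρ : ρ = 100 / 67)
    (hx0 : 938 / 100000 ≤ e) (hx1 : e < 1094 / 100000) (hy0 : 20532 / 10000 ≤ v) (hy1 : v < 21858 / 10000)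
    (hs0 : 3 / 5 ≤ S') (hs : S' ≤ 3 / 5 + ρ * e * (ρ * e) / 3)
    (hgap : 0 ≤ (toCorner ePsiGapLow).val e v ρ S') :
    ∃ m : ℕ, 0 < (lowPsiCorn m).val e v ρ S' := by
  rcases lt_or_ge v (21195 / 10000) with g | g
  · exact low_psi_corn_56 hρ hx0 hx1 hy0 g hs0 hs hgap
  · exact low_psi_corn_57 hρ hx0 hx1 g hy1 hs0 hs hgap

theorem low_psi_corn_58 {e v ρ S' : ℝ} (hρ : ρ = 100 / 67)
    (hx0 : 1094 / 100000 ≤ e) (hx1 : e < 1251 / 100000) (hy0 : 20532 / 10000 ≤ v) (hy1 : v < 21858 / 10000)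
    (hs0 : 3 / 5 ≤ S') (hs : S' ≤ 3 / 5 + ρ * e * (ρ * e) / 3)
    (hgap : 0 ≤ (toCorner ePsiGapLow).val e v ρ S') :
    ∃ m : ℕ, 0 < (lowPsiCorn m).val e v ρ S' := by
  have k : 0 < (Ex.sub (eC 0) (toCorner ePsiGapLow)).val e v ρ S' := Ex.pos_of_checkQuick low_psi_out_4 (lowMem 100000 (by push_cast; linarith) hx1) (lowMem 10000 hy0 hy1) (lowMem 10000 (by rw [hρ]; norm_num) (by rw [hρ]; norm_num))
    (lowS_mem (s := 600117) (mul_nonneg (by rw [hρ]; norm_num) (le_trans (by norm_num) hx0)) (show ρ * e ≤ (9336213 / 500000000 : ℝ) by rw [hρ]; linarith) hs hs0 (by norm_num))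
  simp only [Ex.val] at k
  push_cast at k
  exact absurd hgap (not_le.2 (by linarith))

theorem low_psi_corn_54 {e v ρ S' : ℝ} (hρ : ρ = 100 / 67)
    (hx0 : 938 / 100000 ≤ e) (hx1 : e < 1251 / 100000) (hy0 : 20532 / 10000 ≤ v) (hy1 : v < 21858 / 10000)
    (hs0 : 3 / 5 ≤ S') (hs : S' ≤ 3 / 5 + ρ * e * (ρ * e) / 3)
    (hgap : 0 ≤ (toCorner ePsiGapLow).val e v ρ S') :
    ∃ m : ℕ, 0 < (lowPsiCorn m).val e v ρ S' := by
  rcases lt_or_ge e (1094 / 100000) with g | g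
  · exact low_psi_corn_55 hρ hx0 g hy0 hy1 hs0 hs hgap
  · exact low_psi_corn_58 hρ g hx1 hy0 hy1 hs0 hs hgap

theorem low_psi_corn_44 {e v ρ S' : ℝ} (hρ : ρ = 100 / 67)
    (hx0 : 938 / 100000 ≤ e) (hx1 : e < 1251 / 100000) (hy0 : 19207 / 10000 ≤ v) (hy1 : v < 21858 / 10000)
    (hs0 : 3 / 5 ≤ S') (hs : S' ≤ 3 / 5 + ρ * e * (ρ * e) / 3)
    (hgap : 0 ≤ (toCorner ePsiGapLow).val e v ρ S') :
    ∃ m : ℕ, 0 < (lowPsiCorn m).val e v ρ S' := by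
  rcases lt_or_ge v (20532 / 10000) with g | g
  · exact low_psi_corn_45 hρ hx0 hx1 hy0 g hs0 hs hgap
  · exact low_psi_corn_54 hρ hx0 hx1 g hy1 hs0 hs hgap

theorem low_psi_corn_34 {e v ρ S' : ℝ} (hρ : ρ = 100 / 67)
    (hx0 : 625 / 100000 ≤ e) (hx1 : e < 1251 / 100000) (hy0 : 19207 / 10000 ≤ v) (hy1 : v < 21858 / 10000)
    (hs0 : 3 / 5 ≤ S') (hs : S' ≤ 3 / 5 + ρ * e * (ρ * e) / 3)
    (hgap : 0 ≤ (toCorner ePsiGapLow).val e v ρ S') :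
    ∃ m : ℕ, 0 < (lowPsiCorn m).val e v ρ S' := by
  rcases lt_or_ge e (938 / 100000) with g | g
  · exact low_psi_corn_35 hρ hx0 g hy0 hy1 hs0 hs hgap
  · exact low_psi_corn_44 hρ g hx1 hy0 hy1 hs0 hs hgap

theorem low_psi_corn_59 {e v ρ S' : ℝ} (hρ : ρ = 100 / 67)
    (hx0 : 625 / 100000 ≤ e) (hx1 : e < 1251 / 100000) (hy0 : 21858 / 10000 ≤ v) (hy1 : v < 24510 / 10000)
    (hs0 : 3 / 5 ≤ S') (hs : S' ≤ 3 / 5 + ρ * e * (ρ * e) / 3)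
    (hgap : 0 ≤ (toCorner ePsiGapLow).val e v ρ S') :
    ∃ m : ℕ, 0 < (lowPsiCorn m).val e v ρ S' := by
  have k : 0 < (Ex.sub (eC 0) (toCorner ePsiGapLow)).val e v ρ S' := Ex.pos_of_checkQuick low_psi_out_5 (lowMem 100000 (by push_cast; linarith) hx1) (lowMem 10000 hy0 hy1) (lowMem 10000 (by rw [hρ]; norm_num) (by rw [hρ]; norm_num))
    (lowS_mem (s := 600117) (mul_nonneg (by rw [hρ]; norm_num) (le_trans (by norm_num) hx0)) (show ρ * e ≤ (9336213 / 500000000 : ℝ) by rw [hρ]; linarith) hs hs0 (by norm_num))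
  simp only [Ex.val] at k
  push_cast at k
  exact absurd hgap (not_le.2 (by linarith))

theorem low_psi_corn_33 {e v ρ S' : ℝ} (hρ : ρ = 100 / 67)
    (hx0 : 625 / 100000 ≤ e) (hx1 : e < 1251 / 100000) (hy0 : 19207 / 10000 ≤ v) (hy1 : v < 24510 / 10000)
    (hs0 : 3 / 5 ≤ S') (hs : S' ≤ 3 / 5 + ρ * e * (ρ * e) / 3)
    (hgap : 0 ≤ (toCorner ePsiGapLow).val e v ρ S') :
    ∃ m : ℕ, 0 < (lowPsiCorn m).val e v ρ S' := by
  rcases lt_or_ge v (21858 / 10000) with g | g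
  · exact low_psi_corn_34 hρ hx0 hx1 hy0 g hs0 hs hgap
  · exact low_psi_corn_59 hρ hx0 hx1 g hy1 hs0 hs hgap

theorem low_psi_corn_31 {e v ρ S' : ℝ} (hρ : ρ = 100 / 67)
    (hx0 : 0 / 100000 ≤ e) (hx1 : e < 1251 / 100000) (hy0 : 19207 / 10000 ≤ v) (hy1 : v < 24510 / 10000)
    (hs0 : 3 / 5 ≤ S') (hs : S' ≤ 3 / 5 + ρ * e * (ρ * e) / 3)
    (hgap : 0 ≤ (toCorner ePsiGapLow).val e v ρ S') :
    ∃ m : ℕ, 0 < (lowPsiCorn m).val e v ρ S' := by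
  rcases lt_or_ge e (625 / 100000) with g | g
  · exact low_psi_corn_32 hρ hx0 g hy0 hy1 hs0 hs hgap
  · exact low_psi_corn_33 hρ g hx1 hy0 hy1 hs0 hs hgap

theorem low_psi_corn_27 {e v ρ S' : ℝ} (hρ : ρ = 100 / 67)
    (hx0 : 0 / 100000 ≤ e) (hx1 : e < 1251 / 100000) (hy0 : 13905 / 10000 ≤ v) (hy1 : v < 24510 / 10000)
    (hs0 : 3 / 5 ≤ S') (hs : S' ≤ 3 / 5 + ρ * e * (ρ * e) / 3)
    (hgap : 0 ≤ (toCorner ePsiGapLow).val e v ρ S') :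
    ∃ m : ℕ, 0 < (lowPsiCorn m).val e v ρ S' := by
  rcases lt_or_ge v (19207 / 10000) with g | g
  · exact low_psi_corn_28 hρ hx0 hx1 hy0 g hs0 hs hgap
  · exact low_psi_corn_31 hρ hx0 hx1 g hy1 hs0 hs hgap

theorem low_psi_corn_63 {e v ρ S' : ℝ} (hρ : ρ = 100 / 67)
    (hx0 : 1251 / 100000 ≤ e) (hx1 : e < 1876 / 100000) (hy0 : 13905 / 10000 ≤ v) (hy1 : v < 16556 / 10000)
    (hs0 : 3 / 5 ≤ S') (hs : S' ≤ 3 / 5 + ρ * e * (ρ * e) / 3)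
    (_hgap : 0 ≤ (toCorner ePsiGapLow).val e v ρ S') :
    ∃ m : ℕ, 0 < (lowPsiCorn m).val e v ρ S' := by
  exact ⟨0, Ex.pos_of_checkQuick low_psi_24 (lowMem 100000 (by push_cast; linarith) hx1) (lowMem 10000 hy0 hy1) (lowMem 10000 (by rw [hρ]; norm_num) (by rw [hρ]; norm_num))
    (lowS_mem (s := 600262) (mul_nonneg (by rw [hρ]; norm_num) (le_trans (by norm_num) hx0)) (show ρ * e ≤ (3500147 / 125000000 : ℝ) by rw [hρ]; linarith) hs hs0 (by norm_num))⟩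

theorem low_psi_corn_66 {e v ρ S' : ℝ} (hρ : ρ = 100 / 67)
    (hx0 : 1251 / 100000 ≤ e) (hx1 : e < 1563 / 100000) (hy0 : 16556 / 10000 ≤ v) (hy1 : v < 17881 / 10000)
    (hs0 : 3 / 5 ≤ S') (hs : S' ≤ 3 / 5 + ρ * e * (ρ * e) / 3)
    (_hgap : 0 ≤ (toCorner ePsiGapLow).val e v ρ S') :
    ∃ m : ℕ, 0 < (lowPsiCorn m).val e v ρ S' := by
  exact ⟨0, Ex.pos_of_checkQuick low_psi_25 (lowMem 100000 (by push_cast; linarith) hx1) (lowMem 10000 hy0 hy1) (lowMem 10000 (by rw [hρ]; norm_num) (by rw [hρ]; norm_num))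
    (lowS_mem (s := 600182) (mul_nonneg (by rw [hρ]; norm_num) (le_trans (by norm_num) hx0)) (show ρ * e ≤ (11664669 / 500000000 : ℝ) by rw [hρ]; linarith) hs hs0 (by norm_num))⟩

theorem low_psi_corn_68 {e v ρ S' : ℝ} (hρ : ρ = 100 / 67)
    (hx0 : 1251 / 100000 ≤ e) (hx1 : e < 1407 / 100000) (hy0 : 17881 / 10000 ≤ v) (hy1 : v < 19207 / 10000)
    (hs0 : 3 / 5 ≤ S') (hs : S' ≤ 3 / 5 + ρ * e * (ρ * e) / 3)
    (_hgap : 0 ≤ (toCorner ePsiGapLow).val e v ρ S') :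
    ∃ m : ℕ, 0 < (lowPsiCorn m).val e v ρ S' := by
  exact ⟨0, Ex.pos_of_checkQuick low_psi_26 (lowMem 100000 (by push_cast; linarith) hx1) (lowMem 10000 hy0 hy1) (lowMem 10000 (by rw [hρ]; norm_num) (by rw [hρ]; norm_num))
    (lowS_mem (s := 600148) (mul_nonneg (by rw [hρ]; norm_num) (le_trans (by norm_num) hx0)) (show ρ * e ≤ (10500441 / 500000000 : ℝ) by rw [hρ]; linarith) hs hs0 (by norm_num))⟩

theorem low_psi_corn_70 {e v ρ S' : ℝ} (hρ : ρ = 100 / 67)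
    (hx0 : 1407 / 100000 ≤ e) (hx1 : e < 1563 / 100000) (hy0 : 17881 / 10000 ≤ v) (hy1 : v < 18544 / 10000)
    (hs0 : 3 / 5 ≤ S') (hs : S' ≤ 3 / 5 + ρ * e * (ρ * e) / 3)
    (_hgap : 0 ≤ (toCorner ePsiGapLow).val e v ρ S') :
    ∃ m : ℕ, 0 < (lowPsiCorn m).val e v ρ S' := by
  exact ⟨0, Ex.pos_of_checkQuick low_psi_27 (lowMem 100000 (by push_cast; linarith) hx1) (lowMem 10000 hy0 hy1) (lowMem 10000 (by rw [hρ]; norm_num) (by rw [hρ]; norm_num))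
    (lowS_mem (s := 600182) (mul_nonneg (by rw [hρ]; norm_num) (le_trans (by norm_num) hx0)) (show ρ * e ≤ (11664669 / 500000000 : ℝ) by rw [hρ]; linarith) hs hs0 (by norm_num))⟩

theorem low_psi_corn_71 {e v ρ S' : ℝ} (hρ : ρ = 100 / 67)
    (hx0 : 1407 / 100000 ≤ e) (hx1 : e < 1563 / 100000) (hy0 : 18544 / 10000 ≤ v) (hy1 : v < 19207 / 10000)
    (hs0 : 3 / 5 ≤ S') (hs : S' ≤ 3 / 5 + ρ * e * (ρ * e) / 3)
    (_hgap : 0 ≤ (toCorner ePsiGapLow).val e v ρ S') :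
    ∃ m : ℕ, 0 < (lowPsiCorn m).val e v ρ S' := by
  exact ⟨74, Ex.pos_of_checkQuick low_psi_28 (lowMem 100000 (by push_cast; linarith) hx1) (lowMem 10000 hy0 hy1) (lowMem 10000 (by rw [hρ]; norm_num) (by rw [hρ]; norm_num))
    (lowS_mem (s := 600182) (mul_nonneg (by rw [hρ]; norm_num) (le_trans (by norm_num) hx0)) (show ρ * e ≤ (11664669 / 500000000 : ℝ) by rw [hρ]; linarith) hs hs0 (by norm_num))⟩

theorem low_psi_corn_69 {e v ρ S' : ℝ} (hρ : ρ = 100 / 67)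
    (hx0 : 1407 / 100000 ≤ e) (hx1 : e < 1563 / 100000) (hy0 : 17881 / 10000 ≤ v) (hy1 : v < 19207 / 10000)
    (hs0 : 3 / 5 ≤ S') (hs : S' ≤ 3 / 5 + ρ * e * (ρ * e) / 3)
    (hgap : 0 ≤ (toCorner ePsiGapLow).val e v ρ S') :
    ∃ m : ℕ, 0 < (lowPsiCorn m).val e v ρ S' := by
  rcases lt_or_ge v (18544 / 10000) with g | g
  · exact low_psi_corn_70 hρ hx0 hx1 hy0 g hs0 hs hgap
  · exact low_psi_corn_71 hρ hx0 hx1 g hy1 hs0 hs hgap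

theorem low_psi_corn_67 {e v ρ S' : ℝ} (hρ : ρ = 100 / 67)
    (hx0 : 1251 / 100000 ≤ e) (hx1 : e < 1563 / 100000) (hy0 : 17881 / 10000 ≤ v) (hy1 : v < 19207 / 10000)
    (hs0 : 3 / 5 ≤ S') (hs : S' ≤ 3 / 5 + ρ * e * (ρ * e) / 3)
    (hgap : 0 ≤ (toCorner ePsiGapLow).val e v ρ S') :
    ∃ m : ℕ, 0 < (lowPsiCorn m).val e v ρ S' := by
  rcases lt_or_ge e (1407 / 100000) with g | g
  · exact low_psi_corn_68 hρ hx0 g hy0 hy1 hs0 hs hgap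
  · exact low_psi_corn_69 hρ g hx1 hy0 hy1 hs0 hs hgap

theorem low_psi_corn_65 {e v ρ S' : ℝ} (hρ : ρ = 100 / 67)
    (hx0 : 1251 / 100000 ≤ e) (hx1 : e < 1563 / 100000) (hy0 : 16556 / 10000 ≤ v) (hy1 : v < 19207 / 10000)
    (hs0 : 3 / 5 ≤ S') (hs : S' ≤ 3 / 5 + ρ * e * (ρ * e) / 3)
    (hgap : 0 ≤ (toCorner ePsiGapLow).val e v ρ S') :
    ∃ m : ℕ, 0 < (lowPsiCorn m).val e v ρ S' := by
  rcases lt_or_ge v (17881 / 10000) with g | g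
  · exact low_psi_corn_66 hρ hx0 hx1 hy0 g hs0 hs hgap
  · exact low_psi_corn_67 hρ hx0 hx1 g hy1 hs0 hs hgap

theorem low_psi_corn_73 {e v ρ S' : ℝ} (hρ : ρ = 100 / 67)
    (hx0 : 1563 / 100000 ≤ e) (hx1 : e < 1876 / 100000) (hy0 : 16556 / 10000 ≤ v) (hy1 : v < 17881 / 10000)
    (hs0 : 3 / 5 ≤ S') (hs : S' ≤ 3 / 5 + ρ * e * (ρ * e) / 3)
    (_hgap : 0 ≤ (toCorner ePsiGapLow).val e v ρ S') :
    ∃ m : ℕ, 0 < (lowPsiCorn m).val e v ρ S' := by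
  exact ⟨0, Ex.pos_of_checkQuick low_psi_29 (lowMem 100000 (by push_cast; linarith) hx1) (lowMem 10000 hy0 hy1) (lowMem 10000 (by rw [hρ]; norm_num) (by rw [hρ]; norm_num))
    (lowS_mem (s := 600262) (mul_nonneg (by rw [hρ]; norm_num) (le_trans (by norm_num) hx0)) (show ρ * e ≤ (3500147 / 125000000 : ℝ) by rw [hρ]; linarith) hs hs0 (by norm_num))⟩

theorem low_psi_corn_76 {e v ρ S' : ℝ} (hρ : ρ = 100 / 67)
    (hx0 : 1563 / 100000 ≤ e) (hx1 : e < 1719 / 100000) (hy0 : 17881 / 10000 ≤ v) (hy1 : v < 18544 / 10000)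
    (hs0 : 3 / 5 ≤ S') (hs : S' ≤ 3 / 5 + ρ * e * (ρ * e) / 3)
    (_hgap : 0 ≤ (toCorner ePsiGapLow).val e v ρ S') :
    ∃ m : ℕ, 0 < (lowPsiCorn m).val e v ρ S' := by
  exact ⟨74, Ex.pos_of_checkQuick low_psi_30 (lowMem 100000 (by push_cast; linarith) hx1) (lowMem 10000 hy0 hy1) (lowMem 10000 (by rw [hρ]; norm_num) (by rw [hρ]; norm_num))
    (lowS_mem (s := 600220) (mul_nonneg (by rw [hρ]; norm_num) (le_trans (by norm_num) hx0)) (show ρ * e ≤ (12828897 / 500000000 : ℝ) by rw [hρ]; linarith) hs hs0 (by norm_num))⟩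

theorem low_psi_corn_77 {e v ρ S' : ℝ} (hρ : ρ = 100 / 67)
    (hx0 : 1563 / 100000 ≤ e) (hx1 : e < 1719 / 100000) (hy0 : 18544 / 10000 ≤ v) (hy1 : v < 19207 / 10000)
    (hs0 : 3 / 5 ≤ S') (hs : S' ≤ 3 / 5 + ρ * e * (ρ * e) / 3)
    (_hgap : 0 ≤ (toCorner ePsiGapLow).val e v ρ S') :
    ∃ m : ℕ, 0 < (lowPsiCorn m).val e v ρ S' := by
  exact ⟨93, Ex.pos_of_checkQuick low_psi_31 (lowMem 100000 (by push_cast; linarith) hx1) (lowMem 10000 hy0 hy1) (lowMem 10000 (by rw [hρ]; norm_num) (by rw [hρ]; norm_num))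
    (lowS_mem (s := 600220) (mul_nonneg (by rw [hρ]; norm_num) (le_trans (by norm_num) hx0)) (show ρ * e ≤ (12828897 / 500000000 : ℝ) by rw [hρ]; linarith) hs hs0 (by norm_num))⟩

theorem low_psi_corn_75 {e v ρ S' : ℝ} (hρ : ρ = 100 / 67)
    (hx0 : 1563 / 100000 ≤ e) (hx1 : e < 1719 / 100000) (hy0 : 17881 / 10000 ≤ v) (hy1 : v < 19207 / 10000)
    (hs0 : 3 / 5 ≤ S') (hs : S' ≤ 3 / 5 + ρ * e * (ρ * e) / 3)
    (hgap : 0 ≤ (toCorner ePsiGapLow).val e v ρ S') :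
    ∃ m : ℕ, 0 < (lowPsiCorn m).val e v ρ S' := by
  rcases lt_or_ge v (18544 / 10000) with g | g
  · exact low_psi_corn_76 hρ hx0 hx1 hy0 g hs0 hs hgap
  · exact low_psi_corn_77 hρ hx0 hx1 g hy1 hs0 hs hgap

theorem low_psi_corn_79 {e v ρ S' : ℝ} (hρ : ρ = 100 / 67)
    (hx0 : 1719 / 100000 ≤ e) (hx1 : e < 1876 / 100000) (hy0 : 17881 / 10000 ≤ v) (hy1 : v < 18544 / 10000)
    (hs0 : 3 / 5 ≤ S') (hs : S' ≤ 3 / 5 + ρ * e * (ρ * e) / 3)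
    (_hgap : 0 ≤ (toCorner ePsiGapLow).val e v ρ S') :
    ∃ m : ℕ, 0 < (lowPsiCorn m).val e v ρ S' := by
  exact ⟨93, Ex.pos_of_checkQuick low_psi_32 (lowMem 100000 (by push_cast; linarith) hx1) (lowMem 10000 hy0 hy1) (lowMem 10000 (by rw [hρ]; norm_num) (by rw [hρ]; norm_num))
    (lowS_mem (s := 600262) (mul_nonneg (by rw [hρ]; norm_num) (le_trans (by norm_num) hx0)) (show ρ * e ≤ (3500147 / 125000000 : ℝ) by rw [hρ]; linarith) hs hs0 (by norm_num))⟩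

theorem low_psi_corn_80 {e v ρ S' : ℝ} (hρ : ρ = 100 / 67)
    (hx0 : 1719 / 100000 ≤ e) (hx1 : e < 1876 / 100000) (hy0 : 18544 / 10000 ≤ v) (hy1 : v < 19207 / 10000)
    (hs0 : 3 / 5 ≤ S') (hs : S' ≤ 3 / 5 + ρ * e * (ρ * e) / 3)
    (hgap : 0 ≤ (toCorner ePsiGapLow).val e v ρ S') :
    ∃ m : ℕ, 0 < (lowPsiCorn m).val e v ρ S' := by
  have k : 0 < (Ex.sub (eC 0) (toCorner ePsiGapLow)).val e v ρ S' := Ex.pos_of_checkQuick low_psi_out_6 (lowMem 100000 (by push_cast; linarith) hx1) (lowMem 10000 hy0 hy1) (lowMem 10000 (by rw [hρ]; norm_num) (by rw [hρ]; norm_num))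
    (lowS_mem (s := 600262) (mul_nonneg (by rw [hρ]; norm_num) (le_trans (by norm_num) hx0)) (show ρ * e ≤ (3500147 / 125000000 : ℝ) by rw [hρ]; linarith) hs hs0 (by norm_num))
  simp only [Ex.val] at k
  push_cast at k
  exact absurd hgap (not_le.2 (by linarith))

theorem low_psi_corn_78 {e v ρ S' : ℝ} (hρ : ρ = 100 / 67)
    (hx0 : 1719 / 100000 ≤ e) (hx1 : e < 1876 / 100000) (hy0 : 17881 / 10000 ≤ v) (hy1 : v < 19207 / 10000)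
    (hs0 : 3 / 5 ≤ S') (hs : S' ≤ 3 / 5 + ρ * e * (ρ * e) / 3)
    (hgap : 0 ≤ (toCorner ePsiGapLow).val e v ρ S') :
    ∃ m : ℕ, 0 < (lowPsiCorn m).val e v ρ S' := by
  rcases lt_or_ge v (18544 / 10000) with g | g
  · exact low_psi_corn_79 hρ hx0 hx1 hy0 g hs0 hs hgap
  · exact low_psi_corn_80 hρ hx0 hx1 g hy1 hs0 hs hgap

theorem low_psi_corn_74 {e v ρ S' : ℝ} (hρ : ρ = 100 / 67)
    (hx0 : 1563 / 100000 ≤ e) (hx1 : e < 1876 / 100000) (hy0 : 17881 / 10000 ≤ v) (hy1 : v < 19207 / 10000)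
    (hs0 : 3 / 5 ≤ S') (hs : S' ≤ 3 / 5 + ρ * e * (ρ * e) / 3)
    (hgap : 0 ≤ (toCorner ePsiGapLow).val e v ρ S') :
    ∃ m : ℕ, 0 < (lowPsiCorn m).val e v ρ S' := by
  rcases lt_or_ge e (1719 / 100000) with g | g
  · exact low_psi_corn_75 hρ hx0 g hy0 hy1 hs0 hs hgap
  · exact low_psi_corn_78 hρ g hx1 hy0 hy1 hs0 hs hgap

theorem low_psi_corn_72 {e v ρ S' : ℝ} (hρ : ρ = 100 / 67)
    (hx0 : 1563 / 100000 ≤ e) (hx1 : e < 1876 / 100000) (hy0 : 16556 / 10000 ≤ v) (hy1 : v < 19207 / 10000)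
    (hs0 : 3 / 5 ≤ S') (hs : S' ≤ 3 / 5 + ρ * e * (ρ * e) / 3)
    (hgap : 0 ≤ (toCorner ePsiGapLow).val e v ρ S') :
    ∃ m : ℕ, 0 < (lowPsiCorn m).val e v ρ S' := by
  rcases lt_or_ge v (17881 / 10000) with g | g
  · exact low_psi_corn_73 hρ hx0 hx1 hy0 g hs0 hs hgap
  · exact low_psi_corn_74 hρ hx0 hx1 g hy1 hs0 hs hgap

theorem low_psi_corn_64 {e v ρ S' : ℝ} (hρ : ρ = 100 / 67)
    (hx0 : 1251 / 100000 ≤ e) (hx1 : e < 1876 / 100000) (hy0 : 16556 / 10000 ≤ v) (hy1 : v < 19207 / 10000)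
    (hs0 : 3 / 5 ≤ S') (hs : S' ≤ 3 / 5 + ρ * e * (ρ * e) / 3)
    (hgap : 0 ≤ (toCorner ePsiGapLow).val e v ρ S') :
    ∃ m : ℕ, 0 < (lowPsiCorn m).val e v ρ S' := by
  rcases lt_or_ge e (1563 / 100000) with g | g
  · exact low_psi_corn_65 hρ hx0 g hy0 hy1 hs0 hs hgap
  · exact low_psi_corn_72 hρ g hx1 hy0 hy1 hs0 hs hgap

theorem low_psi_corn_62 {e v ρ S' : ℝ} (hρ : ρ = 100 / 67)
    (hx0 : 1251 / 100000 ≤ e) (hx1 : e < 1876 / 100000) (hy0 : 13905 / 10000 ≤ v) (hy1 : v < 19207 / 10000)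
    (hs0 : 3 / 5 ≤ S') (hs : S' ≤ 3 / 5 + ρ * e * (ρ * e) / 3)
    (hgap : 0 ≤ (toCorner ePsiGapLow).val e v ρ S') :
    ∃ m : ℕ, 0 < (lowPsiCorn m).val e v ρ S' := by
  rcases lt_or_ge v (16556 / 10000) with g | g
  · exact low_psi_corn_63 hρ hx0 hx1 hy0 g hs0 hs hgap
  · exact low_psi_corn_64 hρ hx0 hx1 g hy1 hs0 hs hgap

theorem low_psi_corn_83 {e v ρ S' : ℝ} (hρ : ρ = 100 / 67)
    (hx0 : 1876 / 100000 ≤ e) (hx1 : e < 2189 / 100000) (hy0 : 13905 / 10000 ≤ v) (hy1 : v < 16556 / 10000)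
    (hs0 : 3 / 5 ≤ S') (hs : S' ≤ 3 / 5 + ρ * e * (ρ * e) / 3)
    (_hgap : 0 ≤ (toCorner ePsiGapLow).val e v ρ S') :
    ∃ m : ℕ, 0 < (lowPsiCorn m).val e v ρ S' := by
  exact ⟨0, Ex.pos_of_checkQuick low_psi_33 (lowMem 100000 (by push_cast; linarith) hx1) (lowMem 10000 hy0 hy1) (lowMem 10000 (by rw [hρ]; norm_num) (by rw [hρ]; norm_num))
    (lowS_mem (s := 600356) (mul_nonneg (by rw [hρ]; norm_num) (le_trans (by norm_num) hx0)) (show ρ * e ≤ (16336507 / 500000000 : ℝ) by rw [hρ]; linarith) hs hs0 (by norm_num))⟩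

theorem low_psi_corn_85 {e v ρ S' : ℝ} (hρ : ρ = 100 / 67)
    (hx0 : 2189 / 100000 ≤ e) (hx1 : e < 2502 / 100000) (hy0 : 13905 / 10000 ≤ v) (hy1 : v < 15230 / 10000)
    (hs0 : 3 / 5 ≤ S') (hs : S' ≤ 3 / 5 + ρ * e * (ρ * e) / 3)
    (_hgap : 0 ≤ (toCorner ePsiGapLow).val e v ρ S') :
    ∃ m : ℕ, 0 < (lowPsiCorn m).val e v ρ S' := by
  exact ⟨0, Ex.pos_of_checkQuick low_psi_34 (lowMem 100000 (by push_cast; linarith) hx1) (lowMem 10000 hy0 hy1) (lowMem 10000 (by rw [hρ]; norm_num) (by rw [hρ]; norm_num))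
    (lowS_mem (s := 600465) (mul_nonneg (by rw [hρ]; norm_num) (le_trans (by norm_num) hx0)) (show ρ * e ≤ (9336213 / 250000000 : ℝ) by rw [hρ]; linarith) hs hs0 (by norm_num))⟩

theorem low_psi_corn_87 {e v ρ S' : ℝ} (hρ : ρ = 100 / 67)
    (hx0 : 2189 / 100000 ≤ e) (hx1 : e < 2345 / 100000) (hy0 : 15230 / 10000 ≤ v) (hy1 : v < 16556 / 10000)
    (hs0 : 3 / 5 ≤ S') (hs : S' ≤ 3 / 5 + ρ * e * (ρ * e) / 3)
    (_hgap : 0 ≤ (toCorner ePsiGapLow).val e v ρ S') :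
    ∃ m : ℕ, 0 < (lowPsiCorn m).val e v ρ S' := by
  exact ⟨0, Ex.pos_of_checkQuick low_psi_35 (lowMem 100000 (by push_cast; linarith) hx1) (lowMem 10000 hy0 hy1) (lowMem 10000 (by rw [hρ]; norm_num) (by rw [hρ]; norm_num))
    (lowS_mem (s := 600409) (mul_nonneg (by rw [hρ]; norm_num) (le_trans (by norm_num) hx0)) (show ρ * e ≤ (3500147 / 100000000 : ℝ) by rw [hρ]; linarith) hs hs0 (by norm_num))⟩

theorem low_psi_corn_89 {e v ρ S' : ℝ} (hρ : ρ = 100 / 67)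
    (hx0 : 2345 / 100000 ≤ e) (hx1 : e < 2502 / 100000) (hy0 : 15230 / 10000 ≤ v) (hy1 : v < 15893 / 10000)
    (hs0 : 3 / 5 ≤ S') (hs : S' ≤ 3 / 5 + ρ * e * (ρ * e) / 3)
    (_hgap : 0 ≤ (toCorner ePsiGapLow).val e v ρ S') :
    ∃ m : ℕ, 0 < (lowPsiCorn m).val e v ρ S' := by
  exact ⟨0, Ex.pos_of_checkQuick low_psi_36 (lowMem 100000 (by push_cast; linarith) hx1) (lowMem 10000 hy0 hy1) (lowMem 10000 (by rw [hρ]; norm_num) (by rw [hρ]; norm_num))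
    (lowS_mem (s := 600465) (mul_nonneg (by rw [hρ]; norm_num) (le_trans (by norm_num) hx0)) (show ρ * e ≤ (9336213 / 250000000 : ℝ) by rw [hρ]; linarith) hs hs0 (by norm_num))⟩

theorem low_psi_corn_90 {e v ρ S' : ℝ} (hρ : ρ = 100 / 67)
    (hx0 : 2345 / 100000 ≤ e) (hx1 : e < 2502 / 100000) (hy0 : 15893 / 10000 ≤ v) (hy1 : v < 16556 / 10000)
    (hs0 : 3 / 5 ≤ S') (hs : S' ≤ 3 / 5 + ρ * e * (ρ * e) / 3)
    (_hgap : 0 ≤ (toCorner ePsiGapLow).val e v ρ S') :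
    ∃ m : ℕ, 0 < (lowPsiCorn m).val e v ρ S' := by
  exact ⟨93, Ex.pos_of_checkQuick low_psi_37 (lowMem 100000 (by push_cast; linarith) hx1) (lowMem 10000 hy0 hy1) (lowMem 10000 (by rw [hρ]; norm_num) (by rw [hρ]; norm_num))
    (lowS_mem (s := 600465) (mul_nonneg (by rw [hρ]; norm_num) (le_trans (by norm_num) hx0)) (show ρ * e ≤ (9336213 / 250000000 : ℝ) by rw [hρ]; linarith) hs hs0 (by norm_num))⟩

theorem low_psi_corn_88 {e v ρ S' : ℝ} (hρ : ρ = 100 / 67)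
    (hx0 : 2345 / 100000 ≤ e) (hx1 : e < 2502 / 100000) (hy0 : 15230 / 10000 ≤ v) (hy1 : v < 16556 / 10000)
    (hs0 : 3 / 5 ≤ S') (hs : S' ≤ 3 / 5 + ρ * e * (ρ * e) / 3)
    (hgap : 0 ≤ (toCorner ePsiGapLow).val e v ρ S') :
    ∃ m : ℕ, 0 < (lowPsiCorn m).val e v ρ S' := by
  rcases lt_or_ge v (15893 / 10000) with g | g
  · exact low_psi_corn_89 hρ hx0 hx1 hy0 g hs0 hs hgap
  · exact low_psi_corn_90 hρ hx0 hx1 g hy1 hs0 hs hgap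

theorem low_psi_corn_86 {e v ρ S' : ℝ} (hρ : ρ = 100 / 67)
    (hx0 : 2189 / 100000 ≤ e) (hx1 : e < 2502 / 100000) (hy0 : 15230 / 10000 ≤ v) (hy1 : v < 16556 / 10000)
    (hs0 : 3 / 5 ≤ S') (hs : S' ≤ 3 / 5 + ρ * e * (ρ * e) / 3)
    (hgap : 0 ≤ (toCorner ePsiGapLow).val e v ρ S') :
    ∃ m : ℕ, 0 < (lowPsiCorn m).val e v ρ S' := by
  rcases lt_or_ge e (2345 / 100000) with g | g
  · exact low_psi_corn_87 hρ hx0 g hy0 hy1 hs0 hs hgap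
  · exact low_psi_corn_88 hρ g hx1 hy0 hy1 hs0 hs hgap

theorem low_psi_corn_84 {e v ρ S' : ℝ} (hρ : ρ = 100 / 67)
    (hx0 : 2189 / 100000 ≤ e) (hx1 : e < 2502 / 100000) (hy0 : 13905 / 10000 ≤ v) (hy1 : v < 16556 / 10000)
    (hs0 : 3 / 5 ≤ S') (hs : S' ≤ 3 / 5 + ρ * e * (ρ * e) / 3)
    (hgap : 0 ≤ (toCorner ePsiGapLow).val e v ρ S') :
    ∃ m : ℕ, 0 < (lowPsiCorn m).val e v ρ S' := by
  rcases lt_or_ge v (15230 / 10000) with g | g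
  · exact low_psi_corn_85 hρ hx0 hx1 hy0 g hs0 hs hgap
  · exact low_psi_corn_86 hρ hx0 hx1 g hy1 hs0 hs hgap

theorem low_psi_corn_82 {e v ρ S' : ℝ} (hρ : ρ = 100 / 67)
    (hx0 : 1876 / 100000 ≤ e) (hx1 : e < 2502 / 100000) (hy0 : 13905 / 10000 ≤ v) (hy1 : v < 16556 / 10000)
    (hs0 : 3 / 5 ≤ S') (hs : S' ≤ 3 / 5 + ρ * e * (ρ * e) / 3)
    (hgap : 0 ≤ (toCorner ePsiGapLow).val e v ρ S') :
    ∃ m : ℕ, 0 < (lowPsiCorn m).val e v ρ S' := by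
  rcases lt_or_ge e (2189 / 100000) with g | g
  · exact low_psi_corn_83 hρ hx0 g hy0 hy1 hs0 hs hgap
  · exact low_psi_corn_84 hρ g hx1 hy0 hy1 hs0 hs hgap

theorem low_psi_corn_95 {e v ρ S' : ℝ} (hρ : ρ = 100 / 67)
    (hx0 : 1876 / 100000 ≤ e) (hx1 : e < 2032 / 100000) (hy0 : 16556 / 10000 ≤ v) (hy1 : v < 17218 / 10000)
    (hs0 : 3 / 5 ≤ S') (hs : S' ≤ 3 / 5 + ρ * e * (ρ * e) / 3)
    (_hgap : 0 ≤ (toCorner ePsiGapLow).val e v ρ S') :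
    ∃ m : ℕ, 0 < (lowPsiCorn m).val e v ρ S' := by
  exact ⟨0, Ex.pos_of_checkQuick low_psi_38 (lowMem 100000 (by push_cast; linarith) hx1) (lowMem 10000 hy0 hy1) (lowMem 10000 (by rw [hρ]; norm_num) (by rw [hρ]; norm_num))
    (lowS_mem (s := 600307) (mul_nonneg (by rw [hρ]; norm_num) (le_trans (by norm_num) hx0)) (show ρ * e ≤ (947801 / 31250000 : ℝ) by rw [hρ]; linarith) hs hs0 (by norm_num))⟩

theorem low_psi_corn_96 {e v ρ S' : ℝ} (hρ : ρ = 100 / 67)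
    (hx0 : 1876 / 100000 ≤ e) (hx1 : e < 2032 / 100000) (hy0 : 17218 / 10000 ≤ v) (hy1 : v < 17881 / 10000)
    (hs0 : 3 / 5 ≤ S') (hs : S' ≤ 3 / 5 + ρ * e * (ρ * e) / 3)
    (_hgap : 0 ≤ (toCorner ePsiGapLow).val e v ρ S') :
    ∃ m : ℕ, 0 < (lowPsiCorn m).val e v ρ S' := by
  exact ⟨93, Ex.pos_of_checkQuick low_psi_39 (lowMem 100000 (by push_cast; linarith) hx1) (lowMem 10000 hy0 hy1) (lowMem 10000 (by rw [hρ]; norm_num) (by rw [hρ]; norm_num))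
    (lowS_mem (s := 600307) (mul_nonneg (by rw [hρ]; norm_num) (le_trans (by norm_num) hx0)) (show ρ * e ≤ (947801 / 31250000 : ℝ) by rw [hρ]; linarith) hs hs0 (by norm_num))⟩

theorem low_psi_corn_94 {e v ρ S' : ℝ} (hρ : ρ = 100 / 67)
    (hx0 : 1876 / 100000 ≤ e) (hx1 : e < 2032 / 100000) (hy0 : 16556 / 10000 ≤ v) (hy1 : v < 17881 / 10000)
    (hs0 : 3 / 5 ≤ S') (hs : S' ≤ 3 / 5 + ρ * e * (ρ * e) / 3)
    (hgap : 0 ≤ (toCorner ePsiGapLow).val e v ρ S') :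
    ∃ m : ℕ, 0 < (lowPsiCorn m).val e v ρ S' := by
  rcases lt_or_ge v (17218 / 10000) with g | g
  · exact low_psi_corn_95 hρ hx0 hx1 hy0 g hs0 hs hgap
  · exact low_psi_corn_96 hρ hx0 hx1 g hy1 hs0 hs hgap

theorem low_psi_corn_98 {e v ρ S' : ℝ} (hρ : ρ = 100 / 67)
    (hx0 : 2032 / 100000 ≤ e) (hx1 : e < 2189 / 100000) (hy0 : 16556 / 10000 ≤ v) (hy1 : v < 17218 / 10000)
    (hs0 : 3 / 5 ≤ S') (hs : S' ≤ 3 / 5 + ρ * e * (ρ * e) / 3)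
    (_hgap : 0 ≤ (toCorner ePsiGapLow).val e v ρ S') :
    ∃ m : ℕ, 0 < (lowPsiCorn m).val e v ρ S' := by
  exact ⟨0, Ex.pos_of_checkQuick low_psi_40 (lowMem 100000 (by push_cast; linarith) hx1) (lowMem 10000 hy0 hy1) (lowMem 10000 (by rw [hρ]; norm_num) (by rw [hρ]; norm_num))
    (lowS_mem (s := 600356) (mul_nonneg (by rw [hρ]; norm_num) (le_trans (by norm_num) hx0)) (show ρ * e ≤ (16336507 / 500000000 : ℝ) by rw [hρ]; linarith) hs hs0 (by norm_num))⟩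

theorem low_psi_corn_99 {e v ρ S' : ℝ} (hρ : ρ = 100 / 67)
    (hx0 : 2032 / 100000 ≤ e) (hx1 : e < 2189 / 100000) (hy0 : 17218 / 10000 ≤ v) (hy1 : v < 17881 / 10000)
    (hs0 : 3 / 5 ≤ S') (hs : S' ≤ 3 / 5 + ρ * e * (ρ * e) / 3)
    (_hgap : 0 ≤ (toCorner ePsiGapLow).val e v ρ S') :
    ∃ m : ℕ, 0 < (lowPsiCorn m).val e v ρ S' := by
  exact ⟨93, Ex.pos_of_checkQuick low_psi_41 (lowMem 100000 (by push_cast; linarith) hx1) (lowMem 10000 hy0 hy1) (lowMem 10000 (by rw [hρ]; norm_num) (by rw [hρ]; norm_num))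
    (lowS_mem (s := 600356) (mul_nonneg (by rw [hρ]; norm_num) (le_trans (by norm_num) hx0)) (show ρ * e ≤ (16336507 / 500000000 : ℝ) by rw [hρ]; linarith) hs hs0 (by norm_num))⟩

theorem low_psi_corn_97 {e v ρ S' : ℝ} (hρ : ρ = 100 / 67)
    (hx0 : 2032 / 100000 ≤ e) (hx1 : e < 2189 / 100000) (hy0 : 16556 / 10000 ≤ v) (hy1 : v < 17881 / 10000)
    (hs0 : 3 / 5 ≤ S') (hs : S' ≤ 3 / 5 + ρ * e * (ρ * e) / 3)
    (hgap : 0 ≤ (toCorner ePsiGapLow).val e v ρ S') :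
    ∃ m : ℕ, 0 < (lowPsiCorn m).val e v ρ S' := by
  rcases lt_or_ge v (17218 / 10000) with g | g
  · exact low_psi_corn_98 hρ hx0 hx1 hy0 g hs0 hs hgap
  · exact low_psi_corn_99 hρ hx0 hx1 g hy1 hs0 hs hgap

theorem low_psi_corn_93 {e v ρ S' : ℝ} (hρ : ρ = 100 / 67)
    (hx0 : 1876 / 100000 ≤ e) (hx1 : e < 2189 / 100000) (hy0 : 16556 / 10000 ≤ v) (hy1 : v < 17881 / 10000)
    (hs0 : 3 / 5 ≤ S') (hs : S' ≤ 3 / 5 + ρ * e * (ρ * e) / 3)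
    (hgap : 0 ≤ (toCorner ePsiGapLow).val e v ρ S') :
    ∃ m : ℕ, 0 < (lowPsiCorn m).val e v ρ S' := by
  rcases lt_or_ge e (2032 / 100000) with g | g
  · exact low_psi_corn_94 hρ hx0 g hy0 hy1 hs0 hs hgap
  · exact low_psi_corn_97 hρ g hx1 hy0 hy1 hs0 hs hgap

theorem low_psi_corn_102 {e v ρ S' : ℝ} (hρ : ρ = 100 / 67)
    (hx0 : 1876 / 100000 ≤ e) (hx1 : e < 2032 / 100000) (hy0 : 17881 / 10000 ≤ v) (hy1 : v < 18544 / 10000)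
    (hs0 : 3 / 5 ≤ S') (hs : S' ≤ 3 / 5 + ρ * e * (ρ * e) / 3)
    (_hgap : 0 ≤ (toCorner ePsiGapLow).val e v ρ S') :
    ∃ m : ℕ, 0 < (lowPsiCorn m).val e v ρ S' := by
  exact ⟨116, Ex.pos_of_checkQuick low_psi_42 (lowMem 100000 (by push_cast; linarith) hx1) (lowMem 10000 hy0 hy1) (lowMem 10000 (by rw [hρ]; norm_num) (by rw [hρ]; norm_num))
    (lowS_mem (s := 600307) (mul_nonneg (by rw [hρ]; norm_num) (le_trans (by norm_num) hx0)) (show ρ * e ≤ (947801 / 31250000 : ℝ) by rw [hρ]; linarith) hs hs0 (by norm_num))⟩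

theorem low_psi_corn_103 {e v ρ S' : ℝ} (hρ : ρ = 100 / 67)
    (hx0 : 1876 / 100000 ≤ e) (hx1 : e < 2032 / 100000) (hy0 : 18544 / 10000 ≤ v) (hy1 : v < 19207 / 10000)
    (hs0 : 3 / 5 ≤ S') (hs : S' ≤ 3 / 5 + ρ * e * (ρ * e) / 3)
    (hgap : 0 ≤ (toCorner ePsiGapLow).val e v ρ S') :
    ∃ m : ℕ, 0 < (lowPsiCorn m).val e v ρ S' := by
  have k : 0 < (Ex.sub (eC 0) (toCorner ePsiGapLow)).val e v ρ S' := Ex.pos_of_checkQuick low_psi_out_7 (lowMem 100000 (by push_cast; linarith) hx1) (lowMem 10000 hy0 hy1) (lowMem 10000 (by rw [hρ]; norm_num) (by rw [hρ]; norm_num))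
    (lowS_mem (s := 600307) (mul_nonneg (by rw [hρ]; norm_num) (le_trans (by norm_num) hx0)) (show ρ * e ≤ (947801 / 31250000 : ℝ) by rw [hρ]; linarith) hs hs0 (by norm_num))
  simp only [Ex.val] at k
  push_cast at k
  exact absurd hgap (not_le.2 (by linarith))

theorem low_psi_corn_101 {e v ρ S' : ℝ} (hρ : ρ = 100 / 67)
    (hx0 : 1876 / 100000 ≤ e) (hx1 : e < 2032 / 100000) (hy0 : 17881 / 10000 ≤ v) (hy1 : v < 19207 / 10000)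
    (hs0 : 3 / 5 ≤ S') (hs : S' ≤ 3 / 5 + ρ * e * (ρ * e) / 3)
    (hgap : 0 ≤ (toCorner ePsiGapLow).val e v ρ S') :
    ∃ m : ℕ, 0 < (lowPsiCorn m).val e v ρ S' := by
  rcases lt_or_ge v (18544 / 10000) with g | g
  · exact low_psi_corn_102 hρ hx0 hx1 hy0 g hs0 hs hgap
  · exact low_psi_corn_103 hρ hx0 hx1 g hy1 hs0 hs hgap

theorem low_psi_corn_104 {e v ρ S' : ℝ} (hρ : ρ = 100 / 67)
    (hx0 : 2032 / 100000 ≤ e) (hx1 : e < 2189 / 100000) (hy0 : 17881 / 10000 ≤ v) (hy1 : v < 19207 / 10000)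
    (hs0 : 3 / 5 ≤ S') (hs : S' ≤ 3 / 5 + ρ * e * (ρ * e) / 3)
    (hgap : 0 ≤ (toCorner ePsiGapLow).val e v ρ S') :
    ∃ m : ℕ, 0 < (lowPsiCorn m).val e v ρ S' := by
  have k : 0 < (Ex.sub (eC 0) (toCorner ePsiGapLow)).val e v ρ S' := Ex.pos_of_checkQuick low_psi_out_8 (lowMem 100000 (by push_cast; linarith) hx1) (lowMem 10000 hy0 hy1) (lowMem 10000 (by rw [hρ]; norm_num) (by rw [hρ]; norm_num))
    (lowS_mem (s := 600356) (mul_nonneg (by rw [hρ]; norm_num) (le_trans (by norm_num) hx0)) (show ρ * e ≤ (16336507 / 500000000 : ℝ) by rw [hρ]; linarith) hs hs0 (by norm_num))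
  simp only [Ex.val] at k
  push_cast at k
  exact absurd hgap (not_le.2 (by linarith))

theorem low_psi_corn_100 {e v ρ S' : ℝ} (hρ : ρ = 100 / 67)
    (hx0 : 1876 / 100000 ≤ e) (hx1 : e < 2189 / 100000) (hy0 : 17881 / 10000 ≤ v) (hy1 : v < 19207 / 10000)
    (hs0 : 3 / 5 ≤ S') (hs : S' ≤ 3 / 5 + ρ * e * (ρ * e) / 3)
    (hgap : 0 ≤ (toCorner ePsiGapLow).val e v ρ S') :
    ∃ m : ℕ, 0 < (lowPsiCorn m).val e v ρ S' := by
  rcases lt_or_ge e (2032 / 100000) with g | g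
  · exact low_psi_corn_101 hρ hx0 g hy0 hy1 hs0 hs hgap
  · exact low_psi_corn_104 hρ g hx1 hy0 hy1 hs0 hs hgap

theorem low_psi_corn_92 {e v ρ S' : ℝ} (hρ : ρ = 100 / 67)
    (hx0 : 1876 / 100000 ≤ e) (hx1 : e < 2189 / 100000) (hy0 : 16556 / 10000 ≤ v) (hy1 : v < 19207 / 10000)
    (hs0 : 3 / 5 ≤ S') (hs : S' ≤ 3 / 5 + ρ * e * (ρ * e) / 3)
    (hgap : 0 ≤ (toCorner ePsiGapLow).val e v ρ S') :
    ∃ m : ℕ, 0 < (lowPsiCorn m).val e v ρ S' := by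
  rcases lt_or_ge v (17881 / 10000) with g | g
  · exact low_psi_corn_93 hρ hx0 hx1 hy0 g hs0 hs hgap
  · exact low_psi_corn_100 hρ hx0 hx1 g hy1 hs0 hs hgap

theorem low_psi_corn_108 {e v ρ S' : ℝ} (hρ : ρ = 100 / 67)
    (hx0 : 2189 / 100000 ≤ e) (hx1 : e < 2345 / 100000) (hy0 : 16556 / 10000 ≤ v) (hy1 : v < 17218 / 10000)
    (hs0 : 3 / 5 ≤ S') (hs : S' ≤ 3 / 5 + ρ * e * (ρ * e) / 3)
    (_hgap : 0 ≤ (toCorner ePsiGapLow).val e v ρ S') :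
    ∃ m : ℕ, 0 < (lowPsiCorn m).val e v ρ S' := by
  exact ⟨93, Ex.pos_of_checkQuick low_psi_43 (lowMem 100000 (by push_cast; linarith) hx1) (lowMem 10000 hy0 hy1) (lowMem 10000 (by rw [hρ]; norm_num) (by rw [hρ]; norm_num))
    (lowS_mem (s := 600409) (mul_nonneg (by rw [hρ]; norm_num) (le_trans (by norm_num) hx0)) (show ρ * e ≤ (3500147 / 100000000 : ℝ) by rw [hρ]; linarith) hs hs0 (by norm_num))⟩

theorem low_psi_corn_109 {e v ρ S' : ℝ} (hρ : ρ = 100 / 67)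
    (hx0 : 2189 / 100000 ≤ e) (hx1 : e < 2345 / 100000) (hy0 : 17218 / 10000 ≤ v) (hy1 : v < 17881 / 10000)
    (hs0 : 3 / 5 ≤ S') (hs : S' ≤ 3 / 5 + ρ * e * (ρ * e) / 3)
    (_hgap : 0 ≤ (toCorner ePsiGapLow).val e v ρ S') :
    ∃ m : ℕ, 0 < (lowPsiCorn m).val e v ρ S' := by
  exact ⟨116, Ex.pos_of_checkQuick low_psi_44 (lowMem 100000 (by push_cast; linarith) hx1) (lowMem 10000 hy0 hy1) (lowMem 10000 (by rw [hρ]; norm_num) (by rw [hρ]; norm_num))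
    (lowS_mem (s := 600409) (mul_nonneg (by rw [hρ]; norm_num) (le_trans (by norm_num) hx0)) (show ρ * e ≤ (3500147 / 100000000 : ℝ) by rw [hρ]; linarith) hs hs0 (by norm_num))⟩

theorem low_psi_corn_107 {e v ρ S' : ℝ} (hρ : ρ = 100 / 67)
    (hx0 : 2189 / 100000 ≤ e) (hx1 : e < 2345 / 100000) (hy0 : 16556 / 10000 ≤ v) (hy1 : v < 17881 / 10000)
    (hs0 : 3 / 5 ≤ S') (hs : S' ≤ 3 / 5 + ρ * e * (ρ * e) / 3)
    (hgap : 0 ≤ (toCorner ePsiGapLow).val e v ρ S') :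
    ∃ m : ℕ, 0 < (lowPsiCorn m).val e v ρ S' := by
  rcases lt_or_ge v (17218 / 10000) with g | g
  · exact low_psi_corn_108 hρ hx0 hx1 hy0 g hs0 hs hgap
  · exact low_psi_corn_109 hρ hx0 hx1 g hy1 hs0 hs hgap

theorem low_psi_corn_111 {e v ρ S' : ℝ} (hρ : ρ = 100 / 67)
    (hx0 : 2345 / 100000 ≤ e) (hx1 : e < 2502 / 100000) (hy0 : 16556 / 10000 ≤ v) (hy1 : v < 17218 / 10000)
    (hs0 : 3 / 5 ≤ S') (hs : S' ≤ 3 / 5 + ρ * e * (ρ * e) / 3)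
    (_hgap : 0 ≤ (toCorner ePsiGapLow).val e v ρ S') :
    ∃ m : ℕ, 0 < (lowPsiCorn m).val e v ρ S' := by
  exact ⟨116, Ex.pos_of_checkQuick low_psi_45 (lowMem 100000 (by push_cast; linarith) hx1) (lowMem 10000 hy0 hy1) (lowMem 10000 (by rw [hρ]; norm_num) (by rw [hρ]; norm_num))
    (lowS_mem (s := 600465) (mul_nonneg (by rw [hρ]; norm_num) (le_trans (by norm_num) hx0)) (show ρ * e ≤ (9336213 / 250000000 : ℝ) by rw [hρ]; linarith) hs hs0 (by norm_num))⟩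

theorem low_psi_corn_112 {e v ρ S' : ℝ} (hρ : ρ = 100 / 67)
    (hx0 : 2345 / 100000 ≤ e) (hx1 : e < 2502 / 100000) (hy0 : 17218 / 10000 ≤ v) (hy1 : v < 17881 / 10000)
    (hs0 : 3 / 5 ≤ S') (hs : S' ≤ 3 / 5 + ρ * e * (ρ * e) / 3)
    (hgap : 0 ≤ (toCorner ePsiGapLow).val e v ρ S') :
    ∃ m : ℕ, 0 < (lowPsiCorn m).val e v ρ S' := by
  have k : 0 < (Ex.sub (eC 0) (toCorner ePsiGapLow)).val e v ρ S' := Ex.pos_of_checkQuick low_psi_out_9 (lowMem 100000 (by push_cast; linarith) hx1) (lowMem 10000 hy0 hy1) (lowMem 10000 (by rw [hρ]; norm_num) (by rw [hρ]; norm_num))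
    (lowS_mem (s := 600465) (mul_nonneg (by rw [hρ]; norm_num) (le_trans (by norm_num) hx0)) (show ρ * e ≤ (9336213 / 250000000 : ℝ) by rw [hρ]; linarith) hs hs0 (by norm_num))
  simp only [Ex.val] at k
  push_cast at k
  exact absurd hgap (not_le.2 (by linarith))

theorem low_psi_corn_110 {e v ρ S' : ℝ} (hρ : ρ = 100 / 67)
    (hx0 : 2345 / 100000 ≤ e) (hx1 : e < 2502 / 100000) (hy0 : 16556 / 10000 ≤ v) (hy1 : v < 17881 / 10000)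
    (hs0 : 3 / 5 ≤ S') (hs : S' ≤ 3 / 5 + ρ * e * (ρ * e) / 3)
    (hgap : 0 ≤ (toCorner ePsiGapLow).val e v ρ S') :
    ∃ m : ℕ, 0 < (lowPsiCorn m).val e v ρ S' := by
  rcases lt_or_ge v (17218 / 10000) with g | g
  · exact low_psi_corn_111 hρ hx0 hx1 hy0 g hs0 hs hgap
  · exact low_psi_corn_112 hρ hx0 hx1 g hy1 hs0 hs hgap

theorem low_psi_corn_106 {e v ρ S' : ℝ} (hρ : ρ = 100 / 67)
    (hx0 : 2189 / 100000 ≤ e) (hx1 : e < 2502 / 100000) (hy0 : 16556 / 10000 ≤ v) (hy1 : v < 17881 / 10000)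
    (hs0 : 3 / 5 ≤ S') (hs : S' ≤ 3 / 5 + ρ * e * (ρ * e) / 3)
    (hgap : 0 ≤ (toCorner ePsiGapLow).val e v ρ S') :
    ∃ m : ℕ, 0 < (lowPsiCorn m).val e v ρ S' := by
  rcases lt_or_ge e (2345 / 100000) with g | g
  · exact low_psi_corn_107 hρ hx0 g hy0 hy1 hs0 hs hgap
  · exact low_psi_corn_110 hρ g hx1 hy0 hy1 hs0 hs hgap

theorem low_psi_corn_113 {e v ρ S' : ℝ} (hρ : ρ = 100 / 67)
    (hx0 : 2189 / 100000 ≤ e) (hx1 : e < 2502 / 100000) (hy0 : 17881 / 10000 ≤ v) (hy1 : v < 19207 / 10000)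
    (hs0 : 3 / 5 ≤ S') (hs : S' ≤ 3 / 5 + ρ * e * (ρ * e) / 3)
    (hgap : 0 ≤ (toCorner ePsiGapLow).val e v ρ S') :
    ∃ m : ℕ, 0 < (lowPsiCorn m).val e v ρ S' := by
  have k : 0 < (Ex.sub (eC 0) (toCorner ePsiGapLow)).val e v ρ S' := Ex.pos_of_checkQuick low_psi_out_10 (lowMem 100000 (by push_cast; linarith) hx1) (lowMem 10000 hy0 hy1) (lowMem 10000 (by rw [hρ]; norm_num) (by rw [hρ]; norm_num))
    (lowS_mem (s := 600465) (mul_nonneg (by rw [hρ]; norm_num) (le_trans (by norm_num) hx0)) (show ρ * e ≤ (9336213 / 250000000 : ℝ) by rw [hρ]; linarith) hs hs0 (by norm_num))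
  simp only [Ex.val] at k
  push_cast at k
  exact absurd hgap (not_le.2 (by linarith))

theorem low_psi_corn_105 {e v ρ S' : ℝ} (hρ : ρ = 100 / 67)
    (hx0 : 2189 / 100000 ≤ e) (hx1 : e < 2502 / 100000) (hy0 : 16556 / 10000 ≤ v) (hy1 : v < 19207 / 10000)
    (hs0 : 3 / 5 ≤ S') (hs : S' ≤ 3 / 5 + ρ * e * (ρ * e) / 3)
    (hgap : 0 ≤ (toCorner ePsiGapLow).val e v ρ S') :
    ∃ m : ℕ, 0 < (lowPsiCorn m).val e v ρ S' := by
  rcases lt_or_ge v (17881 / 10000) with g | g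
  · exact low_psi_corn_106 hρ hx0 hx1 hy0 g hs0 hs hgap
  · exact low_psi_corn_113 hρ hx0 hx1 g hy1 hs0 hs hgap

theorem low_psi_corn_91 {e v ρ S' : ℝ} (hρ : ρ = 100 / 67)
    (hx0 : 1876 / 100000 ≤ e) (hx1 : e < 2502 / 100000) (hy0 : 16556 / 10000 ≤ v) (hy1 : v < 19207 / 10000)
    (hs0 : 3 / 5 ≤ S') (hs : S' ≤ 3 / 5 + ρ * e * (ρ * e) / 3)
    (hgap : 0 ≤ (toCorner ePsiGapLow).val e v ρ S') :
    ∃ m : ℕ, 0 < (lowPsiCorn m).val e v ρ S' := by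
  rcases lt_or_ge e (2189 / 100000) with g | g
  · exact low_psi_corn_92 hρ hx0 g hy0 hy1 hs0 hs hgap
  · exact low_psi_corn_105 hρ g hx1 hy0 hy1 hs0 hs hgap

theorem low_psi_corn_81 {e v ρ S' : ℝ} (hρ : ρ = 100 / 67)
    (hx0 : 1876 / 100000 ≤ e) (hx1 : e < 2502 / 100000) (hy0 : 13905 / 10000 ≤ v) (hy1 : v < 19207 / 10000)
    (hs0 : 3 / 5 ≤ S') (hs : S' ≤ 3 / 5 + ρ * e * (ρ * e) / 3)
    (hgap : 0 ≤ (toCorner ePsiGapLow).val e v ρ S') :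
    ∃ m : ℕ, 0 < (lowPsiCorn m).val e v ρ S' := by
  rcases lt_or_ge v (16556 / 10000) with g | g
  · exact low_psi_corn_82 hρ hx0 hx1 hy0 g hs0 hs hgap
  · exact low_psi_corn_91 hρ hx0 hx1 g hy1 hs0 hs hgap

theorem low_psi_corn_61 {e v ρ S' : ℝ} (hρ : ρ = 100 / 67)
    (hx0 : 1251 / 100000 ≤ e) (hx1 : e < 2502 / 100000) (hy0 : 13905 / 10000 ≤ v) (hy1 : v < 19207 / 10000)
    (hs0 : 3 / 5 ≤ S') (hs : S' ≤ 3 / 5 + ρ * e * (ρ * e) / 3)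
    (hgap : 0 ≤ (toCorner ePsiGapLow).val e v ρ S') :
    ∃ m : ℕ, 0 < (lowPsiCorn m).val e v ρ S' := by
  rcases lt_or_ge e (1876 / 100000) with g | g
  · exact low_psi_corn_62 hρ hx0 g hy0 hy1 hs0 hs hgap
  · exact low_psi_corn_81 hρ g hx1 hy0 hy1 hs0 hs hgap

theorem low_psi_corn_120 {e v ρ S' : ℝ} (hρ : ρ = 100 / 67)
    (hx0 : 1251 / 100000 ≤ e) (hx1 : e < 1407 / 100000) (hy0 : 19207 / 10000 ≤ v) (hy1 : v < 19869 / 10000)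
    (hs0 : 3 / 5 ≤ S') (hs : S' ≤ 3 / 5 + ρ * e * (ρ * e) / 3)
    (_hgap : 0 ≤ (toCorner ePsiGapLow).val e v ρ S') :
    ∃ m : ℕ, 0 < (lowPsiCorn m).val e v ρ S' := by
  exact ⟨74, Ex.pos_of_checkQuick low_psi_46 (lowMem 100000 (by push_cast; linarith) hx1) (lowMem 10000 hy0 hy1) (lowMem 10000 (by rw [hρ]; norm_num) (by rw [hρ]; norm_num))
    (lowS_mem (s := 600148) (mul_nonneg (by rw [hρ]; norm_num) (le_trans (by norm_num) hx0)) (show ρ * e ≤ (10500441 / 500000000 : ℝ) by rw [hρ]; linarith) hs hs0 (by norm_num))⟩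

theorem low_psi_corn_121 {e v ρ S' : ℝ} (hρ : ρ = 100 / 67)
    (hx0 : 1251 / 100000 ≤ e) (hx1 : e < 1407 / 100000) (hy0 : 19869 / 10000 ≤ v) (hy1 : v < 20532 / 10000)
    (hs0 : 3 / 5 ≤ S') (hs : S' ≤ 3 / 5 + ρ * e * (ρ * e) / 3)
    (hgap : 0 ≤ (toCorner ePsiGapLow).val e v ρ S') :
    ∃ m : ℕ, 0 < (lowPsiCorn m).val e v ρ S' := by
  have k : 0 < (Ex.sub (eC 0) (toCorner ePsiGapLow)).val e v ρ S' := Ex.pos_of_checkQuick low_psi_out_11 (lowMem 100000 (by push_cast; linarith) hx1) (lowMem 10000 hy0 hy1) (lowMem 10000 (by rw [hρ]; norm_num) (by rw [hρ]; norm_num))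
    (lowS_mem (s := 600148) (mul_nonneg (by rw [hρ]; norm_num) (le_trans (by norm_num) hx0)) (show ρ * e ≤ (10500441 / 500000000 : ℝ) by rw [hρ]; linarith) hs hs0 (by norm_num))
  simp only [Ex.val] at k
  push_cast at k
  exact absurd hgap (not_le.2 (by linarith))

theorem low_psi_corn_119 {e v ρ S' : ℝ} (hρ : ρ = 100 / 67)
    (hx0 : 1251 / 100000 ≤ e) (hx1 : e < 1407 / 100000) (hy0 : 19207 / 10000 ≤ v) (hy1 : v < 20532 / 10000)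
    (hs0 : 3 / 5 ≤ S') (hs : S' ≤ 3 / 5 + ρ * e * (ρ * e) / 3)
    (hgap : 0 ≤ (toCorner ePsiGapLow).val e v ρ S') :
    ∃ m : ℕ, 0 < (lowPsiCorn m).val e v ρ S' := by
  rcases lt_or_ge v (19869 / 10000) with g | g
  · exact low_psi_corn_120 hρ hx0 hx1 hy0 g hs0 hs hgap
  · exact low_psi_corn_121 hρ hx0 hx1 g hy1 hs0 hs hgap

theorem low_psi_corn_123 {e v ρ S' : ℝ} (hρ : ρ = 100 / 67)
    (hx0 : 1407 / 100000 ≤ e) (hx1 : e < 1563 / 100000) (hy0 : 19207 / 10000 ≤ v) (hy1 : v < 19869 / 10000)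
    (hs0 : 3 / 5 ≤ S') (hs : S' ≤ 3 / 5 + ρ * e * (ρ * e) / 3)
    (_hgap : 0 ≤ (toCorner ePsiGapLow).val e v ρ S') :
    ∃ m : ℕ, 0 < (lowPsiCorn m).val e v ρ S' := by
  exact ⟨93, Ex.pos_of_checkQuick low_psi_47 (lowMem 100000 (by push_cast; linarith) hx1) (lowMem 10000 hy0 hy1) (lowMem 10000 (by rw [hρ]; norm_num) (by rw [hρ]; norm_num))
    (lowS_mem (s := 600182) (mul_nonneg (by rw [hρ]; norm_num) (le_trans (by norm_num) hx0)) (show ρ * e ≤ (11664669 / 500000000 : ℝ) by rw [hρ]; linarith) hs hs0 (by norm_num))⟩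

theorem low_psi_corn_124 {e v ρ S' : ℝ} (hρ : ρ = 100 / 67)
    (hx0 : 1407 / 100000 ≤ e) (hx1 : e < 1563 / 100000) (hy0 : 19869 / 10000 ≤ v) (hy1 : v < 20532 / 10000)
    (hs0 : 3 / 5 ≤ S') (hs : S' ≤ 3 / 5 + ρ * e * (ρ * e) / 3)
    (hgap : 0 ≤ (toCorner ePsiGapLow).val e v ρ S') :
    ∃ m : ℕ, 0 < (lowPsiCorn m).val e v ρ S' := by
  have k : 0 < (Ex.sub (eC 0) (toCorner ePsiGapLow)).val e v ρ S' := Ex.pos_of_checkQuick low_psi_out_12 (lowMem 100000 (by push_cast; linarith) hx1) (lowMem 10000 hy0 hy1) (lowMem 10000 (by rw [hρ]; norm_num) (by rw [hρ]; norm_num))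
    (lowS_mem (s := 600182) (mul_nonneg (by rw [hρ]; norm_num) (le_trans (by norm_num) hx0)) (show ρ * e ≤ (11664669 / 500000000 : ℝ) by rw [hρ]; linarith) hs hs0 (by norm_num))
  simp only [Ex.val] at k
  push_cast at k
  exact absurd hgap (not_le.2 (by linarith))

theorem low_psi_corn_122 {e v ρ S' : ℝ} (hρ : ρ = 100 / 67)
    (hx0 : 1407 / 100000 ≤ e) (hx1 : e < 1563 / 100000) (hy0 : 19207 / 10000 ≤ v) (hy1 : v < 20532 / 10000)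
    (hs0 : 3 / 5 ≤ S') (hs : S' ≤ 3 / 5 + ρ * e * (ρ * e) / 3)
    (hgap : 0 ≤ (toCorner ePsiGapLow).val e v ρ S') :
    ∃ m : ℕ, 0 < (lowPsiCorn m).val e v ρ S' := by
  rcases lt_or_ge v (19869 / 10000) with g | g
  · exact low_psi_corn_123 hρ hx0 hx1 hy0 g hs0 hs hgap
  · exact low_psi_corn_124 hρ hx0 hx1 g hy1 hs0 hs hgap

theorem low_psi_corn_118 {e v ρ S' : ℝ} (hρ : ρ = 100 / 67)
    (hx0 : 1251 / 100000 ≤ e) (hx1 : e < 1563 / 100000) (hy0 : 19207 / 10000 ≤ v) (hy1 : v < 20532 / 10000)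
    (hs0 : 3 / 5 ≤ S') (hs : S' ≤ 3 / 5 + ρ * e * (ρ * e) / 3)
    (hgap : 0 ≤ (toCorner ePsiGapLow).val e v ρ S') :
    ∃ m : ℕ, 0 < (lowPsiCorn m).val e v ρ S' := by
  rcases lt_or_ge e (1407 / 100000) with g | g
  · exact low_psi_corn_119 hρ hx0 g hy0 hy1 hs0 hs hgap
  · exact low_psi_corn_122 hρ g hx1 hy0 hy1 hs0 hs hgap

theorem low_psi_corn_125 {e v ρ S' : ℝ} (hρ : ρ = 100 / 67)
    (hx0 : 1251 / 100000 ≤ e) (hx1 : e < 1563 / 100000) (hy0 : 20532 / 10000 ≤ v) (hy1 : v < 21858 / 10000)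
    (hs0 : 3 / 5 ≤ S') (hs : S' ≤ 3 / 5 + ρ * e * (ρ * e) / 3)
    (hgap : 0 ≤ (toCorner ePsiGapLow).val e v ρ S') :
    ∃ m : ℕ, 0 < (lowPsiCorn m).val e v ρ S' := by
  have k : 0 < (Ex.sub (eC 0) (toCorner ePsiGapLow)).val e v ρ S' := Ex.pos_of_checkQuick low_psi_out_13 (lowMem 100000 (by push_cast; linarith) hx1) (lowMem 10000 hy0 hy1) (lowMem 10000 (by rw [hρ]; norm_num) (by rw [hρ]; norm_num))
    (lowS_mem (s := 600182) (mul_nonneg (by rw [hρ]; norm_num) (le_trans (by norm_num) hx0)) (show ρ * e ≤ (11664669 / 500000000 : ℝ) by rw [hρ]; linarith) hs hs0 (by norm_num))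
  simp only [Ex.val] at k
  push_cast at k
  exact absurd hgap (not_le.2 (by linarith))

theorem low_psi_corn_117 {e v ρ S' : ℝ} (hρ : ρ = 100 / 67)
    (hx0 : 1251 / 100000 ≤ e) (hx1 : e < 1563 / 100000) (hy0 : 19207 / 10000 ≤ v) (hy1 : v < 21858 / 10000)
    (hs0 : 3 / 5 ≤ S') (hs : S' ≤ 3 / 5 + ρ * e * (ρ * e) / 3)
    (hgap : 0 ≤ (toCorner ePsiGapLow).val e v ρ S') :
    ∃ m : ℕ, 0 < (lowPsiCorn m).val e v ρ S' := by
  rcases lt_or_ge v (20532 / 10000) with g | g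
  · exact low_psi_corn_118 hρ hx0 hx1 hy0 g hs0 hs hgap
  · exact low_psi_corn_125 hρ hx0 hx1 g hy1 hs0 hs hgap

theorem low_psi_corn_126 {e v ρ S' : ℝ} (hρ : ρ = 100 / 67)
    (hx0 : 1563 / 100000 ≤ e) (hx1 : e < 1876 / 100000) (hy0 : 19207 / 10000 ≤ v) (hy1 : v < 21858 / 10000)
    (hs0 : 3 / 5 ≤ S') (hs : S' ≤ 3 / 5 + ρ * e * (ρ * e) / 3)
    (hgap : 0 ≤ (toCorner ePsiGapLow).val e v ρ S') :
    ∃ m : ℕ, 0 < (lowPsiCorn m).val e v ρ S' := by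
  have k : 0 < (Ex.sub (eC 0) (toCorner ePsiGapLow)).val e v ρ S' := Ex.pos_of_checkQuick low_psi_out_14 (lowMem 100000 (by push_cast; linarith) hx1) (lowMem 10000 hy0 hy1) (lowMem 10000 (by rw [hρ]; norm_num) (by rw [hρ]; norm_num))
    (lowS_mem (s := 600262) (mul_nonneg (by rw [hρ]; norm_num) (le_trans (by norm_num) hx0)) (show ρ * e ≤ (3500147 / 125000000 : ℝ) by rw [hρ]; linarith) hs hs0 (by norm_num))
  simp only [Ex.val] at k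
  push_cast at k
  exact absurd hgap (not_le.2 (by linarith))

theorem low_psi_corn_116 {e v ρ S' : ℝ} (hρ : ρ = 100 / 67)
    (hx0 : 1251 / 100000 ≤ e) (hx1 : e < 1876 / 100000) (hy0 : 19207 / 10000 ≤ v) (hy1 : v < 21858 / 10000)
    (hs0 : 3 / 5 ≤ S') (hs : S' ≤ 3 / 5 + ρ * e * (ρ * e) / 3)
    (hgap : 0 ≤ (toCorner ePsiGapLow).val e v ρ S') :
    ∃ m : ℕ, 0 < (lowPsiCorn m).val e v ρ S' := by
  rcases lt_or_ge e (1563 / 100000) with g | g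
  · exact low_psi_corn_117 hρ hx0 g hy0 hy1 hs0 hs hgap
  · exact low_psi_corn_126 hρ g hx1 hy0 hy1 hs0 hs hgap

theorem low_psi_corn_127 {e v ρ S' : ℝ} (hρ : ρ = 100 / 67)
    (hx0 : 1251 / 100000 ≤ e) (hx1 : e < 1876 / 100000) (hy0 : 21858 / 10000 ≤ v) (hy1 : v < 24510 / 10000)
    (hs0 : 3 / 5 ≤ S') (hs : S' ≤ 3 / 5 + ρ * e * (ρ * e) / 3)
    (hgap : 0 ≤ (toCorner ePsiGapLow).val e v ρ S') :
    ∃ m : ℕ, 0 < (lowPsiCorn m).val e v ρ S' := by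
  have k : 0 < (Ex.sub (eC 0) (toCorner ePsiGapLow)).val e v ρ S' := Ex.pos_of_checkQuick low_psi_out_15 (lowMem 100000 (by push_cast; linarith) hx1) (lowMem 10000 hy0 hy1) (lowMem 10000 (by rw [hρ]; norm_num) (by rw [hρ]; norm_num))
    (lowS_mem (s := 600262) (mul_nonneg (by rw [hρ]; norm_num) (le_trans (by norm_num) hx0)) (show ρ * e ≤ (3500147 / 125000000 : ℝ) by rw [hρ]; linarith) hs hs0 (by norm_num))
  simp only [Ex.val] at k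
  push_cast at k
  exact absurd hgap (not_le.2 (by linarith))

theorem low_psi_corn_115 {e v ρ S' : ℝ} (hρ : ρ = 100 / 67)
    (hx0 : 1251 / 100000 ≤ e) (hx1 : e < 1876 / 100000) (hy0 : 19207 / 10000 ≤ v) (hy1 : v < 24510 / 10000)
    (hs0 : 3 / 5 ≤ S') (hs : S' ≤ 3 / 5 + ρ * e * (ρ * e) / 3)
    (hgap : 0 ≤ (toCorner ePsiGapLow).val e v ρ S') :
    ∃ m : ℕ, 0 < (lowPsiCorn m).val e v ρ S' := by
  rcases lt_or_ge v (21858 / 10000) with g | g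
  · exact low_psi_corn_116 hρ hx0 hx1 hy0 g hs0 hs hgap
  · exact low_psi_corn_127 hρ hx0 hx1 g hy1 hs0 hs hgap

theorem low_psi_corn_128 {e v ρ S' : ℝ} (hρ : ρ = 100 / 67)
    (hx0 : 1876 / 100000 ≤ e) (hx1 : e < 2502 / 100000) (hy0 : 19207 / 10000 ≤ v) (hy1 : v < 24510 / 10000)
    (hs0 : 3 / 5 ≤ S') (hs : S' ≤ 3 / 5 + ρ * e * (ρ * e) / 3)
    (hgap : 0 ≤ (toCorner ePsiGapLow).val e v ρ S') :
    ∃ m : ℕ, 0 < (lowPsiCorn m).val e v ρ S' := by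
  have k : 0 < (Ex.sub (eC 0) (toCorner ePsiGapLow)).val e v ρ S' := Ex.pos_of_checkQuick low_psi_out_16 (lowMem 100000 (by push_cast; linarith) hx1) (lowMem 10000 hy0 hy1) (lowMem 10000 (by rw [hρ]; norm_num) (by rw [hρ]; norm_num))
    (lowS_mem (s := 600465) (mul_nonneg (by rw [hρ]; norm_num) (le_trans (by norm_num) hx0)) (show ρ * e ≤ (9336213 / 250000000 : ℝ) by rw [hρ]; linarith) hs hs0 (by norm_num))
  simp only [Ex.val] at k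
  push_cast at k
  exact absurd hgap (not_le.2 (by linarith))

theorem low_psi_corn_114 {e v ρ S' : ℝ} (hρ : ρ = 100 / 67)
    (hx0 : 1251 / 100000 ≤ e) (hx1 : e < 2502 / 100000) (hy0 : 19207 / 10000 ≤ v) (hy1 : v < 24510 / 10000)
    (hs0 : 3 / 5 ≤ S') (hs : S' ≤ 3 / 5 + ρ * e * (ρ * e) / 3)
    (hgap : 0 ≤ (toCorner ePsiGapLow).val e v ρ S') :
    ∃ m : ℕ, 0 < (lowPsiCorn m).val e v ρ S' := by
  rcases lt_or_ge e (1876 / 100000) with g | g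
  · exact low_psi_corn_115 hρ hx0 g hy0 hy1 hs0 hs hgap
  · exact low_psi_corn_128 hρ g hx1 hy0 hy1 hs0 hs hgap

theorem low_psi_corn_60 {e v ρ S' : ℝ} (hρ : ρ = 100 / 67)
    (hx0 : 1251 / 100000 ≤ e) (hx1 : e < 2502 / 100000) (hy0 : 13905 / 10000 ≤ v) (hy1 : v < 24510 / 10000)
    (hs0 : 3 / 5 ≤ S') (hs : S' ≤ 3 / 5 + ρ * e * (ρ * e) / 3)
    (hgap : 0 ≤ (toCorner ePsiGapLow).val e v ρ S') :
    ∃ m : ℕ, 0 < (lowPsiCorn m).val e v ρ S' := by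
  rcases lt_or_ge v (19207 / 10000) with g | g
  · exact low_psi_corn_61 hρ hx0 hx1 hy0 g hs0 hs hgap
  · exact low_psi_corn_114 hρ hx0 hx1 g hy1 hs0 hs hgap

theorem low_psi_corn_26 {e v ρ S' : ℝ} (hρ : ρ = 100 / 67)
    (hx0 : 0 / 100000 ≤ e) (hx1 : e < 2502 / 100000) (hy0 : 13905 / 10000 ≤ v) (hy1 : v < 24510 / 10000)
    (hs0 : 3 / 5 ≤ S') (hs : S' ≤ 3 / 5 + ρ * e * (ρ * e) / 3)
    (hgap : 0 ≤ (toCorner ePsiGapLow).val e v ρ S') :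
    ∃ m : ℕ, 0 < (lowPsiCorn m).val e v ρ S' := by
  rcases lt_or_ge e (1251 / 100000) with g | g
  · exact low_psi_corn_27 hρ hx0 g hy0 hy1 hs0 hs hgap
  · exact low_psi_corn_60 hρ g hx1 hy0 hy1 hs0 hs hgap

theorem low_psi_corn_24 {e v ρ S' : ℝ} (hρ : ρ = 100 / 67)
    (hx0 : 0 / 100000 ≤ e) (hx1 : e < 2502 / 100000) (hy0 : 3300 / 10000 ≤ v) (hy1 : v < 24510 / 10000)
    (hs0 : 3 / 5 ≤ S') (hs : S' ≤ 3 / 5 + ρ * e * (ρ * e) / 3)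
    (hgap : 0 ≤ (toCorner ePsiGapLow).val e v ρ S') :
    ∃ m : ℕ, 0 < (lowPsiCorn m).val e v ρ S' := by
  rcases lt_or_ge v (13905 / 10000) with g | g
  · exact low_psi_corn_25 hρ hx0 hx1 hy0 g hs0 hs hgap
  · exact low_psi_corn_26 hρ hx0 hx1 g hy1 hs0 hs hgap

theorem low_psi_flat_sign {v d S' : ℝ} (hv : 33 / 100 ≤ v) (hv1 : v < 24510 / 10000)
    (h0 : 373 / 10000 ≤ d) (h1 : d ≤ 1 / 20) (hs0 : 3 / 5 ≤ S') (hs : S' ≤ 3 / 5 + d * d / 3)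
    (hgap : 0 ≤ ePsiGapLow.val (39 / 40) v d S') :
    ∃ m : ℕ, 0 < (lowPsiFlat m).val (39 / 40) v d S' := by
  exact low_psi_flat_1 (by linarith) (by linarith) (by linarith) hv1 hs0 hs hgap

theorem low_psi_corn_sign {e v ρ S' : ℝ} (he0 : 0 ≤ e) (he1 : e < 2502 / 100000) (hv : 33 / 100 ≤ v)
    (hv1 : v < 24510 / 10000) (hρ : ρ = 100 / 67) (hs0 : 3 / 5 ≤ S') (hs : S' ≤ 3 / 5 + ρ * e * (ρ * e) / 3)
    (hgap : 0 ≤ (toCorner ePsiGapLow).val e v ρ S') :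
    ∃ m : ℕ, 0 < (lowPsiCorn m).val e v ρ S' := by
  exact low_psi_corn_24 hρ (by linarith) he1 (by linarith) hv1 hs0 hs hgap

end Vale.Agent.P100.Calib.Band
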