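import Vale.Agent.P100.Calib.SlabPsiExpr
import Vale.Agent.P100.Calib.SlabUpperMid

/-!
# `v - vCrit` at `u = 39/40`, mid piece
-/

namespace Vale.Agent.P100.Calib.Band

open BoxPos Bubble Chart

variable {N p q : ℝ} {S : Set ℝ} {R x y s dx dy : ℝ → ℝ}

theorem mid_psi_0 : (ePsiCond midUpN midUpG midUb 0).checkQuick midUpCfg
    ⟨⟨9750, 9751, 10000⟩, ⟨3300, 9155, 10000⟩, ⟨500, 850, 10000⟩, sideS⟩ = true := by decide +kernel

theorem mid_psi_1 : (ePsiCond midUpN midUpG midUb 0).checkQuick midUpCfg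
    ⟨⟨9750, 9751, 10000⟩, ⟨3300, 9155, 10000⟩, ⟨850, 1201, 10000⟩, sideS⟩ = true := by decide +kernel

theorem mid_psi_2 : (ePsiCond midUpN midUpG midUb 0).checkQuick midUpCfg
    ⟨⟨9750, 9751, 10000⟩, ⟨9155, 12082, 10000⟩, ⟨500, 850, 10000⟩, sideS⟩ = true := by decide +kernel

theorem mid_psi_3 : (ePsiCond midUpN midUpG midUb 106).checkQuick midUpCfg
    ⟨⟨9750, 9751, 10000⟩, ⟨12082, 15010, 10000⟩, ⟨500, 850, 10000⟩, sideS⟩ = true := by decide +kernel

theorem mid_psi_4 : (ePsiCond midUpN midUpG midUb 106).checkQuick midUpCfg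
    ⟨⟨9750, 9751, 10000⟩, ⟨9155, 15010, 10000⟩, ⟨850, 1201, 10000⟩, sideS⟩ = true := by decide +kernel

theorem mid_psi_sign {v d S' : ℝ} (hv : 33 / 100 ≤ v) (hv1 : v < 15010 / 10000) (h0 : 1 / 20 ≤ d) (h1 : d ≤ 3 / 25)
    (hS : sideS.Mem S') (hgap : 0 ≤ ePsiGap.val (39 / 40) v d S') :
    ∃ m : ℕ, 0 < (ePsiCond midUpN midUpG midUb m).val (39 / 40) v d S' := by
  rcases lt_or_ge v (9155 / 10000) with g | g
  · rcases lt_or_ge d (850 / 10000) with g | g
    · exact ⟨0, Ex.pos_of_checkQuick mid_psi_0 (side_mem_four (by norm_num) (by norm_num))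
        (side_mem_four (by push_cast; linarith) (by push_cast; linarith)) (side_mem_four (by push_cast; linarith) (by push_cast; linarith)) hS⟩
    · exact ⟨0, Ex.pos_of_checkQuick mid_psi_1 (side_mem_four (by norm_num) (by norm_num))
        (side_mem_four (by push_cast; linarith) (by push_cast; linarith)) (side_mem_four (by push_cast; linarith) (by push_cast; linarith)) hS⟩
  · rcases lt_or_ge d (850 / 10000) with g | g
    · rcases lt_or_ge v (12082 / 10000) with g | g
      · exact ⟨0, Ex.pos_of_checkQuick mid_psi_2 (side_mem_four (by norm_num) (by norm_num))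
          (side_mem_four (by push_cast; linarith) (by push_cast; linarith)) (side_mem_four (by push_cast; linarith) (by push_cast; linarith)) hS⟩
      · exact ⟨106, Ex.pos_of_checkQuick mid_psi_3 (side_mem_four (by norm_num) (by norm_num))
          (side_mem_four (by push_cast; linarith) (by push_cast; linarith)) (side_mem_four (by push_cast; linarith) (by push_cast; linarith)) hS⟩
    · exact ⟨106, Ex.pos_of_checkQuick mid_psi_4 (side_mem_four (by norm_num) (by norm_num))
        (side_mem_four (by push_cast; linarith) (by push_cast; linarith)) (side_mem_four (by push_cast; linarith) (by push_cast; linarith)) hS⟩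

/-- **`vCrit + psiTwo ≤ v` at `u = 39/40`.** -/
theorem orbit_psi_mid (hf : IsOrbitFns N p q S R x y s dx dy)
    (hb : SlabBox N (1 / (p + 1)) (1 / (q + 1))) (h0 : 1 / 20 ≤ 1 / (q + 1) - 1 / (p + 1))
    (h1 : 1 / (q + 1) - 1 / (p + 1) ≤ 3 / 25)
    {w : ℝ} (hw : w ∈ S) (hw0 : 0 < R w) (hu : uOf N (R w) (x w) = 39 / 40) :
    vCrit (1 / (p + 1) + 1 / (q + 1)) (1 / (q + 1) - 1 / (p + 1)) +
        psiTwo (1 / (q + 1) - 1 / (p + 1)) <
      vOf (1 / (p + 1)) (1 / (q + 1)) (y w / x w) := by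
  have hup := orbit_upper_tail_mid hf hb h0 h1 hw hw0 (by rw [hu]; norm_num) (by rw [hu])
  obtain ⟨hu0, hu1, -, hr1, hh0, hh1, -, hc0, hk, hflow⟩ := hf.chart hb.five hb.low w hw hw0
  have hvm : 33 / 100 ≤ vOf (1 / (p + 1)) (1 / (q + 1)) (y w / x w) :=
    (hb.v_mem hc0 hr1 hk).1
  obtain ⟨hal, hbe, hd, hS1, hS2, hal1, hal2⟩ := hb.facts
  set al := 1 / (p + 1) with hald
  set be := 1 / (q + 1) with hbed
  set d := be - al with hdd
  set v := vOf al be (y w / x w) with hvd
  have hS := sideS_mem hb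
  by_contra hlt
  rw [not_lt] at hlt
  have hden : 0 < 2 + (al + be - d) * (1 - (al + be)) := by
    have := mul_nonneg (show (0 : ℝ) ≤ al + be - d by linarith) (show (0 : ℝ) ≤ 1 - (al + be) by
      linarith [hb.S_high])
    linarith
  have hgap : 0 ≤ ePsiGap.val (39 / 40) v d (al + be) := by
    rw [val_psiGap hden]
    exact mul_nonneg hden.le (sub_nonneg.2 hlt)
  have hvc : vCrit (al + be) d ≤ 2 / 5 := by
    have h3 : (2 : ℝ) ≤ 2 + (al + be - d) * (1 - (al + be)) := by
      have := mul_nonneg (show (0 : ℝ) ≤ al + be - d by linarith) (show (0 : ℝ) ≤ 1 - (al + be) by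
        linarith [hb.S_high])
      linarith
    rw [vCrit, div_le_iff₀ hden]
    linarith [hb.S_low]
  have hv1 : v < 15010 / 10000 := by
    refine lt_of_le_of_lt hlt ?_
    have hps : psiTwo d ≤ (11 / 10) := by
      have := mul_nonneg (show (0 : ℝ) ≤ d - 1 / 20 by linarith) (show (0 : ℝ) ≤ 3 / 25 - d by linarith)
      simp only [psiTwo]
      linarith
    linarith
  obtain ⟨m, hc⟩ := mid_psi_sign hvm hv1 h0 h1 hS hgap
  have hden' := mid_up_den hd.le (by linarith)
  obtain ⟨eN, eG, -, eb⟩ := @mid_up_val (39 / 40) v d (al + be)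
  have hneg := exitP_neg_of_cond (a := upTailMid d (39 / 40)) hc ?_ ?_ eb hgap
  · have hal' : al * v ≤ 1 := by
      refine (mul_le_mul hal2 (show v ≤ 15010 / 10000 from hv1.le) (by linarith) (by norm_num)).trans ?_
      norm_num
    have hpos := exitP_pos_of_upper hf hb hw hw0 (T := upTailMid d (39 / 40)) (b := tiltMid d)
      (Tf := upTailMid d) (by rw [hu]) hal' hup
    rw [hu] at hpos
    linarith
  · rw [eG]
    exact upG_pos hden' (by linarith) (by linarith)
  · rw [eN, eG]
    exact upN_eq hden' (by linarith) (by linarith)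

end Vale.Agent.P100.Calib.Band
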