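import Vale.Agent.P100.Calib.SlabLadderExpr

/-!
# Certificates for the first rungs of the ladder
-/

namespace Vale.Agent.P100.Calib.Band

open BoxPos

/-- A box with sides in thousandths. -/
def rBox (a b vb da db : ℤ) : Box := ⟨⟨a, b, 1000⟩, ⟨330, vb, 1000⟩, ⟨da, db, 1000⟩, sideS⟩

/-- The packing for the band numerators. -/
def lieCfg : Cfg := ⟨300, ⟨7, 3, 7, 6⟩⟩

/-- The packing for the exit numerators. -/
def exitCfg : Cfg := ⟨300, ⟨10, 0, 5, 4⟩⟩

/-- The packing for the slope conditions. -/
def slopeCfg : Cfg := ⟨120, ⟨4, 0, 2, 0⟩⟩

/-- A coefficient. -/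
def cL₀ : Ex := Ex.sub (eC (-1) 2) (Ex.mul (eC 3) eD)

/-- A coefficient. -/
def cA₁ : Ex := Ex.sub (eC 23 20) (Ex.mul (eC 15 4) eD)

/-- A coefficient. -/
def cB₁ : Ex := Ex.sub (eC 17 10) (Ex.mul (eC 211 25) eD)

/-- A numerator. -/
def eLow₀ : Ex := eLie cL₀ (eC 0) (eC 0)

/-- A numerator. -/
def eExit₁ : Ex := eExitG (eC 1) (eC 77 65) (eC 77 65) (eC 13 10) cL₀ (eC 0) (eC 0)

/-- A numerator. -/
def eSlope₁ : Ex := eSlope (eC 1) (eC 77 65) (eC 77 65) (eC 13 10)

/-- A numerator. -/
def eLower₁ : Ex := eLie cA₁ cB₁ (eC 0)

/-- A numerator. -/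
def eExit₂ : Ex := eExitG (eC 701 1000) (eC 25 42) (eC 25 42) (eC 21 20) cA₁ cB₁ (eC 0)

/-- A numerator. -/
def eSlope₂ : Ex := eSlope (eC 701 1000) (eC 25 42) (eC 25 42) (eC 21 20)

theorem low₀_check : eLow₀.check lieCfg (rBox 0 901 4451 0 201) = true := by decide +kernel

theorem slope₁_check : eSlope₁.check slopeCfg (rBox 0 901 331 0 201) = true := by decide +kernel

theorem slope₂_check : eSlope₂.check slopeCfg (rBox 0 901 331 0 201) = true := by decide +kernel

theorem exit₁_check_0 : eExit₁.check exitCfg (rBox 0 700 331 0 201) = true := by decide +kernel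

theorem exit₁_check_1 : eExit₁.check exitCfg (rBox 700 901 331 0 201) = true := by decide +kernel

theorem exit₂_check_0 : eExit₂.check exitCfg (rBox 0 450 331 0 201) = true := by decide +kernel

theorem exit₂_check_1 : eExit₂.check exitCfg (rBox 450 700 331 0 201) = true := by decide +kernel

theorem exit₂_check_2 : eExit₂.check exitCfg (rBox 700 750 331 0 201) = true := by decide +kernel

theorem exit₂_check_3 : eExit₂.check exitCfg (rBox 750 800 331 0 201) = true := by decide +kernel

theorem exit₂_check_4 : eExit₂.check exitCfg (rBox 800 901 331 0 201) = true := by decide +kernel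

theorem lower₁_check_0_0 : eLower₁.check lieCfg (rBox 0 200 1287 0 201) = true := by decide +kernel

theorem lower₁_check_200_0 : eLower₁.check lieCfg (rBox 200 350 1568 0 201) = true := by decide +kernel

theorem lower₁_check_350_0 : eLower₁.check lieCfg (rBox 350 500 1963 0 201) = true := by decide +kernel

theorem lower₁_check_500_0 : eLower₁.check lieCfg (rBox 500 700 2800 0 201) = true := by decide +kernel

theorem lower₁_check_700_0 : eLower₁.check lieCfg (rBox 700 800 3466 0 150) = true := by decide +kernel

theorem lower₁_check_700_150 : eLower₁.check lieCfg (rBox 700 800 3466 150 162) = true := by decide +kernel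

theorem lower₁_check_700_162 : eLower₁.check lieCfg (rBox 700 800 3466 162 171) = true := by decide +kernel

theorem lower₁_check_700_171 : eLower₁.check lieCfg (rBox 700 800 3466 171 180) = true := by decide +kernel

theorem lower₁_check_700_180 : eLower₁.check lieCfg (rBox 700 800 3466 180 201) = true := by decide +kernel

theorem lower₁_check_800_0 : eLower₁.check lieCfg (rBox 800 850 3910 0 150) = true := by decide +kernel

theorem lower₁_check_800_150 : eLower₁.check lieCfg (rBox 800 850 3910 150 162) = true := by decide +kernel

theorem lower₁_check_800_162 : eLower₁.check lieCfg (rBox 800 850 3910 162 171) = true := by decide +kernel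

theorem lower₁_check_800_171 : eLower₁.check lieCfg (rBox 800 850 3899 171 180) = true := by decide +kernel

theorem lower₁_check_800_180 : eLower₁.check lieCfg (rBox 800 850 3705 180 201) = true := by decide +kernel

theorem lower₁_check_850_0 : eLower₁.check lieCfg (rBox 850 875 4172 0 150) = true := by decide +kernel

theorem lower₁_check_850_150 : eLower₁.check lieCfg (rBox 850 875 4172 150 162) = true := by decide +kernel

theorem lower₁_check_850_162 : eLower₁.check lieCfg (rBox 850 875 4116 162 171) = true := by decide +kernel

theorem lower₁_check_850_171 : eLower₁.check lieCfg (rBox 850 875 3899 171 180) = true := by decide +kernel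

theorem lower₁_check_850_180 : eLower₁.check lieCfg (rBox 850 875 3705 180 201) = true := by decide +kernel

theorem lower₁_check_875_0 : eLower₁.check lieCfg (rBox 875 901 4451 0 150) = true := by decide +kernel

theorem lower₁_check_875_150 : eLower₁.check lieCfg (rBox 875 901 4445 150 162) = true := by decide +kernel

theorem lower₁_check_875_162 : eLower₁.check lieCfg (rBox 875 901 4116 162 171) = true := by decide +kernel

theorem lower₁_check_875_171 : eLower₁.check lieCfg (rBox 875 901 3899 171 180) = true := by decide +kernel

theorem lower₁_check_875_180 : eLower₁.check lieCfg (rBox 875 901 3705 180 201) = true := by decide +kernel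

end Vale.Agent.P100.Calib.Band
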