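import Vale.Agent.P100.Calib.SlabSignsAllNegCond

/-!
# The charts below the crossing in every dimension from twenty on

`U ∈ [0, 121/100)`; the three pieces are `I ≤ 1/30`, `I > 1/30` with `X ≤ 21/20`, and the rest.
-/

namespace Vale.Agent.P100.Calib.Closed.All.SgnNeg

/-- `I ∈ (0, 1/30]`, `X ∈ [9/10, 6/5)`, `a ∈ (0, 31/100]`. -/
def boxA : ℕ → Pack.Chart
  | 0 => ⟨0, 121, 100, 100⟩
  | 1 => ⟨90, 120, 100, 100⟩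
  | 2 => ⟨1, 0, 30, 30⟩
  | _ => ⟨31, 0, 100, 100⟩

/-- `I ∈ (1/30, 1/20]`, `X ∈ (169/200, 21/20]`, `a ∈ (1/30, 31/100]`. -/
def boxB : ℕ → Pack.Chart
  | 0 => ⟨0, 121, 100, 100⟩
  | 1 => ⟨210, 169, 200, 200⟩
  | 2 => ⟨3, 2, 60, 60⟩
  | _ => ⟨93, 10, 300, 300⟩

/-- `I ∈ (1/30, 1/20]`, `X ∈ (21/20, 49/40]`, `a ∈ (1/30, 31/100]`. -/
def boxC : ℕ → Pack.Chart
  | 0 => ⟨0, 121, 100, 100⟩
  | 1 => ⟨49, 42, 40, 40⟩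
  | 2 => ⟨3, 2, 60, 60⟩
  | _ => ⟨93, 10, 300, 300⟩

end Vale.Agent.P100.Calib.Closed.All.SgnNeg
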