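import Vale.Agent.P100.Calib.SlabSignsAllNegPoint
import Vale.Agent.P100.Calib.SlabSignsAllNegBox

/-!
# The closed signs below the crossing in every dimension from twenty on
-/

set_option linter.unusedSimpArgs false
set_option linter.unusedVariables false

namespace Vale.Agent.P100.Calib.Closed.All.SgnNeg

open BoxPos

/-- The point `(U, X, I, a)` of the chart. -/
noncomputable def pt (d S u v : ℝ) : ℕ → ℝ
  | 0 => -u / (1 - S)
  | 1 => v / (1 - S)
  | 2 => (1 - S) / 2
  | _ => (S - d) / 2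

/-- A point of a chart whose variable runs from `a/c` down to `b/e`. -/
theorem chart_down {y : ℝ} {A B C : ℤ} (hC : 0 < C) (h₁ : (B : ℝ) < y * C) (h₂ : y * C ≤ A) :
    ∃ t : ℝ, 0 ≤ t ∧ 0 < (C : ℝ) + C * t ∧ (A : ℝ) + B * t = y * ((C : ℝ) + C * t) := by
  have hC' : (0 : ℝ) < C := by exact_mod_cast hC
  refine ⟨(A - y * C) / (y * C - B), div_nonneg (by linarith) (by linarith), ?_, ?_⟩
  · have : 0 ≤ ((A : ℝ) - y * C) / (y * C - B) := div_nonneg (by linarith) (by linarith)
    nlinarith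
  · field_simp [(by linarith : y * C - B ≠ 0)]
    ring

/-- A point of a chart whose variable runs from `a/c` up to `b/e`. -/
theorem chart_up {y : ℝ} {A B C : ℤ} (hC : 0 < C) (h₁ : (A : ℝ) ≤ y * C) (h₂ : y * C < B) :
    ∃ t : ℝ, 0 ≤ t ∧ 0 < (C : ℝ) + C * t ∧ (A : ℝ) + B * t = y * ((C : ℝ) + C * t) := by
  have hC' : (0 : ℝ) < C := by exact_mod_cast hC
  refine ⟨(y * C - A) / (B - y * C), div_nonneg (by linarith) (by linarith), ?_, ?_⟩
  · have : 0 ≤ (y * C - (A : ℝ)) / (B - y * C) := div_nonneg (by linarith) (by linarith)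
    nlinarith
  · field_simp [(by linarith : (B : ℝ) - y * C ≠ 0)]
    ring

/-- The numbers at a point in the variables `(U, X, I, a)`. -/
theorem vals_of {x : ℕ → ℝ} (h : Box x) {Qn D H τ T W R : ℝ} (hD : 0 < D)
    (hW : W = 2 * x 2 / pS x * H) (hT : 1 - R * pd x * W = T) :
    let n := allNum (x 3) (pd x) (2 * x 2 * x 1) W R
    Vals x (4 * Qn / (2 * x 2 * pb x * D)) W
        (2 * x 2 / pS x * (H * (x 3 - (1 - x 3) * (pd x * (2 * x 2 * x 1))) / pb x -
          pJ x / pS x * (x 3 / pMu x + x 2 * τ))) R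
        (4 * Qn * H / (pS x * D)) (2 * Qn / (pb x * D)) T τ (max 0 (rK1 x)) n ∧
      n.E = rL x T / pd x ∧ n.K = -5 / 2 * T := by
  intro n
  obtain ⟨ha, hS, hb, hd, hQ, hM, hJ, hu, ha2⟩ := h.pos
  have hI := h.I₀
  have hS0 : 0 < pS x := by linarith
  have hb0 : 0 < pb x := by linarith
  have hd0 : 0 < pd x := by linarith
  have hQ0 : 0 < pQ x := by linarith
  have eab : x 3 + pd x = pb x := by simp only [pd]; ring
  have hN : dimAll (x 3) (pd x) = 1 / x 2 := by
    have : 1 - (x 3 + pb x) = 2 * x 2 := by simp only [pb, pS]; ring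
    rw [dimAll, eab, this]; field_simp
  have hkap : AllN.kapAll (1 / x 2) (x 3) + 1 = max 0 (rK1 x) / pS x ^ 2 := by
    have e1 : 2 * (1 / x 2 * x 3) * (1 / x 2 - 1) / (1 / x 2 - 2) ^ 2 =
        2 * x 3 * (1 - x 2) / pS x ^ 2 := by
      rw [show pS x = 1 - 2 * x 2 from rfl] at hS0 ⊢
      field_simp
    rw [AllN.kapAll, e1, ← max_add_add_right, ← max_div_div_right (sq_nonneg (pS x)), rK1]
    congr 1
    · simp
    · field_simp; ring
  have hQe : 1 + pd x * (2 * x 2 * x 1) = pQ x := rfl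
  have hE : n.E = rL x T / pd x := by
    simp only [n, allNum, hN, hT, rL, hQe]
    field_simp
  have hK : n.K = -5 / 2 * T := by simp only [n, allNum, hT]; ring
  refine ⟨⟨?_, ⟨hI, hS0, hb0, hd0, hQ0, hM⟩, ?_, ?_, ?_, ?_, ?_, ?_, ?_, ?_, ?_⟩, hE, hK⟩
  · intro i hi
    interval_cases i <;> linarith [h.U₀, h.X₀, h.I₀, h.Ia]
  · simp only [n, allNum, eab]
  · simp only [n, allNum, hN]; field_simp
  · rw [hW]; field_simp
  · rw [hE]; field_simp; ring
  · rw [hK]; field_simp; ring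
  · simp only [rW]; field_simp; ring
  · simp only [n, allNum, hN, hT, eab, hQe, rGh]; field_simp
  · simp only [n, allNum, hT, eab, hQe, rG1h]; field_simp
  · simp only [n, allNum, hN, hkap]; field_simp

/-- The signs where the checks give a good point. -/
theorem signs_of_good {E : Encl} {z : Ex} {K n : ℕ} {d S u v t : ℝ} (hK : 0 < K)
    (hb : ChartBox n d S) (h : Box (pt d S u v)) (hX : 0 < pt d S u v 1) (hE₀ : E.Ok (pt d S u v))
    (hz : ev (pt d S u v) z = max 0 (rK1 (pt d S u v))) (hg : Good E z (pt d S u v) K)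
    (h₀ : Band.allNegS ((S - d) / 2) ((S + d) / 2) (ev (pt d S u v) (E.w false)) ≤ t)
    (h₁ : t ≤ Band.allNegS ((S - d) / 2) ((S + d) / 2) (ev (pt d S u v) (E.w true))) :
    All.ChartSigns d S u v t := by
  obtain ⟨ha, hS, hbb, hdd, hQ, hM, hJ, hu, ha2⟩ := h.pos
  set x := pt d S u v with hx
  have hI : 0 < x 2 := h.I₀
  have x2e : x 2 = (1 - S) / 2 := rfl
  have x3e : x 3 = (S - d) / 2 := rfl
  have eS : pS x = S := by simp only [pS, x2e]; ring
  have eb : pb x = (S + d) / 2 := by simp only [pb, eS, x3e]; ring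
  have ed : pd x = d := by simp only [pd, eb, x3e]; ring
  have hS1 : 0 < 1 - S := by linarith
  have ev' : 2 * x 2 * x 1 = v := by
    show 2 * ((1 - S) / 2) * (v / (1 - S)) = v
    field_simp
  have eu : pu x = u := by
    show -2 * ((1 - S) / 2 * (-u / (1 - S))) = u
    field_simp
  have eR : -1 * pS x * x 0 = S * u / (1 - S) := by
    show -1 * pS x * (-u / (1 - S)) = _
    rw [eS]; ring
  have hQ' : pQ x = 1 + d * v := by simp only [pQ, ev', ed]
  have hMe : pMu x = (1 - x 3) ^ 2 := rfl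
  set τ := (t - x 3 / pMu x) / x 2 with hτ
  have hIS : Band.allStabI ((S - d) / 2) ((S + d) / 2) = x 2 := by
    rw [Band.allStabI, x2e]; ring
  simp only [Band.allNegS, hIS] at h₀ h₁
  simp only [← x3e, ← hMe] at h₀ h₁
  have hτ₀ : ev x (E.w false) ≤ τ := by rw [hτ, le_div_iff₀ hI]; linarith
  have hτ₁ : τ ≤ ev x (E.w true) := by rw [hτ, div_le_iff₀ hI]; linarith
  obtain ⟨hH, hQn, hD, hin⟩ := hg.enclose h hE₀ hτ₀ hτ₁
  have eH : rH x τ = chH d S u v t := by
    simp only [rH, chH, hτ, eS, eb, eu, ev', pJ]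
    rw [mul_div_cancel₀ _ hI.ne', ← x3e, x2e]
    rw [show (1 : ℝ) + 2 * ((1 - S) / 2) = 2 - S by ring]
    ring
  have eQn : rQn x = (2 + d * v) * ((S + d) / 2) - S * u * (1 + d * v) := by
    simp only [rQn, eS, eb, ed, eu, ev', hQ']; ring
  have eDen : rDen x (rH x τ) = 2 + d * v - d * u * chH d S u v t := by
    simp only [rDen, ed, eu, ev', eH]; ring
  have hb0 : 0 < (S + d) / 2 := by rw [← eb]; linarith
  have hd0 : 0 < d := hb.pos
  have hS0 : 0 < S := by linarith
  have hv : 0 < v := by rw [← ev']; exact mul_pos (by linarith) hX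
  rw [eDen] at hD
  rw [eQn] at hQn
  have hg0 : 0 < chG d S u v t :=
    div_pos (by linarith) (mul_pos (mul_pos hS1 hb0) hD)
  rw [eH] at hH
  rw [eDen, eH, eQn, eS, eb, ed, eu] at hin
  refine ChartSigns.of_arrow hb hv hg0 ?_
  have eW : chW d S u v t = 2 * x 2 / pS x * chH d S u v t := by
    simp only [chW, x2e, eS]; ring
  have eT : 1 - chR S u * pd x * chW d S u v t = 1 - d * u * chH d S u v t := by
    simp only [chR, chW, ed]; field_simp
  have eg : chG d S u v t = 4 * ((2 + d * v) * ((S + d) / 2) - S * u * (1 + d * v)) /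
      (2 * x 2 * pb x * (2 + d * v - d * u * chH d S u v t)) := by
    simp only [chG, eb, x2e]; ring
  have eW1 : chW1 d S u v t = 2 * x 2 / pS x * (chH d S u v t *
      (x 3 - (1 - x 3) * (pd x * (2 * x 2 * x 1))) / pb x -
        pJ x / pS x * (x 3 / pMu x + x 2 * τ)) := by
    rw [hτ, mul_div_cancel₀ _ hI.ne', ev']
    simp only [chW1, eS, eb, ed, pJ, x2e, x3e]
    ring
  obtain ⟨hV, hE, hnK⟩ := vals_of (τ := τ) h
    (Qn := (2 + d * v) * ((S + d) / 2) - S * u * (1 + d * v)) hD eW eT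
  rw [← eg, ← eW1, eS, eb, ← hz] at hV
  have e := hg.signs hK h hE₀ hV hin hg0 ?_ ?_ hE hnK
  · rw [x3e, ed, ev'] at e
    exact e
  · rw [← eT, ed]; field_simp; ring
  · rw [eR]; rfl

end Vale.Agent.P100.Calib.Closed.All.SgnNeg
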