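import Vale.Agent.P100.Calib.SlabSignsAllNegReal

/-!
# The conditions below the crossing in every dimension from twenty on, as expressions

The conditions at the ends of the enclosures of `b g W`, `I g`, `1 - d u H` and of the slope, the
curvatures, and the enclosures at the two bands.
-/

namespace Vale.Agent.P100.Calib.Closed.All.SgnNeg

open BoxPos

local instance : Add Ex := ⟨Ex.add⟩
local instance : Sub Ex := ⟨Ex.sub⟩
local instance : Mul Ex := ⟨Ex.mul⟩

/-- The middle of the enclosure of `b g W`. -/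
def pM : Ex :=
  nC 4 + .x₂ * (nC 8 * (nC 1 - .x₃) * .x₁ - nC 8) +
    .x₂ * .x₂ * (nC 14 - nC 5 * .x₃ - nC 14 * .x₁ + nC 21 * .x₃ * .x₁ + nC 20 * .x₃ * .x₀ +
      nC 27 * .x₃ * .x₃ * .x₀)

/-- The middle of the enclosure of `I g`. -/
def gM : Ex :=
  nC 2 + nC 4 * (.x₂ * .x₀ * .x₃ * (nC 1 + .x₃ + .x₃ * .x₃)) +
    .x₂ * .x₂ * .x₀ * (nC 8 - nC 13 * .x₃ + nC 75 * (.x₃ * .x₃))

/-- The middle of the enclosure of `1 - d u H`. -/
def tM : Ex :=
  nC 1 + nC 2 * (.x₂ * .x₀ * (nC 1 - nC 2 * .x₂ - .x₃ - .x₃ * .x₃ - .x₃ * .x₃ * .x₃)) +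
    .x₂ * .x₂ * .x₀ * (nC 7 2 * .x₁ - nC 7 2 - nC 8 * (.x₃ * .x₁))

/-- An end of the enclosure of `b g W`. -/
def pE : Bool → Ex
  | false => pM + nC (-17) 2 * (.x₂ * .x₂)
  | true => pM + nC 11 2 * (.x₂ * .x₂)

/-- An end of the enclosure of `I g`. -/
def gE : Bool → Ex
  | false => gM + nC (-3) 50 * .x₂
  | true => gM + nC 7 100 * .x₂

/-- An end of the enclosure of `1 - d u H`. -/
def tE : Bool → Ex
  | false => tM + nC (-1) 25 * .x₂
  | true => tM + nC 3 100 * .x₂

/-- An end of the slope. -/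
def wE : Bool → Ex
  | false => nC 2 - nC 27 10 * .x₃ - nC 13 * .x₂
  | true => nC 11 5

/-- Ends of the enclosures of `b g W`, `I g`, `1 - d u H` and of the slope. -/
structure Encl where
  /-- the ends for `b g W` -/
  p : Bool → Ex
  /-- the ends for `I g` -/
  g : Bool → Ex
  /-- the ends for `1 - d u H` -/
  t : Bool → Ex
  /-- the ends of the slope -/
  w : Bool → Ex

/-- The enclosures in every dimension from twenty on. -/
def upEncl : Encl := ⟨pE, gE, tE, wE⟩

/-- A sign. -/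
def sgn : Bool → Ex
  | false => nC (-1)
  | true => nC 1

/-- The margin. -/
def eEps : Ex := nC 1 1000 * (.x₂ * .x₂)

/-- The factor of `TEGS` against `TGGS`. -/
def eDY : Ex := eD * .x₂ * eB * eB * eS * eS * eQ

/-- The factor of `TEGS` against the arrow. -/
def eLY : Ex := eQ * eD * .x₂ * eB * eS * eS * eMu

/-- `k |TEGS| ≤ TGGS`. -/
def cGY (K : ℕ) (s : Bool) (p h t z : Ex) : Ex :=
  nC K * fG p t z + sgn s * (fY p h t z * eDY) - eEps

/-- The bound of `TMES`. -/
def cX (s : Bool) (p h t w : Ex) : Ex :=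
  nC (-2) * nC 7 10 * eQ * h * fL t * p * .x₂ * eS * eS * eMu + sgn s * (fX p h t w * eB)

/-- The linear arrow. -/
def cL (K : ℕ) (s : Bool) (p h t w z : Ex) : Ex :=
  nC 4 * eB * fT p h t w z +
      nC 392 25 * (.x₂ * .x₂ * eD * eS * eS * eS * eS * eQ * eQ * eQ * eMu) * h * fL t * p +
    sgn s * (nC K * eLY * fY p h t z) - eEps

/-- The curvature of `cGY`. -/
def dGY (K : ℕ) (s : Bool) : Ex :=
  nC 0 - (nC K * (cG10 * eB * eB * eB * eB * eD * eD * eQ * eQ * eS * eS * eS * eS) + sgn s * ((cY9 * .x₂ * .x₁ * eB * eB * eD * eD * eQ * eS * eS) * eDY))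

/-- The curvature of `cL`. -/
def dL (K : ℕ) (s : Bool) : Ex :=
  nC 0 - (nC 4 * eB * (cT12 * eB * eB * eD * eD * eQ * eS * eS * eS * eS * eMu) + sgn s * (nC K * eLY * (cY9 * .x₂ * .x₁ * eB * eB * eD * eD * eQ * eS * eS)))

/-- A curvature. -/
def dGG : Ex := nC 0 - cG6 * .x₂ * .x₂ * .x₁ * .x₁ * eD * eD * eS * eS * eS * eS

/-- A curvature. -/
def dTE : Ex := nC 0 - cT7 * .x₂ * .x₂ * .x₁ * .x₁ * eD * eD * eQ * eS * eS * eS * eS * eMu

/-- A curvature. -/
def dNE : Ex := nC 0 - cN7 * .x₂ * .x₂ * .x₁ * .x₁ * eD * eD * eQ * eS * eS * eS * eS * eMu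

/-- A curvature. -/
def dNP : Ex := nC 0 - cN12 * eB * eB * eD * eD * eQ * eS * eS * eS * eS * eMu

/-- `(1 + 2 I)(1 - a)² b`. -/
def eGd : Ex := eB * eJ * eMu

/-- `H` on a band times `eGd`. -/
def eGn (w : Ex) : Ex :=
  eS * (nC 1 + (nC 1 - .x₃) * eV) * eMu + eU * (eB * eJ * (.x₃ + .x₂ * w * eMu))

/-- The numerator of `g`. -/
def eQn : Ex := eB * (nC 2 + eD * eV) - eS * eU * (nC 1 + eD * eV)

/-- The denominator of `g` times `eGd`. -/
def eDen (w : Ex) : Ex := (nC 2 + eD * eV) * eGd - eU * eD * eGn w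

/-- The lower end of `b g W`. -/
def envPL (E : Encl) : Ex := nC 4 * eQn * eGn (E.w true) - E.p false * eS * eDen (E.w true)

/-- The upper end of `b g W`. -/
def envPH (E : Encl) : Ex := E.p true * eS * eDen (E.w false) - nC 4 * eQn * eGn (E.w false)

/-- The upper end of `I g`. -/
def envGH (E : Encl) : Ex := E.g true * eB * eDen (E.w true) - nC 2 * eQn * eGd

/-- The lower end of `I g`. -/
def envGL (E : Encl) : Ex := nC 2 * eQn * eGd - E.g false * eB * eDen (E.w false)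

/-- The lower end of `1 - d u H`. -/
def envTL (E : Encl) : Ex := eGd - eD * eU * eGn (E.w true) - E.t false * eGd

/-- The upper end of `1 - d u H`. -/
def envTH (E : Encl) : Ex := E.t true * eGd - (eGd - eD * eU * eGn (E.w false))

/-- The slope enters `TAS` with this sign. -/
def dTW : Ex := nC 0 - cT3

/-- The slope enters `TMGS` with this sign. -/
def dNW : Ex := cN3

/-- The slope enters `TMES` with this sign. -/
def dXW : Ex := cX0

end Vale.Agent.P100.Calib.Closed.All.SgnNeg
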