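import Vale.Agent.P100.Calib.SlabSignsAllNegReal

/-!
# Equality of expressions at nonnegative points
-/

namespace Vale.Agent.P100.Calib.Closed.All.SgnNeg

open BoxPos

local instance eqAdd : Add Ex := ⟨Ex.add⟩
local instance eqSub : Sub Ex := ⟨Ex.sub⟩
local instance eqMul : Mul Ex := ⟨Ex.mul⟩

/-- A rational constant of the reals. -/
noncomputable def rC (n : ℤ) (d : ℕ) : ℝ := (n : ℝ) / (d : ℝ)

/-- The second number. -/
def eE2 : Ex := nC 0 - (nC 1 - nC 2 * .x₃ - nC 1 2 * .x₂) * .x₂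

/-- The identity chart. -/
def boxId : ℕ → Pack.Chart := fun _ => ⟨0, 1, 1, 0⟩

/-- Expressions whose two differences pass agree at nonnegative points. -/
theorem eq_of_checks {e f : Ex} {K : ℕ} {n : Vec} (h₁ : Ex.checkNonneg (e - f) boxId K n = true)
    (h₂ : Ex.checkNonneg (f - e) boxId K n = true) {x : ℕ → ℝ} (hx : ∀ i < 4, 0 ≤ x i) :
    ev x e = ev x f := by
  have hp : ∀ i < 4, ∃ t : ℝ, 0 ≤ t ∧ 0 < ((boxId i).c : ℝ) + (boxId i).d * t ∧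
      ((boxId i).a : ℝ) + (boxId i).b * t = x i * (((boxId i).c : ℝ) + (boxId i).d * t) :=
    fun i hi => ⟨x i, hx i hi, by simp [boxId], by simp [boxId]⟩
  have a₁ := Ex.nonneg_of_checkNonneg h₁ hp
  have a₂ := Ex.nonneg_of_checkNonneg h₂ hp
  change 0 ≤ ev x e - ev x f at a₁
  change 0 ≤ ev x f - ev x e at a₂
  linarith

theorem ev_args (x : ℕ → ℝ) (hd : pd x = 1 - 2 * x 2 - 2 * x 3) :
    ev x .x₃ = x 3 ∧ ev x eD = 1 - 2 * x 2 - 2 * x 3 ∧ ev x eV = 2 * x 2 * x 1 ∧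
      ev x (.x₃ * eB) = x 3 * (1 - 2 * x 2 - x 3) ∧ ev x eE2 = -(1 - 2 * x 3 - x 2 / 2) * x 2 ∧
      ev x eB = 1 - 2 * x 2 - x 3 := by
  obtain ⟨-, hb, hd', -, -, -, -, -⟩ := ev_base x
  have eb : pb x = 1 - 2 * x 2 - x 3 := by simp only [pb, pS]
  simp only [eV, eE2, ev_mul, ev_sub, ev_nC, ev_x₁, ev_x₂, ev_x₃, hb, hd', hd, eb]
  push_cast
  refine ⟨?_, ?_, ?_, ?_, ?_, ?_⟩ <;> (first | trivial | ring)

end Vale.Agent.P100.Calib.Closed.All.SgnNeg
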