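import Vale.Agent.P100.Calib.SlabSignsAllNegEq
import Vale.Agent.P100.Calib.SlabGenClosed

/-!
# `TGGS` expanded below the crossing
-/

set_option linter.unusedSimpArgs false
set_option linter.unusedVariables false

namespace Vale.Agent.P100.Calib.Closed.All.SgnNeg

open BoxPos

local instance expGAdd : Add Ex := ⟨Ex.add⟩
local instance expGSub : Sub Ex := ⟨Ex.sub⟩
local instance expGMul : Mul Ex := ⟨Ex.mul⟩

/-- A coefficient. -/
def kG0 {α : Type} [Add α] [Mul α] (C : ℤ → ℕ → α) (a d v c e2 : α) : α :=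
  (((((((((((((((C (-16) 1)) * c * c) * v * v * v * v * v) * d + (((((C (-16) 1)) * c + ((C (-16)
    1))) * c) * v * v * v * v)) * d + ((((C (-32) 1)) * c) * v * v * v)) * d + ((((C (-16) 1)) *
    c) * v * v))) * a + (((((((((C (-72) 1)) * c * c) * v * v * v * v * v) * d + ((((((C (-40) 1))
    * c + ((C 16 1) * e2)) * c) * v + ((((C (-104) 1)) * c + ((C (-56) 1))) * c)) * v * v * v *
    v)) * d + ((((((C (-104) 1)) * c + (((C 80 1) * e2 + (C (-24) 1)))) * c) * v + ((((C (-32) 1))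
    * c + ((C (-112) 1))) * c)) * v * v * v)) * d + ((((((C (-128) 1)) * c + (((C 128 1) * e2 + (C
    (-48) 1)))) * c) * v + (((C (-56) 1)) * c)) * v * v)) * d + (((((C (-64) 1)) * c + (((C 64 1)
    * e2 + (C (-24) 1)))) * c) * v * v)))) * a + ((((((((((C (-132) 1)) * c * c) * v * v * v * v *
    v) * d + ((((((C (-4) 1) * e2 * e2) * c) * v + ((((C (-152) 1)) * c + ((C 48 1) * e2)) * c)) *
    v + ((((C (-244) 1)) * c + ((C (-76) 1))) * c)) * v * v * v * v)) * d + ((((((((C 32 1) * e2 +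
    (C (-8) 1))) * c + (((C (-32) 1) * e2 + (C (-32) 1)) * e2)) * c) * v + ((((C (-408) 1)) * c +
    (((C 240 1) * e2 + (C (-72) 1)))) * c)) * v + ((((C (-128) 1)) * c + ((C (-152) 1))) * c)) * v
    * v * v)) * d + ((((((((C (-64) 1)) * c + (((C 160 1) * e2 + (C 56 1)))) * c + ((((C (-96) 1)
    * e2 + (C (-160) 1)) * e2 + (C (-12) 1)))) * c) * v + ((((C (-448) 1)) * c + (((C 384 1) * e2
    + (C (-144) 1)))) * c)) * v + ((((C (-16) 1)) * c + ((C (-76) 1))) * c)) * v * v)) * d +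
    (((((((C (-128) 1)) * c + (((C 256 1) * e2 + (C 128 1)))) * c + ((((C (-128) 1) * e2 + (C
    (-256) 1)) * e2 + (C (-24) 1)))) * c) * v + ((((C (-192) 1)) * c + (((C 192 1) * e2 + (C (-72)
    1)))) * c)) * v * v)) * d + ((((((C (-64) 1)) * c + (((C 128 1) * e2 + (C 64 1)))) * c + ((((C
    (-64) 1) * e2 + (C (-128) 1)) * e2 + (C (-12) 1)))) * c) * v * v)))) * a + (((((((((((C (-126)
    1)) * c * c) * v * v * v * v * v) * d + ((((((C (-10) 1) * e2 * e2) * c) * v + ((((C (-226)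
    1)) * c + ((C 52 1) * e2)) * c)) * v + ((((C (-278) 1)) * c + ((C (-50) 1))) * c)) * v * v * v
    * v)) * d + (((((((C (-2) 1) * e2 * e2) * c) * v + (((((C 80 1) * e2 + (C (-20) 1))) * c +
    (((C (-80) 1) * e2 + (C (-80) 1)) * e2)) * c)) * v + ((((C (-634) 1)) * c + (((C 260 1) * e2 +
    (C (-78) 1)))) * c)) * v + ((((C (-192) 1)) * c + ((C (-100) 1))) * c)) * v * v * v)) * d +
    (((((((((C 16 1) * e2 + (C 4 1))) * c + (((C (-16) 1) * e2 + (C (-4) 1)) * e2)) * c) * v +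
    (((((C (-160) 1)) * c + (((C 400 1) * e2 + (C 156 1)))) * c + ((((C (-240) 1) * e2 + (C (-400)
    1)) * e2 + (C (-30) 1)))) * c)) * v + ((((C (-656) 1)) * c + (((C 416 1) * e2 + (C (-156)
    1)))) * c)) * v + ((((C (-40) 1)) * c + ((C (-50) 1))) * c)) * v * v)) * d + ((((((((C (-32)
    1)) * c + (((C 80 1) * e2 + (C 52 1)))) * c + ((((C (-48) 1) * e2 + (C (-20) 1)) * e2 + (C
    (-2) 1)))) * c) * v + (((((C (-320) 1)) * c + (((C 640 1) * e2 + (C 384 1)))) * c + ((((C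
    (-320) 1) * e2 + (C (-640) 1)) * e2 + (C (-60) 1)))) * c)) * v + ((((C (-248) 1)) * c + (((C
    208 1) * e2 + (C (-78) 1)))) * c)) * v * v)) * d + (((((((C (-64) 1)) * c + (((C 128 1) * e2 +
    (C 96 1)))) * c + ((((C (-64) 1) * e2 + (C (-32) 1)) * e2 + (C (-4) 1)))) * c) * v + (((((C
    (-160) 1)) * c + (((C 320 1) * e2 + (C 240 1)))) * c + ((((C (-160) 1) * e2 + (C (-320) 1)) *
    e2 + (C (-30) 1)))) * c)) * v * v)) * d + (((((((C (-32) 1)) * c + (((C 64 1) * e2 + (C 48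
    1)))) * c + ((((C (-32) 1) * e2 + (C (-16) 1)) * e2 + (C (-2) 1)))) * c) * v + (((C 32 1)) * c
    * c)) * v)))) * a + ((((((((((((C (-66) 1)) * c * c) * v * v * v * v * v) * d + ((((((C (-8)
    1) * e2 * e2) * c) * v + ((((C (-164) 1)) * c + ((C 24 1) * e2)) * c)) * v + ((((C (-166) 1))
    * c + ((C (-16) 1))) * c)) * v * v * v * v)) * d + (((((((C (-4) 1) * e2 * e2) * c) * v +
    (((((C 72 1) * e2 + (C (-17) 1))) * c + (((C (-64) 1) * e2 + (C (-64) 1)) * e2)) * c)) * v +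
    ((((C (-484) 1)) * c + (((C 120 1) * e2 + (C (-36) 1)))) * c)) * v + ((((C (-136) 1)) * c +
    ((C (-32) 1))) * c)) * v * v * v)) * d + (((((((((C 40 1) * e2 + (C 16 1))) * c + (((C (-32)
    1) * e2 + (C (-8) 1)) * e2)) * c) * v + (((((C (-160) 1)) * c + (((C 360 1) * e2 + (C 163
    1)))) * c + ((((C (-192) 1) * e2 + (C (-320) 1)) * e2 + (C (-24) 1)))) * c)) * v + ((((C
    (-496) 1)) * c + (((C 192 1) * e2 + (C (-72) 1)))) * c)) * v + ((((C (-36) 1)) * c + ((C (-16)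
    1))) * c)) * v * v)) * d + (((((((C (-1) 1)) * c * c) * v + (((((C (-96) 1)) * c + (((C 216 1)
    * e2 + (C 144 1)))) * c + ((((C (-96) 1) * e2 + (C (-40) 1)) * e2 + (C (-4) 1)))) * c)) * v +
    (((((C (-320) 1)) * c + (((C 576 1) * e2 + (C 424 1)))) * c + ((((C (-256) 1) * e2 + (C (-512)
    1)) * e2 + (C (-48) 1)))) * c)) * v + ((((C (-176) 1)) * c + (((C 96 1) * e2 + (C (-36) 1))))
    * c)) * v * v)) * d + ((((((C (-1) 1)) * c * c) * v + (((((C (-256) 1)) * c + (((C 400 1) * e2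
    + (C 272 1)))) * c + ((((C (-128) 1) * e2 + (C (-64) 1)) * e2 + (C (-8) 1)))) * c)) * v +
    (((((C (-160) 1)) * c + (((C 288 1) * e2 + (C 308 1)))) * c + ((((C (-128) 1) * e2 + (C (-256)
    1)) * e2 + (C (-24) 1)))) * c)) * v * v)) * d + (((((((C (-224) 1)) * c + (((C 288 1) * e2 +
    (C 176 1)))) * c + ((((C (-64) 1) * e2 + (C (-32) 1)) * e2 + (C (-4) 1)))) * c) * v + (((C 64
    1)) * c * c)) * v)) * d + (((((C (-64) 1)) * c + (((C 64 1) * e2 + (C 32 1)))) * c * c) *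
    v)))) * a + (((((((((((((C (-18) 1)) * c * c) * v * v * v * v * v) * d + ((((((C (-2) 1) * e2
    * e2) * c) * v + ((((C (-58) 1)) * c + ((C 4 1) * e2)) * c)) * v + ((((C (-50) 1)) * c + ((C
    (-2) 1))) * c)) * v * v * v * v)) * d + (((((((C (-2) 1) * e2 * e2) * c) * v + (((((C 28 1) *
    e2 + (C (-11) 2))) * c + (((C (-16) 1) * e2 + (C (-16) 1)) * e2)) * c)) * v + ((((C (-180) 1))
    * c + (((C 20 1) * e2 + (C (-6) 1)))) * c)) * v + ((((C (-46) 1)) * c + ((C (-4) 1))) * c)) *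
    v * v * v)) * d + (((((((((C 32 1) * e2 + (C 37 2))) * c + (((C (-16) 1) * e2 + (C (-4) 1)) *
    e2)) * c) * v + (((((C (-80) 1)) * c + (((C 140 1) * e2 + (C 153 2)))) * c + ((((C (-48) 1) *
    e2 + (C (-80) 1)) * e2 + (C (-6) 1)))) * c)) * v + ((((C (-188) 1)) * c + (((C 32 1) * e2 + (C
    (-12) 1)))) * c)) * v + ((((C (-14) 1)) * c + ((C (-2) 1))) * c)) * v * v)) * d + ((((((((C 4
    1) * e2 + (C (-1) 2))) * c * c) * v + (((((C (-96) 1)) * c + (((C 184 1) * e2 + (C 265 2)))) *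
    c + ((((C (-48) 1) * e2 + (C (-20) 1)) * e2 + (C (-2) 1)))) * c)) * v + (((((C (-160) 1)) * c
    + (((C 224 1) * e2 + (C 204 1)))) * c + ((((C (-64) 1) * e2 + (C (-128) 1)) * e2 + (C (-12)
    1)))) * c)) * v + ((((C (-66) 1)) * c + (((C 16 1) * e2 + (C (-6) 1)))) * c)) * v * v)) * d +
    (((((((C (-1) 2)) * c * c) * v + ((((C (-16) 1)) * c + (((C 28 1) * e2 + (C 11 2)))) * c * c))
    * v + (((((C (-288) 1)) * c + (((C 376 1) * e2 + (C 252 1)))) * c + ((((C (-64) 1) * e2 + (C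
    (-32) 1)) * e2 + (C (-4) 1)))) * c)) * v + (((((C (-80) 1)) * c + (((C 112 1) * e2 + (C 162
    1)))) * c + ((((C (-32) 1) * e2 + (C (-64) 1)) * e2 + (C (-6) 1)))) * c)) * v * v)) * d +
    (((((((C (-1) 2)) * c * c) * v + ((((C (-64) 1)) * c + (((C 72 1) * e2 + (C 18 1)))) * c * c))
    * v + (((((C (-288) 1)) * c + (((C 320 1) * e2 + (C 186 1)))) * c + ((((C (-32) 1) * e2 + (C
    (-16) 1)) * e2 + (C (-2) 1)))) * c)) * v + (((C 40 1)) * c * c)) * v)) * d + ((((((C (-80) 1))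
    * c + (((C 80 1) * e2 + (C 20 1)))) * c * c) * v + ((((C (-96) 1)) * c + (((C 96 1) * e2 + (C
    48 1)))) * c * c)) * v)) * d + (((((C (-32) 1)) * c + (((C 32 1) * e2 + (C 8 1)))) * c * c) *
    v)))) * a + ((((((((((((((C (-2) 1)) * c * c) * v * v * v * v * v) * d + (((((C (-8) 1)) * c *
    c) * v + (((C (-6) 1)) * c * c)) * v * v * v * v)) * d + (((((((C 4 1) * e2 + (C (-1) 2))) * c
    * c) * v + (((C (-26) 1)) * c * c)) * v + (((C (-6) 1)) * c * c)) * v * v * v)) * d +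
    ((((((((C 8 1) * e2 + (C 13 2))) * c * c) * v + ((((C (-20) 1)) * c + (((C 20 1) * e2 + (C 27
    2)))) * c * c)) * v + (((C (-28) 1)) * c * c)) * v + (((C (-2) 1)) * c * c)) * v * v)) * d +
    ((((((((C 4 1) * e2 + (C 1 2))) * c * c) * v + ((((C (-40) 1)) * c + (((C 48 1) * e2 + (C 81
    2)))) * c * c)) * v + ((((C (-40) 1)) * c + (((C 32 1) * e2 + (C 36 1)))) * c * c)) * v + (((C
    (-10) 1)) * c * c)) * v * v)) * d + (((((((C (-1) 2)) * c * c) * v + ((((C (-20) 1)) * c +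
    (((C 28 1) * e2 + (C 13 2)))) * c * c)) * v + ((((C (-128) 1)) * c + (((C 104 1) * e2 + (C 76
    1)))) * c * c)) * v + ((((C (-20) 1)) * c + (((C 16 1) * e2 + (C 30 1)))) * c * c)) * v * v))
    * d + (((((((C (-1) 2)) * c * c) * v + ((((C (-88) 1)) * c + (((C 72 1) * e2 + (C 18 1)))) * c
    * c)) * v + ((((C (-136) 1)) * c + (((C 96 1) * e2 + (C 58 1)))) * c * c)) * v + (((C 8 1)) *
    c * c)) * v)) * d + ((((((C (-132) 1)) * c + (((C 80 1) * e2 + (C 20 1)))) * c * c) * v +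
    ((((C (-48) 1)) * c + (((C 32 1) * e2 + (C 16 1)))) * c * c)) * v)) * d + (((((C (-80) 1)) * c
    + (((C 32 1) * e2 + (C 8 1)))) * c * c) * v)) * d + ((((C (-16) 1)) * c * c * c))))) * a +
    ((((((((((((C (-2) 1)) * c * c * c) * v * v * v * v) * d + (((((C (-6) 1)) * c * c * c) * v +
    (((C (-4) 1)) * c * c * c)) * v * v * v)) * d + ((((((C (-6) 1)) * c * c * c) * v + (((C (-20)
    1)) * c * c * c)) * v + (((C (-2) 1)) * c * c * c)) * v * v)) * d + ((((((C (-2) 1)) * c * c *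
    c) * v + (((C (-28) 1)) * c * c * c)) * v + (((C (-22) 1)) * c * c * c)) * v * v)) * d +
    ((((((C (-12) 1)) * c * c * c) * v + (((C (-46) 1)) * c * c * c)) * v + (((C (-8) 1)) * c * c
    * c)) * v)) * d + (((((C (-26) 1)) * c * c * c) * v + (((C (-32) 1)) * c * c * c)) * v)) * d +
    (((((C (-24) 1)) * c * c * c) * v + (((C (-8) 1)) * c * c * c)))) * d + ((((C (-8) 1)) * c * c
    * c)))))

theorem kG0_up : Ex.checkNonneg ((kG0 (fun n d => nC n d) .x₃ eD eV (.x₃ * eB) eE2) - (cG0 * .x₃ * .x₃ * .x₃ * eB * eB * eB)) boxId 39 ⟨0, 6, 18, 14⟩ = true := by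
  decide +kernel

theorem kG0_down : Ex.checkNonneg ((cG0 * .x₃ * .x₃ * .x₃ * eB * eB * eB) - (kG0 (fun n d => nC n d) .x₃ eD eV (.x₃ * eB) eE2)) boxId 39 ⟨0, 6, 18, 14⟩ = true := by
  decide +kernel

theorem kG0_eq (x : ℕ → ℝ) (a I X : ℝ) (hx : ∀ i < 4, 0 ≤ x i) (ha : x 3 = a) (hI : x 2 = I)
    (hX : x 1 = X) :
    kG0 rC a (1 - 2 * I - 2 * a) (2 * I * X) (a * (1 - 2 * I - a)) (-(1 - 2 * a - I / 2) * I) =
      a ^ 3 * (1 - 2 * I - a) ^ 3 * ev x cG0 := by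
  subst ha hI hX
  have h := eq_of_checks kG0_up kG0_down hx
  obtain ⟨h3, hd, hv, hc, he, hb⟩ := ev_args x (by simp only [pd, pb, pS]; ring)
  have e : ev x (kG0 (fun n d => nC n d) .x₃ eD eV (.x₃ * eB) eE2) = kG0 rC (ev x .x₃) (ev x eD) (ev x eV) (ev x (.x₃ * eB)) (ev x eE2) := rfl
  rw [e, h3, hd, hv, hc, he] at h
  rw [h]
  simp only [ev_mul, ev_x₁, ev_x₂, ev_x₃, hd, hb]
  ring

/-- A coefficient. -/
def kG1 {α : Type} [Add α] [Mul α] (C : ℤ → ℕ → α) (a d v c e2 : α) : α :=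
  (((((((((((((C 16 1)) * c * c) * v * v * v * v * v) * d + ((((C 80 1)) * c * c) * v * v * v *
    v)) * d + ((((C 128 1)) * c * c) * v * v * v)) * d + ((((C 64 1)) * c * c) * v * v)) * d * d)
    * a + (((((((((C 56 1)) * c * c) * v * v * v * v * v) * d + ((((C 296 1)) * c * c) * v * v * v
    * v)) * d + ((((C 528 1)) * c * c) * v * v * v)) * d + ((((C 352 1)) * c * c) * v * v)) * d +
    ((((C 64 1)) * c * c) * v)) * d * d)) * a + ((((((((((C 76 1)) * c * c) * v * v * v * v * v) *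
    d + (((((C (-4) 1)) * c * c) * v + (((C 420 1)) * c * c)) * v * v * v * v)) * d + (((((C (-28)
    1)) * c * c) * v + (((C 808 1)) * c * c)) * v * v * v)) * d + (((((C (-72) 1)) * c * c) * v +
    (((C 624 1)) * c * c)) * v * v)) * d + (((((C (-80) 1)) * c * c) * v + (((C 160 1)) * c * c))
    * v)) * d + ((((C (-32) 1)) * c * c) * v)) * d * d)) * a + (((((((((((C 50 1)) * c * c) * v *
    v * v * v * v) * d + (((((C (-8) 1)) * c * c) * v + (((C 286 1)) * c * c)) * v * v * v * v)) *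
    d + ((((((C (-2) 1)) * c * c) * v + (((C (-56) 1)) * c * c)) * v + (((C 580 1)) * c * c)) * v
    * v * v)) * d + ((((((C (-14) 1)) * c * c) * v + (((C (-144) 1)) * c * c)) * v + (((C 488 1))
    * c * c)) * v * v)) * d + ((((((C (-36) 1)) * c * c) * v + (((C (-160) 1)) * c * c)) * v +
    (((C 144 1)) * c * c)) * v)) * d + (((((C (-40) 1)) * c * c) * v + (((C (-64) 1)) * c * c)) *
    v)) * d + ((((C (-16) 1)) * c * c) * v)) * d * d)) * a + ((((((((((((C 16 1)) * c * c) * v * v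
    * v * v * v) * d + (((((C (-5) 1)) * c * c) * v + (((C 94 1)) * c * c)) * v * v * v * v)) * d
    + ((((((C (-3) 1)) * c * c) * v + (((C (-35) 1)) * c * c)) * v + (((C 198 1)) * c * c)) * v *
    v * v)) * d + (((((((C 1 1)) * c * c) * v + (((C (-21) 1)) * c * c)) * v + (((C (-90) 1)) * c
    * c)) * v + (((C 176 1)) * c * c)) * v * v)) * d + ((((((((C (-1) 1)) * c * c) * v + (((C 7
    1)) * c * c)) * v + (((C (-54) 1)) * c * c)) * v + (((C (-100) 1)) * c * c)) * v + (((C 56 1))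
    * c * c)) * v)) * d + (((((((C (-5) 1)) * c * c) * v + (((C 18 1)) * c * c)) * v + (((C (-60)
    1)) * c * c)) * v + (((C (-40) 1)) * c * c)) * v)) * d + ((((((C (-8) 1)) * c * c) * v + (((C
    20 1)) * c * c)) * v + (((C (-24) 1)) * c * c)) * v)) * d + (((((C (-4) 1)) * c * c) * v +
    (((C 8 1)) * c * c)) * v)) * d * d)) * a + ((((((((((((C 2 1)) * c * c) * v * v * v * v * v) *
    d + (((((C (-1) 1)) * c * c) * v + (((C 12 1)) * c * c)) * v * v * v * v)) * d + ((((((C (-1)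
    1)) * c * c) * v + (((C (-7) 1)) * c * c)) * v + (((C 26 1)) * c * c)) * v * v * v)) * d +
    (((((((C 1 1)) * c * c) * v + (((C (-7) 1)) * c * c)) * v + (((C (-18) 1)) * c * c)) * v +
    (((C 24 1)) * c * c)) * v * v)) * d + ((((((((C (-1) 1)) * c * c) * v + (((C 7 1)) * c * c)) *
    v + (((C (-18) 1)) * c * c)) * v + (((C (-20) 1)) * c * c)) * v + (((C 8 1)) * c * c)) * v)) *
    d + (((((((C (-5) 1)) * c * c) * v + (((C 18 1)) * c * c)) * v + (((C (-20) 1)) * c * c)) * v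
    + (((C (-8) 1)) * c * c)) * v)) * d + ((((((C (-8) 1)) * c * c) * v + (((C 20 1)) * c * c)) *
    v + (((C (-8) 1)) * c * c)) * v)) * d + (((((C (-4) 1)) * c * c) * v + (((C 8 1)) * c * c)) *
    v)) * d * d * d)) * a

theorem kG1_up : Ex.checkNonneg ((kG1 (fun n d => nC n d) .x₃ eD eV (.x₃ * eB) eE2) - (cG1 * .x₃ * .x₃ * .x₃ * .x₂ * .x₂ * .x₂ * .x₁ * eB * eB * eB * eD * eD)) boxId 39 ⟨0, 5, 17, 15⟩ = true := by
  decide +kernel

theorem kG1_down : Ex.checkNonneg ((cG1 * .x₃ * .x₃ * .x₃ * .x₂ * .x₂ * .x₂ * .x₁ * eB * eB * eB * eD * eD) - (kG1 (fun n d => nC n d) .x₃ eD eV (.x₃ * eB) eE2)) boxId 39 ⟨0, 5, 17, 15⟩ = true := by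
  decide +kernel

theorem kG1_eq (x : ℕ → ℝ) (a I X : ℝ) (hx : ∀ i < 4, 0 ≤ x i) (ha : x 3 = a) (hI : x 2 = I)
    (hX : x 1 = X) :
    kG1 rC a (1 - 2 * I - 2 * a) (2 * I * X) (a * (1 - 2 * I - a)) (-(1 - 2 * a - I / 2) * I) =
      a ^ 3 * I ^ 3 * X * (1 - 2 * I - a) ^ 3 * (1 - 2 * I - 2 * a) ^ 2 * ev x cG1 := by
  subst ha hI hX
  have h := eq_of_checks kG1_up kG1_down hx
  obtain ⟨h3, hd, hv, hc, he, hb⟩ := ev_args x (by simp only [pd, pb, pS]; ring)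
  have e : ev x (kG1 (fun n d => nC n d) .x₃ eD eV (.x₃ * eB) eE2) = kG1 rC (ev x .x₃) (ev x eD) (ev x eV) (ev x (.x₃ * eB)) (ev x eE2) := rfl
  rw [e, h3, hd, hv, hc, he] at h
  rw [h]
  simp only [ev_mul, ev_x₁, ev_x₂, ev_x₃, hd, hb]
  ring

/-- A coefficient. -/
def kG2 {α : Type} [Add α] [Mul α] (C : ℤ → ℕ → α) (a d v c e2 : α) : α :=
  ((((((((((((((C (-4) 1)) * c * c) * v * v * v * v * v) * d + ((((C (-36) 1)) * c * c) * v * v *
    v * v)) * d + ((((C (-128) 1)) * c * c) * v * v * v)) * d + ((((C (-224) 1)) * c * c) * v *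
    v)) * d + ((((C (-192) 1)) * c * c) * v)) * d + ((((C (-64) 1)) * c * c))) * d * d) * a +
    (((((((((((C (-10) 1)) * c * c) * v * v * v * v * v) * d + (((((C 2 1)) * c * c) * v + (((C
    (-90) 1)) * c * c)) * v * v * v * v)) * d + (((((C 18 1)) * c * c) * v + (((C (-320) 1)) * c *
    c)) * v * v * v)) * d + (((((C 64 1)) * c * c) * v + (((C (-560) 1)) * c * c)) * v * v)) * d +
    (((((C 112 1)) * c * c) * v + (((C (-480) 1)) * c * c)) * v)) * d + (((((C 96 1)) * c * c) * v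
    + (((C (-160) 1)) * c * c)))) * d + ((((C 32 1)) * c * c))) * d * d)) * a + ((((((((((((C (-9)
    1)) * c * c) * v * v * v * v * v) * d + (((((C 4 1)) * c * c) * v + (((C (-81) 1)) * c * c)) *
    v * v * v * v)) * d + ((((((C 1 1)) * c * c) * v + (((C 36 1)) * c * c)) * v + (((C (-288) 1))
    * c * c)) * v * v * v)) * d + ((((((C 9 1)) * c * c) * v + (((C 128 1)) * c * c)) * v + (((C
    (-504) 1)) * c * c)) * v * v)) * d + ((((((C 32 1)) * c * c) * v + (((C 224 1)) * c * c)) * v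
    + (((C (-432) 1)) * c * c)) * v)) * d + ((((((C 56 1)) * c * c) * v + (((C 192 1)) * c * c)) *
    v + (((C (-144) 1)) * c * c)))) * d + (((((C 48 1)) * c * c) * v + (((C 64 1)) * c * c)))) * d
    + ((((C 16 1)) * c * c))) * d * d)) * a + (((((((((((((C (-7) 2)) * c * c) * v * v * v * v *
    v) * d + (((((C 5 2)) * c * c) * v + (((C (-63) 2)) * c * c)) * v * v * v * v)) * d + ((((((C
    3 2)) * c * c) * v + (((C 45 2)) * c * c)) * v + (((C (-112) 1)) * c * c)) * v * v * v)) * d +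
    (((((((C (-1) 2)) * c * c) * v + (((C 27 2)) * c * c)) * v + (((C 80 1)) * c * c)) * v + (((C
    (-196) 1)) * c * c)) * v * v)) * d + (((((((C (-9) 2)) * c * c) * v + (((C 48 1)) * c * c)) *
    v + (((C 140 1)) * c * c)) * v + (((C (-168) 1)) * c * c)) * v)) * d + (((((((C (-16) 1)) * c
    * c) * v + (((C 84 1)) * c * c)) * v + (((C 120 1)) * c * c)) * v + (((C (-56) 1)) * c * c))))
    * d + ((((((C (-28) 1)) * c * c) * v + (((C 72 1)) * c * c)) * v + (((C 40 1)) * c * c)))) * d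
    + (((((C (-24) 1)) * c * c) * v + (((C 24 1)) * c * c)))) * d + ((((C (-8) 1)) * c * c))) * d
    * d)) * a + (((((((((((((C (-1) 2)) * c * c) * v * v * v * v * v) * d + (((((C 1 2)) * c * c)
    * v + (((C (-9) 2)) * c * c)) * v * v * v * v)) * d + ((((((C 1 2)) * c * c) * v + (((C 9 2))
    * c * c)) * v + (((C (-16) 1)) * c * c)) * v * v * v)) * d + (((((((C (-1) 2)) * c * c) * v +
    (((C 9 2)) * c * c)) * v + (((C 16 1)) * c * c)) * v + (((C (-28) 1)) * c * c)) * v * v)) * d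
    + (((((((C (-9) 2)) * c * c) * v + (((C 16 1)) * c * c)) * v + (((C 28 1)) * c * c)) * v +
    (((C (-24) 1)) * c * c)) * v)) * d + (((((((C (-16) 1)) * c * c) * v + (((C 28 1)) * c * c)) *
    v + (((C 24 1)) * c * c)) * v + (((C (-8) 1)) * c * c)))) * d + ((((((C (-28) 1)) * c * c) * v
    + (((C 24 1)) * c * c)) * v + (((C 8 1)) * c * c)))) * d + (((((C (-24) 1)) * c * c) * v +
    (((C 8 1)) * c * c)))) * d + ((((C (-8) 1)) * c * c))) * d * d * d)) * a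

theorem kG2_up : Ex.checkNonneg ((kG2 (fun n d => nC n d) .x₃ eD eV (.x₃ * eB) eE2) - (cG2 * .x₃ * .x₃ * .x₃ * .x₂ * .x₂ * eB * eB * eB * eD * eD)) boxId 40 ⟨0, 5, 18, 16⟩ = true := by
  decide +kernel

theorem kG2_down : Ex.checkNonneg ((cG2 * .x₃ * .x₃ * .x₃ * .x₂ * .x₂ * eB * eB * eB * eD * eD) - (kG2 (fun n d => nC n d) .x₃ eD eV (.x₃ * eB) eE2)) boxId 40 ⟨0, 5, 18, 16⟩ = true := by
  decide +kernel

theorem kG2_eq (x : ℕ → ℝ) (a I X : ℝ) (hx : ∀ i < 4, 0 ≤ x i) (ha : x 3 = a) (hI : x 2 = I)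
    (hX : x 1 = X) :
    kG2 rC a (1 - 2 * I - 2 * a) (2 * I * X) (a * (1 - 2 * I - a)) (-(1 - 2 * a - I / 2) * I) =
      a ^ 3 * I ^ 2 * (1 - 2 * I - a) ^ 3 * (1 - 2 * I - 2 * a) ^ 2 * ev x cG2 := by
  subst ha hI hX
  have h := eq_of_checks kG2_up kG2_down hx
  obtain ⟨h3, hd, hv, hc, he, hb⟩ := ev_args x (by simp only [pd, pb, pS]; ring)
  have e : ev x (kG2 (fun n d => nC n d) .x₃ eD eV (.x₃ * eB) eE2) = kG2 rC (ev x .x₃) (ev x eD) (ev x eV) (ev x (.x₃ * eB)) (ev x eE2) := rfl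
  rw [e, h3, hd, hv, hc, he] at h
  rw [h]
  simp only [ev_mul, ev_x₁, ev_x₂, ev_x₃, hd, hb]
  ring

/-- A coefficient. -/
def kG3 {α : Type} [Add α] [Mul α] (C : ℤ → ℕ → α) (a d v c e2 : α) : α :=
  (((((((((C (-32) 1)) * c) * v * v * v * v * v) * d + ((((C (-160) 1)) * c) * v * v * v * v)) * d
    + ((((C (-256) 1)) * c) * v * v * v)) * d + ((((C (-128) 1)) * c) * v * v)) * d * d) * a +
    ((((((((C (-32) 1)) * c) * v * v * v * v * v) * d + ((((C (-160) 1)) * c) * v * v * v * v)) *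
    d + ((((C (-256) 1)) * c) * v * v * v)) * d + ((((C (-128) 1)) * c) * v * v)) * d * d * d)) *
    a

theorem kG3_up : Ex.checkNonneg ((kG3 (fun n d => nC n d) .x₃ eD eV (.x₃ * eB) eE2) - (cG3 * .x₃ * .x₃ * .x₂ * .x₂ * .x₁ * .x₁ * eB * eB * eD * eD)) boxId 30 ⟨0, 5, 12, 9⟩ = true := by
  decide +kernel

theorem kG3_down : Ex.checkNonneg ((cG3 * .x₃ * .x₃ * .x₂ * .x₂ * .x₁ * .x₁ * eB * eB * eD * eD) - (kG3 (fun n d => nC n d) .x₃ eD eV (.x₃ * eB) eE2)) boxId 30 ⟨0, 5, 12, 9⟩ = true := by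
  decide +kernel

theorem kG3_eq (x : ℕ → ℝ) (a I X : ℝ) (hx : ∀ i < 4, 0 ≤ x i) (ha : x 3 = a) (hI : x 2 = I)
    (hX : x 1 = X) :
    kG3 rC a (1 - 2 * I - 2 * a) (2 * I * X) (a * (1 - 2 * I - a)) (-(1 - 2 * a - I / 2) * I) =
      a ^ 2 * I ^ 2 * X ^ 2 * (1 - 2 * I - a) ^ 2 * (1 - 2 * I - 2 * a) ^ 2 * ev x cG3 := by
  subst ha hI hX
  have h := eq_of_checks kG3_up kG3_down hx
  obtain ⟨h3, hd, hv, hc, he, hb⟩ := ev_args x (by simp only [pd, pb, pS]; ring)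
  have e : ev x (kG3 (fun n d => nC n d) .x₃ eD eV (.x₃ * eB) eE2) = kG3 rC (ev x .x₃) (ev x eD) (ev x eV) (ev x (.x₃ * eB)) (ev x eE2) := rfl
  rw [e, h3, hd, hv, hc, he] at h
  rw [h]
  simp only [ev_mul, ev_x₁, ev_x₂, ev_x₃, hd, hb]
  ring

/-- A coefficient. -/
def kG4 {α : Type} [Add α] [Mul α] (C : ℤ → ℕ → α) (a d v c e2 : α) : α :=
  (((((((((((C 32 1)) * c) * v * v * v * v * v) * d + ((((C 96 1)) * c) * v * v * v * v)) * d +
    ((((C 64 1)) * c) * v * v * v)) * d * d * d) * a + ((((((((C 96 1)) * c) * v * v * v * v * v)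
    * d + (((((C 48 1)) * c) * v + (((C 320 1)) * c)) * v * v * v * v)) * d + (((((C 144 1)) * c)
    * v + (((C 288 1)) * c)) * v * v * v)) * d + (((((C 96 1)) * c) * v + (((C 64 1)) * c)) * v *
    v)) * d * d * d)) * a + (((((((((C 104 1)) * c) * v * v * v * v * v) * d + (((((C 112 1)) * c)
    * v + (((C 376 1)) * c)) * v * v * v * v)) * d + ((((((C (-8) 1)) * c) * v + (((C 368 1)) *
    c)) * v + (((C 400 1)) * c)) * v * v * v)) * d + ((((((C (-24) 1)) * c) * v + (((C 320 1)) *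
    c)) * v + (((C 128 1)) * c)) * v * v)) * d + (((((C (-16) 1)) * c) * v + (((C 64 1)) * c)) * v
    * v)) * d * d * d)) * a + ((((((((((C 48 1)) * c) * v * v * v * v * v) * d + (((((C 84 1)) *
    c) * v + (((C 184 1)) * c)) * v * v * v * v)) * d + ((((((C (-16) 1)) * c) * v + (((C 300 1))
    * c)) * v + (((C 216 1)) * c)) * v * v * v)) * d + (((((((C (-4) 1)) * c) * v + (((C (-56) 1))
    * c)) * v + (((C 312 1)) * c)) * v + (((C 80 1)) * c)) * v * v)) * d + ((((((C (-12) 1)) * c)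
    * v + (((C (-56) 1)) * c)) * v + (((C 96 1)) * c)) * v * v)) * d + (((((C (-8) 1)) * c) * v +
    (((C (-16) 1)) * c)) * v * v)) * d * d * d)) * a + ((((((((((C 8 1)) * c) * v * v * v * v * v)
    * d + (((((C 20 1)) * c) * v + (((C 32 1)) * c)) * v * v * v * v)) * d + ((((((C (-8) 1)) * c)
    * v + (((C 76 1)) * c)) * v + (((C 40 1)) * c)) * v * v * v)) * d + (((((((C (-4) 1)) * c) * v
    + (((C (-32) 1)) * c)) * v + (((C 88 1)) * c)) * v + (((C 16 1)) * c)) * v * v)) * d + ((((((C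
    (-12) 1)) * c) * v + (((C (-40) 1)) * c)) * v + (((C 32 1)) * c)) * v * v)) * d + (((((C (-8)
    1)) * c) * v + (((C (-16) 1)) * c)) * v * v)) * d * d * d * d)) * a

theorem kG4_up : Ex.checkNonneg ((kG4 (fun n d => nC n d) .x₃ eD eV (.x₃ * eB) eE2) - (cG4 * .x₃ * .x₃ * .x₂ * .x₂ * .x₁ * .x₁ * eB * eB * eD * eD * eD)) boxId 36 ⟨0, 5, 15, 12⟩ = true := by
  decide +kernel

theorem kG4_down : Ex.checkNonneg ((cG4 * .x₃ * .x₃ * .x₂ * .x₂ * .x₁ * .x₁ * eB * eB * eD * eD * eD) - (kG4 (fun n d => nC n d) .x₃ eD eV (.x₃ * eB) eE2)) boxId 36 ⟨0, 5, 15, 12⟩ = true := by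
  decide +kernel

theorem kG4_eq (x : ℕ → ℝ) (a I X : ℝ) (hx : ∀ i < 4, 0 ≤ x i) (ha : x 3 = a) (hI : x 2 = I)
    (hX : x 1 = X) :
    kG4 rC a (1 - 2 * I - 2 * a) (2 * I * X) (a * (1 - 2 * I - a)) (-(1 - 2 * a - I / 2) * I) =
      a ^ 2 * I ^ 2 * X ^ 2 * (1 - 2 * I - a) ^ 2 * (1 - 2 * I - 2 * a) ^ 3 * ev x cG4 := by
  subst ha hI hX
  have h := eq_of_checks kG4_up kG4_down hx
  obtain ⟨h3, hd, hv, hc, he, hb⟩ := ev_args x (by simp only [pd, pb, pS]; ring)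
  have e : ev x (kG4 (fun n d => nC n d) .x₃ eD eV (.x₃ * eB) eE2) = kG4 rC (ev x .x₃) (ev x eD) (ev x eV) (ev x (.x₃ * eB)) (ev x eE2) := rfl
  rw [e, h3, hd, hv, hc, he] at h
  rw [h]
  simp only [ev_mul, ev_x₁, ev_x₂, ev_x₃, hd, hb]
  ring

/-- A coefficient. -/
def kG5 {α : Type} [Add α] [Mul α] (C : ℤ → ℕ → α) (a d v c e2 : α) : α :=
  ((((((((((((C (-16) 1)) * c) * v * v * v * v * v) * d + ((((C (-112) 1)) * c) * v * v * v * v))
    * d + ((((C (-288) 1)) * c) * v * v * v)) * d + ((((C (-320) 1)) * c) * v * v)) * d + ((((C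
    (-128) 1)) * c) * v)) * d * d * d) * a + ((((((((((C (-32) 1)) * c) * v * v * v * v * v) * d +
    (((((C 16 1)) * c) * v + (((C (-224) 1)) * c)) * v * v * v * v)) * d + (((((C 112 1)) * c) * v
    + (((C (-576) 1)) * c)) * v * v * v)) * d + (((((C 288 1)) * c) * v + (((C (-640) 1)) * c)) *
    v * v)) * d + (((((C 320 1)) * c) * v + (((C (-256) 1)) * c)) * v)) * d + ((((C 128 1)) * c) *
    v)) * d * d * d)) * a + (((((((((((C (-20) 1)) * c) * v * v * v * v * v) * d + (((((C 24 1)) *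
    c) * v + (((C (-140) 1)) * c)) * v * v * v * v)) * d + ((((((C (-4) 1)) * c) * v + (((C 168
    1)) * c)) * v + (((C (-360) 1)) * c)) * v * v * v)) * d + ((((((C (-28) 1)) * c) * v + (((C
    432 1)) * c)) * v + (((C (-400) 1)) * c)) * v * v)) * d + ((((((C (-72) 1)) * c) * v + (((C
    480 1)) * c)) * v + (((C (-160) 1)) * c)) * v)) * d + (((((C (-80) 1)) * c) * v + (((C 192 1))
    * c)) * v)) * d + ((((C (-32) 1)) * c) * v)) * d * d * d)) * a + (((((((((((C (-4) 1)) * c) *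
    v * v * v * v * v) * d + (((((C 8 1)) * c) * v + (((C (-28) 1)) * c)) * v * v * v * v)) * d +
    ((((((C (-4) 1)) * c) * v + (((C 56 1)) * c)) * v + (((C (-72) 1)) * c)) * v * v * v)) * d +
    ((((((C (-28) 1)) * c) * v + (((C 144 1)) * c)) * v + (((C (-80) 1)) * c)) * v * v)) * d +
    ((((((C (-72) 1)) * c) * v + (((C 160 1)) * c)) * v + (((C (-32) 1)) * c)) * v)) * d + (((((C
    (-80) 1)) * c) * v + (((C 64 1)) * c)) * v)) * d + ((((C (-32) 1)) * c) * v)) * d * d * d *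
    d)) * a

theorem kG5_up : Ex.checkNonneg ((kG5 (fun n d => nC n d) .x₃ eD eV (.x₃ * eB) eE2) - (cG5 * .x₃ * .x₃ * .x₂ * .x₂ * .x₂ * .x₁ * eB * eB * eD * eD * eD)) boxId 37 ⟨0, 5, 16, 13⟩ = true := by
  decide +kernel

theorem kG5_down : Ex.checkNonneg ((cG5 * .x₃ * .x₃ * .x₂ * .x₂ * .x₂ * .x₁ * eB * eB * eD * eD * eD) - (kG5 (fun n d => nC n d) .x₃ eD eV (.x₃ * eB) eE2)) boxId 37 ⟨0, 5, 16, 13⟩ = true := by
  decide +kernel

theorem kG5_eq (x : ℕ → ℝ) (a I X : ℝ) (hx : ∀ i < 4, 0 ≤ x i) (ha : x 3 = a) (hI : x 2 = I)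
    (hX : x 1 = X) :
    kG5 rC a (1 - 2 * I - 2 * a) (2 * I * X) (a * (1 - 2 * I - a)) (-(1 - 2 * a - I / 2) * I) =
      a ^ 2 * I ^ 3 * X * (1 - 2 * I - a) ^ 2 * (1 - 2 * I - 2 * a) ^ 3 * ev x cG5 := by
  subst ha hI hX
  have h := eq_of_checks kG5_up kG5_down hx
  obtain ⟨h3, hd, hv, hc, he, hb⟩ := ev_args x (by simp only [pd, pb, pS]; ring)
  have e : ev x (kG5 (fun n d => nC n d) .x₃ eD eV (.x₃ * eB) eE2) = kG5 rC (ev x .x₃) (ev x eD) (ev x eV) (ev x (.x₃ * eB)) (ev x eE2) := rfl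
  rw [e, h3, hd, hv, hc, he] at h
  rw [h]
  simp only [ev_mul, ev_x₁, ev_x₂, ev_x₃, hd, hb]
  ring

/-- A coefficient. -/
def kG6 {α : Type} [Add α] [Mul α] (C : ℤ → ℕ → α) (a d v c e2 : α) : α :=
  ((((((((((C (-16) 1))) * v * v * v * v * v) * d + ((((C (-80) 1))) * v * v * v * v)) * d + ((((C
    (-128) 1))) * v * v * v)) * d + ((((C (-64) 1))) * v * v)) * d * d * d * d) * a + (((((((((C
    (-24) 1))) * v * v * v * v * v) * d + (((((C (-8) 1))) * v + (((C (-120) 1)))) * v * v * v *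
    v)) * d + (((((C (-40) 1))) * v + (((C (-192) 1)))) * v * v * v)) * d + (((((C (-64) 1))) * v
    + (((C (-96) 1)))) * v * v)) * d + ((((C (-32) 1))) * v * v)) * d * d * d * d)) * a +
    (((((((((C (-8) 1))) * v * v * v * v * v) * d + (((((C (-8) 1))) * v + (((C (-40) 1)))) * v *
    v * v * v)) * d + (((((C (-40) 1))) * v + (((C (-64) 1)))) * v * v * v)) * d + (((((C (-64)
    1))) * v + (((C (-32) 1)))) * v * v)) * d + ((((C (-32) 1))) * v * v)) * d * d * d * d * d)) *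
    a

theorem kG6_up : Ex.checkNonneg ((kG6 (fun n d => nC n d) .x₃ eD eV (.x₃ * eB) eE2) - (cG6 * .x₃ * .x₂ * .x₂ * .x₁ * .x₁ * eB * eD * eD * eD * eD)) boxId 33 ⟨0, 5, 14, 10⟩ = true := by
  decide +kernel

theorem kG6_down : Ex.checkNonneg ((cG6 * .x₃ * .x₂ * .x₂ * .x₁ * .x₁ * eB * eD * eD * eD * eD) - (kG6 (fun n d => nC n d) .x₃ eD eV (.x₃ * eB) eE2)) boxId 33 ⟨0, 5, 14, 10⟩ = true := by
  decide +kernel

theorem kG6_eq (x : ℕ → ℝ) (a I X : ℝ) (hx : ∀ i < 4, 0 ≤ x i) (ha : x 3 = a) (hI : x 2 = I)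
    (hX : x 1 = X) :
    kG6 rC a (1 - 2 * I - 2 * a) (2 * I * X) (a * (1 - 2 * I - a)) (-(1 - 2 * a - I / 2) * I) =
      a * I ^ 2 * X ^ 2 * (1 - 2 * I - a) * (1 - 2 * I - 2 * a) ^ 4 * ev x cG6 := by
  subst ha hI hX
  have h := eq_of_checks kG6_up kG6_down hx
  obtain ⟨h3, hd, hv, hc, he, hb⟩ := ev_args x (by simp only [pd, pb, pS]; ring)
  have e : ev x (kG6 (fun n d => nC n d) .x₃ eD eV (.x₃ * eB) eE2) = kG6 rC (ev x .x₃) (ev x eD) (ev x eV) (ev x (.x₃ * eB)) (ev x eE2) := rfl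
  rw [e, h3, hd, hv, hc, he] at h
  rw [h]
  simp only [ev_mul, ev_x₁, ev_x₂, ev_x₃, hd, hb]
  ring

/-- A coefficient. -/
def kG7 {α : Type} [Add α] [Mul α] (C : ℤ → ℕ → α) (a d v c e2 : α) : α :=
  ((((((((((((C 8 1)) * c * c) * v * v * v * v) * d + ((((C 8 1)) * c * c) * v * v * v)) * d * d)
    * a + (((((((((C 32 1)) * c * c) * v * v * v * v) * d + (((((C 4 1)) * c * c) * v + (((C 40
    1)) * c * c)) * v * v * v)) * d + (((((C (-4) 1)) * c * c) * v + (((C 8 1)) * c * c)) * v *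
    v)) * d + ((((C (-16) 1)) * c * c) * v * v)) * d + ((((C (-8) 1)) * c * c) * v)))) * a +
    ((((((((((C 50 1)) * c * c) * v * v * v * v) * d + (((((C 12 1)) * c * c) * v + (((C 74 1)) *
    c * c)) * v * v * v)) * d + (((((((C (-4) 1) * e2 + (C 2 1))) * c * c) * v + (((C (-12) 1)) *
    c * c)) * v + (((C 24 1)) * c * c)) * v * v)) * d + ((((((C 16 1)) * c + (((C (-20) 1) * e2 +
    (C (-6) 1)))) * c * c) * v + (((C (-48) 1)) * c * c)) * v * v)) * d + ((((((C 32 1)) * c +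
    (((C (-32) 1) * e2 + (C (-16) 1)))) * c * c) * v + (((C (-24) 1)) * c * c)) * v)) * d + (((((C
    16 1)) * c + (((C (-16) 1) * e2 + (C (-8) 1)))) * c * c) * v)))) * a + (((((((((((C 38 1)) * c
    * c) * v * v * v * v) * d + (((((C 13 1)) * c * c) * v + (((C 64 1)) * c * c)) * v * v * v)) *
    d + (((((((C (-10) 1) * e2 + (C 4 1))) * c * c) * v + (((C (-13) 1)) * c * c)) * v + (((C 26
    1)) * c * c)) * v * v)) * d + (((((((C (-2) 1) * e2 + (C 1 1))) * c * c) * v + ((((C 40 1)) *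
    c + (((C (-50) 1) * e2 + (C (-18) 1)))) * c * c)) * v + (((C (-52) 1)) * c * c)) * v * v)) * d
    + (((((((C 8 1)) * c + (((C (-10) 1) * e2 + (C (-1) 1)))) * c * c) * v + ((((C 80 1)) * c +
    (((C (-80) 1) * e2 + (C (-42) 1)))) * c * c)) * v + (((C (-26) 1)) * c * c)) * v)) * d +
    ((((((C 16 1)) * c + (((C (-16) 1) * e2 + (C (-4) 1)))) * c * c) * v + ((((C 40 1)) * c + (((C
    (-40) 1) * e2 + (C (-20) 1)))) * c * c)) * v)) * d + (((((C 8 1)) * c + (((C (-8) 1) * e2 + (C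
    (-2) 1)))) * c * c) * v)))) * a + ((((((((((((C 14 1)) * c * c) * v * v * v * v) * d + (((((C
    6 1)) * c * c) * v + (((C 26 1)) * c * c)) * v * v * v)) * d + (((((((C (-8) 1) * e2 + (C 2
    1))) * c * c) * v + (((C (-6) 1)) * c * c)) * v + (((C 12 1)) * c * c)) * v * v)) * d +
    (((((((C (-4) 1) * e2 + (C 2 1))) * c * c) * v + ((((C 36 1)) * c + (((C (-40) 1) * e2 + (C
    (-18) 1)))) * c * c)) * v + (((C (-24) 1)) * c * c)) * v * v)) * d + (((((((C 20 1)) * c +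
    (((C (-20) 1) * e2 + (C (-2) 1)))) * c * c) * v + ((((C 72 1)) * c + (((C (-64) 1) * e2 + (C
    (-36) 1)))) * c * c)) * v + (((C (-12) 1)) * c * c)) * v)) * d + ((((((C 48 1)) * c + (((C
    (-32) 1) * e2 + (C (-8) 1)))) * c * c) * v + ((((C 36 1)) * c + (((C (-32) 1) * e2 + (C (-16)
    1)))) * c * c)) * v)) * d + (((((C 36 1)) * c + (((C (-16) 1) * e2 + (C (-4) 1)))) * c * c) *
    v)) * d + ((((C 8 1)) * c * c * c))))) * a + (((((((((((((C 2 1)) * c * c) * v * v * v * v) *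
    d + (((((C 1 1)) * c * c) * v + (((C 4 1)) * c * c)) * v * v * v)) * d + ((((((C (-2) 1) * e2)
    * c * c) * v + (((C (-1) 1)) * c * c)) * v + (((C 2 1)) * c * c)) * v * v)) * d + (((((((C
    (-2) 1) * e2 + (C 1 1))) * c * c) * v + ((((C 14 1)) * c + (((C (-10) 1) * e2 + (C (-6) 1))))
    * c * c)) * v + (((C (-4) 1)) * c * c)) * v * v)) * d + (((((((C 16 1)) * c + (((C (-10) 1) *
    e2 + (C (-1) 1)))) * c * c) * v + ((((C 28 1)) * c + (((C (-16) 1) * e2 + (C (-10) 1)))) * c *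
    c)) * v + (((C (-2) 1)) * c * c)) * v)) * d + ((((((C 2 1)) * c * c * c) * v + ((((C 44 1)) *
    c + (((C (-16) 1) * e2 + (C (-4) 1)))) * c * c)) * v + ((((C 14 1)) * c + (((C (-8) 1) * e2 +
    (C (-4) 1)))) * c * c)) * v)) * d + (((((C 8 1)) * c * c * c) * v + ((((C 40 1)) * c + (((C
    (-8) 1) * e2 + (C (-2) 1)))) * c * c)) * v)) * d + (((((C 10 1)) * c * c * c) * v + (((C 12
    1)) * c * c * c)))) * d + ((((C 4 1)) * c * c * c))))) * a + ((((((((((C 2 1)) * c * c * c) *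
    v * v * v) * d + (((((C 4 1)) * c * c * c) * v + (((C 4 1)) * c * c * c)) * v * v)) * d +
    ((((((C 2 1)) * c * c * c) * v + (((C 12 1)) * c * c * c)) * v + (((C 2 1)) * c * c * c)) *
    v)) * d + (((((C 8 1)) * c * c * c) * v + (((C 12 1)) * c * c * c)) * v)) * d + (((((C 10 1))
    * c * c * c) * v + (((C 4 1)) * c * c * c)))) * d + ((((C 4 1)) * c * c * c))) * d))

theorem kG7_up : Ex.checkNonneg ((kG7 (fun n d => nC n d) .x₃ eD eV (.x₃ * eB) eE2) - (cG7 * .x₃ * .x₃ * .x₃ * eB * eB * eB * eB)) boxId 34 ⟨0, 4, 14, 13⟩ = true := by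
  decide +kernel

theorem kG7_down : Ex.checkNonneg ((cG7 * .x₃ * .x₃ * .x₃ * eB * eB * eB * eB) - (kG7 (fun n d => nC n d) .x₃ eD eV (.x₃ * eB) eE2)) boxId 34 ⟨0, 4, 14, 13⟩ = true := by
  decide +kernel

theorem kG7_eq (x : ℕ → ℝ) (a I X : ℝ) (hx : ∀ i < 4, 0 ≤ x i) (ha : x 3 = a) (hI : x 2 = I)
    (hX : x 1 = X) :
    kG7 rC a (1 - 2 * I - 2 * a) (2 * I * X) (a * (1 - 2 * I - a)) (-(1 - 2 * a - I / 2) * I) =
      a ^ 3 * (1 - 2 * I - a) ^ 4 * ev x cG7 := by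
  subst ha hI hX
  have h := eq_of_checks kG7_up kG7_down hx
  obtain ⟨h3, hd, hv, hc, he, hb⟩ := ev_args x (by simp only [pd, pb, pS]; ring)
  have e : ev x (kG7 (fun n d => nC n d) .x₃ eD eV (.x₃ * eB) eE2) = kG7 rC (ev x .x₃) (ev x eD) (ev x eV) (ev x (.x₃ * eB)) (ev x eE2) := rfl
  rw [e, h3, hd, hv, hc, he] at h
  rw [h]
  simp only [ev_mul, ev_x₁, ev_x₂, ev_x₃, hd, hb]
  ring

/-- A coefficient. -/
def kG8 {α : Type} [Add α] [Mul α] (C : ℤ → ℕ → α) (a d v c e2 : α) : α :=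
  ((((((((((((C (-4) 1)) * c * c) * v * v * v * v) * d + ((((C (-20) 1)) * c * c) * v * v * v)) *
    d + ((((C (-32) 1)) * c * c) * v * v)) * d + ((((C (-16) 1)) * c * c) * v)) * d * d) * a +
    ((((((((C (-12) 1)) * c * c) * v * v * v * v) * d + ((((C (-60) 1)) * c * c) * v * v * v)) * d
    + ((((C (-96) 1)) * c * c) * v * v)) * d + ((((C (-48) 1)) * c * c) * v)) * d * d * d)) * a +
    ((((((((((C (-13) 1)) * c * c) * v * v * v * v) * d + ((((C (-65) 1)) * c * c) * v * v * v)) *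
    d + (((((C 1 1)) * c * c) * v * v + (((C (-104) 1)) * c * c)) * v * v)) * d + (((((C 5 1)) * c
    * c) * v * v + (((C (-52) 1)) * c * c)) * v)) * d + ((((C 8 1)) * c * c) * v * v)) * d + ((((C
    4 1)) * c * c) * v)) * d * d)) * a + ((((((((((C (-6) 1)) * c * c) * v * v * v * v) * d +
    ((((C (-30) 1)) * c * c) * v * v * v)) * d + (((((C 2 1)) * c * c) * v * v + (((C (-48) 1)) *
    c * c)) * v * v)) * d + (((((C 10 1)) * c * c) * v * v + (((C (-24) 1)) * c * c)) * v)) * d +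
    ((((C 16 1)) * c * c) * v * v)) * d + ((((C 8 1)) * c * c) * v)) * d * d * d)) * a +
    ((((((((((C (-1) 1)) * c * c) * v * v * v * v) * d + ((((C (-5) 1)) * c * c) * v * v * v)) * d
    + (((((C 1 1)) * c * c) * v * v + (((C (-8) 1)) * c * c)) * v * v)) * d + (((((C 5 1)) * c *
    c) * v * v + (((C (-4) 1)) * c * c)) * v)) * d + ((((C 8 1)) * c * c) * v * v)) * d + ((((C 4
    1)) * c * c) * v)) * d * d * d * d)) * a

theorem kG8_up : Ex.checkNonneg ((kG8 (fun n d => nC n d) .x₃ eD eV (.x₃ * eB) eE2) - (cG8 * .x₃ * .x₃ * .x₃ * .x₂ * .x₂ * .x₁ * eB * eB * eB * eB * eD * eD)) boxId 34 ⟨0, 4, 15, 14⟩ = true := by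
  decide +kernel

theorem kG8_down : Ex.checkNonneg ((cG8 * .x₃ * .x₃ * .x₃ * .x₂ * .x₂ * .x₁ * eB * eB * eB * eB * eD * eD) - (kG8 (fun n d => nC n d) .x₃ eD eV (.x₃ * eB) eE2)) boxId 34 ⟨0, 4, 15, 14⟩ = true := by
  decide +kernel

theorem kG8_eq (x : ℕ → ℝ) (a I X : ℝ) (hx : ∀ i < 4, 0 ≤ x i) (ha : x 3 = a) (hI : x 2 = I)
    (hX : x 1 = X) :
    kG8 rC a (1 - 2 * I - 2 * a) (2 * I * X) (a * (1 - 2 * I - a)) (-(1 - 2 * a - I / 2) * I) =
      a ^ 3 * I ^ 2 * X * (1 - 2 * I - a) ^ 4 * (1 - 2 * I - 2 * a) ^ 2 * ev x cG8 := by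
  subst ha hI hX
  have h := eq_of_checks kG8_up kG8_down hx
  obtain ⟨h3, hd, hv, hc, he, hb⟩ := ev_args x (by simp only [pd, pb, pS]; ring)
  have e : ev x (kG8 (fun n d => nC n d) .x₃ eD eV (.x₃ * eB) eE2) = kG8 rC (ev x .x₃) (ev x eD) (ev x eV) (ev x (.x₃ * eB)) (ev x eE2) := rfl
  rw [e, h3, hd, hv, hc, he] at h
  rw [h]
  simp only [ev_mul, ev_x₁, ev_x₂, ev_x₃, hd, hb]
  ring

/-- A coefficient. -/
def kG9 {α : Type} [Add α] [Mul α] (C : ℤ → ℕ → α) (a d v c e2 : α) : α :=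
  ((((((((((C (-8) 1)) * c) * v * v * v * v) * d + ((((C (-24) 1)) * c) * v * v * v)) * d + ((((C
    (-16) 1)) * c) * v * v)) * d * d * d) * a + ((((((((C (-20) 1)) * c) * v * v * v * v) * d +
    (((((C 4 1)) * c) * v + (((C (-60) 1)) * c)) * v * v * v)) * d + (((((C 12 1)) * c) * v + (((C
    (-40) 1)) * c)) * v * v)) * d + ((((C 8 1)) * c) * v * v)) * d * d * d)) * a + ((((((((C (-16)
    1)) * c) * v * v * v * v) * d + (((((C 8 1)) * c) * v + (((C (-48) 1)) * c)) * v * v * v)) * d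
    + (((((C 24 1)) * c) * v + (((C (-32) 1)) * c)) * v * v)) * d + ((((C 16 1)) * c) * v * v)) *
    d * d * d * d)) * a + ((((((((C (-4) 1)) * c) * v * v * v * v) * d + (((((C 4 1)) * c) * v +
    (((C (-12) 1)) * c)) * v * v * v)) * d + (((((C 12 1)) * c) * v + (((C (-8) 1)) * c)) * v *
    v)) * d + ((((C 8 1)) * c) * v * v)) * d * d * d * d * d)) * a

theorem kG9_up : Ex.checkNonneg ((kG9 (fun n d => nC n d) .x₃ eD eV (.x₃ * eB) eE2) - (cG9 * .x₃ * .x₃ * .x₂ * .x₂ * .x₂ * .x₁ * .x₁ * eB * eB * eB * eD * eD * eD)) boxId 31 ⟨0, 4, 13, 11⟩ = true := by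
  decide +kernel

theorem kG9_down : Ex.checkNonneg ((cG9 * .x₃ * .x₃ * .x₂ * .x₂ * .x₂ * .x₁ * .x₁ * eB * eB * eB * eD * eD * eD) - (kG9 (fun n d => nC n d) .x₃ eD eV (.x₃ * eB) eE2)) boxId 31 ⟨0, 4, 13, 11⟩ = true := by
  decide +kernel

theorem kG9_eq (x : ℕ → ℝ) (a I X : ℝ) (hx : ∀ i < 4, 0 ≤ x i) (ha : x 3 = a) (hI : x 2 = I)
    (hX : x 1 = X) :
    kG9 rC a (1 - 2 * I - 2 * a) (2 * I * X) (a * (1 - 2 * I - a)) (-(1 - 2 * a - I / 2) * I) =
      a ^ 2 * I ^ 3 * X ^ 2 * (1 - 2 * I - a) ^ 3 * (1 - 2 * I - 2 * a) ^ 3 * ev x cG9 := by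
  subst ha hI hX
  have h := eq_of_checks kG9_up kG9_down hx
  obtain ⟨h3, hd, hv, hc, he, hb⟩ := ev_args x (by simp only [pd, pb, pS]; ring)
  have e : ev x (kG9 (fun n d => nC n d) .x₃ eD eV (.x₃ * eB) eE2) = kG9 rC (ev x .x₃) (ev x eD) (ev x eV) (ev x (.x₃ * eB)) (ev x eE2) := rfl
  rw [e, h3, hd, hv, hc, he] at h
  rw [h]
  simp only [ev_mul, ev_x₁, ev_x₂, ev_x₃, hd, hb]
  ring

/-- A coefficient. -/
def kG10 {α : Type} [Add α] [Mul α] (C : ℤ → ℕ → α) (a d v c e2 : α) : α :=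
  (((((((((((C (-1) 1)) * c * c) * v * v * v) * d + ((((C (-1) 1)) * c * c) * v * v)) * d * d) * a
    + (((((((C (-7) 2)) * c * c) * v * v * v) * d + (((((C (-1) 2)) * c * c) * v + (((C (-7) 2)) *
    c * c)) * v * v)) * d + ((((C (-1) 2)) * c * c) * v * v)) * d * d)) * a + ((((((((((C (-9) 2))
    * c * c) * v * v * v) * d + (((((C (-3) 2)) * c * c) * v + (((C (-9) 2)) * c * c)) * v * v)) *
    d + ((((C (-3) 2)) * c * c) * v * v)) * d + ((((C (-1) 1)) * c * c * c) * v * v)) * d + ((((C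
    (-2) 1)) * c * c * c) * v)) * d + ((((C (-1) 1)) * c * c * c))))) * a + (((((((((((C (-5) 2))
    * c * c) * v * v * v) * d + (((((C (-3) 2)) * c * c) * v + (((C (-5) 2)) * c * c)) * v * v)) *
    d + ((((C (-3) 2)) * c * c) * v * v)) * d + ((((C (-5) 2)) * c * c * c) * v * v)) * d + (((((C
    (-1) 2)) * c * c * c) * v + (((C (-5) 1)) * c * c * c)) * v)) * d + (((((C (-1) 1)) * c * c *
    c) * v + (((C (-5) 2)) * c * c * c)))) * d + ((((C (-1) 2)) * c * c * c))))) * a +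
    (((((((((((C (-1) 2)) * c * c) * v * v * v) * d + (((((C (-1) 2)) * c * c) * v + (((C (-1) 2))
    * c * c)) * v * v)) * d + ((((C (-1) 2)) * c * c) * v * v)) * d + ((((C (-2) 1)) * c * c * c)
    * v * v)) * d + (((((C (-1) 1)) * c * c * c) * v + (((C (-4) 1)) * c * c * c)) * v)) * d +
    (((((C (-2) 1)) * c * c * c) * v + (((C (-2) 1)) * c * c * c)))) * d + ((((C (-1) 1)) * c * c
    * c))) * d)) * a + ((((((((C (-1) 2)) * c * c * c) * v * v) * d + (((((C (-1) 2)) * c * c * c)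
    * v + (((C (-1) 1)) * c * c * c)) * v)) * d + (((((C (-1) 1)) * c * c * c) * v + (((C (-1) 2))
    * c * c * c)))) * d + ((((C (-1) 2)) * c * c * c))) * d * d))

theorem kG10_up : Ex.checkNonneg ((kG10 (fun n d => nC n d) .x₃ eD eV (.x₃ * eB) eE2) - (cG10 * .x₃ * .x₃ * .x₃ * eB * eB * eB * eB * eB)) boxId 28 ⟨0, 3, 12, 12⟩ = true := by
  decide +kernel

theorem kG10_down : Ex.checkNonneg ((cG10 * .x₃ * .x₃ * .x₃ * eB * eB * eB * eB * eB) - (kG10 (fun n d => nC n d) .x₃ eD eV (.x₃ * eB) eE2)) boxId 28 ⟨0, 3, 12, 12⟩ = true := by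
  decide +kernel

theorem kG10_eq (x : ℕ → ℝ) (a I X : ℝ) (hx : ∀ i < 4, 0 ≤ x i) (ha : x 3 = a) (hI : x 2 = I)
    (hX : x 1 = X) :
    kG10 rC a (1 - 2 * I - 2 * a) (2 * I * X) (a * (1 - 2 * I - a)) (-(1 - 2 * a - I / 2) * I) =
      a ^ 3 * (1 - 2 * I - a) ^ 5 * ev x cG10 := by
  subst ha hI hX
  have h := eq_of_checks kG10_up kG10_down hx
  obtain ⟨h3, hd, hv, hc, he, hb⟩ := ev_args x (by simp only [pd, pb, pS]; ring)
  have e : ev x (kG10 (fun n d => nC n d) .x₃ eD eV (.x₃ * eB) eE2) = kG10 rC (ev x .x₃) (ev x eD) (ev x eV) (ev x (.x₃ * eB)) (ev x eE2) := rfl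
  rw [e, h3, hd, hv, hc, he] at h
  rw [h]
  simp only [ev_mul, ev_x₁, ev_x₂, ev_x₃, hd, hb]
  ring

theorem genG (a d v g W W1 R c e2 E K G G1 D2 : ℝ) :
    ClosedGen.TGGS a d v g W W1 R ⟨c, e2, E, K, G, G1, D2⟩ =
      kG0 rC a d v c e2 +
      kG1 rC a d v c e2 * D2 +
      kG2 rC a d v c e2 * D2 ^ 2 +
      kG3 rC a d v c e2 * G1 +
      kG4 rC a d v c e2 * G +
      kG5 rC a d v c e2 * G * D2 +
      kG6 rC a d v c e2 * G ^ 2 +
      kG7 rC a d v c e2 * (g * W) +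
      kG8 rC a d v c e2 * (g * W) * D2 +
      kG9 rC a d v c e2 * (g * W) * G +
      kG10 rC a d v c e2 * (g * W) ^ 2 := by
  simp only [rC, kG0, kG1, kG2, kG3, kG4, kG5, kG6, kG7, kG8, kG9, kG10, ClosedGen.TGGS,
    ClosedGen.hGS, ClosedGen.hG_kc, ClosedGen.hG_g, ClosedGen.hG_c, Closed.j1, ClosedGen.gGS,
    ClosedGen.gG_v, ClosedGen.gG_c, ClosedGen.gG_1, ClosedGen.LGGS, ClosedGen.GG_kg,
    ClosedGen.GG_g0, ClosedGen.GG_g, Closed.LGGv, Closed.LGGc]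
  push_cast
  ring

theorem expG (x : ℕ → ℝ) (a I X g W W1 R E K G G1 D2 : ℝ) (hx : ∀ i < 4, 0 ≤ x i)
    (ha : x 3 = a) (hI : x 2 = I) (hX : x 1 = X) :
    ClosedGen.TGGS a (1 - 2 * I - 2 * a) (2 * I * X) g W W1 R
        ⟨a * (1 - 2 * I - a), -(1 - 2 * a - I / 2) * I, E, K, G, G1, D2⟩ =
      a ^ 3 * (1 - 2 * I - a) ^ 3 * ev x cG0 +
      a ^ 3 * I ^ 3 * X * (1 - 2 * I - a) ^ 3 * (1 - 2 * I - 2 * a) ^ 2 * ev x cG1 * D2 +
      a ^ 3 * I ^ 2 * (1 - 2 * I - a) ^ 3 * (1 - 2 * I - 2 * a) ^ 2 * ev x cG2 * D2 ^ 2 +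
      a ^ 2 * I ^ 2 * X ^ 2 * (1 - 2 * I - a) ^ 2 * (1 - 2 * I - 2 * a) ^ 2 * ev x cG3 * G1 +
      a ^ 2 * I ^ 2 * X ^ 2 * (1 - 2 * I - a) ^ 2 * (1 - 2 * I - 2 * a) ^ 3 * ev x cG4 * G +
      a ^ 2 * I ^ 3 * X * (1 - 2 * I - a) ^ 2 * (1 - 2 * I - 2 * a) ^ 3 * ev x cG5 * G * D2 +
      a * I ^ 2 * X ^ 2 * (1 - 2 * I - a) * (1 - 2 * I - 2 * a) ^ 4 * ev x cG6 * G ^ 2 +
      a ^ 3 * (1 - 2 * I - a) ^ 4 * ev x cG7 * (g * W) +
      a ^ 3 * I ^ 2 * X * (1 - 2 * I - a) ^ 4 * (1 - 2 * I - 2 * a) ^ 2 * ev x cG8 * (g * W) * D2 +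
      a ^ 2 * I ^ 3 * X ^ 2 * (1 - 2 * I - a) ^ 3 * (1 - 2 * I - 2 * a) ^ 3 * ev x cG9 * (g * W) * G +
      a ^ 3 * (1 - 2 * I - a) ^ 5 * ev x cG10 * (g * W) ^ 2 := by
  rw [genG, kG0_eq x a I X hx ha hI hX, kG1_eq x a I X hx ha hI hX, kG2_eq x a I X hx ha hI hX, kG3_eq x a I X hx ha hI hX, kG4_eq x a I X hx ha hI hX, kG5_eq x a I X hx ha hI hX, kG6_eq x a I X hx ha hI hX, kG7_eq x a I X hx ha hI hX, kG8_eq x a I X hx ha hI hX, kG9_eq x a I X hx ha hI hX, kG10_eq x a I X hx ha hI hX]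

end Vale.Agent.P100.Calib.Closed.All.SgnNeg
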