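import Vale.Agent.P100.Calib.SlabSignsAllNegReal
import Vale.Agent.P100.Calib.SlabGenClosed

/-!
# `LLGS` below the crossing
-/

set_option linter.unusedSimpArgs false
set_option linter.unusedTactic false
set_option linter.unusedVariables false

namespace Vale.Agent.P100.Calib.Closed.All.SgnNeg

open BoxPos

local instance expLAdd : Add Ex := ⟨Ex.add⟩
local instance expLSub : Sub Ex := ⟨Ex.sub⟩
local instance expLMul : Mul Ex := ⟨Ex.mul⟩

theorem expL (x : ℕ → ℝ) (a I X g W W1 R E K G G1 D2 : ℝ) (ha : x 3 = a) (hI : x 2 = I)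
    (hX : x 1 = X) :
    ClosedGen.LLGS a (1 - 2 * I - 2 * a) (2 * I * X) g W W1 R
        ⟨a * (1 - 2 * I - a), -(1 - 2 * a - I / 2) * I, E, K, G, G1, D2⟩ =
      a * I * X * (1 - 2 * I - a) ^ 2 * ev x cL0 +
      a * I ^ 2 * X * ev x cL1 * R * K +
      a * I * (1 - 2 * I - a) * ev x cL2 * E +
      a * I ^ 2 * ev x cL3 * R * E +
      a * I ^ 2 * (1 - 2 * I - 2 * a) ^ 2 * ev x cL4 * R * E * D2 +
      a * I * X * (1 - 2 * I - a) ^ 2 * (1 - 2 * I - 2 * a) * ev x cL5 * (W * R) +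
      I * X * (1 - 2 * I - a) * (1 - 2 * I - 2 * a) ^ 3 * ev x cL6 * (W * R) * G := by
  subst ha hI hX
  simp only [cL0, cL1, cL2, cL3, cL4, cL5, cL6, ClosedGen.LLGS, ClosedGen.LG_kw, ClosedGen.LG_g,
    Closed.LLGw, Closed.LLGv, Closed.LLGc, ev_add, ev_sub, ev_mul, ev_nC, ev_x₁, ev_x₂, ev_x₃]
  push_cast
  ring

end Vale.Agent.P100.Calib.Closed.All.SgnNeg
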