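import Vale.Agent.P100.Calib.SlabSignsAllNegEq
import Vale.Agent.P100.Calib.SlabGenClosed

/-!
# `TMGS` expanded below the crossing
-/

set_option linter.unusedSimpArgs false
set_option linter.unusedVariables false

namespace Vale.Agent.P100.Calib.Closed.All.SgnNeg

open BoxPos

local instance expNAdd : Add Ex := ⟨Ex.add⟩
local instance expNSub : Sub Ex := ⟨Ex.sub⟩
local instance expNMul : Mul Ex := ⟨Ex.mul⟩

/-- A coefficient. -/
def kN0 {α : Type} [Add α] [Mul α] (C : ℤ → ℕ → α) (a d v c e2 : α) : α :=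
  ((((((((((((((C (-8) 1) * e2 * e2)) * v * v * v * v * v * v) * d + ((((((C 64 1) * e2 + (C (-8)
    1))) * c + ((C (-64) 1) * e2 * e2))) * v * v * v * v * v)) * d + ((((((C (-128) 1)) * c + (((C
    320 1) * e2 + (C (-8) 1)))) * c + ((C (-192) 1) * e2 * e2))) * v * v * v * v)) * d + ((((((C
    (-256) 1)) * c + ((C 512 1) * e2)) * c + ((C (-256) 1) * e2 * e2))) * v * v * v)) * d +
    ((((((C (-128) 1)) * c + ((C 256 1) * e2)) * c + ((C (-128) 1) * e2 * e2))) * v * v))) * a +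
    ((((((((((C (-24) 1) * e2 * e2)) * v * v * v * v * v * v) * d + (((((C (-16) 1) * e2) * c) * v
    + (((((C 192 1) * e2 + (C 8 1))) * c + ((C (-192) 1) * e2 * e2)))) * v * v * v * v * v)) * d +
    ((((((C 64 1)) * c + (((C 32 1) * e2 + (C (-8) 1)))) * c) * v + (((((C (-384) 1)) * c + (((C
    960 1) * e2 + (C 72 1)))) * c + ((C (-576) 1) * e2 * e2)))) * v * v * v * v)) * d + ((((((C
    (-320) 1)) * c + (((C 416 1) * e2 + (C (-8) 1)))) * c) * v + (((((C (-768) 1)) * c + (((C 1536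
    1) * e2 + (C 64 1)))) * c + ((C (-768) 1) * e2 * e2)))) * v * v * v)) * d + ((((((C (-768) 1))
    * c + ((C 768 1) * e2)) * c) * v + (((((C (-384) 1)) * c + ((C 768 1) * e2)) * c + ((C (-384)
    1) * e2 * e2)))) * v * v)) * d + (((((C (-384) 1)) * c + ((C 384 1) * e2)) * c) * v * v)))) *
    a + (((((((((((C (-24) 1) * e2 * e2)) * v * v * v * v * v * v) * d + (((((C (-32) 1) * e2) *
    c) * v + (((((C 208 1) * e2 + (C 22 1))) * c + ((C (-192) 1) * e2 * e2)))) * v * v * v * v *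
    v)) * d + ((((((C (-8) 1)) * c * c) * v + ((((C 128 1)) * c + (((C 80 1) * e2 + (C (-4) 1))))
    * c)) * v + (((((C (-448) 1)) * c + (((C 1040 1) * e2 + (C 54 1)))) * c + ((C (-576) 1) * e2 *
    e2)))) * v * v * v * v)) * d + (((((((C (-96) 1)) * c + (((C (-16) 1) * e2 + (C (-2) 1)))) *
    c) * v + ((((C (-704) 1)) * c + (((C 800 1) * e2 + (C 28 1)))) * c)) * v + (((((C (-896) 1)) *
    c + (((C 1664 1) * e2 + (C (-96) 1)))) * c + ((C (-768) 1) * e2 * e2)))) * v * v * v)) * d +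
    (((((((C (-64) 1)) * c + (((C (-80) 1) * e2 + (C (-2) 1)))) * c) * v + ((((C (-1216) 1)) * c +
    (((C 1120 1) * e2 + (C 32 1)))) * c)) * v + (((((C (-448) 1)) * c + (((C 832 1) * e2 + (C
    (-128) 1)))) * c + ((C (-384) 1) * e2 * e2)))) * v * v)) * d + (((((C 64 1)) * c + ((C (-128)
    1) * e2)) * c) * v * v * v)) * d + ((((((C 32 1)) * c + ((C (-64) 1) * e2)) * c) * v + ((((C
    384 1)) * c + ((C (-384) 1) * e2)) * c)) * v)))) * a + ((((((((((((C (-8) 1) * e2 * e2)) * v *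
    v * v * v * v * v) * d + (((((C (-16) 1) * e2) * c) * v + (((((C 96 1) * e2 + (C (-12) 1))) *
    c + ((C (-64) 1) * e2 * e2)))) * v * v * v * v * v)) * d + ((((((C (-8) 1)) * c * c) * v +
    ((((C 80 1)) * c + (((C 64 1) * e2 + (C 16 1)))) * c)) * v + (((((C (-256) 1)) * c + (((C 480
    1) * e2 + (C (-140) 1)))) * c + ((C (-192) 1) * e2 * e2)))) * v * v * v * v)) * d + (((((((C
    (-112) 1)) * c + (((C (-32) 1) * e2 + (C (-4) 1)))) * c) * v + ((((C (-528) 1)) * c + (((C 352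
    1) * e2 + (C 80 1)))) * c)) * v + (((((C (-512) 1)) * c + (((C 768 1) * e2 + (C (-384) 1)))) *
    c + ((C (-256) 1) * e2 * e2)))) * v * v * v)) * d + (((((((C 16 1)) * c * c) * v + ((((C (-32)
    1)) * c + (((C (-160) 1) * e2 + (C (-4) 1)))) * c)) * v + ((((C (-320) 1)) * c + (((C (-64) 1)
    * e2 + (C 64 1)))) * c)) * v + (((((C (-256) 1)) * c + (((C 384 1) * e2 + (C (-256) 1)))) * c
    + ((C (-128) 1) * e2 * e2)))) * v * v)) * d + ((((((C 112 1)) * c * c) * v + ((((C (-128) 1))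
    * c + ((C (-256) 1) * e2)) * c)) * v + ((((C 1056 1)) * c + ((C (-1152) 1) * e2)) * c)) * v *
    v)) * d + ((((((C 192 1)) * c * c) * v + ((((C (-416) 1)) * c + ((C (-128) 1) * e2)) * c)) * v
    + ((((C 768 1)) * c + ((C (-768) 1) * e2)) * c)) * v)) * d + (((((C 96 1)) * c * c) * v + (((C
    (-192) 1)) * c * c)) * v)))) * a + (((((((((((((C 16 1) * e2 + (C (-18) 1))) * c) * v * v * v
    * v * v) * d + ((((((C 16 1)) * c + (((C 16 1) * e2 + (C 12 1)))) * c) * v + ((((C (-72) 1)) *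
    c + (((C 80 1) * e2 + (C (-114) 1)))) * c)) * v * v * v * v)) * d + (((((((C (-16) 1)) * c +
    (((C (-16) 1) * e2 + (C (-2) 1)))) * c) * v + ((((C (-160) 1)) * c + (((C (-32) 1) * e2 + (C
    44 1)))) * c)) * v + ((((C (-144) 1)) * c + (((C 128 1) * e2 + (C (-224) 1)))) * c)) * v * v *
    v)) * d + (((((((C 16 1)) * c * c) * v + ((((C 8 1)) * c + (((C (-80) 1) * e2 + (C (-2) 1))))
    * c)) * v + ((((C 208 1)) * c + (((C (-416) 1) * e2 + (C 32 1)))) * c)) * v + ((((C (-72) 1))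
    * c + (((C 64 1) * e2 + (C (-128) 1)))) * c)) * v * v)) * d + ((((((C 160 1)) * c * c) * v +
    ((((C (-416) 1)) * c + ((C (-128) 1) * e2)) * c)) * v + ((((C 864 1)) * c + ((C (-768) 1) *
    e2)) * c)) * v * v)) * d + (((((((C (-8) 1)) * c * c) * v + (((C 336 1)) * c * c)) * v + ((((C
    (-816) 1)) * c + ((C (-64) 1) * e2)) * c)) * v + ((((C 480 1)) * c + ((C (-384) 1) * e2)) *
    c)) * v)) * d + ((((((C (-16) 1)) * c * c) * v + (((C 224 1)) * c * c)) * v + (((C (-384) 1))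
    * c * c)) * v)) * d + ((((((C (-8) 1)) * c * c) * v + (((C 32 1)) * c * c)) * v + (((C (-32)
    1)) * c * c)))))) * a + (((((((((((C (-8) 1)) * c * c) * v * v * v * v) * d + (((((C (-16) 1))
    * c * c) * v + (((C (-16) 1)) * c * c)) * v * v * v)) * d + ((((((C (-24) 1)) * c * c) * v +
    (((C 80 1)) * c * c)) * v + (((C (-8) 1)) * c * c)) * v * v)) * d + ((((((C 48 1)) * c * c) *
    v + (((C (-224) 1)) * c * c)) * v + (((C 192 1)) * c * c)) * v * v)) * d + (((((((C (-8) 1)) *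
    c * c) * v + (((C 144 1)) * c * c)) * v + (((C (-368) 1)) * c * c)) * v + (((C 96 1)) * c *
    c)) * v)) * d + ((((((C (-16) 1)) * c * c) * v + (((C 128 1)) * c * c)) * v + (((C (-192) 1))
    * c * c)) * v)) * d + ((((((C (-8) 1)) * c * c) * v + (((C 32 1)) * c * c)) * v + (((C (-32)
    1)) * c * c)))) * d)) * a

theorem kN0_up : Ex.checkNonneg ((kN0 (fun n d => nC n d) .x₃ eD eV (.x₃ * eB) eE2) - (cN0 * .x₃ * .x₃ * .x₃ * eB * eB * eB)) boxId 37 ⟨0, 6, 17, 12⟩ = true := by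
  decide +kernel

theorem kN0_down : Ex.checkNonneg ((cN0 * .x₃ * .x₃ * .x₃ * eB * eB * eB) - (kN0 (fun n d => nC n d) .x₃ eD eV (.x₃ * eB) eE2)) boxId 37 ⟨0, 6, 17, 12⟩ = true := by
  decide +kernel

theorem kN0_eq (x : ℕ → ℝ) (a I X : ℝ) (hx : ∀ i < 4, 0 ≤ x i) (ha : x 3 = a) (hI : x 2 = I)
    (hX : x 1 = X) :
    kN0 rC a (1 - 2 * I - 2 * a) (2 * I * X) (a * (1 - 2 * I - a)) (-(1 - 2 * a - I / 2) * I) =
      a ^ 3 * (1 - 2 * I - a) ^ 3 * ev x cN0 := by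
  subst ha hI hX
  have h := eq_of_checks kN0_up kN0_down hx
  obtain ⟨h3, hd, hv, hc, he, hb⟩ := ev_args x (by simp only [pd, pb, pS]; ring)
  have e : ev x (kN0 (fun n d => nC n d) .x₃ eD eV (.x₃ * eB) eE2) = kN0 rC (ev x .x₃) (ev x eD) (ev x eV) (ev x (.x₃ * eB)) (ev x eE2) := rfl
  rw [e, h3, hd, hv, hc, he] at h
  rw [h]
  simp only [ev_mul, ev_x₁, ev_x₂, ev_x₃, hd, hb]
  ring

/-- A coefficient. -/
def kN1 {α : Type} [Add α] [Mul α] (C : ℤ → ℕ → α) (a d v c e2 : α) : α :=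
  ((((((((((((C (-16) 1)) * c) * v * v * v * v * v) * d + ((((C (-80) 1)) * c) * v * v * v * v)) *
    d + ((((C (-128) 1)) * c) * v * v * v)) * d + ((((C (-64) 1)) * c) * v * v)) * d * d) * a +
    (((((((((C (-80) 1)) * c) * v * v * v * v * v) * d + ((((C (-464) 1)) * c) * v * v * v * v)) *
    d + ((((C (-960) 1)) * c) * v * v * v)) * d + ((((C (-832) 1)) * c) * v * v)) * d + ((((C
    (-256) 1)) * c) * v)) * d * d)) * a + ((((((((((C (-132) 1)) * c) * v * v * v * v * v) * d +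
    (((((C 16 1)) * c) * v + (((C (-820) 1)) * c)) * v * v * v * v)) * d + ((((((C 4 1)) * c) * v
    + (((C 112 1)) * c)) * v + (((C (-1856) 1)) * c)) * v * v * v)) * d + ((((((C 20 1)) * c) * v
    + (((C 288 1)) * c)) * v + (((C (-1808) 1)) * c)) * v * v)) * d + ((((((C 32 1)) * c) * v +
    (((C 320 1)) * c)) * v + (((C (-640) 1)) * c)) * v)) * d + (((((C 16 1)) * c) * v + (((C 128
    1)) * c)) * v)) * d * d)) * a + ((((((((((C (-88) 1)) * c) * v * v * v * v * v) * d + (((((C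
    32 1)) * c) * v + (((C (-568) 1)) * c)) * v * v * v * v)) * d + ((((((C 8 1)) * c) * v + (((C
    224 1)) * c)) * v + (((C (-1344) 1)) * c)) * v * v * v)) * d + ((((((C 40 1)) * c) * v + (((C
    576 1)) * c)) * v + (((C (-1376) 1)) * c)) * v * v)) * d + ((((((C 64 1)) * c) * v + (((C 640
    1)) * c)) * v + (((C (-512) 1)) * c)) * v)) * d + (((((C 32 1)) * c) * v + (((C 256 1)) * c))
    * v)) * d * d * d)) * a + ((((((((((C (-20) 1)) * c) * v * v * v * v * v) * d + (((((C 16 1))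
    * c) * v + (((C (-132) 1)) * c)) * v * v * v * v)) * d + ((((((C 4 1)) * c) * v + (((C 112 1))
    * c)) * v + (((C (-320) 1)) * c)) * v * v * v)) * d + ((((((C 20 1)) * c) * v + (((C 288 1)) *
    c)) * v + (((C (-336) 1)) * c)) * v * v)) * d + ((((((C 32 1)) * c) * v + (((C 320 1)) * c)) *
    v + (((C (-128) 1)) * c)) * v)) * d + (((((C 16 1)) * c) * v + (((C 128 1)) * c)) * v)) * d *
    d * d * d)) * a * a

theorem kN1_up : Ex.checkNonneg ((kN1 (fun n d => nC n d) .x₃ eD eV (.x₃ * eB) eE2) - (cN1 * .x₃ * .x₃ * .x₃ * .x₂ * .x₂ * .x₁ * eB * eB * eB * eD * eD)) boxId 37 ⟨0, 5, 15, 13⟩ = true := by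
  decide +kernel

theorem kN1_down : Ex.checkNonneg ((cN1 * .x₃ * .x₃ * .x₃ * .x₂ * .x₂ * .x₁ * eB * eB * eB * eD * eD) - (kN1 (fun n d => nC n d) .x₃ eD eV (.x₃ * eB) eE2)) boxId 37 ⟨0, 5, 15, 13⟩ = true := by
  decide +kernel

theorem kN1_eq (x : ℕ → ℝ) (a I X : ℝ) (hx : ∀ i < 4, 0 ≤ x i) (ha : x 3 = a) (hI : x 2 = I)
    (hX : x 1 = X) :
    kN1 rC a (1 - 2 * I - 2 * a) (2 * I * X) (a * (1 - 2 * I - a)) (-(1 - 2 * a - I / 2) * I) =
      a ^ 3 * I ^ 2 * X * (1 - 2 * I - a) ^ 3 * (1 - 2 * I - 2 * a) ^ 2 * ev x cN1 := by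
  subst ha hI hX
  have h := eq_of_checks kN1_up kN1_down hx
  obtain ⟨h3, hd, hv, hc, he, hb⟩ := ev_args x (by simp only [pd, pb, pS]; ring)
  have e : ev x (kN1 (fun n d => nC n d) .x₃ eD eV (.x₃ * eB) eE2) = kN1 rC (ev x .x₃) (ev x eD) (ev x eV) (ev x (.x₃ * eB)) (ev x eE2) := rfl
  rw [e, h3, hd, hv, hc, he] at h
  rw [h]
  simp only [ev_mul, ev_x₁, ev_x₂, ev_x₃, hd, hb]
  ring

/-- A coefficient. -/
def kN2 {α : Type} [Add α] [Mul α] (C : ℤ → ℕ → α) (a d v c e2 : α) : α :=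
  ((((((((((((((C (-8) 1)) * c) * v * v * v * v * v) * d + ((((C (-72) 1)) * c) * v * v * v * v))
    * d + ((((C (-256) 1)) * c) * v * v * v)) * d + ((((C (-448) 1)) * c) * v * v)) * d + ((((C
    (-384) 1)) * c) * v)) * d + ((((C (-128) 1)) * c))) * d * d) * a + (((((((((((C (-24) 1)) * c)
    * v * v * v * v * v) * d + (((((C 8 1)) * c) * v + (((C (-216) 1)) * c)) * v * v * v * v)) * d
    + (((((C 72 1)) * c) * v + (((C (-768) 1)) * c)) * v * v * v)) * d + (((((C 256 1)) * c) * v +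
    (((C (-1344) 1)) * c)) * v * v)) * d + (((((C 448 1)) * c) * v + (((C (-1152) 1)) * c)) * v))
    * d + (((((C 384 1)) * c) * v + (((C (-384) 1)) * c)))) * d + ((((C 128 1)) * c))) * d * d)) *
    a + ((((((((((((C (-26) 1)) * c) * v * v * v * v * v) * d + (((((C 20 1)) * c) * v + (((C
    (-234) 1)) * c)) * v * v * v * v)) * d + ((((((C (-2) 1)) * c) * v + (((C 180 1)) * c)) * v +
    (((C (-832) 1)) * c)) * v * v * v)) * d + ((((((C (-18) 1)) * c) * v + (((C 640 1)) * c)) * v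
    + (((C (-1456) 1)) * c)) * v * v)) * d + ((((((C (-64) 1)) * c) * v + (((C 1120 1)) * c)) * v
    + (((C (-1248) 1)) * c)) * v)) * d + ((((((C (-112) 1)) * c) * v + (((C 960 1)) * c)) * v +
    (((C (-416) 1)) * c)))) * d + (((((C (-96) 1)) * c) * v + (((C 320 1)) * c)))) * d + ((((C
    (-32) 1)) * c))) * d * d)) * a + ((((((((((((C (-12) 1)) * c) * v * v * v * v * v) * d +
    (((((C 16 1)) * c) * v + (((C (-108) 1)) * c)) * v * v * v * v)) * d + ((((((C (-4) 1)) * c) *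
    v + (((C 144 1)) * c)) * v + (((C (-384) 1)) * c)) * v * v * v)) * d + ((((((C (-36) 1)) * c)
    * v + (((C 512 1)) * c)) * v + (((C (-672) 1)) * c)) * v * v)) * d + ((((((C (-128) 1)) * c) *
    v + (((C 896 1)) * c)) * v + (((C (-576) 1)) * c)) * v)) * d + ((((((C (-224) 1)) * c) * v +
    (((C 768 1)) * c)) * v + (((C (-192) 1)) * c)))) * d + (((((C (-192) 1)) * c) * v + (((C 256
    1)) * c)))) * d + ((((C (-64) 1)) * c))) * d * d * d)) * a + ((((((((((((C (-2) 1)) * c) * v *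
    v * v * v * v) * d + (((((C 4 1)) * c) * v + (((C (-18) 1)) * c)) * v * v * v * v)) * d +
    ((((((C (-2) 1)) * c) * v + (((C 36 1)) * c)) * v + (((C (-64) 1)) * c)) * v * v * v)) * d +
    ((((((C (-18) 1)) * c) * v + (((C 128 1)) * c)) * v + (((C (-112) 1)) * c)) * v * v)) * d +
    ((((((C (-64) 1)) * c) * v + (((C 224 1)) * c)) * v + (((C (-96) 1)) * c)) * v)) * d + ((((((C
    (-112) 1)) * c) * v + (((C 192 1)) * c)) * v + (((C (-32) 1)) * c)))) * d + (((((C (-96) 1)) *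
    c) * v + (((C 64 1)) * c)))) * d + ((((C (-32) 1)) * c))) * d * d * d * d)) * a * a

theorem kN2_up : Ex.checkNonneg ((kN2 (fun n d => nC n d) .x₃ eD eV (.x₃ * eB) eE2) - (cN2 * .x₃ * .x₃ * .x₃ * .x₂ * .x₂ * eB * eB * eB * eD * eD)) boxId 39 ⟨0, 5, 17, 15⟩ = true := by
  decide +kernel

theorem kN2_down : Ex.checkNonneg ((cN2 * .x₃ * .x₃ * .x₃ * .x₂ * .x₂ * eB * eB * eB * eD * eD) - (kN2 (fun n d => nC n d) .x₃ eD eV (.x₃ * eB) eE2)) boxId 39 ⟨0, 5, 17, 15⟩ = true := by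
  decide +kernel

theorem kN2_eq (x : ℕ → ℝ) (a I X : ℝ) (hx : ∀ i < 4, 0 ≤ x i) (ha : x 3 = a) (hI : x 2 = I)
    (hX : x 1 = X) :
    kN2 rC a (1 - 2 * I - 2 * a) (2 * I * X) (a * (1 - 2 * I - a)) (-(1 - 2 * a - I / 2) * I) =
      a ^ 3 * I ^ 2 * (1 - 2 * I - a) ^ 3 * (1 - 2 * I - 2 * a) ^ 2 * ev x cN2 := by
  subst ha hI hX
  have h := eq_of_checks kN2_up kN2_down hx
  obtain ⟨h3, hd, hv, hc, he, hb⟩ := ev_args x (by simp only [pd, pb, pS]; ring)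
  have e : ev x (kN2 (fun n d => nC n d) .x₃ eD eV (.x₃ * eB) eE2) = kN2 rC (ev x .x₃) (ev x eD) (ev x eV) (ev x (.x₃ * eB)) (ev x eE2) := rfl
  rw [e, h3, hd, hv, hc, he] at h
  rw [h]
  simp only [ev_mul, ev_x₁, ev_x₂, ev_x₃, hd, hb]
  ring

/-- A coefficient. -/
def kN3 {α : Type} [Add α] [Mul α] (C : ℤ → ℕ → α) (a d v c e2 : α) : α :=
  (((((((((((C (-32) 1)) * c * c) * v * v * v) * d + ((((C (-96) 1)) * c * c) * v * v)) * d +
    ((((C (-64) 1)) * c * c) * v))) * a + ((((((((C (-112) 1)) * c * c) * v * v * v) * d + (((((C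
    16 1)) * c * c) * v + (((C (-336) 1)) * c * c)) * v * v)) * d + (((((C 48 1)) * c * c) * v +
    (((C (-224) 1)) * c * c)) * v)) * d + ((((C 32 1)) * c * c) * v)))) * a + ((((((((C (-144) 1))
    * c * c) * v * v * v) * d + (((((C 48 1)) * c * c) * v + (((C (-432) 1)) * c * c)) * v * v)) *
    d + (((((C 144 1)) * c * c) * v + (((C (-288) 1)) * c * c)) * v)) * d + ((((C 96 1)) * c * c)
    * v)) * d)) * a + ((((((((C (-80) 1)) * c * c) * v * v * v) * d + (((((C 48 1)) * c * c) * v +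
    (((C (-240) 1)) * c * c)) * v * v)) * d + (((((C 144 1)) * c * c) * v + (((C (-160) 1)) * c *
    c)) * v)) * d + ((((C 96 1)) * c * c) * v)) * d * d)) * a + ((((((((C (-16) 1)) * c * c) * v *
    v * v) * d + (((((C 16 1)) * c * c) * v + (((C (-48) 1)) * c * c)) * v * v)) * d + (((((C 48
    1)) * c * c) * v + (((C (-32) 1)) * c * c)) * v)) * d + ((((C 32 1)) * c * c) * v)) * d * d *
    d)) * a

theorem kN3_up : Ex.checkNonneg ((kN3 (fun n d => nC n d) .x₃ eD eV (.x₃ * eB) eE2) - (cN3 * .x₃ * .x₃ * .x₃ * .x₂ * .x₂ * .x₁ * eB * eB * eB * eB * eB)) boxId 29 ⟨0, 3, 11, 11⟩ = true := by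
  decide +kernel

theorem kN3_down : Ex.checkNonneg ((cN3 * .x₃ * .x₃ * .x₃ * .x₂ * .x₂ * .x₁ * eB * eB * eB * eB * eB) - (kN3 (fun n d => nC n d) .x₃ eD eV (.x₃ * eB) eE2)) boxId 29 ⟨0, 3, 11, 11⟩ = true := by
  decide +kernel

theorem kN3_eq (x : ℕ → ℝ) (a I X : ℝ) (hx : ∀ i < 4, 0 ≤ x i) (ha : x 3 = a) (hI : x 2 = I)
    (hX : x 1 = X) :
    kN3 rC a (1 - 2 * I - 2 * a) (2 * I * X) (a * (1 - 2 * I - a)) (-(1 - 2 * a - I / 2) * I) =
      a ^ 3 * I ^ 2 * X * (1 - 2 * I - a) ^ 5 * ev x cN3 := by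
  subst ha hI hX
  have h := eq_of_checks kN3_up kN3_down hx
  obtain ⟨h3, hd, hv, hc, he, hb⟩ := ev_args x (by simp only [pd, pb, pS]; ring)
  have e : ev x (kN3 (fun n d => nC n d) .x₃ eD eV (.x₃ * eB) eE2) = kN3 rC (ev x .x₃) (ev x eD) (ev x eV) (ev x (.x₃ * eB)) (ev x eE2) := rfl
  rw [e, h3, hd, hv, hc, he] at h
  rw [h]
  simp only [ev_mul, ev_x₁, ev_x₂, ev_x₃, hd, hb]
  ring

/-- A coefficient. -/
def kN4 {α : Type} [Add α] [Mul α] (C : ℤ → ℕ → α) (a d v c e2 : α) : α :=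
  (((((((((C 64 1)) * c) * v * v * v * v) * d + ((((C 192 1)) * c) * v * v * v)) * d + ((((C 128
    1)) * c) * v * v))) * a + ((((((((C 96 1)) * c) * v * v * v * v) * d + (((((C (-32) 1)) * c) *
    v + (((C 288 1)) * c)) * v * v * v)) * d + (((((C (-96) 1)) * c) * v + (((C 192 1)) * c)) * v
    * v)) * d + ((((C (-64) 1)) * c) * v * v)))) * a + ((((((((C 32 1)) * c) * v * v * v * v) * d
    + (((((C (-32) 1)) * c) * v + (((C 96 1)) * c)) * v * v * v)) * d + (((((C (-96) 1)) * c) * v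
    + (((C 64 1)) * c)) * v * v)) * d + ((((C (-64) 1)) * c) * v * v)) * d)) * a * a

theorem kN4_up : Ex.checkNonneg ((kN4 (fun n d => nC n d) .x₃ eD eV (.x₃ * eB) eE2) - (cN4 * .x₃ * .x₃ * .x₃ * .x₂ * .x₂ * .x₂ * .x₁ * .x₁ * eB * eB)) boxId 24 ⟨0, 4, 9, 8⟩ = true := by
  decide +kernel

theorem kN4_down : Ex.checkNonneg ((cN4 * .x₃ * .x₃ * .x₃ * .x₂ * .x₂ * .x₂ * .x₁ * .x₁ * eB * eB) - (kN4 (fun n d => nC n d) .x₃ eD eV (.x₃ * eB) eE2)) boxId 24 ⟨0, 4, 9, 8⟩ = true := by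
  decide +kernel

theorem kN4_eq (x : ℕ → ℝ) (a I X : ℝ) (hx : ∀ i < 4, 0 ≤ x i) (ha : x 3 = a) (hI : x 2 = I)
    (hX : x 1 = X) :
    kN4 rC a (1 - 2 * I - 2 * a) (2 * I * X) (a * (1 - 2 * I - a)) (-(1 - 2 * a - I / 2) * I) =
      a ^ 3 * I ^ 3 * X ^ 2 * (1 - 2 * I - a) ^ 2 * ev x cN4 := by
  subst ha hI hX
  have h := eq_of_checks kN4_up kN4_down hx
  obtain ⟨h3, hd, hv, hc, he, hb⟩ := ev_args x (by simp only [pd, pb, pS]; ring)
  have e : ev x (kN4 (fun n d => nC n d) .x₃ eD eV (.x₃ * eB) eE2) = kN4 rC (ev x .x₃) (ev x eD) (ev x eV) (ev x (.x₃ * eB)) (ev x eE2) := rfl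
  rw [e, h3, hd, hv, hc, he] at h
  rw [h]
  simp only [ev_mul, ev_x₁, ev_x₂, ev_x₃, hd, hb]
  ring

/-- A coefficient. -/
def kN5 {α : Type} [Add α] [Mul α] (C : ℤ → ℕ → α) (a d v c e2 : α) : α :=
  (((((((((((C 16 1)) * c) * v * v * v * v) * d + ((((C (-112) 1)) * c) * v * v * v)) * d + ((((C
    (-256) 1)) * c) * v * v)) * d + ((((C (-128) 1)) * c) * v))) * a + (((((((((C 16 1)) * c) * v
    * v * v * v) * d + (((((C (-16) 1)) * c) * v + (((C (-272) 1)) * c)) * v * v * v)) * d +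
    (((((C 48 1)) * c) * v + (((C (-544) 1)) * c)) * v * v)) * d + (((((C 192 1)) * c) * v + (((C
    (-256) 1)) * c)) * v)) * d + ((((C 128 1)) * c) * v)))) * a + ((((((((((C (-4) 1)) * c) * v *
    v * v * v) * d + (((((C (-16) 1)) * c) * v + (((C (-212) 1)) * c)) * v * v * v)) * d + ((((((C
    4 1)) * c) * v + (((C 96 1)) * c)) * v + (((C (-368) 1)) * c)) * v * v)) * d + ((((((C 4 1)) *
    c) * v + (((C 304 1)) * c)) * v + (((C (-160) 1)) * c)) * v)) * d + (((((C (-32) 1)) * c) * v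
    + (((C 192 1)) * c)) * v)) * d + ((((C (-32) 1)) * c) * v)))) * a + ((((((((((C (-4) 1)) * c)
    * v * v * v * v) * d + ((((C (-52) 1)) * c) * v * v * v)) * d + ((((((C 4 1)) * c) * v + (((C
    48 1)) * c)) * v + (((C (-80) 1)) * c)) * v * v)) * d + ((((((C 4 1)) * c) * v + (((C 112 1))
    * c)) * v + (((C (-32) 1)) * c)) * v)) * d + (((((C (-32) 1)) * c) * v + (((C 64 1)) * c)) *
    v)) * d + ((((C (-32) 1)) * c) * v)) * d)) * a * a

theorem kN5_up : Ex.checkNonneg ((kN5 (fun n d => nC n d) .x₃ eD eV (.x₃ * eB) eE2) - (cN5 * .x₃ * .x₃ * .x₃ * .x₂ * .x₂ * .x₂ * .x₁ * eB * eB)) boxId 27 ⟨0, 4, 11, 10⟩ = true := by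
  decide +kernel

theorem kN5_down : Ex.checkNonneg ((cN5 * .x₃ * .x₃ * .x₃ * .x₂ * .x₂ * .x₂ * .x₁ * eB * eB) - (kN5 (fun n d => nC n d) .x₃ eD eV (.x₃ * eB) eE2)) boxId 27 ⟨0, 4, 11, 10⟩ = true := by
  decide +kernel

theorem kN5_eq (x : ℕ → ℝ) (a I X : ℝ) (hx : ∀ i < 4, 0 ≤ x i) (ha : x 3 = a) (hI : x 2 = I)
    (hX : x 1 = X) :
    kN5 rC a (1 - 2 * I - 2 * a) (2 * I * X) (a * (1 - 2 * I - a)) (-(1 - 2 * a - I / 2) * I) =
      a ^ 3 * I ^ 3 * X * (1 - 2 * I - a) ^ 2 * ev x cN5 := by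
  subst ha hI hX
  have h := eq_of_checks kN5_up kN5_down hx
  obtain ⟨h3, hd, hv, hc, he, hb⟩ := ev_args x (by simp only [pd, pb, pS]; ring)
  have e : ev x (kN5 (fun n d => nC n d) .x₃ eD eV (.x₃ * eB) eE2) = kN5 rC (ev x .x₃) (ev x eD) (ev x eV) (ev x (.x₃ * eB)) (ev x eE2) := rfl
  rw [e, h3, hd, hv, hc, he] at h
  rw [h]
  simp only [ev_mul, ev_x₁, ev_x₂, ev_x₃, hd, hb]
  ring

/-- A coefficient. -/
def kN6 {α : Type} [Add α] [Mul α] (C : ℤ → ℕ → α) (a d v c e2 : α) : α :=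
  (((((((((((C (-16) 1)) * c) * v * v * v * v) * d + ((((C (-80) 1)) * c) * v * v * v)) * d +
    ((((C (-128) 1)) * c) * v * v)) * d + ((((C (-64) 1)) * c) * v)) * d * d) * a + (((((((((C
    (-32) 1)) * c) * v * v * v * v) * d + (((((C 16 1)) * c) * v + (((C (-160) 1)) * c)) * v * v *
    v)) * d + (((((C 80 1)) * c) * v + (((C (-256) 1)) * c)) * v * v)) * d + (((((C 128 1)) * c) *
    v + (((C (-128) 1)) * c)) * v)) * d + ((((C 64 1)) * c) * v)) * d * d)) * a + ((((((((((C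
    (-20) 1)) * c) * v * v * v * v) * d + (((((C 24 1)) * c) * v + (((C (-100) 1)) * c)) * v * v *
    v)) * d + ((((((C (-4) 1)) * c) * v + (((C 120 1)) * c)) * v + (((C (-160) 1)) * c)) * v * v))
    * d + ((((((C (-20) 1)) * c) * v + (((C 192 1)) * c)) * v + (((C (-80) 1)) * c)) * v)) * d +
    (((((C (-32) 1)) * c) * v + (((C 96 1)) * c)) * v)) * d + ((((C (-16) 1)) * c) * v)) * d * d))
    * a + ((((((((((C (-4) 1)) * c) * v * v * v * v) * d + (((((C 8 1)) * c) * v + (((C (-20) 1))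
    * c)) * v * v * v)) * d + ((((((C (-4) 1)) * c) * v + (((C 40 1)) * c)) * v + (((C (-32) 1)) *
    c)) * v * v)) * d + ((((((C (-20) 1)) * c) * v + (((C 64 1)) * c)) * v + (((C (-16) 1)) * c))
    * v)) * d + (((((C (-32) 1)) * c) * v + (((C 32 1)) * c)) * v)) * d + ((((C (-16) 1)) * c) *
    v)) * d * d * d)) * a * a

theorem kN6_up : Ex.checkNonneg ((kN6 (fun n d => nC n d) .x₃ eD eV (.x₃ * eB) eE2) - (cN6 * .x₃ * .x₃ * .x₃ * .x₂ * .x₂ * .x₂ * .x₁ * eB * eB * eD * eD)) boxId 31 ⟨0, 4, 13, 12⟩ = true := by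
  decide +kernel

theorem kN6_down : Ex.checkNonneg ((cN6 * .x₃ * .x₃ * .x₃ * .x₂ * .x₂ * .x₂ * .x₁ * eB * eB * eD * eD) - (kN6 (fun n d => nC n d) .x₃ eD eV (.x₃ * eB) eE2)) boxId 31 ⟨0, 4, 13, 12⟩ = true := by
  decide +kernel

theorem kN6_eq (x : ℕ → ℝ) (a I X : ℝ) (hx : ∀ i < 4, 0 ≤ x i) (ha : x 3 = a) (hI : x 2 = I)
    (hX : x 1 = X) :
    kN6 rC a (1 - 2 * I - 2 * a) (2 * I * X) (a * (1 - 2 * I - a)) (-(1 - 2 * a - I / 2) * I) =
      a ^ 3 * I ^ 3 * X * (1 - 2 * I - a) ^ 2 * (1 - 2 * I - 2 * a) ^ 2 * ev x cN6 := by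
  subst ha hI hX
  have h := eq_of_checks kN6_up kN6_down hx
  obtain ⟨h3, hd, hv, hc, he, hb⟩ := ev_args x (by simp only [pd, pb, pS]; ring)
  have e : ev x (kN6 (fun n d => nC n d) .x₃ eD eV (.x₃ * eB) eE2) = kN6 rC (ev x .x₃) (ev x eD) (ev x eV) (ev x (.x₃ * eB)) (ev x eE2) := rfl
  rw [e, h3, hd, hv, hc, he] at h
  rw [h]
  simp only [ev_mul, ev_x₁, ev_x₂, ev_x₃, hd, hb]
  ring

/-- A coefficient. -/
def kN7 {α : Type} [Add α] [Mul α] (C : ℤ → ℕ → α) (a d v c e2 : α) : α :=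
  ((((((((C (-8) 1)) * c) * v * v * v) * d + ((((C (-8) 1)) * c) * v * v)) * d * d) * a + (((((((C
    (-8) 1)) * c) * v * v * v) * d + (((((C 8 1)) * c) * v + (((C (-8) 1)) * c)) * v * v)) * d +
    ((((C 8 1)) * c) * v * v)) * d * d)) * a + ((((((((C (-2) 1)) * c) * v * v * v) * d + (((((C 4
    1)) * c) * v + (((C (-2) 1)) * c)) * v * v)) * d + (((((C (-2) 1)) * c) * v + (((C 4 1)) * c))
    * v * v)) * d + ((((C (-2) 1)) * c) * v * v)) * d * d)) * a * a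

theorem kN7_up : Ex.checkNonneg ((kN7 (fun n d => nC n d) .x₃ eD eV (.x₃ * eB) eE2) - (cN7 * .x₃ * .x₃ * .x₃ * .x₂ * .x₂ * .x₂ * .x₂ * .x₁ * .x₁ * eB * eD * eD)) boxId 22 ⟨0, 3, 9, 9⟩ = true := by
  decide +kernel

theorem kN7_down : Ex.checkNonneg ((cN7 * .x₃ * .x₃ * .x₃ * .x₂ * .x₂ * .x₂ * .x₂ * .x₁ * .x₁ * eB * eD * eD) - (kN7 (fun n d => nC n d) .x₃ eD eV (.x₃ * eB) eE2)) boxId 22 ⟨0, 3, 9, 9⟩ = true := by
  decide +kernel

theorem kN7_eq (x : ℕ → ℝ) (a I X : ℝ) (hx : ∀ i < 4, 0 ≤ x i) (ha : x 3 = a) (hI : x 2 = I)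
    (hX : x 1 = X) :
    kN7 rC a (1 - 2 * I - 2 * a) (2 * I * X) (a * (1 - 2 * I - a)) (-(1 - 2 * a - I / 2) * I) =
      a ^ 3 * I ^ 4 * X ^ 2 * (1 - 2 * I - a) * (1 - 2 * I - 2 * a) ^ 2 * ev x cN7 := by
  subst ha hI hX
  have h := eq_of_checks kN7_up kN7_down hx
  obtain ⟨h3, hd, hv, hc, he, hb⟩ := ev_args x (by simp only [pd, pb, pS]; ring)
  have e : ev x (kN7 (fun n d => nC n d) .x₃ eD eV (.x₃ * eB) eE2) = kN7 rC (ev x .x₃) (ev x eD) (ev x eV) (ev x (.x₃ * eB)) (ev x eE2) := rfl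
  rw [e, h3, hd, hv, hc, he] at h
  rw [h]
  simp only [ev_mul, ev_x₁, ev_x₂, ev_x₃, hd, hb]
  ring

/-- A coefficient. -/
def kN8 {α : Type} [Add α] [Mul α] (C : ℤ → ℕ → α) (a d v c e2 : α) : α :=
  (((((((((((C (-32) 1)) * c * c) * v * v * v * v) * d + ((((C (-32) 1)) * c * c) * v * v * v)) *
    d * d) * a + ((((((((((C 4 1) * e2) * c) * v + (((C (-128) 1)) * c * c)) * v * v * v * v) * d
    + ((((((C 24 1)) * c + ((C 40 1) * e2)) * c) * v + (((C (-160) 1)) * c * c)) * v * v * v)) * d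
    + ((((((C (-8) 1)) * c + ((C 136 1) * e2)) * c) * v + (((C (-32) 1)) * c * c)) * v * v)) * d +
    (((((C (-64) 1)) * c + ((C 192 1) * e2)) * c) * v * v)) * d + (((((C (-32) 1)) * c + ((C 96 1)
    * e2)) * c) * v)))) * a + (((((((((((C 12 1) * e2) * c) * v + (((C (-200) 1)) * c * c)) * v *
    v * v * v) * d + ((((((C 4 1)) * c * c) * v + ((((C 56 1)) * c + ((C 120 1) * e2)) * c)) * v +
    (((C (-296) 1)) * c * c)) * v * v * v)) * d + ((((((C (-32) 1)) * c * c) * v + ((((C (-72) 1))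
    * c + ((C 408 1) * e2)) * c)) * v + (((C (-96) 1)) * c * c)) * v * v)) * d + (((((C (-80) 1))
    * c * c) * v + ((((C (-224) 1)) * c + ((C 576 1) * e2)) * c)) * v * v)) * d + (((((C (-64) 1))
    * c * c) * v + ((((C (-96) 1)) * c + ((C 288 1) * e2)) * c)) * v)) * d + ((((C (-16) 1)) * c *
    c) * v)))) * a + ((((((((((((C 12 1) * e2) * c) * v + (((C (-152) 1)) * c * c)) * v * v * v *
    v) * d + ((((((C 8 1)) * c * c) * v + ((((C 38 1)) * c + ((C 120 1) * e2)) * c)) * v + (((C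
    (-256) 1)) * c * c)) * v * v * v)) * d + ((((((C (-56) 1)) * c * c) * v + ((((C (-146) 1)) * c
    + ((C 408 1) * e2)) * c)) * v + (((C (-104) 1)) * c * c)) * v * v)) * d + ((((((C (-10) 1)) *
    c * c) * v + (((C (-108) 1)) * c * c)) * v + ((((C (-288) 1)) * c + ((C 576 1) * e2)) * c)) *
    v * v)) * d + ((((((C 14 1)) * c * c) * v + (((C (-72) 1)) * c * c)) * v + ((((C (-104) 1)) *
    c + ((C 288 1) * e2)) * c)) * v)) * d + ((((C 32 1)) * c * c) * v * v)) * d + (((((C 8 1)) * c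
    * c) * v + (((C 16 1)) * c * c)))))) * a + ((((((((((((C 4 1) * e2) * c) * v + (((C (-56) 1))
    * c * c)) * v * v * v * v) * d + ((((((C 4 1)) * c * c) * v + ((((C 4 1)) * c + ((C 40 1) *
    e2)) * c)) * v + (((C (-104) 1)) * c * c)) * v * v * v)) * d + ((((((C (-16) 1)) * c * c) * v
    + ((((C (-108) 1)) * c + ((C 136 1) * e2)) * c)) * v + (((C (-48) 1)) * c * c)) * v * v)) * d
    + ((((((C (-20) 1)) * c * c) * v + (((C 24 1)) * c * c)) * v + ((((C (-160) 1)) * c + ((C 192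
    1) * e2)) * c)) * v * v)) * d + ((((((C 28 1)) * c * c) * v + (((C 48 1)) * c * c)) * v +
    ((((C (-48) 1)) * c + ((C 96 1) * e2)) * c)) * v)) * d + (((((C 64 1)) * c * c) * v + (((C 48
    1)) * c * c)) * v)) * d + (((((C 16 1)) * c * c) * v + (((C 32 1)) * c * c)))) * d)) * a +
    (((((((((((C (-8) 1)) * c * c) * v * v * v * v) * d + (((((C (-2) 1)) * c * c) * v + (((C
    (-16) 1)) * c * c)) * v * v * v)) * d + ((((((C 8 1)) * c * c) * v + (((C (-26) 1)) * c * c))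
    * v + (((C (-8) 1)) * c * c)) * v * v)) * d + ((((((C (-10) 1)) * c * c) * v + (((C 52 1)) * c
    * c)) * v + (((C (-32) 1)) * c * c)) * v * v)) * d + ((((((C 14 1)) * c * c) * v + (((C 56 1))
    * c * c)) * v + (((C (-8) 1)) * c * c)) * v)) * d + (((((C 32 1)) * c * c) * v + (((C 32 1)) *
    c * c)) * v)) * d + (((((C 8 1)) * c * c) * v + (((C 16 1)) * c * c)))) * d * d)) * a

theorem kN8_up : Ex.checkNonneg ((kN8 (fun n d => nC n d) .x₃ eD eV (.x₃ * eB) eE2) - (cN8 * .x₃ * .x₃ * .x₃ * eB * eB * eB * eB)) boxId 36 ⟨0, 5, 15, 13⟩ = true := by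
  decide +kernel

theorem kN8_down : Ex.checkNonneg ((cN8 * .x₃ * .x₃ * .x₃ * eB * eB * eB * eB) - (kN8 (fun n d => nC n d) .x₃ eD eV (.x₃ * eB) eE2)) boxId 36 ⟨0, 5, 15, 13⟩ = true := by
  decide +kernel

theorem kN8_eq (x : ℕ → ℝ) (a I X : ℝ) (hx : ∀ i < 4, 0 ≤ x i) (ha : x 3 = a) (hI : x 2 = I)
    (hX : x 1 = X) :
    kN8 rC a (1 - 2 * I - 2 * a) (2 * I * X) (a * (1 - 2 * I - a)) (-(1 - 2 * a - I / 2) * I) =
      a ^ 3 * (1 - 2 * I - a) ^ 4 * ev x cN8 := by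
  subst ha hI hX
  have h := eq_of_checks kN8_up kN8_down hx
  obtain ⟨h3, hd, hv, hc, he, hb⟩ := ev_args x (by simp only [pd, pb, pS]; ring)
  have e : ev x (kN8 (fun n d => nC n d) .x₃ eD eV (.x₃ * eB) eE2) = kN8 rC (ev x .x₃) (ev x eD) (ev x eV) (ev x (.x₃ * eB)) (ev x eE2) := rfl
  rw [e, h3, hd, hv, hc, he] at h
  rw [h]
  simp only [ev_mul, ev_x₁, ev_x₂, ev_x₃, hd, hb]
  ring

/-- A coefficient. -/
def kN9 {α : Type} [Add α] [Mul α] (C : ℤ → ℕ → α) (a d v c e2 : α) : α :=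
  ((((((((((((C 8 1)) * c * c) * v * v * v * v) * d + ((((C 40 1)) * c * c) * v * v * v)) * d +
    ((((C 64 1)) * c * c) * v * v)) * d + ((((C 32 1)) * c * c) * v)) * d * d) * a + ((((((((C 24
    1)) * c * c) * v * v * v * v) * d + ((((C 120 1)) * c * c) * v * v * v)) * d + ((((C 192 1)) *
    c * c) * v * v)) * d + ((((C 96 1)) * c * c) * v)) * d * d * d)) * a + ((((((((((C 26 1)) * c
    * c) * v * v * v * v) * d + ((((C 130 1)) * c * c) * v * v * v)) * d + (((((C (-2) 1)) * c *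
    c) * v * v + (((C 208 1)) * c * c)) * v * v)) * d + (((((C (-10) 1)) * c * c) * v * v + (((C
    104 1)) * c * c)) * v)) * d + ((((C (-16) 1)) * c * c) * v * v)) * d + ((((C (-8) 1)) * c * c)
    * v)) * d * d)) * a + ((((((((((C 12 1)) * c * c) * v * v * v * v) * d + ((((C 60 1)) * c * c)
    * v * v * v)) * d + (((((C (-4) 1)) * c * c) * v * v + (((C 96 1)) * c * c)) * v * v)) * d +
    (((((C (-20) 1)) * c * c) * v * v + (((C 48 1)) * c * c)) * v)) * d + ((((C (-32) 1)) * c * c)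
    * v * v)) * d + ((((C (-16) 1)) * c * c) * v)) * d * d * d)) * a + ((((((((((C 2 1)) * c * c)
    * v * v * v * v) * d + ((((C 10 1)) * c * c) * v * v * v)) * d + (((((C (-2) 1)) * c * c) * v
    * v + (((C 16 1)) * c * c)) * v * v)) * d + (((((C (-10) 1)) * c * c) * v * v + (((C 8 1)) * c
    * c)) * v)) * d + ((((C (-16) 1)) * c * c) * v * v)) * d + ((((C (-8) 1)) * c * c) * v)) * d *
    d * d * d)) * a

theorem kN9_up : Ex.checkNonneg ((kN9 (fun n d => nC n d) .x₃ eD eV (.x₃ * eB) eE2) - (cN9 * .x₃ * .x₃ * .x₃ * .x₂ * .x₂ * .x₁ * eB * eB * eB * eB * eD * eD)) boxId 35 ⟨0, 4, 15, 14⟩ = true := by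
  decide +kernel

theorem kN9_down : Ex.checkNonneg ((cN9 * .x₃ * .x₃ * .x₃ * .x₂ * .x₂ * .x₁ * eB * eB * eB * eB * eD * eD) - (kN9 (fun n d => nC n d) .x₃ eD eV (.x₃ * eB) eE2)) boxId 35 ⟨0, 4, 15, 14⟩ = true := by
  decide +kernel

theorem kN9_eq (x : ℕ → ℝ) (a I X : ℝ) (hx : ∀ i < 4, 0 ≤ x i) (ha : x 3 = a) (hI : x 2 = I)
    (hX : x 1 = X) :
    kN9 rC a (1 - 2 * I - 2 * a) (2 * I * X) (a * (1 - 2 * I - a)) (-(1 - 2 * a - I / 2) * I) =
      a ^ 3 * I ^ 2 * X * (1 - 2 * I - a) ^ 4 * (1 - 2 * I - 2 * a) ^ 2 * ev x cN9 := by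
  subst ha hI hX
  have h := eq_of_checks kN9_up kN9_down hx
  obtain ⟨h3, hd, hv, hc, he, hb⟩ := ev_args x (by simp only [pd, pb, pS]; ring)
  have e : ev x (kN9 (fun n d => nC n d) .x₃ eD eV (.x₃ * eB) eE2) = kN9 rC (ev x .x₃) (ev x eD) (ev x eV) (ev x (.x₃ * eB)) (ev x eE2) := rfl
  rw [e, h3, hd, hv, hc, he] at h
  rw [h]
  simp only [ev_mul, ev_x₁, ev_x₂, ev_x₃, hd, hb]
  ring

/-- A coefficient. -/
def kN10 {α : Type} [Add α] [Mul α] (C : ℤ → ℕ → α) (a d v c e2 : α) : α :=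
  ((((((((((C 32 1)) * c) * v * v * v * v) * d + ((((C 96 1)) * c) * v * v * v)) * d + ((((C 64
    1)) * c) * v * v)) * d * d * d) * a + ((((((((C 80 1)) * c) * v * v * v * v) * d + (((((C
    (-32) 1)) * c) * v + (((C 240 1)) * c)) * v * v * v)) * d + (((((C (-96) 1)) * c) * v + (((C
    160 1)) * c)) * v * v)) * d + ((((C (-64) 1)) * c) * v * v)) * d * d * d)) * a + ((((((((C 64
    1)) * c) * v * v * v * v) * d + (((((C (-64) 1)) * c) * v + (((C 192 1)) * c)) * v * v * v)) *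
    d + (((((C (-192) 1)) * c) * v + (((C 128 1)) * c)) * v * v)) * d + ((((C (-128) 1)) * c) * v
    * v)) * d * d * d * d)) * a + ((((((((C 16 1)) * c) * v * v * v * v) * d + (((((C (-32) 1)) *
    c) * v + (((C 48 1)) * c)) * v * v * v)) * d + (((((C (-96) 1)) * c) * v + (((C 32 1)) * c)) *
    v * v)) * d + ((((C (-64) 1)) * c) * v * v)) * d * d * d * d * d)) * a

theorem kN10_up : Ex.checkNonneg ((kN10 (fun n d => nC n d) .x₃ eD eV (.x₃ * eB) eE2) - (cN10 * .x₃ * .x₃ * .x₂ * .x₂ * .x₁ * .x₁ * eB * eB * eB * eD * eD * eD)) boxId 33 ⟨0, 4, 13, 11⟩ = true := by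
  decide +kernel

theorem kN10_down : Ex.checkNonneg ((cN10 * .x₃ * .x₃ * .x₂ * .x₂ * .x₁ * .x₁ * eB * eB * eB * eD * eD * eD) - (kN10 (fun n d => nC n d) .x₃ eD eV (.x₃ * eB) eE2)) boxId 33 ⟨0, 4, 13, 11⟩ = true := by
  decide +kernel

theorem kN10_eq (x : ℕ → ℝ) (a I X : ℝ) (hx : ∀ i < 4, 0 ≤ x i) (ha : x 3 = a) (hI : x 2 = I)
    (hX : x 1 = X) :
    kN10 rC a (1 - 2 * I - 2 * a) (2 * I * X) (a * (1 - 2 * I - a)) (-(1 - 2 * a - I / 2) * I) =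
      a ^ 2 * I ^ 2 * X ^ 2 * (1 - 2 * I - a) ^ 3 * (1 - 2 * I - 2 * a) ^ 3 * ev x cN10 := by
  subst ha hI hX
  have h := eq_of_checks kN10_up kN10_down hx
  obtain ⟨h3, hd, hv, hc, he, hb⟩ := ev_args x (by simp only [pd, pb, pS]; ring)
  have e : ev x (kN10 (fun n d => nC n d) .x₃ eD eV (.x₃ * eB) eE2) = kN10 rC (ev x .x₃) (ev x eD) (ev x eV) (ev x (.x₃ * eB)) (ev x eE2) := rfl
  rw [e, h3, hd, hv, hc, he] at h
  rw [h]
  simp only [ev_mul, ev_x₁, ev_x₂, ev_x₃, hd, hb]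
  ring

/-- A coefficient. -/
def kN11 {α : Type} [Add α] [Mul α] (C : ℤ → ℕ → α) (a d v c e2 : α) : α :=
  (((((((((C (-8) 1)) * c * c) * v * v * v) * d + ((((C (-8) 1)) * c * c) * v * v)) * d * d) * a +
    ((((((C (-16) 1)) * c * c) * v * v * v) * d + ((((C (-16) 1)) * c * c) * v * v)) * d * d * d))
    * a + ((((((((C (-10) 1)) * c * c) * v * v * v) * d + ((((C (-10) 1)) * c * c) * v * v)) * d +
    ((((C 2 1)) * c * c) * v * v * v)) * d + ((((C 2 1)) * c * c) * v * v)) * d * d)) * a +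
    ((((((((C (-2) 1)) * c * c) * v * v * v) * d + ((((C (-2) 1)) * c * c) * v * v)) * d + ((((C 2
    1)) * c * c) * v * v * v)) * d + ((((C 2 1)) * c * c) * v * v)) * d * d * d)) * a

theorem kN11_up : Ex.checkNonneg ((kN11 (fun n d => nC n d) .x₃ eD eV (.x₃ * eB) eE2) - (cN11 * .x₃ * .x₃ * .x₃ * .x₂ * .x₂ * .x₂ * .x₁ * .x₁ * eB * eB * eB * eD * eD)) boxId 26 ⟨0, 3, 11, 11⟩ = true := by
  decide +kernel

theorem kN11_down : Ex.checkNonneg ((cN11 * .x₃ * .x₃ * .x₃ * .x₂ * .x₂ * .x₂ * .x₁ * .x₁ * eB * eB * eB * eD * eD) - (kN11 (fun n d => nC n d) .x₃ eD eV (.x₃ * eB) eE2)) boxId 26 ⟨0, 3, 11, 11⟩ = true := by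
  decide +kernel

theorem kN11_eq (x : ℕ → ℝ) (a I X : ℝ) (hx : ∀ i < 4, 0 ≤ x i) (ha : x 3 = a) (hI : x 2 = I)
    (hX : x 1 = X) :
    kN11 rC a (1 - 2 * I - 2 * a) (2 * I * X) (a * (1 - 2 * I - a)) (-(1 - 2 * a - I / 2) * I) =
      a ^ 3 * I ^ 3 * X ^ 2 * (1 - 2 * I - a) ^ 3 * (1 - 2 * I - 2 * a) ^ 2 * ev x cN11 := by
  subst ha hI hX
  have h := eq_of_checks kN11_up kN11_down hx
  obtain ⟨h3, hd, hv, hc, he, hb⟩ := ev_args x (by simp only [pd, pb, pS]; ring)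
  have e : ev x (kN11 (fun n d => nC n d) .x₃ eD eV (.x₃ * eB) eE2) = kN11 rC (ev x .x₃) (ev x eD) (ev x eV) (ev x (.x₃ * eB)) (ev x eE2) := rfl
  rw [e, h3, hd, hv, hc, he] at h
  rw [h]
  simp only [ev_mul, ev_x₁, ev_x₂, ev_x₃, hd, hb]
  ring

/-- A coefficient. -/
def kN12 {α : Type} [Add α] [Mul α] (C : ℤ → ℕ → α) (a d v c e2 : α) : α :=
  (((((((((((((C (-1) 2)) * c * c) * v * v * v * v) * d + (((((C (-2) 1)) * c + ((C 2 1))) * c *
    c) * v * v * v)) * d + ((((C (-2) 1)) * c * c * c) * v * v)) * d + ((((C (-4) 1)) * c * c) *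
    v)) * d + ((((C (-2) 1)) * c * c)))) * a + (((((((((C (-3) 2)) * c * c) * v * v * v * v) * d +
    (((((C (-6) 1)) * c + ((C 6 1))) * c * c) * v * v * v)) * d + (((((C (-2) 1)) * c * c * c) * v
    + (((C (-6) 1)) * c * c * c)) * v * v)) * d + (((((C (-2) 1)) * c * c * c) * v + (((C (-12)
    1)) * c * c)) * v)) * d + ((((C (-6) 1)) * c * c))) * d)) * a + (((((((((C (-3) 2)) * c * c) *
    v * v * v * v) * d + (((((C (-13) 2)) * c + ((C 6 1))) * c * c) * v * v * v)) * d + (((((C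
    (-5) 1)) * c * c * c) * v + (((C (-13) 2)) * c * c * c)) * v * v)) * d + ((((((C (-1) 2)) * c
    * c * c) * v + (((C (-5) 1)) * c * c * c)) * v + (((C (-12) 1)) * c * c)) * v)) * d + (((((C
    (-1) 2)) * c * c * c) * v * v + (((C (-6) 1)) * c * c)))) * d * d)) * a + (((((((((C (-1) 2))
    * c * c) * v * v * v * v) * d + (((((C (-3) 1)) * c + ((C 2 1))) * c * c) * v * v * v)) * d +
    (((((C (-4) 1)) * c * c * c) * v + (((C (-3) 1)) * c * c * c)) * v * v)) * d + ((((((C (-1)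
    1)) * c * c * c) * v + (((C (-4) 1)) * c * c * c)) * v + (((C (-4) 1)) * c * c)) * v)) * d +
    (((((C (-1) 1)) * c * c * c) * v * v + (((C (-2) 1)) * c * c)))) * d * d * d)) * a + ((((((((C
    (-1) 2)) * c * c * c) * v * v * v) * d + (((((C (-1) 1)) * c * c * c) * v + (((C (-1) 2)) * c
    * c * c)) * v * v)) * d + (((((C (-1) 2)) * c * c * c) * v + (((C (-1) 1)) * c * c * c)) * v *
    v)) * d + ((((C (-1) 2)) * c * c * c) * v * v)) * d * d * d * d))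

theorem kN12_up : Ex.checkNonneg ((kN12 (fun n d => nC n d) .x₃ eD eV (.x₃ * eB) eE2) - (cN12 * .x₃ * .x₃ * .x₃ * eB * eB * eB * eB * eB)) boxId 30 ⟨0, 4, 13, 13⟩ = true := by
  decide +kernel

theorem kN12_down : Ex.checkNonneg ((cN12 * .x₃ * .x₃ * .x₃ * eB * eB * eB * eB * eB) - (kN12 (fun n d => nC n d) .x₃ eD eV (.x₃ * eB) eE2)) boxId 30 ⟨0, 4, 13, 13⟩ = true := by
  decide +kernel

theorem kN12_eq (x : ℕ → ℝ) (a I X : ℝ) (hx : ∀ i < 4, 0 ≤ x i) (ha : x 3 = a) (hI : x 2 = I)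
    (hX : x 1 = X) :
    kN12 rC a (1 - 2 * I - 2 * a) (2 * I * X) (a * (1 - 2 * I - a)) (-(1 - 2 * a - I / 2) * I) =
      a ^ 3 * (1 - 2 * I - a) ^ 5 * ev x cN12 := by
  subst ha hI hX
  have h := eq_of_checks kN12_up kN12_down hx
  obtain ⟨h3, hd, hv, hc, he, hb⟩ := ev_args x (by simp only [pd, pb, pS]; ring)
  have e : ev x (kN12 (fun n d => nC n d) .x₃ eD eV (.x₃ * eB) eE2) = kN12 rC (ev x .x₃) (ev x eD) (ev x eV) (ev x (.x₃ * eB)) (ev x eE2) := rfl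
  rw [e, h3, hd, hv, hc, he] at h
  rw [h]
  simp only [ev_mul, ev_x₁, ev_x₂, ev_x₃, hd, hb]
  ring

theorem genN (a d v g W W1 R c e2 E K G G1 D2 : ℝ) :
    ClosedGen.TMGS a d v g W W1 R ⟨c, e2, E, K, G, G1, D2⟩ =
      kN0 rC a d v c e2 +
      kN1 rC a d v c e2 * D2 +
      kN2 rC a d v c e2 * D2 ^ 2 +
      kN3 rC a d v c e2 * (g * W1) +
      kN4 rC a d v c e2 * (g * K) +
      kN5 rC a d v c e2 * (g * E) +
      kN6 rC a d v c e2 * (g * E) * D2 +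
      kN7 rC a d v c e2 * (g * E) ^ 2 +
      kN8 rC a d v c e2 * (g * W) +
      kN9 rC a d v c e2 * (g * W) * D2 +
      kN10 rC a d v c e2 * (g * W) * G +
      kN11 rC a d v c e2 * (g * W) * (g * E) +
      kN12 rC a d v c e2 * (g * W) ^ 2 := by
  simp only [rC, kN0, kN1, kN2, kN3, kN4, kN5, kN6, kN7, kN8, kN9, kN10, kN11, kN12,
    ClosedGen.TMGS, ClosedGen.hES, ClosedGen.hE_v, ClosedGen.hE_c, ClosedGen.gES, ClosedGen.gE_k1,
    ClosedGen.gE_w, ClosedGen.gE_c, ClosedGen.gE_1, ClosedGen.hGS, ClosedGen.hG_kc,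
    ClosedGen.hG_g, ClosedGen.hG_c, ClosedGen.hMS, ClosedGen.hM_c, Closed.j1, ClosedGen.gGS,
    ClosedGen.gG_v, ClosedGen.gG_c, ClosedGen.gG_1, ClosedGen.gMS, ClosedGen.gM_1, ClosedGen.LMGS,
    ClosedGen.MG_kw, ClosedGen.MG_kc, ClosedGen.MG_k1, ClosedGen.MG_g, Closed.LMGw, Closed.LMGv,
    Closed.LMGc, Closed.LMGc_000000_1, Closed.LMGc_000000_0, Closed.LMG1, Closed.LMG1_000000_1,
    Closed.LMG1_000000_0]
  push_cast
  ring

theorem expN (x : ℕ → ℝ) (a I X g W W1 R E K G G1 D2 : ℝ) (hx : ∀ i < 4, 0 ≤ x i)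
    (ha : x 3 = a) (hI : x 2 = I) (hX : x 1 = X) :
    ClosedGen.TMGS a (1 - 2 * I - 2 * a) (2 * I * X) g W W1 R
        ⟨a * (1 - 2 * I - a), -(1 - 2 * a - I / 2) * I, E, K, G, G1, D2⟩ =
      a ^ 3 * (1 - 2 * I - a) ^ 3 * ev x cN0 +
      a ^ 3 * I ^ 2 * X * (1 - 2 * I - a) ^ 3 * (1 - 2 * I - 2 * a) ^ 2 * ev x cN1 * D2 +
      a ^ 3 * I ^ 2 * (1 - 2 * I - a) ^ 3 * (1 - 2 * I - 2 * a) ^ 2 * ev x cN2 * D2 ^ 2 +
      a ^ 3 * I ^ 2 * X * (1 - 2 * I - a) ^ 5 * ev x cN3 * (g * W1) +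
      a ^ 3 * I ^ 3 * X ^ 2 * (1 - 2 * I - a) ^ 2 * ev x cN4 * (g * K) +
      a ^ 3 * I ^ 3 * X * (1 - 2 * I - a) ^ 2 * ev x cN5 * (g * E) +
      a ^ 3 * I ^ 3 * X * (1 - 2 * I - a) ^ 2 * (1 - 2 * I - 2 * a) ^ 2 * ev x cN6 * (g * E) * D2 +
      a ^ 3 * I ^ 4 * X ^ 2 * (1 - 2 * I - a) * (1 - 2 * I - 2 * a) ^ 2 * ev x cN7 * (g * E) ^ 2 +
      a ^ 3 * (1 - 2 * I - a) ^ 4 * ev x cN8 * (g * W) +
      a ^ 3 * I ^ 2 * X * (1 - 2 * I - a) ^ 4 * (1 - 2 * I - 2 * a) ^ 2 * ev x cN9 * (g * W) * D2 +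
      a ^ 2 * I ^ 2 * X ^ 2 * (1 - 2 * I - a) ^ 3 * (1 - 2 * I - 2 * a) ^ 3 * ev x cN10 * (g * W) * G +
      a ^ 3 * I ^ 3 * X ^ 2 * (1 - 2 * I - a) ^ 3 * (1 - 2 * I - 2 * a) ^ 2 * ev x cN11 * (g * W) * (g * E) +
      a ^ 3 * (1 - 2 * I - a) ^ 5 * ev x cN12 * (g * W) ^ 2 := by
  rw [genN, kN0_eq x a I X hx ha hI hX, kN1_eq x a I X hx ha hI hX, kN2_eq x a I X hx ha hI hX, kN3_eq x a I X hx ha hI hX, kN4_eq x a I X hx ha hI hX, kN5_eq x a I X hx ha hI hX, kN6_eq x a I X hx ha hI hX, kN7_eq x a I X hx ha hI hX, kN8_eq x a I X hx ha hI hX, kN9_eq x a I X hx ha hI hX, kN10_eq x a I X hx ha hI hX, kN11_eq x a I X hx ha hI hX, kN12_eq x a I X hx ha hI hX]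

end Vale.Agent.P100.Calib.Closed.All.SgnNeg
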