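import Vale.Agent.P100.Calib.SlabSignsAllNegEq
import Vale.Agent.P100.Calib.SlabGenClosed

/-!
# `TAS` expanded below the crossing
-/

set_option linter.unusedSimpArgs false
set_option linter.unusedVariables false

namespace Vale.Agent.P100.Calib.Closed.All.SgnNeg

open BoxPos

local instance expTAdd : Add Ex := ⟨Ex.add⟩
local instance expTSub : Sub Ex := ⟨Ex.sub⟩
local instance expTMul : Mul Ex := ⟨Ex.mul⟩

/-- A coefficient. -/
def kT0 {α : Type} [Add α] [Mul α] (C : ℤ → ℕ → α) (a d v c e2 : α) : α :=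
  (((((((((((((((C (-16) 1) * e2 * e2)) * v * v * v * v * v * v) * d + ((((((C 128 1) * e2 + (C
    (-16) 1))) * c + ((C (-128) 1) * e2 * e2))) * v * v * v * v * v)) * d + ((((((C (-256) 1)) * c
    + (((C 640 1) * e2 + (C (-16) 1)))) * c + ((C (-384) 1) * e2 * e2))) * v * v * v * v)) * d +
    ((((((C (-512) 1)) * c + ((C 1024 1) * e2)) * c + ((C (-512) 1) * e2 * e2))) * v * v * v)) * d
    + ((((((C (-256) 1)) * c + ((C 512 1) * e2)) * c + ((C (-256) 1) * e2 * e2))) * v * v))) * a +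
    ((((((((((C (-56) 1) * e2 * e2)) * v * v * v * v * v * v) * d + ((((((C (-32) 1) * e2) * c +
    ((C (-8) 1) * e2 * e2))) * v + (((((C 448 1) * e2 + (C (-56) 1))) * c + ((C (-448) 1) * e2 *
    e2)))) * v * v * v * v * v)) * d + (((((((C 128 1)) * c + ((C (-24) 1))) * c + ((C (-64) 1) *
    e2 * e2))) * v + (((((C (-896) 1)) * c + (((C 2240 1) * e2 + (C (-56) 1)))) * c + ((C (-1344)
    1) * e2 * e2)))) * v * v * v * v)) * d + (((((((C (-256) 1)) * c + (((C 512 1) * e2 + (C (-24)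
    1)))) * c + ((C (-192) 1) * e2 * e2))) * v + (((((C (-1792) 1)) * c + ((C 3584 1) * e2)) * c +
    ((C (-1792) 1) * e2 * e2)))) * v * v * v)) * d + (((((((C (-768) 1)) * c + ((C 1024 1) * e2))
    * c + ((C (-256) 1) * e2 * e2))) * v + (((((C (-896) 1)) * c + ((C 1792 1) * e2)) * c + ((C
    (-896) 1) * e2 * e2)))) * v * v)) * d + ((((((C (-384) 1)) * c + ((C 512 1) * e2)) * c + ((C
    (-128) 1) * e2 * e2))) * v * v)))) * a + (((((((((((C (-72) 1) * e2 * e2)) * v * v * v * v * v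
    * v) * d + ((((((C (-80) 1) * e2) * c + ((C (-24) 1) * e2 * e2))) * v + (((((C 608 1) * e2 +
    (C (-76) 1))) * c + ((C (-576) 1) * e2 * e2)))) * v * v * v * v * v)) * d + (((((((C (-16) 1))
    * c + ((C (-16) 1) * e2)) * c) * v + (((((C 320 1)) * c + (((C 128 1) * e2 + (C (-72) 1)))) *
    c + ((C (-192) 1) * e2 * e2)))) * v + (((((C (-1280) 1)) * c + (((C 3040 1) * e2 + (C (-76)
    1)))) * c + ((C (-1728) 1) * e2 * e2)))) * v * v * v * v)) * d + (((((((C (-128) 1)) * c +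
    (((C 64 1) * e2 + (C (-12) 1)))) * c) * v + (((((C (-1088) 1)) * c + (((C 1952 1) * e2 + (C
    (-72) 1)))) * c + ((C (-576) 1) * e2 * e2)))) * v + (((((C (-2560) 1)) * c + ((C 4864 1) *
    e2)) * c + ((C (-2304) 1) * e2 * e2)))) * v * v * v)) * d + (((((((C (-704) 1)) * c + (((C 576
    1) * e2 + (C (-12) 1)))) * c) * v + (((((C (-2944) 1)) * c + ((C 3776 1) * e2)) * c + ((C
    (-768) 1) * e2 * e2)))) * v + (((((C (-1280) 1)) * c + ((C 2432 1) * e2)) * c + ((C (-1152) 1)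
    * e2 * e2)))) * v * v)) * d + ((((((C (-1152) 1)) * c + ((C 1024 1) * e2)) * c) * v + (((((C
    (-1792) 1)) * c + ((C 2176 1) * e2)) * c + ((C (-384) 1) * e2 * e2)))) * v * v)) * d + ((((((C
    (-576) 1)) * c + ((C 512 1) * e2)) * c) * v + ((((C (-256) 1)) * c + ((C 256 1) * e2)) * c)) *
    v)))) * a + ((((((((((((C (-40) 1) * e2 * e2)) * v * v * v * v * v * v) * d + ((((((C (-64) 1)
    * e2) * c + ((C (-24) 1) * e2 * e2))) * v + (((((C 400 1) * e2 + (C (-50) 1))) * c + ((C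
    (-320) 1) * e2 * e2)))) * v * v * v * v * v)) * d + (((((((C (-24) 1)) * c + ((C (-32) 1) *
    e2)) * c) * v + (((((C 288 1)) * c + (((C 320 1) * e2 + (C (-78) 1)))) * c + ((C (-192) 1) *
    e2 * e2)))) * v + (((((C (-960) 1)) * c + (((C 2000 1) * e2 + (C (-50) 1)))) * c + ((C (-960)
    1) * e2 * e2)))) * v * v * v * v)) * d + (((((((C (-8) 1)) * c * c) * v + ((((C (-192) 1)) * c
    + (((C 96 1) * e2 + (C (-30) 1)))) * c)) * v + (((((C (-1696) 1)) * c + (((C 2704 1) * e2 + (C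
    (-78) 1)))) * c + ((C (-576) 1) * e2 * e2)))) * v + (((((C (-1920) 1)) * c + ((C 3200 1) *
    e2)) * c + ((C (-1280) 1) * e2 * e2)))) * v * v * v)) * d + ((((((((C (-64) 1)) * c + (((C
    (-16) 1) * e2 + (C (-2) 1)))) * c) * v + ((((C (-1088) 1)) * c + (((C 752 1) * e2 + (C (-30)
    1)))) * c)) * v + (((((C (-4288) 1)) * c + ((C 5088 1) * e2)) * c + ((C (-768) 1) * e2 *
    e2)))) * v + (((((C (-960) 1)) * c + ((C 1600 1) * e2)) * c + ((C (-640) 1) * e2 * e2)))) * v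
    * v)) * d + (((((((C (-96) 1)) * c + (((C (-80) 1) * e2 + (C (-2) 1)))) * c) * v + ((((C
    (-1152) 1)) * c + ((C 608 1) * e2)) * c)) * v + (((((C (-2944) 1)) * c + ((C 3264 1) * e2)) *
    c + ((C (-384) 1) * e2 * e2)))) * v * v)) * d + (((((((C (-64) 1)) * c + ((C (-128) 1) * e2))
    * c) * v + ((((C 480 1)) * c + ((C (-960) 1) * e2)) * c)) * v + ((((C (-640) 1)) * c + ((C 640
    1) * e2)) * c)) * v)) * d + ((((((C (-32) 1)) * c + ((C (-64) 1) * e2)) * c) * v + ((((C 768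
    1)) * c + ((C (-896) 1) * e2)) * c)) * v)))) * a + (((((((((((((C (-8) 1) * e2 * e2)) * v * v
    * v * v * v * v) * d + ((((((C (-16) 1) * e2) * c + ((C (-8) 1) * e2 * e2))) * v + (((((C 128
    1) * e2 + (C (-16) 1))) * c + ((C (-64) 1) * e2 * e2)))) * v * v * v * v * v)) * d + (((((((C
    (-8) 1)) * c + ((C (-16) 1) * e2)) * c) * v + (((((C 112 1)) * c + (((C 256 1) * e2 + (C (-36)
    1)))) * c + ((C (-64) 1) * e2 * e2)))) * v + (((((C (-400) 1)) * c + (((C 640 1) * e2 + (C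
    (-16) 1)))) * c + ((C (-192) 1) * e2 * e2)))) * v * v * v * v)) * d + (((((((C (-8) 1)) * c *
    c) * v + ((((C (-64) 1)) * c + ((C (-24) 1))) * c)) * v + (((((C (-1232) 1)) * c + (((C 1600
    1) * e2 + (C (-36) 1)))) * c + ((C (-192) 1) * e2 * e2)))) * v + (((((C (-800) 1)) * c + ((C
    1024 1) * e2)) * c + ((C (-256) 1) * e2 * e2)))) * v * v * v)) * d + ((((((((C (-64) 1)) * c +
    (((C (-32) 1) * e2 + (C (-4) 1)))) * c) * v + ((((C (-352) 1)) * c + (((C (-224) 1) * e2 + (C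
    (-24) 1)))) * c)) * v + (((((C (-2976) 1)) * c + ((C 2944 1) * e2)) * c + ((C (-256) 1) * e2 *
    e2)))) * v + (((((C (-400) 1)) * c + ((C 512 1) * e2)) * c + ((C (-128) 1) * e2 * e2)))) * v *
    v)) * d + (((((((C 16 1)) * c * c) * v + ((((C 80 1)) * c + (((C (-160) 1) * e2 + (C (-4)
    1)))) * c)) * v + ((((C 640 1)) * c + ((C (-1856) 1) * e2)) * c)) * v + (((((C (-2208) 1)) * c
    + ((C 2048 1) * e2)) * c + ((C (-128) 1) * e2 * e2)))) * v * v)) * d + (((((((C 96 1)) * c *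
    c) * v + ((((C 480 1)) * c + ((C (-256) 1) * e2)) * c)) * v + ((((C 2272 1)) * c + ((C (-3456)
    1) * e2)) * c)) * v + ((((C (-576) 1)) * c + ((C 512 1) * e2)) * c)) * v)) * d + ((((((C 160
    1)) * c * c) * v + ((((C 576 1)) * c + ((C (-128) 1) * e2)) * c)) * v + ((((C 1344 1)) * c +
    ((C (-1792) 1) * e2)) * c)) * v)) * d + ((((((C 80 1)) * c * c) * v + (((C 256 1)) * c * c)) *
    v + (((C (-64) 1)) * c * c)))))) * a + ((((((((((((((C 16 1) * e2 + (C (-2) 1))) * c) * v * v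
    * v * v * v) * d + ((((((C 16 1)) * c + (((C 64 1) * e2 + (C (-6) 1)))) * c) * v + ((((C (-88)
    1)) * c + (((C 80 1) * e2 + (C (-2) 1)))) * c)) * v * v * v * v)) * d + (((((((C (-32) 1) * e2
    + (C (-6) 1))) * c) * v + ((((C (-424) 1)) * c + (((C 336 1) * e2 + (C (-6) 1)))) * c)) * v +
    ((((C (-176) 1)) * c + ((C 128 1) * e2)) * c)) * v * v * v)) * d + ((((((((C (-16) 1) * e2 +
    (C (-2) 1))) * c) * v + ((((C 56 1)) * c + (((C (-400) 1) * e2 + (C (-6) 1)))) * c)) * v +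
    ((((C (-992) 1)) * c + ((C 608 1) * e2)) * c)) * v + ((((C (-88) 1)) * c + ((C 64 1) * e2)) *
    c)) * v * v)) * d + (((((((C 16 1)) * c * c) * v + ((((C 232 1)) * c + (((C (-80) 1) * e2 + (C
    (-2) 1)))) * c)) * v + ((((C 816 1)) * c + ((C (-1440) 1) * e2)) * c)) * v + ((((C (-776) 1))
    * c + ((C 448 1) * e2)) * c)) * v * v)) * d + (((((((C 72 1)) * c * c) * v + ((((C 720 1)) * c
    + ((C (-128) 1) * e2)) * c)) * v + ((((C 1488 1)) * c + ((C (-1984) 1) * e2)) * c)) * v +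
    ((((C (-224) 1)) * c + ((C 128 1) * e2)) * c)) * v)) * d + (((((((C (-8) 1)) * c * c) * v +
    (((C 32 1)) * c * c)) * v + ((((C 784 1)) * c + ((C (-64) 1) * e2)) * c)) * v + ((((C 672 1))
    * c + ((C (-896) 1) * e2)) * c)) * v)) * d + (((((((C (-16) 1)) * c * c) * v + (((C (-120) 1))
    * c * c)) * v + (((C 288 1)) * c * c)) * v + (((C (-96) 1)) * c * c)))) * d + ((((((C (-8) 1))
    * c * c) * v + (((C (-96) 1)) * c * c)) * v + (((C (-32) 1)) * c * c)))))) * a + ((((((((((((C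
    (-8) 1)) * c * c) * v * v * v * v) * d + (((((C (-56) 1)) * c * c) * v + (((C (-16) 1)) * c *
    c)) * v * v * v)) * d + ((((((C 24 1)) * c * c) * v + (((C (-128) 1)) * c * c)) * v + (((C
    (-8) 1)) * c * c)) * v * v)) * d + ((((((C 56 1)) * c * c) * v + (((C 176 1)) * c * c)) * v +
    (((C (-104) 1)) * c * c)) * v * v)) * d + (((((((C (-24) 1)) * c * c) * v + (((C 176 1)) * c *
    c)) * v + (((C 272 1)) * c * c)) * v + (((C (-32) 1)) * c * c)) * v)) * d + (((((((C (-8) 1))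
    * c * c) * v + (((C (-128) 1)) * c * c)) * v + (((C 176 1)) * c * c)) * v + (((C 96 1)) * c *
    c)) * v)) * d + (((((((C (-16) 1)) * c * c) * v + (((C (-200) 1)) * c * c)) * v + (((C 32 1))
    * c * c)) * v + (((C (-32) 1)) * c * c)))) * d + ((((((C (-8) 1)) * c * c) * v + (((C (-96)
    1)) * c * c)) * v + (((C (-32) 1)) * c * c)))) * d)) * a

theorem kT0_up : Ex.checkNonneg ((kT0 (fun n d => nC n d) .x₃ eD eV (.x₃ * eB) eE2) - (cT0 * .x₃ * .x₃ * .x₃ * eB * eB * eB)) boxId 40 ⟨0, 6, 18, 13⟩ = true := by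
  decide +kernel

theorem kT0_down : Ex.checkNonneg ((cT0 * .x₃ * .x₃ * .x₃ * eB * eB * eB) - (kT0 (fun n d => nC n d) .x₃ eD eV (.x₃ * eB) eE2)) boxId 40 ⟨0, 6, 18, 13⟩ = true := by
  decide +kernel

theorem kT0_eq (x : ℕ → ℝ) (a I X : ℝ) (hx : ∀ i < 4, 0 ≤ x i) (ha : x 3 = a) (hI : x 2 = I)
    (hX : x 1 = X) :
    kT0 rC a (1 - 2 * I - 2 * a) (2 * I * X) (a * (1 - 2 * I - a)) (-(1 - 2 * a - I / 2) * I) =
      a ^ 3 * (1 - 2 * I - a) ^ 3 * ev x cT0 := by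
  subst ha hI hX
  have h := eq_of_checks kT0_up kT0_down hx
  obtain ⟨h3, hd, hv, hc, he, hb⟩ := ev_args x (by simp only [pd, pb, pS]; ring)
  have e : ev x (kT0 (fun n d => nC n d) .x₃ eD eV (.x₃ * eB) eE2) = kT0 rC (ev x .x₃) (ev x eD) (ev x eV) (ev x (.x₃ * eB)) (ev x eE2) := rfl
  rw [e, h3, hd, hv, hc, he] at h
  rw [h]
  simp only [ev_mul, ev_x₁, ev_x₂, ev_x₃, hd, hb]
  ring

/-- A coefficient. -/
def kT1 {α : Type} [Add α] [Mul α] (C : ℤ → ℕ → α) (a d v c e2 : α) : α :=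
  (((((((((((((C (-32) 1)) * c) * v * v * v * v * v) * d + ((((C (-160) 1)) * c) * v * v * v * v))
    * d + ((((C (-256) 1)) * c) * v * v * v)) * d + ((((C (-128) 1)) * c) * v * v)) * d * d) * a +
    (((((((((C (-112) 1)) * c) * v * v * v * v * v) * d + (((((C (-16) 1)) * c) * v + (((C (-560)
    1)) * c)) * v * v * v * v)) * d + (((((C (-80) 1)) * c) * v + (((C (-896) 1)) * c)) * v * v *
    v)) * d + (((((C (-128) 1)) * c) * v + (((C (-448) 1)) * c)) * v * v)) * d + ((((C (-64) 1)) *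
    c) * v * v)) * d * d)) * a + ((((((((((C (-152) 1)) * c) * v * v * v * v * v) * d + (((((C
    (-48) 1)) * c) * v + (((C (-760) 1)) * c)) * v * v * v * v)) * d + ((((((C 8 1)) * c) * v +
    (((C (-240) 1)) * c)) * v + (((C (-1216) 1)) * c)) * v * v * v)) * d + ((((((C 40 1)) * c) * v
    + (((C (-384) 1)) * c)) * v + (((C (-608) 1)) * c)) * v * v)) * d + (((((C 64 1)) * c) * v +
    (((C (-192) 1)) * c)) * v * v)) * d + ((((C 32 1)) * c) * v * v)) * d * d)) * a + (((((((((((C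
    (-100) 1)) * c) * v * v * v * v * v) * d + (((((C (-52) 1)) * c) * v + (((C (-500) 1)) * c)) *
    v * v * v * v)) * d + ((((((C 20 1)) * c) * v + (((C (-260) 1)) * c)) * v + (((C (-800) 1)) *
    c)) * v * v * v)) * d + (((((((C 4 1)) * c) * v + (((C 100 1)) * c)) * v + (((C (-416) 1)) *
    c)) * v + (((C (-400) 1)) * c)) * v * v)) * d + ((((((C 20 1)) * c) * v + (((C 160 1)) * c)) *
    v + (((C (-208) 1)) * c)) * v * v)) * d + (((((C 32 1)) * c) * v + (((C 80 1)) * c)) * v * v))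
    * d + ((((C 16 1)) * c) * v * v)) * d * d)) * a + (((((((((((C (-32) 1)) * c) * v * v * v * v
    * v) * d + (((((C (-24) 1)) * c) * v + (((C (-160) 1)) * c)) * v * v * v * v)) * d + ((((((C
    16 1)) * c) * v + (((C (-120) 1)) * c)) * v + (((C (-256) 1)) * c)) * v * v * v)) * d +
    (((((((C 8 1)) * c) * v + (((C 80 1)) * c)) * v + (((C (-192) 1)) * c)) * v + (((C (-128) 1))
    * c)) * v * v)) * d + ((((((C 40 1)) * c) * v + (((C 128 1)) * c)) * v + (((C (-96) 1)) * c))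
    * v * v)) * d + (((((C 64 1)) * c) * v + (((C 64 1)) * c)) * v * v)) * d + ((((C 32 1)) * c) *
    v * v)) * d * d * d)) * a + (((((((((((C (-4) 1)) * c) * v * v * v * v * v) * d + (((((C (-4)
    1)) * c) * v + (((C (-20) 1)) * c)) * v * v * v * v)) * d + ((((((C 4 1)) * c) * v + (((C
    (-20) 1)) * c)) * v + (((C (-32) 1)) * c)) * v * v * v)) * d + (((((((C 4 1)) * c) * v + (((C
    20 1)) * c)) * v + (((C (-32) 1)) * c)) * v + (((C (-16) 1)) * c)) * v * v)) * d + ((((((C 20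
    1)) * c) * v + (((C 32 1)) * c)) * v + (((C (-16) 1)) * c)) * v * v)) * d + (((((C 32 1)) * c)
    * v + (((C 16 1)) * c)) * v * v)) * d + ((((C 16 1)) * c) * v * v)) * d * d * d * d)) * a * a

theorem kT1_up : Ex.checkNonneg ((kT1 (fun n d => nC n d) .x₃ eD eV (.x₃ * eB) eE2) - (cT1 * .x₃ * .x₃ * .x₃ * .x₂ * .x₂ * .x₂ * .x₁ * .x₁ * eB * eB * eB * eD * eD)) boxId 38 ⟨0, 5, 16, 14⟩ = true := by
  decide +kernel

theorem kT1_down : Ex.checkNonneg ((cT1 * .x₃ * .x₃ * .x₃ * .x₂ * .x₂ * .x₂ * .x₁ * .x₁ * eB * eB * eB * eD * eD) - (kT1 (fun n d => nC n d) .x₃ eD eV (.x₃ * eB) eE2)) boxId 38 ⟨0, 5, 16, 14⟩ = true := by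
  decide +kernel

theorem kT1_eq (x : ℕ → ℝ) (a I X : ℝ) (hx : ∀ i < 4, 0 ≤ x i) (ha : x 3 = a) (hI : x 2 = I)
    (hX : x 1 = X) :
    kT1 rC a (1 - 2 * I - 2 * a) (2 * I * X) (a * (1 - 2 * I - a)) (-(1 - 2 * a - I / 2) * I) =
      a ^ 3 * I ^ 3 * X ^ 2 * (1 - 2 * I - a) ^ 3 * (1 - 2 * I - 2 * a) ^ 2 * ev x cT1 := by
  subst ha hI hX
  have h := eq_of_checks kT1_up kT1_down hx
  obtain ⟨h3, hd, hv, hc, he, hb⟩ := ev_args x (by simp only [pd, pb, pS]; ring)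
  have e : ev x (kT1 (fun n d => nC n d) .x₃ eD eV (.x₃ * eB) eE2) = kT1 rC (ev x .x₃) (ev x eD) (ev x eV) (ev x (.x₃ * eB)) (ev x eE2) := rfl
  rw [e, h3, hd, hv, hc, he] at h
  rw [h]
  simp only [ev_mul, ev_x₁, ev_x₂, ev_x₃, hd, hb]
  ring

/-- A coefficient. -/
def kT2 {α : Type} [Add α] [Mul α] (C : ℤ → ℕ → α) (a d v c e2 : α) : α :=
  (((((((((((((((C (-16) 1)) * c) * v * v * v * v * v) * d + ((((C (-144) 1)) * c) * v * v * v *
    v)) * d + ((((C (-512) 1)) * c) * v * v * v)) * d + ((((C (-896) 1)) * c) * v * v)) * d +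
    ((((C (-768) 1)) * c) * v)) * d + ((((C (-256) 1)) * c))) * d * d) * a + (((((((((((C (-56)
    1)) * c) * v * v * v * v * v) * d + (((((C 8 1)) * c) * v + (((C (-504) 1)) * c)) * v * v * v
    * v)) * d + (((((C 72 1)) * c) * v + (((C (-1792) 1)) * c)) * v * v * v)) * d + (((((C 256 1))
    * c) * v + (((C (-3136) 1)) * c)) * v * v)) * d + (((((C 448 1)) * c) * v + (((C (-2688) 1)) *
    c)) * v)) * d + (((((C 384 1)) * c) * v + (((C (-896) 1)) * c)))) * d + ((((C 128 1)) * c))) *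
    d * d)) * a + ((((((((((((C (-76) 1)) * c) * v * v * v * v * v) * d + (((((C 24 1)) * c) * v +
    (((C (-684) 1)) * c)) * v * v * v * v)) * d + ((((((C 4 1)) * c) * v + (((C 216 1)) * c)) * v
    + (((C (-2432) 1)) * c)) * v * v * v)) * d + ((((((C 36 1)) * c) * v + (((C 768 1)) * c)) * v
    + (((C (-4256) 1)) * c)) * v * v)) * d + ((((((C 128 1)) * c) * v + (((C 1344 1)) * c)) * v +
    (((C (-3648) 1)) * c)) * v)) * d + ((((((C 224 1)) * c) * v + (((C 1152 1)) * c)) * v + (((C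
    (-1216) 1)) * c)))) * d + (((((C 192 1)) * c) * v + (((C 384 1)) * c)))) * d + ((((C 64 1)) *
    c))) * d * d)) * a + (((((((((((((C (-50) 1)) * c) * v * v * v * v * v) * d + (((((C 26 1)) *
    c) * v + (((C (-450) 1)) * c)) * v * v * v * v)) * d + ((((((C 10 1)) * c) * v + (((C 234 1))
    * c)) * v + (((C (-1600) 1)) * c)) * v * v * v)) * d + (((((((C (-2) 1)) * c) * v + (((C 90
    1)) * c)) * v + (((C 832 1)) * c)) * v + (((C (-2800) 1)) * c)) * v * v)) * d + (((((((C (-18)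
    1)) * c) * v + (((C 320 1)) * c)) * v + (((C 1456 1)) * c)) * v + (((C (-2400) 1)) * c)) * v))
    * d + (((((((C (-64) 1)) * c) * v + (((C 560 1)) * c)) * v + (((C 1248 1)) * c)) * v + (((C
    (-800) 1)) * c)))) * d + ((((((C (-112) 1)) * c) * v + (((C 480 1)) * c)) * v + (((C 416 1)) *
    c)))) * d + (((((C (-96) 1)) * c) * v + (((C 160 1)) * c)))) * d + ((((C (-32) 1)) * c))) * d
    * d)) * a + (((((((((((((C (-16) 1)) * c) * v * v * v * v * v) * d + (((((C 12 1)) * c) * v +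
    (((C (-144) 1)) * c)) * v * v * v * v)) * d + ((((((C 8 1)) * c) * v + (((C 108 1)) * c)) * v
    + (((C (-512) 1)) * c)) * v * v * v)) * d + (((((((C (-4) 1)) * c) * v + (((C 72 1)) * c)) * v
    + (((C 384 1)) * c)) * v + (((C (-896) 1)) * c)) * v * v)) * d + (((((((C (-36) 1)) * c) * v +
    (((C 256 1)) * c)) * v + (((C 672 1)) * c)) * v + (((C (-768) 1)) * c)) * v)) * d + (((((((C
    (-128) 1)) * c) * v + (((C 448 1)) * c)) * v + (((C 576 1)) * c)) * v + (((C (-256) 1)) *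
    c)))) * d + ((((((C (-224) 1)) * c) * v + (((C 384 1)) * c)) * v + (((C 192 1)) * c)))) * d +
    (((((C (-192) 1)) * c) * v + (((C 128 1)) * c)))) * d + ((((C (-64) 1)) * c))) * d * d * d)) *
    a + (((((((((((((C (-2) 1)) * c) * v * v * v * v * v) * d + (((((C 2 1)) * c) * v + (((C (-18)
    1)) * c)) * v * v * v * v)) * d + ((((((C 2 1)) * c) * v + (((C 18 1)) * c)) * v + (((C (-64)
    1)) * c)) * v * v * v)) * d + (((((((C (-2) 1)) * c) * v + (((C 18 1)) * c)) * v + (((C 64 1))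
    * c)) * v + (((C (-112) 1)) * c)) * v * v)) * d + (((((((C (-18) 1)) * c) * v + (((C 64 1)) *
    c)) * v + (((C 112 1)) * c)) * v + (((C (-96) 1)) * c)) * v)) * d + (((((((C (-64) 1)) * c) *
    v + (((C 112 1)) * c)) * v + (((C 96 1)) * c)) * v + (((C (-32) 1)) * c)))) * d + ((((((C
    (-112) 1)) * c) * v + (((C 96 1)) * c)) * v + (((C 32 1)) * c)))) * d + (((((C (-96) 1)) * c)
    * v + (((C 32 1)) * c)))) * d + ((((C (-32) 1)) * c))) * d * d * d * d)) * a * a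

theorem kT2_up : Ex.checkNonneg ((kT2 (fun n d => nC n d) .x₃ eD eV (.x₃ * eB) eE2) - (cT2 * .x₃ * .x₃ * .x₃ * .x₂ * .x₂ * eB * eB * eB * eD * eD)) boxId 42 ⟨0, 5, 18, 16⟩ = true := by
  decide +kernel

theorem kT2_down : Ex.checkNonneg ((cT2 * .x₃ * .x₃ * .x₃ * .x₂ * .x₂ * eB * eB * eB * eD * eD) - (kT2 (fun n d => nC n d) .x₃ eD eV (.x₃ * eB) eE2)) boxId 42 ⟨0, 5, 18, 16⟩ = true := by
  decide +kernel

theorem kT2_eq (x : ℕ → ℝ) (a I X : ℝ) (hx : ∀ i < 4, 0 ≤ x i) (ha : x 3 = a) (hI : x 2 = I)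
    (hX : x 1 = X) :
    kT2 rC a (1 - 2 * I - 2 * a) (2 * I * X) (a * (1 - 2 * I - a)) (-(1 - 2 * a - I / 2) * I) =
      a ^ 3 * I ^ 2 * (1 - 2 * I - a) ^ 3 * (1 - 2 * I - 2 * a) ^ 2 * ev x cT2 := by
  subst ha hI hX
  have h := eq_of_checks kT2_up kT2_down hx
  obtain ⟨h3, hd, hv, hc, he, hb⟩ := ev_args x (by simp only [pd, pb, pS]; ring)
  have e : ev x (kT2 (fun n d => nC n d) .x₃ eD eV (.x₃ * eB) eE2) = kT2 rC (ev x .x₃) (ev x eD) (ev x eV) (ev x (.x₃ * eB)) (ev x eE2) := rfl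
  rw [e, h3, hd, hv, hc, he] at h
  rw [h]
  simp only [ev_mul, ev_x₁, ev_x₂, ev_x₃, hd, hb]
  ring

/-- A coefficient. -/
def kT3 {α : Type} [Add α] [Mul α] (C : ℤ → ℕ → α) (a d v c e2 : α) : α :=
  (((((((((((C (-32) 1)) * c * c) * v * v * v) * d + ((((C (-96) 1)) * c * c) * v * v)) * d +
    ((((C (-64) 1)) * c * c) * v))) * a + ((((((((C (-112) 1)) * c * c) * v * v * v) * d + (((((C
    (-16) 1)) * c * c) * v + (((C (-336) 1)) * c * c)) * v * v)) * d + (((((C (-48) 1)) * c * c) *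
    v + (((C (-224) 1)) * c * c)) * v)) * d + ((((C (-32) 1)) * c * c) * v)))) * a + ((((((((C
    (-144) 1)) * c * c) * v * v * v) * d + (((((C (-48) 1)) * c * c) * v + (((C (-432) 1)) * c *
    c)) * v * v)) * d + (((((C (-144) 1)) * c * c) * v + (((C (-288) 1)) * c * c)) * v)) * d +
    ((((C (-96) 1)) * c * c) * v)) * d)) * a + ((((((((C (-80) 1)) * c * c) * v * v * v) * d +
    (((((C (-48) 1)) * c * c) * v + (((C (-240) 1)) * c * c)) * v * v)) * d + (((((C (-144) 1)) *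
    c * c) * v + (((C (-160) 1)) * c * c)) * v)) * d + ((((C (-96) 1)) * c * c) * v)) * d * d)) *
    a + ((((((((C (-16) 1)) * c * c) * v * v * v) * d + (((((C (-16) 1)) * c * c) * v + (((C (-48)
    1)) * c * c)) * v * v)) * d + (((((C (-48) 1)) * c * c) * v + (((C (-32) 1)) * c * c)) * v)) *
    d + ((((C (-32) 1)) * c * c) * v)) * d * d * d)) * a

theorem kT3_up : Ex.checkNonneg ((kT3 (fun n d => nC n d) .x₃ eD eV (.x₃ * eB) eE2) - (cT3 * .x₃ * .x₃ * .x₃ * .x₂ * .x₁ * eB * eB * eB * eB * eB)) boxId 29 ⟨0, 3, 11, 11⟩ = true := by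
  decide +kernel

theorem kT3_down : Ex.checkNonneg ((cT3 * .x₃ * .x₃ * .x₃ * .x₂ * .x₁ * eB * eB * eB * eB * eB) - (kT3 (fun n d => nC n d) .x₃ eD eV (.x₃ * eB) eE2)) boxId 29 ⟨0, 3, 11, 11⟩ = true := by
  decide +kernel

theorem kT3_eq (x : ℕ → ℝ) (a I X : ℝ) (hx : ∀ i < 4, 0 ≤ x i) (ha : x 3 = a) (hI : x 2 = I)
    (hX : x 1 = X) :
    kT3 rC a (1 - 2 * I - 2 * a) (2 * I * X) (a * (1 - 2 * I - a)) (-(1 - 2 * a - I / 2) * I) =
      a ^ 3 * I * X * (1 - 2 * I - a) ^ 5 * ev x cT3 := by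
  subst ha hI hX
  have h := eq_of_checks kT3_up kT3_down hx
  obtain ⟨h3, hd, hv, hc, he, hb⟩ := ev_args x (by simp only [pd, pb, pS]; ring)
  have e : ev x (kT3 (fun n d => nC n d) .x₃ eD eV (.x₃ * eB) eE2) = kT3 rC (ev x .x₃) (ev x eD) (ev x eV) (ev x (.x₃ * eB)) (ev x eE2) := rfl
  rw [e, h3, hd, hv, hc, he] at h
  rw [h]
  simp only [ev_mul, ev_x₁, ev_x₂, ev_x₃, hd, hb]
  ring

/-- A coefficient. -/
def kT4 {α : Type} [Add α] [Mul α] (C : ℤ → ℕ → α) (a d v c e2 : α) : α :=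
  (((((((((C 64 1)) * c) * v * v * v * v) * d + ((((C 192 1)) * c) * v * v * v)) * d + ((((C 128
    1)) * c) * v * v))) * a + ((((((((C 96 1)) * c) * v * v * v * v) * d + (((((C (-32) 1)) * c) *
    v + (((C 288 1)) * c)) * v * v * v)) * d + (((((C (-96) 1)) * c) * v + (((C 192 1)) * c)) * v
    * v)) * d + ((((C (-64) 1)) * c) * v * v)))) * a + ((((((((C 32 1)) * c) * v * v * v * v) * d
    + (((((C (-32) 1)) * c) * v + (((C 96 1)) * c)) * v * v * v)) * d + (((((C (-96) 1)) * c) * v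
    + (((C 64 1)) * c)) * v * v)) * d + ((((C (-64) 1)) * c) * v * v)) * d)) * a * a

theorem kT4_up : Ex.checkNonneg ((kT4 (fun n d => nC n d) .x₃ eD eV (.x₃ * eB) eE2) - (cT4 * .x₃ * .x₃ * .x₃ * .x₂ * .x₂ * .x₂ * .x₁ * .x₁ * eB * eB)) boxId 24 ⟨0, 4, 9, 8⟩ = true := by
  decide +kernel

theorem kT4_down : Ex.checkNonneg ((cT4 * .x₃ * .x₃ * .x₃ * .x₂ * .x₂ * .x₂ * .x₁ * .x₁ * eB * eB) - (kT4 (fun n d => nC n d) .x₃ eD eV (.x₃ * eB) eE2)) boxId 24 ⟨0, 4, 9, 8⟩ = true := by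
  decide +kernel

theorem kT4_eq (x : ℕ → ℝ) (a I X : ℝ) (hx : ∀ i < 4, 0 ≤ x i) (ha : x 3 = a) (hI : x 2 = I)
    (hX : x 1 = X) :
    kT4 rC a (1 - 2 * I - 2 * a) (2 * I * X) (a * (1 - 2 * I - a)) (-(1 - 2 * a - I / 2) * I) =
      a ^ 3 * I ^ 3 * X ^ 2 * (1 - 2 * I - a) ^ 2 * ev x cT4 := by
  subst ha hI hX
  have h := eq_of_checks kT4_up kT4_down hx
  obtain ⟨h3, hd, hv, hc, he, hb⟩ := ev_args x (by simp only [pd, pb, pS]; ring)
  have e : ev x (kT4 (fun n d => nC n d) .x₃ eD eV (.x₃ * eB) eE2) = kT4 rC (ev x .x₃) (ev x eD) (ev x eV) (ev x (.x₃ * eB)) (ev x eE2) := rfl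
  rw [e, h3, hd, hv, hc, he] at h
  rw [h]
  simp only [ev_mul, ev_x₁, ev_x₂, ev_x₃, hd, hb]
  ring

/-- A coefficient. -/
def kT5 {α : Type} [Add α] [Mul α] (C : ℤ → ℕ → α) (a d v c e2 : α) : α :=
  ((((((((((C 32 1)) * c) * v * v * v * v) * d + ((((C 32 1)) * c) * v * v * v)) * d * d) * a +
    (((((((((C 80 1)) * c) * v * v * v * v) * d + (((((C (-112) 1)) * c) * v + (((C 80 1)) * c)) *
    v * v * v)) * d + ((((C (-240) 1)) * c) * v * v * v)) * d + ((((C (-256) 1)) * c) * v * v)) *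
    d + ((((C (-128) 1)) * c) * v)))) * a + ((((((((((C 72 1)) * c) * v * v * v * v) * d + (((((C
    (-208) 1)) * c) * v + (((C 72 1)) * c)) * v * v * v)) * d + (((((C 40 1)) * c) * v + (((C
    (-432) 1)) * c)) * v * v * v)) * d + (((((C 104 1)) * c) * v + (((C (-480) 1)) * c)) * v * v))
    * d + (((((C 192 1)) * c) * v + (((C (-256) 1)) * c)) * v)) * d + ((((C 128 1)) * c) * v)))) *
    a + (((((((((((C 28 1)) * c) * v * v * v * v) * d + (((((C (-116) 1)) * c) * v + (((C 28 1)) *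
    c)) * v * v * v)) * d + (((((C 52 1)) * c) * v + (((C (-228) 1)) * c)) * v * v * v)) * d +
    ((((((C 4 1)) * c) * v + (((C 132 1)) * c)) * v + (((C (-272) 1)) * c)) * v * v)) * d +
    ((((((C 4 1)) * c) * v + (((C 272 1)) * c)) * v + (((C (-160) 1)) * c)) * v)) * d + (((((C
    (-32) 1)) * c) * v + (((C 192 1)) * c)) * v)) * d + ((((C (-32) 1)) * c) * v)))) * a +
    (((((((((((C 4 1)) * c) * v * v * v * v) * d + (((((C (-20) 1)) * c) * v + (((C 4 1)) * c)) *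
    v * v * v)) * d + (((((C 12 1)) * c) * v + (((C (-36) 1)) * c)) * v * v * v)) * d + ((((((C 4
    1)) * c) * v + (((C 28 1)) * c)) * v + (((C (-48) 1)) * c)) * v * v)) * d + ((((((C 4 1)) * c)
    * v + (((C 80 1)) * c)) * v + (((C (-32) 1)) * c)) * v)) * d + (((((C (-32) 1)) * c) * v +
    (((C 64 1)) * c)) * v)) * d + ((((C (-32) 1)) * c) * v)) * d)) * a * a

theorem kT5_up : Ex.checkNonneg ((kT5 (fun n d => nC n d) .x₃ eD eV (.x₃ * eB) eE2) - (cT5 * .x₃ * .x₃ * .x₃ * .x₂ * .x₂ * .x₂ * .x₁ * eB * eB)) boxId 30 ⟨0, 4, 12, 11⟩ = true := by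
  decide +kernel

theorem kT5_down : Ex.checkNonneg ((cT5 * .x₃ * .x₃ * .x₃ * .x₂ * .x₂ * .x₂ * .x₁ * eB * eB) - (kT5 (fun n d => nC n d) .x₃ eD eV (.x₃ * eB) eE2)) boxId 30 ⟨0, 4, 12, 11⟩ = true := by
  decide +kernel

theorem kT5_eq (x : ℕ → ℝ) (a I X : ℝ) (hx : ∀ i < 4, 0 ≤ x i) (ha : x 3 = a) (hI : x 2 = I)
    (hX : x 1 = X) :
    kT5 rC a (1 - 2 * I - 2 * a) (2 * I * X) (a * (1 - 2 * I - a)) (-(1 - 2 * a - I / 2) * I) =
      a ^ 3 * I ^ 3 * X * (1 - 2 * I - a) ^ 2 * ev x cT5 := by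
  subst ha hI hX
  have h := eq_of_checks kT5_up kT5_down hx
  obtain ⟨h3, hd, hv, hc, he, hb⟩ := ev_args x (by simp only [pd, pb, pS]; ring)
  have e : ev x (kT5 (fun n d => nC n d) .x₃ eD eV (.x₃ * eB) eE2) = kT5 rC (ev x .x₃) (ev x eD) (ev x eV) (ev x (.x₃ * eB)) (ev x eE2) := rfl
  rw [e, h3, hd, hv, hc, he] at h
  rw [h]
  simp only [ev_mul, ev_x₁, ev_x₂, ev_x₃, hd, hb]
  ring

/-- A coefficient. -/
def kT6 {α : Type} [Add α] [Mul α] (C : ℤ → ℕ → α) (a d v c e2 : α) : α :=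
  ((((((((((((C 32 1)) * c) * v * v * v * v) * d + ((((C 160 1)) * c) * v * v * v)) * d + ((((C
    256 1)) * c) * v * v)) * d + ((((C 128 1)) * c) * v)) * d * d) * a + (((((((((C 80 1)) * c) *
    v * v * v * v) * d + (((((C (-48) 1)) * c) * v + (((C 400 1)) * c)) * v * v * v)) * d + (((((C
    (-240) 1)) * c) * v + (((C 640 1)) * c)) * v * v)) * d + (((((C (-384) 1)) * c) * v + (((C 320
    1)) * c)) * v)) * d + ((((C (-192) 1)) * c) * v)) * d * d)) * a + ((((((((((C 72 1)) * c) * v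
    * v * v * v) * d + (((((C (-96) 1)) * c) * v + (((C 360 1)) * c)) * v * v * v)) * d + ((((((C
    24 1)) * c) * v + (((C (-480) 1)) * c)) * v + (((C 576 1)) * c)) * v * v)) * d + ((((((C 120
    1)) * c) * v + (((C (-768) 1)) * c)) * v + (((C 288 1)) * c)) * v)) * d + (((((C 192 1)) * c)
    * v + (((C (-384) 1)) * c)) * v)) * d + ((((C 96 1)) * c) * v)) * d * d)) * a + (((((((((((C
    28 1)) * c) * v * v * v * v) * d + (((((C (-60) 1)) * c) * v + (((C 140 1)) * c)) * v * v *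
    v)) * d + ((((((C 36 1)) * c) * v + (((C (-300) 1)) * c)) * v + (((C 224 1)) * c)) * v * v)) *
    d + (((((((C (-4) 1)) * c) * v + (((C 180 1)) * c)) * v + (((C (-480) 1)) * c)) * v + (((C 112
    1)) * c)) * v)) * d + ((((((C (-20) 1)) * c) * v + (((C 288 1)) * c)) * v + (((C (-240) 1)) *
    c)) * v)) * d + (((((C (-32) 1)) * c) * v + (((C 144 1)) * c)) * v)) * d + ((((C (-16) 1)) *
    c) * v)) * d * d)) * a + (((((((((((C 4 1)) * c) * v * v * v * v) * d + (((((C (-12) 1)) * c)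
    * v + (((C 20 1)) * c)) * v * v * v)) * d + ((((((C 12 1)) * c) * v + (((C (-60) 1)) * c)) * v
    + (((C 32 1)) * c)) * v * v)) * d + (((((((C (-4) 1)) * c) * v + (((C 60 1)) * c)) * v + (((C
    (-96) 1)) * c)) * v + (((C 16 1)) * c)) * v)) * d + ((((((C (-20) 1)) * c) * v + (((C 96 1)) *
    c)) * v + (((C (-48) 1)) * c)) * v)) * d + (((((C (-32) 1)) * c) * v + (((C 48 1)) * c)) * v))
    * d + ((((C (-16) 1)) * c) * v)) * d * d * d)) * a * a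

theorem kT6_up : Ex.checkNonneg ((kT6 (fun n d => nC n d) .x₃ eD eV (.x₃ * eB) eE2) - (cT6 * .x₃ * .x₃ * .x₃ * .x₂ * .x₂ * .x₂ * .x₂ * .x₁ * eB * eB * eD * eD)) boxId 34 ⟨0, 4, 14, 13⟩ = true := by
  decide +kernel

theorem kT6_down : Ex.checkNonneg ((cT6 * .x₃ * .x₃ * .x₃ * .x₂ * .x₂ * .x₂ * .x₂ * .x₁ * eB * eB * eD * eD) - (kT6 (fun n d => nC n d) .x₃ eD eV (.x₃ * eB) eE2)) boxId 34 ⟨0, 4, 14, 13⟩ = true := by
  decide +kernel

theorem kT6_eq (x : ℕ → ℝ) (a I X : ℝ) (hx : ∀ i < 4, 0 ≤ x i) (ha : x 3 = a) (hI : x 2 = I)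
    (hX : x 1 = X) :
    kT6 rC a (1 - 2 * I - 2 * a) (2 * I * X) (a * (1 - 2 * I - a)) (-(1 - 2 * a - I / 2) * I) =
      a ^ 3 * I ^ 4 * X * (1 - 2 * I - a) ^ 2 * (1 - 2 * I - 2 * a) ^ 2 * ev x cT6 := by
  subst ha hI hX
  have h := eq_of_checks kT6_up kT6_down hx
  obtain ⟨h3, hd, hv, hc, he, hb⟩ := ev_args x (by simp only [pd, pb, pS]; ring)
  have e : ev x (kT6 (fun n d => nC n d) .x₃ eD eV (.x₃ * eB) eE2) = kT6 rC (ev x .x₃) (ev x eD) (ev x eV) (ev x (.x₃ * eB)) (ev x eE2) := rfl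
  rw [e, h3, hd, hv, hc, he] at h
  rw [h]
  simp only [ev_mul, ev_x₁, ev_x₂, ev_x₃, hd, hb]
  ring

/-- A coefficient. -/
def kT7 {α : Type} [Add α] [Mul α] (C : ℤ → ℕ → α) (a d v c e2 : α) : α :=
  (((((((((C (-16) 1)) * c) * v * v * v) * d + ((((C (-16) 1)) * c) * v * v)) * d * d) * a +
    (((((((C (-24) 1)) * c) * v * v * v) * d + (((((C 8 1)) * c) * v + (((C (-24) 1)) * c)) * v *
    v)) * d + ((((C 8 1)) * c) * v * v)) * d * d)) * a + ((((((((C (-12) 1)) * c) * v * v * v) * d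
    + (((((C 8 1)) * c) * v + (((C (-12) 1)) * c)) * v * v)) * d + (((((C 4 1)) * c) * v + (((C 8
    1)) * c)) * v * v)) * d + ((((C 4 1)) * c) * v * v)) * d * d)) * a + (((((((((C (-2) 1)) * c)
    * v * v * v) * d + (((((C 2 1)) * c) * v + (((C (-2) 1)) * c)) * v * v)) * d + (((((C 2 1)) *
    c) * v + (((C 2 1)) * c)) * v * v)) * d + (((((C (-2) 1)) * c) * v + (((C 2 1)) * c)) * v *
    v)) * d + ((((C (-2) 1)) * c) * v * v)) * d * d)) * a * a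

theorem kT7_up : Ex.checkNonneg ((kT7 (fun n d => nC n d) .x₃ eD eV (.x₃ * eB) eE2) - (cT7 * .x₃ * .x₃ * .x₃ * .x₂ * .x₂ * .x₂ * .x₂ * .x₁ * .x₁ * eB * eD * eD)) boxId 24 ⟨0, 3, 10, 10⟩ = true := by
  decide +kernel

theorem kT7_down : Ex.checkNonneg ((cT7 * .x₃ * .x₃ * .x₃ * .x₂ * .x₂ * .x₂ * .x₂ * .x₁ * .x₁ * eB * eD * eD) - (kT7 (fun n d => nC n d) .x₃ eD eV (.x₃ * eB) eE2)) boxId 24 ⟨0, 3, 10, 10⟩ = true := by
  decide +kernel

theorem kT7_eq (x : ℕ → ℝ) (a I X : ℝ) (hx : ∀ i < 4, 0 ≤ x i) (ha : x 3 = a) (hI : x 2 = I)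
    (hX : x 1 = X) :
    kT7 rC a (1 - 2 * I - 2 * a) (2 * I * X) (a * (1 - 2 * I - a)) (-(1 - 2 * a - I / 2) * I) =
      a ^ 3 * I ^ 4 * X ^ 2 * (1 - 2 * I - a) * (1 - 2 * I - 2 * a) ^ 2 * ev x cT7 := by
  subst ha hI hX
  have h := eq_of_checks kT7_up kT7_down hx
  obtain ⟨h3, hd, hv, hc, he, hb⟩ := ev_args x (by simp only [pd, pb, pS]; ring)
  have e : ev x (kT7 (fun n d => nC n d) .x₃ eD eV (.x₃ * eB) eE2) = kT7 rC (ev x .x₃) (ev x eD) (ev x eV) (ev x (.x₃ * eB)) (ev x eE2) := rfl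
  rw [e, h3, hd, hv, hc, he] at h
  rw [h]
  simp only [ev_mul, ev_x₁, ev_x₂, ev_x₃, hd, hb]
  ring

/-- A coefficient. -/
def kT8 {α : Type} [Add α] [Mul α] (C : ℤ → ℕ → α) (a d v c e2 : α) : α :=
  ((((((((((((((C 8 1) * e2) * c) * v * v * v * v * v) * d + (((((C (-48) 1)) * c + ((C 16 1) *
    e2)) * c) * v * v * v * v)) * d + (((((C 16 1)) * c + ((C (-48) 1) * e2)) * c) * v * v * v)) *
    d + (((((C 128 1)) * c + ((C (-128) 1) * e2)) * c) * v * v)) * d + (((((C 64 1)) * c + ((C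
    (-64) 1) * e2)) * c) * v))) * a + ((((((((((C 28 1) * e2) * c) * v * v * v * v * v) * d +
    ((((((C 8 1)) * c + ((C (-12) 1) * e2)) * c) * v + ((((C (-184) 1)) * c + ((C 56 1) * e2)) *
    c)) * v * v * v * v)) * d + ((((((C (-56) 1)) * c + ((C 8 1) * e2)) * c) * v + ((((C 8 1)) * c
    + ((C (-168) 1) * e2)) * c)) * v * v * v)) * d + ((((((C (-184) 1)) * c + ((C 232 1) * e2)) *
    c) * v + ((((C 416 1)) * c + ((C (-448) 1) * e2)) * c)) * v * v)) * d + ((((((C (-256) 1)) * c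
    + ((C 448 1) * e2)) * c) * v + ((((C 224 1)) * c + ((C (-224) 1) * e2)) * c)) * v)) * d +
    (((((C (-128) 1)) * c + ((C 224 1) * e2)) * c) * v)))) * a + (((((((((((C 36 1) * e2) * c) * v
    * v * v * v * v) * d + ((((((C 20 1)) * c + ((C (-36) 1) * e2)) * c) * v + ((((C (-276) 1)) *
    c + ((C 72 1) * e2)) * c)) * v * v * v * v)) * d + ((((((C 4 1)) * c * c) * v + ((((C (-176)
    1)) * c + ((C 24 1) * e2)) * c)) * v + ((((C (-68) 1)) * c + ((C (-216) 1) * e2)) * c)) * v *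
    v * v)) * d + ((((((C (-36) 1)) * c * c) * v + ((((C (-536) 1)) * c + ((C 696 1) * e2)) * c))
    * v + ((((C 512 1)) * c + ((C (-576) 1) * e2)) * c)) * v * v)) * d + ((((((C (-132) 1)) * c *
    c) * v + ((((C (-704) 1)) * c + ((C 1344 1) * e2)) * c)) * v + ((((C 304 1)) * c + ((C (-288)
    1) * e2)) * c)) * v)) * d + (((((C (-160) 1)) * c * c) * v + ((((C (-304) 1)) * c + ((C 672 1)
    * e2)) * c)) * v)) * d + (((((C (-64) 1)) * c * c) * v + (((C 32 1)) * c * c)))))) * a +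
    ((((((((((((C 20 1) * e2) * c) * v * v * v * v * v) * d + ((((((C 16 1)) * c + ((C (-36) 1) *
    e2)) * c) * v + ((((C (-202) 1)) * c + ((C 40 1) * e2)) * c)) * v * v * v * v)) * d + ((((((C
    8 1)) * c * c) * v + ((((C (-202) 1)) * c + ((C 24 1) * e2)) * c)) * v + ((((C (-106) 1)) * c
    + ((C (-120) 1) * e2)) * c)) * v * v * v)) * d + ((((((C (-90) 1)) * c * c) * v + ((((C (-558)
    1)) * c + ((C 696 1) * e2)) * c)) * v + ((((C 296 1)) * c + ((C (-320) 1) * e2)) * c)) * v *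
    v)) * d + (((((((C (-10) 1)) * c * c) * v + (((C (-310) 1)) * c * c)) * v + ((((C (-672) 1)) *
    c + ((C 1344 1) * e2)) * c)) * v + ((((C 200 1)) * c + ((C (-160) 1) * e2)) * c)) * v)) * d +
    ((((((C (-18) 1)) * c * c) * v + (((C (-360) 1)) * c * c)) * v + ((((C (-216) 1)) * c + ((C
    672 1) * e2)) * c)) * v)) * d + (((((C (-120) 1)) * c * c) * v + (((C 80 1)) * c * c)))) * d +
    (((((C 8 1)) * c * c) * v + (((C 16 1)) * c * c)))))) * a + ((((((((((((C 4 1) * e2) * c) * v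
    * v * v * v * v) * d + ((((((C 4 1)) * c + ((C (-12) 1) * e2)) * c) * v + ((((C (-72) 1)) * c
    + ((C 8 1) * e2)) * c)) * v * v * v * v)) * d + ((((((C 4 1)) * c * c) * v + ((((C (-100) 1))
    * c + ((C 8 1) * e2)) * c)) * v + ((((C (-56) 1)) * c + ((C (-24) 1) * e2)) * c)) * v * v *
    v)) * d + ((((((C (-72) 1)) * c * c) * v + ((((C (-244) 1)) * c + ((C 232 1) * e2)) * c)) * v
    + ((((C 80 1)) * c + ((C (-64) 1) * e2)) * c)) * v * v)) * d + (((((((C (-20) 1)) * c * c) * v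
    + (((C (-224) 1)) * c * c)) * v + ((((C (-256) 1)) * c + ((C 448 1) * e2)) * c)) * v + ((((C
    64 1)) * c + ((C (-32) 1) * e2)) * c)) * v)) * d + ((((((C (-36) 1)) * c * c) * v + (((C
    (-240) 1)) * c * c)) * v + ((((C (-32) 1)) * c + ((C 224 1) * e2)) * c)) * v)) * d + (((((C
    (-48) 1)) * c * c) * v + (((C 64 1)) * c * c)))) * d + (((((C 16 1)) * c * c) * v + (((C 32
    1)) * c * c)))) * d)) * a + (((((((((((C (-10) 1)) * c * c) * v * v * v * v) * d + (((((C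
    (-18) 1)) * c * c) * v + (((C (-10) 1)) * c * c)) * v * v * v)) * d + ((((((C (-18) 1)) * c *
    c) * v + (((C (-38) 1)) * c * c)) * v + (((C 8 1)) * c * c)) * v * v)) * d + (((((((C (-10)
    1)) * c * c) * v + (((C (-46) 1)) * c * c)) * v + (((C (-32) 1)) * c * c)) * v + (((C 8 1)) *
    c * c)) * v)) * d + ((((((C (-18) 1)) * c * c) * v + (((C (-40) 1)) * c * c)) * v + (((C 8 1))
    * c * c)) * v)) * d + (((((C 8 1)) * c * c) * v + (((C 16 1)) * c * c)))) * d + (((((C 8 1)) *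
    c * c) * v + (((C 16 1)) * c * c)))) * d * d)) * a

theorem kT8_up : Ex.checkNonneg ((kT8 (fun n d => nC n d) .x₃ eD eV (.x₃ * eB) eE2) - (cT8 * .x₃ * .x₃ * .x₃ * eB * eB * eB * eB)) boxId 37 ⟨0, 5, 16, 13⟩ = true := by
  decide +kernel

theorem kT8_down : Ex.checkNonneg ((cT8 * .x₃ * .x₃ * .x₃ * eB * eB * eB * eB) - (kT8 (fun n d => nC n d) .x₃ eD eV (.x₃ * eB) eE2)) boxId 37 ⟨0, 5, 16, 13⟩ = true := by
  decide +kernel

theorem kT8_eq (x : ℕ → ℝ) (a I X : ℝ) (hx : ∀ i < 4, 0 ≤ x i) (ha : x 3 = a) (hI : x 2 = I)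
    (hX : x 1 = X) :
    kT8 rC a (1 - 2 * I - 2 * a) (2 * I * X) (a * (1 - 2 * I - a)) (-(1 - 2 * a - I / 2) * I) =
      a ^ 3 * (1 - 2 * I - a) ^ 4 * ev x cT8 := by
  subst ha hI hX
  have h := eq_of_checks kT8_up kT8_down hx
  obtain ⟨h3, hd, hv, hc, he, hb⟩ := ev_args x (by simp only [pd, pb, pS]; ring)
  have e : ev x (kT8 (fun n d => nC n d) .x₃ eD eV (.x₃ * eB) eE2) = kT8 rC (ev x .x₃) (ev x eD) (ev x eV) (ev x (.x₃ * eB)) (ev x eE2) := rfl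
  rw [e, h3, hd, hv, hc, he] at h
  rw [h]
  simp only [ev_mul, ev_x₁, ev_x₂, ev_x₃, hd, hb]
  ring

/-- A coefficient. -/
def kT9 {α : Type} [Add α] [Mul α] (C : ℤ → ℕ → α) (a d v c e2 : α) : α :=
  (((((((((((((C 16 1)) * c * c) * v * v * v * v) * d + ((((C 80 1)) * c * c) * v * v * v)) * d +
    ((((C 128 1)) * c * c) * v * v)) * d + ((((C 64 1)) * c * c) * v)) * d * d) * a + (((((((((C
    56 1)) * c * c) * v * v * v * v) * d + (((((C 8 1)) * c * c) * v + (((C 280 1)) * c * c)) * v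
    * v * v)) * d + (((((C 40 1)) * c * c) * v + (((C 448 1)) * c * c)) * v * v)) * d + (((((C 64
    1)) * c * c) * v + (((C 224 1)) * c * c)) * v)) * d + ((((C 32 1)) * c * c) * v)) * d * d)) *
    a + ((((((((((C 76 1)) * c * c) * v * v * v * v) * d + (((((C 24 1)) * c * c) * v + (((C 380
    1)) * c * c)) * v * v * v)) * d + ((((((C (-4) 1)) * c * c) * v + (((C 120 1)) * c * c)) * v +
    (((C 608 1)) * c * c)) * v * v)) * d + ((((((C (-20) 1)) * c * c) * v + (((C 192 1)) * c * c))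
    * v + (((C 304 1)) * c * c)) * v)) * d + (((((C (-32) 1)) * c * c) * v + (((C 96 1)) * c * c))
    * v)) * d + ((((C (-16) 1)) * c * c) * v)) * d * d)) * a + (((((((((((C 50 1)) * c * c) * v *
    v * v * v) * d + (((((C 26 1)) * c * c) * v + (((C 250 1)) * c * c)) * v * v * v)) * d +
    ((((((C (-10) 1)) * c * c) * v + (((C 130 1)) * c * c)) * v + (((C 400 1)) * c * c)) * v * v))
    * d + (((((((C (-2) 1)) * c * c) * v + (((C (-50) 1)) * c * c)) * v + (((C 208 1)) * c * c)) *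
    v + (((C 200 1)) * c * c)) * v)) * d + ((((((C (-10) 1)) * c * c) * v + (((C (-80) 1)) * c *
    c)) * v + (((C 104 1)) * c * c)) * v)) * d + (((((C (-16) 1)) * c * c) * v + (((C (-40) 1)) *
    c * c)) * v)) * d + ((((C (-8) 1)) * c * c) * v)) * d * d)) * a + (((((((((((C 16 1)) * c * c)
    * v * v * v * v) * d + (((((C 12 1)) * c * c) * v + (((C 80 1)) * c * c)) * v * v * v)) * d +
    ((((((C (-8) 1)) * c * c) * v + (((C 60 1)) * c * c)) * v + (((C 128 1)) * c * c)) * v * v)) *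
    d + (((((((C (-4) 1)) * c * c) * v + (((C (-40) 1)) * c * c)) * v + (((C 96 1)) * c * c)) * v
    + (((C 64 1)) * c * c)) * v)) * d + ((((((C (-20) 1)) * c * c) * v + (((C (-64) 1)) * c * c))
    * v + (((C 48 1)) * c * c)) * v)) * d + (((((C (-32) 1)) * c * c) * v + (((C (-32) 1)) * c *
    c)) * v)) * d + ((((C (-16) 1)) * c * c) * v)) * d * d * d)) * a + (((((((((((C 2 1)) * c * c)
    * v * v * v * v) * d + (((((C 2 1)) * c * c) * v + (((C 10 1)) * c * c)) * v * v * v)) * d +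
    ((((((C (-2) 1)) * c * c) * v + (((C 10 1)) * c * c)) * v + (((C 16 1)) * c * c)) * v * v)) *
    d + (((((((C (-2) 1)) * c * c) * v + (((C (-10) 1)) * c * c)) * v + (((C 16 1)) * c * c)) * v
    + (((C 8 1)) * c * c)) * v)) * d + ((((((C (-10) 1)) * c * c) * v + (((C (-16) 1)) * c * c)) *
    v + (((C 8 1)) * c * c)) * v)) * d + (((((C (-16) 1)) * c * c) * v + (((C (-8) 1)) * c * c)) *
    v)) * d + ((((C (-8) 1)) * c * c) * v)) * d * d * d * d)) * a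

theorem kT9_up : Ex.checkNonneg ((kT9 (fun n d => nC n d) .x₃ eD eV (.x₃ * eB) eE2) - (cT9 * .x₃ * .x₃ * .x₃ * .x₂ * .x₂ * .x₁ * eB * eB * eB * eB * eD * eD)) boxId 38 ⟨0, 4, 16, 15⟩ = true := by
  decide +kernel

theorem kT9_down : Ex.checkNonneg ((cT9 * .x₃ * .x₃ * .x₃ * .x₂ * .x₂ * .x₁ * eB * eB * eB * eB * eD * eD) - (kT9 (fun n d => nC n d) .x₃ eD eV (.x₃ * eB) eE2)) boxId 38 ⟨0, 4, 16, 15⟩ = true := by
  decide +kernel

theorem kT9_eq (x : ℕ → ℝ) (a I X : ℝ) (hx : ∀ i < 4, 0 ≤ x i) (ha : x 3 = a) (hI : x 2 = I)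
    (hX : x 1 = X) :
    kT9 rC a (1 - 2 * I - 2 * a) (2 * I * X) (a * (1 - 2 * I - a)) (-(1 - 2 * a - I / 2) * I) =
      a ^ 3 * I ^ 2 * X * (1 - 2 * I - a) ^ 4 * (1 - 2 * I - 2 * a) ^ 2 * ev x cT9 := by
  subst ha hI hX
  have h := eq_of_checks kT9_up kT9_down hx
  obtain ⟨h3, hd, hv, hc, he, hb⟩ := ev_args x (by simp only [pd, pb, pS]; ring)
  have e : ev x (kT9 (fun n d => nC n d) .x₃ eD eV (.x₃ * eB) eE2) = kT9 rC (ev x .x₃) (ev x eD) (ev x eV) (ev x (.x₃ * eB)) (ev x eE2) := rfl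
  rw [e, h3, hd, hv, hc, he] at h
  rw [h]
  simp only [ev_mul, ev_x₁, ev_x₂, ev_x₃, hd, hb]
  ring

/-- A coefficient. -/
def kT10 {α : Type} [Add α] [Mul α] (C : ℤ → ℕ → α) (a d v c e2 : α) : α :=
  ((((((((((C 32 1)) * c) * v * v * v * v) * d + ((((C 96 1)) * c) * v * v * v)) * d + ((((C 64
    1)) * c) * v * v)) * d * d * d) * a + ((((((((C 80 1)) * c) * v * v * v * v) * d + (((((C
    (-32) 1)) * c) * v + (((C 240 1)) * c)) * v * v * v)) * d + (((((C (-96) 1)) * c) * v + (((C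
    160 1)) * c)) * v * v)) * d + ((((C (-64) 1)) * c) * v * v)) * d * d * d)) * a + ((((((((C 64
    1)) * c) * v * v * v * v) * d + (((((C (-64) 1)) * c) * v + (((C 192 1)) * c)) * v * v * v)) *
    d + (((((C (-192) 1)) * c) * v + (((C 128 1)) * c)) * v * v)) * d + ((((C (-128) 1)) * c) * v
    * v)) * d * d * d * d)) * a + ((((((((C 16 1)) * c) * v * v * v * v) * d + (((((C (-32) 1)) *
    c) * v + (((C 48 1)) * c)) * v * v * v)) * d + (((((C (-96) 1)) * c) * v + (((C 32 1)) * c)) *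
    v * v)) * d + ((((C (-64) 1)) * c) * v * v)) * d * d * d * d * d)) * a

theorem kT10_up : Ex.checkNonneg ((kT10 (fun n d => nC n d) .x₃ eD eV (.x₃ * eB) eE2) - (cT10 * .x₃ * .x₃ * .x₂ * .x₂ * .x₁ * .x₁ * eB * eB * eB * eD * eD * eD)) boxId 33 ⟨0, 4, 13, 11⟩ = true := by
  decide +kernel

theorem kT10_down : Ex.checkNonneg ((cT10 * .x₃ * .x₃ * .x₂ * .x₂ * .x₁ * .x₁ * eB * eB * eB * eD * eD * eD) - (kT10 (fun n d => nC n d) .x₃ eD eV (.x₃ * eB) eE2)) boxId 33 ⟨0, 4, 13, 11⟩ = true := by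
  decide +kernel

theorem kT10_eq (x : ℕ → ℝ) (a I X : ℝ) (hx : ∀ i < 4, 0 ≤ x i) (ha : x 3 = a) (hI : x 2 = I)
    (hX : x 1 = X) :
    kT10 rC a (1 - 2 * I - 2 * a) (2 * I * X) (a * (1 - 2 * I - a)) (-(1 - 2 * a - I / 2) * I) =
      a ^ 2 * I ^ 2 * X ^ 2 * (1 - 2 * I - a) ^ 3 * (1 - 2 * I - 2 * a) ^ 3 * ev x cT10 := by
  subst ha hI hX
  have h := eq_of_checks kT10_up kT10_down hx
  obtain ⟨h3, hd, hv, hc, he, hb⟩ := ev_args x (by simp only [pd, pb, pS]; ring)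
  have e : ev x (kT10 (fun n d => nC n d) .x₃ eD eV (.x₃ * eB) eE2) = kT10 rC (ev x .x₃) (ev x eD) (ev x eV) (ev x (.x₃ * eB)) (ev x eE2) := rfl
  rw [e, h3, hd, hv, hc, he] at h
  rw [h]
  simp only [ev_mul, ev_x₁, ev_x₂, ev_x₃, hd, hb]
  ring

/-- A coefficient. -/
def kT11 {α : Type} [Add α] [Mul α] (C : ℤ → ℕ → α) (a d v c e2 : α) : α :=
  ((((((((((C (-16) 1)) * c * c) * v * v * v) * d + ((((C (-16) 1)) * c * c) * v * v)) * d * d) *
    a + (((((((C (-40) 1)) * c * c) * v * v * v) * d + (((((C (-8) 1)) * c * c) * v + (((C (-40)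
    1)) * c * c)) * v * v)) * d + ((((C (-8) 1)) * c * c) * v * v)) * d * d)) * a + ((((((((C
    (-36) 1)) * c * c) * v * v * v) * d + (((((C (-16) 1)) * c * c) * v + (((C (-36) 1)) * c * c))
    * v * v)) * d + (((((C 4 1)) * c * c) * v + (((C (-16) 1)) * c * c)) * v * v)) * d + ((((C 4
    1)) * c * c) * v * v)) * d * d)) * a + (((((((((C (-14) 1)) * c * c) * v * v * v) * d + (((((C
    (-10) 1)) * c * c) * v + (((C (-14) 1)) * c * c)) * v * v)) * d + (((((C 6 1)) * c * c) * v +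
    (((C (-10) 1)) * c * c)) * v * v)) * d + (((((C 2 1)) * c * c) * v + (((C 6 1)) * c * c)) * v
    * v)) * d + ((((C 2 1)) * c * c) * v * v)) * d * d)) * a + (((((((((C (-2) 1)) * c * c) * v *
    v * v) * d + (((((C (-2) 1)) * c * c) * v + (((C (-2) 1)) * c * c)) * v * v)) * d + (((((C 2
    1)) * c * c) * v + (((C (-2) 1)) * c * c)) * v * v)) * d + (((((C 2 1)) * c * c) * v + (((C 2
    1)) * c * c)) * v * v)) * d + ((((C 2 1)) * c * c) * v * v)) * d * d * d)) * a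

theorem kT11_up : Ex.checkNonneg ((kT11 (fun n d => nC n d) .x₃ eD eV (.x₃ * eB) eE2) - (cT11 * .x₃ * .x₃ * .x₃ * .x₂ * .x₂ * .x₂ * .x₁ * .x₁ * eB * eB * eB * eD * eD)) boxId 29 ⟨0, 3, 12, 12⟩ = true := by
  decide +kernel

theorem kT11_down : Ex.checkNonneg ((cT11 * .x₃ * .x₃ * .x₃ * .x₂ * .x₂ * .x₂ * .x₁ * .x₁ * eB * eB * eB * eD * eD) - (kT11 (fun n d => nC n d) .x₃ eD eV (.x₃ * eB) eE2)) boxId 29 ⟨0, 3, 12, 12⟩ = true := by
  decide +kernel

theorem kT11_eq (x : ℕ → ℝ) (a I X : ℝ) (hx : ∀ i < 4, 0 ≤ x i) (ha : x 3 = a) (hI : x 2 = I)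
    (hX : x 1 = X) :
    kT11 rC a (1 - 2 * I - 2 * a) (2 * I * X) (a * (1 - 2 * I - a)) (-(1 - 2 * a - I / 2) * I) =
      a ^ 3 * I ^ 3 * X ^ 2 * (1 - 2 * I - a) ^ 3 * (1 - 2 * I - 2 * a) ^ 2 * ev x cT11 := by
  subst ha hI hX
  have h := eq_of_checks kT11_up kT11_down hx
  obtain ⟨h3, hd, hv, hc, he, hb⟩ := ev_args x (by simp only [pd, pb, pS]; ring)
  have e : ev x (kT11 (fun n d => nC n d) .x₃ eD eV (.x₃ * eB) eE2) = kT11 rC (ev x .x₃) (ev x eD) (ev x eV) (ev x (.x₃ * eB)) (ev x eE2) := rfl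
  rw [e, h3, hd, hv, hc, he] at h
  rw [h]
  simp only [ev_mul, ev_x₁, ev_x₂, ev_x₃, hd, hb]
  ring

/-- A coefficient. -/
def kT12 {α : Type} [Add α] [Mul α] (C : ℤ → ℕ → α) (a d v c e2 : α) : α :=
  ((((((((((((((C (-1) 1)) * c * c) * v * v * v * v) * d + (((((C (-4) 1)) * c + ((C 4 1))) * c *
    c) * v * v * v)) * d + ((((C (-4) 1)) * c * c * c) * v * v)) * d + ((((C (-8) 1)) * c * c) *
    v)) * d + ((((C (-4) 1)) * c * c)))) * a + ((((((((((C (-7) 2)) * c * c) * v * v * v * v) * d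
    + (((((C (-1) 2)) * c * c) * v + ((((C (-14) 1)) * c + ((C 14 1))) * c * c)) * v * v * v)) * d
    + ((((((C (-6) 1)) * c + ((C 2 1))) * c * c) * v + (((C (-14) 1)) * c * c * c)) * v * v)) * d
    + (((((C (-6) 1)) * c * c * c) * v + (((C (-28) 1)) * c * c)) * v)) * d + (((((C (-4) 1)) * c
    * c) * v + (((C (-14) 1)) * c * c)))) * d + ((((C (-2) 1)) * c * c))))) * a + ((((((((((C (-9)
    2)) * c * c) * v * v * v * v) * d + (((((C (-3) 2)) * c * c) * v + ((((C (-19) 1)) * c + ((C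
    18 1))) * c * c)) * v * v * v)) * d + ((((((C (-18) 1)) * c + ((C 6 1))) * c * c) * v + (((C
    (-19) 1)) * c * c * c)) * v * v)) * d + ((((((C (-3) 1)) * c * c * c) * v + (((C (-18) 1)) * c
    * c * c)) * v + (((C (-36) 1)) * c * c)) * v)) * d + ((((((C (-3) 1)) * c * c * c) * v + (((C
    (-12) 1)) * c * c)) * v + (((C (-18) 1)) * c * c)))) * d + ((((C (-6) 1)) * c * c))) * d)) * a
    + ((((((((((C (-5) 2)) * c * c) * v * v * v * v) * d + (((((C (-3) 2)) * c * c) * v + ((((C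
    (-25) 2)) * c + ((C 10 1))) * c * c)) * v * v * v)) * d + ((((((C (-39) 2)) * c + ((C 6 1))) *
    c * c) * v + (((C (-25) 2)) * c * c * c)) * v * v)) * d + ((((((C (-15) 2)) * c * c * c) * v +
    (((C (-39) 2)) * c * c * c)) * v + (((C (-20) 1)) * c * c)) * v)) * d + (((((((C (-1) 2)) * c
    * c * c) * v + (((C (-15) 2)) * c * c * c)) * v + (((C (-12) 1)) * c * c)) * v + (((C (-10)
    1)) * c * c)))) * d + (((((C (-1) 2)) * c * c * c) * v * v + (((C (-6) 1)) * c * c)))) * d *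
    d)) * a + ((((((((((C (-1) 2)) * c * c) * v * v * v * v) * d + (((((C (-1) 2)) * c * c) * v +
    ((((C (-4) 1)) * c + ((C 2 1))) * c * c)) * v * v * v)) * d + ((((((C (-9) 1)) * c + ((C 2
    1))) * c * c) * v + (((C (-4) 1)) * c * c * c)) * v * v)) * d + ((((((C (-6) 1)) * c * c * c)
    * v + (((C (-9) 1)) * c * c * c)) * v + (((C (-4) 1)) * c * c)) * v)) * d + (((((((C (-1) 1))
    * c * c * c) * v + (((C (-6) 1)) * c * c * c)) * v + (((C (-4) 1)) * c * c)) * v + (((C (-2)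
    1)) * c * c)))) * d + (((((C (-1) 1)) * c * c * c) * v * v + (((C (-2) 1)) * c * c)))) * d * d
    * d)) * a + (((((((((C (-1) 2)) * c * c * c) * v * v * v) * d + (((((C (-3) 2)) * c * c * c) *
    v + (((C (-1) 2)) * c * c * c)) * v * v)) * d + (((((C (-3) 2)) * c * c * c) * v + (((C (-3)
    2)) * c * c * c)) * v * v)) * d + (((((C (-1) 2)) * c * c * c) * v + (((C (-3) 2)) * c * c *
    c)) * v * v)) * d + ((((C (-1) 2)) * c * c * c) * v * v)) * d * d * d * d))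

theorem kT12_up : Ex.checkNonneg ((kT12 (fun n d => nC n d) .x₃ eD eV (.x₃ * eB) eE2) - (cT12 * .x₃ * .x₃ * .x₃ * eB * eB * eB * eB * eB)) boxId 33 ⟨0, 4, 14, 14⟩ = true := by
  decide +kernel

theorem kT12_down : Ex.checkNonneg ((cT12 * .x₃ * .x₃ * .x₃ * eB * eB * eB * eB * eB) - (kT12 (fun n d => nC n d) .x₃ eD eV (.x₃ * eB) eE2)) boxId 33 ⟨0, 4, 14, 14⟩ = true := by
  decide +kernel

theorem kT12_eq (x : ℕ → ℝ) (a I X : ℝ) (hx : ∀ i < 4, 0 ≤ x i) (ha : x 3 = a) (hI : x 2 = I)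
    (hX : x 1 = X) :
    kT12 rC a (1 - 2 * I - 2 * a) (2 * I * X) (a * (1 - 2 * I - a)) (-(1 - 2 * a - I / 2) * I) =
      a ^ 3 * (1 - 2 * I - a) ^ 5 * ev x cT12 := by
  subst ha hI hX
  have h := eq_of_checks kT12_up kT12_down hx
  obtain ⟨h3, hd, hv, hc, he, hb⟩ := ev_args x (by simp only [pd, pb, pS]; ring)
  have e : ev x (kT12 (fun n d => nC n d) .x₃ eD eV (.x₃ * eB) eE2) = kT12 rC (ev x .x₃) (ev x eD) (ev x eV) (ev x (.x₃ * eB)) (ev x eE2) := rfl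
  rw [e, h3, hd, hv, hc, he] at h
  rw [h]
  simp only [ev_mul, ev_x₁, ev_x₂, ev_x₃, hd, hb]
  ring

theorem genT (a d v g W W1 R c e2 E K G G1 D2 : ℝ) :
    ClosedGen.TAS a d v g W W1 R ⟨c, e2, E, K, G, G1, D2⟩ =
      kT0 rC a d v c e2 +
      kT1 rC a d v c e2 * D2 +
      kT2 rC a d v c e2 * D2 ^ 2 +
      kT3 rC a d v c e2 * (g * W1) +
      kT4 rC a d v c e2 * (g * K) +
      kT5 rC a d v c e2 * (g * E) +
      kT6 rC a d v c e2 * (g * E) * D2 +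
      kT7 rC a d v c e2 * (g * E) ^ 2 +
      kT8 rC a d v c e2 * (g * W) +
      kT9 rC a d v c e2 * (g * W) * D2 +
      kT10 rC a d v c e2 * (g * W) * G +
      kT11 rC a d v c e2 * (g * W) * (g * E) +
      kT12 rC a d v c e2 * (g * W) ^ 2 := by
  simp only [rC, kT0, kT1, kT2, kT3, kT4, kT5, kT6, kT7, kT8, kT9, kT10, kT11, kT12,
    ClosedGen.TAS, ClosedGen.TMGS, ClosedGen.hES, ClosedGen.hE_v, ClosedGen.hE_c, ClosedGen.gES,
    ClosedGen.gE_k1, ClosedGen.gE_w, ClosedGen.gE_c, ClosedGen.gE_1, ClosedGen.hGS,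
    ClosedGen.hG_kc, ClosedGen.hG_g, ClosedGen.hG_c, ClosedGen.hMS, ClosedGen.hM_c, Closed.j1,
    ClosedGen.gGS, ClosedGen.gG_v, ClosedGen.gG_c, ClosedGen.gG_1, ClosedGen.gMS, ClosedGen.gM_1,
    ClosedGen.LMGS, ClosedGen.MG_kw, ClosedGen.MG_kc, ClosedGen.MG_k1, ClosedGen.MG_g,
    Closed.LMGw, Closed.LMGv, Closed.LMGc, Closed.LMGc_000000_1, Closed.LMGc_000000_0,
    Closed.LMG1, Closed.LMG1_000000_1, Closed.LMG1_000000_0, ClosedGen.TEES, ClosedGen.LEES,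
    ClosedGen.EE_kc, ClosedGen.EE_k1, ClosedGen.EE_g, Closed.LEEw, Closed.LEEv, Closed.LEEc,
    Closed.LEEc_110000_1, Closed.LEEc_110000_0, Closed.LEEc_000000_1, Closed.LEEc_000000_0,
    Closed.LEE1]
  push_cast
  ring

theorem expT (x : ℕ → ℝ) (a I X g W W1 R E K G G1 D2 : ℝ) (hx : ∀ i < 4, 0 ≤ x i)
    (ha : x 3 = a) (hI : x 2 = I) (hX : x 1 = X) :
    ClosedGen.TAS a (1 - 2 * I - 2 * a) (2 * I * X) g W W1 R
        ⟨a * (1 - 2 * I - a), -(1 - 2 * a - I / 2) * I, E, K, G, G1, D2⟩ =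
      a ^ 3 * (1 - 2 * I - a) ^ 3 * ev x cT0 +
      a ^ 3 * I ^ 3 * X ^ 2 * (1 - 2 * I - a) ^ 3 * (1 - 2 * I - 2 * a) ^ 2 * ev x cT1 * D2 +
      a ^ 3 * I ^ 2 * (1 - 2 * I - a) ^ 3 * (1 - 2 * I - 2 * a) ^ 2 * ev x cT2 * D2 ^ 2 +
      a ^ 3 * I * X * (1 - 2 * I - a) ^ 5 * ev x cT3 * (g * W1) +
      a ^ 3 * I ^ 3 * X ^ 2 * (1 - 2 * I - a) ^ 2 * ev x cT4 * (g * K) +
      a ^ 3 * I ^ 3 * X * (1 - 2 * I - a) ^ 2 * ev x cT5 * (g * E) +
      a ^ 3 * I ^ 4 * X * (1 - 2 * I - a) ^ 2 * (1 - 2 * I - 2 * a) ^ 2 * ev x cT6 * (g * E) * D2 +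
      a ^ 3 * I ^ 4 * X ^ 2 * (1 - 2 * I - a) * (1 - 2 * I - 2 * a) ^ 2 * ev x cT7 * (g * E) ^ 2 +
      a ^ 3 * (1 - 2 * I - a) ^ 4 * ev x cT8 * (g * W) +
      a ^ 3 * I ^ 2 * X * (1 - 2 * I - a) ^ 4 * (1 - 2 * I - 2 * a) ^ 2 * ev x cT9 * (g * W) * D2 +
      a ^ 2 * I ^ 2 * X ^ 2 * (1 - 2 * I - a) ^ 3 * (1 - 2 * I - 2 * a) ^ 3 * ev x cT10 * (g * W) * G +
      a ^ 3 * I ^ 3 * X ^ 2 * (1 - 2 * I - a) ^ 3 * (1 - 2 * I - 2 * a) ^ 2 * ev x cT11 * (g * W) * (g * E) +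
      a ^ 3 * (1 - 2 * I - a) ^ 5 * ev x cT12 * (g * W) ^ 2 := by
  rw [genT, kT0_eq x a I X hx ha hI hX, kT1_eq x a I X hx ha hI hX, kT2_eq x a I X hx ha hI hX, kT3_eq x a I X hx ha hI hX, kT4_eq x a I X hx ha hI hX, kT5_eq x a I X hx ha hI hX, kT6_eq x a I X hx ha hI hX, kT7_eq x a I X hx ha hI hX, kT8_eq x a I X hx ha hI hX, kT9_eq x a I X hx ha hI hX, kT10_eq x a I X hx ha hI hX, kT11_eq x a I X hx ha hI hX, kT12_eq x a I X hx ha hI hX]

end Vale.Agent.P100.Calib.Closed.All.SgnNeg
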