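import Vale.Agent.P100.Calib.SlabSignsAllNegEq
import Vale.Agent.P100.Calib.SlabGenClosed

/-!
# `TMES` expanded below the crossing
-/

set_option linter.unusedSimpArgs false
set_option linter.unusedVariables false

namespace Vale.Agent.P100.Calib.Closed.All.SgnNeg

open BoxPos

local instance expXAdd : Add Ex := ⟨Ex.add⟩
local instance expXSub : Sub Ex := ⟨Ex.sub⟩
local instance expXMul : Mul Ex := ⟨Ex.mul⟩

/-- A coefficient. -/
def kX0 {α : Type} [Add α] [Mul α] (C : ℤ → ℕ → α) (a d v c e2 : α) : α :=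
  (((((((((C 2 1)) * c) * v * v) * d + ((((C 4 1)) * c) * v))) * a + (((((((C 5 1)) * c) * v * v)
    * d + (((((C 1 1)) * c) * v + (((C 10 1)) * c)) * v)) * d + ((((C 2 1)) * c) * v)))) * a +
    (((((((C 4 1)) * c) * v * v) * d + (((((C 2 1)) * c) * v + (((C 8 1)) * c)) * v)) * d + ((((C
    4 1)) * c) * v)) * d)) * a + (((((((C 1 1)) * c) * v * v) * d + (((((C 1 1)) * c) * v + (((C 2
    1)) * c)) * v)) * d + ((((C 2 1)) * c) * v)) * d * d))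

theorem kX0_up : Ex.checkNonneg ((kX0 (fun n d => nC n d) .x₃ eD eV (.x₃ * eB) eE2) - (cX0 * .x₃ * .x₂ * .x₁ * eB * eB * eB)) boxId 18 ⟨0, 2, 7, 6⟩ = true := by
  decide +kernel

theorem kX0_down : Ex.checkNonneg ((cX0 * .x₃ * .x₂ * .x₁ * eB * eB * eB) - (kX0 (fun n d => nC n d) .x₃ eD eV (.x₃ * eB) eE2)) boxId 18 ⟨0, 2, 7, 6⟩ = true := by
  decide +kernel

theorem kX0_eq (x : ℕ → ℝ) (a I X : ℝ) (hx : ∀ i < 4, 0 ≤ x i) (ha : x 3 = a) (hI : x 2 = I)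
    (hX : x 1 = X) :
    kX0 rC a (1 - 2 * I - 2 * a) (2 * I * X) (a * (1 - 2 * I - a)) (-(1 - 2 * a - I / 2) * I) =
      a * I * X * (1 - 2 * I - a) ^ 3 * ev x cX0 := by
  subst ha hI hX
  have h := eq_of_checks kX0_up kX0_down hx
  obtain ⟨h3, hd, hv, hc, he, hb⟩ := ev_args x (by simp only [pd, pb, pS]; ring)
  have e : ev x (kX0 (fun n d => nC n d) .x₃ eD eV (.x₃ * eB) eE2) = kX0 rC (ev x .x₃) (ev x eD) (ev x eV) (ev x (.x₃ * eB)) (ev x eE2) := rfl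
  rw [e, h3, hd, hv, hc, he] at h
  rw [h]
  simp only [ev_mul, ev_x₁, ev_x₂, ev_x₃, hd, hb]
  ring

/-- A coefficient. -/
def kX1 {α : Type} [Add α] [Mul α] (C : ℤ → ℕ → α) (a d v c e2 : α) : α :=
  (((((((C (-4) 1))) * v * v * v) * d + ((((C (-8) 1))) * v * v))) * a + (((((((C (-2) 1))) * v *
    v * v) * d + (((((C 2 1))) * v + (((C (-4) 1)))) * v * v)) * d + ((((C 4 1))) * v * v)))) * a

theorem kX1_up : Ex.checkNonneg ((kX1 (fun n d => nC n d) .x₃ eD eV (.x₃ * eB) eE2) - (cX1 * .x₃ * .x₂ * .x₂ * .x₂ * .x₁ * .x₁)) boxId 12 ⟨0, 3, 5, 3⟩ = true := by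
  decide +kernel

theorem kX1_down : Ex.checkNonneg ((cX1 * .x₃ * .x₂ * .x₂ * .x₂ * .x₁ * .x₁) - (kX1 (fun n d => nC n d) .x₃ eD eV (.x₃ * eB) eE2)) boxId 12 ⟨0, 3, 5, 3⟩ = true := by
  decide +kernel

theorem kX1_eq (x : ℕ → ℝ) (a I X : ℝ) (hx : ∀ i < 4, 0 ≤ x i) (ha : x 3 = a) (hI : x 2 = I)
    (hX : x 1 = X) :
    kX1 rC a (1 - 2 * I - 2 * a) (2 * I * X) (a * (1 - 2 * I - a)) (-(1 - 2 * a - I / 2) * I) =
      a * I ^ 3 * X ^ 2 * ev x cX1 := by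
  subst ha hI hX
  have h := eq_of_checks kX1_up kX1_down hx
  obtain ⟨h3, hd, hv, hc, he, hb⟩ := ev_args x (by simp only [pd, pb, pS]; ring)
  have e : ev x (kX1 (fun n d => nC n d) .x₃ eD eV (.x₃ * eB) eE2) = kX1 rC (ev x .x₃) (ev x eD) (ev x eV) (ev x (.x₃ * eB)) (ev x eE2) := rfl
  rw [e, h3, hd, hv, hc, he] at h
  rw [h]
  simp only [ev_mul, ev_x₁, ev_x₂, ev_x₃, hd, hb]
  ring

/-- A coefficient. -/
def kX2 {α : Type} [Add α] [Mul α] (C : ℤ → ℕ → α) (a d v c e2 : α) : α :=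
  ((((((((C 4 1))) * v * v) * d + ((((C 12 1))) * v)) * d + (((((C (-4) 1))) * v + (((C 8 1)))))))
    * a + ((((((((C 2 1))) * v * v) * d + (((((C (-2) 1))) * v + (((C 6 1)))) * v)) * d + (((((C
    (-8) 1))) * v + (((C 4 1)))))) * d + (((((C 2 1))) * v + (((C (-4) 1)))))))) * a

theorem kX2_up : Ex.checkNonneg ((kX2 (fun n d => nC n d) .x₃ eD eV (.x₃ * eB) eE2) - (cX2 * .x₃ * .x₂)) boxId 14 ⟨0, 2, 5, 4⟩ = true := by
  decide +kernel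

theorem kX2_down : Ex.checkNonneg ((cX2 * .x₃ * .x₂) - (kX2 (fun n d => nC n d) .x₃ eD eV (.x₃ * eB) eE2)) boxId 14 ⟨0, 2, 5, 4⟩ = true := by
  decide +kernel

theorem kX2_eq (x : ℕ → ℝ) (a I X : ℝ) (hx : ∀ i < 4, 0 ≤ x i) (ha : x 3 = a) (hI : x 2 = I)
    (hX : x 1 = X) :
    kX2 rC a (1 - 2 * I - 2 * a) (2 * I * X) (a * (1 - 2 * I - a)) (-(1 - 2 * a - I / 2) * I) =
      a * I * ev x cX2 := by
  subst ha hI hX
  have h := eq_of_checks kX2_up kX2_down hx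
  obtain ⟨h3, hd, hv, hc, he, hb⟩ := ev_args x (by simp only [pd, pb, pS]; ring)
  have e : ev x (kX2 (fun n d => nC n d) .x₃ eD eV (.x₃ * eB) eE2) = kX2 rC (ev x .x₃) (ev x eD) (ev x eV) (ev x (.x₃ * eB)) (ev x eE2) := rfl
  rw [e, h3, hd, hv, hc, he] at h
  rw [h]
  simp only [ev_mul, ev_x₁, ev_x₂, ev_x₃, hd, hb]
  ring

/-- A coefficient. -/
def kX3 {α : Type} [Add α] [Mul α] (C : ℤ → ℕ → α) (a d v c e2 : α) : α :=
  (((((((((((C 2 1) * e2)) * v * v * v) * d + (((((C (-8) 1)) * c + ((C 8 1) * e2))) * v * v)) * d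
    + (((((C (-8) 1)) * c + ((C 8 1) * e2))) * v))) * a + ((((((((C 5 1) * e2)) * v * v * v) * d +
    (((((C (-3) 1) * e2)) * v + ((((C (-20) 1)) * c + ((C 20 1) * e2)))) * v * v)) * d + (((((C
    (-12) 1) * e2)) * v + ((((C (-20) 1)) * c + ((C 20 1) * e2)))) * v)) * d + ((((C (-12) 1) *
    e2)) * v)))) * a + (((((((((C 4 1) * e2)) * v * v * v) * d + (((((C (-6) 1) * e2)) * v + ((((C
    (-18) 1)) * c + ((C 16 1) * e2)))) * v * v)) * d + (((((C (-24) 1) * e2)) * v + ((((C (-18)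
    1)) * c + ((C 16 1) * e2)))) * v)) * d + (((((C 4 1)) * c) * v + (((C (-24) 1) * e2))) * v)) *
    d + ((((C 2 1)) * c) * v)))) * a + (((((((((C 1 1) * e2)) * v * v * v) * d + (((((C (-3) 1) *
    e2)) * v + ((((C (-7) 1)) * c + ((C 4 1) * e2)))) * v * v)) * d + (((((C (-12) 1) * e2)) * v +
    ((((C (-7) 1)) * c + ((C 4 1) * e2)))) * v)) * d + (((((C 6 1)) * c) * v + (((C (-12) 1) *
    e2))) * v)) * d + (((((C 1 1)) * c) * v + (((C 3 1)) * c)) * v)) * d)) * a + ((((((((C (-1)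
    1)) * c) * v * v) * d + ((((C (-1) 1)) * c) * v)) * d + ((((C 2 1)) * c) * v * v)) * d +
    (((((C 1 1)) * c) * v + (((C 1 1)) * c)) * v)) * d * d))

theorem kX3_up : Ex.checkNonneg ((kX3 (fun n d => nC n d) .x₃ eD eV (.x₃ * eB) eE2) - (cX3 * .x₃ * .x₂ * .x₂ * .x₁ * eB * eB)) boxId 23 ⟨0, 3, 10, 7⟩ = true := by
  decide +kernel

theorem kX3_down : Ex.checkNonneg ((cX3 * .x₃ * .x₂ * .x₂ * .x₁ * eB * eB) - (kX3 (fun n d => nC n d) .x₃ eD eV (.x₃ * eB) eE2)) boxId 23 ⟨0, 3, 10, 7⟩ = true := by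
  decide +kernel

theorem kX3_eq (x : ℕ → ℝ) (a I X : ℝ) (hx : ∀ i < 4, 0 ≤ x i) (ha : x 3 = a) (hI : x 2 = I)
    (hX : x 1 = X) :
    kX3 rC a (1 - 2 * I - 2 * a) (2 * I * X) (a * (1 - 2 * I - a)) (-(1 - 2 * a - I / 2) * I) =
      a * I ^ 2 * X * (1 - 2 * I - a) ^ 2 * ev x cX3 := by
  subst ha hI hX
  have h := eq_of_checks kX3_up kX3_down hx
  obtain ⟨h3, hd, hv, hc, he, hb⟩ := ev_args x (by simp only [pd, pb, pS]; ring)
  have e : ev x (kX3 (fun n d => nC n d) .x₃ eD eV (.x₃ * eB) eE2) = kX3 rC (ev x .x₃) (ev x eD) (ev x eV) (ev x (.x₃ * eB)) (ev x eE2) := rfl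
  rw [e, h3, hd, hv, hc, he] at h
  rw [h]
  simp only [ev_mul, ev_x₁, ev_x₂, ev_x₃, hd, hb]
  ring

/-- A coefficient. -/
def kX4 {α : Type} [Add α] [Mul α] (C : ℤ → ℕ → α) (a d v c e2 : α) : α :=
  ((((((((C (-2) 1))) * v) * d + ((((C (-2) 1)))))) * a + (((((((C (-3) 1))) * v) * d + (((((C 1
    1))) * v + (((C (-3) 1)))))) * d + ((((C 1 1))))))) * a + (((((((C (-1) 1))) * v) * d + (((((C
    1 1))) * v + (((C (-1) 1)))))) * d + ((((C 1 1))))) * d)) * a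

theorem kX4_up : Ex.checkNonneg ((kX4 (fun n d => nC n d) .x₃ eD eV (.x₃ * eB) eE2) - (cX4 * .x₃ * .x₂ * eB)) boxId 12 ⟨0, 1, 4, 4⟩ = true := by
  decide +kernel

theorem kX4_down : Ex.checkNonneg ((cX4 * .x₃ * .x₂ * eB) - (kX4 (fun n d => nC n d) .x₃ eD eV (.x₃ * eB) eE2)) boxId 12 ⟨0, 1, 4, 4⟩ = true := by
  decide +kernel

theorem kX4_eq (x : ℕ → ℝ) (a I X : ℝ) (hx : ∀ i < 4, 0 ≤ x i) (ha : x 3 = a) (hI : x 2 = I)
    (hX : x 1 = X) :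
    kX4 rC a (1 - 2 * I - 2 * a) (2 * I * X) (a * (1 - 2 * I - a)) (-(1 - 2 * a - I / 2) * I) =
      a * I * (1 - 2 * I - a) * ev x cX4 := by
  subst ha hI hX
  have h := eq_of_checks kX4_up kX4_down hx
  obtain ⟨h3, hd, hv, hc, he, hb⟩ := ev_args x (by simp only [pd, pb, pS]; ring)
  have e : ev x (kX4 (fun n d => nC n d) .x₃ eD eV (.x₃ * eB) eE2) = kX4 rC (ev x .x₃) (ev x eD) (ev x eV) (ev x (.x₃ * eB)) (ev x eE2) := rfl
  rw [e, h3, hd, hv, hc, he] at h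
  rw [h]
  simp only [ev_mul, ev_x₁, ev_x₂, ev_x₃, hd, hb]
  ring

theorem genX (a d v g W W1 R c e2 E K G G1 D2 : ℝ) :
    g * ClosedGen.TMES a d v g W W1 R ⟨c, e2, E, K, G, G1, D2⟩ =
      kX0 rC a d v c e2 * (g * W1) +
      kX1 rC a d v c e2 * (g * K) +
      kX2 rC a d v c e2 * (g * E) +
      kX3 rC a d v c e2 * (g * W) +
      kX4 rC a d v c e2 * (g * W) * (g * E) := by
  simp only [rC, kX0, kX1, kX2, kX3, kX4, ClosedGen.TMES, ClosedGen.TME_w, ClosedGen.TME_v,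
    ClosedGen.TME_c]
  push_cast
  ring

theorem expX (x : ℕ → ℝ) (a I X g W W1 R E K G G1 D2 : ℝ) (hx : ∀ i < 4, 0 ≤ x i)
    (ha : x 3 = a) (hI : x 2 = I) (hX : x 1 = X) :
    g * ClosedGen.TMES a (1 - 2 * I - 2 * a) (2 * I * X) g W W1 R
        ⟨a * (1 - 2 * I - a), -(1 - 2 * a - I / 2) * I, E, K, G, G1, D2⟩ =
      a * I * X * (1 - 2 * I - a) ^ 3 * ev x cX0 * (g * W1) +
      a * I ^ 3 * X ^ 2 * ev x cX1 * (g * K) +
      a * I * ev x cX2 * (g * E) +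
      a * I ^ 2 * X * (1 - 2 * I - a) ^ 2 * ev x cX3 * (g * W) +
      a * I * (1 - 2 * I - a) * ev x cX4 * (g * W) * (g * E) := by
  rw [genX, kX0_eq x a I X hx ha hI hX, kX1_eq x a I X hx ha hI hX, kX2_eq x a I X hx ha hI hX, kX3_eq x a I X hx ha hI hX, kX4_eq x a I X hx ha hI hX]

end Vale.Agent.P100.Calib.Closed.All.SgnNeg
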