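import Vale.Agent.P100.Calib.SlabSignsAllNegEq
import Vale.Agent.P100.Calib.SlabGenClosed

/-!
# `TEGS` expanded below the crossing
-/

set_option linter.unusedSimpArgs false
set_option linter.unusedVariables false

namespace Vale.Agent.P100.Calib.Closed.All.SgnNeg

open BoxPos

local instance expYAdd : Add Ex := ⟨Ex.add⟩
local instance expYSub : Sub Ex := ⟨Ex.sub⟩
local instance expYMul : Mul Ex := ⟨Ex.mul⟩

/-- A coefficient. -/
def kY0 {α : Type} [Add α] [Mul α] (C : ℤ → ℕ → α) (a d v c e2 : α) : α :=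
  (((((((((((((C 32 1) * e2) * c) * v * v * v * v * v) * d + (((((C (-128) 1)) * c + (((C 128 1) *
    e2 + (C 32 1)))) * c) * v * v * v * v)) * d + (((((C (-128) 1)) * c + (((C 128 1) * e2 + (C 32
    1)))) * c) * v * v * v))) * a + ((((((((C 128 1) * e2) * c) * v * v * v * v * v) * d + ((((((C
    32 1)) * c + ((C 32 1) * e2)) * c) * v + ((((C (-512) 1)) * c + (((C 544 1) * e2 + (C 112
    1)))) * c)) * v * v * v * v)) * d + ((((((C (-192) 1)) * c + (((C 128 1) * e2 + (C 48 1)))) *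
    c) * v + ((((C (-640) 1)) * c + (((C 640 1) * e2 + (C 112 1)))) * c)) * v * v * v)) * d +
    ((((((C (-192) 1)) * c + (((C 128 1) * e2 + (C 48 1)))) * c) * v + ((((C (-128) 1)) * c + ((C
    128 1) * e2)) * c)) * v * v)))) * a + (((((((((C 200 1) * e2) * c) * v * v * v * v * v) * d +
    ((((((C 96 1)) * c + ((C 112 1) * e2)) * c) * v + ((((C (-832) 1)) * c + (((C 896 1) * e2 + (C
    152 1)))) * c)) * v * v * v * v)) * d + (((((((C 16 1)) * c + ((C 72 1) * e2)) * c) * v +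
    ((((C (-704) 1)) * c + (((C 480 1) * e2 + (C 144 1)))) * c)) * v + ((((C (-1216) 1)) * c +
    (((C 1184 1) * e2 + (C 152 1)))) * c)) * v * v * v)) * d + (((((((C (-96) 1)) * c + (((C 288
    1) * e2 + (C 24 1)))) * c) * v + ((((C (-960) 1)) * c + (((C 576 1) * e2 + (C 144 1)))) * c))
    * v + ((((C (-384) 1)) * c + ((C 384 1) * e2)) * c)) * v * v)) * d + ((((((C (-96) 1)) * c +
    (((C 288 1) * e2 + (C 24 1)))) * c) * v + ((((C (-256) 1)) * c + ((C 128 1) * e2)) * c)) * v *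
    v)))) * a + ((((((((((C 152 1) * e2) * c) * v * v * v * v * v) * d + ((((((C 104 1)) * c + ((C
    144 1) * e2)) * c) * v + ((((C (-704) 1)) * c + (((C 712 1) * e2 + (C 100 1)))) * c)) * v * v
    * v * v)) * d + (((((((C 32 1)) * c + ((C 152 1) * e2)) * c) * v + ((((C (-1040) 1)) * c +
    (((C 656 1) * e2 + (C 156 1)))) * c)) * v + ((((C (-1152) 1)) * c + (((C 1024 1) * e2 + (C 100
    1)))) * c)) * v * v * v)) * d + (((((((C 8 1)) * c * c) * v + ((((C (-288) 1)) * c + (((C 552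
    1) * e2 + (C 60 1)))) * c)) * v + ((((C (-1744) 1)) * c + (((C 896 1) * e2 + (C 156 1)))) *
    c)) * v + ((((C (-448) 1)) * c + ((C 416 1) * e2)) * c)) * v * v)) * d + (((((((C 32 1)) * c +
    ((C 4 1))) * c) * v + ((((C (-336) 1)) * c + (((C 384 1) * e2 + (C 60 1)))) * c)) * v + ((((C
    (-768) 1)) * c + ((C 320 1) * e2)) * c)) * v * v)) * d + (((((((C 32 1)) * c + ((C 4 1))) * c)
    * v + ((((C (-64) 1)) * c + ((C (-224) 1) * e2)) * c)) * v + (((C (-64) 1)) * c * c)) * v))))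
    * a + (((((((((((C 56 1) * e2) * c) * v * v * v * v * v) * d + ((((((C 48 1)) * c + ((C 80 1)
    * e2)) * c) * v + ((((C (-328) 1)) * c + (((C 272 1) * e2 + (C 32 1)))) * c)) * v * v * v *
    v)) * d + (((((((C 20 1)) * c + ((C 88 1) * e2)) * c) * v + ((((C (-768) 1)) * c + (((C 384 1)
    * e2 + (C 72 1)))) * c)) * v + ((((C (-584) 1)) * c + (((C 416 1) * e2 + (C 32 1)))) * c)) * v
    * v * v)) * d + (((((((C 8 1)) * c * c) * v + ((((C (-280) 1)) * c + (((C 240 1) * e2 + (C 48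
    1)))) * c)) * v + ((((C (-1472) 1)) * c + (((C 576 1) * e2 + (C 72 1)))) * c)) * v + ((((C
    (-256) 1)) * c + ((C 192 1) * e2)) * c)) * v * v)) * d + (((((((C 4 1)) * c * c) * v + ((((C
    32 1)) * c + ((C 8 1))) * c)) * v + ((((C (-248) 1)) * c + (((C (-96) 1) * e2 + (C 48 1)))) *
    c)) * v + ((((C (-832) 1)) * c + ((C 256 1) * e2)) * c)) * v * v)) * d + (((((((C 16 1)) * c *
    c) * v + ((((C 16 1)) * c + ((C 8 1))) * c)) * v + ((((C 128 1)) * c + ((C (-448) 1) * e2)) *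
    c)) * v + (((C (-128) 1)) * c * c)) * v)) * d + ((((((C 16 1)) * c * c) * v + (((C (-32) 1)) *
    c * c)) * v + (((C 128 1)) * c * c)) * v)))) * a + ((((((((((((C 8 1) * e2) * c) * v * v * v *
    v * v) * d + ((((((C 8 1)) * c + ((C 16 1) * e2)) * c) * v + ((((C (-80) 1)) * c + (((C 40 1)
    * e2 + (C 4 1)))) * c)) * v * v * v * v)) * d + (((((((C 4 1)) * c + ((C 8 1) * e2)) * c) * v
    + ((((C (-280) 1)) * c + (((C 80 1) * e2 + (C 12 1)))) * c)) * v + ((((C (-152) 1)) * c + (((C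
    64 1) * e2 + (C 4 1)))) * c)) * v * v * v)) * d + (((((((C (-96) 1)) * c + (((C (-24) 1) * e2
    + (C 12 1)))) * c) * v + ((((C (-584) 1)) * c + (((C 128 1) * e2 + (C 12 1)))) * c)) * v +
    ((((C (-72) 1)) * c + ((C 32 1) * e2)) * c)) * v * v)) * d + (((((((C 4 1)) * c * c) * v +
    ((((C 20 1)) * c + ((C 4 1))) * c)) * v + ((((C 36 1)) * c + (((C (-192) 1) * e2 + (C 12 1))))
    * c)) * v + ((((C (-384) 1)) * c + ((C 64 1) * e2)) * c)) * v * v)) * d + (((((((C 8 1)) * c *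
    c) * v + ((((C 76 1)) * c + ((C 4 1))) * c)) * v + ((((C 304 1)) * c + ((C (-224) 1) * e2)) *
    c)) * v + (((C (-80) 1)) * c * c)) * v)) * d + (((((((C (-4) 1)) * c * c) * v + (((C (-12) 1))
    * c * c)) * v + (((C 112 1)) * c * c)) * v + (((C 192 1)) * c * c)) * v)) * d + ((((((C (-4)
    1)) * c * c) * v + (((C (-24) 1)) * c * c)) * v + (((C 80 1)) * c * c)) * v)))) * a +
    (((((((((((C (-8) 1)) * c * c) * v * v * v * v) * d + (((((C (-40) 1)) * c * c) * v + (((C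
    (-16) 1)) * c * c)) * v * v * v)) * d + ((((((C (-8) 1)) * c * c) * v + (((C (-88) 1)) * c *
    c)) * v + (((C (-8) 1)) * c * c)) * v * v)) * d + ((((((C 20 1)) * c * c) * v + (((C 44 1)) *
    c * c)) * v + (((C (-64) 1)) * c * c)) * v * v)) * d + (((((((C (-8) 1)) * c * c) * v + (((C
    92 1)) * c * c)) * v + (((C 112 1)) * c * c)) * v + (((C (-16) 1)) * c * c)) * v)) * d +
    (((((((C (-4) 1)) * c * c) * v + (((C (-28) 1)) * c * c)) * v + (((C 144 1)) * c * c)) * v +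
    (((C 64 1)) * c * c)) * v)) * d + ((((((C (-4) 1)) * c * c) * v + (((C (-24) 1)) * c * c)) * v
    + (((C 80 1)) * c * c)) * v)) * d)) * a

theorem kY0_up : Ex.checkNonneg ((kY0 (fun n d => nC n d) .x₃ eD eV (.x₃ * eB) eE2) - (cY0 * .x₃ * .x₃ * .x₃ * .x₂ * .x₁ * eB * eB * eB)) boxId 35 ⟨0, 5, 15, 12⟩ = true := by
  decide +kernel

theorem kY0_down : Ex.checkNonneg ((cY0 * .x₃ * .x₃ * .x₃ * .x₂ * .x₁ * eB * eB * eB) - (kY0 (fun n d => nC n d) .x₃ eD eV (.x₃ * eB) eE2)) boxId 35 ⟨0, 5, 15, 12⟩ = true := by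
  decide +kernel

theorem kY0_eq (x : ℕ → ℝ) (a I X : ℝ) (hx : ∀ i < 4, 0 ≤ x i) (ha : x 3 = a) (hI : x 2 = I)
    (hX : x 1 = X) :
    kY0 rC a (1 - 2 * I - 2 * a) (2 * I * X) (a * (1 - 2 * I - a)) (-(1 - 2 * a - I / 2) * I) =
      a ^ 3 * I * X * (1 - 2 * I - a) ^ 3 * ev x cY0 := by
  subst ha hI hX
  have h := eq_of_checks kY0_up kY0_down hx
  obtain ⟨h3, hd, hv, hc, he, hb⟩ := ev_args x (by simp only [pd, pb, pS]; ring)
  have e : ev x (kY0 (fun n d => nC n d) .x₃ eD eV (.x₃ * eB) eE2) = kY0 rC (ev x .x₃) (ev x eD) (ev x eV) (ev x (.x₃ * eB)) (ev x eE2) := rfl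
  rw [e, h3, hd, hv, hc, he] at h
  rw [h]
  simp only [ev_mul, ev_x₁, ev_x₂, ev_x₃, hd, hb]
  ring

/-- A coefficient. -/
def kY1 {α : Type} [Add α] [Mul α] (C : ℤ → ℕ → α) (a d v c e2 : α) : α :=
  ((((((((((((((C 32 1)) * c) * v * v * v * v) * d + ((((C 160 1)) * c) * v * v * v)) * d + ((((C
    256 1)) * c) * v * v)) * d + ((((C 128 1)) * c) * v))) * a + ((((((((((C (-32) 1) * e2) * c) *
    v + (((C 112 1)) * c)) * v * v * v * v) * d + ((((((C 128 1)) * c + (((C (-256) 1) * e2 + (C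
    16 1)))) * c) * v + (((C 560 1)) * c)) * v * v * v)) * d + ((((((C 640 1)) * c + (((C (-768)
    1) * e2 + (C 80 1)))) * c) * v + (((C 896 1)) * c)) * v * v)) * d + ((((((C 1024 1)) * c +
    (((C (-1024) 1) * e2 + (C 128 1)))) * c) * v + (((C 448 1)) * c)) * v)) * d + (((((C 512 1)) *
    c + (((C (-512) 1) * e2 + (C 64 1)))) * c) * v)))) * a + (((((((((((C (-96) 1) * e2) * c) * v
    + (((C 152 1)) * c)) * v * v * v * v) * d + (((((((C (-16) 1)) * c + ((C 32 1) * e2)) * c) * v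
    + ((((C 384 1)) * c + (((C (-768) 1) * e2 + (C 48 1)))) * c)) * v + (((C 760 1)) * c)) * v * v
    * v)) * d + (((((((C (-160) 1)) * c + (((C 256 1) * e2 + (C (-8) 1)))) * c) * v + ((((C 1920
    1)) * c + (((C (-2304) 1) * e2 + (C 240 1)))) * c)) * v + (((C 1216 1)) * c)) * v * v)) * d +
    (((((((C (-544) 1)) * c + (((C 768 1) * e2 + (C (-40) 1)))) * c) * v + ((((C 3072 1)) * c +
    (((C (-3072) 1) * e2 + (C 384 1)))) * c)) * v + (((C 608 1)) * c)) * v)) * d + ((((((C (-768)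
    1)) * c + (((C 1024 1) * e2 + (C (-64) 1)))) * c) * v + ((((C 1536 1)) * c + (((C (-1536) 1) *
    e2 + (C 192 1)))) * c)) * v)) * d + (((((C (-384) 1)) * c + (((C 512 1) * e2 + (C (-32) 1))))
    * c) * v)))) * a + ((((((((((((C (-104) 1) * e2) * c) * v + (((C 100 1)) * c)) * v * v * v *
    v) * d + (((((((C (-32) 1)) * c + ((C 80 1) * e2)) * c) * v + ((((C 448 1)) * c + (((C (-832)
    1) * e2 + (C 52 1)))) * c)) * v + (((C 500 1)) * c)) * v * v * v)) * d + (((((((C (-8) 1) *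
    e2) * c) * v + ((((C (-320) 1)) * c + (((C 640 1) * e2 + (C (-20) 1)))) * c)) * v + ((((C 2240
    1)) * c + (((C (-2496) 1) * e2 + (C 260 1)))) * c)) * v + (((C 800 1)) * c)) * v * v)) * d +
    ((((((((C (-16) 1)) * c + (((C (-64) 1) * e2 + (C (-4) 1)))) * c) * v + ((((C (-1040) 1)) * c
    + (((C 1920 1) * e2 + (C (-100) 1)))) * c)) * v + ((((C 3584 1)) * c + (((C (-3328) 1) * e2 +
    (C 416 1)))) * c)) * v + (((C 400 1)) * c)) * v)) * d + (((((((C (-80) 1)) * c + (((C (-192)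
    1) * e2 + (C (-20) 1)))) * c) * v + ((((C (-1280) 1)) * c + (((C 2560 1) * e2 + (C (-160)
    1)))) * c)) * v + ((((C 1792 1)) * c + (((C (-1664) 1) * e2 + (C 208 1)))) * c)) * v)) * d +
    ((((((C (-128) 1)) * c + (((C (-256) 1) * e2 + (C (-32) 1)))) * c) * v + ((((C (-320) 1)) * c
    + (((C 1280 1) * e2 + (C (-80) 1)))) * c)) * v)) * d + ((((((C (-64) 1)) * c + (((C (-128) 1)
    * e2 + (C (-16) 1)))) * c) * v + (((C 256 1)) * c * c)))))) * a + (((((((((((((C (-48) 1) *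
    e2) * c) * v + (((C 32 1)) * c)) * v * v * v * v) * d + (((((((C (-20) 1)) * c + ((C 64 1) *
    e2)) * c) * v + ((((C 256 1)) * c + (((C (-384) 1) * e2 + (C 24 1)))) * c)) * v + (((C 160 1))
    * c)) * v * v * v)) * d + (((((((C (-16) 1) * e2) * c) * v + ((((C (-200) 1)) * c + (((C 512
    1) * e2 + (C (-16) 1)))) * c)) * v + ((((C 1280 1)) * c + (((C (-1152) 1) * e2 + (C 120 1))))
    * c)) * v + (((C 256 1)) * c)) * v * v)) * d + ((((((((C 4 1)) * c * c) * v + ((((C (-32) 1))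
    * c + (((C (-128) 1) * e2 + (C (-8) 1)))) * c)) * v + ((((C (-584) 1)) * c + (((C 1536 1) * e2
    + (C (-80) 1)))) * c)) * v + ((((C 2048 1)) * c + (((C (-1536) 1) * e2 + (C 192 1)))) * c)) *
    v + (((C 128 1)) * c)) * v)) * d + (((((((C 40 1)) * c * c) * v + ((((C (-160) 1)) * c + (((C
    (-384) 1) * e2 + (C (-40) 1)))) * c)) * v + ((((C (-448) 1)) * c + (((C 2048 1) * e2 + (C
    (-128) 1)))) * c)) * v + ((((C 1024 1)) * c + (((C (-768) 1) * e2 + (C 96 1)))) * c)) * v)) *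
    d + ((((((C 136 1)) * c * c) * v + ((((C (-256) 1)) * c + (((C (-512) 1) * e2 + (C (-64) 1))))
    * c)) * v + ((((C 416 1)) * c + (((C 1024 1) * e2 + (C (-64) 1)))) * c)) * v)) * d + ((((((C
    192 1)) * c * c) * v + ((((C (-128) 1)) * c + (((C (-256) 1) * e2 + (C (-32) 1)))) * c)) * v +
    (((C 512 1)) * c * c)))) * d + ((((C 96 1)) * c * c) * v)))) * a + ((((((((((((((C (-8) 1) *
    e2) * c) * v + (((C 4 1)) * c)) * v * v * v * v) * d + (((((((C (-4) 1)) * c + ((C 16 1) *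
    e2)) * c) * v + ((((C 72 1)) * c + (((C (-64) 1) * e2 + (C 4 1)))) * c)) * v + (((C 20 1)) *
    c)) * v * v * v)) * d + (((((((C (-8) 1) * e2) * c) * v + ((((C (-40) 1)) * c + (((C 128 1) *
    e2 + (C (-4) 1)))) * c)) * v + ((((C 360 1)) * c + (((C (-192) 1) * e2 + (C 20 1)))) * c)) * v
    + (((C 32 1)) * c)) * v * v)) * d + ((((((((C 4 1)) * c * c) * v + ((((C (-20) 1)) * c + (((C
    (-64) 1) * e2 + (C (-4) 1)))) * c)) * v + ((((C (-76) 1)) * c + (((C 384 1) * e2 + (C (-20)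
    1)))) * c)) * v + ((((C 576 1)) * c + (((C (-256) 1) * e2 + (C 32 1)))) * c)) * v + (((C 16
    1)) * c)) * v)) * d + (((((((C 40 1)) * c * c) * v + ((((C (-100) 1)) * c + (((C (-192) 1) *
    e2 + (C (-20) 1)))) * c)) * v + ((((C 128 1)) * c + (((C 512 1) * e2 + (C (-32) 1)))) * c)) *
    v + ((((C 288 1)) * c + (((C (-128) 1) * e2 + (C 16 1)))) * c)) * v)) * d + (((((((C (-4) 1))
    * c * c) * v + (((C 124 1)) * c * c)) * v + ((((C (-160) 1)) * c + (((C (-256) 1) * e2 + (C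
    (-32) 1)))) * c)) * v + ((((C 464 1)) * c + (((C 256 1) * e2 + (C (-16) 1)))) * c)) * v)) * d
    + (((((((C (-20) 1)) * c * c) * v + (((C 128 1)) * c * c)) * v + ((((C (-80) 1)) * c + (((C
    (-128) 1) * e2 + (C (-16) 1)))) * c)) * v + (((C 320 1)) * c * c)))) * d + (((((C (-32) 1)) *
    c * c) * v + (((C (-16) 1)) * c * c)) * v)) * d + (((((C (-16) 1)) * c * c) * v + (((C (-64)
    1)) * c * c)))))) * a + ((((((((((((C 8 1)) * c * c) * v * v * v * v) * d + ((((C 40 1)) * c *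
    c) * v * v * v)) * d + ((((((C (-4) 1)) * c * c) * v + (((C 12 1)) * c * c)) * v + (((C 64 1))
    * c * c)) * v * v)) * d + ((((((C (-20) 1)) * c * c) * v + (((C 64 1)) * c * c)) * v + (((C 32
    1)) * c * c)) * v)) * d + (((((((C (-4) 1)) * c * c) * v + (((C (-12) 1)) * c * c)) * v + (((C
    (-32) 1)) * c * c)) * v + (((C 112 1)) * c * c)) * v)) * d + (((((((C (-20) 1)) * c * c) * v +
    (((C (-64) 1)) * c * c)) * v + (((C (-16) 1)) * c * c)) * v + (((C 64 1)) * c * c)))) * d +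
    (((((C (-32) 1)) * c * c) * v + (((C (-112) 1)) * c * c)) * v)) * d + (((((C (-16) 1)) * c *
    c) * v + (((C (-64) 1)) * c * c)))) * d)) * a

theorem kY1_up : Ex.checkNonneg ((kY1 (fun n d => nC n d) .x₃ eD eV (.x₃ * eB) eE2) - (cY1 * .x₃ * .x₃ * .x₃ * .x₂ * eB * eB * eB)) boxId 38 ⟨0, 5, 16, 13⟩ = true := by
  decide +kernel

theorem kY1_down : Ex.checkNonneg ((cY1 * .x₃ * .x₃ * .x₃ * .x₂ * eB * eB * eB) - (kY1 (fun n d => nC n d) .x₃ eD eV (.x₃ * eB) eE2)) boxId 38 ⟨0, 5, 16, 13⟩ = true := by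
  decide +kernel

theorem kY1_eq (x : ℕ → ℝ) (a I X : ℝ) (hx : ∀ i < 4, 0 ≤ x i) (ha : x 3 = a) (hI : x 2 = I)
    (hX : x 1 = X) :
    kY1 rC a (1 - 2 * I - 2 * a) (2 * I * X) (a * (1 - 2 * I - a)) (-(1 - 2 * a - I / 2) * I) =
      a ^ 3 * I * (1 - 2 * I - a) ^ 3 * ev x cY1 := by
  subst ha hI hX
  have h := eq_of_checks kY1_up kY1_down hx
  obtain ⟨h3, hd, hv, hc, he, hb⟩ := ev_args x (by simp only [pd, pb, pS]; ring)
  have e : ev x (kY1 (fun n d => nC n d) .x₃ eD eV (.x₃ * eB) eE2) = kY1 rC (ev x .x₃) (ev x eD) (ev x eV) (ev x (.x₃ * eB)) (ev x eE2) := rfl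
  rw [e, h3, hd, hv, hc, he] at h
  rw [h]
  simp only [ev_mul, ev_x₁, ev_x₂, ev_x₃, hd, hb]
  ring

/-- A coefficient. -/
def kY2 {α : Type} [Add α] [Mul α] (C : ℤ → ℕ → α) (a d v c e2 : α) : α :=
  ((((((((C 32 1)) * c) * v * v * v * v * v) * d + ((((C 128 1)) * c) * v * v * v * v)) * d +
    ((((C 128 1)) * c) * v * v * v)) * d * d) * a + (((((((C 32 1)) * c) * v * v * v * v * v) * d
    + ((((C 128 1)) * c) * v * v * v * v)) * d + ((((C 128 1)) * c) * v * v * v)) * d * d * d)) *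
    a

theorem kY2_up : Ex.checkNonneg ((kY2 (fun n d => nC n d) .x₃ eD eV (.x₃ * eB) eE2) - (cY2 * .x₃ * .x₃ * .x₂ * .x₂ * .x₂ * .x₁ * .x₁ * .x₁ * eB * eB * eD * eD)) boxId 28 ⟨0, 5, 11, 8⟩ = true := by
  decide +kernel

theorem kY2_down : Ex.checkNonneg ((cY2 * .x₃ * .x₃ * .x₂ * .x₂ * .x₂ * .x₁ * .x₁ * .x₁ * eB * eB * eD * eD) - (kY2 (fun n d => nC n d) .x₃ eD eV (.x₃ * eB) eE2)) boxId 28 ⟨0, 5, 11, 8⟩ = true := by
  decide +kernel

theorem kY2_eq (x : ℕ → ℝ) (a I X : ℝ) (hx : ∀ i < 4, 0 ≤ x i) (ha : x 3 = a) (hI : x 2 = I)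
    (hX : x 1 = X) :
    kY2 rC a (1 - 2 * I - 2 * a) (2 * I * X) (a * (1 - 2 * I - a)) (-(1 - 2 * a - I / 2) * I) =
      a ^ 2 * I ^ 3 * X ^ 3 * (1 - 2 * I - a) ^ 2 * (1 - 2 * I - 2 * a) ^ 2 * ev x cY2 := by
  subst ha hI hX
  have h := eq_of_checks kY2_up kY2_down hx
  obtain ⟨h3, hd, hv, hc, he, hb⟩ := ev_args x (by simp only [pd, pb, pS]; ring)
  have e : ev x (kY2 (fun n d => nC n d) .x₃ eD eV (.x₃ * eB) eE2) = kY2 rC (ev x .x₃) (ev x eD) (ev x eV) (ev x (.x₃ * eB)) (ev x eE2) := rfl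
  rw [e, h3, hd, hv, hc, he] at h
  rw [h]
  simp only [ev_mul, ev_x₁, ev_x₂, ev_x₃, hd, hb]
  ring

/-- A coefficient. -/
def kY3 {α : Type} [Add α] [Mul α] (C : ℤ → ℕ → α) (a d v c e2 : α) : α :=
  ((((((((((((C (-32) 1) * e2)) * v * v * v * v * v) * d + (((((C 128 1)) * c + ((C (-192) 1) *
    e2))) * v * v * v * v)) * d + (((((C 384 1)) * c + ((C (-384) 1) * e2))) * v * v * v)) * d +
    (((((C 256 1)) * c + ((C (-256) 1) * e2))) * v * v)) * d) * a + (((((((((C (-80) 1) * e2)) * v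
    * v * v * v * v) * d + ((((((C (-32) 1)) * c + ((C (-16) 1) * e2))) * v + ((((C 320 1)) * c +
    ((C (-480) 1) * e2)))) * v * v * v * v)) * d + ((((((C 64 1)) * c + ((C (-96) 1) * e2))) * v +
    ((((C 960 1)) * c + ((C (-960) 1) * e2)))) * v * v * v)) * d + ((((((C 384 1)) * c + ((C
    (-192) 1) * e2))) * v + ((((C 640 1)) * c + ((C (-640) 1) * e2)))) * v * v)) * d + (((((C 256
    1)) * c + ((C (-128) 1) * e2))) * v * v)) * d)) * a + ((((((((((C (-64) 1) * e2)) * v * v * v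
    * v * v) * d + ((((((C (-48) 1)) * c + ((C (-32) 1) * e2))) * v + ((((C 288 1)) * c + ((C
    (-384) 1) * e2)))) * v * v * v * v)) * d + ((((((C 16 1)) * c) * v + ((((C 224 1)) * c + ((C
    (-192) 1) * e2)))) * v + ((((C 864 1)) * c + ((C (-768) 1) * e2)))) * v * v * v)) * d +
    ((((((C 96 1)) * c) * v + ((((C 992 1)) * c + ((C (-384) 1) * e2)))) * v + ((((C 576 1)) * c +
    ((C (-512) 1) * e2)))) * v * v)) * d + (((((C 192 1)) * c) * v + ((((C 768 1)) * c + ((C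
    (-256) 1) * e2)))) * v * v)) * d + (((((C 128 1)) * c) * v + (((C 128 1)) * c)) * v)) * d)) *
    a + (((((((((((C (-16) 1) * e2)) * v * v * v * v * v) * d + ((((((C (-16) 1)) * c + ((C (-16)
    1) * e2))) * v + ((((C 112 1)) * c + ((C (-96) 1) * e2)))) * v * v * v * v)) * d + ((((((C 16
    1)) * c) * v + ((((C 224 1)) * c + ((C (-96) 1) * e2)))) * v + ((((C 336 1)) * c + ((C (-192)
    1) * e2)))) * v * v * v)) * d + ((((((C 32 1)) * c) * v + ((((C 816 1)) * c + ((C (-192) 1) *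
    e2)))) * v + ((((C 224 1)) * c + ((C (-128) 1) * e2)))) * v * v)) * d + ((((((C (-16) 1)) * c)
    * v + (((C (-144) 1)) * c)) * v + ((((C 704 1)) * c + ((C (-128) 1) * e2)))) * v * v)) * d +
    ((((((C (-48) 1)) * c) * v + (((C (-448) 1)) * c)) * v + (((C 192 1)) * c)) * v)) * d + (((((C
    (-32) 1)) * c) * v + (((C (-320) 1)) * c)) * v)) * d)) * a + ((((((((((C 16 1)) * c) * v * v *
    v * v) * d + (((((C 64 1)) * c) * v + (((C 48 1)) * c)) * v * v * v)) * d + ((((((C (-64) 1))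
    * c) * v + (((C 208 1)) * c)) * v + (((C 32 1)) * c)) * v * v)) * d + ((((((C (-16) 1)) * c) *
    v + (((C (-336) 1)) * c)) * v + (((C 192 1)) * c)) * v * v)) * d + ((((((C (-48) 1)) * c) * v
    + (((C (-576) 1)) * c)) * v + (((C 64 1)) * c)) * v)) * d + (((((C (-32) 1)) * c) * v + (((C
    (-320) 1)) * c)) * v)) * d * d)) * a

theorem kY3_up : Ex.checkNonneg ((kY3 (fun n d => nC n d) .x₃ eD eV (.x₃ * eB) eE2) - (cY3 * .x₃ * .x₃ * .x₂ * .x₁ * eB * eB * eD)) boxId 34 ⟨0, 5, 14, 10⟩ = true := by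
  decide +kernel

theorem kY3_down : Ex.checkNonneg ((cY3 * .x₃ * .x₃ * .x₂ * .x₁ * eB * eB * eD) - (kY3 (fun n d => nC n d) .x₃ eD eV (.x₃ * eB) eE2)) boxId 34 ⟨0, 5, 14, 10⟩ = true := by
  decide +kernel

theorem kY3_eq (x : ℕ → ℝ) (a I X : ℝ) (hx : ∀ i < 4, 0 ≤ x i) (ha : x 3 = a) (hI : x 2 = I)
    (hX : x 1 = X) :
    kY3 rC a (1 - 2 * I - 2 * a) (2 * I * X) (a * (1 - 2 * I - a)) (-(1 - 2 * a - I / 2) * I) =
      a ^ 2 * I * X * (1 - 2 * I - a) ^ 2 * (1 - 2 * I - 2 * a) * ev x cY3 := by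
  subst ha hI hX
  have h := eq_of_checks kY3_up kY3_down hx
  obtain ⟨h3, hd, hv, hc, he, hb⟩ := ev_args x (by simp only [pd, pb, pS]; ring)
  have e : ev x (kY3 (fun n d => nC n d) .x₃ eD eV (.x₃ * eB) eE2) = kY3 rC (ev x .x₃) (ev x eD) (ev x eV) (ev x (.x₃ * eB)) (ev x eE2) := rfl
  rw [e, h3, hd, hv, hc, he] at h
  rw [h]
  simp only [ev_mul, ev_x₁, ev_x₂, ev_x₃, hd, hb]
  ring

/-- A coefficient. -/
def kY4 {α : Type} [Add α] [Mul α] (C : ℤ → ℕ → α) (a d v c e2 : α) : α :=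
  (((((((((((C (-32) 1)) * c) * v * v * v) * d + ((((C (-32) 1)) * c) * v * v))) * a + ((((((((C
    16 1) * e2) * c) * v + (((C (-80) 1)) * c)) * v * v * v) * d + ((((((C (-64) 1)) * c + (((C 64
    1) * e2 + (C 80 1)))) * c) * v + (((C (-80) 1)) * c)) * v * v)) * d + (((((C (-64) 1)) * c +
    (((C 64 1) * e2 + (C 80 1)))) * c) * v * v)))) * a + (((((((((C 32 1) * e2) * c) * v + (((C
    (-72) 1)) * c)) * v * v * v) * d + ((((((C (-128) 1)) * c + (((C 128 1) * e2 + (C 160 1)))) *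
    c) * v + (((C (-72) 1)) * c)) * v * v)) * d + (((((C (-24) 1)) * c) * v + ((((C (-128) 1)) * c
    + (((C 128 1) * e2 + (C 160 1)))) * c)) * v * v)) * d + ((((C (-24) 1)) * c) * v * v)))) * a +
    ((((((((((C 20 1) * e2) * c) * v + (((C (-28) 1)) * c)) * v * v * v) * d + ((((((C (-96) 1)) *
    c + (((C 80 1) * e2 + (C 100 1)))) * c) * v + (((C (-28) 1)) * c)) * v * v)) * d + ((((((C
    (-4) 1) * e2) * c) * v + ((((C (-16) 1)) * c + ((C (-36) 1))) * c)) * v + ((((C (-96) 1)) * c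
    + (((C 80 1) * e2 + (C 100 1)))) * c)) * v * v)) * d + ((((((C 16 1)) * c + (((C (-16) 1) * e2
    + (C (-4) 1)))) * c) * v + ((((C (-48) 1)) * c + ((C (-36) 1))) * c)) * v * v)) * d + ((((((C
    16 1)) * c + (((C (-16) 1) * e2 + (C (-4) 1)))) * c) * v + (((C (-32) 1)) * c * c)) * v)))) *
    a + ((((((((((C 4 1) * e2) * c) * v + (((C (-4) 1)) * c)) * v * v * v) * d + ((((((C (-32) 1))
    * c + (((C 16 1) * e2 + (C 20 1)))) * c) * v + (((C (-4) 1)) * c)) * v * v)) * d + ((((((C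
    (-4) 1) * e2) * c) * v + ((((C (-16) 1)) * c + ((C (-12) 1))) * c)) * v + ((((C (-32) 1)) * c
    + (((C 16 1) * e2 + (C 20 1)))) * c)) * v * v)) * d + ((((((C 16 1)) * c + (((C (-16) 1) * e2
    + (C (-4) 1)))) * c) * v + ((((C (-48) 1)) * c + ((C (-12) 1))) * c)) * v * v)) * d + ((((((C
    16 1)) * c + (((C (-16) 1) * e2 + (C (-4) 1)))) * c) * v + (((C (-32) 1)) * c * c)) * v)) *
    d)) * a + ((((((((((C (-4) 1)) * c * c) * v * v * v) * d + (((((C (-4) 1)) * c * c) * v + (((C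
    (-4) 1)) * c * c)) * v * v)) * d + (((((C 4 1)) * c * c) * v + (((C (-12) 1)) * c * c)) * v *
    v)) * d + ((((((C 4 1)) * c * c) * v + (((C 4 1)) * c * c)) * v + (((C (-8) 1)) * c * c)) *
    v)) * d + ((((C 12 1)) * c * c) * v * v)) * d + ((((C 8 1)) * c * c) * v)))) * a

theorem kY4_up : Ex.checkNonneg ((kY4 (fun n d => nC n d) .x₃ eD eV (.x₃ * eB) eE2) - (cY4 * .x₃ * .x₃ * .x₃ * .x₂ * .x₂ * .x₁ * eB * eB)) boxId 28 ⟨0, 4, 12, 10⟩ = true := by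
  decide +kernel

theorem kY4_down : Ex.checkNonneg ((cY4 * .x₃ * .x₃ * .x₃ * .x₂ * .x₂ * .x₁ * eB * eB) - (kY4 (fun n d => nC n d) .x₃ eD eV (.x₃ * eB) eE2)) boxId 28 ⟨0, 4, 12, 10⟩ = true := by
  decide +kernel

theorem kY4_eq (x : ℕ → ℝ) (a I X : ℝ) (hx : ∀ i < 4, 0 ≤ x i) (ha : x 3 = a) (hI : x 2 = I)
    (hX : x 1 = X) :
    kY4 rC a (1 - 2 * I - 2 * a) (2 * I * X) (a * (1 - 2 * I - a)) (-(1 - 2 * a - I / 2) * I) =
      a ^ 3 * I ^ 2 * X * (1 - 2 * I - a) ^ 2 * ev x cY4 := by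
  subst ha hI hX
  have h := eq_of_checks kY4_up kY4_down hx
  obtain ⟨h3, hd, hv, hc, he, hb⟩ := ev_args x (by simp only [pd, pb, pS]; ring)
  have e : ev x (kY4 (fun n d => nC n d) .x₃ eD eV (.x₃ * eB) eE2) = kY4 rC (ev x .x₃) (ev x eD) (ev x eV) (ev x (.x₃ * eB)) (ev x eE2) := rfl
  rw [e, h3, hd, hv, hc, he] at h
  rw [h]
  simp only [ev_mul, ev_x₁, ev_x₂, ev_x₃, hd, hb]
  ring

/-- A coefficient. -/
def kY5 {α : Type} [Add α] [Mul α] (C : ℤ → ℕ → α) (a d v c e2 : α) : α :=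
  ((((((((((((((C (-8) 1)) * c + ((C (-8) 1) * e2)) * c) * v * v * v * v) * d + (((((C 32 1)) * c
    + ((C (-32) 1) * e2)) * c) * v * v * v)) * d + (((((C 32 1)) * c + ((C (-32) 1) * e2)) * c) *
    v * v))) * a + (((((((((C (-32) 1)) * c + ((C (-28) 1) * e2)) * c) * v * v * v * v) * d +
    (((((((C 8 1) * e2 + (C (-12) 1))) * c + ((C 12 1) * e2)) * c) * v + ((((C 112 1)) * c + ((C
    (-112) 1) * e2)) * c)) * v * v * v)) * d + (((((((C (-32) 1)) * c + (((C 32 1) * e2 + (C 40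
    1)))) * c + ((C 48 1) * e2)) * c) * v + ((((C 136 1)) * c + ((C (-112) 1) * e2)) * c)) * v *
    v)) * d + (((((((C (-32) 1)) * c + (((C 32 1) * e2 + (C 40 1)))) * c + ((C 48 1) * e2)) * c) *
    v + (((C 16 1)) * c * c)) * v)))) * a + ((((((((((C (-50) 1)) * c + ((C (-36) 1) * e2)) * c) *
    v * v * v * v) * d + (((((((C 24 1) * e2 + (C (-32) 1))) * c + ((C 36 1) * e2)) * c) * v +
    ((((C 152 1)) * c + ((C (-144) 1) * e2)) * c)) * v * v * v)) * d + (((((((C 8 1) * e2 + (C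
    (-6) 1))) * c * c) * v + (((((C (-96) 1)) * c + (((C 96 1) * e2 + (C 120 1)))) * c + ((C 144
    1) * e2)) * c)) * v + ((((C 224 1)) * c + ((C (-144) 1) * e2)) * c)) * v * v)) * d + (((((((C
    (-32) 1)) * c + (((C 32 1) * e2 + (C 40 1)))) * c * c) * v + (((((C (-96) 1)) * c + (((C 96 1)
    * e2 + (C 96 1)))) * c + ((C 144 1) * e2)) * c)) * v + (((C 48 1)) * c * c)) * v)) * d +
    ((((((C (-32) 1)) * c + (((C 32 1) * e2 + (C 40 1)))) * c * c) * v + (((C (-16) 1)) * c * c))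
    * v)))) * a + (((((((((((C (-38) 1)) * c + ((C (-20) 1) * e2)) * c) * v * v * v * v) * d +
    (((((((C 26 1) * e2 + (C (-29) 1))) * c + ((C 36 1) * e2)) * c) * v + ((((C 100 1)) * c + ((C
    (-80) 1) * e2)) * c)) * v * v * v)) * d + (((((((C 20 1) * e2 + (C (-12) 1))) * c * c) * v +
    (((((C (-112) 1)) * c + (((C 104 1) * e2 + (C 130 1)))) * c + ((C 144 1) * e2)) * c)) * v +
    ((((C 178 1)) * c + ((C (-80) 1) * e2)) * c)) * v * v)) * d + ((((((((C 2 1) * e2 + (C (-1)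
    1))) * c * c) * v + ((((C (-88) 1)) * c + (((C 80 1) * e2 + (C 100 1)))) * c * c)) * v +
    (((((C (-112) 1)) * c + (((C 104 1) * e2 + (C 70 1)))) * c + ((C 144 1) * e2)) * c)) * v +
    (((C 52 1)) * c * c)) * v)) * d + (((((((C (-8) 1)) * c + (((C 8 1) * e2 + (C 14 1)))) * c *
    c) * v + ((((C (-104) 1)) * c + (((C 80 1) * e2 + (C 82 1)))) * c * c)) * v + (((C (-40) 1)) *
    c * c)) * v)) * d + ((((((C (-8) 1)) * c + (((C 8 1) * e2 + (C 14 1)))) * c * c) * v + ((((C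
    (-16) 1)) * c + ((C (-12) 1))) * c * c)) * v)))) * a + ((((((((((((C (-14) 1)) * c + ((C (-4)
    1) * e2)) * c) * v * v * v * v) * d + (((((((C 12 1) * e2 + (C (-10) 1))) * c + ((C 12 1) *
    e2)) * c) * v + ((((C 32 1)) * c + ((C (-16) 1) * e2)) * c)) * v * v * v)) * d + (((((((C 16
    1) * e2 + (C (-6) 1))) * c * c) * v + (((((C (-64) 1)) * c + (((C 48 1) * e2 + (C 60 1)))) * c
    + ((C 48 1) * e2)) * c)) * v + ((((C 68 1)) * c + ((C (-16) 1) * e2)) * c)) * v * v)) * d +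
    ((((((((C 4 1) * e2 + (C (-2) 1))) * c * c) * v + ((((C (-88) 1)) * c + (((C 64 1) * e2 + (C
    80 1)))) * c * c)) * v + (((((C (-64) 1)) * c + (((C 48 1) * e2 + (C 12 1)))) * c + ((C 48 1)
    * e2)) * c)) * v + (((C 24 1)) * c * c)) * v)) * d + (((((((C (-24) 1)) * c + (((C 16 1) * e2
    + (C 28 1)))) * c * c) * v + ((((C (-120) 1)) * c + (((C 64 1) * e2 + (C 44 1)))) * c * c)) *
    v + (((C (-32) 1)) * c * c)) * v)) * d + ((((((C (-40) 1)) * c + (((C 16 1) * e2 + (C 28 1))))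
    * c * c) * v + ((((C (-32) 1)) * c + ((C (-24) 1))) * c * c)) * v)) * d + ((((C (-16) 1)) * c
    * c * c) * v)))) * a + ((((((((((((C (-2) 1)) * c * c) * v * v * v * v) * d + ((((((C 2 1) *
    e2 + (C (-1) 1))) * c * c) * v + (((C 4 1)) * c * c)) * v * v * v)) * d + ((((((C 4 1) * e2) *
    c * c) * v + ((((C (-18) 1)) * c + (((C 8 1) * e2 + (C 10 1)))) * c * c)) * v + (((C 10 1)) *
    c * c)) * v * v)) * d + ((((((((C 2 1) * e2 + (C (-1) 1))) * c * c) * v + ((((C (-38) 1)) * c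
    + (((C 16 1) * e2 + (C 20 1)))) * c * c)) * v + ((((C (-18) 1)) * c + (((C 8 1) * e2 + (C (-2)
    1)))) * c * c)) * v + (((C 4 1)) * c * c)) * v)) * d + (((((((C (-22) 1)) * c + (((C 8 1) * e2
    + (C 14 1)))) * c * c) * v + ((((C (-58) 1)) * c + (((C 16 1) * e2 + (C 2 1)))) * c * c)) * v
    + (((C (-8) 1)) * c * c)) * v)) * d + ((((((C (-2) 1)) * c * c * c) * v + ((((C (-46) 1)) * c
    + (((C 8 1) * e2 + (C 14 1)))) * c * c)) * v + ((((C (-20) 1)) * c + ((C (-12) 1))) * c * c))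
    * v)) * d + (((((C (-6) 1)) * c * c * c) * v + (((C (-24) 1)) * c * c * c)) * v)) * d + ((((C
    (-4) 1)) * c * c * c) * v)))) * a + ((((((((((C (-2) 1)) * c * c * c) * v * v * v) * d +
    (((((C (-6) 1)) * c * c * c) * v + (((C (-2) 1)) * c * c * c)) * v * v)) * d + (((((C (-6) 1))
    * c * c * c) * v + (((C (-10) 1)) * c * c * c)) * v * v)) * d + ((((((C (-2) 1)) * c * c * c)
    * v + (((C (-14) 1)) * c * c * c)) * v + (((C (-4) 1)) * c * c * c)) * v)) * d + (((((C (-6)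
    1)) * c * c * c) * v + (((C (-8) 1)) * c * c * c)) * v)) * d + ((((C (-4) 1)) * c * c * c) *
    v)) * d))

theorem kY5_up : Ex.checkNonneg ((kY5 (fun n d => nC n d) .x₃ eD eV (.x₃ * eB) eE2) - (cY5 * .x₃ * .x₃ * .x₃ * .x₂ * .x₁ * eB * eB * eB * eB)) boxId 33 ⟨0, 4, 14, 12⟩ = true := by
  decide +kernel

theorem kY5_down : Ex.checkNonneg ((cY5 * .x₃ * .x₃ * .x₃ * .x₂ * .x₁ * eB * eB * eB * eB) - (kY5 (fun n d => nC n d) .x₃ eD eV (.x₃ * eB) eE2)) boxId 33 ⟨0, 4, 14, 12⟩ = true := by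
  decide +kernel

theorem kY5_eq (x : ℕ → ℝ) (a I X : ℝ) (hx : ∀ i < 4, 0 ≤ x i) (ha : x 3 = a) (hI : x 2 = I)
    (hX : x 1 = X) :
    kY5 rC a (1 - 2 * I - 2 * a) (2 * I * X) (a * (1 - 2 * I - a)) (-(1 - 2 * a - I / 2) * I) =
      a ^ 3 * I * X * (1 - 2 * I - a) ^ 4 * ev x cY5 := by
  subst ha hI hX
  have h := eq_of_checks kY5_up kY5_down hx
  obtain ⟨h3, hd, hv, hc, he, hb⟩ := ev_args x (by simp only [pd, pb, pS]; ring)
  have e : ev x (kY5 (fun n d => nC n d) .x₃ eD eV (.x₃ * eB) eE2) = kY5 rC (ev x .x₃) (ev x eD) (ev x eV) (ev x (.x₃ * eB)) (ev x eE2) := rfl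
  rw [e, h3, hd, hv, hc, he] at h
  rw [h]
  simp only [ev_mul, ev_x₁, ev_x₂, ev_x₃, hd, hb]
  ring

/-- A coefficient. -/
def kY6 {α : Type} [Add α] [Mul α] (C : ℤ → ℕ → α) (a d v c e2 : α) : α :=
  ((((((((((((C 4 1)) * c * c) * v * v * v * v) * d * d + ((((C (-64) 1)) * c * c) * v * v)) * d +
    ((((C (-128) 1)) * c * c) * v)) * d + ((((C (-64) 1)) * c * c)))) * a + ((((((((C 12 1)) * c *
    c) * v * v * v * v) * d * d + ((((C (-192) 1)) * c * c) * v * v)) * d + ((((C (-384) 1)) * c *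
    c) * v)) * d + ((((C (-192) 1)) * c * c))) * d)) * a + ((((((((((C 13 1)) * c * c) * v * v * v
    * v) * d * d + (((((C (-1) 1)) * c * c) * v * v + (((C (-208) 1)) * c * c)) * v * v)) * d +
    ((((C (-416) 1)) * c * c) * v)) * d + (((((C 16 1)) * c * c) * v * v + (((C (-208) 1)) * c *
    c)))) * d + ((((C 32 1)) * c * c) * v)) * d + ((((C 16 1)) * c * c))))) * a + ((((((((((C 6
    1)) * c * c) * v * v * v * v) * d * d + (((((C (-2) 1)) * c * c) * v * v + (((C (-96) 1)) * c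
    * c)) * v * v)) * d + ((((C (-192) 1)) * c * c) * v)) * d + (((((C 32 1)) * c * c) * v * v +
    (((C (-96) 1)) * c * c)))) * d + ((((C 64 1)) * c * c) * v)) * d + ((((C 32 1)) * c * c))) *
    d)) * a + ((((((((((C 1 1)) * c * c) * v * v * v * v) * d * d + (((((C (-1) 1)) * c * c) * v *
    v + (((C (-16) 1)) * c * c)) * v * v)) * d + ((((C (-32) 1)) * c * c) * v)) * d + (((((C 16
    1)) * c * c) * v * v + (((C (-16) 1)) * c * c)))) * d + ((((C 32 1)) * c * c) * v)) * d +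
    ((((C 16 1)) * c * c))) * d * d)) * a

theorem kY6_up : Ex.checkNonneg ((kY6 (fun n d => nC n d) .x₃ eD eV (.x₃ * eB) eE2) - (cY6 * .x₃ * .x₃ * .x₃ * .x₂ * eB * eB * eB * eB)) boxId 31 ⟨0, 4, 14, 13⟩ = true := by
  decide +kernel

theorem kY6_down : Ex.checkNonneg ((cY6 * .x₃ * .x₃ * .x₃ * .x₂ * eB * eB * eB * eB) - (kY6 (fun n d => nC n d) .x₃ eD eV (.x₃ * eB) eE2)) boxId 31 ⟨0, 4, 14, 13⟩ = true := by
  decide +kernel

theorem kY6_eq (x : ℕ → ℝ) (a I X : ℝ) (hx : ∀ i < 4, 0 ≤ x i) (ha : x 3 = a) (hI : x 2 = I)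
    (hX : x 1 = X) :
    kY6 rC a (1 - 2 * I - 2 * a) (2 * I * X) (a * (1 - 2 * I - a)) (-(1 - 2 * a - I / 2) * I) =
      a ^ 3 * I * (1 - 2 * I - a) ^ 4 * ev x cY6 := by
  subst ha hI hX
  have h := eq_of_checks kY6_up kY6_down hx
  obtain ⟨h3, hd, hv, hc, he, hb⟩ := ev_args x (by simp only [pd, pb, pS]; ring)
  have e : ev x (kY6 (fun n d => nC n d) .x₃ eD eV (.x₃ * eB) eE2) = kY6 rC (ev x .x₃) (ev x eD) (ev x eV) (ev x (.x₃ * eB)) (ev x eE2) := rfl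
  rw [e, h3, hd, hv, hc, he] at h
  rw [h]
  simp only [ev_mul, ev_x₁, ev_x₂, ev_x₃, hd, hb]
  ring

/-- A coefficient. -/
def kY7 {α : Type} [Add α] [Mul α] (C : ℤ → ℕ → α) (a d v c e2 : α) : α :=
  ((((((((((C 8 1)) * c) * v * v * v * v) * d * d + ((((C (-48) 1)) * c) * v * v)) * d + ((((C
    (-32) 1)) * c) * v)) * d) * a + (((((((((C 20 1)) * c) * v * v * v * v) * d + ((((C (-4) 1)) *
    c) * v * v * v * v)) * d + (((((C 32 1)) * c) * v + (((C (-120) 1)) * c)) * v * v)) * d +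
    (((((C 120 1)) * c) * v + (((C (-80) 1)) * c)) * v)) * d + ((((C 80 1)) * c) * v)) * d)) * a +
    (((((((((C 16 1)) * c) * v * v * v * v) * d + ((((C (-8) 1)) * c) * v * v * v * v)) * d +
    (((((C 64 1)) * c) * v + (((C (-96) 1)) * c)) * v * v)) * d + (((((C 240 1)) * c) * v + (((C
    (-64) 1)) * c)) * v)) * d + ((((C 160 1)) * c) * v)) * d * d)) * a + (((((((((C 4 1)) * c) * v
    * v * v * v) * d + ((((C (-4) 1)) * c) * v * v * v * v)) * d + (((((C 32 1)) * c) * v + (((C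
    (-24) 1)) * c)) * v * v)) * d + (((((C 120 1)) * c) * v + (((C (-16) 1)) * c)) * v)) * d +
    ((((C 80 1)) * c) * v)) * d * d * d)) * a

theorem kY7_up : Ex.checkNonneg ((kY7 (fun n d => nC n d) .x₃ eD eV (.x₃ * eB) eE2) - (cY7 * .x₃ * .x₃ * .x₂ * .x₁ * eB * eB * eB * eD)) boxId 28 ⟨0, 4, 12, 10⟩ = true := by
  decide +kernel

theorem kY7_down : Ex.checkNonneg ((cY7 * .x₃ * .x₃ * .x₂ * .x₁ * eB * eB * eB * eD) - (kY7 (fun n d => nC n d) .x₃ eD eV (.x₃ * eB) eE2)) boxId 28 ⟨0, 4, 12, 10⟩ = true := by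
  decide +kernel

theorem kY7_eq (x : ℕ → ℝ) (a I X : ℝ) (hx : ∀ i < 4, 0 ≤ x i) (ha : x 3 = a) (hI : x 2 = I)
    (hX : x 1 = X) :
    kY7 rC a (1 - 2 * I - 2 * a) (2 * I * X) (a * (1 - 2 * I - a)) (-(1 - 2 * a - I / 2) * I) =
      a ^ 2 * I * X * (1 - 2 * I - a) ^ 3 * (1 - 2 * I - 2 * a) * ev x cY7 := by
  subst ha hI hX
  have h := eq_of_checks kY7_up kY7_down hx
  obtain ⟨h3, hd, hv, hc, he, hb⟩ := ev_args x (by simp only [pd, pb, pS]; ring)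
  have e : ev x (kY7 (fun n d => nC n d) .x₃ eD eV (.x₃ * eB) eE2) = kY7 rC (ev x .x₃) (ev x eD) (ev x eV) (ev x (.x₃ * eB)) (ev x eE2) := rfl
  rw [e, h3, hd, hv, hc, he] at h
  rw [h]
  simp only [ev_mul, ev_x₁, ev_x₂, ev_x₃, hd, hb]
  ring

/-- A coefficient. -/
def kY8 {α : Type} [Add α] [Mul α] (C : ℤ → ℕ → α) (a d v c e2 : α) : α :=
  (((((((((C 8 1)) * c * c) * v * v) * d + ((((C 8 1)) * c * c) * v))) * a + ((((((C 16 1)) * c *
    c) * v * v) * d + ((((C 16 1)) * c * c) * v)) * d)) * a + ((((((((C 10 1)) * c * c) * v * v) *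
    d + ((((C 10 1)) * c * c) * v)) * d + ((((C (-2) 1)) * c * c) * v * v)) * d + ((((C (-2) 1)) *
    c * c) * v)))) * a + ((((((((C 2 1)) * c * c) * v * v) * d + ((((C 2 1)) * c * c) * v)) * d +
    ((((C (-2) 1)) * c * c) * v * v)) * d + ((((C (-2) 1)) * c * c) * v)) * d)) * a

theorem kY8_up : Ex.checkNonneg ((kY8 (fun n d => nC n d) .x₃ eD eV (.x₃ * eB) eE2) - (cY8 * .x₃ * .x₃ * .x₃ * .x₂ * .x₂ * .x₁ * eB * eB * eB)) boxId 20 ⟨0, 2, 8, 9⟩ = true := by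
  decide +kernel

theorem kY8_down : Ex.checkNonneg ((cY8 * .x₃ * .x₃ * .x₃ * .x₂ * .x₂ * .x₁ * eB * eB * eB) - (kY8 (fun n d => nC n d) .x₃ eD eV (.x₃ * eB) eE2)) boxId 20 ⟨0, 2, 8, 9⟩ = true := by
  decide +kernel

theorem kY8_eq (x : ℕ → ℝ) (a I X : ℝ) (hx : ∀ i < 4, 0 ≤ x i) (ha : x 3 = a) (hI : x 2 = I)
    (hX : x 1 = X) :
    kY8 rC a (1 - 2 * I - 2 * a) (2 * I * X) (a * (1 - 2 * I - a)) (-(1 - 2 * a - I / 2) * I) =
      a ^ 3 * I ^ 2 * X * (1 - 2 * I - a) ^ 3 * ev x cY8 := by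
  subst ha hI hX
  have h := eq_of_checks kY8_up kY8_down hx
  obtain ⟨h3, hd, hv, hc, he, hb⟩ := ev_args x (by simp only [pd, pb, pS]; ring)
  have e : ev x (kY8 (fun n d => nC n d) .x₃ eD eV (.x₃ * eB) eE2) = kY8 rC (ev x .x₃) (ev x eD) (ev x eV) (ev x (.x₃ * eB)) (ev x eE2) := rfl
  rw [e, h3, hd, hv, hc, he] at h
  rw [h]
  simp only [ev_mul, ev_x₁, ev_x₂, ev_x₃, hd, hb]
  ring

/-- A coefficient. -/
def kY9 {α : Type} [Add α] [Mul α] (C : ℤ → ℕ → α) (a d v c e2 : α) : α :=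
  ((((((((((((C 2 1)) * c * c) * v * v * v) * d + ((((C (-4) 1)) * c * c) * v * v)) * d + ((((C
    (-4) 1)) * c * c) * v))) * a + ((((((((C 7 1)) * c * c) * v * v * v) * d + (((((C 1 1)) * c *
    c) * v + (((C (-14) 1)) * c * c)) * v * v)) * d + ((((((C 4 1)) * c + ((C (-2) 1))) * c * c) *
    v + (((C (-14) 1)) * c * c)) * v)) * d + (((((C 4 1)) * c + ((C (-2) 1))) * c * c) * v)))) * a
    + (((((((((C 9 1)) * c * c) * v * v * v) * d + (((((C 3 1)) * c * c) * v + (((C (-18) 1)) * c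
    * c)) * v * v)) * d + ((((((C 12 1)) * c + ((C (-6) 1))) * c * c) * v + (((C (-18) 1)) * c *
    c)) * v)) * d + (((((C 4 1)) * c * c * c) * v + ((((C 12 1)) * c + ((C (-6) 1))) * c * c)) *
    v)) * d + ((((C 4 1)) * c * c * c) * v)))) * a + ((((((((((C 5 1)) * c * c) * v * v * v) * d +
    (((((C 3 1)) * c * c) * v + (((C (-10) 1)) * c * c)) * v * v)) * d + ((((((C 13 1)) * c + ((C
    (-6) 1))) * c * c) * v + (((C (-10) 1)) * c * c)) * v)) * d + (((((C 10 1)) * c * c * c) * v +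
    ((((C 13 1)) * c + ((C (-6) 1))) * c * c)) * v)) * d + (((((C 1 1)) * c * c * c) * v + (((C 10
    1)) * c * c * c)) * v)) * d + ((((C 1 1)) * c * c * c) * v)))) * a + ((((((((((C 1 1)) * c *
    c) * v * v * v) * d + (((((C 1 1)) * c * c) * v + (((C (-2) 1)) * c * c)) * v * v)) * d +
    ((((((C 6 1)) * c + ((C (-2) 1))) * c * c) * v + (((C (-2) 1)) * c * c)) * v)) * d + (((((C 8
    1)) * c * c * c) * v + ((((C 6 1)) * c + ((C (-2) 1))) * c * c)) * v)) * d + (((((C 2 1)) * c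
    * c * c) * v + (((C 8 1)) * c * c * c)) * v)) * d + ((((C 2 1)) * c * c * c) * v)) * d)) * a +
    ((((((((C 1 1)) * c * c * c) * v * v) * d + (((((C 2 1)) * c * c * c) * v + (((C 1 1)) * c * c
    * c)) * v)) * d + (((((C 1 1)) * c * c * c) * v + (((C 2 1)) * c * c * c)) * v)) * d + ((((C 1
    1)) * c * c * c) * v)) * d * d))

theorem kY9_up : Ex.checkNonneg ((kY9 (fun n d => nC n d) .x₃ eD eV (.x₃ * eB) eE2) - (cY9 * .x₃ * .x₃ * .x₃ * .x₂ * .x₂ * .x₁ * eB * eB * eB * eB * eB)) boxId 26 ⟨0, 3, 11, 11⟩ = true := by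
  decide +kernel

theorem kY9_down : Ex.checkNonneg ((cY9 * .x₃ * .x₃ * .x₃ * .x₂ * .x₂ * .x₁ * eB * eB * eB * eB * eB) - (kY9 (fun n d => nC n d) .x₃ eD eV (.x₃ * eB) eE2)) boxId 26 ⟨0, 3, 11, 11⟩ = true := by
  decide +kernel

theorem kY9_eq (x : ℕ → ℝ) (a I X : ℝ) (hx : ∀ i < 4, 0 ≤ x i) (ha : x 3 = a) (hI : x 2 = I)
    (hX : x 1 = X) :
    kY9 rC a (1 - 2 * I - 2 * a) (2 * I * X) (a * (1 - 2 * I - a)) (-(1 - 2 * a - I / 2) * I) =
      a ^ 3 * I ^ 2 * X * (1 - 2 * I - a) ^ 5 * ev x cY9 := by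
  subst ha hI hX
  have h := eq_of_checks kY9_up kY9_down hx
  obtain ⟨h3, hd, hv, hc, he, hb⟩ := ev_args x (by simp only [pd, pb, pS]; ring)
  have e : ev x (kY9 (fun n d => nC n d) .x₃ eD eV (.x₃ * eB) eE2) = kY9 rC (ev x .x₃) (ev x eD) (ev x eV) (ev x (.x₃ * eB)) (ev x eE2) := rfl
  rw [e, h3, hd, hv, hc, he] at h
  rw [h]
  simp only [ev_mul, ev_x₁, ev_x₂, ev_x₃, hd, hb]
  ring

theorem genY (a d v g W W1 R c e2 E K G G1 D2 : ℝ) :
    ClosedGen.TEGS a d v g W W1 R ⟨c, e2, E, K, G, G1, D2⟩ =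
      kY0 rC a d v c e2 +
      kY1 rC a d v c e2 * D2 +
      kY2 rC a d v c e2 * G1 +
      kY3 rC a d v c e2 * G +
      kY4 rC a d v c e2 * (g * E) +
      kY5 rC a d v c e2 * (g * W) +
      kY6 rC a d v c e2 * (g * W) * D2 +
      kY7 rC a d v c e2 * (g * W) * G +
      kY8 rC a d v c e2 * (g * W) * (g * E) +
      kY9 rC a d v c e2 * (g * W) ^ 2 := by
  simp only [rC, kY0, kY1, kY2, kY3, kY4, kY5, kY6, kY7, kY8, kY9, ClosedGen.TEGS, ClosedGen.hGS,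
    ClosedGen.hG_kc, ClosedGen.hG_g, ClosedGen.hG_c, ClosedGen.hES, ClosedGen.hE_v,
    ClosedGen.hE_c, Closed.j1, ClosedGen.gGS, ClosedGen.gG_v, ClosedGen.gG_c, ClosedGen.gG_1,
    ClosedGen.gES, ClosedGen.gE_k1, ClosedGen.gE_w, ClosedGen.gE_c, ClosedGen.gE_1,
    ClosedGen.LEGS, ClosedGen.EG_kv, ClosedGen.EG_k1, ClosedGen.EG_g0, ClosedGen.EG_g,
    Closed.LEGw, Closed.LEGv, Closed.LEGc, Closed.LEG1, Closed.LEG1_000000_0]
  push_cast
  ring

theorem expY (x : ℕ → ℝ) (a I X g W W1 R E K G G1 D2 : ℝ) (hx : ∀ i < 4, 0 ≤ x i)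
    (ha : x 3 = a) (hI : x 2 = I) (hX : x 1 = X) :
    ClosedGen.TEGS a (1 - 2 * I - 2 * a) (2 * I * X) g W W1 R
        ⟨a * (1 - 2 * I - a), -(1 - 2 * a - I / 2) * I, E, K, G, G1, D2⟩ =
      a ^ 3 * I * X * (1 - 2 * I - a) ^ 3 * ev x cY0 +
      a ^ 3 * I * (1 - 2 * I - a) ^ 3 * ev x cY1 * D2 +
      a ^ 2 * I ^ 3 * X ^ 3 * (1 - 2 * I - a) ^ 2 * (1 - 2 * I - 2 * a) ^ 2 * ev x cY2 * G1 +
      a ^ 2 * I * X * (1 - 2 * I - a) ^ 2 * (1 - 2 * I - 2 * a) * ev x cY3 * G +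
      a ^ 3 * I ^ 2 * X * (1 - 2 * I - a) ^ 2 * ev x cY4 * (g * E) +
      a ^ 3 * I * X * (1 - 2 * I - a) ^ 4 * ev x cY5 * (g * W) +
      a ^ 3 * I * (1 - 2 * I - a) ^ 4 * ev x cY6 * (g * W) * D2 +
      a ^ 2 * I * X * (1 - 2 * I - a) ^ 3 * (1 - 2 * I - 2 * a) * ev x cY7 * (g * W) * G +
      a ^ 3 * I ^ 2 * X * (1 - 2 * I - a) ^ 3 * ev x cY8 * (g * W) * (g * E) +
      a ^ 3 * I ^ 2 * X * (1 - 2 * I - a) ^ 5 * ev x cY9 * (g * W) ^ 2 := by
  rw [genY, kY0_eq x a I X hx ha hI hX, kY1_eq x a I X hx ha hI hX, kY2_eq x a I X hx ha hI hX, kY3_eq x a I X hx ha hI hX, kY4_eq x a I X hx ha hI hX, kY5_eq x a I X hx ha hI hX, kY6_eq x a I X hx ha hI hX, kY7_eq x a I X hx ha hI hX, kY8_eq x a I X hx ha hI hX, kY9_eq x a I X hx ha hI hX]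

end Vale.Agent.P100.Calib.Closed.All.SgnNeg
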