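import Vale.Agent.P100.Calib.SlabAllPack

/-!
# The closed forms below the crossing in every dimension from twenty on, as expressions

The variables are `(U, X, I, a)`: `u = -2 I U`, `v = 2 I X`, `b = 1 - 2 I - a`, `d = b - a`.
The arguments `p, h, t, w` stand for `b g W`, `I g`, `1 - d u H` and the slope.
-/

namespace Vale.Agent.P100.Calib.Closed.All.SgnNeg

open BoxPos

local instance exprAdd : Add Ex := ⟨Ex.add⟩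
local instance exprSub : Sub Ex := ⟨Ex.sub⟩
local instance exprMul : Mul Ex := ⟨Ex.mul⟩

/-- A constant. -/
def nC (n : ℤ) (d : ℕ := 1) : Ex := Ex.cst n d

/-- `S`. -/
def eS : Ex := nC 1 - nC 2 * .x₂

/-- `b`. -/
def eB : Ex := eS - .x₃

/-- `d`. -/
def eD : Ex := eB - .x₃

/-- `v`. -/
def eV : Ex := nC 2 * .x₂ * .x₁

/-- `1 + d v`. -/
def eQ : Ex := nC 1 + eD * eV

/-- `(1 - a)²`. -/
def eMu : Ex := (nC 1 - .x₃) * (nC 1 - .x₃)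

/-- `1 + 2 I`. -/
def eJ : Ex := nC 1 + nC 2 * .x₂

/-- `u`. -/
def eU : Ex := nC (-2) * (.x₂ * .x₀)

/-- The multiplier times `d`. -/
def fL (t : Ex) : Ex :=
  nC 0 - nC 2 * .x₂ * (nC 1 - nC 3 * .x₂ - nC 2 * (.x₃ * .x₃)) * eQ - nC 5 2 * t

/-- `G d² b (1 + d v)/a`. -/
def fGh (t : Ex) : Ex := nC 0 - .x₂ * (nC 1 - nC 3 * .x₃ - .x₂) * eB * eQ - nC 3 10 * t

/-- `G₁ d² b (1 + d v)/a`. -/
def fG1h (t : Ex) : Ex := nC 0 - nC 3 10 * t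

/-- `D₂ d² S²`. -/
def eK1 : Ex := eS * eS - nC 2 * .x₃ * (nC 1 - .x₂)

/-- `b² S² (1 - a)² g W₁`. -/
def fW (p h w : Ex) : Ex :=
  p * (.x₃ - (nC 1 - .x₃) * (eD * eV)) * eS * eS * eMu -
    nC 2 * h * eJ * eB * eB * (.x₃ + .x₂ * w * eMu)

/-- A coefficient. -/
def cG0 : Ex :=
  ((((((((((((nC 1024 * .x₂ + (nC 12288 * .x₃ + nC (-7168))) * .x₂ + ((nC 55296 * .x₃ + nC
    (-67584)) * .x₃ + nC 19968)) * .x₂ + (((nC 118784 * .x₃ + nC (-233472)) * .x₃ + nC 144384) *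
    .x₃ + nC (-28672))) * .x₂ + ((((nC 132096 * .x₃ + nC (-382976)) * .x₃ + nC 376320) * .x₃ + nC
    (-155136)) * .x₃ + nC 23104)) * .x₂ + (((((nC 73728 * .x₃ + nC (-316416)) * .x₃ + nC 448512) *
    .x₃ + nC (-290304)) * .x₃ + nC 89088) * .x₃ + nC (-10560))) * .x₂ + ((((((nC 16384 * .x₃ + nC
    (-122880)) * .x₃ + nC 245760) * .x₃ + nC (-225280)) * .x₃ + nC 107520) * .x₃ + nC (-26112)) *
    .x₃ + nC 2560)) * .x₂ + ((((((nC (-16384) * .x₃ + nC 49152) * .x₃ + nC (-61440)) * .x₃ + nC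
    40960) * .x₃ + nC (-15360)) * .x₃ + nC 3072) * .x₃ + nC (-256))) * .x₂ * .x₂ * .x₂ * .x₂ * .x₂
    * .x₂ * .x₂ * .x₂ * .x₁ + ((((((((nC (-14336) * .x₂ + (nC (-59392) * .x₃ + nC 84992)) * .x₂ +
    ((nC (-129024) * .x₃ + nC 317440) * .x₃ + nC (-199168))) * .x₂ + (((nC (-174080) * .x₃ + nC
    531456) * .x₃ + nC (-649728)) * .x₃ + nC 249600)) * .x₂ + ((((nC (-126976) * .x₃ + nC 487424)
    * .x₃ + nC (-850944)) * .x₃ + nC 672768) * .x₃ + nC (-183808))) * .x₂ + (((((nC (-36864) * .x₃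
    + nC 225280) * .x₃ + nC (-523264)) * .x₃ + nC 649728) * .x₃ + nC (-379904)) * .x₃ + nC 81024))
    * .x₂ + (((((nC 36864 * .x₃ + nC (-122880)) * .x₃ + nC 238592) * .x₃ + nC (-241152)) * .x₃ +
    nC 115200) * .x₃ + nC (-20608))) * .x₂ + ((((nC 16384 * .x₃ + nC (-39936)) * .x₃ + nC 38400) *
    .x₃ + nC (-16640)) * .x₃ + nC 2688)) * .x₂ + (((nC 1024 * .x₃ + nC (-1536)) * .x₃ + nC 768) *
    .x₃ + nC (-128))) * .x₂ * .x₂ * .x₂ * .x₂ * .x₂) * .x₁ + (((((((nC 12800 * .x₂ + (nC 33792 *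
    .x₃ + nC (-67584))) * .x₂ + ((nC 58880 * .x₃ + nC (-162816)) * .x₃ + nC 131968)) * .x₂ + (((nC
    67584 * .x₃ + nC (-182784)) * .x₃ + nC 285696) * .x₃ + nC (-131968))) * .x₂ + ((((nC 29696 *
    .x₃ + nC (-113152)) * .x₃ + nC 233472) * .x₃ + nC (-233600)) * .x₃ + nC 72768)) * .x₂ + ((((nC
    (-25600) * .x₃ + nC 68096) * .x₃ + nC (-125952)) * .x₃ + nC 90752) * .x₃ + nC (-21312))) * .x₂
    + ((((nC (-3072) * .x₃ + nC (-13312)) * .x₃ + nC 24576) * .x₃ + nC (-14080)) * .x₃ + nC 2752))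
    * .x₂ + ((((nC (-1024) * .x₃ + nC 1024) * .x₃ + nC (-512)) * .x₃ + nC 256) * .x₃ + nC (-64)))
    * .x₂ * .x₂ * .x₂ * .x₂) * .x₁ + ((((((nC (-3584) * .x₂ + (nC (-4608) * .x₃ + nC 17920)) * .x₂
    + ((nC (-11264) * .x₃ + nC 19456) * .x₃ + nC (-29184))) * .x₂ + (((nC (-10240) * .x₃ + nC
    13056) * .x₃ + nC (-32000)) * .x₃ + nC 22720)) * .x₂ + (((nC 5120 * .x₃ + nC (-8448)) * .x₃ +
    nC 20992) * .x₃ + nC (-8640))) * .x₂ + (((nC 3584 * .x₃ + nC 3840) * .x₃ + nC (-5120)) * .x₃ +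
    nC 1280)) * .x₂ + ((nC 1536 * .x₃ + nC (-1280)) * .x₃ + nC 256) * .x₃) * .x₂ * .x₂ * .x₂) *
    .x₁ + (((((nC 320 * .x₂ + nC (-1856)) * .x₂ + ((nC 1280 * .x₃ + nC 1152) * .x₃ + nC 2752)) *
    .x₂ + ((nC 768 * .x₃ + nC (-128)) * .x₃ + nC (-1856))) * .x₂ + ((nC (-1216) * .x₃ + nC
    (-1024)) * .x₃ + nC 576)) * .x₂ + ((nC (-832) * .x₃ + nC 512) * .x₃ + nC (-64))) * .x₂ * .x₂)
    * .x₁ + (((nC 64 * .x₂ + (nC (-256) * .x₃ + nC (-192))) * .x₂ + (nC 64 * .x₃ + nC 192)) * .x₂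
    + (nC 192 * .x₃ + nC (-64))) * .x₂) * .x₁ + (nC 16 * .x₂ + nC (-16))

/-- A coefficient. -/
def cG1 : Ex :=
  (((((((((nC (-8192) * .x₂ + (nC (-28672) * .x₃ + nC 26624)) * .x₂ + ((nC (-36864) * .x₃ + nC
    77824) * .x₃ + nC (-35840))) * .x₂ + (((nC (-20480) * .x₃ + nC 79872) * .x₃ + nC (-82944)) *
    .x₃ + nC 26112)) * .x₂ + ((((nC (-4096) * .x₃ + nC 32768) * .x₃ + nC (-61440)) * .x₃ + nC
    45056) * .x₃ + nC (-11008))) * .x₂ + ((((nC 4096 * .x₃ + nC (-14336)) * .x₃ + nC 21504) * .x₃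
    + nC (-12800)) * .x₃ + nC 2560)) * .x₂ + (((nC 2048 * .x₃ + nC (-3072)) * .x₃ + nC 1536) * .x₃
    + nC (-256))) * .x₂ * .x₂ * .x₂ * .x₁ + (((((nC 12288 * .x₂ + (nC 31744 * .x₃ + nC (-33280)))
    * .x₂ + ((nC 26624 * .x₃ + nC (-68608)) * .x₃ + nC 35328)) * .x₂ + (((nC 7168 * .x₃ + nC
    (-42496)) * .x₃ + nC 52480) * .x₃ + nC (-19072))) * .x₂ + (((nC (-7168) * .x₃ + nC 18432) *
    .x₃ + nC (-18176)) * .x₃ + nC 5376)) * .x₂ + ((nC (-2560) * .x₃ + nC 2560) * .x₃ + nC (-640)))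
    * .x₂ * .x₂) * .x₁ + ((((nC (-6656) * .x₂ + (nC (-11264) * .x₃ + nC 14336)) * .x₂ + ((nC
    (-4608) * .x₃ + nC 17920) * .x₃ + nC (-10880))) * .x₂ + ((nC 4608 * .x₃ + nC (-7680)) * .x₃ +
    nC 3712)) * .x₂ + (nC 1024 * .x₃ + nC (-512))) * .x₂) * .x₁ + (((nC 1536 * .x₂ + (nC 1280 *
    .x₃ + nC (-2432))) * .x₂ + (nC (-1280) * .x₃ + nC 1024)) * .x₂ + nC (-128))) * .x₁ + (nC
    (-128) * .x₂ + nC 128)

/-- A coefficient. -/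
def cG2 : Ex :=
  ((((((((((nC (-4096) * .x₂ + (nC (-20480) * .x₃ + nC 14336)) * .x₂ + ((nC (-40960) * .x₃ + nC
    61440) * .x₃ + nC (-20480))) * .x₂ + (((nC (-40960) * .x₃ + nC 102400) * .x₃ + nC (-71680)) *
    .x₃ + nC 15360)) * .x₂ + ((((nC (-20480) * .x₃ + nC 81920) * .x₃ + nC (-92160)) * .x₃ + nC
    40960) * .x₃ + nC (-6400))) * .x₂ + (((((nC (-4096) * .x₃ + nC 30720) * .x₃ + nC (-51200)) *
    .x₃ + nC 35840) * .x₃ + nC (-11520)) * .x₃ + nC 1408)) * .x₂ + (((((nC 4096 * .x₃ + nC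
    (-10240)) * .x₃ + nC 10240) * .x₃ + nC (-5120)) * .x₃ + nC 1280) * .x₃ + nC (-128))) * .x₂ *
    .x₂ * .x₂ * .x₂ * .x₂ * .x₁ + (((((nC 9216 * .x₂ + (nC 36864 * .x₃ + nC (-27648))) * .x₂ +
    ((nC 55296 * .x₃ + nC (-92160)) * .x₃ + nC 32256)) * .x₂ + (((nC 36864 * .x₃ + nC (-110592)) *
    .x₃ + nC 82944) * .x₃ + nC (-18432))) * .x₂ + ((((nC 9216 * .x₃ + nC (-55296)) * .x₃ + nC
    69120) * .x₃ + nC (-32256)) * .x₃ + nC 5184)) * .x₂ + ((((nC (-9216) * .x₃ + nC 18432) * .x₃ +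
    nC (-13824)) * .x₃ + nC 4608) * .x₃ + nC (-576))) * .x₂ * .x₂ * .x₂ * .x₂) * .x₁ + ((((nC
    (-8192) * .x₂ + (nC (-24576) * .x₃ + nC 20480)) * .x₂ + ((nC (-24576) * .x₃ + nC 49152) * .x₃
    + nC (-18432))) * .x₂ + (((nC (-8192) * .x₃ + nC 36864) * .x₃ + nC (-30720)) * .x₃ + nC 7168))
    * .x₂ + (((nC 8192 * .x₃ + nC (-12288)) * .x₃ + nC 6144) * .x₃ + nC (-1024))) * .x₂ * .x₂ *
    .x₂) * .x₁ + (((nC 3584 * .x₂ + (nC 7168 * .x₃ + nC (-7168))) * .x₂ + ((nC 3584 * .x₃ + nC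
    (-10752)) * .x₃ + nC 4480)) * .x₂ + ((nC (-3584) * .x₃ + nC 3584) * .x₃ + nC (-896))) * .x₂ *
    .x₂) * .x₁ + ((nC (-768) * .x₂ + (nC (-768) * .x₃ + nC 1152)) * .x₂ + (nC 768 * .x₃ + nC
    (-384))) * .x₂) * .x₁ + (nC 64 * .x₂ + nC (-64))

/-- A coefficient. -/
def cG3 : Ex :=
  (((((nC 8192 * .x₂ + (nC 24576 * .x₃ + nC (-12288))) * .x₂ + ((nC 24576 * .x₃ + nC (-24576)) *
    .x₃ + nC 6144)) * .x₂ + (((nC 8192 * .x₃ + nC (-12288)) * .x₃ + nC 6144) * .x₃ + nC (-1024)))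
    * .x₂ * .x₂ * .x₂ * .x₁ + ((nC (-10240) * .x₂ + (nC (-20480) * .x₃ + nC 10240)) * .x₂ + ((nC
    (-10240) * .x₃ + nC 10240) * .x₃ + nC (-2560))) * .x₂ * .x₂) * .x₁ + (nC 4096 * .x₂ + (nC 4096
    * .x₃ + nC (-2048))) * .x₂) * .x₁ + nC (-512)

/-- A coefficient. -/
def cG4 : Ex :=
  (((((((nC (-8192) * .x₂ + (nC (-20480) * .x₃ + nC 30720)) * .x₂ + ((nC (-16384) * .x₃ + nC
    65536) * .x₃ + nC (-38912))) * .x₂ + (((nC (-4096) * .x₃ + nC 43008) * .x₃ + nC (-62464)) *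
    .x₃ + nC 22016)) * .x₂ + (((nC 8192 * .x₃ + nC (-26624)) * .x₃ + nC 22528) * .x₃ + nC
    (-5632))) * .x₂ + (((nC (-2048) * .x₃ + nC 4096) * .x₃ + nC (-2560)) * .x₃ + nC 512)) * .x₂ *
    .x₂ * .x₂ * .x₁ + ((((nC 8192 * .x₂ + (nC 13312 * .x₃ + nC (-26112))) * .x₂ + ((nC 5120 * .x₃
    + nC (-34816)) * .x₃ + nC 24832)) * .x₂ + ((nC (-10240) * .x₃ + nC 21504) * .x₃ + nC (-8960)))
    * .x₂ + ((nC 2560 * .x₃ + nC (-3328)) * .x₃ + nC 1024)) * .x₂ * .x₂) * .x₁ + (((nC (-2560) *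
    .x₂ + (nC (-2048) * .x₃ + nC 6656)) * .x₂ + (nC 4096 * .x₃ + nC (-4096))) * .x₂ + (nC (-1024)
    * .x₃ + nC 640)) * .x₂) * .x₁ + ((nC 256 * .x₂ + nC (-512)) * .x₂ + nC 128)

/-- A coefficient. -/
def cG5 : Ex :=
  (((((((nC (-8192) * .x₂ + (nC (-32768) * .x₃ + nC 16384)) * .x₂ + ((nC (-49152) * .x₃ + nC
    49152) * .x₃ + nC (-12288))) * .x₂ + (((nC (-32768) * .x₃ + nC 49152) * .x₃ + nC (-24576)) *
    .x₃ + nC 4096)) * .x₂ + ((((nC (-8192) * .x₃ + nC 16384) * .x₃ + nC (-12288)) * .x₃ + nC 4096)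
    * .x₃ + nC (-512))) * .x₂ * .x₂ * .x₂ * .x₂ * .x₁ + (((nC 14336 * .x₂ + (nC 43008 * .x₃ + nC
    (-21504))) * .x₂ + ((nC 43008 * .x₃ + nC (-43008)) * .x₃ + nC 10752)) * .x₂ + (((nC 14336 *
    .x₃ + nC (-21504)) * .x₃ + nC 10752) * .x₃ + nC (-1792))) * .x₂ * .x₂ * .x₂) * .x₁ + ((nC
    (-9216) * .x₂ + (nC (-18432) * .x₃ + nC 9216)) * .x₂ + ((nC (-9216) * .x₃ + nC 9216) * .x₃ +
    nC (-2304))) * .x₂ * .x₂) * .x₁ + (nC 2560 * .x₂ + (nC 2560 * .x₃ + nC (-1280))) * .x₂) * .x₁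
    + nC (-256)

/-- A coefficient. -/
def cG6 : Ex :=
  ((((((nC (-4096) * .x₂ + (nC (-12288) * .x₃ + nC 10240)) * .x₂ + ((nC (-12288) * .x₃ + nC 24576)
    * .x₃ + nC (-9216))) * .x₂ + (((nC (-4096) * .x₃ + nC 18432) * .x₃ + nC (-15360)) * .x₃ + nC
    3584)) * .x₂ + (((nC 4096 * .x₃ + nC (-6144)) * .x₃ + nC 3072) * .x₃ + nC (-512))) * .x₂ * .x₂
    * .x₂ * .x₁ + (((nC 5120 * .x₂ + (nC 10240 * .x₃ + nC (-10240))) * .x₂ + ((nC 5120 * .x₃ + nC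
    (-15360)) * .x₃ + nC 6400)) * .x₂ + ((nC (-5120) * .x₃ + nC 5120) * .x₃ + nC (-1280))) * .x₂ *
    .x₂) * .x₁ + ((nC (-2048) * .x₂ + (nC (-2048) * .x₃ + nC 3072)) * .x₂ + (nC 2048 * .x₃ + nC
    (-1024))) * .x₂) * .x₁ + (nC 256 * .x₂ + nC (-256))

/-- A coefficient. -/
def cG7 : Ex :=
  (((((((((nC 1792 * .x₂ + (nC 5376 * .x₃ + nC (-5504))) * .x₂ + ((nC 5376 * .x₃ + nC (-13824)) *
    .x₃ + nC 7104)) * .x₂ + (((nC 1792 * .x₃ + nC (-11136)) * .x₃ + nC 14400) * .x₃ + nC (-5152)))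
    * .x₂ + (((nC (-2816) * .x₃ + nC 8832) * .x₃ + nC (-8256)) * .x₃ + nC 2272)) * .x₂ + (((nC
    1536 * .x₃ + nC (-3840)) * .x₃ + nC 2688) * .x₃ + nC (-576))) * .x₂ + (((nC (-512) * .x₃ + nC
    768) * .x₃ + nC (-384)) * .x₃ + nC 64)) * .x₂ * .x₂ * .x₂ * .x₂ * .x₁ + (((((nC (-1216) * .x₂
    + (nC (-1920) * .x₃ + nC 2944)) * .x₂ + ((nC (-192) * .x₃ + nC 3904) * .x₃ + nC (-2672))) *
    .x₂ + (((nC 512 * .x₃ + nC 704) * .x₃ + nC (-2880)) * .x₃ + nC 1200)) * .x₂ + (((nC (-256) *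
    .x₃ + nC (-896)) * .x₃ + nC 1088) * .x₃ + nC (-288))) * .x₂ + (((nC (-256) * .x₃ + nC 384) *
    .x₃ + nC (-192)) * .x₃ + nC 32)) * .x₂ * .x₂ * .x₂) * .x₁ + ((((nC 256 * .x₂ + (nC (-128) *
    .x₃ + nC (-576))) * .x₂ + ((nC (-384) * .x₃ + nC (-128)) * .x₃ + nC 480)) * .x₂ + ((nC 128 *
    .x₃ + nC 448) * .x₃ + nC (-192))) * .x₂ + ((nC 256 * .x₃ + nC (-192)) * .x₃ + nC 32)) * .x₂ *
    .x₂) * .x₁ + (((nC (-16) * .x₂ + (nC 64 * .x₃ + nC 80)) * .x₂ + (nC 16 * .x₃ + nC (-96))) *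
    .x₂ + (nC (-80) * .x₃ + nC 32)) * .x₂) * .x₁ + (nC (-8) * .x₂ + nC 8)

/-- A coefficient. -/
def cG8 : Ex :=
  ((((((nC 512 * .x₂ + (nC 1536 * .x₃ + nC (-1280))) * .x₂ + ((nC 1536 * .x₃ + nC (-3072)) * .x₃ +
    nC 1152)) * .x₂ + (((nC 512 * .x₃ + nC (-2304)) * .x₃ + nC 1920) * .x₃ + nC (-448))) * .x₂ +
    (((nC (-512) * .x₃ + nC 768) * .x₃ + nC (-384)) * .x₃ + nC 64)) * .x₂ * .x₂ * .x₂ * .x₁ +
    (((nC (-640) * .x₂ + (nC (-1280) * .x₃ + nC 1280)) * .x₂ + ((nC (-640) * .x₃ + nC 1920) * .x₃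
    + nC (-800))) * .x₂ + ((nC 640 * .x₃ + nC (-640)) * .x₃ + nC 160)) * .x₂ * .x₂) * .x₁ + ((nC
    256 * .x₂ + (nC 256 * .x₃ + nC (-384))) * .x₂ + (nC (-256) * .x₃ + nC 128)) * .x₂) * .x₁ + (nC
    (-32) * .x₂ + nC 32)

/-- A coefficient. -/
def cG9 : Ex :=
  (((nC 512 * .x₂ + (nC 1024 * .x₃ + nC (-512))) * .x₂ + ((nC 512 * .x₃ + nC (-512)) * .x₃ + nC
    128)) * .x₂ * .x₂ * .x₁ + (nC (-384) * .x₂ + (nC (-384) * .x₃ + nC 192)) * .x₂) * .x₁ + nC 64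

/-- A coefficient. -/
def cG10 : Ex :=
  ((((((nC (-64) * .x₂ + (nC (-192) * .x₃ + nC 160)) * .x₂ + ((nC (-192) * .x₃ + nC 384) * .x₃ +
    nC (-144))) * .x₂ + (((nC (-64) * .x₃ + nC 288) * .x₃ + nC (-240)) * .x₃ + nC 56)) * .x₂ +
    (((nC 64 * .x₃ + nC (-96)) * .x₃ + nC 48) * .x₃ + nC (-8))) * .x₂ * .x₂ * .x₂ * .x₁ + (((nC 32
    * .x₂ + (nC 64 * .x₃ + nC (-64))) * .x₂ + ((nC 32 * .x₃ + nC (-96)) * .x₃ + nC 40)) * .x₂ +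
    ((nC (-32) * .x₃ + nC 32) * .x₃ + nC (-8))) * .x₂ * .x₂) * .x₁ + ((nC (-8) * .x₂ + (nC (-8) *
    .x₃ + nC 12)) * .x₂ + (nC 8 * .x₃ + nC (-4))) * .x₂) * .x₁ + (nC 1 * .x₂ + nC (-1))

/-- A coefficient. -/
def cY0 : Ex :=
  ((((((((((nC (-4096) * .x₂ + (nC (-26624) * .x₃ + nC 22528)) * .x₂ + ((nC (-49152) * .x₃ + nC
    100352) * .x₃ + nC (-48128))) * .x₂ + (((nC (-34816) * .x₃ + nC 139264) * .x₃ + nC (-145920))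
    * .x₃ + nC 51712)) * .x₂ + ((((nC (-8192) * .x₃ + nC 73728) * .x₃ + nC (-120832)) * .x₃ + nC
    96256) * .x₃ + nC (-29696))) * .x₂ + ((((nC 12288 * .x₃ + nC (-12288)) * .x₃ + nC 25600) * .x₃
    + nC (-26624)) * .x₃ + nC 8704)) * .x₂ + ((((nC 12288 * .x₃ + nC (-16384)) * .x₃ + nC 7168) *
    .x₃ + nC 1024) * .x₃ + nC (-1024))) * .x₂ + ((nC 2048 * .x₃ + nC (-2048)) * .x₃ + nC 512) *
    .x₃) * .x₂ * .x₂ * .x₂ * .x₂ * .x₁ + ((((((nC (-3072) * .x₂ + (nC 16384 * .x₃ + nC 19456)) *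
    .x₂ + ((nC 31744 * .x₃ + nC (-26624)) * .x₃ + nC (-37632))) * .x₂ + (((nC 12288 * .x₃ + nC
    (-59392)) * .x₃ + nC (-1024)) * .x₃ + nC 34816)) * .x₂ + (((nC (-18432) * .x₃ + nC 5120) * .x₃
    + nC 22528) * .x₃ + nC (-16384))) * .x₂ + (((nC (-14336) * .x₃ + nC 10240) * .x₃ + nC (-9728))
    * .x₃ + nC 3584)) * .x₂ + (((nC (-4096) * .x₃ + nC 2048) * .x₃ + nC 512) * .x₃ + nC (-256))) *
    .x₂ * .x₂ * .x₂) * .x₁ + (((((nC 2048 * .x₂ + (nC (-6656) * .x₃ + nC (-12288))) * .x₂ + ((nC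
    (-6144) * .x₃ + nC 7168) * .x₃ + nC 17408)) * .x₂ + ((nC 8704 * .x₃ + nC 3072) * .x₃ + nC
    (-9984))) * .x₂ + ((nC 4608 * .x₃ + nC 256) * .x₃ + nC 1536)) * .x₂ + ((nC 5120 * .x₃ + nC
    (-2816)) * .x₃ + nC 256)) * .x₂ * .x₂) * .x₁ + ((((nC (-256) * .x₂ + (nC 1024 * .x₃ + nC
    2048)) * .x₂ + (nC (-1024) * .x₃ + nC (-1280))) * .x₂ + nC (-640)) * .x₂ + (nC (-2048) * .x₃ +
    nC 640)) * .x₂) * .x₁ + ((nC (-128) * .x₂ + nC (-128)) * .x₂ + nC 256)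

/-- A coefficient. -/
def cY1 : Ex :=
  (((((((((((nC (-8192) * .x₂ + (nC (-65536) * .x₃ + nC 32768)) * .x₂ + ((nC (-180224) * .x₃ + nC
    172032) * .x₃ + nC (-45056))) * .x₂ + (((nC (-229376) * .x₃ + nC 311296) * .x₃ + nC (-147456))
    * .x₃ + nC 28672)) * .x₂ + ((((nC (-139264) * .x₃ + nC 229376) * .x₃ + nC (-126976)) * .x₃ +
    nC 40960) * .x₃ + nC (-8704))) * .x₂ + (((((nC (-32768) * .x₃ + nC 49152) * .x₃ + nC 16384) *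
    .x₃ + nC (-32768)) * .x₃ + nC 6144) * .x₃ + nC 1024)) * .x₂ + ((((nC (-8192) * .x₃ + nC 49152)
    * .x₃ + nC (-61440)) * .x₃ + nC 28672) * .x₃ + nC (-4608)) * .x₃) * .x₂ + ((((nC 8192 * .x₃ +
    nC (-16384)) * .x₃ + nC 12288) * .x₃ + nC (-4096)) * .x₃ + nC 512) * .x₃) * .x₂ * .x₂ * .x₂ *
    .x₂ * .x₂ * .x₁ + ((((((nC 65536 * .x₃ + nC 4096) * .x₂ + ((nC 196608 * .x₃ + nC (-65536)) *
    .x₃ + nC (-36864))) * .x₂ + (((nC 196608 * .x₃ + nC (-122880)) * .x₃ + nC (-106496)) * .x₃ +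
    nC 59392)) * .x₂ + ((((nC 65536 * .x₃ + nC (-32768)) * .x₃ + nC (-172032)) * .x₃ + nC 163840)
    * .x₃ + nC (-38912))) * .x₂ + ((((nC 20480 * .x₃ + nC (-122880)) * .x₃ + nC 153600) * .x₃ + nC
    (-71680)) * .x₃ + nC 11520)) * .x₂ + ((((nC (-20480) * .x₃ + nC 40960) * .x₃ + nC (-30720)) *
    .x₃ + nC 10240) * .x₃ + nC (-1280))) * .x₂ * .x₂ * .x₂ * .x₂) * .x₁ + (((((nC 8192 * .x₂ + (nC
    (-32768) * .x₃ + nC (-32768))) * .x₂ + ((nC (-90112) * .x₃ + nC (-28672)) * .x₃ + nC 69632)) *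
    .x₂ + (((nC (-49152) * .x₃ + nC (-16384)) * .x₃ + nC 139264) * .x₃ + nC (-63488))) * .x₂ +
    (((nC (-20480) * .x₃ + nC 104448) * .x₃ + nC (-97280)) * .x₃ + nC 25088)) * .x₂ + (((nC 20480
    * .x₃ + nC (-34816)) * .x₃ + nC 19456) * .x₃ + nC (-3584))) * .x₂ * .x₂ * .x₂) * .x₁ + ((((nC
    (-4096) * .x₂ + (nC 12288 * .x₃ + nC 16384)) * .x₂ + ((nC 16384 * .x₃ + nC 16384) * .x₃ + nC
    (-28672))) * .x₂ + ((nC 10240 * .x₃ + nC (-36864)) * .x₃ + nC 17920)) * .x₂ + ((nC (-10240) *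
    .x₃ + nC 12288) * .x₃ + nC (-3584))) * .x₂ * .x₂) * .x₁ + (((nC 512 * .x₂ + (nC (-2048) * .x₃
    + nC (-3072))) * .x₂ + (nC (-2560) * .x₃ + nC 4608)) * .x₂ + (nC 2560 * .x₃ + nC (-1536))) *
    .x₂) * .x₁ + (nC 256 * .x₂ + nC (-256))

/-- A coefficient. -/
def cY2 : Ex :=
  (((nC 4096 * .x₂ + (nC 8192 * .x₃ + nC (-4096))) * .x₂ + ((nC 4096 * .x₃ + nC (-4096)) * .x₃ +
    nC 1024)) * .x₂ * .x₂ * .x₁ + (nC (-4096) * .x₂ + (nC (-4096) * .x₃ + nC 2048)) * .x₂) * .x₁ +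
    nC 1024

/-- A coefficient. -/
def cY3 : Ex :=
  ((((((((nC (-4096) * .x₂ + (nC (-28672) * .x₃ + nC 18432)) * .x₂ + ((nC (-61440) * .x₃ + nC
    81920) * .x₃ + nC (-29696))) * .x₂ + (((nC (-53248) * .x₃ + nC 116736) * .x₃ + nC (-89088)) *
    .x₃ + nC 22016)) * .x₂ + ((((nC (-16384) * .x₃ + nC 61440) * .x₃ + nC (-79872)) * .x₃ + nC
    41984) * .x₃ + nC (-7680))) * .x₂ + ((((nC 8192 * .x₃ + nC (-20480)) * .x₃ + nC 18432) * .x₃ +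
    nC (-7168)) * .x₃ + nC 1024)) * .x₂ * .x₂ * .x₂ * .x₂ * .x₂ * .x₁ + (((((nC (-2048) * .x₂ +
    (nC 20480 * .x₃ + nC 12288)) * .x₂ + ((nC 47104 * .x₃ + nC (-14336)) * .x₃ + nC (-12800))) *
    .x₂ + (((nC 24576 * .x₃ + nC (-38912)) * .x₃ + nC 12288) * .x₃ + nC 4608)) * .x₂ + (((nC
    (-12288) * .x₃ + nC 26624) * .x₃ + nC (-9216)) * .x₃ + nC (-512))) * .x₂ + ((nC 8192 * .x₃ +
    nC (-8192)) * .x₃ + nC 2048) * .x₃) * .x₂ * .x₂ * .x₂) * .x₁ + ((((nC 3072 * .x₂ + (nC (-9216)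
    * .x₃ + nC (-14848))) * .x₂ + ((nC (-12288) * .x₃ + nC (-2048)) * .x₃ + nC 7680)) * .x₂ + ((nC
    5120 * .x₃ + nC (-11776)) * .x₃ + nC 1536)) * .x₂ + ((nC (-10240) * .x₃ + nC 7168) * .x₃ + nC
    (-1024))) * .x₂ * .x₂) * .x₁ + (((nC (-512) * .x₂ + (nC 2048 * .x₃ + nC 3072)) * .x₂ + nC
    1792) * .x₂ + (nC 4096 * .x₃ + nC (-1536))) * .x₂) * .x₁ + (nC (-256) * .x₂ + nC (-512))

/-- A coefficient. -/
def cY4 : Ex :=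
  ((((((nC 512 * .x₂ + (nC 3072 * .x₃ + nC (-2048))) * .x₂ + ((nC 4608 * .x₃ + nC (-7680)) * .x₃ +
    nC 2688)) * .x₂ + (((nC 2048 * .x₃ + nC (-7680)) * .x₃ + nC 6144) * .x₃ + nC (-1408))) * .x₂ +
    (((nC (-2048) * .x₃ + nC 3072) * .x₃ + nC (-1536)) * .x₃ + nC 256)) * .x₂ * .x₂ * .x₂ * .x₂ *
    .x₁ + ((((nC 512 * .x₂ + (nC (-1536) * .x₃ + nC (-1792))) * .x₂ + ((nC (-2048) * .x₃ + nC
    1024) * .x₃ + nC 1280)) * .x₂ + ((nC 1536 * .x₃ + nC 256) * .x₃ + nC (-256))) * .x₂ + (nC 512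
    * .x₃ + nC (-256)) * .x₃) * .x₂ * .x₂) * .x₁ + (((nC (-128) * .x₂ + (nC 512 * .x₃ + nC 640)) *
    .x₂ + (nC (-128) * .x₃ + nC (-512))) * .x₂ + (nC (-384) * .x₃ + nC 128)) * .x₂) * .x₁ + (nC
    (-64) * .x₂ + nC 64)

/-- A coefficient. -/
def cY5 : Ex :=
  ((((((((nC 256 * .x₂ + nC 1536 * .x₃) * .x₂ + ((nC 2304 * .x₃ + nC (-1280)) * .x₃ + nC (-960)))
    * .x₂ + (((nC 1024 * .x₃ + nC (-1792)) * .x₃ + nC 1024) * .x₃ + nC 832)) * .x₂ + (((nC (-512)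
    * .x₃ + nC 3840) * .x₃ + nC (-1920)) * .x₃ + nC (-448))) * .x₂ + (((nC 2048 * .x₃ + nC
    (-3072)) * .x₃ + nC 512) * .x₃ + nC 256)) * .x₂ + (((nC (-512) * .x₃ + nC 256) * .x₃ + nC 128)
    * .x₃ + nC (-64))) * .x₂ * .x₂ * .x₂ * .x₁ + (((((nC 256 * .x₂ + (nC (-768) * .x₃ + nC
    (-640))) * .x₂ + ((nC (-1024) * .x₃ + nC 768) * .x₃ + nC 128)) * .x₂ + ((nC 768 * .x₃ + nC
    (-2048)) * .x₃ + nC 1472)) * .x₂ + ((nC (-1536) * .x₃ + nC 1920) * .x₃ + nC (-1216))) * .x₂ +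
    ((nC (-256) * .x₃ + nC (-384)) * .x₃ + nC 256)) * .x₂ * .x₂) * .x₁ + ((((nC (-64) * .x₂ + (nC
    256 * .x₃ + nC 64)) * .x₂ + (nC (-256) * .x₃ + nC (-192))) * .x₂ + (nC 128 * .x₃ + nC 96)) *
    .x₂ + (nC 384 * .x₃ + nC (-32))) * .x₂) * .x₁ + (nC 64 * .x₂ + nC (-64))

/-- A coefficient. -/
def cY6 : Ex :=
  (((((((nC 1024 * .x₂ + (nC 4096 * .x₃ + nC (-3072))) * .x₂ + ((nC 6144 * .x₃ + nC (-10240)) *
    .x₃ + nC 3584)) * .x₂ + (((nC 4096 * .x₃ + nC (-12288)) * .x₃ + nC 9216) * .x₃ + nC (-2048)))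
    * .x₂ + ((((nC 1024 * .x₃ + nC (-6144)) * .x₃ + nC 7680) * .x₃ + nC (-3584)) * .x₃ + nC 576))
    * .x₂ + ((((nC (-1024) * .x₃ + nC 2048) * .x₃ + nC (-1536)) * .x₃ + nC 512) * .x₃ + nC (-64)))
    * .x₂ * .x₂ * .x₂ * .x₂ * .x₁ * .x₁ + (((nC (-1024) * .x₂ + (nC (-2048) * .x₃ + nC 2048)) *
    .x₂ + ((nC (-1024) * .x₃ + nC 3072) * .x₃ + nC (-1280))) * .x₂ + ((nC 1024 * .x₃ + nC (-1024))
    * .x₃ + nC 256)) * .x₂ * .x₂) * .x₁ + ((nC 512 * .x₂ + (nC 512 * .x₃ + nC (-768))) * .x₂ + (nC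
    (-512) * .x₃ + nC 256)) * .x₂) * .x₁ + (nC (-64) * .x₂ + nC 64)

/-- A coefficient. -/
def cY7 : Ex :=
  (((((nC 1024 * .x₂ + (nC 3072 * .x₃ + nC (-1536))) * .x₂ + ((nC 3072 * .x₃ + nC (-3072)) * .x₃ +
    nC 768)) * .x₂ + (((nC 1024 * .x₃ + nC (-1536)) * .x₃ + nC 768) * .x₃ + nC (-128))) * .x₂ *
    .x₂ * .x₂ * .x₂ * .x₁ + ((nC 1024 * .x₂ + (nC 2048 * .x₃ + nC (-1024))) * .x₂ + ((nC 1024 *
    .x₃ + nC (-1024)) * .x₃ + nC 256)) * .x₂ * .x₂) * .x₁ + ((nC (-384) * .x₂ + (nC (-384) * .x₃ +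
    nC (-576))) * .x₂ + (nC (-768) * .x₃ + nC 384)) * .x₂) * .x₁ + (nC 64 * .x₂ + nC 128)

/-- A coefficient. -/
def cY8 : Ex :=
  ((nC (-64) * .x₂ + (nC (-64) * .x₃ + nC 96)) * .x₂ + (nC 64 * .x₃ + nC (-32))) * .x₂ * .x₁ + (nC
    16 * .x₂ + nC (-16))

/-- A coefficient. -/
def cY9 : Ex :=
  ((((nC (-64) * .x₂ + (nC (-128) * .x₃ + nC 128)) * .x₂ + ((nC (-64) * .x₃ + nC 192) * .x₃ + nC
    (-80))) * .x₂ + ((nC 64 * .x₃ + nC (-64)) * .x₃ + nC 16)) * .x₂ * .x₁ + ((nC (-32) * .x₂ + (nC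
    (-32) * .x₃ + nC 48)) * .x₂ + (nC 32 * .x₃ + nC (-16))) * .x₂) * .x₁ + (nC 8 * .x₂ + nC (-8))

/-- A coefficient. -/
def cX0 : Ex :=
  ((nC 16 * .x₂ + (nC 16 * .x₃ + nC (-24))) * .x₂ + (nC (-16) * .x₃ + nC 8)) * .x₂ * .x₁ + (nC
    (-8) * .x₂ + nC 8)

/-- A coefficient. -/
def cX1 : Ex :=
  (nC (-64) * .x₂ + (nC (-64) * .x₃ + nC 32)) * .x₂ * .x₁ + nC 32

/-- A coefficient. -/
def cX2 : Ex :=
  (((nC (-64) * .x₂ + (nC (-128) * .x₃ + nC 64)) * .x₂ + ((nC (-64) * .x₃ + nC 64) * .x₃ + nC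
    (-16))) * .x₂ * .x₂ * .x₁ + (nC 48 * .x₂ + (nC 48 * .x₃ + nC (-16))) * .x₂) * .x₁ + nC (-8)

/-- A coefficient. -/
def cX3 : Ex :=
  (((((nC (-32) * .x₂ + (nC (-192) * .x₃ + nC 64)) * .x₂ + ((nC (-288) * .x₃ + nC 96) * .x₃ + nC
    24)) * .x₂ + (((nC (-128) * .x₃ + nC (-96)) * .x₃ + nC 192) * .x₃ + nC (-56))) * .x₂ + (((nC
    (-128) * .x₃ + nC 192) * .x₃ + nC (-96)) * .x₃ + nC 16)) * .x₂ * .x₂ * .x₁ + ((((nC (-32) *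
    .x₂ + (nC 96 * .x₃ + nC 80)) * .x₂ + ((nC 128 * .x₃ + nC 128) * .x₃ + nC (-112))) * .x₂ + ((nC
    128 * .x₃ + nC (-144)) * .x₃ + nC 24)) * .x₂ + (nC (-16) * .x₃ + nC 8))) * .x₁ + ((nC 8 * .x₂
    + (nC (-32) * .x₃ + nC (-16))) * .x₂ + (nC (-32) * .x₃ + nC 24))

/-- A coefficient. -/
def cX4 : Ex :=
  (nC (-8) * .x₂ + (nC (-8) * .x₃ + nC 4)) * .x₂ * .x₁ + nC 2

/-- A coefficient. -/
def cT0 : Ex :=
  ((((((((((((((nC 4096 * .x₂ + (nC 49152 * .x₃ + nC (-28672))) * .x₂ + ((nC 221184 * .x₃ + nC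
    (-253952)) * .x₃ + nC 79872)) * .x₂ + (((nC 475136 * .x₃ + nC (-802816)) * .x₃ + nC 495616) *
    .x₃ + nC (-114688))) * .x₂ + ((((nC 528384 * .x₃ + nC (-1171456)) * .x₃ + nC 1030144) * .x₃ +
    nC (-464896)) * .x₃ + nC 92416)) * .x₂ + (((((nC 294912 * .x₃ + nC (-806912)) * .x₃ + nC
    811008) * .x₃ + nC (-505856)) * .x₃ + nC 208896) * .x₃ + nC (-42240))) * .x₂ + ((((((nC 65536
    * .x₃ + nC (-212992)) * .x₃ + nC 65536) * .x₃ + nC 40960) * .x₃ + nC 4096) * .x₃ + nC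
    (-29696)) * .x₃ + nC 10240)) * .x₂ + (((((nC (-180224) * .x₃ + nC 278528) * .x₃ + nC
    (-188416)) * .x₃ + nC 65536) * .x₃ + nC (-7168)) * .x₃ + nC (-1024))) * .x₂ + (((((nC (-49152)
    * .x₃ + nC 65536) * .x₃ + nC (-40960)) * .x₃ + nC 24576) * .x₃ + nC (-11264)) * .x₃ + nC 2048)
    * .x₃) * .x₂ + ((((nC (-16384) * .x₃ + nC 32768) * .x₃ + nC (-24576)) * .x₃ + nC 8192) * .x₃ +
    nC (-1024)) * .x₃ * .x₃) * .x₂ * .x₂ * .x₂ * .x₂ * .x₂ * .x₂ * .x₁ + ((((((((nC 8192 * .x₂ +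
    (nC 24576 * .x₃ + nC (-61440))) * .x₂ + ((nC (-106496) * .x₃ + nC (-204800)) * .x₃ + nC
    161792)) * .x₂ + (((nC (-385024) * .x₃ + nC (-61440)) * .x₃ + nC 481280) * .x₃ + nC
    (-193536))) * .x₂ + ((((nC (-393216) * .x₃ + nC 245760) * .x₃ + nC 385024) * .x₃ + nC
    (-446464)) * .x₃ + nC 112640)) * .x₂ + (((((nC (-131072) * .x₃ + nC 163840) * .x₃ + nC 32768)
    * .x₃ + nC (-221184)) * .x₃ + nC 155648) * .x₃ + nC (-24576))) * .x₂ + ((((nC (-65536) * .x₃ +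
    nC 139264) * .x₃ + nC (-61440)) * .x₃ + nC 14336) * .x₃ + nC (-5120))) * .x₂ + (((((nC
    (-32768) * .x₃ + nC 155648) * .x₃ + nC (-163840)) * .x₃ + nC 77824) * .x₃ + nC (-22528)) * .x₃
    + nC 3584)) * .x₂ + (((((nC 32768 * .x₃ + nC (-57344)) * .x₃ + nC 40960) * .x₃ + nC (-16384))
    * .x₃ + nC 4096) * .x₃ + nC (-512))) * .x₂ * .x₂ * .x₂ * .x₂ * .x₂) * .x₁ + (((((((nC 2048 *
    .x₂ + (nC (-28672) * .x₃ + nC (-16384))) * .x₂ + ((nC 34816 * .x₃ + nC 135168) * .x₃ + nC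
    28160)) * .x₂ + (((nC 163840 * .x₃ + nC 194560) * .x₃ + nC (-122880)) * .x₃ + nC (-54784))) *
    .x₂ + ((((nC 98304 * .x₃ + nC 51200) * .x₃ + nC 3072) * .x₃ + nC (-98816)) * .x₃ + nC 61696))
    * .x₂ + ((((nC 8192 * .x₃ + nC 272384) * .x₃ + nC (-324608)) * .x₃ + nC 142848) * .x₃ + nC
    (-32000))) * .x₂ + ((((nC 151552 * .x₃ + nC (-274432)) * .x₃ + nC 160768) * .x₃ + nC (-45056))
    * .x₃ + nC 7168)) * .x₂ + ((((nC (-28672) * .x₃ + nC 32768) * .x₃ + nC (-13312)) * .x₃ + nC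
    3072) * .x₃ + nC (-512))) * .x₂ * .x₂ * .x₂ * .x₂) * .x₁ + ((((((nC (-2048) * .x₂ + (nC 14336
    * .x₃ + nC 16384)) * .x₂ + ((nC (-16384) * .x₃ + nC (-61440)) * .x₃ + nC (-21504))) * .x₂ +
    (((nC (-32768) * .x₃ + nC (-64512)) * .x₃ + nC (-9216)) * .x₃ + nC 30976)) * .x₂ + (((nC
    (-12288) * .x₃ + nC (-140288)) * .x₃ + nC 100352) * .x₃ + nC (-20224))) * .x₂ + (((nC
    (-116736) * .x₃ + nC 134144) * .x₃ + nC (-38912)) * .x₃ + nC 3072)) * .x₂ + (((nC 14336 * .x₃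
    + nC (-7168)) * .x₃ + nC (-1024)) * .x₃ + nC 512)) * .x₂ * .x₂ * .x₂) * .x₁ + (((((nC 256 *
    .x₂ + (nC (-2048) * .x₃ + nC (-3328))) * .x₂ + ((nC 4096 * .x₃ + nC 11776) * .x₃ + nC 2560)) *
    .x₂ + ((nC 6144 * .x₃ + nC 22016) * .x₃ + nC (-6656))) * .x₂ + ((nC 35072 * .x₃ + nC (-24064))
    * .x₃ + nC 2048)) * .x₂ + ((nC (-4352) * .x₃ + nC 512) * .x₃ + nC 512)) * .x₂ * .x₂) * .x₁ +
    (((nC 256 * .x₂ + (nC (-1024) * .x₃ + nC (-256))) * .x₂ + (nC (-3840) * .x₃ + nC 1024)) * .x₂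
    + nC 768 * .x₃) * .x₂) * .x₁ + (nC 64 * .x₂ + nC (-64))

/-- A coefficient. -/
def cT1 : Ex :=
  (((((((nC (-8192) * .x₂ + (nC (-24576) * .x₃ + nC 28672)) * .x₂ + ((nC (-24576) * .x₃ + nC
    73728) * .x₃ + nC (-38912))) * .x₂ + (((nC (-8192) * .x₃ + nC 61440) * .x₃ + nC (-79872)) *
    .x₃ + nC 25600)) * .x₂ + (((nC 16384 * .x₃ + nC (-49152)) * .x₃ + nC 36864) * .x₃ + nC
    (-8192))) * .x₂ + (((nC (-8192) * .x₃ + nC 12288) * .x₃ + nC (-6144)) * .x₃ + nC 1024)) * .x₂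
    * .x₂ * .x₂ * .x₁ + ((((nC 10240 * .x₂ + (nC 20480 * .x₃ + nC (-30720))) * .x₂ + ((nC 10240 *
    .x₃ + nC (-51200)) * .x₃ + nC 33280)) * .x₂ + ((nC (-20480) * .x₃ + nC 40960) * .x₃ + nC
    (-15360))) * .x₂ + ((nC 10240 * .x₃ + nC (-10240)) * .x₃ + nC 2560)) * .x₂ * .x₂) * .x₁ +
    (((nC (-4096) * .x₂ + (nC (-4096) * .x₃ + nC 10240)) * .x₂ + (nC 8192 * .x₃ + nC (-8192))) *
    .x₂ + (nC (-4096) * .x₃ + nC 2048)) * .x₂) * .x₁ + ((nC 512 * .x₂ + nC (-1024)) * .x₂ + nC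
    512)

/-- A coefficient. -/
def cT2 : Ex :=
  ((((((((((nC (-16384) * .x₂ + (nC (-81920) * .x₃ + nC 57344)) * .x₂ + ((nC (-163840) * .x₃ + nC
    245760) * .x₃ + nC (-81920))) * .x₂ + (((nC (-163840) * .x₃ + nC 409600) * .x₃ + nC (-286720))
    * .x₃ + nC 61440)) * .x₂ + ((((nC (-81920) * .x₃ + nC 327680) * .x₃ + nC (-368640)) * .x₃ + nC
    163840) * .x₃ + nC (-25600))) * .x₂ + (((((nC (-16384) * .x₃ + nC 122880) * .x₃ + nC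
    (-204800)) * .x₃ + nC 143360) * .x₃ + nC (-46080)) * .x₃ + nC 5632)) * .x₂ + (((((nC 16384 *
    .x₃ + nC (-40960)) * .x₃ + nC 40960) * .x₃ + nC (-20480)) * .x₃ + nC 5120) * .x₃ + nC (-512)))
    * .x₂ * .x₂ * .x₂ * .x₂ * .x₂ * .x₁ + (((((nC 36864 * .x₂ + (nC 147456 * .x₃ + nC (-110592)))
    * .x₂ + ((nC 221184 * .x₃ + nC (-368640)) * .x₃ + nC 129024)) * .x₂ + (((nC 147456 * .x₃ + nC
    (-442368)) * .x₃ + nC 331776) * .x₃ + nC (-73728))) * .x₂ + ((((nC 36864 * .x₃ + nC (-221184))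
    * .x₃ + nC 276480) * .x₃ + nC (-129024)) * .x₃ + nC 20736)) * .x₂ + ((((nC (-36864) * .x₃ + nC
    73728) * .x₃ + nC (-55296)) * .x₃ + nC 18432) * .x₃ + nC (-2304))) * .x₂ * .x₂ * .x₂ * .x₂) *
    .x₁ + ((((nC (-32768) * .x₂ + (nC (-98304) * .x₃ + nC 81920)) * .x₂ + ((nC (-98304) * .x₃ + nC
    196608) * .x₃ + nC (-73728))) * .x₂ + (((nC (-32768) * .x₃ + nC 147456) * .x₃ + nC (-122880))
    * .x₃ + nC 28672)) * .x₂ + (((nC 32768 * .x₃ + nC (-49152)) * .x₃ + nC 24576) * .x₃ + nC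
    (-4096))) * .x₂ * .x₂ * .x₂) * .x₁ + (((nC 14336 * .x₂ + (nC 28672 * .x₃ + nC (-28672))) * .x₂
    + ((nC 14336 * .x₃ + nC (-43008)) * .x₃ + nC 17920)) * .x₂ + ((nC (-14336) * .x₃ + nC 14336) *
    .x₃ + nC (-3584))) * .x₂ * .x₂) * .x₁ + ((nC (-3072) * .x₂ + (nC (-3072) * .x₃ + nC 4608)) *
    .x₂ + (nC 3072 * .x₃ + nC (-1536))) * .x₂) * .x₁ + (nC 256 * .x₂ + nC (-256))

/-- A coefficient. -/
def cT3 : Ex :=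
  ((((nC 1024 * .x₂ + (nC 2048 * .x₃ + nC (-2048))) * .x₂ + ((nC 1024 * .x₃ + nC (-3072)) * .x₃ +
    nC 1280)) * .x₂ + ((nC (-1024) * .x₃ + nC 1024) * .x₃ + nC (-256))) * .x₂ * .x₂ * .x₁ + ((nC
    (-768) * .x₂ + (nC (-768) * .x₃ + nC 1152)) * .x₂ + (nC 768 * .x₃ + nC (-384))) * .x₂) * .x₁ +
    (nC 128 * .x₂ + nC (-128))

/-- A coefficient. -/
def cT4 : Ex :=
  (((nC (-4096) * .x₂ + (nC (-8192) * .x₃ + nC 4096)) * .x₂ + ((nC (-4096) * .x₃ + nC 4096) * .x₃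
    + nC (-1024))) * .x₂ * .x₂ * .x₁ + (nC 3072 * .x₂ + (nC 3072 * .x₃ + nC (-1536))) * .x₂) * .x₁
    + nC (-512)

/-- A coefficient. -/
def cT5 : Ex :=
  (((((((nC 4096 * .x₂ + (nC 12288 * .x₃ + nC (-2048))) * .x₂ + ((nC 12288 * .x₃ + nC (-4096)) *
    .x₃ + nC (-7168))) * .x₂ + (((nC 4096 * .x₃ + nC (-6144)) * .x₃ + nC (-15360)) * .x₃ + nC
    8704)) * .x₂ + (((nC (-8192) * .x₃ + nC (-6144)) * .x₃ + nC 12288) * .x₃ + nC (-3584))) * .x₂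
    + ((((nC (-4096) * .x₃ + nC 2048) * .x₃ + nC 3072) * .x₃ + nC (-2560)) * .x₃ + nC 512)) * .x₂
    * .x₂ * .x₁ + ((((nC (-1024) * .x₂ + (nC (-2048) * .x₃ + nC (-2048))) * .x₂ + ((nC (-1024) *
    .x₃ + nC (-2048)) * .x₃ + nC 4864)) * .x₂ + ((nC 3072 * .x₃ + nC 4096) * .x₃ + nC (-2816))) *
    .x₂ + (((nC 3072 * .x₃ + nC (-1024)) * .x₃ + nC (-1280)) * .x₃ + nC 512)) * .x₂) * .x₁ + ((nC
    1536 * .x₂ + (nC 1024 * .x₃ + nC (-1024))) * .x₂ + (nC (-512) * .x₃ * .x₃ + nC 128))) * .x₁ +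
    nC (-256)

/-- A coefficient. -/
def cT6 : Ex :=
  (((((nC 4096 * .x₂ + (nC 12288 * .x₃ + nC (-6144))) * .x₂ + ((nC 12288 * .x₃ + nC (-12288)) *
    .x₃ + nC 3072)) * .x₂ + (((nC 4096 * .x₃ + nC (-6144)) * .x₃ + nC 3072) * .x₃ + nC (-512))) *
    .x₂ * .x₂ * .x₂ * .x₁ + ((nC (-5120) * .x₂ + (nC (-10240) * .x₃ + nC 5120)) * .x₂ + ((nC
    (-5120) * .x₃ + nC 5120) * .x₃ + nC (-1280))) * .x₂ * .x₂) * .x₁ + (nC 2048 * .x₂ + (nC 2048 *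
    .x₃ + nC (-1024))) * .x₂) * .x₁ + nC (-256)

/-- A coefficient. -/
def cT7 : Ex :=
  ((nC (-256) * .x₂ + (nC (-256) * .x₃ + nC 384)) * .x₂ + (nC 256 * .x₃ + nC (-128))) * .x₂ * .x₁
    + (nC 64 * .x₂ + nC (-64))

/-- A coefficient. -/
def cT8 : Ex :=
  (((((((((((nC (-2048) * .x₂ + (nC (-16384) * .x₃ + nC 6144)) * .x₂ + ((nC (-45056) * .x₃ + nC
    24576) * .x₃ + nC (-3072))) * .x₂ + (((nC (-57344) * .x₃ + nC 24576) * .x₃ + nC 14336) * .x₃ +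
    nC (-4096))) * .x₂ + ((((nC (-34816) * .x₃ + nC (-12288)) * .x₃ + nC 74752) * .x₃ + nC
    (-39936)) * .x₃ + nC 4992)) * .x₂ + (((((nC (-8192) * .x₃ + nC (-30720)) * .x₃ + nC 98304) *
    .x₃ + nC (-78848)) * .x₃ + nC 23040) * .x₃ + nC (-1920))) * .x₂ + (((((nC (-12288) * .x₃ + nC
    45056) * .x₃ + nC (-51200)) * .x₃ + nC 24576) * .x₃ + nC (-4864)) * .x₃ + nC 256)) * .x₂ +
    ((((nC 4096 * .x₃ + nC (-8192)) * .x₃ + nC 6144) * .x₃ + nC (-2048)) * .x₃ + nC 256) * .x₃) *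
    .x₂ * .x₂ * .x₂ * .x₂ * .x₂ * .x₁ + ((((((nC (-9216) * .x₂ + (nC (-27648) * .x₃ + nC 35328)) *
    .x₂ + ((nC (-27648) * .x₃ + nC 94208) * .x₃ + nC (-58624))) * .x₂ + (((nC (-9216) * .x₃ + nC
    84480) * .x₃ + nC (-134912)) * .x₃ + nC 53632)) * .x₂ + (((nC 27648 * .x₃ + nC (-102912)) *
    .x₃ + nC 100608) * .x₃ + nC (-28032))) * .x₂ + ((((nC 2048 * .x₃ + nC (-28672)) * .x₃ + nC
    58368) * .x₃ + nC (-37888)) * .x₃ + nC 7808)) * .x₂ + ((((nC (-2048) * .x₃ + nC 10240) * .x₃ +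
    nC (-12288)) * .x₃ + nC 5632) * .x₃ + nC (-896))) * .x₂ * .x₂ * .x₂ * .x₂) * .x₁ + (((((nC
    3328 * .x₂ + (nC 12800 * .x₃ + nC (-10240))) * .x₂ + ((nC 15616 * .x₃ + nC (-12032)) * .x₃ +
    nC 10816)) * .x₂ + (((nC 6144 * .x₃ + nC 9472) * .x₃ + nC 2304) * .x₃ + nC (-8384))) * .x₂ +
    (((nC 11264 * .x₃ + nC (-10240)) * .x₃ + nC (-6400)) * .x₃ + nC 4352)) * .x₂ + (((nC (-1024) *
    .x₃ + nC (-2560)) * .x₃ + nC 3328) * .x₃ + nC (-896))) * .x₂ * .x₂ * .x₂) * .x₁ + ((((nC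
    (-2560) * .x₃ + nC (-256)) * .x₂ + ((nC (-2560) * .x₃ + nC (-5632)) * .x₃ + nC 1920)) * .x₂ +
    ((nC (-6656) * .x₃ + nC 6144) * .x₃ + nC (-384))) * .x₂ + (nC 1024 * .x₃ * .x₃ + nC (-256))) *
    .x₂ * .x₂) * .x₁ + (((nC (-64) * .x₂ + (nC 256 * .x₃ + nC 320)) * .x₂ + (nC 1088 * .x₃ + nC
    (-576))) * .x₂ + (nC (-320) * .x₃ + nC 64)) * .x₂) * .x₁ + (nC (-32) * .x₂ + nC 32)

/-- A coefficient. -/
def cT9 : Ex :=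
  (((((((nC 2048 * .x₂ + (nC 6144 * .x₃ + nC (-7168))) * .x₂ + ((nC 6144 * .x₃ + nC (-18432)) *
    .x₃ + nC 9728)) * .x₂ + (((nC 2048 * .x₃ + nC (-15360)) * .x₃ + nC 19968) * .x₃ + nC (-6400)))
    * .x₂ + (((nC (-4096) * .x₃ + nC 12288) * .x₃ + nC (-9216)) * .x₃ + nC 2048)) * .x₂ + (((nC
    2048 * .x₃ + nC (-3072)) * .x₃ + nC 1536) * .x₃ + nC (-256))) * .x₂ * .x₂ * .x₂ * .x₁ + ((((nC
    (-2560) * .x₂ + (nC (-5120) * .x₃ + nC 7680)) * .x₂ + ((nC (-2560) * .x₃ + nC 12800) * .x₃ +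
    nC (-8320))) * .x₂ + ((nC 5120 * .x₃ + nC (-10240)) * .x₃ + nC 3840)) * .x₂ + ((nC (-2560) *
    .x₃ + nC 2560) * .x₃ + nC (-640))) * .x₂ * .x₂) * .x₁ + (((nC 1024 * .x₂ + (nC 1024 * .x₃ + nC
    (-2560))) * .x₂ + (nC (-2048) * .x₃ + nC 2048)) * .x₂ + (nC 1024 * .x₃ + nC (-512))) * .x₂) *
    .x₁ + ((nC (-128) * .x₂ + nC 256) * .x₂ + nC (-128))

/-- A coefficient. -/
def cT10 : Ex :=
  ((((nC (-2048) * .x₂ + (nC (-4096) * .x₃ + nC 1024)) * .x₂ + (nC (-2048) * .x₃ * .x₃ + nC 512))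
    * .x₂ + ((nC (-1024) * .x₃ + nC 1024) * .x₃ + nC (-256))) * .x₂ * .x₂ * .x₁ + ((nC 1536 * .x₂
    + nC 1536 * .x₃) * .x₂ + (nC 768 * .x₃ + nC (-384))) * .x₂) * .x₁ + (nC (-256) * .x₂ + nC
    (-128))

/-- A coefficient. -/
def cT11 : Ex :=
  (((nC (-256) * .x₂ + (nC (-256) * .x₃ + nC 640)) * .x₂ + (nC 512 * .x₃ + nC (-512))) * .x₂ + (nC
    (-256) * .x₃ + nC 128)) * .x₂ * .x₁ + ((nC 64 * .x₂ + nC (-128)) * .x₂ + nC 64)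

/-- A coefficient. -/
def cT12 : Ex :=
  ((((((((nC 256 * .x₂ + (nC 1024 * .x₃ + nC (-768))) * .x₂ + ((nC 1536 * .x₃ + nC (-2560)) * .x₃
    + nC 896)) * .x₂ + (((nC 1024 * .x₃ + nC (-3072)) * .x₃ + nC 2304) * .x₃ + nC (-512))) * .x₂ +
    ((((nC 256 * .x₃ + nC (-1536)) * .x₃ + nC 1920) * .x₃ + nC (-896)) * .x₃ + nC 144)) * .x₂ +
    ((((nC (-256) * .x₃ + nC 512) * .x₃ + nC (-384)) * .x₃ + nC 128) * .x₃ + nC (-16))) * .x₂ *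
    .x₂ * .x₂ * .x₂ * .x₁ + (((((nC (-256) * .x₂ + (nC (-768) * .x₃ + nC 1152)) * .x₂ + ((nC
    (-768) * .x₃ + nC 3072) * .x₃ + nC (-1856))) * .x₂ + (((nC (-256) * .x₃ + nC 2688) * .x₃ + nC
    (-4032)) * .x₃ + nC 1376)) * .x₂ + (((nC 768 * .x₃ + nC (-2688)) * .x₃ + nC 2112) * .x₃ + nC
    (-480))) * .x₂ + (((nC (-512) * .x₃ + nC 768) * .x₃ + nC (-384)) * .x₃ + nC 64)) * .x₂ * .x₂ *
    .x₂ * .x₂) * .x₁ + (((((nC 64 * .x₂ + (nC 128 * .x₃ + nC (-256))) * .x₂ + ((nC 64 * .x₃ + nC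
    (-448)) * .x₃ + nC 400)) * .x₂ + ((nC (-192) * .x₃ + nC 576) * .x₃ + nC (-304))) * .x₂ + ((nC
    192 * .x₃ + nC (-320)) * .x₃ + nC 112)) * .x₂ + ((nC (-64) * .x₃ + nC 64) * .x₃ + nC (-16))) *
    .x₂ * .x₂) * .x₁ + ((nC (-32) * .x₂ + (nC (-32) * .x₃ + nC 48)) * .x₂ + (nC 32 * .x₃ + nC
    (-16))) * .x₂) * .x₁ + (nC 4 * .x₂ + nC (-4))

/-- A coefficient. -/
def cN0 : Ex :=
  (((((((((((((nC (-2048) * .x₂ + (nC (-24576) * .x₃ + nC 12288)) * .x₂ + ((nC (-110592) * .x₃ +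
    nC 102400) * .x₃ + nC (-27648))) * .x₂ + (((nC (-237568) * .x₃ + nC 290816) * .x₃ + nC
    (-145408)) * .x₃ + nC 29696)) * .x₂ + ((((nC (-264192) * .x₃ + nC 348160) * .x₃ + nC
    (-224256)) * .x₃ + nC 87040) * .x₃ + nC (-16512))) * .x₂ + (((((nC (-147456) * .x₃ + nC
    139264) * .x₃ + nC (-57344)) * .x₃ + nC 28672) * .x₃ + nC (-17408)) * .x₃ + nC 4608)) * .x₂ +
    ((((((nC (-32768) * .x₃ + nC (-40960)) * .x₃ + nC 106496) * .x₃ + nC (-77824)) * .x₃ + nC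
    26624) * .x₃ + nC (-2560)) * .x₃ + nC (-512))) * .x₂ + (((((nC (-32768) * .x₃ + nC 49152) *
    .x₃ + nC (-32768)) * .x₃ + nC 16384) * .x₃ + nC (-6144)) * .x₃ + nC 1024) * .x₃) * .x₂ +
    ((((nC (-8192) * .x₃ + nC 16384) * .x₃ + nC (-12288)) * .x₃ + nC 4096) * .x₃ + nC (-512)) *
    .x₃ * .x₃) * .x₂ * .x₂ * .x₂ * .x₂ * .x₂ * .x₂ * .x₁ + (((((((nC (-4096) * .x₂ + (nC (-12288)
    * .x₃ + nC 18432)) * .x₂ + ((nC 53248 * .x₃ + nC 16384) * .x₃ + nC (-13312))) * .x₂ + (((nC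
    192512 * .x₃ + nC (-153600)) * .x₃ + nC 82944) * .x₃ + nC (-10752))) * .x₂ + ((((nC 196608 *
    .x₃ + nC (-282624)) * .x₃ + nC 350208) * .x₃ + nC (-158720)) * .x₃ + nC 18944)) * .x₂ +
    (((((nC 65536 * .x₃ + nC (-131072)) * .x₃ + nC 401408) * .x₃ + nC (-352256)) * .x₃ + nC
    108544) * .x₃ + nC (-10240))) * .x₂ + ((((nC 196608 * .x₃ + nC (-290816)) * .x₃ + nC 153600) *
    .x₃ + nC (-33792)) * .x₃ + nC 2560)) * .x₂ + (((((nC 49152 * .x₃ + nC (-94208)) * .x₃ + nC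
    69632) * .x₃ + nC (-24576)) * .x₃ + nC 4096) * .x₃ + nC (-256))) * .x₂ * .x₂ * .x₂ * .x₂ *
    .x₂) * .x₁ + ((((((nC (-1024) * .x₂ + (nC 14336 * .x₃ + nC 9216)) * .x₂ + ((nC (-17408) * .x₃
    + nC 20480) * .x₃ + nC (-65280))) * .x₂ + (((nC (-81920) * .x₃ + nC 141312) * .x₃ + nC
    (-245760)) * .x₃ + nC 94720)) * .x₂ + ((((nC (-49152) * .x₃ + nC 191488) * .x₃ + nC (-422400))
    * .x₃ + nC 276736) * .x₃ + nC (-55168))) * .x₂ + ((((nC 61440 * .x₃ + nC (-280576)) * .x₃ + nC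
    284672) * .x₃ + nC (-108032)) * .x₃ + nC 14080)) * .x₂ + ((((nC (-55296) * .x₃ + nC 90112) *
    .x₃ + nC (-53760)) * .x₃ + nC 13824) * .x₃ + nC (-1280))) * .x₂ * .x₂ * .x₂ * .x₂) * .x₁ +
    (((((nC 1024 * .x₂ + (nC (-7168) * .x₃ + nC 3072)) * .x₂ + ((nC 8192 * .x₃ + nC (-9216)) * .x₃
    + nC 30208)) * .x₂ + (((nC 16384 * .x₃ + nC (-76288)) * .x₃ + nC 110080) * .x₃ + nC (-40064)))
    * .x₂ + (((nC (-51200) * .x₃ + nC 118784) * .x₃ + nC (-77312)) * .x₃ + nC 15616)) * .x₂ +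
    (((nC 23552 * .x₃ + nC (-30208)) * .x₃ + nC 12800) * .x₃ + nC (-1792))) * .x₂ * .x₂ * .x₂) *
    .x₁ + ((((nC (-128) * .x₂ + (nC 1024 * .x₃ + nC (-3072))) * .x₂ + ((nC (-2048) * .x₃ + nC
    8448) * .x₃ + nC (-6656))) * .x₂ + ((nC 15360 * .x₃ + nC (-18432)) * .x₃ + nC 5632)) * .x₂ +
    ((nC (-4224) * .x₃ + nC 3584) * .x₃ + nC (-768))) * .x₂ * .x₂) * .x₁ + ((nC 384 * .x₂ + (nC
    (-1536) * .x₃ + nC 768)) * .x₂ + (nC 384 * .x₃ + nC (-128))) * .x₂) * .x₁ + nC (-32)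

/-- A coefficient. -/
def cN1 : Ex :=
  (((((((nC 20480 * .x₂ + (nC 77824 * .x₃ + nC (-43008))) * .x₂ + ((nC 110592 * .x₃ + nC
    (-122880)) * .x₃ + nC 33792)) * .x₂ + (((nC 69632 * .x₃ + nC (-116736)) * .x₃ + nC 64512) *
    .x₃ + nC (-11776))) * .x₂ + ((((nC 16384 * .x₃ + nC (-36864)) * .x₃ + nC 30720) * .x₃ + nC
    (-11264)) * .x₃ + nC 1536)) * .x₂ * .x₂ * .x₂ * .x₂ * .x₁ + (((nC (-33792) * .x₂ + (nC
    (-96256) * .x₃ + nC 53248)) * .x₂ + ((nC (-91136) * .x₃ + nC 101376) * .x₃ + nC (-27904))) *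
    .x₂ + (((nC (-28672) * .x₃ + nC 48128) * .x₃ + nC (-26624)) * .x₃ + nC 4864)) * .x₂ * .x₂ *
    .x₂) * .x₁ + ((nC 20480 * .x₂ + (nC 38912 * .x₃ + nC (-21504))) * .x₂ + ((nC 18432 * .x₃ + nC
    (-20480)) * .x₃ + nC 5632)) * .x₂ * .x₂) * .x₁ + (nC (-5376) * .x₂ + (nC (-5120) * .x₃ + nC
    2816)) * .x₂) * .x₁ + nC 512

/-- A coefficient. -/
def cN2 : Ex :=
  (((((((((nC 8192 * .x₂ + (nC 40960 * .x₃ + nC (-20480))) * .x₂ + ((nC 81920 * .x₃ + nC (-81920))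
    * .x₃ + nC 20480)) * .x₂ + (((nC 81920 * .x₃ + nC (-122880)) * .x₃ + nC 61440) * .x₃ + nC
    (-10240))) * .x₂ + ((((nC 40960 * .x₃ + nC (-81920)) * .x₃ + nC 61440) * .x₃ + nC (-20480)) *
    .x₃ + nC 2560)) * .x₂ + (((((nC 8192 * .x₃ + nC (-20480)) * .x₃ + nC 20480) * .x₃ + nC
    (-10240)) * .x₃ + nC 2560) * .x₃ + nC (-256))) * .x₂ * .x₂ * .x₂ * .x₂ * .x₂ * .x₁ + ((((nC
    (-18432) * .x₂ + (nC (-73728) * .x₃ + nC 36864)) * .x₂ + ((nC (-110592) * .x₃ + nC 110592) *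
    .x₃ + nC (-27648))) * .x₂ + (((nC (-73728) * .x₃ + nC 110592) * .x₃ + nC (-55296)) * .x₃ + nC
    9216)) * .x₂ + ((((nC (-18432) * .x₃ + nC 36864) * .x₃ + nC (-27648)) * .x₃ + nC 9216) * .x₃ +
    nC (-1152))) * .x₂ * .x₂ * .x₂ * .x₂) * .x₁ + (((nC 16384 * .x₂ + (nC 49152 * .x₃ + nC
    (-24576))) * .x₂ + ((nC 49152 * .x₃ + nC (-49152)) * .x₃ + nC 12288)) * .x₂ + (((nC 16384 *
    .x₃ + nC (-24576)) * .x₃ + nC 12288) * .x₃ + nC (-2048))) * .x₂ * .x₂ * .x₂) * .x₁ + ((nC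
    (-7168) * .x₂ + (nC (-14336) * .x₃ + nC 7168)) * .x₂ + ((nC (-7168) * .x₃ + nC 7168) * .x₃ +
    nC (-1792))) * .x₂ * .x₂) * .x₁ + (nC 1536 * .x₂ + (nC 1536 * .x₃ + nC (-768))) * .x₂) * .x₁ +
    nC (-128)

/-- A coefficient. -/
def cN3 : Ex :=
  (((nC 1024 * .x₂ + (nC 2048 * .x₃ + nC (-1024))) * .x₂ + ((nC 1024 * .x₃ + nC (-1024)) * .x₃ +
    nC 256)) * .x₂ * .x₂ * .x₁ + (nC (-768) * .x₂ + (nC (-768) * .x₃ + nC 384)) * .x₂) * .x₁ + nC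
    128

/-- A coefficient. -/
def cN4 : Ex :=
  (((nC (-4096) * .x₂ + (nC (-8192) * .x₃ + nC 4096)) * .x₂ + ((nC (-4096) * .x₃ + nC 4096) * .x₃
    + nC (-1024))) * .x₂ * .x₂ * .x₁ + (nC 3072 * .x₂ + (nC 3072 * .x₃ + nC (-1536))) * .x₂) * .x₁
    + nC (-512)

/-- A coefficient. -/
def cN5 : Ex :=
  ((((((nC 2048 * .x₂ + (nC 10240 * .x₃ + nC (-5120))) * .x₂ + ((nC 18432 * .x₃ + nC (-18432)) *
    .x₃ + nC 4608)) * .x₂ + (((nC 14336 * .x₃ + nC (-21504)) * .x₃ + nC 10752) * .x₃ + nC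
    (-1792))) * .x₂ + ((((nC 4096 * .x₃ + nC (-8192)) * .x₃ + nC 6144) * .x₃ + nC (-2048)) * .x₃ +
    nC 256)) * .x₂ * .x₂ * .x₁ + (((nC (-6656) * .x₂ + (nC (-16384) * .x₃ + nC 10240)) * .x₂ +
    ((nC (-12800) * .x₃ + nC 16896) * .x₃ + nC (-5248))) * .x₂ + (((nC (-3072) * .x₃ + nC 6656) *
    .x₃ + nC (-4352)) * .x₃ + nC 896)) * .x₂) * .x₁ + ((nC 2560 * .x₂ + (nC 3072 * .x₃ + nC
    (-2048))) * .x₂ + ((nC 512 * .x₃ + nC (-1024)) * .x₃ + nC 384))) * .x₁ + nC (-256)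

/-- A coefficient. -/
def cN6 : Ex :=
  (((((nC 2048 * .x₂ + (nC 6144 * .x₃ + nC (-3072))) * .x₂ + ((nC 6144 * .x₃ + nC (-6144)) * .x₃ +
    nC 1536)) * .x₂ + (((nC 2048 * .x₃ + nC (-3072)) * .x₃ + nC 1536) * .x₃ + nC (-256))) * .x₂ *
    .x₂ * .x₂ * .x₁ + ((nC (-2560) * .x₂ + (nC (-5120) * .x₃ + nC 2560)) * .x₂ + ((nC (-2560) *
    .x₃ + nC 2560) * .x₃ + nC (-640))) * .x₂ * .x₂) * .x₁ + (nC 1024 * .x₂ + (nC 1024 * .x₃ + nC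
    (-512))) * .x₂) * .x₁ + nC (-128)

/-- A coefficient. -/
def cN7 : Ex :=
  (nC 128 * .x₂ + (nC 128 * .x₃ + nC (-64))) * .x₂ * .x₁ + nC (-32)

/-- A coefficient. -/
def cN8 : Ex :=
  ((((((((((nC 1024 * .x₂ + (nC 8192 * .x₃ + nC (-4096))) * .x₂ + ((nC 22528 * .x₃ + nC (-20480))
    * .x₃ + nC 5632)) * .x₂ + (((nC 28672 * .x₃ + nC (-34816)) * .x₃ + nC 17408) * .x₃ + nC
    (-3584))) * .x₂ + ((((nC 17408 * .x₃ + nC (-22528)) * .x₃ + nC 13824) * .x₃ + nC (-5632)) *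
    .x₃ + nC 1088)) * .x₂ + (((((nC 4096 * .x₃ + nC (-2048)) * .x₃ + nC (-2048)) * .x₃ + nC 1024)
    * .x₃ + nC 256) * .x₃ + nC (-128))) * .x₂ + ((((nC 2048 * .x₃ + nC (-4096)) * .x₃ + nC 3072) *
    .x₃ + nC (-1024)) * .x₃ + nC 128) * .x₃) * .x₂ * .x₂ * .x₂ * .x₂ * .x₂ * .x₁ + ((((((nC
    (-8192) * .x₂ + (nC (-28672) * .x₃ + nC 23040)) * .x₂ + ((nC (-36864) * .x₃ + nC 60928) * .x₃
    + nC (-22272))) * .x₂ + (((nC (-20480) * .x₃ + nC 50688) * .x₃ + nC (-35328)) * .x₃ + nC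
    10624)) * .x₂ + ((((nC (-4096) * .x₃ + nC 10752) * .x₃ + nC (-3840)) * .x₃ + nC 7040) * .x₃ +
    nC (-3648))) * .x₂ + ((((nC (-2048) * .x₃ + nC 12288) * .x₃ + nC (-6144)) * .x₃ + nC (-2048))
    * .x₃ + nC 1152)) * .x₂ + (((nC 3072 * .x₃ + nC (-3072)) * .x₃ * .x₃ + nC 768) * .x₃ + nC
    (-192))) * .x₂ * .x₂ * .x₂ * .x₂) * .x₁ + (((((nC 4096 * .x₂ + (nC 11264 * .x₃ + nC (-11392)))
    * .x₂ + ((nC 10240 * .x₃ + nC (-19200)) * .x₃ + nC 7040)) * .x₂ + (((nC 3072 * .x₃ + nC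
    (-5248)) * .x₃ + nC (-640)) * .x₃ + nC 224)) * .x₂ + (((nC 2560 * .x₃ + nC (-11008)) * .x₃ +
    nC 7040) * .x₃ + nC (-1088))) * .x₂ + (((nC (-3584) * .x₃ + nC 4352) * .x₃ + nC (-1664)) * .x₃
    + nC 192)) * .x₂ * .x₂ * .x₂) * .x₁ + ((((nC (-512) * .x₂ + (nC (-1024) * .x₃ + nC 1280)) *
    .x₂ + ((nC (-512) * .x₃ + nC (-768)) * .x₃ + nC 512)) * .x₂ + ((nC (-2048) * .x₃ + nC 3072) *
    .x₃ + nC (-896))) * .x₂ + ((nC 1024 * .x₃ + nC (-896)) * .x₃ + nC 192)) * .x₂ * .x₂) * .x₁ +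
    ((nC 32 * .x₂ + (nC 384 * .x₃ + nC (-256))) * .x₂ + (nC (-160) * .x₃ + nC 64)) * .x₂) * .x₁ +
    nC 16

/-- A coefficient. -/
def cN9 : Ex :=
  ((((((nC (-1024) * .x₂ + (nC (-3072) * .x₃ + nC 2560)) * .x₂ + ((nC (-3072) * .x₃ + nC 6144) *
    .x₃ + nC (-2304))) * .x₂ + (((nC (-1024) * .x₃ + nC 4608) * .x₃ + nC (-3840)) * .x₃ + nC 896))
    * .x₂ + (((nC 1024 * .x₃ + nC (-1536)) * .x₃ + nC 768) * .x₃ + nC (-128))) * .x₂ * .x₂ * .x₂ *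
    .x₁ + (((nC 1280 * .x₂ + (nC 2560 * .x₃ + nC (-2560))) * .x₂ + ((nC 1280 * .x₃ + nC (-3840)) *
    .x₃ + nC 1600)) * .x₂ + ((nC (-1280) * .x₃ + nC 1280) * .x₃ + nC (-320))) * .x₂ * .x₂) * .x₁ +
    ((nC (-512) * .x₂ + (nC (-512) * .x₃ + nC 768)) * .x₂ + (nC 512 * .x₃ + nC (-256))) * .x₂) *
    .x₁ + (nC 64 * .x₂ + nC (-64))

/-- A coefficient. -/
def cN10 : Ex :=
  ((((nC (-2048) * .x₂ + (nC (-4096) * .x₃ + nC 1024)) * .x₂ + (nC (-2048) * .x₃ * .x₃ + nC 512))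
    * .x₂ + ((nC (-1024) * .x₃ + nC 1024) * .x₃ + nC (-256))) * .x₂ * .x₂ * .x₁ + ((nC 1536 * .x₂
    + nC 1536 * .x₃) * .x₂ + (nC 768 * .x₃ + nC (-384))) * .x₂) * .x₁ + (nC (-256) * .x₂ + nC
    (-128))

/-- A coefficient. -/
def cN11 : Ex :=
  ((nC 128 * .x₂ + (nC 128 * .x₃ + nC (-192))) * .x₂ + (nC (-128) * .x₃ + nC 64)) * .x₂ * .x₁ +
    (nC (-32) * .x₂ + nC 32)

/-- A coefficient. -/
def cN12 : Ex :=
  (((((((nC (-128) * .x₂ + (nC (-512) * .x₃ + nC 256)) * .x₂ + ((nC (-768) * .x₃ + nC 768) * .x₃ +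
    nC (-192))) * .x₂ + (((nC (-512) * .x₃ + nC 768) * .x₃ + nC (-384)) * .x₃ + nC 64)) * .x₂ +
    ((((nC (-128) * .x₃ + nC 256) * .x₃ + nC (-192)) * .x₃ + nC 64) * .x₃ + nC (-8))) * .x₂ * .x₂
    * .x₂ * .x₂ * .x₁ + ((((nC 128 * .x₂ + (nC 384 * .x₃ + nC (-448))) * .x₂ + ((nC 384 * .x₃ + nC
    (-1152)) * .x₃ + nC 480)) * .x₂ + (((nC 128 * .x₃ + nC (-960)) * .x₃ + nC 864) * .x₃ + nC
    (-208))) * .x₂ + (((nC (-256) * .x₃ + nC 384) * .x₃ + nC (-192)) * .x₃ + nC 32)) * .x₂ * .x₂ *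
    .x₂ * .x₂) * .x₁ + ((((nC (-32) * .x₂ + (nC (-64) * .x₃ + nC 96)) * .x₂ + ((nC (-32) * .x₃ +
    nC 160) * .x₃ + nC (-104))) * .x₂ + ((nC 64 * .x₃ + nC (-128)) * .x₃ + nC 48)) * .x₂ + ((nC
    (-32) * .x₃ + nC 32) * .x₃ + nC (-8))) * .x₂ * .x₂) * .x₁ + (nC 16 * .x₂ + (nC 16 * .x₃ + nC
    (-8))) * .x₂) * .x₁ + nC (-2)

/-- A coefficient. -/
def cL0 : Ex :=
  ((((((nC 128 * .x₂ + (nC 896 * .x₃ + nC (-448))) * .x₂ + ((nC 1920 * .x₃ + nC (-1920)) * .x₃ +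
    nC 480)) * .x₂ + (((nC 1664 * .x₃ + nC (-2496)) * .x₃ + nC 1248) * .x₃ + nC (-208))) * .x₂ +
    ((((nC 512 * .x₃ + nC (-1024)) * .x₃ + nC 768) * .x₃ + nC (-256)) * .x₃ + nC 32)) * .x₂ * .x₂
    * .x₂ * .x₂ * .x₂ * .x₁ + (((((nC 64 * .x₂ + (nC (-640) * .x₃ + nC (-64))) * .x₂ + ((nC
    (-1472) * .x₃ + nC 704) * .x₃ + nC 16)) * .x₂ + (((nC (-768) * .x₃ + nC 768) * .x₃ + nC
    (-192)) * .x₃ + nC 128)) * .x₂ + (nC 256 * .x₃ + nC (-128))) * .x₂ + ((nC 128 * .x₃ + nC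
    (-128)) * .x₃ + nC 32)) * .x₂ * .x₂) * .x₁ + ((((nC (-96) * .x₂ + (nC 288 * .x₃ + nC 144)) *
    .x₂ + ((nC 384 * .x₃ + nC (-96)) * .x₃ + nC (-48))) * .x₂ + nC (-96)) * .x₂ + (nC (-96) * .x₃
    + nC 48)) * .x₂) * .x₁ + ((nC 16 * .x₂ + (nC (-64) * .x₃ + nC (-16))) * .x₂ * .x₂ + nC 16)

/-- A coefficient. -/
def cL1 : Ex :=
  (((nC 256 * .x₂ + (nC 512 * .x₃ + nC (-256))) * .x₂ + ((nC 256 * .x₃ + nC (-256)) * .x₃ + nC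
    64)) * .x₂ * .x₂ * .x₁ + (nC (-192) * .x₂ + (nC (-192) * .x₃ + nC 96)) * .x₂) * .x₁ + nC 32

/-- A coefficient. -/
def cL2 : Ex :=
  (((nC (-128) * .x₂ + (nC (-256) * .x₃ + nC 128)) * .x₂ + ((nC (-128) * .x₃ + nC 128) * .x₃ + nC
    (-32))) * .x₂ * .x₂ * .x₁ + (nC 96 * .x₂ + (nC 96 * .x₃ + nC (-48))) * .x₂) * .x₁ + nC (-16)

/-- A coefficient. -/
def cL3 : Ex :=
  ((((((nC 256 * .x₂ + (nC 1024 * .x₃ + nC (-384))) * .x₂ + ((nC 1536 * .x₃ + nC (-1152)) * .x₃ +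
    nC 192)) * .x₂ + (((nC 1024 * .x₃ + nC (-1152)) * .x₃ + nC 384) * .x₃ + nC (-32))) * .x₂ +
    (((nC 256 * .x₃ + nC (-384)) * .x₃ + nC 192) * .x₃ + nC (-32)) * .x₃) * .x₂ * .x₂ * .x₁ +
    (((nC 64 * .x₂ + (nC (-64) * .x₃ + nC (-128))) * .x₂ + (nC (-320) * .x₃ * .x₃ + nC 80)) * .x₂
    + (((nC (-192) * .x₃ + nC 128) * .x₃ + nC 16) * .x₃ + nC (-16))) * .x₂) * .x₁ + ((nC (-96) *
    .x₂ + (nC (-64) * .x₃ + nC 64)) * .x₂ + (nC 32 * .x₃ * .x₃ + nC (-8)))) * .x₁ + nC 16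

/-- A coefficient. -/
def cL4 : Ex :=
  (((((nC (-256) * .x₂ + (nC (-768) * .x₃ + nC 384)) * .x₂ + ((nC (-768) * .x₃ + nC 768) * .x₃ +
    nC (-192))) * .x₂ + (((nC (-256) * .x₃ + nC 384) * .x₃ + nC (-192)) * .x₃ + nC 32)) * .x₂ *
    .x₂ * .x₂ * .x₁ + ((nC 320 * .x₂ + (nC 640 * .x₃ + nC (-320))) * .x₂ + ((nC 320 * .x₃ + nC
    (-320)) * .x₃ + nC 80)) * .x₂ * .x₂) * .x₁ + (nC (-128) * .x₂ + (nC (-128) * .x₃ + nC 64)) *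
    .x₂) * .x₁ + nC 16

/-- A coefficient. -/
def cL5 : Ex :=
  ((((((nC (-224) * .x₂ + (nC (-448) * .x₃ + nC 416)) * .x₂ + ((nC (-224) * .x₃ + nC 608) * .x₃ +
    nC (-120))) * .x₂ + ((nC 192 * .x₃ + nC 192) * .x₃ + nC (-208))) * .x₂ + ((nC 384 * .x₃ + nC
    (-512)) * .x₃ + nC 160)) * .x₂ + (((nC 128 * .x₃ + nC (-256)) * .x₃ + nC 160) * .x₃ + nC
    (-32))) * .x₂ * .x₂ * .x₁ + ((((nC 160 * .x₂ + (nC 128 * .x₃ + nC (-208))) * .x₂ + ((nC (-32)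
    * .x₃ + nC (-112)) * .x₃ + nC (-32))) * .x₂ + (nC (-192) * .x₃ + nC 144)) * .x₂ + ((nC (-96) *
    .x₃ + nC 144) * .x₃ + nC (-48))) * .x₂) * .x₁ + (((nC (-24) * .x₂ + (nC 16 * .x₃ + nC 16)) *
    .x₂ + nC 16) * .x₂ + (nC 16 * .x₃ + nC (-16)))

/-- A coefficient. -/
def cL6 : Ex :=
  ((((nC 128 * .x₂ + (nC 256 * .x₃ + nC (-64))) * .x₂ + (nC 128 * .x₃ * .x₃ + nC (-32))) * .x₂ +
    ((nC 64 * .x₃ + nC (-64)) * .x₃ + nC 16)) * .x₂ * .x₂ * .x₁ + ((nC (-96) * .x₂ + nC (-96) *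
    .x₃) * .x₂ + (nC (-48) * .x₃ + nC 24)) * .x₂) * .x₁ + (nC 16 * .x₂ + nC 8)

/-- A reduced form. -/
def fG (p t z : Ex) : Ex :=
  cG0 * eB * eB * eB * eB * eD * eD * eQ * eQ * eS * eS * eS * eS +
    cG1 * .x₂ * .x₂ * .x₂ * .x₁ * eB * eB * eB * eB * eD * eD * eQ * eQ * eS * eS * z +
    cG2 * .x₂ * .x₂ * eB * eB * eB * eB * eQ * eQ * z * z +
    cG3 * .x₂ * .x₂ * .x₁ * .x₁ * eB * eB * eD * eD * eQ * eS * eS * eS * eS * (fG1h t) +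
    cG4 * .x₂ * .x₂ * .x₁ * .x₁ * eB * eB * eD * eD * eD * eQ * eS * eS * eS * eS * (fGh t) +
    cG5 * .x₂ * .x₂ * .x₂ * .x₁ * eB * eB * eD * eQ * eS * eS * (fGh t) * z +
    cG6 * .x₂ * .x₂ * .x₁ * .x₁ * eD * eD * eS * eS * eS * eS * (fGh t) * (fGh t) +
    cG7 * eB * eB * eB * eB * eD * eD * eQ * eQ * eS * eS * eS * eS * p +
    cG8 * .x₂ * .x₂ * .x₁ * eB * eB * eB * eB * eD * eD * eQ * eQ * eS * eS * p * z +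
    cG9 * .x₂ * .x₂ * .x₂ * .x₁ * .x₁ * eB * eB * eD * eD * eD * eQ * eS * eS * eS * eS * p * (fGh t) +
    cG10 * eB * eB * eB * eB * eD * eD * eQ * eQ * eS * eS * eS * eS * p * p

/-- A reduced form. -/
def fY (p h t z : Ex) : Ex :=
  cY0 * .x₁ * eB * eB * eD * eD * eQ * eS * eS +
    cY1 * eB * eB * eQ * z +
    cY2 * .x₂ * .x₂ * .x₁ * .x₁ * .x₁ * eD * eD * eS * eS * (fG1h t) +
    cY3 * .x₁ * eD * eS * eS * (fGh t) +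
    cY4 * .x₁ * eB * eD * eQ * eS * eS * (h * fL t) +
    cY5 * .x₁ * eB * eB * eD * eD * eQ * eS * eS * p +
    cY6 * eB * eB * eQ * p * z +
    cY7 * .x₁ * eD * eS * eS * p * (fGh t) +
    cY8 * .x₁ * eB * eD * eQ * eS * eS * p * (h * fL t) +
    cY9 * .x₂ * .x₁ * eB * eB * eD * eD * eQ * eS * eS * p * p

/-- A reduced form. -/
def fX (p h t w : Ex) : Ex :=
  cX0 * .x₂ * .x₁ * eB * eD * (fW p h w) +
    cX1 * .x₂ * .x₂ * .x₁ * .x₁ * eD * eS * eS * eMu * (nC (-5) 2 * h * t) +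
    cX2 * eS * eS * eMu * (h * fL t) +
    cX3 * .x₂ * .x₂ * .x₁ * eB * eD * eS * eS * eMu * p +
    cX4 * eS * eS * eMu * p * (h * fL t)

/-- A reduced form. -/
def fT (p h t w z : Ex) : Ex :=
  cT0 * eB * eB * eD * eD * eQ * eS * eS * eS * eS * eMu +
    cT1 * .x₂ * .x₂ * .x₂ * .x₁ * .x₁ * eB * eB * eD * eD * eQ * eS * eS * eMu * z +
    cT2 * .x₂ * .x₂ * eB * eB * eQ * eMu * z * z +
    cT3 * .x₂ * .x₁ * eB * eB * eD * eD * eQ * eS * eS * (fW p h w) +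
    cT4 * .x₂ * .x₂ * .x₁ * .x₁ * eB * eD * eD * eQ * eS * eS * eS * eS * eMu * (nC (-5) 2 * h * t) +
    cT5 * .x₂ * .x₂ * .x₁ * eB * eD * eQ * eS * eS * eS * eS * eMu * (h * fL t) +
    cT6 * .x₂ * .x₂ * .x₂ * .x₁ * eB * eD * eQ * eS * eS * eMu * (h * fL t) * z +
    cT7 * .x₂ * .x₂ * .x₁ * .x₁ * eD * eD * eQ * eS * eS * eS * eS * eMu * (h * fL t) * (h * fL t) +
    cT8 * eB * eB * eD * eD * eQ * eS * eS * eS * eS * eMu * p +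
    cT9 * .x₂ * .x₂ * .x₁ * eB * eB * eD * eD * eQ * eS * eS * eMu * p * z +
    cT10 * .x₂ * .x₂ * .x₁ * .x₁ * eD * eD * eD * eS * eS * eS * eS * eMu * p * (fGh t) +
    cT11 * .x₂ * .x₂ * .x₁ * .x₁ * eB * eD * eD * eD * eQ * eS * eS * eS * eS * eMu * p * (h * fL t) +
    cT12 * eB * eB * eD * eD * eQ * eS * eS * eS * eS * eMu * p * p

/-- A reduced form. -/
def fN (p h t w z : Ex) : Ex :=
  cN0 * eB * eB * eD * eD * eQ * eS * eS * eS * eS * eMu +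
    cN1 * .x₂ * .x₂ * .x₁ * eB * eB * eD * eD * eQ * eS * eS * eMu * z +
    cN2 * .x₂ * .x₂ * eB * eB * eQ * eMu * z * z +
    cN3 * .x₂ * .x₂ * .x₁ * eB * eB * eD * eD * eQ * eS * eS * (fW p h w) +
    cN4 * .x₂ * .x₂ * .x₁ * .x₁ * eB * eD * eD * eQ * eS * eS * eS * eS * eMu * (nC (-5) 2 * h * t) +
    cN5 * .x₂ * .x₂ * .x₁ * eB * eD * eQ * eS * eS * eS * eS * eMu * (h * fL t) +
    cN6 * .x₂ * .x₂ * .x₁ * eB * eD * eQ * eS * eS * eMu * (h * fL t) * z +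
    cN7 * .x₂ * .x₂ * .x₁ * .x₁ * eD * eD * eQ * eS * eS * eS * eS * eMu * (h * fL t) * (h * fL t) +
    cN8 * eB * eB * eD * eD * eQ * eS * eS * eS * eS * eMu * p +
    cN9 * .x₂ * .x₂ * .x₁ * eB * eB * eD * eD * eQ * eS * eS * eMu * p * z +
    cN10 * .x₂ * .x₂ * .x₁ * .x₁ * eD * eD * eD * eS * eS * eS * eS * eMu * p * (fGh t) +
    cN11 * .x₂ * .x₂ * .x₁ * .x₁ * eB * eD * eD * eD * eQ * eS * eS * eS * eS * eMu * p * (h * fL t) +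
    cN12 * eB * eB * eD * eD * eQ * eS * eS * eS * eS * eMu * p * p

/-- A reduced form. -/
def fLG (q t z : Ex) : Ex :=
  cL0 * .x₁ * eB * eB * eD * eQ * eS * eS +
    cL1 * .x₂ * .x₁ * eD * eQ * eS * eS * (nC (-5) 2 * t) * (nC (-1) * eS * .x₀) +
    cL2 * eB * eQ * eS * eS * (fL t) +
    cL3 * .x₂ * eQ * eS * eS * (fL t) * (nC (-1) * eS * .x₀) +
    cL4 * .x₂ * eQ * (fL t) * (nC (-1) * eS * .x₀) * z +
    cL5 * .x₁ * eB * eB * eD * eQ * eS * eS * (nC 1 - q) +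
    cL6 * .x₁ * eD * eS * eS * (nC 1 - q) * (fGh t)

end Vale.Agent.P100.Calib.Closed.All.SgnNeg
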