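import Vale.Agent.P100.Calib.SlabSignsAllNegExpG
import Vale.Agent.P100.Calib.SlabSignsAllNegExpY
import Vale.Agent.P100.Calib.SlabSignsAllNegExpX
import Vale.Agent.P100.Calib.SlabSignsAllNegExpT
import Vale.Agent.P100.Calib.SlabSignsAllNegExpN
import Vale.Agent.P100.Calib.SlabSignsAllNegExpL

/-!
# The closed forms below the crossing in the reduced forms
-/

set_option linter.unusedVariables false
set_option linter.unusedSimpArgs false
set_option linter.unusedTactic false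

namespace Vale.Agent.P100.Calib.Closed.All.SgnNeg

/-- The values along an orbit in the arguments of the reduced forms. -/
structure Vals (x : ℕ → ℝ) (g W W1 R p η t τ z : ℝ) (n : ClosedGen.Num) : Prop where
  nn : ∀ i < 4, 0 ≤ x i
  pos : 0 < x 2 ∧ 0 < pS x ∧ 0 < pb x ∧ 0 < pd x ∧ 0 < pQ x ∧ 0 < pMu x
  c : n.c = x 3 * pb x
  e2 : n.e2 = -(1 - 2 * x 3 - x 2 / 2) * x 2
  gW : g * W = p / pb x
  gE : g * n.E = η * rL x t / (x 2 * pd x)
  gK : g * n.K = -5 / 2 * η * t / x 2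
  gW1 : g * W1 = rW x p η τ / (pb x ^ 2 * pS x ^ 2 * pMu x)
  G : n.G = x 3 * rGh x t / (pb x * pQ x * pd x ^ 2)
  G1 : n.G1 = x 3 * rG1h t / (pb x * pQ x * pd x ^ 2)
  D2 : n.D2 = z / (pS x ^ 2 * pd x ^ 2)

section
variable {x : ℕ → ℝ} {g W W1 R p η t τ z : ℝ} {n : ClosedGen.Num}

theorem Vals.num (h : Vals x g W W1 R p η t τ z n) :
    n = ⟨x 3 * pb x, -(1 - 2 * x 3 - x 2 / 2) * x 2, n.E, n.K, n.G, n.G1, n.D2⟩ := by
  obtain ⟨c, e2, E, K, G, G1, D2⟩ := n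
  have hc := h.c
  have he := h.e2
  simp only at hc he ⊢
  rw [hc, he]

theorem Vals.scaleG (h : Vals x g W W1 R p η t τ z n) :
    ClosedGen.TGGS (x 3) (pd x) (2 * x 2 * x 1) g W W1 R n * (pS x ^ 4 * pd x ^ 2 * pb x * pQ x ^ 2) =
      x 3 ^ 3 * rG x p t z := by
  obtain ⟨hI, hS, hb, hd, hQ, hM⟩ := h.pos
  have eb : 1 - 2 * x 2 - x 3 = pb x := by simp only [pb, pS]
  have ed : 1 - 2 * x 2 - 2 * x 3 = pd x := by simp only [pd, pb, pS]; ring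
  have e := expG x (x 3) (x 2) (x 1) g W W1 R n.E n.K n.G n.G1 n.D2 h.nn rfl rfl rfl
  rw [eb, ed, ← h.num] at e
  simp only [e, h.gW, h.gE, h.gK, h.gW1, h.G, h.G1, h.D2, rG]
  field_simp

theorem Vals.scaleY (h : Vals x g W W1 R p η t τ z n) :
    ClosedGen.TEGS (x 3) (pd x) (2 * x 2 * x 1) g W W1 R n * (pS x ^ 2 * pd x ^ 2 * pQ x) =
      x 3 ^ 3 * x 2 * pb x * rY x p η t z := by
  obtain ⟨hI, hS, hb, hd, hQ, hM⟩ := h.pos
  have eb : 1 - 2 * x 2 - x 3 = pb x := by simp only [pb, pS]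
  have ed : 1 - 2 * x 2 - 2 * x 3 = pd x := by simp only [pd, pb, pS]; ring
  have e := expY x (x 3) (x 2) (x 1) g W W1 R n.E n.K n.G n.G1 n.D2 h.nn rfl rfl rfl
  rw [eb, ed, ← h.num] at e
  simp only [e, h.gW, h.gE, h.gK, h.gW1, h.G, h.G1, h.D2, rY]
  field_simp

theorem Vals.scaleX (h : Vals x g W W1 R p η t τ z n) :
    g * ClosedGen.TMES (x 3) (pd x) (2 * x 2 * x 1) g W W1 R n * (x 2 * pd x * pS x ^ 2 * pMu x) =
      x 3 * x 2 * rX x p η t τ := by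
  obtain ⟨hI, hS, hb, hd, hQ, hM⟩ := h.pos
  have eb : 1 - 2 * x 2 - x 3 = pb x := by simp only [pb, pS]
  have ed : 1 - 2 * x 2 - 2 * x 3 = pd x := by simp only [pd, pb, pS]; ring
  have e := expX x (x 3) (x 2) (x 1) g W W1 R n.E n.K n.G n.G1 n.D2 h.nn rfl rfl rfl
  rw [eb, ed, ← h.num] at e
  simp only [e, h.gW, h.gE, h.gK, h.gW1, h.G, h.G1, h.D2, rX]
  field_simp

theorem Vals.scaleT (h : Vals x g W W1 R p η t τ z n) :
    ClosedGen.TAS (x 3) (pd x) (2 * x 2 * x 1) g W W1 R n * (pS x ^ 4 * pd x ^ 2 * pQ x * pMu x) =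
      x 3 ^ 3 * pb x * rT x p η t τ z := by
  obtain ⟨hI, hS, hb, hd, hQ, hM⟩ := h.pos
  have eb : 1 - 2 * x 2 - x 3 = pb x := by simp only [pb, pS]
  have ed : 1 - 2 * x 2 - 2 * x 3 = pd x := by simp only [pd, pb, pS]; ring
  have e := expT x (x 3) (x 2) (x 1) g W W1 R n.E n.K n.G n.G1 n.D2 h.nn rfl rfl rfl
  rw [eb, ed, ← h.num] at e
  simp only [e, h.gW, h.gE, h.gK, h.gW1, h.G, h.G1, h.D2, rT]
  field_simp

theorem Vals.scaleN (h : Vals x g W W1 R p η t τ z n) :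
    ClosedGen.TMGS (x 3) (pd x) (2 * x 2 * x 1) g W W1 R n * (pS x ^ 4 * pd x ^ 2 * pQ x * pMu x) =
      x 3 ^ 3 * pb x * rN x p η t τ z := by
  obtain ⟨hI, hS, hb, hd, hQ, hM⟩ := h.pos
  have eb : 1 - 2 * x 2 - x 3 = pb x := by simp only [pb, pS]
  have ed : 1 - 2 * x 2 - 2 * x 3 = pd x := by simp only [pd, pb, pS]; ring
  have e := expN x (x 3) (x 2) (x 1) g W W1 R n.E n.K n.G n.G1 n.D2 h.nn rfl rfl rfl
  rw [eb, ed, ← h.num] at e
  simp only [e, h.gW, h.gE, h.gK, h.gW1, h.G, h.G1, h.D2, rN]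
  field_simp

theorem Vals.scaleL (h : Vals x g W W1 R p η t τ z n) (hq : W * R = (1 - t) / pd x)
    (hR : R = -1 * pS x * x 0) (hE : n.E = rL x t / pd x) (hK : n.K = -5 / 2 * t) :
    ClosedGen.LLGS (x 3) (pd x) (2 * x 2 * x 1) g W W1 R n * (pd x * pQ x * pS x ^ 2) =
      x 3 * x 2 * rLG x t t z := by
  obtain ⟨hI, hS, hb, hd, hQ, hM⟩ := h.pos
  have eb : 1 - 2 * x 2 - x 3 = pb x := by simp only [pb, pS]
  have ed : 1 - 2 * x 2 - 2 * x 3 = pd x := by simp only [pd, pb, pS]; ring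
  have e := expL x (x 3) (x 2) (x 1) g W W1 R n.E n.K n.G n.G1 n.D2 rfl rfl rfl
  rw [eb, ed, ← h.num] at e
  rw [e, hq]
  simp only [hR, hE, hK, h.G, h.D2, rLG]
  field_simp

/-- `g²` times the corner of the arrow. -/
theorem Vals.scaleM (h : Vals x g W W1 R p η t τ z n) :
    g ^ 2 * ClosedGen.TMMS (x 3) (pd x) (2 * x 2 * x 1) g W W1 R n * (pd x * pb x) =
      -2 * pQ x * η * rL x t * p := by
  obtain ⟨hI, hS, hb, hd, hQ, hM⟩ := h.pos
  have e : g ^ 2 * ClosedGen.TMMS (x 3) (pd x) (2 * x 2 * x 1) g W W1 R n =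
      -(2 * x 2 * pQ x * (g * n.E) * (g * W)) := by
    simp only [ClosedGen.TMMS, ClosedGen.TMM_w, pQ, pd, pb, pS]
    ring
  rw [e, h.gE, h.gW]
  field_simp

end

end Vale.Agent.P100.Calib.Closed.All.SgnNeg
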