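import Vale.Agent.P100.Calib.SlabSignsAllNegSound
import Vale.Agent.P100.Calib.SlabSignsAllNegScale
import Vale.Agent.P100.Calib.SlabChartAll
import Vale.Agent.P100.Calib.SlabAllNeg

/-!
# The closed signs at a good point below the crossing
-/

set_option linter.unusedSimpArgs false
set_option linter.unusedVariables false

namespace Vale.Agent.P100.Calib.Closed.All.SgnNeg

open BoxPos

local instance pointAdd : Add Ex := ⟨Ex.add⟩
local instance pointSub : Sub Ex := ⟨Ex.sub⟩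
local instance pointMul : Mul Ex := ⟨Ex.mul⟩

/-- The ranges of `(U, X, I, a)`. -/
structure Box (x : ℕ → ℝ) : Prop where
  U₀ : 0 ≤ x 0
  X₀ : 0 ≤ x 1
  I₀ : 0 < x 2
  I₁ : x 2 ≤ 1 / 7
  Ia : x 2 ≤ x 3
  d₀ : 0 < 1 - 2 * x 2 - 2 * x 3

variable {x : ℕ → ℝ}

theorem Box.pos (h : Box x) : 0 < x 3 ∧ 0 < pS x ∧ 0 < pb x ∧ 0 < pd x ∧
    1 ≤ pQ x ∧ 0 < pMu x ∧ 0 < pJ x ∧ pu x ≤ 0 ∧ x 3 < 1 / 2 := by
  obtain ⟨hU, hX, hI, hI1, hIa, hd⟩ := h
  have hd' : 0 < pd x := by simp only [pd, pb, pS]; linarith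
  refine ⟨by linarith, by simp only [pS]; linarith, by simp only [pb, pS]; linarith, hd', ?_, ?_,
    by simp only [pJ]; linarith, ?_, by linarith⟩
  · simp only [pQ]
    nlinarith [mul_nonneg (mul_nonneg hd'.le hI.le) hX]
  · simp only [pMu]; exact pow_pos (by linarith) 2
  · simp only [pu]; linarith [mul_nonneg hI.le hU]

/-- What is needed of the enclosures at a point. -/
structure Encl.Ok (E : Encl) (x : ℕ → ℝ) : Prop where
  p₀ : 0 < ev x (E.p false)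
  g₀ : 0 < ev x (E.g false)
  t₀ : 0 < ev x (E.t false)
  wide : ev x (E.p false) < ev x (E.p true) ∧ ev x (E.g false) < ev x (E.g true) ∧
    ev x (E.t false) < ev x (E.t true)

/-- `H` at a slope. -/
noncomputable def rH (x : ℕ → ℝ) (τ : ℝ) : ℝ :=
  pS x * (1 + (1 - x 3) * (2 * x 2 * x 1)) / (pb x * pJ x) + pu x * (x 3 / pMu x + x 2 * τ)

/-- The numerator of `g`. -/
def rQn (x : ℕ → ℝ) : ℝ :=
  pb x * (2 + pd x * (2 * x 2 * x 1)) - pS x * pu x * pQ x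

/-- The denominator of `g`. -/
def rDen (x : ℕ → ℝ) (H : ℝ) : ℝ := 2 + pd x * (2 * x 2 * x 1) - pu x * pd x * H

theorem Box.ev_band (h : Box x) (w : Ex) :
    ev x eGd = pb x * pJ x * pMu x ∧ ev x (eGn w) = rH x (ev x w) * (pb x * pJ x * pMu x) ∧
      ev x eQn = rQn x ∧
      ev x (eDen w) = rDen x (rH x (ev x w)) * (pb x * pJ x * pMu x) := by
  obtain ⟨-, -, hb0, -, -, hM0, hJ0, -, -⟩ := h.pos
  have : 0 < pb x := by linarith
  obtain ⟨hS, hb, hd, hQ, hM, hJ, hu, -⟩ := ev_base x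
  have e1 : ev x eGd = pb x * pJ x * pMu x := by simp only [eGd, ev_mul, hb, hJ, hM]
  have e2 : ev x (eGn w) = rH x (ev x w) * (pb x * pJ x * pMu x) := by
    simp only [eGn, eV, rH, ev_add, ev_sub, ev_mul, ev_nC, ev_x₁, ev_x₂, ev_x₃, hS, hb, hM, hJ, hu]
    push_cast
    field_simp
  refine ⟨e1, e2, ?_, ?_⟩
  · simp only [eQn, eV, rQn, pQ, ev_add, ev_sub, ev_mul, ev_nC, ev_x₁, ev_x₂, hS, hb, hd, hu]
    push_cast; ring
  · simp only [eDen, eV, rDen, ev_add, ev_sub, ev_mul, ev_nC, ev_x₁, ev_x₂, hd, hu, e1, e2]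
    push_cast; ring

theorem encl_alg {Q S b c m Hh H Hl p₀ p₁ g₀ g₁ t₀ t₁ : ℝ} (hS : 0 < S) (hc : 2 ≤ c) (hm : m ≤ 0)
    (hb : 0 < b) (hp : 0 < p₀) (hg : 0 ≤ g₀) (hg1 : 0 ≤ g₁) (ht : 0 < t₀) (hb' : 0 ≤ b) (hQ : 0 < Q)
    (n1 : t₀ ≤ 1 - m * Hh) (n2 : 1 - m * Hl ≤ t₁)
    (n3 : p₀ * (S * (c - m * Hh)) ≤ 4 * Q * Hh) (n4 : 4 * Q * Hl ≤ p₁ * (S * (c - m * Hl)))
    (n5 : 2 * Q ≤ g₁ * (b * (c - m * Hh))) (n6 : g₀ * (b * (c - m * Hl)) ≤ 2 * Q)
    (o1 : Hh ≤ H) (o2 : H ≤ Hl) :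
    0 < H ∧ 0 < c - m * H ∧ p₀ ≤ 4 * Q * H / (S * (c - m * H)) ∧
      4 * Q * H / (S * (c - m * H)) ≤ p₁ ∧ g₀ ≤ 2 * Q / (b * (c - m * H)) ∧
      2 * Q / (b * (c - m * H)) ≤ g₁ ∧ t₀ ≤ 1 - m * H ∧ 1 - m * H ≤ t₁ := by
  have q1 : m * Hl ≤ m * H := mul_le_mul_of_nonpos_left o2 hm
  have q2 : m * H ≤ m * Hh := mul_le_mul_of_nonpos_left o1 hm
  have Dh : 0 < c - m * Hh := by linarith
  have hHh : 0 < Hh := pos_of_mul_pos_right
    (lt_of_lt_of_le (mul_pos hp (mul_pos hS Dh)) n3) (by linarith)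
  have DH : 0 < c - m * H := by linarith
  have Dl : 0 < c - m * Hl := by linarith
  have cr1 : 0 ≤ 4 * Q * (c * (H - Hh)) :=
    mul_nonneg (by linarith) (mul_nonneg (by linarith) (by linarith))
  have cr2 : 0 ≤ 4 * Q * (c * (Hl - H)) :=
    mul_nonneg (by linarith) (mul_nonneg (by linarith) (by linarith))
  refine ⟨by linarith, DH, ?_, ?_, ?_, ?_, by linarith, by linarith⟩
  · rw [le_div_iff₀ (mul_pos hS DH)]
    refine le_of_mul_le_mul_right ?_ Dh
    linarith [mul_le_mul_of_nonneg_right n3 DH.le]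
  · rw [div_le_iff₀ (mul_pos hS DH)]
    refine le_of_mul_le_mul_right ?_ Dl
    linarith [mul_le_mul_of_nonneg_right n4 DH.le]
  · rw [le_div_iff₀ (mul_pos hb DH)]
    linarith [mul_le_mul_of_nonneg_left (show c - m * H ≤ c - m * Hl by linarith)
      (mul_nonneg hg hb')]
  · rw [div_le_iff₀ (mul_pos hb DH)]
    linarith [mul_le_mul_of_nonneg_left (show c - m * Hh ≤ c - m * H by linarith)
      (mul_nonneg hg1 hb')]

/-- The values of `b g W`, `I g`, `1 - d u H` lie in the enclosures. -/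
theorem Good.enclose {E : Encl} {z : Ex} {K : ℕ} (h : Box x) (hE : E.Ok x) (hg : Good E z x K)
    {τ : ℝ} (h₀ : ev x (E.w false) ≤ τ) (h₁ : τ ≤ ev x (E.w true)) :
    0 < rH x τ ∧ 0 < rQn x ∧ 0 < rDen x (rH x τ) ∧
      In E x (4 * rQn x * rH x τ / (pS x * rDen x (rH x τ)))
        (2 * rQn x / (pb x * rDen x (rH x τ))) (1 - pd x * pu x * rH x τ) τ := by
  obtain ⟨ha, hS, hb, hd, hQ, hM, hJ, hu, ha2⟩ := h.pos
  obtain ⟨lp, lg, lt, hwd⟩ := hE
  obtain ⟨eG, eNh, eQ', eDh⟩ := h.ev_band (E.w true)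
  obtain ⟨-, eNl, -, eDl⟩ := h.ev_band (E.w false)
  have hG : 0 < pb x * pJ x * pMu x := mul_pos (mul_pos (by linarith) hJ) hM
  obtain ⟨eS', eb', ed', -, -, -, eu', -⟩ := ev_base x
  have k1 := hg.tl
  have k2 := hg.th
  have k3 := hg.pl
  have k4 := hg.ph
  have k5 := hg.gh
  have k6 := hg.gl
  simp only [envTL, envTH, envPL, envPH, envGH, envGL, ev_sub, ev_mul, ev_nC, eG, eNh, eNl, eQ',
    eDh, eDl, eS', eb', ed', eu'] at k1 k2 k3 k4 k5 k6
  push_cast at k1 k2 k3 k4 k5 k6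
  set Hh := rH x (ev x (E.w true))
  set Hl := rH x (ev x (E.w false))
  set H := rH x τ with hH
  set c := 2 + pd x * (2 * x 2 * x 1) with hc
  have dv : 0 ≤ pd x * (2 * x 2 * x 1) :=
    mul_nonneg (by linarith) (mul_nonneg (by linarith [h.I₀]) h.X₀)
  have c0 : 2 ≤ c := by rw [hc]; linarith
  have hQn : 0 < rQn x := by
    simp only [rQn]
    have e1 := mul_pos (show 0 < pb x by linarith) (show 0 < 2 + pd x * (2 * x 2 * x 1) by linarith)
    have e2 : pS x * pu x * pQ x ≤ 0 :=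
      mul_nonpos_of_nonpos_of_nonneg (mul_nonpos_of_nonneg_of_nonpos (by linarith) hu) (by linarith)
    linarith
  have hlg1 : ev x (E.g false) ≤ ev x (E.g true) := hwd.2.1.le
  have n1 : ev x (E.t false) ≤ 1 - pd x * pu x * Hh :=
    le_of_mul_le_mul_right (by linarith) hG
  have n2 : 1 - pd x * pu x * Hl ≤ ev x (E.t true) := le_of_mul_le_mul_right (by linarith) hG
  have n3 : ev x (E.p false) * (pS x * rDen x Hh) ≤ 4 * rQn x * Hh :=
    le_of_mul_le_mul_right (by linarith) hG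
  have n4 : 4 * rQn x * Hl ≤ ev x (E.p true) * (pS x * rDen x Hl) :=
    le_of_mul_le_mul_right (by linarith) hG
  have n5 : 2 * rQn x ≤ ev x (E.g true) * (pb x * rDen x Hh) :=
    le_of_mul_le_mul_right (by linarith) hG
  have n6 : ev x (E.g false) * (pb x * rDen x Hl) ≤ 2 * rQn x :=
    le_of_mul_le_mul_right (by linarith) hG
  have hm : pu x * x 2 ≤ 0 := mul_nonpos_of_nonpos_of_nonneg hu h.I₀.le
  have o1 : Hh ≤ H := by
    simp only [Hh, hH, rH]
    linarith [mul_le_mul_of_nonpos_left h₁ hm]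
  have o2 : H ≤ Hl := by
    simp only [Hl, hH, rH]
    linarith [mul_le_mul_of_nonpos_left h₀ hm]
  have dh : ∀ z, rDen x z = c - pd x * pu x * z := fun z => by simp only [rDen, c]; ring
  rw [dh] at n3 n4 n5 n6
  obtain ⟨a1, a2, a3, a4, a5, a6, a7, a8⟩ := encl_alg (by linarith) c0
    (mul_nonpos_of_nonneg_of_nonpos (by linarith) hu) (by linarith) (by linarith)
    (by linarith) (by linarith) (by linarith) (by linarith) hQn n1 n2 n3 n4 n5 n6 o1 o2
  exact ⟨a1, hQn, by rw [dh]; exact a2, ⟨h.X₀, h.I₀, hb.le, hd.le, by linarith, hM.le, hJ.le,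
    by rw [dh]; positivity⟩, by rw [dh]; exact a3, by rw [dh]; exact a4,
    by rw [dh]; exact a5, by rw [dh]; exact a6, a7, a8, h₀, h₁, hwd⟩

theorem abs_le_of_pm {A B : ℝ} (h1 : 0 ≤ A + (-1) * B) (h2 : 0 ≤ A + 1 * B) : |B| ≤ A :=
  abs_le.2 ⟨by linarith, by linarith⟩

theorem scale_abs {Y m c z : ℝ} (hm : 0 < m) (hc : 0 ≤ c) (e : Y * m = c * z) :
    |Y| * m = c * |z| := by
  have := congrArg abs e
  rwa [abs_mul, abs_mul, abs_of_pos hm, abs_of_nonneg hc] at this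

/-- The linearised determinant of the arrow. -/
theorem arrow_pos {A M G Y X c d Q k z : ℝ} (hQ : 0 < Q) (hM : 0 < M) (hG : 0 < G) (hc : 0 ≤ c)
    (hk : 0 ≤ k) (hY : |d * Y| ≤ k * G) (hX : |X| ≤ z * M)
    (hL : 0 < 4 * A - k * Q * |d * Y| - 16 * c * Q * z ^ 2 * M) :
    0 < 4 * A * M * G - d ^ 2 * Q * Y ^ 2 * M - 16 * c * Q * X ^ 2 * G := by
  have h1 : d ^ 2 * Y ^ 2 ≤ k * G * |d * Y| := by
    have := mul_le_mul_of_nonneg_right hY (abs_nonneg (d * Y))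
    nlinarith [abs_mul_abs_self (d * Y)]
  have h2 : X ^ 2 ≤ (z * M) ^ 2 := by
    have := pow_le_pow_left₀ (abs_nonneg X) hX 2
    rwa [sq_abs] at this
  nlinarith [mul_le_mul_of_nonneg_left h1 (mul_nonneg hQ.le hM.le),
    mul_le_mul_of_nonneg_left h2 (mul_nonneg (mul_nonneg hc hQ.le) hG.le),
    mul_pos (mul_pos hM hG) hL]

/-- The closed signs at a good point. -/
theorem Good.signs {E : Encl} {z : Ex} {K : ℕ} (hK : 0 < K) (h : Box x) (hE₀ : E.Ok x)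
    (hg : Good E z x K) {g W W1 R p η t τ : ℝ} {n : ClosedGen.Num}
    (hv : Vals x g W W1 R p η t τ (ev x z) n) (hi : In E x p η t τ) (hg0 : 0 < g)
    (hq : W * R = (1 - t) / pd x) (hR : R = -1 * pS x * x 0) (hE : n.E = rL x t / pd x)
    (hnK : n.K = -5 / 2 * t) :
    ClosedGen.Signs (x 3) (pd x) (2 * x 2 * x 1) g W W1 R n := by
  obtain ⟨ha, hS, hb, hd, hQ, hM, hJ, hu, ha2⟩ := h.pos
  obtain ⟨lp, lg, lt, hwd⟩ := hE₀
  have hI := h.I₀
  have hb0 : 0 < pb x := by linarith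
  have hd0 : 0 < pd x := by linarith
  have hQ0 : 0 < pQ x := by linarith
  have hS0 : 0 < pS x := by linarith
  have hp : 0 < p := by linarith [hi.p₀]
  have hη : 0 < η := by linarith [hi.g₀]
  have ht : 0 < t := by linarith [hi.t₀]
  have hL : rL x t < 0 := by
    simp only [rL]
    have : 0 ≤ x 2 * (1 - 3 * x 2 - 2 * x 3 ^ 2) * pQ x :=
      mul_nonneg (mul_nonneg hI.le (by nlinarith [h.I₁])) hQ0.le
    linarith
  have eG := hv.scaleG
  have eY := hv.scaleY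
  have eX := hv.scaleX
  have eT := hv.scaleT
  have eN := hv.scaleN
  have eM := hv.scaleM
  have eL := hv.scaleL hq hR hE hnK
  set G := ClosedGen.TGGS (x 3) (pd x) (2 * x 2 * x 1) g W W1 R n
  set Y := ClosedGen.TEGS (x 3) (pd x) (2 * x 2 * x 1) g W W1 R n
  set X := g * ClosedGen.TMES (x 3) (pd x) (2 * x 2 * x 1) g W W1 R n with hX
  set A := ClosedGen.TAS (x 3) (pd x) (2 * x 2 * x 1) g W W1 R n
  set Mt := ClosedGen.TMMS (x 3) (pd x) (2 * x 2 * x 1) g W W1 R n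
  set M := g ^ 2 * Mt with hMd
  have hM0 : 0 < M := by
    refine pos_of_mul_pos_left (b := pd x * pb x) ?_ (by positivity)
    rw [eM]
    have := mul_pos (mul_pos (mul_pos hQ0 hη) (neg_pos.2 hL)) hp
    linarith
  have g1 := hg.gy_on hi false
  have g2 := hg.gy_on hi true
  have x1 := hg.x_on hi false
  have x2 := hg.x_on hi true
  have l1 := hg.arrow_on hb0.le hi false
  have l2 := hg.arrow_on hb0.le hi true
  simp only [vGY, vX, vL, sg] at g1 g2 x1 x2 l1 l2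
  have hII : 0 < x 2 ^ 2 := pow_pos hI 2
  have hKR : (0 : ℝ) < K := Nat.cast_pos.2 hK
  -- `TGGS`
  have bY : |rY x p η t (ev x z) * rDY x| ≤ K * rG x p t (ev x z) - 1 / 1000 * x 2 ^ 2 :=
    abs_le_of_pm (by linarith) (by linarith)
  have hrG : 0 < rG x p t (ev x z) := by
    refine pos_of_mul_pos_right (a := (K : ℝ)) ?_ hKR.le
    linarith [abs_nonneg (rY x p η t (ev x z) * rDY x)]
  have m4 : 0 < pS x ^ 4 * pd x ^ 2 * pb x * pQ x ^ 2 := by positivity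
  have hG : 0 < G := pos_of_mul_pos_left (by rw [eG]; positivity) m4.le
  -- `TEGS`
  have a3 : 0 < x 3 ^ 3 := pow_pos ha 3
  have hY : |pd x * Y| ≤ K * G := by
    refine le_of_mul_le_mul_right ?_ m4
    rw [scale_abs m4 a3.le (z := rY x p η t (ev x z) * rDY x) (by
      simp only [rDY]
      linear_combination (pd x * pS x ^ 2 * pb x * pQ x) * eY), mul_assoc, eG]
    linarith [mul_le_mul_of_nonneg_left bY a3.le, mul_pos a3 (pow_pos hI 2)]
  -- `TMES`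
  have hXb : |X| ≤ 7 / 10 * x 3 * x 2 * M := by
    have m : 0 < x 2 * pd x * pS x ^ 2 * pMu x * pb x := by positivity
    refine le_of_mul_le_mul_right ?_ m
    have e2 : 7 / 10 * x 3 * x 2 * M * (x 2 * pd x * pS x ^ 2 * pMu x * pb x) =
        x 3 * x 2 * (-7 / 5 * pQ x * η * rL x t * p * x 2 * pS x ^ 2 * pMu x) := by
      linear_combination (7 / 10 * x 3 * x 2 * x 2 * pS x ^ 2 * pMu x) * eM
    rw [scale_abs m (mul_pos ha hI).le (z := rX x p η t τ * pb x) (by linear_combination pb x * eX),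
      e2]
    exact mul_le_mul_of_nonneg_left (abs_le_of_pm (by linarith) (by linarith)) (by positivity)
  -- the arrow
  have bL : |(K : ℝ) * rLY x * rY x p η t (ev x z)| ≤ 4 * pb x * rT x p η t τ (ev x z) +
      392 / 25 * (x 2 ^ 2 * pd x * pS x ^ 4 * pQ x ^ 3 * pMu x) * η * rL x t * p -
      1 / 1000 * x 2 ^ 2 := abs_le_of_pm (by linarith) (by linarith)
  have hLin : 0 < 4 * A - K * pQ x * |pd x * Y| -
      16 * (x 3 * pb x) * pQ x * (7 / 10 * x 3 * x 2) ^ 2 * M := by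
    have m : 0 < pS x ^ 4 * pd x ^ 2 * pQ x * pMu x := by positivity
    refine pos_of_mul_pos_left (b := pS x ^ 4 * pd x ^ 2 * pQ x * pMu x) ?_ m.le
    have eYa : (K : ℝ) * pQ x * |pd x * Y| * (pS x ^ 4 * pd x ^ 2 * pQ x * pMu x) =
        x 3 ^ 3 * |(K : ℝ) * rLY x * rY x p η t (ev x z)| := by
      have e' := scale_abs m a3.le (Y := (K : ℝ) * pQ x * (pd x * Y))
        (z := (K : ℝ) * rLY x * rY x p η t (ev x z)) (by
          simp only [rLY]
          linear_combination ((K : ℝ) * pQ x * pd x * pS x ^ 2 * pMu x) * eY)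
      rwa [abs_mul ((K : ℝ) * pQ x), abs_of_pos (mul_pos hKR hQ0)] at e'
    have e : (4 * A - K * pQ x * |pd x * Y| -
        16 * (x 3 * pb x) * pQ x * (7 / 10 * x 3 * x 2) ^ 2 * M) *
          (pS x ^ 4 * pd x ^ 2 * pQ x * pMu x) =
        x 3 ^ 3 * (4 * pb x * rT x p η t τ (ev x z) +
          392 / 25 * (x 2 ^ 2 * pd x * pS x ^ 4 * pQ x ^ 3 * pMu x) * η * rL x t * p -
          |(K : ℝ) * rLY x * rY x p η t (ev x z)|) := by
      linear_combination 4 * eT - eYa -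
        (16 * (49 / 100) * x 3 ^ 3 * x 2 ^ 2 * pQ x ^ 2 * pd x * pS x ^ 4 * pMu x) * eM
    rw [e]
    exact mul_pos a3 (by linarith)
  have ev_ := arrow_pos hQ0 hM0 hG (mul_nonneg ha.le hb0.le) hKR.le hY hXb hLin
  have hN : 0 ≤ ClosedGen.TMGS (x 3) (pd x) (2 * x 2 * x 1) g W W1 R n := by
    refine nonneg_of_mul_nonneg_left (b := pS x ^ 4 * pd x ^ 2 * pQ x * pMu x) ?_ (by positivity)
    rw [eN]
    exact mul_nonneg (mul_nonneg a3.le hb0.le) (hg.mg_on hi)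
  have hLL : 0 ≤ ClosedGen.LLGS (x 3) (pd x) (2 * x 2 * x 1) g W W1 R n := by
    refine nonneg_of_mul_nonneg_left (b := pd x * pQ x * pS x ^ 2) ?_ (by positivity)
    rw [eL]
    exact mul_nonneg (mul_nonneg ha.le hI.le) (hg.lg_on hi)
  refine ⟨hG, pos_of_mul_pos_right (hMd ▸ hM0) (sq_nonneg g), ?_, hN, hLL⟩
  refine pos_of_mul_pos_right (a := g ^ 2) ?_ (sq_nonneg g)
  have e : g ^ 2 * ClosedGen.TArrowS (x 3) (pd x) (2 * x 2 * x 1) g W W1 R n =
      4 * A * M * G - pd x ^ 2 * pQ x * Y ^ 2 * M -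
        16 * (x 3 * pb x) * pQ x * X ^ 2 * G := by
    simp only [ClosedGen.TArrowS, A, M, G, Y, X, Mt, hv.c]
    simp only [pQ]
    ring
  rw [e]
  exact ev_

end Vale.Agent.P100.Calib.Closed.All.SgnNeg
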