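import Vale.Agent.P100.Calib.SlabSignsAllNegExpr

/-!
# The reduced forms below the crossing as functions of the reals
-/

set_option linter.unusedSimpArgs false
set_option linter.unusedTactic false
set_option linter.unusedVariables false

namespace Vale.Agent.P100.Calib.Closed.All.SgnNeg

open BoxPos

local instance realAdd : Add Ex := ⟨Ex.add⟩
local instance realSub : Sub Ex := ⟨Ex.sub⟩
local instance realMul : Mul Ex := ⟨Ex.mul⟩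

/-- The value at a point. -/
noncomputable def ev (x : ℕ → ℝ) (e : Ex) : ℝ := e.val (x 0) (x 1) (x 2) (x 3)

theorem ev_sub (x : ℕ → ℝ) (e f : Ex) : ev x (e - f) = ev x e - ev x f := rfl
theorem ev_add (x : ℕ → ℝ) (e f : Ex) : ev x (e + f) = ev x e + ev x f := rfl
theorem ev_mul (x : ℕ → ℝ) (e f : Ex) : ev x (e * f) = ev x e * ev x f := rfl
theorem ev_nC (x : ℕ → ℝ) (n : ℤ) (d : ℕ) : ev x (nC n d) = (n : ℝ) / (d : ℝ) := rfl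
theorem ev_x₀ (x : ℕ → ℝ) : ev x .x₀ = x 0 := rfl
theorem ev_x₁ (x : ℕ → ℝ) : ev x .x₁ = x 1 := rfl
theorem ev_x₂ (x : ℕ → ℝ) : ev x .x₂ = x 2 := rfl
theorem ev_x₃ (x : ℕ → ℝ) : ev x .x₃ = x 3 := rfl

/-- `S`. -/
def pS (x : ℕ → ℝ) : ℝ := 1 - 2 * x 2

/-- `b`. -/
def pb (x : ℕ → ℝ) : ℝ := pS x - x 3

/-- `d`. -/
def pd (x : ℕ → ℝ) : ℝ := pb x - x 3

/-- `1 + d v`. -/
def pQ (x : ℕ → ℝ) : ℝ := 1 + pd x * (2 * x 2 * x 1)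

/-- `(1 - a)²`. -/
def pMu (x : ℕ → ℝ) : ℝ := (1 - x 3) ^ 2

/-- `1 + 2 I`. -/
def pJ (x : ℕ → ℝ) : ℝ := 1 + 2 * x 2

/-- `u`. -/
def pu (x : ℕ → ℝ) : ℝ := -2 * (x 2 * x 0)

/-- The multiplier times `d`. -/
noncomputable def rL (x : ℕ → ℝ) (t : ℝ) : ℝ :=
  -2 * x 2 * (1 - 3 * x 2 - 2 * x 3 ^ 2) * pQ x - 5 / 2 * t

/-- `G d² b (1 + d v)/a`. -/
noncomputable def rGh (x : ℕ → ℝ) (t : ℝ) : ℝ :=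
  -(x 2 * (1 - 3 * x 3 - x 2) * pb x * pQ x) - 3 / 10 * t

/-- `G₁ d² b (1 + d v)/a`. -/
noncomputable def rG1h (t : ℝ) : ℝ := -(3 / 10 * t)

/-- `D₂ d² S²`. -/
def rK1 (x : ℕ → ℝ) : ℝ := pS x ^ 2 - 2 * x 3 * (1 - x 2)

/-- `b² S² (1 - a)² g W₁`. -/
def rW (x : ℕ → ℝ) (p η τ : ℝ) : ℝ :=
  p * (x 3 - (1 - x 3) * (pd x * (2 * x 2 * x 1))) * pS x ^ 2 * pMu x -
    2 * η * pJ x * pb x ^ 2 * (x 3 + x 2 * τ * pMu x)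

theorem ev_base (x : ℕ → ℝ) : ev x eS = pS x ∧ ev x eB = pb x ∧ ev x eD = pd x ∧ ev x eQ = pQ x ∧
    ev x eMu = pMu x ∧ ev x eJ = pJ x ∧ ev x eU = pu x ∧ ev x eK1 = rK1 x := by
  simp only [eS, eB, eD, eV, eQ, eMu, eJ, eU, eK1, pS, pb, pd, pQ, pMu, pJ, pu, rK1, ev_sub, ev_add,
    ev_mul, ev_nC, ev_x₀, ev_x₁, ev_x₂, ev_x₃]
  push_cast
  refine ⟨?_, ?_, ?_, ?_, ?_, ?_, ?_, ?_⟩ <;> ring

theorem ev_fL (x : ℕ → ℝ) (t : Ex) : ev x (fL t) = rL x (ev x t) := by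
  obtain ⟨-, -, -, hQ, -, -, -, -⟩ := ev_base x
  simp only [fL, rL, hQ, ev_sub, ev_add, ev_mul, ev_nC, ev_x₂, ev_x₃]; push_cast; ring

theorem ev_fGh (x : ℕ → ℝ) (t : Ex) :
    ev x (fGh t) = rGh x (ev x t) ∧ ev x (fG1h t) = rG1h (ev x t) := by
  obtain ⟨-, hb, -, hQ, -, -, -, -⟩ := ev_base x
  simp only [fGh, fG1h, rGh, rG1h, hb, hQ, ev_sub, ev_add, ev_mul, ev_nC, ev_x₂, ev_x₃]
  push_cast; constructor <;> ring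

theorem ev_fW (x : ℕ → ℝ) (p h w : Ex) : ev x (fW p h w) = rW x (ev x p) (ev x h) (ev x w) := by
  obtain ⟨hS, hb, hd, -, hM, hJ, -, -⟩ := ev_base x
  simp only [fW, eV, rW, hS, hb, hd, hM, hJ, ev_sub, ev_add, ev_mul, ev_nC, ev_x₁, ev_x₂, ev_x₃]
  push_cast; ring

/-- A reduced form. -/
noncomputable def rG (x : ℕ → ℝ) (p t z : ℝ) : ℝ :=
  ev x cG0 * (pb x) ^ 4 * (pd x) ^ 2 * (pQ x) ^ 2 * (pS x) ^ 4 +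
    ev x cG1 * (x 2) ^ 3 * (x 1) * (pb x) ^ 4 * (pd x) ^ 2 * (pQ x) ^ 2 * (pS x) ^ 2 * z +
    ev x cG2 * (x 2) ^ 2 * (pb x) ^ 4 * (pQ x) ^ 2 * z ^ 2 +
    ev x cG3 * (x 2) ^ 2 * (x 1) ^ 2 * (pb x) ^ 2 * (pd x) ^ 2 * (pQ x) * (pS x) ^ 4 * (rG1h t) +
    ev x cG4 * (x 2) ^ 2 * (x 1) ^ 2 * (pb x) ^ 2 * (pd x) ^ 3 * (pQ x) * (pS x) ^ 4 * (rGh x t) +
    ev x cG5 * (x 2) ^ 3 * (x 1) * (pb x) ^ 2 * (pd x) * (pQ x) * (pS x) ^ 2 * (rGh x t) * z +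
    ev x cG6 * (x 2) ^ 2 * (x 1) ^ 2 * (pd x) ^ 2 * (pS x) ^ 4 * (rGh x t) ^ 2 +
    ev x cG7 * (pb x) ^ 4 * (pd x) ^ 2 * (pQ x) ^ 2 * (pS x) ^ 4 * p +
    ev x cG8 * (x 2) ^ 2 * (x 1) * (pb x) ^ 4 * (pd x) ^ 2 * (pQ x) ^ 2 * (pS x) ^ 2 * p * z +
    ev x cG9 * (x 2) ^ 3 * (x 1) ^ 2 * (pb x) ^ 2 * (pd x) ^ 3 * (pQ x) * (pS x) ^ 4 * p * (rGh x t) +
    ev x cG10 * (pb x) ^ 4 * (pd x) ^ 2 * (pQ x) ^ 2 * (pS x) ^ 4 * p ^ 2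

/-- A reduced form. -/
noncomputable def rY (x : ℕ → ℝ) (p η t z : ℝ) : ℝ :=
  ev x cY0 * (x 1) * (pb x) ^ 2 * (pd x) ^ 2 * (pQ x) * (pS x) ^ 2 +
    ev x cY1 * (pb x) ^ 2 * (pQ x) * z +
    ev x cY2 * (x 2) ^ 2 * (x 1) ^ 3 * (pd x) ^ 2 * (pS x) ^ 2 * (rG1h t) +
    ev x cY3 * (x 1) * (pd x) * (pS x) ^ 2 * (rGh x t) +
    ev x cY4 * (x 1) * (pb x) * (pd x) * (pQ x) * (pS x) ^ 2 * (η * rL x t) +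
    ev x cY5 * (x 1) * (pb x) ^ 2 * (pd x) ^ 2 * (pQ x) * (pS x) ^ 2 * p +
    ev x cY6 * (pb x) ^ 2 * (pQ x) * p * z +
    ev x cY7 * (x 1) * (pd x) * (pS x) ^ 2 * p * (rGh x t) +
    ev x cY8 * (x 1) * (pb x) * (pd x) * (pQ x) * (pS x) ^ 2 * p * (η * rL x t) +
    ev x cY9 * (x 2) * (x 1) * (pb x) ^ 2 * (pd x) ^ 2 * (pQ x) * (pS x) ^ 2 * p ^ 2

/-- A reduced form. -/
noncomputable def rX (x : ℕ → ℝ) (p η t τ : ℝ) : ℝ :=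
  ev x cX0 * (x 2) * (x 1) * (pb x) * (pd x) * (rW x p η τ) +
    ev x cX1 * (x 2) ^ 2 * (x 1) ^ 2 * (pd x) * (pS x) ^ 2 * (pMu x) * (-5 / 2 * η * t) +
    ev x cX2 * (pS x) ^ 2 * (pMu x) * (η * rL x t) +
    ev x cX3 * (x 2) ^ 2 * (x 1) * (pb x) * (pd x) * (pS x) ^ 2 * (pMu x) * p +
    ev x cX4 * (pS x) ^ 2 * (pMu x) * p * (η * rL x t)

/-- A reduced form. -/
noncomputable def rT (x : ℕ → ℝ) (p η t τ z : ℝ) : ℝ :=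
  ev x cT0 * (pb x) ^ 2 * (pd x) ^ 2 * (pQ x) * (pS x) ^ 4 * (pMu x) +
    ev x cT1 * (x 2) ^ 3 * (x 1) ^ 2 * (pb x) ^ 2 * (pd x) ^ 2 * (pQ x) * (pS x) ^ 2 * (pMu x) * z +
    ev x cT2 * (x 2) ^ 2 * (pb x) ^ 2 * (pQ x) * (pMu x) * z ^ 2 +
    ev x cT3 * (x 2) * (x 1) * (pb x) ^ 2 * (pd x) ^ 2 * (pQ x) * (pS x) ^ 2 * (rW x p η τ) +
    ev x cT4 * (x 2) ^ 2 * (x 1) ^ 2 * (pb x) * (pd x) ^ 2 * (pQ x) * (pS x) ^ 4 * (pMu x) * (-5 / 2 * η * t) +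
    ev x cT5 * (x 2) ^ 2 * (x 1) * (pb x) * (pd x) * (pQ x) * (pS x) ^ 4 * (pMu x) * (η * rL x t) +
    ev x cT6 * (x 2) ^ 3 * (x 1) * (pb x) * (pd x) * (pQ x) * (pS x) ^ 2 * (pMu x) * (η * rL x t) * z +
    ev x cT7 * (x 2) ^ 2 * (x 1) ^ 2 * (pd x) ^ 2 * (pQ x) * (pS x) ^ 4 * (pMu x) * (η * rL x t) ^ 2 +
    ev x cT8 * (pb x) ^ 2 * (pd x) ^ 2 * (pQ x) * (pS x) ^ 4 * (pMu x) * p +
    ev x cT9 * (x 2) ^ 2 * (x 1) * (pb x) ^ 2 * (pd x) ^ 2 * (pQ x) * (pS x) ^ 2 * (pMu x) * p * z +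
    ev x cT10 * (x 2) ^ 2 * (x 1) ^ 2 * (pd x) ^ 3 * (pS x) ^ 4 * (pMu x) * p * (rGh x t) +
    ev x cT11 * (x 2) ^ 2 * (x 1) ^ 2 * (pb x) * (pd x) ^ 3 * (pQ x) * (pS x) ^ 4 * (pMu x) * p * (η * rL x t) +
    ev x cT12 * (pb x) ^ 2 * (pd x) ^ 2 * (pQ x) * (pS x) ^ 4 * (pMu x) * p ^ 2

/-- A reduced form. -/
noncomputable def rN (x : ℕ → ℝ) (p η t τ z : ℝ) : ℝ :=
  ev x cN0 * (pb x) ^ 2 * (pd x) ^ 2 * (pQ x) * (pS x) ^ 4 * (pMu x) +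
    ev x cN1 * (x 2) ^ 2 * (x 1) * (pb x) ^ 2 * (pd x) ^ 2 * (pQ x) * (pS x) ^ 2 * (pMu x) * z +
    ev x cN2 * (x 2) ^ 2 * (pb x) ^ 2 * (pQ x) * (pMu x) * z ^ 2 +
    ev x cN3 * (x 2) ^ 2 * (x 1) * (pb x) ^ 2 * (pd x) ^ 2 * (pQ x) * (pS x) ^ 2 * (rW x p η τ) +
    ev x cN4 * (x 2) ^ 2 * (x 1) ^ 2 * (pb x) * (pd x) ^ 2 * (pQ x) * (pS x) ^ 4 * (pMu x) * (-5 / 2 * η * t) +
    ev x cN5 * (x 2) ^ 2 * (x 1) * (pb x) * (pd x) * (pQ x) * (pS x) ^ 4 * (pMu x) * (η * rL x t) +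
    ev x cN6 * (x 2) ^ 2 * (x 1) * (pb x) * (pd x) * (pQ x) * (pS x) ^ 2 * (pMu x) * (η * rL x t) * z +
    ev x cN7 * (x 2) ^ 2 * (x 1) ^ 2 * (pd x) ^ 2 * (pQ x) * (pS x) ^ 4 * (pMu x) * (η * rL x t) ^ 2 +
    ev x cN8 * (pb x) ^ 2 * (pd x) ^ 2 * (pQ x) * (pS x) ^ 4 * (pMu x) * p +
    ev x cN9 * (x 2) ^ 2 * (x 1) * (pb x) ^ 2 * (pd x) ^ 2 * (pQ x) * (pS x) ^ 2 * (pMu x) * p * z +
    ev x cN10 * (x 2) ^ 2 * (x 1) ^ 2 * (pd x) ^ 3 * (pS x) ^ 4 * (pMu x) * p * (rGh x t) +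
    ev x cN11 * (x 2) ^ 2 * (x 1) ^ 2 * (pb x) * (pd x) ^ 3 * (pQ x) * (pS x) ^ 4 * (pMu x) * p * (η * rL x t) +
    ev x cN12 * (pb x) ^ 2 * (pd x) ^ 2 * (pQ x) * (pS x) ^ 4 * (pMu x) * p ^ 2

/-- A reduced form. -/
noncomputable def rLG (x : ℕ → ℝ) (q t z : ℝ) : ℝ :=
  ev x cL0 * (x 1) * (pb x) ^ 2 * (pd x) * (pQ x) * (pS x) ^ 2 +
    ev x cL1 * (x 2) * (x 1) * (pd x) * (pQ x) * (pS x) ^ 2 * (-5 / 2 * t) * (-1 * pS x * x 0) +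
    ev x cL2 * (pb x) * (pQ x) * (pS x) ^ 2 * (rL x t) +
    ev x cL3 * (x 2) * (pQ x) * (pS x) ^ 2 * (rL x t) * (-1 * pS x * x 0) +
    ev x cL4 * (x 2) * (pQ x) * (rL x t) * (-1 * pS x * x 0) * z +
    ev x cL5 * (x 1) * (pb x) ^ 2 * (pd x) * (pQ x) * (pS x) ^ 2 * (1 - q) +
    ev x cL6 * (x 1) * (pd x) * (pS x) ^ 2 * (1 - q) * (rGh x t)

theorem ev_fG (x : ℕ → ℝ) (p t z : Ex) : ev x (fG p t z) = rG x (ev x p) (ev x t) (ev x z) := by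
  obtain ⟨hS, hb, hd, hQ, hM, -, -, hK⟩ := ev_base x
  simp only [fG, rG, ev_mul, ev_add, ev_sub, ev_nC, ev_x₀, ev_x₁, ev_x₂, ev_x₃, ev_fL,
    (ev_fGh x _).1, (ev_fGh x _).2, ev_fW, hS, hb, hd, hQ, hM, hK]
  push_cast
  ring

theorem ev_fY (x : ℕ → ℝ) (p h t z : Ex) : ev x (fY p h t z) = rY x (ev x p) (ev x h) (ev x t) (ev x z) := by
  obtain ⟨hS, hb, hd, hQ, hM, -, -, hK⟩ := ev_base x
  simp only [fY, rY, ev_mul, ev_add, ev_sub, ev_nC, ev_x₀, ev_x₁, ev_x₂, ev_x₃, ev_fL,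
    (ev_fGh x _).1, (ev_fGh x _).2, ev_fW, hS, hb, hd, hQ, hM, hK]
  push_cast
  ring

theorem ev_fX (x : ℕ → ℝ) (p h t w : Ex) : ev x (fX p h t w) = rX x (ev x p) (ev x h) (ev x t) (ev x w) := by
  obtain ⟨hS, hb, hd, hQ, hM, -, -, hK⟩ := ev_base x
  simp only [fX, rX, ev_mul, ev_add, ev_sub, ev_nC, ev_x₀, ev_x₁, ev_x₂, ev_x₃, ev_fL,
    (ev_fGh x _).1, (ev_fGh x _).2, ev_fW, hS, hb, hd, hQ, hM, hK]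
  push_cast
  ring

theorem ev_fT (x : ℕ → ℝ) (p h t w z : Ex) : ev x (fT p h t w z) = rT x (ev x p) (ev x h) (ev x t) (ev x w) (ev x z) := by
  obtain ⟨hS, hb, hd, hQ, hM, -, -, hK⟩ := ev_base x
  simp only [fT, rT, ev_mul, ev_add, ev_sub, ev_nC, ev_x₀, ev_x₁, ev_x₂, ev_x₃, ev_fL,
    (ev_fGh x _).1, (ev_fGh x _).2, ev_fW, hS, hb, hd, hQ, hM, hK]
  push_cast
  ring

theorem ev_fN (x : ℕ → ℝ) (p h t w z : Ex) : ev x (fN p h t w z) = rN x (ev x p) (ev x h) (ev x t) (ev x w) (ev x z) := by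
  obtain ⟨hS, hb, hd, hQ, hM, -, -, hK⟩ := ev_base x
  simp only [fN, rN, ev_mul, ev_add, ev_sub, ev_nC, ev_x₀, ev_x₁, ev_x₂, ev_x₃, ev_fL,
    (ev_fGh x _).1, (ev_fGh x _).2, ev_fW, hS, hb, hd, hQ, hM, hK]
  push_cast
  ring

theorem ev_fLG (x : ℕ → ℝ) (q t z : Ex) : ev x (fLG q t z) = rLG x (ev x q) (ev x t) (ev x z) := by
  obtain ⟨hS, hb, hd, hQ, hM, -, -, hK⟩ := ev_base x
  simp only [fLG, rLG, ev_mul, ev_add, ev_sub, ev_nC, ev_x₀, ev_x₁, ev_x₂, ev_x₃, ev_fL,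
    (ev_fGh x _).1, (ev_fGh x _).2, ev_fW, hS, hb, hd, hQ, hM, hK]
  push_cast
  ring

end Vale.Agent.P100.Calib.Closed.All.SgnNeg
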