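import Vale.Agent.P100.Calib.SlabSignsAllNegCond

/-!
# The conditions below the crossing on the enclosures

A point is good when the conditions hold at the ends of the enclosures and the curvatures have the
signs of the checks. The conditions are coordinatewise concave, so they hold on the enclosures.
-/

set_option linter.unusedSimpArgs false
set_option linter.unusedVariables false

namespace Vale.Agent.P100.Calib.Closed.All.SgnNeg

open BoxPos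

local instance soundAdd : Add Ex := ⟨Ex.add⟩
local instance soundSub : Sub Ex := ⟨Ex.sub⟩
local instance soundMul : Mul Ex := ⟨Ex.mul⟩

/-- What the checks give at a point for the enclosures `E` and the third number `z`. -/
structure Good (E : Encl) (z : Ex) (x : ℕ → ℝ) (K : ℕ) : Prop where
  gy : ∀ s i j l, 0 ≤ ev x (cGY K s (E.p i) (E.g j) (E.t l) z)
  xb : ∀ s i j l, 0 ≤ ev x (cX s (E.p i) (E.g j) (E.t l) (E.w s))
  arrow : ∀ s i j l, 0 ≤ ev x (cL K s (E.p i) (E.g j) (E.t l) (E.w false) z)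
  mg : ∀ i j l, 0 ≤ ev x (fN (E.p i) (E.g j) (E.t l) (E.w true) z)
  lg : ∀ i l, 0 ≤ ev x (fLG (E.t i) (E.t l) z)
  cgy : ∀ s, 0 ≤ ev x (dGY K s)
  cl : ∀ s, 0 ≤ ev x (dL K s)
  cgg : 0 ≤ ev x dGG
  cte : 0 ≤ ev x dTE
  cne : 0 ≤ ev x dNE
  cnp : 0 ≤ ev x dNP
  tw : 0 ≤ ev x dTW
  nw : 0 ≤ ev x dNW
  xw : 0 ≤ ev x dXW
  pl : 0 ≤ ev x (envPL E)
  ph : 0 ≤ ev x (envPH E)
  gh : 0 ≤ ev x (envGH E)
  gl : 0 ≤ ev x (envGL E)
  tl : 0 ≤ ev x (envTL E)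
  th : 0 ≤ ev x (envTH E)

/-- A sign. -/
def sg : Bool → ℝ
  | false => -1
  | true => 1

/-- The factor of `TEGS` against `TGGS`. -/
def rDY (x : ℕ → ℝ) : ℝ := pd x * x 2 * pb x ^ 2 * pS x ^ 2 * pQ x

/-- The factor of `TEGS` against the arrow. -/
def rLY (x : ℕ → ℝ) : ℝ := pQ x * pd x * x 2 * pb x * pS x ^ 2 * pMu x

/-- `k |TEGS| ≤ TGGS`. -/
noncomputable def vGY (x : ℕ → ℝ) (k σ p η t z : ℝ) : ℝ :=
  k * rG x p t z + σ * (rY x p η t z * rDY x) - 1 / 1000 * x 2 ^ 2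

/-- The bound of `TMES`. -/
noncomputable def vX (x : ℕ → ℝ) (σ p η t τ : ℝ) : ℝ :=
  -7 / 5 * pQ x * η * rL x t * p * x 2 * pS x ^ 2 * pMu x + σ * (rX x p η t τ * pb x)

/-- The linear arrow. -/
noncomputable def vL (x : ℕ → ℝ) (k σ p η t τ z : ℝ) : ℝ :=
  4 * pb x * rT x p η t τ z +
      392 / 25 * (x 2 ^ 2 * pd x * pS x ^ 4 * pQ x ^ 3 * pMu x) * η * rL x t * p +
    σ * (k * rLY x * rY x p η t z) - 1 / 1000 * x 2 ^ 2

section
variable {x : ℕ → ℝ} {K : ℕ}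

theorem ev_sgn (x : ℕ → ℝ) (s : Bool) : ev x (sgn s) = sg s := by
  cases s <;> simp [sgn, sg, ev_nC]

theorem ev_cGY (x : ℕ → ℝ) (K : ℕ) (s : Bool) (p h t z : Ex) :
    ev x (cGY K s p h t z) = vGY x K (sg s) (ev x p) (ev x h) (ev x t) (ev x z) := by
  obtain ⟨hS, hb, hd, hQ, hM, -, -, hK⟩ := ev_base x
  simp only [cGY, eDY, eEps, vGY, rDY, ev_add, ev_sub, ev_mul, ev_nC, ev_sgn, ev_x₂, hS, hb, hd,
    hQ, ev_fG, ev_fY]
  push_cast
  ring

theorem ev_cX (x : ℕ → ℝ) (s : Bool) (p h t w : Ex) :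
    ev x (cX s p h t w) = vX x (sg s) (ev x p) (ev x h) (ev x t) (ev x w) := by
  obtain ⟨hS, hb, hd, hQ, hM, -, -, hK⟩ := ev_base x
  simp only [cX, vX, ev_add, ev_sub, ev_mul, ev_nC, ev_sgn, ev_x₂, hS, hb, hd, hQ, hM, ev_fL,
    ev_fX]
  push_cast
  ring

theorem ev_cL (x : ℕ → ℝ) (K : ℕ) (s : Bool) (p h t w z : Ex) :
    ev x (cL K s p h t w z) = vL x K (sg s) (ev x p) (ev x h) (ev x t) (ev x w) (ev x z) := by
  obtain ⟨hS, hb, hd, hQ, hM, -, -, hK⟩ := ev_base x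
  simp only [cL, eLY, eEps, vL, rLY, ev_add, ev_sub, ev_mul, ev_nC, ev_sgn, ev_x₂, hS, hb, hd, hQ,
    hM, ev_fL, ev_fT, ev_fY]
  push_cast
  ring

/-- A concave quadratic is nonnegative between two points where it is nonnegative. -/
theorem quad_min {f : ℝ → ℝ} {A lo hi y : ℝ}
    (hf : (hi - lo) * f y = (hi - y) * f lo + (y - lo) * f hi - (hi - lo) * (y - lo) * (hi - y) * A)
    (hA : A ≤ 0) (hlh : lo < hi) (h₀ : lo ≤ y) (h₁ : y ≤ hi) (f₀ : 0 ≤ f lo) (f₁ : 0 ≤ f hi) :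
    0 ≤ f y := by
  refine nonneg_of_mul_nonneg_right ?_ (sub_pos.2 hlh)
  rw [hf]
  have h2 : 0 ≤ (hi - lo) * (y - lo) * (hi - y) :=
    mul_nonneg (mul_nonneg (by linarith) (by linarith)) (by linarith)
  nlinarith [mul_nonneg (sub_nonneg.2 h₁) f₀, mul_nonneg (sub_nonneg.2 h₀) f₁,
    mul_nonpos_iff.2 (Or.inl ⟨h2, hA⟩)]

/-- The enclosures of `b g W`, `I g`, `1 - d u H` and the slope. -/
structure In (E : Encl) (x : ℕ → ℝ) (p η t τ : ℝ) : Prop where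
  pos : 0 ≤ x 1 ∧ 0 < x 2 ∧ 0 ≤ pb x ∧ 0 ≤ pd x ∧ 0 ≤ pQ x ∧ 0 ≤ pMu x ∧ 0 ≤ pJ x ∧ 0 ≤ η
  p₀ : ev x (E.p false) ≤ p
  p₁ : p ≤ ev x (E.p true)
  g₀ : ev x (E.g false) ≤ η
  g₁ : η ≤ ev x (E.g true)
  t₀ : ev x (E.t false) ≤ t
  t₁ : t ≤ ev x (E.t true)
  w₀ : ev x (E.w false) ≤ τ
  w₁ : τ ≤ ev x (E.w true)
  wide : ev x (E.p false) < ev x (E.p true) ∧ ev x (E.g false) < ev x (E.g true) ∧
    ev x (E.t false) < ev x (E.t true)

variable {p η t τ : ℝ} {E : Encl} {z : Ex}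

/-- The margin of `TGGS` against `TEGS`. -/
theorem Good.gy_on (hg : Good E z x K) (h : In E x p η t τ) (s : Bool) : 0 ≤ vGY x K (sg s) p η t (ev x z) := by
  obtain ⟨lp, lh, lt⟩ := h.wide
  obtain ⟨hS, hb, hd, hQ, hM, -, -, hK⟩ := ev_base x
  have c1 := hg.cgy s
  have c2 := hg.cgg
  simp only [dGY, dGG, eDY, ev_add, ev_sub, ev_mul, ev_nC, ev_sgn, ev_x₁, ev_x₂, hS, hb, hd,
    hQ] at c1 c2
  push_cast at c1 c2
  have hK0 : (0 : ℝ) ≤ K := K.cast_nonneg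
  have a1 : ∀ j l, 0 ≤ vGY x K (sg s) p (ev x (E.g j)) (ev x (E.t l)) (ev x z) := by
    intro j l
    refine quad_min (f := fun y => vGY x K (sg s) y (ev x (E.g j)) (ev x (E.t l)) (ev x z))
      (A := -(K * (ev x cG10 * pb x ^ 4 * pd x ^ 2 * pQ x ^ 2 * pS x ^ 4) * -1 +
        sg s * (ev x cY9 * x 2 * x 1 * pb x ^ 2 * pd x ^ 2 * pQ x * pS x ^ 2 * rDY x) * -1))
      ?_ ?_ lp h.p₀ h.p₁ ?_ ?_
    · simp only [vGY, rG, rY]; ring
    · simp only [rDY]; linarith [c1]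
    · simpa [ev_cGY] using hg.gy s false j l
    · simpa [ev_cGY] using hg.gy s true j l
  have a2 : ∀ l, 0 ≤ vGY x K (sg s) p η (ev x (E.t l)) (ev x z) := by
    intro l
    exact quad_min (f := fun y => vGY x K (sg s) p y (ev x (E.t l)) (ev x z)) (A := 0)
      (by simp only [vGY, rG, rY]; ring) le_rfl lh h.g₀ h.g₁ (a1 false l) (a1 true l)
  refine quad_min (f := fun y => vGY x K (sg s) p η y (ev x z))
    (A := K * (ev x cG6 * x 2 ^ 2 * x 1 ^ 2 * pd x ^ 2 * pS x ^ 4) * (9 / 100)) ?_ ?_ lt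
    h.t₀ h.t₁ (a2 false) (a2 true)
  · simp only [vGY, rG, rY, rL, rGh, rG1h]; ring
  · nlinarith [mul_nonneg hK0 c2]

/-- The bound of `TMES`. -/
theorem Good.x_on (hg : Good E z x K) (h : In E x p η t τ) (s : Bool) :
    0 ≤ vX x (sg s) p η t τ := by
  obtain ⟨lp, lh, lt⟩ := h.wide
  obtain ⟨hX, hI, hb, hd, hQ, hM, hJ, hη⟩ := h.pos
  have a1 : ∀ j l, 0 ≤ vX x (sg s) p (ev x (E.g j)) (ev x (E.t l)) (ev x (E.w s)) := by
    intro j l
    refine quad_min (f := fun y => vX x (sg s) y (ev x (E.g j)) (ev x (E.t l)) (ev x (E.w s)))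
      (A := 0) (by simp only [vX, rX, rW]; ring) le_rfl lp h.p₀ h.p₁ ?_ ?_
    · simpa [ev_cX] using hg.xb s false j l
    · simpa [ev_cX] using hg.xb s true j l
  have a2 : ∀ l, 0 ≤ vX x (sg s) p η (ev x (E.t l)) (ev x (E.w s)) := fun l =>
    quad_min (f := fun y => vX x (sg s) p y (ev x (E.t l)) (ev x (E.w s))) (A := 0)
      (by simp only [vX, rX, rW]; ring) le_rfl lh h.g₀ h.g₁ (a1 false l) (a1 true l)
  have a3 : 0 ≤ vX x (sg s) p η t (ev x (E.w s)) :=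
    quad_min (f := fun y => vX x (sg s) p η y (ev x (E.w s))) (A := 0)
      (by simp only [vX, rX, rW, rL]; ring) le_rfl lt h.t₀ h.t₁ (a2 false) (a2 true)
  have c : 0 ≤ ev x cX0 * x 2 * x 1 * pb x * pd x * (2 * η * pJ x * pb x ^ 2 * x 2 * pMu x) *
      pb x := by
    have := hg.xw
    simp only [dXW] at this
    have := hI.le
    positivity
  have e : vX x (sg s) p η t τ = vX x (sg s) p η t (ev x (E.w s)) +
      sg s * (ev x (E.w s) - τ) *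
        (ev x cX0 * x 2 * x 1 * pb x * pd x * (2 * η * pJ x * pb x ^ 2 * x 2 * pMu x) * pb x) := by
    simp only [vX, rX, rW]; ring
  have e2 : 0 ≤ sg s * (ev x (E.w s) - τ) := by
    cases s <;> simp only [sg] <;> linarith [h.w₀, h.w₁]
  rw [e]
  linarith [mul_nonneg e2 c]
/-- The linear arrow. -/
theorem Good.arrow_on (hg : Good E z x K) (hb0 : 0 ≤ pb x) (h : In E x p η t τ) (s : Bool) :
    0 ≤ vL x K (sg s) p η t τ (ev x z) := by
  obtain ⟨lp, lh, lt⟩ := h.wide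
  obtain ⟨hS, hb, hd, hQ, hM, -, -, hK⟩ := ev_base x
  have c1 := hg.cl s
  have c2 := hg.cte
  simp only [dL, dTE, eLY, ev_add, ev_sub, ev_mul, ev_nC, ev_sgn, ev_x₁, ev_x₂, hS, hb, hd, hQ,
    hM] at c1 c2
  push_cast at c1 c2
  have a1 : ∀ j l, 0 ≤ vL x K (sg s) p (ev x (E.g j)) (ev x (E.t l)) (ev x (E.w false)) (ev x z) := by
    intro j l
    refine quad_min (f := fun y => vL x K (sg s) y (ev x (E.g j)) (ev x (E.t l)) (ev x (E.w false)) (ev x z))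
      (A := 4 * pb x * (ev x cT12 * pb x ^ 2 * pd x ^ 2 * pQ x * pS x ^ 4 * pMu x) +
        sg s * (K * rLY x * (ev x cY9 * x 2 * x 1 * pb x ^ 2 * pd x ^ 2 * pQ x * pS x ^ 2)))
      ?_ ?_ lp h.p₀ h.p₁ ?_ ?_
    · simp only [vL, rT, rY, rW]; ring
    · simp only [rLY]; linarith [c1]
    · simpa [ev_cL] using hg.arrow s false j l
    · simpa [ev_cL] using hg.arrow s true j l
  have a2 : ∀ l, 0 ≤ vL x K (sg s) p η (ev x (E.t l)) (ev x (E.w false)) (ev x z) := by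
    intro l
    refine quad_min (f := fun y => vL x K (sg s) p y (ev x (E.t l)) (ev x (E.w false)) (ev x z))
      (A := 4 * pb x * (ev x cT7 * x 2 ^ 2 * x 1 ^ 2 * pd x ^ 2 * pQ x * pS x ^ 4 * pMu x) *
        rL x (ev x (E.t l)) ^ 2) ?_ ?_ lh h.g₀ h.g₁ (a1 false l) (a1 true l)
    · simp only [vL, rT, rY, rW]; ring
    · nlinarith [mul_nonneg (mul_nonneg hb0 (sq_nonneg (rL x (ev x (E.t l))))) c2]
  have a3 : 0 ≤ vL x K (sg s) p η t (ev x (E.w false)) (ev x z) := by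
    refine quad_min (f := fun y => vL x K (sg s) p η y (ev x (E.w false)) (ev x z))
      (A := 4 * pb x * (ev x cT7 * x 2 ^ 2 * x 1 ^ 2 * pd x ^ 2 * pQ x * pS x ^ 4 * pMu x) *
        (25 / 4 * η ^ 2)) ?_ ?_ lt h.t₀ h.t₁ (a2 false) (a2 true)
    · simp only [vL, rT, rY, rW, rL, rGh, rG1h]; ring
    · nlinarith [mul_nonneg (mul_nonneg hb0 (sq_nonneg η)) c2]
  obtain ⟨hX, hI, -, hd, hQ, hM, hJ, hη⟩ := h.pos
  have c : 0 ≤ 4 * pb x * (-(ev x cT3) * x 2 * x 1 * pb x ^ 2 * pd x ^ 2 * pQ x * pS x ^ 2 *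
      (2 * η * pJ x * pb x ^ 2 * x 2 * pMu x)) := by
    have := hg.tw
    simp only [dTW, ev_sub, ev_nC, Int.cast_zero, Nat.cast_one, zero_div, zero_sub] at this
    have := hI.le
    positivity
  have e : vL x K (sg s) p η t τ (ev x z) = vL x K (sg s) p η t (ev x (E.w false)) (ev x z) +
      (τ - ev x (E.w false)) * (4 * pb x * (-(ev x cT3) * x 2 * x 1 * pb x ^ 2 * pd x ^ 2 * pQ x *
        pS x ^ 2 * (2 * η * pJ x * pb x ^ 2 * x 2 * pMu x))) := by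
    simp only [vL, rT, rW]; ring
  rw [e]
  linarith [mul_nonneg (sub_nonneg.2 h.w₀) c]
/-- The multiplier entry. -/
theorem Good.mg_on (hg : Good E z x K) (h : In E x p η t τ) : 0 ≤ rN x p η t τ (ev x z) := by
  obtain ⟨lp, lh, lt⟩ := h.wide
  obtain ⟨hS, hb, hd, hQ, hM, -, -, hK⟩ := ev_base x
  have c1 := hg.cnp
  have c2 := hg.cne
  simp only [dNP, dNE, ev_sub, ev_mul, ev_nC, ev_x₁, ev_x₂, hS, hb, hd, hQ, hM] at c1 c2
  push_cast at c1 c2
  have a1 : ∀ j l, 0 ≤ rN x p (ev x (E.g j)) (ev x (E.t l)) (ev x (E.w true)) (ev x z) := by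
    intro j l
    refine quad_min (f := fun y => rN x y (ev x (E.g j)) (ev x (E.t l)) (ev x (E.w true)) (ev x z))
      (A := ev x cN12 * pb x ^ 2 * pd x ^ 2 * pQ x * pS x ^ 4 * pMu x) ?_ ?_ lp h.p₀ h.p₁ ?_ ?_
    · simp only [rN, rW]; ring
    · linarith [c1]
    · simpa [ev_fN] using hg.mg false j l
    · simpa [ev_fN] using hg.mg true j l
  have a2 : ∀ l, 0 ≤ rN x p η (ev x (E.t l)) (ev x (E.w true)) (ev x z) := by
    intro l
    refine quad_min (f := fun y => rN x p y (ev x (E.t l)) (ev x (E.w true)) (ev x z))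
      (A := (ev x cN7 * x 2 ^ 2 * x 1 ^ 2 * pd x ^ 2 * pQ x * pS x ^ 4 * pMu x) *
        rL x (ev x (E.t l)) ^ 2) ?_ ?_ lh h.g₀ h.g₁ (a1 false l) (a1 true l)
    · simp only [rN, rW]; ring
    · nlinarith [mul_nonneg (sq_nonneg (rL x (ev x (E.t l)))) c2]
  have a3 : 0 ≤ rN x p η t (ev x (E.w true)) (ev x z) := by
    refine quad_min (f := fun y => rN x p η y (ev x (E.w true)) (ev x z))
      (A := (ev x cN7 * x 2 ^ 2 * x 1 ^ 2 * pd x ^ 2 * pQ x * pS x ^ 4 * pMu x) *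
        (25 / 4 * η ^ 2)) ?_ ?_ lt h.t₀ h.t₁ (a2 false) (a2 true)
    · simp only [rN, rW, rL, rGh, rG1h]; ring
    · nlinarith [mul_nonneg (sq_nonneg η) c2]
  obtain ⟨hX, hI, hb', hd, hQ, hM, hJ, hη⟩ := h.pos
  have c : 0 ≤ ev x cN3 * x 2 ^ 2 * x 1 * pb x ^ 2 * pd x ^ 2 * pQ x * pS x ^ 2 *
      (2 * η * pJ x * pb x ^ 2 * x 2 * pMu x) := by
    have := hg.nw
    simp only [dNW] at this
    have := hI.le
    positivity
  have e : rN x p η t τ (ev x z) = rN x p η t (ev x (E.w true)) (ev x z) +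
      (ev x (E.w true) - τ) * (ev x cN3 * x 2 ^ 2 * x 1 * pb x ^ 2 * pd x ^ 2 * pQ x *
        pS x ^ 2 * (2 * η * pJ x * pb x ^ 2 * x 2 * pMu x)) := by
    simp only [rN, rW]; ring
  rw [e]
  linarith [mul_nonneg (sub_nonneg.2 h.w₁) c]
/-- The ray gap. -/
theorem Good.lg_on (hg : Good E z x K) (h : In E x p η t τ) : 0 ≤ rLG x t t (ev x z) := by
  obtain ⟨-, -, lt⟩ := h.wide
  have a1 : ∀ l, 0 ≤ rLG x t (ev x (E.t l)) (ev x z) := by
    intro l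
    refine quad_min (f := fun y => rLG x y (ev x (E.t l)) (ev x z)) (A := 0)
      (by simp only [rLG]; ring) le_rfl lt h.t₀ h.t₁ ?_ ?_
    · simpa [ev_fLG] using hg.lg false l
    · simpa [ev_fLG] using hg.lg true l
  exact quad_min (f := fun y => rLG x t y (ev x z)) (A := 0)
    (by simp only [rLG, rL, rGh]; ring) le_rfl lt h.t₀ h.t₁ (a1 false) (a1 true)

end

end Vale.Agent.P100.Calib.Closed.All.SgnNeg
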