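import Vale.Agent.P100.Calib.SlabSignsAllNegCond

/-!
# The enclosures and charts below the crossing for the dimensions from seven to twenty

`I ∈ (1/20, 1/9]`; `I ∈ (1/9, 1/7]` with `a ≤ 11/50` and `X` below or above `19/20`; `a > 11/50`;
and the corner `I ≥ 1/8`, `a ≥ 7/25` with the third number `0`.
-/

namespace Vale.Agent.P100.Calib.Closed.All.SgnNeg

open BoxPos

local instance midBoxAdd : Add Ex := ⟨Ex.add⟩
local instance midBoxSub : Sub Ex := ⟨Ex.sub⟩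
local instance midBoxMul : Mul Ex := ⟨Ex.mul⟩

/-- An end of the enclosure of `b g W`. -/
def mpE : Bool → Ex
  | false => pM + nC (-33) 2 * (.x₂ * .x₂)
  | true => pM + nC 6 * (.x₂ * .x₂)

/-- An end of the enclosure of `I g`. -/
def mgE : Bool → Ex
  | false => gM + nC (-13) 50 * .x₂
  | true => gM + nC 3 500 * .x₂

/-- An end of the enclosure of `1 - d u H`. -/
def mtE : Bool → Ex
  | false => tM + nC (-7) 50 * .x₂
  | true => tM + nC 11 100 * .x₂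

/-- An end of the slope. -/
def mwE : Bool → Ex
  | false => nC 7 5 - nC 21 5 * .x₂ - nC 3 5 * .x₃
  | true => nC 8 5 + (nC 2 + nC 100 * .x₂) * (.x₃ * .x₃)

/-- The enclosures for the dimensions from seven to twenty. -/
def midEncl : Encl := ⟨mpE, mgE, mtE, mwE⟩

/-- The chart of piece AB. -/
def boxMAB : ℕ → Pack.Chart
  | 0 => ⟨0, 121, 100, 100⟩
  | 1 => ⟨35, 51, 45, 45⟩
  | 2 => ⟨20, 9, 180, 180⟩
  | _ => ⟨31, 5, 100, 100⟩

/-- The chart of piece CI. -/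
def boxMCI : ℕ → Pack.Chart
  | 0 => ⟨0, 121, 100, 100⟩
  | 1 => ⟨19, 14, 20, 20⟩
  | 2 => ⟨9, 7, 63, 63⟩
  | _ => ⟨22, 11, 100, 100⟩

/-- The chart of piece CII. -/
def boxMCII : ℕ → Pack.Chart
  | 0 => ⟨0, 121, 100, 100⟩
  | 1 => ⟨70, 57, 60, 60⟩
  | 2 => ⟨9, 7, 63, 63⟩
  | _ => ⟨22, 11, 100, 100⟩

/-- The chart of piece D. -/
def boxMD : ℕ → Pack.Chart
  | 0 => ⟨0, 121, 100, 100⟩
  | 1 => ⟨30, 49, 42, 42⟩
  | 2 => ⟨9, 7, 63, 63⟩
  | _ => ⟨31, 22, 100, 100⟩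

/-- The chart of piece DZ. -/
def boxMDZ : ℕ → Pack.Chart
  | 0 => ⟨0, 121, 100, 100⟩
  | 1 => ⟨30, 49, 42, 42⟩
  | 2 => ⟨8, 7, 56, 56⟩
  | _ => ⟨31, 28, 100, 100⟩

end Vale.Agent.P100.Calib.Closed.All.SgnNeg
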