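import Vale.Agent.P100.Calib.SlabLargeExpr
import Vale.Agent.P100.Calib.SlabLargeBox

/-!
# The certificate of the closed signs on `d ≤ 3/25`, `0 < u ≤ 3/5`

The pieces and their expressions are those of `Closed.Large`; the bands, the lower bound of `g W`
and the bound of `u h/d` are those of the small differences.
-/

set_option linter.unusedVariables false

namespace Vale.Agent.P100.Calib.Closed.Small

open BoxPos Large

local instance smallExprAdd : Add Ex := ⟨Ex.add⟩
local instance smallExprSub : Sub Ex := ⟨Ex.sub⟩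
local instance smallExprMul : Mul Ex := ⟨Ex.mul⟩

/-- A lower bound of `4 (1 - a v)/b`. -/
def xP0 : Ex :=
  k₄ (244728) +
    k₄ (-184601) * xD +
    k₄ (-39422) * xV +
    k₄ (110333) * (xD * xV) +
    k₄ (18519) * (xD * xD) +
    k₄ (-187475) * xS

/-- The excess of `4 (1 - a v)` over `b` times the bound. -/
def xP0Gap : Ex := cC 4 * (cC 1 - xA * xV) - xB * xP0

/-- `v` exceeds the bound of the band at the lower bound of `u`. -/
def xPhi (P : Piece) : Ex :=
  let u := P.xU₀
  let G := cC 21 20 - u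
  xV * G - ((cC 5 8 - cC 13 50 * xD + (cC 33 50 - cC 4 5 * xD) * u) * G +
    (cC 5 8 + cC 9 25 * xD) * (u * u))

/-- The lower end of `t`. -/
def xTL (u : Ex) : Ex :=
  cC 119 100 - cC 67 20 * xD + (cC 31 20 - cC 69 10 * xD) * u +
    (cC 11 20 + cC 2 5 * xD) * (u * u)

/-- The upper end of `t`. -/
def xTU (u : Ex) : Ex :=
  cC 161 100 - cC 28 5 * xD + (cC 7 10 - cC 4 * xD) * u + (cC 89 20 - cC 45 2 * xD) * (u * u)

/-- `e` below its upper bound, with the multiplier of `p` above its lower bound. -/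
def hEH (P : Piece) (t : Ex → Ex) : Ex :=
  xDn P.xU (t P.xU) * P.eH.ex - xEn P.xU (t P.xU) -
    k₄ P.mu * (xPn P.xU (t P.xU) - xDn P.xU (t P.xU) * xP0)

/-- The bound of `u h/d`; here `o` is `u`. -/
def hQ : Ex := cC 16 5 * xBB - xO * xH xO (xTU xO)

end Vale.Agent.P100.Calib.Closed.Small
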