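import Vale.Agent.P100.Calib.SlabSignsSmallPieces
import Vale.Agent.P100.Calib.SlabLargeSigns

/-!
# The closed signs on a checked piece, `d ≤ 3/25`

As for `Closed.Large`, with the bands of the small differences.
-/

set_option linter.unusedVariables false
set_option linter.unusedSimpArgs false

namespace Vale.Agent.P100.Calib.Closed.Small

open BoxPos Large

/-- The lower bound of `p`. -/
noncomputable def sP0 (S d v : ℝ) : ℝ :=
  xP0.val 0 S d v

/-- The lower end of `t`. -/
noncomputable def sTL (d u : ℝ) : ℝ :=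
  119 / 100 - 67 / 20 * d + (31 / 20 - 69 / 10 * d) * u + (11 / 20 + 2 / 5 * d) * u ^ 2

/-- The upper end of `t`. -/
noncomputable def sTU (d u : ℝ) : ℝ :=
  161 / 100 - 28 / 5 * d + (7 / 10 - 4 * d) * u + (89 / 20 - 45 / 2 * d) * u ^ 2

theorem val_sP0 (o S d v : ℝ) : xP0.val o S d v = sP0 S d v := by
  simp only [sP0, xP0, ex_add, ex_mul, Ex.val, val_k₄]

theorem val_sTL (o S d v : ℝ) (u : Ex) : (xTL u).val o S d v = sTL d (u.val o S d v) := by
  simp only [xTL, sTL, ex_add, ex_sub, ex_mul, Ex.val]; push_cast; ring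

theorem val_sTU (o S d v : ℝ) (u : Ex) : (xTU u).val o S d v = sTU d (u.val o S d v) := by
  simp only [xTU, sTU, ex_add, ex_sub, ex_mul, Ex.val]; push_cast; ring

/-- The box of a piece. -/
def box (P : Piece) : Box :=
  ⟨⟨0, 1001, 1000⟩, ⟨600, 606, 1000⟩, ⟨0, 121, 1000⟩, ⟨P.lo, P.hi, 1000⟩⟩

/-- The box of the statements free of the piece. -/
def wholeBox : Box :=
  ⟨⟨0, 1001, 1000⟩, ⟨600, 606, 1000⟩, ⟨0, 121, 1000⟩, ⟨350, 1524, 1000⟩⟩

/-- All checks of a piece. -/
structure Checked (P : Piece) : Prop where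
  mu_nonneg : 0 ≤ P.mu
  lo_ge : 350 ≤ P.lo
  hi_le : P.hi ≤ 1524
  room : PosBox (box P) P.xRoom
  phi : PosBox (box P) (xPhi P) ∨ (P.u₀ = 0 ∧ P.ud = 0 ∧ P.uv = 0 ∧ P.uvv = 0)
  eLL : PosBox (box P) (P.hEL xTL)
  eLU : PosBox (box P) (P.hEL xTU)
  eHL : PosBox (box P) (hEH P xTL)
  eHU : PosBox (box P) (hEH P xTU)
  pUL : PosBox (box P) (P.hPU xTL)
  pUU : PosBox (box P) (P.hPU xTU)
  kUL : PosBox (box P) (P.hKU xTL)
  kUU : PosBox (box P) (P.hKU xTU)
  kLL : PosBox (box P) (P.hKL xTL)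
  kLU : PosBox (box P) (P.hKL xTU)
  wUL : PosBox (box P) (P.hWU xTL)
  wUU : PosBox (box P) (P.hWU xTU)
  wLL : PosBox (box P) (P.hWL xTL)
  wLU : PosBox (box P) (P.hWL xTU)
  gLo : PosBox (box P) (P.hG xP0)
  gHi : PosBox (box P) (P.hG P.xPU)
  mLo : PosBox (box P) (P.hM₀ xP0)
  mHi : PosBox (box P) (P.hM₀ P.xPU)
  c1Lo : PosBox (box P) (P.hC1 xP0)
  c1Hi : PosBox (box P) (P.hC1 P.xPU)
  c2pLo : PosBox (box P) (P.hC2p xP0)
  c2pHi : PosBox (box P) (P.hC2p P.xPU)
  c2mLo : PosBox (box P) (P.hC2m xP0)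
  c2mHi : PosBox (box P) (P.hC2m P.xPU)
  c3pLo : PosBox (box P) (P.hC3p xP0)
  c3pHi : PosBox (box P) (P.hC3p P.xPU)
  c3mLo : PosBox (box P) (P.hC3m xP0)
  c3mHi : PosBox (box P) (P.hC3m P.xPU)
  tmgLo : PosBox (box P) (P.hTMG xP0)
  tmgHi : PosBox (box P) (P.hTMG P.xPU)
  v2p : PosBox (box P) P.hV2p
  v2m : PosBox (box P) P.hV2m
  v3p : PosBox (box P) P.hV3p
  v3m : PosBox (box P) P.hV3m

/-- The checks free of the piece. -/
structure Common : Prop where
  p0 : PosBox wholeBox xP0Gap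
  vG : PosBox wholeBox hVG
  vMG : PosBox wholeBox hVMG
  aK : PosBox wholeBox hAk
  aW : PosBox wholeBox hAw
  gK : PosBox wholeBox hGk
  gW : PosBox wholeBox hGw
  mK : PosBox wholeBox hMk
  mW : PosBox wholeBox hMw
  q : PosBox ⟨⟨0, 601, 1000⟩, ⟨600, 606, 1000⟩, ⟨0, 121, 1000⟩, ⟨350, 1524, 1000⟩⟩ hQ
  l00 : PosBox wholeBox (hLLG (cC 0) (cC 0))
  l01 : PosBox wholeBox (hLLG (cC 0) (cC 93 100))
  l10 : PosBox wholeBox (hLLG (cC 16 5) (cC 0))
  l11 : PosBox wholeBox (hLLG (cC 16 5) (cC 93 100))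

section
variable {d S u v t : ℝ}

/-- The bounds of a piece. -/
theorem bounds {P : Piece} (hP : Checked P) (hC : Common)
    (hS : Side.Mem ⟨600, 606, 1000⟩ S) (hd : Side.Mem ⟨0, 121, 1000⟩ d)
    (hv : Side.Mem ⟨P.lo, P.hi, 1000⟩ v) (u0 : 0 < u) (u1 : u ≤ 3 / 5)
    (hY : 0 < 2 + d * v - d * u * chH d S u v t)
    (hdrift : 2 * S * (1 - (S - d) / 2 * v) / ((1 - S) * ((S + d) / 2)) <
      chG d S u v t * chH d S u v t / 2)
    (hphi : v < 5 / 8 - 13 / 50 * d + (33 / 50 - 4 / 5 * d) * u +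
      (5 / 8 + 9 / 25 * d) * u ^ 2 / (21 / 20 - u))
    (hL : sTL d u < t) (hU : t < sTU d u) :
    let p := chG d S u v t * chW d S u v t
    let e := chG d S u v t * eVal d v (chW d S u v t) (chR S u)
    let k := chG d S u v t * kVal d (chW d S u v t) (chR S u)
    let w := chG d S u v t * chW1 d S u v t
    sP0 S d v < p ∧ p < P.pU.at S d v e ∧ P.eL.at S d v < e ∧ e < P.eH.at S d v ∧
      P.kL.at S d v e < k ∧ k < P.kU.at S d v e ∧ P.wL.at d v e p < w ∧ w < P.wU.at d v e p := by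
  intro p e k w
  have hS' : (3 / 5 : ℝ) ≤ S ∧ S < 606 / 1000 := by
    obtain ⟨a, b⟩ := hS; push_cast at a b; exact ⟨by linarith, b⟩
  have hd' : (0 : ℝ) ≤ d ∧ d < 121 / 1000 := by
    obtain ⟨a, b⟩ := hd; push_cast at a b; exact ⟨by linarith, b⟩
  have hvW : Side.Mem ⟨350, 1524, 1000⟩ v := by
    obtain ⟨a, b⟩ := hv
    have h1 : (350 : ℝ) ≤ P.lo := by exact_mod_cast hP.lo_ge
    have h2 : (P.hi : ℝ) ≤ 1524 := by exact_mod_cast hP.hi_le
    push_cast at a b
    refine mem_side ?_ ?_ <;> push_cast <;> linarith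
  -- `u` lies between its bounds
  have hroom : P.u0 d v < 6005 / 10000 := by
    have := hP.room 0 S d v (mem_unit le_rfl zero_le_one) hS hd hv
    simp only [Piece.xRoom, ex_sub, val_xU₀, val_k₄] at this
    push_cast at this
    linarith
  have hu₀ : P.u0 d v ≤ u := by
    rcases hP.phi with hphi' | ⟨a, b, c, e'⟩
    swap
    · simp only [Piece.u0, a, b, c, e']; norm_num; exact u0.le
    by_contra hlt
    rw [not_le] at hlt
    have := hphi' 0 S d v (mem_unit le_rfl zero_le_one) hS hd hv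
    simp only [xPhi, ex_sub, ex_mul, ex_add, val_xU₀, Ex.val] at this
    push_cast at this
    set x := P.u0 d v
    have hG : 0 < 21 / 20 - x := by linarith
    have h1 : (33 / 50 - 4 / 5 * d) * u ≤ (33 / 50 - 4 / 5 * d) * x :=
      mul_le_mul_of_nonneg_left hlt.le (by linarith)
    have h2 : (5 / 8 + 9 / 25 * d) * u ^ 2 / (21 / 20 - u) ≤
        (5 / 8 + 9 / 25 * d) * x ^ 2 / (21 / 20 - x) :=
      div_le_div₀ (mul_nonneg (by linarith) (sq_nonneg x))
        (mul_le_mul_of_nonneg_left (pow_le_pow_left₀ u0.le hlt.le 2) (by linarith)) hG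
        (by linarith)
    have h3 : v < 5 / 8 - 13 / 50 * d + (33 / 50 - 4 / 5 * d) * x +
        (5 / 8 + 9 / 25 * d) * x ^ 2 / (21 / 20 - x) := by linarith
    have e3 : (5 / 8 + 9 / 25 * d) * x ^ 2 / (21 / 20 - x) * (21 / 20 - x) =
        (5 / 8 + 9 / 25 * d) * (x * x) := by
      rw [div_mul_cancel₀ _ hG.ne']; ring
    have := mul_lt_mul_of_pos_right h3 hG
    linarith
  set o := (u - P.u0 d v) / (6005 / 10000 - P.u0 d v) with ho
  have ho0 : 0 ≤ o := div_nonneg (by linarith) (by linarith)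
  have ho1 : o ≤ 1 := (div_le_one (by linarith)).2 (by linarith)
  have eo : P.u0 d v + o * (6005 / 10000 - P.u0 d v) = u := by
    rw [ho, div_mul_cancel₀ _ (show 6005 / 10000 - P.u0 d v ≠ 0 by linarith)]; ring
  obtain ⟨hD, ep, ee, ek, ew⟩ :=
    chart_num (d := d) (S := S) (u := u) (v := v) (t := t) (by linarith) (by linarith)
      (by linarith) hY
  have vU : P.xU.val o S d v = u := by rw [val_xU, eo]
  have get : ∀ {T : Ex}, PosBox (box P) T → 0 < T.val o S d v := fun h =>
    h o S d v (mem_unit ho0 ho1) hS hd hv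
  -- `p` above its lower bound
  have hp0 : sP0 S d v < p := by
    have h0 := hC.p0 0 S d v (mem_unit le_rfl zero_le_one) hS hd hvW
    simp only [xP0Gap, ex_sub, ex_mul, val_xA, val_xB, val_sP0, Ex.val] at h0
    push_cast at h0
    have hb : 0 < (S + d) / 2 := by linarith
    have h1 : 0 < (1 - S) * ((S + d) / 2) := mul_pos (by linarith) hb
    rw [div_lt_iff₀ h1] at hdrift
    have e1 : p * S = chG d S u v t * ((1 - S) * chH d S u v t) := by
      simp only [p, chW]
      have : S ≠ 0 := by linarith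
      field_simp
    have h2 : 4 * (1 - (S - d) / 2 * v) * S < p * ((S + d) / 2) * S := by
      rw [mul_right_comm p, e1]; linarith
    have h3 := lt_of_mul_lt_mul_right h2 (by linarith)
    exact lt_of_mul_lt_mul_right (show sP0 S d v * ((S + d) / 2) < p * ((S + d) / 2) by linarith)
      hb.le
  have pr : ∀ {x : ℝ}, 0 < x * rDn S d v u t → 0 < x := fun h => pos_of_mul_pos_left h hD.le
  -- the bounds
  have heL : P.eL.at S d v < e := by
    have l := get hP.eLL
    have r := get hP.eLU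
    simp only [Piece.hEL, ex_sub, ex_mul, val_xEn, val_xDn, val_CE, val_sTL, val_sTU, vU] at l r
    have := num_pos (S := S) (d := d) (v := v) (u := u) (t := t) (A := -P.eL.at S d v) (B := 1) (C := 0) (D := 0) (F := 0) hL hU
      (by linarith) (by linarith)
    exact sub_pos.1 (pr (by linear_combination this - ee))
  have heH : e < P.eH.at S d v := by
    have l := get hP.eHL
    have r := get hP.eHU
    simp only [hEH, ex_sub, ex_mul, val_xEn, val_xDn, val_xPn, val_CE, val_k₄, val_sP0,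
      val_sTL, val_sTU, vU] at l r
    have := num_pos (S := S) (d := d) (v := v) (u := u) (t := t) (A := P.eH.at S d v + (P.mu : ℝ) / 10000 * sP0 S d v) (B := -1)
      (C := -((P.mu : ℝ) / 10000)) (D := 0) (F := 0) hL hU (by linarith) (by linarith)
    have h1 : 0 < P.eH.at S d v - e - (P.mu : ℝ) / 10000 * (p - sP0 S d v) :=
      pr (by linear_combination this + ee + (P.mu : ℝ) / 10000 * ep)
    have h2 : 0 ≤ (P.mu : ℝ) / 10000 * (p - sP0 S d v) :=
      mul_nonneg (div_nonneg (by exact_mod_cast hP.mu_nonneg) (by norm_num)) (by linarith)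
    linarith
  have hpU : p < P.pU.at S d v e := by
    have l := get hP.pUL
    have r := get hP.pUU
    simp only [Piece.hPU, CQ.num, ex_sub, ex_add, ex_mul, val_xEn, val_xDn, val_xPn, val_CQfree,
      val_CQslope, val_sTL, val_sTU, vU] at l r
    have := num_pos (S := S) (d := d) (v := v) (u := u) (t := t) (A := P.pU.freeAt S d v) (B := P.pU.slopeAt d v) (C := -1) (D := 0) (F := 0)
      hL hU (by linarith) (by linarith)
    exact sub_pos.1 (pr (by
      simp only [CQ.at]; linear_combination this - P.pU.slopeAt d v * ee + ep))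
  have hkU : k < P.kU.at S d v e := by
    have l := get hP.kUL
    have r := get hP.kUU
    simp only [Piece.hKU, CQ.num, ex_sub, ex_add, ex_mul, val_xEn, val_xDn, val_xKn, val_CQfree,
      val_CQslope, val_sTL, val_sTU, vU] at l r
    have := num_pos (S := S) (d := d) (v := v) (u := u) (t := t) (A := P.kU.freeAt S d v) (B := P.kU.slopeAt d v) (C := 0) (D := -1) (F := 0)
      hL hU (by linarith) (by linarith)
    exact sub_pos.1 (pr (by
      simp only [CQ.at]; linear_combination this - P.kU.slopeAt d v * ee + ek))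
  have hkL : P.kL.at S d v e < k := by
    have l := get hP.kLL
    have r := get hP.kLU
    simp only [Piece.hKL, CQ.num, ex_sub, ex_add, ex_mul, val_xEn, val_xDn, val_xKn, val_CQfree,
      val_CQslope, val_sTL, val_sTU, vU] at l r
    have := num_pos (S := S) (d := d) (v := v) (u := u) (t := t) (A := -P.kL.freeAt S d v) (B := -P.kL.slopeAt d v) (C := 0) (D := 1) (F := 0)
      hL hU (by linarith) (by linarith)
    exact sub_pos.1 (pr (by
      simp only [CQ.at]; linear_combination this + P.kL.slopeAt d v * ee - ek))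
  have hwU : w < P.wU.at d v e p := by
    have l := get hP.wUL
    have r := get hP.wUU
    simp only [Piece.hWU, CW.num, ex_sub, ex_add, ex_mul, val_xEn, val_xDn, val_xPn, val_xWn,
      val_CWfree, val_CWslope, val_CWslopeP, val_sTL, val_sTU, vU] at l r
    have := num_pos (S := S) (d := d) (v := v) (u := u) (t := t) (A := P.wU.freeAt d v) (B := P.wU.slopeAt d v) (C := P.wU.slopePAt d v)
      (D := 0) (F := -1) hL hU (by linarith) (by linarith)
    exact sub_pos.1 (pr (by
      simp only [CW.at]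
      linear_combination this - P.wU.slopeAt d v * ee - P.wU.slopePAt d v * ep + ew))
  have hwL : P.wL.at d v e p < w := by
    have l := get hP.wLL
    have r := get hP.wLU
    simp only [Piece.hWL, CW.num, ex_sub, ex_add, ex_mul, val_xEn, val_xDn, val_xPn, val_xWn,
      val_CWfree, val_CWslope, val_CWslopeP, val_sTL, val_sTU, vU] at l r
    have := num_pos (S := S) (d := d) (v := v) (u := u) (t := t) (A := -P.wL.freeAt d v) (B := -P.wL.slopeAt d v) (C := -P.wL.slopePAt d v)
      (D := 0) (F := 1) hL hU (by linarith) (by linarith)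
    exact sub_pos.1 (pr (by
      simp only [CW.at]
      linear_combination this + P.wL.slopeAt d v * ee + P.wL.slopePAt d v * ep - ew))
  exact ⟨hp0, hpU, heL, heH, hkL, hkU, hwL, hwU⟩

end


section
variable {d S u v t : ℝ} {P : Piece} {o e : ℝ}

/-- The ray gap. -/
theorem llg_nonneg (hC : Common) (hS : Side.Mem ⟨600, 606, 1000⟩ S)
    (hd : Side.Mem ⟨0, 121, 1000⟩ d) (hv : Side.Mem ⟨350, 1524, 1000⟩ v) (u0 : 0 < u)
    (u1 : u ≤ 3 / 5) (hH : 0 < chH d S u v t) (hU : t < sTU d u) (g W1 : ℝ) :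
    u * chH d S u v t < 16 / 5 ∧ 0 ≤ LLG ((S - d) / 2) d v g (chW d S u v t) W1 (chR S u)
      (eVal d v (chW d S u v t) (chR S u)) (kVal d (chW d S u v t) (chR S u)) := by
  have hS' : (3 / 5 : ℝ) ≤ S ∧ S < 606 / 1000 := by
    obtain ⟨a, b⟩ := hS; push_cast at a b; exact ⟨by linarith, b⟩
  have hd' : (0 : ℝ) ≤ d := by
    obtain ⟨a, b⟩ := hd; push_cast at a; linarith
  have hB : 0 < (S + d) / 2 * (2 - S) := mul_pos (by linarith) (by linarith)
  have eH : chH d S u v t * ((S + d) / 2 * (2 - S)) = rH S d v u t := by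
    have h2 : (2 - S) ≠ 0 := by linarith
    have h3 : S + d ≠ 0 := by linarith
    simp only [chH, rH]
    field_simp
  have hq : u * chH d S u v t < 16 / 5 := by
    have h0 := hC.q u S d v (mem_side (by norm_num; linarith) (by norm_num; linarith)) hS hd hv
    simp only [hQ, ex_sub, ex_mul, val_xH, val_sTU, xBB, val_xB, Ex.val] at h0
    push_cast at h0
    have h1 : u * rH S d v u t ≤ u * rH S d v u (sTU d u) := by
      refine mul_le_mul_of_nonneg_left ?_ u0.le
      simp only [rH]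
      have := mul_le_mul_of_nonneg_left hU.le (mul_nonneg hB.le u0.le)
      linarith
    refine lt_of_mul_lt_mul_right (a := (S + d) / 2 * (2 - S)) ?_ hB.le
    rw [mul_assoc, eH]
    linarith
  refine ⟨hq, ?_⟩
  rw [LLG_eq_llq]
  have hS1 : 0 < 1 - S := by linarith
  have e : chW d S u v t * chR S u = u * chH d S u v t := by
    have : S ≠ 0 := by linarith
    simp only [chR, chW]
    field_simp
  have hr : chR S u < 93 / 100 := by
    rw [chR, div_lt_iff₀ hS1]
    have := mul_le_mul hS'.2.le u1 u0.le (by norm_num)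
    linarith
  have hr0 : 0 < chR S u := div_pos (mul_pos (by linarith) u0) hS1
  rw [e]
  have c00 := hC.l00 0 S d v (mem_unit le_rfl zero_le_one) hS hd hv
  have c01 := hC.l01 0 S d v (mem_unit le_rfl zero_le_one) hS hd hv
  have c10 := hC.l10 0 S d v (mem_unit le_rfl zero_le_one) hS hd hv
  have c11 := hC.l11 0 S d v (mem_unit le_rfl zero_le_one) hS hd hv
  simp only [val_hLLG, Ex.val] at c00 c01 c10 c11
  push_cast at c00 c01 c10 c11
  simp only [div_one] at c00 c01 c10 c11
  have hq0 : 0 ≤ u * chH d S u v t := (mul_pos u0 hH).le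
  have key := llq_bilinear ((S - d) / 2) d v (u * chH d S u v t) (chR S u) (16 / 5) (93 / 100)
  have a1 : 0 ≤ 16 / 5 - u * chH d S u v t := by linarith
  have a2 : 0 ≤ 93 / 100 - chR S u := by linarith
  have h5 : (0 : ℝ) ≤ 16 / 5 * (93 / 100) * llq ((S - d) / 2) d v (u * chH d S u v t) (chR S u) := by
    rw [key]
    exact add_nonneg (add_nonneg (add_nonneg (mul_nonneg (mul_nonneg a1 a2) c00.le)
      (mul_nonneg (mul_nonneg a1 hr0.le) c01.le)) (mul_nonneg (mul_nonneg hq0 a2) c10.le))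
      (mul_nonneg (mul_nonneg hq0 hr0.le) c11.le)
  linarith

theorem coefOk (hC : Common) (mS : Side.Mem ⟨600, 606, 1000⟩ S)
    (mD : Side.Mem ⟨0, 121, 1000⟩ d) (mV : Side.Mem ⟨350, 1524, 1000⟩ v)
    (ho : Side.Mem ⟨0, 1001, 1000⟩ o) (ve : P.xE.val o S d v = e)
    (v2p : 0 < P.hV2p.val o S d v) (v2m : 0 < P.hV2m.val o S d v)
    (v3p : 0 < P.hV3p.val o S d v) (v3m : 0 < P.hV3m.val o S d v) :
    CoefOk (forms ((S - d) / 2) d v e) (P.bnds S d v e) := by
  have sG := hC.vG o S d v ho mS mD mV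
  have sMG := hC.vMG o S d v ho mS mD mV
  have sAk := hC.aK o S d v ho mS mD mV
  have sAw := hC.aW o S d v ho mS mD mV
  have sGk := hC.gK o S d v ho mS mD mV
  have sGw := hC.gW o S d v ho mS mD mV
  have sMk := hC.mK o S d v ho mS mD mV
  have sMw := hC.mW o S d v ho mS mD mV
  have qG := val_eTGG2 xA xD xV o S d v e 0 0
  have qMG := val_eTMG2 xA xD xV o S d v e 0 0
  have qT := val_eTEG2 xA xD xV o S d v e 0 0
  have qA := val_eTA2 xA xD xV o S d v e 0 0
  have qAk := val_eTAk xA xD xV o S d v 0 e 0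
  have qAw := val_eTAw xA xD xV o S d v 0 e 0
  have qGk := val_eTMGk xA xD xV o S d v 0 e 0
  have qGw := val_eTMGw xA xD xV o S d v 0 e 0
  have qMk := val_eTMEk xA xD xV o S d v 0 e 0
  have qMw := val_eTMEw xA xD xV o S d v 0 e 0
  simp only [val_xA, Ex.val, forms_G (e := e), forms_T, forms_A, forms_N, forms_M, Forms.G,
    Forms.T, Forms.A, Forms.N, Forms.M] at qG qMG qT qA qAk qAw qGk qGw qMk qMw
  simp only [hVG, hVMG, hAk, hAw, hGk, hGw, hMk, hMw, ex_mul, Ex.val] at sG sMG sAk sAw sGk sGw sMk sMw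
  push_cast at sG sMG sAk sAw sGk
  simp only [Piece.hV2p, Piece.hV2m, Piece.hV3p, Piece.hV3m, ex_add, ex_sub, ex_mul, val_CQ, ve,
    Ex.val] at v2p v2m v3p v3m
  push_cast at v2p v2m v3p v3m
  have e2G : (eTGG2 xA xD xV).val o S d v = (forms ((S - d) / 2) d v e).g₂ := by
    linarith only [qG]
  have e2T : (eTEG2 xA xD xV).val o S d v = (forms ((S - d) / 2) d v e).h₂ := by
    linarith only [qT]
  have e2A : (eTA2 xA xD xV).val o S d v = (forms ((S - d) / 2) d v e).a₂ := by
    linarith only [qA]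
  rw [e2G, e2T] at v2p v2m
  rw [e2A, e2T] at v3p v3m
  refine ⟨?_, ?_, ?_, ?_, ?_, ?_, ?_, ?_, ?_, ?_, ?_, ?_⟩ <;>
    (try simp only [Piece.bnds]) <;>
    linarith only [qG, qMG, qAk, qAw, qGk, qGw, qMk, qMw, sG, sMG, sAk, sAw, sGk, sGw, sMk, sMw,
      v2p, v2m, v3p, v3m]

/-- **The closed signs on a checked piece.** -/
theorem signs {P : Piece} (hP : Checked P) (hC : Common) (hb : ChartBox d S)
    (hd : d ≤ 3 / 25) (u0 : 0 < u) (u1 : u ≤ 3 / 5) (hf : ChartFacts d S u v t)
    (hphi : v < 5 / 8 - 13 / 50 * d + (33 / 50 - 4 / 5 * d) * u +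
      (5 / 8 + 9 / 25 * d) * u ^ 2 / (21 / 20 - u))
    (hL : sTL d u < t) (hU : t < sTU d u) (hv0 : (P.lo : ℝ) / 1000 ≤ v)
    (hv1 : v < (P.hi : ℝ) / 1000) : ChartSigns d S u v t := by
  have hSb := hb.S_low
  have hSh := hb.S_high
  have hdd := hb.diff
  have mS : Side.Mem ⟨600, 606, 1000⟩ S :=
    mem_side (by norm_num; linarith) (by norm_num; linarith)
  have hpos := hb.pos
  have mD : Side.Mem ⟨0, 121, 1000⟩ d :=
    mem_side (by norm_num; linarith) (by norm_num; linarith)
  have mV : Side.Mem ⟨P.lo, P.hi, 1000⟩ v := mem_side hv0 hv1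
  have mW : Side.Mem ⟨350, 1524, 1000⟩ v := by
    have h1 : (350 : ℝ) ≤ P.lo := by exact_mod_cast hP.lo_ge
    have h2 : (P.hi : ℝ) ≤ 1524 := by exact_mod_cast hP.hi_le
    refine mem_side ?_ ?_ <;> push_cast <;> linarith
  have hH := hf.H_pos
  have hdH : d * u * chH d S u v t < 1 := by
    have h1 := mul_lt_mul_of_pos_left hf.u_lt (mul_pos hb.pos hH)
    have := hf.h_lt
    linarith
  have hdv : 0 ≤ d * v := mul_nonneg hb.pos.le (by have := hf.v_low; linarith)
  have hY : 0 < 2 + d * v - d * u * chH d S u v t := by linarith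
  obtain ⟨hp0, hpU, heL, heH, hkL, hkU, hwL, hwU⟩ :=
    bounds hP hC mS mD mV u0 u1 hY hf.drift hphi hL hU
  have hg : 0 < chG d S u v t := by
    have h1 : 0 < 2 * S * (1 - (S - d) / 2 * v) / ((1 - S) * ((S + d) / 2)) :=
      div_pos (mul_pos (by linarith) (by have := hf.r_lt; linarith))
        (mul_pos (by linarith) (by linarith))
    have h2 : 0 < chG d S u v t * chH d S u v t := by have := hf.drift; linarith
    exact pos_of_mul_pos_left h2 hH.le
  have hW : 0 < chW d S u v t := mul_pos (div_pos (by linarith) (by linarith)) hH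
  obtain ⟨hq, hllg⟩ := llg_nonneg hC mS mD mW u0 u1 hH hU (chG d S u v t) (chW1 d S u v t)
  have hE : eVal d v (chW d S u v t) (chR S u) < 0 := by
    have eR : chR S u * chW d S u v t = u * chH d S u v t := by
      have : S ≠ 0 := by linarith
      have : (1 - S) ≠ 0 := by linarith
      simp only [chR, chW]
      field_simp
    have h0 := mul_le_mul_of_nonneg_left (show 9 * d - 1 / 20 ≤ 2 by linarith)
      (mul_pos u0 hH).le
    have h1 := mul_le_mul_of_nonneg_right hq.le (show (0 : ℝ) ≤ 2 by norm_num)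
    have h2 : 0 ≤ v * (1 / 20 + d) := mul_nonneg (by have := hf.v_low; linarith) (by linarith)
    rw [eVal, eR]
    linarith
  set g := chG d S u v t
  set W := chW d S u v t
  set W1 := chW1 d S u v t
  set R := chR S u
  set E := eVal d v W R
  set K := kVal d W R
  set a := (S - d) / 2 with ha
  have hp : 0 < g * W := mul_pos hg hW
  have he : g * E < 0 := mul_neg_of_pos_of_neg hg hE
  set p := g * W
  set e := g * E with hedef
  set k := g * K with hkdef
  set w := g * W1 with hwdef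
  set o := (e - P.eL.at S d v) / (P.eH.at S d v - P.eL.at S d v) with ho
  have ho0 : 0 ≤ o := div_nonneg (by linarith) (by linarith)
  have ho1 : o ≤ 1 := (div_le_one (by linarith)).2 (by linarith)
  have ve : P.xE.val o S d v = e := by
    rw [val_xE, ho, div_mul_cancel₀ _ (show P.eH.at S d v - P.eL.at S d v ≠ 0 by linarith)]
    ring
  have get : ∀ {T : Ex}, PosBox (box P) T → 0 < T.val o S d v := fun h =>
    h o S d v (mem_unit ho0 ho1) mS mD mV
  have getC : ∀ {T : Ex}, PosBox wholeBox T → 0 < T.val o S d v := fun h =>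
    h o S d v (mem_unit ho0 ho1) mS mD mW
  have hc := coefOk hC mS mD mW (mem_unit ho0 ho1) ve (get hP.v2p) (get hP.v2m)
    (get hP.v3p) (get hP.v3m)
  have h0 := Piece.endOk xP0 ve (get hP.gLo) (get hP.mLo) (get hP.c1Lo) (get hP.c2pLo)
    (get hP.c2mLo) (get hP.c3pLo) (get hP.c3mLo) (get hP.tmgLo)
  have h1 := Piece.endOk P.xPU ve (get hP.gHi) (get hP.mHi) (get hP.c1Hi) (get hP.c2pHi)
    (get hP.c2mHi) (get hP.c3pHi) (get hP.c3mHi) (get hP.tmgHi)
  rw [val_sP0] at h0
  rw [show P.xPU.val o S d v = P.pU.at S d v e by rw [Piece.xPU, val_CQ, ve]] at h1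
  have hm := EndOk.between _ _ h0 h1 hc hp0.le hpU.le
  have hs : 0 < (P.bnds S d v e).s :=
    mul_pos (by rw [← ha]; linarith only [hSh, ha]) (neg_pos.2 he)
  obtain ⟨hN, hT⟩ := EndOk.core _ _ (k := k) (w := w) (o := 1 + d * v) hm hc (by linarith only [hdv])
    hp hs hkL.le hkU.le hwL.le hwU.le
  refine ⟨?_, hW, hE, ?_, ?_, hllg⟩
  · show 0 < TGG a d v g W W1 R E K
    rw [TGG_expand]; exact hm.hG
  · show 0 < TArrow a d v g W W1 R E K
    refine pos_of_mul_pos_right (a := g ^ 2) ?_ (sq_nonneg g)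
    rw [TArrow_scale, TGG_expand, TEG_expand, TA_expand, TME_expand,
      show (1 - 2 * a - d) * (g * W) * -(g * E) = (P.bnds S d v e).s * p by
        simp only [Piece.bnds]; ring,
      show 625 * d ^ 2 * v ^ 2 * (1 + d * v) = (P.bnds S d v e).c by
        simp only [Piece.bnds]; ring]
    exact hT
  · show 0 ≤ TMG a d v g W W1 R E K
    rw [TMG_expand]; exact hN

end

end Vale.Agent.P100.Calib.Closed.Small
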