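import Vale.Agent.P100.Calib.SlabSignsSmallExpr

/-!
# The pieces of the certificate for `d ≤ 3/25`, `0 < u ≤ 3/5`
-/

namespace Vale.Agent.P100.Calib.Closed.Small

open Large

/-- The piece `350/1000 ≤ v < 461/1000`. -/
def piece0 : Large.Piece where
  lo := 350
  hi := 461
  u₀ := 0
  ud := 0
  uv := 0
  uvv := 0
  mu := 562542
  eL := ⟨531456, 753, -5000, 0, -102152, -2553261⟩
  eH := ⟨-2455816, 557463, 1914930, 2564597, -4163334, 1192056⟩
  pU := ⟨201620, -74670, -833, 60, -66252, -74, -592, 9786, -484819, -164199⟩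
  kU := ⟨-1361, 8953, -29, -53, 11723, 9168, 2, 134, 80270, 2224⟩
  kL := ⟨-1194, 11081, -754, -50, 15176, 9159, -8, -148, 40451, 1784⟩
  k1 := ⟨-99360, -76000, -778100, 380, -11790, -340, -3550, 1396560, 0, 326110⟩
  k2p := ⟨-9010, -747700, -8170, 10, 1360170, -3130, 0, 0, 0, 25490⟩
  k2m := ⟨84030, 704900, 0, 0, -1499970, -1700, 0, 0, 0, -128750⟩
  wU := ⟨99419, 841589, -12474, -423, 62083, 914, -2194, -6038, -24082, -110766, 1597⟩
  wL := ⟨161018, 58635, 23900, 414, -196341, -861, -2204, -8066, -28749, -16484, -316⟩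

/-- The piece `460/1000 ≤ v < 701/1000`. -/
def piece1 : Large.Piece where
  lo := 460
  hi := 701
  u₀ := -28166
  ud := 4235
  uv := 74775
  uvv := -47569
  mu := 450
  eL := ⟨-2288441, 909033, 7580826, -4840507, -907399, -2606858⟩
  eH := ⟨191839, -536205, -222, 0, 309909, -992989⟩
  pU := ⟨210202, -194618, -2719, -387, 150577, 1107, 48, 25365, 170887, -190635⟩
  kU := ⟨-1192, 5648, -891, -54, 13214, 9151, 3, 797, 94626, 2341⟩
  kL := ⟨-1242, 3194, -990, -38, 22873, 9161, -26, -1034, 70082, 2852⟩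
  k1 := ⟨-524380, -299580, 367220, -2090, 938880, 3880, 820, 127850, 0, 577150⟩
  k2p := ⟨7120, -848290, -6050, -60, 850100, -10120, 0, 0, 0, -6080⟩
  k2m := ⟨86620, -226920, 0, 0, 203750, -3320, 0, 0, 0, -132940⟩
  wU := ⟨-110988, 902614, 73928, -115, 724488, 760, -2763, 353874, 13880, -158699, -56734⟩
  wL := ⟨-1449309, 4203630, 2152370, 7885, -4513615, -6921, -13165, 211350, 146437, -165673,
    -249907⟩

/-- The piece `700/1000 ≤ v < 1524/1000`. -/
def piece2 : Large.Piece where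
  lo := 700
  hi := 1524
  u₀ := -9311
  ud := 2020
  uv := 18945
  uvv := -5975
  mu := 0
  eL := ⟨-1111747, 43806, 1873349, -587755, 24259, -1365942⟩
  eH := ⟨163543, -540751, -3197, 0, 304570, -941545⟩
  pU := ⟨272196, -55819, -6932, 81, 24716, 565, -725, 1202, -738097, -277525⟩
  kU := ⟨-760, -2567, -736, -47, 10573, 9072, -4, 190, 151055, 2256⟩
  kL := ⟨-854, -775, -1048, -34, 12560, 9106, -20, -76, 124989, 2630⟩
  k1 := ⟨-627200, -537310, 451240, -840, 788470, 520, -1180, -45800, 0, 800310⟩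
  k2p := ⟨115950, -1243750, 0, 0, 790580, -18490, 0, 0, 0, -188840⟩
  k2m := ⟨40630, -313370, 0, 0, 115830, -5640, 0, 0, 0, -57140⟩
  wU := ⟨192509, 285526, -36003, -436, -146198, 6231, -2929, -9075, -34714, -20687, 3361⟩
  wL := ⟨152686, 246612, 21413, -37, -144781, 655, -1948, -9307, -30138, -33993, 1635⟩

end Vale.Agent.P100.Calib.Closed.Small
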