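import Vale.Agent.P100.Calib.SlabSixSigns

/-!
# The bands on the slab of dimension six up to `u = 3/5`

On every orbit, for `0 < R`, with `d = be - al`, `v = vOf al be (y/x)`:
`-2/5 < τ` and `v < φ₁ u` up to `u = 93/100`, `L < τ` and `v < φ u` up to `u = 4/5`, and `τ < U` up
to `u = 3/5`, where `h = hc r + d u τ`. The curve `φ` gives the range of `v` at the crossing.
-/

open Set Filter Topology

namespace Vale.Agent.P100.Calib.Band

open BoxPos Bubble Chart

variable {N p q : ℝ} {S : Set ℝ} {R x y s dx dy : ℝ → ℝ}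

/-- The first coefficient of the lower band. -/
noncomputable def sixLc₁ (d : ℝ) : ℝ := 6 / 5 - 371 / 100 * d + 169 / 50 * d ^ 2

/-- The second coefficient of the lower band. -/
noncomputable def sixLc₂ (d : ℝ) : ℝ := 36 / 25 - 263 / 25 * d + 43 / 2 * d ^ 2

/-- The third coefficient of the lower band. -/
noncomputable def sixLc₃ (d : ℝ) : ℝ := 229 / 100 - 202 / 25 * d

/-- The first coefficient of the upper band. -/
noncomputable def sixUc₁ (d : ℝ) : ℝ := 89 / 50 - 711 / 100 * d + 1027 / 100 * d ^ 2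

/-- The second coefficient of the upper band. -/
noncomputable def sixUc₂ (d : ℝ) : ℝ := -(99 / 100) + 274 / 25 * d - 2383 / 100 * d ^ 2

/-- The third coefficient of the upper band. -/
noncomputable def sixUc₃ (d : ℝ) : ℝ := 67 / 10 - 4659 / 100 * d + 8687 / 100 * d ^ 2

/-- The facts on `(d, S)` used by the signs. -/
theorem SlabBoxSix.side {N al be : ℝ} (hb : SlabBoxSix N al be) :
    0 ≤ be - al ∧ be - al ≤ 1 / 3 ∧ sideS6.Mem (al + be) :=
  ⟨hb.facts.2.2.1.le, hb.diff, mem_sideS6 hb.S_low hb.S_high⟩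

/-- **The crude lower band.** -/
theorem orbit_low_six (hf : IsOrbitFns N p q S R x y s dx dy)
    (hb : SlabBoxSix N (1 / (p + 1)) (1 / (q + 1)))
    {w : ℝ} (hw : w ∈ S) (hw0 : 0 < R w) (hwu : uOf N (R w) (x w) ≤ 93 / 100) :
    let al := 1 / (p + 1)
    let be := 1 / (q + 1)
    bandL N al be (be - al) (-(2 / 5)) 0 0 (uOf N (R w) (x w)) (y w / x w) <
      hOf N (R w) (x w) (y w) w := by
  intro al be
  obtain ⟨hd, hd1, hS⟩ := hb.side
  have := band_step_six hf hb (one_mul 1) (-(2 / 5)) 0 0 (fun _ _ => True)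
    (fun _ _ _ _ => trivial) (bd := 0) (by norm_num) (fun u _ _ => by linarith)
    (fun u r hu hu1 _ hv hv1 hdv => ?_) hw hw0 hwu
  · linarith
  · rw [one_mul]
    have key := six_low_sign hu hu1 hv hv1 hdv hd hd1 hS
    rw [sixLow, val_lieV] at key
    simpa [al, be, sixC₀, Ex.val, neg_div] using key

/-- **The first exit curve.** -/
theorem orbit_phiOne_six (hf : IsOrbitFns N p q S R x y s dx dy)
    (hb : SlabBoxSix N (1 / (p + 1)) (1 / (q + 1)))
    {w : ℝ} (hw : w ∈ S) (hw0 : 0 < R w) (hwu : uOf N (R w) (x w) ≤ 93 / 100) :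
    vOf (1 / (p + 1)) (1 / (q + 1)) (y w / x w) < phiOne6 (uOf N (R w) (x w)) := by
  obtain ⟨hd, hd1, hS⟩ := hb.side
  refine exit_step_six (a := 41 / 50) (b := 9 / 10) (k := 9 / 10) (c := 13 / 10) hf hb
    (by norm_num) (by norm_num) (by norm_num) (by norm_num) (fun _ _ => True)
    (fun _ _ _ _ => trivial) (fun r _ _ hv1 _ => lt_of_le_of_lt hv1 (by norm_num [phiG]))
    (fun w hw hw0 hwu => orbit_low_six hf hb hw hw0 hwu) (bd := 0) (by norm_num)
    (fun u _ _ => by linarith) (fun u hu hu1 => ?_) (fun u hu hu1 => ?_) hw hw0 hwu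
  · have key := six_exit₁_sign hu hu1 hd hd1 hS
    rw [sixExit₁, val_exitG] at key
    simpa [sixC₀, Ex.val, neg_div] using key
  · have key := six_slope₁_sign hu hu1 hd hd1 hS
    rw [sixSlope₁, val_slopeB] at key
    exact le_of_lt (by simpa [sixC₀, Ex.val, neg_div] using key)

/-- The bound on the lower band. -/
theorem sixL_le {d u : ℝ} (hd : 0 ≤ d) (hd1 : d ≤ 1 / 3) (hu : 0 ≤ u) (hu1 : u ≤ 4 / 5) :
    d * (sixLc₁ d + sixLc₂ d * u + sixLc₃ d * u ^ 2) ≤ 9 / 10 := by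
  have hdd : d ^ 2 ≤ d / 3 := by nlinarith
  have h1 : sixLc₁ d ≤ 6 / 5 := by simp only [sixLc₁]; nlinarith
  have h2 : sixLc₂ d ≤ 36 / 25 := by simp only [sixLc₂]; nlinarith
  have h3 : sixLc₃ d ≤ 229 / 100 - 202 / 25 * d := le_rfl
  have hu2 : u ^ 2 ≤ 16 / 25 := by nlinarith
  have h4 : d * sixLc₃ d ≤ 17 / 100 := by
    simp only [sixLc₃]; nlinarith [mul_self_nonneg (d - 229 / 1616)]
  have h5 := mul_le_mul_of_nonneg_left h1 hd
  have h6 := mul_le_mul_of_nonneg_right (mul_le_mul_of_nonneg_left h2 hd) hu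
  have h7 : d * sixLc₃ d * u ^ 2 ≤ 17 / 100 * (16 / 25) :=
    (mul_le_mul_of_nonneg_right h4 (sq_nonneg u)).trans
      (mul_le_mul_of_nonneg_left hu2 (by norm_num))
  have h8 : d * (36 / 25) * u ≤ 1 / 3 * (36 / 25) * (4 / 5) :=
    mul_le_mul (by linarith) hu1 hu (by norm_num)
  linarith

/-- **The lower band.** -/
theorem orbit_lower_six (hf : IsOrbitFns N p q S R x y s dx dy)
    (hb : SlabBoxSix N (1 / (p + 1)) (1 / (q + 1)))
    {w : ℝ} (hw : w ∈ S) (hw0 : 0 < R w) (hwu : uOf N (R w) (x w) ≤ 4 / 5) :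
    let al := 1 / (p + 1)
    let be := 1 / (q + 1)
    bandL N al be (be - al) (sixLc₁ (be - al)) (sixLc₂ (be - al)) (sixLc₃ (be - al))
      (uOf N (R w) (x w)) (y w / x w) < hOf N (R w) (x w) (y w) w := by
  intro al be
  obtain ⟨hd, hd1, hS⟩ := hb.side
  have hd0 : 0 < be - al := hb.facts.2.2.1
  have := band_step_six hf hb (one_mul 1) (sixLc₁ (be - al)) (sixLc₂ (be - al))
    (sixLc₃ (be - al)) (fun u r => vOf al be r < phiOne6 u)
    (fun w hw hw0 hwu => orbit_phiOne_six hf hb hw hw0 (hwu.trans (by norm_num)))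
    (bd := 9 / 10 / (be - al)) (le_of_eq (mul_div_cancel₀ _ hd0.ne'))
    (fun u hu hu1 => (le_div_iff₀ hd0).2 (by linarith [sixL_le hd hd1 hu hu1]))
    (fun u r hu hu1 hE hv hv1 hdv => ?_) hw hw0 hwu
  · linarith
  · rw [one_mul]
    have key := six_lower_sign hu hu1 hv hE hdv hd hd1 hS
    rw [sixLower, val_lieV] at key
    simpa [al, be, sixL₁, sixL₂, sixL₃, eQ3, val_add, val_mul, Ex.val, sixLc₁, sixLc₂, sixLc₃,
      sub_eq_add_neg, neg_div, pow_two] using key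

/-- The end of the second exit curve. -/
theorem phiSix_end {d v : ℝ} (hd : 0 ≤ d) (hd1 : d ≤ 1 / 3) (hv : v < phiOne6 (4 / 5))
    (hdv : d * v < 1 / 2) : v < phiSix d (4 / 5) := by
  have e1 : phiOne6 (4 / 5) = 1346 / 500 := by norm_num [phiOne6, phiG]
  have e2 : phiSix d (4 / 5) = 2 / 5 + 28 / 25 * d - 289 / 100 * d ^ 2 +
      (37 / 100 - 417 / 100 * d + 67 / 5 * d ^ 2) * (4 / 5) +
      (49 / 100 + 133 / 100 * d - 171 / 25 * d ^ 2) * (64 / 15) := by
    simp only [phiSix, phiG]; ring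
  rw [e2]
  rw [e1] at hv
  rcases le_or_gt d (186 / 1000) with h | h
  · nlinarith [mul_nonneg hd (sub_nonneg.2 h)]
  · by_contra hn
    rw [not_lt] at hn
    have := mul_le_mul_of_nonneg_left hn hd
    nlinarith [mul_nonneg (sub_nonneg.2 h.le) (sub_nonneg.2 hd1),
      mul_nonneg (mul_nonneg hd (sub_nonneg.2 h.le)) (sub_nonneg.2 hd1)]

/-- **The second exit curve.** -/
theorem orbit_phi_six (hf : IsOrbitFns N p q S R x y s dx dy)
    (hb : SlabBoxSix N (1 / (p + 1)) (1 / (q + 1)))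
    {w : ℝ} (hw : w ∈ S) (hw0 : 0 < R w) (hwu : uOf N (R w) (x w) ≤ 4 / 5) :
    vOf (1 / (p + 1)) (1 / (q + 1)) (y w / x w) <
      phiSix (1 / (q + 1) - 1 / (p + 1)) (uOf N (R w) (x w)) := by
  obtain ⟨hd, hd1, hS⟩ := hb.side
  set d := 1 / (q + 1) - 1 / (p + 1) with hdd
  have hd0 : 0 < d := hb.facts.2.2.1
  obtain ⟨hbc, hkc⟩ := phiSix_coef hd hd1
  refine exit_step_six (a := 2 / 5 + 28 / 25 * d - 289 / 100 * d ^ 2)
    (b := 37 / 100 - 417 / 100 * d + 67 / 5 * d ^ 2)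
    (k := 49 / 100 + 133 / 100 * d - 171 / 25 * d ^ 2) (c := 19 / 20) hf hb
    (by norm_num) (by norm_num) hbc hkc
    (fun u r => vOf (1 / (p + 1)) (1 / (q + 1)) r < phiOne6 u)
    (fun w hw hw0 hwu => orbit_phiOne_six hf hb hw hw0 (hwu.trans (by norm_num)))
    (fun r hE _ _ hdv => phiSix_end hd hd1 hE hdv)
    (fun w hw hw0 hwu => orbit_lower_six hf hb hw hw0 hwu) (bd := 9 / 10 / d)
    (le_of_eq (mul_div_cancel₀ _ hd0.ne'))
    (fun u hu hu1 => (le_div_iff₀ hd0).2 (by linarith [sixL_le hd hd1 hu hu1]))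
    (fun u hu hu1 => ?_) (fun u hu hu1 => ?_) hw hw0 hwu
  · have key := six_exit₂_sign hu hu1 hd hd1 hS
    rw [sixExit₂, val_exitG] at key
    simpa [sixA, sixB, sixK, sixL₁, sixL₂, sixL₃, eQ3, val_add, val_mul, Ex.val, sixLc₁, sixLc₂,
      sixLc₃, d, sub_eq_add_neg, neg_div, pow_two] using key
  · have key := six_slope₂_sign hu hu1 hd hd1 hS
    rw [sixSlope₂, val_slopeB] at key
    exact le_of_lt (by simpa [sixA, sixB, sixK, sixL₁, sixL₂, sixL₃, eQ3, val_add, val_mul, Ex.val,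
      sixLc₁, sixLc₂, sixLc₃, d, sub_eq_add_neg, neg_div, pow_two] using key)

/-- The bound on the upper band. -/
theorem sixU_le {d u : ℝ} (hd : 0 ≤ d) (hd1 : d ≤ 1 / 3) (hu : 0 ≤ u) (hu1 : u ≤ 3 / 5) :
    d * (sixUc₁ d + sixUc₂ d * u + sixUc₃ d * u ^ 2) ≤ 9 / 10 := by
  have hdd : d ^ 2 ≤ d / 3 := by nlinarith
  have h1 : sixUc₁ d ≤ 89 / 50 := by simp only [sixUc₁]; nlinarith
  have h2 : sixUc₂ d ≤ 28 / 100 := by
    simp only [sixUc₂]; nlinarith [mul_self_nonneg (d - 548 / 2383)]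
  have h3 : d * sixUc₃ d ≤ 59 / 100 := by
    simp only [sixUc₃]
    nlinarith [mul_nonneg hd (mul_nonneg hd (sub_nonneg.2 hd1)), mul_self_nonneg (d - 17 / 100)]
  have hu2 : u ^ 2 ≤ 9 / 25 := by nlinarith
  have h5 := mul_le_mul_of_nonneg_left h1 hd
  have h6 := mul_le_mul_of_nonneg_right (mul_le_mul_of_nonneg_left h2 hd) hu
  have h7 : d * sixUc₃ d * u ^ 2 ≤ 59 / 100 * (9 / 25) :=
    (mul_le_mul_of_nonneg_right h3 (sq_nonneg u)).trans
      (mul_le_mul_of_nonneg_left hu2 (by norm_num))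
  have h8 : d * (28 / 100) * u ≤ 1 / 3 * (28 / 100) * (3 / 5) :=
    mul_le_mul (by linarith) hu1 hu (by norm_num)
  linarith

/-- **The upper band.** -/
theorem orbit_upper_six (hf : IsOrbitFns N p q S R x y s dx dy)
    (hb : SlabBoxSix N (1 / (p + 1)) (1 / (q + 1)))
    {w : ℝ} (hw : w ∈ S) (hw0 : 0 < R w) (hwu : uOf N (R w) (x w) ≤ 3 / 5) :
    let al := 1 / (p + 1)
    let be := 1 / (q + 1)
    hOf N (R w) (x w) (y w) w < bandL N al be (be - al) (sixUc₁ (be - al)) (sixUc₂ (be - al))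
      (sixUc₃ (be - al)) (uOf N (R w) (x w)) (y w / x w) := by
  intro al be
  obtain ⟨hd, hd1, hS⟩ := hb.side
  have hd0 : 0 < be - al := hb.facts.2.2.1
  have := band_step_six hf hb (show (-1 : ℝ) * -1 = 1 by norm_num) (sixUc₁ (be - al))
    (sixUc₂ (be - al)) (sixUc₃ (be - al)) (fun u r => vOf al be r < phiSix (be - al) u)
    (fun w hw hw0 hwu => orbit_phi_six hf hb hw hw0 (hwu.trans (by norm_num)))
    (bd := 9 / 10 / (be - al)) (le_of_eq (mul_div_cancel₀ _ hd0.ne'))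
    (fun u hu hu1 => (le_div_iff₀ hd0).2 (by linarith [sixU_le hd hd1 hu hu1]))
    (fun u r hu hu1 hE hv hv1 hdv => ?_) hw hw0 hwu
  · linarith
  · have key := six_upper_sign hu hu1 hv hE hd hd1 hS
    rw [sixUpper, val_sub, val_lieV] at key
    rw [neg_one_mul, neg_pos]
    simpa [al, be, sixU₁, sixU₂, sixU₃, eQ3, val_add, val_mul, Ex.val, sixUc₁, sixUc₂, sixUc₃,
      sub_eq_add_neg, neg_div, pow_two] using key

/-- **The centre.** The range of `v` at the crossing. -/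
theorem orbit_centre_six (hf : IsOrbitFns N p q S R x y s dx dy)
    (hb : SlabBoxSix N (1 / (p + 1)) (1 / (q + 1))) {z₀ : ℝ} (hz₀ : z₀ ∈ S) (hR₀ : R z₀ = 0) :
    let al := 1 / (p + 1)
    let be := 1 / (q + 1)
    2 / (N + 2 * al) ≤ vOf al be (y z₀ / x z₀) ∧
      vOf al be (y z₀ / x z₀) ≤ 2 / 5 + 28 / 25 * (be - al) - 289 / 100 * (be - al) ^ 2 := by
  intro al be
  obtain ⟨hal, hbe, hd, -⟩ := hb.facts
  have cR := hf.smooth.1.continuousOn.continuousAt (hf.isOpen.mem_nhds hz₀)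
  have cx := hf.smooth.2.1.continuousOn.continuousAt (hf.isOpen.mem_nhds hz₀)
  have cy := hf.smooth.2.2.1.continuousOn.continuousAt (hf.isOpen.mem_nhds hz₀)
  have hx0 := hf.x_pos z₀ hz₀
  have hleft : ∀ᶠ z in 𝓝[<] z₀, z ∈ S ∧ 0 < R z := by
    filter_upwards [mem_nhdsWithin_of_mem_nhds (hf.isOpen.mem_nhds hz₀), self_mem_nhdsWithin]
      with z hz hlt
    exact ⟨hz, hR₀ ▸ hf.anti hz hz₀ hlt⟩
  have hright : ∀ᶠ z in 𝓝[>] z₀, z ∈ S ∧ R z < 0 := by
    filter_upwards [mem_nhdsWithin_of_mem_nhds (hf.isOpen.mem_nhds hz₀), self_mem_nhdsWithin]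
      with z hz hlt
    exact ⟨hz, hR₀ ▸ hf.anti hz₀ hz hlt⟩
  have cg : ContinuousAt (fun z => x z - z * y z) z₀ := cx.sub (continuousAt_id.mul cy)
  have hzy : x z₀ - z₀ * y z₀ = 0 := le_antisymm
    (le_of_tendsto (cg.tendsto.mono_left (nhdsWithin_le_nhds (s := Ioi z₀))) (hright.mono fun z hz =>
      (sub_neg.2 ((hf.band z hz.1).2.2 hz.2)).le))
    (ge_of_tendsto (cg.tendsto.mono_left (nhdsWithin_le_nhds (s := Iio z₀))) (hleft.mono fun z hz =>
      (sub_pos.2 ((hf.band z hz.1).2.1 hz.2).1).le))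
  have hr : y z₀ / x z₀ = 1 / z₀ := by
    rw [div_eq_div_iff hx0.ne' (hf.pos hz₀).ne']
    linarith
  obtain ⟨hc, -, -⟩ := hf.centre hb.five hb.one_le z₀ hz₀ hR₀
  refine ⟨?_, ?_⟩
  · rw [← hr] at hc
    simp only [Trap.c0p] at hc
    have hNa : 0 < N + 2 * al := by linarith [hb.five]
    simp only [vOf]
    change 0 < al at hal
    change 0 < be at hbe
    change 0 < be - al at hd
    change 0 ≤ be * (N + 2 * al) * (y z₀ / x z₀) - al * (N + 2 * be) at hc
    generalize y z₀ / x z₀ = t at hc ⊢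
    rw [div_le_div_iff₀ hNa hd, show (be / al * t - 1) * (N + 2 * al) =
      (be * (N + 2 * al) * t - al * (N + 2 * al)) / al by field_simp,
      le_div_iff₀ hal]
    linarith
  · have cv : ContinuousAt (fun z => vOf al be (y z / x z)) z₀ := by
      simp only [vOf]
      exact (((cy.div cx hx0.ne').const_mul (be / al)).sub continuousAt_const).div_const _
    have cu : ContinuousAt (fun z => uOf N (R z) (x z)) z₀ := by
      simp only [uOf]
      exact ((cR.const_mul 2).mul cx).div_const _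
    have hu0 : uOf N (R z₀) (x z₀) = 0 := by simp [uOf, hR₀]
    have hsmall : ∀ᶠ z in 𝓝[<] z₀, uOf N (R z) (x z) < 3 / 5 :=
      (cu.tendsto.mono_left nhdsWithin_le_nhds).eventually (Iio_mem_nhds (by rw [hu0]; norm_num))
    have hphi : ContinuousAt (fun z => phiSix (be - al) (uOf N (R z) (x z))) z₀ := by
      simp only [phiSix, phiG]
      exact (continuousAt_const.add (continuousAt_const.mul cu)).add
        ((continuousAt_const.mul (cu.pow 2)).div (continuousAt_const.sub cu)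
          (by rw [hu0, sub_zero]; norm_num))
    refine le_of_le_of_eq (le_of_tendsto_of_tendsto (cv.tendsto.mono_left nhdsWithin_le_nhds)
      (hphi.tendsto.mono_left (nhdsWithin_le_nhds (s := Iio z₀)))
      ((hleft.and hsmall).mono fun z hz =>
        (orbit_phi_six hf hb hz.1.1 hz.1.2 (hz.2.le.trans (by norm_num))).le)) ?_
    simp [phiSix, phiG, hu0]

end Vale.Agent.P100.Calib.Band
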