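import Vale.Agent.P100.Calib.SlabSixExpr

/-!
# Certificates of the bands on the slab of dimension six, part A
-/

-- The checks are definitions, so that they run one after another with little memory.
set_option linter.defProp false

namespace Vale.Agent.P100.Calib.Band

open BoxPos

def six_low_0_0 :
    sixLow.checkQuick ⟨228, ⟨7, 3, 5, 6⟩⟩ (sixBox 0 931 290 3751 0 83) = true := by decide +kernel

def six_low_0_83 :
    sixLow.checkQuick ⟨228, ⟨7, 3, 5, 6⟩⟩ (sixBox 0 465 290 3751 83 125) = true := by decide +kernel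

def six_low_0_125 :
    sixLow.checkQuick ⟨229, ⟨7, 3, 5, 6⟩⟩ (sixBox 0 465 290 3751 125 135) = true := by decide +kernel

def six_low_0_135 :
    sixLow.checkQuick ⟨229, ⟨7, 3, 5, 6⟩⟩ (sixBox 0 465 290 3705 135 140) = true := by decide +kernel

def six_low_0_140 :
    sixLow.checkQuick ⟨229, ⟨7, 3, 5, 6⟩⟩ (sixBox 0 465 290 3573 140 146) = true := by decide +kernel

def six_low_0_146 :
    sixLow.checkQuick ⟨229, ⟨7, 3, 5, 6⟩⟩ (sixBox 0 465 290 3426 146 167) = true := by decide +kernel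

def six_low_465_83 :
    sixLow.checkQuick ⟨229, ⟨7, 3, 5, 6⟩⟩ (sixBox 465 931 290 3751 83 167) = true := by decide +kernel

def six_low_0_167 :
    sixLow.checkQuick ⟨229, ⟨7, 3, 5, 6⟩⟩ (sixBox 0 931 290 2996 167 250) = true := by decide +kernel

def six_low_0_250 :
    sixLow.checkQuick ⟨229, ⟨7, 3, 5, 6⟩⟩ (sixBox 0 931 290 2001 250 334) = true := by decide +kernel

def six_exit1_0_0 :
    sixExit₁.checkQuick ⟨221, ⟨10, 0, 4, 4⟩⟩ (sixBox 0 465 290 291 0 334) = true := by decide +kernel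

def six_exit1_465_0 :
    sixExit₁.checkQuick ⟨224, ⟨10, 0, 4, 4⟩⟩ (sixBox 465 931 290 291 0 334) = true := by decide +kernel

def six_slope1_0_0 :
    sixSlope₁.checkQuick ⟨170, ⟨9, 0, 3, 2⟩⟩ (sixBox 0 931 290 291 0 334) = true := by decide +kernel

def six_exit2_0_0 :
    sixExit₂.checkQuick ⟨284, ⟨10, 0, 10, 4⟩⟩ (sixBox 0 400 290 291 0 334) = true := by decide +kernel

def six_exit2_400_0 :
    sixExit₂.checkQuick ⟨286, ⟨10, 0, 10, 4⟩⟩ (sixBox 400 801 290 291 0 167) = true := by decide +kernel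

def six_exit2_400_167 :
    sixExit₂.checkQuick ⟨287, ⟨10, 0, 10, 4⟩⟩ (sixBox 400 500 290 291 167 334) = true := by decide +kernel

def six_exit2_500_167 :
    sixExit₂.checkQuick ⟨288, ⟨10, 0, 10, 4⟩⟩ (sixBox 500 600 290 291 167 334) = true := by decide +kernel

def six_exit2_600_167 :
    sixExit₂.checkQuick ⟨289, ⟨10, 0, 10, 4⟩⟩ (sixBox 600 801 290 291 167 334) = true := by decide +kernel

def six_slope2_0_0 :
    sixSlope₂.checkQuick ⟨210, ⟨9, 0, 7, 2⟩⟩ (sixBox 0 801 290 291 0 334) = true := by decide +kernel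

def six_upper_0_0 :
    sixUpper.checkQuick ⟨286, ⟨7, 3, 9, 6⟩⟩ (sixBox 0 300 290 595 0 167) = true := by decide +kernel

def six_upper_300_0 :
    sixUpper.checkQuick ⟨287, ⟨7, 3, 9, 6⟩⟩ (sixBox 300 601 290 1129 0 167) = true := by decide +kernel

def six_upper_0_167 :
    sixUpper.checkQuick ⟨288, ⟨7, 3, 9, 6⟩⟩ (sixBox 0 601 290 1074 167 334) = true := by decide +kernel

end Vale.Agent.P100.Calib.Band
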