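import Vale.Agent.P100.Calib.SlabSixTailAlgebra

/-!
# Coefficients of the normal forms of dimension six in `p, e, k, w` and `z`
-/

set_option linter.unusedVariables false
set_option linter.unusedSimpArgs false
set_option maxRecDepth 4000

namespace Vale.Agent.P100.Calib.Closed.Six.End

open BoxPos
open Tail (T6 N6 X6 G6 Y6)

local instance endCoefAdd : Add Ex := ⟨Ex.add⟩
local instance endCoefMul : Mul Ex := ⟨Ex.mul⟩

/-- The coefficient of `1` in `TGGS` at `g = 1`. -/
def eG00 (a d v : Ex) : Ex :=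
  (((((((((((((((cC (-9) 25) * v) * v) * v) * v) * v) * d + (((((cC (-69) 25) * v) * v) * v) *
    v)) * d + ((((cC (-24) 5) * v) * v) * v)) * d + (((cC (-12) 5) * v) * v)) * a +
    (((((((((((cC (63) 50) * v) * v) * v) * v) * v) * d + ((((((cC (-81) 50) * v + (cC (63) 10))
    * v) * v) * v) * v)) * d + ((((((cC (-147) 125) * v + (cC (-537) 50)) * v + (cC (252) 25)) *
    v) * v) * v)) * d + (((((cC (-183) 25) * v + (cC (-438) 25)) * v + (cC (126) 25)) * v) * v))
    * d + ((((cC (-1536) 125) * v + (cC (-42) 5)) * v) * v)) * d + (((cC (-768) 125) * v) * v)))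
    * a + (((((((((((((cC (-441) 400) * v) * v) * v) * v) * v) * d + ((((((cC (441) 100) * v +
    (cC (-3969) 400)) * v) * v) * v) * v)) * d + ((((((cC (-1821) 500) * v + (cC (2331) 100)) *
    v + (cC (-882) 25)) * v) * v) * v)) * d + (((((((cC (-1587) 200000) * v + (cC (-531) 125)) *
    v + (cC (-9453) 500)) * v + (cC (2079) 50)) * v + (cC (-3087) 50)) * v) * v)) * d + ((((((cC
    (5643) 25000) * v + (cC (-603) 25)) * v + (cC (-3378) 125)) * v + (cC (693) 25)) * v + (cC
    (-1323) 25)) * v)) * d + (((((cC (34989) 25000) * v + (cC (-4788) 125)) * v + (cC (-294)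
    25)) * v + (cC (126) 25)) * v + (cC (-441) 25))) * d + ((((cC (14673) 6250) * v + (cC
    (-2304) 125)) * v) * v)) * d + (((cC (14673) 12500) * v) * v))) * a + ((((((((((((((cC
    (-441) 160) * v) * v) * v) * v) * v) * d + ((((((cC (30849) 4000) * v + (cC (-3969) 160)) *
    v) * v) * v) * v)) * d + ((((((cC (-2583) 500) * v + (cC (185073) 4000)) * v + (cC (-441)
    5)) * v) * v) * v)) * d + (((((((cC (-1587) 80000) * v + (cC (-699) 100)) * v + (cC (-567)
    25)) * v + (cC (51219) 500)) * v + (cC (-3087) 20)) * v) * v)) * d + (((((((cC (-1587)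
    400000) * v + (cC (5643) 10000)) * v + (cC (-16737) 500)) * v + (cC (-15519) 500)) * v + (cC
    (10353) 100)) * v + (cC (-1323) 10)) * v)) * d + ((((((cC (4293) 50000) * v + (cC (38589)
    10000)) * v + (cC (-5919) 125)) * v + (cC (-4011) 250)) * v + (cC (12117) 250)) * v + (cC
    (-441) 10))) * d + (((((cC (40239) 50000) * v + (cC (18273) 2500)) * v + (cC (-5217) 250)) *
    v + (cC (-63) 25)) * v + (cC (441) 50))) * d + ((((cC (17973) 12500) * v + (cC (23673)
    5000)) * v) * v)) * d + (((cC (17973) 25000) * v + (cC (18) 25)) * v))) * a +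
    (((((((((((((((cC (-3969) 1600) * v) * v) * v) * v) * v) * d + ((((((cC (924) 125) * v + (cC
    (-35721) 1600)) * v) * v) * v) * v)) * d + ((((((cC (-220519) 40000) * v + (cC (48909)
    1000)) * v + (cC (-3969) 50)) * v) * v) * v)) * d + (((((((cC (-1587) 100000) * v + (cC
    (-13227) 2000)) * v + (cC (-206083) 8000)) * v + (cC (123291) 1000)) * v + (cC (-27783)
    200)) * v) * v)) * d + (((((((cC (-1587) 200000) * v + (cC (7203) 12500)) * v + (cC (-54381)
    2000)) * v + (cC (-53071) 1250)) * v + (cC (14721) 100)) * v + (cC (-11907) 100)) * v)) * d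
    + ((((((cC (16551) 50000) * v + (cC (52989) 12500)) * v + (cC (-34827) 1000)) * v + (cC
    (-139187) 5000)) * v + (cC (20769) 250)) * v + (cC (-3969) 100))) * d + ((((((cC (-9) 400) *
    v + (cC (112833) 50000)) * v + (cC (26343) 3125)) * v + (cC (-1551) 100)) * v + (cC (-609)
    500)) * v + (cC (441) 25))) * d + (((((cC (-9) 400) * v + (cC (96777) 25000)) * v + (cC
    (38793) 6250)) * v + (cC (-63) 50)) * v + (cC (441) 100))) * d + (((cC (7137) 3125) * v +
    (cC (36) 25)) * v)) * d + ((cC (423) 1250) * v))) * a + ((((((((((((((((cC (-3087) 3200) *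
    v) * v) * v) * v) * v) * d + ((((((cC (10941) 3200) * v + (cC (-27783) 3200)) * v) * v) * v)
    * v)) * d + ((((((cC (-290217) 80000) * v + (cC (76461) 3200)) * v + (cC (-3087) 100)) * v)
    * v) * v)) * d + (((((((cC (-1587) 400000) * v + (cC (-269989) 80000)) * v + (cC (-304389)
    16000)) * v + (cC (25641) 400)) * v + (cC (-21609) 400)) * v) * v)) * d + (((((((cC (-1587)
    400000) * v + (cC (46281) 100000)) * v + (cC (-211441) 16000)) * v + (cC (-355437) 10000)) *
    v + (cC (32739) 400)) * v + (cC (-9261) 200)) * v)) * d + ((((((cC (9399) 25000) * v + (cC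
    (320103) 100000)) * v + (cC (-177589) 10000)) * v + (cC (-241791) 10000)) * v + (cC (9849)
    200)) * v + (cC (-3087) 200))) * d + ((((((cC (-27) 1250) * v + (cC (99459) 50000)) * v +
    (cC (317247) 50000)) * v + (cC (-118667) 10000)) * v + (cC (2583) 1000)) * v + (cC (441)
    40))) * d + ((((((cC (-9) 800) * v + (cC (-27) 10000)) * v + (cC (154407) 50000)) * v + (cC
    (64209) 12500)) * v + (cC (-6153) 1000)) * v + (cC (1323) 200))) * d + (((((cC (-9) 800) * v
    + (cC (27) 10000)) * v + (cC (49563) 25000)) * v + (cC (153) 100)) * v + (cC (-441) 200))) *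
    d + (((cC (-27) 1000) * v + (cC (1269) 2500)) * v)) * d + ((cC (-27) 2500) * v))) * a +
    (((((((((((((((((cC (-441) 3200) * v) * v) * v) * v) * v) * d + ((((((cC (9429) 16000) * v +
    (cC (-3969) 3200)) * v) * v) * v) * v)) * d + ((((((cC (-71899) 80000) * v + (cC (67893)
    16000)) * v + (cC (-441) 100)) * v) * v) * v)) * d + ((((((cC (-54349) 80000) * v + (cC
    (-80287) 16000)) * v + (cC (23499) 2000)) * v + (cC (-3087) 400)) * v) * v)) * d + ((((((cC
    (4503) 20000) * v + (cC (-43177) 16000)) * v + (cC (-98209) 10000)) * v + (cC (1239) 80)) *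
    v + (cC (-1323) 200)) * v)) * d + ((((((cC (327) 2500) * v + (cC (5631) 4000)) * v + (cC
    (-42679) 10000)) * v + (cC (-66257) 10000)) * v + (cC (9597) 1000)) * v + (cC (-441) 200)))
    * d + ((((((cC (9) 10000) * v + (cC (5103) 10000)) * v + (cC (28497) 10000)) * v + (cC
    (-49367) 10000)) * v + (cC (1281) 1000)) * v + (cC (441) 200))) * d + ((((((cC (-9) 800) * v
    + (cC (63) 10000)) * v + (cC (5469) 10000)) * v + (cC (24771) 10000)) * v + (cC (-4893)
    1000)) * v + (cC (441) 200))) * d + (((((cC (-9) 800) * v + (cC (-783) 10000)) * v + (cC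
    (1413) 5000)) * v + (cC (81) 100)) * v + (cC (-441) 200))) * d + (((cC (-81) 400) * v + (cC
    (72) 625)) * v)) * d + ((cC (-108) 625) * v)) * d + (cC (-27) 500))) * a + ((((((((((((cC
    (-27) 4000) * v) * v) * v) * v) * d + (((((cC (-81) 4000) * v + (cC (-27) 2000)) * v) * v) *
    v)) * d + (((((cC (-81) 4000) * v + (cC (-27) 400)) * v + (cC (-27) 4000)) * v) * v)) * d +
    (((((cC (-27) 4000) * v + (cC (-189) 2000)) * v + (cC (-297) 4000)) * v) * v)) * d + ((((cC
    (-81) 2000) * v + (cC (-621) 4000)) * v + (cC (-27) 1000)) * v)) * d + (((cC (-351) 4000) *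
    v + (cC (-27) 250)) * v)) * d + ((cC (-81) 1000) * v + (cC (-27) 1000))) * d + (cC (-27)
    1000))

/-- The coefficient of `1 z` in `TGGS` at `g = 1`. -/
def eG00z (a d v : Ex) : Ex :=
  (((((((((((((((cC (-204) 125) * v) * v) * v) * v) * v) * d + (((((cC (-612) 125) * v) * v) *
    v) * v)) * d + ((((cC (-408) 125) * v) * v) * v)) * d) * d) * d) * a + (((((((((((((cC (357)
    125) * v) * v) * v) * v) * v) * d + ((((((cC (-612) 125) * v + (cC (2499) 125)) * v) * v) *
    v) * v)) * d + ((((((cC (-306) 125) * v + (cC (-408) 25)) * v + (cC (6426) 125)) * v) * v) *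
    v)) * d + (((((cC (-918) 125) * v + (cC (-1836) 125)) * v + (cC (1428) 25)) * v) * v)) * d +
    ((((cC (-612) 125) * v + (cC (-408) 125)) * v + (cC (2856) 125)) * v)) * d) * d) * d)) * a +
    ((((((((((((((cC (714) 125) * v) * v) * v) * v) * v) * d + ((((((cC (-6052) 625) * v + (cC
    (4998) 125)) * v) * v) * v) * v)) * d + ((((((cC (-714) 125) * v + (cC (-5848) 125)) * v +
    (cC (12852) 125)) * v) * v) * v)) * d + ((((((cC (51) 125) * v + (cC (-2346) 125)) * v + (cC
    (-52496) 625)) * v + (cC (2856) 25)) * v) * v)) * d + (((((cC (153) 125) * v + (cC (-408)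
    25)) * v + (cC (-43588) 625)) * v + (cC (5712) 125)) * v)) * d + ((((cC (102) 125) * v + (cC
    (-408) 125)) * v + (cC (-2856) 125)) * v)) * d) * d) * d)) * a + (((((((((((((((cC (357)
    100) * v) * v) * v) * v) * v) * d + ((((((cC (-11271) 1250) * v + (cC (2499) 100)) * v) * v)
    * v) * v)) * d + ((((((cC (-10829) 2500) * v + (cC (-12699) 250)) * v + (cC (3213) 50)) * v)
    * v) * v)) * d + ((((((cC (102) 125) * v + (cC (-1411) 100)) * v + (cC (-66504) 625)) * v +
    (cC (357) 5)) * v) * v)) * d + ((((((cC (459) 250) * v + (cC (357) 125)) * v + (cC (-11441)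
    1250)) * v + (cC (-61812) 625)) * v + (cC (714) 25)) * v)) * d + (((((cC (2193) 250) * v +
    (cC (357) 125)) * v + (cC (3961) 625)) * v + (cC (-4284) 125)) * v)) * d + ((((cC (1683)
    125) * v + (cC (102) 125)) * v + (cC (714) 125)) * v)) * d + (((cC (816) 125) * v) * v)) *
    d) * d)) * a + ((((((((((((((((cC (357) 500) * v) * v) * v) * v) * v) * d + ((((((cC (-3247)
    1250) * v + (cC (2499) 500)) * v) * v) * v) * v)) * d + ((((((cC (-2669) 2500) * v + (cC
    (-3859) 250)) * v + (cC (3213) 250)) * v) * v) * v)) * d + ((((((cC (51) 125) * v + (cC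
    (-1343) 500)) * v + (cC (-21148) 625)) * v + (cC (357) 25)) * v) * v)) * d + ((((((cC (459)
    250) * v + (cC (204) 125)) * v + (cC (2839) 1250)) * v + (cC (-20264) 625)) * v + (cC (714)
    125)) * v)) * d + (((((cC (2193) 250) * v + (cC (51) 25)) * v + (cC (6001) 625)) * v + (cC
    (-1428) 125)) * v)) * d + ((((cC (1683) 125) * v + (cC (102) 125)) * v + (cC (714) 125)) *
    v)) * d + (((cC (816) 125) * v) * v)) * d) * d) * d)) * a

/-- The coefficient of `1 z ^ 2` in `TGGS` at `g = 1`. -/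
def eG00zz (a d v : Ex) : Ex :=
  (((((((((((((((cC (-1156) 625) * v) * v) * v) * v) * v) * d + (((((cC (-1156) 125) * v) * v) *
    v) * v)) * d + ((((cC (-9248) 625) * v) * v) * v)) * d + (((cC (-4624) 625) * v) * v)) * d)
    * d) * d) * d) * a + ((((((((((((((cC (-1734) 625) * v) * v) * v) * v) * v) * d + ((((((cC
    (-578) 625) * v + (cC (-1734) 125)) * v) * v) * v) * v)) * d + (((((cC (-578) 125) * v + (cC
    (-13872) 625)) * v) * v) * v)) * d + ((((cC (-4624) 625) * v + (cC (-6936) 625)) * v) * v))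
    * d + (((cC (-2312) 625) * v) * v)) * d) * d) * d) * d)) * a + (((((((((((((((cC (-578) 625)
    * v) * v) * v) * v) * v) * d + ((((((cC (-578) 625) * v + (cC (-578) 125)) * v) * v) * v) *
    v)) * d + (((((cC (-578) 125) * v + (cC (-4624) 625)) * v) * v) * v)) * d + ((((cC (-4624)
    625) * v + (cC (-2312) 625)) * v) * v)) * d + (((cC (-2312) 625) * v) * v)) * d) * d) * d) *
    d) * d)) * a

/-- The coefficient of `p` in `TGGS` at `g = 1`. -/
def eG10 (a d v : Ex) : Ex :=
  (((((((((((((cC (9) 50) * v) * v) * v) * v) * d + ((((cC (9) 50) * v) * v) * v)) * d) * d) * a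
    + ((((((((((cC (-63) 200) * v) * v) * v) * v) * d + (((((cC (18) 25) * v + (cC (-63) 40)) *
    v) * v) * v)) * d + (((((cC (9) 100) * v + (cC (9) 10)) * v + (cC (-63) 25)) * v) * v)) * d
    + ((((cC (-9) 100) * v + (cC (9) 50)) * v + (cC (-63) 50)) * v)) * d + (((cC (-9) 25) * v) *
    v)) * d + ((cC (-9) 50) * v))) * a + (((((((((((cC (-189) 200) * v) * v) * v) * v) * d +
    (((((cC (1293) 1000) * v + (cC (-189) 40)) * v) * v) * v)) * d + (((((cC (27) 100) * v + (cC
    (2169) 1000)) * v + (cC (-189) 25)) * v) * v)) * d + (((((cC (1107) 20000) * v + (cC (-27)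
    100)) * v + (cC (219) 250)) * v + (cC (-189) 50)) * v)) * d + ((((cC (-117) 4000) * v + (cC
    (-27) 25)) * v) * v)) * d + (((cC (-423) 2500) * v + (cC (-27) 50)) * v)) * d + ((cC (-423)
    5000) * v))) * a + ((((((((((((cC (-819) 800) * v) * v) * v) * v) * d + (((((cC (51) 40) * v
    + (cC (-819) 160)) * v) * v) * v)) * d + (((((cC (1149) 4000) * v + (cC (27) 10)) * v + (cC
    (-819) 100)) * v) * v)) * d + (((((cC (927) 8000) * v + (cC (-603) 4000)) * v + (cC (57)
    40)) * v + (cC (-819) 200)) * v)) * d + (((((cC (1107) 40000) * v + (cC (-9) 64)) * v + (cC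
    (-177) 250)) * v) * v)) * d + ((((cC (243) 8000) * v + (cC (-117) 250)) * v + (cC (-27)
    100)) * v)) * d + (((cC (27) 5000) * v + (cC (-423) 2000)) * v)) * d + ((cC (27) 10000) *
    v))) * a + (((((((((((((cC (-189) 400) * v) * v) * v) * v) * d + (((((cC (651) 1000) * v +
    (cC (-189) 80)) * v) * v) * v)) * d + (((((cC (249) 2000) * v + (cC (1593) 1000)) * v + (cC
    (-189) 50)) * v) * v)) * d + (((((cC (657) 10000) * v + (cC (297) 2000)) * v + (cC (471)
    500)) * v + (cC (-189) 100)) * v)) * d + (((((cC (1107) 20000) * v + (cC (-9) 50)) * v + (cC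
    (48) 125)) * v) * v)) * d + ((((cC (297) 4000) * v + (cC (-2007) 5000)) * v + (cC (9) 25)) *
    v)) * d + (((cC (81) 1250) * v + (cC (-1557) 10000)) * v)) * d + ((cC (729) 10000) * v)) * d
    + (cC (27) 1000))) * a + ((((((((((((((cC (-63) 800) * v) * v) * v) * v) * d + (((((cC (129)
    1000) * v + (cC (-63) 160)) * v) * v) * v)) * d + (((((cC (69) 4000) * v + (cC (171) 500)) *
    v + (cC (-63) 100)) * v) * v)) * d + (((((cC (207) 40000) * v + (cC (477) 4000)) * v + (cC
    (213) 1000)) * v + (cC (-63) 200)) * v)) * d + (((((cC (1107) 40000) * v + (cC (-99) 1600))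
    * v + (cC (93) 250)) * v) * v)) * d + ((((cC (459) 8000) * v + (cC (-891) 10000)) * v + (cC
    (27) 100)) * v)) * d + ((((cC (27) 4000) * v + (cC (999) 10000)) * v + (cC (-441) 20000)) *
    v)) * d + (((cC (27) 1000) * v + (cC (1107) 10000)) * v)) * d + ((cC (27) 800) * v + (cC
    (81) 2000))) * d + (cC (27) 2000))) * a + ((((((((((cC (27) 4000) * v) * v) * v) * d +
    ((((cC (27) 2000) * v + (cC (27) 2000)) * v) * v)) * d + ((((cC (27) 4000) * v + (cC (81)
    2000)) * v + (cC (27) 4000)) * v)) * d + (((cC (27) 1000) * v + (cC (81) 2000)) * v)) * d +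
    ((cC (27) 800) * v + (cC (27) 2000))) * d + (cC (27) 2000)) * d)

/-- The coefficient of `p z` in `TGGS` at `g = 1`. -/
def eG10z (a d v : Ex) : Ex :=
  (((((((((((((cC (51) 125) * v) * v) * v) * v) * d + ((((cC (153) 125) * v) * v) * v)) * d +
    (((cC (102) 125) * v) * v)) * d) * d) * d) * a + (((((((((((cC (51) 50) * v) * v) * v) * v)
    * d + (((((cC (-51) 250) * v + (cC (153) 50)) * v) * v) * v)) * d + ((((cC (-153) 250) * v +
    (cC (51) 25)) * v) * v)) * d + (((cC (-51) 125) * v) * v)) * d) * d) * d)) * a +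
    ((((((((((((cC (102) 125) * v) * v) * v) * v) * d + (((((cC (-51) 125) * v + (cC (306) 125))
    * v) * v) * v)) * d + ((((cC (-153) 125) * v + (cC (204) 125)) * v) * v)) * d + (((cC (-102)
    125) * v) * v)) * d) * d) * d) * d)) * a + (((((((((((((cC (51) 250) * v) * v) * v) * v) * d
    + (((((cC (-51) 250) * v + (cC (153) 250)) * v) * v) * v)) * d + ((((cC (-153) 250) * v +
    (cC (51) 125)) * v) * v)) * d + (((cC (-51) 125) * v) * v)) * d) * d) * d) * d) * d)) * a

/-- The coefficient of `p ^ 2` in `TGGS` at `g = 1`. -/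
def eG20 (a d v : Ex) : Ex :=
  (((((((((((cC (-9) 400) * v) * v) * v) * d + (((cC (-9) 400) * v) * v)) * d) * d) * a +
    ((((((((cC (-63) 800) * v) * v) * v) * d + ((((cC (-9) 800) * v + (cC (-63) 800)) * v) * v))
    * d + (((cC (-9) 800) * v) * v)) * d) * d)) * a + (((((((((cC (-81) 800) * v) * v) * v) * d
    + ((((cC (-27) 800) * v + (cC (-81) 800)) * v) * v)) * d + (((cC (-27) 800) * v) * v)) * d +
    (((cC (-27) 8000) * v) * v)) * d + ((cC (-27) 4000) * v)) * d + (cC (-27) 8000))) * a +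
    ((((((((((cC (-9) 160) * v) * v) * v) * d + ((((cC (-27) 800) * v + (cC (-9) 160)) * v) *
    v)) * d + (((cC (-27) 800) * v) * v)) * d + (((cC (-27) 3200) * v) * v)) * d + (((cC (-27)
    16000) * v + (cC (-27) 1600)) * v)) * d + ((cC (-27) 8000) * v + (cC (-27) 3200))) * d + (cC
    (-27) 16000))) * a + (((((((((((cC (-9) 800) * v) * v) * v) * d + ((((cC (-9) 800) * v + (cC
    (-9) 800)) * v) * v)) * d + (((cC (-9) 800) * v) * v)) * d + (((cC (-27) 4000) * v) * v)) *
    d + (((cC (-27) 8000) * v + (cC (-27) 2000)) * v)) * d + ((cC (-27) 4000) * v + (cC (-27)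
    4000))) * d + (cC (-27) 8000)) * d)) * a + ((((((((cC (-27) 16000) * v) * v) * d + (((cC
    (-27) 16000) * v + (cC (-27) 8000)) * v)) * d + ((cC (-27) 8000) * v + (cC (-27) 16000))) *
    d + (cC (-27) 16000)) * d) * d)

theorem G6_coef {ea ed ev : Ex} {o S t u a d v : ℝ} (ha : ea.val o S t u = a)
    (hd : ed.val o S t u = d) (hv : ev.val o S t u = v) (z e p k w : ℝ) :
    G6 a d v z p =
      (eG00 ea ed ev).val o S t u +
        (eG00z ea ed ev).val o S t u * z +
        (eG00zz ea ed ev).val o S t u * z ^ 2 +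
        (eG10 ea ed ev).val o S t u * p +
        (eG10z ea ed ev).val o S t u * p * z +
        (eG20 ea ed ev).val o S t u * p ^ 2 := by
  simp only [eG00, eG00z, eG00zz, eG10, eG10z, eG20, ex_add, ex_mul, Ex.val, ha, hd, hv, G6,
    Tail.cG00000, Tail.cG01000, Tail.cG02000, Tail.cG10000, Tail.cG11000, Tail.cG20000, Closed.j1]
  push_cast
  ring

/-- The coefficient of `1` in `TEGS` at `g = 1`. -/
def eE00 (a d v : Ex) : Ex :=
  ((((((((((((((cC (84) 5) * v) * v) * v) * v) * d + ((((((cC (-69) 125) * v) * v + (cC (84) 1))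
    * v) * v) * v)) * d + (((((cC (-36) 125) * v) * v + (cC (672) 5)) * v) * v)) * d + ((((cC
    (-36) 125) * v) * v + (cC (336) 5)) * v)) * a + ((((((((((cC (483) 250) * v + (cC (294) 5))
    * v) * v) * v) * v) * d + ((((((cC (-276) 125) * v + (cC (4242) 125)) * v + (cC (294) 1)) *
    v) * v) * v)) * d + ((((((cC (21) 125) * v + (cC (-513) 125)) * v + (cC (17346) 125)) * v +
    (cC (2352) 5)) * v) * v)) * d + (((((cC (84) 125) * v + (cC (-216) 25)) * v + (cC (26208)
    125)) * v + (cC (1176) 5)) * v)) * d + ((((cC (84) 125) * v + (cC (-636) 125)) * v + (cC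
    (13104) 125)) * v))) * a + (((((((((((cC (1449) 250) * v + (cC (399) 5)) * v) * v) * v) * v)
    * d + ((((((cC (-17893) 2500) * v + (cC (12726) 125)) * v + (cC (399) 1)) * v) * v) * v)) *
    d + ((((((cC (57) 250) * v + (cC (-30882) 625)) * v + (cC (52038) 125)) * v + (cC (3192) 5))
    * v) * v)) * d + ((((((cC (-441) 500) * v + (cC (-63) 25)) * v + (cC (-93399) 625)) * v +
    (cC (78624) 125)) * v + (cC (1596) 5)) * v)) * d + (((((cC (-441) 125) * v + (cC (-1242)
    125)) * v + (cC (-112916) 625)) * v + (cC (39312) 125)) * v)) * d + ((((cC (-441) 125) * v +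
    (cC (-996) 125)) * v + (cC (-9744) 125)) * v))) * a + ((((((((((((cC (6279) 1000) * v + (cC
    (105) 2)) * v) * v) * v) * v) * d + ((((((cC (-563) 50) * v + (cC (28203) 250)) * v + (cC
    (525) 2)) * v) * v) * v)) * d + ((((((cC (3767) 5000) * v + (cC (-10191) 100)) * v + (cC
    (115899) 250)) * v + (cC (420) 1)) * v) * v)) * d + ((((((cC (-951) 500) * v + (cC (-17127)
    1250)) * v + (cC (-7863) 25)) * v + (cC (87696) 125)) * v + (cC (210) 1)) * v)) * d +
    ((((((cC (9) 50) * v + (cC (-3501) 500)) * v + (cC (-29787) 625)) * v + (cC (-9509) 25)) * v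
    + (cC (43848) 125)) * v)) * d + (((((cC (33) 25) * v + (cC (-648) 125)) * v + (cC (-26038)
    625)) * v + (cC (-3612) 25)) * v)) * d + ((((cC (33) 25) * v + (cC (303) 125)) * v + (cC
    (-894) 125)) * v + (cC (504) 25)))) * a + (((((((((((((cC (1449) 500) * v + (cC (84) 5)) *
    v) * v) * v) * v) * d + ((((((cC (-37177) 5000) * v + (cC (6993) 125)) * v + (cC (84) 1)) *
    v) * v) * v)) * d + ((((((cC (2897) 2500) * v + (cC (-186411) 2500)) * v + (cC (29169) 125))
    * v + (cC (672) 5)) * v) * v)) * d + ((((((cC (-1089) 1000) * v + (cC (-12432) 625)) * v +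
    (cC (-566877) 2500)) * v + (cC (44352) 125)) * v + (cC (336) 5)) * v)) * d + ((((((cC (9)
    50) * v + (cC (-1053) 500)) * v + (cC (-43554) 625)) * v + (cC (-159712) 625)) * v + (cC
    (22176) 125)) * v)) * d + ((((((cC (9) 100) * v + (cC (48) 25)) * v + (cC (4977) 500)) * v +
    (cC (-41396) 625)) * v + (cC (-7833) 125)) * v)) * d + (((((cC (9) 25) * v + (cC (39) 25)) *
    v + (cC (576) 25)) * v + (cC (-2124) 125)) * v + (cC (1008) 25))) * d + ((((cC (9) 25) * v +
    (cC (-18) 25)) * v + (cC (261) 25)) * v))) * a + ((((((((((((((cC (483) 1000) * v + (cC (21)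
    10)) * v) * v) * v) * v) * d + ((((((cC (-8383) 5000) * v + (cC (5817) 500)) * v + (cC (21)
    2)) * v) * v) * v)) * d + ((((((cC (2327) 5000) * v + (cC (-23457) 1250)) * v + (cC (25221)
    500)) * v + (cC (84) 5)) * v) * v)) * d + ((((((cC (-69) 1000) * v + (cC (-59703) 5000)) * v
    + (cC (-268701) 5000)) * v + (cC (9702) 125)) * v + (cC (42) 5)) * v)) * d + (((((cC (633)
    250) * v + (cC (-202791) 5000)) * v + (cC (-58211) 1250)) * v + (cC (4851) 125)) * v)) * d +
    ((((((cC (9) 100) * v + (cC (1071) 1000)) * v + (cC (18711) 1000)) * v + (cC (-25333) 625))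
    * v + (cC (3171) 250)) * v)) * d + (((((cC (9) 50) * v + (cC (1743) 1000)) * v + (cC (3774)
    125)) * v + (cC (-3201) 250)) * v + (cC (126) 5))) * d + (((((cC (-9) 100) * v + (cC (-27)
    100)) * v + (cC (84) 125)) * v + (cC (489) 50)) * v)) * d + ((((cC (-9) 100) * v + (cC (-27)
    50)) * v + (cC (27) 50)) * v + (cC (-126) 25)))) * a + (((((((((((((cC (63) 100) * v) * v) *
    v) * v) * d + (((((cC (-129) 250) * v + (cC (63) 20)) * v) * v) * v)) * d + (((((cC (-2559)
    1000) * v + (cC (-423) 1000)) * v + (cC (126) 25)) * v) * v)) * d + (((((cC (291) 250) * v +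
    (cC (-7923) 1000)) * v + (cC (1047) 250)) * v + (cC (63) 25)) * v)) * d + (((((cC (471)
    1000) * v + (cC (7101) 1000)) * v + (cC (-999) 125)) * v + (cC (441) 50)) * v)) * d +
    (((((cC (-9) 50) * v + (cC (1503) 1000)) * v + (cC (1197) 125)) * v + (cC (-741) 250)) * v +
    (cC (126) 25))) * d + (((((cC (-9) 100) * v + (cC (-63) 100)) * v + (cC (174) 125)) * v +
    (cC (-33) 50)) * v)) * d + ((((cC (-9) 100) * v + (cC (-27) 50)) * v + (cC (27) 50)) * v +
    (cC (-126) 25))) * d)) * a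

/-- The coefficient of `1 z` in `TEGS` at `g = 1`. -/
def eE00z (a d v : Ex) : Ex :=
  ((((((((((((((cC (-782) 625) * v) * v) * v) * v) * v) * d + (((((cC (-8772) 625) * v) * v) *
    v) * v)) * d + ((((cC (-21624) 625) * v) * v) * v)) * d + (((cC (-14416) 625) * v) * v)) *
    d) * a + (((((((((((cC (-391) 125) * v) * v) * v) * v) * v) * d + ((((((cC (629) 625) * v +
    (cC (-4386) 125)) * v) * v) * v) * v)) * d + (((((cC (-4386) 625) * v + (cC (-10812) 125)) *
    v) * v) * v)) * d + ((((cC (-16932) 625) * v + (cC (-7208) 125)) * v) * v)) * d + (((cC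
    (-11288) 625) * v) * v)) * d)) * a + ((((((((((((cC (-1564) 625) * v) * v) * v) * v) * v) *
    d + ((((((cC (748) 625) * v + (cC (-18564) 625)) * v) * v) * v) * v)) * d + ((((((cC (-102)
    125) * v + (cC (-11832) 625)) * v + (cC (-46308) 625)) * v) * v) * v)) * d + (((((cC (-612)
    125) * v + (cC (-41004) 625)) * v + (cC (-30872) 625)) * v) * v)) * d + ((((cC (-1224) 125)
    * v + (cC (-30736) 625)) * v) * v)) * d + (((cC (-816) 125) * v + (cC (-816) 125)) * v)) *
    d)) * a + (((((((((((((cC (-391) 625) * v) * v) * v) * v) * v) * d + ((((((cC (119) 625) * v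
    + (cC (-5916) 625)) * v) * v) * v) * v)) * d + ((((((cC (-102) 125) * v + (cC (-9486) 625))
    * v + (cC (-15402) 625)) * v) * v) * v)) * d + ((((((cC (-204) 125) * v + (cC (-204) 125)) *
    v + (cC (-30702) 625)) * v + (cC (-10268) 625)) * v) * v)) * d + (((((cC (-714) 125) * v +
    (cC (918) 125)) * v + (cC (-25568) 625)) * v) * v)) * d + ((((cC (-102) 25) * v + (cC (2856)
    125)) * v + (cC (-1224) 125)) * v)) * d + (((cC (204) 125) * v + (cC (408) 25)) * v)) * d))
    * a + ((((((((((((cC (-102) 125) * v) * v) * v) * v) * d + (((((cC (-408) 125) * v + (cC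
    (-306) 125)) * v) * v) * v)) * d + ((((((cC (-204) 125) * v + (cC (408) 125)) * v + (cC
    (-1326) 125)) * v + (cC (-204) 125)) * v) * v)) * d + (((((cC (-714) 125) * v + (cC (2142)
    125)) * v + (cC (-1224) 125)) * v) * v)) * d + ((((cC (-102) 25) * v + (cC (3672) 125)) * v
    + (cC (-408) 125)) * v)) * d + (((cC (204) 125) * v + (cC (408) 25)) * v)) * d) * d)) * a

/-- The coefficient of `e` in `TEGS` at `g = 1`. -/
def eE01 (a d v : Ex) : Ex :=
  ((((((((((cC (-24) 5) * v) * v) * v) * d + (((cC (-24) 5) * v) * v)) * a + (((((((cC (-69)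
    250) * v + (cC (-12) 1)) * v) * v) * v) * d + ((((cC (1182) 125) * v + (cC (-12) 1)) * v) *
    v)) * d + (((cC (1182) 125) * v) * v))) * a + ((((((((cC (-69) 125) * v + (cC (-54) 5)) * v)
    * v) * v) * d + ((((cC (2364) 125) * v + (cC (-54) 5)) * v) * v)) * d + ((((cC (-18) 5) * v
    + (cC (2364) 125)) * v) * v)) * d + (((cC (-18) 5) * v) * v))) * a + (((((((((cC (-69) 200)
    * v + (cC (-21) 5)) * v) * v) * v) * d + ((((cC (573) 50) * v + (cC (-21) 5)) * v) * v)) * d
    + (((((cC (69) 1000) * v + (cC (-144) 25)) * v + (cC (573) 50)) * v) * v)) * d + ((((cC (9)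
    250) * v + (cC (-162) 25)) * v) * v)) * d + (((cC (9) 250) * v + (cC (-18) 25)) * v))) * a +
    ((((((((((cC (-69) 1000) * v + (cC (-3) 5)) * v) * v) * v) * d + ((((cC (501) 250) * v + (cC
    (-3) 5)) * v) * v)) * d + (((((cC (69) 1000) * v + (cC (-54) 25)) * v + (cC (501) 250)) * v)
    * v)) * d + ((((cC (9) 250) * v + (cC (-72) 25)) * v) * v)) * d + (((cC (9) 250) * v + (cC
    (-18) 25)) * v)) * d)) * a + (((((((((cC (-9) 100) * v) * v) * v) * d + ((((cC (-9) 100) * v
    + (cC (-9) 100)) * v) * v)) * d + ((((cC (9) 100) * v + (cC (-27) 100)) * v) * v)) * d +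
    ((((cC (9) 100) * v + (cC (9) 100)) * v + (cC (-9) 50)) * v)) * d + (((cC (27) 100) * v) *
    v)) * d + ((cC (9) 50) * v))) * a

/-- The coefficient of `p` in `TEGS` at `g = 1`. -/
def eE10 (a d v : Ex) : Ex :=
  ((((((((((((cC (-21) 500) * v) * v) * v) * v) * d + ((((cC (159) 125) * v) * v) * v)) * d +
    (((cC (159) 125) * v) * v)) * a + (((((((((cC (63) 200) * v) * v) * v) * v) * d + (((((cC
    (-237) 1000) * v) * v) * v) * v)) * d + (((((cC (-4977) 10000) * v + (cC (1113) 250)) * v +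
    (cC (-126) 25)) * v) * v)) * d + ((((cC (-297) 2500) * v + (cC (624) 125)) * v + (cC (-252)
    25)) * v)) * d + (((cC (-297) 2500) * v + (cC (9) 25)) * v + (cC (-126) 25)))) * a +
    ((((((((((cC (189) 200) * v) * v) * v) * v) * d + (((((cC (-84) 125) * v) * v) * v) * v)) *
    d + (((((cC (-14031) 10000) * v + (cC (738) 125)) * v + (cC (-378) 25)) * v) * v)) * d +
    (((((cC (-1557) 10000) * v + (cC (-891) 2500)) * v + (cC (2133) 250)) * v + (cC (-756) 25))
    * v)) * d + ((((cC (1773) 2500) * v + (cC (-2241) 2500)) * v + (cC (219) 125)) * v + (cC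
    (-378) 25))) * d + (((cC (1773) 2500) * v + (cC (-9) 25)) * v))) * a + (((((((((((cC (819)
    800) * v) * v) * v) * v) * d + (((((cC (-93) 100) * v) * v) * v) * v)) * d + (((((cC
    (-53421) 40000) * v + (cC (363) 100)) * v + (cC (-819) 50)) * v) * v)) * d + (((((cC (-1287)
    4000) * v + (cC (-8781) 10000)) * v + (cC (1581) 200)) * v + (cC (-819) 25)) * v)) * d +
    (((((cC (-1107) 40000) * v + (cC (873) 500)) * v + (cC (-28161) 10000)) * v + (cC (57) 20))
    * v + (cC (-819) 50))) * d + ((((cC (2673) 10000) * v + (cC (1287) 1000)) * v + (cC (-3)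
    50)) * v)) * d + (((cC (2673) 10000) * v + (cC (-81) 250)) * v + (cC (63) 50)))) * a +
    ((((((((((((cC (189) 400) * v) * v) * v) * v) * d + (((((cC (-291) 500) * v) * v) * v) * v))
    * d + (((((cC (-9051) 20000) * v + (cC (249) 250)) * v + (cC (-189) 25)) * v) * v)) * d +
    (((((cC (-441) 2500) * v + (cC (-5811) 5000)) * v + (cC (1911) 500)) * v + (cC (-378) 25)) *
    v)) * d + (((((cC (-1107) 20000) * v + (cC (6687) 5000)) * v + (cC (-17091) 5000)) * v + (cC
    (471) 250)) * v + (cC (-189) 25))) * d + ((((cC (1269) 2500) * v + (cC (2097) 5000)) * v +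
    (cC (24) 25)) * v)) * d + (((cC (567) 1250) * v + (cC (-81) 125)) * v + (cC (63) 25))) * d +
    ((cC (-27) 500) * v))) * a + (((((((((((((cC (63) 800) * v) * v) * v) * v) * d + (((((cC
    (-129) 1000) * v) * v) * v) * v)) * d + (((((cC (-897) 40000) * v + (cC (9) 100)) * v + (cC
    (-63) 50)) * v) * v)) * d + (((((cC (-207) 20000) * v + (cC (-10569) 20000)) * v + (cC (729)
    1000)) * v + (cC (-63) 25)) * v)) * d + (((((cC (-1107) 40000) * v + (cC (5607) 20000)) * v
    + (cC (-27729) 20000)) * v + (cC (213) 500)) * v + (cC (-63) 50))) * d + ((((cC (4401)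
    20000) * v + (cC (-3843) 20000)) * v + (cC (33) 50)) * v)) * d + ((((cC (-27) 4000) * v +
    (cC (2781) 20000)) * v + (cC (-27) 80)) * v + (cC (63) 50))) * d + (((cC (-81) 4000) * v +
    (cC (-81) 1000)) * v)) * d + ((cC (-27) 2000) * v))) * a + ((((((((((cC (-27) 4000) * v) *
    v) * v) * d + ((((cC (-81) 4000) * v + (cC (-27) 4000)) * v) * v)) * d + ((((cC (-81) 4000)
    * v + (cC (-27) 800)) * v) * v)) * d + ((((cC (-27) 4000) * v + (cC (-189) 4000)) * v + (cC
    (-27) 2000)) * v)) * d + (((cC (-81) 4000) * v + (cC (-27) 1000)) * v)) * d + ((cC (-27)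
    2000) * v)) * d)

/-- The coefficient of `p z` in `TEGS` at `g = 1`. -/
def eE10z (a d v : Ex) : Ex :=
  ((((((((((((cC (-51) 125) * v) * v) * v) * v) * d) * d + (((cC (306) 125) * v) * v)) * d +
    ((cC (204) 125) * v)) * d) * a + ((((((((((cC (-51) 50) * v) * v) * v) * v) * d + (((((cC
    (51) 250) * v) * v) * v) * v)) * d + ((((cC (-204) 125) * v + (cC (153) 25)) * v) * v)) * d
    + (((cC (-153) 25) * v + (cC (102) 25)) * v)) * d + ((cC (-102) 25) * v)) * d)) * a +
    (((((((((((cC (-102) 125) * v) * v) * v) * v) * d + (((((cC (51) 125) * v) * v) * v) * v)) *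
    d + ((((cC (-408) 125) * v + (cC (612) 125)) * v) * v)) * d + (((cC (-306) 25) * v + (cC
    (408) 125)) * v)) * d + ((cC (-204) 25) * v)) * d) * d)) * a + ((((((((((((cC (-51) 250) *
    v) * v) * v) * v) * d + (((((cC (51) 250) * v) * v) * v) * v)) * d + ((((cC (-204) 125) * v
    + (cC (153) 125)) * v) * v)) * d + (((cC (-153) 25) * v + (cC (102) 125)) * v)) * d + ((cC
    (-102) 25) * v)) * d) * d) * d)) * a

/-- The coefficient of `p e` in `TEGS` at `g = 1`. -/
def eE11 (a d v : Ex) : Ex :=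
  (((((((cC (9) 50) * v) * v) * d + ((cC (9) 50) * v)) * a + (((((cC (9) 25) * v) * v) * d +
    ((cC (9) 25) * v)) * d)) * a + ((((((cC (9) 40) * v) * v) * d + ((cC (9) 40) * v)) * d +
    (((cC (-9) 200) * v) * v)) * d + ((cC (-9) 200) * v))) * a + (((((((cC (9) 200) * v) * v) *
    d + ((cC (9) 200) * v)) * d + (((cC (-9) 200) * v) * v)) * d + ((cC (-9) 200) * v)) * d)) *
    a

/-- The coefficient of `p ^ 2` in `TEGS` at `g = 1`. -/
def eE20 (a d v : Ex) : Ex :=
  ((((((((((cC (9) 200) * v) * v) * v) * d + (((cC (-9) 100) * v) * v)) * d + ((cC (-9) 100) *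
    v)) * a + (((((((cC (63) 400) * v) * v) * v) * d + ((((cC (9) 400) * v + (cC (-63) 200)) *
    v) * v)) * d + (((cC (-63) 2000) * v + (cC (-63) 200)) * v)) * d + ((cC (-63) 2000) * v))) *
    a + ((((((((cC (81) 400) * v) * v) * v) * d + ((((cC (27) 400) * v + (cC (-81) 200)) * v) *
    v)) * d + (((cC (-189) 2000) * v + (cC (-81) 200)) * v)) * d + (((cC (27) 2000) * v + (cC
    (-189) 2000)) * v)) * d + ((cC (27) 2000) * v))) * a + (((((((((cC (9) 80) * v) * v) * v) *
    d + ((((cC (27) 400) * v + (cC (-9) 40)) * v) * v)) * d + (((cC (-729) 8000) * v + (cC (-9)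
    40)) * v)) * d + (((cC (27) 800) * v + (cC (-729) 8000)) * v)) * d + (((cC (27) 8000) * v +
    (cC (27) 800)) * v)) * d + ((cC (27) 8000) * v))) * a + ((((((((((cC (9) 400) * v) * v) * v)
    * d + ((((cC (9) 400) * v + (cC (-9) 200)) * v) * v)) * d + (((cC (-99) 4000) * v + (cC (-9)
    200)) * v)) * d + (((cC (27) 1000) * v + (cC (-99) 4000)) * v)) * d + (((cC (27) 4000) * v +
    (cC (27) 1000)) * v)) * d + ((cC (27) 4000) * v)) * d)) * a + ((((((((cC (27) 8000) * v) *
    v) * d + (((cC (27) 4000) * v + (cC (27) 8000)) * v)) * d + (((cC (27) 8000) * v + (cC (27)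
    4000)) * v)) * d + ((cC (27) 8000) * v)) * d) * d)

theorem Y6_coef {ea ed ev : Ex} {o S t u a d v : ℝ} (ha : ea.val o S t u = a)
    (hd : ed.val o S t u = d) (hv : ev.val o S t u = v) (z e p k w : ℝ) :
    Y6 a d v z e p =
      (eE00 ea ed ev).val o S t u +
        (eE00z ea ed ev).val o S t u * z +
        (eE01 ea ed ev).val o S t u * e +
        (eE10 ea ed ev).val o S t u * p +
        (eE10z ea ed ev).val o S t u * p * z +
        (eE11 ea ed ev).val o S t u * (p * e) +
        (eE20 ea ed ev).val o S t u * p ^ 2 := by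
  simp only [eE00, eE00z, eE01, eE10, eE10z, eE11, eE20, ex_add, ex_mul, Ex.val, ha, hd, hv, Y6,
    Tail.cY00000, Tail.cY00100, Tail.cY01000, Tail.cY01100, Tail.cY02000, Tail.cY10000,
    Tail.cY11000]
  push_cast
  ring

/-- The coefficient of `e` in `g * TMES` at `g = 1`. -/
def eM01 (a d v : Ex) : Ex :=
  ((((((cC (4) 1) * v) * v) * d + ((cC (12) 1) * v)) * d + ((cC (-4) 1) * v + (cC (8) 1))) * a +
    ((((((cC (2) 1) * v) * v) * d + (((cC (-2) 1) * v + (cC (6) 1)) * v)) * d + ((cC (-8) 1) * v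
    + (cC (4) 1))) * d + ((cC (2) 1) * v + (cC (-4) 1)))) * a

/-- The coefficient of `p` in `g * TMES` at `g = 1`. -/
def eM10 (a d v : Ex) : Ex :=
  (((((((((cC (-23) 100) * v) * v) * v) * d + (((cC (-53) 25) * v) * v)) * d + ((cC (-53) 25) *
    v)) * a + (((((((cC (-23) 40) * v) * v) * v) * d + ((((cC (69) 200) * v + (cC (-53) 10)) *
    v) * v)) * d + (((cC (69) 50) * v + (cC (-53) 10)) * v)) * d + ((cC (69) 50) * v))) * a +
    ((((((((cC (-23) 50) * v) * v) * v) * d + ((((cC (69) 100) * v + (cC (-227) 50)) * v) * v))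
    * d + (((cC (69) 25) * v + (cC (-227) 50)) * v)) * d + (((cC (3) 5) * v + (cC (69) 25)) *
    v)) * d + ((cC (3) 10) * v))) * a + (((((((((cC (-23) 200) * v) * v) * v) * d + ((((cC (69)
    200) * v + (cC (-151) 100)) * v) * v)) * d + (((cC (69) 50) * v + (cC (-151) 100)) * v)) * d
    + (((cC (9) 10) * v + (cC (69) 50)) * v)) * d + (((cC (3) 20) * v + (cC (9) 20)) * v)) * d))
    * a + ((((((((cC (-3) 20) * v) * v) * d + ((cC (-3) 20) * v)) * d + (((cC (3) 10) * v) * v))
    * d + (((cC (3) 20) * v + (cC (3) 20)) * v)) * d) * d)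

/-- The coefficient of `p e` in `g * TMES` at `g = 1`. -/
def eM11 (a d v : Ex) : Ex :=
  (((((cC (-2) 1) * v) * d + (cC (-2) 1)) * a + ((((cC (-3) 1) * v) * d + ((cC (1) 1) * v + (cC
    (-3) 1))) * d + (cC (1) 1))) * a + (((((cC (-1) 1) * v) * d + ((cC (1) 1) * v + (cC (-1)
    1))) * d + (cC (1) 1)) * d)) * a

/-- The coefficient of `k` in `g * TMES` at `g = 1`. -/
def eMk (a d v : Ex) : Ex :=
  ((((((cC (-4) 1) * v) * v) * v) * d + (((cC (-8) 1) * v) * v)) * a + ((((((cC (-2) 1) * v) *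
    v) * v) * d + ((((cC (2) 1) * v + (cC (-4) 1)) * v) * v)) * d + (((cC (4) 1) * v) * v))) * a

/-- The coefficient of `w` in `g * TMES` at `g = 1`. -/
def eMw (a d v : Ex) : Ex :=
  ((((((cC (3) 10) * v) * v) * d + ((cC (3) 5) * v)) * a + (((((cC (3) 4) * v) * v) * d + (((cC
    (3) 20) * v + (cC (3) 2)) * v)) * d + ((cC (3) 10) * v))) * a + ((((((cC (3) 5) * v) * v) *
    d + (((cC (3) 10) * v + (cC (6) 5)) * v)) * d + ((cC (3) 5) * v)) * d)) * a + (((((((cC (3)
    20) * v) * v) * d + (((cC (3) 20) * v + (cC (3) 10)) * v)) * d + ((cC (3) 10) * v)) * d) *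
    d)

theorem X6_coef {ea ed ev : Ex} {o S t u a d v : ℝ} (ha : ea.val o S t u = a)
    (hd : ed.val o S t u = d) (hv : ev.val o S t u = v) (z e p k w : ℝ) :
    X6 a d v e p k w =
      (eM01 ea ed ev).val o S t u * e +
        (eM10 ea ed ev).val o S t u * p +
        (eM11 ea ed ev).val o S t u * (p * e) +
        (eMk ea ed ev).val o S t u * k +
        (eMw ea ed ev).val o S t u * w := by
  simp only [eM01, eM10, eM11, eMk, eMw, ex_add, ex_mul, Ex.val, ha, hd, hv, X6, Tail.cX00001,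
    Tail.cX00010, Tail.cX00100, Tail.cX01000, Tail.cX01100]
  push_cast
  ring

/-- The coefficient of `1` in `TMGS` at `g = 1`. -/
def eN00 (a d v : Ex) : Ex :=
  ((((((((((((((((((cC (-147) 10) * v) * v) * v) * v) * v) * d + (((((cC (-1323) 10) * v) * v) *
    v) * v)) * d + ((((((cC (-42) 5) * v) * v + (cC (-2352) 5)) * v) * v) * v)) * d + (((((((cC
    (-529) 5000) * v) * v + (cC (-42) 1)) * v) * v + (cC (-4116) 5)) * v) * v)) * d + ((((((cC
    (-1969) 625) * v) * v + (cC (-336) 5)) * v) * v + (cC (-3528) 5)) * v)) * d + (((((cC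
    (-7587) 625) * v) * v + (cC (-168) 5)) * v) * v + (cC (-1176) 5))) * d + ((((cC (-11236)
    625) * v) * v) * v)) * d + (((cC (-5618) 625) * v) * v)) * a + ((((((((((((((cC (-441) 10) *
    v) * v) * v) * v) * v) * d + ((((((cC (147) 10) * v + (cC (-3969) 10)) * v) * v) * v) * v))
    * d + ((((((cC (-42) 1) * v + (cC (1323) 10)) * v + (cC (-7056) 5)) * v) * v) * v)) * d +
    (((((((cC (-1587) 5000) * v) * v + (cC (-1218) 5)) * v + (cC (2352) 5)) * v + (cC (-12348)
    5)) * v) * v)) * d + (((((((cC (69) 250) * v + (cC (-2907) 625)) * v) * v + (cC (-504) 1)) *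
    v + (cC (4116) 5)) * v + (cC (-10584) 5)) * v)) * d + ((((((cC (-39) 125) * v + (cC (-13761)
    625)) * v) * v + (cC (-2184) 5)) * v + (cC (3528) 5)) * v + (cC (-3528) 5))) * d + (((((cC
    (-1947) 125) * v + (cC (-27708) 625)) * v) * v + (cC (-672) 5)) * v + (cC (1176) 5))) * d +
    ((((cC (-3816) 125) * v + (cC (-16854) 625)) * v) * v)) * d + (((cC (-1908) 125) * v) * v)))
    * a + (((((((((((((((cC (-1911) 40) * v) * v) * v) * v) * v) * d + ((((((cC (147) 4) * v +
    (cC (-17199) 40)) * v) * v) * v) * v)) * d + ((((((cC (-2919) 40) * v + (cC (1323) 4)) * v +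
    (cC (-7644) 5)) * v) * v) * v)) * d + (((((((cC (-1587) 5000) * v + (cC (42) 5)) * v + (cC
    (-18543) 40)) * v + (cC (1176) 1)) * v + (cC (-13377) 5)) * v) * v)) * d + (((((((cC (69)
    125) * v + (cC (-909) 1250)) * v + (cC (294) 5)) * v + (cC (-1092) 1)) * v + (cC (2058) 1))
    * v + (cC (-11466) 5)) * v)) * d + (((((((cC (-9) 50) * v + (cC (9) 10)) * v + (cC (-21297)
    1250)) * v + (cC (756) 5)) * v + (cC (-1155) 1)) * v + (cC (1764) 1)) * v + (cC (-3822) 5)))
    * d + ((((((cC (-273) 125) * v + (cC (-636) 25)) * v + (cC (-35388) 625)) * v + (cC (168)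
    1)) * v + (cC (-2562) 5)) * v + (cC (588) 1))) * d + (((((cC (-9) 25) * v + (cC (-1047) 25))
    * v + (cC (-25194) 625)) * v + (cC (336) 5)) * v + (cC (-294) 5))) * d + ((((cC (456) 125) *
    v) * v) * v)) * d + (((cC (228) 125) * v + (cC (1908) 125)) * v))) * a + ((((((((((((((((cC
    (-441) 20) * v) * v) * v) * v) * v) * d + ((((((cC (147) 5) * v + (cC (-3969) 20)) * v) * v)
    * v) * v)) * d + ((((((cC (-1071) 20) * v + (cC (1323) 5)) * v + (cC (-3528) 5)) * v) * v) *
    v)) * d + (((((((cC (-529) 5000) * v + (cC (84) 5)) * v + (cC (-7287) 20)) * v + (cC (4704)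
    5)) * v + (cC (-6174) 5)) * v) * v)) * d + (((((((cC (69) 250) * v + (cC (-64) 625)) * v +
    (cC (588) 5)) * v + (cC (-4704) 5)) * v + (cC (8232) 5)) * v + (cC (-5292) 5)) * v)) * d +
    (((((((cC (-9) 50) * v + (cC (387) 125)) * v + (cC (-10362) 625)) * v + (cC (1512) 5)) * v +
    (cC (-1134) 1)) * v + (cC (7056) 5)) * v + (cC (-1764) 5))) * d + ((((((cC (-321) 125) * v +
    (cC (-744) 125)) * v + (cC (-32596) 625)) * v + (cC (336) 1)) * v + (cC (-3108) 5)) * v +
    (cC (2352) 5))) * d + ((((((cC (9) 25) * v + (cC (36) 25)) * v + (cC (438) 125)) * v + (cC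
    (-22298) 625)) * v + (cC (672) 5)) * v + (cC (-588) 5))) * d + (((((cC (63) 25) * v + (cC
    (192) 125)) * v + (cC (5454) 125)) * v) * v)) * d + ((((cC (108) 25) * v + (cC (-894) 125))
    * v + (cC (3816) 125)) * v)) * d + (((cC (54) 25) * v + (cC (-108) 25)) * v))) * a +
    (((((((((((((((((cC (-147) 40) * v) * v) * v) * v) * v) * d + ((((((cC (147) 20) * v + (cC
    (-1323) 40)) * v) * v) * v) * v)) * d + ((((((cC (-567) 40) * v + (cC (1323) 20)) * v + (cC
    (-588) 5)) * v) * v) * v)) * d + ((((((cC (42) 5) * v + (cC (-819) 8)) * v + (cC (1176) 5))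
    * v + (cC (-1029) 5)) * v) * v)) * d + ((((((cC (-219) 250) * v + (cC (294) 5)) * v + (cC
    (-1428) 5)) * v + (cC (2058) 5)) * v + (cC (-882) 5)) * v)) * d + ((((((cC (471) 250) * v +
    (cC (-48) 5)) * v + (cC (756) 5)) * v + (cC (-1911) 5)) * v + (cC (1764) 5)) * v + (cC
    (-294) 5))) * d + ((((((cC (-48) 125) * v + (cC (444) 125)) * v + (cC (-2781) 125)) * v +
    (cC (168) 1)) * v + (cC (-1218) 5)) * v + (cC (588) 5))) * d + ((((((cC (9) 25) * v + (cC
    (63) 50)) * v + (cC (2082) 125)) * v + (cC (-3381) 250)) * v + (cC (336) 5)) * v + (cC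
    (-294) 5))) * d + (((((cC (18) 5) * v + (cC (-894) 125)) * v + (cC (4086) 125)) * v) * v)) *
    d + (((((cC (-9) 50) * v + (cC (189) 25)) * v + (cC (-2157) 125)) * v + (cC (2178) 125)) *
    v)) * d + ((((cC (-9) 25) * v + (cC (126) 25)) * v + (cC (-216) 25)) * v)) * d + (((cC (-9)
    50) * v + (cC (18) 25)) * v + (cC (-18) 25)))) * a + ((((((((((((cC (-9) 50) * v) * v) * v)
    * v) * d + (((((cC (-9) 25) * v + (cC (-9) 25)) * v) * v) * v)) * d + (((((cC (-27) 50) * v
    + (cC (9) 5)) * v + (cC (-9) 50)) * v) * v)) * d + (((((cC (27) 25) * v + (cC (-126) 25)) *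
    v + (cC (108) 25)) * v) * v)) * d + (((((cC (-9) 50) * v + (cC (81) 25)) * v + (cC (-207)
    25)) * v + (cC (54) 25)) * v)) * d + ((((cC (-9) 25) * v + (cC (72) 25)) * v + (cC (-108)
    25)) * v)) * d + (((cC (-9) 50) * v + (cC (18) 25)) * v + (cC (-18) 25))) * d)) * a

/-- The coefficient of `e` in `TMGS` at `g = 1`. -/
def eN01 (a d v : Ex) : Ex :=
  ((((((((((((((cC (-42) 5) * v) * v) * v) * v) * d + ((((cC (-42) 1) * v) * v) * v)) * d +
    (((((cC (12) 5) * v) * v + (cC (-336) 5)) * v) * v)) * d + ((((cC (-84) 5) * v) * v + (cC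
    (-168) 5)) * v)) * d + (((cC (-192) 5) * v) * v)) * d + ((cC (-96) 5) * v)) * a +
    (((((((((((cC (-84) 5) * v) * v) * v) * v) * d + (((((cC (42) 5) * v + (cC (-84) 1)) * v) *
    v) * v)) * d + (((((cC (12) 5) * v + (cC (42) 1)) * v + (cC (-672) 5)) * v) * v)) * d +
    (((((cC (-12) 5) * v + (cC (-204) 5)) * v + (cC (336) 5)) * v + (cC (-336) 5)) * v)) * d +
    ((((cC (36) 5) * v + (cC (-408) 5)) * v + (cC (168) 5)) * v)) * d + (((cC (144) 5) * v + (cC
    (-192) 5)) * v)) * d + ((cC (96) 5) * v))) * a + ((((((((((((cC (-21) 2) * v) * v) * v) * v)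
    * d + (((((cC (63) 5) * v + (cC (-105) 2)) * v) * v) * v)) * d + (((((cC (-27) 10) * v + (cC
    (63) 1)) * v + (cC (-84) 1)) * v) * v)) * d + (((((cC (-12) 5) * v + (cC (-423) 10)) * v +
    (cC (504) 5)) * v + (cC (-42) 1)) * v)) * d + (((((cC (3) 5) * v + (cC (72) 5)) * v + (cC
    (-72) 1)) * v + (cC (252) 5)) * v)) * d + ((((cC (3) 5) * v + (cC (228) 5)) * v + (cC (-162)
    5)) * v)) * d + (((cC (-24) 5) * v + (cC (144) 5)) * v)) * d + ((cC (-24) 5) * v))) * a +
    (((((((((((((cC (-21) 10) * v) * v) * v) * v) * d + (((((cC (21) 5) * v + (cC (-21) 2)) * v)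
    * v) * v)) * d + (((((cC (-27) 10) * v + (cC (21) 1)) * v + (cC (-84) 5)) * v) * v)) * d +
    ((((cC (-183) 10) * v + (cC (168) 5)) * v + (cC (-42) 5)) * v)) * d + (((((cC (3) 5) * v +
    (cC (36) 5)) * v + (cC (-144) 5)) * v + (cC (84) 5)) * v)) * d + ((((cC (3) 5) * v + (cC
    (84) 5)) * v + (cC (-66) 5)) * v)) * d + (((cC (-24) 5) * v + (cC (48) 5)) * v)) * d + ((cC
    (-24) 5) * v)) * d)) * a) * a

/-- The coefficient of `e ^ 2` in `TMGS` at `g = 1`. -/
def eN02 (a d v : Ex) : Ex :=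
  ((((((((((cC (-6) 5) * v) * v) * v) * d + (((cC (-6) 5) * v) * v)) * d) * d) * a + ((((((((cC
    (-6) 5) * v) * v) * v) * d + ((((cC (6) 5) * v + (cC (-6) 5)) * v) * v)) * d + (((cC (6) 5)
    * v) * v)) * d) * d)) * a + (((((((((cC (-3) 10) * v) * v) * v) * d + ((((cC (3) 5) * v +
    (cC (-3) 10)) * v) * v)) * d + ((((cC (-3) 10) * v + (cC (3) 5)) * v) * v)) * d + (((cC (-3)
    10) * v) * v)) * d) * d)) * a) * a

/-- The coefficient of `p` in `TMGS` at `g = 1`. -/
def eN10 (a d v : Ex) : Ex :=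
  (((((((((((((cC (-18) 25) * v) * v) * v) * v) * d + ((((cC (-18) 25) * v) * v) * v)) * d) * d)
    * a + ((((((((((cC (63) 100) * v) * v) * v) * v) * d + ((((((cC (-69) 1000) * v + (cC (-72)
    25)) * v + (cC (63) 20)) * v) * v) * v)) * d + (((((cC (-3) 20) * v + (cC (-18) 5)) * v +
    (cC (126) 25)) * v) * v)) * d + ((((cC (-1263) 500) * v + (cC (-18) 25)) * v + (cC (63) 25))
    * v)) * d + (((cC (-594) 125) * v) * v)) * d + ((cC (-297) 125) * v))) * a + (((((((((((cC
    (189) 100) * v) * v) * v) * v) * d + ((((((cC (-207) 1000) * v + (cC (-1293) 250)) * v + (cC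
    (189) 20)) * v) * v) * v)) * d + ((((((cC (9) 100) * v + (cC (-81) 100)) * v + (cC (-2169)
    250)) * v + (cC (378) 25)) * v) * v)) * d + (((((cC (-18) 25) * v + (cC (-4329) 500)) * v +
    (cC (-438) 125)) * v + (cC (189) 25)) * v)) * d + ((((cC (-9) 5) * v + (cC (-1872) 125)) *
    v) * v)) * d + (((cC (-36) 25) * v + (cC (-891) 125)) * v)) * d + ((cC (-9) 25) * v))) * a +
    ((((((((((((cC (819) 400) * v) * v) * v) * v) * d + ((((((cC (-207) 1000) * v + (cC (-51)
    10)) * v + (cC (819) 80)) * v) * v) * v)) * d + ((((((cC (9) 50) * v + (cC (-1401) 2000)) *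
    v + (cC (-54) 5)) * v + (cC (819) 50)) * v) * v)) * d + (((((cC (-63) 50) * v + (cC (-18189)
    2000)) * v + (cC (-57) 10)) * v + (cC (819) 100)) * v)) * d + (((((cC (-9) 40) * v + (cC
    (-243) 100)) * v + (cC (-4083) 250)) * v) * v)) * d + ((((cC (63) 200) * v + (cC (-81) 50))
    * v + (cC (-3969) 500)) * v)) * d + (((cC (18) 25) * v) * v)) * d + ((cC (9) 50) * v + (cC
    (9) 25)))) * a + (((((((((((((cC (189) 200) * v) * v) * v) * v) * d + ((((((cC (-69) 1000) *
    v + (cC (-651) 250)) * v + (cC (189) 40)) * v) * v) * v)) * d + ((((((cC (9) 100) * v + (cC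
    (429) 1000)) * v + (cC (-1593) 250)) * v + (cC (189) 25)) * v) * v)) * d + (((((cC (-9) 25)
    * v + (cC (-2319) 1000)) * v + (cC (-471) 125)) * v + (cC (189) 50)) * v)) * d + (((((cC
    (-9) 20) * v + (cC (27) 50)) * v + (cC (-843) 125)) * v) * v)) * d + ((((cC (63) 100) * v +
    (cC (27) 25)) * v + (cC (-999) 250)) * v)) * d + (((cC (36) 25) * v + (cC (27) 25)) * v)) *
    d + ((cC (9) 25) * v + (cC (18) 25))) * d)) * a + ((((((((((((((cC (63) 400) * v) * v) * v)
    * v) * d + (((((cC (-129) 250) * v + (cC (63) 80)) * v) * v) * v)) * d + (((((cC (939) 2000)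
    * v + (cC (-171) 125)) * v + (cC (63) 50)) * v) * v)) * d + (((((cC (9) 50) * v + (cC (1287)
    2000)) * v + (cC (-213) 250)) * v + (cC (63) 100)) * v)) * d + (((((cC (-9) 40) * v + (cC
    (117) 100)) * v + (cC (-159) 250)) * v) * v)) * d + ((((cC (63) 200) * v + (cC (63) 50)) * v
    + (cC (-81) 100)) * v)) * d + (((cC (18) 25) * v + (cC (18) 25)) * v)) * d + ((cC (9) 50) *
    v + (cC (9) 25))) * d) * d)) * a

/-- The coefficient of `p z` in `TMGS` at `g = 1`. -/
def eN10z (a d v : Ex) : Ex :=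
  (((((((((((((cC (-204) 125) * v) * v) * v) * v) * d + ((((cC (-612) 125) * v) * v) * v)) * d +
    (((cC (-408) 125) * v) * v)) * d) * d) * d) * a + (((((((((((cC (-102) 25) * v) * v) * v) *
    v) * d + (((((cC (204) 125) * v + (cC (-306) 25)) * v) * v) * v)) * d + ((((cC (612) 125) *
    v + (cC (-204) 25)) * v) * v)) * d + (((cC (408) 125) * v) * v)) * d) * d) * d)) * a +
    ((((((((((((cC (-408) 125) * v) * v) * v) * v) * d + (((((cC (408) 125) * v + (cC (-1224)
    125)) * v) * v) * v)) * d + ((((cC (1224) 125) * v + (cC (-816) 125)) * v) * v)) * d + (((cC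
    (816) 125) * v) * v)) * d) * d) * d) * d)) * a + (((((((((((((cC (-102) 125) * v) * v) * v)
    * v) * d + (((((cC (204) 125) * v + (cC (-306) 125)) * v) * v) * v)) * d + ((((cC (612) 125)
    * v + (cC (-204) 125)) * v) * v)) * d + (((cC (408) 125) * v) * v)) * d) * d) * d) * d) *
    d)) * a

/-- The coefficient of `p e` in `TMGS` at `g = 1`. -/
def eN11 (a d v : Ex) : Ex :=
  ((((((((((cC (-9) 50) * v) * v) * v) * d + (((cC (-9) 50) * v) * v)) * d) * d) * a +
    ((((((((cC (-9) 25) * v) * v) * v) * d + (((cC (-9) 25) * v) * v)) * d) * d) * d)) * a +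
    (((((((((cC (-9) 40) * v) * v) * v) * d + (((cC (-9) 40) * v) * v)) * d + ((((cC (9) 200) *
    v) * v) * v)) * d + (((cC (9) 200) * v) * v)) * d) * d)) * a + ((((((((((cC (-9) 200) * v) *
    v) * v) * d + (((cC (-9) 200) * v) * v)) * d + ((((cC (9) 200) * v) * v) * v)) * d + (((cC
    (9) 200) * v) * v)) * d) * d) * d)) * a

/-- The coefficient of `p ^ 2` in `TMGS` at `g = 1`. -/
def eN20 (a d v : Ex) : Ex :=
  ((((((((((((cC (-9) 800) * v) * v) * v) * v) * d + ((((cC (153) 4000) * v) * v) * v)) * d +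
    (((cC (-27) 4000) * v) * v)) * d + ((cC (-9) 100) * v)) * d + (cC (-9) 200)) * a +
    ((((((((((cC (-27) 800) * v) * v) * v) * v) * d + ((((cC (459) 4000) * v) * v) * v)) * d +
    ((((cC (-27) 4000) * v + (cC (-81) 4000)) * v) * v)) * d + (((cC (-27) 4000) * v + (cC (-27)
    100)) * v)) * d + (cC (-27) 200)) * d)) * a + (((((((((((cC (-27) 800) * v) * v) * v) * v) *
    d + ((((cC (1809) 16000) * v) * v) * v)) * d + ((((cC (-27) 1600) * v + (cC (-351) 16000)) *
    v) * v)) * d + ((((cC (-27) 16000) * v + (cC (-27) 1600)) * v + (cC (-27) 100)) * v)) * d +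
    (((cC (-27) 16000) * v) * v + (cC (-27) 200))) * d) * d)) * a + ((((((((((((cC (-9) 800) *
    v) * v) * v) * v) * d + ((((cC (279) 8000) * v) * v) * v)) * d + ((((cC (-27) 2000) * v +
    (cC (-81) 8000)) * v) * v)) * d + ((((cC (-27) 8000) * v + (cC (-27) 2000)) * v + (cC (-9)
    100)) * v)) * d + (((cC (-27) 8000) * v) * v + (cC (-9) 200))) * d) * d) * d)) * a +
    (((((((((((cC (-27) 16000) * v) * v) * v) * d + ((((cC (-27) 8000) * v + (cC (-27) 16000)) *
    v) * v)) * d + ((((cC (-27) 16000) * v + (cC (-27) 8000)) * v) * v)) * d + (((cC (-27)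
    16000) * v) * v)) * d) * d) * d) * d)

/-- The coefficient of `k` in `TMGS` at `g = 1`. -/
def eNk (a d v : Ex) : Ex :=
  ((((((((((cC (48) 5) * v) * v) * v) * v) * d + ((((cC (144) 5) * v) * v) * v)) * d + (((cC
    (96) 5) * v) * v)) * a + ((((((((cC (72) 5) * v) * v) * v) * v) * d + (((((cC (-24) 5) * v +
    (cC (216) 5)) * v) * v) * v)) * d + ((((cC (-72) 5) * v + (cC (144) 5)) * v) * v)) * d +
    (((cC (-48) 5) * v) * v))) * a + (((((((((cC (24) 5) * v) * v) * v) * v) * d + (((((cC (-24)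
    5) * v + (cC (72) 5)) * v) * v) * v)) * d + ((((cC (-72) 5) * v + (cC (48) 5)) * v) * v)) *
    d + (((cC (-48) 5) * v) * v)) * d)) * a) * a

/-- The coefficient of `w` in `TMGS` at `g = 1`. -/
def eNw (a d v : Ex) : Ex :=
  ((((((((((cC (-18) 25) * v) * v) * v) * d + (((cC (-54) 25) * v) * v)) * d + ((cC (-36) 25) *
    v)) * a + (((((((cC (-63) 25) * v) * v) * v) * d + ((((cC (9) 25) * v + (cC (-189) 25)) * v)
    * v)) * d + (((cC (27) 25) * v + (cC (-126) 25)) * v)) * d + ((cC (18) 25) * v))) * a +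
    ((((((((cC (-81) 25) * v) * v) * v) * d + ((((cC (27) 25) * v + (cC (-243) 25)) * v) * v)) *
    d + (((cC (81) 25) * v + (cC (-162) 25)) * v)) * d + ((cC (54) 25) * v)) * d)) * a +
    (((((((((cC (-9) 5) * v) * v) * v) * d + ((((cC (27) 25) * v + (cC (-27) 5)) * v) * v)) * d
    + (((cC (81) 25) * v + (cC (-18) 5)) * v)) * d + ((cC (54) 25) * v)) * d) * d)) * a +
    ((((((((((cC (-9) 25) * v) * v) * v) * d + ((((cC (9) 25) * v + (cC (-27) 25)) * v) * v)) *
    d + (((cC (27) 25) * v + (cC (-18) 25)) * v)) * d + ((cC (18) 25) * v)) * d) * d) * d)) * a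

theorem N6_coef {ea ed ev : Ex} {o S t u a d v : ℝ} (ha : ea.val o S t u = a)
    (hd : ed.val o S t u = d) (hv : ev.val o S t u = v) (z e p k w : ℝ) :
    N6 a d v z e p k w =
      (eN00 ea ed ev).val o S t u +
        (eN01 ea ed ev).val o S t u * e +
        (eN02 ea ed ev).val o S t u * e ^ 2 +
        (eN10 ea ed ev).val o S t u * p +
        (eN10z ea ed ev).val o S t u * p * z +
        (eN11 ea ed ev).val o S t u * (p * e) +
        (eN20 ea ed ev).val o S t u * p ^ 2 +
        (eNk ea ed ev).val o S t u * k +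
        (eNw ea ed ev).val o S t u * w := by
  simp only [eN00, eN01, eN02, eN10, eN10z, eN11, eN20, eNk, eNw, ex_add, ex_mul, Ex.val, ha,
    hd, hv, N6, Tail.cN00000, Tail.cN00001, Tail.cN00010, Tail.cN00100, Tail.cN00200,
    Tail.cN01000, Tail.cN01100, Tail.cN02000, Tail.cN11000]
  push_cast
  ring

/-- The coefficient of `1` in `TAS` at `g = 1`. -/
def eA00 (a d v : Ex) : Ex :=
  (((((((((((((((((((cC (-147) 5) * v) * v) * v) * v) * v) * d + (((((cC (-1323) 5) * v) * v) *
    v) * v)) * d + ((((((cC (-84) 5) * v) * v + (cC (-4704) 5)) * v) * v) * v)) * d + (((((((cC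
    (-529) 2500) * v) * v + (cC (-84) 1)) * v) * v + (cC (-8232) 5)) * v) * v)) * d + ((((((cC
    (-3938) 625) * v) * v + (cC (-672) 5)) * v) * v + (cC (-7056) 5)) * v)) * d + (((((cC
    (-15174) 625) * v) * v + (cC (-336) 5)) * v) * v + (cC (-2352) 5))) * d + ((((cC (-22472)
    625) * v) * v) * v)) * d + (((cC (-11236) 625) * v) * v)) * a + ((((((((((((((cC (-1029) 10)
    * v) * v) * v) * v) * v) * d + ((((((cC (147) 10) * v + (cC (-9261) 10)) * v) * v) * v) *
    v)) * d + ((((((cC (-294) 5) * v + (cC (1323) 10)) * v + (cC (-16464) 5)) * v) * v) * v)) *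
    d + (((((((cC (-3703) 5000) * v + (cC (-42) 5)) * v + (cC (-294) 1)) * v + (cC (2352) 5)) *
    v + (cC (-28812) 5)) * v) * v)) * d + (((((((cC (2231) 5000) * v + (cC (-13783) 625)) * v +
    (cC (-42) 1)) * v + (cC (-2352) 5)) * v + (cC (4116) 5)) * v + (cC (-24696) 5)) * v)) * d +
    ((((((cC (-979) 625) * v + (cC (-53109) 625)) * v + (cC (-336) 5)) * v + (cC (-1176) 5)) * v
    + (cC (3528) 5)) * v + (cC (-8232) 5))) * d + (((((cC (-12957) 625) * v + (cC (-78652) 625))
    * v + (cC (-168) 5)) * v) * v + (cC (1176) 5))) * d + ((((cC (-23956) 625) * v + (cC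
    (-39326) 625)) * v) * v)) * d + (((cC (-11978) 625) * v) * v))) * a + (((((((((((((((cC
    (-2793) 20) * v) * v) * v) * v) * v) * d + ((((((cC (441) 10) * v + (cC (-25137) 20)) * v) *
    v) * v) * v)) * d + ((((((cC (-1449) 20) * v + (cC (3969) 10)) * v + (cC (-22344) 5)) * v) *
    v) * v)) * d + (((((((cC (-4761) 5000) * v + (cC (-126) 5)) * v + (cC (-6657) 20)) * v + (cC
    (7056) 5)) * v + (cC (-39102) 5)) * v) * v)) * d + (((((((cC (5313) 5000) * v + (cC (-15816)
    625)) * v + (cC (-126) 1)) * v + (cC (-2016) 5)) * v + (cC (12348) 5)) * v + (cC (-33516)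
    5)) * v)) * d + (((((((cC (-21) 250) * v + (cC (-5217) 625)) * v + (cC (-59058) 625)) * v +
    (cC (-1008) 5)) * v + (cC (462) 5)) * v + (cC (10584) 5)) * v + (cC (-11172) 5))) * d +
    ((((((cC (-723) 125) * v + (cC (-47856) 625)) * v + (cC (-86484) 625)) * v + (cC (-504) 5))
    * v + (cC (1764) 5)) * v + (cC (3528) 5))) * d + (((((cC (-3447) 125) * v + (cC (-88458)
    625)) * v + (cC (-43242) 625)) * v) * v + (cC (588) 5))) * d + ((((cC (-5448) 125) * v + (cC
    (-51834) 625)) * v) * v)) * d + (((cC (-2724) 125) * v + (cC (-1272) 125)) * v))) * a +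
    ((((((((((((((((cC (-735) 8) * v) * v) * v) * v) * v) * d + ((((((cC (1911) 40) * v + (cC
    (-6615) 8)) * v) * v) * v) * v)) * d + ((((((cC (-273) 8) * v + (cC (17199) 40)) * v + (cC
    (-2940) 1)) * v) * v) * v)) * d + (((((((cC (-529) 1000) * v + (cC (-1239) 40)) * v + (cC
    (-777) 8)) * v + (cC (7644) 5)) * v + (cC (-5145) 1)) * v) * v)) * d + (((((((cC (3933)
    5000) * v + (cC (-2033) 250)) * v + (cC (-6783) 40)) * v + (cC (168) 1)) * v + (cC (13377)
    5)) * v + (cC (-4410) 1)) * v)) * d + (((((((cC (3) 250) * v + (cC (-6987) 625)) * v + (cC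
    (-5949) 250)) * v + (cC (-336) 1)) * v + (cC (819) 1)) * v + (cC (11466) 5)) * v + (cC
    (-1470) 1))) * d + (((((((cC (-9) 50) * v + (cC (-2619) 250)) * v + (cC (-117027) 1250)) * v
    + (cC (-3916) 125)) * v + (cC (-315) 1)) * v + (cC (882) 1)) * v + (cC (3822) 5))) * d +
    ((((((cC (-183) 125) * v + (cC (-5244) 125)) * v + (cC (-111003) 625)) * v + (cC (-1958)
    125)) * v + (cC (-882) 5)) * v + (cC (294) 1))) * d + (((((cC (-27) 25) * v + (cC (-4551)
    125)) * v + (cC (-74514) 625)) * v) * v + (cC (-294) 5))) * d + ((((cC (96) 125) * v + (cC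
    (684) 25)) * v + (cC (-636) 25)) * v)) * d + (((cC (48) 125) * v + (cC (4092) 125)) * v))) *
    a + (((((((((((((((((cC (-147) 5) * v) * v) * v) * v) * v) * d + ((((((cC (441) 20) * v +
    (cC (-1323) 5)) * v) * v) * v) * v)) * d + ((((((cC (-21) 10) * v + (cC (3969) 20)) * v +
    (cC (-4704) 5)) * v) * v) * v)) * d + (((((((cC (-529) 5000) * v + (cC (-399) 20)) * v + (cC
    (483) 10)) * v + (cC (3528) 5)) * v + (cC (-8232) 5)) * v) * v)) * d + (((((((cC (851) 5000)
    * v + (cC (1841) 625)) * v + (cC (-2583) 20)) * v + (cC (336) 1)) * v + (cC (6174) 5)) * v +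
    (cC (-7056) 5)) * v)) * d + (((((((cC (12) 125) * v + (cC (-2464) 625)) * v + (cC (10638)
    625)) * v + (cC (-336) 1)) * v + (cC (756) 1)) * v + (cC (5292) 5)) * v + (cC (-2352) 5))) *
    d + (((((((cC (-9) 50) * v + (cC (-126) 25)) * v + (cC (-26412) 625)) * v + (cC (17594)
    625)) * v + (cC (-462) 1)) * v + (cC (3528) 5)) * v + (cC (1764) 5))) * d + ((((((cC (-186)
    125) * v + (cC (-957) 125)) * v + (cC (-54706) 625)) * v + (cC (8797) 625)) * v + (cC
    (-1764) 5)) * v + (cC (1176) 5))) * d + ((((((cC (9) 25) * v + (cC (99) 25)) * v + (cC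
    (5802) 125)) * v + (cC (-43688) 625)) * v) * v + (cC (-588) 5))) * d + (((((cC (54) 25) * v
    + (cC (1902) 125)) * v + (cC (13842) 125)) * v + (cC (-2724) 125)) * v)) * d + ((((cC (18)
    5) * v + (cC (1896) 125)) * v + (cC (7644) 125)) * v)) * d + (((cC (9) 5) * v + (cC (144)
    25)) * v + (cC (-36) 25)))) * a + ((((((((((((((((((cC (-147) 40) * v) * v) * v) * v) * v) *
    d + ((((((cC (147) 40) * v + (cC (-1323) 40)) * v) * v) * v) * v)) * d + ((((((cC (63) 40) *
    v + (cC (1323) 40)) * v + (cC (-588) 5)) * v) * v) * v)) * d + ((((((cC (-231) 40) * v + (cC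
    (903) 40)) * v + (cC (588) 5)) * v + (cC (-1029) 5)) * v) * v)) * d + ((((((cC (381) 250) *
    v + (cC (-1743) 40)) * v + (cC (504) 5)) * v + (cC (1029) 5)) * v + (cC (-882) 5)) * v)) * d
    + ((((((cC (57) 125) * v + (cC (171) 25)) * v + (cC (-672) 5)) * v + (cC (987) 5)) * v + (cC
    (882) 5)) * v + (cC (-294) 5))) * d + ((((((cC (-87) 250) * v + (cC (-717) 125)) * v + (cC
    (1329) 125)) * v + (cC (-1071) 5)) * v + (cC (882) 5)) * v + (cC (294) 5))) * d + ((((((cC
    (-3) 125) * v + (cC (363) 50)) * v + (cC (-2001) 125)) * v + (cC (1329) 250)) * v + (cC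
    (-882) 5)) * v + (cC (294) 5))) * d + ((((((cC (9) 25) * v + (cC (63) 10)) * v + (cC (216)
    5)) * v + (cC (-4197) 250)) * v) * v + (cC (-294) 5))) * d + (((((cC (81) 50) * v + (cC
    (2301) 125)) * v + (cC (8463) 125)) * v + (cC (-906) 125)) * v)) * d + (((((cC (-9) 50) * v
    + (cC (18) 25)) * v + (cC (2343) 125)) * v + (cC (3822) 125)) * v)) * d + ((((cC (-9) 25) *
    v + (cC (-27) 10)) * v + (cC (162) 25)) * v + (cC (-54) 25))) * d + (((cC (-9) 50) * v + (cC
    (-54) 25)) * v + (cC (-18) 25)))) * a + (((((((((((((cC (-9) 50) * v) * v) * v) * v) * d +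
    (((((cC (-63) 50) * v + (cC (-9) 25)) * v) * v) * v)) * d + (((((cC (27) 50) * v + (cC (-72)
    25)) * v + (cC (-9) 50)) * v) * v)) * d + (((((cC (63) 50) * v + (cC (99) 25)) * v + (cC
    (-117) 50)) * v) * v)) * d + (((((cC (-27) 50) * v + (cC (99) 25)) * v + (cC (153) 25)) * v
    + (cC (-18) 25)) * v)) * d + (((((cC (-9) 50) * v + (cC (-72) 25)) * v + (cC (99) 25)) * v +
    (cC (54) 25)) * v)) * d + ((((cC (-9) 25) * v + (cC (-9) 2)) * v + (cC (18) 25)) * v + (cC
    (-18) 25))) * d + (((cC (-9) 50) * v + (cC (-54) 25)) * v + (cC (-18) 25))) * d)) * a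

/-- The coefficient of `e` in `TAS` at `g = 1`. -/
def eA01 (a d v : Ex) : Ex :=
  (((((((((((((((cC (84) 5) * v) * v) * v) * v) * d + ((((cC (84) 1) * v) * v) * v)) * d +
    (((((cC (24) 5) * v) * v + (cC (672) 5)) * v) * v)) * d + ((((cC (24) 5) * v) * v + (cC
    (336) 5)) * v)) * d) * d) * a + (((((((((((cC (42) 1) * v) * v) * v) * v) * d + (((((cC
    (-126) 5) * v + (cC (210) 1)) * v) * v) * v)) * d + (((((cC (12) 1) * v + (cC (-126) 1)) * v
    + (cC (336) 1)) * v) * v)) * d + (((((cC (-84) 5) * v + (cC (12) 1)) * v + (cC (-1008) 5)) *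
    v + (cC (168) 1)) * v)) * d + ((((cC (-36) 1) * v) * v + (cC (-504) 5)) * v)) * d + (((cC
    (-192) 5) * v) * v)) * d + ((cC (-96) 5) * v))) * a + ((((((((((((cC (189) 5) * v) * v) * v)
    * v) * d + (((((cC (-252) 5) * v + (cC (189) 1)) * v) * v) * v)) * d + (((((cC (117) 5) * v
    + (cC (-252) 1)) * v + (cC (1512) 5)) * v) * v)) * d + (((((cC (-156) 5) * v + (cC (369) 5))
    * v + (cC (-2016) 5)) * v + (cC (756) 5)) * v)) * d + (((((cC (6) 1) * v + (cC (-324) 5)) *
    v + (cC (504) 5)) * v + (cC (-1008) 5)) * v)) * d + ((((cC (78) 5) * v + (cC (-72) 1)) * v +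
    (cC (252) 5)) * v)) * d + (((cC (144) 5) * v + (cC (-192) 5)) * v)) * d + ((cC (96) 5) *
    v))) * a + (((((((((((((cC (147) 10) * v) * v) * v) * v) * d + (((((cC (-63) 2) * v + (cC
    (147) 2)) * v) * v) * v)) * d + (((((cC (231) 10) * v + (cC (-315) 2)) * v + (cC (588) 5)) *
    v) * v)) * d + (((((cC (-39) 2) * v + (cC (987) 10)) * v + (cC (-252) 1)) * v + (cC (294)
    5)) * v)) * d + (((((cC (39) 5) * v + (cC (-447) 10)) * v + (cC (756) 5)) * v + (cC (-126)
    1)) * v)) * d + (((((cC (3) 5) * v + (cC (99) 5)) * v + (cC (-288) 5)) * v + (cC (378) 5)) *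
    v)) * d + ((((cC (3) 5) * v + (cC (204) 5)) * v + (cC (-162) 5)) * v)) * d + (((cC (-24) 5)
    * v + (cC (144) 5)) * v)) * d + ((cC (-24) 5) * v))) * a + ((((((((((((((cC (21) 10) * v) *
    v) * v) * v) * d + (((((cC (-63) 10) * v + (cC (21) 2)) * v) * v) * v)) * d + (((((cC (69)
    10) * v + (cC (-63) 2)) * v + (cC (84) 5)) * v) * v)) * d + (((((cC (-51) 10) * v + (cC
    (321) 10)) * v + (cC (-252) 5)) * v + (cC (42) 5)) * v)) * d + (((((cC (9) 5) * v + (cC
    (-159) 10)) * v + (cC (252) 5)) * v + (cC (-126) 5)) * v)) * d + (((((cC (3) 5) * v + (cC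
    (21) 5)) * v + (cC (-24) 1)) * v + (cC (126) 5)) * v)) * d + ((((cC (3) 5) * v + (cC (12)
    1)) * v + (cC (-66) 5)) * v)) * d + (((cC (-24) 5) * v + (cC (48) 5)) * v)) * d + ((cC (-24)
    5) * v)) * d)) * a) * a

/-- The coefficient of `e ^ 2` in `TAS` at `g = 1`. -/
def eA02 (a d v : Ex) : Ex :=
  (((((((((((cC (-12) 5) * v) * v) * v) * d + (((cC (-12) 5) * v) * v)) * d) * d) * a +
    ((((((((cC (-18) 5) * v) * v) * v) * d + ((((cC (6) 5) * v + (cC (-18) 5)) * v) * v)) * d +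
    (((cC (6) 5) * v) * v)) * d) * d)) * a + (((((((((cC (-9) 5) * v) * v) * v) * d + ((((cC (6)
    5) * v + (cC (-9) 5)) * v) * v)) * d + ((((cC (3) 5) * v + (cC (6) 5)) * v) * v)) * d +
    (((cC (3) 5) * v) * v)) * d) * d)) * a + ((((((((((cC (-3) 10) * v) * v) * v) * d + ((((cC
    (3) 10) * v + (cC (-3) 10)) * v) * v)) * d + ((((cC (3) 10) * v + (cC (3) 10)) * v) * v)) *
    d + ((((cC (-3) 10) * v + (cC (3) 10)) * v) * v)) * d + (((cC (-3) 10) * v) * v)) * d) * d))
    * a) * a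

/-- The coefficient of `p` in `TAS` at `g = 1`. -/
def eA10 (a d v : Ex) : Ex :=
  (((((((((((((((cC (63) 50) * v) * v) * v) * v) * d + ((((((cC (-69) 500) * v) * v + (cC (63)
    10)) * v) * v) * v)) * d + (((((cC (-339) 250) * v) * v + (cC (252) 25)) * v) * v)) * d +
    ((((cC (297) 250) * v) * v + (cC (126) 25)) * v)) * d + (((cC (636) 125) * v) * v)) * d +
    ((cC (318) 125) * v)) * a + (((((((((((cC (441) 100) * v) * v) * v) * v) * d + ((((((cC
    (-483) 1000) * v + (cC (63) 100)) * v + (cC (441) 20)) * v) * v) * v)) * d + ((((((cC (387)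
    1000) * v + (cC (-2553) 500)) * v + (cC (63) 20)) * v + (cC (882) 25)) * v) * v)) * d +
    (((((cC (-699) 500) * v + (cC (1539) 500)) * v + (cC (126) 25)) * v + (cC (441) 25)) * v)) *
    d + ((((cC (-4071) 500) * v + (cC (2136) 125)) * v + (cC (63) 25)) * v)) * d + (((cC (-1686)
    125) * v + (cC (1113) 125)) * v)) * d + ((cC (-843) 125) * v))) * a + ((((((((((((cC (1197)
    200) * v) * v) * v) * v) * d + ((((((cC (-621) 1000) * v + (cC (189) 100)) * v + (cC (1197)
    40)) * v) * v) * v)) * d + ((((((cC (1071) 1000) * v + (cC (-8439) 1000)) * v + (cC (189)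
    20)) * v + (cC (1197) 25)) * v) * v)) * d + ((((((cC (9) 100) * v + (cC (-2187) 500)) * v +
    (cC (-279) 200)) * v + (cC (378) 25)) * v + (cC (1197) 50)) * v)) * d + (((((cC (-81) 100) *
    v + (cC (-12033) 500)) * v + (cC (2199) 125)) * v + (cC (189) 25)) * v)) * d + ((((cC (-297)
    100) * v + (cC (-4878) 125)) * v + (cC (2637) 250)) * v)) * d + (((cC (-18) 5) * v + (cC
    (-2304) 125)) * v)) * d + ((cC (-36) 25) * v + (cC (18) 25)))) * a + (((((((((((((cC (63)
    16) * v) * v) * v) * v) * d + ((((((cC (-69) 200) * v + (cC (819) 400)) * v + (cC (315) 16))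
    * v) * v) * v)) * d + ((((((cC (981) 1000) * v + (cC (-3081) 400)) * v + (cC (819) 80)) * v
    + (cC (63) 2)) * v) * v)) * d + ((((((cC (9) 50) * v + (cC (-8889) 2000)) * v + (cC (-3717)
    400)) * v + (cC (819) 50)) * v + (cC (63) 4)) * v)) * d + (((((cC (-81) 40) * v + (cC
    (-9333) 400)) * v + (cC (63) 25)) * v + (cC (819) 100)) * v)) * d + (((((cC (-9) 40) * v +
    (cC (-279) 40)) * v + (cC (-1911) 50)) * v + (cC (411) 100)) * v)) * d + ((((cC (-81) 200) *
    v + (cC (-81) 10)) * v + (cC (-8541) 500)) * v)) * d + ((cC (-27) 10) * v + (cC (9) 5))) * d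
    + ((cC (9) 50) * v + (cC (9) 25)))) * a + ((((((((((((((cC (63) 50) * v) * v) * v) * v) * d
    + ((((((cC (-69) 1000) * v + (cC (189) 200)) * v + (cC (63) 10)) * v) * v) * v)) * d +
    ((((((cC (297) 1000) * v + (cC (-933) 250)) * v + (cC (189) 40)) * v + (cC (252) 25)) * v) *
    v)) * d + ((((((cC (9) 100) * v + (cC (-1359) 1000)) * v + (cC (-2007) 250)) * v + (cC (189)
    25)) * v + (cC (126) 25)) * v)) * d + (((((cC (-81) 50) * v + (cC (-1407) 200)) * v + (cC
    (-603) 125)) * v + (cC (189) 50)) * v)) * d + (((((cC (-9) 20) * v + (cC (-126) 25)) * v +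
    (cC (-333) 25)) * v + (cC (-66) 125)) * v)) * d + ((((cC (-81) 100) * v + (cC (-27) 5)) * v
    + (cC (-1461) 250)) * v)) * d + ((cC (-27) 25) * v + (cC (36) 25))) * d + ((cC (9) 25) * v +
    (cC (18) 25))) * d)) * a + (((((((((((((((cC (63) 400) * v) * v) * v) * v) * d + (((((cC
    (63) 400) * v + (cC (63) 80)) * v) * v) * v)) * d + (((((cC (-1437) 2000) * v + (cC (63)
    80)) * v + (cC (63) 50)) * v) * v)) * d + (((((cC (219) 2000) * v + (cC (-4041) 2000)) * v +
    (cC (63) 50)) * v + (cC (63) 100)) * v)) * d + (((((cC (-81) 200) * v + (cC (747) 2000)) * v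
    + (cC (-219) 125)) * v + (cC (63) 100)) * v)) * d + (((((cC (-9) 40) * v + (cC (-207) 200))
    * v + (cC (-159) 250)) * v + (cC (-9) 20)) * v)) * d + ((((cC (-81) 200) * v + (cC (-9) 10))
    * v + (cC (-9) 20)) * v)) * d + ((cC (9) 50) * v + (cC (9) 25))) * d + ((cC (9) 50) * v +
    (cC (9) 25))) * d) * d)) * a

/-- The coefficient of `p z` in `TAS` at `g = 1`. -/
def eA10z (a d v : Ex) : Ex :=
  (((((((((((((cC (-204) 125) * v) * v) * v) * v) * d + ((((cC (-612) 125) * v) * v) * v)) * d +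
    (((cC (-408) 125) * v) * v)) * d) * d) * d) * a + (((((((((((cC (-102) 25) * v) * v) * v) *
    v) * d + (((((cC (204) 125) * v + (cC (-306) 25)) * v) * v) * v)) * d + ((((cC (612) 125) *
    v + (cC (-204) 25)) * v) * v)) * d + (((cC (408) 125) * v) * v)) * d) * d) * d)) * a +
    ((((((((((((cC (-408) 125) * v) * v) * v) * v) * d + (((((cC (408) 125) * v + (cC (-1224)
    125)) * v) * v) * v)) * d + ((((cC (1224) 125) * v + (cC (-816) 125)) * v) * v)) * d + (((cC
    (816) 125) * v) * v)) * d) * d) * d) * d)) * a + (((((((((((((cC (-102) 125) * v) * v) * v)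
    * v) * d + (((((cC (204) 125) * v + (cC (-306) 125)) * v) * v) * v)) * d + ((((cC (612) 125)
    * v + (cC (-204) 125)) * v) * v)) * d + (((cC (408) 125) * v) * v)) * d) * d) * d) * d) *
    d)) * a

/-- The coefficient of `p e` in `TAS` at `g = 1`. -/
def eA11 (a d v : Ex) : Ex :=
  (((((((((((cC (-9) 25) * v) * v) * v) * d + (((cC (-9) 25) * v) * v)) * d) * d) * a +
    ((((((((cC (-9) 10) * v) * v) * v) * d + ((((cC (-9) 50) * v + (cC (-9) 10)) * v) * v)) * d
    + (((cC (-9) 50) * v) * v)) * d) * d)) * a + (((((((((cC (-81) 100) * v) * v) * v) * d +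
    ((((cC (-9) 25) * v + (cC (-81) 100)) * v) * v)) * d + ((((cC (9) 100) * v + (cC (-9) 25)) *
    v) * v)) * d + (((cC (9) 100) * v) * v)) * d) * d)) * a + ((((((((((cC (-63) 200) * v) * v)
    * v) * d + ((((cC (-9) 40) * v + (cC (-63) 200)) * v) * v)) * d + ((((cC (27) 200) * v + (cC
    (-9) 40)) * v) * v)) * d + ((((cC (9) 200) * v + (cC (27) 200)) * v) * v)) * d + (((cC (9)
    200) * v) * v)) * d) * d)) * a + (((((((((((cC (-9) 200) * v) * v) * v) * d + ((((cC (-9)
    200) * v + (cC (-9) 200)) * v) * v)) * d + ((((cC (9) 200) * v + (cC (-9) 200)) * v) * v)) *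
    d + ((((cC (9) 200) * v + (cC (9) 200)) * v) * v)) * d + (((cC (9) 200) * v) * v)) * d) * d)
    * d)) * a

/-- The coefficient of `p ^ 2` in `TAS` at `g = 1`. -/
def eA20 (a d v : Ex) : Ex :=
  (((((((((((((cC (-9) 400) * v) * v) * v) * v) * d + ((((cC (153) 2000) * v) * v) * v)) * d +
    (((cC (-27) 2000) * v) * v)) * d + ((cC (-9) 50) * v)) * d + (cC (-9) 100)) * a +
    ((((((((((cC (-63) 800) * v) * v) * v) * v) * d + (((((cC (-9) 800) * v + (cC (1071) 4000))
    * v) * v) * v)) * d + ((((cC (99) 4000) * v + (cC (-189) 4000)) * v) * v)) * d + (((cC (-81)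
    4000) * v + (cC (-63) 100)) * v)) * d + ((cC (-9) 100) * v + (cC (-63) 200))) * d + (cC (-9)
    200))) * a + (((((((((((cC (-81) 800) * v) * v) * v) * v) * d + (((((cC (-27) 800) * v + (cC
    (2727) 8000)) * v) * v) * v)) * d + ((((cC (297) 4000) * v + (cC (-513) 8000)) * v) * v)) *
    d + ((((cC (-81) 8000) * v + (cC (-243) 4000)) * v + (cC (-81) 100)) * v)) * d + (((cC (-81)
    8000) * v + (cC (-27) 100)) * v + (cC (-81) 200))) * d + (cC (-27) 200)) * d)) * a +
    ((((((((((((cC (-9) 160) * v) * v) * v) * v) * d + (((((cC (-27) 800) * v + (cC (117) 640))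
    * v) * v) * v)) * d + ((((cC (1107) 16000) * v + (cC (-27) 640)) * v) * v)) * d + ((((cC
    (-81) 3200) * v + (cC (-1053) 16000)) * v + (cC (-9) 20)) * v)) * d + ((((cC (-27) 16000) *
    v + (cC (-81) 3200)) * v + (cC (-27) 100)) * v + (cC (-9) 40))) * d + (((cC (-27) 16000) *
    v) * v + (cC (-27) 200))) * d) * d)) * a + (((((((((((((cC (-9) 800) * v) * v) * v) * v) * d
    + (((((cC (-9) 800) * v + (cC (63) 2000)) * v) * v) * v)) * d + ((((cC (117) 8000) * v + (cC
    (-27) 2000)) * v) * v)) * d + ((((cC (-81) 4000) * v + (cC (-243) 8000)) * v + (cC (-9)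
    100)) * v)) * d + ((((cC (-27) 8000) * v + (cC (-81) 4000)) * v + (cC (-9) 100)) * v + (cC
    (-9) 200))) * d + (((cC (-27) 8000) * v) * v + (cC (-9) 200))) * d) * d) * d)) * a +
    ((((((((((((cC (-27) 16000) * v) * v) * v) * d + ((((cC (-81) 16000) * v + (cC (-27) 16000))
    * v) * v)) * d + ((((cC (-81) 16000) * v + (cC (-81) 16000)) * v) * v)) * d + ((((cC (-27)
    16000) * v + (cC (-81) 16000)) * v) * v)) * d + (((cC (-27) 16000) * v) * v)) * d) * d) * d)
    * d)

/-- The coefficient of `k` in `TAS` at `g = 1`. -/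
def eAk (a d v : Ex) : Ex :=
  ((((((((((cC (48) 5) * v) * v) * v) * v) * d + ((((cC (144) 5) * v) * v) * v)) * d + (((cC
    (96) 5) * v) * v)) * a + ((((((((cC (72) 5) * v) * v) * v) * v) * d + (((((cC (-24) 5) * v +
    (cC (216) 5)) * v) * v) * v)) * d + ((((cC (-72) 5) * v + (cC (144) 5)) * v) * v)) * d +
    (((cC (-48) 5) * v) * v))) * a + (((((((((cC (24) 5) * v) * v) * v) * v) * d + (((((cC (-24)
    5) * v + (cC (72) 5)) * v) * v) * v)) * d + ((((cC (-72) 5) * v + (cC (48) 5)) * v) * v)) *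
    d + (((cC (-48) 5) * v) * v)) * d)) * a) * a

/-- The coefficient of `w` in `TAS` at `g = 1`. -/
def eAw (a d v : Ex) : Ex :=
  ((((((((((cC (-18) 25) * v) * v) * v) * d + (((cC (-54) 25) * v) * v)) * d + ((cC (-36) 25) *
    v)) * a + (((((((cC (-63) 25) * v) * v) * v) * d + ((((cC (-9) 25) * v + (cC (-189) 25)) *
    v) * v)) * d + (((cC (-27) 25) * v + (cC (-126) 25)) * v)) * d + ((cC (-18) 25) * v))) * a +
    ((((((((cC (-81) 25) * v) * v) * v) * d + ((((cC (-27) 25) * v + (cC (-243) 25)) * v) * v))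
    * d + (((cC (-81) 25) * v + (cC (-162) 25)) * v)) * d + ((cC (-54) 25) * v)) * d)) * a +
    (((((((((cC (-9) 5) * v) * v) * v) * d + ((((cC (-27) 25) * v + (cC (-27) 5)) * v) * v)) * d
    + (((cC (-81) 25) * v + (cC (-18) 5)) * v)) * d + ((cC (-54) 25) * v)) * d) * d)) * a +
    ((((((((((cC (-9) 25) * v) * v) * v) * d + ((((cC (-9) 25) * v + (cC (-27) 25)) * v) * v)) *
    d + (((cC (-27) 25) * v + (cC (-18) 25)) * v)) * d + ((cC (-18) 25) * v)) * d) * d) * d)) *
    a

theorem T6_coef {ea ed ev : Ex} {o S t u a d v : ℝ} (ha : ea.val o S t u = a)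
    (hd : ed.val o S t u = d) (hv : ev.val o S t u = v) (z e p k w : ℝ) :
    T6 a d v z e p k w =
      (eA00 ea ed ev).val o S t u +
        (eA01 ea ed ev).val o S t u * e +
        (eA02 ea ed ev).val o S t u * e ^ 2 +
        (eA10 ea ed ev).val o S t u * p +
        (eA10z ea ed ev).val o S t u * p * z +
        (eA11 ea ed ev).val o S t u * (p * e) +
        (eA20 ea ed ev).val o S t u * p ^ 2 +
        (eAk ea ed ev).val o S t u * k +
        (eAw ea ed ev).val o S t u * w := by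
  simp only [eA00, eA01, eA02, eA10, eA10z, eA11, eA20, eAk, eAw, ex_add, ex_mul, Ex.val, ha,
    hd, hv, T6, Tail.cT00000, Tail.cT00001, Tail.cT00010, Tail.cT00100, Tail.cT00200,
    Tail.cT01000, Tail.cT01100, Tail.cT02000, Tail.cT11000]
  push_cast
  ring

end Vale.Agent.P100.Calib.Closed.Six.End
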