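import Vale.Agent.P100.Calib.SlabSixEndCoef
import Vale.Agent.P100.Calib.SlabBotExpr

/-!
# Expressions of the end certificate of dimension six

With `X = g W`, the forms times `u` are polynomials in `(X, u)`, and for small `X`, with
`g = φ X`, in `(X, u, φ)`; their coefficients are rational in `(r, d, v)`, `r = 3 S - 2`, and
depend on `z` through few of them. Each coefficient times `Δ ^ 2`, `Δ = S (1 - S) be (2 + d v)`,
is a polynomial, and a surrogate of low degree with a certified error replaces it.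
-/

set_option linter.unusedVariables false

namespace Vale.Agent.P100.Calib.Closed.Six.End

open BoxPos
open Bot (T11 T7 T3 T6 P3 T12 U7 E7 P2 C4 C3 Sur L2 Q6 Q10 Q15)

local instance endExprAdd : Add Ex := ⟨Ex.add⟩
local instance endExprSub : Sub Ex := ⟨Ex.sub⟩
local instance endExprMul : Mul Ex := ⟨Ex.mul⟩

/-- `S`. -/
def qS (r : Ex) : Ex := cC 1 3 * (r + cC 2)

/-- `al`. -/
def qA (r d : Ex) : Ex := cC 1 2 * (qS r - d)

/-- `be`. -/
def qB (r d : Ex) : Ex := cC 1 2 * (qS r + d)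

/-- `2 + d v`. -/
def qL (d v : Ex) : Ex := cC 2 + d * v

/-- `1 + d v`. -/
def qP (d v : Ex) : Ex := cC 1 + d * v

/-- `Δ`. -/
def qD (r d v : Ex) : Ex := qS r * (cC 1 - qS r) * qB r d * qL d v

/-- `g E` over `g`, free of `W`. -/
def qY (d v : Ex) : Ex := cC (-1) * (cC 19 10 + v * (cC 7 50 - cC 1 5 * d))

/-- `7/50 - 21/10 d`. -/
def qC (d : Ex) : Ex := cC 7 50 - cC 21 10 * d

/-- `Δ g` at `u = 0`. -/
def qG0 (r d v : Ex) : Ex := cC 4 * qS r * qB r d * qL d v

/-- `Δ g`, the coefficient of `u`. -/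
def qG1 (r d v : Ex) : Ex := cC (-4) * qS r * qS r * qP d v

/-- `Δ g`, the coefficient of `u X`. -/
def qG2 (r d : Ex) : Ex := qS r * qS r * d * qB r d

/-- `Δ κ`. -/
def qK (r d v : Ex) : Ex := qS r * qS r * qB r d * qL d v

/-- `Δ g E`, the coefficient of `u X`. -/
def qYx (r d v : Ex) : Ex := qY d v * qG2 r d - qC d * qK r d v

/-- `Δ g K`, the coefficient of `u X`. -/
def qQx (r d v : Ex) : Ex := qC d * (qG2 r d - d * qK r d v)

/-- `S (1 - S) (1 - S) be (2 + d v) (1 + (1 - al) v)`. -/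
def qV (r d v : Ex) : Ex :=
  qS r * (cC 1 - qS r) * (cC 1 - qS r) * qL d v * (cC 1 + (cC 1 - qA r d) * v)

/-- `Δ ^ 2 (u g W1)` at `u = 0`. -/
def qW0 (r d v : Ex) : Ex := cC 4 * qB r d * qL d v * qV r d v

/-- `Δ ^ 2 (u g W1)`, the coefficient of `u`. -/
def qW1 (r d v : Ex) : Ex := cC (-4) * qS r * qP d v * qV r d v

/-- `Δ ^ 2 (u g W1)`, minus the coefficient of `X`. -/
def qWk (r d v : Ex) : Ex :=
  (cC 2 - qS r) * qS r * (cC 1 - qS r) * (cC 1 - qS r) * qB r d * qB r d * qL d v * qL d v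

/-- `Δ ^ 2 (g W1)` per `X`, the part free of `g`. -/
def qWc (r d v : Ex) : Ex :=
  qS r * qS r * (cC 1 - qS r) * (cC 1 - qS r) * qB r d * qL d v * qL d v *
    (qA r d - (cC 1 - qA r d) * d * v)

/-- `Δ ^ 2 (u g W1)`, the coefficient of `u X`. -/
def qWx (r d v : Ex) : Ex := qWc r d v + d * qS r * qB r d * qV r d v

/-- `Δ ^ 2 (u g W1)` per `g`. -/
def qWg (r d v : Ex) : Ex := (cC 1 - qS r) * qB r d * qL d v * qV r d v

/-- The exact data of `u TA` or `u TMG` from the coefficients at `g = 1`. -/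
def ex11 (c00 c10 c20 c01 c11 c02 ck cw : Ex → Ex → Ex → Ex) (r d v : Ex) : T11 Ex :=
  let a := qA r d
  let D := qD r d v
  let y0 := qY d v * qG0 r d v
  let y1 := qY d v * qG1 r d v
  let yx := qYx r d v
  { c00 := cw a d v * qW0 r d v
    c10 := cC (-1) * cw a d v * qWk r d v
    c01 := c00 a d v * D * D + c01 a d v * D * y0 + c02 a d v * y0 * y0 +
      ck a d v * D * qC d * qG0 r d v + cw a d v * qW1 r d v
    c11 := c10 a d v * D * D + c11 a d v * D * y0 + cw a d v * qWx r d v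
    c21 := c20 a d v * D * D
    c02 := c01 a d v * D * y1 + cC 2 * c02 a d v * y0 * y1 + ck a d v * D * qC d * qG1 r d v
    c12 := c01 a d v * D * yx + c11 a d v * D * y1 + cC 2 * c02 a d v * y0 * yx +
      ck a d v * D * qQx r d v
    c22 := c11 a d v * D * yx
    c03 := c02 a d v * y1 * y1
    c13 := cC 2 * c02 a d v * y1 * yx
    c23 := c02 a d v * yx * yx }

/-- The exact data of `u TA`. -/
def exA (z r d v : Ex) : T11 Ex :=
  ex11 eA00 (fun a d v => eA10 a d v + z * eA10z a d v)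
    eA20 eA01 eA11 eA02 eAk eAw r d v

/-- The exact data of `u TMG`. -/
def exN (z r d v : Ex) : T11 Ex :=
  ex11 eN00 (fun a d v => eN10 a d v + z * eN10z a d v)
    eN20 eN01 eN11 eN02 eNk eNw r d v

/-- The exact data of `u g TME`. -/
def exM (r d v : Ex) : T7 Ex :=
  let a := qA r d
  let D := qD r d v
  let y0 := qY d v * qG0 r d v
  let y1 := qY d v * qG1 r d v
  let yx := qYx r d v
  { c00 := eMw a d v * qW0 r d v
    c10 := cC (-1) * eMw a d v * qWk r d v
    c01 := eM01 a d v * D * y0 + eMk a d v * D * qC d * qG0 r d v + eMw a d v * qW1 r d v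
    c11 := eM10 a d v * D * D + eM11 a d v * D * y0 + eMw a d v * qWx r d v
    c02 := eM01 a d v * D * y1 + eMk a d v * D * qC d * qG1 r d v
    c12 := eM01 a d v * D * yx + eM11 a d v * D * y1 + eMk a d v * D * qQx r d v
    c22 := eM11 a d v * D * yx }

/-- The exact data of `GG`. -/
def exG (z r d v : Ex) : T3 Ex :=
  let a := qA r d
  let D := qD r d v
  ⟨(eG00 a d v + z * (eG00z a d v + z * eG00zz a d v)) * D * D,
    (eG10 a d v + z * eG10z a d v) * D * D, eG20 a d v * D * D⟩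

/-- The exact data of `EG`. -/
def exE (z r d v : Ex) : T6 Ex :=
  let a := qA r d
  let D := qD r d v
  let y0 := qY d v * qG0 r d v
  let y1 := qY d v * qG1 r d v
  let yx := qYx r d v
  { c00 := (eE00 a d v + z * eE00z a d v) * D * D + eE01 a d v * D * y0
    c01 := eE01 a d v * D * y1
    c10 := (eE10 a d v + z * eE10z a d v) * D * D + eE11 a d v * D * y0
    c11 := eE01 a d v * D * yx + eE11 a d v * D * y1
    c20 := eE20 a d v * D * D
    c21 := eE11 a d v * D * yx }

/-- The exact data of the product of the signs. -/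
def exP (r d v : Ex) : P3 Ex :=
  let o := cC (-1) * (cC 1 - qS r) * qD r d v
  ⟨o * qY d v * qG0 r d v, o * qY d v * qG1 r d v, o * qYx r d v⟩

/-- The exact data of `u TA` or `u TMG` in `(X, u, φ)`. -/
def ex12 (c00 c10 c20 c01 c11 c02 ck cw : Ex → Ex → Ex → Ex) (r d v : Ex) : T12 Ex :=
  let a := qA r d
  let D := qD r d v
  let yf := qY d v * D
  let yu := cC (-1) * qC d * qK r d v
  { c010 := c00 a d v * D * D
    c100 := cC (-1) * cw a d v * qWk r d v
    c101 := cw a d v * qWg r d v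
    c110 := c10 a d v * D * D + cw a d v * qWc r d v
    c111 := c01 a d v * D * yf + ck a d v * D * D * qC d
    c120 := c01 a d v * D * yu + ck a d v * D * d * yu
    c210 := c20 a d v * D * D
    c211 := c11 a d v * D * yf
    c212 := c02 a d v * yf * yf
    c220 := c11 a d v * D * yu
    c221 := cC 2 * c02 a d v * yf * yu
    c230 := c02 a d v * yu * yu }

/-- The exact data of `u TA` in `(X, u, φ)`. -/
def exA' (z r d v : Ex) : T12 Ex :=
  ex12 eA00 (fun a d v => eA10 a d v + z * eA10z a d v)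
    eA20 eA01 eA11 eA02 eAk eAw r d v

/-- The exact data of `u TMG` in `(X, u, φ)`. -/
def exN' (z r d v : Ex) : T12 Ex :=
  ex12 eN00 (fun a d v => eN10 a d v + z * eN10z a d v)
    eN20 eN01 eN11 eN02 eNk eNw r d v

/-- The exact data of `u g TME / X`. -/
def exM' (r d v : Ex) : U7 Ex :=
  let a := qA r d
  let D := qD r d v
  let yf := qY d v * D
  let yu := cC (-1) * qC d * qK r d v
  { m00 := cC (-1) * eMw a d v * qWk r d v
    m01 := eMw a d v * qWg r d v
    m10 := eM10 a d v * D * D + eMw a d v * qWc r d v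
    m11 := eM01 a d v * D * yf + eMk a d v * D * D * qC d
    m20 := eM01 a d v * D * yu + eMk a d v * D * d * yu
    n11 := eM11 a d v * D * yf
    n20 := eM11 a d v * D * yu }

/-- The exact data of `EG` in `(X, u, φ)`. -/
def exE' (z r d v : Ex) : E7 Ex :=
  let a := qA r d
  let D := qD r d v
  let yf := qY d v * D
  let yu := cC (-1) * qC d * qK r d v
  { c000 := (eE00 a d v + z * eE00z a d v) * D * D
    c100 := (eE10 a d v + z * eE10z a d v) * D * D
    c101 := eE01 a d v * D * yf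
    c110 := eE01 a d v * D * yu
    c200 := eE20 a d v * D * D
    c201 := eE11 a d v * D * yf
    c210 := eE11 a d v * D * yu }

/-- The exact data of the product of the signs over `X ^ 2`. -/
def exP' (r d v : Ex) : P2 Ex :=
  let o := cC (-1) * (cC 1 - qS r) * qD r d v
  ⟨o * qY d v * qD r d v, cC (-1) * o * qC d * qK r d v⟩

/-- A constant in units of `1/100000000`. -/
def k₈ (n : ℤ) : Ex := cC n 100000000

/-- A row of a surrogate at `v`. -/
def row₄ (c : C4) (v : Ex) : Ex := k₈ c.a + v * (k₈ c.b + v * (k₈ c.c + v * k₈ c.e))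

/-- A short row of a surrogate at `v`. -/
def row₃ (c : C3) (v : Ex) : Ex := k₈ c.a + v * (k₈ c.b + v * k₈ c.c)

/-- A surrogate in units of `1/100000000`, less its error. -/
def sLo (s : Sur) (r d v : Ex) : Ex :=
  row₄ s.p₀ v - k₈ s.eps + d * (row₄ s.p₁ v + d * (row₄ s.p₂ v + d * row₄ s.p₃ v)) +
    r * (row₃ s.q₀ v + d * row₃ s.q₁ v)

/-- A surrogate in units of `1/100000000`, plus its error. -/
def sHi (s : Sur) (r d v : Ex) : Ex :=
  row₄ s.p₀ v + k₈ s.eps + d * (row₄ s.p₁ v + d * (row₄ s.p₂ v + d * row₄ s.p₃ v)) +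
    r * (row₃ s.q₀ v + d * row₃ s.q₁ v)

/-- A constant in units of `1/10000000`. -/
def k₇ (n : ℤ) : Ex := cC n 10000000

/-- A multiplier at the variables `(θ, x, d, w)`. -/
def mulK (q : Q15) : Ex :=
  k₇ q.c + Ex.x₂ * (k₇ q.cd + Ex.x₂ * k₇ q.cdd) +
    Ex.x₃ * (k₇ q.cw + k₇ q.cdw * Ex.x₂ + Ex.x₃ * k₇ q.cww) +
    Ex.x₁ * (k₇ q.cx + k₇ q.cxd * Ex.x₂ + k₇ q.cxw * Ex.x₃ + Ex.x₁ * k₇ q.cxx) +
    Ex.x₀ * (k₇ q.ct + k₇ q.ctd * Ex.x₂ + k₇ q.ctw * Ex.x₃ + k₇ q.ctx * Ex.x₁ + Ex.x₀ * k₇ q.ctt)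

/-- An end of `z`: the lower one is affine in `v`, in units of `1/100000`. -/
def zEnd (zl : L2) (zh : ℤ) : Bool → Ex → Ex
  | false, v => cC zl.c₀ 100000 + v * cC zl.c₁ 100000
  | true, _ => cC zh 1000

/-- Surrogates of the forms in `(X, u)`; `X` is in units of `1 + mu r`. The primed ones are at the
upper end of `z`. -/
structure Group where
  mu : ℤ
  zl : L2
  zh : ℤ
  A : T11 Sur
  M : T7 Sur
  G : T3 Sur
  E : T6 Sur
  P : P3 Sur
  N : T11 Sur
  A' : Sur
  N' : Sur
  E₀' : Sur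
  E₁' : Sur
  G₀' : Sur
  G₁' : Sur

/-- Surrogates of the forms in `(X, u, φ)`. The primed ones are at the upper end of `z`. -/
structure GroupD where
  zh : ℤ
  A : T12 Sur
  M : U7 Sur
  G : T3 Sur
  E : E7 Sur
  P : P2 Sur
  N : T12 Sur
  A' : Sur
  N' : Sur
  E₀' : Sur
  E₁' : Sur
  G₀' : Sur
  G₁' : Sur

/-- `A` at an end of `z`. -/
def Group.tA (g : Group) : Bool → T11 Sur
  | false => g.A
  | true => { g.A with c11 := g.A' }

/-- `N` at an end of `z`. -/
def Group.tN (g : Group) : Bool → T11 Sur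
  | false => g.N
  | true => { g.N with c11 := g.N' }

/-- `EG` at an end of `z`. -/
def Group.tE (g : Group) : Bool → T6 Sur
  | false => g.E
  | true => { g.E with c00 := g.E₀', c10 := g.E₁' }

/-- `GG` at an end of `z`. -/
def Group.tG (g : Group) : Bool → T3 Sur
  | false => g.G
  | true => ⟨g.G₀', g.G₁', g.G.c2⟩

/-- `A` at an end of `z`. -/
def GroupD.tA (g : GroupD) : Bool → T12 Sur
  | false => g.A
  | true => { g.A with c110 := g.A' }

/-- `N` at an end of `z`. -/
def GroupD.tN (g : GroupD) : Bool → T12 Sur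
  | false => g.N
  | true => { g.N with c110 := g.N' }

/-- `EG` at an end of `z`. -/
def GroupD.tE (g : GroupD) : Bool → E7 Sur
  | false => g.E
  | true => { g.E with c000 := g.E₀', c100 := g.E₁' }

/-- `GG` at an end of `z`. -/
def GroupD.tG (g : GroupD) : Bool → T3 Sur
  | false => g.G
  | true => ⟨g.G₀', g.G₁', g.G.c2⟩

end Vale.Agent.P100.Calib.Closed.Six.End
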