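import Vale.Agent.P100.Calib.SlabSixEndReal

/-!
# Bounds of the forms by their surrogates
-/

set_option linter.unusedVariables false
set_option linter.unusedSimpArgs false

namespace Vale.Agent.P100.Calib.Closed.Six.End

open BoxPos
open Large (PosBox)
open Bot (T11 T7 T3 T6 P3 T12 U7 E7 P2 C4 C3 Sur)

local instance endFitAdd : Add Ex := ⟨Ex.add⟩
local instance endFitSub : Sub Ex := ⟨Ex.sub⟩
local instance endFitMul : Mul Ex := ⟨Ex.mul⟩

/-- A power of `1 + mu r`. -/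
def qF (mu : ℤ) : ℕ → Ex
  | 0 => cC 1
  | n + 1 => qF mu n * (cC 1 + cC mu * Ex.x₁)

/-- The upper error of a surrogate. -/
def upEx (s : Sur) (mu : ℤ) (i : ℕ) (C : Ex) : Ex :=
  qD Ex.x₁ Ex.x₂ Ex.x₃ * qD Ex.x₁ Ex.x₂ Ex.x₃ * sHi s Ex.x₁ Ex.x₂ Ex.x₃ - C * qF mu i

/-- The lower error of a surrogate. -/
def downEx (s : Sur) (mu : ℤ) (i : ℕ) (C : Ex) : Ex :=
  C * qF mu i - qD Ex.x₁ Ex.x₂ Ex.x₃ * qD Ex.x₁ Ex.x₂ Ex.x₃ * sLo s Ex.x₁ Ex.x₂ Ex.x₃

/-- A surrogate approximates a coefficient within its error. -/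
structure Fits (b : Box) (mu : ℤ) (i : ℕ) (C : Ex) (s : Sur) : Prop where
  up : PosBox b (upEx s mu i C)
  down : PosBox b (downEx s mu i C)

/-- The lower value of a surrogate. -/
noncomputable def loR (s : Sur) (r d v : ℝ) : ℝ := at3 r d v (sLo s Ex.x₁ Ex.x₂ Ex.x₃)

/-- The upper value of a surrogate. -/
noncomputable def hiR (s : Sur) (r d v : ℝ) : ℝ := at3 r d v (sHi s Ex.x₁ Ex.x₂ Ex.x₃)

theorem val_sLo (s : Sur) (re de ve : Ex) (o x y z : ℝ) :
    (sLo s re de ve).val o x y z = loR s (re.val o x y z) (de.val o x y z) (ve.val o x y z) := by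
  simp only [sLo, loR, at3, row₄, row₃, k₈, ex_add, ex_sub, ex_mul, Ex.val]

theorem val_sHi (s : Sur) (re de ve : Ex) (o x y z : ℝ) :
    (sHi s re de ve).val o x y z = hiR s (re.val o x y z) (de.val o x y z) (ve.val o x y z) := by
  simp only [sHi, hiR, at3, row₄, row₃, k₈, ex_add, ex_sub, ex_mul, Ex.val]

theorem loR_mix (s : Sur) (t R d v : ℝ) :
    loR s (t * R) d v = (1 - t) * loR s 0 d v + t * loR s R d v := by
  simp only [loR, at3, sLo, row₄, row₃, k₈, ex_add, ex_sub, ex_mul, Ex.val]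
  push_cast
  ring

theorem hiR_mix (s : Sur) (t R d v : ℝ) :
    hiR s (t * R) d v = (1 - t) * hiR s 0 d v + t * hiR s R d v := by
  simp only [hiR, at3, sHi, row₄, row₃, k₈, ex_add, ex_sub, ex_mul, Ex.val]
  push_cast
  ring

theorem at3_qF (mu : ℤ) (r d v : ℝ) : ∀ i, at3 r d v (qF mu i) = (1 + mu * r) ^ i
  | 0 => by simp [at3, qF, Ex.val]
  | n + 1 => by
    have h := at3_qF mu r d v n
    simp only [at3] at h
    simp only [at3, qF, ex_add, ex_mul, Ex.val, h]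
    push_cast
    ring

/-- A point of the box of a group. -/
structure InBox (b : Box) (r d v : ℝ) : Prop where
  zero : b.s₀.Mem 0
  hr : b.s₁.Mem r
  hd : b.s₂.Mem d
  hv : b.s₃.Mem v

theorem Fits.bounds {b : Box} {mu : ℤ} {i : ℕ} {C : Ex} {s : Sur} (h : Fits b mu i C s)
    {r d v : ℝ} (p : InBox b r d v) :
    rD r d v ^ 2 * loR s r d v ≤ at3 r d v C * (1 + mu * r) ^ i ∧
      at3 r d v C * (1 + mu * r) ^ i ≤ rD r d v ^ 2 * hiR s r d v := by
  have h1 := h.up 0 r d v p.zero p.hr p.hd p.hv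
  have h2 := h.down 0 r d v p.zero p.hr p.hd p.hv
  have e := at3_qF mu r d v i
  simp only [at3] at e
  simp only [upEx, downEx, ex_sub, ex_mul, e] at h1 h2
  simp only [rD, at3, loR, hiR, sq]
  exact ⟨by linarith, by linarith⟩

/-- The surrogates of a form in `(X, u)`. -/
structure T11Fit (b : Box) (mu : ℤ) (C : T11 Ex) (s : T11 Sur) : Prop where
  c00 : Fits b mu 0 C.c00 s.c00
  c10 : Fits b mu 1 C.c10 s.c10
  c01 : Fits b mu 0 C.c01 s.c01
  c11 : Fits b mu 1 C.c11 s.c11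
  c21 : Fits b mu 2 C.c21 s.c21
  c02 : Fits b mu 0 C.c02 s.c02
  c12 : Fits b mu 1 C.c12 s.c12
  c22 : Fits b mu 2 C.c22 s.c22
  c03 : Fits b mu 0 C.c03 s.c03
  c13 : Fits b mu 1 C.c13 s.c13
  c23 : Fits b mu 2 C.c23 s.c23

/-- The surrogates of `u ME`. -/
structure T7Fit (b : Box) (mu : ℤ) (C : T7 Ex) (s : T7 Sur) : Prop where
  c00 : Fits b mu 0 C.c00 s.c00
  c10 : Fits b mu 1 C.c10 s.c10
  c01 : Fits b mu 0 C.c01 s.c01
  c11 : Fits b mu 1 C.c11 s.c11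
  c02 : Fits b mu 0 C.c02 s.c02
  c12 : Fits b mu 1 C.c12 s.c12
  c22 : Fits b mu 2 C.c22 s.c22

/-- The surrogates of `GG`. -/
structure T3Fit (b : Box) (mu : ℤ) (C : T3 Ex) (s : T3 Sur) : Prop where
  c0 : Fits b mu 0 C.c0 s.c0
  c1 : Fits b mu 1 C.c1 s.c1
  c2 : Fits b mu 2 C.c2 s.c2

/-- The surrogates of `EG`. -/
structure T6Fit (b : Box) (mu : ℤ) (C : T6 Ex) (s : T6 Sur) : Prop where
  c00 : Fits b mu 0 C.c00 s.c00
  c01 : Fits b mu 0 C.c01 s.c01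
  c10 : Fits b mu 1 C.c10 s.c10
  c11 : Fits b mu 1 C.c11 s.c11
  c20 : Fits b mu 2 C.c20 s.c20
  c21 : Fits b mu 2 C.c21 s.c21

/-- The surrogates of the product of the signs. -/
structure P3Fit (b : Box) (mu : ℤ) (C : P3 Ex) (s : P3 Sur) : Prop where
  c10 : Fits b mu 1 C.c10 s.c10
  c11 : Fits b mu 1 C.c11 s.c11
  c21 : Fits b mu 2 C.c21 s.c21

/-- The surrogates of a form in `(X, u, φ)`. -/
structure T12Fit (b : Box) (C : T12 Ex) (s : T12 Sur) : Prop where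
  c010 : Fits b 0 0 C.c010 s.c010
  c100 : Fits b 0 0 C.c100 s.c100
  c101 : Fits b 0 0 C.c101 s.c101
  c110 : Fits b 0 0 C.c110 s.c110
  c111 : Fits b 0 0 C.c111 s.c111
  c120 : Fits b 0 0 C.c120 s.c120
  c210 : Fits b 0 0 C.c210 s.c210
  c211 : Fits b 0 0 C.c211 s.c211
  c212 : Fits b 0 0 C.c212 s.c212
  c220 : Fits b 0 0 C.c220 s.c220
  c221 : Fits b 0 0 C.c221 s.c221
  c230 : Fits b 0 0 C.c230 s.c230

/-- The surrogates of `u ME / X`. -/
structure U7Fit (b : Box) (C : U7 Ex) (s : U7 Sur) : Prop where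
  m00 : Fits b 0 0 C.m00 s.m00
  m01 : Fits b 0 0 C.m01 s.m01
  m10 : Fits b 0 0 C.m10 s.m10
  m11 : Fits b 0 0 C.m11 s.m11
  m20 : Fits b 0 0 C.m20 s.m20
  n11 : Fits b 0 0 C.n11 s.n11
  n20 : Fits b 0 0 C.n20 s.n20

/-- The surrogates of `EG` in `(X, u, φ)`. -/
structure E7Fit (b : Box) (C : E7 Ex) (s : E7 Sur) : Prop where
  c000 : Fits b 0 0 C.c000 s.c000
  c100 : Fits b 0 0 C.c100 s.c100
  c101 : Fits b 0 0 C.c101 s.c101
  c110 : Fits b 0 0 C.c110 s.c110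
  c200 : Fits b 0 0 C.c200 s.c200
  c201 : Fits b 0 0 C.c201 s.c201
  c210 : Fits b 0 0 C.c210 s.c210

/-- The surrogates of the product of the signs over `X ^ 2`. -/
structure P2Fit (b : Box) (C : P2 Ex) (s : P2 Sur) : Prop where
  c01 : Fits b 0 0 C.c01 s.c01
  c10 : Fits b 0 0 C.c10 s.c10

/-- The certified surrogates of a group. -/
structure Group.Fit (b : Box) (Gr : Group) : Prop where
  A : ∀ z, T11Fit b Gr.mu (exA (zEnd Gr.zl Gr.zh z Ex.x₃) Ex.x₁ Ex.x₂ Ex.x₃) (Gr.tA z)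
  M : T7Fit b Gr.mu (exM Ex.x₁ Ex.x₂ Ex.x₃) Gr.M
  G : ∀ z, T3Fit b Gr.mu (exG (zEnd Gr.zl Gr.zh z Ex.x₃) Ex.x₁ Ex.x₂ Ex.x₃) (Gr.tG z)
  E : ∀ z, T6Fit b Gr.mu (exE (zEnd Gr.zl Gr.zh z Ex.x₃) Ex.x₁ Ex.x₂ Ex.x₃) (Gr.tE z)
  P : P3Fit b Gr.mu (exP Ex.x₁ Ex.x₂ Ex.x₃) Gr.P
  N : ∀ z, T11Fit b Gr.mu (exN (zEnd Gr.zl Gr.zh z Ex.x₃) Ex.x₁ Ex.x₂ Ex.x₃) (Gr.tN z)

/-- The certified surrogates of a group, with the forms concave in `φ`. -/
structure GroupD.Fit (b : Box) (Gr : GroupD) : Prop where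
  A : ∀ z, T12Fit b (exA' (zEnd ⟨0, 0⟩ Gr.zh z Ex.x₃) Ex.x₁ Ex.x₂ Ex.x₃) (Gr.tA z)
  M : U7Fit b (exM' Ex.x₁ Ex.x₂ Ex.x₃) Gr.M
  G : ∀ z, T3Fit b 0 (exG (zEnd ⟨0, 0⟩ Gr.zh z Ex.x₃) Ex.x₁ Ex.x₂ Ex.x₃) (Gr.tG z)
  E : ∀ z, E7Fit b (exE' (zEnd ⟨0, 0⟩ Gr.zh z Ex.x₃) Ex.x₁ Ex.x₂ Ex.x₃) (Gr.tE z)
  P : P2Fit b (exP' Ex.x₁ Ex.x₂ Ex.x₃) Gr.P
  N : ∀ z, T12Fit b (exN' (zEnd ⟨0, 0⟩ Gr.zh z Ex.x₃) Ex.x₁ Ex.x₂ Ex.x₃) (Gr.tN z)
  A₂ : PosBox b (cC (-1) * sLo Gr.A.c212 Ex.x₁ Ex.x₂ Ex.x₃)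
  N₂ : PosBox b (cC (-1) * sLo Gr.N.c212 Ex.x₁ Ex.x₂ Ex.x₃)

section
variable {b : Box} {mu : ℤ} {r d v X u f : ℝ} (p : InBox b r d v) (hX : 0 ≤ X) (hu : 0 ≤ u)
include p hX hu

theorem T11Fit.lower {C : T11 Ex} {s : T11 Sur} (h : T11Fit b mu C s) :
    rD r d v ^ 2 * (s.map fun z => loR z r d v).poly X u ≤
      (C.map (at3 r d v)).poly ((1 + mu * r) * X) u := by
  simp only [T11.map, T11.poly]
  have hx1 := mul_nonneg hX hu
  have hx2 := mul_nonneg (sq_nonneg X) hu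
  linarith [(h.c00.bounds p).1, mul_le_mul_of_nonneg_right (h.c10.bounds p).1 hX,
    mul_le_mul_of_nonneg_right (h.c01.bounds p).1 hu,
    mul_le_mul_of_nonneg_right (h.c11.bounds p).1 hx1,
    mul_le_mul_of_nonneg_right (h.c21.bounds p).1 hx2,
    mul_le_mul_of_nonneg_right (h.c02.bounds p).1 (sq_nonneg u),
    mul_le_mul_of_nonneg_right (h.c12.bounds p).1 (mul_nonneg hX (sq_nonneg u)),
    mul_le_mul_of_nonneg_right (h.c22.bounds p).1 (mul_nonneg (sq_nonneg X) (sq_nonneg u)),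
    mul_le_mul_of_nonneg_right (h.c03.bounds p).1 (pow_nonneg hu 3),
    mul_le_mul_of_nonneg_right (h.c13.bounds p).1 (mul_nonneg hX (pow_nonneg hu 3)),
    mul_le_mul_of_nonneg_right (h.c23.bounds p).1 (mul_nonneg (sq_nonneg X) (pow_nonneg hu 3))]

theorem T7Fit.both {C : T7 Ex} {s : T7 Sur} (h : T7Fit b mu C s) :
    rD r d v ^ 2 * (s.map fun z => loR z r d v).poly X u ≤
        (C.map (at3 r d v)).poly ((1 + mu * r) * X) u ∧
      (C.map (at3 r d v)).poly ((1 + mu * r) * X) u ≤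
        rD r d v ^ 2 * (s.map fun z => hiR z r d v).poly X u := by
  simp only [T7.map, T7.poly]
  have hx1 := mul_nonneg hX hu
  constructor
  · linarith [(h.c00.bounds p).1, mul_le_mul_of_nonneg_right (h.c10.bounds p).1 hX,
      mul_le_mul_of_nonneg_right (h.c01.bounds p).1 hu,
      mul_le_mul_of_nonneg_right (h.c11.bounds p).1 hx1,
      mul_le_mul_of_nonneg_right (h.c02.bounds p).1 (sq_nonneg u),
      mul_le_mul_of_nonneg_right (h.c12.bounds p).1 (mul_nonneg hX (sq_nonneg u)),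
      mul_le_mul_of_nonneg_right (h.c22.bounds p).1 (mul_nonneg (sq_nonneg X) (sq_nonneg u))]
  · linarith [(h.c00.bounds p).2, mul_le_mul_of_nonneg_right (h.c10.bounds p).2 hX,
      mul_le_mul_of_nonneg_right (h.c01.bounds p).2 hu,
      mul_le_mul_of_nonneg_right (h.c11.bounds p).2 hx1,
      mul_le_mul_of_nonneg_right (h.c02.bounds p).2 (sq_nonneg u),
      mul_le_mul_of_nonneg_right (h.c12.bounds p).2 (mul_nonneg hX (sq_nonneg u)),
      mul_le_mul_of_nonneg_right (h.c22.bounds p).2 (mul_nonneg (sq_nonneg X) (sq_nonneg u))]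

omit hu in
theorem T3Fit.lower {C : T3 Ex} {s : T3 Sur} (h : T3Fit b mu C s) :
    rD r d v ^ 2 * (s.map fun z => loR z r d v).poly X ≤
      (C.map (at3 r d v)).poly ((1 + mu * r) * X) := by
  simp only [T3.map, T3.poly]
  linarith [(h.c0.bounds p).1, mul_le_mul_of_nonneg_right (h.c1.bounds p).1 hX,
    mul_le_mul_of_nonneg_right (h.c2.bounds p).1 (sq_nonneg X)]

theorem T6Fit.both {C : T6 Ex} {s : T6 Sur} (h : T6Fit b mu C s) :
    rD r d v ^ 2 * (s.map fun z => loR z r d v).poly X u ≤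
        (C.map (at3 r d v)).poly ((1 + mu * r) * X) u ∧
      (C.map (at3 r d v)).poly ((1 + mu * r) * X) u ≤
        rD r d v ^ 2 * (s.map fun z => hiR z r d v).poly X u := by
  simp only [T6.map, T6.poly]
  have hx1 := mul_nonneg hX hu
  constructor
  · linarith [(h.c00.bounds p).1, mul_le_mul_of_nonneg_right (h.c01.bounds p).1 hu,
      mul_le_mul_of_nonneg_right (h.c10.bounds p).1 hX,
      mul_le_mul_of_nonneg_right (h.c11.bounds p).1 hx1,
      mul_le_mul_of_nonneg_right (h.c20.bounds p).1 (sq_nonneg X),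
      mul_le_mul_of_nonneg_right (h.c21.bounds p).1 (mul_nonneg (sq_nonneg X) hu)]
  · linarith [(h.c00.bounds p).2, mul_le_mul_of_nonneg_right (h.c01.bounds p).2 hu,
      mul_le_mul_of_nonneg_right (h.c10.bounds p).2 hX,
      mul_le_mul_of_nonneg_right (h.c11.bounds p).2 hx1,
      mul_le_mul_of_nonneg_right (h.c20.bounds p).2 (sq_nonneg X),
      mul_le_mul_of_nonneg_right (h.c21.bounds p).2 (mul_nonneg (sq_nonneg X) hu)]

theorem P3Fit.lower {C : P3 Ex} {s : P3 Sur} (h : P3Fit b mu C s) :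
    rD r d v ^ 2 * (s.map fun z => loR z r d v).poly X u ≤
      (C.map (at3 r d v)).poly ((1 + mu * r) * X) u := by
  simp only [P3.map, P3.poly]
  linarith [mul_le_mul_of_nonneg_right (h.c10.bounds p).1 hX,
    mul_le_mul_of_nonneg_right (h.c11.bounds p).1 (mul_nonneg hX hu),
    mul_le_mul_of_nonneg_right (h.c21.bounds p).1 (mul_nonneg (sq_nonneg X) hu)]

theorem T12Fit.lower (hf : 0 ≤ f) {C : T12 Ex} {s : T12 Sur} (h : T12Fit b C s) :
    rD r d v ^ 2 * (s.map fun z => loR z r d v).poly X u f ≤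
      (C.map (at3 r d v)).poly X u f := by
  simp only [T12.map, T12.poly]
  have e : ∀ {z : Sur} {K : Ex}, Fits b 0 0 K z → rD r d v ^ 2 * loR z r d v ≤ at3 r d v K :=
    fun hz => by simpa using (hz.bounds p).1
  have hx2 := mul_nonneg (sq_nonneg X) hu
  have hx1 := mul_nonneg hX hu
  linarith [mul_le_mul_of_nonneg_right (e h.c010) hu, mul_le_mul_of_nonneg_right (e h.c100) hX,
    mul_le_mul_of_nonneg_right (e h.c101) (mul_nonneg hX hf),
    mul_le_mul_of_nonneg_right (e h.c110) hx1,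
    mul_le_mul_of_nonneg_right (e h.c111) (mul_nonneg hx1 hf),
    mul_le_mul_of_nonneg_right (e h.c120) (mul_nonneg hX (sq_nonneg u)),
    mul_le_mul_of_nonneg_right (e h.c210) hx2,
    mul_le_mul_of_nonneg_right (e h.c211) (mul_nonneg hx2 hf),
    mul_le_mul_of_nonneg_right (e h.c212) (mul_nonneg hx2 (sq_nonneg f)),
    mul_le_mul_of_nonneg_right (e h.c220) (mul_nonneg hx2 hu),
    mul_le_mul_of_nonneg_right (e h.c221) (mul_nonneg (mul_nonneg hx2 hu) hf),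
    mul_le_mul_of_nonneg_right (e h.c230) (mul_nonneg hx2 (sq_nonneg u))]

theorem U7Fit.both (hf : 0 ≤ f) {C : U7 Ex} {s : U7 Sur} (h : U7Fit b C s) :
    rD r d v ^ 2 * (s.map fun z => loR z r d v).poly X u f ≤ (C.map (at3 r d v)).poly X u f ∧
      (C.map (at3 r d v)).poly X u f ≤
        rD r d v ^ 2 * (s.map fun z => hiR z r d v).poly X u f := by
  simp only [U7.map, U7.poly]
  have e : ∀ {z : Sur} {K : Ex}, Fits b 0 0 K z → rD r d v ^ 2 * loR z r d v ≤ at3 r d v K ∧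
      at3 r d v K ≤ rD r d v ^ 2 * hiR z r d v := fun hz => by simpa using hz.bounds p
  constructor
  · linarith [(e h.m00).1, mul_le_mul_of_nonneg_right (e h.m01).1 hf,
      mul_le_mul_of_nonneg_right (e h.m10).1 hu,
      mul_le_mul_of_nonneg_right (e h.m11).1 (mul_nonneg hu hf),
      mul_le_mul_of_nonneg_right (e h.m20).1 (sq_nonneg u),
      mul_le_mul_of_nonneg_right (e h.n11).1 (mul_nonneg (mul_nonneg hX hu) hf),
      mul_le_mul_of_nonneg_right (e h.n20).1 (mul_nonneg hX (sq_nonneg u))]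
  · linarith [(e h.m00).2, mul_le_mul_of_nonneg_right (e h.m01).2 hf,
      mul_le_mul_of_nonneg_right (e h.m10).2 hu,
      mul_le_mul_of_nonneg_right (e h.m11).2 (mul_nonneg hu hf),
      mul_le_mul_of_nonneg_right (e h.m20).2 (sq_nonneg u),
      mul_le_mul_of_nonneg_right (e h.n11).2 (mul_nonneg (mul_nonneg hX hu) hf),
      mul_le_mul_of_nonneg_right (e h.n20).2 (mul_nonneg hX (sq_nonneg u))]

theorem E7Fit.both (hf : 0 ≤ f) {C : E7 Ex} {s : E7 Sur} (h : E7Fit b C s) :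
    rD r d v ^ 2 * (s.map fun z => loR z r d v).poly X u f ≤ (C.map (at3 r d v)).poly X u f ∧
      (C.map (at3 r d v)).poly X u f ≤
        rD r d v ^ 2 * (s.map fun z => hiR z r d v).poly X u f := by
  simp only [E7.map, E7.poly]
  have e : ∀ {z : Sur} {K : Ex}, Fits b 0 0 K z → rD r d v ^ 2 * loR z r d v ≤ at3 r d v K ∧
      at3 r d v K ≤ rD r d v ^ 2 * hiR z r d v := fun hz => by simpa using hz.bounds p
  constructor
  · linarith [(e h.c000).1, mul_le_mul_of_nonneg_right (e h.c100).1 hX,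
      mul_le_mul_of_nonneg_right (e h.c101).1 (mul_nonneg hX hf),
      mul_le_mul_of_nonneg_right (e h.c110).1 (mul_nonneg hX hu),
      mul_le_mul_of_nonneg_right (e h.c200).1 (sq_nonneg X),
      mul_le_mul_of_nonneg_right (e h.c201).1 (mul_nonneg (sq_nonneg X) hf),
      mul_le_mul_of_nonneg_right (e h.c210).1 (mul_nonneg (sq_nonneg X) hu)]
  · linarith [(e h.c000).2, mul_le_mul_of_nonneg_right (e h.c100).2 hX,
      mul_le_mul_of_nonneg_right (e h.c101).2 (mul_nonneg hX hf),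
      mul_le_mul_of_nonneg_right (e h.c110).2 (mul_nonneg hX hu),
      mul_le_mul_of_nonneg_right (e h.c200).2 (sq_nonneg X),
      mul_le_mul_of_nonneg_right (e h.c201).2 (mul_nonneg (sq_nonneg X) hf),
      mul_le_mul_of_nonneg_right (e h.c210).2 (mul_nonneg (sq_nonneg X) hu)]

omit hX in
theorem P2Fit.lower (hf : 0 ≤ f) {C : P2 Ex} {s : P2 Sur} (h : P2Fit b C s) :
    rD r d v ^ 2 * (s.map fun z => loR z r d v).poly u f ≤ (C.map (at3 r d v)).poly u f := by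
  simp only [P2.map, P2.poly]
  have e : ∀ {z : Sur} {K : Ex}, Fits b 0 0 K z → rD r d v ^ 2 * loR z r d v ≤ at3 r d v K :=
    fun hz => by simpa using (hz.bounds p).1
  linarith [mul_le_mul_of_nonneg_right (e h.c01) hf, mul_le_mul_of_nonneg_right (e h.c10) hu]

end

end Vale.Agent.P100.Calib.Closed.Six.End
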