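import Vale.Agent.P100.Calib.SlabSixEndFit
import Vale.Agent.P100.Calib.SlabSixEndGroupsA

/-!
# The surrogates for `1.07 ≤ v ≤ 2.2`, `0.0 ≤ d ≤ 0.03` are within their errors
-/

-- The checks are definitions, so that they run one after another with little memory.
set_option linter.defProp false

namespace Vale.Agent.P100.Calib.Closed.Six.End

open BoxPos
open Bot (Sur)

open Large (PosBox posBox_of_check)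

local instance endFitA1Add : Add Ex := ⟨Ex.add⟩
local instance endFitA1Sub : Sub Ex := ⟨Ex.sub⟩
local instance endFitA1Mul : Mul Ex := ⟨Ex.mul⟩

/-- The box of the surrogates. -/
def boxA1 : Box := ⟨⟨0, 1, 1⟩, ⟨0, 677, 1000000⟩, ⟨0, 30001, 1000000⟩, ⟨107000, 220001, 100000⟩⟩

def fitA1_A_c00 : Fits boxA1 (0) 0 (exA (zEnd groupA1.zl groupA1.zh false Ex.x₃) Ex.x₁ Ex.x₂ Ex.x₃).c00 (groupA1_A.c00) :=
  ⟨(posBox_of_check (c := ⟨436, ⟨0, 10, 11, 6⟩⟩) (by decide +kernel)),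
    (posBox_of_check (c := ⟨436, ⟨0, 10, 11, 6⟩⟩) (by decide +kernel))⟩

def fitA1_A_c10 : Fits boxA1 (0) 1 (exA (zEnd groupA1.zl groupA1.zh false Ex.x₃) Ex.x₁ Ex.x₂ Ex.x₃).c10 (groupA1_A.c10) :=
  ⟨(posBox_of_check (c := ⟨458, ⟨0, 12, 11, 5⟩⟩) (by decide +kernel)),
    (posBox_of_check (c := ⟨458, ⟨0, 12, 11, 5⟩⟩) (by decide +kernel))⟩

def fitA1_A_c01 : Fits boxA1 (0) 0 (exA (zEnd groupA1.zl groupA1.zh false Ex.x₃) Ex.x₁ Ex.x₂ Ex.x₃).c01 (groupA1_A.c01) :=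
  ⟨(posBox_of_check (c := ⟨631, ⟨0, 13, 18, 8⟩⟩) (by decide +kernel)),
    (posBox_of_check (c := ⟨631, ⟨0, 13, 18, 8⟩⟩) (by decide +kernel))⟩

def fitA1_A_c11 : Fits boxA1 (0) 1 (exA (zEnd groupA1.zl groupA1.zh false Ex.x₃) Ex.x₁ Ex.x₂ Ex.x₃).c11 (groupA1_A.c11) :=
  ⟨(posBox_of_check (c := ⟨566, ⟨0, 13, 15, 7⟩⟩) (by decide +kernel)),
    (posBox_of_check (c := ⟨566, ⟨0, 13, 15, 7⟩⟩) (by decide +kernel))⟩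

def fitA1_A_c11_top : Fits boxA1 (0) 1 (exA (zEnd groupA1.zl groupA1.zh true Ex.x₃) Ex.x₁ Ex.x₂ Ex.x₃).c11 (groupA1.A') :=
  ⟨(posBox_of_check (c := ⟨566, ⟨0, 13, 15, 7⟩⟩) (by decide +kernel)),
    (posBox_of_check (c := ⟨566, ⟨0, 13, 15, 7⟩⟩) (by decide +kernel))⟩

def fitA1_A_c21 : Fits boxA1 (0) 2 (exA (zEnd groupA1.zl groupA1.zh false Ex.x₃) Ex.x₁ Ex.x₂ Ex.x₃).c21 (groupA1_A.c21) :=
  ⟨(posBox_of_check (c := ⟨536, ⟨0, 13, 13, 6⟩⟩) (by decide +kernel)),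
    (posBox_of_check (c := ⟨536, ⟨0, 13, 13, 6⟩⟩) (by decide +kernel))⟩

def fitA1_A_c02 : Fits boxA1 (0) 0 (exA (zEnd groupA1.zl groupA1.zh false Ex.x₃) Ex.x₁ Ex.x₂ Ex.x₃).c02 (groupA1_A.c02) :=
  ⟨(posBox_of_check (c := ⟨562, ⟨0, 11, 15, 7⟩⟩) (by decide +kernel)),
    (posBox_of_check (c := ⟨562, ⟨0, 11, 15, 7⟩⟩) (by decide +kernel))⟩

def fitA1_A_c12 : Fits boxA1 (0) 1 (exA (zEnd groupA1.zl groupA1.zh false Ex.x₃) Ex.x₁ Ex.x₂ Ex.x₃).c12 (groupA1_A.c12) :=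
  ⟨(posBox_of_check (c := ⟨584, ⟨0, 13, 16, 6⟩⟩) (by decide +kernel)),
    (posBox_of_check (c := ⟨584, ⟨0, 13, 16, 6⟩⟩) (by decide +kernel))⟩

def fitA1_A_c22 : Fits boxA1 (0) 2 (exA (zEnd groupA1.zl groupA1.zh false Ex.x₃) Ex.x₁ Ex.x₂ Ex.x₃).c22 (groupA1_A.c22) :=
  ⟨(posBox_of_check (c := ⟨508, ⟨0, 13, 13, 5⟩⟩) (by decide +kernel)),
    (posBox_of_check (c := ⟨508, ⟨0, 13, 13, 5⟩⟩) (by decide +kernel))⟩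

def fitA1_A_c03 : Fits boxA1 (0) 0 (exA (zEnd groupA1.zl groupA1.zh false Ex.x₃) Ex.x₁ Ex.x₂ Ex.x₃).c03 (groupA1_A.c03) :=
  ⟨(posBox_of_check (c := ⟨483, ⟨0, 9, 12, 7⟩⟩) (by decide +kernel)),
    (posBox_of_check (c := ⟨483, ⟨0, 9, 12, 7⟩⟩) (by decide +kernel))⟩

def fitA1_A_c13 : Fits boxA1 (0) 1 (exA (zEnd groupA1.zl groupA1.zh false Ex.x₃) Ex.x₁ Ex.x₂ Ex.x₃).c13 (groupA1_A.c13) :=
  ⟨(posBox_of_check (c := ⟨507, ⟨0, 11, 13, 6⟩⟩) (by decide +kernel)),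
    (posBox_of_check (c := ⟨507, ⟨0, 11, 13, 6⟩⟩) (by decide +kernel))⟩

def fitA1_A_c23 : Fits boxA1 (0) 2 (exA (zEnd groupA1.zl groupA1.zh false Ex.x₃) Ex.x₁ Ex.x₂ Ex.x₃).c23 (groupA1_A.c23) :=
  ⟨(posBox_of_check (c := ⟨528, ⟨0, 13, 14, 5⟩⟩) (by decide +kernel)),
    (posBox_of_check (c := ⟨528, ⟨0, 13, 14, 5⟩⟩) (by decide +kernel))⟩

def fitA1_M_c00 : Fits boxA1 (0) 0 (exM Ex.x₁ Ex.x₂ Ex.x₃).c00 (groupA1_M.c00) :=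
  ⟨(posBox_of_check (c := ⟨370, ⟨0, 8, 8, 5⟩⟩) (by decide +kernel)),
    (posBox_of_check (c := ⟨370, ⟨0, 8, 8, 5⟩⟩) (by decide +kernel))⟩

def fitA1_M_c10 : Fits boxA1 (0) 1 (exM Ex.x₁ Ex.x₂ Ex.x₃).c10 (groupA1_M.c10) :=
  ⟨(posBox_of_check (c := ⟨372, ⟨0, 10, 8, 5⟩⟩) (by decide +kernel)),
    (posBox_of_check (c := ⟨372, ⟨0, 10, 8, 5⟩⟩) (by decide +kernel))⟩

def fitA1_M_c01 : Fits boxA1 (0) 0 (exM Ex.x₁ Ex.x₂ Ex.x₃).c01 (groupA1_M.c01) :=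
  ⟨(posBox_of_check (c := ⟨373, ⟨0, 8, 9, 5⟩⟩) (by decide +kernel)),
    (posBox_of_check (c := ⟨373, ⟨0, 8, 9, 5⟩⟩) (by decide +kernel))⟩

def fitA1_M_c11 : Fits boxA1 (0) 1 (exM Ex.x₁ Ex.x₂ Ex.x₃).c11 (groupA1_M.c11) :=
  ⟨(posBox_of_check (c := ⟨439, ⟨0, 11, 10, 5⟩⟩) (by decide +kernel)),
    (posBox_of_check (c := ⟨439, ⟨0, 11, 10, 5⟩⟩) (by decide +kernel))⟩

def fitA1_M_c02 : Fits boxA1 (0) 0 (exM Ex.x₁ Ex.x₂ Ex.x₃).c02 (groupA1_M.c02) :=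
  ⟨(posBox_of_check (c := ⟨369, ⟨0, 7, 8, 5⟩⟩) (by decide +kernel)),
    (posBox_of_check (c := ⟨369, ⟨0, 7, 8, 5⟩⟩) (by decide +kernel))⟩

def fitA1_M_c12 : Fits boxA1 (0) 1 (exM Ex.x₁ Ex.x₂ Ex.x₃).c12 (groupA1_M.c12) :=
  ⟨(posBox_of_check (c := ⟨408, ⟨0, 9, 9, 5⟩⟩) (by decide +kernel)),
    (posBox_of_check (c := ⟨408, ⟨0, 9, 9, 5⟩⟩) (by decide +kernel))⟩

def fitA1_M_c22 : Fits boxA1 (0) 2 (exM Ex.x₁ Ex.x₂ Ex.x₃).c22 (groupA1_M.c22) :=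
  ⟨(posBox_of_check (c := ⟨393, ⟨0, 11, 9, 5⟩⟩) (by decide +kernel)),
    (posBox_of_check (c := ⟨393, ⟨0, 11, 9, 5⟩⟩) (by decide +kernel))⟩

def fitA1_G_c0 : Fits boxA1 (0) 0 (exG (zEnd groupA1.zl groupA1.zh false Ex.x₃) Ex.x₁ Ex.x₂ Ex.x₃).c0 (groupA1_G.c0) :=
  ⟨(posBox_of_check (c := ⟨614, ⟨0, 13, 16, 9⟩⟩) (by decide +kernel)),
    (posBox_of_check (c := ⟨614, ⟨0, 13, 16, 9⟩⟩) (by decide +kernel))⟩

def fitA1_G_c0_top : Fits boxA1 (0) 0 (exG (zEnd groupA1.zl groupA1.zh true Ex.x₃) Ex.x₁ Ex.x₂ Ex.x₃).c0 (groupA1.G₀') :=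
  ⟨(posBox_of_check (c := ⟨588, ⟨0, 13, 16, 8⟩⟩) (by decide +kernel)),
    (posBox_of_check (c := ⟨588, ⟨0, 13, 16, 8⟩⟩) (by decide +kernel))⟩

def fitA1_G_c1 : Fits boxA1 (0) 1 (exG (zEnd groupA1.zl groupA1.zh false Ex.x₃) Ex.x₁ Ex.x₂ Ex.x₃).c1 (groupA1_G.c1) :=
  ⟨(posBox_of_check (c := ⟨554, ⟨0, 13, 14, 7⟩⟩) (by decide +kernel)),
    (posBox_of_check (c := ⟨554, ⟨0, 13, 14, 7⟩⟩) (by decide +kernel))⟩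

def fitA1_G_c1_top : Fits boxA1 (0) 1 (exG (zEnd groupA1.zl groupA1.zh true Ex.x₃) Ex.x₁ Ex.x₂ Ex.x₃).c1 (groupA1.G₁') :=
  ⟨(posBox_of_check (c := ⟨541, ⟨0, 13, 14, 6⟩⟩) (by decide +kernel)),
    (posBox_of_check (c := ⟨541, ⟨0, 13, 14, 6⟩⟩) (by decide +kernel))⟩

def fitA1_G_c2 : Fits boxA1 (0) 2 (exG (zEnd groupA1.zl groupA1.zh false Ex.x₃) Ex.x₁ Ex.x₂ Ex.x₃).c2 (groupA1_G.c2) :=
  ⟨(posBox_of_check (c := ⟨496, ⟨0, 13, 12, 5⟩⟩) (by decide +kernel)),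
    (posBox_of_check (c := ⟨496, ⟨0, 13, 12, 5⟩⟩) (by decide +kernel))⟩

def fitA1_E_c00 : Fits boxA1 (0) 0 (exE (zEnd groupA1.zl groupA1.zh false Ex.x₃) Ex.x₁ Ex.x₂ Ex.x₃).c00 (groupA1_E.c00) :=
  ⟨(posBox_of_check (c := ⟨565, ⟨0, 13, 14, 8⟩⟩) (by decide +kernel)),
    (posBox_of_check (c := ⟨565, ⟨0, 13, 14, 8⟩⟩) (by decide +kernel))⟩

def fitA1_E_c00_top : Fits boxA1 (0) 0 (exE (zEnd groupA1.zl groupA1.zh true Ex.x₃) Ex.x₁ Ex.x₂ Ex.x₃).c00 (groupA1.E₀') :=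
  ⟨(posBox_of_check (c := ⟨550, ⟨0, 13, 14, 7⟩⟩) (by decide +kernel)),
    (posBox_of_check (c := ⟨550, ⟨0, 13, 14, 7⟩⟩) (by decide +kernel))⟩

def fitA1_E_c01 : Fits boxA1 (0) 0 (exE (zEnd groupA1.zl groupA1.zh false Ex.x₃) Ex.x₁ Ex.x₂ Ex.x₃).c01 (groupA1_E.c01) :=
  ⟨(posBox_of_check (c := ⟨482, ⟨0, 11, 11, 7⟩⟩) (by decide +kernel)),
    (posBox_of_check (c := ⟨482, ⟨0, 11, 11, 7⟩⟩) (by decide +kernel))⟩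

def fitA1_E_c10 : Fits boxA1 (0) 1 (exE (zEnd groupA1.zl groupA1.zh false Ex.x₃) Ex.x₁ Ex.x₂ Ex.x₃).c10 (groupA1_E.c10) :=
  ⟨(posBox_of_check (c := ⟨537, ⟨0, 13, 13, 7⟩⟩) (by decide +kernel)),
    (posBox_of_check (c := ⟨537, ⟨0, 13, 13, 7⟩⟩) (by decide +kernel))⟩

def fitA1_E_c10_top : Fits boxA1 (0) 1 (exE (zEnd groupA1.zl groupA1.zh true Ex.x₃) Ex.x₁ Ex.x₂ Ex.x₃).c10 (groupA1.E₁') :=
  ⟨(posBox_of_check (c := ⟨525, ⟨0, 13, 13, 6⟩⟩) (by decide +kernel)),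
    (posBox_of_check (c := ⟨525, ⟨0, 13, 13, 6⟩⟩) (by decide +kernel))⟩

def fitA1_E_c11 : Fits boxA1 (0) 1 (exE (zEnd groupA1.zl groupA1.zh false Ex.x₃) Ex.x₁ Ex.x₂ Ex.x₃).c11 (groupA1_E.c11) :=
  ⟨(posBox_of_check (c := ⟨506, ⟨0, 13, 12, 6⟩⟩) (by decide +kernel)),
    (posBox_of_check (c := ⟨506, ⟨0, 13, 12, 6⟩⟩) (by decide +kernel))⟩

def fitA1_E_c20 : Fits boxA1 (0) 2 (exE (zEnd groupA1.zl groupA1.zh false Ex.x₃) Ex.x₁ Ex.x₂ Ex.x₃).c20 (groupA1_E.c20) :=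
  ⟨(posBox_of_check (c := ⟨477, ⟨0, 13, 11, 5⟩⟩) (by decide +kernel)),
    (posBox_of_check (c := ⟨477, ⟨0, 13, 11, 5⟩⟩) (by decide +kernel))⟩

def fitA1_E_c21 : Fits boxA1 (0) 2 (exE (zEnd groupA1.zl groupA1.zh false Ex.x₃) Ex.x₁ Ex.x₂ Ex.x₃).c21 (groupA1_E.c21) :=
  ⟨(posBox_of_check (c := ⟨436, ⟨0, 12, 10, 5⟩⟩) (by decide +kernel)),
    (posBox_of_check (c := ⟨436, ⟨0, 12, 10, 5⟩⟩) (by decide +kernel))⟩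

def fitA1_P_c10 : Fits boxA1 (0) 1 (exP Ex.x₁ Ex.x₂ Ex.x₃).c10 (groupA1_P.c10) :=
  ⟨(posBox_of_check (c := ⟨365, ⟨0, 7, 7, 5⟩⟩) (by decide +kernel)),
    (posBox_of_check (c := ⟨365, ⟨0, 7, 7, 5⟩⟩) (by decide +kernel))⟩

def fitA1_P_c11 : Fits boxA1 (0) 1 (exP Ex.x₁ Ex.x₂ Ex.x₃).c11 (groupA1_P.c11) :=
  ⟨(posBox_of_check (c := ⟨365, ⟨0, 7, 7, 5⟩⟩) (by decide +kernel)),
    (posBox_of_check (c := ⟨365, ⟨0, 7, 7, 5⟩⟩) (by decide +kernel))⟩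

def fitA1_P_c21 : Fits boxA1 (0) 2 (exP Ex.x₁ Ex.x₂ Ex.x₃).c21 (groupA1_P.c21) :=
  ⟨(posBox_of_check (c := ⟨363, ⟨0, 9, 7, 5⟩⟩) (by decide +kernel)),
    (posBox_of_check (c := ⟨363, ⟨0, 9, 7, 5⟩⟩) (by decide +kernel))⟩

def fitA1_N_c00 : Fits boxA1 (0) 0 (exN (zEnd groupA1.zl groupA1.zh false Ex.x₃) Ex.x₁ Ex.x₂ Ex.x₃).c00 (groupA1_N.c00) :=
  ⟨(posBox_of_check (c := ⟨436, ⟨0, 10, 11, 6⟩⟩) (by decide +kernel)),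
    (posBox_of_check (c := ⟨436, ⟨0, 10, 11, 6⟩⟩) (by decide +kernel))⟩

def fitA1_N_c10 : Fits boxA1 (0) 1 (exN (zEnd groupA1.zl groupA1.zh false Ex.x₃) Ex.x₁ Ex.x₂ Ex.x₃).c10 (groupA1_N.c10) :=
  ⟨(posBox_of_check (c := ⟨458, ⟨0, 12, 11, 5⟩⟩) (by decide +kernel)),
    (posBox_of_check (c := ⟨458, ⟨0, 12, 11, 5⟩⟩) (by decide +kernel))⟩

def fitA1_N_c01 : Fits boxA1 (0) 0 (exN (zEnd groupA1.zl groupA1.zh false Ex.x₃) Ex.x₁ Ex.x₂ Ex.x₃).c01 (groupA1_N.c01) :=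
  ⟨(posBox_of_check (c := ⟨607, ⟨0, 12, 17, 8⟩⟩) (by decide +kernel)),
    (posBox_of_check (c := ⟨607, ⟨0, 12, 17, 8⟩⟩) (by decide +kernel))⟩

def fitA1_N_c11 : Fits boxA1 (0) 1 (exN (zEnd groupA1.zl groupA1.zh false Ex.x₃) Ex.x₁ Ex.x₂ Ex.x₃).c11 (groupA1_N.c11) :=
  ⟨(posBox_of_check (c := ⟨556, ⟨0, 13, 14, 7⟩⟩) (by decide +kernel)),
    (posBox_of_check (c := ⟨556, ⟨0, 13, 14, 7⟩⟩) (by decide +kernel))⟩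

def fitA1_N_c11_top : Fits boxA1 (0) 1 (exN (zEnd groupA1.zl groupA1.zh true Ex.x₃) Ex.x₁ Ex.x₂ Ex.x₃).c11 (groupA1.N') :=
  ⟨(posBox_of_check (c := ⟨544, ⟨0, 13, 14, 7⟩⟩) (by decide +kernel)),
    (posBox_of_check (c := ⟨544, ⟨0, 13, 14, 7⟩⟩) (by decide +kernel))⟩

def fitA1_N_c21 : Fits boxA1 (0) 2 (exN (zEnd groupA1.zl groupA1.zh false Ex.x₃) Ex.x₁ Ex.x₂ Ex.x₃).c21 (groupA1_N.c21) :=
  ⟨(posBox_of_check (c := ⟨512, ⟨0, 12, 12, 6⟩⟩) (by decide +kernel)),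
    (posBox_of_check (c := ⟨512, ⟨0, 12, 12, 6⟩⟩) (by decide +kernel))⟩

def fitA1_N_c02 : Fits boxA1 (0) 0 (exN (zEnd groupA1.zl groupA1.zh false Ex.x₃) Ex.x₁ Ex.x₂ Ex.x₃).c02 (groupA1_N.c02) :=
  ⟨(posBox_of_check (c := ⟨537, ⟨0, 10, 14, 7⟩⟩) (by decide +kernel)),
    (posBox_of_check (c := ⟨537, ⟨0, 10, 14, 7⟩⟩) (by decide +kernel))⟩

def fitA1_N_c12 : Fits boxA1 (0) 1 (exN (zEnd groupA1.zl groupA1.zh false Ex.x₃) Ex.x₁ Ex.x₂ Ex.x₃).c12 (groupA1_N.c12) :=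
  ⟨(posBox_of_check (c := ⟨560, ⟨0, 12, 15, 6⟩⟩) (by decide +kernel)),
    (posBox_of_check (c := ⟨560, ⟨0, 12, 15, 6⟩⟩) (by decide +kernel))⟩

def fitA1_N_c22 : Fits boxA1 (0) 2 (exN (zEnd groupA1.zl groupA1.zh false Ex.x₃) Ex.x₁ Ex.x₂ Ex.x₃).c22 (groupA1_N.c22) :=
  ⟨(posBox_of_check (c := ⟨483, ⟨0, 12, 12, 5⟩⟩) (by decide +kernel)),
    (posBox_of_check (c := ⟨483, ⟨0, 12, 12, 5⟩⟩) (by decide +kernel))⟩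

def fitA1_N_c03 : Fits boxA1 (0) 0 (exN (zEnd groupA1.zl groupA1.zh false Ex.x₃) Ex.x₁ Ex.x₂ Ex.x₃).c03 (groupA1_N.c03) :=
  ⟨(posBox_of_check (c := ⟨458, ⟨0, 8, 11, 7⟩⟩) (by decide +kernel)),
    (posBox_of_check (c := ⟨458, ⟨0, 8, 11, 7⟩⟩) (by decide +kernel))⟩

def fitA1_N_c13 : Fits boxA1 (0) 1 (exN (zEnd groupA1.zl groupA1.zh false Ex.x₃) Ex.x₁ Ex.x₂ Ex.x₃).c13 (groupA1_N.c13) :=
  ⟨(posBox_of_check (c := ⟨482, ⟨0, 10, 12, 6⟩⟩) (by decide +kernel)),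
    (posBox_of_check (c := ⟨482, ⟨0, 10, 12, 6⟩⟩) (by decide +kernel))⟩

def fitA1_N_c23 : Fits boxA1 (0) 2 (exN (zEnd groupA1.zl groupA1.zh false Ex.x₃) Ex.x₁ Ex.x₂ Ex.x₃).c23 (groupA1_N.c23) :=
  ⟨(posBox_of_check (c := ⟨504, ⟨0, 12, 13, 5⟩⟩) (by decide +kernel)),
    (posBox_of_check (c := ⟨504, ⟨0, 12, 13, 5⟩⟩) (by decide +kernel))⟩

/-- The surrogates are within their errors. -/
theorem fitA1 : groupA1.Fit boxA1 where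
  A := fun z => match z with
    | false =>
      ⟨fitA1_A_c00,
        fitA1_A_c10,
        fitA1_A_c01,
        fitA1_A_c11,
        fitA1_A_c21,
        fitA1_A_c02,
        fitA1_A_c12,
        fitA1_A_c22,
        fitA1_A_c03,
        fitA1_A_c13,
        fitA1_A_c23⟩
    | true =>
      ⟨fitA1_A_c00,
        fitA1_A_c10,
        fitA1_A_c01,
        fitA1_A_c11_top,
        fitA1_A_c21,
        fitA1_A_c02,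
        fitA1_A_c12,
        fitA1_A_c22,
        fitA1_A_c03,
        fitA1_A_c13,
        fitA1_A_c23⟩
  M := ⟨fitA1_M_c00, fitA1_M_c10, fitA1_M_c01, fitA1_M_c11, fitA1_M_c02, fitA1_M_c12, fitA1_M_c22⟩
  G := fun z => match z with
    | false =>
      ⟨fitA1_G_c0,
        fitA1_G_c1,
        fitA1_G_c2⟩
    | true =>
      ⟨fitA1_G_c0_top,
        fitA1_G_c1_top,
        fitA1_G_c2⟩
  E := fun z => match z with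
    | false =>
      ⟨fitA1_E_c00,
        fitA1_E_c01,
        fitA1_E_c10,
        fitA1_E_c11,
        fitA1_E_c20,
        fitA1_E_c21⟩
    | true =>
      ⟨fitA1_E_c00_top,
        fitA1_E_c01,
        fitA1_E_c10_top,
        fitA1_E_c11,
        fitA1_E_c20,
        fitA1_E_c21⟩
  P := ⟨fitA1_P_c10, fitA1_P_c11, fitA1_P_c21⟩
  N := fun z => match z with
    | false =>
      ⟨fitA1_N_c00,
        fitA1_N_c10,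
        fitA1_N_c01,
        fitA1_N_c11,
        fitA1_N_c21,
        fitA1_N_c02,
        fitA1_N_c12,
        fitA1_N_c22,
        fitA1_N_c03,
        fitA1_N_c13,
        fitA1_N_c23⟩
    | true =>
      ⟨fitA1_N_c00,
        fitA1_N_c10,
        fitA1_N_c01,
        fitA1_N_c11_top,
        fitA1_N_c21,
        fitA1_N_c02,
        fitA1_N_c12,
        fitA1_N_c22,
        fitA1_N_c03,
        fitA1_N_c13,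
        fitA1_N_c23⟩

end Vale.Agent.P100.Calib.Closed.Six.End
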