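import Vale.Agent.P100.Calib.SlabSixEndFit
import Vale.Agent.P100.Calib.SlabSixEndGroupsA

/-!
# The surrogates for `3.1 ≤ v ≤ 3.77`, `0.1 ≤ d ≤ 0.135` are within their errors
-/

-- The checks are definitions, so that they run one after another with little memory.
set_option linter.defProp false

namespace Vale.Agent.P100.Calib.Closed.Six.End

open BoxPos
open Bot (Sur)

open Large (PosBox posBox_of_check)

local instance endFitEDAdd : Add Ex := ⟨Ex.add⟩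
local instance endFitEDSub : Sub Ex := ⟨Ex.sub⟩
local instance endFitEDMul : Mul Ex := ⟨Ex.mul⟩

/-- The box of the surrogates. -/
def boxED : Box := ⟨⟨0, 1, 1⟩, ⟨0, 13671, 1000000⟩, ⟨100000, 135001, 1000000⟩, ⟨310000, 377001, 100000⟩⟩

def fitED_A_c010 : Fits boxED (0) 0 (exA' (zEnd ⟨0, 0⟩ groupED.zh false Ex.x₃) Ex.x₁ Ex.x₂ Ex.x₃).c010 (groupED_A.c010) :=
  ⟨(posBox_of_check (c := ⟨633, ⟨0, 13, 18, 8⟩⟩) (by decide +kernel)),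
    (posBox_of_check (c := ⟨633, ⟨0, 13, 18, 8⟩⟩) (by decide +kernel))⟩

def fitED_A_c100 : Fits boxED (0) 0 (exA' (zEnd ⟨0, 0⟩ groupED.zh false Ex.x₃) Ex.x₁ Ex.x₂ Ex.x₃).c100 (groupED_A.c100) :=
  ⟨(posBox_of_check (c := ⟨442, ⟨0, 11, 11, 5⟩⟩) (by decide +kernel)),
    (posBox_of_check (c := ⟨442, ⟨0, 11, 11, 5⟩⟩) (by decide +kernel))⟩

def fitED_A_c101 : Fits boxED (0) 0 (exA' (zEnd ⟨0, 0⟩ groupED.zh false Ex.x₃) Ex.x₁ Ex.x₂ Ex.x₃).c101 (groupED_A.c101) :=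
  ⟨(posBox_of_check (c := ⟨462, ⟨0, 11, 11, 6⟩⟩) (by decide +kernel)),
    (posBox_of_check (c := ⟨462, ⟨0, 11, 11, 6⟩⟩) (by decide +kernel))⟩

def fitED_A_c110 : Fits boxED (0) 0 (exA' (zEnd ⟨0, 0⟩ groupED.zh false Ex.x₃) Ex.x₁ Ex.x₂ Ex.x₃).c110 (groupED_A.c110) :=
  ⟨(posBox_of_check (c := ⟨549, ⟨0, 12, 15, 7⟩⟩) (by decide +kernel)),
    (posBox_of_check (c := ⟨549, ⟨0, 12, 15, 7⟩⟩) (by decide +kernel))⟩

def fitED_A_c110_top : Fits boxED (0) 0 (exA' (zEnd ⟨0, 0⟩ groupED.zh true Ex.x₃) Ex.x₁ Ex.x₂ Ex.x₃).c110 (groupED.A') :=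
  ⟨(posBox_of_check (c := ⟨549, ⟨0, 12, 15, 7⟩⟩) (by decide +kernel)),
    (posBox_of_check (c := ⟨549, ⟨0, 12, 15, 7⟩⟩) (by decide +kernel))⟩

def fitED_A_c111 : Fits boxED (0) 0 (exA' (zEnd ⟨0, 0⟩ groupED.zh false Ex.x₃) Ex.x₁ Ex.x₂ Ex.x₃).c111 (groupED_A.c111) :=
  ⟨(posBox_of_check (c := ⟨589, ⟨0, 12, 16, 7⟩⟩) (by decide +kernel)),
    (posBox_of_check (c := ⟨589, ⟨0, 12, 16, 7⟩⟩) (by decide +kernel))⟩

def fitED_A_c120 : Fits boxED (0) 0 (exA' (zEnd ⟨0, 0⟩ groupED.zh false Ex.x₃) Ex.x₁ Ex.x₂ Ex.x₃).c120 (groupED_A.c120) :=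
  ⟨(posBox_of_check (c := ⟨569, ⟨0, 12, 16, 6⟩⟩) (by decide +kernel)),
    (posBox_of_check (c := ⟨569, ⟨0, 12, 16, 6⟩⟩) (by decide +kernel))⟩

def fitED_A_c210 : Fits boxED (0) 0 (exA' (zEnd ⟨0, 0⟩ groupED.zh false Ex.x₃) Ex.x₁ Ex.x₂ Ex.x₃).c210 (groupED_A.c210) :=
  ⟨(posBox_of_check (c := ⟨498, ⟨0, 11, 13, 6⟩⟩) (by decide +kernel)),
    (posBox_of_check (c := ⟨498, ⟨0, 11, 13, 6⟩⟩) (by decide +kernel))⟩

def fitED_A_c211 : Fits boxED (0) 0 (exA' (zEnd ⟨0, 0⟩ groupED.zh false Ex.x₃) Ex.x₁ Ex.x₂ Ex.x₃).c211 (groupED_A.c211) :=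
  ⟨(posBox_of_check (c := ⟨497, ⟨0, 11, 13, 6⟩⟩) (by decide +kernel)),
    (posBox_of_check (c := ⟨497, ⟨0, 11, 13, 6⟩⟩) (by decide +kernel))⟩

def fitED_A_c212 : Fits boxED (0) 0 (exA' (zEnd ⟨0, 0⟩ groupED.zh false Ex.x₃) Ex.x₁ Ex.x₂ Ex.x₃).c212 (groupED_A.c212) :=
  ⟨(posBox_of_check (c := ⟨539, ⟨0, 11, 14, 7⟩⟩) (by decide +kernel)),
    (posBox_of_check (c := ⟨539, ⟨0, 11, 14, 7⟩⟩) (by decide +kernel))⟩

def fitED_A_c220 : Fits boxED (0) 0 (exA' (zEnd ⟨0, 0⟩ groupED.zh false Ex.x₃) Ex.x₁ Ex.x₂ Ex.x₃).c220 (groupED_A.c220) :=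
  ⟨(posBox_of_check (c := ⟨478, ⟨0, 11, 13, 5⟩⟩) (by decide +kernel)),
    (posBox_of_check (c := ⟨478, ⟨0, 11, 13, 5⟩⟩) (by decide +kernel))⟩

def fitED_A_c221 : Fits boxED (0) 0 (exA' (zEnd ⟨0, 0⟩ groupED.zh false Ex.x₃) Ex.x₁ Ex.x₂ Ex.x₃).c221 (groupED_A.c221) :=
  ⟨(posBox_of_check (c := ⟨520, ⟨0, 11, 14, 6⟩⟩) (by decide +kernel)),
    (posBox_of_check (c := ⟨520, ⟨0, 11, 14, 6⟩⟩) (by decide +kernel))⟩

def fitED_A_c230 : Fits boxED (0) 0 (exA' (zEnd ⟨0, 0⟩ groupED.zh false Ex.x₃) Ex.x₁ Ex.x₂ Ex.x₃).c230 (groupED_A.c230) :=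
  ⟨(posBox_of_check (c := ⟨500, ⟨0, 11, 14, 5⟩⟩) (by decide +kernel)),
    (posBox_of_check (c := ⟨500, ⟨0, 11, 14, 5⟩⟩) (by decide +kernel))⟩

def fitED_M_m00 : Fits boxED (0) 0 (exM' Ex.x₁ Ex.x₂ Ex.x₃).m00 (groupED_M.m00) :=
  ⟨(posBox_of_check (c := ⟨371, ⟨0, 9, 8, 5⟩⟩) (by decide +kernel)),
    (posBox_of_check (c := ⟨371, ⟨0, 9, 8, 5⟩⟩) (by decide +kernel))⟩

def fitED_M_m01 : Fits boxED (0) 0 (exM' Ex.x₁ Ex.x₂ Ex.x₃).m01 (groupED_M.m01) :=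
  ⟨(posBox_of_check (c := ⟨376, ⟨0, 9, 8, 5⟩⟩) (by decide +kernel)),
    (posBox_of_check (c := ⟨376, ⟨0, 9, 8, 5⟩⟩) (by decide +kernel))⟩

def fitED_M_m10 : Fits boxED (0) 0 (exM' Ex.x₁ Ex.x₂ Ex.x₃).m10 (groupED_M.m10) :=
  ⟨(posBox_of_check (c := ⟨420, ⟨0, 10, 10, 5⟩⟩) (by decide +kernel)),
    (posBox_of_check (c := ⟨420, ⟨0, 10, 10, 5⟩⟩) (by decide +kernel))⟩

def fitED_M_m11 : Fits boxED (0) 0 (exM' Ex.x₁ Ex.x₂ Ex.x₃).m11 (groupED_M.m11) :=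
  ⟨(posBox_of_check (c := ⟨391, ⟨0, 8, 9, 5⟩⟩) (by decide +kernel)),
    (posBox_of_check (c := ⟨391, ⟨0, 8, 9, 5⟩⟩) (by decide +kernel))⟩

def fitED_M_m20 : Fits boxED (0) 0 (exM' Ex.x₁ Ex.x₂ Ex.x₃).m20 (groupED_M.m20) :=
  ⟨(posBox_of_check (c := ⟨389, ⟨0, 8, 9, 5⟩⟩) (by decide +kernel)),
    (posBox_of_check (c := ⟨389, ⟨0, 8, 9, 5⟩⟩) (by decide +kernel))⟩

def fitED_M_n11 : Fits boxED (0) 0 (exM' Ex.x₁ Ex.x₂ Ex.x₃).n11 (groupED_M.n11) :=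
  ⟨(posBox_of_check (c := ⟨373, ⟨0, 9, 9, 5⟩⟩) (by decide +kernel)),
    (posBox_of_check (c := ⟨373, ⟨0, 9, 9, 5⟩⟩) (by decide +kernel))⟩

def fitED_M_n20 : Fits boxED (0) 0 (exM' Ex.x₁ Ex.x₂ Ex.x₃).n20 (groupED_M.n20) :=
  ⟨(posBox_of_check (c := ⟨368, ⟨0, 9, 9, 5⟩⟩) (by decide +kernel)),
    (posBox_of_check (c := ⟨368, ⟨0, 9, 9, 5⟩⟩) (by decide +kernel))⟩

def fitED_G_c0 : Fits boxED (0) 0 (exG (zEnd ⟨0, 0⟩ groupED.zh false Ex.x₃) Ex.x₁ Ex.x₂ Ex.x₃).c0 (groupED_G.c0) :=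
  ⟨(posBox_of_check (c := ⟨619, ⟨0, 13, 16, 9⟩⟩) (by decide +kernel)),
    (posBox_of_check (c := ⟨619, ⟨0, 13, 16, 9⟩⟩) (by decide +kernel))⟩

def fitED_G_c0_top : Fits boxED (0) 0 (exG (zEnd ⟨0, 0⟩ groupED.zh true Ex.x₃) Ex.x₁ Ex.x₂ Ex.x₃).c0 (groupED.G₀') :=
  ⟨(posBox_of_check (c := ⟨593, ⟨0, 13, 16, 8⟩⟩) (by decide +kernel)),
    (posBox_of_check (c := ⟨593, ⟨0, 13, 16, 8⟩⟩) (by decide +kernel))⟩

def fitED_G_c1 : Fits boxED (0) 1 (exG (zEnd ⟨0, 0⟩ groupED.zh false Ex.x₃) Ex.x₁ Ex.x₂ Ex.x₃).c1 (groupED_G.c1) :=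
  ⟨(posBox_of_check (c := ⟨557, ⟨0, 13, 14, 7⟩⟩) (by decide +kernel)),
    (posBox_of_check (c := ⟨557, ⟨0, 13, 14, 7⟩⟩) (by decide +kernel))⟩

def fitED_G_c1_top : Fits boxED (0) 1 (exG (zEnd ⟨0, 0⟩ groupED.zh true Ex.x₃) Ex.x₁ Ex.x₂ Ex.x₃).c1 (groupED.G₁') :=
  ⟨(posBox_of_check (c := ⟨545, ⟨0, 13, 14, 6⟩⟩) (by decide +kernel)),
    (posBox_of_check (c := ⟨545, ⟨0, 13, 14, 6⟩⟩) (by decide +kernel))⟩

def fitED_G_c2 : Fits boxED (0) 2 (exG (zEnd ⟨0, 0⟩ groupED.zh false Ex.x₃) Ex.x₁ Ex.x₂ Ex.x₃).c2 (groupED_G.c2) :=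
  ⟨(posBox_of_check (c := ⟨499, ⟨0, 13, 12, 5⟩⟩) (by decide +kernel)),
    (posBox_of_check (c := ⟨499, ⟨0, 13, 12, 5⟩⟩) (by decide +kernel))⟩

def fitED_E_c000 : Fits boxED (0) 0 (exE' (zEnd ⟨0, 0⟩ groupED.zh false Ex.x₃) Ex.x₁ Ex.x₂ Ex.x₃).c000 (groupED_E.c000) :=
  ⟨(posBox_of_check (c := ⟨568, ⟨0, 13, 14, 8⟩⟩) (by decide +kernel)),
    (posBox_of_check (c := ⟨568, ⟨0, 13, 14, 8⟩⟩) (by decide +kernel))⟩

def fitED_E_c000_top : Fits boxED (0) 0 (exE' (zEnd ⟨0, 0⟩ groupED.zh true Ex.x₃) Ex.x₁ Ex.x₂ Ex.x₃).c000 (groupED.E₀') :=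
  ⟨(posBox_of_check (c := ⟨554, ⟨0, 13, 14, 7⟩⟩) (by decide +kernel)),
    (posBox_of_check (c := ⟨554, ⟨0, 13, 14, 7⟩⟩) (by decide +kernel))⟩

def fitED_E_c100 : Fits boxED (0) 0 (exE' (zEnd ⟨0, 0⟩ groupED.zh false Ex.x₃) Ex.x₁ Ex.x₂ Ex.x₃).c100 (groupED_E.c100) :=
  ⟨(posBox_of_check (c := ⟨520, ⟨0, 12, 13, 7⟩⟩) (by decide +kernel)),
    (posBox_of_check (c := ⟨520, ⟨0, 12, 13, 7⟩⟩) (by decide +kernel))⟩

def fitED_E_c100_top : Fits boxED (0) 0 (exE' (zEnd ⟨0, 0⟩ groupED.zh true Ex.x₃) Ex.x₁ Ex.x₂ Ex.x₃).c100 (groupED.E₁') :=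
  ⟨(posBox_of_check (c := ⟨507, ⟨0, 12, 13, 6⟩⟩) (by decide +kernel)),
    (posBox_of_check (c := ⟨507, ⟨0, 12, 13, 6⟩⟩) (by decide +kernel))⟩

def fitED_E_c101 : Fits boxED (0) 0 (exE' (zEnd ⟨0, 0⟩ groupED.zh false Ex.x₃) Ex.x₁ Ex.x₂ Ex.x₃).c101 (groupED_E.c101) :=
  ⟨(posBox_of_check (c := ⟨509, ⟨0, 12, 12, 7⟩⟩) (by decide +kernel)),
    (posBox_of_check (c := ⟨509, ⟨0, 12, 12, 7⟩⟩) (by decide +kernel))⟩

def fitED_E_c110 : Fits boxED (0) 0 (exE' (zEnd ⟨0, 0⟩ groupED.zh false Ex.x₃) Ex.x₁ Ex.x₂ Ex.x₃).c110 (groupED_E.c110) :=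
  ⟨(posBox_of_check (c := ⟨489, ⟨0, 12, 12, 6⟩⟩) (by decide +kernel)),
    (posBox_of_check (c := ⟨489, ⟨0, 12, 12, 6⟩⟩) (by decide +kernel))⟩

def fitED_E_c200 : Fits boxED (0) 0 (exE' (zEnd ⟨0, 0⟩ groupED.zh false Ex.x₃) Ex.x₁ Ex.x₂ Ex.x₃).c200 (groupED_E.c200) :=
  ⟨(posBox_of_check (c := ⟨439, ⟨0, 11, 11, 5⟩⟩) (by decide +kernel)),
    (posBox_of_check (c := ⟨439, ⟨0, 11, 11, 5⟩⟩) (by decide +kernel))⟩

def fitED_E_c201 : Fits boxED (0) 0 (exE' (zEnd ⟨0, 0⟩ groupED.zh false Ex.x₃) Ex.x₁ Ex.x₂ Ex.x₃).c201 (groupED_E.c201) :=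
  ⟨(posBox_of_check (c := ⟨417, ⟨0, 10, 10, 5⟩⟩) (by decide +kernel)),
    (posBox_of_check (c := ⟨417, ⟨0, 10, 10, 5⟩⟩) (by decide +kernel))⟩

def fitED_E_c210 : Fits boxED (0) 0 (exE' (zEnd ⟨0, 0⟩ groupED.zh false Ex.x₃) Ex.x₁ Ex.x₂ Ex.x₃).c210 (groupED_E.c210) :=
  ⟨(posBox_of_check (c := ⟨399, ⟨0, 10, 10, 5⟩⟩) (by decide +kernel)),
    (posBox_of_check (c := ⟨399, ⟨0, 10, 10, 5⟩⟩) (by decide +kernel))⟩

def fitED_P_c01 : Fits boxED (0) 0 (exP' Ex.x₁ Ex.x₂ Ex.x₃).c01 (groupED_P.c01) :=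
  ⟨(posBox_of_check (c := ⟨366, ⟨0, 7, 7, 5⟩⟩) (by decide +kernel)),
    (posBox_of_check (c := ⟨366, ⟨0, 7, 7, 5⟩⟩) (by decide +kernel))⟩

def fitED_P_c10 : Fits boxED (0) 0 (exP' Ex.x₁ Ex.x₂ Ex.x₃).c10 (groupED_P.c10) :=
  ⟨(posBox_of_check (c := ⟨363, ⟨0, 7, 7, 5⟩⟩) (by decide +kernel)),
    (posBox_of_check (c := ⟨363, ⟨0, 7, 7, 5⟩⟩) (by decide +kernel))⟩

def fitED_N_c010 : Fits boxED (0) 0 (exN' (zEnd ⟨0, 0⟩ groupED.zh false Ex.x₃) Ex.x₁ Ex.x₂ Ex.x₃).c010 (groupED_N.c010) :=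
  ⟨(posBox_of_check (c := ⟨609, ⟨0, 12, 17, 8⟩⟩) (by decide +kernel)),
    (posBox_of_check (c := ⟨609, ⟨0, 12, 17, 8⟩⟩) (by decide +kernel))⟩

def fitED_N_c100 : Fits boxED (0) 0 (exN' (zEnd ⟨0, 0⟩ groupED.zh false Ex.x₃) Ex.x₁ Ex.x₂ Ex.x₃).c100 (groupED_N.c100) :=
  ⟨(posBox_of_check (c := ⟨442, ⟨0, 11, 11, 5⟩⟩) (by decide +kernel)),
    (posBox_of_check (c := ⟨442, ⟨0, 11, 11, 5⟩⟩) (by decide +kernel))⟩

def fitED_N_c101 : Fits boxED (0) 0 (exN' (zEnd ⟨0, 0⟩ groupED.zh false Ex.x₃) Ex.x₁ Ex.x₂ Ex.x₃).c101 (groupED_N.c101) :=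
  ⟨(posBox_of_check (c := ⟨462, ⟨0, 11, 11, 6⟩⟩) (by decide +kernel)),
    (posBox_of_check (c := ⟨462, ⟨0, 11, 11, 6⟩⟩) (by decide +kernel))⟩

def fitED_N_c110 : Fits boxED (0) 0 (exN' (zEnd ⟨0, 0⟩ groupED.zh false Ex.x₃) Ex.x₁ Ex.x₂ Ex.x₃).c110 (groupED_N.c110) :=
  ⟨(posBox_of_check (c := ⟨540, ⟨0, 12, 14, 7⟩⟩) (by decide +kernel)),
    (posBox_of_check (c := ⟨540, ⟨0, 12, 14, 7⟩⟩) (by decide +kernel))⟩

def fitED_N_c110_top : Fits boxED (0) 0 (exN' (zEnd ⟨0, 0⟩ groupED.zh true Ex.x₃) Ex.x₁ Ex.x₂ Ex.x₃).c110 (groupED.N') :=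
  ⟨(posBox_of_check (c := ⟨528, ⟨0, 12, 14, 7⟩⟩) (by decide +kernel)),
    (posBox_of_check (c := ⟨528, ⟨0, 12, 14, 7⟩⟩) (by decide +kernel))⟩

def fitED_N_c111 : Fits boxED (0) 0 (exN' (zEnd ⟨0, 0⟩ groupED.zh false Ex.x₃) Ex.x₁ Ex.x₂ Ex.x₃).c111 (groupED_N.c111) :=
  ⟨(posBox_of_check (c := ⟨565, ⟨0, 11, 15, 7⟩⟩) (by decide +kernel)),
    (posBox_of_check (c := ⟨565, ⟨0, 11, 15, 7⟩⟩) (by decide +kernel))⟩

def fitED_N_c120 : Fits boxED (0) 0 (exN' (zEnd ⟨0, 0⟩ groupED.zh false Ex.x₃) Ex.x₁ Ex.x₂ Ex.x₃).c120 (groupED_N.c120) :=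
  ⟨(posBox_of_check (c := ⟨544, ⟨0, 11, 15, 6⟩⟩) (by decide +kernel)),
    (posBox_of_check (c := ⟨544, ⟨0, 11, 15, 6⟩⟩) (by decide +kernel))⟩

def fitED_N_c210 : Fits boxED (0) 0 (exN' (zEnd ⟨0, 0⟩ groupED.zh false Ex.x₃) Ex.x₁ Ex.x₂ Ex.x₃).c210 (groupED_N.c210) :=
  ⟨(posBox_of_check (c := ⟨474, ⟨0, 10, 12, 6⟩⟩) (by decide +kernel)),
    (posBox_of_check (c := ⟨474, ⟨0, 10, 12, 6⟩⟩) (by decide +kernel))⟩

def fitED_N_c211 : Fits boxED (0) 0 (exN' (zEnd ⟨0, 0⟩ groupED.zh false Ex.x₃) Ex.x₁ Ex.x₂ Ex.x₃).c211 (groupED_N.c211) :=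
  ⟨(posBox_of_check (c := ⟨473, ⟨0, 10, 12, 6⟩⟩) (by decide +kernel)),
    (posBox_of_check (c := ⟨473, ⟨0, 10, 12, 6⟩⟩) (by decide +kernel))⟩

def fitED_N_c212 : Fits boxED (0) 0 (exN' (zEnd ⟨0, 0⟩ groupED.zh false Ex.x₃) Ex.x₁ Ex.x₂ Ex.x₃).c212 (groupED_N.c212) :=
  ⟨(posBox_of_check (c := ⟨515, ⟨0, 10, 13, 7⟩⟩) (by decide +kernel)),
    (posBox_of_check (c := ⟨515, ⟨0, 10, 13, 7⟩⟩) (by decide +kernel))⟩

def fitED_N_c220 : Fits boxED (0) 0 (exN' (zEnd ⟨0, 0⟩ groupED.zh false Ex.x₃) Ex.x₁ Ex.x₂ Ex.x₃).c220 (groupED_N.c220) :=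
  ⟨(posBox_of_check (c := ⟨454, ⟨0, 10, 12, 5⟩⟩) (by decide +kernel)),
    (posBox_of_check (c := ⟨454, ⟨0, 10, 12, 5⟩⟩) (by decide +kernel))⟩

def fitED_N_c221 : Fits boxED (0) 0 (exN' (zEnd ⟨0, 0⟩ groupED.zh false Ex.x₃) Ex.x₁ Ex.x₂ Ex.x₃).c221 (groupED_N.c221) :=
  ⟨(posBox_of_check (c := ⟨495, ⟨0, 10, 13, 6⟩⟩) (by decide +kernel)),
    (posBox_of_check (c := ⟨495, ⟨0, 10, 13, 6⟩⟩) (by decide +kernel))⟩

def fitED_N_c230 : Fits boxED (0) 0 (exN' (zEnd ⟨0, 0⟩ groupED.zh false Ex.x₃) Ex.x₁ Ex.x₂ Ex.x₃).c230 (groupED_N.c230) :=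
  ⟨(posBox_of_check (c := ⟨475, ⟨0, 10, 13, 5⟩⟩) (by decide +kernel)),
    (posBox_of_check (c := ⟨475, ⟨0, 10, 13, 5⟩⟩) (by decide +kernel))⟩

def fitED_A₂ : PosBox boxED (cC (-1) * sLo groupED_A.c212 Ex.x₁ Ex.x₂ Ex.x₃) :=
  (posBox_of_check (c := ⟨140, ⟨0, 1, 3, 3⟩⟩) (by decide +kernel))

def fitED_N₂ : PosBox boxED (cC (-1) * sLo groupED_N.c212 Ex.x₁ Ex.x₂ Ex.x₃) :=
  (posBox_of_check (c := ⟨139, ⟨0, 1, 3, 3⟩⟩) (by decide +kernel))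

/-- The surrogates are within their errors. -/
theorem fitED : groupED.Fit boxED where
  A := fun z => match z with
    | false =>
      ⟨fitED_A_c010,
        fitED_A_c100,
        fitED_A_c101,
        fitED_A_c110,
        fitED_A_c111,
        fitED_A_c120,
        fitED_A_c210,
        fitED_A_c211,
        fitED_A_c212,
        fitED_A_c220,
        fitED_A_c221,
        fitED_A_c230⟩
    | true =>
      ⟨fitED_A_c010,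
        fitED_A_c100,
        fitED_A_c101,
        fitED_A_c110_top,
        fitED_A_c111,
        fitED_A_c120,
        fitED_A_c210,
        fitED_A_c211,
        fitED_A_c212,
        fitED_A_c220,
        fitED_A_c221,
        fitED_A_c230⟩
  M := ⟨fitED_M_m00, fitED_M_m01, fitED_M_m10, fitED_M_m11, fitED_M_m20, fitED_M_n11, fitED_M_n20⟩
  G := fun z => match z with
    | false =>
      ⟨fitED_G_c0,
        fitED_G_c1,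
        fitED_G_c2⟩
    | true =>
      ⟨fitED_G_c0_top,
        fitED_G_c1_top,
        fitED_G_c2⟩
  E := fun z => match z with
    | false =>
      ⟨fitED_E_c000,
        fitED_E_c100,
        fitED_E_c101,
        fitED_E_c110,
        fitED_E_c200,
        fitED_E_c201,
        fitED_E_c210⟩
    | true =>
      ⟨fitED_E_c000_top,
        fitED_E_c100_top,
        fitED_E_c101,
        fitED_E_c110,
        fitED_E_c200,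
        fitED_E_c201,
        fitED_E_c210⟩
  P := ⟨fitED_P_c01, fitED_P_c10⟩
  N := fun z => match z with
    | false =>
      ⟨fitED_N_c010,
        fitED_N_c100,
        fitED_N_c101,
        fitED_N_c110,
        fitED_N_c111,
        fitED_N_c120,
        fitED_N_c210,
        fitED_N_c211,
        fitED_N_c212,
        fitED_N_c220,
        fitED_N_c221,
        fitED_N_c230⟩
    | true =>
      ⟨fitED_N_c010,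
        fitED_N_c100,
        fitED_N_c101,
        fitED_N_c110_top,
        fitED_N_c111,
        fitED_N_c120,
        fitED_N_c210,
        fitED_N_c211,
        fitED_N_c212,
        fitED_N_c220,
        fitED_N_c221,
        fitED_N_c230⟩
  A₂ := fitED_A₂
  N₂ := fitED_N₂

end Vale.Agent.P100.Calib.Closed.Six.End
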