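import Vale.Agent.P100.Calib.SlabSixEndExpr

/-!
# The checks of a piece of the end certificate of dimension six

The variables of the checks are `(θ, x, d, w)`: `x` places `u`, `w` places `v`, and `θ` places `X`
between its bounds. The checks are made at both ends of the range of `r = 3 S - 2` and of `z`.
-/

set_option linter.unusedVariables false

namespace Vale.Agent.P100.Calib.Closed.Six.End

open BoxPos
open Bot (Sur L2 Q6 Q10 Q15 k₄)

local instance endPieceExprAdd : Add Ex := ⟨Ex.add⟩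
local instance endPieceExprSub : Sub Ex := ⟨Ex.sub⟩
local instance endPieceExprMul : Mul Ex := ⟨Ex.mul⟩

/-- Coefficients affine in `(d, v)`, in units of `1/1000000`. -/
structure L3 where
  (c cd cv : ℤ)

/-- What all pieces share: the range of `d` and `r`, of `v`, of `u`, and the multipliers. -/
structure Frame where
  d₀ : ℤ
  d₁ : ℤ
  x₀ : ℤ
  x₁ : ℤ
  rm : ℤ
  R : L3
  vl : L2
  vh : L2
  e₀ : ℤ
  e₁ : ℤ
  k₁ : Q15
  k₂ : Q15

/-- A piece in `(X, u)`. -/
structure Piece extends Frame where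
  grp : Group
  X₀ : Q10
  X₁ : Q10

/-- A piece in `(X, u, φ)`. -/
structure PieceD extends Frame where
  grp : GroupD
  X₁ : Q10
  F₀ : Q6
  F₁ : Q6

/-- `v`. -/
def Frame.xV (F : Frame) : Ex :=
  F.vl.ex Ex.x₂ + Ex.x₃ * (F.vh.ex Ex.x₂ - F.vl.ex Ex.x₂)

/-- `1 - u`. -/
def Frame.xE (F : Frame) : Ex := Ex.x₁ * (k₄ F.e₀ + k₄ F.e₁ * Ex.x₂)

/-- `u`. -/
def Frame.xU (F : Frame) : Ex := cC 1 - F.xE

/-- The box of the checks. -/
def Frame.box (F : Frame) : Box :=
  ⟨⟨0, 10001, 10000⟩, ⟨F.x₀, F.x₁ + 1, 10000⟩, ⟨F.d₀, F.d₁ + 1, 10000⟩, ⟨0, 10001, 10000⟩⟩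

/-- The end of the range of `r`; the upper one may fall with `d` and `v`. -/
def Frame.xR (F : Frame) : Bool → Ex
  | false => cC 0
  | true => cC F.R.c 1000000 + Ex.x₂ * cC F.R.cd 1000000 + F.xV * cC F.R.cv 1000000

/-- `X` in units of `1 + mu r`. -/
def Piece.xX (P : Piece) : Ex :=
  P.X₀.ex Ex.x₁ Ex.x₂ P.xV +
    Ex.x₀ * (P.X₁.ex Ex.x₁ Ex.x₂ P.xV - P.X₀.ex Ex.x₁ Ex.x₂ P.xV)

/-- `X`. -/
def PieceD.xX (P : PieceD) : Ex := Ex.x₀ * P.X₁.ex Ex.x₁ Ex.x₂ P.xV

/-- The signs from bounds of the forms: `T` below, `M` and `E` both sides, `G` and `H` below. -/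
structure Bd where
  (T Ml Mh El Eh G H N k₁ k₂ u v : Ex)

/-- The forms of a piece in `(X, u)` at one end of `r` and one end of `z`. -/
def Piece.bd (P : Piece) (b c : Bool) : Bd :=
  let r := P.xR b
  let d := Ex.x₂
  let v := P.xV
  let lo := fun s : Sur => sLo s r d v
  let hi := fun s : Sur => sHi s r d v
  { T := ((P.grp.tA c).map lo).poly P.xX P.xU
    Ml := (P.grp.M.map lo).poly P.xX P.xU
    Mh := (P.grp.M.map hi).poly P.xX P.xU
    El := ((P.grp.tE c).map lo).poly P.xX P.xU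
    Eh := ((P.grp.tE c).map hi).poly P.xX P.xU
    G := ((P.grp.tG c).map lo).poly P.xX
    H := (P.grp.P.map lo).poly P.xX P.xU
    N := ((P.grp.tN c).map lo).poly P.xX P.xU
    k₁ := mulK P.k₁
    k₂ := mulK P.k₂
    u := P.xU
    v := v }

/-- `φ` at an end of its range. -/
def PieceD.xF (P : PieceD) : Bool → Ex
  | false => P.F₀.ex Ex.x₂ P.xV
  | true => P.F₁.ex Ex.x₂ P.xV

/-- The forms of a piece in `(X, u, φ)` at one end of `r`, of `φ` and of `z`. -/
def PieceD.bd (P : PieceD) (b e c : Bool) : Bd :=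
  let r := P.xR b
  let d := Ex.x₂
  let v := P.xV
  let f := P.xF e
  let lo := fun s : Sur => sLo s r d v
  let hi := fun s : Sur => sHi s r d v
  { T := ((P.grp.tA c).map lo).poly P.xX P.xU f
    Ml := (P.grp.M.map lo).poly P.xX P.xU f
    Mh := (P.grp.M.map hi).poly P.xX P.xU f
    El := ((P.grp.tE c).map lo).poly P.xX P.xU f
    Eh := ((P.grp.tE c).map hi).poly P.xX P.xU f
    G := ((P.grp.tG c).map lo).poly P.xX
    H := (P.grp.P.map lo).poly P.xU f
    N := ((P.grp.tN c).map lo).poly P.xX P.xU f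
    k₁ := mulK P.k₁
    k₂ := mulK P.k₂
    u := P.xU
    v := v }

/-- `M` is negative. -/
def Bd.mNeg (B : Bd) : Ex := cC (-1) * B.Mh

/-- `M` is positive. -/
def Bd.mPos (B : Bd) : Ex := B.Ml

/-- `EG` is negative. -/
def Bd.eNeg (B : Bd) : Ex := cC (-1) * B.Eh

/-- `EG` is positive. -/
def Bd.ePos (B : Bd) : Ex := B.El

/-- The multiplier of `M`, where `M` is positive. -/
def Bd.c₁p (B : Bd) : Ex := B.k₁ * B.u * B.H - cC 3 5 * B.Mh

/-- The multiplier of `M`, where `M` is negative. -/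
def Bd.c₁m (B : Bd) : Ex := B.k₁ * B.u * B.H + cC 3 5 * B.Ml

/-- The multiplier of `EG`, where it is positive. -/
def Bd.c₂p (B : Bd) : Ex := cC 4 * B.k₂ * B.G - qP Ex.x₂ B.v * B.Eh

/-- The multiplier of `EG`, where it is negative. -/
def Bd.c₂m (B : Bd) : Ex := cC 4 * B.k₂ * B.G + qP Ex.x₂ B.v * B.El

/-- The weight of `EG` in the split. -/
def Bd.wE (B : Bd) : Ex := B.k₂ * (Ex.x₂ * Ex.x₂) * B.u

/-- The split, both positive. -/
def Bd.c₃pp (B : Bd) : Ex := B.T - B.k₁ * B.Mh - B.wE * B.Eh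

/-- The split, `M` positive and `EG` negative. -/
def Bd.c₃pm (B : Bd) : Ex := B.T - B.k₁ * B.Mh + B.wE * B.El

/-- The split, `M` negative and `EG` positive. -/
def Bd.c₃mp (B : Bd) : Ex := B.T + B.k₁ * B.Ml - B.wE * B.Eh

/-- The split, both negative. -/
def Bd.c₃mm (B : Bd) : Ex := B.T + B.k₁ * B.Ml + B.wE * B.El

end Vale.Agent.P100.Calib.Closed.Six.End
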