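import Vale.Agent.P100.Calib.SlabSixTailPiece

/-!
# What the files of checks use

The pieces, the expressions of the bands and the rules that join checks, without their soundness,
so that the checks build while the soundness does.
-/

set_option linter.unusedVariables false

namespace Vale.Agent.P100.Calib.Closed.Six.Tail

open BoxPos Large

local instance sixTailRulesAdd : Add Ex := ⟨Ex.add⟩
local instance sixTailRulesSub : Sub Ex := ⟨Ex.sub⟩
local instance sixTailRulesMul : Mul Ex := ⟨Ex.mul⟩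

/-- The checks of a piece with no point of the chart; `pU` carries the multipliers. -/
structure Piece.Empty (P : Piece) (b : Box) : Prop where
  p0 : PosD b P.hP0
  den : ∀ i, PosD b (P.hDen i)
  gn : PosD b P.hGn
  ok : P.pU.Ok b
  none : ∀ i, PosD b (P.hNone i)

/-- The same piece, `e` below a cut. -/
def Piece.below (P : Piece) (cut : Ex) : Piece := { P with eH := { P.eH with free := cut } }

/-- The piece with the bound `pU'` of `p`, `e` above a cut. -/
def Piece.above (P : Piece) (cut : Ex) (pU' : Bnd) : Piece :=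
  { P with eL := { P.eL with free := cut }, pU := pU' }

/-- The same checks with another upper bound of `p`. -/
theorem Piece.Env.withU {P : Piece} {b : Box} (E : P.Env b) (c : Bnd)
    (h : ∀ i, PosD b (({ P with pU := c } : Piece).hPU i)) (hc : c.Ok b) :
    ({ P with pU := c } : Piece).Env b :=
  ⟨E.p0, E.den, E.gn, E.ev, E.zL, E.zU, E.eL, E.eL', E.eH, E.eH', E.pL, E.pL', h, hc, E.kU, E.kU', E.kL,
    E.kL', E.wU, E.wU', E.wL, E.wL'⟩

/-- The checks on the signs of a piece where `p` may be small: `o` places `e`. -/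
structure Piece.SignLow (P : Piece) (b : Box) (μ ε lam : Ex) : Prop where
  pp : PosD b P.xPL
  k2p : PosD b (P.k2p P.xE)
  k2m : PosD b (P.k2m P.xE)
  tg : ∀ i j, PosD b (P.hG j (P.pEnd i))
  c2p : ∀ i j, PosD b (P.hC2p j (P.pEnd i))
  c2m : ∀ i j, PosD b (P.hC2m j (P.pEnd i))
  tmg : ∀ i j, PosD b (P.hTMG j (P.pEnd i))
  v2p : PosD b P.hV2p
  v2m : PosD b P.hV2m
  v3p : PosD b P.hV3p
  v3m : PosD b P.hV3m
  vG : PosD b hVG
  vMG : PosD b hVMG
  ak : PosD b hAk
  aw : PosD b hAw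
  gk : PosD b hGk
  gw : PosD b hGw
  ek : PosD b hMk
  ew : PosD b hMw
  eps : PosD b ε
  lam_pos : PosD b lam
  lam_mu : PosD b (cC 20 3 * (cC 1 - xS) * ε * lam - cC 4 * μ * μ)
  eLow : PosD b (cC (-1) * P.xE - ε * P.xPU)
  xl : ∀ i, PosD b (μ * P.pEnd i + P.xM (P.pEnd i))
  xu : ∀ i, PosD b (μ * P.pEnd i - P.xM' (P.pEnd i))
  up : ∀ i j, PosD b (P.hUp i j - lam)
  um : ∀ i j, PosD b (P.hUm i j - lam)

/-- The numerator of `lowT`. -/
def lowTn (u : Ex) : Ex :=
  cC (8901) 10000 + cC (-464838) 10000 * xD + cC (1309812) 10000 * (xD * xD) + (cC (18602) 10000 + cC (932514) 10000 * xD + cC (-2850123) 10000 * (xD * xD)) * u + (cC (-17243) 10000 + cC (-504763) 10000 * xD + cC (1590104) 10000 * (xD * xD)) * (u * u)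

/-- The denominator of `lowT`. -/
def lowTd (u : Ex) : Ex :=
  cC (10267) 10000 + cC (13438) 10000 * xD + cC (-3410) 10000 * (xD * xD) - u

/-- The numerator of `lowEnd`. -/
def lowEn (u : Ex) : Ex :=
  cC (17) 20 * (cC (8901) 10000 + cC (-464838) 10000 * xD + cC (1309812) 10000 * (xD * xD) + (cC (18602) 10000 + cC (932514) 10000 * xD + cC (-2850123) 10000 * (xD * xD)) * cC (39) 40 + (cC (-17243) 10000 + cC (-504763) 10000 * xD + cC (1590104) 10000 * (xD * xD)) * (cC (39) 40 * cC (39) 40))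

/-- The denominator of `lowEnd`. -/
def lowEd (u : Ex) : Ex :=
  cC (10267) 10000 + cC (13438) 10000 * xD + cC (-3410) 10000 * (xD * xD) - cC (39) 40

/-- The numerator of the upper band of `bandsA`. -/
def upAn (u : Ex) : Ex :=
  cC (9899) 10000 + cC (25384) 10000 * xD + cC (-56770) 10000 * (xD * xD) + (cC (22367) 10000 + cC (-265277) 10000 * xD + cC (521275) 10000 * (xD * xD)) * u + (cC (-23294) 10000 + cC (218415) 10000 * xD + cC (-445561) 10000 * (xD * xD)) * (u * u) + (cC (1047) 10000 + cC (-2664) 10000 * xD + cC (6386) 10000 * (xD * xD)) * xV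

/-- The denominator of the upper band of `bandsA`. -/
def upAd (u : Ex) : Ex :=
  cC (10213) 10000 + cC (4158) 10000 * xD + cC (60449) 10000 * (xD * xD) - u

/-- The excess of `v` over `bandsA.phi`, times its denominator. -/
def phAn (u : Ex) : Ex :=
  xV * (cC (10613) 10000 + cC (-2562) 10000 * xD + cC (-126334) 10000 * (xD * xD) - u) - (cC (4449) 10000 + cC (11025) 10000 * xD + cC (450604) 10000 * (xD * xD) + (cC (1677) 10000 + cC (-63372) 10000 * xD + cC (257195) 10000 * (xD * xD)) * u + (cC (-4134) 10000 + cC (52233) 10000 * xD + cC (-1111663) 10000 * (xD * xD)) * (u * u))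

/-- The denominator of `bandsA.phi`. -/
def phAd (u : Ex) : Ex :=
  cC (10613) 10000 + cC (-2562) 10000 * xD + cC (-126334) 10000 * (xD * xD) - u

/-- The numerator of the upper band of `bandsB`. -/
def upBn (u : Ex) : Ex :=
  cC (10782) 10000 + cC (12374) 10000 * xD + cC (38760) 10000 * (xD * xD) + (cC (25272) 10000 + cC (-275010) 10000 * xD + cC (503730) 10000 * (xD * xD)) * u + (cC (-29700) 10000 + cC (245756) 10000 * xD + cC (-383337) 10000 * (xD * xD)) * (u * u) + (cC (2012) 10000 + cC (-8887) 10000 * xD + cC (20378) 10000 * (xD * xD)) * xV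

/-- The denominator of the upper band of `bandsB`. -/
def upBd (u : Ex) : Ex :=
  cC (10235) 10000 + cC (6592) 10000 * xD + cC (61782) 10000 * (xD * xD) - u

/-- The excess of `v` over `bandsB.phi`, times its denominator. -/
def phBn (u : Ex) : Ex :=
  xV * (cC (10679) 10000 + cC (-15531) 10000 * xD + cC (94429) 10000 * (xD * xD) - u) - (cC (4688) 10000 + cC (9807) 10000 * xD + cC (143445) 10000 * (xD * xD) + (cC (778) 10000 + cC (42834) 10000 * xD + cC (-818829) 10000 * (xD * xD)) * u + (cC (-3339) 10000 + cC (-87629) 10000 * xD + cC (887392) 10000 * (xD * xD)) * (u * u))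

/-- The denominator of `bandsB.phi`. -/
def phBd (u : Ex) : Ex :=
  cC (10679) 10000 + cC (-15531) 10000 * xD + cC (94429) 10000 * (xD * xD) - u

/-- The numerator of the upper band of `bandsC`. -/
def upCn (u : Ex) : Ex :=
  cC (9974) 10000 + cC (31024) 10000 * xD + cC (-37444) 10000 * (xD * xD) + (cC (22172) 10000 + cC (-252383) 10000 * xD + cC (439811) 10000 * (xD * xD)) * u + (cC (-28318) 10000 + cC (252797) 10000 * xD + cC (-453520) 10000 * (xD * xD)) * (u * u) + (cC (2260) 10000 + cC (-10274) 10000 * xD + cC (16907) 10000 * (xD * xD)) * xV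

/-- The denominator of the upper band of `bandsC`. -/
def upCd (u : Ex) : Ex :=
  cC (10349) 10000 + cC (5840) 10000 * xD + cC (65512) 10000 * (xD * xD) - u

/-- The excess of `v` over `bandsC.phi`, times its denominator. -/
def phCn (u : Ex) : Ex :=
  xV * (cC (9993) 10000 + cC (1635) 10000 * xD + cC (682) 10000 * (xD * xD) - u) - (cC (1003) 10000 + cC (82233) 10000 * xD + cC (-211870) 10000 * (xD * xD) + (cC (10241) 10000 + cC (-191297) 10000 * xD + cC (483620) 10000 * (xD * xD)) * u + (cC (-10414) 10000 + cC (111314) 10000 * xD + cC (-276523) 10000 * (xD * xD)) * (u * u))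

/-- The denominator of `bandsC.phi`. -/
def phCd (u : Ex) : Ex :=
  cC (9993) 10000 + cC (1635) 10000 * xD + cC (682) 10000 * (xD * xD) - u

/-- The numerator of the upper band of the layer. -/
def layUn (u : Ex) : Ex :=
  cC (23) 50 + cC 15 * xD - cC 175 * (xD * xD) + cC (1) 10 * xV

/-- The denominator of the upper band of the layer. -/
def layUd (u : Ex) : Ex :=
  cC 1 - u + xD

/-- The numerator of the slope at `ev = 0`. -/
def evN (u : Ex) : Ex :=
  xBB * (xGn u - cC 4 * xS * xB * (cC 1 - u) * (cC 2 + xD * xV)) -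
    xD * u * xS * (cC 1 + (cC 1 - xA) * xV) * (xGn u - cC 4 * xS * xB * (cC 1 - u))

/-- The denominator of the slope at `ev = 0`. -/
def evD (u : Ex) : Ex :=
  xD * (u * u) * xBB * (xGn u - cC 4 * xS * xB * (cC 1 - u))

variable {b : Box}

/-- Positive where a second expression is positive. -/
def PosIf (b : Box) (g e : Ex) : Prop :=
  ∀ o S d v : ℝ, b.s₀.Mem o → b.s₁.Mem S → b.s₂.Mem d → b.s₃.Mem v → Dom S d v →
    0 < g.val o S d v → 0 < e.val o S d v

theorem posIf_of_posD {g e : Ex} (h : PosD b e) : PosIf b g e :=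
  fun o S d v h₀ h₁ h₂ h₃ hD _ => h o S d v h₀ h₁ h₂ h₃ hD

theorem posIf_of_mul {g e : Ex} {k n : ℕ} (h : PosD b (e - cC k n * g)) : PosIf b g e := by
  intro o S d v h₀ h₁ h₂ h₃ hD hg
  have k1 := h o S d v h₀ h₁ h₂ h₃ hD
  simp only [ex_sub, ex_mul, Ex.val] at k1
  push_cast at k1
  have := mul_nonneg (div_nonneg (Nat.cast_nonneg (α := ℝ) k) (Nat.cast_nonneg (α := ℝ) n)) hg.le
  linarith

theorem posIf_join₀ {a m z : ℤ} {n : ℕ} {s r w : Side} {g e : Ex}
    (h : PosIf ⟨⟨a, m, n⟩, s, r, w⟩ g e) (h' : PosIf ⟨⟨m, z, n⟩, s, r, w⟩ g e) :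
    PosIf ⟨⟨a, z, n⟩, s, r, w⟩ g e := fun o S d v h₀ h₁ h₂ h₃ hd hg =>
  (Side.mem_or (m := m) h₀).elim (fun k => h o S d v k h₁ h₂ h₃ hd hg)
    fun k => h' o S d v k h₁ h₂ h₃ hd hg

theorem posIf_join₂ {a m z : ℤ} {n : ℕ} {s r w : Side} {g e : Ex}
    (h : PosIf ⟨s, r, ⟨a, m, n⟩, w⟩ g e) (h' : PosIf ⟨s, r, ⟨m, z, n⟩, w⟩ g e) :
    PosIf ⟨s, r, ⟨a, z, n⟩, w⟩ g e := fun o S d v h₀ h₁ h₂ h₃ hd hg =>
  (Side.mem_or (m := m) h₂).elim (fun k => h o S d v h₀ h₁ k h₃ hd hg)
    fun k => h' o S d v h₀ h₁ k h₃ hd hg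

theorem posIf_join₃ {a m z : ℤ} {n : ℕ} {s r w : Side} {g e : Ex}
    (h : PosIf ⟨s, r, w, ⟨a, m, n⟩⟩ g e) (h' : PosIf ⟨s, r, w, ⟨m, z, n⟩⟩ g e) :
    PosIf ⟨s, r, w, ⟨a, z, n⟩⟩ g e := fun o S d v h₀ h₁ h₂ h₃ hd hg =>
  (Side.mem_or (m := m) h₃).elim (fun k => h o S d v h₀ h₁ h₂ k hd hg)
    fun k => h' o S d v h₀ h₁ h₂ k hd hg

theorem posIf_units {b' : Box} {g e : Ex} (h : sameBox b b' = true) (hb : PosIf b g e) :
    PosIf b' g e := by
  simp only [sameBox, Bool.and_eq_true] at h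
  intro o S d v h₀ h₁ h₂ h₃ hd hg
  exact hb o S d v (sameSide_mem h.1.1.1 h₀) (sameSide_mem h.1.1.2 h₁) (sameSide_mem h.1.2 h₂)
    (sameSide_mem h.2 h₃) hd hg

/-- The box `c` lies in the box `b`. -/
def subBox (c b : Box) : Bool :=
  subSide c.s₀ b.s₀ && subSide c.s₁ b.s₁ && subSide c.s₂ b.s₂ && subSide c.s₃ b.s₃
where
  subSide (s t : Side) : Bool :=
    decide (0 < s.den) && decide (0 < t.den) && decide (t.lo * s.den ≤ s.lo * t.den) &&
      decide (s.hi * t.den ≤ t.hi * s.den)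

theorem subSide_mem {s r : Side} (h : subBox.subSide s r = true) {x : ℝ} (hx : s.Mem x) :
    r.Mem x := by
  simp only [subBox.subSide, Bool.and_eq_true, decide_eq_true_eq] at h
  obtain ⟨⟨⟨hs, ht⟩, hl⟩, hh⟩ := h
  have hs' : (0 : ℝ) < s.den := by exact_mod_cast hs
  have ht' : (0 : ℝ) < r.den := by exact_mod_cast ht
  have hl' : (r.lo : ℝ) / r.den ≤ (s.lo : ℝ) / s.den := by
    rw [div_le_div_iff₀ ht' hs']; exact_mod_cast hl
  have hh' : (s.hi : ℝ) / s.den ≤ (r.hi : ℝ) / r.den := by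
    rw [div_le_div_iff₀ hs' ht']; exact_mod_cast hh
  exact ⟨hl'.trans hx.1, hx.2.trans_le hh'⟩

theorem posD_sub {c : Box} {e : Ex} (h : subBox c b = true) (hb : PosD b e) : PosD c e := by
  simp only [subBox, Bool.and_eq_true] at h
  intro o S d v h₀ h₁ h₂ h₃ hd
  exact hb o S d v (subSide_mem h.1.1.1 h₀) (subSide_mem h.1.1.2 h₁) (subSide_mem h.1.2 h₂)
    (subSide_mem h.2 h₃) hd

end Vale.Agent.P100.Calib.Closed.Six.Tail
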