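import Vale.Agent.P100.Calib.SlabSixEndExpr
import Vale.Agent.P100.Calib.SlabSixTailSigns

/-!
# The forms as polynomials in `(X, u)` and in `(X, u, φ)`

At a point of the chart `Δ g`, `Δ g E`, `Δ g K` and `Δ ^ 2 u g W1` are affine in `u` and `u X`, so
`Δ ^ 2` times each form, times `u` where `g W1` occurs, is a polynomial with the exact data.
-/

set_option linter.unusedVariables false
set_option linter.unusedSimpArgs false

namespace Vale.Agent.P100.Calib.Closed.Six.End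

open BoxPos
open Bot (T11 T7 T3 T6 P3 T12 U7 E7 P2)
open Tail (N6 X6 G6 Y6 eSix kSix zSix)

local instance endRealAdd : Add Ex := ⟨Ex.add⟩
local instance endRealSub : Sub Ex := ⟨Ex.sub⟩
local instance endRealMul : Mul Ex := ⟨Ex.mul⟩

/-- The value of a closed expression in the variables `(r, d, v)`. -/
noncomputable def at3 (r d v : ℝ) (e : Ex) : ℝ := e.val 0 r d v

/-- `Δ` at `(r, d, v)`. -/
noncomputable def rD (r d v : ℝ) : ℝ := at3 r d v (qD Ex.x₁ Ex.x₂ Ex.x₃)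

theorem rD_eq (r d v : ℝ) : rD r d v =
    (2 + r) / 3 * (1 - (2 + r) / 3) * (((2 + r) / 3 + d) / 2) * (2 + d * v) := by
  simp only [rD, at3, qD, qS, qB, qL, ex_add, ex_sub, ex_mul, Ex.val]
  push_cast
  ring

theorem rD_pos {r d v : ℝ} (hr : 0 ≤ r) (hr₁ : r < 1) (hd : 0 ≤ d) (hv : 0 ≤ v) :
    0 < rD r d v := by
  rw [rD_eq]
  refine mul_pos (mul_pos (mul_pos ?_ ?_) ?_) ?_
  · linarith
  · linarith
  · linarith
  · linarith [mul_nonneg hd hv]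

/-- The products at a point, `X = g W`, `e = g E`, `k = g K`, `w = g W1`. -/
structure Prods (r d v u X e k w : ℝ) : Prop where
  he : rD r d v * e = at3 r d v (qY Ex.x₂ Ex.x₃ * qG0 Ex.x₁ Ex.x₂ Ex.x₃) +
    at3 r d v (qY Ex.x₂ Ex.x₃ * qG1 Ex.x₁ Ex.x₂ Ex.x₃) * u +
    at3 r d v (qYx Ex.x₁ Ex.x₂ Ex.x₃) * (u * X)
  hk : rD r d v * k = at3 r d v (qC Ex.x₂ * qG0 Ex.x₁ Ex.x₂ Ex.x₃) +
    at3 r d v (qC Ex.x₂ * qG1 Ex.x₁ Ex.x₂ Ex.x₃) * u +
    at3 r d v (qQx Ex.x₁ Ex.x₂ Ex.x₃) * (u * X)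
  hw : rD r d v ^ 2 * (u * w) = at3 r d v (qW0 Ex.x₁ Ex.x₂ Ex.x₃) +
    at3 r d v (qW1 Ex.x₁ Ex.x₂ Ex.x₃) * u - at3 r d v (qWk Ex.x₁ Ex.x₂ Ex.x₃) * X +
    at3 r d v (qWx Ex.x₁ Ex.x₂ Ex.x₃) * (u * X)

/-- The products at a point with `g = f X`. -/
structure ProdsD (r d v u X f e k w : ℝ) : Prop where
  he : rD r d v * e = (at3 r d v (qY Ex.x₂ Ex.x₃) * rD r d v * f -
    at3 r d v (qC Ex.x₂ * qK Ex.x₁ Ex.x₂ Ex.x₃) * u) * X
  hk : rD r d v * k = at3 r d v (qC Ex.x₂) *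
    (rD r d v * f - d * at3 r d v (qK Ex.x₁ Ex.x₂ Ex.x₃) * u) * X
  hw : rD r d v ^ 2 * (u * w) = (at3 r d v (qWc Ex.x₁ Ex.x₂ Ex.x₃) * u +
    at3 r d v (qWg Ex.x₁ Ex.x₂ Ex.x₃) * f - at3 r d v (qWk Ex.x₁ Ex.x₂ Ex.x₃)) * X

section
variable {r d v u X e k w : ℝ}

theorem val_qA : at3 r d v (qA Ex.x₁ Ex.x₂) = ((2 + r) / 3 - d) / 2 := by
  simp only [at3, qA, qS, ex_add, ex_sub, ex_mul, Ex.val]
  push_cast
  ring

theorem A_poly (ze : Ex) {z : ℝ} (hz : at3 r d v ze = z)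
    (h : Prods r d v u X e k w) :
    ((exA ze Ex.x₁ Ex.x₂ Ex.x₃).map (at3 r d v)).poly X u =
      rD r d v ^ 2 * (u * Tail.T6 (((2 + r) / 3 - d) / 2) d v z e X k w) := by
  obtain ⟨he, hk, hw⟩ := h
  rw [T6_coef (ea := qA Ex.x₁ Ex.x₂) (ed := Ex.x₂) (ev := Ex.x₃) (o := 0) (S := r) (t := d)
    (u := v) (a := ((2 + r) / 3 - d) / 2) (d := d) (v := v) val_qA rfl rfl z e X k w]
  subst hz
  simp only [exA, ex11, T11.map, T11.poly, at3, rD, ex_add, ex_sub, ex_mul, Ex.val]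
    at he hk hw ⊢
  generalize (qD Ex.x₁ Ex.x₂ Ex.x₃).val 0 r d v = D at *
  generalize (qY Ex.x₂ Ex.x₃).val 0 r d v = Y at *
  generalize (qG0 Ex.x₁ Ex.x₂ Ex.x₃).val 0 r d v = G₀ at *
  generalize (qG1 Ex.x₁ Ex.x₂ Ex.x₃).val 0 r d v = G₁ at *
  generalize (qYx Ex.x₁ Ex.x₂ Ex.x₃).val 0 r d v = Yx at *
  generalize (eA01 (qA Ex.x₁ Ex.x₂) Ex.x₂ Ex.x₃).val 0 r d v = c01 at *
  generalize (eA11 (qA Ex.x₁ Ex.x₂) Ex.x₂ Ex.x₃).val 0 r d v = c11 at *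
  generalize (eA02 (qA Ex.x₁ Ex.x₂) Ex.x₂ Ex.x₃).val 0 r d v = c02 at *
  generalize (eAk (qA Ex.x₁ Ex.x₂) Ex.x₂ Ex.x₃).val 0 r d v = ck at *
  generalize (eAw (qA Ex.x₁ Ex.x₂) Ex.x₂ Ex.x₃).val 0 r d v = cw at *
  push_cast
  linear_combination -(u * D * c01 + u * X * D * c11 + u * c02 *
    (D * e + Y * G₀ + Y * G₁ * u + Yx * (u * X))) * he - u * D * ck * hk - cw * hw

theorem N_poly (ze : Ex) {z : ℝ} (hz : at3 r d v ze = z)
    (h : Prods r d v u X e k w) :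
    ((exN ze Ex.x₁ Ex.x₂ Ex.x₃).map (at3 r d v)).poly X u =
      rD r d v ^ 2 * (u * N6 (((2 + r) / 3 - d) / 2) d v z e X k w) := by
  obtain ⟨he, hk, hw⟩ := h
  rw [N6_coef (ea := qA Ex.x₁ Ex.x₂) (ed := Ex.x₂) (ev := Ex.x₃) (o := 0) (S := r) (t := d)
    (u := v) (a := ((2 + r) / 3 - d) / 2) (d := d) (v := v) val_qA rfl rfl z e X k w]
  subst hz
  simp only [exN, ex11, T11.map, T11.poly, at3, rD, ex_add, ex_sub, ex_mul, Ex.val]
    at he hk hw ⊢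
  generalize (qD Ex.x₁ Ex.x₂ Ex.x₃).val 0 r d v = D at *
  generalize (qY Ex.x₂ Ex.x₃).val 0 r d v = Y at *
  generalize (qG0 Ex.x₁ Ex.x₂ Ex.x₃).val 0 r d v = G₀ at *
  generalize (qG1 Ex.x₁ Ex.x₂ Ex.x₃).val 0 r d v = G₁ at *
  generalize (qYx Ex.x₁ Ex.x₂ Ex.x₃).val 0 r d v = Yx at *
  generalize (eN01 (qA Ex.x₁ Ex.x₂) Ex.x₂ Ex.x₃).val 0 r d v = c01 at *
  generalize (eN11 (qA Ex.x₁ Ex.x₂) Ex.x₂ Ex.x₃).val 0 r d v = c11 at *
  generalize (eN02 (qA Ex.x₁ Ex.x₂) Ex.x₂ Ex.x₃).val 0 r d v = c02 at *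
  generalize (eNk (qA Ex.x₁ Ex.x₂) Ex.x₂ Ex.x₃).val 0 r d v = ck at *
  generalize (eNw (qA Ex.x₁ Ex.x₂) Ex.x₂ Ex.x₃).val 0 r d v = cw at *
  push_cast
  linear_combination -(u * D * c01 + u * X * D * c11 + u * c02 *
    (D * e + Y * G₀ + Y * G₁ * u + Yx * (u * X))) * he - u * D * ck * hk - cw * hw

theorem M_poly (h : Prods r d v u X e k w) :
    ((exM Ex.x₁ Ex.x₂ Ex.x₃).map (at3 r d v)).poly X u =
      rD r d v ^ 2 * (u * X6 (((2 + r) / 3 - d) / 2) d v e X k w) := by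
  obtain ⟨he, hk, hw⟩ := h
  rw [X6_coef (ea := qA Ex.x₁ Ex.x₂) (ed := Ex.x₂) (ev := Ex.x₃) (o := 0) (S := r) (t := d)
    (u := v) (a := ((2 + r) / 3 - d) / 2) (d := d) (v := v) val_qA rfl rfl 0 e X k w]
  simp only [exM, T7.map, T7.poly, at3, rD, ex_add, ex_sub, ex_mul, Ex.val] at he hk hw ⊢
  generalize (qD Ex.x₁ Ex.x₂ Ex.x₃).val 0 r d v = D at *
  generalize (eM01 (qA Ex.x₁ Ex.x₂) Ex.x₂ Ex.x₃).val 0 r d v = c01 at *
  generalize (eM11 (qA Ex.x₁ Ex.x₂) Ex.x₂ Ex.x₃).val 0 r d v = c11 at *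
  generalize (eMk (qA Ex.x₁ Ex.x₂) Ex.x₂ Ex.x₃).val 0 r d v = ck at *
  generalize (eMw (qA Ex.x₁ Ex.x₂) Ex.x₂ Ex.x₃).val 0 r d v = cw at *
  push_cast
  linear_combination -(u * D * c01 + u * X * D * c11) * he - u * D * ck * hk - cw * hw

theorem E_poly (ze : Ex) {z : ℝ} (hz : at3 r d v ze = z)
    (h : Prods r d v u X e k w) :
    ((exE ze Ex.x₁ Ex.x₂ Ex.x₃).map (at3 r d v)).poly X u =
      rD r d v ^ 2 * Y6 (((2 + r) / 3 - d) / 2) d v z e X := by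
  obtain ⟨he, hk, hw⟩ := h
  rw [Y6_coef (ea := qA Ex.x₁ Ex.x₂) (ed := Ex.x₂) (ev := Ex.x₃) (o := 0) (S := r) (t := d)
    (u := v) (a := ((2 + r) / 3 - d) / 2) (d := d) (v := v) val_qA rfl rfl z e X k w]
  subst hz
  simp only [exE, T6.map, T6.poly, at3, rD, ex_add, ex_sub, ex_mul, Ex.val] at he hk hw ⊢
  generalize (qD Ex.x₁ Ex.x₂ Ex.x₃).val 0 r d v = D at *
  generalize (eE01 (qA Ex.x₁ Ex.x₂) Ex.x₂ Ex.x₃).val 0 r d v = c01 at *
  generalize (eE11 (qA Ex.x₁ Ex.x₂) Ex.x₂ Ex.x₃).val 0 r d v = c11 at *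
  push_cast
  linear_combination -(D * c01 + X * D * c11) * he

theorem G_poly (ze : Ex) {z : ℝ} (hz : at3 r d v ze = z) (X : ℝ) :
    ((exG ze Ex.x₁ Ex.x₂ Ex.x₃).map (at3 r d v)).poly X =
      rD r d v ^ 2 * G6 (((2 + r) / 3 - d) / 2) d v z X := by
  rw [G6_coef (ea := qA Ex.x₁ Ex.x₂) (ed := Ex.x₂) (ev := Ex.x₃) (o := 0) (S := r) (t := d)
    (u := v) (a := ((2 + r) / 3 - d) / 2) (d := d) (v := v) val_qA rfl rfl z 0 X 0 0]
  subst hz
  simp only [exG, T3.map, T3.poly, at3, rD, ex_add, ex_sub, ex_mul, Ex.val]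
  push_cast
  ring

theorem P_poly (h : Prods r d v u X e k w) :
    ((exP Ex.x₁ Ex.x₂ Ex.x₃).map (at3 r d v)).poly X u =
      rD r d v ^ 2 * ((1 - (2 + r) / 3) * (X * -e)) := by
  obtain ⟨he, hk, hw⟩ := h
  have es : (qS Ex.x₁).val 0 r d v = (2 + r) / 3 := by
    simp only [qS, ex_add, ex_mul, Ex.val]; push_cast; ring
  simp only [exP, P3.map, P3.poly, at3, rD, ex_add, ex_sub, ex_mul, Ex.val, es] at he hk hw ⊢
  generalize (qD Ex.x₁ Ex.x₂ Ex.x₃).val 0 r d v = D at *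
  push_cast
  linear_combination ((1 - (2 + r) / 3) * D * X) * he

end

section
variable {r d v u X f e k w : ℝ}

theorem A'_poly (ze : Ex) {z : ℝ} (hz : at3 r d v ze = z)
    (h : ProdsD r d v u X f e k w) :
    ((exA' ze Ex.x₁ Ex.x₂ Ex.x₃).map (at3 r d v)).poly X u f =
      rD r d v ^ 2 * (u * Tail.T6 (((2 + r) / 3 - d) / 2) d v z e X k w) := by
  obtain ⟨he, hk, hw⟩ := h
  rw [T6_coef (ea := qA Ex.x₁ Ex.x₂) (ed := Ex.x₂) (ev := Ex.x₃) (o := 0) (S := r) (t := d)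
    (u := v) (a := ((2 + r) / 3 - d) / 2) (d := d) (v := v) val_qA rfl rfl z e X k w]
  subst hz
  simp only [exA', ex12, T12.map, T12.poly, at3, rD, ex_add, ex_sub, ex_mul, Ex.val]
    at he hk hw ⊢
  generalize (qD Ex.x₁ Ex.x₂ Ex.x₃).val 0 r d v = D at *
  generalize (qY Ex.x₂ Ex.x₃).val 0 r d v = Y at *
  generalize (qC Ex.x₂).val 0 r d v = C at *
  generalize (qK Ex.x₁ Ex.x₂ Ex.x₃).val 0 r d v = K at *
  generalize (eA01 (qA Ex.x₁ Ex.x₂) Ex.x₂ Ex.x₃).val 0 r d v = c01 at *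
  generalize (eA11 (qA Ex.x₁ Ex.x₂) Ex.x₂ Ex.x₃).val 0 r d v = c11 at *
  generalize (eA02 (qA Ex.x₁ Ex.x₂) Ex.x₂ Ex.x₃).val 0 r d v = c02 at *
  generalize (eAk (qA Ex.x₁ Ex.x₂) Ex.x₂ Ex.x₃).val 0 r d v = ck at *
  generalize (eAw (qA Ex.x₁ Ex.x₂) Ex.x₂ Ex.x₃).val 0 r d v = cw at *
  push_cast
  linear_combination -(u * D * c01 + u * X * D * c11 + u * c02 *
    (D * e + (Y * D * f - C * K * u) * X)) * he - u * D * ck * hk - cw * hw

theorem N'_poly (ze : Ex) {z : ℝ} (hz : at3 r d v ze = z)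
    (h : ProdsD r d v u X f e k w) :
    ((exN' ze Ex.x₁ Ex.x₂ Ex.x₃).map (at3 r d v)).poly X u f =
      rD r d v ^ 2 * (u * N6 (((2 + r) / 3 - d) / 2) d v z e X k w) := by
  obtain ⟨he, hk, hw⟩ := h
  rw [N6_coef (ea := qA Ex.x₁ Ex.x₂) (ed := Ex.x₂) (ev := Ex.x₃) (o := 0) (S := r) (t := d)
    (u := v) (a := ((2 + r) / 3 - d) / 2) (d := d) (v := v) val_qA rfl rfl z e X k w]
  subst hz
  simp only [exN', ex12, T12.map, T12.poly, at3, rD, ex_add, ex_sub, ex_mul, Ex.val]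
    at he hk hw ⊢
  generalize (qD Ex.x₁ Ex.x₂ Ex.x₃).val 0 r d v = D at *
  generalize (qY Ex.x₂ Ex.x₃).val 0 r d v = Y at *
  generalize (qC Ex.x₂).val 0 r d v = C at *
  generalize (qK Ex.x₁ Ex.x₂ Ex.x₃).val 0 r d v = K at *
  generalize (eN01 (qA Ex.x₁ Ex.x₂) Ex.x₂ Ex.x₃).val 0 r d v = c01 at *
  generalize (eN11 (qA Ex.x₁ Ex.x₂) Ex.x₂ Ex.x₃).val 0 r d v = c11 at *
  generalize (eN02 (qA Ex.x₁ Ex.x₂) Ex.x₂ Ex.x₃).val 0 r d v = c02 at *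
  generalize (eNk (qA Ex.x₁ Ex.x₂) Ex.x₂ Ex.x₃).val 0 r d v = ck at *
  generalize (eNw (qA Ex.x₁ Ex.x₂) Ex.x₂ Ex.x₃).val 0 r d v = cw at *
  push_cast
  linear_combination -(u * D * c01 + u * X * D * c11 + u * c02 *
    (D * e + (Y * D * f - C * K * u) * X)) * he - u * D * ck * hk - cw * hw

theorem M'_poly (h : ProdsD r d v u X f e k w) :
    X * ((exM' Ex.x₁ Ex.x₂ Ex.x₃).map (at3 r d v)).poly X u f =
      rD r d v ^ 2 * (u * X6 (((2 + r) / 3 - d) / 2) d v e X k w) := by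
  obtain ⟨he, hk, hw⟩ := h
  rw [X6_coef (ea := qA Ex.x₁ Ex.x₂) (ed := Ex.x₂) (ev := Ex.x₃) (o := 0) (S := r) (t := d)
    (u := v) (a := ((2 + r) / 3 - d) / 2) (d := d) (v := v) val_qA rfl rfl 0 e X k w]
  simp only [exM', U7.map, U7.poly, at3, rD, ex_add, ex_sub, ex_mul, Ex.val] at he hk hw ⊢
  generalize (qD Ex.x₁ Ex.x₂ Ex.x₃).val 0 r d v = D at *
  generalize (eM01 (qA Ex.x₁ Ex.x₂) Ex.x₂ Ex.x₃).val 0 r d v = c01 at *
  generalize (eM11 (qA Ex.x₁ Ex.x₂) Ex.x₂ Ex.x₃).val 0 r d v = c11 at *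
  generalize (eMk (qA Ex.x₁ Ex.x₂) Ex.x₂ Ex.x₃).val 0 r d v = ck at *
  generalize (eMw (qA Ex.x₁ Ex.x₂) Ex.x₂ Ex.x₃).val 0 r d v = cw at *
  push_cast
  linear_combination -(u * D * c01 + u * X * D * c11) * he - u * D * ck * hk - cw * hw

theorem E'_poly (ze : Ex) {z : ℝ} (hz : at3 r d v ze = z)
    (h : ProdsD r d v u X f e k w) :
    ((exE' ze Ex.x₁ Ex.x₂ Ex.x₃).map (at3 r d v)).poly X u f =
      rD r d v ^ 2 * Y6 (((2 + r) / 3 - d) / 2) d v z e X := by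
  obtain ⟨he, hk, hw⟩ := h
  rw [Y6_coef (ea := qA Ex.x₁ Ex.x₂) (ed := Ex.x₂) (ev := Ex.x₃) (o := 0) (S := r) (t := d)
    (u := v) (a := ((2 + r) / 3 - d) / 2) (d := d) (v := v) val_qA rfl rfl z e X k w]
  subst hz
  simp only [exE', E7.map, E7.poly, at3, rD, ex_add, ex_sub, ex_mul, Ex.val] at he hk hw ⊢
  generalize (qD Ex.x₁ Ex.x₂ Ex.x₃).val 0 r d v = D at *
  generalize (eE01 (qA Ex.x₁ Ex.x₂) Ex.x₂ Ex.x₃).val 0 r d v = c01 at *
  generalize (eE11 (qA Ex.x₁ Ex.x₂) Ex.x₂ Ex.x₃).val 0 r d v = c11 at *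
  push_cast
  linear_combination -(D * c01 + X * D * c11) * he

theorem P'_poly (h : ProdsD r d v u X f e k w) :
    X ^ 2 * ((exP' Ex.x₁ Ex.x₂ Ex.x₃).map (at3 r d v)).poly u f =
      rD r d v ^ 2 * ((1 - (2 + r) / 3) * (X * -e)) := by
  obtain ⟨he, hk, hw⟩ := h
  have es : (qS Ex.x₁).val 0 r d v = (2 + r) / 3 := by
    simp only [qS, ex_add, ex_mul, Ex.val]; push_cast; ring
  simp only [exP', P2.map, P2.poly, at3, rD, ex_add, ex_sub, ex_mul, Ex.val, es] at he hk hw ⊢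
  generalize (qD Ex.x₁ Ex.x₂ Ex.x₃).val 0 r d v = D at *
  push_cast
  linear_combination ((1 - (2 + r) / 3) * D * X) * he

end

/-- The products in the chart. -/
theorem chart_prods {d S u v t : ℝ} (hS0 : 0 < S) (hS1 : S < 1) (hd : 0 ≤ d)
    (hY : 0 < 2 + d * v - d * u * chH d S u v t) :
    Prods (3 * S - 2) d v u (chG d S u v t * chW d S u v t)
      (chG d S u v t * eSix d v (chW d S u v t) (chR S u))
      (chG d S u v t * kSix d (chW d S u v t) (chR S u)) (chG d S u v t * chW1 d S u v t) := by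
  have hS : (2 + (3 * S - 2)) / 3 = S := by ring
  have h2S : (2 : ℝ) - S ≠ 0 := by linarith
  have hb : (S + d) / 2 ≠ 0 := by linarith
  have hSd : S + d ≠ 0 := by linarith
  have h1S : (1 : ℝ) - S ≠ 0 := by linarith
  have eG : chG d S u v t * ((1 - S) * ((S + d) / 2) * (2 + d * v - d * u * chH d S u v t)) =
      4 * ((2 + d * v) * ((S + d) / 2) - S * u * (1 + d * v)) :=
    div_mul_cancel₀ _ (mul_ne_zero (mul_ne_zero h1S hb) hY.ne')
  have eW : chW d S u v t * S = (1 - S) * chH d S u v t := by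
    simp only [chW]; field_simp
  have eR : chR S u * (1 - S) = S * u := by simp only [chR]; field_simp
  have eW1 : chW1 d S u v t * (S * S * ((S + d) / 2)) =
      (1 - S) * (S * chH d S u v t * ((S - d) / 2 - (1 - (S - d) / 2) * d * v) -
        (2 - S) * t * ((S + d) / 2)) := by
    simp only [chW1]
    generalize chH d S u v t = H
    field_simp
  have eH : chH d S u v t * ((S + d) / 2 * (2 - S)) =
      S * (1 + (1 - (S - d) / 2) * v) + u * t * ((S + d) / 2 * (2 - S)) := by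
    simp only [chH]; field_simp
  have eRW : chR S u * chW d S u v t = u * chH d S u v t := by
    have h0 : (1 - S) * (chR S u * chW d S u v t - u * chH d S u v t) * S = 0 := by
      linear_combination (chW d S u v t * S) * eR + S * u * eW
    have := mul_eq_zero.1 ((mul_eq_zero.1 h0).resolve_right hS0.ne')
    linarith [this.resolve_left h1S]
  simp only [eSix, kSix] at *
  constructor
  all_goals
    simp only [rD, at3, qD, qS, qA, qB, qL, qP, qY, qC, qG0, qG1, qG2, qK, qYx, qQx, qV, qW0, qW1,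
      qWk, qWc, qWx, ex_add, ex_sub, ex_mul, Ex.val, hS]
    push_cast
    simp only [div_one, mul_one, one_mul]
    generalize chG d S u v t = g at *
    generalize chW d S u v t = W at *
    generalize chH d S u v t = H at *
    generalize chR S u = R at *
    generalize chW1 d S u v t = W1 at *
  · linear_combination (-(19 / 10 + v * (7 / 50 - 1 / 5 * d))) * (S * eG - S * ((S + d) / 2) * d * u * g * eW) -
      (7 / 50 - 21 / 10 * d) * S * ((S + d) / 2) * (2 + d * v) * g * ((1 - S) * eRW - u * eW)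
  · linear_combination (7 / 50 - 21 / 10 * d) * (S * eG - S * ((S + d) / 2) * d * u * g * eW) -
      (7 / 50 - 21 / 10 * d) * d * S * ((S + d) / 2) * (2 + d * v) * g * ((1 - S) * eRW - u * eW)
  · linear_combination (1 - S) ^ 2 * ((S + d) / 2) * (2 + d * v) ^ 2 * u * g * eW1 +
      (1 - S) ^ 3 * ((S + d) / 2) * (2 + d * v) ^ 2 * g * eH -
      (1 - S) ^ 2 * ((S + d) / 2) * (2 + d * v) ^ 2 * g *
        (u * S * ((S - d) / 2 - (1 - (S - d) / 2) * d * v) - (S + d) / 2 * (2 - S)) * eW +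
      S * (1 - S) ^ 2 * (2 + d * v) * (1 + (1 - (S - d) / 2) * v) *
        (eG - (S + d) / 2 * d * u * g * eW)

end Vale.Agent.P100.Calib.Closed.Six.End
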