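import Vale.Agent.P100.Calib.SlabSixEndSound

/-!
# The chart in a piece of the end certificate of dimension six

The chart bounds `X = g W` between the ends of a piece, `z` between its ends, and `φ = g / X` where
it is used. With the checks of the piece this gives the closed signs at the point.
-/

set_option linter.unusedVariables false
set_option linter.unusedSimpArgs false

namespace Vale.Agent.P100.Calib.Closed.Six.End

open BoxPos
open Large (PosBox)
open Bot (L2 Q6 Q10 k₄)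
open Tail (N6 X6 G6 Y6 eSix kSix zSix)

local instance endSideAdd : Add Ex := ⟨Ex.add⟩
local instance endSideSub : Sub Ex := ⟨Ex.sub⟩
local instance endSideMul : Mul Ex := ⟨Ex.mul⟩

/-- `r`, its place in `[0, rm]` in the first variable. -/
def Frame.sR (F : Frame) : Ex := Ex.x₀ * cC F.rm 1000000

/-- The excess of the upper end of `r` over the one from `S (1 + d v) < 1`. -/
def Frame.sKap (F : Frame) : Ex :=
  (F.xR true + cC 2) * qP Ex.x₂ F.xV - cC 3

/-- The excess of the end bound of `X` over `ev_pos`, times `S d b`. -/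
def Frame.evF (F : Frame) (mu : ℤ) (X₁ : Q10) : Ex :=
  let r := F.sR
  let d := Ex.x₂
  let v := F.xV
  let e := F.xE
  X₁.ex Ex.x₁ d v * (cC 1 + cC mu * r) * (cC 1 - e) * d * qS r * qB r d * qP d v -
    cC 4 * (d * (cC 1 - qA r d * v) + e * qS r * qP d v - e * qS r * qB r d * qL d v)

/-- The same over `d`, where `1 - u` is a multiple of `d`. -/
def Frame.evB (F : Frame) (mu : ℤ) (X₁ : Q10) : Ex :=
  let r := F.sR
  let d := Ex.x₂
  let v := F.xV
  let s := Ex.x₁ * k₄ F.e₁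
  X₁.ex Ex.x₁ d v * (cC 1 + cC mu * r) * (cC 1 - F.xE) * qS r * qB r d * qP d v -
    cC 4 * (cC 1 - qA r d * v + s * qS r * qP d v - s * qS r * qB r d * qL d v)

/-- The bound of `X` from `ev_pos` holds on a piece. -/
def Frame.Ev (F : Frame) (mu : ℤ) (X₁ : Q10) : Prop :=
  F.e₀ = 0 ∧ PosBox F.box (F.evB mu X₁) ∨ PosBox F.box (F.evF mu X₁)

/-- The excess of the drift over the lower end of `X`. -/
def Piece.sX0 (P : Piece) : Ex :=
  cC 4 * (cC 1 - qA P.sR Ex.x₂ * P.xV) -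
    P.X₀.ex Ex.x₁ Ex.x₂ P.xV * qB P.sR Ex.x₂ * (cC 1 + cC P.grp.mu * P.sR)

/-- The excess of `z` over its lower end at an end of `X`, times `g (1 + d v)` and `Δ`. -/
def Piece.sZ (P : Piece) (b : Bool) : Ex :=
  let r := P.sR
  let d := Ex.x₂
  let v := P.xV
  let u := P.xU
  let X := (match b with
    | false => P.X₀.ex Ex.x₁ d v
    | true => P.X₁.ex Ex.x₁ d v) * (cC 1 + cC P.grp.mu * r)
  qG0 r d v + qG1 r d v * u + (qG2 r d - d * qK r d v) * u * X -
    zEnd P.grp.zl P.grp.zh false v * qP d v * (qG0 r d v + qG1 r d v * u + qG2 r d * u * X)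

/-- The numerator of `lowT` at `u = 39/40`. -/
noncomputable def lowP (d : ℝ) : ℝ :=
  (8901 / 10000 - 464838 / 10000 * d + 1309812 / 10000 * d ^ 2) +
    (18602 / 10000 + 932514 / 10000 * d - 2850123 / 10000 * d ^ 2) * (39 / 40) +
    (-17243 / 10000 - 504763 / 10000 * d + 1590104 / 10000 * d ^ 2) * (39 / 40) ^ 2

/-- The denominator of `lowT` at `u = 39/40`. -/
noncomputable def lowQ (d : ℝ) : ℝ :=
  10267 / 10000 + 13438 / 10000 * d - 3410 / 10000 * d ^ 2 - 39 / 40

/-- The numerator of `lowT` at `u = 39/40`. -/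
def xLowP : Ex :=
  let d := Ex.x₂
  k₄ 8901 + d * (k₄ (-464838) + d * k₄ 1309812) +
    (k₄ 18602 + d * (k₄ 932514 + d * k₄ (-2850123))) * cC 39 40 +
    (k₄ (-17243) + d * (k₄ (-504763) + d * k₄ 1590104)) * (cC 39 40 * cC 39 40)

/-- The denominator of `lowT` at `u = 39/40`. -/
def xLowQ : Ex :=
  k₄ 10267 - k₄ 9750 + Ex.x₂ * (k₄ 13438 + Ex.x₂ * k₄ (-3410))

/-- The excess of the upper end of `φ` over `κ / H`. -/
def PieceD.sPhi (P : PieceD) : Ex :=
  let S := qS P.sR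
  let b := qB P.sR Ex.x₂
  let a := qA P.sR Ex.x₂
  P.F₁.ex Ex.x₂ P.xV * ((cC 1 - S) *
      (S * (cC 1 + (cC 1 - a) * P.xV) * xLowQ + b * (cC 2 - S) * (cC 663 800 * xLowP))) -
    S * (b * (cC 2 - S)) * xLowQ

/-- The excess of the upper end of `v` over the one from `(S - d) v < 2`. -/
def Frame.sTop (F : Frame) : Ex := F.vh.ex Ex.x₂ * (cC 2 3 - Ex.x₂) - cC 2

/-- The excess of the upper end of `v` over the one from `S (1 + d v) < 1`. -/
def Frame.sTop' (F : Frame) : Ex := cC 2 * Ex.x₂ * F.vh.ex Ex.x₂ - cC 1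

/-- A quadratic in `(x, d, v)` at a point. -/
noncomputable def xAt (q : Q10) (x d v : ℝ) : ℝ := (q.ex Ex.x₁ Ex.x₂ Ex.x₃).val 0 x d v

/-- A quadratic in `(d, v)` at a point. -/
noncomputable def fAt (q : Q6) (d v : ℝ) : ℝ := (q.ex Ex.x₂ Ex.x₃).val 0 0 d v

/-- What is known at a point of the end. -/
structure EndPt (d S u v t : ℝ) : Prop where
  box : ChartBox d S
  facts : ChartFacts d S u v t
  u_ge : 39 / 40 ≤ u
  u_ge' : 1 - 2 / 5 * d ≤ u
  v_psi : 11 / 10 - d ≤ v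
  t_gt : lowEnd d < t

/-- The range of `1 - u` of a frame at `d`. -/
noncomputable def Frame.eR (F : Frame) (d : ℝ) : ℝ :=
  (F.e₀ : ℝ) / 10000 + (F.e₁ : ℝ) / 10000 * d

/-- The point is in the frame. -/
structure Frame.Has (F : Frame) (d u v : ℝ) : Prop where
  d0 : (F.d₀ : ℝ) / 10000 ≤ d
  d1 : d ≤ (F.d₁ : ℝ) / 10000
  v0 : (F.vl.c₀ : ℝ) / 10000 + d * ((F.vl.c₁ : ℝ) / 10000) ≤ v
  v1 : v ≤ (F.vh.c₀ : ℝ) / 10000 + d * ((F.vh.c₁ : ℝ) / 10000)
  pos : 0 < F.eR d
  x0 : (F.x₀ : ℝ) / 10000 * F.eR d ≤ 1 - u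
  x1 : 1 - u ≤ (F.x₁ : ℝ) / 10000 * F.eR d

/-- `rm` bounds `r` on the piece. -/
def Frame.RmOk (F : Frame) : Prop :=
  75 * F.d₁ * F.d₁ ≤ 10000 * F.rm ∨ 1000000 ≤ 49 * F.rm ∨ 250000 - 75 * F.d₀ ≤ F.rm

section
variable {d S u v t : ℝ}

theorem EndPt.S_lo (h : EndPt d S u v t) : 2 / 3 < S := h.box.S_low

theorem EndPt.S_hi (h : EndPt d S u v t) : S < 1 := by linarith [h.box.S_high]

theorem EndPt.d_lt (h : EndPt d S u v t) : d < 1 / 3 := by linarith [h.box.tri, h.S_lo]

theorem EndPt.v_pos (h : EndPt d S u v t) : 0 < v := by linarith [h.facts.v_low]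

theorem EndPt.r_nonneg (h : EndPt d S u v t) : 0 ≤ 3 * S - 2 := by linarith [h.S_lo]

theorem EndPt.r_lt (h : EndPt d S u v t) : 3 * S - 2 < 1 := by linarith [h.S_hi]

theorem EndPt.r_sq (h : EndPt d S u v t) : 3 * S - 2 ≤ 3 / 4 * d ^ 2 := by
  have hS := h.S_lo
  have hd := h.box.pos
  have h1 : (S - d) ^ 2 * d ^ 2 ≤ S ^ 2 * d ^ 2 :=
    mul_le_mul_of_nonneg_right
      (pow_le_pow_left₀ (by linarith [h.d_lt]) (by linarith) 2) (sq_nonneg d)
  have h2 : 2 * (3 * S - 2) * S * S ^ 2 < d ^ 2 * S ^ 2 := by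
    calc 2 * (3 * S - 2) * S * S ^ 2 = 2 * (3 * S - 2) * S ^ 3 := by ring
      _ < (S - d) ^ 2 * d ^ 2 := h.box.pinch
      _ ≤ S ^ 2 * d ^ 2 := h1
      _ = d ^ 2 * S ^ 2 := by ring
  have h3 := lt_of_mul_lt_mul_right h2 (sq_nonneg S)
  have h4 := mul_le_mul_of_nonneg_left hS.le (show (0 : ℝ) ≤ 2 * (3 * S - 2) by linarith)
  linarith

theorem EndPt.av (h : EndPt d S u v t) : (S - d) / 2 * v < 1 := by linarith [h.facts.r_lt]

theorem EndPt.v_hi (h : EndPt d S u v t) : v * (2 / 3 - d) < 2 := by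
  have := mul_le_mul_of_nonneg_right (show 2 / 3 - d ≤ S - d by linarith [h.S_lo]) h.v_pos.le
  linarith [h.facts.r_lt]

theorem EndPt.dv_hi (h : EndPt d S u v t) : 2 * d * v < 1 := by
  have h1 := mul_le_mul_of_nonneg_right h.S_lo.le
    (show 0 ≤ 1 + d * v by linarith [mul_pos h.box.pos h.v_pos])
  linarith [h.facts.kap]

theorem EndPt.duH (h : EndPt d S u v t) : d * u * chH d S u v t < 1 := by
  have h1 := mul_le_mul_of_nonneg_left h.facts.u_lt.le
    (mul_pos h.box.pos h.facts.H_pos).le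
  linarith [h.facts.h_lt]

theorem EndPt.g_pos (h : EndPt d S u v t) : 0 < chG d S u v t := by
  have hb : 0 < (S + d) / 2 := by linarith [h.S_lo, h.box.pos]
  have h0 : 0 < 2 * S * (1 - (S - d) / 2 * v) / ((1 - S) * ((S + d) / 2)) :=
    div_pos (mul_pos (by linarith [h.S_lo]) (by linarith [h.av]))
      (mul_pos (by linarith [h.S_hi]) hb)
  have h1 : 0 < chG d S u v t * chH d S u v t := by linarith [h.facts.drift]
  exact pos_of_mul_pos_left h1 h.facts.H_pos.le

theorem EndPt.W_pos (h : EndPt d S u v t) : 0 < chW d S u v t :=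
  mul_pos (div_pos (by linarith [h.S_hi]) (by linarith [h.S_lo])) h.facts.H_pos

theorem EndPt.X_pos (h : EndPt d S u v t) : 0 < chG d S u v t * chW d S u v t :=
  mul_pos h.g_pos h.W_pos

theorem EndPt.gH (h : EndPt d S u v t) :
    (1 - S) * (chG d S u v t * chH d S u v t) = S * (chG d S u v t * chW d S u v t) := by
  have : S ≠ 0 := by linarith [h.S_lo]
  simp only [chW]
  field_simp

theorem EndPt.gD (h : EndPt d S u v t) :
    (1 - S) * ((S + d) / 2) * (2 + d * v) * chG d S u v t =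
      4 * ((S + d) / 2) * (2 + d * v) - 4 * S * u * (1 + d * v) +
        d * ((S + d) / 2) * S * (u * (chG d S u v t * chW d S u v t)) := by
  have hS : 1 - S ≠ 0 := by linarith [h.S_hi]
  have hb : (S + d) / 2 ≠ 0 := by linarith [h.S_lo, h.box.pos]
  have hY : 2 + d * v - d * u * chH d S u v t ≠ 0 := by
    linarith [h.duH, mul_pos h.box.pos h.v_pos]
  have eG : chG d S u v t * ((1 - S) * ((S + d) / 2) * (2 + d * v - d * u * chH d S u v t)) =
      4 * ((2 + d * v) * ((S + d) / 2) - S * u * (1 + d * v)) :=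
    div_mul_cancel₀ _ (mul_ne_zero (mul_ne_zero hS hb) hY)
  linear_combination eG + (d * u * ((S + d) / 2)) * h.gH

/-- The drift bounds `X` below. -/
theorem EndPt.X_low (h : EndPt d S u v t) :
    4 * (1 - (S - d) / 2 * v) < chG d S u v t * chW d S u v t * ((S + d) / 2) := by
  have hS : 0 < 1 - S := by linarith [h.S_hi]
  have hb : 0 < (S + d) / 2 := by linarith [h.S_lo, h.box.pos]
  have h1 := h.facts.drift
  rw [div_lt_iff₀ (mul_pos hS hb)] at h1
  refine lt_of_mul_lt_mul_left ?_ (show 0 ≤ S by linarith [h.S_lo])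
  have e : chG d S u v t * chH d S u v t / 2 * ((1 - S) * ((S + d) / 2)) =
      S * (chG d S u v t * chW d S u v t) / 2 * ((S + d) / 2) := by
    linear_combination ((S + d) / 2 / 2) * h.gH
  rw [e] at h1
  linarith

/-- `ev_pos` bounds `X` above. -/
theorem EndPt.X_high (h : EndPt d S u v t) :
    chG d S u v t * chW d S u v t * u * d * S * ((S + d) / 2) * (1 + d * v) <
      4 * (d * (1 - (S - d) / 2 * v) + (1 - u) * S * (1 + d * v) -
        (1 - u) * S * ((S + d) / 2) * (2 + d * v)) := by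
  have hS : 0 < 1 - S := by linarith [h.S_hi]
  have hbL : 0 < ((S + d) / 2) * (2 + d * v) :=
    mul_pos (by linarith [h.S_lo, h.box.pos]) (by linarith [mul_pos h.box.pos h.v_pos])
  have h1 := mul_pos (mul_pos (mul_pos two_pos hS) hbL) h.facts.ev_pos
  have e : 2 * (1 - S) * ((S + d) / 2 * (2 + d * v)) *
      ((1 - d * u * chH d S u v t) * chG d S u v t / 2 + 2 * S / (1 - S) * (u - 1)) =
      4 * (d * (1 - (S - d) / 2 * v) + (1 - u) * S * (1 + d * v) -
        (1 - u) * S * ((S + d) / 2) * (2 + d * v)) -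
      chG d S u v t * chW d S u v t * u * d * S * ((S + d) / 2) * (1 + d * v) := by
    have h2 : 2 * S / (1 - S) * (1 - S) = 2 * S := div_mul_cancel₀ _ hS.ne'
    linear_combination h.gD - ((S + d) / 2 * (2 + d * v) * (d * u)) * h.gH +
      (2 * ((S + d) / 2 * (2 + d * v)) * (u - 1)) * h2
  linarith

/-- `φ` is above `2 d`. -/
theorem EndPt.phi_low (h : EndPt d S u v t) : 2 * d * chW d S u v t < 1 := by
  have hS : 0 < 1 - S := by linarith [h.S_hi]
  have hS0 : 0 < S := by linarith [h.S_lo]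
  have hdH := mul_pos h.box.pos h.facts.H_pos
  rw [show 2 * d * chW d S u v t = 2 * (1 - S) * (d * chH d S u v t) / S by
    simp only [chW]; ring, div_lt_one hS0]
  have h1 := mul_le_mul_of_nonneg_right (show 2 * (1 - S) ≤ S by linarith [h.S_lo]) hdH.le
  have h2 := mul_lt_mul_of_pos_left h.facts.h_lt hS0
  linarith

theorem EndPt.lowQ_pos (h : EndPt d S u v t) : 0 < lowQ d := by
  simp only [lowQ]
  nlinarith [h.box.pos, h.d_lt]

theorem EndPt.lowP_pos (h : EndPt d S u v t) : 0 < lowP d := by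
  simp only [lowP]
  nlinarith [h.box.pos, h.d_lt, sq_nonneg (d - 2 / 5)]

theorem EndPt.t_low (h : EndPt d S u v t) : 17 / 20 * lowP d < t * lowQ d := by
  have h1 := h.t_gt
  simp only [lowEnd, lowT] at h1
  rw [mul_div_assoc'] at h1
  simp only [lowP, lowQ]
  have hQ := h.lowQ_pos
  simp only [lowQ] at hQ
  exact (div_lt_iff₀ hQ).1 h1

theorem EndPt.t_pos (h : EndPt d S u v t) : 0 < t :=
  pos_of_mul_pos_left (lt_trans (mul_pos (by norm_num) h.lowP_pos) h.t_low) h.lowQ_pos.le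

theorem EndPt.z_le (h : EndPt d S u v t) :
    zSix d v (chW d S u v t) (chR S u) * (1 + d * v) ≤ 1 := by
  have hdv : 0 < 1 + d * v := by linarith [mul_pos h.box.pos h.v_pos]
  have h0 : 0 ≤ chR S u * d * chW d S u v t :=
    mul_nonneg (mul_nonneg (div_nonneg (mul_nonneg (by linarith [h.S_lo]) h.facts.u_pos.le)
      (by linarith [h.S_hi])) h.box.pos.le) h.W_pos.le
  simp only [zSix]
  rw [div_mul_cancel₀ _ hdv.ne']
  linarith

theorem EndPt.z_val (h : EndPt d S u v t) :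
    zSix d v (chW d S u v t) (chR S u) * (1 + d * v) = 1 - d * u * chH d S u v t := by
  have hdv : 0 < 1 + d * v := by linarith [mul_pos h.box.pos h.v_pos]
  have hS : (1 : ℝ) - S ≠ 0 := by linarith [h.S_hi]
  have hS0 : S ≠ 0 := by linarith [h.S_lo]
  simp only [zSix]
  rw [div_mul_cancel₀ _ hdv.ne']
  simp only [chR, chW]
  field_simp

theorem EndPt.z_nonneg (h : EndPt d S u v t) : 0 ≤ zSix d v (chW d S u v t) (chR S u) := by
  refine (pos_of_mul_pos_left (b := 1 + d * v) ?_ ?_).le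
  · rw [h.z_val]; linarith [h.duH]
  · linarith [mul_pos h.box.pos h.v_pos]

/-- The forms give the signs. -/
theorem EndPt.signs (h : EndPt d S u v t)
    (hllg : 0 ≤ ClosedGen.LLGS ((S - d) / 2) d v (chG d S u v t) (chW d S u v t)
      (chW1 d S u v t) (chR S u) (sixNum d v (chW d S u v t) (chR S u)))
    (hF : Forms (3 * S - 2) d v (zSix d v (chW d S u v t) (chR S u))
      (chG d S u v t * chW d S u v t)
      (chG d S u v t * eSix d v (chW d S u v t) (chR S u))
      (chG d S u v t * kSix d (chW d S u v t) (chR S u)) (chG d S u v t * chW1 d S u v t)) :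
    ChartSigns d S u v t := by
  obtain ⟨hG, hH, hN, hA⟩ := hF
  have e3 : (2 + (3 * S - 2)) / 3 = S := by ring
  simp only [e3] at hG hH hN hA
  set g := chG d S u v t with hg
  set W := chW d S u v t with hW
  set W1 := chW1 d S u v t with hW1
  set R := chR S u with hR
  set E := eSix d v W R with hE
  set K := kSix d W R with hK
  set z := zSix d v W R with hz
  have hnum : sixNum d v W R = Low.numZ E K z := Tail.sixNum_eq d v W R
  have hdv : 0 < 1 + d * v := by linarith [mul_pos h.box.pos h.v_pos]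
  refine ⟨?_, ?_, ?_, ?_, hllg⟩
  · rw [hnum, Tail.G_scale]; exact hG
  · refine pos_of_mul_pos_right (a := g ^ 2) ?_ (sq_nonneg g)
    rw [hnum, Tail.M_scale]
    linarith [mul_pos hdv hH]
  · refine pos_of_mul_pos_right (a := g ^ 2) ?_ (sq_nonneg g)
    rw [hnum]
    refine lt_of_lt_of_eq (mul_pos hdv hA) ?_
    simp only [ClosedGen.TArrowS]
    rw [Tail.T_scale, Tail.G_scale, Tail.Y_scale, ← Tail.X_scale _ _ _ _ _ _ R E K z]
    have eM := Tail.M_scale ((S - d) / 2) d v g W W1 R E K z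
    simp only [Low.numZ] at eM ⊢
    linear_combination -(4 * Tail.T6 ((S - d) / 2) d v z (g * E) (g * W) (g * K) (g * W1) *
      G6 ((S - d) / 2) d v z (g * W) - d ^ 2 * (1 + d * v) *
      Y6 ((S - d) / 2) d v z (g * E) (g * W) ^ 2) * eM
  · rw [hnum, Tail.N_scale]; exact hN.le

end

/-- The place of a point in a frame. -/
theorem Frame.Has.place {F : Frame} {d S u v t : ℝ} (h : F.Has d u v) (p : EndPt d S u v t)
    (rok : 3 * S - 2 ≤ (F.rm : ℝ) / 1000000) :
    ∃ ρ x w, (∀ o, 0 ≤ o → o ≤ 1 → InCheck F o x d w) ∧ 0 ≤ ρ ∧ ρ ≤ 1 ∧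
      F.sR.val ρ x d w = 3 * S - 2 ∧ x = (1 - u) / F.eR d ∧
      ∀ o : ℝ, F.xV.val o x d w = v ∧ F.xU.val o x d w = u ∧ F.xE.val o x d w = 1 - u := by
  obtain ⟨ρ, ρ0, ρ1, eρ⟩ := exists_share p.r_nonneg rok
  rw [mul_zero, zero_add] at eρ
  have hv0 := h.v0
  have hv1 := h.v1
  set a := (F.vl.c₀ : ℝ) / 10000 + d * ((F.vl.c₁ : ℝ) / 10000) with ha
  set b := (F.vh.c₀ : ℝ) / 10000 + d * ((F.vh.c₁ : ℝ) / 10000) with hb
  obtain ⟨w, w0, w1, ew⟩ := exists_share hv0 hv1
  set E := F.eR d with hE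
  have hE0 : 0 < E := h.pos
  have ex : (1 - u) / E * E = 1 - u := div_mul_cancel₀ _ hE0.ne'
  refine ⟨ρ, (1 - u) / E, w, fun o o0 o1 => ⟨o0, o1, (le_div_iff₀ hE0).2 h.x0,
    (div_le_iff₀ hE0).2 h.x1, h.d0, h.d1, w0, w1⟩, ρ0, ρ1, ?_, rfl, fun o => ⟨?_, ?_, ?_⟩⟩
  all_goals simp only [Frame.sR, Frame.xV, Frame.xU, Frame.xE, L2.ex, k₄, ex_add, ex_sub, ex_mul,
    Ex.val]
  all_goals push_cast
  · exact eρ.symm
  · rw [ew, ha, hb]; ring
  · simp only [hE, Frame.eR] at ex ⊢; linarith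
  · simp only [hE, Frame.eR] at ex ⊢; linarith

theorem r_le_rm {F : Frame} {d S u v t : ℝ} (p : EndPt d S u v t) (h : F.Has d u v)
    (hr : F.RmOk) : 3 * S - 2 ≤ (F.rm : ℝ) / 1000000 := by
  rcases hr with hr | hr | hr
  · have h1 : (75 : ℝ) * F.d₁ * F.d₁ ≤ 10000 * F.rm := by exact_mod_cast hr
    have h2 := pow_le_pow_left₀ p.box.pos.le h.d1 2
    rw [div_pow] at h2
    linarith [p.r_sq]
  · have h1 : (1000000 : ℝ) ≤ 49 * F.rm := by exact_mod_cast hr
    linarith [p.box.S_high]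
  · have h1 : (250000 : ℝ) - 75 * F.d₀ ≤ F.rm := by exact_mod_cast hr
    linarith [p.box.tri, h.d0]

theorem val_xAt (q : Q10) {F : Frame} {o x d w v : ℝ} (h : F.xV.val o x d w = v) :
    (q.ex Ex.x₁ Ex.x₂ F.xV).val o x d w = xAt q x d v := by
  simp only [xAt, Q10.ex, k₄, ex_add, ex_sub, ex_mul, Ex.val, h]

theorem val_fAt (q : Q6) {F : Frame} {o x d w v : ℝ} (h : F.xV.val o x d w = v) :
    (q.ex Ex.x₂ F.xV).val o x d w = fAt q d v := by
  simp only [fAt, Q6.ex, k₄, ex_add, ex_sub, ex_mul, Ex.val, h]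

/-- The side checks of `X` from above. -/
theorem Frame.Ev.upper {F : Frame} {mu : ℤ} {X₁ : Q10} {d S u v t : ℝ}
    (h : F.Ev mu X₁) (p : EndPt d S u v t) (hh : F.Has d u v) (rok : F.RmOk) :
    chG d S u v t * chW d S u v t ≤
      xAt X₁ ((1 - u) / F.eR d) d v * (1 + mu * (3 * S - 2)) := by
  obtain ⟨ρ, x, w, c, ρ0, ρ1, er, exx, pl⟩ := hh.place p (r_le_rm p hh rok)
  obtain ⟨m0, m1, m2, m3⟩ := (c ρ ρ0 ρ1).mem
  obtain ⟨ev, -, ee⟩ := pl ρ
  have eX := val_xAt X₁ ev
  rw [← exx, ← eX]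
  set X := chG d S u v t * chW d S u v t with hX
  set Q := (X₁.ex Ex.x₁ Ex.x₂ F.xV).val ρ x d w * (1 + mu * (3 * S - 2)) with hQ
  have hd := p.box.pos
  have hk : 0 < u * d * S * ((S + d) / 2) * (1 + d * v) := by
    have := p.S_lo
    have := p.v_pos
    have := p.facts.u_pos
    positivity
  have e3 : (3 * S - 2 + 2) * (1 / 3) = S := by ring
  have key : 4 * (d * (1 - (S - d) / 2 * v) + (1 - u) * S * (1 + d * v) -
      (1 - u) * S * ((S + d) / 2) * (2 + d * v)) <
      Q * u * d * S * ((S + d) / 2) * (1 + d * v) := by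
    rcases h with ⟨h0, h⟩ | h
    · have k := h ρ x d w m0 m1 m2 m3
      have ee' : 1 - u = x * ((F.e₁ : ℝ) / 10000) * d := by
        rw [← ee]; simp only [Frame.xE, k₄, ex_add, ex_mul, Ex.val, h0]; push_cast; ring
      simp only [Frame.evB, qS, qA, qB, qL, qP, k₄, ex_add, ex_sub, ex_mul, Ex.val, er, ev, ee]
        at k
      push_cast at k
      simp only [div_one] at k
      have k2 := mul_pos hd k
      rw [show u = 1 - x * ((F.e₁ : ℝ) / 10000) * d by linarith]
      rw [ee'] at k2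
      simp only [hQ]
      linarith
    · have k := h ρ x d w m0 m1 m2 m3
      simp only [Frame.evF, qS, qA, qB, qL, qP, k₄, ex_add, ex_sub, ex_mul, Ex.val, er, ev, ee]
        at k
      push_cast at k
      simp only [hQ, div_one] at k ⊢
      linarith
  refine (lt_of_mul_lt_mul_right ?_ hk.le).le
  have := p.X_high
  simp only [← hX] at this
  linarith

/-- The side check of `X` from below. -/
theorem Piece.lower {P : Piece} {d S u v t : ℝ} (hc : PosBox P.box P.sX0)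
    (p : EndPt d S u v t) (hh : P.toFrame.Has d u v) (rok : P.toFrame.RmOk) :
    xAt P.X₀ ((1 - u) / P.eR d) d v * (1 + P.grp.mu * (3 * S - 2)) ≤
      chG d S u v t * chW d S u v t := by
  obtain ⟨ρ, x, w, c, ρ0, ρ1, er, exx, pl⟩ := hh.place p (r_le_rm p hh rok)
  obtain ⟨m0, m1, m2, m3⟩ := (c ρ ρ0 ρ1).mem
  have ev := (pl ρ).1
  have k := hc ρ x d w m0 m1 m2 m3
  simp only [Piece.sX0, qS, qA, qB, ex_add, ex_sub, ex_mul, Ex.val, er, ev, val_xAt P.X₀ ev] at k
  rw [← exx]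
  push_cast at k
  simp only [div_one] at k
  refine (lt_of_mul_lt_mul_right (a := (S + d) / 2) ?_ (by linarith [p.S_lo, p.box.pos])).le
  linarith [p.X_low]

/-- The lower end of `z` holds on a piece. -/
def Piece.ZLow (P : Piece) : Prop :=
  P.grp.zl.c₀ = 0 ∧ P.grp.zl.c₁ = 0 ∨ PosBox P.box (P.sZ false) ∧ PosBox P.box (P.sZ true)

/-- The upper end of `z` holds on the box of a group. -/
def ZHigh (gb : Box) (zh : ℤ) : Prop :=
  0 ≤ gb.s₂.lo ∧ 0 ≤ gb.s₃.lo ∧ 0 < gb.s₂.den ∧ 0 < gb.s₃.den ∧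
    1000 * ((gb.s₂.den : ℤ) * gb.s₃.den) ≤
      zh * ((gb.s₂.den : ℤ) * gb.s₃.den + gb.s₂.lo * gb.s₃.lo)

theorem ZHigh.bound {gb : Box} {zh : ℤ} (hz : ZHigh gb zh) {zl : L2} {r d S u v t : ℝ}
    (p : EndPt d S u v t) (g : InBox gb r d v) :
    zSix d v (chW d S u v t) (chR S u) ≤ zVal zl zh true v := by
  obtain ⟨a0, b0, n0, m0, key⟩ := hz
  have a0' : (0 : ℝ) ≤ gb.s₂.lo := by exact_mod_cast a0
  have b0' : (0 : ℝ) ≤ gb.s₃.lo := by exact_mod_cast b0
  have n0' : (0 : ℝ) < gb.s₂.den := by exact_mod_cast n0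
  have m0' : (0 : ℝ) < gb.s₃.den := by exact_mod_cast m0
  have key' : (1000 : ℝ) * ((gb.s₂.den : ℝ) * gb.s₃.den) ≤
      zh * ((gb.s₂.den : ℝ) * gb.s₃.den + gb.s₂.lo * gb.s₃.lo) := by exact_mod_cast key
  have h1 := mul_le_mul ((div_le_iff₀ n0').1 g.hd.1) ((div_le_iff₀ m0').1 g.hv.1) b0'
    (mul_nonneg p.box.pos.le n0'.le)
  have hz0 : (0 : ℝ) ≤ zh := by
    by_contra hn
    have := mul_nonpos_of_nonpos_of_nonneg (not_le.1 hn).le
      (show 0 ≤ (gb.s₂.den : ℝ) * gb.s₃.den + gb.s₂.lo * gb.s₃.lo by positivity)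
    linarith [mul_pos n0' m0']
  have h2 : 1000 ≤ zh * (1 + d * v) := by
    refine le_of_mul_le_mul_right ?_ (mul_pos n0' m0')
    linarith [mul_le_mul_of_nonneg_left h1 hz0]
  have hdv : 0 < 1 + d * v := by linarith [mul_pos p.box.pos p.v_pos]
  simp only [zVal, zEnd, Ex.val]
  push_cast
  refine le_of_mul_le_mul_right ?_ hdv
  linarith [p.z_le]

/-- The upper end of `r` holds on a piece. -/
def Frame.RTop (F : Frame) : Prop :=
  F.R.c = F.rm ∧ F.R.cd = 0 ∧ F.R.cv = 0 ∨ PosBox F.box F.sKap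

theorem r_le_top {F : Frame} {d S u v t : ℝ} (hR : F.RTop) (p : EndPt d S u v t)
    (h : F.Has d u v) (rok : F.RmOk) {o x w : ℝ} (c : InCheck F o x d w)
    (ev : F.xV.val o x d w = v) : 3 * S - 2 ≤ F.rVal true o x d w := by
  rcases hR with ⟨h1, h2, h3⟩ | hR
  · refine le_of_le_of_eq (r_le_rm p h rok) ?_
    simp only [Frame.rVal, Frame.xR, ex_add, ex_mul, Ex.val, h1, h2, h3]
    push_cast
    ring
  · obtain ⟨m0, m1, m2, m3⟩ := c.mem
    have k := hR o x d w m0 m1 m2 m3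
    simp only [Frame.sKap, qP, ex_add, ex_sub, ex_mul, Ex.val, ev] at k
    push_cast at k
    simp only [div_one] at k
    simp only [Frame.rVal]
    have hdv : 0 < 1 + d * v := by linarith [mul_pos p.box.pos p.v_pos]
    have h1 : (3 * S - 2 + 2) * (1 + d * v) < 3 := by linarith [p.facts.kap]
    linarith [lt_of_mul_lt_mul_right (show (3 * S - 2 + 2) * (1 + d * v) <
      ((F.xR true).val o x d w + 2) * (1 + d * v) by linarith) hdv.le]

/-- What is checked for a piece in `(X, u)`. -/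
structure Piece.Ok (P : Piece) (gb : Box) : Prop where
  sign : Signed P.box fun j : Bool × Bool => P.bd j.1 j.2
  fit : P.grp.Fit gb
  mu : -1 ≤ P.grp.mu
  rm : P.toFrame.RmOk
  top : P.toFrame.RTop
  zlo : P.ZLow
  zhi : ZHigh gb P.grp.zh

theorem Piece.Ok.z_low {P : Piece} {gb : Box} (hP : P.Ok gb) {d S u v t : ℝ}
    (p : EndPt d S u v t) (h : P.toFrame.Has d u v)
    (lo : xAt P.X₀ ((1 - u) / P.eR d) d v * (1 + P.grp.mu * (3 * S - 2)) ≤
      chG d S u v t * chW d S u v t)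
    (hi : chG d S u v t * chW d S u v t ≤
      xAt P.X₁ ((1 - u) / P.eR d) d v * (1 + P.grp.mu * (3 * S - 2))) :
    zVal P.grp.zl P.grp.zh false v ≤ zSix d v (chW d S u v t) (chR S u) := by
  rcases hP.zlo with ⟨h0, h1⟩ | ⟨hA, hB⟩
  · refine le_of_eq_of_le ?_ p.z_nonneg
    simp [zVal, zEnd, Ex.val, h0, h1]
  obtain ⟨ρ, x, w, c, ρ0, ρ1, er, exx, pl⟩ := h.place p (r_le_rm p h hP.rm)
  obtain ⟨m0, m1, m2, m3⟩ := (c ρ ρ0 ρ1).mem
  obtain ⟨ev, eu, -⟩ := pl ρ
  have kA := hA ρ x d w m0 m1 m2 m3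
  have kB := hB ρ x d w m0 m1 m2 m3
  rw [← exx] at lo hi
  simp only [Piece.sZ, qG0, qG1, qG2, qK, qS, qB, qL, qP, zEnd, ex_add, ex_sub, ex_mul, Ex.val,
    er, ev, eu, val_xAt P.X₀ ev, val_xAt P.X₁ ev] at kA kB
  push_cast at kA kB
  simp only [div_one] at kA kB
  set X := chG d S u v t * chW d S u v t with hX
  set A := xAt P.X₀ x d v * (1 + P.grp.mu * (3 * S - 2)) with hA'
  set B := xAt P.X₁ x d v * (1 + P.grp.mu * (3 * S - 2)) with hB'
  simp only [zVal, zEnd, ex_add, ex_mul, Ex.val]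
  push_cast
  set ζ := (P.grp.zl.c₀ : ℝ) / 100000 + v * ((P.grp.zl.c₁ : ℝ) / 100000) with hζ
  have hS0 : 0 < S := by linarith [p.S_lo]
  have hb : 0 < (S + d) / 2 := by linarith [p.box.pos]
  have hdv : 0 < 1 + d * v := by linarith [mul_pos p.box.pos p.v_pos]
  set L := fun y => (1 - ζ * (1 + d * v)) *
    (4 * S * ((S + d) / 2) * (2 + d * v) - 4 * S * S * (1 + d * v) * u +
      S * S * d * ((S + d) / 2) * u * y) - d * (S * S * ((S + d) / 2) * (2 + d * v)) * u * y
    with hL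
  have lA : 0 < L A := by simp only [hL, hA'] at kA ⊢; linarith
  have lB : 0 < L B := by simp only [hL, hB'] at kB ⊢; linarith
  have lX : 0 < L X := by
    obtain ⟨s, s0, s1, es⟩ := exists_share lo hi
    have : L X = (1 - s) * L A + s * L B := by simp only [hL, es]; ring
    rw [this]
    rcases eq_or_lt_of_le s0 with e | e
    · rw [← e]; linarith
    · linarith [mul_pos e lB, mul_nonneg (sub_nonneg.2 s1) lA.le]
  have hΔ : 0 < S * (1 - S) * ((S + d) / 2) * (2 + d * v) := by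
    have : 0 < 1 - S := by linarith [p.S_hi]
    have : 0 < 2 + d * v := by linarith
    positivity
  have e1 : L X = (1 - d * u * chH d S u v t - ζ * (1 + d * v)) *
      (S * (1 - S) * ((S + d) / 2) * (2 + d * v)) * chG d S u v t := by
    simp only [hL]
    linear_combination (-(1 - ζ * (1 + d * v)) * S) * p.gD +
      (d * u * S * ((S + d) / 2) * (2 + d * v)) * p.gH
  rw [e1] at lX
  have lX' := pos_of_mul_pos_left (pos_of_mul_pos_left lX p.g_pos.le) hΔ.le
  refine le_of_mul_le_mul_right ?_ hdv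
  rw [p.z_val]
  linarith

/-- **The closed signs at a point of a checked piece in `(X, u)`.** -/
theorem Piece.signs {P : Piece} {gb : Box} (hP : P.Ok gb) {d S u v t : ℝ}
    (p : EndPt d S u v t) (h : P.toFrame.Has d u v) (g : InBox gb (3 * S - 2) d v)
    (hllg : 0 ≤ ClosedGen.LLGS ((S - d) / 2) d v (chG d S u v t) (chW d S u v t)
      (chW1 d S u v t) (chR S u) (sixNum d v (chW d S u v t) (chR S u)))
    (lo : xAt P.X₀ ((1 - u) / P.eR d) d v * (1 + P.grp.mu * (3 * S - 2)) ≤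
      chG d S u v t * chW d S u v t)
    (hi : chG d S u v t * chW d S u v t ≤
      xAt P.X₁ ((1 - u) / P.eR d) d v * (1 + P.grp.mu * (3 * S - 2))) :
    ChartSigns d S u v t := by
  have zl := hP.z_low p h lo hi
  have zh := hP.zhi.bound (zl := P.grp.zl) p g
  obtain ⟨ρ, x, w, c, ρ0, ρ1, er, exx, pl⟩ := h.place p (r_le_rm p h hP.rm)
  rw [← exx] at lo hi
  set X := chG d S u v t * chW d S u v t with hX
  set m := 1 + (P.grp.mu : ℝ) * (3 * S - 2) with hm
  have hm0 : 0 < m := by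
    have h1 := mul_le_mul_of_nonneg_right (show (-1 : ℝ) ≤ P.grp.mu by exact_mod_cast hP.mu)
      p.r_nonneg
    linarith [p.r_lt]
  set a := xAt P.X₀ x d v with ha
  set b := xAt P.X₁ x d v with hb
  have hlo : a ≤ X / m := (le_div_iff₀ hm0).2 lo
  have hhi : X / m ≤ b := (div_le_iff₀ hm0).2 hi
  obtain ⟨th, t0, t1, et⟩ := exists_share hlo hhi
  obtain ⟨ev, eu, -⟩ := pl th
  have eX : P.xX.val th x d w = X / m := by
    simp only [Piece.xX, ex_add, ex_sub, ex_mul, Ex.val, val_xAt P.X₀ ev, val_xAt P.X₁ ev,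
      ← ha, ← hb, et]
    ring
  have eX' : m * P.xX.val th x d w = X := by rw [eX, mul_div_cancel₀ _ hm0.ne']
  have pp := chart_prods (d := d) (S := S) (u := u) (v := v) (t := t) (by linarith [p.S_lo])
    p.S_hi p.box.pos.le (by linarith [p.duH, mul_pos p.box.pos p.v_pos])
  refine p.signs hllg ?_
  simp only [← hX] at pp ⊢
  generalize zSix d v (chW d S u v t) (chR S u) = z at zl zh ⊢
  generalize chG d S u v t * eSix d v (chW d S u v t) (chR S u) = e at pp ⊢
  generalize chG d S u v t * kSix d (chW d S u v t) (chR S u) = k at pp ⊢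
  generalize chG d S u v t * chW1 d S u v t = q at pp ⊢
  rw [← ev] at zl zh pp
  rw [← eu] at pp
  have := Piece.forms hP.sign hP.fit (c th t0 t1) (r := 3 * S - 2) (by rw [ev]; exact g)
    p.r_nonneg (r_le_top hP.top p h hP.rm (c th t0 t1) ev) p.r_lt p.box.pos.le
    (by linarith [p.d_lt]) (by rw [ev]; exact p.v_pos.le) (by rw [eu]; exact p.facts.u_pos)
    (by rw [eX]; exact div_nonneg p.X_pos.le hm0.le) eX'.symm zl zh pp
  rwa [ev] at this

/-- What is checked for a piece in `(X, u, φ)`. -/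
structure PieceD.Ok (P : PieceD) (gb : Box) : Prop where
  sign : Signed P.box fun j : Bool × Bool × Bool => P.bd j.1 j.2.1 j.2.2
  fit : P.grp.Fit gb
  high : P.toFrame.Ev 0 P.X₁
  rm : P.toFrame.RmOk
  top : P.toFrame.RTop
  zhi : ZHigh gb P.grp.zh

/-- **The closed signs at a point of a checked piece in `(X, u, φ)`.** -/
theorem PieceD.signs {P : PieceD} {gb : Box} (hP : P.Ok gb) {d S u v t : ℝ}
    (p : EndPt d S u v t) (h : P.toFrame.Has d u v) (g : InBox gb (3 * S - 2) d v)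
    (hllg : 0 ≤ ClosedGen.LLGS ((S - d) / 2) d v (chG d S u v t) (chW d S u v t)
      (chW1 d S u v t) (chR S u) (sixNum d v (chW d S u v t) (chR S u)))
    (f0 : fAt P.F₀ d v * chW d S u v t ≤ 1) (f1 : 1 ≤ fAt P.F₁ d v * chW d S u v t) :
    ChartSigns d S u v t := by
  have zh := hP.zhi.bound (zl := ⟨0, 0⟩) p g
  have zl : zVal ⟨0, 0⟩ P.grp.zh false v ≤ zSix d v (chW d S u v t) (chR S u) := by
    refine le_of_eq_of_le ?_ p.z_nonneg
    simp [zVal, zEnd, Ex.val]
  have up := hP.high.upper p h hP.rm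
  simp only [Int.cast_zero, zero_mul, add_zero, mul_one] at up
  obtain ⟨ρ, x, w, c, ρ0, ρ1, er, exx, pl⟩ := h.place p (r_le_rm p h hP.rm)
  rw [← exx] at up
  set X := chG d S u v t * chW d S u v t with hX
  set b := xAt P.X₁ x d v with hb
  have hb0 : 0 < b := lt_of_lt_of_le p.X_pos up
  set th := X / b with hth
  have t0 : 0 ≤ th := div_nonneg p.X_pos.le hb0.le
  have t1 : th ≤ 1 := (div_le_one hb0).2 up
  obtain ⟨ev, eu, -⟩ := pl th
  have eX : P.xX.val th x d w = X := by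
    simp only [PieceD.xX, ex_mul, Ex.val]
    rw [val_xAt P.X₁ ev, ← hb, hth]
    exact div_mul_cancel₀ _ hb0.ne'
  have hW := p.W_pos
  set f := (chW d S u v t)⁻¹ with hf
  have ef : chG d S u v t = f * X := by rw [hf, hX]; field_simp
  have hY : 0 < 2 + d * v - d * u * chH d S u v t := by
    linarith [p.duH, mul_pos p.box.pos p.v_pos]
  obtain ⟨he, hk, hw⟩ := chart_prods (d := d) (S := S) (u := u) (v := v) (t := t)
    (by linarith [p.S_lo]) p.S_hi p.box.pos.le hY
  have gd := p.gD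
  simp only [← hX] at he hk hw gd
  rw [show (1 - S) * ((S + d) / 2) * (2 + d * v) * chG d S u v t =
    (1 - S) * ((S + d) / 2) * (2 + d * v) * (f * X) by rw [← ef]] at gd
  have pd : ProdsD (3 * S - 2) d v u X f
      (chG d S u v t * eSix d v (chW d S u v t) (chR S u))
      (chG d S u v t * kSix d (chW d S u v t) (chR S u)) (chG d S u v t * chW1 d S u v t) := by
    have hS : (3 * S - 2 + 2) / 3 = S := by ring
    constructor
    all_goals
      simp only [rD, at3, qD, qS, qA, qB, qL, qP, qY, qC, qG0, qG1, qG2, qK, qYx, qQx, qV, qW0,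
        qW1, qWk, qWc, qWg, qWx, ex_add, ex_sub, ex_mul, Ex.val] at he hk hw ⊢
      push_cast at he hk hw ⊢
      simp only [div_one, mul_one, one_mul] at he hk hw ⊢
    · linear_combination he + ((19 / 10 + v * (7 / 50 - 1 / 5 * d)) * S) * gd
    · linear_combination hk - (7 / 50 - 21 / 10 * d) * S * gd
    · linear_combination hw - (S * (1 - S) * (1 - S) * (2 + d * v) *
        (1 + (1 - (S - d) / 2) * v)) * gd
  refine p.signs hllg ?_
  simp only [← hX]
  generalize zSix d v (chW d S u v t) (chR S u) = z at zl zh ⊢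
  generalize chG d S u v t * eSix d v (chW d S u v t) (chR S u) = e at pd ⊢
  generalize chG d S u v t * kSix d (chW d S u v t) (chR S u) = k at pd ⊢
  generalize chG d S u v t * chW1 d S u v t = q at pd ⊢
  rw [← ev] at zl zh
  rw [← eX, ← ev, ← eu] at pd
  have := PieceD.forms hP.sign hP.fit (c th t0 t1) (f := f) (by rw [ev]; exact g) p.r_nonneg
    (r_le_top hP.top p h hP.rm (c th t0 t1) ev) p.r_lt p.box.pos.le (by linarith [p.d_lt])
    (by rw [ev]; exact p.v_pos.le) (by rw [eu]; exact p.facts.u_pos)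
    (by rw [eX]; exact p.X_pos) (inv_nonneg.2 hW.le)
    (by simp only [PieceD.xF]; rw [val_fAt _ ev, hf, ← one_div, le_div_iff₀ hW]; exact f0)
    (by simp only [PieceD.xF]; rw [val_fAt _ ev, hf, ← one_div, div_le_iff₀ hW]; exact f1)
    zl zh pd
  rwa [ev, eX] at this

/-- The upper bound of `φ` on a piece. -/
theorem PieceD.phi_le {P : PieceD} {d S u v t : ℝ} (hc : PosBox P.box P.sPhi)
    (p : EndPt d S u v t) (h : P.toFrame.Has d u v) (rok : P.toFrame.RmOk) :
    1 ≤ fAt P.F₁ d v * chW d S u v t := by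
  obtain ⟨ρ, x, w, c, ρ0, ρ1, er, exx, pl⟩ := h.place p (r_le_rm p h rok)
  obtain ⟨m0, m1, m2, m3⟩ := (c ρ ρ0 ρ1).mem
  have ev := (pl ρ).1
  have k := hc ρ x d w m0 m1 m2 m3
  simp only [PieceD.sPhi, xLowP, xLowQ, k₄, qS, qA, qB, ex_add, ex_sub, ex_mul, Ex.val, er, ev,
    val_fAt P.F₁ ev] at k
  push_cast at k
  simp only [div_one] at k
  have hS : 0 < S := by linarith [p.S_lo]
  have hS1 : 0 < 1 - S := by linarith [p.S_hi]
  have hb : 0 < (S + d) / 2 * (2 - S) := mul_pos (by linarith [p.box.pos]) (by linarith [p.S_hi])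
  have hQ := p.lowQ_pos
  set F := fAt P.F₁ d v with hF
  set T := S * (1 + (1 - (S - d) / 2) * v) with hT
  set B := (S + d) / 2 * (2 - S) with hB
  have k' : S * B * lowQ d < F * ((1 - S) * (T * lowQ d + B * (663 / 800 * lowP d))) := by
    simp only [hT, hB, lowP, lowQ]; linarith
  have eH : chH d S u v t * B = T + u * t * B := by
    have : (2 - S) ≠ 0 := by linarith [p.S_hi]
    have : S + d ≠ 0 := by linarith [p.box.pos]
    simp only [chH, hT, hB]; field_simp
  have hut : 663 / 800 * lowP d ≤ u * (t * lowQ d) := by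
    have := mul_le_mul p.u_ge p.t_low.le (mul_nonneg (by norm_num) p.lowP_pos.le) p.facts.u_pos.le
    linarith
  have hin : 0 < (1 - S) * (T * lowQ d + B * (663 / 800 * lowP d)) := by
    have := p.v_pos
    have : 0 ≤ 1 - (S - d) / 2 := by linarith [p.S_hi, p.box.pos]
    have := p.lowP_pos
    positivity
  have hF0 : 0 < F :=
    pos_of_mul_pos_left (lt_trans (mul_pos (mul_pos hS hb) hQ) k') hin.le
  have h2 : F * ((1 - S) * (T * lowQ d + B * (663 / 800 * lowP d))) ≤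
      F * ((1 - S) * (chH d S u v t * B * lowQ d)) :=
    mul_le_mul_of_nonneg_left (mul_le_mul_of_nonneg_left (by
      rw [eH]; linarith [mul_le_mul_of_nonneg_left hut hb.le]) hS1.le) hF0.le
  have h3 : S < F * chH d S u v t * (1 - S) :=
    lt_of_mul_lt_mul_right (a := B * lowQ d) (by linarith) (mul_pos hb hQ).le
  rw [chW, div_mul_eq_mul_div, ← mul_div_assoc, le_div_iff₀ hS]
  linarith

/-- The upper end of `v` holds on a frame. -/
def Frame.VTop (F : Frame) : Prop := PosBox F.box F.sTop ∨ PosBox F.box F.sTop'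

/-- The upper end of `v` is above the chart. -/
theorem Frame.v_top {F : Frame} {d S u v t : ℝ} (hc : F.VTop) (p : EndPt d S u v t)
    (d0 : (F.d₀ : ℝ) / 10000 ≤ d) (d1 : d ≤ (F.d₁ : ℝ) / 10000) (hx : F.x₀ ≤ F.x₁) :
    v ≤ (F.vh.c₀ : ℝ) / 10000 + d * ((F.vh.c₁ : ℝ) / 10000) := by
  have hx' : (F.x₀ : ℝ) / 10000 ≤ (F.x₁ : ℝ) / 10000 := by
    have : (F.x₀ : ℝ) ≤ F.x₁ := by exact_mod_cast hx
    linarith
  obtain ⟨m0, m1, m2, m3⟩ := (show InCheck F 0 ((F.x₀ : ℝ) / 10000) d 0 from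
    ⟨le_rfl, zero_le_one, le_rfl, hx', d0, d1, le_rfl, zero_le_one⟩).mem
  rcases hc with hc | hc
  all_goals
    have k := hc 0 ((F.x₀ : ℝ) / 10000) d 0 m0 m1 m2 m3
    simp only [Frame.sTop, Frame.sTop', L2.ex, k₄, ex_add, ex_sub, ex_mul, Ex.val] at k
    push_cast at k
    simp only [div_one] at k
  · refine (lt_of_mul_lt_mul_right (a := 2 / 3 - d) ?_ (by linarith [p.d_lt])).le
    linarith [p.v_hi]
  · refine (lt_of_mul_lt_mul_right (a := 2 * d) ?_ (by linarith [p.box.pos])).le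
    linarith [p.dv_hi]

end Vale.Agent.P100.Calib.Closed.Six.End
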