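import Vale.Agent.P100.Calib.SlabSixEndPiece

/-!
# Soundness of a checked piece
-/

set_option linter.unusedVariables false
set_option linter.unusedSimpArgs false

namespace Vale.Agent.P100.Calib.Closed.Six.End

open BoxPos
open Bot (Sur T11 T7 T3 T6 P3 T12 U7 E7 P2)
open Tail (N6 X6 G6 Y6)
open Large (PosBox)

local instance endSoundAdd : Add Ex := ⟨Ex.add⟩
local instance endSoundSub : Sub Ex := ⟨Ex.sub⟩
local instance endSoundMul : Mul Ex := ⟨Ex.mul⟩

/-- The expression is positive on the box for all indices. -/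
def Ev {ι : Type} (b : Box) (B : ι → Bd) (g : Bd → Ex) : Prop := ∀ i, PosBox b (g (B i))

/-- The checks of the signs. -/
structure Signed {ι : Type} (b : Box) (B : ι → Bd) : Prop where
  g : Ev b B (·.G)
  h : Ev b B (·.H)
  n : Ev b B (·.N)
  c₁p : Ev b B Bd.c₁p ∨ Ev b B Bd.mNeg
  c₁m : Ev b B Bd.c₁m ∨ Ev b B Bd.mPos
  c₂p : Ev b B Bd.c₂p ∨ Ev b B Bd.eNeg
  c₂m : Ev b B Bd.c₂m ∨ Ev b B Bd.ePos
  c₃pp : Ev b B Bd.c₃pp ∨ Ev b B Bd.mNeg ∨ Ev b B Bd.eNeg
  c₃pm : Ev b B Bd.c₃pm ∨ Ev b B Bd.mNeg ∨ Ev b B Bd.ePos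
  c₃mp : Ev b B Bd.c₃mp ∨ Ev b B Bd.mPos ∨ Ev b B Bd.eNeg
  c₃mm : Ev b B Bd.c₃mm ∨ Ev b B Bd.mPos ∨ Ev b B Bd.ePos

/-- A point of the box of the checks. -/
structure InCheck (F : Frame) (th x d w : ℝ) : Prop where
  th0 : 0 ≤ th
  th1 : th ≤ 1
  x0 : (F.x₀ : ℝ) / 10000 ≤ x
  x1 : x ≤ (F.x₁ : ℝ) / 10000
  d0 : (F.d₀ : ℝ) / 10000 ≤ d
  d1 : d ≤ (F.d₁ : ℝ) / 10000
  w0 : 0 ≤ w
  w1 : w ≤ 1

section
variable {F : Frame} {th x d w : ℝ}

theorem InCheck.mem (h : InCheck F th x d w) : F.box.s₀.Mem th ∧ F.box.s₁.Mem x ∧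
    F.box.s₂.Mem d ∧ F.box.s₃.Mem w := by
  have := h.th0
  have := h.th1
  have := h.x0
  have := h.x1
  have := h.d0
  have := h.d1
  have := h.w0
  have := h.w1
  simp only [Frame.box, Side.Mem]
  push_cast
  refine ⟨⟨?_, ?_⟩, ⟨?_, ?_⟩, ⟨?_, ?_⟩, ?_, ?_⟩ <;> linarith

/-- The bounds at a point, from their expressions. -/
noncomputable def Bd.valAt (B : Bd) (th x d w : ℝ) : Vals :=
  ⟨B.T.val th x d w, B.Ml.val th x d w, B.Mh.val th x d w, B.El.val th x d w, B.Eh.val th x d w,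
    B.G.val th x d w, B.H.val th x d w, B.N.val th x d w⟩

/-- The weights at a point. -/
noncomputable def Bd.wts (B : Bd) (th x d w : ℝ) : Wts :=
  ⟨B.k₁.val th x d w, B.k₂.val th x d w, B.u.val th x d w, B.v.val th x d w, d⟩

theorem Signed.cond {ι : Type} {B : ι → Bd} (h : Signed F.box B) (p : InCheck F th x d w)
    {K : Wts} (hK : ∀ i, (B i).wts th x d w = K) :
    Cond K fun i => (B i).valAt th x d w := by
  obtain ⟨m0, m1, m2, m3⟩ := p.mem
  have m : ∀ {g : Bd → Ex} {f : Vals → ℝ},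
      (∀ i, (g (B i)).val th x d w = f ((B i).valAt th x d w)) → Ev F.box B g →
        All (fun i => (B i).valAt th x d w) f :=
    fun e hg i => (e i) ▸ hg i th x d w m0 m1 m2 m3
  have kk : ∀ i, (B i).k₁.val th x d w = K.k₁ ∧ (B i).k₂.val th x d w = K.k₂ ∧
      (B i).u.val th x d w = K.u ∧ (B i).v.val th x d w = K.v ∧ d = K.d := fun i => by
    rw [← hK i]; exact ⟨rfl, rfl, rfl, rfl, rfl⟩
  have nM : ∀ i, (B i).mNeg.val th x d w = -((B i).valAt th x d w).Mh := fun i => by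
    simp only [Bd.mNeg, Bd.valAt, ex_mul, Ex.val]; push_cast; ring
  have nE : ∀ i, (B i).eNeg.val th x d w = -((B i).valAt th x d w).Eh := fun i => by
    simp only [Bd.eNeg, Bd.valAt, ex_mul, Ex.val]; push_cast; ring
  have pM : ∀ i, (B i).mPos.val th x d w = ((B i).valAt th x d w).Ml := fun _ => rfl
  have pE : ∀ i, (B i).ePos.val th x d w = ((B i).valAt th x d w).El := fun _ => rfl
  exact
    { g := m (f := (·.G)) (fun _ => rfl) h.g
      h := m (f := (·.H)) (fun _ => rfl) h.h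
      n := m (f := (·.N)) (fun _ => rfl) h.n
      c₁p := h.c₁p.imp (m fun i => by
        obtain ⟨a, b, c, e, f⟩ := kk i
        simp only [Bd.c₁p, Vals.c₁p, Bd.valAt, ex_add, ex_sub, ex_mul, Ex.val, a, c]
        push_cast; ring) (m nM)
      c₁m := h.c₁m.imp (m fun i => by
        obtain ⟨a, b, c, e, f⟩ := kk i
        simp only [Bd.c₁m, Vals.c₁m, Bd.valAt, ex_add, ex_sub, ex_mul, Ex.val, a, c]
        push_cast; ring) (m pM)
      c₂p := h.c₂p.imp (m fun i => by
        obtain ⟨a, b, c, e, f⟩ := kk i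
        simp only [Bd.c₂p, Vals.c₂p, Bd.valAt, qP, ex_add, ex_sub, ex_mul, Ex.val, b, e, ← f]
        push_cast; ring) (m nE)
      c₂m := h.c₂m.imp (m fun i => by
        obtain ⟨a, b, c, e, f⟩ := kk i
        simp only [Bd.c₂m, Vals.c₂m, Bd.valAt, qP, ex_add, ex_sub, ex_mul, Ex.val, b, e, ← f]
        push_cast; ring) (m pE)
      c₃pp := h.c₃pp.imp (m fun i => by
        obtain ⟨a, b, c, e, f⟩ := kk i
        simp only [Bd.c₃pp, Bd.wE, Vals.c₃pp, Wts.wE, Bd.valAt, ex_add, ex_sub, ex_mul, Ex.val,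
          a, b, c, e, ← f]) (Or.imp (m nM) (m nE))
      c₃pm := h.c₃pm.imp (m fun i => by
        obtain ⟨a, b, c, e, f⟩ := kk i
        simp only [Bd.c₃pm, Bd.wE, Vals.c₃pm, Wts.wE, Bd.valAt, ex_add, ex_sub, ex_mul, Ex.val,
          a, b, c, e, ← f]) (Or.imp (m nM) (m pE))
      c₃mp := h.c₃mp.imp (m fun i => by
        obtain ⟨a, b, c, e, f⟩ := kk i
        simp only [Bd.c₃mp, Bd.wE, Vals.c₃mp, Wts.wE, Bd.valAt, ex_add, ex_sub, ex_mul, Ex.val,
          a, b, c, e, ← f]) (Or.imp (m pM) (m nE))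
      c₃mm := h.c₃mm.imp (m fun i => by
        obtain ⟨a, b, c, e, f⟩ := kk i
        simp only [Bd.c₃mm, Bd.wE, Vals.c₃mm, Wts.wE, Bd.valAt, ex_add, ex_sub, ex_mul, Ex.val,
          a, b, c, e, ← f]) (Or.imp (m pM) (m pE)) }

end

/-- The conditions pass to larger `T` and `N`. -/
theorem Cond.raise {ι : Type} {K : Wts} {V W : ι → Vals} (c : Cond K V)
    (hT : ∀ i, (V i).T ≤ (W i).T) (hN : ∀ i, (V i).N ≤ (W i).N)
    (e : ∀ i, (V i).Ml = (W i).Ml ∧ (V i).Mh = (W i).Mh ∧ (V i).El = (W i).El ∧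
      (V i).Eh = (W i).Eh ∧ (V i).G = (W i).G ∧ (V i).H = (W i).H) : Cond K W := by
  have m : ∀ {g : Vals → ℝ}, (∀ i, g (V i) ≤ g (W i)) → All V g → All W g :=
    fun hg h i => lt_of_lt_of_le (h i) (hg i)
  exact
    { g := m (fun i => le_of_eq (e i).2.2.2.2.1) c.g
      h := m (fun i => le_of_eq (e i).2.2.2.2.2) c.h
      n := m hN c.n
      c₁p := c.c₁p.imp (m fun i => by simp only [Vals.c₁p, (e i).2.1, (e i).2.2.2.2.2, le_refl])
        (m fun i => by simp only [(e i).2.1, le_refl])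
      c₁m := c.c₁m.imp (m fun i => by simp only [Vals.c₁m, (e i).1, (e i).2.2.2.2.2, le_refl])
        (m fun i => by simp only [(e i).1, le_refl])
      c₂p := c.c₂p.imp
        (m fun i => by simp only [Vals.c₂p, (e i).2.2.2.1, (e i).2.2.2.2.1, le_refl])
        (m fun i => by simp only [(e i).2.2.2.1, le_refl])
      c₂m := c.c₂m.imp
        (m fun i => by simp only [Vals.c₂m, (e i).2.2.1, (e i).2.2.2.2.1, le_refl])
        (m fun i => by simp only [(e i).2.2.1, le_refl])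
      c₃pp := c.c₃pp.imp
        (m fun i => by simp only [Vals.c₃pp, (e i).2.1, (e i).2.2.2.1]; linarith [hT i])
        (Or.imp (m fun i => by simp only [(e i).2.1, le_refl])
          (m fun i => by simp only [(e i).2.2.2.1, le_refl]))
      c₃pm := c.c₃pm.imp
        (m fun i => by simp only [Vals.c₃pm, (e i).2.1, (e i).2.2.1]; linarith [hT i])
        (Or.imp (m fun i => by simp only [(e i).2.1, le_refl])
          (m fun i => by simp only [(e i).2.2.1, le_refl]))
      c₃mp := c.c₃mp.imp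
        (m fun i => by simp only [Vals.c₃mp, (e i).1, (e i).2.2.2.1]; linarith [hT i])
        (Or.imp (m fun i => by simp only [(e i).1, le_refl])
          (m fun i => by simp only [(e i).2.2.2.1, le_refl]))
      c₃mm := c.c₃mm.imp
        (m fun i => by simp only [Vals.c₃mm, (e i).1, (e i).2.2.1]; linarith [hT i])
        (Or.imp (m fun i => by simp only [(e i).1, le_refl])
          (m fun i => by simp only [(e i).2.2.1, le_refl])) }

/-- The forms at a point in the normalisation `g = 1`. -/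
def Forms (r d v z X e k w : ℝ) : Prop :=
  let a := ((2 + r) / 3 - d) / 2
  let H := (1 - (2 + r) / 3) * (X * -e)
  0 < G6 a d v z X ∧ 0 < H ∧ 0 < N6 a d v z e X k w ∧
    0 < 4 * Tail.T6 a d v z e X k w * G6 a d v z X * H -
      12 / 5 * X6 a d v e X k w ^ 2 * G6 a d v z X -
      d ^ 2 * (1 + d * v) * Y6 a d v z e X ^ 2 * H

/-- An end of `z`. -/
noncomputable def zVal (zl : Bot.L2) (zh : ℤ) (c : Bool) (v : ℝ) : ℝ :=
  (zEnd zl zh c Ex.x₃).val 0 0 0 v

theorem at3_zEnd (zl : Bot.L2) (zh : ℤ) (c : Bool) (r d v : ℝ) :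
    at3 r d v (zEnd zl zh c Ex.x₃) = zVal zl zh c v := by
  cases c <;> simp only [at3, zVal, zEnd, ex_add, ex_mul, Ex.val]

/-- The values at `r` and an end of `z` of a piece in `(X, u)`. -/
noncomputable def Piece.vals (P : Piece) (r : ℝ) (c : Bool) (th x d w : ℝ) : Vals :=
  let v := P.xV.val th x d w
  let X := P.xX.val th x d w
  let u := P.xU.val th x d w
  let lo := fun s : Sur => loR s r d v
  let hi := fun s : Sur => hiR s r d v
  ⟨((P.grp.tA c).map lo).poly X u, (P.grp.M.map lo).poly X u, (P.grp.M.map hi).poly X u,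
    ((P.grp.tE c).map lo).poly X u, ((P.grp.tE c).map hi).poly X u, ((P.grp.tG c).map lo).poly X,
    (P.grp.P.map lo).poly X u, ((P.grp.tN c).map lo).poly X u⟩

/-- The values at `r`, `φ` and an end of `z` of a piece in `(X, u, φ)`. -/
noncomputable def PieceD.vals (P : PieceD) (r f : ℝ) (c : Bool) (th x d w : ℝ) : Vals :=
  let v := P.xV.val th x d w
  let X := P.xX.val th x d w
  let u := P.xU.val th x d w
  let lo := fun s : Sur => loR s r d v
  let hi := fun s : Sur => hiR s r d v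
  ⟨((P.grp.tA c).map lo).poly X u f, (P.grp.M.map lo).poly X u f, (P.grp.M.map hi).poly X u f,
    ((P.grp.tE c).map lo).poly X u f, ((P.grp.tE c).map hi).poly X u f,
    ((P.grp.tG c).map lo).poly X, (P.grp.P.map lo).poly u f, ((P.grp.tN c).map lo).poly X u f⟩

/-- The value of an end of `r`. -/
noncomputable def Frame.rVal (F : Frame) (b : Bool) (th x d w : ℝ) : ℝ := (F.xR b).val th x d w

theorem Frame.rVal_zero (F : Frame) (th x d w : ℝ) : F.rVal false th x d w = 0 := by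
  simp [Frame.rVal, Frame.xR, Ex.val]

theorem Piece.valAt_bd (P : Piece) (b c : Bool) (th x d w : ℝ) :
    (P.bd b c).valAt th x d w = P.vals (P.rVal b th x d w) c th x d w := by
  simp only [Piece.bd, Piece.vals, Bd.valAt, T11.map, T11.poly, T7.map, T7.poly, T3.map, T3.poly,
    T6.map, T6.poly, P3.map, P3.poly, ex_add, ex_sub, ex_mul, val_sLo, val_sHi]
  rfl

theorem PieceD.valAt_bd (P : PieceD) (b e c : Bool) (th x d w : ℝ) :
    (P.bd b e c).valAt th x d w =
      P.vals (P.rVal b th x d w) ((P.xF e).val th x d w) c th x d w := by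
  simp only [PieceD.bd, PieceD.vals, Bd.valAt, T12.map, T12.poly, U7.map, U7.poly, T3.map,
    T3.poly, E7.map, E7.poly, P2.map, P2.poly, ex_add, ex_sub, ex_mul, val_sLo, val_sHi]
  rfl

theorem Piece.vals_mix (P : Piece) (t R : ℝ) (c : Bool) (th x d w : ℝ) :
    P.vals (t * R) c th x d w = Vals.mix t (P.vals 0 c th x d w) (P.vals R c th x d w) := by
  simp only [Piece.vals, Vals.mix, T11.map, T11.poly, T7.map, T7.poly, T3.map, T3.poly, T6.map,
    T6.poly, P3.map, P3.poly, loR_mix, hiR_mix, Vals.mk.injEq]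
  refine ⟨?_, ?_, ?_, ?_, ?_, ?_, ?_, ?_⟩ <;> ring

theorem PieceD.vals_mix (P : PieceD) (t R f : ℝ) (c : Bool) (th x d w : ℝ) :
    P.vals (t * R) f c th x d w = Vals.mix t (P.vals 0 f c th x d w) (P.vals R f c th x d w) := by
  simp only [PieceD.vals, Vals.mix, T12.map, T12.poly, U7.map, U7.poly, T3.map, T3.poly, E7.map,
    E7.poly, P2.map, P2.poly, loR_mix, hiR_mix, Vals.mk.injEq]
  refine ⟨?_, ?_, ?_, ?_, ?_, ?_, ?_, ?_⟩ <;> ring

/-- The conditions with an index spared. -/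
theorem Cond.lift {ι κ : Type} {K : Wts} {V : ι → Vals} (c : Cond K V) (f : κ → ι) :
    Cond K fun j => V (f j) :=
  ⟨fun j => c.g (f j), fun j => c.h (f j), fun j => c.n (f j),
    c.c₁p.imp (fun q j => q (f j)) (fun q j => q (f j)),
    c.c₁m.imp (fun q j => q (f j)) (fun q j => q (f j)),
    c.c₂p.imp (fun q j => q (f j)) (fun q j => q (f j)),
    c.c₂m.imp (fun q j => q (f j)) (fun q j => q (f j)),
    c.c₃pp.imp (fun q j => q (f j)) (Or.imp (fun q j => q (f j)) (fun q j => q (f j))),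
    c.c₃pm.imp (fun q j => q (f j)) (Or.imp (fun q j => q (f j)) (fun q j => q (f j))),
    c.c₃mp.imp (fun q j => q (f j)) (Or.imp (fun q j => q (f j)) (fun q j => q (f j))),
    c.c₃mm.imp (fun q j => q (f j)) (Or.imp (fun q j => q (f j)) (fun q j => q (f j)))⟩

theorem exists_share {x a b : ℝ} (h0 : a ≤ x) (h1 : x ≤ b) :
    ∃ t, 0 ≤ t ∧ t ≤ 1 ∧ x = (1 - t) * a + t * b := by
  rcases eq_or_lt_of_le (le_trans h0 h1) with h | h
  · exact ⟨0, le_rfl, zero_le_one, by linarith⟩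
  · refine ⟨(x - a) / (b - a), div_nonneg (by linarith) (by linarith),
      (div_le_one (by linarith)).2 (by linarith), ?_⟩
    have := div_mul_cancel₀ (x - a) (show b - a ≠ 0 by linarith)
    linear_combination -this

/-- Means of bounds are bounds of means. -/
theorem mix_le {s a b A B : ℝ} (s0 : 0 ≤ s) (s1 : s ≤ 1) (hA : a ≤ A) (hB : b ≤ B) :
    (1 - s) * a + s * b ≤ (1 - s) * A + s * B :=
  add_le_add (mul_le_mul_of_nonneg_left hA (by linarith)) (mul_le_mul_of_nonneg_left hB s0)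

/-- The curvature of `GG` in `z` is downwards. -/
theorem G_gap {a d v z₀ z₁ X s : ℝ} (ha : 0 ≤ a) (hd : 0 ≤ d) (hv : 0 ≤ v) (s0 : 0 ≤ s)
    (s1 : s ≤ 1) :
    (1 - s) * G6 a d v z₀ X + s * G6 a d v z₁ X ≤ G6 a d v (Tail.mix s z₀ z₁) X := by
  rw [Tail.G_z, Tail.G_zz]
  have h1 : 0 ≤ Closed.j1 a d := by simp only [Closed.j1]; linarith
  have h2 : 0 ≤ 1 + d * v := by positivity
  have h3 : 0 ≤ s * (1 - s) * (z₁ - z₀) ^ 2 * (Closed.j1 a d * a * (a + d) * d ^ 2 * (1 + d * v) *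
      (34 / 25 * v * d * (2 + d * v)) ^ 2) := by
    have : 0 ≤ 1 - s := by linarith
    positivity
  simp only [Tail.mix]
  linarith

/-- The signs of the forms at a point of a checked piece in `(X, u)`. -/
theorem Piece.forms {P : Piece} {gb : Box}
    (hS : Signed P.box fun j : Bool × Bool => P.bd j.1 j.2) (hF : P.grp.Fit gb)
    {r th x d w X e k q z : ℝ} (p : InCheck P.toFrame th x d w)
    (g : InBox gb r d (P.xV.val th x d w)) (r0 : 0 ≤ r) (r1 : r ≤ P.rVal true th x d w)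
    (rlt : r < 1) (hd : 0 ≤ d) (hd' : d ≤ 2 / 3) (hv : 0 ≤ P.xV.val th x d w)
    (hu : 0 < P.xU.val th x d w) (hX0 : 0 ≤ P.xX.val th x d w)
    (hX : X = (1 + P.grp.mu * r) * P.xX.val th x d w)
    (z0 : zVal P.grp.zl P.grp.zh false (P.xV.val th x d w) ≤ z)
    (z1 : z ≤ zVal P.grp.zl P.grp.zh true (P.xV.val th x d w))
    (h : Prods r d (P.xV.val th x d w) (P.xU.val th x d w) X e k q) :
    Forms r d (P.xV.val th x d w) z X e k q := by
  obtain ⟨t, t0, t1, er⟩ := exists_share r0 r1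
  obtain ⟨s, s0, s1, ez⟩ := exists_share z0 z1
  rw [mul_zero, zero_add] at er
  set K : Wts := (P.bd false false).wts th x d w with hK
  have c0 : Cond K fun j : Bool × Bool => (P.bd j.1 j.2).valAt th x d w :=
    hS.cond p (fun i => by rcases i with ⟨_ | _, _ | _⟩ <;> rfl)
  have c1 : Cond K fun c : Bool => P.vals r c th x d w := by
    have c := c0.mix t0 t1
    simp only [P.valAt_bd, Frame.rVal_zero, ← P.vals_mix t, ← er] at c
    exact c
  have c2 := (c1.lift fun j : Bool × Unit => j.1).mix s0 s1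
  set v := P.xV.val th x d w with hvd
  set u := P.xU.val th x d w with hud
  have hD : 0 < rD r d v := rD_pos r0 rlt hd hv
  have hD2 : 0 < rD r d v ^ 2 := pow_pos hD 2
  set a := ((2 + r) / 3 - d) / 2 with ha
  have kT : ∀ c, (P.vals r c th x d w).T ≤
      u * Tail.T6 a d v (zVal P.grp.zl P.grp.zh c v) e X k q := fun c => by
    refine le_of_mul_le_mul_left ?_ hD2
    rw [← A_poly _ (at3_zEnd _ _ c r d v) h, hX]
    exact (hF.A c).lower g hX0 hu.le
  have kN : ∀ c, (P.vals r c th x d w).N ≤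
      u * N6 a d v (zVal P.grp.zl P.grp.zh c v) e X k q := fun c => by
    refine le_of_mul_le_mul_left ?_ hD2
    rw [← N_poly _ (at3_zEnd _ _ c r d v) h, hX]
    exact (hF.N c).lower g hX0 hu.le
  have kE : ∀ c, (P.vals r c th x d w).El ≤ Y6 a d v (zVal P.grp.zl P.grp.zh c v) e X ∧
      Y6 a d v (zVal P.grp.zl P.grp.zh c v) e X ≤ (P.vals r c th x d w).Eh := fun c => by
    have k0 := (hF.E c).both g hX0 hu.le
    rw [← hX, E_poly _ (at3_zEnd _ _ c r d v) h] at k0
    exact ⟨le_of_mul_le_mul_left k0.1 hD2, le_of_mul_le_mul_left k0.2 hD2⟩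
  have kG : ∀ c, (P.vals r c th x d w).G ≤ G6 a d v (zVal P.grp.zl P.grp.zh c v) X := fun c => by
    refine le_of_mul_le_mul_left ?_ hD2
    rw [← G_poly _ (at3_zEnd _ _ c r d v) X, hX]
    exact (hF.G c).lower g hX0
  have kM := hF.M.both g hX0 hu.le
  have kP := hF.P.lower g hX0 hu.le
  rw [← hX, M_poly h] at kM
  rw [← hX, P_poly h] at kP
  have ez' : z = Tail.mix s (zVal P.grp.zl P.grp.zh false v) (zVal P.grp.zl P.grp.zh true v) := ez
  have ha0 : 0 ≤ a := by rw [ha]; linarith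
  simp only [Forms, ← ha, ez', Tail.T_z, Tail.N_z, Tail.Y_z]
  have hM0 : (P.vals r true th x d w).Ml = (P.vals r false th x d w).Ml ∧
      (P.vals r true th x d w).Mh = (P.vals r false th x d w).Mh ∧
      (P.vals r true th x d w).H = (P.vals r false th x d w).H := ⟨rfl, rfl, rfl⟩
  have eu : K.u = u := rfl
  have kMl : (P.vals r false th x d w).Ml ≤ u * X6 a d v e X k q :=
    le_of_mul_le_mul_left kM.1 hD2
  have kMh : u * X6 a d v e X k q ≤ (P.vals r false th x d w).Mh :=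
    le_of_mul_le_mul_left kM.2 hD2
  have kH : (P.vals r false th x d w).H ≤ (1 - (2 + r) / 3) * (X * -e) :=
    le_of_mul_le_mul_left kP hD2
  refine c2.core (TA := Tail.mix s _ _) (M := X6 a d v e X k q) (EG := Tail.mix s _ _)
    (N := Tail.mix s _ _) hu
    (add_pos_of_pos_of_nonneg one_pos (mul_nonneg hd hv)) ?_ ?_ ?_ ?_ ?_ ?_ ?_ ?_
  all_goals simp only [Vals.mix, hM0.1, hM0.2.1, hM0.2.2, Tail.mix, eu]
  · linarith [mix_le s0 s1 (kT false) (kT true)]
  · linarith [kMl]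
  · linarith [kMh]
  · exact mix_le s0 s1 (kE false).1 (kE true).1
  · exact mix_le s0 s1 (kE false).2 (kE true).2
  · exact le_trans (mix_le s0 s1 (kG false) (kG true)) (G_gap ha0 hd hv s0 s1)
  · linarith [kH]
  · linarith [mix_le s0 s1 (kN false) (kN true)]

/-- The signs of the forms at a point of a checked piece in `(X, u, φ)`. -/
theorem PieceD.forms {P : PieceD} {gb : Box}
    (hS : Signed P.box fun j : Bool × Bool × Bool => P.bd j.1 j.2.1 j.2.2) (hF : P.grp.Fit gb)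
    {r f th x d w e k q z : ℝ} (p : InCheck P.toFrame th x d w)
    (g : InBox gb r d (P.xV.val th x d w)) (r0 : 0 ≤ r) (r1 : r ≤ P.rVal true th x d w)
    (rlt : r < 1) (hd : 0 ≤ d) (hd' : d ≤ 2 / 3) (hv : 0 ≤ P.xV.val th x d w)
    (hu : 0 < P.xU.val th x d w) (hX : 0 < P.xX.val th x d w) (hf : 0 ≤ f)
    (f0 : (P.xF false).val th x d w ≤ f) (f1 : f ≤ (P.xF true).val th x d w)
    (z0 : zVal ⟨0, 0⟩ P.grp.zh false (P.xV.val th x d w) ≤ z)
    (z1 : z ≤ zVal ⟨0, 0⟩ P.grp.zh true (P.xV.val th x d w))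
    (h : ProdsD r d (P.xV.val th x d w) (P.xU.val th x d w) (P.xX.val th x d w) f e k q) :
    Forms r d (P.xV.val th x d w) z (P.xX.val th x d w) e k q := by
  obtain ⟨t, t0, t1, er⟩ := exists_share r0 r1
  obtain ⟨y, y0, y1, ef⟩ := exists_share f0 f1
  obtain ⟨s, s0, s1, ez⟩ := exists_share z0 z1
  rw [mul_zero, zero_add] at er
  set K : Wts := (P.bd false false false).wts th x d w with hK
  have c0 : Cond K fun j : Bool × Bool × Bool => (P.bd j.1 j.2.1 j.2.2).valAt th x d w :=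
    hS.cond p (fun i => by rcases i with ⟨_ | _, _ | _, _ | _⟩ <;> rfl)
  have c1 : Cond K fun j : Bool × Bool => P.vals r ((P.xF j.1).val th x d w) j.2 th x d w := by
    have c := c0.mix t0 t1
    simp only [P.valAt_bd, Frame.rVal_zero, ← P.vals_mix t, ← er] at c
    exact c
  have c2 := c1.mix y0 y1
  set v := P.xV.val th x d w with hvd
  set X := P.xX.val th x d w with hXd
  set u := P.xU.val th x d w with hud
  set f₀ := (P.xF false).val th x d w with hf₀
  set f₁ := (P.xF true).val th x d w with hf₁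
  have hA := hF.A₂ 0 r d v g.zero g.hr g.hd g.hv
  have hN := hF.N₂ 0 r d v g.zero g.hr g.hd g.hv
  simp only [ex_mul, Ex.val] at hA hN
  push_cast at hA hN
  have gap : ∀ {c : ℝ}, 0 < -1 / 1 * c →
      c * (X * X * u) * (y * (1 - y) * (f₁ - f₀) ^ 2) ≤ 0 := fun {c} hc =>
    mul_nonpos_of_nonpos_of_nonneg (mul_nonpos_of_nonpos_of_nonneg (by linarith)
      (mul_nonneg (mul_nonneg hX.le hX.le) hu.le))
      (mul_nonneg (mul_nonneg y0 (by linarith)) (sq_nonneg _))
  have gA := gap hA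
  have gN := gap hN
  have c3 : Cond K fun c : Bool => P.vals r f c th x d w := by
    refine c2.raise (fun c => ?_) (fun c => ?_) (fun c => ⟨?_, ?_, ?_, ?_, ?_, ?_⟩)
    all_goals cases c
    all_goals simp only [PieceD.vals, Vals.mix, GroupD.tA, GroupD.tN, GroupD.tE, GroupD.tG,
      T12.map, T12.poly, U7.map, U7.poly, T3.map, T3.poly, E7.map, E7.poly, P2.map, P2.poly,
      ← hvd, ← hXd, ← hud, ← hf₀, ← hf₁, ef]
    all_goals first
      | (simp only [loR, at3] at gA gN ⊢; linarith)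
      | ring
  have c4 := (c3.lift fun j : Bool × Unit => j.1).mix s0 s1
  have hD2 : 0 < rD r d v ^ 2 := pow_pos (rD_pos r0 rlt hd hv) 2
  set a := ((2 + r) / 3 - d) / 2 with ha
  have kT : ∀ c, (P.vals r f c th x d w).T ≤
      u * Tail.T6 a d v (zVal ⟨0, 0⟩ P.grp.zh c v) e X k q := fun c => by
    refine le_of_mul_le_mul_left ?_ hD2
    rw [← A'_poly _ (at3_zEnd _ _ c r d v) h]
    exact (hF.A c).lower g hX.le hu.le hf
  have kN : ∀ c, (P.vals r f c th x d w).N ≤
      u * N6 a d v (zVal ⟨0, 0⟩ P.grp.zh c v) e X k q := fun c => by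
    refine le_of_mul_le_mul_left ?_ hD2
    rw [← N'_poly _ (at3_zEnd _ _ c r d v) h]
    exact (hF.N c).lower g hX.le hu.le hf
  have kE : ∀ c, (P.vals r f c th x d w).El ≤ Y6 a d v (zVal ⟨0, 0⟩ P.grp.zh c v) e X ∧
      Y6 a d v (zVal ⟨0, 0⟩ P.grp.zh c v) e X ≤ (P.vals r f c th x d w).Eh := fun c => by
    have k0 := (hF.E c).both g hX.le hu.le hf
    rw [E'_poly _ (at3_zEnd _ _ c r d v) h] at k0
    exact ⟨le_of_mul_le_mul_left k0.1 hD2, le_of_mul_le_mul_left k0.2 hD2⟩
  have kG : ∀ c, (P.vals r f c th x d w).G ≤ G6 a d v (zVal ⟨0, 0⟩ P.grp.zh c v) X := fun c => by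
    refine le_of_mul_le_mul_left ?_ hD2
    rw [← G_poly _ (at3_zEnd _ _ c r d v) X]
    have k0 := (hF.G c).lower g hX.le
    simp only [Int.cast_zero, zero_mul, add_zero, one_mul] at k0
    exact k0
  have kM := hF.M.both g hX.le hu.le hf
  have kP := hF.P.lower g hu.le hf
  have eM := M'_poly h
  have eP := P'_poly h
  set M' := X6 a d v e X k q with hM'
  set H' := (1 - (2 + r) / 3) * (X * -e) with hH'
  have em : rD r d v ^ 2 * (u * (M' / X)) =
      ((exM' Ex.x₁ Ex.x₂ Ex.x₃).map (at3 r d v)).poly X u f := by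
    field_simp
    linarith
  have ep : rD r d v ^ 2 * (H' / X ^ 2) =
      ((exP' Ex.x₁ Ex.x₂ Ex.x₃).map (at3 r d v)).poly u f := by
    field_simp
    linarith
  rw [← em] at kM
  rw [← ep] at kP
  have eu : K.u = u := rfl
  have kMl : (P.vals r f false th x d w).Ml ≤ u * (M' / X) := le_of_mul_le_mul_left kM.1 hD2
  have kMh : u * (M' / X) ≤ (P.vals r f false th x d w).Mh := le_of_mul_le_mul_left kM.2 hD2
  have kH : (P.vals r f false th x d w).H ≤ H' / X ^ 2 := le_of_mul_le_mul_left kP hD2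
  have hM0 : (P.vals r f true th x d w).Ml = (P.vals r f false th x d w).Ml ∧
      (P.vals r f true th x d w).Mh = (P.vals r f false th x d w).Mh ∧
      (P.vals r f true th x d w).H = (P.vals r f false th x d w).H := ⟨rfl, rfl, rfl⟩
  have ez' : z = Tail.mix s (zVal ⟨0, 0⟩ P.grp.zh false v) (zVal ⟨0, 0⟩ P.grp.zh true v) := ez
  have ha0 : 0 ≤ a := by rw [ha]; linarith
  obtain ⟨hG, hH, hN', hA'⟩ := c4.core (TA := Tail.T6 a d v z e X k q) (M := M' / X)
    (EG := Y6 a d v z e X) (G := G6 a d v z X) (H := H' / X ^ 2) (N := N6 a d v z e X k q) hu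
    (add_pos_of_pos_of_nonneg one_pos (mul_nonneg hd hv))
    (by rw [ez', Tail.T_z]; simp only [Vals.mix, Tail.mix, eu]
        linarith [mix_le s0 s1 (kT false) (kT true)])
    (by simp only [Vals.mix, hM0.1, eu]; linarith [kMl])
    (by simp only [Vals.mix, hM0.2.1, eu]; linarith [kMh])
    (by rw [ez', Tail.Y_z]; simp only [Vals.mix, Tail.mix]
        exact mix_le s0 s1 (kE false).1 (kE true).1)
    (by rw [ez', Tail.Y_z]; simp only [Vals.mix, Tail.mix]
        exact mix_le s0 s1 (kE false).2 (kE true).2)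
    (by rw [ez']; simp only [Vals.mix]
        exact le_trans (mix_le s0 s1 (kG false) (kG true)) (G_gap ha0 hd hv s0 s1))
    (by simp only [Vals.mix, hM0.2.2]; linarith [kH])
    (by rw [ez', Tail.N_z]; simp only [Vals.mix, Tail.mix, eu]
        linarith [mix_le s0 s1 (kN false) (kN true)])
  refine ⟨hG, ?_, hN', ?_⟩
  · have := mul_pos hH (pow_pos hX 2)
    rwa [div_mul_cancel₀ _ (pow_ne_zero 2 hX.ne')] at this
  · have h1 := mul_pos hA' (pow_pos hX 2)
    refine lt_of_lt_of_eq h1 ?_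
    simp only [← ha, ← hM', ← hH']
    simp only [hK, Bd.wts, PieceD.bd, ← hvd]
    field_simp

end Vale.Agent.P100.Calib.Closed.Six.End
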