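import Vale.Agent.P100.Calib.SlabSlopeExpr
import Vale.Agent.P100.Calib.BoxPosFast

/-!
# The numerators of the bands on the slab of dimension six as expressions in `(u, v, d, S)`

The coefficients of `L₀`, `φ₁`, `L`, `φ`, `U` of the ladder up to `u = 4/5`, and `lieT` at a value
of `v` given by an expression, for the boxes under a chord of `φ₁`.
-/

namespace Vale.Agent.P100.Calib.Band

open BoxPos

local instance sixExprAdd : Add Ex := ⟨Ex.add⟩
local instance sixExprSub : Sub Ex := ⟨Ex.sub⟩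
local instance sixExprMul : Mul Ex := ⟨Ex.mul⟩

/-- The side of `S` on the slab of dimension six. -/
def sideS6 : Side := ⟨9800, 9901, 14700⟩

/-- A box with sides in thousandths. -/
def sixBox (a b va vb da db : ℤ) : Box :=
  ⟨⟨a, b, 1000⟩, ⟨va, vb, 1000⟩, ⟨da, db, 1000⟩, sideS6⟩

/-- `a + b d + c d²`. -/
def eQ3 (a : ℤ) (a' : ℕ) (b : ℤ) (b' : ℕ) (c : ℤ) (c' : ℕ) : Ex :=
  eC a a' + eC b b' * eD + eC c c' * (eD * eD)

/-- A coefficient. -/
def sixC₀ : Ex := eC (-2) 5

/-- A coefficient. -/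
def sixL₁ : Ex := eQ3 6 5 (-371) 100 169 50

/-- A coefficient. -/
def sixL₂ : Ex := eQ3 36 25 (-263) 25 43 2

/-- A coefficient. -/
def sixL₃ : Ex := eC 229 100 + eC (-202) 25 * eD

/-- A coefficient. -/
def sixA : Ex := eQ3 2 5 28 25 (-289) 100

/-- A coefficient. -/
def sixB : Ex := eQ3 37 100 (-417) 100 67 5

/-- A coefficient. -/
def sixK : Ex := eQ3 49 100 133 100 (-171) 25

/-- A coefficient. -/
def sixU₁ : Ex := eQ3 89 50 (-711) 100 1027 100

/-- A coefficient. -/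
def sixU₂ : Ex := eQ3 (-99) 100 274 25 (-2383) 100

/-- A coefficient. -/
def sixU₃ : Ex := eQ3 67 10 (-4659) 100 8687 100

/-- `lieT` at the value `w` of `v`. -/
def eLieV (w c₁ c₂ c₃ : Ex) : Ex :=
  let B := eB
  let P := c₁ + c₂ * eU + c₃ * (eU * eU)
  let K := eS * (eC 1 + (eC 1 - eA) * w) + eB * eU * P
  let D := eB * (eC 2 + eD * w) - eD * eU * K
  let c := eC 1 + (eC 1 - eA) * w
  let Qn := (eS + eD) * (eC 2 + eD * w) - eC 2 * eS * eU * (eC 1 + eD * w)
  let be := eC 1 2 * (eS + eD)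
  eC (-2) * B * B * B * (eC 2 + eD * w) * P +
    B * (eC 4 * eS * (eC 1 + eD * w) * K - eC 2 * eS * c * eD * K) -
    eD * K * (eC 2 * eS * c * D - eC 2 * Qn * K) -
    eC 2 * eS * be * eD * K * K -
    eC 2 * eS * be * K * D -
    (c₁ + eC 2 * c₂ * eU + eC 3 * c₃ * (eU * eU)) * B *
      ((B - eU * eD * K) * Qn + eC 2 * eS * (eU - eC 1) * be * D) -
    eS * (eC 1 - eA) * (eC 1 + eD * w) *
      (Qn * K - eC 2 * eS * (eC 1 - eA * w) * D)

/-- The crude band. -/
def sixLow : Ex := eLieV eV sixC₀ (eC 0) (eC 0)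

/-- The first exit curve. -/
def sixExit₁ : Ex := eExitG (eC 41 50) (eC 9 10) (eC 9 10) (eC 13 10) sixC₀ (eC 0) (eC 0)

/-- The slope condition of the first exit curve. -/
def sixSlope₁ : Ex := eSlopeB (eC 41 50) (eC 9 10) (eC 9 10) (eC 13 10) sixC₀ (eC 0) (eC 0)

/-- The lower band. -/
def sixLower : Ex := eLieV eV sixL₁ sixL₂ sixL₃

/-- The second exit curve. -/
def sixExit₂ : Ex := eExitG sixA sixB sixK (eC 19 20) sixL₁ sixL₂ sixL₃

/-- The slope condition of the second exit curve. -/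
def sixSlope₂ : Ex := eSlopeB sixA sixB sixK (eC 19 20) sixL₁ sixL₂ sixL₃

/-- The upper band, negated. -/
def sixUpper : Ex := eC 0 - eLieV eV sixU₁ sixU₂ sixU₃

/-- `29/100 + ω (fa - 29/100 + m (u - a))`: the chord through `(a, fa)`, `(b, fb)`, in thousandths,
with `ω` in the place of `v`. -/
def eChord (a b fa fb : ℤ) : Ex :=
  eC 29 100 + eV * (eC (fa - 290) 1000 + eC (fb - fa) * eC 1 (b - a).toNat * (eU - eC a 1000))

/-- The same with the chord of `1/(2 d)` through `(da, ga)`, `(db, gb)`. -/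
def eChordD (da db ga gb : ℤ) : Ex :=
  eC 29 100 + eV * (eC (ga - 290) 1000 + eC (gb - ga) * eC 1 (db - da).toNat * (eD - eC da 1000))

/-- The lower band under a chord in `d`. -/
def sixLowerAtD (da db ga gb : ℤ) : Ex := eLieV (eChordD da db ga gb) sixL₁ sixL₂ sixL₃

/-- The lower band under a chord. -/
def sixLowerAt (a b fa fb : ℤ) : Ex := eLieV (eChord a b fa fb) sixL₁ sixL₂ sixL₃

theorem val_lieV (w c₁ c₂ c₃ : Ex) (u v d S : ℝ) :
    (eLieV w c₁ c₂ c₃).val u v d S =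
      lieT S d u (w.val u v d S) (c₁.val u v d S) (c₂.val u v d S) (c₃.val u v d S) := by
  simp only [eLieV, eB, eA, val_sub, Ex.val, lieT, bandB, bandK, bandD, bandQ]
  push_cast
  ring

theorem val_sixLowerAt (a b fa fb : ℤ) (u v d S : ℝ) :
    (sixLowerAt a b fa fb).val u v d S = sixLower.val u
      (29 / 100 + v * ((fa - 290 : ℤ) / (1000 : ℕ) +
        ((fb - fa : ℤ) : ℝ) * (1 / ((b - a).toNat : ℝ)) * (u - a / 1000))) d S := by
  rw [sixLowerAt, sixLower, val_lieV, val_lieV]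
  simp only [eChord, sixL₁, sixL₂, sixL₃, eQ3, val_add, val_sub, Ex.val]
  push_cast
  simp

theorem val_sixLowerAtD (da db ga gb : ℤ) (u v d S : ℝ) :
    (sixLowerAtD da db ga gb).val u v d S = sixLower.val u
      (29 / 100 + v * ((ga - 290 : ℤ) / (1000 : ℕ) +
        ((gb - ga : ℤ) : ℝ) * (1 / ((db - da).toNat : ℝ)) * (d - da / 1000))) d S := by
  rw [sixLowerAtD, sixLower, val_lieV, val_lieV]
  simp only [eChordD, sixL₁, sixL₂, sixL₃, eQ3, val_add, val_sub, Ex.val]
  push_cast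
  simp


end Vale.Agent.P100.Calib.Band
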