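import Vale.Agent.P100.Calib.SlabExitRatExpr
import Vale.Agent.P100.Calib.SlabForwardLower

/-!
# Exit curves `φ = f₀ - f₁ e/(e + a) - f₃ e/(e + b)`, `e = 1 - u`, above a band

`φ = A / W` with `W = (e + a)(e + b)`. Also `ev` decreases in `h`.
-/

namespace Vale.Agent.P100.Calib.Band

open BoxPos Bubble Chart

local instance tailExitAdd : Add Ex := ⟨Ex.add⟩
local instance tailExitSub : Sub Ex := ⟨Ex.sub⟩
local instance tailExitMul : Mul Ex := ⟨Ex.mul⟩

/-- The denominator. -/
noncomputable def curveW (a b u : ℝ) : ℝ := (1 - u + a) * (1 - u + b)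

/-- Its derivative. -/
noncomputable def curveW' (a b u : ℝ) : ℝ := -((1 - u + a) + (1 - u + b))

/-- The numerator. -/
noncomputable def curveA (f₀ f₁ f₃ a b u : ℝ) : ℝ :=
  f₀ * curveW a b u - f₁ * (1 - u) * (1 - u + b) - f₃ * (1 - u) * (1 - u + a)

/-- Its derivative. -/
noncomputable def curveA' (f₀ f₁ f₃ a b u : ℝ) : ℝ :=
  f₀ * curveW' a b u + f₁ * ((1 - u + b) + (1 - u)) + f₃ * ((1 - u + a) + (1 - u))

/-- `W ^ 2 φ'`. -/
noncomputable def curveGW (f₁ f₃ a b u : ℝ) : ℝ :=
  f₁ * a * ((1 - u + b) * (1 - u + b)) + f₃ * b * ((1 - u + a) * (1 - u + a))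

theorem hasDerivAt_curveW (a b u : ℝ) : HasDerivAt (curveW a b) (curveW' a b u) u := by
  refine ((((hasDerivAt_id u).const_sub 1).add_const a).fun_mul
    (((hasDerivAt_id u).const_sub 1).add_const b)).congr_deriv ?_
  simp only [curveW', id_eq]
  ring

theorem hasDerivAt_curveA (f₀ f₁ f₃ a b u : ℝ) :
    HasDerivAt (curveA f₀ f₁ f₃ a b) (curveA' f₀ f₁ f₃ a b u) u := by
  have he := (hasDerivAt_id u).const_sub 1
  refine ((((hasDerivAt_curveW a b u).const_mul f₀).fun_sub
    ((he.const_mul f₁).fun_mul (he.add_const b))).fun_sub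
    ((he.const_mul f₃).fun_mul (he.add_const a))).congr_deriv ?_
  simp only [curveA', id_eq]
  ring

/-- `curveW`. -/
def eCurveW (a b : Ex) : Ex := (eC 1 - eU + a) * (eC 1 - eU + b)

/-- `curveA`. -/
def eCurveA (f₀ f₁ f₃ a b : Ex) : Ex :=
  f₀ * eCurveW a b - f₁ * (eC 1 - eU) * (eC 1 - eU + b) - f₃ * (eC 1 - eU) * (eC 1 - eU + a)

/-- `curveGW`. -/
def eCurveGW (f₁ f₃ a b : Ex) : Ex :=
  f₁ * a * ((eC 1 - eU + b) * (eC 1 - eU + b)) + f₃ * b * ((eC 1 - eU + a) * (eC 1 - eU + a))

theorem val_addC (a b : Ex) (u v d S : ℝ) :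
    (a + b).val u v d S = a.val u v d S + b.val u v d S := rfl

theorem val_subC (a b : Ex) (u v d S : ℝ) :
    (a - b).val u v d S = a.val u v d S - b.val u v d S := rfl

theorem val_mulC (a b : Ex) (u v d S : ℝ) :
    (a * b).val u v d S = a.val u v d S * b.val u v d S := rfl

theorem val_curveW (a b : Ex) (u v d S : ℝ) :
    (eCurveW a b).val u v d S = curveW (a.val u v d S) (b.val u v d S) u := by
  simp only [eCurveW, val_mulC, val_addC, val_subC, Ex.val, curveW]
  push_cast
  ring

theorem val_curveA (f₀ f₁ f₃ a b : Ex) (u v d S : ℝ) :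
    (eCurveA f₀ f₁ f₃ a b).val u v d S = curveA (f₀.val u v d S) (f₁.val u v d S)
      (f₃.val u v d S) (a.val u v d S) (b.val u v d S) u := by
  simp only [eCurveA, val_mulC, val_addC, val_subC, val_curveW, Ex.val, curveA]
  push_cast
  ring

theorem val_curveGW (f₁ f₃ a b : Ex) (u v d S : ℝ) :
    (eCurveGW f₁ f₃ a b).val u v d S = curveGW (f₁.val u v d S) (f₃.val u v d S)
      (a.val u v d S) (b.val u v d S) u := by
  simp only [eCurveGW, val_mulC, val_addC, val_subC, Ex.val, curveGW]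
  push_cast
  ring

/-- The three conditions of `exitF_step` from the cleared numerators. -/
theorem curve_conds {S d u v t f₀ f₁ f₃ a b n G : ℝ} (ha : 0 ≤ a) (hb : 0 ≤ b) (hf₁ : 0 ≤ f₁)
    (hf₃ : 0 ≤ f₃) (hW : 0 < curveW a b u) (hA : curveW a b u * v = curveA f₀ f₁ f₃ a b u)
    (hG : 0 < G) (hn : n = t * G)
    (hx : 0 < exitPH S d u (curveA f₀ f₁ f₃ a b u) (curveW a b u) (curveGW f₁ f₃ a b u) n G)
    (hs : 0 < slopePH S d u (curveA f₀ f₁ f₃ a b u) (curveW a b u) (curveGW f₁ f₃ a b u) n G) :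
    0 < exitP S d u v t (curveW a b u) (curveA' f₀ f₁ f₃ a b u - curveW' a b u * v) ∧
      0 ≤ curveA' f₀ f₁ f₃ a b u - curveW' a b u * v ∧
      d * u * (curveA' f₀ f₁ f₃ a b u - curveW' a b u * v) *
          (bandB S d - u * d * bandK S d u v t 0 0) ≤
        curveW a b u * (1 + d * v) * denV S d u v t := by
  have hg : curveGW f₁ f₃ a b u =
      (curveA' f₀ f₁ f₃ a b u - curveW' a b u * v) * curveW a b u := by
    have e : (curveA' f₀ f₁ f₃ a b u - curveW' a b u * v) * curveW a b u =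
        curveA' f₀ f₁ f₃ a b u * curveW a b u - curveW' a b u * (curveW a b u * v) := by ring
    rw [e, hA]
    simp only [curveGW, curveA', curveA, curveW', curveW]
    ring
  have hA' : curveA f₀ f₁ f₃ a b u = v * curveW a b u := by rw [← hA, mul_comm]
  rw [exitPH_eq hA' hg hn] at hx
  rw [slopePH_eq hA' hg hn] at hs
  refine ⟨pos_of_mul_pos_right hx (by positivity), ?_,
    (sub_pos.1 (pos_of_mul_pos_right hs (by positivity))).le⟩
  refine nonneg_of_mul_nonneg_left (hg ▸ ?_) hW
  exact add_nonneg (mul_nonneg (mul_nonneg hf₁ ha) (mul_self_nonneg _))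
    (mul_nonneg (mul_nonneg hf₃ hb) (mul_self_nonneg _))

/-- `ev` decreases in `h`. -/
theorem ev_antitone {N al be u r g h : ℝ} (hN : 0 ≤ N) (hS : N - 2 = N * (al + be)) (hal : 0 < al)
    (hbe : 0 < be) (hu : 0 ≤ u) (hu1 : u ≤ 1) (hr : 0 < r) (hr1 : r ≤ 1) (hgh : g ≤ h)
    (huh : u * h < 1) : ev N al be u r h ≤ ev N al be u r g := by
  have hug : u * g ≤ u * h := mul_le_mul_of_nonneg_left hgh hu
  have hbr := mul_pos hbe hr
  have h1 := mul_lt_mul_of_pos_left huh hal
  have h2 := mul_le_mul_of_nonneg_left hug hal.le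
  have hdh : 0 < al + be * r - al * u * h := by linarith
  have hdg : 0 < al + be * r - al * u * g := by linarith
  have hA : 0 ≤ N * (al + be * r) - (N - 2) * u * r := by
    have h3 := mul_nonneg (mul_nonneg hN hal.le) (sub_nonneg.2 hr1)
    have h4 := mul_nonneg (mul_nonneg (mul_nonneg hN (add_nonneg hal.le hbe.le)) hr.le)
      (sub_nonneg.2 hu1)
    rw [hS]
    linarith
  simp only [ev, qv]
  generalize hAd : N * (al + be * r) - (N - 2) * u * r = A at hA ⊢
  have key : (1 - u * h) / (al + be * r - al * u * h) ≤ (1 - u * g) / (al + be * r - al * u * g) := by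
    rw [div_le_div_iff₀ hdh hdg]
    have := mul_nonneg (mul_nonneg hu (sub_nonneg.2 hgh)) hbr.le
    linarith
  have := mul_le_mul_of_nonneg_left key hA
  have e1 : (1 - u * h) * (A / (al + be * r - al * u * h)) =
      A * ((1 - u * h) / (al + be * r - al * u * h)) := by ring
  have e2 : (1 - u * g) * (A / (al + be * r - al * u * g)) =
      A * ((1 - u * g) / (al + be * r - al * u * g)) := by ring
  rw [e1, e2]
  linarith

variable {N al be : ℝ}

/-- `lieE > 0` at a band below a point of the chart with `ev > 0`. -/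
theorem lieE_pos_of_ev (hb : SlabBox N al be) {u r h : ℝ} (hI : InChart N al be u r h)
    {L : ℝ → ℝ} (hlt : bandT N al be (be - al) L u r < h) (hev : 0 < ev N al be u r h)
    (hv : 33 / 100 ≤ vOf al be r) :
    0 < lieE (al + be) (be - al) u (vOf al be r) (L u) 1 := by
  obtain ⟨hal, hbe, hd, hS1, hS2, -, -⟩ := hb.facts
  obtain ⟨hu0, hu1, hr0, hr1, hh0, hh1, -, -, -, -⟩ := hI
  set d := be - al with hdd
  set v := vOf al be r
  have hr : al / be * (1 + d * v) = r := hb.r_eq r
  have huh : u * h < 1 := lt_of_le_of_lt (mul_le_of_le_one_right hu0.le hh1.le) hu1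
  have heg := ev_antitone (N := N) (by linarith [hb.five]) (by linarith [hb.sum]) hal hbe hu0.le
    hu1.le hr0 hr1.le hlt.le huh
  have hg : bandT N al be d L u r = d * bandK (al + be) d u v (L u) 0 0 / bandB (al + be) d := by
    have := band_value (u := u) (v := v) (c₁ := L u) (c₂ := 0) (c₃ := 0)
      hb.sum rfl hdd.symm hal.ne' hbe.ne' hS1 hS2
    rw [hr] at this
    rw [← this]
    simp only [bandT, bandL]
    ring
  have hB : 0 < bandB (al + be) d := by
    unfold bandB; exact mul_pos (by linarith) (by linarith [hb.S_high])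
  have hdv : 0 < d * v := mul_pos hd (lt_of_lt_of_le (by norm_num) hv)
  have hD : 0 < denV (al + be) d u v (L u) := by
    have e : denV (al + be) d u v (L u) =
        bandB (al + be) d * (2 + d * v - u * bandT N al be d L u r) := by
      rw [hg]
      simp only [denV, bandD]
      generalize bandK (al + be) d u v (L u) 0 0 = K
      field_simp
    rw [e]
    have := mul_le_mul_of_nonneg_left hlt.le hu0.le
    exact mul_pos hB (by linarith)
  have := exitP_band (u := u) (v := v) (t := L u) (W := 0) (g := -1)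
    hb.sum rfl hdd.symm hal.ne' hbe.ne' hS1 hS2 hD.ne'
  rw [← hg, hr, exitP_zero_eq] at this
  refine pos_of_mul_pos_right (this ▸ ?_) hd.le
  refine mul_pos ?_ (mul_pos (mul_pos (by linarith [hb.S_high]) hbe) hD)
  have := mul_pos hd (hev.trans_le heg)
  linarith

end Vale.Agent.P100.Calib.Band
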