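import Vale.Agent.P100.Calib.SlabSixBox
import Vale.Agent.P100.Calib.SlabTailExit
import Vale.Agent.P100.Calib.SlabExitFun
import Vale.Agent.P100.Calib.SlabForwardUpper
import Vale.Agent.P100.Calib.SlabPsiExpr
import Vale.Agent.P100.Calib.SlabFarBands

/-!
# Exit and forward rungs on the slab of dimension six

The rungs of `SlabGeneric`, `SlabExitFun`, `SlabForward` and the facts at a band, on `SlabBoxSix`:
`v` runs over `[29/100, 15/4]`.
-/

open Set Filter Topology

namespace Vale.Agent.P100.Calib.Band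

open Vale.Agent.P100.Bubble Chart

variable {N al be r u : ℝ} {p q : ℝ} {S : Set ℝ} {R x y s dx dy : ℝ → ℝ}

/-- `(2/3 - d) v < 2`. -/
theorem al_v_lt_six (h : SlabBoxSix N al be) (hr : r < 1) (hv : 0 ≤ vOf al be r) :
    (2 / 3 - (be - al)) * vOf al be r < 2 := by
  obtain ⟨hal, hbe, hd, -⟩ := h.facts
  have e : (be - al) * (al * vOf al be r) = be * r - al := by
    unfold vOf; field_simp
  have h1 : al * vOf al be r < 1 := by
    refine lt_of_mul_lt_mul_left (a := be - al) ?_ hd.le
    have := mul_lt_mul_of_pos_left hr hbe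
    linarith
  have h2 : (2 / 3 - (be - al)) * vOf al be r ≤ 2 * al * vOf al be r :=
    mul_le_mul_of_nonneg_right (by linarith [h.S_low]) hv
  linarith

/-- **A general exit rung.** -/
theorem exitT_step_six (hf : IsOrbitFns N p q S R x y s dx dy)
    (hb : SlabBoxSix N (1 / (p + 1)) (1 / (q + 1))) {u₁ : ℝ} (hu₁ : u₁ < 1)
    {T T' A A' W W' m m' : ℝ → ℝ} (hT : ∀ u, HasDerivAt T (T' u) u)
    (hA : ∀ u, HasDerivAt A (A' u) u) (hW : ∀ u, HasDerivAt W (W' u) u)
    (hm : ∀ u, HasDerivAt m (m' u) u)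
    (E : ℝ → ℝ → ℝ → Prop)
    (hE : ∀ w ∈ S, 0 < R w → uOf N (R w) (x w) ≤ u₁ →
      E (uOf N (R w) (x w)) (y w / x w) (hOf N (R w) (x w) (y w) w))
    (hend : ∀ r h, InChart N (1 / (p + 1)) (1 / (q + 1)) u₁ r h → E u₁ r h →
      29 / 100 ≤ vOf (1 / (p + 1)) (1 / (q + 1)) r →
      vOf (1 / (p + 1)) (1 / (q + 1)) r ≤ 15 / 4 →
      0 < A u₁ - W u₁ * vOf (1 / (p + 1)) (1 / (q + 1)) r - m u₁ *
        ((1 / (q + 1) - 1 / (p + 1)) * u₁ * (tauOf N (1 / (p + 1)) (1 / (q + 1))
          (1 / (q + 1) - 1 / (p + 1)) u₁ r h - T u₁)))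
    (hsign : ∀ u r h, InChart N (1 / (p + 1)) (1 / (q + 1)) u r h → u ≤ u₁ → E u r h →
      29 / 100 ≤ vOf (1 / (p + 1)) (1 / (q + 1)) r →
      vOf (1 / (p + 1)) (1 / (q + 1)) r ≤ 15 / 4 →
      A u - W u * vOf (1 / (p + 1)) (1 / (q + 1)) r - m u *
        ((1 / (q + 1) - 1 / (p + 1)) * u * (tauOf N (1 / (p + 1)) (1 / (q + 1))
          (1 / (q + 1) - 1 / (p + 1)) u r h - T u)) = 0 →
      0 < exitM (1 / (p + 1) + 1 / (q + 1)) (1 / (q + 1) - 1 / (p + 1)) u
        (vOf (1 / (p + 1)) (1 / (q + 1)) r)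
        (tauOf N (1 / (p + 1)) (1 / (q + 1)) (1 / (q + 1) - 1 / (p + 1)) u r h) (W u)
        (A' u - W' u * vOf (1 / (p + 1)) (1 / (q + 1)) r - m' u *
            ((1 / (q + 1) - 1 / (p + 1)) * u * (tauOf N (1 / (p + 1)) (1 / (q + 1))
              (1 / (q + 1) - 1 / (p + 1)) u r h - T u)) +
          m u * (1 / (q + 1) - 1 / (p + 1)) * (T u + u * T' u -
            tauOf N (1 / (p + 1)) (1 / (q + 1)) (1 / (q + 1) - 1 / (p + 1)) u r h))
        (m u))
    {w : ℝ} (hw : w ∈ S) (hw0 : 0 < R w) (hwu : uOf N (R w) (x w) ≤ u₁) :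
    0 < A (uOf N (R w) (x w)) - W (uOf N (R w) (x w)) *
        vOf (1 / (p + 1)) (1 / (q + 1)) (y w / x w) -
      m (uOf N (R w) (x w)) * (hOf N (R w) (x w) (y w) w - bandT N (1 / (p + 1)) (1 / (q + 1))
        (1 / (q + 1) - 1 / (p + 1)) T (uOf N (R w) (x w)) (y w / x w)) := by
  obtain ⟨hal, hbe, hd, hS1, hS2, -, -, -⟩ := hb.facts
  have hlow : 1 ≤ N * (1 / (p + 1)) := hb.one_le
  set al := 1 / (p + 1) with hald
  set be := 1 / (q + 1) with hbed
  set d := be - al with hdd
  set G : ℝ → ℝ → ℝ → ℝ := fun a b c => A a - W a * vOf al be b - m a * (c - bandT N al be d T a b)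
    with hGdef
  have hG : HasGrad G
      (fun a b c => A' a - W' a * vOf al be b - m' a * (c - bandT N al be d T a b) +
        m a * (d * (T a + a * T' a)))
      (fun a _ _ => -(W a * (be / al / d)) + m a * bandLr N al) (fun a _ _ => -m a) := by
    intro a b c da db dc t ha hb' hc'
    refine ((((hA (a t)).comp t ha).fun_sub (((hW (a t)).comp t ha).fun_mul
      (((hb'.const_mul (be / al)).sub_const 1).div_const (be - al)))).fun_sub
      (((hm (a t)).comp t ha).fun_mul (hc'.fun_sub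
        (((((((hb'.div_const al).sub_const (1 / be)).add_const 1).fun_sub hb').const_mul
          (N - 2)).div_const (N + 2)).fun_add
          ((ha.fun_mul ((hT (a t)).comp t ha)).const_mul d))))).congr_deriv ?_
    simp only [vOf, bandT, bandLr, hc, Function.comp_apply, d]
    ring
  have et : ∀ u' r' h', 0 < u' → h' - bandT N al be d T u' r' =
      d * u' * (tauOf N al be d u' r' h' - T u') := by
    intro u' r' h' hu'
    simp only [tauOf, bandT]
    field_simp
    ring
  refine hf.exit_barrier hb.five hlow u₁ hu₁ G _ _ _ E hG (fun w' hw' hw'0 hw'u => hE w' hw' hw'0 hw'u)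
    (fun r' w' hI hE' => ?_) (fun u' r' w' hI hu' hE' hG0 => ?_) w hw hw0 hwu
  · have hI' := hI
    obtain ⟨hu0, -, -, hr1, -, -, -, hc0, hk, -⟩ := hI'
    obtain ⟨hv, hv1, -⟩ := hb.v_mem hc0 hr1 hk
    have := hend r' w' hI hE' hv hv1
    simp only [G]
    rw [et _ _ _ hu0]
    exact this
  · have hI' := hI
    obtain ⟨hu0, hu1', hr0, hr1, hh0, hh1, hr2, hc0, hk, -⟩ := hI'
    simp only [G] at hG0
    rw [et _ _ _ hu0] at hG0
    obtain ⟨hv', hv1', -⟩ := hb.v_mem hc0 hr1 hk
    have hv : 29 / 100 ≤ vOf al be r' := hv'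
    have hv1 : vOf al be r' ≤ 15 / 4 := hv1'
    have hs := hsign u' r' w' hI hu' hE' hv hv1 hG0
    generalize htd : tauOf N al be d u' r' w' = t at hs hG0
    generalize hvd : vOf al be r' = v at hs hG0 hv hv1
    have hr' : al / be * (1 + d * v) = r' := by rw [← hvd]; exact hb.r_eq r'
    have hw' : w' = bandL N al be d t 0 0 u' r' := by
      rw [← htd]
      simp only [tauOf, bandL]
      field_simp
      ring
    have hB : 0 < bandB (al + be) d := by
      unfold bandB; exact mul_pos (by linarith) (by linarith [hb.S_high])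
    have hbv := band_value (u := u') (v := v) (c₁ := t) (c₂ := 0) (c₃ := 0)
      hb.sum rfl rfl hal.ne' hbe.ne' hS1 hS2
    rw [hr', ← hw'] at hbv
    have hD : 0 < denV (al + be) d u' v t := by
      have h1 : u' * w' < 1 := lt_of_le_of_lt (mul_le_of_le_one_right hu0.le hh1.le) hu1'
      have h2 : 0 < d * v := mul_pos hd (lt_of_lt_of_le (by norm_num : (0 : ℝ) < 29 / 100) hv)
      have e : denV (al + be) d u' v t = bandB (al + be) d * (2 + d * v - u' * w') := by
        rw [hbv]
        simp only [denV, bandD, d]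
        generalize bandK (al + be) (be - al) u' v t 0 0 = K
        simp only [d] at hB
        field_simp
      rw [e]
      exact mul_pos hB (by linarith)
    have kl := lie_band (u := u') (v := v) (c₁ := t) (c₂ := 0) (c₃ := 0) hb.sum rfl rfl hal.ne'
      hbe.ne' hS1 hS2 hD.ne'
    have kp := exitP_band (u := u') (v := v) (t := t) (W := W u')
      (g := A' u' - W' u' * v - m' u' * (d * u' * (t - T u')) +
        m u' * d * (T u' + u' * T' u' - t)) hb.sum rfl rfl hal.ne' hbe.ne' hS1 hS2 hD.ne'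
    rw [← hbv, hr'] at kp
    rw [hr', ← hw'] at kl
    change 0 < exitM (al + be) d u' v t (W u') _ (m u') at hs
    simp only [exitM] at hs
    change _ * _ = d * u' * lieT (al + be) d u' v t 0 0 at kl
    have hX : 0 < (1 - (al + be)) * bandB (al + be) d * be * denV (al + be) d u' v t :=
      mul_pos (mul_pos (mul_pos (by linarith [hb.S_high]) hB) hbe) hD
    refine neg_of_mul_neg_left (b := (1 - (al + be)) * bandB (al + be) d * be *
      denV (al + be) d u' v t) ?_ hX.le
    refine lt_of_eq_of_lt (b := -(u' * (bandB (al + be) d *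
      exitP (al + be) d u' v t (W u') (A' u' - W' u' * v - m' u' * (d * u' * (t - T u')) +
        m u' * d * (T u' + u' * T' u' - t)) + m u' * d * lieT (al + be) d u' v t 0 0))) ?_
      (neg_neg_of_pos (mul_pos hu0 hs))
    have hr'' : r' * (be / al) = 1 + d * v := by rw [← hr']; field_simp
    have edv : r' * dv N al be u' r' w' * (be / al / d) =
        u' / d * (1 + d * v) * (qv N al be u' r' w' * w' - (N - 2) * (1 - r')) := by
      simp only [dv]
      rw [← hr'']
      ring
    simp only [lie, bandLu, denV] at kl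
    rw [et _ _ _ hu0, htd]
    simp only [← hald, ← hbed]
    have e3 : (A' u' - W' u' * v - m' u' * (d * u' * (t - T u')) + m u' * (d * (T u' + u' * T' u'))) *
        (u' * ev N al be u' r' w') + (-(W u' * (be / al / d)) + m u' * bandLr N al) *
        (r' * dv N al be u' r' w') + -m u' * fh N al be u' r' w' =
        (A' u' - W' u' * v - m' u' * (d * u' * (t - T u')) + m u' * (d * (T u' + u' * T' u'))) *
          (u' * ev N al be u' r' w') - W u' * (r' * dv N al be u' r' w' * (be / al / d)) +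
          m u' * (bandLr N al * (r' * dv N al be u' r' w') - fh N al be u' r' w') := by ring
    simp only [denV] at hX kp ⊢
    rw [e3, edv]
    generalize bandD (al + be) d u' v (bandK (al + be) d u' v t 0 0) = D at kl kp hX ⊢
    generalize exitP (al + be) d u' v t (W u') _ = P at kp ⊢
    generalize lieT (al + be) d u' v t 0 0 = L at kl ⊢
    have hk' : d * (u' / d) = u' := mul_div_cancel₀ _ hd.ne'
    generalize u' / d = k' at hk' ⊢
    subst hk'
    linear_combination (-(k' * bandB (al + be) d)) * kp - m (d * k') * kl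

/-- **An exit rung** `W u * v < A u` above the band `L`. -/
theorem exitF_step_six (hf : IsOrbitFns N p q S R x y s dx dy)
    (hb : SlabBoxSix N (1 / (p + 1)) (1 / (q + 1))) {u₁ : ℝ} (hu₁ : u₁ < 1)
    {A A' W W' : ℝ → ℝ} (hA : ∀ u, HasDerivAt A (A' u) u) (hW : ∀ u, HasDerivAt W (W' u) u)
    (hWpos : ∀ u, 0 ≤ u → u ≤ u₁ → 0 < W u) (L : ℝ → ℝ) (E : ℝ → ℝ → Prop)
    (hE : ∀ w ∈ S, 0 < R w → uOf N (R w) (x w) ≤ u₁ → E (uOf N (R w) (x w)) (y w / x w))
    (hlow : ∀ w ∈ S, 0 < R w → uOf N (R w) (x w) ≤ u₁ →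
      bandT N (1 / (p + 1)) (1 / (q + 1)) (1 / (q + 1) - 1 / (p + 1)) L
        (uOf N (R w) (x w)) (y w / x w) < hOf N (R w) (x w) (y w) w)
    (hend : ∀ r, r < 1 → E u₁ r → 29 / 100 ≤ vOf (1 / (p + 1)) (1 / (q + 1)) r →
      vOf (1 / (p + 1)) (1 / (q + 1)) r ≤ 15 / 4 →
      W u₁ * vOf (1 / (p + 1)) (1 / (q + 1)) r < A u₁)
    (hsign : ∀ u r, 0 < u → u ≤ u₁ → r < 1 → E u r →
      29 / 100 ≤ vOf (1 / (p + 1)) (1 / (q + 1)) r →
      vOf (1 / (p + 1)) (1 / (q + 1)) r ≤ 15 / 4 →
      W u * vOf (1 / (p + 1)) (1 / (q + 1)) r = A u →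
      0 < exitP (1 / (p + 1) + 1 / (q + 1)) (1 / (q + 1) - 1 / (p + 1)) u
          (vOf (1 / (p + 1)) (1 / (q + 1)) r) (L u) (W u)
          (A' u - W' u * vOf (1 / (p + 1)) (1 / (q + 1)) r) ∧
        0 ≤ A' u - W' u * vOf (1 / (p + 1)) (1 / (q + 1)) r ∧
        (1 / (q + 1) - 1 / (p + 1)) * u *
            (A' u - W' u * vOf (1 / (p + 1)) (1 / (q + 1)) r) *
            (bandB (1 / (p + 1) + 1 / (q + 1)) (1 / (q + 1) - 1 / (p + 1)) -
              u * (1 / (q + 1) - 1 / (p + 1)) *
                bandK (1 / (p + 1) + 1 / (q + 1)) (1 / (q + 1) - 1 / (p + 1)) u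
                  (vOf (1 / (p + 1)) (1 / (q + 1)) r) (L u) 0 0) ≤
          W u * (1 + (1 / (q + 1) - 1 / (p + 1)) * vOf (1 / (p + 1)) (1 / (q + 1)) r) *
            denV (1 / (p + 1) + 1 / (q + 1)) (1 / (q + 1) - 1 / (p + 1)) u
              (vOf (1 / (p + 1)) (1 / (q + 1)) r) (L u))
    {w : ℝ} (hw : w ∈ S) (hw0 : 0 < R w) (hwu : uOf N (R w) (x w) ≤ u₁) :
    W (uOf N (R w) (x w)) * vOf (1 / (p + 1)) (1 / (q + 1)) (y w / x w) <
      A (uOf N (R w) (x w)) := by
  obtain ⟨hal, hbe, hd, hS1, hS2, -, -, -⟩ := hb.facts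
  set al := 1 / (p + 1) with hald
  set be := 1 / (q + 1) with hbed
  set d := be - al with hdd
  have key := exitT_step_six hf hb hu₁ (T := fun _ => 0) (T' := fun _ => 0) (m := fun _ => 0)
    (m' := fun _ => 0) (fun u => hasDerivAt_const u 0) hA hW (fun u => hasDerivAt_const u 0)
    (fun u r h => bandT N al be d L u r < h ∧ E u r)
    (fun w' hw' hw'0 hw'u => ⟨hlow w' hw' hw'0 hw'u, hE w' hw' hw'0 hw'u⟩)
    (fun r h hI hE' hv hv1 => ?_) (fun u r h hI hu hE' hv hv1 hG => ?_) hw hw0 hwu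
  · simp only [zero_mul, sub_zero] at key
    linarith
  · simp only [zero_mul, sub_zero]
    exact sub_pos.2 (hend r hI.2.2.2.1 hE'.2 hv hv1)
  obtain ⟨hu0, hu1, -, hr1, hh0, hh1, -, -, -, -⟩ := hI
  simp only [zero_mul, sub_zero] at hG
  obtain ⟨hs, hg0, hsl⟩ := hsign u r hu0 hu hr1 hE'.2 hv hv1 (by linarith)
  simp only [zero_mul, sub_zero, add_zero, ← hald, ← hbed, ← hdd, exitM]
  set v := vOf al be r with hvd
  set g := A' u - W' u * v with hgd
  set t := tauOf N al be d u r h with htd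
  have hr : al / be * (1 + d * v) = r := hb.r_eq r
  have hB : 0 < bandB (al + be) d := by
    unfold bandB; exact mul_pos (by linarith) (by linarith [hb.S_high])
  have hW0 := hWpos u hu0.le hu
  have hh : h = bandT N al be d (fun _ => t) u r := by
    simp only [htd, tauOf, bandT]
    field_simp
    ring
  have hbv : ∀ t' : ℝ, bandT N al be d (fun _ => t') u r =
      d * bandK (al + be) d u v t' 0 0 / bandB (al + be) d := fun t' => by
    have := band_value (u := u) (v := v) (c₁ := t') (c₂ := 0) (c₃ := 0)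
      hb.sum rfl rfl hal.ne' hbe.ne' hS1 hS2
    rw [hr] at this
    rw [← this]
    simp only [bandT, bandL]
    ring
  have hLt : bandT N al be d L u r = bandT N al be d (fun _ => L u) u r := rfl
  have huh : u * h < 1 := lt_of_le_of_lt (mul_le_of_le_one_right hu0.le hh1.le) hu1
  have hdv : 0 < d * v := mul_pos hd (lt_of_lt_of_le (by norm_num) hv)
  have hden : ∀ t', bandT N al be d (fun _ => t') u r ≤ h →
      0 < denV (al + be) d u v t' := fun t' ht' => by
    have e : denV (al + be) d u v t' =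
        bandB (al + be) d * (2 + d * v - u * bandT N al be d (fun _ => t') u r) := by
      rw [hbv]
      simp only [denV, bandD]
      generalize bandK (al + be) d u v t' 0 0 = K
      field_simp
    rw [e]
    have := mul_le_mul_of_nonneg_left ht' hu0.le
    exact mul_pos hB (by linarith)
  have hDL := hden (L u) (hLt ▸ hE'.1.le)
  have hDt := hden t hh.ge
  have hband : ∀ t', 0 < denV (al + be) d u v t' →
      W u * exitV N al be d v (g / W u) u (bandT N al be d (fun _ => t') u r) *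
        ((1 - (al + be)) * be * denV (al + be) d u v t') =
      d * exitP (al + be) d u v t' (W u) g := fun t' ht' => by
    have := exitP_band (u := u) (v := v) (t := t') (W := W u) (g := g)
      hb.sum rfl rfl hal.ne' hbe.ne' hS1 hS2 ht'.ne'
    rw [← hbv t', hr] at this
    rw [← this, exitV, hr]
    field_simp
    simp only [hdd]
    ring
  have hX : ∀ t', 0 < denV (al + be) d u v t' →
      0 < (1 - (al + be)) * be * denV (al + be) d u v t' := fun t' ht' =>
    mul_pos (mul_pos (by linarith [hb.S_high]) hbe) ht'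
  have hpos : 0 < exitV N al be d v (g / W u) u (bandT N al be d L u r) := by
    refine pos_of_mul_pos_right (a := W u) ?_ hW0.le
    refine pos_of_mul_pos_left (b := (1 - (al + be)) * be * denV (al + be) d u v (L u)) ?_
      (hX _ hDL).le
    rw [hLt, hband _ hDL]
    exact mul_pos hd hs
  have halv : al * v < 1 := by
    rw [← hr, div_mul_eq_mul_div, div_lt_one hbe] at hr1
    have : d * (al * v) < d * 1 := by rw [mul_one, hdd]; linarith
    exact lt_of_mul_lt_mul_left this hd.le
  have hmono : exitV N al be d v (g / W u) u (bandT N al be d L u r) ≤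
      exitV N al be d v (g / W u) u h := by
    refine exitV_mono_band hE'.1.le hal hbe hd hu0.le hh0.le huh.le
      (lt_of_lt_of_le (by norm_num) hv) (div_nonneg hg0 hW0.le) ?_ ?_ ?_
    · refine le_of_mul_le_mul_right ?_ (mul_pos hW0 hB)
      rw [hLt, hbv (L u)]
      refine le_of_eq_of_le ?_ (le_of_le_of_eq hsl ?_)
      · field_simp
      · simp only [denV, bandD]
        field_simp
    · have := mul_le_mul_of_nonneg_left hE'.1.le hu0.le
      linarith
    · have eN : N - 2 = N * (al + be) := by linarith [hb.sum]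
      have e : N * (al + al * (1 + d * v)) - (N - 2) * u * (al / be * (1 + d * v)) =
          N * al / be * (d * (1 - al * v) + (1 - u) * (al + be) * (1 + d * v)) := by
        rw [eN, hdd]; field_simp; ring
      rw [e]
      exact mul_nonneg (div_nonneg (mul_nonneg (by linarith [hb.five]) hal.le) hbe.le)
        (add_nonneg (mul_nonneg hd.le (by linarith))
          (mul_nonneg (mul_nonneg (by linarith) (by linarith)) (by linarith)))
  have hfin : 0 < W u * exitV N al be d v (g / W u) u h := mul_pos hW0 (hpos.trans_le hmono)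
  have e := hband t hDt
  rw [← hh] at e
  refine mul_pos hB (pos_of_mul_pos_right ?_ hd.le)
  rw [← e]
  exact mul_pos hfin (hX t hDt)

/-- **A forward rung** starting at `u₀`: before it only `G + K (u₀ - u) ^ 2 > 0` is asked. -/
theorem forwardT_step_six (hf : IsOrbitFns N p q S R x y s dx dy)
    (hb : SlabBoxSix N (1 / (p + 1)) (1 / (q + 1))) {u₀ u₁ K : ℝ} (hu₀ : 0 ≤ u₀)
    {T T' A A' W W' m m' : ℝ → ℝ} (hT : ∀ u, HasDerivAt T (T' u) u)
    (hA : ∀ u, HasDerivAt A (A' u) u) (hW : ∀ u, HasDerivAt W (W' u) u)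
    (hm : ∀ u, HasDerivAt m (m' u) u)
    (E : ℝ → ℝ → ℝ → Prop)
    (hE : ∀ w ∈ S, 0 < R w → uOf N (R w) (x w) ≤ u₁ →
      E (uOf N (R w) (x w)) (y w / x w) (hOf N (R w) (x w) (y w) w))
    (hcentre : ∀ r, 0 ≤ Trap.c0p N (1 / (p + 1)) (1 / (q + 1)) r → r < 1 →
      (N - 2) * (1 / (q + 1)) * r < N * (1 / (p + 1)) →
      0 < A 0 - W 0 * vOf (1 / (p + 1)) (1 / (q + 1)) r + K * u₀ ^ 2)
    (hbefore : ∀ u r h, InChart N (1 / (p + 1)) (1 / (q + 1)) u r h → u ≤ u₀ → E u r h →
      29 / 100 ≤ vOf (1 / (p + 1)) (1 / (q + 1)) r →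
      vOf (1 / (p + 1)) (1 / (q + 1)) r ≤ 15 / 4 →
      0 < A u - W u * vOf (1 / (p + 1)) (1 / (q + 1)) r - m u *
        ((1 / (q + 1) - 1 / (p + 1)) * u * (tauOf N (1 / (p + 1)) (1 / (q + 1))
          (1 / (q + 1) - 1 / (p + 1)) u r h - T u)) + K * (u₀ - u) ^ 2)
    (hsign : ∀ u r h, InChart N (1 / (p + 1)) (1 / (q + 1)) u r h → u₀ ≤ u → u ≤ u₁ → E u r h →
      29 / 100 ≤ vOf (1 / (p + 1)) (1 / (q + 1)) r →
      vOf (1 / (p + 1)) (1 / (q + 1)) r ≤ 15 / 4 →
      A u - W u * vOf (1 / (p + 1)) (1 / (q + 1)) r - m u *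
        ((1 / (q + 1) - 1 / (p + 1)) * u * (tauOf N (1 / (p + 1)) (1 / (q + 1))
          (1 / (q + 1) - 1 / (p + 1)) u r h - T u)) = 0 →
      exitM (1 / (p + 1) + 1 / (q + 1)) (1 / (q + 1) - 1 / (p + 1)) u
        (vOf (1 / (p + 1)) (1 / (q + 1)) r)
        (tauOf N (1 / (p + 1)) (1 / (q + 1)) (1 / (q + 1) - 1 / (p + 1)) u r h) (W u)
        (A' u - W' u * vOf (1 / (p + 1)) (1 / (q + 1)) r - m' u *
            ((1 / (q + 1) - 1 / (p + 1)) * u * (tauOf N (1 / (p + 1)) (1 / (q + 1))
              (1 / (q + 1) - 1 / (p + 1)) u r h - T u)) +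
          m u * (1 / (q + 1) - 1 / (p + 1)) * (T u + u * T' u -
            tauOf N (1 / (p + 1)) (1 / (q + 1)) (1 / (q + 1) - 1 / (p + 1)) u r h))
        (m u) < 0)
    {w : ℝ} (hw : w ∈ S) (hw0 : 0 < R w) (hwu : uOf N (R w) (x w) ≤ u₁) :
    u₀ ≤ uOf N (R w) (x w) →
    0 < A (uOf N (R w) (x w)) - W (uOf N (R w) (x w)) *
        vOf (1 / (p + 1)) (1 / (q + 1)) (y w / x w) -
      m (uOf N (R w) (x w)) * (hOf N (R w) (x w) (y w) w - bandT N (1 / (p + 1)) (1 / (q + 1))
        (1 / (q + 1) - 1 / (p + 1)) T (uOf N (R w) (x w)) (y w / x w)) := by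
  intro hw0u
  obtain ⟨hal, hbe, hd, hS1, hS2, -, -, -⟩ := hb.facts
  have hlow : 1 ≤ N * (1 / (p + 1)) := hb.one_le
  set al := 1 / (p + 1) with hald
  set be := 1 / (q + 1) with hbed
  set d := be - al with hdd
  set G : ℝ → ℝ → ℝ → ℝ := fun a b c => A a - W a * vOf al be b - m a * (c - bandT N al be d T a b)
    with hGdef
  have hG : HasGrad G
      (fun a b c => A' a - W' a * vOf al be b - m' a * (c - bandT N al be d T a b) +
        m a * (d * (T a + a * T' a)))
      (fun a _ _ => -(W a * (be / al / d)) + m a * bandLr N al) (fun a _ _ => -m a) := by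
    intro a b c da db dc t ha hb' hc'
    refine ((((hA (a t)).comp t ha).fun_sub (((hW (a t)).comp t ha).fun_mul
      (((hb'.const_mul (be / al)).sub_const 1).div_const (be - al)))).fun_sub
      (((hm (a t)).comp t ha).fun_mul (hc'.fun_sub
        (((((((hb'.div_const al).sub_const (1 / be)).add_const 1).fun_sub hb').const_mul
          (N - 2)).div_const (N + 2)).fun_add
          ((ha.fun_mul ((hT (a t)).comp t ha)).const_mul d))))).congr_deriv ?_
    simp only [vOf, bandT, bandLr, hc, Function.comp_apply, d]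
    ring
  have et : ∀ u' r' h', 0 < u' → h' - bandT N al be d T u' r' =
      d * u' * (tauOf N al be d u' r' h' - T u') := by
    intro u' r' h' hu'
    simp only [tauOf, bandT]
    field_simp
    ring
  set G₁ : ℝ → ℝ → ℝ → ℝ := fun a b c => G a b c + K * max 0 (u₀ - a) ^ 2 with hG₁def
  have hG₁ : HasGrad G₁
      (fun a b c => (A' a - W' a * vOf al be b - m' a * (c - bandT N al be d T a b) +
        m a * (d * (T a + a * T' a))) + K * (-(2 * max 0 (u₀ - a))))
      (fun a _ _ => -(W a * (be / al / d)) + m a * bandLr N al) (fun a _ _ => -m a) := by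
    intro a b c da db dc t ha hb' hc'
    refine ((hG a b c da db dc t ha hb' hc').fun_add
      ((((hasDerivAt_max_sq (u₀ - a t)).comp t (ha.const_sub u₀))).const_mul K)).congr_deriv ?_
    ring
  have cT : Continuous T := continuous_iff_continuousAt.2 fun a => (hT a).continuousAt
  have cA : Continuous A := continuous_iff_continuousAt.2 fun a => (hA a).continuousAt
  have cW : Continuous W := continuous_iff_continuousAt.2 fun a => (hW a).continuousAt
  have cm : Continuous m := continuous_iff_continuousAt.2 fun a => (hm a).continuousAt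
  have cG : Continuous fun w : ℝ × ℝ × ℝ => G₁ w.1 w.2.1 w.2.2 := by
    simp only [G₁, G, vOf, bandT, hc]
    fun_prop
  have key := hf.barrier hb.five hlow u₁ G₁ _ _ _ E hG₁ (fun r' => cG.continuousAt)
    (fun r' h0 h1 h2 => ?_) (fun w' hw' hw'0 hw'u => hE w' hw' hw'0 hw'u)
    (fun u' r' w' hI hu' hE' hG0 => ?_) w hw hw0 hwu
  · have e : max 0 (u₀ - uOf N (R w) (x w)) = 0 := max_eq_left (by linarith)
    simp only [G₁, e] at key
    simpa [G] using key
  · have := hcentre r' h0 h1 h2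
    simp only [G₁, G, bandT, zero_mul, mul_zero, add_zero, sub_self, sub_zero, max_eq_right hu₀,
      al, be] at this ⊢
    exact this
  · have hI' := hI
    obtain ⟨hu0, hu1', hr0, hr1, hh0, hh1, hr2, hc0, hk, -⟩ := hI'
    simp only [G₁, G] at hG0
    rw [et _ _ _ hu0] at hG0
    obtain ⟨hv', hv1', -⟩ := hb.v_mem hc0 hr1 hk
    have hv : 29 / 100 ≤ vOf al be r' := hv'
    have hv1 : vOf al be r' ≤ 15 / 4 := hv1'
    rcases lt_or_ge u' u₀ with hlt | hge
    · exfalso
      have := hbefore u' r' w' hI hlt.le hE' hv hv1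
      rw [max_eq_right (by linarith : (0 : ℝ) ≤ u₀ - u')] at hG0
      linarith
    have emax : max 0 (u₀ - u') = 0 := max_eq_left (by linarith)
    have hG0' : A u' - W u' * vOf al be r' - m u' * (d * u' * (tauOf N al be d u' r' w' - T u')) = 0 := by
      rw [emax] at hG0
      linarith
    have hs := hsign u' r' w' hI hge hu' hE' hv hv1 hG0'
    clear hG0'
    generalize htd : tauOf N al be d u' r' w' = t at hs hG0
    generalize hvd : vOf al be r' = v at hs hG0 hv hv1
    have hr' : al / be * (1 + d * v) = r' := by rw [← hvd]; exact hb.r_eq r'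
    have hw' : w' = bandL N al be d t 0 0 u' r' := by
      rw [← htd]
      simp only [tauOf, bandL]
      field_simp
      ring
    have hB : 0 < bandB (al + be) d := by
      unfold bandB; exact mul_pos (by linarith) (by linarith [hb.S_high])
    have hbv := band_value (u := u') (v := v) (c₁ := t) (c₂ := 0) (c₃ := 0)
      hb.sum rfl rfl hal.ne' hbe.ne' hS1 hS2
    rw [hr', ← hw'] at hbv
    have hD : 0 < denV (al + be) d u' v t := by
      have h1 : u' * w' < 1 := lt_of_le_of_lt (mul_le_of_le_one_right hu0.le hh1.le) hu1'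
      have h2 : 0 < d * v := mul_pos hd (lt_of_lt_of_le (by norm_num : (0 : ℝ) < 29 / 100) hv)
      have e : denV (al + be) d u' v t = bandB (al + be) d * (2 + d * v - u' * w') := by
        rw [hbv]
        simp only [denV, bandD, d]
        generalize bandK (al + be) (be - al) u' v t 0 0 = K
        simp only [d] at hB
        field_simp
      rw [e]
      exact mul_pos hB (by linarith)
    have kl := lie_band (u := u') (v := v) (c₁ := t) (c₂ := 0) (c₃ := 0) hb.sum rfl rfl hal.ne'
      hbe.ne' hS1 hS2 hD.ne'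
    have kp := exitP_band (u := u') (v := v) (t := t) (W := W u')
      (g := A' u' - W' u' * v - m' u' * (d * u' * (t - T u')) +
        m u' * d * (T u' + u' * T' u' - t)) hb.sum rfl rfl hal.ne' hbe.ne' hS1 hS2 hD.ne'
    rw [← hbv, hr'] at kp
    rw [hr', ← hw'] at kl
    change exitM (al + be) d u' v t (W u') _ (m u') < 0 at hs
    simp only [exitM] at hs
    change _ * _ = d * u' * lieT (al + be) d u' v t 0 0 at kl
    have hX : 0 < (1 - (al + be)) * bandB (al + be) d * be * denV (al + be) d u' v t :=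
      mul_pos (mul_pos (mul_pos (by linarith [hb.S_high]) hB) hbe) hD
    simp only [emax, mul_zero, neg_zero, add_zero]
    refine pos_of_mul_pos_left (b := (1 - (al + be)) * bandB (al + be) d * be *
      denV (al + be) d u' v t) ?_ hX.le
    refine lt_of_lt_of_eq (b := -(u' * (bandB (al + be) d *
      exitP (al + be) d u' v t (W u') (A' u' - W' u' * v - m' u' * (d * u' * (t - T u')) +
        m u' * d * (T u' + u' * T' u' - t)) + m u' * d * lieT (al + be) d u' v t 0 0)))
      (neg_pos.2 (mul_neg_of_pos_of_neg hu0 hs)) (Eq.symm ?_)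
    have hr'' : r' * (be / al) = 1 + d * v := by rw [← hr']; field_simp
    have edv : r' * dv N al be u' r' w' * (be / al / d) =
        u' / d * (1 + d * v) * (qv N al be u' r' w' * w' - (N - 2) * (1 - r')) := by
      simp only [dv]
      rw [← hr'']
      ring
    simp only [lie, bandLu, denV] at kl
    rw [et _ _ _ hu0, htd]
    simp only [← hald, ← hbed]
    have e3 : (A' u' - W' u' * v - m' u' * (d * u' * (t - T u')) + m u' * (d * (T u' + u' * T' u'))) *
        (u' * ev N al be u' r' w') + (-(W u' * (be / al / d)) + m u' * bandLr N al) *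
        (r' * dv N al be u' r' w') + -m u' * fh N al be u' r' w' =
        (A' u' - W' u' * v - m' u' * (d * u' * (t - T u')) + m u' * (d * (T u' + u' * T' u'))) *
          (u' * ev N al be u' r' w') - W u' * (r' * dv N al be u' r' w' * (be / al / d)) +
          m u' * (bandLr N al * (r' * dv N al be u' r' w') - fh N al be u' r' w') := by ring
    simp only [denV] at hX kp ⊢
    rw [e3, edv]
    generalize bandD (al + be) d u' v (bandK (al + be) d u' v t 0 0) = D at kl kp hX ⊢
    generalize exitP (al + be) d u' v t (W u') _ = P at kp ⊢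
    generalize lieT (al + be) d u' v t 0 0 = L at kl ⊢
    have hk' : d * (u' / d) = u' := mul_div_cancel₀ _ hd.ne'
    generalize u' / d = k' at hk' ⊢
    subst hk'
    linear_combination (-(k' * bandB (al + be) d)) * kp - m (d * k') * kl

/-- **A forward lower rung.** -/
theorem forwardL_step_six (hf : IsOrbitFns N p q S R x y s dx dy)
    (hb : SlabBoxSix N (1 / (p + 1)) (1 / (q + 1))) {u₀ u₁ K : ℝ} (hu₀ : 0 < u₀) (h01 : u₀ ≤ u₁)
    (hK : 0 < K) {T T' L₀ : ℝ → ℝ} (hT : ∀ u, HasDerivAt T (T' u) u) (E : ℝ → ℝ → Prop)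
    (hE : ∀ w ∈ S, 0 < R w → uOf N (R w) (x w) ≤ u₁ → E (uOf N (R w) (x w)) (y w / x w))
    (hlow : ∀ w ∈ S, 0 < R w → uOf N (R w) (x w) ≤ u₀ →
      bandT N (1 / (p + 1)) (1 / (q + 1)) (1 / (q + 1) - 1 / (p + 1)) L₀
        (uOf N (R w) (x w)) (y w / x w) < hOf N (R w) (x w) (y w) w)
    (hbefore : ∀ u, 0 < u → u ≤ u₀ →
      (1 / (q + 1) - 1 / (p + 1)) * (u * (T u - L₀ u)) ≤ K * (u₀ - u) ^ 2)
    (hsign : ∀ u r, u₀ ≤ u → u ≤ u₁ → u < 1 → r < 1 → E u r →
      29 / 100 ≤ vOf (1 / (p + 1)) (1 / (q + 1)) r →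
      vOf (1 / (p + 1)) (1 / (q + 1)) r ≤ 15 / 4 →
      0 < lieE (1 / (p + 1) + 1 / (q + 1)) (1 / (q + 1) - 1 / (p + 1)) u
          (vOf (1 / (p + 1)) (1 / (q + 1)) r) (T u) 1 →
      0 < exitP (1 / (p + 1) + 1 / (q + 1)) (1 / (q + 1) - 1 / (p + 1)) u
          (vOf (1 / (p + 1)) (1 / (q + 1)) r) (T u) 1 0 →
      0 < lieV (1 / (p + 1) + 1 / (q + 1)) (1 / (q + 1) - 1 / (p + 1)) u
          (vOf (1 / (p + 1)) (1 / (q + 1)) r) (T u) (T' u))
    {w : ℝ} (hw : w ∈ S) (hw0 : 0 < R w) (hw0u : u₀ ≤ uOf N (R w) (x w))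
    (hwu : uOf N (R w) (x w) ≤ u₁) :
    bandT N (1 / (p + 1)) (1 / (q + 1)) (1 / (q + 1) - 1 / (p + 1)) T
      (uOf N (R w) (x w)) (y w / x w) < hOf N (R w) (x w) (y w) w := by
  obtain ⟨hal, hbe, hd, hS1, hS2, -, -, -⟩ := hb.facts
  set al := 1 / (p + 1) with hald
  set be := 1 / (q + 1) with hbed
  set d := be - al with hdd
  have key := forwardT_step_six hf hb (u₁ := u₁) (K := K) hu₀.le hT (A := fun _ => 0) (A' := fun _ => 0)
    (W := fun _ => 0) (W' := fun _ => 0) (m := fun _ => -1) (m' := fun _ => 0)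
    (fun u => hasDerivAt_const u 0) (fun u => hasDerivAt_const u 0)
    (fun u => hasDerivAt_const u (-1))
    (fun u r h => E u r ∧ (u ≤ u₀ → bandT N al be d L₀ u r < h) ∧ 0 < ev N al be u r h)
    (fun w' hw' hw'0 hw'u => ⟨hE w' hw' hw'0 hw'u, fun h => hlow w' hw' hw'0 h,
      orbit_ev_pos hf hb.five hb.one_le hal hbe hw' hw'0⟩)
    (fun r _ _ _ => ?_) (fun u r h hI hu hE' _ _ => ?_) (fun u r h hI hu hu' hE' hv hv1 hG => ?_)
    hw hw0 hwu hw0u
  · simp only [zero_mul, sub_zero, zero_sub, neg_mul, one_mul, neg_neg] at key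
    exact sub_pos.1 key
  · simpa using mul_pos hK (pow_pos hu₀ 2)
  · obtain ⟨hu0, -, -, -, -, -, -, -, -, -⟩ := hI
    have h1 := hE'.2.1 hu
    have h2 := hbefore u hu0 hu
    simp only [tauOf, bandT, ← hald, ← hbed, ← hdd] at h1 h2 ⊢
    have e : d * u * ((h - hc N al be r) / (d * u) - T u) =
        h - hc N al be r - d * (u * T u) := by field_simp
    rw [e]
    linarith
  obtain ⟨hu0, hu1, -, hr1, hh0, hh1, -, -, -, hflow⟩ := hI
  have hτ : tauOf N al be d u r h = T u :=
    sub_eq_zero.1 ((mul_eq_zero.1 (by linarith : d * u * (tauOf N al be d u r h - T u) = 0))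
      |>.resolve_left (mul_pos hd hu0).ne')
  set v := vOf al be r with hvd
  set Sg := al + be with hSg
  have hr : al / be * (1 + d * v) = r := hb.r_eq r
  have hh : h = d * bandK Sg d u v (T u) 0 0 / bandB Sg d := by
    have := band_value (u := u) (v := v) (c₁ := T u) (c₂ := 0) (c₃ := 0)
      hb.sum rfl rfl hal.ne' hbe.ne' hS1 hS2
    rw [hr] at this
    rw [← this]
    have e : d * u * tauOf N al be d u r h = h - hc N al be r := by
      have := mul_pos hd hu0
      simp only [tauOf]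
      field_simp
    rw [hτ] at e
    have e2 : bandL N al be d (T u) 0 0 u r = hc N al be r + d * u * T u := by
      simp only [bandL]
      ring
    rw [← hdd, e2]
    linarith
  have hB : 0 < bandB Sg d := by
    unfold bandB; exact mul_pos (by linarith) (by linarith [hb.S_high])
  have huh : u * h < 1 := lt_of_le_of_lt (mul_le_of_le_one_right hu0.le hh1.le) hu1
  have hdv : 0 < d * v := mul_pos hd (lt_of_lt_of_le (by norm_num) hv)
  have hD : 0 < denV Sg d u v (T u) := by
    have e : denV Sg d u v (T u) = bandB Sg d * (2 + d * v - u * h) := by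
      rw [hh]
      simp only [denV, bandD]
      field_simp
    rw [e]
    exact mul_pos hB (by linarith)
  have he : 0 < lieE Sg d u v (T u) 1 := by
    have := exitP_band (u := u) (v := v) (t := T u) (W := 0) (g := -1)
      hb.sum rfl rfl hal.ne' hbe.ne' hS1 hS2 hD.ne'
    rw [← hh, hr, exitP_zero_eq] at this
    refine pos_of_mul_pos_right (this ▸ ?_) hd.le
    refine mul_pos ?_ (mul_pos (mul_pos (by linarith [hb.S_high]) hbe) hD)
    have := mul_pos hd hE'.2.2
    linarith
  have hp : 0 < exitP Sg d u v (T u) 1 0 := by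
    have := exitP_band (u := u) (v := v) (t := T u) (W := 1) (g := 0)
      hb.sum rfl rfl hal.ne' hbe.ne' hS1 hS2 hD.ne'
    rw [← hh, hr] at this
    refine pos_of_mul_pos_right (this ▸ ?_) hd.le
    refine mul_pos ?_ (mul_pos (mul_pos (by linarith [hb.S_high]) hbe) hD)
    have := mul_pos (show 0 < 1 + d * v by linarith) (sub_pos.2 hflow)
    linarith
  have hs := hsign u r hu hu' hu1 hr1 hE'.1 hv hv1 he hp
  rw [hτ]
  have e : (0 : ℝ) - 0 * v - 0 * (d * u * (T u - T u)) + -1 * d * (T u + u * T' u - T u) =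
      -1 * d * (T u + u * T' u - T u) := by ring
  rw [e, exitM_lower_eq]
  exact neg_neg_of_pos (mul_pos hd hs)

/-- **A forward upper rung**, tilted. -/
theorem forwardU_step_six (hf : IsOrbitFns N p q S R x y s dx dy)
    (hb : SlabBoxSix N (1 / (p + 1)) (1 / (q + 1))) {u₀ u₁ K b : ℝ} (hu₀ : 0 < u₀) (hK : 0 < K)
    (hb0 : 0 ≤ b) {T T' U₀ : ℝ → ℝ} (hT : ∀ u, HasDerivAt T (T' u) u) (E : ℝ → ℝ → Prop)
    (hE : ∀ w ∈ S, 0 < R w → uOf N (R w) (x w) ≤ u₁ → E (uOf N (R w) (x w)) (y w / x w))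
    (hup : ∀ w ∈ S, 0 < R w → uOf N (R w) (x w) ≤ u₀ →
      hOf N (R w) (x w) (y w) w < bandT N (1 / (p + 1)) (1 / (q + 1))
        (1 / (q + 1) - 1 / (p + 1)) U₀ (uOf N (R w) (x w)) (y w / x w))
    (hbefore : ∀ u, 0 < u → u ≤ u₀ →
      (1 / (q + 1) - 1 / (p + 1)) * (u * (U₀ u - T u - b * (29 / 100))) ≤ K * (u₀ - u) ^ 2)
    (hsign : ∀ u r, u₀ ≤ u → u ≤ u₁ → u < 1 → r < 1 → E u r →
      29 / 100 ≤ vOf (1 / (p + 1)) (1 / (q + 1)) r →
      vOf (1 / (p + 1)) (1 / (q + 1)) r ≤ 15 / 4 →
      0 < lieE (1 / (p + 1) + 1 / (q + 1)) (1 / (q + 1) - 1 / (p + 1)) u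
          (vOf (1 / (p + 1)) (1 / (q + 1)) r)
          (T u + b * vOf (1 / (p + 1)) (1 / (q + 1)) r) 1 →
      0 < exitP (1 / (p + 1) + 1 / (q + 1)) (1 / (q + 1) - 1 / (p + 1)) u
          (vOf (1 / (p + 1)) (1 / (q + 1)) r)
          (T u + b * vOf (1 / (p + 1)) (1 / (q + 1)) r) 1 0 →
      0 < upperV (1 / (p + 1) + 1 / (q + 1)) (1 / (q + 1) - 1 / (p + 1)) u
          (vOf (1 / (p + 1)) (1 / (q + 1)) r)
          (T u + b * vOf (1 / (p + 1)) (1 / (q + 1)) r) b (T' u))
    {w : ℝ} (hw : w ∈ S) (hw0 : 0 < R w) (hw0u : u₀ ≤ uOf N (R w) (x w))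
    (hwu : uOf N (R w) (x w) ≤ u₁) :
    hOf N (R w) (x w) (y w) w < bandT N (1 / (p + 1)) (1 / (q + 1)) (1 / (q + 1) - 1 / (p + 1)) T
        (uOf N (R w) (x w)) (y w / x w) +
      (1 / (q + 1) - 1 / (p + 1)) * uOf N (R w) (x w) *
        (b * vOf (1 / (p + 1)) (1 / (q + 1)) (y w / x w)) := by
  obtain ⟨hal, hbe, hd, hS1, hS2, -, -, -⟩ := hb.facts
  set al := 1 / (p + 1) with hald
  set be := 1 / (q + 1) with hbed
  set d := be - al with hdd
  have hW : ∀ u : ℝ, HasDerivAt (fun u => -(d * b) * u) (-(d * b)) u := fun u => by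
    simpa using (hasDerivAt_id u).const_mul (-(d * b))
  have key := forwardT_step_six hf hb (u₁ := u₁) (K := K) hu₀.le hT (A := fun _ => 0) (A' := fun _ => 0)
    (W := fun u => -(d * b) * u) (W' := fun _ => -(d * b)) (m := fun _ => 1) (m' := fun _ => 0)
    (fun u => hasDerivAt_const u 0) hW (fun u => hasDerivAt_const u 1)
    (fun u r h => E u r ∧ (u ≤ u₀ → h < bandT N al be d U₀ u r) ∧ 0 < ev N al be u r h)
    (fun w' hw' hw'0 hw'u => ⟨hE w' hw' hw'0 hw'u, fun h => hup w' hw' hw'0 h,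
      orbit_ev_pos hf hb.five hb.one_le hal hbe hw' hw'0⟩)
    (fun r _ _ _ => ?_) (fun u r h hI hu hE' hv _ => ?_)
    (fun u r h hI hu hu' hE' hv hv1 hG => ?_) hw hw0 hwu hw0u
  · linarith
  · simpa using mul_pos hK (pow_pos hu₀ 2)
  · obtain ⟨hu0, -, -, -, -, -, -, -, -, -⟩ := hI
    have h1 := hE'.2.1 hu
    have h2 := hbefore u hu0 hu
    have h3 := mul_le_mul_of_nonneg_left hv (mul_nonneg (mul_nonneg hd.le hb0) hu0.le)
    simp only [tauOf, bandT, ← hald, ← hbed, ← hdd] at h1 h2 h3 ⊢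
    have e : d * u * ((h - hc N al be r) / (d * u) - T u) =
        h - hc N al be r - d * (u * T u) := by field_simp
    rw [one_mul, e]
    linarith
  obtain ⟨hu0, hu1, -, hr1, hh0, hh1, -, -, -, hflow⟩ := hI
  set v := vOf al be r with hvd
  set Sg := al + be with hSg
  have hτ : tauOf N al be d u r h = T u + b * v := by
    have e : d * u * (tauOf N al be d u r h - (T u + b * v)) = 0 := by linarith
    exact sub_eq_zero.1 ((mul_eq_zero.1 e).resolve_left (mul_pos hd hu0).ne')
  have hr : al / be * (1 + d * v) = r := hb.r_eq r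
  have hh : h = d * bandK Sg d u v (T u + b * v) 0 0 / bandB Sg d := by
    have := band_value (u := u) (v := v) (c₁ := T u + b * v) (c₂ := 0) (c₃ := 0)
      hb.sum rfl rfl hal.ne' hbe.ne' hS1 hS2
    rw [hr] at this
    rw [← this]
    have e : d * u * tauOf N al be d u r h = h - hc N al be r := by
      have := mul_pos hd hu0
      simp only [tauOf]
      field_simp
    rw [hτ] at e
    have e2 : bandL N al be d (T u + b * v) 0 0 u r =
        hc N al be r + d * u * (T u + b * v) := by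
      simp only [bandL]
      ring
    rw [← hdd, e2]
    linarith
  have hB : 0 < bandB Sg d := by
    unfold bandB; exact mul_pos (by linarith) (by linarith [hb.S_high])
  have huh : u * h < 1 := lt_of_le_of_lt (mul_le_of_le_one_right hu0.le hh1.le) hu1
  have hdv : 0 < d * v := mul_pos hd (lt_of_lt_of_le (by norm_num) hv)
  have hD : 0 < denV Sg d u v (T u + b * v) := by
    have e : denV Sg d u v (T u + b * v) = bandB Sg d * (2 + d * v - u * h) := by
      rw [hh]
      simp only [denV, bandD]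
      field_simp
    rw [e]
    exact mul_pos hB (by linarith)
  have hX : 0 < (1 - Sg) * be * denV Sg d u v (T u + b * v) :=
    mul_pos (mul_pos (by linarith [hb.S_high]) hbe) hD
  have he : 0 < lieE Sg d u v (T u + b * v) 1 := by
    have := exitP_band (u := u) (v := v) (t := T u + b * v) (W := 0) (g := -1)
      hb.sum rfl rfl hal.ne' hbe.ne' hS1 hS2 hD.ne'
    rw [← hh, hr, exitP_zero_eq] at this
    refine pos_of_mul_pos_right (this ▸ mul_pos ?_ hX) hd.le
    have := mul_pos hd hE'.2.2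
    linarith
  have hp : 0 < exitP Sg d u v (T u + b * v) 1 0 := by
    have := exitP_band (u := u) (v := v) (t := T u + b * v) (W := 1) (g := 0)
      hb.sum rfl rfl hal.ne' hbe.ne' hS1 hS2 hD.ne'
    rw [← hh, hr] at this
    refine pos_of_mul_pos_right (this ▸ mul_pos ?_ hX) hd.le
    have := mul_pos (show 0 < 1 + d * v by linarith) (sub_pos.2 hflow)
    linarith
  have hs := hsign u r hu hu' hu1 hr1 hE'.1 hv hv1 he hp
  rw [hτ]
  have e : (0 : ℝ) - -(d * b) * v - 0 * (d * u * (T u + b * v - T u)) +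
      1 * d * (T u + u * T' u - (T u + b * v)) = d * u * T' u := by ring
  rw [e, exitM_upper_eq]
  exact neg_neg_of_pos (mul_pos hd hs)

/-- `lieE > 0` at a band below a point of the chart with `ev > 0`. -/
theorem lieE_pos_of_ev_six (hb : SlabBoxSix N al be) {u r h : ℝ} (hI : InChart N al be u r h)
    {L : ℝ → ℝ} (hlt : bandT N al be (be - al) L u r < h) (hev : 0 < ev N al be u r h)
    (hv : 29 / 100 ≤ vOf al be r) :
    0 < lieE (al + be) (be - al) u (vOf al be r) (L u) 1 := by
  obtain ⟨hal, hbe, hd, hS1, hS2, -, -, -⟩ := hb.facts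
  obtain ⟨hu0, hu1, hr0, hr1, hh0, hh1, -, -, -, -⟩ := hI
  set d := be - al with hdd
  set v := vOf al be r
  have hr : al / be * (1 + d * v) = r := hb.r_eq r
  have huh : u * h < 1 := lt_of_le_of_lt (mul_le_of_le_one_right hu0.le hh1.le) hu1
  have heg := ev_antitone (N := N) (by linarith [hb.five]) (by linarith [hb.sum]) hal hbe hu0.le
    hu1.le hr0 hr1.le hlt.le huh
  have hg : bandT N al be d L u r = d * bandK (al + be) d u v (L u) 0 0 / bandB (al + be) d := by
    have := band_value (u := u) (v := v) (c₁ := L u) (c₂ := 0) (c₃ := 0)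
      hb.sum rfl hdd.symm hal.ne' hbe.ne' hS1 hS2
    rw [hr] at this
    rw [← this]
    simp only [bandT, bandL]
    ring
  have hB : 0 < bandB (al + be) d := by
    unfold bandB; exact mul_pos (by linarith) (by linarith [hb.S_high])
  have hdv : 0 < d * v := mul_pos hd (lt_of_lt_of_le (by norm_num) hv)
  have hD : 0 < denV (al + be) d u v (L u) := by
    have e : denV (al + be) d u v (L u) =
        bandB (al + be) d * (2 + d * v - u * bandT N al be d L u r) := by
      rw [hg]
      simp only [denV, bandD]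
      generalize bandK (al + be) d u v (L u) 0 0 = K
      field_simp
    rw [e]
    have := mul_le_mul_of_nonneg_left hlt.le hu0.le
    exact mul_pos hB (by linarith)
  have := exitP_band (u := u) (v := v) (t := L u) (W := 0) (g := -1)
    hb.sum rfl hdd.symm hal.ne' hbe.ne' hS1 hS2 hD.ne'
  rw [← hg, hr, exitP_zero_eq] at this
  refine pos_of_mul_pos_right (this ▸ ?_) hd.le
  refine mul_pos ?_ (mul_pos (mul_pos (by linarith [hb.S_high]) hbe) hD)
  have := mul_pos hd (hev.trans_le heg)
  linarith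

/-- **`dv > 0` under an upper band.** -/
theorem exitP_pos_of_upper_six (hf : IsOrbitFns N p q S R x y s dx dy)
    (hb : SlabBoxSix N (1 / (p + 1)) (1 / (q + 1))) {w : ℝ} (hw : w ∈ S) (hw0 : 0 < R w) {T b : ℝ}
    {Tf : ℝ → ℝ} (hT : Tf (uOf N (R w) (x w)) = T)
    (hal : (1 / (p + 1)) * vOf (1 / (p + 1)) (1 / (q + 1)) (y w / x w) ≤ 1)
    (hup : hOf N (R w) (x w) (y w) w < bandT N (1 / (p + 1)) (1 / (q + 1))
        (1 / (q + 1) - 1 / (p + 1)) Tf (uOf N (R w) (x w)) (y w / x w) +
      (1 / (q + 1) - 1 / (p + 1)) * uOf N (R w) (x w) *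
        (b * vOf (1 / (p + 1)) (1 / (q + 1)) (y w / x w))) :
    0 < exitP (1 / (p + 1) + 1 / (q + 1)) (1 / (q + 1) - 1 / (p + 1)) (uOf N (R w) (x w))
      (vOf (1 / (p + 1)) (1 / (q + 1)) (y w / x w))
      (T + b * vOf (1 / (p + 1)) (1 / (q + 1)) (y w / x w)) 1 0 := by
  obtain ⟨hu0, hu1, -, hr1, hh0, hh1, -, hc0, hk, hflow⟩ := hf.chart hb.five hb.one_le w hw hw0
  obtain ⟨halp, hbe, hd, hS1, hS2, -, -, -⟩ := hb.facts
  set al := 1 / (p + 1) with hald
  set be := 1 / (q + 1) with hbed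
  set d := be - al with hdd
  set u := uOf N (R w) (x w)
  set r := y w / x w
  set h := hOf N (R w) (x w) (y w) w
  set v := vOf al be r with hvd
  set t := tauOf N al be d u r h with htd
  set Sg := al + be with hSg
  have hv : 29 / 100 ≤ v := (hb.v_mem hc0 hr1 hk).1
  have hdu : 0 < d * u := mul_pos hd hu0
  have e : d * u * t = h - hc N al be r := by
    simp only [t, tauOf]
    field_simp
  have ht : t < T + b * v := by
    refine lt_of_mul_lt_mul_left ?_ hdu.le
    rw [e]
    simp only [bandT, hT] at hup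
    linarith
  have hr : al / be * (1 + d * v) = r := hb.r_eq r
  have hh : h = d * bandK Sg d u v t 0 0 / bandB Sg d := by
    have := band_value (u := u) (v := v) (c₁ := t) (c₂ := 0) (c₃ := 0)
      hb.sum rfl rfl halp.ne' hbe.ne' hS1 hS2
    rw [hr] at this
    rw [← this]
    have e2 : bandL N al be d t 0 0 u r = hc N al be r + d * u * t := by
      simp only [bandL]
      ring
    rw [← hdd, e2]
    linarith
  have hB : 0 < bandB Sg d := by
    unfold bandB; exact mul_pos (by linarith) (by linarith [hb.S_high])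
  have huh : u * h < 1 := lt_of_le_of_lt (mul_le_of_le_one_right hu0.le hh1.le) hu1
  have hdv : 0 < d * v := mul_pos hd (lt_of_lt_of_le (by norm_num) hv)
  have hD : 0 < denV Sg d u v t := by
    have e : denV Sg d u v t = bandB Sg d * (2 + d * v - u * h) := by
      rw [hh]
      simp only [denV, bandD]
      field_simp
    rw [e]
    exact mul_pos hB (by linarith)
  have hp : 0 < exitP Sg d u v t 1 0 := by
    have := exitP_band (u := u) (v := v) (t := t) (W := 1) (g := 0)
      hb.sum rfl rfl halp.ne' hbe.ne' hS1 hS2 hD.ne'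
    rw [← hh, hr] at this
    refine pos_of_mul_pos_right (this ▸ ?_) hd.le
    refine mul_pos ?_ (mul_pos (mul_pos (by linarith [hb.S_high]) hbe) hD)
    have := mul_pos (show 0 < 1 + d * v by linarith) (sub_pos.2 hflow)
    linarith
  have hSpos : 0 < Sg := by linarith
  have e2 : (Sg - d) / 2 = al := by simp only [Sg, d]; ring
  have hQ : 0 ≤ bandQ Sg d u v := by
    have h1 := mul_nonneg (mul_nonneg hSpos.le (show (0 : ℝ) ≤ 1 + d * v by linarith))
      (sub_nonneg.2 hu1.le)
    have h2 := mul_nonneg hd.le (show (0 : ℝ) ≤ 2 - (Sg - d) * v by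
      linarith [show (Sg - d) * v = 2 * (al * v) by rw [← e2]; ring])
    have h3 := mul_nonneg hd.le hdv.le
    simp only [bandQ]
    linarith
  have h1 : 0 ≤ (1 - (Sg - d) / 2 * v) := by rw [e2]; linarith
  refine lt_of_lt_of_le hp (sub_nonneg.1 ?_)
  have h4 := mul_nonneg (show (0 : ℝ) ≤ 1 + d * v by linarith)
    (mul_nonneg (mul_nonneg (mul_nonneg hB.le hu0.le) (sub_nonneg.2 ht.le))
      (add_nonneg hQ (mul_nonneg (mul_nonneg (mul_nonneg zero_le_two hSpos.le) h1) hdu.le)))
  simp only [exitP, bandK, bandD]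
  generalize bandQ Sg d u v = Q at h4 ⊢
  generalize bandB Sg d = B at h4 ⊢
  linarith

end Vale.Agent.P100.Calib.Band
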