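import Vale.Agent.P100.Calib.SlabSixTailAlgebra
import Vale.Agent.P100.Calib.SlabSignAlgebra

/-!
# The closed forms of dimension six in `(g W, g E, g K, g W1)` and `z`

The closed forms are quadratic in `g W`, affine in `g K` and `g W1`, and quadratic (`TGGS`) or
affine in `z`.
-/

set_option linter.unusedVariables false
set_option linter.unusedSimpArgs false

namespace Vale.Agent.P100.Calib.Closed.Six.Low

/-- The expansions of the closed forms at a point, in `g W`, `z`, `g K` and `g W1`. -/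
structure Forms where
  (g₀ g₁ g₂ gz gp gzz h₀ h₁ h₂ hz hp a₀ a₁ a₂ az ap ak aw t₀ t₁ t₂ tz tp tk tw m₀ m₁ mc mw : ℝ)

/-- `TGGS` at `g = 1`. -/
noncomputable def atG (a d v p z : ℝ) : ℝ := ClosedGen.TGGS a d v 1 p 0 0 (numZ 0 0 z)
/-- `TEGS` at `g = 1`. -/
noncomputable def atT (a d v e p z : ℝ) : ℝ := ClosedGen.TEGS a d v 1 p 0 0 (numZ e 0 z)
/-- `TAS` at `g = 1`. -/
noncomputable def atA (a d v e p z k w : ℝ) : ℝ := ClosedGen.TAS a d v 1 p w 0 (numZ e k z)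
/-- `TMGS` at `g = 1`. -/
noncomputable def atN (a d v e p z k w : ℝ) : ℝ := ClosedGen.TMGS a d v 1 p w 0 (numZ e k z)
/-- `TMES` at `g = 1`. -/
noncomputable def atM (a d v e p k w : ℝ) : ℝ := ClosedGen.TMES a d v 1 p w 0 (numZ e k 0)

/-- The expansions at `(a, d, v, e)`. -/
noncomputable def forms (a d v e : ℝ) : Forms where
  g₀ := atG a d v 0 0
  g₁ := (atG a d v 1 0 - atG a d v (-1) 0) / 2
  g₂ := (atG a d v 1 0 + atG a d v (-1) 0 - 2 * atG a d v 0 0) / 2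
  gz := (atG a d v 0 1 - atG a d v 0 (-1)) / 2
  gzz := (atG a d v 0 1 + atG a d v 0 (-1) - 2 * atG a d v 0 0) / 2
  gp := atG a d v 1 1 - atG a d v 1 0 - atG a d v 0 1 + atG a d v 0 0
  h₀ := atT a d v e 0 0
  h₁ := (atT a d v e 1 0 - atT a d v e (-1) 0) / 2
  h₂ := (atT a d v e 1 0 + atT a d v e (-1) 0 - 2 * atT a d v e 0 0) / 2
  hz := atT a d v e 0 1 - atT a d v e 0 0
  hp := atT a d v e 1 1 - atT a d v e 1 0 - atT a d v e 0 1 + atT a d v e 0 0
  a₀ := atA a d v e 0 0 0 0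
  a₁ := (atA a d v e 1 0 0 0 - atA a d v e (-1) 0 0 0) / 2
  a₂ := (atA a d v e 1 0 0 0 + atA a d v e (-1) 0 0 0 - 2 * atA a d v e 0 0 0 0) / 2
  az := atA a d v e 0 1 0 0 - atA a d v e 0 0 0 0
  ap := atA a d v e 1 1 0 0 - atA a d v e 1 0 0 0 - atA a d v e 0 1 0 0 + atA a d v e 0 0 0 0
  ak := atA a d v e 0 0 1 0 - atA a d v e 0 0 0 0
  aw := atA a d v e 0 0 0 1 - atA a d v e 0 0 0 0
  t₀ := atN a d v e 0 0 0 0
  t₁ := (atN a d v e 1 0 0 0 - atN a d v e (-1) 0 0 0) / 2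
  t₂ := (atN a d v e 1 0 0 0 + atN a d v e (-1) 0 0 0 - 2 * atN a d v e 0 0 0 0) / 2
  tz := atN a d v e 0 1 0 0 - atN a d v e 0 0 0 0
  tp := atN a d v e 1 1 0 0 - atN a d v e 1 0 0 0 - atN a d v e 0 1 0 0 + atN a d v e 0 0 0 0
  tk := atN a d v e 0 0 1 0 - atN a d v e 0 0 0 0
  tw := atN a d v e 0 0 0 1 - atN a d v e 0 0 0 0
  m₀ := atM a d v e 0 0 0
  m₁ := atM a d v e 1 0 0 - atM a d v e 0 0 0
  mc := atM a d v e 0 1 0 - atM a d v e 0 0 0
  mw := atM a d v e 0 0 1 - atM a d v e 0 0 0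

variable (F : Forms) (p z : ℝ)

/-- `TGGS`. -/
def Forms.G : ℝ := F.g₀ + F.g₁ * p + F.g₂ * p ^ 2 + F.gz * z + F.gp * (p * z) + F.gzz * z ^ 2
/-- `TEGS`. -/
def Forms.T : ℝ := F.h₀ + F.h₁ * p + F.h₂ * p ^ 2 + F.hz * z + F.hp * (p * z)
/-- `TAS`. -/
def Forms.A (k w : ℝ) : ℝ :=
  F.a₀ + F.a₁ * p + F.a₂ * p ^ 2 + F.az * z + F.ap * (p * z) + F.ak * k + F.aw * w
/-- `TMGS`. -/
def Forms.N (k w : ℝ) : ℝ :=
  F.t₀ + F.t₁ * p + F.t₂ * p ^ 2 + F.tz * z + F.tp * (p * z) + F.tk * k + F.tw * w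
/-- `g TMES`. -/
def Forms.M (k w : ℝ) : ℝ := F.m₀ + F.m₁ * p + F.mc * k + F.mw * w

variable (a d v g W W1 R E K : ℝ)

theorem TGG_expand : ClosedGen.TGGS a d v g W W1 R (numZ E K z) =
    (forms a d v (g * E)).G (g * W) z := by
  simp only [forms, Forms.G, atG, Tail.G_scale, Tail.G6, one_mul]
  ring

theorem TEG_expand : ClosedGen.TEGS a d v g W W1 R (numZ E K z) =
    (forms a d v (g * E)).T (g * W) z := by
  simp only [forms, Forms.T, atT, Tail.Y_scale, Tail.Y6, one_mul]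
  ring

theorem TA_expand : ClosedGen.TAS a d v g W W1 R (numZ E K z) =
    (forms a d v (g * E)).A (g * W) z (g * K) (g * W1) := by
  simp only [forms, Forms.A, atA, Tail.T_scale, Tail.T6, one_mul]
  ring

theorem TMG_expand : ClosedGen.TMGS a d v g W W1 R (numZ E K z) =
    (forms a d v (g * E)).N (g * W) z (g * K) (g * W1) := by
  simp only [forms, Forms.N, atN, Tail.N_scale, Tail.N6, one_mul]
  ring

theorem TME_expand : g * ClosedGen.TMES a d v g W W1 R (numZ E K z) =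
    (forms a d v (g * E)).M (g * W) (g * K) (g * W1) := by
  simp only [forms, Forms.M, atM, numZ,
    ClosedGen.TMES, ClosedGen.TME_c, ClosedGen.TME_v, ClosedGen.TME_w]
  ring

/-- The arrow times `g ^ 2`. -/
theorem TArrow_scale : g ^ 2 * ClosedGen.TArrowS a d v g W W1 R (numZ E K z) =
    4 * ClosedGen.TAS a d v g W W1 R (numZ E K z) *
        ((1 + d * v) * ((1 - 2 * a - d) * (g * W) * -(g * E))) *
        ClosedGen.TGGS a d v g W W1 R (numZ E K z) -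
      12 / 5 * (1 + d * v) * (g * ClosedGen.TMES a d v g W W1 R (numZ E K z)) ^ 2 *
        ClosedGen.TGGS a d v g W W1 R (numZ E K z) -
      d ^ 2 * (1 + d * v) * ClosedGen.TEGS a d v g W W1 R (numZ E K z) ^ 2 *
        ((1 + d * v) * ((1 - 2 * a - d) * (g * W) * -(g * E))) := by
  simp only [ClosedGen.TArrowS, ClosedGen.TMMS, ClosedGen.TMM_w, numZ]
  ring

/-- `TGGS` is concave in `z`. -/
theorem gzz_nonpos (e : ℝ) (hd : 0 ≤ d) (hv : 0 ≤ v) (ha : 0 ≤ a) :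
    (forms a d v e).gzz ≤ 0 := by
  have key : (forms a d v e).gzz = -((1 + 2 * a + d) / 2 * a * (a + d) * d ^ 2 * (1 + d * v) *
      (34 / 25 * v * d * (2 + d * v)) ^ 2) := by
    simp only [forms, atG, numZ, Closed.j1,
    ClosedGen.TGGS, ClosedGen.LGGS, Closed.j1, ClosedGen.gGS, ClosedGen.hGS, Closed.LGGc,
      Closed.LGGv, ClosedGen.GG_g, ClosedGen.GG_g0, ClosedGen.GG_kg, ClosedGen.gG_1,
      ClosedGen.gG_c, ClosedGen.gG_v, ClosedGen.hG_c, ClosedGen.hG_g, ClosedGen.hG_kc]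
    ring
  rw [key]
  exact neg_nonpos.2 (by positivity)

end Vale.Agent.P100.Calib.Closed.Six.Low
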