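import Vale.Agent.P100.Calib.SlabSixLowPieces

/-!
# Checks of the certificate of dimension six on `0 < u ≤ 3/5`
-/

-- The checks are definitions, so that they run one after another with little memory.
set_option linter.defProp false

namespace Vale.Agent.P100.Calib.Closed.Six.Low

open BoxPos
open Vale.Agent.P100.Calib.Closed.Large (PosBox posBox_of_check and_four posBox_join₀ posBox_join₂ posBox_join₃)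

def p6xRoom_1 :
    (piece6.xRoom).checkQuick
      ⟨29, ⟨0, 0, 1, 1⟩⟩
      ⟨⟨0, 1001, 1000⟩, ⟨2000, 2021, 3000⟩, ⟨260, 334, 1000⟩, ⟨305, 481, 1000⟩⟩ = true := by
  decide +kernel

theorem p6xRoom_pos :
    PosBox ⟨⟨0, 1001, 1000⟩, ⟨2000, 2021, 3000⟩, ⟨260, 334, 1000⟩, ⟨305, 481, 1000⟩⟩
      (piece6.xRoom) :=
  posBox_of_check p6xRoom_1

def p6xGap_1 :
    (piece6.xGap).checkQuick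
      ⟨63, ⟨0, 2, 3, 2⟩⟩
      ⟨⟨0, 1001, 1000⟩, ⟨2000, 2021, 3000⟩, ⟨260, 334, 1000⟩, ⟨305, 481, 1000⟩⟩ = true := by
  decide +kernel

theorem p6xGap_pos :
    PosBox ⟨⟨0, 1001, 1000⟩, ⟨2000, 2021, 3000⟩, ⟨260, 334, 1000⟩, ⟨305, 481, 1000⟩⟩
      (piece6.xGap) :=
  posBox_of_check p6xGap_1

def p6hELL_1 :
    (piece6.hEL xTL).checkQuick
      ⟨328, ⟨5, 8, 11, 6⟩⟩
      ⟨⟨0, 1001, 1000⟩, ⟨2000, 2021, 3000⟩, ⟨260, 334, 1000⟩, ⟨305, 481, 1000⟩⟩ = true := by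
  decide +kernel

theorem p6hELL_pos :
    PosBox ⟨⟨0, 1001, 1000⟩, ⟨2000, 2021, 3000⟩, ⟨260, 334, 1000⟩, ⟨305, 481, 1000⟩⟩
      (piece6.hEL xTL) :=
  posBox_of_check p6hELL_1

def p6hEHL_1 :
    (piece6.hEH xTL).checkQuick
      ⟨331, ⟨5, 8, 11, 6⟩⟩
      ⟨⟨0, 1001, 1000⟩, ⟨2000, 2021, 3000⟩, ⟨260, 334, 1000⟩, ⟨305, 481, 1000⟩⟩ = true := by
  decide +kernel

theorem p6hEHL_pos :
    PosBox ⟨⟨0, 1001, 1000⟩, ⟨2000, 2021, 3000⟩, ⟨260, 334, 1000⟩, ⟨305, 481, 1000⟩⟩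
      (piece6.hEH xTL) :=
  posBox_of_check p6hEHL_1

def p6hPUL_1 :
    (piece6.hPU xTL).checkQuick
      ⟨352, ⟨5, 8, 11, 7⟩⟩
      ⟨⟨0, 1001, 1000⟩, ⟨2000, 2021, 3000⟩, ⟨260, 334, 1000⟩, ⟨305, 481, 1000⟩⟩ = true := by
  decide +kernel

theorem p6hPUL_pos :
    PosBox ⟨⟨0, 1001, 1000⟩, ⟨2000, 2021, 3000⟩, ⟨260, 334, 1000⟩, ⟨305, 481, 1000⟩⟩
      (piece6.hPU xTL) :=
  posBox_of_check p6hPUL_1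

def p6hKUL_1 :
    (piece6.hKU xTL).checkQuick
      ⟨349, ⟨5, 8, 11, 7⟩⟩
      ⟨⟨0, 1001, 1000⟩, ⟨2000, 2021, 3000⟩, ⟨260, 334, 1000⟩, ⟨305, 481, 1000⟩⟩ = true := by
  decide +kernel

theorem p6hKUL_pos :
    PosBox ⟨⟨0, 1001, 1000⟩, ⟨2000, 2021, 3000⟩, ⟨260, 334, 1000⟩, ⟨305, 481, 1000⟩⟩
      (piece6.hKU xTL) :=
  posBox_of_check p6hKUL_1

def p6hKLL_1 :
    (piece6.hKL xTL).checkQuick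
      ⟨349, ⟨5, 8, 11, 7⟩⟩
      ⟨⟨0, 1001, 1000⟩, ⟨2000, 2021, 3000⟩, ⟨260, 334, 1000⟩, ⟨305, 481, 1000⟩⟩ = true := by
  decide +kernel

theorem p6hKLL_pos :
    PosBox ⟨⟨0, 1001, 1000⟩, ⟨2000, 2021, 3000⟩, ⟨260, 334, 1000⟩, ⟨305, 481, 1000⟩⟩
      (piece6.hKL xTL) :=
  posBox_of_check p6hKLL_1

def p6hWUL_1 :
    (piece6.hWU xTL).checkQuick
      ⟨352, ⟨5, 7, 11, 7⟩⟩
      ⟨⟨0, 1001, 1000⟩, ⟨2000, 2021, 3000⟩, ⟨260, 334, 1000⟩, ⟨305, 481, 1000⟩⟩ = true := by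
  decide +kernel

theorem p6hWUL_pos :
    PosBox ⟨⟨0, 1001, 1000⟩, ⟨2000, 2021, 3000⟩, ⟨260, 334, 1000⟩, ⟨305, 481, 1000⟩⟩
      (piece6.hWU xTL) :=
  posBox_of_check p6hWUL_1

def p6hWLL_1 :
    (piece6.hWL xTL).checkQuick
      ⟨351, ⟨5, 7, 11, 7⟩⟩
      ⟨⟨0, 1001, 1000⟩, ⟨2000, 2021, 3000⟩, ⟨260, 334, 1000⟩, ⟨305, 481, 1000⟩⟩ = true := by
  decide +kernel

theorem p6hWLL_pos :
    PosBox ⟨⟨0, 1001, 1000⟩, ⟨2000, 2021, 3000⟩, ⟨260, 334, 1000⟩, ⟨305, 481, 1000⟩⟩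
      (piece6.hWL xTL) :=
  posBox_of_check p6hWLL_1

def p6hZL_1 :
    (piece6.hZ xTL).checkQuick
      ⟨499, ⟨8, 10, 18, 8⟩⟩
      ⟨⟨0, 1001, 1000⟩, ⟨2000, 2021, 3000⟩, ⟨260, 334, 1000⟩, ⟨305, 481, 1000⟩⟩ = true := by
  decide +kernel

theorem p6hZL_pos :
    PosBox ⟨⟨0, 1001, 1000⟩, ⟨2000, 2021, 3000⟩, ⟨260, 334, 1000⟩, ⟨305, 481, 1000⟩⟩
      (piece6.hZ xTL) :=
  posBox_of_check p6hZL_1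

def p6hELU_1 :
    (piece6.hEL xTU).checkQuick
      ⟨341, ⟨5, 8, 12, 6⟩⟩
      ⟨⟨0, 1001, 1000⟩, ⟨2000, 2021, 3000⟩, ⟨260, 334, 1000⟩, ⟨305, 481, 1000⟩⟩ = true := by
  decide +kernel

theorem p6hELU_pos :
    PosBox ⟨⟨0, 1001, 1000⟩, ⟨2000, 2021, 3000⟩, ⟨260, 334, 1000⟩, ⟨305, 481, 1000⟩⟩
      (piece6.hEL xTU) :=
  posBox_of_check p6hELU_1

def p6hEHU_1 :
    (piece6.hEH xTU).checkQuick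
      ⟨344, ⟨5, 8, 12, 6⟩⟩
      ⟨⟨0, 500, 1000⟩, ⟨2000, 2021, 3000⟩, ⟨260, 334, 1000⟩, ⟨305, 481, 1000⟩⟩ = true := by
  decide +kernel

def p6hEHU_2 :
    (piece6.hEH xTU).checkQuick
      ⟨345, ⟨5, 8, 12, 6⟩⟩
      ⟨⟨500, 1001, 1000⟩, ⟨2000, 2021, 3000⟩, ⟨260, 334, 1000⟩, ⟨305, 481, 1000⟩⟩ = true := by
  decide +kernel

theorem p6hEHU_pos :
    PosBox ⟨⟨0, 1001, 1000⟩, ⟨2000, 2021, 3000⟩, ⟨260, 334, 1000⟩, ⟨305, 481, 1000⟩⟩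
      (piece6.hEH xTU) :=
  posBox_join₀ (posBox_of_check p6hEHU_1) (posBox_of_check p6hEHU_2)

def p6hPUU_1 :
    (piece6.hPU xTU).checkQuick
      ⟨365, ⟨5, 8, 12, 7⟩⟩
      ⟨⟨0, 500, 1000⟩, ⟨2000, 2021, 3000⟩, ⟨260, 334, 1000⟩, ⟨305, 481, 1000⟩⟩ = true := by
  decide +kernel

def p6hPUU_2 :
    (piece6.hPU xTU).checkQuick
      ⟨366, ⟨5, 8, 12, 7⟩⟩
      ⟨⟨500, 1001, 1000⟩, ⟨2000, 2021, 3000⟩, ⟨260, 334, 1000⟩, ⟨305, 481, 1000⟩⟩ = true := by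
  decide +kernel

theorem p6hPUU_pos :
    PosBox ⟨⟨0, 1001, 1000⟩, ⟨2000, 2021, 3000⟩, ⟨260, 334, 1000⟩, ⟨305, 481, 1000⟩⟩
      (piece6.hPU xTU) :=
  posBox_join₀ (posBox_of_check p6hPUU_1) (posBox_of_check p6hPUU_2)

def p6hKUU_1 :
    (piece6.hKU xTU).checkQuick
      ⟨362, ⟨5, 8, 12, 7⟩⟩
      ⟨⟨0, 1001, 1000⟩, ⟨2000, 2021, 3000⟩, ⟨260, 334, 1000⟩, ⟨305, 481, 1000⟩⟩ = true := by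
  decide +kernel

theorem p6hKUU_pos :
    PosBox ⟨⟨0, 1001, 1000⟩, ⟨2000, 2021, 3000⟩, ⟨260, 334, 1000⟩, ⟨305, 481, 1000⟩⟩
      (piece6.hKU xTU) :=
  posBox_of_check p6hKUU_1

def p6hKLU_1 :
    (piece6.hKL xTU).checkQuick
      ⟨362, ⟨5, 8, 12, 7⟩⟩
      ⟨⟨0, 1001, 1000⟩, ⟨2000, 2021, 3000⟩, ⟨260, 334, 1000⟩, ⟨305, 481, 1000⟩⟩ = true := by
  decide +kernel

theorem p6hKLU_pos :
    PosBox ⟨⟨0, 1001, 1000⟩, ⟨2000, 2021, 3000⟩, ⟨260, 334, 1000⟩, ⟨305, 481, 1000⟩⟩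
      (piece6.hKL xTU) :=
  posBox_of_check p6hKLU_1

def p6hWUU_1 :
    (piece6.hWU xTU).checkQuick
      ⟨366, ⟨5, 7, 12, 7⟩⟩
      ⟨⟨0, 1001, 1000⟩, ⟨2000, 2021, 3000⟩, ⟨260, 334, 1000⟩, ⟨305, 481, 1000⟩⟩ = true := by
  decide +kernel

theorem p6hWUU_pos :
    PosBox ⟨⟨0, 1001, 1000⟩, ⟨2000, 2021, 3000⟩, ⟨260, 334, 1000⟩, ⟨305, 481, 1000⟩⟩
      (piece6.hWU xTU) :=
  posBox_of_check p6hWUU_1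

def p6hWLU_1 :
    (piece6.hWL xTU).checkQuick
      ⟨364, ⟨5, 7, 12, 7⟩⟩
      ⟨⟨0, 500, 1000⟩, ⟨2000, 2021, 3000⟩, ⟨260, 334, 1000⟩, ⟨305, 481, 1000⟩⟩ = true := by
  decide +kernel

def p6hWLU_2 :
    (piece6.hWL xTU).checkQuick
      ⟨366, ⟨5, 7, 12, 7⟩⟩
      ⟨⟨500, 1001, 1000⟩, ⟨2000, 2021, 3000⟩, ⟨260, 334, 1000⟩, ⟨305, 481, 1000⟩⟩ = true := by
  decide +kernel

theorem p6hWLU_pos :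
    PosBox ⟨⟨0, 1001, 1000⟩, ⟨2000, 2021, 3000⟩, ⟨260, 334, 1000⟩, ⟨305, 481, 1000⟩⟩
      (piece6.hWL xTU) :=
  posBox_join₀ (posBox_of_check p6hWLU_1) (posBox_of_check p6hWLU_2)

def p6hZU_1 :
    (piece6.hZ xTU).checkQuick
      ⟨499, ⟨8, 10, 18, 8⟩⟩
      ⟨⟨0, 1001, 1000⟩, ⟨2000, 2021, 3000⟩, ⟨260, 334, 1000⟩, ⟨305, 481, 1000⟩⟩ = true := by
  decide +kernel

theorem p6hZU_pos :
    PosBox ⟨⟨0, 1001, 1000⟩, ⟨2000, 2021, 3000⟩, ⟨260, 334, 1000⟩, ⟨305, 481, 1000⟩⟩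
      (piece6.hZ xTU) :=
  posBox_of_check p6hZU_1

def p6hKp_1 :
    (piece6.hKp).checkQuick
      ⟨78, ⟨1, 1, 3, 3⟩⟩
      ⟨⟨0, 1001, 1000⟩, ⟨2000, 2021, 3000⟩, ⟨260, 334, 1000⟩, ⟨305, 481, 1000⟩⟩ = true := by
  decide +kernel

theorem p6hKp_pos :
    PosBox ⟨⟨0, 1001, 1000⟩, ⟨2000, 2021, 3000⟩, ⟨260, 334, 1000⟩, ⟨305, 481, 1000⟩⟩
      (piece6.hKp) :=
  posBox_of_check p6hKp_1

def p6hKm_1 :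
    (piece6.hKm).checkQuick
      ⟨92, ⟨1, 1, 3, 3⟩⟩
      ⟨⟨0, 1001, 1000⟩, ⟨2000, 2021, 3000⟩, ⟨260, 334, 1000⟩, ⟨305, 481, 1000⟩⟩ = true := by
  decide +kernel

theorem p6hKm_pos :
    PosBox ⟨⟨0, 1001, 1000⟩, ⟨2000, 2021, 3000⟩, ⟨260, 334, 1000⟩, ⟨305, 481, 1000⟩⟩
      (piece6.hKm) :=
  posBox_of_check p6hKm_1

def p6hMZeroLo_1 :
    (piece6.hM₀ piece6.xPL).checkQuick
      ⟨215, ⟨2, 5, 9, 6⟩⟩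
      ⟨⟨0, 1001, 1000⟩, ⟨2000, 2021, 3000⟩, ⟨260, 334, 1000⟩, ⟨305, 481, 1000⟩⟩ = true := by
  decide +kernel

theorem p6hMZeroLo_pos :
    PosBox ⟨⟨0, 1001, 1000⟩, ⟨2000, 2021, 3000⟩, ⟨260, 334, 1000⟩, ⟨305, 481, 1000⟩⟩
      (piece6.hM₀ piece6.xPL) :=
  posBox_of_check p6hMZeroLo_1

def p6hC1Lo_1 :
    (piece6.hC1 piece6.xPL).checkQuick
      ⟨245, ⟨3, 5, 9, 8⟩⟩
      ⟨⟨0, 1001, 1000⟩, ⟨2000, 2021, 3000⟩, ⟨260, 334, 1000⟩, ⟨305, 481, 1000⟩⟩ = true := by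
  decide +kernel

theorem p6hC1Lo_pos :
    PosBox ⟨⟨0, 1001, 1000⟩, ⟨2000, 2021, 3000⟩, ⟨260, 334, 1000⟩, ⟨305, 481, 1000⟩⟩
      (piece6.hC1 piece6.xPL) :=
  posBox_of_check p6hC1Lo_1

def p6hGLoZLo_1 :
    (piece6.hG piece6.xPL piece6.zLo).checkQuick
      ⟨349, ⟨2, 7, 16, 11⟩⟩
      ⟨⟨0, 1001, 1000⟩, ⟨2000, 2021, 3000⟩, ⟨260, 334, 1000⟩, ⟨305, 481, 1000⟩⟩ = true := by
  decide +kernel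

theorem p6hGLoZLo_pos :
    PosBox ⟨⟨0, 1001, 1000⟩, ⟨2000, 2021, 3000⟩, ⟨260, 334, 1000⟩, ⟨305, 481, 1000⟩⟩
      (piece6.hG piece6.xPL piece6.zLo) :=
  posBox_of_check p6hGLoZLo_1

def p6hFourLoZLo :
    ((piece6.hC2p piece6.xPL piece6.zLo).checkQuick ⟨439, ⟨3, 8, 19, 14⟩⟩
        ⟨⟨0, 1001, 1000⟩, ⟨2000, 2021, 3000⟩, ⟨260, 334, 1000⟩, ⟨305, 481, 1000⟩⟩ &&
      (piece6.hC2m piece6.xPL piece6.zLo).checkQuick ⟨439, ⟨3, 8, 19, 14⟩⟩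
        ⟨⟨0, 1001, 1000⟩, ⟨2000, 2021, 3000⟩, ⟨260, 334, 1000⟩, ⟨305, 481, 1000⟩⟩ &&
      (piece6.hC3p piece6.xPL piece6.zLo).checkQuick ⟨439, ⟨3, 8, 19, 14⟩⟩
        ⟨⟨0, 1001, 1000⟩, ⟨2000, 2021, 3000⟩, ⟨260, 334, 1000⟩, ⟨305, 481, 1000⟩⟩ &&
      (piece6.hC3m piece6.xPL piece6.zLo).checkQuick ⟨439, ⟨3, 8, 19, 14⟩⟩
        ⟨⟨0, 1001, 1000⟩, ⟨2000, 2021, 3000⟩, ⟨260, 334, 1000⟩, ⟨305, 481, 1000⟩⟩) = true := by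
  decide +kernel

theorem p6hC2pLoZLo_pos :
    PosBox ⟨⟨0, 1001, 1000⟩, ⟨2000, 2021, 3000⟩, ⟨260, 334, 1000⟩, ⟨305, 481, 1000⟩⟩
      (piece6.hC2p piece6.xPL piece6.zLo) :=
  posBox_of_check (and_four p6hFourLoZLo).1

theorem p6hC2mLoZLo_pos :
    PosBox ⟨⟨0, 1001, 1000⟩, ⟨2000, 2021, 3000⟩, ⟨260, 334, 1000⟩, ⟨305, 481, 1000⟩⟩
      (piece6.hC2m piece6.xPL piece6.zLo) :=
  posBox_of_check (and_four p6hFourLoZLo).2.1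

theorem p6hC3pLoZLo_pos :
    PosBox ⟨⟨0, 1001, 1000⟩, ⟨2000, 2021, 3000⟩, ⟨260, 334, 1000⟩, ⟨305, 481, 1000⟩⟩
      (piece6.hC3p piece6.xPL piece6.zLo) :=
  posBox_of_check (and_four p6hFourLoZLo).2.2.1

theorem p6hC3mLoZLo_pos :
    PosBox ⟨⟨0, 1001, 1000⟩, ⟨2000, 2021, 3000⟩, ⟨260, 334, 1000⟩, ⟨305, 481, 1000⟩⟩
      (piece6.hC3m piece6.xPL piece6.zLo) :=
  posBox_of_check (and_four p6hFourLoZLo).2.2.2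

def p6hNLoZLo_1 :
    (piece6.hN piece6.xPL piece6.zLo).checkQuick
      ⟨335, ⟨2, 7, 15, 10⟩⟩
      ⟨⟨0, 1001, 1000⟩, ⟨2000, 2021, 3000⟩, ⟨260, 334, 1000⟩, ⟨305, 481, 1000⟩⟩ = true := by
  decide +kernel

theorem p6hNLoZLo_pos :
    PosBox ⟨⟨0, 1001, 1000⟩, ⟨2000, 2021, 3000⟩, ⟨260, 334, 1000⟩, ⟨305, 481, 1000⟩⟩
      (piece6.hN piece6.xPL piece6.zLo) :=
  posBox_of_check p6hNLoZLo_1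

def p6hGLoZHi_1 :
    (piece6.hG piece6.xPL zHi).checkQuick
      ⟨306, ⟨2, 7, 14, 9⟩⟩
      ⟨⟨0, 1001, 1000⟩, ⟨2000, 2021, 3000⟩, ⟨260, 334, 1000⟩, ⟨305, 481, 1000⟩⟩ = true := by
  decide +kernel

theorem p6hGLoZHi_pos :
    PosBox ⟨⟨0, 1001, 1000⟩, ⟨2000, 2021, 3000⟩, ⟨260, 334, 1000⟩, ⟨305, 481, 1000⟩⟩
      (piece6.hG piece6.xPL zHi) :=
  posBox_of_check p6hGLoZHi_1

def p6hFourLoZHi :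
    ((piece6.hC2p piece6.xPL zHi).checkQuick ⟨396, ⟨3, 8, 17, 12⟩⟩
        ⟨⟨0, 1001, 1000⟩, ⟨2000, 2021, 3000⟩, ⟨260, 334, 1000⟩, ⟨305, 481, 1000⟩⟩ &&
      (piece6.hC2m piece6.xPL zHi).checkQuick ⟨396, ⟨3, 8, 17, 12⟩⟩
        ⟨⟨0, 1001, 1000⟩, ⟨2000, 2021, 3000⟩, ⟨260, 334, 1000⟩, ⟨305, 481, 1000⟩⟩ &&
      (piece6.hC3p piece6.xPL zHi).checkQuick ⟨396, ⟨3, 8, 17, 12⟩⟩
        ⟨⟨0, 1001, 1000⟩, ⟨2000, 2021, 3000⟩, ⟨260, 334, 1000⟩, ⟨305, 481, 1000⟩⟩ &&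
      (piece6.hC3m piece6.xPL zHi).checkQuick ⟨396, ⟨3, 8, 17, 12⟩⟩
        ⟨⟨0, 1001, 1000⟩, ⟨2000, 2021, 3000⟩, ⟨260, 334, 1000⟩, ⟨305, 481, 1000⟩⟩) = true := by
  decide +kernel

theorem p6hC2pLoZHi_pos :
    PosBox ⟨⟨0, 1001, 1000⟩, ⟨2000, 2021, 3000⟩, ⟨260, 334, 1000⟩, ⟨305, 481, 1000⟩⟩
      (piece6.hC2p piece6.xPL zHi) :=
  posBox_of_check (and_four p6hFourLoZHi).1

theorem p6hC2mLoZHi_pos :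
    PosBox ⟨⟨0, 1001, 1000⟩, ⟨2000, 2021, 3000⟩, ⟨260, 334, 1000⟩, ⟨305, 481, 1000⟩⟩
      (piece6.hC2m piece6.xPL zHi) :=
  posBox_of_check (and_four p6hFourLoZHi).2.1

theorem p6hC3pLoZHi_pos :
    PosBox ⟨⟨0, 1001, 1000⟩, ⟨2000, 2021, 3000⟩, ⟨260, 334, 1000⟩, ⟨305, 481, 1000⟩⟩
      (piece6.hC3p piece6.xPL zHi) :=
  posBox_of_check (and_four p6hFourLoZHi).2.2.1

theorem p6hC3mLoZHi_pos :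
    PosBox ⟨⟨0, 1001, 1000⟩, ⟨2000, 2021, 3000⟩, ⟨260, 334, 1000⟩, ⟨305, 481, 1000⟩⟩
      (piece6.hC3m piece6.xPL zHi) :=
  posBox_of_check (and_four p6hFourLoZHi).2.2.2

def p6hNLoZHi_1 :
    (piece6.hN piece6.xPL zHi).checkQuick
      ⟨325, ⟨2, 7, 14, 10⟩⟩
      ⟨⟨0, 1001, 1000⟩, ⟨2000, 2021, 3000⟩, ⟨260, 334, 1000⟩, ⟨305, 481, 1000⟩⟩ = true := by
  decide +kernel

theorem p6hNLoZHi_pos :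
    PosBox ⟨⟨0, 1001, 1000⟩, ⟨2000, 2021, 3000⟩, ⟨260, 334, 1000⟩, ⟨305, 481, 1000⟩⟩
      (piece6.hN piece6.xPL zHi) :=
  posBox_of_check p6hNLoZHi_1

def p6hV2p_1 :
    (piece6.hV2p).checkQuick
      ⟨225, ⟨1, 6, 11, 6⟩⟩
      ⟨⟨0, 1001, 1000⟩, ⟨2000, 2021, 3000⟩, ⟨260, 334, 1000⟩, ⟨305, 481, 1000⟩⟩ = true := by
  decide +kernel

theorem p6hV2p_pos :
    PosBox ⟨⟨0, 1001, 1000⟩, ⟨2000, 2021, 3000⟩, ⟨260, 334, 1000⟩, ⟨305, 481, 1000⟩⟩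
      (piece6.hV2p) :=
  posBox_of_check p6hV2p_1

def p6hV2m_1 :
    (piece6.hV2m).checkQuick
      ⟨233, ⟨1, 6, 11, 6⟩⟩
      ⟨⟨0, 1001, 1000⟩, ⟨2000, 2021, 3000⟩, ⟨260, 334, 1000⟩, ⟨305, 481, 1000⟩⟩ = true := by
  decide +kernel

theorem p6hV2m_pos :
    PosBox ⟨⟨0, 1001, 1000⟩, ⟨2000, 2021, 3000⟩, ⟨260, 334, 1000⟩, ⟨305, 481, 1000⟩⟩
      (piece6.hV2m) :=
  posBox_of_check p6hV2m_1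

def p6hV3p_1 :
    (piece6.hV3p).checkQuick
      ⟨217, ⟨1, 6, 10, 6⟩⟩
      ⟨⟨0, 1001, 1000⟩, ⟨2000, 2021, 3000⟩, ⟨260, 334, 1000⟩, ⟨305, 481, 1000⟩⟩ = true := by
  decide +kernel

theorem p6hV3p_pos :
    PosBox ⟨⟨0, 1001, 1000⟩, ⟨2000, 2021, 3000⟩, ⟨260, 334, 1000⟩, ⟨305, 481, 1000⟩⟩
      (piece6.hV3p) :=
  posBox_of_check p6hV3p_1

def p6hV3m_1 :
    (piece6.hV3m).checkQuick
      ⟨221, ⟨1, 6, 10, 6⟩⟩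
      ⟨⟨0, 1001, 1000⟩, ⟨2000, 2021, 3000⟩, ⟨260, 334, 1000⟩, ⟨305, 481, 1000⟩⟩ = true := by
  decide +kernel

theorem p6hV3m_pos :
    PosBox ⟨⟨0, 1001, 1000⟩, ⟨2000, 2021, 3000⟩, ⟨260, 334, 1000⟩, ⟨305, 481, 1000⟩⟩
      (piece6.hV3m) :=
  posBox_of_check p6hV3m_1

def p6hMZeroHi_1 :
    (piece6.hM₀ piece6.xPU).checkQuick
      ⟨217, ⟨2, 5, 9, 6⟩⟩
      ⟨⟨0, 1001, 1000⟩, ⟨2000, 2021, 3000⟩, ⟨260, 334, 1000⟩, ⟨305, 481, 1000⟩⟩ = true := by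
  decide +kernel

theorem p6hMZeroHi_pos :
    PosBox ⟨⟨0, 1001, 1000⟩, ⟨2000, 2021, 3000⟩, ⟨260, 334, 1000⟩, ⟨305, 481, 1000⟩⟩
      (piece6.hM₀ piece6.xPU) :=
  posBox_of_check p6hMZeroHi_1

def p6hC1Hi_1 :
    (piece6.hC1 piece6.xPU).checkQuick
      ⟨247, ⟨3, 5, 9, 8⟩⟩
      ⟨⟨0, 1001, 1000⟩, ⟨2000, 2021, 3000⟩, ⟨260, 334, 1000⟩, ⟨305, 481, 1000⟩⟩ = true := by
  decide +kernel

theorem p6hC1Hi_pos :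
    PosBox ⟨⟨0, 1001, 1000⟩, ⟨2000, 2021, 3000⟩, ⟨260, 334, 1000⟩, ⟨305, 481, 1000⟩⟩
      (piece6.hC1 piece6.xPU) :=
  posBox_of_check p6hC1Hi_1

def p6hGHiZLo_1 :
    (piece6.hG piece6.xPU piece6.zLo).checkQuick
      ⟨352, ⟨2, 7, 16, 11⟩⟩
      ⟨⟨0, 1001, 1000⟩, ⟨2000, 2021, 3000⟩, ⟨260, 334, 1000⟩, ⟨305, 481, 1000⟩⟩ = true := by
  decide +kernel

theorem p6hGHiZLo_pos :
    PosBox ⟨⟨0, 1001, 1000⟩, ⟨2000, 2021, 3000⟩, ⟨260, 334, 1000⟩, ⟨305, 481, 1000⟩⟩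
      (piece6.hG piece6.xPU piece6.zLo) :=
  posBox_of_check p6hGHiZLo_1

def p6hFourHiZLo :
    ((piece6.hC2p piece6.xPU piece6.zLo).checkQuick ⟨442, ⟨3, 8, 19, 14⟩⟩
        ⟨⟨0, 1001, 1000⟩, ⟨2000, 2021, 3000⟩, ⟨260, 334, 1000⟩, ⟨305, 481, 1000⟩⟩ &&
      (piece6.hC2m piece6.xPU piece6.zLo).checkQuick ⟨442, ⟨3, 8, 19, 14⟩⟩
        ⟨⟨0, 1001, 1000⟩, ⟨2000, 2021, 3000⟩, ⟨260, 334, 1000⟩, ⟨305, 481, 1000⟩⟩ &&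
      (piece6.hC3p piece6.xPU piece6.zLo).checkQuick ⟨442, ⟨3, 8, 19, 14⟩⟩
        ⟨⟨0, 1001, 1000⟩, ⟨2000, 2021, 3000⟩, ⟨260, 334, 1000⟩, ⟨305, 481, 1000⟩⟩ &&
      (piece6.hC3m piece6.xPU piece6.zLo).checkQuick ⟨442, ⟨3, 8, 19, 14⟩⟩
        ⟨⟨0, 1001, 1000⟩, ⟨2000, 2021, 3000⟩, ⟨260, 334, 1000⟩, ⟨305, 481, 1000⟩⟩) = true := by
  decide +kernel

theorem p6hC2pHiZLo_pos :
    PosBox ⟨⟨0, 1001, 1000⟩, ⟨2000, 2021, 3000⟩, ⟨260, 334, 1000⟩, ⟨305, 481, 1000⟩⟩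
      (piece6.hC2p piece6.xPU piece6.zLo) :=
  posBox_of_check (and_four p6hFourHiZLo).1

theorem p6hC2mHiZLo_pos :
    PosBox ⟨⟨0, 1001, 1000⟩, ⟨2000, 2021, 3000⟩, ⟨260, 334, 1000⟩, ⟨305, 481, 1000⟩⟩
      (piece6.hC2m piece6.xPU piece6.zLo) :=
  posBox_of_check (and_four p6hFourHiZLo).2.1

theorem p6hC3pHiZLo_pos :
    PosBox ⟨⟨0, 1001, 1000⟩, ⟨2000, 2021, 3000⟩, ⟨260, 334, 1000⟩, ⟨305, 481, 1000⟩⟩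
      (piece6.hC3p piece6.xPU piece6.zLo) :=
  posBox_of_check (and_four p6hFourHiZLo).2.2.1

theorem p6hC3mHiZLo_pos :
    PosBox ⟨⟨0, 1001, 1000⟩, ⟨2000, 2021, 3000⟩, ⟨260, 334, 1000⟩, ⟨305, 481, 1000⟩⟩
      (piece6.hC3m piece6.xPU piece6.zLo) :=
  posBox_of_check (and_four p6hFourHiZLo).2.2.2

def p6hNHiZLo_1 :
    (piece6.hN piece6.xPU piece6.zLo).checkQuick
      ⟨336, ⟨2, 7, 15, 10⟩⟩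
      ⟨⟨0, 1001, 1000⟩, ⟨2000, 2021, 3000⟩, ⟨260, 334, 1000⟩, ⟨305, 481, 1000⟩⟩ = true := by
  decide +kernel

theorem p6hNHiZLo_pos :
    PosBox ⟨⟨0, 1001, 1000⟩, ⟨2000, 2021, 3000⟩, ⟨260, 334, 1000⟩, ⟨305, 481, 1000⟩⟩
      (piece6.hN piece6.xPU piece6.zLo) :=
  posBox_of_check p6hNHiZLo_1

def p6hGHiZHi_1 :
    (piece6.hG piece6.xPU zHi).checkQuick
      ⟨310, ⟨2, 7, 14, 9⟩⟩
      ⟨⟨0, 1001, 1000⟩, ⟨2000, 2021, 3000⟩, ⟨260, 334, 1000⟩, ⟨305, 481, 1000⟩⟩ = true := by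
  decide +kernel

theorem p6hGHiZHi_pos :
    PosBox ⟨⟨0, 1001, 1000⟩, ⟨2000, 2021, 3000⟩, ⟨260, 334, 1000⟩, ⟨305, 481, 1000⟩⟩
      (piece6.hG piece6.xPU zHi) :=
  posBox_of_check p6hGHiZHi_1

def p6hFourHiZHi :
    ((piece6.hC2p piece6.xPU zHi).checkQuick ⟨400, ⟨3, 8, 17, 12⟩⟩
        ⟨⟨0, 1001, 1000⟩, ⟨2000, 2021, 3000⟩, ⟨260, 334, 1000⟩, ⟨305, 481, 1000⟩⟩ &&
      (piece6.hC2m piece6.xPU zHi).checkQuick ⟨400, ⟨3, 8, 17, 12⟩⟩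
        ⟨⟨0, 1001, 1000⟩, ⟨2000, 2021, 3000⟩, ⟨260, 334, 1000⟩, ⟨305, 481, 1000⟩⟩ &&
      (piece6.hC3p piece6.xPU zHi).checkQuick ⟨400, ⟨3, 8, 17, 12⟩⟩
        ⟨⟨0, 1001, 1000⟩, ⟨2000, 2021, 3000⟩, ⟨260, 334, 1000⟩, ⟨305, 481, 1000⟩⟩ &&
      (piece6.hC3m piece6.xPU zHi).checkQuick ⟨400, ⟨3, 8, 17, 12⟩⟩
        ⟨⟨0, 1001, 1000⟩, ⟨2000, 2021, 3000⟩, ⟨260, 334, 1000⟩, ⟨305, 481, 1000⟩⟩) = true := by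
  decide +kernel

theorem p6hC2pHiZHi_pos :
    PosBox ⟨⟨0, 1001, 1000⟩, ⟨2000, 2021, 3000⟩, ⟨260, 334, 1000⟩, ⟨305, 481, 1000⟩⟩
      (piece6.hC2p piece6.xPU zHi) :=
  posBox_of_check (and_four p6hFourHiZHi).1

theorem p6hC2mHiZHi_pos :
    PosBox ⟨⟨0, 1001, 1000⟩, ⟨2000, 2021, 3000⟩, ⟨260, 334, 1000⟩, ⟨305, 481, 1000⟩⟩
      (piece6.hC2m piece6.xPU zHi) :=
  posBox_of_check (and_four p6hFourHiZHi).2.1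

theorem p6hC3pHiZHi_pos :
    PosBox ⟨⟨0, 1001, 1000⟩, ⟨2000, 2021, 3000⟩, ⟨260, 334, 1000⟩, ⟨305, 481, 1000⟩⟩
      (piece6.hC3p piece6.xPU zHi) :=
  posBox_of_check (and_four p6hFourHiZHi).2.2.1

theorem p6hC3mHiZHi_pos :
    PosBox ⟨⟨0, 1001, 1000⟩, ⟨2000, 2021, 3000⟩, ⟨260, 334, 1000⟩, ⟨305, 481, 1000⟩⟩
      (piece6.hC3m piece6.xPU zHi) :=
  posBox_of_check (and_four p6hFourHiZHi).2.2.2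

def p6hNHiZHi_1 :
    (piece6.hN piece6.xPU zHi).checkQuick
      ⟨325, ⟨2, 7, 14, 10⟩⟩
      ⟨⟨0, 1001, 1000⟩, ⟨2000, 2021, 3000⟩, ⟨260, 334, 1000⟩, ⟨305, 481, 1000⟩⟩ = true := by
  decide +kernel

theorem p6hNHiZHi_pos :
    PosBox ⟨⟨0, 1001, 1000⟩, ⟨2000, 2021, 3000⟩, ⟨260, 334, 1000⟩, ⟨305, 481, 1000⟩⟩
      (piece6.hN piece6.xPU zHi) :=
  posBox_of_check p6hNHiZHi_1

end Vale.Agent.P100.Calib.Closed.Six.Low
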