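import Vale.Agent.P100.Calib.SlabSixSignExpr

/-!
# Coefficients of the closed signs of dimension six at `g = 1`, and the ray gap

`p, e, k, w` stand for `g W, g E, g K, g W1`; `z` is the part of the numbers `G`, `G1` that varies
along the orbit. The coefficients are in Horner form in `a`, `d`, `v`.
-/

set_option linter.unusedVariables false
set_option linter.unusedSimpArgs false

namespace Vale.Agent.P100.Calib.Closed.Six.Low

open BoxPos

local instance sixSignCoefAdd : Add Ex := ⟨Ex.add⟩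
local instance sixSignCoefMul : Mul Ex := ⟨Ex.mul⟩


/-- The coefficient of `p^2` in `eTGG`. -/
def eTGG2 (a d v : Ex) : Ex :=
  (((((cC (-9) 400 * v * v * v * d + cC (-9) 400 * v * v) * d * d * a + ((cC (-63) 800 * v * v *
    v * d + (cC (-9) 800 * v + cC (-63) 800) * v * v) * d + cC (-9) 800 * v * v) * d * d) * a +
    (((((cC (-81) 800 * v * v * v * d + (cC (-27) 800 * v + cC (-81) 800) * v * v) * d + cC
    (-27) 800 * v * v) * d + cC (-27) 8000 * v * v) * d + cC (-27) 4000 * v) * d + cC (-27)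
    8000)) * a + ((((((cC (-9) 160 * v * v * v * d + (cC (-27) 800 * v + cC (-9) 160) * v * v) *
    d + cC (-27) 800 * v * v) * d + cC (-27) 3200 * v * v) * d + (cC (-27) 16000 * v + cC (-27)
    1600) * v) * d + (cC (-27) 8000 * v + cC (-27) 3200)) * d + cC (-27) 16000)) * a + ((((((cC
    (-9) 800 * v * v * v * d + (cC (-9) 800 * v + cC (-9) 800) * v * v) * d + cC (-9) 800 * v *
    v) * d + cC (-27) 4000 * v * v) * d + (cC (-27) 8000 * v + cC (-27) 2000) * v) * d + (cC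
    (-27) 4000 * v + cC (-27) 4000)) * d + cC (-27) 8000) * d) * a + (((cC (-27) 16000 * v * v *
    d + (cC (-27) 16000 * v + cC (-27) 8000) * v) * d + (cC (-27) 8000 * v + cC (-27) 16000)) *
    d + cC (-27) 16000) * d * d

theorem val_eTGG2 (a d v : Ex) (o S t u e k w z : ℝ) :
    2 * (eTGG2 a d v).val o S t u =
      ClosedGen.TGGS (a.val o S t u) (d.val o S t u) (v.val o S t u) 1 1 w 0 (numZ e k z) +
        ClosedGen.TGGS (a.val o S t u) (d.val o S t u) (v.val o S t u) 1 (-1) w 0 (numZ e k z) -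
        2 * ClosedGen.TGGS (a.val o S t u) (d.val o S t u) (v.val o S t u) 1 0 w 0 (numZ e k z) := by
  simp only [eTGG2, ex_add, ex_mul, Ex.val, numZ,
    ClosedGen.TGGS, ClosedGen.LGGS, Closed.j1, ClosedGen.gGS, ClosedGen.hGS, Closed.LGGc,
      Closed.LGGv, ClosedGen.GG_g, ClosedGen.GG_g0, ClosedGen.GG_kg, ClosedGen.gG_1,
      ClosedGen.gG_c, ClosedGen.gG_v, ClosedGen.hG_c, ClosedGen.hG_g, ClosedGen.hG_kc]
  push_cast
  ring

/-- The coefficient of `p^2` in `eTEG`. -/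
def eTEG2 (a d v : Ex) : Ex :=
  ((((((cC (9) 200 * v * v * v * d + cC (-9) 100 * v * v) * d + cC (-9) 100 * v) * a + (((cC
    (63) 400 * v * v * v * d + (cC (9) 400 * v + cC (-63) 200) * v * v) * d + (cC (-63) 2000 * v
    + cC (-63) 200) * v) * d + cC (-63) 2000 * v)) * a + ((((cC (81) 400 * v * v * v * d + (cC
    (27) 400 * v + cC (-81) 200) * v * v) * d + (cC (-189) 2000 * v + cC (-81) 200) * v) * d +
    (cC (27) 2000 * v + cC (-189) 2000) * v) * d + cC (27) 2000 * v)) * a + (((((cC (9) 80 * v *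
    v * v * d + (cC (27) 400 * v + cC (-9) 40) * v * v) * d + (cC (-729) 8000 * v + cC (-9) 40)
    * v) * d + (cC (27) 800 * v + cC (-729) 8000) * v) * d + (cC (27) 8000 * v + cC (27) 800) *
    v) * d + cC (27) 8000 * v)) * a + (((((cC (9) 400 * v * v * v * d + (cC (9) 400 * v + cC
    (-9) 200) * v * v) * d + (cC (-99) 4000 * v + cC (-9) 200) * v) * d + (cC (27) 1000 * v + cC
    (-99) 4000) * v) * d + (cC (27) 4000 * v + cC (27) 1000) * v) * d + cC (27) 4000 * v) * d) *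
    a + (((cC (27) 8000 * v * v * d + (cC (27) 4000 * v + cC (27) 8000) * v) * d + (cC (27) 8000
    * v + cC (27) 4000) * v) * d + cC (27) 8000 * v) * d * d

theorem val_eTEG2 (a d v : Ex) (o S t u e k w z : ℝ) :
    2 * (eTEG2 a d v).val o S t u =
      ClosedGen.TEGS (a.val o S t u) (d.val o S t u) (v.val o S t u) 1 1 w 0 (numZ e k z) +
        ClosedGen.TEGS (a.val o S t u) (d.val o S t u) (v.val o S t u) 1 (-1) w 0 (numZ e k z) -
        2 * ClosedGen.TEGS (a.val o S t u) (d.val o S t u) (v.val o S t u) 1 0 w 0 (numZ e k z) := by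
  simp only [eTEG2, ex_add, ex_mul, Ex.val, numZ,
    ClosedGen.TEGS, ClosedGen.LEGS, Closed.j1, ClosedGen.gES, ClosedGen.gGS, ClosedGen.hES,
      ClosedGen.hGS, Closed.LEG1, Closed.LEG1_000000_0, Closed.LEGc, Closed.LEGv, Closed.LEGw,
      ClosedGen.EG_g, ClosedGen.EG_g0, ClosedGen.EG_k1, ClosedGen.EG_kv, ClosedGen.gE_1,
      ClosedGen.gE_c, ClosedGen.gE_w, ClosedGen.gE_k1, ClosedGen.gG_1, ClosedGen.gG_c,
      ClosedGen.gG_v, ClosedGen.hE_c, ClosedGen.hE_v, ClosedGen.hG_c, ClosedGen.hG_g,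
      ClosedGen.hG_kc]
  push_cast
  ring

/-- The coefficient of `p^2` in `eTA`. -/
def eTA2 (a d v : Ex) : Ex :=
  ((((((((cC (-9) 400 * v * v * v * v * d + cC (153) 2000 * v * v * v) * d + cC (-27) 2000 * v *
    v) * d + cC (-9) 50 * v) * d + cC (-9) 100) * a + (((((cC (-63) 800 * v * v * v * v * d +
    (cC (-9) 800 * v + cC (1071) 4000) * v * v * v) * d + (cC (99) 4000 * v + cC (-189) 4000) *
    v * v) * d + (cC (-81) 4000 * v + cC (-63) 100) * v) * d + (cC (-9) 100 * v + cC (-63) 200))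
    * d + cC (-9) 200)) * a + (((((cC (-81) 800 * v * v * v * v * d + (cC (-27) 800 * v + cC
    (2727) 8000) * v * v * v) * d + (cC (297) 4000 * v + cC (-513) 8000) * v * v) * d + ((cC
    (-81) 8000 * v + cC (-243) 4000) * v + cC (-81) 100) * v) * d + ((cC (-81) 8000 * v + cC
    (-27) 100) * v + cC (-81) 200)) * d + cC (-27) 200) * d) * a + (((((cC (-9) 160 * v * v * v
    * v * d + (cC (-27) 800 * v + cC (117) 640) * v * v * v) * d + (cC (1107) 16000 * v + cC
    (-27) 640) * v * v) * d + ((cC (-81) 3200 * v + cC (-1053) 16000) * v + cC (-9) 20) * v) * d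
    + (((cC (-27) 16000 * v + cC (-81) 3200) * v + cC (-27) 100) * v + cC (-9) 40)) * d + (cC
    (-27) 16000 * v * v + cC (-27) 200)) * d * d) * a + (((((cC (-9) 800 * v * v * v * v * d +
    (cC (-9) 800 * v + cC (63) 2000) * v * v * v) * d + (cC (117) 8000 * v + cC (-27) 2000) * v
    * v) * d + ((cC (-81) 4000 * v + cC (-243) 8000) * v + cC (-9) 100) * v) * d + (((cC (-27)
    8000 * v + cC (-81) 4000) * v + cC (-9) 100) * v + cC (-9) 200)) * d + (cC (-27) 8000 * v *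
    v + cC (-9) 200)) * d * d * d) * a + ((((cC (-27) 16000 * v * v * v * d + (cC (-81) 16000 *
    v + cC (-27) 16000) * v * v) * d + (cC (-81) 16000 * v + cC (-81) 16000) * v * v) * d + (cC
    (-27) 16000 * v + cC (-81) 16000) * v * v) * d + cC (-27) 16000 * v * v) * d * d * d * d

theorem val_eTA2 (a d v : Ex) (o S t u e k w z : ℝ) :
    2 * (eTA2 a d v).val o S t u =
      ClosedGen.TAS (a.val o S t u) (d.val o S t u) (v.val o S t u) 1 1 w 0 (numZ e k z) +
        ClosedGen.TAS (a.val o S t u) (d.val o S t u) (v.val o S t u) 1 (-1) w 0 (numZ e k z) -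
        2 * ClosedGen.TAS (a.val o S t u) (d.val o S t u) (v.val o S t u) 1 0 w 0 (numZ e k z) := by
  simp only [eTA2, ex_add, ex_mul, Ex.val, numZ,
    ClosedGen.TAS, ClosedGen.TEES, ClosedGen.TMGS, ClosedGen.LEES, Closed.j1, ClosedGen.gES,
      ClosedGen.hES, ClosedGen.gMS, ClosedGen.gGS, ClosedGen.hMS, ClosedGen.hGS, ClosedGen.LMGS,
      Closed.LEE1, Closed.LEEc, Closed.LEEc_000000_0, Closed.LEEc_000000_1,
      Closed.LEEc_110000_0, Closed.LEEc_110000_1, Closed.LEEv, Closed.LEEw, ClosedGen.EE_g,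
      ClosedGen.EE_k1, ClosedGen.EE_kc, ClosedGen.gE_1, ClosedGen.gE_c, ClosedGen.gE_w,
      ClosedGen.gE_k1, ClosedGen.hE_c, ClosedGen.hE_v, ClosedGen.gM_1, ClosedGen.gG_1,
      ClosedGen.gG_c, ClosedGen.gG_v, ClosedGen.hM_c, ClosedGen.hG_c, ClosedGen.hG_g,
      ClosedGen.hG_kc, Closed.LMG1, Closed.LMG1_000000_0, Closed.LMG1_000000_1, Closed.LMGc,
      Closed.LMGc_000000_0, Closed.LMGc_000000_1, Closed.LMGv, Closed.LMGw, ClosedGen.MG_g,
      ClosedGen.MG_k1, ClosedGen.MG_kc, ClosedGen.MG_kw]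
  push_cast
  ring

/-- The coefficient of `p^2` in `eTMG`. -/
def eTMG2 (a d v : Ex) : Ex :=
  (((((((cC (-9) 800 * v * v * v * v * d + cC (153) 4000 * v * v * v) * d + cC (-27) 4000 * v *
    v) * d + cC (-9) 100 * v) * d + cC (-9) 200) * a + ((((cC (-27) 800 * v * v * v * v * d + cC
    (459) 4000 * v * v * v) * d + (cC (-27) 4000 * v + cC (-81) 4000) * v * v) * d + (cC (-27)
    4000 * v + cC (-27) 100) * v) * d + cC (-27) 200) * d) * a + ((((cC (-27) 800 * v * v * v *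
    v * d + cC (1809) 16000 * v * v * v) * d + (cC (-27) 1600 * v + cC (-351) 16000) * v * v) *
    d + ((cC (-27) 16000 * v + cC (-27) 1600) * v + cC (-27) 100) * v) * d + (cC (-27) 16000 * v
    * v + cC (-27) 200)) * d * d) * a + ((((cC (-9) 800 * v * v * v * v * d + cC (279) 8000 * v
    * v * v) * d + (cC (-27) 2000 * v + cC (-81) 8000) * v * v) * d + ((cC (-27) 8000 * v + cC
    (-27) 2000) * v + cC (-9) 100) * v) * d + (cC (-27) 8000 * v * v + cC (-9) 200)) * d * d *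
    d) * a + (((cC (-27) 16000 * v * v * v * d + (cC (-27) 8000 * v + cC (-27) 16000) * v * v) *
    d + (cC (-27) 16000 * v + cC (-27) 8000) * v * v) * d + cC (-27) 16000 * v * v) * d * d * d
    * d

theorem val_eTMG2 (a d v : Ex) (o S t u e k w z : ℝ) :
    2 * (eTMG2 a d v).val o S t u =
      ClosedGen.TMGS (a.val o S t u) (d.val o S t u) (v.val o S t u) 1 1 w 0 (numZ e k z) +
        ClosedGen.TMGS (a.val o S t u) (d.val o S t u) (v.val o S t u) 1 (-1) w 0 (numZ e k z) -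
        2 * ClosedGen.TMGS (a.val o S t u) (d.val o S t u) (v.val o S t u) 1 0 w 0 (numZ e k z) := by
  simp only [eTMG2, ex_add, ex_mul, Ex.val, numZ,
    ClosedGen.TMGS, ClosedGen.LMGS, Closed.j1, ClosedGen.gMS, ClosedGen.gGS, ClosedGen.hMS,
      ClosedGen.hGS, ClosedGen.gES, ClosedGen.hES, Closed.LMG1, Closed.LMG1_000000_0,
      Closed.LMG1_000000_1, Closed.LMGc, Closed.LMGc_000000_0, Closed.LMGc_000000_1,
      Closed.LMGv, Closed.LMGw, ClosedGen.MG_g, ClosedGen.MG_k1, ClosedGen.MG_kc,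
      ClosedGen.MG_kw, ClosedGen.gM_1, ClosedGen.gG_1, ClosedGen.gG_c, ClosedGen.gG_v,
      ClosedGen.hM_c, ClosedGen.hG_c, ClosedGen.hG_g, ClosedGen.hG_kc, ClosedGen.gE_1,
      ClosedGen.gE_c, ClosedGen.gE_w, ClosedGen.gE_k1, ClosedGen.hE_c, ClosedGen.hE_v]
  push_cast
  ring

/-- The coefficient of `k` in `eTA`. -/
def eTAk (a d v : Ex) : Ex :=
  ((((cC (48) 5 * v * v * v * v * d + cC (144) 5 * v * v * v) * d + cC (96) 5 * v * v) * a +
    (((cC (72) 5 * v * v * v * v * d + (cC (-24) 5 * v + cC (216) 5) * v * v * v) * d + (cC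
    (-72) 5 * v + cC (144) 5) * v * v) * d + cC (-48) 5 * v * v)) * a + (((cC (24) 5 * v * v * v
    * v * d + (cC (-24) 5 * v + cC (72) 5) * v * v * v) * d + (cC (-72) 5 * v + cC (48) 5) * v *
    v) * d + cC (-48) 5 * v * v) * d) * a * a

theorem val_eTAk (a d v : Ex) (o S t u p e w z : ℝ) :
    (eTAk a d v).val o S t u =
      ClosedGen.TAS (a.val o S t u) (d.val o S t u) (v.val o S t u) 1 p w 0 (numZ e 1 z) -
        ClosedGen.TAS (a.val o S t u) (d.val o S t u) (v.val o S t u) 1 p w 0 (numZ e 0 z) := by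
  simp only [eTAk, ex_add, ex_mul, Ex.val, numZ,
    ClosedGen.TAS, ClosedGen.TEES, ClosedGen.TMGS, ClosedGen.LEES, Closed.j1, ClosedGen.gES,
      ClosedGen.hES, ClosedGen.gMS, ClosedGen.gGS, ClosedGen.hMS, ClosedGen.hGS, ClosedGen.LMGS,
      Closed.LEE1, Closed.LEEc, Closed.LEEc_000000_0, Closed.LEEc_000000_1,
      Closed.LEEc_110000_0, Closed.LEEc_110000_1, Closed.LEEv, Closed.LEEw, ClosedGen.EE_g,
      ClosedGen.EE_k1, ClosedGen.EE_kc, ClosedGen.gE_1, ClosedGen.gE_c, ClosedGen.gE_w,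
      ClosedGen.gE_k1, ClosedGen.hE_c, ClosedGen.hE_v, ClosedGen.gM_1, ClosedGen.gG_1,
      ClosedGen.gG_c, ClosedGen.gG_v, ClosedGen.hM_c, ClosedGen.hG_c, ClosedGen.hG_g,
      ClosedGen.hG_kc, Closed.LMG1, Closed.LMG1_000000_0, Closed.LMG1_000000_1, Closed.LMGc,
      Closed.LMGc_000000_0, Closed.LMGc_000000_1, Closed.LMGv, Closed.LMGw, ClosedGen.MG_g,
      ClosedGen.MG_k1, ClosedGen.MG_kc, ClosedGen.MG_kw]
  push_cast
  ring

/-- The coefficient of `w` in `eTA`. -/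
def eTAw (a d v : Ex) : Ex :=
  ((((((cC (-18) 25 * v * v * v * d + cC (-54) 25 * v * v) * d + cC (-36) 25 * v) * a + (((cC
    (-63) 25 * v * v * v * d + (cC (-9) 25 * v + cC (-189) 25) * v * v) * d + (cC (-27) 25 * v +
    cC (-126) 25) * v) * d + cC (-18) 25 * v)) * a + (((cC (-81) 25 * v * v * v * d + (cC (-27)
    25 * v + cC (-243) 25) * v * v) * d + (cC (-81) 25 * v + cC (-162) 25) * v) * d + cC (-54)
    25 * v) * d) * a + (((cC (-9) 5 * v * v * v * d + (cC (-27) 25 * v + cC (-27) 5) * v * v) *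
    d + (cC (-81) 25 * v + cC (-18) 5) * v) * d + cC (-54) 25 * v) * d * d) * a + (((cC (-9) 25
    * v * v * v * d + (cC (-9) 25 * v + cC (-27) 25) * v * v) * d + (cC (-27) 25 * v + cC (-18)
    25) * v) * d + cC (-18) 25 * v) * d * d * d) * a

theorem val_eTAw (a d v : Ex) (o S t u p e k z : ℝ) :
    (eTAw a d v).val o S t u =
      ClosedGen.TAS (a.val o S t u) (d.val o S t u) (v.val o S t u) 1 p 1 0 (numZ e k z) -
        ClosedGen.TAS (a.val o S t u) (d.val o S t u) (v.val o S t u) 1 p 0 0 (numZ e k z) := by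
  simp only [eTAw, ex_add, ex_mul, Ex.val, numZ,
    ClosedGen.TAS, ClosedGen.TEES, ClosedGen.TMGS, ClosedGen.LEES, Closed.j1, ClosedGen.gES,
      ClosedGen.hES, ClosedGen.gMS, ClosedGen.gGS, ClosedGen.hMS, ClosedGen.hGS, ClosedGen.LMGS,
      Closed.LEE1, Closed.LEEc, Closed.LEEc_000000_0, Closed.LEEc_000000_1,
      Closed.LEEc_110000_0, Closed.LEEc_110000_1, Closed.LEEv, Closed.LEEw, ClosedGen.EE_g,
      ClosedGen.EE_k1, ClosedGen.EE_kc, ClosedGen.gE_1, ClosedGen.gE_c, ClosedGen.gE_w,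
      ClosedGen.gE_k1, ClosedGen.hE_c, ClosedGen.hE_v, ClosedGen.gM_1, ClosedGen.gG_1,
      ClosedGen.gG_c, ClosedGen.gG_v, ClosedGen.hM_c, ClosedGen.hG_c, ClosedGen.hG_g,
      ClosedGen.hG_kc, Closed.LMG1, Closed.LMG1_000000_0, Closed.LMG1_000000_1, Closed.LMGc,
      Closed.LMGc_000000_0, Closed.LMGc_000000_1, Closed.LMGv, Closed.LMGw, ClosedGen.MG_g,
      ClosedGen.MG_k1, ClosedGen.MG_kc, ClosedGen.MG_kw]
  push_cast
  ring

/-- The coefficient of `k` in `eTMG`. -/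
def eTMGk (a d v : Ex) : Ex :=
  ((((cC (48) 5 * v * v * v * v * d + cC (144) 5 * v * v * v) * d + cC (96) 5 * v * v) * a +
    (((cC (72) 5 * v * v * v * v * d + (cC (-24) 5 * v + cC (216) 5) * v * v * v) * d + (cC
    (-72) 5 * v + cC (144) 5) * v * v) * d + cC (-48) 5 * v * v)) * a + (((cC (24) 5 * v * v * v
    * v * d + (cC (-24) 5 * v + cC (72) 5) * v * v * v) * d + (cC (-72) 5 * v + cC (48) 5) * v *
    v) * d + cC (-48) 5 * v * v) * d) * a * a

theorem val_eTMGk (a d v : Ex) (o S t u p e w z : ℝ) :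
    (eTMGk a d v).val o S t u =
      ClosedGen.TMGS (a.val o S t u) (d.val o S t u) (v.val o S t u) 1 p w 0 (numZ e 1 z) -
        ClosedGen.TMGS (a.val o S t u) (d.val o S t u) (v.val o S t u) 1 p w 0 (numZ e 0 z) := by
  simp only [eTMGk, ex_add, ex_mul, Ex.val, numZ,
    ClosedGen.TMGS, ClosedGen.LMGS, Closed.j1, ClosedGen.gMS, ClosedGen.gGS, ClosedGen.hMS,
      ClosedGen.hGS, ClosedGen.gES, ClosedGen.hES, Closed.LMG1, Closed.LMG1_000000_0,
      Closed.LMG1_000000_1, Closed.LMGc, Closed.LMGc_000000_0, Closed.LMGc_000000_1,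
      Closed.LMGv, Closed.LMGw, ClosedGen.MG_g, ClosedGen.MG_k1, ClosedGen.MG_kc,
      ClosedGen.MG_kw, ClosedGen.gM_1, ClosedGen.gG_1, ClosedGen.gG_c, ClosedGen.gG_v,
      ClosedGen.hM_c, ClosedGen.hG_c, ClosedGen.hG_g, ClosedGen.hG_kc, ClosedGen.gE_1,
      ClosedGen.gE_c, ClosedGen.gE_w, ClosedGen.gE_k1, ClosedGen.hE_c, ClosedGen.hE_v]
  push_cast
  ring

/-- The coefficient of `w` in `eTMG`. -/
def eTMGw (a d v : Ex) : Ex :=
  ((((((cC (-18) 25 * v * v * v * d + cC (-54) 25 * v * v) * d + cC (-36) 25 * v) * a + (((cC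
    (-63) 25 * v * v * v * d + (cC (9) 25 * v + cC (-189) 25) * v * v) * d + (cC (27) 25 * v +
    cC (-126) 25) * v) * d + cC (18) 25 * v)) * a + (((cC (-81) 25 * v * v * v * d + (cC (27) 25
    * v + cC (-243) 25) * v * v) * d + (cC (81) 25 * v + cC (-162) 25) * v) * d + cC (54) 25 *
    v) * d) * a + (((cC (-9) 5 * v * v * v * d + (cC (27) 25 * v + cC (-27) 5) * v * v) * d +
    (cC (81) 25 * v + cC (-18) 5) * v) * d + cC (54) 25 * v) * d * d) * a + (((cC (-9) 25 * v *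
    v * v * d + (cC (9) 25 * v + cC (-27) 25) * v * v) * d + (cC (27) 25 * v + cC (-18) 25) * v)
    * d + cC (18) 25 * v) * d * d * d) * a

theorem val_eTMGw (a d v : Ex) (o S t u p e k z : ℝ) :
    (eTMGw a d v).val o S t u =
      ClosedGen.TMGS (a.val o S t u) (d.val o S t u) (v.val o S t u) 1 p 1 0 (numZ e k z) -
        ClosedGen.TMGS (a.val o S t u) (d.val o S t u) (v.val o S t u) 1 p 0 0 (numZ e k z) := by
  simp only [eTMGw, ex_add, ex_mul, Ex.val, numZ,
    ClosedGen.TMGS, ClosedGen.LMGS, Closed.j1, ClosedGen.gMS, ClosedGen.gGS, ClosedGen.hMS,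
      ClosedGen.hGS, ClosedGen.gES, ClosedGen.hES, Closed.LMG1, Closed.LMG1_000000_0,
      Closed.LMG1_000000_1, Closed.LMGc, Closed.LMGc_000000_0, Closed.LMGc_000000_1,
      Closed.LMGv, Closed.LMGw, ClosedGen.MG_g, ClosedGen.MG_k1, ClosedGen.MG_kc,
      ClosedGen.MG_kw, ClosedGen.gM_1, ClosedGen.gG_1, ClosedGen.gG_c, ClosedGen.gG_v,
      ClosedGen.hM_c, ClosedGen.hG_c, ClosedGen.hG_g, ClosedGen.hG_kc, ClosedGen.gE_1,
      ClosedGen.gE_c, ClosedGen.gE_w, ClosedGen.gE_k1, ClosedGen.hE_c, ClosedGen.hE_v]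
  push_cast
  ring

/-- The coefficient of `k` in `eTME`. -/
def eTMEk (a d v : Ex) : Ex :=
  ((cC (-4) 1 * v * v * v * d + cC (-8) 1 * v * v) * a + ((cC (-2) 1 * v * v * v * d + (cC 2 * v
    + cC (-4) 1) * v * v) * d + cC 4 * v * v)) * a

theorem val_eTMEk (a d v : Ex) (o S t u p e w z : ℝ) :
    (eTMEk a d v).val o S t u =
      ClosedGen.TMES (a.val o S t u) (d.val o S t u) (v.val o S t u) 1 p w 0 (numZ e 1 z) -
        ClosedGen.TMES (a.val o S t u) (d.val o S t u) (v.val o S t u) 1 p w 0 (numZ e 0 z) := by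
  simp only [eTMEk, ex_add, ex_mul, Ex.val, numZ,
    ClosedGen.TMES, ClosedGen.TME_c, ClosedGen.TME_v, ClosedGen.TME_w]
  push_cast
  ring

/-- The coefficient of `w` in `eTME`. -/
def eTMEw (a d v : Ex) : Ex :=
  (((cC (3) 10 * v * v * d + cC (3) 5 * v) * a + ((cC (3) 4 * v * v * d + (cC (3) 20 * v + cC
    (3) 2) * v) * d + cC (3) 10 * v)) * a + ((cC (3) 5 * v * v * d + (cC (3) 10 * v + cC (6) 5)
    * v) * d + cC (3) 5 * v) * d) * a + ((cC (3) 20 * v * v * d + (cC (3) 20 * v + cC (3) 10) *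
    v) * d + cC (3) 10 * v) * d * d

theorem val_eTMEw (a d v : Ex) (o S t u p e k z : ℝ) :
    (eTMEw a d v).val o S t u =
      ClosedGen.TMES (a.val o S t u) (d.val o S t u) (v.val o S t u) 1 p 1 0 (numZ e k z) -
        ClosedGen.TMES (a.val o S t u) (d.val o S t u) (v.val o S t u) 1 p 0 0 (numZ e k z) := by
  simp only [eTMEw, ex_add, ex_mul, Ex.val, numZ,
    ClosedGen.TMES, ClosedGen.TME_c, ClosedGen.TME_v, ClosedGen.TME_w]
  push_cast
  ring

/-- `LLGS` with `q` for `W R` and `G` at its least. -/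
def eLLG (a d v q r e k : Ex) : Ex :=
  ((((((cC (-23) 100 * v * v * v * v * d + cC (-129) 50 * v * v * v) * d + cC (-159) 25 * v * v)
    * d + cC (-106) 25 * v) * a + ((((cC (-23) 40 * v * v * v * v * d + (cC (23) 200 * v + cC
    (-129) 20) * v * v * v) * d + (cC (69) 100 * v + cC (-159) 10) * v * v) * d + (cC (69) 50 *
    v + cC (-53) 5) * v) * d + cC (23) 25 * v)) * a + (((((cC (-23) 50 * v * v * v * v * d + (cC
    (23) 100 * v + cC (-273) 50) * v * v * v) * d + (cC (69) 50 * v + cC (-681) 50) * v * v) * d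
    + ((cC (9) 10 * v + cC (69) 25) * v + cC (-227) 25) * v) * d + (cC (27) 10 * v + cC (46) 25)
    * v) * d + cC (9) 5 * v)) * a + ((((((cC (-23) 200 * v * v * v * v * d + (cC (23) 200 * v +
    cC (-87) 50) * v * v * v) * d + (cC (69) 100 * v + cC (-453) 100) * v * v) * d + ((cC (27)
    20 * v + cC (69) 50) * v + cC (-151) 50) * v) * d + ((cC (3) 10 * v + cC (81) 20) * v + cC
    (23) 25) * v) * d + (cC (9) 10 * v + cC (27) 10) * v) * d + cC (3) 5 * v)) * a + (((((cC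
    (-3) 20 * v * v * v * d + cC (-9) 20 * v * v) * d + (cC (9) 20 * v * v + cC (-3) 10) * v) *
    d + (cC (3) 10 * v + cC (27) 20) * v * v) * d + (cC (9) 10 * v + cC (9) 10) * v) * d + cC
    (3) 5 * v) * d + ((((cC 8 * v * v * d + cC 24 * v) * d + cC 16) * a + (((cC 12 * v * v * d +
    (cC (-4) 1 * v + cC 36) * v) * d + (cC (-12) 1 * v + cC 24)) * d + cC (-8) 1)) * a + (((cC 4
    * v * v * d + (cC (-4) 1 * v + cC 12) * v) * d + (cC (-12) 1 * v + cC 8)) * d + cC (-8) 1) *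
    d) * a * e + (((cC (-8) 1 * v * v * v * d + cC (-24) 1 * v * v) * d + cC (-16) 1 * v) * a +
    (((cC (-4) 1 * v * v * v * d + (cC 4 * v + cC (-12) 1) * v * v) * d + (cC 12 * v + cC (-8)
    1) * v) * d + cC 8 * v)) * a * r * k + (((((((cC 14 * v * v * v * d + cC 70 * v * v) * d +
    cC 112 * v) * d + (cC 16 * v * v + cC 56)) * d + cC 32 * v) * d + cC 16) * a + ((((((cC 14 *
    v * v * v * d + (cC (-14) 1 * v + cC 70) * v * v) * d + ((cC (-2) 1 * v + cC (-70) 1) * v +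
    cC 112) * v) * d + (((cC 2 * v + cC 10) * v + cC (-112) 1) * v + cC 56)) * d + ((cC (-6) 1 *
    v + cC 28) * v + cC (-56) 1)) * d + (cC (-24) 1 * v + cC 16)) * d + cC (-16) 1)) * a +
    (((((((cC (7) 2 * v * v * v * d + (cC (-7) 1 * v + cC (35) 2) * v * v) * d + ((cC (5) 2 * v
    + cC (-35) 1) * v + cC 28) * v) * d + (((cC 2 * v + cC (37) 2) * v + cC (-56) 1) * v + cC
    14)) * d + ((cC (-1) 1 * v * v + cC 34) * v + cC (-28) 1)) * d + ((cC (-1) 1 * v + cC (-10)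
    1) * v + cC 18)) * d + (cC 4 * v + cC (-8) 1)) * d + cC 4)) * a * r * e + ((((((cC (83) 100
    * v * v * v * d + cC (68) 25 * v * v) * d + cC (53) 25 * v) * d * a + (((cC (19) 8 * v * v *
    v * d + (cC (-23) 200 * v + cC (77) 10) * v * v) * d + (cC (-23) 50 * v + cC (59) 10) * v) *
    d + cC (-23) 50 * v) * d) * a + ((((cC (433) 100 * v * v * v * d + (cC (-53) 100 * v + cC
    (269) 20) * v * v) * d + ((cC (-9) 20 * v + cC (-91) 50) * v + cC (479) 50) * v) * d + (cC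
    (-27) 20 * v + cC (-38) 25) * v) * d + cC (-9) 10 * v) * d) * a + (((((cC (779) 200 * v * v
    * v * d + (cC (-497) 200 * v + cC (59) 5) * v * v) * d + ((cC (-9) 10 * v + cC (-757) 100) *
    v + cC (401) 50) * v) * d + ((cC (-3) 20 * v + cC (-27) 10) * v + cC (-26) 5) * v) * d + (cC
    (-9) 20 * v + cC (-9) 5) * v) * d + cC (-3) 10 * v) * d) * a + (((((cC (111) 100 * v * v * v
    * d + (cC (-207) 100 * v + cC (333) 100) * v * v) * d + ((cC (-9) 20 * v + cC (-621) 100) *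
    v + cC (111) 50) * v) * d + ((cC (-3) 20 * v + cC (-27) 20) * v + cC (-207) 50) * v) * d +
    (cC (-9) 20 * v + cC (-9) 10) * v) * d + cC (-3) 10 * v) * d * d) * q

theorem val_eLLG (a d v q r e k : Ex) (o S t u g W W1 R G1 : ℝ)
    (hq : q.val o S t u = W * R) (hr : r.val o S t u = R) :
    (eLLG a d v q r e k).val o S t u =
      ClosedGen.LLGS (a.val o S t u) (d.val o S t u) (v.val o S t u) g W W1 R
        ⟨3 / 20, -(23 / 200), e.val o S t u, k.val o S t u, -(12 / 25), G1, 7 / 2⟩ := by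
  simp only [eLLG, ex_add, ex_mul, Ex.val, hq, hr,
    ClosedGen.LLGS, Closed.LLGc, Closed.LLGv, Closed.LLGw, ClosedGen.LG_g, ClosedGen.LG_kw]
  push_cast
  ring

end Vale.Agent.P100.Calib.Closed.Six.Low
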