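import Vale.Agent.P100.Calib.SlabSixSignExpr
import Vale.Agent.P100.Calib.SlabSixSignCoef
import Vale.Agent.P100.Calib.BoxPosFast

/-!
# The certificate of the closed signs of dimension six on `0 < u ≤ 3/5`

A piece is a box of `(S, d, v)` with affine bounds, in `(S, d, v, e, p)`, of `e = g E`, `p = g W`,
`g K`, `g W1` and of the varying part `z` of the numbers `G`, `G1`, and with the multipliers of the
split of the arrow. The variables of the expressions are `(o, S, d, v)`; `o` places `e` between its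
bounds, or `u` between its bounds.
-/

set_option linter.unusedVariables false

namespace Vale.Agent.P100.Calib.Closed.Six.Low

open BoxPos

local instance sixLowExprAdd : Add Ex := ⟨Ex.add⟩
local instance sixLowExprSub : Sub Ex := ⟨Ex.sub⟩
local instance sixLowExprMul : Mul Ex := ⟨Ex.mul⟩

/-- Coefficients of a bound in `(S, d, v)`. -/
structure CE where
  (c₀ cd cv cvv cdv cdd cS : ℤ)

/-- Coefficients of a bound in `(S, d, v)` and affine in `e`. -/
structure CQ where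
  (c₀ cd cv ce cdv cde cve cvv cdd cS : ℤ)

/-- Coefficients of a bound in `(d, v)` and affine in `e` and in `p`. -/
structure CW where
  (c₀ cd cv ce cdv cde cve cvv cdd cp cpd cpv : ℤ)

/-- A piece: the bounds in units of `1/10000`, the multipliers in units of `1/1000000`. -/
structure Piece where
  (dlo dhi lo hi : ℤ)
  (u₀ ud uv mu : ℤ)
  (eL eH : CE)
  (pL pU kU kL zL k1 k2p k2m : CQ)
  (wU wL : CW)

/-- A constant in units of `1/10000`. -/
def k₄ (n : ℤ) : Ex := cC n 10000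

/-- A constant in units of `1/1000000`. -/
def k₆ (n : ℤ) : Ex := cC n 1000000

/-- `o`. -/
abbrev xO : Ex := .x₀
/-- `S`. -/
abbrev xS : Ex := .x₁
/-- `d`. -/
abbrev xD : Ex := .x₂
/-- `v`. -/
abbrev xV : Ex := .x₃

/-- The bound. -/
def CE.ex (c : CE) : Ex :=
  k₄ c.c₀ + k₄ c.cd * xD + k₄ c.cv * xV + k₄ c.cvv * (xV * xV) + k₄ c.cdv * (xD * xV) +
    k₄ c.cdd * (xD * xD) + k₄ c.cS * xS

/-- The part free of `e`, in the units `k`. -/
def CQ.free (c : CQ) (k : ℤ → Ex) : Ex :=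
  k c.c₀ + k c.cd * xD + k c.cv * xV + k c.cdv * (xD * xV) + k c.cvv * (xV * xV) +
    k c.cdd * (xD * xD) + k c.cS * xS

/-- The coefficient of `e`, in the units `k`. -/
def CQ.slope (c : CQ) (k : ℤ → Ex) : Ex := k c.ce + k c.cde * xD + k c.cve * xV

/-- The bound at `e`. -/
def CQ.ex (c : CQ) (e : Ex) : Ex := c.free k₄ + c.slope k₄ * e

/-- The multiplier at `e`. -/
def CQ.mult (c : CQ) (e : Ex) : Ex := c.free k₆ + c.slope k₆ * e

/-- The part free of `e` and `p`. -/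
def CW.free (c : CW) : Ex :=
  k₄ c.c₀ + k₄ c.cd * xD + k₄ c.cv * xV + k₄ c.cdv * (xD * xV) + k₄ c.cvv * (xV * xV) +
    k₄ c.cdd * (xD * xD)

/-- The coefficient of `e`. -/
def CW.slope (c : CW) : Ex := k₄ c.ce + k₄ c.cde * xD + k₄ c.cve * xV

/-- The coefficient of `p`. -/
def CW.slopeP (c : CW) : Ex := k₄ c.cp + k₄ c.cpd * xD + k₄ c.cpv * xV

/-- The bound at `(e, p)`. -/
def CW.ex (c : CW) (e p : Ex) : Ex := c.free + c.slope * e + c.slopeP * p

/-- `al`. -/
def xA : Ex := cC 1 2 * (xS - xD)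

/-- `be`. -/
def xB : Ex := cC 1 2 * (xS + xD)

/-- `b (2 - S)`. -/
def xBB : Ex := xB * (cC 2 - xS)

/-- `4 (1 - a v)`. -/
def xAV : Ex := cC 4 * (cC 1 - xA * xV)

/-- `e` between its bounds. -/
def Piece.xE (P : Piece) : Ex := P.eL.ex + xO * (P.eH.ex - P.eL.ex)

/-- The lower bound of `u`. -/
def Piece.xU₀ (P : Piece) : Ex := k₄ P.u₀ + k₄ P.ud * xD + k₄ P.uv * xV

/-- `u` between its bounds. -/
def Piece.xU (P : Piece) : Ex := P.xU₀ + xO * (k₄ 6000 - P.xU₀)

/-- The room above the lower bound of `u`. -/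
def Piece.xRoom (P : Piece) : Ex := k₄ 6000 - P.xU₀

/-- `v` exceeds the exit curve at the lower bound of `u`. -/
def Piece.xPhi (P : Piece) : Ex :=
  let u := P.xU₀
  let G := cC 19 20 - u
  xV * G - ((cC 2 5 + cC 28 25 * xD - cC 289 100 * (xD * xD) +
    (cC 37 100 - cC 417 100 * xD + cC 67 5 * (xD * xD)) * u) * G +
    (cC 49 100 + cC 133 100 * xD - cC 171 25 * (xD * xD)) * (u * u))

/-- The lower end of `t`. -/
def xTL (u : Ex) : Ex :=
  cC 6 5 - cC 371 100 * xD + cC 169 50 * (xD * xD) +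
    (cC 36 25 - cC 263 25 * xD + cC 43 2 * (xD * xD)) * u +
    (cC 229 100 - cC 202 25 * xD) * (u * u)

/-- The upper end of `t`. -/
def xTU (u : Ex) : Ex :=
  cC 89 50 - cC 711 100 * xD + cC 1027 100 * (xD * xD) +
    (cC 274 25 * xD - cC 99 100 - cC 2383 100 * (xD * xD)) * u +
    (cC 67 10 - cC 4659 100 * xD + cC 8687 100 * (xD * xD)) * (u * u)

/-- `b (2 - S)` times `h/d`. -/
def xH (u t : Ex) : Ex := xS * (cC 1 + (cC 1 - xA) * xV) + xBB * u * t

/-- `b (2 - S)` times `1 - h u`. -/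
def xQ (u t : Ex) : Ex := xBB - xD * u * xH u t

/-- `b (2 - S)` times `2 + d v - h u`. -/
def xY (u t : Ex) : Ex := (cC 2 + xD * xV) * xBB - xD * u * xH u t

/-- The numerator of `g`. -/
def xGn (u : Ex) : Ex :=
  cC 4 * ((cC 2 + xD * xV) * xB - xS * u * (cC 1 + xD * xV))

/-- `7/50 - 21/10 d`. -/
def xKap : Ex := cC 7 50 - cC 21 10 * xD

/-- The common denominator. -/
def xDn (u t : Ex) : Ex := (cC 1 - xS) * xS * xS * xB * xB * xY u t

/-- The numerator of `p`. -/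
def xPn (u t : Ex) : Ex := xGn u * xH u t * (cC 1 - xS) * xS * xB

/-- The numerator of `e`. -/
def xEn (u t : Ex) : Ex :=
  xGn u * ((cC 1 5 * (xD * xV) - cC 19 10 - cC 7 50 * xV) * xBB - xKap * u * xH u t) *
    xS * xS * xB

/-- The numerator of `g K`. -/
def xKn (u t : Ex) : Ex := xKap * xGn u * xQ u t * xS * xS * xB

/-- The numerator of `g W1`. -/
def xWn (u t : Ex) : Ex :=
  xGn u * (cC 1 - xS) * (xH u t * (xA - (cC 1 - xA) * xD * xV) * xS -
    xB * xB * (cC 2 - xS) * (cC 2 - xS) * t)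

/-- A bound in `e`, times the denominator. -/
def CQ.num (c : CQ) (u t : Ex) : Ex := xDn u t * c.free k₄ + c.slope k₄ * xEn u t

/-- A bound in `(e, p)`, times the denominator. -/
def CW.num (c : CW) (u t : Ex) : Ex :=
  xDn u t * c.free + c.slope * xEn u t + c.slopeP * xPn u t

/-- The bound of `p` is below what the drift gives. -/
def Piece.xGap (P : Piece) : Ex := xAV - xB * P.pL.free k₄

/-- `e` above its lower bound. -/
def Piece.hEL (P : Piece) (t : Ex → Ex) : Ex :=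
  xEn P.xU (t P.xU) - xDn P.xU (t P.xU) * P.eL.ex

/-- `e` below its upper bound, with the multiplier of the drift. -/
def Piece.hEH (P : Piece) (t : Ex → Ex) : Ex :=
  xDn P.xU (t P.xU) * P.eH.ex - xEn P.xU (t P.xU) -
    k₄ P.mu * (xB * xPn P.xU (t P.xU) - xAV * xDn P.xU (t P.xU))

/-- `p` above its bound. -/
def Piece.hPL (P : Piece) (t : Ex → Ex) : Ex := xPn P.xU (t P.xU) - P.pL.num P.xU (t P.xU)

/-- `p` below its bound. -/
def Piece.hPU (P : Piece) (t : Ex → Ex) : Ex := P.pU.num P.xU (t P.xU) - xPn P.xU (t P.xU)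

/-- `g K` below its bound. -/
def Piece.hKU (P : Piece) (t : Ex → Ex) : Ex := P.kU.num P.xU (t P.xU) - xKn P.xU (t P.xU)

/-- `g K` above its bound. -/
def Piece.hKL (P : Piece) (t : Ex → Ex) : Ex := xKn P.xU (t P.xU) - P.kL.num P.xU (t P.xU)

/-- `g W1` below its bound. -/
def Piece.hWU (P : Piece) (t : Ex → Ex) : Ex := P.wU.num P.xU (t P.xU) - xWn P.xU (t P.xU)

/-- `g W1` above its bound. -/
def Piece.hWL (P : Piece) (t : Ex → Ex) : Ex := xWn P.xU (t P.xU) - P.wL.num P.xU (t P.xU)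

/-- `z` above its bound, the product linearised at the upper end of `t`. -/
def Piece.hZ (P : Piece) (t : Ex → Ex) : Ex :=
  xQ P.xU (xTU P.xU) * xDn P.xU (t P.xU) +
      (xQ P.xU (t P.xU) - xQ P.xU (xTU P.xU)) * xDn P.xU (xTU P.xU) -
    (cC 1 + xD * xV) * xBB * P.zL.num P.xU (t P.xU)

/-- The lower end of `p`. -/
def Piece.xPL (P : Piece) : Ex := P.pL.ex P.xE

/-- The upper end of `p`. -/
def Piece.xPU (P : Piece) : Ex := P.pU.ex P.xE

/-- The lower end of `z`. -/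
def Piece.zLo (P : Piece) : Ex := P.zL.ex P.xE

/-- The upper end of `z`. -/
def zHi : Ex := cC 1

/-- `g TMES` at the low ends. -/
def Piece.hM (P : Piece) (p : Ex) : Ex :=
  eTME xA xD xV p P.xE (P.kL.ex P.xE) (P.wL.ex P.xE p)

/-- Minus the sum of `g TMES` at the high and at the low ends. -/
def Piece.hM₀ (P : Piece) (p : Ex) : Ex :=
  cC (-1) * (eTME xA xD xV p P.xE (P.kU.ex P.xE) (P.wU.ex P.xE p) + P.hM p)

/-- The condition between `TMMS` and `TMES`. -/
def Piece.hC1 (P : Piece) (p : Ex) : Ex :=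
  cC 3 5 * P.hM p - P.k1.mult P.xE * (cC 1 - xS) * p * P.xE

/-- `TGGS` at `(p, z)`. -/
def Piece.hG (P : Piece) (p z : Ex) : Ex := eTGG xA xD xV p z

/-- `d² (1 + d v)`. -/
def xC₂ : Ex := xD * xD * (cC 1 + xD * xV)

/-- The condition between `TGGS` and `TEGS`, `TEGS` positive. -/
def Piece.hC2p (P : Piece) (p z : Ex) : Ex :=
  cC 4 * P.k2p.mult P.xE * eTGG xA xD xV p z - xC₂ * eTEG xA xD xV p P.xE z

/-- The condition between `TGGS` and `TEGS`, `TEGS` negative. -/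
def Piece.hC2m (P : Piece) (p z : Ex) : Ex :=
  cC 4 * P.k2m.mult P.xE * eTGG xA xD xV p z + xC₂ * eTEG xA xD xV p P.xE z

/-- The split of the arrow, `TEGS` positive. -/
def Piece.hC3p (P : Piece) (p z : Ex) : Ex :=
  eTA xA xD xV p P.xE (P.kU.ex P.xE) (P.wU.ex P.xE p) z + P.k1.mult P.xE * P.hM p -
    P.k2p.mult P.xE * eTEG xA xD xV p P.xE z

/-- The split of the arrow, `TEGS` negative. -/
def Piece.hC3m (P : Piece) (p z : Ex) : Ex :=
  eTA xA xD xV p P.xE (P.kU.ex P.xE) (P.wU.ex P.xE p) z + P.k1.mult P.xE * P.hM p +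
    P.k2m.mult P.xE * eTEG xA xD xV p P.xE z

/-- `TMGS` at its worst ends. -/
def Piece.hN (P : Piece) (p z : Ex) : Ex :=
  eTMG xA xD xV p P.xE (P.kU.ex P.xE) (P.wL.ex P.xE p) z

/-- The multiplier `k2p`. -/
def Piece.hKp (P : Piece) : Ex := P.k2p.mult P.xE

/-- The multiplier `k2m`. -/
def Piece.hKm (P : Piece) : Ex := P.k2m.mult P.xE

/-- Concavity in `p` of `hC2p`. -/
def Piece.hV2p (P : Piece) : Ex :=
  xC₂ * eTEG2 xA xD xV - cC 4 * P.k2p.mult P.xE * eTGG2 xA xD xV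

/-- Concavity in `p` of `hC2m`. -/
def Piece.hV2m (P : Piece) : Ex :=
  cC (-1) * (cC 4 * P.k2m.mult P.xE * eTGG2 xA xD xV + xC₂ * eTEG2 xA xD xV)

/-- Concavity in `p` of `hC3p`. -/
def Piece.hV3p (P : Piece) : Ex := P.k2p.mult P.xE * eTEG2 xA xD xV - eTA2 xA xD xV

/-- Concavity in `p` of `hC3m`. -/
def Piece.hV3m (P : Piece) : Ex :=
  cC (-1) * (eTA2 xA xD xV + P.k2m.mult P.xE * eTEG2 xA xD xV)

/-- Concavity in `p` of `TGGS`. -/
def hVG : Ex := cC (-1) * eTGG2 xA xD xV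
/-- Concavity in `p` of `TMGS`. -/
def hVN : Ex := cC (-1) * eTMG2 xA xD xV
/-- `TAS` falls in `k`. -/
def hAk : Ex := cC (-1) * eTAk xA xD xV
/-- `TAS` falls in `w`. -/
def hAw : Ex := cC (-1) * eTAw xA xD xV
/-- `TMGS` falls in `k`. -/
def hNk : Ex := cC (-1) * eTMGk xA xD xV
/-- `TMGS` rises in `w`. -/
def hNw : Ex := eTMGw xA xD xV
/-- `g TMES` rises in `k`. -/
def hMk : Ex := eTMEk xA xD xV
/-- `g TMES` rises in `w`. -/
def hMw : Ex := eTMEw xA xD xV

/-- The bound of `u h/d`; here `o` is `u`. -/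
def hQ : Ex := cC 3 * xBB - xO * xH xO (xTU xO)

/-- `LLGS` at `(u h/d, R)`. -/
def hLLG (q r : Ex) : Ex :=
  let e := cC 1 5 * (xD * xV) - cC 19 10 - cC 7 50 * xV - xKap * q
  let k := xKap * (cC 1 - xD * q)
  eLLG xA xD xV q r e k

end Vale.Agent.P100.Calib.Closed.Six.Low
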