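import Vale.Agent.P100.Calib.SlabSixLowReal

/-!
# The bounds on a checked piece of dimension six
-/

set_option linter.unusedVariables false
set_option linter.unusedSimpArgs false

namespace Vale.Agent.P100.Calib.Closed.Six.Low

open BoxPos
open Vale.Agent.P100.Calib.Closed.Large (PosBox)

local instance sixLowPieceAdd : Add Ex := ⟨Ex.add⟩
local instance sixLowPieceSub : Sub Ex := ⟨Ex.sub⟩
local instance sixLowPieceMul : Mul Ex := ⟨Ex.mul⟩

theorem mem_side {a z : ℤ} {x : ℝ} (h₁ : (a : ℝ) / 1000 ≤ x) (h₂ : x < (z : ℝ) / 1000) :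
    Side.Mem ⟨a, z, 1000⟩ x := by
  constructor <;> push_cast <;> assumption

theorem mem_unit {o : ℝ} (h₁ : 0 ≤ o) (h₂ : o ≤ 1) : Side.Mem ⟨0, 1001, 1000⟩ o :=
  mem_side (by norm_num; linarith) (by norm_num; linarith)

/-- The side of `S`. -/
abbrev sideS : Side := ⟨2000, 2021, 3000⟩

/-- The box of a piece. -/
def Piece.box (P : Piece) : Box :=
  ⟨⟨0, 1001, 1000⟩, sideS, ⟨P.dlo, P.dhi, 1000⟩, ⟨P.lo, P.hi, 1000⟩⟩

/-- The box of the statements free of the piece. -/
def wholeBox : Box :=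
  ⟨⟨0, 1001, 1000⟩, sideS, ⟨0, 334, 1000⟩, ⟨294, 1128, 1000⟩⟩

/-- The checks of a piece at one end `(p, z)`. -/
structure Piece.CornerChecked (P : Piece) (p z : Ex) : Prop where
  g : PosBox P.box (P.hG p z)
  c2p : PosBox P.box (P.hC2p p z)
  c2m : PosBox P.box (P.hC2m p z)
  c3p : PosBox P.box (P.hC3p p z)
  c3m : PosBox P.box (P.hC3m p z)
  n : PosBox P.box (P.hN p z)

/-- The checks of a piece. -/
structure Piece.Checked (P : Piece) : Prop where
  mu_nonneg : 0 ≤ P.mu
  dlo_ge : 0 ≤ P.dlo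
  dhi_le : P.dhi ≤ 334
  lo_ge : 294 ≤ P.lo
  hi_le : P.hi ≤ 1128
  room : PosBox P.box P.xRoom
  phi : PosBox P.box P.xPhi ∨ (P.u₀ = 0 ∧ P.ud = 0 ∧ P.uv = 0)
  pL : (PosBox P.box P.xGap ∧ P.pL.ce = 0 ∧ P.pL.cde = 0 ∧ P.pL.cve = 0) ∨
    (PosBox P.box (P.hPL xTL) ∧ PosBox P.box (P.hPL xTU))
  eL : PosBox P.box (P.hEL xTL) ∧ PosBox P.box (P.hEL xTU)
  eH : PosBox P.box (P.hEH xTL) ∧ PosBox P.box (P.hEH xTU)
  pU : PosBox P.box (P.hPU xTL) ∧ PosBox P.box (P.hPU xTU)
  kU : PosBox P.box (P.hKU xTL) ∧ PosBox P.box (P.hKU xTU)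
  kL : PosBox P.box (P.hKL xTL) ∧ PosBox P.box (P.hKL xTU)
  wU : PosBox P.box (P.hWU xTL) ∧ PosBox P.box (P.hWU xTU)
  wL : PosBox P.box (P.hWL xTL) ∧ PosBox P.box (P.hWL xTU)
  zL : PosBox P.box (P.hZ xTL) ∧ PosBox P.box (P.hZ xTU)
  kp : PosBox P.box P.hKp
  km : PosBox P.box P.hKm
  v2p : PosBox P.box P.hV2p
  v2m : PosBox P.box P.hV2m
  v3p : PosBox P.box P.hV3p
  v3m : PosBox P.box P.hV3m
  m₀ : PosBox P.box (P.hM₀ P.xPL) ∧ PosBox P.box (P.hM₀ P.xPU)
  c₁ : PosBox P.box (P.hC1 P.xPL) ∧ PosBox P.box (P.hC1 P.xPU)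
  cLL : P.CornerChecked P.xPL P.zLo
  cLH : P.CornerChecked P.xPL zHi
  cHL : P.CornerChecked P.xPU P.zLo
  cHH : P.CornerChecked P.xPU zHi

section
variable {d S u v t : ℝ}

/-- `d` and `v` of a piece lie in the whole box. -/
theorem Piece.mem_whole {P : Piece} (hP : P.Checked) (hd : Side.Mem ⟨P.dlo, P.dhi, 1000⟩ d)
    (hv : Side.Mem ⟨P.lo, P.hi, 1000⟩ v) :
    Side.Mem ⟨0, 334, 1000⟩ d ∧ Side.Mem ⟨294, 1128, 1000⟩ v := by
  have a1 : (0 : ℝ) ≤ P.dlo := by exact_mod_cast hP.dlo_ge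
  have a2 : (P.dhi : ℝ) ≤ 334 := by exact_mod_cast hP.dhi_le
  have a3 : (294 : ℝ) ≤ P.lo := by exact_mod_cast hP.lo_ge
  have a4 : (P.hi : ℝ) ≤ 1128 := by exact_mod_cast hP.hi_le
  obtain ⟨b1, b2⟩ := hd
  obtain ⟨b3, b4⟩ := hv
  push_cast at b1 b2 b3 b4
  constructor <;> refine mem_side ?_ ?_ <;> push_cast <;> linarith

/-- `u` lies above the lower bound of a piece. -/
theorem Piece.u0_le {P : Piece} (hP : P.Checked) (hS : Side.Mem sideS S)
    (hd : Side.Mem ⟨P.dlo, P.dhi, 1000⟩ d) (hv : Side.Mem ⟨P.lo, P.hi, 1000⟩ v)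
    (u0 : 0 < u) (hphi : v < phiLow d u) : P.u0 d v < 3 / 5 ∧ P.u0 d v ≤ u := by
  have hroom : P.u0 d v < 3 / 5 := by
    have := hP.room 0 S d v (mem_unit le_rfl zero_le_one) hS hd hv
    simp only [Piece.xRoom, ex_sub, val_xU₀, val_k₄] at this
    push_cast at this
    linarith
  refine ⟨hroom, ?_⟩
  rcases hP.phi with hphi' | ⟨a, b, c⟩
  swap
  · simp only [Piece.u0, a, b, c]; norm_num; exact u0.le
  by_contra hlt
  rw [not_le] at hlt
  have h0 := hphi' 0 S d v (mem_unit le_rfl zero_le_one) hS hd hv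
  simp only [Piece.xPhi, ex_sub, ex_mul, ex_add, val_xU₀, Ex.val] at h0
  push_cast at h0
  obtain ⟨hd0, hd1⟩ := (Piece.mem_whole hP hd hv).1
  push_cast at hd0 hd1
  simp only [phiLow] at hphi
  set x := P.u0 d v
  have hb : 0 ≤ 37 / 100 - 417 / 100 * d + 67 / 5 * d ^ 2 := by
    nlinarith [sq_nonneg (d - 417 / 2680)]
  have hk : 0 ≤ 49 / 100 + 133 / 100 * d - 171 / 25 * d ^ 2 := by
    nlinarith [mul_nonneg (show 0 ≤ d by linarith) (show 0 ≤ 334 / 1000 - d by linarith)]
  have hG : 0 < 19 / 20 - x := by linarith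
  have h1 : (37 / 100 - 417 / 100 * d + 67 / 5 * d ^ 2) * u ≤
      (37 / 100 - 417 / 100 * d + 67 / 5 * d ^ 2) * x :=
    mul_le_mul_of_nonneg_left hlt.le hb
  have h2 : (49 / 100 + 133 / 100 * d - 171 / 25 * d ^ 2) * u ^ 2 / (19 / 20 - u) ≤
      (49 / 100 + 133 / 100 * d - 171 / 25 * d ^ 2) * x ^ 2 / (19 / 20 - x) :=
    div_le_div₀ (mul_nonneg hk (sq_nonneg x))
      (mul_le_mul_of_nonneg_left (pow_le_pow_left₀ u0.le hlt.le 2) hk) hG (by linarith)
  have h3 : v < 2 / 5 + 28 / 25 * d - 289 / 100 * d ^ 2 +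
      (37 / 100 - 417 / 100 * d + 67 / 5 * d ^ 2) * x +
      (49 / 100 + 133 / 100 * d - 171 / 25 * d ^ 2) * x ^ 2 / (19 / 20 - x) := by linarith
  have e3 : (49 / 100 + 133 / 100 * d - 171 / 25 * d ^ 2) * x ^ 2 / (19 / 20 - x) *
      (19 / 20 - x) = (49 / 100 + 133 / 100 * d - 171 / 25 * (d * d)) * (x * x) := by
    rw [div_mul_cancel₀ _ hG.ne']; ring
  have := mul_lt_mul_of_pos_right h3 hG
  linarith

/-- The bounds of a piece. -/
theorem Piece.bounds {P : Piece} (hP : P.Checked) (hS : Side.Mem sideS S)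
    (hd : Side.Mem ⟨P.dlo, P.dhi, 1000⟩ d) (hv : Side.Mem ⟨P.lo, P.hi, 1000⟩ v)
    (hb : 0 < S + d) (u0 : 0 < u) (u1 : u ≤ 3 / 5)
    (hY : 0 < 2 + d * v - d * u * chH d S u v t)
    (hdrift : 2 * S * (1 - (S - d) / 2 * v) / ((1 - S) * ((S + d) / 2)) <
      chG d S u v t * chH d S u v t / 2)
    (hphi : v < phiLow d u) (hL : lowL d u < t) (hU : t < upU d u) :
    let q := chR S u * chW d S u v t
    let p := chG d S u v t * chW d S u v t
    let e := chG d S u v t * eSix d v q
    let k := chG d S u v t * kSix d q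
    let w := chG d S u v t * chW1 d S u v t
    (P.pL.at S d v e < p ∧ p < P.pU.at S d v e) ∧ (P.eL.at S d v < e ∧ e < P.eH.at S d v) ∧
      (P.kL.at S d v e < k ∧ k < P.kU.at S d v e) ∧
      (P.wL.at d v e p < w ∧ w < P.wU.at d v e p) ∧ P.zL.at S d v e < zSix d v q := by
  intro q p e k w
  obtain ⟨hS0, hS1⟩ : (2 / 3 : ℝ) ≤ S ∧ S < 2021 / 3000 := by
    obtain ⟨a, b⟩ := hS; push_cast at a b; exact ⟨by linarith, b⟩
  obtain ⟨⟨hd0, hd1⟩, hv0, hv1⟩ := Piece.mem_whole hP hd hv
  push_cast at hd0 hd1 hv0 hv1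
  obtain ⟨hroom, hu₀⟩ := Piece.u0_le hP hS hd hv u0 hphi
  set o := (u - P.u0 d v) / (3 / 5 - P.u0 d v) with ho
  have ho0 : 0 ≤ o := div_nonneg (by linarith) (by linarith)
  have ho1 : o ≤ 1 := (div_le_one (by linarith)).2 (by linarith)
  have eo : P.u0 d v + o * (3 / 5 - P.u0 d v) = u := by
    rw [ho, div_mul_cancel₀ _ (show 3 / 5 - P.u0 d v ≠ 0 by linarith)]; ring
  have hdv : 0 < 1 + d * v := by
    have := mul_nonneg (show 0 ≤ d by linarith) (show 0 ≤ v by linarith)
    linarith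
  obtain ⟨hD, ep, ee, ek, ew, ez, eq⟩ :=
    chart_num (d := d) (S := S) (u := u) (v := v) (t := t) (by linarith) (by linarith) hb hdv hY
  have vU : P.xU.val o S d v = u := by rw [val_xU, eo]
  have get : ∀ {T : Ex}, PosBox P.box T → 0 < T.val o S d v := fun h =>
    h o S d v (mem_unit ho0 ho1) hS hd hv
  have pr : ∀ {x : ℝ}, 0 < x * rDn S d v u t → 0 < x := fun h => pos_of_mul_pos_left h hD.le
  -- the drift
  have hdr : 4 * (1 - (S - d) / 2 * v) < (S + d) / 2 * p := by
    rw [div_lt_iff₀ (mul_pos (by linarith) (by linarith))] at hdrift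
    have e1 : p * S = chG d S u v t * ((1 - S) * chH d S u v t) := by
      simp only [p, chW]
      have : S ≠ 0 := by linarith
      field_simp
    refine lt_of_mul_lt_mul_right (a := S) ?_ (by linarith)
    have e2 : (S + d) / 2 * p * S =
        (S + d) / 2 * (chG d S u v t * ((1 - S) * chH d S u v t)) := by rw [mul_assoc, e1]
    rw [e2]
    linarith
  have npos := fun {A B C D F Z : ℝ} => num_pos (S := S) (d := d) (v := v) (u := u) (t := t)
    (A := A) (B := B) (C := C) (D := D) (F := F) (Z := Z) (c := 0) hL hU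
  -- the bounds
  have heL : P.eL.at S d v < e := by
    have l := get hP.eL.1
    have r := get hP.eL.2
    simp only [Piece.hEL, ex_sub, ex_mul, val_xEn, val_xDn, val_CE, val_xTL, val_xTU, vU] at l r
    have := npos (A := -P.eL.at S d v) (B := 1) (C := 0) (D := 0) (F := 0) (Z := 0)
      (by linarith) (by linarith)
    exact sub_pos.1 (pr (by linear_combination this - ee))
  have heH : e < P.eH.at S d v := by
    have l := get hP.eH.1
    have r := get hP.eH.2
    simp only [Piece.hEH, ex_sub, ex_mul, val_xEn, val_xDn, val_xPn, val_CE, val_k₄, val_xB,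
      val_xAV, val_xTL, val_xTU, vU] at l r
    have := npos (A := P.eH.at S d v + (P.mu : ℝ) / 10000 * (4 * (1 - (S - d) / 2 * v)))
      (B := -1) (C := -((P.mu : ℝ) / 10000 * ((S + d) / 2))) (D := 0) (F := 0) (Z := 0)
      (by linarith) (by linarith)
    have h1 : 0 < P.eH.at S d v - e -
        (P.mu : ℝ) / 10000 * ((S + d) / 2 * p - 4 * (1 - (S - d) / 2 * v)) :=
      pr (by linear_combination this + ee + (P.mu : ℝ) / 10000 * ((S + d) / 2) * ep)
    have h2 : 0 ≤ (P.mu : ℝ) / 10000 * ((S + d) / 2 * p - 4 * (1 - (S - d) / 2 * v)) :=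
      mul_nonneg (div_nonneg (by exact_mod_cast hP.mu_nonneg) (by norm_num)) (by linarith)
    linarith
  have hpL : P.pL.at S d v e < p := by
    rcases hP.pL with ⟨hg, a, b, c⟩ | ⟨hl, hr⟩
    · have g := get hg
      simp only [Piece.xGap, ex_sub, ex_mul, val_xAV, val_xB, val_CQfree] at g
      have : P.pL.at S d v e = P.pL.freeAt 10000 S d v := by
        simp only [CQ.at, CQ.slopeAt, a, b, c]; norm_num
      rw [this]
      exact lt_of_mul_lt_mul_left (a := (S + d) / 2) (by linarith) (by linarith)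
    · have l := get hl
      have r := get hr
      simp only [Piece.hPL, CQ.num, ex_sub, ex_add, ex_mul, val_xEn, val_xDn, val_xPn,
        val_CQfree, val_CQslope, val_xTL, val_xTU, vU] at l r
      have := npos (A := -P.pL.freeAt 10000 S d v) (B := -P.pL.slopeAt 10000 d v) (C := 1)
        (D := 0) (F := 0) (Z := 0) (by linarith) (by linarith)
      exact sub_pos.1 (pr (by
        simp only [CQ.at]; linear_combination this + P.pL.slopeAt 10000 d v * ee - ep))
  have hpU : p < P.pU.at S d v e := by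
    have l := get hP.pU.1
    have r := get hP.pU.2
    simp only [Piece.hPU, CQ.num, ex_sub, ex_add, ex_mul, val_xEn, val_xDn, val_xPn, val_CQfree,
      val_CQslope, val_xTL, val_xTU, vU] at l r
    have := npos (A := P.pU.freeAt 10000 S d v) (B := P.pU.slopeAt 10000 d v) (C := -1)
      (D := 0) (F := 0) (Z := 0) (by linarith) (by linarith)
    exact sub_pos.1 (pr (by
      simp only [CQ.at]; linear_combination this - P.pU.slopeAt 10000 d v * ee + ep))
  have hkU : k < P.kU.at S d v e := by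
    have l := get hP.kU.1
    have r := get hP.kU.2
    simp only [Piece.hKU, CQ.num, ex_sub, ex_add, ex_mul, val_xEn, val_xDn, val_xKn, val_CQfree,
      val_CQslope, val_xTL, val_xTU, vU] at l r
    have := npos (A := P.kU.freeAt 10000 S d v) (B := P.kU.slopeAt 10000 d v) (C := 0)
      (D := -1) (F := 0) (Z := 0) (by linarith) (by linarith)
    exact sub_pos.1 (pr (by
      simp only [CQ.at]; linear_combination this - P.kU.slopeAt 10000 d v * ee + ek))
  have hkL : P.kL.at S d v e < k := by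
    have l := get hP.kL.1
    have r := get hP.kL.2
    simp only [Piece.hKL, CQ.num, ex_sub, ex_add, ex_mul, val_xEn, val_xDn, val_xKn, val_CQfree,
      val_CQslope, val_xTL, val_xTU, vU] at l r
    have := npos (A := -P.kL.freeAt 10000 S d v) (B := -P.kL.slopeAt 10000 d v) (C := 0)
      (D := 1) (F := 0) (Z := 0) (by linarith) (by linarith)
    exact sub_pos.1 (pr (by
      simp only [CQ.at]; linear_combination this + P.kL.slopeAt 10000 d v * ee - ek))
  have hwU : w < P.wU.at d v e p := by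
    have l := get hP.wU.1
    have r := get hP.wU.2
    simp only [Piece.hWU, CW.num, ex_sub, ex_add, ex_mul, val_xEn, val_xDn, val_xPn, val_xWn,
      val_CWfree, val_CWslope, val_CWslopeP, val_xTL, val_xTU, vU] at l r
    have := npos (A := P.wU.freeAt d v) (B := P.wU.slopeAt d v) (C := P.wU.slopePAt d v)
      (D := 0) (F := -1) (Z := 0) (by linarith) (by linarith)
    exact sub_pos.1 (pr (by
      simp only [CW.at]
      linear_combination this - P.wU.slopeAt d v * ee - P.wU.slopePAt d v * ep + ew))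
  have hwL : P.wL.at d v e p < w := by
    have l := get hP.wL.1
    have r := get hP.wL.2
    simp only [Piece.hWL, CW.num, ex_sub, ex_add, ex_mul, val_xEn, val_xDn, val_xPn, val_xWn,
      val_CWfree, val_CWslope, val_CWslopeP, val_xTL, val_xTU, vU] at l r
    have := npos (A := -P.wL.freeAt d v) (B := -P.wL.slopeAt d v) (C := -P.wL.slopePAt d v)
      (D := 0) (F := 1) (Z := 0) (by linarith) (by linarith)
    exact sub_pos.1 (pr (by
      simp only [CW.at]
      linear_combination this + P.wL.slopeAt d v * ee + P.wL.slopePAt d v * ep - ew))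
  have hzL : P.zL.at S d v e < zSix d v q := by
    have l := get hP.zL.1
    have r := get hP.zL.2
    simp only [Piece.hZ, CQ.num, ex_sub, ex_add, ex_mul, val_xQ, val_xBB, val_xEn, val_xDn,
      val_CQfree, val_CQslope, val_xTL, val_xTU, vU, Ex.val] at l r
    push_cast at l r
    set B := (S + d) / 2 * (2 - S)
    set QU := rQ S d v u (upU d u)
    set DU := rDn S d v u (upU d u)
    have := num_pos (S := S) (d := d) (v := v) (u := u) (t := t)
      (A := QU - (1 + d * v) * B * P.zL.freeAt 10000 S d v)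
      (B := -((1 + d * v) * B * P.zL.slopeAt 10000 d v)) (C := 0) (D := 0) (F := 0) (Z := DU)
      (c := QU * DU) hL hU (by linarith) (by linarith)
    have hlin := prod_linearised S d v u t (upU d u) (by linarith)
    have h1 : 0 < (zSix d v q - P.zL.at S d v e) * rDn S d v u t * ((1 + d * v) * B) := by
      have : (zSix d v q - P.zL.at S d v e) * rDn S d v u t * ((1 + d * v) * B) =
          rQ S d v u t * rDn S d v u t - (1 + d * v) * B * P.zL.freeAt 10000 S d v *
            rDn S d v u t - (1 + d * v) * B * P.zL.slopeAt 10000 d v * rEn S d v u t := by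
        simp only [CQ.at]
        linear_combination rDn S d v u t * ez -
          (1 + d * v) * B * P.zL.slopeAt 10000 d v * ee
      rw [this]
      linarith
    exact sub_pos.1 (pr (pos_of_mul_pos_left h1
      (mul_pos hdv (mul_pos (by linarith) (by linarith))).le))
  exact ⟨⟨hpL, hpU⟩, ⟨heL, heH⟩, ⟨hkL, hkU⟩, ⟨hwL, hwU⟩, hzL⟩

end

end Vale.Agent.P100.Calib.Closed.Six.Low
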