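import Vale.Agent.P100.Calib.SlabSixLowPiece
import Vale.Agent.P100.Calib.SlabSixLowAlgebra
import Vale.Agent.P100.Calib.SlabSixSignCoef

/-!
# The closed signs of dimension six from a checked piece
-/

set_option linter.unusedVariables false
set_option linter.unusedSimpArgs false

namespace Vale.Agent.P100.Calib.Closed.Six.Low

open BoxPos
open Vale.Agent.P100.Calib.Closed.Large (PosBox)

local instance sixLowSignsAdd : Add Ex := ⟨Ex.add⟩
local instance sixLowSignsSub : Sub Ex := ⟨Ex.sub⟩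
local instance sixLowSignsMul : Mul Ex := ⟨Ex.mul⟩

/-- The checks free of the piece. -/
structure Common : Prop where
  vG : PosBox wholeBox hVG
  vN : PosBox wholeBox hVN
  aK : PosBox wholeBox hAk
  aW : PosBox wholeBox hAw
  nK : PosBox wholeBox hNk
  nW : PosBox wholeBox hNw
  mK : PosBox wholeBox hMk
  mW : PosBox wholeBox hMw
  q : PosBox ⟨⟨0, 601, 1000⟩, sideS, ⟨0, 334, 1000⟩, ⟨294, 1128, 1000⟩⟩ hQ
  l00 : PosBox wholeBox (hLLG (cC 0) (cC 0))
  l01 : PosBox wholeBox (hLLG (cC 0) (cC 5 4))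
  l10 : PosBox wholeBox (hLLG (cC 3) (cC 0))
  l11 : PosBox wholeBox (hLLG (cC 3) (cC 5 4))

theorem sixNum_eq (d v W R : ℝ) :
    sixNum d v W R = numZ (eSix d v (R * W)) (kSix d (R * W)) (zSix d v (R * W)) := by
  simp only [sixNum, numZ, eSix, kSix, zSix, rKap, ClosedGen.Num.mk.injEq, true_and, and_true]
  refine ⟨?_, ?_, ?_, ?_⟩ <;> ring

/-- `LLGS` at `(q, R)`, the number `G` at its least. -/
noncomputable def llq (a d v q r : ℝ) : ℝ :=
  ClosedGen.LLGS a d v 0 q 0 1 ⟨3 / 20, -(23 / 200), 0, 0, -(12 / 25), 0, 7 / 2⟩ +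
    (ClosedGen.LLGS a d v 0 0 0 r
        ⟨3 / 20, -(23 / 200), eSix d v q, kSix d q, -(12 / 25), 0, 7 / 2⟩ -
      ClosedGen.LLGS a d v 0 0 0 r ⟨3 / 20, -(23 / 200), 0, 0, -(12 / 25), 0, 7 / 2⟩)

theorem LLGS_ge_llq {a d v g W W1 R z : ℝ} (ha : 0 ≤ a) (hd : 0 ≤ d) (hv : 0 ≤ v)
    (hz : z ≤ 1) (hq : 0 ≤ W * R) (hab : 2 * a + d ≤ 1) :
    llq a d v (W * R) R ≤
      ClosedGen.LLGS a d v g W W1 R (numZ (eSix d v (W * R)) (kSix d (W * R)) z) := by
  have h : ClosedGen.LLGS a d v g W W1 R (numZ (eSix d v (W * R)) (kSix d (W * R)) z) -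
      llq a d v (W * R) R =
      17 / 50 * (1 - z) * (2 * (a + d) * v * d ^ 3 * (2 + d * v) * (1 + d * v) *
        (W * R * (-2 * a - d + 2))) := by
    simp only [llq, numZ, ClosedGen.LLGS, ClosedGen.LG_g, ClosedGen.LG_kw, Closed.LLGc,
      Closed.LLGv, Closed.LLGw, eSix, kSix]
    ring
  have : 0 ≤ 17 / 50 * (1 - z) * (2 * (a + d) * v * d ^ 3 * (2 + d * v) * (1 + d * v) *
      (W * R * (-2 * a - d + 2))) := by
    refine mul_nonneg (mul_nonneg (by norm_num) (by linarith)) (mul_nonneg ?_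
      (mul_nonneg hq (by linarith)))
    positivity
  linarith

theorem val_hLLG (o S d v : ℝ) (q r : Ex) :
    (hLLG q r).val o S d v = llq ((S - d) / 2) d v (q.val o S d v) (r.val o S d v) := by
  simp only [hLLG, eLLG, llq, eSix, kSix, rKap, ClosedGen.LLGS, ClosedGen.LG_g, ClosedGen.LG_kw,
    Closed.LLGc, Closed.LLGv, Closed.LLGw, ex_add, ex_sub, ex_mul, val_xA, val_xKap, Ex.val]
  push_cast
  ring

theorem llq_bilinear (a d v q r q₁ r₁ : ℝ) :
    q₁ * r₁ * llq a d v q r = (q₁ - q) * (r₁ - r) * llq a d v 0 0 +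
      (q₁ - q) * r * llq a d v 0 r₁ + q * (r₁ - r) * llq a d v q₁ 0 +
      q * r * llq a d v q₁ r₁ := by
  simp only [llq, eSix, kSix, rKap, ClosedGen.LLGS, ClosedGen.LG_g, ClosedGen.LG_kw,
    Closed.LLGc, Closed.LLGv, Closed.LLGw]
  ring

section
variable {d S u v t : ℝ}

/-- The bound of `u h/d` and the ray gap. -/
theorem llg_nonneg (hC : Common) (hS : Side.Mem sideS S)
    (hd : Side.Mem ⟨0, 334, 1000⟩ d) (hv : Side.Mem ⟨294, 1128, 1000⟩ v) (hab : 0 < S - d)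
    (u0 : 0 < u) (u1 : u ≤ 3 / 5) (hH : 0 < chH d S u v t) (hU : t < upU d u) (g W1 z : ℝ)
    (hz : z ≤ 1) :
    u * chH d S u v t < 3 ∧ 0 ≤ ClosedGen.LLGS ((S - d) / 2) d v g (chW d S u v t) W1 (chR S u)
      (numZ (eSix d v (chW d S u v t * chR S u)) (kSix d (chW d S u v t * chR S u)) z) := by
  have hS' : (2 / 3 : ℝ) ≤ S ∧ S < 2021 / 3000 := by
    obtain ⟨a, b⟩ := hS; push_cast at a b; exact ⟨by linarith, b⟩
  have hd' : (0 : ℝ) ≤ d := by obtain ⟨a, b⟩ := hd; push_cast at a; linarith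
  have hv' : (0 : ℝ) ≤ v := by obtain ⟨a, b⟩ := hv; push_cast at a; linarith
  have hB : 0 < (S + d) / 2 * (2 - S) := mul_pos (by linarith) (by linarith)
  have eH : chH d S u v t * ((S + d) / 2 * (2 - S)) = rH S d v u t := by
    have h2 : (2 - S) ≠ 0 := by linarith
    have h3 : S + d ≠ 0 := by linarith
    simp only [chH, rH]
    field_simp
  have hq : u * chH d S u v t < 3 := by
    have h0 := hC.q u S d v (mem_side (by norm_num; linarith) (by norm_num; linarith)) hS hd hv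
    simp only [hQ, ex_sub, ex_mul, val_xH, val_xTU, val_xBB, Ex.val] at h0
    push_cast at h0
    have h1 : u * rH S d v u t ≤ u * rH S d v u (upU d u) := by
      refine mul_le_mul_of_nonneg_left ?_ u0.le
      simp only [rH]
      have := mul_le_mul_of_nonneg_left hU.le (mul_nonneg hB.le u0.le)
      linarith
    refine lt_of_mul_lt_mul_right (a := (S + d) / 2 * (2 - S)) ?_ hB.le
    rw [mul_assoc, eH]
    linarith
  refine ⟨hq, ?_⟩
  have hS1 : 0 < 1 - S := by linarith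
  have e : chW d S u v t * chR S u = u * chH d S u v t := by
    have : S ≠ 0 := by linarith
    simp only [chR, chW]
    field_simp
  have hq0 : 0 ≤ u * chH d S u v t := (mul_pos u0 hH).le
  refine le_trans ?_ (LLGS_ge_llq (by linarith) hd' hv' hz (e ▸ hq0) (by linarith))
  have hr : chR S u < 5 / 4 := by
    rw [chR, div_lt_iff₀ hS1]
    have := mul_le_mul hS'.2.le u1 u0.le (by norm_num)
    linarith
  have hr0 : 0 < chR S u := div_pos (mul_pos (by linarith) u0) hS1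
  rw [e]
  have c00 := hC.l00 0 S d v (mem_unit le_rfl zero_le_one) hS hd hv
  have c01 := hC.l01 0 S d v (mem_unit le_rfl zero_le_one) hS hd hv
  have c10 := hC.l10 0 S d v (mem_unit le_rfl zero_le_one) hS hd hv
  have c11 := hC.l11 0 S d v (mem_unit le_rfl zero_le_one) hS hd hv
  simp only [val_hLLG, Ex.val] at c00 c01 c10 c11
  push_cast at c00 c01 c10 c11
  simp only [div_one] at c00 c01 c10 c11
  have key := llq_bilinear ((S - d) / 2) d v (u * chH d S u v t) (chR S u) 3 (5 / 4)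
  have a1 : 0 ≤ 3 - u * chH d S u v t := by linarith
  have a2 : 0 ≤ 5 / 4 - chR S u := by linarith
  have h5 : (0 : ℝ) ≤ 3 * (5 / 4) * llq ((S - d) / 2) d v (u * chH d S u v t) (chR S u) := by
    rw [key]
    exact add_nonneg (add_nonneg (add_nonneg (mul_nonneg (mul_nonneg a1 a2) c00.le)
      (mul_nonneg (mul_nonneg a1 hr0.le) c01.le)) (mul_nonneg (mul_nonneg hq0 a2) c10.le))
      (mul_nonneg (mul_nonneg hq0 hr0.le) c11.le)
  linarith

end

/-- The bounds and multipliers at a point. -/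
structure Bnds where
  (kU kL wUf sU wLf sL k₁ kp km c s : ℝ)

section
variable (F : Forms) (B : Bnds)

/-- The conditions on `g TMES` at one value of `g W`. -/
structure LinOk (p : ℝ) : Prop where
  hM : F.M p B.kU (B.wUf + B.sU * p) + F.M p B.kL (B.wLf + B.sL * p) < 0
  h1 : 0 < B.k₁ * B.s * p + 3 / 5 * F.M p B.kL (B.wLf + B.sL * p)

/-- The conditions at one value of `(g W, z)`. -/
structure PairOk (p z : ℝ) : Prop where
  hG : 0 < F.G p z
  h2p : 0 < 4 * B.kp * F.G p z - B.c * F.T p z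
  h2m : 0 < 4 * B.km * F.G p z + B.c * F.T p z
  h3p : 0 < F.A p z B.kU (B.wUf + B.sU * p) + B.k₁ * F.M p B.kL (B.wLf + B.sL * p) -
    B.kp * F.T p z
  h3m : 0 < F.A p z B.kU (B.wUf + B.sU * p) + B.k₁ * F.M p B.kL (B.wLf + B.sL * p) +
    B.km * F.T p z
  hN : 0 < F.N p z B.kU (B.wLf + B.sL * p)

/-- The signs of the coefficients. -/
structure CoefOk : Prop where
  g₂ : F.g₂ ≤ 0
  gzz : F.gzz ≤ 0
  t₂ : F.t₂ ≤ 0
  ak : F.ak ≤ 0
  aw : F.aw ≤ 0
  tk : F.tk ≤ 0
  tw : 0 ≤ F.tw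
  mc : 0 ≤ F.mc
  mw : 0 ≤ F.mw
  kp : 0 ≤ B.kp
  km : 0 ≤ B.km
  v2p : 4 * B.kp * F.g₂ - B.c * F.h₂ ≤ 0
  v2m : 4 * B.km * F.g₂ + B.c * F.h₂ ≤ 0
  v3p : F.a₂ - B.kp * F.h₂ ≤ 0
  v3m : F.a₂ + B.km * F.h₂ ≤ 0

theorem PairOk.between_z {p x y z : ℝ} (hx : PairOk F B p x) (hy : PairOk F B p y)
    (hc : CoefOk F B) (h0 : x ≤ z) (h1 : z ≤ y) : PairOk F B p z where
  hG := concave_pos (f := fun z => F.G p z)
    (c₀ := F.g₀ + F.g₁ * p + F.g₂ * p ^ 2) (c₁ := F.gz + F.gp * p) (c₂ := F.gzz)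
    (fun z => by simp only [Forms.G]; ring) hc.gzz h0 h1 hx.hG hy.hG
  h2p := concave_pos (f := fun z => 4 * B.kp * F.G p z - B.c * F.T p z)
    (c₀ := 4 * B.kp * (F.g₀ + F.g₁ * p + F.g₂ * p ^ 2) -
      B.c * (F.h₀ + F.h₁ * p + F.h₂ * p ^ 2))
    (c₁ := 4 * B.kp * (F.gz + F.gp * p) - B.c * (F.hz + F.hp * p)) (c₂ := 4 * B.kp * F.gzz)
    (fun z => by simp only [Forms.G, Forms.T]; ring)
    (mul_nonpos_of_nonneg_of_nonpos (by linarith [hc.kp]) hc.gzz) h0 h1 hx.h2p hy.h2p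
  h2m := concave_pos (f := fun z => 4 * B.km * F.G p z + B.c * F.T p z)
    (c₀ := 4 * B.km * (F.g₀ + F.g₁ * p + F.g₂ * p ^ 2) +
      B.c * (F.h₀ + F.h₁ * p + F.h₂ * p ^ 2))
    (c₁ := 4 * B.km * (F.gz + F.gp * p) + B.c * (F.hz + F.hp * p)) (c₂ := 4 * B.km * F.gzz)
    (fun z => by simp only [Forms.G, Forms.T]; ring)
    (mul_nonpos_of_nonneg_of_nonpos (by linarith [hc.km]) hc.gzz) h0 h1 hx.h2m hy.h2m
  h3p := concave_pos
    (f := fun z => F.A p z B.kU (B.wUf + B.sU * p) + B.k₁ * F.M p B.kL (B.wLf + B.sL * p) -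
      B.kp * F.T p z)
    (c₀ := F.A p 0 B.kU (B.wUf + B.sU * p) + B.k₁ * F.M p B.kL (B.wLf + B.sL * p) -
      B.kp * F.T p 0)
    (c₁ := F.az + F.ap * p - B.kp * (F.hz + F.hp * p)) (c₂ := 0)
    (fun z => by simp only [Forms.A, Forms.T]; ring) le_rfl h0 h1 hx.h3p hy.h3p
  h3m := concave_pos
    (f := fun z => F.A p z B.kU (B.wUf + B.sU * p) + B.k₁ * F.M p B.kL (B.wLf + B.sL * p) +
      B.km * F.T p z)
    (c₀ := F.A p 0 B.kU (B.wUf + B.sU * p) + B.k₁ * F.M p B.kL (B.wLf + B.sL * p) +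
      B.km * F.T p 0)
    (c₁ := F.az + F.ap * p + B.km * (F.hz + F.hp * p)) (c₂ := 0)
    (fun z => by simp only [Forms.A, Forms.T]; ring) le_rfl h0 h1 hx.h3m hy.h3m
  hN := concave_pos (f := fun z => F.N p z B.kU (B.wLf + B.sL * p))
    (c₀ := F.N p 0 B.kU (B.wLf + B.sL * p)) (c₁ := F.tz + F.tp * p) (c₂ := 0)
    (fun z => by simp only [Forms.N]; ring) le_rfl h0 h1 hx.hN hy.hN

theorem PairOk.between {x y p z : ℝ} (hx : PairOk F B x z) (hy : PairOk F B y z)
    (hc : CoefOk F B) (h0 : x ≤ p) (h1 : p ≤ y) : PairOk F B p z where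
  hG := concave_pos (f := fun p => F.G p z)
    (c₀ := F.g₀ + F.gz * z + F.gzz * z ^ 2) (c₁ := F.g₁ + F.gp * z)
    (fun p => by simp only [Forms.G]; ring) hc.g₂ h0 h1 hx.hG hy.hG
  h2p := concave_pos (f := fun p => 4 * B.kp * F.G p z - B.c * F.T p z)
    (c₀ := 4 * B.kp * (F.g₀ + F.gz * z + F.gzz * z ^ 2) - B.c * (F.h₀ + F.hz * z))
    (c₁ := 4 * B.kp * (F.g₁ + F.gp * z) - B.c * (F.h₁ + F.hp * z))
    (fun p => by simp only [Forms.G, Forms.T]; ring) hc.v2p h0 h1 hx.h2p hy.h2p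
  h2m := concave_pos (f := fun p => 4 * B.km * F.G p z + B.c * F.T p z)
    (c₀ := 4 * B.km * (F.g₀ + F.gz * z + F.gzz * z ^ 2) + B.c * (F.h₀ + F.hz * z))
    (c₁ := 4 * B.km * (F.g₁ + F.gp * z) + B.c * (F.h₁ + F.hp * z))
    (fun p => by simp only [Forms.G, Forms.T]; ring) hc.v2m h0 h1 hx.h2m hy.h2m
  h3p := concave_pos
    (f := fun p => F.A p z B.kU (B.wUf + B.sU * p) + B.k₁ * F.M p B.kL (B.wLf + B.sL * p) -
      B.kp * F.T p z)
    (c₀ := F.a₀ + F.az * z + F.ak * B.kU + F.aw * B.wUf +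
      B.k₁ * (F.m₀ + F.mc * B.kL + F.mw * B.wLf) - B.kp * (F.h₀ + F.hz * z))
    (c₁ := F.a₁ + F.ap * z + F.aw * B.sU + B.k₁ * (F.m₁ + F.mw * B.sL) -
      B.kp * (F.h₁ + F.hp * z))
    (fun p => by simp only [Forms.A, Forms.M, Forms.T]; ring) hc.v3p h0 h1 hx.h3p hy.h3p
  h3m := concave_pos
    (f := fun p => F.A p z B.kU (B.wUf + B.sU * p) + B.k₁ * F.M p B.kL (B.wLf + B.sL * p) +
      B.km * F.T p z)
    (c₀ := F.a₀ + F.az * z + F.ak * B.kU + F.aw * B.wUf +
      B.k₁ * (F.m₀ + F.mc * B.kL + F.mw * B.wLf) + B.km * (F.h₀ + F.hz * z))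
    (c₁ := F.a₁ + F.ap * z + F.aw * B.sU + B.k₁ * (F.m₁ + F.mw * B.sL) +
      B.km * (F.h₁ + F.hp * z))
    (fun p => by simp only [Forms.A, Forms.M, Forms.T]; ring) hc.v3m h0 h1 hx.h3m hy.h3m
  hN := concave_pos (f := fun p => F.N p z B.kU (B.wLf + B.sL * p))
    (c₀ := F.t₀ + F.tz * z + F.tk * B.kU + F.tw * B.wLf)
    (c₁ := F.t₁ + F.tp * z + F.tw * B.sL)
    (fun p => by simp only [Forms.N]; ring) hc.t₂ h0 h1 hx.hN hy.hN

theorem LinOk.between {x y p : ℝ} (hx : LinOk F B x) (hy : LinOk F B y) (h0 : x ≤ p)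
    (h1 : p ≤ y) : LinOk F B p where
  hM := neg_pos.1 (concave_pos
    (f := fun p => -(F.M p B.kU (B.wUf + B.sU * p) + F.M p B.kL (B.wLf + B.sL * p)))
    (c₀ := -(2 * F.m₀ + F.mc * (B.kU + B.kL) + F.mw * (B.wUf + B.wLf)))
    (c₁ := -(2 * F.m₁ + F.mw * (B.sU + B.sL))) (c₂ := 0)
    (fun p => by simp only [Forms.M]; ring) le_rfl h0 h1 (neg_pos.2 hx.hM) (neg_pos.2 hy.hM))
  h1 := concave_pos (f := fun p => B.k₁ * B.s * p + 3 / 5 * F.M p B.kL (B.wLf + B.sL * p))
    (c₀ := 3 / 5 * (F.m₀ + F.mc * B.kL + F.mw * B.wLf))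
    (c₁ := B.k₁ * B.s + 3 / 5 * (F.m₁ + F.mw * B.sL)) (c₂ := 0)
    (fun p => by simp only [Forms.M]; ring) le_rfl h0 h1 hx.h1 hy.h1

/-- The split holds at the values of `g K` and `g W1`. -/
theorem PairOk.core {p z k w o : ℝ} (h : PairOk F B p z) (hl : LinOk F B p) (hc : CoefOk F B)
    (ho : 0 < o) (hp : 0 < p) (hs : 0 < B.s) (k0 : B.kL ≤ k) (k1 : k ≤ B.kU)
    (w0 : B.wLf + B.sL * p ≤ w) (w1 : w ≤ B.wUf + B.sU * p) :
    0 ≤ F.N p z k w ∧
      0 < 4 * F.A p z k w * (o * (B.s * p)) * F.G p z -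
        12 / 5 * o * F.M p k w ^ 2 * F.G p z - B.c * F.T p z ^ 2 * (o * (B.s * p)) := by
  have a1 := mul_le_mul_of_nonneg_left k0 hc.mc
  have a2 := mul_le_mul_of_nonneg_left k1 hc.mc
  have a3 := mul_le_mul_of_nonneg_left w0 hc.mw
  have a4 := mul_le_mul_of_nonneg_left w1 hc.mw
  have a5 := mul_le_mul_of_nonpos_left k1 hc.ak
  have a6 := mul_le_mul_of_nonpos_left w1 hc.aw
  have a7 := mul_le_mul_of_nonpos_left k1 hc.tk
  have a8 := mul_le_mul_of_nonneg_left w0 hc.tw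
  obtain ⟨hG, h2p, h2m, h3p, h3m, hN⟩ := h
  obtain ⟨hM, h1⟩ := hl
  simp only [Forms.A, Forms.N] at h3p h3m hN ⊢
  refine ⟨by linarith, ?_⟩
  set ML := F.M p B.kL (B.wLf + B.sL * p) with hMLd
  have hL : ML ≤ F.M p k w := by simp only [hMLd, Forms.M]; linarith
  have hU : F.M p k w ≤ -ML := by
    have : F.M p k w ≤ F.M p B.kU (B.wUf + B.sU * p) := by simp only [Forms.M]; linarith
    linarith
  have hML : ML ≤ 0 := by linarith
  have hsq : F.M p k w ^ 2 ≤ ML ^ 2 := (sq_le_sq' (b := -ML) (by linarith) (by linarith)).trans_eq (by ring)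
  have hX : 0 < 20 / 3 * (B.s * p) := mul_pos (by norm_num) (mul_pos hs hp)
  have key := Closed.arrow_of_split (A := F.a₀ + F.a₁ * p + F.a₂ * p ^ 2 + F.az * z +
      F.ap * (p * z) + F.ak * k + F.aw * w) (M := ML) (k₁ := B.k₁) (c := B.c) ho hX hG hML
    (by linarith) h2p.le h2m.le (by linarith) (by linarith)
  have := mul_le_mul_of_nonneg_left (mul_le_mul_of_nonneg_right hsq hG.le)
    (show 0 ≤ 12 / 5 * o by linarith)
  linarith

end

/-- The bounds and multipliers of a piece at `(S, d, v, e)`. -/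
noncomputable def Piece.bnds (P : Piece) (S d v e : ℝ) : Bnds where
  kU := P.kU.at S d v e
  kL := P.kL.at S d v e
  wUf := P.wU.freeAt d v + P.wU.slopeAt d v * e
  sU := P.wU.slopePAt d v
  wLf := P.wL.freeAt d v + P.wL.slopeAt d v * e
  sL := P.wL.slopePAt d v
  k₁ := P.k1.multAt S d v e
  kp := P.k2p.multAt S d v e
  km := P.k2m.multAt S d v e
  c := d * d * (1 + d * v)
  s := (1 - S) * -e

section
variable {a d v e : ℝ}

theorem forms_G (p z w e' k : ℝ) :
    ClosedGen.TGGS a d v 1 p w 0 (numZ e' k z) = (forms a d v e).G p z := by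
  have : (forms a d v e).G p z = (forms a d v (1 * e')).G p z := by rfl
  rw [TGG_expand, this]
  simp only [one_mul]

theorem forms_T (p z w k : ℝ) :
    ClosedGen.TEGS a d v 1 p w 0 (numZ e k z) = (forms a d v e).T p z := by
  rw [TEG_expand]; simp only [one_mul]

theorem forms_A (p z w k : ℝ) :
    ClosedGen.TAS a d v 1 p w 0 (numZ e k z) = (forms a d v e).A p z k w := by
  rw [TA_expand]; simp only [one_mul]

theorem forms_N (p z w k : ℝ) :
    ClosedGen.TMGS a d v 1 p w 0 (numZ e k z) = (forms a d v e).N p z k w := by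
  rw [TMG_expand]; simp only [one_mul]

theorem forms_M (p z w k : ℝ) :
    ClosedGen.TMES a d v 1 p w 0 (numZ e k z) = (forms a d v e).M p k w := by
  have := TME_expand z a d v 1 p w 0 e k
  simp only [one_mul] at this
  exact this

end

section
variable {P : Piece} {o S d v e : ℝ}

theorem Piece.linOk (p : Ex) (ve : P.xE.val o S d v = e) (c1 : 0 < (P.hM₀ p).val o S d v)
    (c2 : 0 < (P.hC1 p).val o S d v) :
    LinOk (forms ((S - d) / 2) d v e) (P.bnds S d v e) (p.val o S d v) := by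
  simp only [Piece.hM₀, Piece.hC1, Piece.hM, ex_add, ex_sub, ex_mul, val_eTME (z := 0), val_CQ,
    val_mult, val_CW, ve, val_xA, Ex.val, forms_M] at c1 c2
  push_cast at c1 c2
  simp only [CW.at] at c1 c2
  constructor <;> (try simp only [Piece.bnds]) <;> linarith only [c1, c2]

theorem Piece.pairOk (p z : Ex) (ve : P.xE.val o S d v = e)
    (c1 : 0 < (P.hG p z).val o S d v) (c2 : 0 < (P.hC2p p z).val o S d v)
    (c3 : 0 < (P.hC2m p z).val o S d v) (c4 : 0 < (P.hC3p p z).val o S d v)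
    (c5 : 0 < (P.hC3m p z).val o S d v) (c6 : 0 < (P.hN p z).val o S d v) :
    PairOk (forms ((S - d) / 2) d v e) (P.bnds S d v e) (p.val o S d v) (z.val o S d v) := by
  simp only [Piece.hG, Piece.hC2p, Piece.hC2m, Piece.hC3p, Piece.hC3m, Piece.hN, Piece.hM, xC₂,
    ex_add, ex_sub, ex_mul, val_eTGG (e := 0) (k := 0) (w := 0), val_eTEG (k := 0) (w := 0),
    val_eTA, val_eTMG, val_eTME (z := 0), val_CQ, val_mult, val_CW, ve, val_xA, Ex.val,
    forms_G (e := e), forms_T, forms_A, forms_N, forms_M] at c1 c2 c3 c4 c5 c6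
  push_cast at c2 c3
  simp only [CW.at] at c4 c5 c6
  constructor <;> (try simp only [Piece.bnds]) <;> linarith only [c1, c2, c3, c4, c5, c6]

theorem Piece.coefOk (hC : Common) (mS : Side.Mem sideS S) (mD : Side.Mem ⟨0, 334, 1000⟩ d)
    (mV : Side.Mem ⟨294, 1128, 1000⟩ v) (ho : Side.Mem ⟨0, 1001, 1000⟩ o) (ha : 0 ≤ (S - d) / 2)
    (ve : P.xE.val o S d v = e) (kp : 0 < P.hKp.val o S d v) (km : 0 < P.hKm.val o S d v)
    (v2p : 0 < P.hV2p.val o S d v) (v2m : 0 < P.hV2m.val o S d v)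
    (v3p : 0 < P.hV3p.val o S d v) (v3m : 0 < P.hV3m.val o S d v) :
    CoefOk (forms ((S - d) / 2) d v e) (P.bnds S d v e) := by
  obtain ⟨d0, v0⟩ : 0 ≤ d ∧ 0 ≤ v := by
    obtain ⟨a, -⟩ := mD; obtain ⟨b, -⟩ := mV; push_cast at a b; constructor <;> linarith
  have gzz := gzz_nonpos ((S - d) / 2) d v e d0 v0 ha
  have sG := hC.vG o S d v ho mS mD mV
  have sN := hC.vN o S d v ho mS mD mV
  have sAk := hC.aK o S d v ho mS mD mV
  have sAw := hC.aW o S d v ho mS mD mV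
  have sNk := hC.nK o S d v ho mS mD mV
  have sNw := hC.nW o S d v ho mS mD mV
  have sMk := hC.mK o S d v ho mS mD mV
  have sMw := hC.mW o S d v ho mS mD mV
  have qG := val_eTGG2 xA xD xV o S d v e 0 0 0
  have qN := val_eTMG2 xA xD xV o S d v e 0 0 0
  have qT := val_eTEG2 xA xD xV o S d v e 0 0 0
  have qA := val_eTA2 xA xD xV o S d v e 0 0 0
  have qAk := val_eTAk xA xD xV o S d v 0 e 0 0
  have qAw := val_eTAw xA xD xV o S d v 0 e 0 0
  have qNk := val_eTMGk xA xD xV o S d v 0 e 0 0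
  have qNw := val_eTMGw xA xD xV o S d v 0 e 0 0
  have qMk := val_eTMEk xA xD xV o S d v 0 e 0 0
  have qMw := val_eTMEw xA xD xV o S d v 0 e 0 0
  simp only [val_xA, Ex.val, forms_G (e := e), forms_T, forms_A, forms_N, forms_M, Forms.G,
    Forms.T, Forms.A, Forms.N, Forms.M] at qG qN qT qA qAk qAw qNk qNw qMk qMw
  simp only [hVG, hVN, hAk, hAw, hNk, hNw, hMk, hMw, ex_mul, Ex.val] at sG sN sAk sAw sNk sNw sMk sMw
  push_cast at sG sN sAk sAw sNk
  simp only [Piece.hKp, Piece.hKm, Piece.hV2p, Piece.hV2m, Piece.hV3p, Piece.hV3m, xC₂, ex_add,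
    ex_sub, ex_mul, val_mult, ve, Ex.val] at kp km v2p v2m v3p v3m
  push_cast at v2p v2m v3p v3m
  have e2G : (eTGG2 xA xD xV).val o S d v = (forms ((S - d) / 2) d v e).g₂ := by
    linarith only [qG]
  have e2T : (eTEG2 xA xD xV).val o S d v = (forms ((S - d) / 2) d v e).h₂ := by
    linarith only [qT]
  have e2A : (eTA2 xA xD xV).val o S d v = (forms ((S - d) / 2) d v e).a₂ := by
    linarith only [qA]
  rw [e2G, e2T] at v2p v2m
  rw [e2A, e2T] at v3p v3m
  refine ⟨?_, gzz, ?_, ?_, ?_, ?_, ?_, ?_, ?_, ?_, ?_, ?_, ?_, ?_, ?_⟩ <;>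
    (try simp only [Piece.bnds]) <;>
    linarith only [qG, qN, qAk, qAw, qNk, qNw, qMk, qMw, sG, sN, sAk, sAw, sNk, sNw, sMk, sMw,
      kp, km, v2p, v2m, v3p, v3m]

variable {u t : ℝ}

/-- **The closed signs on a checked piece.** -/
theorem Piece.signs (hP : P.Checked) (hC : Common) (hb : ChartBox d S) (u0 : 0 < u)
    (u1 : u ≤ 3 / 5) (hf : ChartFacts d S u v t) (hphi : v < phiLow d u) (hL : lowL d u < t)
    (hU : t < upU d u) (hd0 : (P.dlo : ℝ) / 1000 ≤ d) (hd1 : d < (P.dhi : ℝ) / 1000)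
    (hv0 : (P.lo : ℝ) / 1000 ≤ v) (hv1 : v < (P.hi : ℝ) / 1000) : ChartSigns d S u v t := by
  have hSb := hb.S_low
  have hSh := hb.S_high
  have htri := hb.tri
  have hdpos := hb.pos
  have mS : Side.Mem sideS S := ⟨by push_cast; linarith, by push_cast; linarith⟩
  have mD : Side.Mem ⟨P.dlo, P.dhi, 1000⟩ d := mem_side hd0 hd1
  have mV : Side.Mem ⟨P.lo, P.hi, 1000⟩ v := mem_side hv0 hv1
  obtain ⟨mD', mW⟩ := Piece.mem_whole hP mD mV
  have hH := hf.H_pos
  have hdH : d * u * chH d S u v t < 1 := by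
    have h1 := mul_lt_mul_of_pos_left hf.u_lt (mul_pos hb.pos hH)
    have := hf.h_lt
    linarith
  have hdv : 0 ≤ d * v := mul_nonneg hb.pos.le (by have := hf.v_low; linarith)
  have hY : 0 < 2 + d * v - d * u * chH d S u v t := by linarith
  obtain ⟨⟨hp0, hpU⟩, ⟨heL, heH⟩, ⟨hkL, hkU⟩, ⟨hwL, hwU⟩, hz0⟩ :=
    Piece.bounds hP mS mD mV (by linarith) u0 u1 hY hf.drift hphi hL hU
  have hg : 0 < chG d S u v t := by
    have h1 : 0 < 2 * S * (1 - (S - d) / 2 * v) / ((1 - S) * ((S + d) / 2)) :=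
      div_pos (mul_pos (by linarith) (by have := hf.r_lt; linarith))
        (mul_pos (by linarith) (by linarith))
    have h2 : 0 < chG d S u v t * chH d S u v t := by have := hf.drift; linarith
    exact pos_of_mul_pos_left h2 hH.le
  have hW : 0 < chW d S u v t := mul_pos (div_pos (by linarith) (by linarith)) hH
  have eR : chR S u * chW d S u v t = u * chH d S u v t := by
    have : S ≠ 0 := by linarith
    have : (1 - S) ≠ 0 := by linarith
    simp only [chR, chW]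
    field_simp
  set z := zSix d v (chR S u * chW d S u v t) with hzd
  have hz1 : z ≤ 1 := by
    rw [hzd, zSix, eR, div_le_one (by linarith)]
    have := mul_pos hb.pos (mul_pos u0 hH)
    linarith
  obtain ⟨hq, hllg⟩ := llg_nonneg hC mS mD' mW (by linarith) u0 u1 hH hU (chG d S u v t)
    (chW1 d S u v t) z hz1
  rw [mul_comm (chW d S u v t) (chR S u)] at hllg
  have hE : eSix d v (chR S u * chW d S u v t) < 0 := by
    have hv4 := hf.v_low
    have h4 := mul_nonneg (show (0 : ℝ) ≤ 7 / 50 by norm_num) (mul_pos u0 hH).le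
    have h5 := mul_le_mul_of_nonneg_right (show d ≤ 1 / 3 by linarith) (show 0 ≤ v by linarith)
    simp only [eSix, rKap, eR]
    rcases le_total (21 / 10 * d) (7 / 50) with hk | hk
    · have h3 := mul_nonneg (sub_nonneg.2 hk) (mul_pos u0 hH).le
      linarith
    · have h3 := mul_le_mul_of_nonneg_left hq.le (sub_nonneg.2 hk)
      linarith
  set g := chG d S u v t
  set W := chW d S u v t
  set W1 := chW1 d S u v t
  set R := chR S u
  set E := eSix d v (R * W)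
  set K := kSix d (R * W)
  have hp : 0 < g * W := mul_pos hg hW
  have he : g * E < 0 := mul_neg_of_pos_of_neg hg hE
  set p := g * W
  set e := g * E with hedef
  set k := g * K with hkdef
  set w := g * W1 with hwdef
  set o := (e - P.eL.at S d v) / (P.eH.at S d v - P.eL.at S d v) with ho
  have ho0 : 0 ≤ o := div_nonneg (by linarith) (by linarith)
  have ho1 : o ≤ 1 := (div_le_one (by linarith)).2 (by linarith)
  have ve : P.xE.val o S d v = e := by
    rw [val_xE, ho, div_mul_cancel₀ _ (show P.eH.at S d v - P.eL.at S d v ≠ 0 by linarith)]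
    ring
  have get : ∀ {T : Ex}, PosBox P.box T → 0 < T.val o S d v := fun h =>
    h o S d v (mem_unit ho0 ho1) mS mD mV
  have hc := Piece.coefOk hC mS mD' mW (mem_unit ho0 ho1) (by linarith) ve (get hP.kp)
    (get hP.km) (get hP.v2p) (get hP.v2m) (get hP.v3p) (get hP.v3m)
  have pair : ∀ {x y : Ex}, P.CornerChecked x y →
      PairOk (forms ((S - d) / 2) d v e) (P.bnds S d v e) (x.val o S d v) (y.val o S d v) :=
    fun h => Piece.pairOk _ _ ve (get h.g) (get h.c2p) (get h.c2m) (get h.c3p) (get h.c3m)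
      (get h.n)
  have q00 := pair hP.cLL
  have q01 := pair hP.cLH
  have q10 := pair hP.cHL
  have q11 := pair hP.cHH
  have l0 := Piece.linOk P.xPL ve (get hP.m₀.1) (get hP.c₁.1)
  have l1 := Piece.linOk P.xPU ve (get hP.m₀.2) (get hP.c₁.2)
  have eL : P.xPL.val o S d v = P.pL.at S d v e := by rw [Piece.xPL, val_CQ, ve]
  have eU : P.xPU.val o S d v = P.pU.at S d v e := by rw [Piece.xPU, val_CQ, ve]
  have eZ : P.zLo.val o S d v = P.zL.at S d v e := by rw [Piece.zLo, val_CQ, ve]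
  rw [eL, eZ] at q00
  rw [eL, val_zHi] at q01
  rw [eU, eZ] at q10
  rw [eU, val_zHi] at q11
  rw [eL] at l0
  rw [eU] at l1
  have hm := PairOk.between _ _ (PairOk.between_z _ _ q00 q01 hc hz0.le hz1)
    (PairOk.between_z _ _ q10 q11 hc hz0.le hz1) hc hp0.le hpU.le
  have hl := LinOk.between _ _ l0 l1 hp0.le hpU.le
  have hs : 0 < (P.bnds S d v e).s := mul_pos (by linarith) (neg_pos.2 he)
  obtain ⟨hN, hT⟩ := PairOk.core _ _ (k := k) (w := w) (o := 1 + d * v) hm hl hc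
    (by linarith only [hdv]) hp hs hkL.le hkU.le hwL.le hwU.le
  show ClosedGen.Signs _ d v g W W1 R (sixNum d v W R)
  rw [sixNum_eq]
  refine ⟨?_, ?_, ?_, ?_, hllg⟩
  · rw [TGG_expand]; exact hm.hG
  · simp only [ClosedGen.TMMS, ClosedGen.TMM_w, numZ]
    have h1 : W * E < 0 := mul_neg_of_pos_of_neg hW hE
    refine mul_pos_of_neg_of_neg h1 ?_
    have : (v * (2 * ((S - d) / 2) * d + d ^ 2 - d) + 2 * ((S - d) / 2) + d - 1) =
        -((1 - S) * (1 + d * v)) := by ring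
    rw [this]
    exact neg_lt_zero.2 (mul_pos (by linarith) (by linarith))
  · refine pos_of_mul_pos_right (a := g ^ 2) ?_ (sq_nonneg g)
    rw [TArrow_scale, TGG_expand, TEG_expand, TA_expand, TME_expand,
      show (1 - 2 * ((S - d) / 2) - d) * (g * W) * -(g * E) = (P.bnds S d v e).s * p by
        simp only [Piece.bnds]; ring,
      show d ^ 2 * (1 + d * v) = (P.bnds S d v e).c by simp only [Piece.bnds]; ring]
    exact hT
  · rw [TMG_expand]; exact hN

end

end Vale.Agent.P100.Calib.Closed.Six.Low
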