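import Vale.Agent.P100.Calib.SlabSixExpr
import Vale.Agent.P100.Calib.SlabNegExpr

/-!
# The bands past the crossing on the slab of dimension six, as expressions, checked

The variables are `(-u, ω, d, S)`, with `v = w + (9/50) u` and `w = w₀ + ω (w₁ - w₀)`,
`w₀ = 37/125 + d/25 - (S - 2/3)`, `w₁ = 81/200 + 28/25 d - 289/100 d²`.
-/

namespace Vale.Agent.P100.Calib.Band

open BoxPos

local instance sixNegAdd : Add Ex := ⟨Ex.add⟩
local instance sixNegSub : Sub Ex := ⟨Ex.sub⟩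
local instance sixNegMul : Mul Ex := ⟨Ex.mul⟩

/-- `w₀`. -/
def n6W₀ : Ex := eC 37 125 + eC 1 25 * eD - (eS - eC 2 3)

/-- `w₁`. -/
def n6W₁ : Ex := eQ3 81 200 28 25 (-289) 100

/-- The bound of `-u`. -/
def n6Um (w : Ex) : Ex := eC 1 125 + eC 13 100 * eD + (eC 3 5 + eC 17 100 * eD) * w

/-- `w` in the box. -/
def n6W : Ex := n6W₀ + eV * (n6W₁ - n6W₀)

/-- The slope of the lower band. -/
def n6Cl : Ex := eQ3 147 100 (-49) 10 6 1

/-- The constant of the upper band. -/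
def n6Cu : Ex := eQ3 27 20 (-117) 25 29 5

/-- The slope in `u` of the upper band. -/
def n6Su : Ex := eQ3 107 100 (-477) 100 33 5

/-- The lower band: `-lieT`. -/
def neg6L : Ex := eC 0 - nLie nU (nV nU n6W) n6Cl (eC 0)

/-- The upper band: `lieT`. -/
def neg6U : Ex := nLie nU (nV nU n6W) n6Cu n6Su

/-- The lower line at the upper band. -/
def neg6LoU : Ex := eC 0 - nExit nU (nV nU n6W₀) (n6Cu + n6Su * nU)

/-- The lower line at the lower band. -/
def neg6LoL : Ex := eC 0 - nExit nU (nV nU n6W₀) n6Cl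

/-- The upper line at the upper band. -/
def neg6HiU : Ex := nExit nU (nV nU n6W₁) (n6Cu + n6Su * nU)

/-- The upper line at the lower band. -/
def neg6HiL : Ex := nExit nU (nV nU n6W₁) n6Cl

/-- The end of the range of `u`. -/
def neg6End : Ex :=
  let u := eC (-1) * n6Um n6W
  let v := nV u n6W
  eC (-1) * u * nK u v n6Cl - nB * v

theorem neg6L_check : neg6L.checkQuick ⟨300, ⟨6, 3, 11, 9⟩⟩ (sixBox 0 366 0 1001 0 334) = true := by
  decide +kernel

theorem neg6U_check : neg6U.checkQuick ⟨312, ⟨6, 3, 11, 9⟩⟩ (sixBox 0 366 0 1001 0 334) = true := by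
  decide +kernel

theorem neg6LoU_check :
    neg6LoU.checkQuick ⟨220, ⟨5, 0, 8, 7⟩⟩ (sixBox 0 366 0 1 0 334) = true := by decide +kernel

theorem neg6LoL_check :
    neg6LoL.checkQuick ⟨208, ⟨4, 0, 8, 7⟩⟩ (sixBox 0 366 0 1 0 334) = true := by decide +kernel

theorem neg6HiU_check :
    neg6HiU.checkQuick ⟨220, ⟨5, 0, 10, 4⟩⟩ (sixBox 0 366 0 1 0 334) = true := by decide +kernel

theorem neg6HiL_check₁ :
    neg6HiL.checkQuick ⟨208, ⟨4, 0, 10, 4⟩⟩ (sixBox 0 280 0 1 0 20) = true := by decide +kernel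

theorem neg6HiL_check₂ :
    neg6HiL.checkQuick ⟨208, ⟨4, 0, 10, 4⟩⟩ (sixBox 0 298 0 1 20 41) = true := by decide +kernel

theorem neg6HiL_check₃ :
    neg6HiL.checkQuick ⟨208, ⟨4, 0, 10, 4⟩⟩ (sixBox 0 336 0 1 41 84) = true := by decide +kernel

theorem neg6HiL_check₄ :
    neg6HiL.checkQuick ⟨208, ⟨4, 0, 10, 4⟩⟩ (sixBox 0 366 0 1 84 334) = true := by decide +kernel

theorem neg6End_check :
    neg6End.checkQuick ⟨200, ⟨0, 2, 9, 4⟩⟩ (sixBox 0 1 0 1001 0 334) = true := by decide +kernel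

end Vale.Agent.P100.Calib.Band
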