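import Vale.Agent.P100.Calib.SlabSixTailPiece

/-!
# The pieces of the certificate in dimension six on `u ≤ 0`

Three boxes of `(d, v)`; `o` places `u` between affine bounds, or `e` between its bounds, and the
slope lies between the two lines of `SignsNeg`.
-/

namespace Vale.Agent.P100.Calib.Closed.Six.Neg

open BoxPos Tail

local instance sixNegAdd : Add Ex := ⟨Ex.add⟩
local instance sixNegSub : Sub Ex := ⟨Ex.sub⟩
local instance sixNegMul : Mul Ex := ⟨Ex.mul⟩

/-- The lowest `u`. -/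
def negU0 : Ex := cC (-11341) 10000 * (cC 1 125 + cC 13 100 * xD + (cC 3 5 + cC 17 100 * xD) * xV)

/-- The highest value of `v - 9/50 u`. -/
def negW1 : Ex := cC 81 200 + cC 28 25 * xD - cC 289 100 * (xD * xD)

/-- A mean of the two lower bounds of `u`. -/
def negU0h (k l : Ex) : Ex := k * negU0 + l * cC 50 9 * (xV - negW1)

/-- The highest `u` at small `v`. -/
def negU1 : Ex := cC 50 9 * (xV - cC 2891 10000 - cC 1 25 * xD)

/-- The line below the slope, at `u = 0`. -/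
def negCu : Ex := cC 27 20 - cC 117 25 * xD + cC 29 5 * (xD * xD)

/-- The tilt of the line below the slope. -/
def negSu : Ex := cC 107 100 - cC 477 100 * xD + cC 33 5 * (xD * xD)

/-- The line above the slope. -/
def negCl : Ex := cC 147 100 - cC 49 10 * xD + cC 6 * (xD * xD)

/-- The ray gap affine in `q = u h/d` and in `r = R`, `G` at its least for `q ≤ 0`. -/
def negLLG (q r : Ex) : Ex :=
  cC 2 * eLL (cC 0) (cC 1) - eLL (cC 0) (cC 2) +
    (cC 2 * eLL (cC 1) (cC 1) - eLL (cC 1) (cC 2) -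
      (cC 2 * eLL (cC 0) (cC 1) - eLL (cC 0) (cC 2))) * q +
    r * (eLL (cC 0) (cC 2) - eLL (cC 0) (cC 1) +
      (eLL (cC 1) (cC 2) - eLL (cC 1) (cC 1) - (eLL (cC 0) (cC 2) - eLL (cC 0) (cC 1))) * q) +
    cC 34 100 * (xD * xV) *
      (cC 2 * (xA + xD) * xV * (xD * xD * xD) * (cC 2 + xD * xV) * (cC 1 + xD * xV) * (q * (cC 2 - xS)))

/-- Piece 0. -/
def piece0 : Piece where
  u₀ := negU0
  u₁ := negU1
  tLn := fun u => negCu + negSu * u
  tLd := fun _ => cC 1
  tUn := fun _ => negCl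
  tUd := fun _ => cC 1
  p₀ := cC 0
  zL := (((((((cC 3499 10000) + ((cC 14226 10000) * xD)) + ((cC 48519 10000) * xV)) + ((cC (-56338)
    10000) * (xD * xV))) + ((cC (-92077) 10000) * (xV * xV))) + ((cC 1046 10000) * (xD * xD))) +
    ((cC 148 10000) * xS))
  zU := (((((((cC 10547 10000) + ((cC 1020 10000) * xD)) + ((cC (-7520) 10000) * xV)) + ((cC (-2905)
    10000) * (xD * xV))) + ((cC 14170 10000) * (xV * xV))) + ((cC 57 10000) * (xD * xD))) + ((cC
    693 10000) * xS))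
  k2p := fun e => ((cC 15 10000) + ((cC 0 10000) * e))
  k2m := fun e => ((((cC (-41860) 10000) + ((cC 31525 10000) * xD)) + ((cC 75556 10000) * xV)) + ((cC (-878)
    10000) * e))
  kapL := fun e => ((((cC (-179) 10000) + ((cC (-1) 10000) * xD)) + ((cC 568 10000) * xV)) + ((cC (-2) 10000) * e))
  kapU := fun e => ((((cC (-182) 10000) + ((cC (-11) 10000) * xD)) + ((cC 761 10000) * xV)) + ((cC (-1) 10000) *
    e))
  eL := ⟨(((((((cC 249478 10000) + ((cC (-44441) 10000) * xD)) + ((cC 582136 10000) * xV)) + ((cC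
    (-1336822) 10000) * (xV * xV))) + ((cC 68652 10000) * (xD * xV))) + ((cC (-23770) 10000) *
    (xD * xD))) + ((cC (-874125) 10000) * xS)), (cC 0), (cC 0), cC 0, cC 0⟩
  eH := ⟨(((((((cC 130186 10000) + ((cC 22202 10000) * xD)) + ((cC (-157277) 10000) * xV)) + ((cC
    2302604 10000) * (xV * xV))) + ((cC (-212221) 10000) * (xD * xV))) + ((cC 1149 10000) * (xD
    * xD))) + ((cC (-761418) 10000) * xS)), (cC 0), (cC 0), cC 0, cC 0⟩
  pL := ⟨(((((((cC 184900 10000) + ((cC (-131351) 10000) * xD)) + ((cC (-54375) 10000) * xV)) + ((cC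
    (-32307) 10000) * (xD * xV))) + ((cC (-502594) 10000) * (xV * xV))) + ((cC 89110 10000) *
    (xD * xD))) + ((cC (-32984) 10000) * xS)), (((cC 4073 10000) + ((cC (-621) 10000) * xD)) +
    ((cC (-14142) 10000) * xV)), (cC 0), cC 0, cC 0⟩
  pU := ⟨(((((((cC 272420 10000) + ((cC (-52754) 10000) * xD)) + ((cC (-475705) 10000) * xV)) + ((cC
    (-147570) 10000) * (xD * xV))) + ((cC 720849 10000) * (xV * xV))) + ((cC 114198 10000) * (xD
    * xD))) + ((cC (-161156) 10000) * xS)), (((cC 678 10000) + ((cC 1698 10000) * xD)) + ((cC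
    (-5582) 10000) * xV)), (cC 0), cC 0, cC 0⟩
  kU := ⟨(((((((cC 21826 10000) + ((cC (-10033) 10000) * xD)) + ((cC (-121654) 10000) * xV)) + ((cC
    80601 10000) * (xD * xV))) + ((cC 109775 10000) * (xV * xV))) + ((cC (-42) 10000) * (xD *
    xD))) + ((cC 5300 10000) * xS)), (((cC (-480) 10000) + ((cC 11342 10000) * xD)) + ((cC
    (-893) 10000) * xV)), (((cC (-889) 10000) + ((cC (-404) 10000) * xD)) + ((cC 3366 10000) *
    xV)), cC 0, cC 0⟩
  kL := ⟨(((((((cC (-3143) 10000) + ((cC 15474 10000) * xD)) + ((cC (-1167) 10000) * xV)) + ((cC 16547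
    10000) * (xD * xV))) + ((cC (-26318) 10000) * (xV * xV))) + ((cC (-3544) 10000) * (xD *
    xD))) + ((cC 6363 10000) * xS)), (((cC (-548) 10000) + ((cC 11666 10000) * xD)) + ((cC
    (-819) 10000) * xV)), (((cC 260 10000) + ((cC (-217) 10000) * xD)) + ((cC (-1024) 10000) *
    xV)), cC 0, cC 0⟩
  wU := ⟨(((((((cC (-1692128) 10000) + ((cC 442805 10000) * xD)) + ((cC 75875 10000) * xV)) + ((cC 18172
    10000) * (xD * xV))) + ((cC 528460 10000) * (xV * xV))) + ((cC (-739619) 10000) * (xD *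
    xD))) + ((cC 1379585 10000) * xS)), (((cC (-280) 10000) + ((cC (-15029) 10000) * xD)) + ((cC
    32262 10000) * xV)), (((cC 79875 10000) + ((cC 36380 10000) * xD)) + ((cC 3245 10000) *
    xV)), cC 0, cC 0⟩
  wL := ⟨(((((((cC (-969457) 10000) + ((cC 32676 10000) * xD)) + ((cC (-453694) 10000) * xV)) + ((cC
    3397481 10000) * (xD * xV))) + ((cC (-3156536) 10000) * (xV * xV))) + ((cC (-1321587) 10000)
    * (xD * xD))) + ((cC 979228 10000) * xS)), (((cC (-8032) 10000) + ((cC (-11921) 10000) *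
    xD)) + ((cC 50697 10000) * xV)), (((cC (-11515) 10000) + ((cC (-7483) 10000) * xD)) + ((cC
    292592 10000) * xV)), cC 0, cC 0⟩

/-- The box of the bounds of piece 0. -/
def envBox0 : Box := ⟨⟨0, 1001, 1000⟩, ⟨2000, 2021, 3000⟩, ⟨0, 334, 1000⟩, ⟨256, 296, 1000⟩⟩

/-- The box of the signs of piece 0. -/
def signBox0 : Box := ⟨⟨0, 1, 1⟩, ⟨2000, 2021, 3000⟩, ⟨0, 334, 1000⟩, ⟨256, 296, 1000⟩⟩

/-- Piece 1. -/
def piece1 : Piece where
  u₀ := (negU0h (cC 13 20) (cC 7 20))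
  u₁ := cC 0
  tLn := fun u => negCu + negSu * u
  tLd := fun _ => cC 1
  tUn := fun _ => negCl
  tUd := fun _ => cC 1
  p₀ := cC 0
  zL := ((((((cC 10101 10000) + ((cC (-881) 10000) * xD)) + ((cC (-418) 10000) * xV)) + ((cC (-7259)
    10000) * (xD * xV))) + ((cC 212 10000) * (xV * xV))) + ((cC 944 10000) * (xD * xD)))
  zU := (((((((cC 8547 10000) + ((cC 14892 10000) * xD)) + ((cC 1434 10000) * xV)) + ((cC (-19144)
    10000) * (xD * xV))) + ((cC (-2465) 10000) * (xV * xV))) + ((cC (-17314) 10000) * (xD *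
    xD))) + ((cC 1296 10000) * xS))
  k2p := fun e => ((((cC 809 10000) + ((cC (-5297) 10000) * xD)) + ((cC 161 10000) * xV)) + ((cC (-41) 10000) *
    e))
  k2m := fun e => ((((cC 6370 10000) + ((cC 3091 10000) * xD)) + ((cC (-18832) 10000) * xV)) + ((cC (-130) 10000)
    * e))
  kapL := fun e => ((((cC (-228) 10000) + ((cC 16 10000) * xD)) + ((cC 690 10000) * xV)) + ((cC (-2) 10000) * e))
  kapU := fun e => ((((cC (-211) 10000) + ((cC (-54) 10000) * xD)) + ((cC 538 10000) * xV)) + ((cC (-5) 10000) *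
    e))
  eL := ⟨(((((((cC 293737 10000) + ((cC (-475046) 10000) * xD)) + ((cC 263055 10000) * xV)) + ((cC 25438
    10000) * (xV * xV))) + ((cC (-17759) 10000) * (xD * xV))) + ((cC 1168170 10000) * (xD *
    xD))) + ((cC (-1015320) 10000) * xS)), (cC 0), (cC 0), cC 0, cC 0⟩
  eH := ⟨((((cC 249836 10000) + ((cC (-16978) 10000) * xV)) + ((cC 24255 10000) * (xD * xV))) + ((cC
    (-713742) 10000) * xS)), (cC 0), (cC 0), cC 0, cC 0⟩
  pL := ⟨(((((((cC 161851 10000) + ((cC (-108277) 10000) * xD)) + ((cC 4209 10000) * xV)) + ((cC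
    (-94665) 10000) * (xD * xV))) + ((cC (-36667) 10000) * (xV * xV))) + ((cC 48817 10000) * (xD
    * xD))) + ((cC (-65414) 10000) * xS)), (((cC 1823 10000) + ((cC (-1533) 10000) * xD)) + ((cC
    (-4114) 10000) * xV)), (cC 0), cC 0, cC 0⟩
  pU := ⟨(((((((cC 162143 10000) + ((cC (-56677) 10000) * xD)) + ((cC (-40213) 10000) * xV)) + ((cC
    (-27840) 10000) * (xD * xV))) + ((cC 57733 10000) * (xV * xV))) + ((cC 106664 10000) * (xD *
    xD))) + ((cC (-115834) 10000) * xS)), (((cC (-808) 10000) + ((cC 2765 10000) * xD)) + ((cC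
    (-1805) 10000) * xV)), (cC 0), cC 0, cC 0⟩
  kU := ⟨(((((((cC (-8371) 10000) + ((cC 8838 10000) * xD)) + ((cC 7399 10000) * xV)) + ((cC (-112)
    10000) * (xD * xV))) + ((cC 4122 10000) * (xV * xV))) + ((cC 1737 10000) * (xD * xD))) +
    ((cC 9550 10000) * xS)), (((cC (-804) 10000) + ((cC 11342 10000) * xD)) + ((cC 251 10000) *
    xV)), (((cC 77 10000) + ((cC 14 10000) * xD)) + ((cC (-278) 10000) * xV)), cC 0, cC 0⟩
  kL := ⟨(((((((cC (-6213) 10000) + ((cC 21559 10000) * xD)) + ((cC (-3895) 10000) * xV)) + ((cC 16761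
    10000) * (xD * xV))) + ((cC (-2523) 10000) * (xV * xV))) + ((cC (-17463) 10000) * (xD *
    xD))) + ((cC 10729 10000) * xS)), (((cC (-700) 10000) + ((cC 11502 10000) * xD)) + ((cC
    (-54) 10000) * xV)), (((cC (-113) 10000) + ((cC (-853) 10000) * xD)) + ((cC 389 10000) *
    xV)), cC 0, cC 0⟩
  wU := ⟨(((((((cC (-884628) 10000) + ((cC 84567 10000) * xD)) + ((cC (-382485) 10000) * xV)) + ((cC
    401175 10000) * (xD * xV))) + ((cC (-385142) 10000) * (xV * xV))) + ((cC (-407702) 10000) *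
    (xD * xD))) + ((cC 955107 10000) * xS)), (((cC (-1326) 10000) + ((cC (-5617) 10000) * xD)) +
    ((cC 17474 10000) * xV)), (((cC 15880 10000) + ((cC 33171 10000) * xD)) + ((cC 80411 10000)
    * xV)), cC 0, cC 0⟩
  wL := ⟨(((((((cC (-898586) 10000) + ((cC 45103 10000) * xD)) + ((cC (-400859) 10000) * xV)) + ((cC
    321398 10000) * (xD * xV))) + ((cC (-426274) 10000) * (xV * xV))) + ((cC (-481000) 10000) *
    (xD * xD))) + ((cC 914868 10000) * xS)), (((cC 972 10000) + ((cC (-6264) 10000) * xD)) +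
    ((cC 10697 10000) * xV)), (((cC 22173 10000) + ((cC 52390 10000) * xD)) + ((cC 66808 10000)
    * xV)), cC 0, cC 0⟩

/-- The box of the bounds of piece 1. -/
def envBox1 : Box := ⟨⟨0, 1001, 1000⟩, ⟨2000, 2021, 3000⟩, ⟨100, 334, 1000⟩, ⟨295, 515, 1000⟩⟩

/-- The box of the signs of piece 1. -/
def signBox1 : Box := ⟨⟨0, 1, 1⟩, ⟨2000, 2021, 3000⟩, ⟨100, 334, 1000⟩, ⟨295, 515, 1000⟩⟩

/-- Piece 2. -/
def piece2 : Piece where
  u₀ := (negU0h (cC 14 20) (cC 6 20))
  u₁ := cC 0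
  tLn := fun u => negCu + negSu * u
  tLd := fun _ => cC 1
  tUn := fun _ => negCl
  tUd := fun _ => cC 1
  p₀ := cC 0
  zL := ((((((cC 9990 10000) + ((cC (-252) 10000) * xD)) + ((cC 7 10000) * xV)) + ((cC (-9281) 10000) *
    (xD * xV))) + ((cC (-24) 10000) * (xV * xV))) + ((cC 1232 10000) * (xD * xD)))
  zU := (((((((cC 9734 10000) + ((cC 8383 10000) * xD)) + ((cC 422 10000) * xV)) + ((cC (-21536) 10000)
    * (xD * xV))) + ((cC (-540) 10000) * (xV * xV))) + ((cC 13159 10000) * (xD * xD))) + ((cC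
    299 10000) * xS))
  k2p := fun e => ((((cC (-3434) 10000) + ((cC 235 10000) * xD)) + ((cC 4861 10000) * xV)) + ((cC (-87) 10000) *
    e))
  k2m := fun e => ((((cC (-10955) 10000) + ((cC 13375 10000) * xD)) + ((cC (-824) 10000) * xV)) + ((cC (-485)
    10000) * e))
  kapL := fun e => ((((cC (-222) 10000) + ((cC 24 10000) * xD)) + ((cC 696 10000) * xV)) + ((cC (-2) 10000) * e))
  kapU := fun e => ((((cC (-248) 10000) + ((cC 11 10000) * xD)) + ((cC 539 10000) * xV)) + ((cC (-6) 10000) * e))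
  eL := ⟨(((((((cC 251113 10000) + ((cC (-379330) 10000) * xD)) + ((cC 241112 10000) * xV)) + ((cC
    (-18796) 10000) * (xV * xV))) + ((cC (-45559) 10000) * (xD * xV))) + ((cC 949340 10000) *
    (xD * xD))) + ((cC (-934034) 10000) * xS)), (cC 0), (cC 0), cC 0, cC 0⟩
  eH := ⟨((((cC 251396 10000) + ((cC (-16978) 10000) * xV)) + ((cC 24255 10000) * (xD * xV))) + ((cC
    (-716158) 10000) * xS)), (cC 0), (cC 0), cC 0, cC 0⟩
  pL := ⟨(((((((cC 202068 10000) + ((cC (-94078) 10000) * xD)) + ((cC (-60496) 10000) * xV)) + ((cC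
    (-43422) 10000) * (xD * xV))) + ((cC (-38989) 10000) * (xV * xV))) + ((cC 156597 10000) *
    (xD * xD))) + ((cC (-93449) 10000) * xS)), (((cC 2386 10000) + ((cC 1557 10000) * xD)) +
    ((cC (-6362) 10000) * xV)), (cC 0), cC 0, cC 0⟩
  pU := ⟨(((((((cC 223487 10000) + ((cC (-53314) 10000) * xD)) + ((cC (-59180) 10000) * xV)) + ((cC
    (-85997) 10000) * (xD * xV))) + ((cC 64502 10000) * (xV * xV))) + ((cC 266168 10000) * (xD *
    xD))) + ((cC (-196255) 10000) * xS)), (((cC (-510) 10000) + ((cC 2902 10000) * xD)) + ((cC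
    (-2541) 10000) * xV)), (cC 0), cC 0, cC 0⟩
  kU := ⟨(((((((cC (-2017) 10000) + ((cC 35211 10000) * xD)) + ((cC 54 10000) * xV)) + ((cC 22013 10000)
    * (xD * xV))) + ((cC 934 10000) * (xV * xV))) + ((cC (-5559) 10000) * (xD * xD))) + ((cC
    (-1771) 10000) * xS)), (((cC (-839) 10000) + ((cC 12266 10000) * xD)) + ((cC 44 10000) *
    xV)), (((cC 105 10000) + ((cC (-689) 10000) * xD)) + ((cC (-122) 10000) * xV)), cC 0, cC 0⟩
  kL := ⟨(((((((cC (-920) 10000) + ((cC 32239 10000) * xD)) + ((cC (-2489) 10000) * xV)) + ((cC 21998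
    10000) * (xD * xV))) + ((cC (-1711) 10000) * (xV * xV))) + ((cC (-27345) 10000) * (xD *
    xD))) + ((cC (-541) 10000) * xS)), (((cC (-802) 10000) + ((cC 12143 10000) * xD)) + ((cC
    (-19) 10000) * xV)), (((cC (-54) 10000) + ((cC (-492) 10000) * xD)) + ((cC 185 10000) *
    xV)), cC 0, cC 0⟩
  wU := ⟨(((((((cC (-1441648) 10000) + ((cC 710741 10000) * xD)) + ((cC (-599437) 10000) * xV)) + ((cC
    1912518 10000) * (xD * xV))) + ((cC (-653408) 10000) * (xV * xV))) + ((cC (-2106695) 10000)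
    * (xD * xD))) + ((cC 1675484 10000) * xS)), (((cC (-2986) 10000) + ((cC (-34060) 10000) *
    xD)) + ((cC 32926 10000) * xV)), (((cC 21255 10000) + ((cC (-105739) 10000) * xD)) + ((cC
    136062 10000) * xV)), cC 0, cC 0⟩
  wL := ⟨(((((((cC (-1677568) 10000) + ((cC 1692050 10000) * xD)) + ((cC (-814711) 10000) * xV)) + ((cC
    4349852 10000) * (xD * xV))) + ((cC (-1205669) 10000) * (xV * xV))) + ((cC (-5511876) 10000)
    * (xD * xD))) + ((cC 1832617 10000) * xS)), (((cC (-2183) 10000) + ((cC (-39761) 10000) *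
    xD)) + ((cC 30495 10000) * xV)), (((cC 30914 10000) + ((cC (-241220) 10000) * xD)) + ((cC
    171321 10000) * xV)), cC 0, cC 0⟩

/-- The box of the bounds of piece 2. -/
def envBox2 : Box := ⟨⟨0, 1001, 1000⟩, ⟨2000, 2021, 3000⟩, ⟨0, 100, 1000⟩, ⟨295, 489, 1000⟩⟩

/-- The box of the signs of piece 2. -/
def signBox2 : Box := ⟨⟨0, 1, 1⟩, ⟨2000, 2021, 3000⟩, ⟨0, 100, 1000⟩, ⟨295, 489, 1000⟩⟩

end Vale.Agent.P100.Calib.Closed.Six.Neg
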