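import Vale.Agent.P100.Calib.SlabSixTailSigns
import Vale.Agent.P100.Calib.SlabSixNegPieces

/-!
# A piece of `u ≤ 0`: the bounds, the ray gap and the signs
-/

set_option linter.unusedVariables false
set_option linter.unusedSimpArgs false

namespace Vale.Agent.P100.Calib.Closed.Six.Neg

open BoxPos Tail Large

local instance sixNegPlaceAdd : Add Ex := ⟨Ex.add⟩
local instance sixNegPlaceSub : Sub Ex := ⟨Ex.sub⟩
local instance sixNegPlaceMul : Mul Ex := ⟨Ex.mul⟩

/-- The checks of a piece: `o` places `u` in `b`, `e` in `b'`. -/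
structure Checked (P : Piece) (b b' : Box) : Prop where
  env : P.Env b
  sign : P.Sign b'
  free : P.consts.all noO = true
  no_mult : ∀ c ∈ P.bnds, c.μ = cC 0 ∧ c.ν = cC 0
  h : ∀ i, PosD b (P.at i xK)
  ll00 : PosD b (negLLG (cC 0) (cC 0))
  ll01 : PosD b (negLLG (cC 0) (cC (-1)))
  ll10 : PosD b (negLLG (cC (-1) * xV) (cC 0))
  ll11 : PosD b (negLLG (cC (-1) * xV) (cC (-1)))
  s₀ : b'.s₀ = ⟨0, 1, 1⟩
  same : b'.s₁ = b.s₁ ∧ b'.s₂ = b.s₂ ∧ b'.s₃ = b.s₃

/-- The value of `negLLG`. -/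
noncomputable def rLLG (S d v q r : ℝ) : ℝ :=
  2 * llq S d v 0 1 - llq S d v 0 2 +
    (2 * llq S d v 1 1 - llq S d v 1 2 - (2 * llq S d v 0 1 - llq S d v 0 2)) * q +
    r * (llq S d v 0 2 - llq S d v 0 1 +
      (llq S d v 1 2 - llq S d v 1 1 - (llq S d v 0 2 - llq S d v 0 1)) * q) +
    17 / 50 * (d * v) * (2 * ((S - d) / 2 + d) * v * d ^ 3 * (2 + d * v) * (1 + d * v) * (q * (2 - S)))

theorem val_negLLG (o S d v : ℝ) (q r : Ex) :
    (negLLG q r).val o S d v = rLLG S d v (q.val o S d v) (r.val o S d v) := by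
  simp only [negLLG, rLLG, ex_add, ex_sub, ex_mul, Ex.val, val_xA,
    val_eLL o S d v 0 1 (by norm_num), val_eLL o S d v 0 2 (by norm_num),
    val_eLL o S d v 1 1 (by norm_num), val_eLL o S d v 1 2 (by norm_num)]
  push_cast
  ring

theorem rLLG_bilinear (S d v q r : ℝ) :
    v * rLLG S d v q r = (v + q) * ((1 + r) * rLLG S d v 0 0 + -r * rLLG S d v 0 (-1)) +
      -q * ((1 + r) * rLLG S d v (-1 * v) 0 + -r * rLLG S d v (-1 * v) (-1)) := by
  simp only [rLLG]
  ring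

/-- `LLG` is above `rLLG` where `-v ≤ u h/d ≤ 0`. -/
theorem llg_ge {S d v W R : ℝ} (hd : 0 ≤ d) (hv : 0 ≤ v) (hdS : d ≤ S) (hS : S < 1)
    (hq : W * R ≤ 0) (hz : 0 ≤ v + W * R) (g W1 : ℝ) :
    rLLG S d v (W * R) R ≤ ClosedGen.LLGS ((S - d) / 2) d v g W W1 R (sixNum d v W R) := by
  have h1 : 0 < 1 + d * v := by
    have := mul_nonneg hd hv
    linarith
  set c := 2 * ((S - d) / 2 + d) * v * d ^ 3 * (2 + d * v) * (1 + d * v) * (W * R * (2 - S))
    with hc
  set z := (1 - R * d * W) / (1 + d * v) with hzd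
  have hc0 : c ≤ 0 := mul_nonpos_of_nonneg_of_nonpos
    (mul_nonneg (mul_nonneg (mul_nonneg (mul_nonneg (mul_nonneg (by norm_num) (by linarith)) hv)
      (pow_nonneg hd 3)) (by linarith [mul_nonneg hd hv])) h1.le)
    (mul_nonpos_of_nonpos_of_nonneg hq (by linarith))
  have hz1 : 1 - z ≤ d * v := by
    rw [hzd, sub_le_iff_le_add, ← sub_le_iff_le_add', le_div_iff₀ h1]
    have := mul_nonneg_of_nonpos_of_nonpos (neg_nonpos.2 hd) hq
    have := mul_nonneg (mul_nonneg hd hv) (mul_nonneg hd hv)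
    linarith
  have key := mul_le_mul_of_nonpos_right hz1 hc0
  have e1 := Tail.LLG_llq S d v g W W1 R
  have e2 : ClosedGen.LLGS ((S - d) / 2) d v g W W1 R (sixNum d v W R) =
      ClosedGen.LLGS ((S - d) / 2) d v g W W1 R (numQ d v (W * R)) + 17 / 50 * ((1 - z) * c) := by
    simp only [hc, hzd, ClosedGen.LLGS, sixNum, numQ, ClosedGen.LG_g, ClosedGen.LG_kw, Closed.LLGc,
      Closed.LLGv, Closed.LLGw]
    ring
  rw [e2, e1]
  simp only [rLLG, ← hc]
  linarith

/-- **The signs on a piece of `u ≤ 0`.** -/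
theorem Checked.signs {P : Piece} {b b' : Box} (K : Checked P b b') {o d S u v t : ℝ}
    (h₀ : b.s₀.Mem o) (h₁ : b.s₁.Mem S) (h₂ : b.s₂.Mem d) (h₃ : b.s₃.Mem v) (hd : 0 < d)
    (hD : Dom S d v) (hS0 : 0 < S) (hS : S < 1) (hv : 0 < v) (hdS : d ≤ S)
    (hu : u ≤ 0) (hR : -(1 - S) ≤ S * u) (hz : 0 ≤ v + u * chH d S u v t)
    (hxu : P.xU.val o S d v = u)
    (hL : (P.tLn P.xU).val o S d v ≤ t * (P.tLd P.xU).val o S d v)
    (hU : t * (P.tUd P.xU).val o S d v ≤ (P.tUn P.xU).val o S d v) :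
    Six.ChartSigns d S u v t := by
  set H := chH d S u v t with hH
  have hB0 : 0 < (S + d) / 2 * (2 - S) := mul_pos (by linarith) (by linarith)
  have eK : rK S d v u t 1 = (S + d) / 2 * (2 - S) * H := by
    simp only [rK, hH, chH]
    field_simp [show (2 : ℝ) - S ≠ 0 by linarith, show S + d ≠ 0 by linarith]
  have hH0 : 0 < H := by
    have h := bound_pos (f := fun n m => rK S d v u n m) (t := t)
      (fun n m => by rw [val_xK, hxu]) (fun n m => by simp only [rK]; ring)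
      K.h K.env.den hD h₀ h₁ h₂ h₃ hL hU
    rw [eK] at h
    exact pos_of_mul_pos_right h hB0.le
  have hq : u * H ≤ 0 := mul_nonpos_of_nonpos_of_nonneg hu hH0.le
  have hZH : 0 < 2 + d * v - d * u * chH d S u v t := by
    have := mul_nonpos_of_nonneg_of_nonpos hd.le hq
    have := mul_pos hd hv
    rw [← hH]
    linarith
  have L := chart_place_core K.env h₀ h₁ h₂ h₃ hd hD hS0 hS hv hZH
    (fun c hc => by
      obtain ⟨e₁, e₂⟩ := K.no_mult c hc
      simp [e₁, e₂, Ex.val]) hxu hL hU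
  have eWR : chW d S u v t * chR S u = u * H := by
    simp only [chW, chR, hH]
    field_simp [hS0.ne', show (1 : ℝ) - S ≠ 0 by linarith]
  have hllg : 0 ≤ ClosedGen.LLGS ((S - d) / 2) d v (chG d S u v t) (chW d S u v t)
      (chW1 d S u v t) (chR S u) (sixNum d v (chW d S u v t) (chR S u)) := by
    refine le_trans ?_ (llg_ge hd.le hv.le hdS hS (eWR ▸ hq) (eWR ▸ hz) _ _)
    rw [eWR]
    have hr0 : chR S u ≤ 0 := by
      simp only [chR]
      exact div_nonpos_of_nonpos_of_nonneg (mul_nonpos_of_nonneg_of_nonpos hS0.le hu) (by linarith)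
    have hr1 : 0 ≤ 1 + chR S u := by
      simp only [chR]
      rw [← neg_le_iff_add_nonneg', le_div_iff₀ (by linarith)]
      linarith
    have c00 := K.ll00 o S d v h₀ h₁ h₂ h₃ hD
    have c01 := K.ll01 o S d v h₀ h₁ h₂ h₃ hD
    have c10 := K.ll10 o S d v h₀ h₁ h₂ h₃ hD
    have c11 := K.ll11 o S d v h₀ h₁ h₂ h₃ hD
    simp only [val_negLLG, ex_mul, Ex.val] at c00 c01 c10 c11
    push_cast at c00 c01 c10 c11
    simp only [div_one] at c00 c01 c10 c11
    refine nonneg_of_mul_nonneg_right ?_ hv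
    rw [rLLG_bilinear]
    exact add_nonneg (mul_nonneg hz (add_nonneg (mul_nonneg hr1 c00.le)
      (mul_nonneg (neg_nonneg.2 hr0) c01.le)))
      (mul_nonneg (neg_nonneg.2 hq) (add_nonneg (mul_nonneg hr1 c10.le)
        (mul_nonneg (neg_nonneg.2 hr0) c11.le)))
  obtain ⟨e₁, e₂, e₃⟩ := K.same
  exact L.signs_core K.sign K.free K.s₀ (e₁ ▸ h₁) (e₂ ▸ h₂) (e₃ ▸ h₃) hd hD hS0 hS hv hdS hH0 hllg

end Vale.Agent.P100.Calib.Closed.Six.Neg
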