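import Vale.Agent.P100.Calib.SlabSixRatExpr

/-!
# Certificates of the rational bands on the slab of dimension six
-/

-- The checks are definitions, so that they run one after another with little memory.
set_option linter.defProp false

namespace Vale.Agent.P100.Calib.Band

open BoxPos

local instance sixratchecksaAdd : Add Ex := ⟨Ex.add⟩
local instance sixratchecksaSub : Sub Ex := ⟨Ex.sub⟩
local instance sixratchecksaMul : Mul Ex := ⟨Ex.mul⟩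

def six_tail_start :
    sixTStart.checkQuick
      ⟨87, ⟨3, 0, 4, 0⟩⟩
      ⟨⟨0, 301, 1000⟩, ⟨0, 1, 1000⟩, ⟨0, 334, 1000⟩, sideS6⟩ = true := by
  decide +kernel

def six_tail_end_le :
    (eC 25 * sixEG - sixEN).checkQuick
      ⟨63, ⟨0, 0, 2, 0⟩⟩
      ⟨⟨0, 1, 1000⟩, ⟨0, 1, 1000⟩, ⟨0, 334, 1000⟩, sideS6⟩ = true := by
  decide +kernel

def six_tail_end_pos :
    sixEN.checkQuick
      ⟨62, ⟨0, 0, 2, 0⟩⟩
      ⟨⟨0, 1, 1000⟩, ⟨0, 1, 1000⟩, ⟨0, 334, 1000⟩, sideS6⟩ = true := by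
  decide +kernel

def six_tail_ge :
    (sixTN + eC 6 * sixTG).checkQuick
      ⟨69, ⟨2, 0, 2, 0⟩⟩
      ⟨⟨0, 976, 1000⟩, ⟨0, 1, 1000⟩, ⟨0, 334, 1000⟩, sideS6⟩ = true := by
  decide +kernel

def six_tail_step :
    (sixTN * sixEG - sixEN * sixTG).checkQuick
      ⟨109, ⟨2, 0, 4, 0⟩⟩
      ⟨⟨970, 976, 1000⟩, ⟨0, 1, 1000⟩, ⟨0, 334, 1000⟩, sideS6⟩ = true := by
  decide +kernel

def six_const_975_988_290_0 :
    (sixECond 0 0).checkQuick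
      ⟨326, ⟨3, 3, 11, 6⟩⟩
      ⟨⟨975, 988, 1000⟩, ⟨290, 2020, 1000⟩, ⟨0, 167, 1000⟩, sideS6⟩ = true := by
  decide +kernel

def six_const_975_988_2020_0 :
    (sixECond 0 0).checkQuick
      ⟨327, ⟨3, 3, 11, 6⟩⟩
      ⟨⟨975, 988, 1000⟩, ⟨2020, 2885, 1000⟩, ⟨0, 167, 1000⟩, sideS6⟩ = true := by
  decide +kernel

def six_const_975_988_2885_0 :
    (sixECond 26892 0).checkQuick
      ⟨328, ⟨3, 3, 11, 6⟩⟩
      ⟨⟨975, 988, 1000⟩, ⟨2885, 3751, 1000⟩, ⟨0, 167, 1000⟩, sideS6⟩ = true := by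
  decide +kernel

def six_const_975_988_290_167 :
    (sixECond 0 0).checkQuick
      ⟨331, ⟨3, 3, 11, 6⟩⟩
      ⟨⟨975, 988, 1000⟩, ⟨290, 1643, 1000⟩, ⟨167, 334, 1000⟩, sideS6⟩ = true := by
  decide +kernel

def six_const_975_988_1643_167 :
    (sixECond 6022 0).checkQuick
      ⟨330, ⟨3, 3, 11, 6⟩⟩
      ⟨⟨975, 988, 1000⟩, ⟨1643, 2996, 1000⟩, ⟨167, 187, 1000⟩, sideS6⟩ = true := by
  decide +kernel

def six_const_975_988_1643_187 :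
    (sixECond 3539 0).checkQuick
      ⟨330, ⟨3, 3, 11, 6⟩⟩
      ⟨⟨975, 988, 1000⟩, ⟨1643, 2675, 1000⟩, ⟨187, 208, 1000⟩, sideS6⟩ = true := by
  decide +kernel

def six_const_975_988_1643_208 :
    (sixECond 6169 0).checkQuick
      ⟨331, ⟨3, 3, 11, 6⟩⟩
      ⟨⟨975, 988, 1000⟩, ⟨1643, 2405, 1000⟩, ⟨208, 250, 1000⟩, sideS6⟩ = true := by
  decide +kernel

def six_const_975_988_1643_250 :
    (sixECond 4475 0).checkQuick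
      ⟨333, ⟨3, 3, 11, 6⟩⟩
      ⟨⟨975, 988, 1000⟩, ⟨1643, 2001, 1000⟩, ⟨250, 334, 1000⟩, sideS6⟩ = true := by
  decide +kernel

def six_const_988_1001_290_0 :
    (sixECond 0 0).checkQuick
      ⟨326, ⟨3, 3, 11, 6⟩⟩
      ⟨⟨988, 1001, 1000⟩, ⟨290, 2020, 1000⟩, ⟨0, 167, 1000⟩, sideS6⟩ = true := by
  decide +kernel

def six_const_988_1001_2020_0 :
    (sixECond 0 0).checkQuick
      ⟨327, ⟨3, 3, 11, 6⟩⟩
      ⟨⟨988, 1001, 1000⟩, ⟨2020, 2885, 1000⟩, ⟨0, 167, 1000⟩, sideS6⟩ = true := by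
  decide +kernel

def six_const_988_1001_2885_0 :
    (sixECond 0 0).checkQuick
      ⟨325, ⟨3, 3, 11, 6⟩⟩
      ⟨⟨988, 1001, 1000⟩, ⟨2885, 3429, 1000⟩, ⟨0, 83, 1000⟩, sideS6⟩ = true := by
  decide +kernel

def six_const_988_1001_2885_83 :
    (sixECond 0 0).checkQuick
      ⟨328, ⟨3, 3, 11, 6⟩⟩
      ⟨⟨988, 1001, 1000⟩, ⟨2885, 3695, 1000⟩, ⟨83, 125, 1000⟩, sideS6⟩ = true := by
  decide +kernel

def six_const_988_1001_2885_125 :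
    (sixECond 0 0).checkQuick
      ⟨328, ⟨3, 3, 11, 6⟩⟩
      ⟨⟨988, 1001, 1000⟩, ⟨2885, 3751, 1000⟩, ⟨125, 135, 1000⟩, sideS6⟩ = true := by
  decide +kernel

def six_const_988_1001_2885_135 :
    (sixECond 0 0).checkQuick
      ⟨329, ⟨3, 3, 11, 6⟩⟩
      ⟨⟨988, 1001, 1000⟩, ⟨2885, 3705, 1000⟩, ⟨135, 140, 1000⟩, sideS6⟩ = true := by
  decide +kernel

def six_const_988_1001_2885_140 :
    (sixECond 0 0).checkQuick
      ⟨329, ⟨3, 3, 11, 6⟩⟩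
      ⟨⟨988, 1001, 1000⟩, ⟨2885, 3573, 1000⟩, ⟨140, 146, 1000⟩, sideS6⟩ = true := by
  decide +kernel

def six_const_988_1001_2885_146 :
    (sixECond 0 0).checkQuick
      ⟨329, ⟨3, 3, 11, 6⟩⟩
      ⟨⟨988, 1001, 1000⟩, ⟨2885, 3426, 1000⟩, ⟨146, 156, 1000⟩, sideS6⟩ = true := by
  decide +kernel

def six_const_988_1001_2885_156 :
    (sixECond 0 0).checkQuick
      ⟨329, ⟨3, 3, 11, 6⟩⟩
      ⟨⟨988, 1001, 1000⟩, ⟨2885, 3207, 1000⟩, ⟨156, 167, 1000⟩, sideS6⟩ = true := by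
  decide +kernel

def six_const_988_1001_290_167 :
    (sixECond 0 0).checkQuick
      ⟨330, ⟨3, 3, 11, 6⟩⟩
      ⟨⟨988, 1001, 1000⟩, ⟨290, 1643, 1000⟩, ⟨167, 250, 1000⟩, sideS6⟩ = true := by
  decide +kernel

def six_const_988_1001_1643_167 :
    (sixECond 0 0).checkQuick
      ⟨330, ⟨3, 3, 11, 6⟩⟩
      ⟨⟨988, 1001, 1000⟩, ⟨1643, 2996, 1000⟩, ⟨167, 177, 1000⟩, sideS6⟩ = true := by
  decide +kernel

def six_const_988_1001_1643_177 :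
    (sixECond 0 0).checkQuick
      ⟨330, ⟨3, 3, 11, 6⟩⟩
      ⟨⟨988, 1001, 1000⟩, ⟨1643, 2826, 1000⟩, ⟨177, 187, 1000⟩, sideS6⟩ = true := by
  decide +kernel

def six_const_988_1001_1643_187 :
    (sixECond 9726 355).checkQuick
      ⟨330, ⟨3, 3, 11, 6⟩⟩
      ⟨⟨988, 1001, 1000⟩, ⟨1643, 2675, 1000⟩, ⟨187, 208, 1000⟩, sideS6⟩ = true := by
  decide +kernel

def six_const_988_1001_1643_208 :
    (sixECond 2026 0).checkQuick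
      ⟨331, ⟨3, 3, 11, 6⟩⟩
      ⟨⟨988, 1001, 1000⟩, ⟨1643, 2405, 1000⟩, ⟨208, 229, 1000⟩, sideS6⟩ = true := by
  decide +kernel

def six_const_988_1001_1643_229 :
    (sixECond 0 0).checkQuick
      ⟨331, ⟨3, 3, 11, 6⟩⟩
      ⟨⟨988, 1001, 1000⟩, ⟨1643, 2185, 1000⟩, ⟨229, 250, 1000⟩, sideS6⟩ = true := by
  decide +kernel

def six_const_988_1001_290_250 :
    (sixECond 0 0).checkQuick
      ⟨332, ⟨3, 3, 11, 6⟩⟩
      ⟨⟨988, 1001, 1000⟩, ⟨290, 1145, 1000⟩, ⟨250, 292, 1000⟩, sideS6⟩ = true := by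
  decide +kernel

def six_const_988_1001_1145_250 :
    (sixECond 4570 182).checkQuick
      ⟨332, ⟨3, 3, 11, 6⟩⟩
      ⟨⟨988, 1001, 1000⟩, ⟨1145, 2001, 1000⟩, ⟨250, 292, 1000⟩, sideS6⟩ = true := by
  decide +kernel

def six_const_988_1001_290_292 :
    (sixECond 0 0).checkQuick
      ⟨333, ⟨3, 3, 11, 6⟩⟩
      ⟨⟨988, 1001, 1000⟩, ⟨290, 1714, 1000⟩, ⟨292, 313, 1000⟩, sideS6⟩ = true := by
  decide +kernel

def six_const_988_1001_290_313 :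
    (sixECond 0 0).checkQuick
      ⟨333, ⟨3, 3, 11, 6⟩⟩
      ⟨⟨988, 1001, 1000⟩, ⟨290, 1599, 1000⟩, ⟨313, 334, 1000⟩, sideS6⟩ = true := by
  decide +kernel

def six_tail_300_487_290_0 :
    (sixTCond 0 0).checkQuick
      ⟨341, ⟨8, 3, 11, 6⟩⟩
      ⟨⟨300, 487, 1000⟩, ⟨290, 835, 1000⟩, ⟨0, 334, 1000⟩, sideS6⟩ = true := by
  decide +kernel

def six_tail_487_675_290_0 :
    (sixTCond 0 93).checkQuick
      ⟨340, ⟨8, 3, 11, 6⟩⟩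
      ⟨⟨487, 675, 1000⟩, ⟨290, 883, 1000⟩, ⟨0, 167, 1000⟩, sideS6⟩ = true := by
  decide +kernel

def six_tail_487_675_290_167 :
    (sixTCond 0 0).checkQuick
      ⟨344, ⟨8, 3, 11, 6⟩⟩
      ⟨⟨487, 675, 1000⟩, ⟨290, 883, 1000⟩, ⟨167, 334, 1000⟩, sideS6⟩ = true := by
  decide +kernel

def six_tail_300_675_883_0 :
    (sixTCond 0 0).checkQuick
      ⟨342, ⟨8, 3, 11, 6⟩⟩
      ⟨⟨300, 675, 1000⟩, ⟨883, 1476, 1000⟩, ⟨0, 334, 1000⟩, sideS6⟩ = true := by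
  decide +kernel

def six_tail_675_800_290_0 :
    (sixTCond 0 555).checkQuick
      ⟨342, ⟨8, 3, 11, 6⟩⟩
      ⟨⟨675, 800, 1000⟩, ⟨290, 590, 1000⟩, ⟨0, 250, 1000⟩, sideS6⟩ = true := by
  decide +kernel

def six_tail_675_800_590_0 :
    (sixTCond 0 444).checkQuick
      ⟨340, ⟨8, 3, 11, 6⟩⟩
      ⟨⟨675, 800, 1000⟩, ⟨590, 740, 1000⟩, ⟨0, 125, 1000⟩, sideS6⟩ = true := by
  decide +kernel

def six_tail_675_800_740_0 :
    (sixTCond 0 284).checkQuick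
      ⟨339, ⟨8, 3, 11, 6⟩⟩
      ⟨⟨675, 800, 1000⟩, ⟨740, 890, 1000⟩, ⟨0, 62, 1000⟩, sideS6⟩ = true := by
  decide +kernel

def six_tail_675_737_740_62 :
    (sixTCond 0 0).checkQuick
      ⟨341, ⟨8, 3, 11, 6⟩⟩
      ⟨⟨675, 737, 1000⟩, ⟨740, 890, 1000⟩, ⟨62, 125, 1000⟩, sideS6⟩ = true := by
  decide +kernel

def six_tail_737_800_740_62 :
    (sixTCond 0 444).checkQuick
      ⟨341, ⟨8, 3, 11, 6⟩⟩
      ⟨⟨737, 800, 1000⟩, ⟨740, 777, 1000⟩, ⟨62, 125, 1000⟩, sideS6⟩ = true := by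
  decide +kernel

def six_tail_737_768_777_62 :
    (sixTCond 0 0).checkQuick
      ⟨341, ⟨8, 3, 11, 6⟩⟩
      ⟨⟨737, 768, 1000⟩, ⟨777, 815, 1000⟩, ⟨62, 93, 1000⟩, sideS6⟩ = true := by
  decide +kernel

def six_tail_768_784_777_62 :
    (sixTCond 0 284).checkQuick
      ⟨341, ⟨8, 3, 11, 6⟩⟩
      ⟨⟨768, 784, 1000⟩, ⟨777, 815, 1000⟩, ⟨62, 93, 1000⟩, sideS6⟩ = true := by
  decide +kernel

def six_tail_784_800_777_62 :
    (sixTCond 0 444).checkQuick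
      ⟨341, ⟨8, 3, 11, 6⟩⟩
      ⟨⟨784, 800, 1000⟩, ⟨777, 796, 1000⟩, ⟨62, 93, 1000⟩, sideS6⟩ = true := by
  decide +kernel

def six_tail_784_800_796_62 :
    (sixTCond 0 355).checkQuick
      ⟨341, ⟨8, 3, 11, 6⟩⟩
      ⟨⟨784, 800, 1000⟩, ⟨796, 815, 1000⟩, ⟨62, 93, 1000⟩, sideS6⟩ = true := by
  decide +kernel

def six_tail_737_768_777_93 :
    (sixTCond 0 0).checkQuick
      ⟨342, ⟨8, 3, 11, 6⟩⟩
      ⟨⟨737, 768, 1000⟩, ⟨777, 815, 1000⟩, ⟨93, 125, 1000⟩, sideS6⟩ = true := by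
  decide +kernel

def six_tail_768_784_777_93 :
    (sixTCond 0 284).checkQuick
      ⟨342, ⟨8, 3, 11, 6⟩⟩
      ⟨⟨768, 784, 1000⟩, ⟨777, 815, 1000⟩, ⟨93, 125, 1000⟩, sideS6⟩ = true := by
  decide +kernel

def six_tail_784_800_777_93 :
    (sixTCond 0 444).checkQuick
      ⟨342, ⟨8, 3, 11, 6⟩⟩
      ⟨⟨784, 800, 1000⟩, ⟨777, 796, 1000⟩, ⟨93, 125, 1000⟩, sideS6⟩ = true := by
  decide +kernel

def six_tail_784_792_796_93 :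
    (sixTCond 0 284).checkQuick
      ⟨342, ⟨8, 3, 11, 6⟩⟩
      ⟨⟨784, 792, 1000⟩, ⟨796, 815, 1000⟩, ⟨93, 109, 1000⟩, sideS6⟩ = true := by
  decide +kernel

def six_tail_792_800_796_93 :
    (sixTCond 0 444).checkQuick
      ⟨342, ⟨8, 3, 11, 6⟩⟩
      ⟨⟨792, 800, 1000⟩, ⟨796, 800, 1000⟩, ⟨93, 109, 1000⟩, sideS6⟩ = true := by
  decide +kernel

def six_tail_792_800_800_93 :
    (sixTCond 0 355).checkQuick
      ⟨342, ⟨8, 3, 11, 6⟩⟩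
      ⟨⟨792, 800, 1000⟩, ⟨800, 805, 1000⟩, ⟨93, 109, 1000⟩, sideS6⟩ = true := by
  decide +kernel

def six_tail_792_800_805_93 :
    (sixTCond 0 355).checkQuick
      ⟨342, ⟨8, 3, 11, 6⟩⟩
      ⟨⟨792, 800, 1000⟩, ⟨805, 815, 1000⟩, ⟨93, 109, 1000⟩, sideS6⟩ = true := by
  decide +kernel

def six_tail_784_800_796_109 :
    (sixTCond 0 227).checkQuick
      ⟨342, ⟨8, 3, 11, 6⟩⟩
      ⟨⟨784, 800, 1000⟩, ⟨796, 815, 1000⟩, ⟨109, 125, 1000⟩, sideS6⟩ = true := by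
  decide +kernel

def six_tail_737_800_815_62 :
    (sixTCond 0 0).checkQuick
      ⟨341, ⟨8, 3, 11, 6⟩⟩
      ⟨⟨737, 800, 1000⟩, ⟨815, 890, 1000⟩, ⟨62, 125, 1000⟩, sideS6⟩ = true := by
  decide +kernel

def six_tail_675_800_590_125 :
    (sixTCond 0 355).checkQuick
      ⟨344, ⟨8, 3, 11, 6⟩⟩
      ⟨⟨675, 800, 1000⟩, ⟨590, 890, 1000⟩, ⟨125, 250, 1000⟩, sideS6⟩ = true := by
  decide +kernel

def six_tail_675_800_890_0 :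
    (sixTCond 0 0).checkQuick
      ⟨342, ⟨8, 3, 11, 6⟩⟩
      ⟨⟨675, 800, 1000⟩, ⟨890, 1491, 1000⟩, ⟨0, 250, 1000⟩, sideS6⟩ = true := by
  decide +kernel

end Vale.Agent.P100.Calib.Band
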