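import Vale.Agent.P100.Calib.SlabSixRatExpr

/-!
# Certificates of the rational bands on the slab of dimension six
-/

-- The checks are definitions, so that they run one after another with little memory.
set_option linter.defProp false

namespace Vale.Agent.P100.Calib.Band

open BoxPos

local instance sixratchecksbAdd : Add Ex := ⟨Ex.add⟩
local instance sixratchecksbSub : Sub Ex := ⟨Ex.sub⟩
local instance sixratchecksbMul : Mul Ex := ⟨Ex.mul⟩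

def six_tail_675_737_1491_0 :
    (sixTCond 0 0).checkQuick
      ⟨342, ⟨8, 3, 11, 6⟩⟩
      ⟨⟨675, 737, 1000⟩, ⟨1491, 1975, 1000⟩, ⟨0, 250, 1000⟩, sideS6⟩ = true := by
  decide +kernel

def six_tail_737_768_1491_0 :
    (sixTCond 1899 0).checkQuick
      ⟨342, ⟨8, 3, 11, 6⟩⟩
      ⟨⟨737, 768, 1000⟩, ⟨1491, 2360, 1000⟩, ⟨0, 250, 1000⟩, sideS6⟩ = true := by
  decide +kernel

def six_tail_768_800_1491_0 :
    (sixTCond 400 0).checkQuick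
      ⟨343, ⟨8, 3, 11, 6⟩⟩
      ⟨⟨768, 800, 1000⟩, ⟨1491, 2092, 1000⟩, ⟨0, 250, 1000⟩, sideS6⟩ = true := by
  decide +kernel

def six_tail_768_800_2092_0 :
    (sixTCond 2884 0).checkQuick
      ⟨343, ⟨8, 3, 11, 6⟩⟩
      ⟨⟨768, 800, 1000⟩, ⟨2092, 2693, 1000⟩, ⟨0, 250, 1000⟩, sideS6⟩ = true := by
  decide +kernel

def six_tail_675_800_290_250 :
    (sixTCond 0 75).checkQuick
      ⟨346, ⟨8, 3, 11, 6⟩⟩
      ⟨⟨675, 800, 1000⟩, ⟨290, 1145, 1000⟩, ⟨250, 334, 1000⟩, sideS6⟩ = true := by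
  decide +kernel

def six_tail_675_737_1145_250 :
    (sixTCond 0 0).checkQuick
      ⟨346, ⟨8, 3, 11, 6⟩⟩
      ⟨⟨675, 737, 1000⟩, ⟨1145, 1632, 1000⟩, ⟨250, 292, 1000⟩, sideS6⟩ = true := by
  decide +kernel

def six_tail_675_737_1145_292 :
    (sixTCond 0 0).checkQuick
      ⟨347, ⟨8, 3, 11, 6⟩⟩
      ⟨⟨675, 737, 1000⟩, ⟨1145, 1454, 1000⟩, ⟨292, 334, 1000⟩, sideS6⟩ = true := by
  decide +kernel

def six_tail_737_800_1145_250 :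
    (sixTCond 1068 0).checkQuick
      ⟨346, ⟨8, 3, 11, 6⟩⟩
      ⟨⟨737, 800, 1000⟩, ⟨1145, 2001, 1000⟩, ⟨250, 271, 1000⟩, sideS6⟩ = true := by
  decide +kernel

def six_tail_737_800_1145_271 :
    (sixTCond 357 0).checkQuick
      ⟨346, ⟨8, 3, 11, 6⟩⟩
      ⟨⟨737, 800, 1000⟩, ⟨1145, 1847, 1000⟩, ⟨271, 281, 1000⟩, sideS6⟩ = true := by
  decide +kernel

def six_tail_737_800_1145_281 :
    (sixTCond 481 0).checkQuick
      ⟨347, ⟨8, 3, 11, 6⟩⟩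
      ⟨⟨737, 800, 1000⟩, ⟨1145, 1781, 1000⟩, ⟨281, 292, 1000⟩, sideS6⟩ = true := by
  decide +kernel

def six_tail_737_800_1145_292 :
    (sixTCond 440 0).checkQuick
      ⟨347, ⟨8, 3, 11, 6⟩⟩
      ⟨⟨737, 800, 1000⟩, ⟨1145, 1714, 1000⟩, ⟨292, 302, 1000⟩, sideS6⟩ = true := by
  decide +kernel

def six_tail_737_800_1145_302 :
    (sixTCond 0 0).checkQuick
      ⟨347, ⟨8, 3, 11, 6⟩⟩
      ⟨⟨737, 800, 1000⟩, ⟨1145, 1657, 1000⟩, ⟨302, 307, 1000⟩, sideS6⟩ = true := by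
  decide +kernel

def six_tail_737_800_1145_307 :
    (sixTCond 0 0).checkQuick
      ⟨347, ⟨8, 3, 11, 6⟩⟩
      ⟨⟨737, 800, 1000⟩, ⟨1145, 1630, 1000⟩, ⟨307, 313, 1000⟩, sideS6⟩ = true := by
  decide +kernel

def six_tail_737_768_1145_313 :
    (sixTCond 0 0).checkQuick
      ⟨347, ⟨8, 3, 11, 6⟩⟩
      ⟨⟨737, 768, 1000⟩, ⟨1145, 1526, 1000⟩, ⟨313, 323, 1000⟩, sideS6⟩ = true := by
  decide +kernel

def six_tail_737_768_1145_323 :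
    (sixTCond 0 0).checkQuick
      ⟨347, ⟨8, 3, 11, 6⟩⟩
      ⟨⟨737, 768, 1000⟩, ⟨1145, 1455, 1000⟩, ⟨323, 334, 1000⟩, sideS6⟩ = true := by
  decide +kernel

def six_tail_768_800_1145_313 :
    (sixTCond 0 0).checkQuick
      ⟨347, ⟨8, 3, 11, 6⟩⟩
      ⟨⟨768, 800, 1000⟩, ⟨1145, 1599, 1000⟩, ⟨313, 318, 1000⟩, sideS6⟩ = true := by
  decide +kernel

def six_tail_768_800_1145_318 :
    (sixTCond 0 0).checkQuick
      ⟨347, ⟨8, 3, 11, 6⟩⟩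
      ⟨⟨768, 800, 1000⟩, ⟨1145, 1574, 1000⟩, ⟨318, 323, 1000⟩, sideS6⟩ = true := by
  decide +kernel

def six_tail_768_800_1145_323 :
    (sixTCond 0 0).checkQuick
      ⟨348, ⟨8, 3, 11, 6⟩⟩
      ⟨⟨768, 800, 1000⟩, ⟨1145, 1549, 1000⟩, ⟨323, 328, 1000⟩, sideS6⟩ = true := by
  decide +kernel

def six_tail_768_800_1145_328 :
    (sixTCond 0 0).checkQuick
      ⟨348, ⟨8, 3, 11, 6⟩⟩
      ⟨⟨768, 800, 1000⟩, ⟨1145, 1526, 1000⟩, ⟨328, 331, 1000⟩, sideS6⟩ = true := by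
  decide +kernel

def six_tail_768_800_1145_331 :
    (sixTCond 0 0).checkQuick
      ⟨348, ⟨8, 3, 11, 6⟩⟩
      ⟨⟨768, 800, 1000⟩, ⟨1145, 1512, 1000⟩, ⟨331, 334, 1000⟩, sideS6⟩ = true := by
  decide +kernel

def six_tail_800_930_290_0 :
    (sixTCond 0 867).checkQuick
      ⟨344, ⟨8, 3, 11, 6⟩⟩
      ⟨⟨800, 930, 1000⟩, ⟨290, 722, 1000⟩, ⟨0, 334, 1000⟩, sideS6⟩ = true := by
  decide +kernel

def six_tail_800_865_722_0 :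
    (sixTCond 0 444).checkQuick
      ⟨340, ⟨8, 3, 11, 6⟩⟩
      ⟨⟨800, 865, 1000⟩, ⟨722, 830, 1000⟩, ⟨0, 83, 1000⟩, sideS6⟩ = true := by
  decide +kernel

def six_tail_800_865_830_0 :
    (sixTCond 0 182).checkQuick
      ⟨340, ⟨8, 3, 11, 6⟩⟩
      ⟨⟨800, 865, 1000⟩, ⟨830, 938, 1000⟩, ⟨0, 83, 1000⟩, sideS6⟩ = true := by
  decide +kernel

def six_tail_800_865_938_0 :
    (sixTCond 0 0).checkQuick
      ⟨340, ⟨8, 3, 11, 6⟩⟩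
      ⟨⟨800, 865, 1000⟩, ⟨938, 1155, 1000⟩, ⟨0, 83, 1000⟩, sideS6⟩ = true := by
  decide +kernel

def six_tail_800_865_722_83 :
    (sixTCond 0 444).checkQuick
      ⟨343, ⟨8, 3, 11, 6⟩⟩
      ⟨⟨800, 865, 1000⟩, ⟨722, 776, 1000⟩, ⟨83, 167, 1000⟩, sideS6⟩ = true := by
  decide +kernel

def six_tail_800_865_776_83 :
    (sixTCond 0 867).checkQuick
      ⟨343, ⟨8, 3, 11, 6⟩⟩
      ⟨⟨800, 865, 1000⟩, ⟨776, 803, 1000⟩, ⟨83, 167, 1000⟩, sideS6⟩ = true := by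
  decide +kernel

def six_tail_800_832_803_83 :
    (sixTCond 0 355).checkQuick
      ⟨342, ⟨8, 3, 11, 6⟩⟩
      ⟨⟨800, 832, 1000⟩, ⟨803, 830, 1000⟩, ⟨83, 104, 1000⟩, sideS6⟩ = true := by
  decide +kernel

def six_tail_800_832_803_104 :
    (sixTCond 0 355).checkQuick
      ⟨342, ⟨8, 3, 11, 6⟩⟩
      ⟨⟨800, 832, 1000⟩, ⟨803, 830, 1000⟩, ⟨104, 125, 1000⟩, sideS6⟩ = true := by
  decide +kernel

def six_tail_832_865_803_83 :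
    (sixTCond 0 284).checkQuick
      ⟨342, ⟨8, 3, 11, 6⟩⟩
      ⟨⟨832, 865, 1000⟩, ⟨803, 830, 1000⟩, ⟨83, 125, 1000⟩, sideS6⟩ = true := by
  decide +kernel

def six_tail_800_865_803_125 :
    (sixTCond 0 10).checkQuick
      ⟨343, ⟨8, 3, 11, 6⟩⟩
      ⟨⟨800, 865, 1000⟩, ⟨803, 830, 1000⟩, ⟨125, 167, 1000⟩, sideS6⟩ = true := by
  decide +kernel

def six_tail_800_865_830_83 :
    (sixTCond 0 146).checkQuick
      ⟨343, ⟨8, 3, 11, 6⟩⟩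
      ⟨⟨800, 865, 1000⟩, ⟨830, 938, 1000⟩, ⟨83, 167, 1000⟩, sideS6⟩ = true := by
  decide +kernel

def six_tail_800_865_938_83 :
    (sixTCond 0 0).checkQuick
      ⟨343, ⟨8, 3, 11, 6⟩⟩
      ⟨⟨800, 865, 1000⟩, ⟨938, 1155, 1000⟩, ⟨83, 167, 1000⟩, sideS6⟩ = true := by
  decide +kernel

def six_tail_865_930_722_0 :
    (sixTCond 0 694).checkQuick
      ⟨342, ⟨8, 3, 11, 6⟩⟩
      ⟨⟨865, 930, 1000⟩, ⟨722, 938, 1000⟩, ⟨0, 167, 1000⟩, sideS6⟩ = true := by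
  decide +kernel

def six_tail_865_930_938_0 :
    (sixTCond 0 444).checkQuick
      ⟨342, ⟨8, 3, 11, 6⟩⟩
      ⟨⟨865, 930, 1000⟩, ⟨938, 1155, 1000⟩, ⟨0, 167, 1000⟩, sideS6⟩ = true := by
  decide +kernel

def six_tail_800_930_722_167 :
    (sixTCond 0 16).checkQuick
      ⟨346, ⟨8, 3, 11, 6⟩⟩
      ⟨⟨800, 930, 1000⟩, ⟨722, 1155, 1000⟩, ⟨167, 334, 1000⟩, sideS6⟩ = true := by
  decide +kernel

def six_tail_800_930_1155_0 :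
    (sixTCond 0 24).checkQuick
      ⟨342, ⟨8, 3, 11, 6⟩⟩
      ⟨⟨800, 930, 1000⟩, ⟨1155, 2020, 1000⟩, ⟨0, 167, 1000⟩, sideS6⟩ = true := by
  decide +kernel

def six_tail_800_930_1155_167 :
    (sixTCond 0 0).checkQuick
      ⟨346, ⟨8, 3, 11, 6⟩⟩
      ⟨⟨800, 930, 1000⟩, ⟨1155, 1371, 1000⟩, ⟨167, 334, 1000⟩, sideS6⟩ = true := by
  decide +kernel

def six_tail_800_930_1371_167 :
    (sixTCond 1691 0).checkQuick
      ⟨347, ⟨8, 3, 11, 6⟩⟩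
      ⟨⟨800, 930, 1000⟩, ⟨1371, 1587, 1000⟩, ⟨167, 334, 1000⟩, sideS6⟩ = true := by
  decide +kernel

def six_tail_800_930_1587_167 :
    (sixTCond 1307 0).checkQuick
      ⟨346, ⟨8, 3, 11, 6⟩⟩
      ⟨⟨800, 930, 1000⟩, ⟨1587, 2020, 1000⟩, ⟨167, 250, 1000⟩, sideS6⟩ = true := by
  decide +kernel

def six_tail_800_930_1587_250 :
    (sixTCond 2994 0).checkQuick
      ⟨348, ⟨8, 3, 11, 6⟩⟩
      ⟨⟨800, 930, 1000⟩, ⟨1587, 2001, 1000⟩, ⟨250, 334, 1000⟩, sideS6⟩ = true := by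
  decide +kernel

def six_tail_800_930_2020_0 :
    (sixTCond 0 0).checkQuick
      ⟨342, ⟨8, 3, 11, 6⟩⟩
      ⟨⟨800, 930, 1000⟩, ⟨2020, 2885, 1000⟩, ⟨0, 167, 1000⟩, sideS6⟩ = true := by
  decide +kernel

def six_tail_800_930_2885_0 :
    (sixTCond 6730 0).checkQuick
      ⟨342, ⟨8, 3, 11, 6⟩⟩
      ⟨⟨800, 930, 1000⟩, ⟨2885, 3751, 1000⟩, ⟨0, 167, 1000⟩, sideS6⟩ = true := by
  decide +kernel

def six_tail_800_930_2020_167 :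
    (sixTCond 7054 0).checkQuick
      ⟨347, ⟨8, 3, 11, 6⟩⟩
      ⟨⟨800, 930, 1000⟩, ⟨2020, 2996, 1000⟩, ⟨167, 334, 1000⟩, sideS6⟩ = true := by
  decide +kernel

def six_tail_930_976_290_0 :
    (sixTCond 0 1355).checkQuick
      ⟨342, ⟨8, 3, 11, 6⟩⟩
      ⟨⟨930, 976, 1000⟩, ⟨290, 1155, 1000⟩, ⟨0, 167, 1000⟩, sideS6⟩ = true := by
  decide +kernel

def six_tail_930_976_1155_0 :
    (sixTCond 0 867).checkQuick
      ⟨341, ⟨8, 3, 11, 6⟩⟩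
      ⟨⟨930, 976, 1000⟩, ⟨1155, 1587, 1000⟩, ⟨0, 83, 1000⟩, sideS6⟩ = true := by
  decide +kernel

def six_tail_930_976_1587_0 :
    (sixTCond 0 0).checkQuick
      ⟨340, ⟨8, 3, 11, 6⟩⟩
      ⟨⟨930, 976, 1000⟩, ⟨1587, 2020, 1000⟩, ⟨0, 83, 1000⟩, sideS6⟩ = true := by
  decide +kernel

def six_tail_930_976_1155_83 :
    (sixTCond 0 0).checkQuick
      ⟨344, ⟨8, 3, 11, 6⟩⟩
      ⟨⟨930, 976, 1000⟩, ⟨1155, 2020, 1000⟩, ⟨83, 167, 1000⟩, sideS6⟩ = true := by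
  decide +kernel

def six_tail_930_976_2020_0 :
    (sixTCond 1549 0).checkQuick
      ⟨342, ⟨8, 3, 11, 6⟩⟩
      ⟨⟨930, 976, 1000⟩, ⟨2020, 2885, 1000⟩, ⟨0, 167, 1000⟩, sideS6⟩ = true := by
  decide +kernel

def six_tail_930_976_2885_0 :
    (sixTCond 19894 0).checkQuick
      ⟨343, ⟨8, 3, 11, 6⟩⟩
      ⟨⟨930, 976, 1000⟩, ⟨2885, 3751, 1000⟩, ⟨0, 167, 1000⟩, sideS6⟩ = true := by
  decide +kernel

def six_tail_930_976_290_167 :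
    (sixTCond 0 182).checkQuick
      ⟨347, ⟨8, 3, 11, 6⟩⟩
      ⟨⟨930, 976, 1000⟩, ⟨290, 966, 1000⟩, ⟨167, 334, 1000⟩, sideS6⟩ = true := by
  decide +kernel

def six_tail_930_976_966_167 :
    (sixTCond 0 0).checkQuick
      ⟨347, ⟨8, 3, 11, 6⟩⟩
      ⟨⟨930, 976, 1000⟩, ⟨966, 1304, 1000⟩, ⟨167, 334, 1000⟩, sideS6⟩ = true := by
  decide +kernel

def six_tail_930_976_1304_167 :
    (sixTCond 2679 0).checkQuick
      ⟨347, ⟨8, 3, 11, 6⟩⟩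
      ⟨⟨930, 976, 1000⟩, ⟨1304, 1643, 1000⟩, ⟨167, 334, 1000⟩, sideS6⟩ = true := by
  decide +kernel

def six_tail_930_976_1643_167 :
    (sixTCond 7083 0).checkQuick
      ⟨345, ⟨8, 3, 11, 6⟩⟩
      ⟨⟨930, 976, 1000⟩, ⟨1643, 2996, 1000⟩, ⟨167, 177, 1000⟩, sideS6⟩ = true := by
  decide +kernel

def six_tail_930_976_1643_177 :
    (sixTCond 6448 0).checkQuick
      ⟨346, ⟨8, 3, 11, 6⟩⟩
      ⟨⟨930, 976, 1000⟩, ⟨1643, 2826, 1000⟩, ⟨177, 187, 1000⟩, sideS6⟩ = true := by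
  decide +kernel

def six_tail_930_976_1643_187 :
    (sixTCond 7366 0).checkQuick
      ⟨346, ⟨8, 3, 11, 6⟩⟩
      ⟨⟨930, 976, 1000⟩, ⟨1643, 2675, 1000⟩, ⟨187, 208, 1000⟩, sideS6⟩ = true := by
  decide +kernel

def six_tail_930_976_1643_208 :
    (sixTCond 6780 0).checkQuick
      ⟨347, ⟨8, 3, 11, 6⟩⟩
      ⟨⟨930, 976, 1000⟩, ⟨1643, 2405, 1000⟩, ⟨208, 250, 1000⟩, sideS6⟩ = true := by
  decide +kernel

def six_tail_930_976_1643_250 :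
    (sixTCond 4520 0).checkQuick
      ⟨348, ⟨8, 3, 11, 6⟩⟩
      ⟨⟨930, 976, 1000⟩, ⟨1643, 2001, 1000⟩, ⟨250, 334, 1000⟩, sideS6⟩ = true := by
  decide +kernel

end Vale.Agent.P100.Calib.Band
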