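import Vale.Agent.P100.Calib.SlabSixRatExpr

/-!
# Certificates of the rational bands on the slab of dimension six
-/

-- The checks are definitions, so that they run one after another with little memory.
set_option linter.defProp false

namespace Vale.Agent.P100.Calib.Band

open BoxPos

local instance sixratexitchecksAdd : Add Ex := ⟨Ex.add⟩
local instance sixratexitchecksSub : Sub Ex := ⟨Ex.sub⟩
local instance sixratexitchecksMul : Mul Ex := ⟨Ex.mul⟩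

def six_exit_AL_x_0_0 :
    (eExitPH sixAA sixAW sixAR (sixL₁ + sixL₂ * eU + sixL₃ * (eU * eU)) (eC 1)).checkQuick
      ⟨351, ⟨10, 0, 14, 4⟩⟩
      ⟨⟨0, 501, 1000⟩, ⟨0, 1, 1000⟩, ⟨0, 31, 1000⟩, sideS6⟩ = true := by
  decide +kernel

def six_exit_AL_s_0_0 :
    (eSlopePH sixAA sixAW sixAR (sixL₁ + sixL₂ * eU + sixL₃ * (eU * eU)) (eC 1)).checkQuick
      ⟨257, ⟨8, 0, 11, 2⟩⟩
      ⟨⟨0, 501, 1000⟩, ⟨0, 1, 1000⟩, ⟨0, 31, 1000⟩, sideS6⟩ = true := by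
  decide +kernel

def six_exit_AL_g_0_0 :
    sixAR.checkQuick
      ⟨89, ⟨2, 0, 4, 0⟩⟩
      ⟨⟨0, 501, 1000⟩, ⟨0, 1, 1000⟩, ⟨0, 31, 1000⟩, sideS6⟩ = true := by
  decide +kernel

def six_exit_AT_x_500_0 :
    (eExitPH sixAA sixAW sixAR sixTN sixTG).checkQuick
      ⟨372, ⟨10, 0, 14, 4⟩⟩
      ⟨⟨500, 738, 1000⟩, ⟨0, 1, 1000⟩, ⟨0, 31, 1000⟩, sideS6⟩ = true := by
  decide +kernel

def six_exit_AT_x_738_0 :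
    (eExitPH sixAA sixAW sixAR sixTN sixTG).checkQuick
      ⟨373, ⟨10, 0, 14, 4⟩⟩
      ⟨⟨738, 857, 1000⟩, ⟨0, 1, 1000⟩, ⟨0, 31, 1000⟩, sideS6⟩ = true := by
  decide +kernel

def six_exit_AT_x_857_0 :
    (eExitPH sixAA sixAW sixAR sixTN sixTG).checkQuick
      ⟨373, ⟨10, 0, 14, 4⟩⟩
      ⟨⟨857, 916, 1000⟩, ⟨0, 1, 1000⟩, ⟨0, 31, 1000⟩, sideS6⟩ = true := by
  decide +kernel

def six_exit_AT_x_916_0 :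
    (eExitPH sixAA sixAW sixAR sixTN sixTG).checkQuick
      ⟨374, ⟨10, 0, 14, 4⟩⟩
      ⟨⟨916, 976, 1000⟩, ⟨0, 1, 1000⟩, ⟨0, 31, 1000⟩, sideS6⟩ = true := by
  decide +kernel

def six_exit_AT_s_500_0 :
    (eSlopePH sixAA sixAW sixAR sixTN sixTG).checkQuick
      ⟨276, ⟨8, 0, 11, 2⟩⟩
      ⟨⟨500, 976, 1000⟩, ⟨0, 1, 1000⟩, ⟨0, 31, 1000⟩, sideS6⟩ = true := by
  decide +kernel

def six_exit_AT_g_500_0 :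
    sixAR.checkQuick
      ⟨90, ⟨2, 0, 4, 0⟩⟩
      ⟨⟨500, 976, 1000⟩, ⟨0, 1, 1000⟩, ⟨0, 31, 1000⟩, sideS6⟩ = true := by
  decide +kernel

def six_exit_BL_x_0_30 :
    (eExitPH sixBA sixBW sixBR (sixL₁ + sixL₂ * eU + sixL₃ * (eU * eU)) (eC 1)).checkQuick
      ⟨353, ⟨10, 0, 14, 4⟩⟩
      ⟨⟨0, 501, 1000⟩, ⟨0, 1, 1000⟩, ⟨30, 136, 1000⟩, sideS6⟩ = true := by
  decide +kernel

def six_exit_BL_s_0_30 :
    (eSlopePH sixBA sixBW sixBR (sixL₁ + sixL₂ * eU + sixL₃ * (eU * eU)) (eC 1)).checkQuick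
      ⟨257, ⟨8, 0, 11, 2⟩⟩
      ⟨⟨0, 501, 1000⟩, ⟨0, 1, 1000⟩, ⟨30, 136, 1000⟩, sideS6⟩ = true := by
  decide +kernel

def six_exit_BL_g_0_30 :
    (eAbovePhi sixBA sixBW).checkQuick
      ⟨92, ⟨3, 0, 4, 0⟩⟩
      ⟨⟨0, 250, 1000⟩, ⟨0, 1, 1000⟩, ⟨30, 136, 1000⟩, sideS6⟩ = true := by
  decide +kernel

def six_exit_BL_g_250_30 :
    sixBR.checkQuick
      ⟨91, ⟨2, 0, 4, 0⟩⟩
      ⟨⟨250, 501, 1000⟩, ⟨0, 1, 1000⟩, ⟨30, 136, 1000⟩, sideS6⟩ = true := by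
  decide +kernel

def six_exit_BT_x_500_30 :
    (eExitPH sixBA sixBW sixBR sixTN sixTG).checkQuick
      ⟨374, ⟨10, 0, 14, 4⟩⟩
      ⟨⟨500, 738, 1000⟩, ⟨0, 1, 1000⟩, ⟨30, 136, 1000⟩, sideS6⟩ = true := by
  decide +kernel

def six_exit_BT_x_738_30 :
    (eExitPH sixBA sixBW sixBR sixTN sixTG).checkQuick
      ⟨375, ⟨10, 0, 14, 4⟩⟩
      ⟨⟨738, 857, 1000⟩, ⟨0, 1, 1000⟩, ⟨30, 136, 1000⟩, sideS6⟩ = true := by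
  decide +kernel

def six_exit_BT_x_857_30 :
    (eExitPH sixBA sixBW sixBR sixTN sixTG).checkQuick
      ⟨376, ⟨10, 0, 14, 4⟩⟩
      ⟨⟨857, 916, 1000⟩, ⟨0, 1, 1000⟩, ⟨30, 136, 1000⟩, sideS6⟩ = true := by
  decide +kernel

def six_exit_BT_x_916_30 :
    (eExitPH sixBA sixBW sixBR sixTN sixTG).checkQuick
      ⟨376, ⟨10, 0, 14, 4⟩⟩
      ⟨⟨916, 946, 1000⟩, ⟨0, 1, 1000⟩, ⟨30, 136, 1000⟩, sideS6⟩ = true := by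
  decide +kernel

def six_exit_BT_x_946_30 :
    (eExitPH sixBA sixBW sixBR sixTN sixTG).checkQuick
      ⟨376, ⟨10, 0, 14, 4⟩⟩
      ⟨⟨946, 976, 1000⟩, ⟨0, 1, 1000⟩, ⟨30, 136, 1000⟩, sideS6⟩ = true := by
  decide +kernel

def six_exit_BT_s_500_30 :
    (eSlopePH sixBA sixBW sixBR sixTN sixTG).checkQuick
      ⟨278, ⟨8, 0, 11, 2⟩⟩
      ⟨⟨500, 976, 1000⟩, ⟨0, 1, 1000⟩, ⟨30, 136, 1000⟩, sideS6⟩ = true := by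
  decide +kernel

def six_exit_BT_g_500_30 :
    sixBR.checkQuick
      ⟨92, ⟨2, 0, 4, 0⟩⟩
      ⟨⟨500, 976, 1000⟩, ⟨0, 1, 1000⟩, ⟨30, 136, 1000⟩, sideS6⟩ = true := by
  decide +kernel

def six_exit_CL_x_0_135 :
    (eExitPH sixCA sixCW sixCR (sixL₁ + sixL₂ * eU + sixL₃ * (eU * eU)) (eC 1)).checkQuick
      ⟨356, ⟨10, 0, 14, 4⟩⟩
      ⟨⟨0, 501, 1000⟩, ⟨0, 1, 1000⟩, ⟨135, 334, 1000⟩, sideS6⟩ = true := by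
  decide +kernel

def six_exit_CL_s_0_135 :
    (eSlopePH sixCA sixCW sixCR (sixL₁ + sixL₂ * eU + sixL₃ * (eU * eU)) (eC 1)).checkQuick
      ⟨259, ⟨8, 0, 11, 2⟩⟩
      ⟨⟨0, 501, 1000⟩, ⟨0, 1, 1000⟩, ⟨135, 334, 1000⟩, sideS6⟩ = true := by
  decide +kernel

def six_exit_CL_g_0_135 :
    (eAbovePhi sixCA sixCW).checkQuick
      ⟨94, ⟨3, 0, 4, 0⟩⟩
      ⟨⟨0, 501, 1000⟩, ⟨0, 1, 1000⟩, ⟨135, 234, 1000⟩, sideS6⟩ = true := by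
  decide +kernel

def six_exit_CL_g_0_234 :
    sixCR.checkQuick
      ⟨94, ⟨2, 0, 4, 0⟩⟩
      ⟨⟨0, 501, 1000⟩, ⟨0, 1, 1000⟩, ⟨234, 334, 1000⟩, sideS6⟩ = true := by
  decide +kernel

def six_exit_CT_x_500_135 :
    (eExitPH sixCA sixCW sixCR sixTN sixTG).checkQuick
      ⟨378, ⟨10, 0, 14, 4⟩⟩
      ⟨⟨500, 738, 1000⟩, ⟨0, 1, 1000⟩, ⟨135, 334, 1000⟩, sideS6⟩ = true := by
  decide +kernel

def six_exit_CT_x_738_135 :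
    (eExitPH sixCA sixCW sixCR sixTN sixTG).checkQuick
      ⟨379, ⟨10, 0, 14, 4⟩⟩
      ⟨⟨738, 857, 1000⟩, ⟨0, 1, 1000⟩, ⟨135, 334, 1000⟩, sideS6⟩ = true := by
  decide +kernel

def six_exit_CT_x_857_135 :
    (eExitPH sixCA sixCW sixCR sixTN sixTG).checkQuick
      ⟨380, ⟨10, 0, 14, 4⟩⟩
      ⟨⟨857, 916, 1000⟩, ⟨0, 1, 1000⟩, ⟨135, 334, 1000⟩, sideS6⟩ = true := by
  decide +kernel

def six_exit_CT_x_916_135 :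
    (eExitPH sixCA sixCW sixCR sixTN sixTG).checkQuick
      ⟨381, ⟨10, 0, 14, 4⟩⟩
      ⟨⟨916, 976, 1000⟩, ⟨0, 1, 1000⟩, ⟨135, 334, 1000⟩, sideS6⟩ = true := by
  decide +kernel

def six_exit_CT_s_500_135 :
    (eSlopePH sixCA sixCW sixCR sixTN sixTG).checkQuick
      ⟨281, ⟨8, 0, 11, 2⟩⟩
      ⟨⟨500, 976, 1000⟩, ⟨0, 1, 1000⟩, ⟨135, 334, 1000⟩, sideS6⟩ = true := by
  decide +kernel

def six_exit_CT_g_500_135 :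
    sixCR.checkQuick
      ⟨94, ⟨2, 0, 4, 0⟩⟩
      ⟨⟨500, 976, 1000⟩, ⟨0, 1, 1000⟩, ⟨135, 334, 1000⟩, sideS6⟩ = true := by
  decide +kernel

def six_exit_AE_x_0 :
    (eSubst eStripU (eExitPH sixAA sixAW sixAR sixEN sixEG)).checkQuick
      ⟨457, ⟨8, 0, 21, 4⟩⟩
      ⟨⟨0, 500, 1000⟩, ⟨0, 1, 1000⟩, ⟨0, 31, 1000⟩, sideS6⟩ = true := by
  decide +kernel

def six_exit_AE_x_500 :
    (eSubst eStripU (eExitPH sixAA sixAW sixAR sixEN sixEG)).checkQuick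
      ⟨457, ⟨8, 0, 21, 4⟩⟩
      ⟨⟨500, 1001, 1000⟩, ⟨0, 1, 1000⟩, ⟨0, 31, 1000⟩, sideS6⟩ = true := by
  decide +kernel

def six_exit_AE_s_0 :
    (eSubst eStripU (eSlopePH sixAA sixAW sixAR sixEN sixEG)).checkQuick
      ⟨334, ⟨6, 0, 16, 2⟩⟩
      ⟨⟨0, 1001, 1000⟩, ⟨0, 1, 1000⟩, ⟨0, 31, 1000⟩, sideS6⟩ = true := by
  decide +kernel

def six_exit_AE_g_0 :
    (eSubst eStripU (sixAR)).checkQuick
      ⟨104, ⟨2, 0, 5, 0⟩⟩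
      ⟨⟨0, 1001, 1000⟩, ⟨0, 1, 1000⟩, ⟨0, 31, 1000⟩, sideS6⟩ = true := by
  decide +kernel

def six_exit_BE_x_0 :
    (eSubst eStripU (eExitPH sixBA sixBW sixBR sixEN sixEG)).checkQuick
      ⟨458, ⟨8, 0, 21, 4⟩⟩
      ⟨⟨0, 1001, 1000⟩, ⟨0, 1, 1000⟩, ⟨30, 64, 1000⟩, sideS6⟩ = true := by
  decide +kernel

def six_exit_BE_s_0 :
    (eSubst eStripU (eSlopePH sixBA sixBW sixBR sixEN sixEG)).checkQuick
      ⟨334, ⟨6, 0, 16, 2⟩⟩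
      ⟨⟨0, 1001, 1000⟩, ⟨0, 1, 1000⟩, ⟨30, 64, 1000⟩, sideS6⟩ = true := by
  decide +kernel

def six_exit_BE_g_0 :
    (eSubst eStripU (sixBR)).checkQuick
      ⟨105, ⟨2, 0, 5, 0⟩⟩
      ⟨⟨0, 1001, 1000⟩, ⟨0, 1, 1000⟩, ⟨30, 64, 1000⟩, sideS6⟩ = true := by
  decide +kernel

def six_end_AE_cap :
    (eSubst eEndU (sixAA - eC 3142 1000 * sixAW)).checkQuick
      ⟨85, ⟨0, 0, 4, 0⟩⟩
      ⟨⟨0, 1, 1000⟩, ⟨0, 1, 1000⟩, ⟨0, 301, 10000⟩, sideS6⟩ = true := by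
  decide +kernel

def six_end_BE_cap :
    (eSubst eEndU (sixBA - eC 3134 1000 * sixBW)).checkQuick
      ⟨85, ⟨0, 0, 4, 0⟩⟩
      ⟨⟨0, 1, 1000⟩, ⟨0, 1, 1000⟩, ⟨300, 626, 10000⟩, sideS6⟩ = true := by
  decide +kernel

def six_end_BE :
    (eSubst eEndU (eEvEnd sixBA sixBW sixEN sixEG)).checkQuick
      ⟨334, ⟨0, 2, 15, 4⟩⟩
      ⟨⟨0, 1, 1000⟩, ⟨0, 178, 1000⟩, ⟨300, 626, 10000⟩, sideS6⟩ = true := by
  decide +kernel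

def six_end_BT_cap :
    (eSubst (eC 39 40) (sixBA - eC 2577 1000 * sixBW)).checkQuick
      ⟨65, ⟨0, 0, 2, 0⟩⟩
      ⟨⟨0, 1, 1000⟩, ⟨0, 1, 1000⟩, ⟨625, 1351, 10000⟩, sideS6⟩ = true := by
  decide +kernel

def six_end_BT :
    (eSubst (eC 39 40) (eEvEnd sixBA sixBW sixTN sixTG)).checkQuick
      ⟨274, ⟨0, 2, 10, 4⟩⟩
      ⟨⟨0, 1, 1000⟩, ⟨0, 1174, 1000⟩, ⟨625, 1351, 10000⟩, sideS6⟩ = true := by
  decide +kernel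

def six_end_CT_cap :
    (eSubst (eC 39 40) (sixCA - eC 1439 1000 * sixCW)).checkQuick
      ⟨66, ⟨0, 0, 2, 0⟩⟩
      ⟨⟨0, 1, 1000⟩, ⟨0, 1, 1000⟩, ⟨1350, 3334, 10000⟩, sideS6⟩ = true := by
  decide +kernel

def six_end_CT :
    (eSubst (eC 39 40) (eEvEnd sixCA sixCW sixTN sixTG)).checkQuick
      ⟨277, ⟨0, 2, 10, 4⟩⟩
      ⟨⟨0, 1, 1000⟩, ⟨0, 2266, 1000⟩, ⟨1350, 3334, 10000⟩, sideS6⟩ = true := by
  decide +kernel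

end Vale.Agent.P100.Calib.Band
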