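import Vale.Agent.P100.Calib.SlabSixRatLower
import Vale.Agent.P100.Calib.SlabSixRatExitChecks
import Vale.Agent.P100.Calib.SlabTailSide

/-!
# The exit curves up to `uLast` on the slab of dimension six

`v < bandsX.phi` on `[1/2, uLast d]` for the three pieces: a barrier from `uLast`, where no point
of the chart above the lower band has `ev > 0` past the curve.
-/

namespace Vale.Agent.P100.Calib.Band

open BoxPos Bubble Chart Closed.Six

local instance sixExitAdd : Add Ex := ⟨Ex.add⟩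
local instance sixExitSub : Sub Ex := ⟨Ex.sub⟩
local instance sixExitMul : Mul Ex := ⟨Ex.mul⟩

variable {N p q : ℝ} {S : Set ℝ} {R x y s dx dy : ℝ → ℝ}

theorem six_exit_AL {u d S' : ℝ} (hu : 0 ≤ u) (hu1 : u < 1 / 2) (hd : 0 ≤ d) (hd1 : d ≤ 3 / 100)
    (hS : sideS6.Mem S') : 0 < (eExitPH sixAA sixAW sixAR (sixL₁ + sixL₂ * eU + sixL₃ * (eU * eU)) (eC 1)).val u 0 d S' := by
  exact Ex.pos_of_checkQuick six_exit_AL_x_0_0
    (mem_thousandths (by push_cast; linarith) (by push_cast; linarith)) (mem_thousandths (x := 0) (by norm_num) (by norm_num)) (mem_thousandths (by push_cast; linarith) (by push_cast; linarith)) hS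

theorem six_slope_AL {u d S' : ℝ} (hu : 0 ≤ u) (hu1 : u < 1 / 2) (hd : 0 ≤ d) (hd1 : d ≤ 3 / 100)
    (hS : sideS6.Mem S') : 0 < (eSlopePH sixAA sixAW sixAR (sixL₁ + sixL₂ * eU + sixL₃ * (eU * eU)) (eC 1)).val u 0 d S' := by
  exact Ex.pos_of_checkQuick six_exit_AL_s_0_0
    (mem_thousandths (by push_cast; linarith) (by push_cast; linarith)) (mem_thousandths (x := 0) (by norm_num) (by norm_num)) (mem_thousandths (by push_cast; linarith) (by push_cast; linarith)) hS

theorem six_rise_AL {u d S' : ℝ} (hu : 0 ≤ u) (hu1 : u < 1 / 2) (hd : 0 ≤ d) (hd1 : d ≤ 3 / 100)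
    (hS : sideS6.Mem S') : 0 < (eAbovePhi sixAA sixAW).val u 0 d S' ∨ 0 < sixAR.val u 0 d S' := by
  exact Or.inr (Ex.pos_of_checkQuick six_exit_AL_g_0_0
    (mem_thousandths (by push_cast; linarith) (by push_cast; linarith)) (mem_thousandths (x := 0) (by norm_num) (by norm_num)) (mem_thousandths (by push_cast; linarith) (by push_cast; linarith)) hS)

theorem six_exit_AT {u d S' : ℝ} (hu : 1 / 2 ≤ u) (hu1 : u ≤ 39 / 40) (hd : 0 ≤ d) (hd1 : d ≤ 3 / 100)
    (hS : sideS6.Mem S') : 0 < (eExitPH sixAA sixAW sixAR sixTN sixTG).val u 0 d S' := by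
  rcases lt_or_ge u (738 / 1000) with g0 | g0
  · exact Ex.pos_of_checkQuick six_exit_AT_x_500_0
      (mem_thousandths (by push_cast; linarith) (by push_cast; linarith)) (mem_thousandths (x := 0) (by norm_num) (by norm_num)) (mem_thousandths (by push_cast; linarith) (by push_cast; linarith)) hS
  · rcases lt_or_ge u (857 / 1000) with g1 | g1
    · exact Ex.pos_of_checkQuick six_exit_AT_x_738_0
        (mem_thousandths (by push_cast; linarith) (by push_cast; linarith)) (mem_thousandths (x := 0) (by norm_num) (by norm_num)) (mem_thousandths (by push_cast; linarith) (by push_cast; linarith)) hS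
    · rcases lt_or_ge u (916 / 1000) with g2 | g2
      · exact Ex.pos_of_checkQuick six_exit_AT_x_857_0
          (mem_thousandths (by push_cast; linarith) (by push_cast; linarith)) (mem_thousandths (x := 0) (by norm_num) (by norm_num)) (mem_thousandths (by push_cast; linarith) (by push_cast; linarith)) hS
      · exact Ex.pos_of_checkQuick six_exit_AT_x_916_0
          (mem_thousandths (by push_cast; linarith) (by push_cast; linarith)) (mem_thousandths (x := 0) (by norm_num) (by norm_num)) (mem_thousandths (by push_cast; linarith) (by push_cast; linarith)) hS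

theorem six_slope_AT {u d S' : ℝ} (hu : 1 / 2 ≤ u) (hu1 : u ≤ 39 / 40) (hd : 0 ≤ d) (hd1 : d ≤ 3 / 100)
    (hS : sideS6.Mem S') : 0 < (eSlopePH sixAA sixAW sixAR sixTN sixTG).val u 0 d S' := by
  exact Ex.pos_of_checkQuick six_exit_AT_s_500_0
    (mem_thousandths (by push_cast; linarith) (by push_cast; linarith)) (mem_thousandths (x := 0) (by norm_num) (by norm_num)) (mem_thousandths (by push_cast; linarith) (by push_cast; linarith)) hS

theorem six_rise_AT {u d S' : ℝ} (hu : 1 / 2 ≤ u) (hu1 : u ≤ 39 / 40) (hd : 0 ≤ d) (hd1 : d ≤ 3 / 100)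
    (hS : sideS6.Mem S') : 0 < sixAR.val u 0 d S' := by
  exact Ex.pos_of_checkQuick six_exit_AT_g_500_0
    (mem_thousandths (by push_cast; linarith) (by push_cast; linarith)) (mem_thousandths (x := 0) (by norm_num) (by norm_num)) (mem_thousandths (by push_cast; linarith) (by push_cast; linarith)) hS

theorem six_exit_BL {u d S' : ℝ} (hu : 0 ≤ u) (hu1 : u < 1 / 2) (hd : 3 / 100 ≤ d) (hd1 : d ≤ 27 / 200)
    (hS : sideS6.Mem S') : 0 < (eExitPH sixBA sixBW sixBR (sixL₁ + sixL₂ * eU + sixL₃ * (eU * eU)) (eC 1)).val u 0 d S' := by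
  exact Ex.pos_of_checkQuick six_exit_BL_x_0_30
    (mem_thousandths (by push_cast; linarith) (by push_cast; linarith)) (mem_thousandths (x := 0) (by norm_num) (by norm_num)) (mem_thousandths (by push_cast; linarith) (by push_cast; linarith)) hS

theorem six_slope_BL {u d S' : ℝ} (hu : 0 ≤ u) (hu1 : u < 1 / 2) (hd : 3 / 100 ≤ d) (hd1 : d ≤ 27 / 200)
    (hS : sideS6.Mem S') : 0 < (eSlopePH sixBA sixBW sixBR (sixL₁ + sixL₂ * eU + sixL₃ * (eU * eU)) (eC 1)).val u 0 d S' := by
  exact Ex.pos_of_checkQuick six_exit_BL_s_0_30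
    (mem_thousandths (by push_cast; linarith) (by push_cast; linarith)) (mem_thousandths (x := 0) (by norm_num) (by norm_num)) (mem_thousandths (by push_cast; linarith) (by push_cast; linarith)) hS

theorem six_rise_BL {u d S' : ℝ} (hu : 0 ≤ u) (hu1 : u < 1 / 2) (hd : 3 / 100 ≤ d) (hd1 : d ≤ 27 / 200)
    (hS : sideS6.Mem S') : 0 < (eAbovePhi sixBA sixBW).val u 0 d S' ∨ 0 < sixBR.val u 0 d S' := by
  rcases lt_or_ge u (250 / 1000) with g3 | g3
  · exact Or.inl (Ex.pos_of_checkQuick six_exit_BL_g_0_30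
      (mem_thousandths (by push_cast; linarith) (by push_cast; linarith)) (mem_thousandths (x := 0) (by norm_num) (by norm_num)) (mem_thousandths (by push_cast; linarith) (by push_cast; linarith)) hS)
  · exact Or.inr (Ex.pos_of_checkQuick six_exit_BL_g_250_30
      (mem_thousandths (by push_cast; linarith) (by push_cast; linarith)) (mem_thousandths (x := 0) (by norm_num) (by norm_num)) (mem_thousandths (by push_cast; linarith) (by push_cast; linarith)) hS)

theorem six_exit_BT {u d S' : ℝ} (hu : 1 / 2 ≤ u) (hu1 : u ≤ 39 / 40) (hd : 3 / 100 ≤ d) (hd1 : d ≤ 27 / 200)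
    (hS : sideS6.Mem S') : 0 < (eExitPH sixBA sixBW sixBR sixTN sixTG).val u 0 d S' := by
  rcases lt_or_ge u (738 / 1000) with g4 | g4
  · exact Ex.pos_of_checkQuick six_exit_BT_x_500_30
      (mem_thousandths (by push_cast; linarith) (by push_cast; linarith)) (mem_thousandths (x := 0) (by norm_num) (by norm_num)) (mem_thousandths (by push_cast; linarith) (by push_cast; linarith)) hS
  · rcases lt_or_ge u (857 / 1000) with g5 | g5
    · exact Ex.pos_of_checkQuick six_exit_BT_x_738_30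
        (mem_thousandths (by push_cast; linarith) (by push_cast; linarith)) (mem_thousandths (x := 0) (by norm_num) (by norm_num)) (mem_thousandths (by push_cast; linarith) (by push_cast; linarith)) hS
    · rcases lt_or_ge u (916 / 1000) with g6 | g6
      · exact Ex.pos_of_checkQuick six_exit_BT_x_857_30
          (mem_thousandths (by push_cast; linarith) (by push_cast; linarith)) (mem_thousandths (x := 0) (by norm_num) (by norm_num)) (mem_thousandths (by push_cast; linarith) (by push_cast; linarith)) hS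
      · rcases lt_or_ge u (946 / 1000) with g7 | g7
        · exact Ex.pos_of_checkQuick six_exit_BT_x_916_30
            (mem_thousandths (by push_cast; linarith) (by push_cast; linarith)) (mem_thousandths (x := 0) (by norm_num) (by norm_num)) (mem_thousandths (by push_cast; linarith) (by push_cast; linarith)) hS
        · exact Ex.pos_of_checkQuick six_exit_BT_x_946_30
            (mem_thousandths (by push_cast; linarith) (by push_cast; linarith)) (mem_thousandths (x := 0) (by norm_num) (by norm_num)) (mem_thousandths (by push_cast; linarith) (by push_cast; linarith)) hS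

theorem six_slope_BT {u d S' : ℝ} (hu : 1 / 2 ≤ u) (hu1 : u ≤ 39 / 40) (hd : 3 / 100 ≤ d) (hd1 : d ≤ 27 / 200)
    (hS : sideS6.Mem S') : 0 < (eSlopePH sixBA sixBW sixBR sixTN sixTG).val u 0 d S' := by
  exact Ex.pos_of_checkQuick six_exit_BT_s_500_30
    (mem_thousandths (by push_cast; linarith) (by push_cast; linarith)) (mem_thousandths (x := 0) (by norm_num) (by norm_num)) (mem_thousandths (by push_cast; linarith) (by push_cast; linarith)) hS

theorem six_rise_BT {u d S' : ℝ} (hu : 1 / 2 ≤ u) (hu1 : u ≤ 39 / 40) (hd : 3 / 100 ≤ d) (hd1 : d ≤ 27 / 200)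
    (hS : sideS6.Mem S') : 0 < sixBR.val u 0 d S' := by
  exact Ex.pos_of_checkQuick six_exit_BT_g_500_30
    (mem_thousandths (by push_cast; linarith) (by push_cast; linarith)) (mem_thousandths (x := 0) (by norm_num) (by norm_num)) (mem_thousandths (by push_cast; linarith) (by push_cast; linarith)) hS

theorem six_exit_CL {u d S' : ℝ} (hu : 0 ≤ u) (hu1 : u < 1 / 2) (hd : 27 / 200 ≤ d) (hd1 : d ≤ 1 / 3)
    (hS : sideS6.Mem S') : 0 < (eExitPH sixCA sixCW sixCR (sixL₁ + sixL₂ * eU + sixL₃ * (eU * eU)) (eC 1)).val u 0 d S' := by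
  exact Ex.pos_of_checkQuick six_exit_CL_x_0_135
    (mem_thousandths (by push_cast; linarith) (by push_cast; linarith)) (mem_thousandths (x := 0) (by norm_num) (by norm_num)) (mem_thousandths (by push_cast; linarith) (by push_cast; linarith)) hS

theorem six_slope_CL {u d S' : ℝ} (hu : 0 ≤ u) (hu1 : u < 1 / 2) (hd : 27 / 200 ≤ d) (hd1 : d ≤ 1 / 3)
    (hS : sideS6.Mem S') : 0 < (eSlopePH sixCA sixCW sixCR (sixL₁ + sixL₂ * eU + sixL₃ * (eU * eU)) (eC 1)).val u 0 d S' := by
  exact Ex.pos_of_checkQuick six_exit_CL_s_0_135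
    (mem_thousandths (by push_cast; linarith) (by push_cast; linarith)) (mem_thousandths (x := 0) (by norm_num) (by norm_num)) (mem_thousandths (by push_cast; linarith) (by push_cast; linarith)) hS

theorem six_rise_CL {u d S' : ℝ} (hu : 0 ≤ u) (hu1 : u < 1 / 2) (hd : 27 / 200 ≤ d) (hd1 : d ≤ 1 / 3)
    (hS : sideS6.Mem S') : 0 < (eAbovePhi sixCA sixCW).val u 0 d S' ∨ 0 < sixCR.val u 0 d S' := by
  rcases lt_or_ge d (234 / 1000) with g8 | g8
  · exact Or.inl (Ex.pos_of_checkQuick six_exit_CL_g_0_135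
      (mem_thousandths (by push_cast; linarith) (by push_cast; linarith)) (mem_thousandths (x := 0) (by norm_num) (by norm_num)) (mem_thousandths (by push_cast; linarith) (by push_cast; linarith)) hS)
  · exact Or.inr (Ex.pos_of_checkQuick six_exit_CL_g_0_234
      (mem_thousandths (by push_cast; linarith) (by push_cast; linarith)) (mem_thousandths (x := 0) (by norm_num) (by norm_num)) (mem_thousandths (by push_cast; linarith) (by push_cast; linarith)) hS)

theorem six_exit_CT {u d S' : ℝ} (hu : 1 / 2 ≤ u) (hu1 : u ≤ 39 / 40) (hd : 27 / 200 ≤ d) (hd1 : d ≤ 1 / 3)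
    (hS : sideS6.Mem S') : 0 < (eExitPH sixCA sixCW sixCR sixTN sixTG).val u 0 d S' := by
  rcases lt_or_ge u (738 / 1000) with g9 | g9
  · exact Ex.pos_of_checkQuick six_exit_CT_x_500_135
      (mem_thousandths (by push_cast; linarith) (by push_cast; linarith)) (mem_thousandths (x := 0) (by norm_num) (by norm_num)) (mem_thousandths (by push_cast; linarith) (by push_cast; linarith)) hS
  · rcases lt_or_ge u (857 / 1000) with g10 | g10
    · exact Ex.pos_of_checkQuick six_exit_CT_x_738_135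
        (mem_thousandths (by push_cast; linarith) (by push_cast; linarith)) (mem_thousandths (x := 0) (by norm_num) (by norm_num)) (mem_thousandths (by push_cast; linarith) (by push_cast; linarith)) hS
    · rcases lt_or_ge u (916 / 1000) with g11 | g11
      · exact Ex.pos_of_checkQuick six_exit_CT_x_857_135
          (mem_thousandths (by push_cast; linarith) (by push_cast; linarith)) (mem_thousandths (x := 0) (by norm_num) (by norm_num)) (mem_thousandths (by push_cast; linarith) (by push_cast; linarith)) hS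
      · exact Ex.pos_of_checkQuick six_exit_CT_x_916_135
          (mem_thousandths (by push_cast; linarith) (by push_cast; linarith)) (mem_thousandths (x := 0) (by norm_num) (by norm_num)) (mem_thousandths (by push_cast; linarith) (by push_cast; linarith)) hS

theorem six_slope_CT {u d S' : ℝ} (hu : 1 / 2 ≤ u) (hu1 : u ≤ 39 / 40) (hd : 27 / 200 ≤ d) (hd1 : d ≤ 1 / 3)
    (hS : sideS6.Mem S') : 0 < (eSlopePH sixCA sixCW sixCR sixTN sixTG).val u 0 d S' := by
  exact Ex.pos_of_checkQuick six_exit_CT_s_500_135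
    (mem_thousandths (by push_cast; linarith) (by push_cast; linarith)) (mem_thousandths (x := 0) (by norm_num) (by norm_num)) (mem_thousandths (by push_cast; linarith) (by push_cast; linarith)) hS

theorem six_rise_CT {u d S' : ℝ} (hu : 1 / 2 ≤ u) (hu1 : u ≤ 39 / 40) (hd : 27 / 200 ≤ d) (hd1 : d ≤ 1 / 3)
    (hS : sideS6.Mem S') : 0 < sixCR.val u 0 d S' := by
  exact Ex.pos_of_checkQuick six_exit_CT_g_500_135
    (mem_thousandths (by push_cast; linarith) (by push_cast; linarith)) (mem_thousandths (x := 0) (by norm_num) (by norm_num)) (mem_thousandths (by push_cast; linarith) (by push_cast; linarith)) hS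

/-- The lower band below the exit curves. -/
noncomputable def exitBandSix (d u : ℝ) : ℝ :=
  if u < 1 / 2 then sixLc₁ d + sixLc₂ d * u + sixLc₃ d * u ^ 2
  else if u ≤ 39 / 40 then lowT d u else lowEnd d

/-- The three conditions of `exitF_step_six` from the cleared numerators. -/
theorem quad_conds {A W P n G : Ex} {u v v₀ d S t a₀ a₁ a₂ c : ℝ} (hW : 0 < c - u)
    (hA : (c - u) * v = quadN a₀ a₁ a₂ u) (eA : A.val u v₀ d S = quadN a₀ a₁ a₂ u)
    (eW : W.val u v₀ d S = c - u)
    (eP : P.val u v₀ d S = quadD a₁ a₂ u * (c - u) + quadN a₀ a₁ a₂ u)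
    (hG : 0 < G.val u v₀ d S) (hn : n.val u v₀ d S = t * G.val u v₀ d S)
    (hx : 0 < (eExitPH A W P n G).val u v₀ d S) (hs : 0 < (eSlopePH A W P n G).val u v₀ d S)
    (hg : 0 < P.val u v₀ d S) :
    0 < exitP S d u v t (c - u) (quadD a₁ a₂ u - -1 * v) ∧
      0 ≤ quadD a₁ a₂ u - -1 * v ∧
      d * u * (quadD a₁ a₂ u - -1 * v) * (bandB S d - u * d * bandK S d u v t 0 0) ≤
        (c - u) * (1 + d * v) * denV S d u v t := by
  have eA' : quadN a₀ a₁ a₂ u = v * (c - u) := by rw [← hA, mul_comm]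
  have eg : quadD a₁ a₂ u * (c - u) + quadN a₀ a₁ a₂ u = (quadD a₁ a₂ u - -1 * v) * (c - u) := by
    rw [eA']; ring
  rw [val_exitPH, eA, eW, eP, exitPH_eq eA' eg hn] at hx
  rw [val_slopePH, eA, eW, eP, slopePH_eq eA' eg hn] at hs
  rw [eP, eg] at hg
  exact ⟨pos_of_mul_pos_right hx (by positivity), (pos_of_mul_pos_left hg hW.le).le,
    (sub_pos.1 (pos_of_mul_pos_right hs (by positivity))).le⟩

/-- No point with `lieE > 0` at the band lies on or past the curve. -/
theorem quad_end {A W n G : Ex} {u v d S t cap c a b g : ℝ} (hW : 0 < b) (hc : c * b < a)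
    (hv : v < cap) (eA : ∀ o, A.val u o d S = a) (eW : ∀ o, W.val u o d S = b)
    (hG : 0 < g) (eG : ∀ o, G.val u o d S = g) (hn : ∀ o, n.val u o d S = t * g)
    (hE : ∀ o, 0 ≤ o → o < cap - c → 0 < (eEvEnd A W n G).val u o d S)
    (he : 0 < lieE S d u v t 1) : b * v < a := by
  by_contra h
  rw [not_lt] at h
  have ho : 0 ≤ v - a / b := by
    rw [sub_nonneg, div_le_iff₀ hW, mul_comm v]
    exact h
  have ho1 : v - a / b < cap - c := by
    have : c < a / b := (lt_div_iff₀ hW).2 hc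
    linarith
  have key := hE _ ho ho1
  rw [val_evEnd, eA, eW, hn, eG, neg_pos] at key
  rw [evEndH_eq (v := v) (by rw [sub_mul, div_mul_cancel₀ _ hW.ne']; ring) rfl] at key
  exact not_lt.2 (mul_nonneg (mul_nonneg (sq_nonneg _) hG.le) he.le) key

/-- An exit curve `(n₀ + n₁ u + n₂ u²)/(q - u)` up to `uLast`. -/
theorem phi_tail_core (hf : IsOrbitFns N p q S R x y s dx dy)
    (hb : SlabBoxSix N (1 / (p + 1)) (1 / (q + 1))) {d n₀ n₁ n₂ c : ℝ}
    (hd : d = 1 / (q + 1) - 1 / (p + 1)) (hc : 1 < c)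
    (hend : ∀ v, 29 / 100 ≤ v → v ≤ 15 / 4 → d * v < 1 / 2 → (2 / 3 - d) * v < 2 →
      0 < lieE (1 / (p + 1) + 1 / (q + 1)) d (uLast d) v (exitBandSix d (uLast d)) 1 →
      (c - uLast d) * v < quadN n₀ n₁ n₂ (uLast d))
    (hsign : ∀ u v, 0 < u → u ≤ uLast d → (u ≤ 4 / 5 → v < phiSix d u) →
      (2 / 3 - d) * v < 2 → (c - u) * v = quadN n₀ n₁ n₂ u →
      0 < exitP (1 / (p + 1) + 1 / (q + 1)) d u v (exitBandSix d u) (c - u)
          (quadD n₁ n₂ u - -1 * v) ∧
        0 ≤ quadD n₁ n₂ u - -1 * v ∧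
        d * u * (quadD n₁ n₂ u - -1 * v) * (bandB (1 / (p + 1) + 1 / (q + 1)) d -
            u * d * bandK (1 / (p + 1) + 1 / (q + 1)) d u v (exitBandSix d u) 0 0) ≤
          (c - u) * (1 + d * v) * denV (1 / (p + 1) + 1 / (q + 1)) d u v (exitBandSix d u))
    {w : ℝ} (hw : w ∈ S) (hw0 : 0 < R w) (hwu : uOf N (R w) (x w) ≤ uLast d) :
    vOf (1 / (p + 1)) (1 / (q + 1)) (y w / x w) <
      quadN n₀ n₁ n₂ (uOf N (R w) (x w)) / (c - uOf N (R w) (x w)) := by
  obtain ⟨hal, hbe, hd0, -⟩ := hb.facts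
  subst hd
  set al := 1 / (p + 1) with hald
  set be := 1 / (q + 1) with hbed
  set d := be - al with hdd
  have hu1 : uLast d < 1 := max_lt (by norm_num) (by linarith)
  have hWp : ∀ u, u ≤ uLast d → 0 < c - u := fun u hu => by linarith
  have hlow : ∀ w ∈ S, 0 < R w → uOf N (R w) (x w) ≤ uLast d →
      bandT N al be d (exitBandSix d) (uOf N (R w) (x w)) (y w / x w) <
        hOf N (R w) (x w) (y w) w := fun w hw hw0 hwu => by
    rcases lt_or_ge (uOf N (R w) (x w)) (1 / 2) with g | g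
    · refine lt_of_eq_of_lt ?_ (orbit_lower_six hf hb hw hw0 (by linarith))
      simp only [bandT, bandL, exitBandSix, if_pos g, ← hald, ← hbed, ← hdd]
      ring
    rcases le_or_gt (uOf N (R w) (x w)) (39 / 40) with g' | g'
    · refine lt_of_eq_of_lt ?_ (orbit_lowT_six hf hb hw hw0 g')
      simp only [bandT, exitBandSix, if_neg (not_lt.2 g), if_pos g', ← hald, ← hbed, ← hdd]
    · refine lt_of_eq_of_lt ?_ (orbit_lowEnd_six hf hb hw hw0 g'.le)
      simp only [bandT, exitBandSix, if_neg (not_lt.2 g), if_neg (not_le.2 g'), ← hald, ← hbed,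
        ← hdd]
  have key := exitF_step_six hf hb (u₁ := uLast d) hu1
    (fun u => hasDerivAt_quadN n₀ n₁ n₂ u)
    (W := fun u => c - u) (W' := fun _ => -1)
    (fun u => (hasDerivAt_id u).const_sub c) (fun u _ hu => hWp u hu) (exitBandSix d)
    (fun u r => (u ≤ 4 / 5 → vOf al be r < phiSix d u) ∧ d * vOf al be r < 1 / 2 ∧
      ∃ h, bandT N al be d (exitBandSix d) u r < h ∧ InChart N al be u r h ∧
        0 < ev N al be u r h)
    (fun w hw hw0 hwu => ⟨fun h => orbit_phi_six hf hb hw hw0 h, by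
        obtain ⟨-, -, -, hr1, -, -, -, hc', hk, -⟩ := hf.chart hb.five hb.one_le w hw hw0
        exact (hb.v_mem hc' hr1 hk).2.2,
      _, hlow w hw hw0 hwu, hf.chart hb.five hb.one_le w hw hw0,
      orbit_ev_pos hf hb.five hb.one_le hal hbe hw hw0⟩)
    hlow (fun r hr hE hv hv1 => ?_) (fun u r hu0 hu hr hE hv hv1 hG => ?_) hw hw0 hwu
  · rw [lt_div_iff₀ (hWp _ hwu), mul_comm]
    exact key
  · obtain ⟨-, hdv, h, hlt, hI, hev⟩ := hE
    exact hend _ hv hv1 hdv (al_v_lt_six hb hr (by linarith))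
      (lieE_pos_of_ev_six hb hI hlt hev hv)
  · exact hsign u _ hu0 hu hE.1 (al_v_lt_six hb hr (by linarith)) hG

theorem strip_mem {d u : ℝ} (hd2 : d < 1 / 16) (hu : 39 / 40 ≤ u) (hu1 : u ≤ 1 - 2 / 5 * d) :
    ∃ o, (⟨0, 1001, 1000⟩ : Side).Mem o ∧ ∀ S, eStripU.val o 0 d S = u := by
  have hl : 0 < 1 / 40 - 2 / 5 * d := by linarith
  refine ⟨(u - 39 / 40) / (1 / 40 - 2 / 5 * d), mem_thousandths ?_ ?_, fun S => ?_⟩
  · push_cast
    simpa using div_nonneg (sub_nonneg.2 hu) hl.le
  · have : (u - 39 / 40) / (1 / 40 - 2 / 5 * d) ≤ 1 := (div_le_one hl).2 (by linarith)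
    push_cast
    linarith
  · simp only [eStripU, val_addT, val_subT, val_mulT, Ex.val]
    push_cast
    rw [div_mul_cancel₀ _ hl.ne']
    ring

theorem exit_band_vals {d : ℝ} (hd : 0 ≤ d) (hd1 : d ≤ 1 / 3) (u v S' : ℝ) :
    (u ≤ 1 → 0 < sixTG.val u v d S' ∧ sixTN.val u v d S' = lowT d u * sixTG.val u v d S') ∧
      (sixL₁ + sixL₂ * eU + sixL₃ * (eU * eU)).val u v d S' =
        sixLc₁ d + sixLc₂ d * u + sixLc₃ d * u ^ 2 := by
  refine ⟨fun hu => ?_, ?_⟩
  · obtain ⟨eN, eG⟩ := six_tail_val u v d S'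
    have hg : 0 < sixTG.val u v d S' := by rw [eG]; linarith [one_lt_lowT_pole hd hd1]
    refine ⟨hg, ?_⟩
    rw [eG] at hg
    rw [eN, eG, lowT_eq, div_mul_cancel₀ _ hg.ne']
  · simp only [val_addT, val_mulT, sixL₁, sixL₂, sixL₃, val_eQ3, Ex.val, sixLc₁, sixLc₂, sixLc₃]
    push_cast
    ring

/-- The sign of an exit curve on `(0, uLast]` from the cleared numerators on the three bands. -/
theorem piece_sign {A W P : Ex} {d S' a₀ a₁ a₂ c : ℝ} (hd : 0 < d) (hd1 : d ≤ 1 / 3) (hc : 1 < c)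
    (eA : ∀ u v, A.val u v d S' = quadN a₀ a₁ a₂ u) (eW : ∀ u v, W.val u v d S' = c - u)
    (eP : ∀ u v, P.val u v d S' = quadD a₁ a₂ u * (c - u) + quadN a₀ a₁ a₂ u)
    (hL : ∀ u, 0 ≤ u → u < 1 / 2 →
      0 < (eExitPH A W P (sixL₁ + sixL₂ * eU + sixL₃ * (eU * eU)) (eC 1)).val u 0 d S' ∧
      0 < (eSlopePH A W P (sixL₁ + sixL₂ * eU + sixL₃ * (eU * eU)) (eC 1)).val u 0 d S' ∧
      (0 < (eAbovePhi A W).val u 0 d S' ∨ 0 < P.val u 0 d S'))
    (hT : ∀ u, 1 / 2 ≤ u → u ≤ 39 / 40 → 0 < (eExitPH A W P sixTN sixTG).val u 0 d S' ∧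
      0 < (eSlopePH A W P sixTN sixTG).val u 0 d S' ∧ 0 < P.val u 0 d S')
    (hE : d < 1 / 16 → ∀ o, (⟨0, 1001, 1000⟩ : Side).Mem o →
      0 < (eSubst eStripU (eExitPH A W P sixEN sixEG)).val o 0 d S' ∧
      0 < (eSubst eStripU (eSlopePH A W P sixEN sixEG)).val o 0 d S' ∧
      0 < (eSubst eStripU P).val o 0 d S')
    (u v : ℝ) (hu0 : 0 < u) (hu : u ≤ uLast d) (hphi : u ≤ 4 / 5 → v < phiSix d u)
    (hG : (c - u) * v = quadN a₀ a₁ a₂ u) :
    0 < exitP S' d u v (exitBandSix d u) (c - u) (quadD a₁ a₂ u - -1 * v) ∧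
      0 ≤ quadD a₁ a₂ u - -1 * v ∧
      d * u * (quadD a₁ a₂ u - -1 * v) *
          (bandB S' d - u * d * bandK S' d u v (exitBandSix d u) 0 0) ≤
        (c - u) * (1 + d * v) * denV S' d u v (exitBandSix d u) := by
  have hu1 : u < 1 := lt_of_le_of_lt hu (max_lt (by norm_num) (by linarith))
  have hW : 0 < c - u := by linarith
  obtain ⟨hTB, eL⟩ := exit_band_vals hd.le hd1 u 0 S'
  rcases lt_or_ge u (1 / 2) with g | g
  · rw [exitBandSix, if_pos g]
    obtain ⟨hx, hs, hg⟩ := hL u hu0.le g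
    refine quad_conds (n := sixL₁ + sixL₂ * eU + sixL₃ * (eU * eU)) (G := eC 1) hW hG (eA u 0)
      (eW u 0) (eP u 0) (by simp [Ex.val]) (by rw [eL]; simp [Ex.val]) hx hs
      (hg.resolve_left fun hv => ?_)
    have h2 := hphi (by linarith)
    have hgap : 0 < 19 / 20 - u := by linarith
    simp only [eAbovePhi, val_subT, val_addT, val_mulT, sixA, sixB, sixK, val_eQ3, Ex.val, eA, eW,
      ← hG] at hv
    push_cast at hv
    have h3 := mul_lt_mul_of_pos_left h2 (mul_pos hW hgap)
    simp only [phiSix, phiG] at h3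
    rw [mul_add, mul_assoc (c - u) (19 / 20 - u) (_ / _), mul_div_cancel₀ _ hgap.ne'] at h3
    linarith
  rcases le_or_gt u (39 / 40) with g' | g'
  · rw [exitBandSix, if_neg (not_lt.2 g), if_pos g']
    obtain ⟨hTG, hTN⟩ := hTB hu1.le
    obtain ⟨hx, hs, hg⟩ := hT u g g'
    exact quad_conds hW hG (eA u 0) (eW u 0) (eP u 0) hTG hTN hx hs hg
  rw [exitBandSix, if_neg (not_lt.2 g), if_neg (not_le.2 g')]
  have hd2 : d < 1 / 16 := by
    by_contra hn
    rw [not_lt] at hn
    have := hu.trans (le_of_eq (max_eq_left (show 1 - 2 / 5 * d ≤ 39 / 40 by linarith)))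
    linarith
  rw [uLast, max_eq_right (show (39 : ℝ) / 40 ≤ 1 - 2 / 5 * d by linarith)] at hu
  obtain ⟨o, ho, eo⟩ := strip_mem hd2 g'.le hu
  obtain ⟨hx, hs, hg⟩ := hE hd2 o ho
  rw [val_subst, eo] at hx hs hg
  obtain ⟨hEG, hEN⟩ := six_end_den hd.le hd1 u 0 S'
  exact quad_conds hW hG (eA u 0) (eW u 0) (eP u 0) hEG hEN hx hs hg

theorem six_phi_val_A (u v d S' : ℝ) :
    sixAA.val u v d S' = quadN (4449 / 10000 + 11025 / 10000 * d + 450604 / 10000 * d ^ 2) (1677 / 10000 - 63372 / 10000 * d + 257195 / 10000 * d ^ 2) (-4134 / 10000 + 52233 / 10000 * d - 1111663 / 10000 * d ^ 2) u ∧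
      sixAW.val u v d S' = 10613 / 10000 - 2562 / 10000 * d - 126334 / 10000 * d ^ 2 - u ∧
      sixAR.val u v d S' = quadD (1677 / 10000 - 63372 / 10000 * d + 257195 / 10000 * d ^ 2) (-4134 / 10000 + 52233 / 10000 * d - 1111663 / 10000 * d ^ 2) u * (10613 / 10000 - 2562 / 10000 * d - 126334 / 10000 * d ^ 2 - u) +
        quadN (4449 / 10000 + 11025 / 10000 * d + 450604 / 10000 * d ^ 2) (1677 / 10000 - 63372 / 10000 * d + 257195 / 10000 * d ^ 2) (-4134 / 10000 + 52233 / 10000 * d - 1111663 / 10000 * d ^ 2) u := by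
  refine ⟨?_, ?_, ?_⟩ <;>
    simp only [sixAA, sixAW, sixAR, eQuadP, val_subT, val_addT, val_mulT, val_quadN,
      val_eQ3, Ex.val, quadN, quadD] <;> push_cast <;> ring

theorem one_lt_pole_A {d : ℝ} (hd : 0 ≤ d) (hd1 : d ≤ 3 / 100) :
    1 < 10613 / 10000 - 2562 / 10000 * d - 126334 / 10000 * d ^ 2 := by
  nlinarith [mul_nonneg hd (sub_nonneg.2 hd1)]

/-- **The exit curve of the piece A.** -/
theorem orbit_phiTail_sixA (hf : IsOrbitFns N p q S R x y s dx dy)
    (hb : SlabBoxSix N (1 / (p + 1)) (1 / (q + 1))) (h0 : 0 ≤ 1 / (q + 1) - 1 / (p + 1))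
    (h1 : 1 / (q + 1) - 1 / (p + 1) ≤ 3 / 100)
    {w : ℝ} (hw : w ∈ S) (hw0 : 0 < R w)
    (hwu : uOf N (R w) (x w) ≤ uLast (1 / (q + 1) - 1 / (p + 1))) :
    vOf (1 / (p + 1)) (1 / (q + 1)) (y w / x w) <
      bandsA.phi (1 / (q + 1) - 1 / (p + 1)) (uOf N (R w) (x w)) := by
  obtain ⟨-, hd1, hS⟩ := hb.side
  have hd : 0 < 1 / (q + 1) - 1 / (p + 1) := hb.facts.2.2.1
  set d := 1 / (q + 1) - 1 / (p + 1) with hdd
  set Sg := 1 / (p + 1) + 1 / (q + 1) with hSg
  have hpole := one_lt_pole_A h0 h1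
  have eA := fun u v => (six_phi_val_A u v d Sg).1
  have eW := fun u v => (six_phi_val_A u v d Sg).2.1
  have eP := fun u v => (six_phi_val_A u v d Sg).2.2
  have m0 : (⟨0, 1, 1000⟩ : Side).Mem (0 : ℝ) := (mem_thousandths (x := 0) (by norm_num) (by norm_num))
  refine phi_tail_core hf hb hdd hpole (fun v hv hv1 hdv hA he => ?_)
    (fun u v hu0 hu hphi _ hG => piece_sign hd hd1 hpole eA eW eP
      (fun u hu hu1 => ⟨six_exit_AL hu hu1 h0 h1 hS, six_slope_AL hu hu1 h0 h1 hS,
        six_rise_AL hu hu1 h0 h1 hS⟩)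
      (fun u hu hu1 => ⟨six_exit_AT hu hu1 h0 h1 hS, six_slope_AT hu hu1 h0 h1 hS,
        six_rise_AT hu hu1 h0 h1 hS⟩)
      (fun hd2 o ho => ⟨?_, Ex.pos_of_checkQuick six_exit_AE_s_0 ho (mem_thousandths (x := 0) (by norm_num) (by norm_num)) (mem_thousandths (by push_cast; linarith) (by push_cast; linarith)) hS,
        Ex.pos_of_checkQuick six_exit_AE_g_0 ho (mem_thousandths (x := 0) (by norm_num) (by norm_num)) (mem_thousandths (by push_cast; linarith) (by push_cast; linarith)) hS⟩) u v hu0 hu hphi hG) hw hw0 hwu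
  · have hU : uLast d = 1 - 2 / 5 * d := max_eq_right (by linarith)
    rw [hU]
    have md : (⟨0, 301, 10000⟩ : Side).Mem d := (side_mem_four (by push_cast; linarith) (by push_cast; linarith))
    have hc := Ex.pos_of_checkQuick six_end_AE_cap m0 m0 md hS
    simp only [val_subst, val_subT, val_mulT, eEndU, Ex.val, eA, eW] at hc
    push_cast [div_one] at hc
    have hv2 : v ≤ 3142 / 1000 := by
      by_contra hn
      rw [not_le] at hn
      have := mul_lt_mul_of_pos_left hn (show 0 < 2 / 3 - d by linarith)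
      linarith
    have := mul_le_mul_of_nonneg_left hv2
      (show 0 ≤ 10613 / 10000 - 2562 / 10000 * d - 126334 / 10000 * d ^ 2 - (1 - 2 / 5 * d) by linarith)
    linarith
  · have ho1 := ho.1
    push_cast at ho1
    rcases lt_or_ge o (500 / 1000) with g | g
    · exact Ex.pos_of_checkQuick six_exit_AE_x_0 (mem_thousandths (by push_cast; linarith) (by push_cast; linarith)) (mem_thousandths (x := 0) (by norm_num) (by norm_num)) (mem_thousandths (by push_cast; linarith) (by push_cast; linarith)) hS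
    · refine Ex.pos_of_checkQuick six_exit_AE_x_500 (mem_thousandths ?_ ?_) (mem_thousandths (x := 0) (by norm_num) (by norm_num)) (mem_thousandths (by push_cast; linarith) (by push_cast; linarith)) hS
      · push_cast; linarith
      · exact ho.2

theorem six_phi_val_B (u v d S' : ℝ) :
    sixBA.val u v d S' = quadN (4688 / 10000 + 9807 / 10000 * d + 143445 / 10000 * d ^ 2) (778 / 10000 + 42834 / 10000 * d - 818829 / 10000 * d ^ 2) (-3339 / 10000 - 87629 / 10000 * d + 887392 / 10000 * d ^ 2) u ∧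
      sixBW.val u v d S' = 10679 / 10000 - 15531 / 10000 * d + 94429 / 10000 * d ^ 2 - u ∧
      sixBR.val u v d S' = quadD (778 / 10000 + 42834 / 10000 * d - 818829 / 10000 * d ^ 2) (-3339 / 10000 - 87629 / 10000 * d + 887392 / 10000 * d ^ 2) u * (10679 / 10000 - 15531 / 10000 * d + 94429 / 10000 * d ^ 2 - u) +
        quadN (4688 / 10000 + 9807 / 10000 * d + 143445 / 10000 * d ^ 2) (778 / 10000 + 42834 / 10000 * d - 818829 / 10000 * d ^ 2) (-3339 / 10000 - 87629 / 10000 * d + 887392 / 10000 * d ^ 2) u := by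
  refine ⟨?_, ?_, ?_⟩ <;>
    simp only [sixBA, sixBW, sixBR, eQuadP, val_subT, val_addT, val_mulT, val_quadN,
      val_eQ3, Ex.val, quadN, quadD] <;> push_cast <;> ring

theorem one_lt_pole_B {d : ℝ} (hd : 3 / 100 ≤ d) (hd1 : d ≤ 27 / 200) :
    1 < 10679 / 10000 - 15531 / 10000 * d + 94429 / 10000 * d ^ 2 := by
  nlinarith [mul_self_nonneg (d - 15531 / 188858)]

/-- **The exit curve of the piece B.** -/
theorem orbit_phiTail_sixB (hf : IsOrbitFns N p q S R x y s dx dy)
    (hb : SlabBoxSix N (1 / (p + 1)) (1 / (q + 1))) (h0 : 3 / 100 ≤ 1 / (q + 1) - 1 / (p + 1))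
    (h1 : 1 / (q + 1) - 1 / (p + 1) ≤ 27 / 200)
    {w : ℝ} (hw : w ∈ S) (hw0 : 0 < R w)
    (hwu : uOf N (R w) (x w) ≤ uLast (1 / (q + 1) - 1 / (p + 1))) :
    vOf (1 / (p + 1)) (1 / (q + 1)) (y w / x w) <
      bandsB.phi (1 / (q + 1) - 1 / (p + 1)) (uOf N (R w) (x w)) := by
  obtain ⟨-, hd1, hS⟩ := hb.side
  have hd : 0 < 1 / (q + 1) - 1 / (p + 1) := hb.facts.2.2.1
  set d := 1 / (q + 1) - 1 / (p + 1) with hdd
  set Sg := 1 / (p + 1) + 1 / (q + 1) with hSg
  have hpole := one_lt_pole_B h0 h1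
  have eA := fun u v => (six_phi_val_B u v d Sg).1
  have eW := fun u v => (six_phi_val_B u v d Sg).2.1
  have eP := fun u v => (six_phi_val_B u v d Sg).2.2
  have m0 : (⟨0, 1, 1000⟩ : Side).Mem (0 : ℝ) := (mem_thousandths (x := 0) (by norm_num) (by norm_num))
  refine phi_tail_core hf hb hdd hpole (fun v hv hv1 hdv hA he => ?_)
    (fun u v hu0 hu hphi _ hG => piece_sign hd hd1 hpole eA eW eP
      (fun u hu hu1 => ⟨six_exit_BL hu hu1 h0 h1 hS, six_slope_BL hu hu1 h0 h1 hS,
        six_rise_BL hu hu1 h0 h1 hS⟩)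
      (fun u hu hu1 => ⟨six_exit_BT hu hu1 h0 h1 hS, six_slope_BT hu hu1 h0 h1 hS,
        six_rise_BT hu hu1 h0 h1 hS⟩)
      (fun hd2 o ho => ⟨Ex.pos_of_checkQuick six_exit_BE_x_0 ho (mem_thousandths (x := 0) (by norm_num) (by norm_num)) (mem_thousandths (by push_cast; linarith) (by push_cast; linarith)) hS,
        Ex.pos_of_checkQuick six_exit_BE_s_0 ho (mem_thousandths (x := 0) (by norm_num) (by norm_num)) (mem_thousandths (by push_cast; linarith) (by push_cast; linarith)) hS,
        Ex.pos_of_checkQuick six_exit_BE_g_0 ho (mem_thousandths (x := 0) (by norm_num) (by norm_num)) (mem_thousandths (by push_cast; linarith) (by push_cast; linarith)) hS⟩) u v hu0 hu hphi hG) hw hw0 hwu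
  rcases lt_or_ge d (1 / 16) with g | g
  · have hU : uLast d = 1 - 2 / 5 * d := max_eq_right (by linarith)
    rw [hU] at he ⊢
    have md : (⟨300, 626, 10000⟩ : Side).Mem d := (side_mem_four (by push_cast; linarith) (by push_cast; linarith))
    have hc := Ex.pos_of_checkQuick six_end_BE_cap m0 m0 md hS
    simp only [val_subst, val_subT, val_mulT, eEndU, Ex.val, eA, eW] at hc
    push_cast [div_one] at hc
    obtain ⟨hg, eN⟩ := six_end_den hd.le hd1 (1 - 2 / 5 * d) 0 Sg
    rw [exitBandSix, if_neg (by linarith), if_neg (by linarith)] at he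
    refine quad_end (cap := 3311 / 1000) (c := 3134 / 1000) (W := sixBW) (A := sixBA) (n := sixEN)
      (G := sixEG) (u := 1 - 2 / 5 * d) (by linarith) (by linarith) ?_ (fun o => eA _ o)
      (fun o => eW _ o) hg (fun o => ?_) (fun o => ?_) (fun o ho ho1 => ?_) he
    · by_contra hn
      rw [not_lt] at hn
      have := mul_le_mul_of_nonneg_left hn (show 0 ≤ 2 / 3 - d by linarith)
      linarith
    · simp only [sixEG, val_subT, val_eQ3, Ex.val]
    · rw [← eN]; simp only [sixEN, val_mulT, val_addT, val_eQ3, Ex.val]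
    · have := Ex.pos_of_checkQuick six_end_BE m0
        (mem_thousandths (show ((0 : ℤ) : ℝ) / 1000 ≤ o by push_cast; linarith)
          (show o < ((178 : ℤ) : ℝ) / 1000 by push_cast; linarith)) md hS
      simp only [val_subst, eEndU, val_subT, val_mulT, Ex.val] at this
      push_cast [div_one] at this
      exact this
  ·
    have hU : uLast d = 39 / 40 := max_eq_left (by linarith)
    rw [hU] at he ⊢
    have md : (⟨625, 1351, 10000⟩ : Side).Mem d := (side_mem_four (by push_cast; linarith) (by push_cast; linarith))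
    have hc := Ex.pos_of_checkQuick six_end_BT_cap m0 m0 md hS
    simp only [val_subst, val_subT, val_mulT, Ex.val, eA, eW] at hc
    push_cast [div_one] at hc
    obtain ⟨hg, eN⟩ := (exit_band_vals hd.le hd1 (39 / 40) 0 Sg).1 (by norm_num)
    rw [exitBandSix, if_neg (by norm_num), if_pos le_rfl] at he
    refine quad_end (cap := 3751 / 1000) (c := 2577 / 1000) (W := sixBW) (A := sixBA) (n := sixTN)
      (G := sixTG) (u := 39 / 40) (by linarith) (by linarith) (lt_of_le_of_lt hv1 (by norm_num)) (fun o => eA _ o)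
      (fun o => eW _ o) hg (fun o => ?_) (fun o => ?_) (fun o ho ho1 => ?_) he
    · rw [(six_tail_val _ o _ _).2, (six_tail_val _ 0 _ _).2]
    · rw [← eN, (six_tail_val _ o _ _).1, (six_tail_val _ 0 _ _).1]
    · have := Ex.pos_of_checkQuick six_end_BT m0
        (mem_thousandths (show ((0 : ℤ) : ℝ) / 1000 ≤ o by push_cast; linarith)
          (show o < ((1174 : ℤ) : ℝ) / 1000 by push_cast; linarith)) md hS
      simp only [val_subst, Ex.val] at this
      push_cast [div_one] at this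
      exact this

theorem six_phi_val_C (u v d S' : ℝ) :
    sixCA.val u v d S' = quadN (1003 / 10000 + 82233 / 10000 * d - 211870 / 10000 * d ^ 2) (10241 / 10000 - 191297 / 10000 * d + 483620 / 10000 * d ^ 2) (-10414 / 10000 + 111314 / 10000 * d - 276523 / 10000 * d ^ 2) u ∧
      sixCW.val u v d S' = 9993 / 10000 + 1635 / 10000 * d + 682 / 10000 * d ^ 2 - u ∧
      sixCR.val u v d S' = quadD (10241 / 10000 - 191297 / 10000 * d + 483620 / 10000 * d ^ 2) (-10414 / 10000 + 111314 / 10000 * d - 276523 / 10000 * d ^ 2) u * (9993 / 10000 + 1635 / 10000 * d + 682 / 10000 * d ^ 2 - u) +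
        quadN (1003 / 10000 + 82233 / 10000 * d - 211870 / 10000 * d ^ 2) (10241 / 10000 - 191297 / 10000 * d + 483620 / 10000 * d ^ 2) (-10414 / 10000 + 111314 / 10000 * d - 276523 / 10000 * d ^ 2) u := by
  refine ⟨?_, ?_, ?_⟩ <;>
    simp only [sixCA, sixCW, sixCR, eQuadP, val_subT, val_addT, val_mulT, val_quadN,
      val_eQ3, Ex.val, quadN, quadD] <;> push_cast <;> ring

theorem one_lt_pole_C {d : ℝ} (hd : 27 / 200 ≤ d) (hd1 : d ≤ 1 / 3) :
    1 < 9993 / 10000 + 1635 / 10000 * d + 682 / 10000 * d ^ 2 := by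
  nlinarith [mul_le_mul hd hd (by norm_num) (by linarith)]

/-- **The exit curve of the piece C.** -/
theorem orbit_phiTail_sixC (hf : IsOrbitFns N p q S R x y s dx dy)
    (hb : SlabBoxSix N (1 / (p + 1)) (1 / (q + 1))) (h0 : 27 / 200 ≤ 1 / (q + 1) - 1 / (p + 1))
    (h1 : 1 / (q + 1) - 1 / (p + 1) ≤ 1 / 3)
    {w : ℝ} (hw : w ∈ S) (hw0 : 0 < R w)
    (hwu : uOf N (R w) (x w) ≤ uLast (1 / (q + 1) - 1 / (p + 1))) :
    vOf (1 / (p + 1)) (1 / (q + 1)) (y w / x w) <
      bandsC.phi (1 / (q + 1) - 1 / (p + 1)) (uOf N (R w) (x w)) := by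
  obtain ⟨-, hd1, hS⟩ := hb.side
  have hd : 0 < 1 / (q + 1) - 1 / (p + 1) := hb.facts.2.2.1
  set d := 1 / (q + 1) - 1 / (p + 1) with hdd
  set Sg := 1 / (p + 1) + 1 / (q + 1) with hSg
  have hpole := one_lt_pole_C h0 h1
  have eA := fun u v => (six_phi_val_C u v d Sg).1
  have eW := fun u v => (six_phi_val_C u v d Sg).2.1
  have eP := fun u v => (six_phi_val_C u v d Sg).2.2
  have m0 : (⟨0, 1, 1000⟩ : Side).Mem (0 : ℝ) := (mem_thousandths (x := 0) (by norm_num) (by norm_num))
  refine phi_tail_core hf hb hdd hpole (fun v hv hv1 hdv hA he => ?_)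
    (fun u v hu0 hu hphi _ hG => piece_sign hd hd1 hpole eA eW eP
      (fun u hu hu1 => ⟨six_exit_CL hu hu1 h0 h1 hS, six_slope_CL hu hu1 h0 h1 hS,
        six_rise_CL hu hu1 h0 h1 hS⟩)
      (fun u hu hu1 => ⟨six_exit_CT hu hu1 h0 h1 hS, six_slope_CT hu hu1 h0 h1 hS,
        six_rise_CT hu hu1 h0 h1 hS⟩)
      (fun hd2 => absurd hd2 (by linarith)) u v hu0 hu hphi hG) hw hw0 hwu
  ·
    have hU : uLast d = 39 / 40 := max_eq_left (by linarith)
    rw [hU] at he ⊢
    have md : (⟨1350, 3334, 10000⟩ : Side).Mem d := (side_mem_four (by push_cast; linarith) (by push_cast; linarith))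
    have hc := Ex.pos_of_checkQuick six_end_CT_cap m0 m0 md hS
    simp only [val_subst, val_subT, val_mulT, Ex.val, eA, eW] at hc
    push_cast [div_one] at hc
    obtain ⟨hg, eN⟩ := (exit_band_vals hd.le hd1 (39 / 40) 0 Sg).1 (by norm_num)
    rw [exitBandSix, if_neg (by norm_num), if_pos le_rfl] at he
    refine quad_end (cap := 3704 / 1000) (c := 1439 / 1000) (W := sixCW) (A := sixCA) (n := sixTN)
      (G := sixTG) (u := 39 / 40) (by linarith) (by linarith) (lt_of_not_ge fun hn => by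
        have := mul_le_mul_of_nonneg_left hn hd.le
        linarith) (fun o => eA _ o)
      (fun o => eW _ o) hg (fun o => ?_) (fun o => ?_) (fun o ho ho1 => ?_) he
    · rw [(six_tail_val _ o _ _).2, (six_tail_val _ 0 _ _).2]
    · rw [← eN, (six_tail_val _ o _ _).1, (six_tail_val _ 0 _ _).1]
    · have := Ex.pos_of_checkQuick six_end_CT m0
        (mem_thousandths (show ((0 : ℤ) : ℝ) / 1000 ≤ o by push_cast; linarith)
          (show o < ((2266 : ℤ) : ℝ) / 1000 by push_cast; linarith)) md hS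
      simp only [val_subst, Ex.val] at this
      push_cast [div_one] at this
      exact this

end Vale.Agent.P100.Calib.Band
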