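import Vale.Agent.P100.Calib.SlabRatExpr

/-!
# Rational lower bands past `u = 3/5`

`L = (l₀ + l₁ (u - 3/5)/(1 - u + a) + l₂ (u - 3/5)/(1 - u + b))/Q` with
`Q = 1 + 66/5 d + 292/5 d²`, and the numerators of its rung.
-/

namespace Vale.Agent.P100.Calib.Band

open BoxPos

local instance tailAdd : Add Ex := ⟨Ex.add⟩
local instance tailSub : Sub Ex := ⟨Ex.sub⟩
local instance tailMul : Mul Ex := ⟨Ex.mul⟩

/-- `Q`. -/
noncomputable def tailQ (d : ℝ) : ℝ := 1 + 66 / 5 * d + 292 / 5 * d ^ 2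

/-- The band. -/
noncomputable def tailL (l₀ l₁ l₂ a b d u : ℝ) : ℝ :=
  (l₀ + l₁ * ((u - 3 / 5) / (1 - u + a)) + l₂ * ((u - 3 / 5) / (1 - u + b))) / tailQ d

/-- Its derivative. -/
noncomputable def tailD (l₁ l₂ a b d u : ℝ) : ℝ :=
  (l₁ * ((2 / 5 + a) / (1 - u + a) ^ 2) + l₂ * ((2 / 5 + b) / (1 - u + b) ^ 2)) / tailQ d

/-- The numerator. -/
noncomputable def tailN (l₀ l₁ l₂ a b u : ℝ) : ℝ :=
  l₀ * (1 - u + a) * (1 - u + b) + l₁ * (u - 3 / 5) * (1 - u + b) +
    l₂ * (u - 3 / 5) * (1 - u + a)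

/-- The denominator. -/
noncomputable def tailG (a b d u : ℝ) : ℝ := (1 - u + a) * (1 - u + b) * tailQ d

/-- The derivative numerator of `u L`. -/
noncomputable def tailM (l₀ l₁ l₂ a b d u : ℝ) : ℝ :=
  tailN l₀ l₁ l₂ a b u * tailG a b d u +
    u * tailQ d * (l₁ * (2 / 5 + a) * ((1 - u + b) * (1 - u + b)) +
      l₂ * (2 / 5 + b) * ((1 - u + a) * (1 - u + a)))

theorem tailQ_pos {d : ℝ} (hd : 0 ≤ d) : 0 < tailQ d := by
  have := sq_nonneg d
  unfold tailQ
  linarith

theorem tailG_pos {a b d u : ℝ} (hd : 0 ≤ d) (ha : u < 1 + a) (hb : u < 1 + b) :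
    0 < tailG a b d u :=
  mul_pos (mul_pos (by linarith) (by linarith)) (tailQ_pos hd)

theorem tailN_eq {l₀ l₁ l₂ a b d u : ℝ} (hd : 0 ≤ d) (ha : u < 1 + a) (hb : u < 1 + b) :
    tailN l₀ l₁ l₂ a b u = tailL l₀ l₁ l₂ a b d u * tailG a b d u := by
  have h1 : 1 - u + a ≠ 0 := by linarith
  have h2 : 1 - u + b ≠ 0 := by linarith
  have h3 := (tailQ_pos hd).ne'
  simp only [tailN, tailL, tailG]
  generalize tailQ d = Q at h3 ⊢
  generalize 1 - u + a = A at h1 ⊢
  generalize 1 - u + b = B at h2 ⊢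
  field_simp

theorem tailM_eq {l₀ l₁ l₂ a b d u : ℝ} (hd : 0 ≤ d) (ha : u < 1 + a) (hb : u < 1 + b) :
    tailM l₀ l₁ l₂ a b d u =
      (tailL l₀ l₁ l₂ a b d u + u * tailD l₁ l₂ a b d u) * tailG a b d u ^ 2 := by
  have h1 : 1 - u + a ≠ 0 := by linarith
  have h2 : 1 - u + b ≠ 0 := by linarith
  have h3 := (tailQ_pos hd).ne'
  rw [tailM, tailN_eq hd ha hb]
  simp only [tailD, tailG]
  generalize tailL l₀ l₁ l₂ a b d u = L
  generalize tailQ d = Q at h3 ⊢
  generalize 1 - u + a = A at h1 ⊢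
  generalize 1 - u + b = B at h2 ⊢
  field_simp

theorem hasDerivAt_tail {l₀ l₁ l₂ a b d u : ℝ} (ha : u < 1 + a) (hb : u < 1 + b) :
    HasDerivAt (tailL l₀ l₁ l₂ a b d) (tailD l₁ l₂ a b d u) u := by
  have hden : ∀ c, u < 1 + c → HasDerivAt (fun t : ℝ => (t - 3 / 5) / (1 - t + c))
      ((2 / 5 + c) / (1 - u + c) ^ 2) u := fun c hc => by
    refine (((hasDerivAt_id u).sub_const (3 / 5)).fun_div
      (((hasDerivAt_id u).const_sub 1).add_const c)
      (by simp only [id_eq]; linarith)).congr_deriv ?_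
    simp only [id_eq]
    ring
  refine (((((hden a ha).const_mul l₁).const_add l₀).fun_add
    ((hden b hb).const_mul l₂)).div_const (tailQ d)).congr_deriv ?_
  simp only [tailD]

/-- The extension of `f` past `e` by its tangent. -/
noncomputable def tangentExt (f f' : ℝ → ℝ) (e u : ℝ) : ℝ :=
  if u ≤ e then f u else f e + f' e * (u - e)

theorem hasDerivAt_tangentExt {f f' : ℝ → ℝ} {e : ℝ}
    (hf : ∀ u ≤ e, HasDerivAt f (f' u) u) (u : ℝ) :
    HasDerivAt (tangentExt f f' e) (if u ≤ e then f' u else f' e) u := by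
  have hl : ∀ t, HasDerivAt (fun t => f e + f' e * (t - e)) (f' e) t := fun t => by
    simpa using (((hasDerivAt_id t).sub_const e).const_mul (f' e)).const_add (f e)
  rcases lt_trichotomy u e with h | h | h
  · rw [if_pos h.le]
    exact (hf u h.le).congr_of_eventuallyEq
      ((eventually_lt_nhds h).mono fun t ht => if_pos ht.le)
  · subst h
    rw [if_pos le_rfl]
    have h1 : HasDerivWithinAt (tangentExt f f' u) (f' u) (Set.Iic u) u :=
      (hf u le_rfl).hasDerivWithinAt.congr (fun t ht => if_pos ht) (if_pos le_rfl)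
    have h2 : HasDerivWithinAt (tangentExt f f' u) (f' u) (Set.Ici u) u := by
      refine (hl u).hasDerivWithinAt.congr (fun t ht => ?_) ?_
      · rcases eq_or_lt_of_le (Set.mem_Ici.1 ht) with h | h
        · subst h; simp [tangentExt]
        · exact if_neg (not_le.2 h)
      · simp [tangentExt]
    simpa [Set.Iic_union_Ici] using h1.union h2
  · rw [if_neg (not_le.2 h)]
    exact (hl u).congr_of_eventuallyEq
      ((eventually_gt_nhds h).mono fun t ht => if_neg (not_le.2 ht))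

/-- `tailQ`. -/
def eTailQ : Ex := eC 1 + eC 66 5 * eD + eC 292 5 * (eD * eD)

/-- `tailG`. -/
def eTailG (a b : Ex) : Ex := (eC 1 - eU + a) * (eC 1 - eU + b) * eTailQ

/-- `tailN`. -/
def eTailN (l₀ l₁ l₂ a b : Ex) : Ex :=
  l₀ * (eC 1 - eU + a) * (eC 1 - eU + b) + l₁ * (eU - eC 3 5) * (eC 1 - eU + b) +
    l₂ * (eU - eC 3 5) * (eC 1 - eU + a)

/-- `tailM`. -/
def eTailM (l₀ l₁ l₂ a b : Ex) : Ex :=
  eTailN l₀ l₁ l₂ a b * eTailG a b +
    eU * eTailQ * (l₁ * (eC 2 5 + a) * ((eC 1 - eU + b) * (eC 1 - eU + b)) +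
      l₂ * (eC 2 5 + b) * ((eC 1 - eU + a) * (eC 1 - eU + a)))

/-- `G` times `exitP` at `W = 1`, `g = 0`, at `n / G`. -/
def eDvH (n G : Ex) : Ex :=
  let K := eS * (eC 1 + (eC 1 - eA) * eV) * G + eB * eU * n
  let D := eB * (eC 2 + eD * eV) * G - eD * eU * K
  (eC 1 + eD * eV) * (eQ * K - eC 2 * eS * (eC 1 - eA * eV) * D)

/-- The condition of the rung: `lieH - i lieE - j dv`, `i`, `j` in thousandths. -/
def eTailCond (n G m : Ex) (i j : ℕ) : Ex :=
  eLieH n G m - eC i 1000 * (G * G * eLieE n G) - eC j 1000 * (G * G * eDvH n G)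

theorem val_addT (a b : Ex) (u v d S : ℝ) :
    (a + b).val u v d S = a.val u v d S + b.val u v d S := rfl

theorem val_subT (a b : Ex) (u v d S : ℝ) :
    (a - b).val u v d S = a.val u v d S - b.val u v d S := rfl

theorem val_mulT (a b : Ex) (u v d S : ℝ) :
    (a * b).val u v d S = a.val u v d S * b.val u v d S := rfl

variable (l₀ l₁ l₂ a b : Ex) (u v d S : ℝ)

theorem val_tailQ : eTailQ.val u v d S = tailQ d := by
  simp only [eTailQ, val_addT, val_mulT, Ex.val, tailQ]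
  push_cast
  ring

theorem val_tailG : (eTailG a b).val u v d S = tailG (a.val u v d S) (b.val u v d S) d u := by
  simp only [eTailG, val_mulT, val_addT, val_subT, val_tailQ, Ex.val, tailG]
  push_cast
  ring

theorem val_tailN : (eTailN l₀ l₁ l₂ a b).val u v d S = tailN (l₀.val u v d S) (l₁.val u v d S)
    (l₂.val u v d S) (a.val u v d S) (b.val u v d S) u := by
  simp only [eTailN, val_mulT, val_addT, val_subT, Ex.val, tailN]
  push_cast
  ring

theorem val_tailM : (eTailM l₀ l₁ l₂ a b).val u v d S = tailM (l₀.val u v d S) (l₁.val u v d S)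
    (l₂.val u v d S) (a.val u v d S) (b.val u v d S) d u := by
  simp only [eTailM, val_mulT, val_addT, val_subT, val_tailQ, val_tailN, val_tailG, Ex.val, tailM]
  push_cast
  ring

/-- The condition gives `lieV > 0` where `lieE` and `dv` are positive. -/
theorem lieV_pos_of_cond {n G m : Ex} {i j : ℕ} {t t' : ℝ}
    (h : 0 < (eTailCond n G m i j).val u v d S) (hG : 0 < G.val u v d S)
    (hn : n.val u v d S = t * G.val u v d S)
    (hm : m.val u v d S = (t + u * t') * G.val u v d S ^ 2)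
    (he : 0 < lieE S d u v t 1) (hp : 0 < exitP S d u v t 1 0) : 0 < lieV S d u v t t' := by
  obtain ⟨hB, hA, hQ⟩ := val_rat_parts u v d S
  have e1 : (eLieE n G).val u v d S = G.val u v d S * lieE S d u v t 1 := by
    rw [val_lieE, hn]
    simp only [lieE]
    ring
  have e2 : (eDvH n G).val u v d S = G.val u v d S * exitP S d u v t 1 0 := by
    simp only [eDvH, val_addT, val_subT, val_mulT, Ex.val, hB, hA, hQ, exitP, bandD, bandK, hn]
    push_cast
    ring
  simp only [eTailCond, val_subT, val_mulT, val_lieH, e1, e2] at h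
  rw [lieH_eq hn hm] at h
  simp only [Ex.val, Int.cast_natCast, Nat.cast_ofNat] at h
  set g := G.val u v d S
  have h1 := mul_nonneg (show (0 : ℝ) ≤ i / 1000 by positivity) (mul_nonneg (pow_nonneg hG.le 3) he.le)
  have h2 := mul_nonneg (show (0 : ℝ) ≤ j / 1000 by positivity) (mul_nonneg (pow_nonneg hG.le 3) hp.le)
  refine pos_of_mul_pos_right (a := g ^ 3) ?_ (pow_nonneg hG.le 3)
  linarith

end Vale.Agent.P100.Calib.Band
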