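import Vale.Agent.P100.Calib.SlabSixExpr
import Vale.Agent.P100.Calib.SlabTailExpr
import Vale.Agent.P100.Calib.SlabExitRatExpr

/-!
# The rational bands past `u = 3/10` on the slab of dimension six, as expressions

`(n₀ + n₁ u + n₂ u²)/(q - u)` with quadratic coefficients in `d` for the lower band and for the
exit curves of the three pieces, and the numerators of their rungs.
-/

namespace Vale.Agent.P100.Calib.Band

open BoxPos

local instance sixTailAdd : Add Ex := ⟨Ex.add⟩
local instance sixTailSub : Sub Ex := ⟨Ex.sub⟩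
local instance sixTailMul : Mul Ex := ⟨Ex.mul⟩

/-- `n₀ + n₁ u + n₂ u²`. -/
noncomputable def quadN (n₀ n₁ n₂ u : ℝ) : ℝ := n₀ + n₁ * u + n₂ * u ^ 2

/-- Its derivative. -/
noncomputable def quadD (n₁ n₂ u : ℝ) : ℝ := n₁ + 2 * n₂ * u

/-- The derivative of `(n₀ + n₁ u + n₂ u²)/(q - u)`. -/
noncomputable def quadR' (n₀ n₁ n₂ q u : ℝ) : ℝ :=
  (quadD n₁ n₂ u * (q - u) + quadN n₀ n₁ n₂ u) / (q - u) ^ 2

theorem hasDerivAt_quadN (n₀ n₁ n₂ u : ℝ) :
    HasDerivAt (quadN n₀ n₁ n₂) (quadD n₁ n₂ u) u := by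
  refine ((((hasDerivAt_id u).const_mul n₁).const_add n₀).fun_add
    (((hasDerivAt_id u).fun_pow 2).const_mul n₂)).congr_deriv ?_
  simp only [quadD, id_eq]
  ring

theorem hasDerivAt_quadR {n₀ n₁ n₂ q u : ℝ} (h : u < q) :
    HasDerivAt (fun t => quadN n₀ n₁ n₂ t / (q - t)) (quadR' n₀ n₁ n₂ q u) u := by
  refine ((hasDerivAt_quadN n₀ n₁ n₂ u).fun_div ((hasDerivAt_id u).const_sub q)
    (by simp only [id_eq]; linarith)).congr_deriv ?_
  simp only [quadR', id_eq]
  ring

/-- An expression with `x` in the place of the first variable. -/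
def eSubst (x : Ex) : Ex → Ex
  | .cst n d => .cst n d
  | .x₀ => x
  | .x₁ => .x₁
  | .x₂ => .x₂
  | .x₃ => .x₃
  | .add a b => .add (eSubst x a) (eSubst x b)
  | .sub a b => .sub (eSubst x a) (eSubst x b)
  | .mul a b => .mul (eSubst x a) (eSubst x b)

theorem val_subst (x : Ex) (u v d S : ℝ) :
    ∀ e : Ex, (eSubst x e).val u v d S = e.val (x.val u v d S) v d S
  | .cst _ _ => rfl
  | .x₀ => rfl
  | .x₁ => rfl
  | .x₂ => rfl
  | .x₃ => rfl
  | .add a b => congrArg₂ (· + ·) (val_subst x u v d S a) (val_subst x u v d S b)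
  | .sub a b => congrArg₂ (· - ·) (val_subst x u v d S a) (val_subst x u v d S b)
  | .mul a b => congrArg₂ (· * ·) (val_subst x u v d S a) (val_subst x u v d S b)

/-- `quadN`. -/
def eQuadN (n₀ n₁ n₂ : Ex) : Ex := n₀ + n₁ * eU + n₂ * (eU * eU)

/-- The numerator of the derivative. -/
def eQuadP (n₀ n₁ n₂ q : Ex) : Ex :=
  (n₁ + eC 2 * n₂ * eU) * (q - eU) + eQuadN n₀ n₁ n₂

/-- The derivative numerator of `u` times the quotient. -/
def eQuadM (n₀ n₁ n₂ q : Ex) : Ex :=
  eQuadN n₀ n₁ n₂ * (q - eU) + eU * eQuadP n₀ n₁ n₂ q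

theorem val_quadN (n₀ n₁ n₂ : Ex) (u v d S : ℝ) :
    (eQuadN n₀ n₁ n₂).val u v d S =
      quadN (n₀.val u v d S) (n₁.val u v d S) (n₂.val u v d S) u := by
  simp only [eQuadN, val_addT, val_mulT, Ex.val, quadN]
  ring

theorem val_quadP {n₀ n₁ n₂ q : Ex} {u v d S : ℝ} (h : u < q.val u v d S) :
    (eQuadP n₀ n₁ n₂ q).val u v d S = quadR' (n₀.val u v d S) (n₁.val u v d S)
      (n₂.val u v d S) (q.val u v d S) u * (q.val u v d S - u) ^ 2 := by
  simp only [quadR']
  rw [div_mul_cancel₀ _ (pow_ne_zero 2 (sub_ne_zero.2 h.ne'))]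
  simp only [eQuadP, val_addT, val_subT, val_mulT, val_quadN, Ex.val, quadD]
  push_cast
  ring

theorem val_quadM {n₀ n₁ n₂ q : Ex} {u v d S : ℝ} (h : u < q.val u v d S) :
    (eQuadM n₀ n₁ n₂ q).val u v d S =
      (quadN (n₀.val u v d S) (n₁.val u v d S) (n₂.val u v d S) u / (q.val u v d S - u) +
        u * quadR' (n₀.val u v d S) (n₁.val u v d S) (n₂.val u v d S) (q.val u v d S) u) *
      (q.val u v d S - u) ^ 2 := by
  simp only [eQuadM, val_addT, val_subT, val_mulT, val_quadN, val_quadP h, Ex.val]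
  have h0 : q.val u v d S - u ≠ 0 := sub_ne_zero.2 h.ne'
  generalize q.val u v d S - u = g at h0 ⊢
  field_simp

/-- `(B G W - u d K) Q + 2 S (u - 1) be D W` at `v = A / W`, `t = n / G`. -/
noncomputable def evEndH (S d u A W n G : ℝ) : ℝ :=
  let B := bandB S d;
  let K := S * (W + (1 - (S - d) / 2) * A) * G + B * u * n * W;
  let D := B * (2 * W + d * A) * G - d * u * K;
  let Q := (S + d) * (2 * W + d * A) - 2 * S * u * (W + d * A);
  (B * G * W - u * d * K) * Q + 2 * S * (u - 1) * ((S + d) / 2) * D * W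

theorem evEndH_eq {S d u v t A W n G : ℝ} (hA : A = v * W) (hn : n = t * G) :
    evEndH S d u A W n G = W ^ 2 * G * lieE S d u v t 1 := by
  subst hA hn
  simp only [evEndH, lieE, bandQ]
  generalize bandB S d = B
  ring

/-- `evEndH`, negated, at `A + v W`. -/
def eEvEnd (A W n G : Ex) : Ex :=
  let A' := A + eV * W
  let K := eS * (W + (eC 1 - eA) * A') * G + eB * eU * n * W
  let D := eB * (eC 2 * W + eD * A') * G - eD * eU * K
  let Q := (eS + eD) * (eC 2 * W + eD * A') - eC 2 * eS * eU * (W + eD * A')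
  eC 0 - ((eB * G * W - eU * eD * K) * Q +
    eC 2 * eS * (eU - eC 1) * (eC 1 2 * (eS + eD)) * D * W)

theorem val_evEnd (A W n G : Ex) (u v d S : ℝ) :
    (eEvEnd A W n G).val u v d S = -evEndH S d u (A.val u v d S + v * W.val u v d S)
      (W.val u v d S) (n.val u v d S) (G.val u v d S) := by
  obtain ⟨hB, hA, -⟩ := val_rat_parts u v d S
  simp only [eEvEnd, val_addT, val_subT, val_mulT, Ex.val, hB, hA, evEndH]
  push_cast
  ring

theorem val_eQ3 (a : ℤ) (a' : ℕ) (b : ℤ) (b' : ℕ) (c : ℤ) (c' : ℕ) (u v d S : ℝ) :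
    (eQ3 a a' b b' c c').val u v d S = a / a' + b / b' * d + c / c' * d ^ 2 := by
  simp only [eQ3, val_add, val_mul, Ex.val]
  ring

/-- `1 - 2/5 d`. -/
def eEndU : Ex := eC 1 - eC 2 5 * eD

/-- `39/40 + u (1/40 - 2/5 d)`. -/
def eStripU : Ex := eC 39 40 + eU * (eC 1 40 - eC 2 5 * eD)

/-- Numerator of the lower band. -/
def sixTN : Ex :=
  eQuadN (eQ3 8901 10000 (-464838) 10000 1309812 10000) (eQ3 18602 10000 932514 10000 (-2850123) 10000)
    (eQ3 (-17243) 10000 (-504763) 10000 1590104 10000)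

/-- Denominator of the lower band. -/
def sixTG : Ex := eQ3 10267 10000 13438 10000 (-3410) 10000 - eU

/-- Derivative numerator of the lower band. -/
def sixTM : Ex :=
  eQuadM (eQ3 8901 10000 (-464838) 10000 1309812 10000) (eQ3 18602 10000 932514 10000 (-2850123) 10000)
    (eQ3 (-17243) 10000 (-504763) 10000 1590104 10000) (eQ3 10267 10000 13438 10000 (-3410) 10000)

/-- The condition of the lower band. -/
def sixTCond (i j : ℕ) : Ex := eTailCond sixTN sixTG sixTM i j

/-- Numerator of the constant band past `39/40`. -/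
def sixEN : Ex :=
  eC 17 20 * (eQ3 8901 10000 (-464838) 10000 1309812 10000 +
    eQ3 18602 10000 932514 10000 (-2850123) 10000 * eC 39 40 +
    eQ3 (-17243) 10000 (-504763) 10000 1590104 10000 * (eC 39 40 * eC 39 40))

/-- Denominator of the constant band. -/
def sixEG : Ex := eQ3 10267 10000 13438 10000 (-3410) 10000 - eC 39 40

/-- The condition of the constant band. -/
def sixECond (i j : ℕ) : Ex := eTailCond sixEN sixEG (sixEN * sixEG) i j

/-- `sixL - lowT` cleared. -/
def sixTStart : Ex := (sixL₁ + sixL₂ * eU + sixL₃ * (eU * eU)) * sixTG - sixTN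

/-- Numerator of the exit curve of the piece `d ≤ 3/100`. -/
def sixAA : Ex :=
  eQuadN (eQ3 4449 10000 11025 10000 450604 10000) (eQ3 1677 10000 (-63372) 10000 257195 10000)
    (eQ3 (-4134) 10000 52233 10000 (-1111663) 10000)

/-- Its denominator. -/
def sixAW : Ex := eQ3 10613 10000 (-2562) 10000 (-126334) 10000 - eU

/-- Its derivative numerator. -/
def sixAR : Ex :=
  eQuadP (eQ3 4449 10000 11025 10000 450604 10000) (eQ3 1677 10000 (-63372) 10000 257195 10000)
    (eQ3 (-4134) 10000 52233 10000 (-1111663) 10000) (eQ3 10613 10000 (-2562) 10000 (-126334) 10000)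

/-- Numerator of the exit curve of the piece `3/100 ≤ d ≤ 27/200`. -/
def sixBA : Ex :=
  eQuadN (eQ3 4688 10000 9807 10000 143445 10000) (eQ3 778 10000 42834 10000 (-818829) 10000)
    (eQ3 (-3339) 10000 (-87629) 10000 887392 10000)

/-- Its denominator. -/
def sixBW : Ex := eQ3 10679 10000 (-15531) 10000 94429 10000 - eU

/-- Its derivative numerator. -/
def sixBR : Ex :=
  eQuadP (eQ3 4688 10000 9807 10000 143445 10000) (eQ3 778 10000 42834 10000 (-818829) 10000)
    (eQ3 (-3339) 10000 (-87629) 10000 887392 10000) (eQ3 10679 10000 (-15531) 10000 94429 10000)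

/-- Numerator of the exit curve of the piece `27/200 ≤ d`. -/
def sixCA : Ex :=
  eQuadN (eQ3 1003 10000 82233 10000 (-211870) 10000) (eQ3 10241 10000 (-191297) 10000 483620 10000)
    (eQ3 (-10414) 10000 111314 10000 (-276523) 10000)

/-- Its denominator. -/
def sixCW : Ex := eQ3 9993 10000 1635 10000 682 10000 - eU

/-- Its derivative numerator. -/
def sixCR : Ex :=
  eQuadP (eQ3 1003 10000 82233 10000 (-211870) 10000) (eQ3 10241 10000 (-191297) 10000 483620 10000)
    (eQ3 (-10414) 10000 111314 10000 (-276523) 10000) (eQ3 9993 10000 1635 10000 682 10000)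

/-- `φ - phiSix > 0`, cleared. -/
def eAbovePhi (A W : Ex) : Ex :=
  A * (eC 19 20 - eU) - W * ((sixA + sixB * eU) * (eC 19 20 - eU) + sixK * (eU * eU))

end Vale.Agent.P100.Calib.Band
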