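import Vale.Agent.P100.Calib.SlabSixRatChecksA
import Vale.Agent.P100.Calib.SlabSixRatChecksB
import Vale.Agent.P100.Calib.SlabSixBands
import Vale.Agent.P100.Calib.SlabSixForward
import Vale.Agent.P100.Calib.SlabChartSix

/-!
# The lower band past `u = 3/5` on the slab of dimension six

`lowT` up to `u = 39/40`, then the constant `lowEnd`.
-/

namespace Vale.Agent.P100.Calib.Band

open BoxPos Bubble Chart Closed.Six

variable {N p q : ℝ} {S : Set ℝ} {R x y s dx dy : ℝ → ℝ}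

theorem six_tail_leaf0_0 {u v d S' : ℝ} (hv : 29 / 100 ≤ v) (hv1 : v ≤ 15 / 4)
    (hone : ∀ b c : ℝ, u ≤ b → b ≤ 93 / 100 → phiOne6 b ≤ c → v < c)
    (hsix : ∀ b c : ℝ, u ≤ b → b ≤ 4 / 5 → phiSix d b ≤ c → v < c)
    (hA : (2 / 3 - d) * v < 2) (hdv : d * v < 1 / 2) (hS : sideS6.Mem S')
    (hu : 300 / 1000 ≤ u) (hu1 : u < 487 / 1000) (hva : 290 / 1000 ≤ v) (hvb : v < 883 / 1000)
    (hd : 0 / 1000 ≤ d) (hd1 : d < 334 / 1000) :
    ∃ i j : ℕ, 0 < (sixTCond i j).val u v d S' := by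
  have hc : v < 835 / 1000 := 
    hsix (487 / 1000) _ (by linarith) (by norm_num) (by
      simp only [phiSix, phiG]
      norm_num
      nlinarith [mul_self_nonneg (d - 2656525 / 3056972), mul_nonneg (show 0 ≤ d by linarith) (show 0 ≤ 334 / 1000 - d by linarith)])
  exact ⟨0, 0, Ex.pos_of_checkQuick six_tail_300_487_290_0
    (mem_thousandths (by push_cast; linarith) (by push_cast; linarith))
    (mem_thousandths (by push_cast; linarith) (by push_cast; linarith))
    (mem_thousandths (by push_cast; linarith) (by push_cast; linarith)) hS⟩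

theorem six_tail_leaf0_1 {u v d S' : ℝ} (hv : 29 / 100 ≤ v) (hv1 : v ≤ 15 / 4)
    (hone : ∀ b c : ℝ, u ≤ b → b ≤ 93 / 100 → phiOne6 b ≤ c → v < c)
    (hsix : ∀ b c : ℝ, u ≤ b → b ≤ 4 / 5 → phiSix d b ≤ c → v < c)
    (hA : (2 / 3 - d) * v < 2) (hdv : d * v < 1 / 2) (hS : sideS6.Mem S')
    (hu : 487 / 1000 ≤ u) (hu1 : u < 675 / 1000) (hva : 290 / 1000 ≤ v) (hvb : v < 883 / 1000)
    (hd : 0 / 1000 ≤ d) (hd1 : d < 167 / 1000) :
    ∃ i j : ℕ, 0 < (sixTCond i j).val u v d S' := by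
  exact ⟨0, 93, Ex.pos_of_checkQuick six_tail_487_675_290_0
    (mem_thousandths (by push_cast; linarith) (by push_cast; linarith))
    (mem_thousandths (by push_cast; linarith) (by push_cast; linarith))
    (mem_thousandths (by push_cast; linarith) (by push_cast; linarith)) hS⟩

theorem six_tail_leaf0_2 {u v d S' : ℝ} (hv : 29 / 100 ≤ v) (hv1 : v ≤ 15 / 4)
    (hone : ∀ b c : ℝ, u ≤ b → b ≤ 93 / 100 → phiOne6 b ≤ c → v < c)
    (hsix : ∀ b c : ℝ, u ≤ b → b ≤ 4 / 5 → phiSix d b ≤ c → v < c)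
    (hA : (2 / 3 - d) * v < 2) (hdv : d * v < 1 / 2) (hS : sideS6.Mem S')
    (hu : 487 / 1000 ≤ u) (hu1 : u < 675 / 1000) (hva : 290 / 1000 ≤ v) (hvb : v < 883 / 1000)
    (hd : 167 / 1000 ≤ d) (hd1 : d < 334 / 1000) :
    ∃ i j : ℕ, 0 < (sixTCond i j).val u v d S' := by
  exact ⟨0, 0, Ex.pos_of_checkQuick six_tail_487_675_290_167
    (mem_thousandths (by push_cast; linarith) (by push_cast; linarith))
    (mem_thousandths (by push_cast; linarith) (by push_cast; linarith))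
    (mem_thousandths (by push_cast; linarith) (by push_cast; linarith)) hS⟩

theorem six_tail_leaf0_3 {u v d S' : ℝ} (hv : 29 / 100 ≤ v) (hv1 : v ≤ 15 / 4)
    (hone : ∀ b c : ℝ, u ≤ b → b ≤ 93 / 100 → phiOne6 b ≤ c → v < c)
    (hsix : ∀ b c : ℝ, u ≤ b → b ≤ 4 / 5 → phiSix d b ≤ c → v < c)
    (hA : (2 / 3 - d) * v < 2) (hdv : d * v < 1 / 2) (hS : sideS6.Mem S')
    (hu : 300 / 1000 ≤ u) (hu1 : u < 675 / 1000) (hva : 883 / 1000 ≤ v) (hvb : v < 4000 / 1000)
    (hd : 0 / 1000 ≤ d) (hd1 : d < 334 / 1000) :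
    ∃ i j : ℕ, 0 < (sixTCond i j).val u v d S' := by
  have hc : v < 1476 / 1000 := 
    hsix (675 / 1000) _ (by linarith) (by norm_num) (by
      simp only [phiSix, phiG]
      norm_num
      nlinarith [mul_self_nonneg (d - 5597 / 113908), mul_nonneg (show 0 ≤ d by linarith) (show 0 ≤ 334 / 1000 - d by linarith)])
  exact ⟨0, 0, Ex.pos_of_checkQuick six_tail_300_675_883_0
    (mem_thousandths (by push_cast; linarith) (by push_cast; linarith))
    (mem_thousandths (by push_cast; linarith) (by push_cast; linarith))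
    (mem_thousandths (by push_cast; linarith) (by push_cast; linarith)) hS⟩

theorem six_tail_sign_0 {u v d S' : ℝ} (hu : 300 / 1000 ≤ u) (hu1 : u < 675 / 1000) (hv : 29 / 100 ≤ v) (hv1 : v ≤ 15 / 4)
    (hone : ∀ b c : ℝ, u ≤ b → b ≤ 93 / 100 → phiOne6 b ≤ c → v < c)
    (hsix : ∀ b c : ℝ, u ≤ b → b ≤ 4 / 5 → phiSix d b ≤ c → v < c)
    (hA : (2 / 3 - d) * v < 2) (hdv : d * v < 1 / 2) (hd : 0 / 1000 ≤ d) (hd1 : d < 334 / 1000)
    (hS : sideS6.Mem S') : ∃ i j : ℕ, 0 < (sixTCond i j).val u v d S' := by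
  have hva : 290 / 1000 ≤ v := by linarith
  have hvb : v < 4000 / 1000 := by linarith
  rcases lt_or_ge v (883 / 1000) with g0 | g0
  · rcases lt_or_ge u (487 / 1000) with g1 | g1
    · exact six_tail_leaf0_0 hv hv1 hone hsix hA hdv hS hu g1 hva g0 hd hd1
    · rcases lt_or_ge d (167 / 1000) with g2 | g2
      · exact six_tail_leaf0_1 hv hv1 hone hsix hA hdv hS g1 hu1 hva g0 hd g2
      · exact six_tail_leaf0_2 hv hv1 hone hsix hA hdv hS g1 hu1 hva g0 g2 hd1
  · exact six_tail_leaf0_3 hv hv1 hone hsix hA hdv hS hu hu1 g0 hvb hd hd1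

theorem six_tail_leaf1_0 {u v d S' : ℝ} (hv : 29 / 100 ≤ v) (hv1 : v ≤ 15 / 4)
    (hone : ∀ b c : ℝ, u ≤ b → b ≤ 93 / 100 → phiOne6 b ≤ c → v < c)
    (hsix : ∀ b c : ℝ, u ≤ b → b ≤ 4 / 5 → phiSix d b ≤ c → v < c)
    (hA : (2 / 3 - d) * v < 2) (hdv : d * v < 1 / 2) (hS : sideS6.Mem S')
    (hu : 675 / 1000 ≤ u) (hu1 : u < 800 / 1000) (hva : 290 / 1000 ≤ v) (hvb : v < 590 / 1000)
    (hd : 0 / 1000 ≤ d) (hd1 : d < 250 / 1000) :
    ∃ i j : ℕ, 0 < (sixTCond i j).val u v d S' := by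
  exact ⟨0, 555, Ex.pos_of_checkQuick six_tail_675_800_290_0
    (mem_thousandths (by push_cast; linarith) (by push_cast; linarith))
    (mem_thousandths (by push_cast; linarith) (by push_cast; linarith))
    (mem_thousandths (by push_cast; linarith) (by push_cast; linarith)) hS⟩

theorem six_tail_leaf1_1 {u v d S' : ℝ} (hv : 29 / 100 ≤ v) (hv1 : v ≤ 15 / 4)
    (hone : ∀ b c : ℝ, u ≤ b → b ≤ 93 / 100 → phiOne6 b ≤ c → v < c)
    (hsix : ∀ b c : ℝ, u ≤ b → b ≤ 4 / 5 → phiSix d b ≤ c → v < c)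
    (hA : (2 / 3 - d) * v < 2) (hdv : d * v < 1 / 2) (hS : sideS6.Mem S')
    (hu : 675 / 1000 ≤ u) (hu1 : u < 800 / 1000) (hva : 590 / 1000 ≤ v) (hvb : v < 740 / 1000)
    (hd : 0 / 1000 ≤ d) (hd1 : d < 125 / 1000) :
    ∃ i j : ℕ, 0 < (sixTCond i j).val u v d S' := by
  exact ⟨0, 444, Ex.pos_of_checkQuick six_tail_675_800_590_0
    (mem_thousandths (by push_cast; linarith) (by push_cast; linarith))
    (mem_thousandths (by push_cast; linarith) (by push_cast; linarith))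
    (mem_thousandths (by push_cast; linarith) (by push_cast; linarith)) hS⟩

theorem six_tail_leaf1_2 {u v d S' : ℝ} (hv : 29 / 100 ≤ v) (hv1 : v ≤ 15 / 4)
    (hone : ∀ b c : ℝ, u ≤ b → b ≤ 93 / 100 → phiOne6 b ≤ c → v < c)
    (hsix : ∀ b c : ℝ, u ≤ b → b ≤ 4 / 5 → phiSix d b ≤ c → v < c)
    (hA : (2 / 3 - d) * v < 2) (hdv : d * v < 1 / 2) (hS : sideS6.Mem S')
    (hu : 675 / 1000 ≤ u) (hu1 : u < 800 / 1000) (hva : 740 / 1000 ≤ v) (hvb : v < 890 / 1000)
    (hd : 0 / 1000 ≤ d) (hd1 : d < 62 / 1000) :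
    ∃ i j : ℕ, 0 < (sixTCond i j).val u v d S' := by
  exact ⟨0, 284, Ex.pos_of_checkQuick six_tail_675_800_740_0
    (mem_thousandths (by push_cast; linarith) (by push_cast; linarith))
    (mem_thousandths (by push_cast; linarith) (by push_cast; linarith))
    (mem_thousandths (by push_cast; linarith) (by push_cast; linarith)) hS⟩

theorem six_tail_leaf1_3 {u v d S' : ℝ} (hv : 29 / 100 ≤ v) (hv1 : v ≤ 15 / 4)
    (hone : ∀ b c : ℝ, u ≤ b → b ≤ 93 / 100 → phiOne6 b ≤ c → v < c)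
    (hsix : ∀ b c : ℝ, u ≤ b → b ≤ 4 / 5 → phiSix d b ≤ c → v < c)
    (hA : (2 / 3 - d) * v < 2) (hdv : d * v < 1 / 2) (hS : sideS6.Mem S')
    (hu : 675 / 1000 ≤ u) (hu1 : u < 737 / 1000) (hva : 740 / 1000 ≤ v) (hvb : v < 890 / 1000)
    (hd : 62 / 1000 ≤ d) (hd1 : d < 125 / 1000) :
    ∃ i j : ℕ, 0 < (sixTCond i j).val u v d S' := by
  exact ⟨0, 0, Ex.pos_of_checkQuick six_tail_675_737_740_62
    (mem_thousandths (by push_cast; linarith) (by push_cast; linarith))
    (mem_thousandths (by push_cast; linarith) (by push_cast; linarith))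
    (mem_thousandths (by push_cast; linarith) (by push_cast; linarith)) hS⟩

theorem six_tail_leaf1_4 {u v d S' : ℝ} (hv : 29 / 100 ≤ v) (hv1 : v ≤ 15 / 4)
    (hone : ∀ b c : ℝ, u ≤ b → b ≤ 93 / 100 → phiOne6 b ≤ c → v < c)
    (hsix : ∀ b c : ℝ, u ≤ b → b ≤ 4 / 5 → phiSix d b ≤ c → v < c)
    (hA : (2 / 3 - d) * v < 2) (hdv : d * v < 1 / 2) (hS : sideS6.Mem S')
    (hu : 737 / 1000 ≤ u) (hu1 : u < 800 / 1000) (hva : 740 / 1000 ≤ v) (hvb : v < 777 / 1000)
    (hd : 62 / 1000 ≤ d) (hd1 : d < 125 / 1000) :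
    ∃ i j : ℕ, 0 < (sixTCond i j).val u v d S' := by
  exact ⟨0, 444, Ex.pos_of_checkQuick six_tail_737_800_740_62
    (mem_thousandths (by push_cast; linarith) (by push_cast; linarith))
    (mem_thousandths (by push_cast; linarith) (by push_cast; linarith))
    (mem_thousandths (by push_cast; linarith) (by push_cast; linarith)) hS⟩

theorem six_tail_leaf1_5 {u v d S' : ℝ} (hv : 29 / 100 ≤ v) (hv1 : v ≤ 15 / 4)
    (hone : ∀ b c : ℝ, u ≤ b → b ≤ 93 / 100 → phiOne6 b ≤ c → v < c)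
    (hsix : ∀ b c : ℝ, u ≤ b → b ≤ 4 / 5 → phiSix d b ≤ c → v < c)
    (hA : (2 / 3 - d) * v < 2) (hdv : d * v < 1 / 2) (hS : sideS6.Mem S')
    (hu : 737 / 1000 ≤ u) (hu1 : u < 768 / 1000) (hva : 777 / 1000 ≤ v) (hvb : v < 815 / 1000)
    (hd : 62 / 1000 ≤ d) (hd1 : d < 93 / 1000) :
    ∃ i j : ℕ, 0 < (sixTCond i j).val u v d S' := by
  exact ⟨0, 0, Ex.pos_of_checkQuick six_tail_737_768_777_62
    (mem_thousandths (by push_cast; linarith) (by push_cast; linarith))
    (mem_thousandths (by push_cast; linarith) (by push_cast; linarith))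
    (mem_thousandths (by push_cast; linarith) (by push_cast; linarith)) hS⟩

theorem six_tail_leaf1_6 {u v d S' : ℝ} (hv : 29 / 100 ≤ v) (hv1 : v ≤ 15 / 4)
    (hone : ∀ b c : ℝ, u ≤ b → b ≤ 93 / 100 → phiOne6 b ≤ c → v < c)
    (hsix : ∀ b c : ℝ, u ≤ b → b ≤ 4 / 5 → phiSix d b ≤ c → v < c)
    (hA : (2 / 3 - d) * v < 2) (hdv : d * v < 1 / 2) (hS : sideS6.Mem S')
    (hu : 768 / 1000 ≤ u) (hu1 : u < 784 / 1000) (hva : 777 / 1000 ≤ v) (hvb : v < 815 / 1000)
    (hd : 62 / 1000 ≤ d) (hd1 : d < 93 / 1000) :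
    ∃ i j : ℕ, 0 < (sixTCond i j).val u v d S' := by
  exact ⟨0, 284, Ex.pos_of_checkQuick six_tail_768_784_777_62
    (mem_thousandths (by push_cast; linarith) (by push_cast; linarith))
    (mem_thousandths (by push_cast; linarith) (by push_cast; linarith))
    (mem_thousandths (by push_cast; linarith) (by push_cast; linarith)) hS⟩

theorem six_tail_leaf1_7 {u v d S' : ℝ} (hv : 29 / 100 ≤ v) (hv1 : v ≤ 15 / 4)
    (hone : ∀ b c : ℝ, u ≤ b → b ≤ 93 / 100 → phiOne6 b ≤ c → v < c)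
    (hsix : ∀ b c : ℝ, u ≤ b → b ≤ 4 / 5 → phiSix d b ≤ c → v < c)
    (hA : (2 / 3 - d) * v < 2) (hdv : d * v < 1 / 2) (hS : sideS6.Mem S')
    (hu : 784 / 1000 ≤ u) (hu1 : u < 800 / 1000) (hva : 777 / 1000 ≤ v) (hvb : v < 796 / 1000)
    (hd : 62 / 1000 ≤ d) (hd1 : d < 93 / 1000) :
    ∃ i j : ℕ, 0 < (sixTCond i j).val u v d S' := by
  exact ⟨0, 444, Ex.pos_of_checkQuick six_tail_784_800_777_62
    (mem_thousandths (by push_cast; linarith) (by push_cast; linarith))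
    (mem_thousandths (by push_cast; linarith) (by push_cast; linarith))
    (mem_thousandths (by push_cast; linarith) (by push_cast; linarith)) hS⟩

theorem six_tail_leaf1_8 {u v d S' : ℝ} (hv : 29 / 100 ≤ v) (hv1 : v ≤ 15 / 4)
    (hone : ∀ b c : ℝ, u ≤ b → b ≤ 93 / 100 → phiOne6 b ≤ c → v < c)
    (hsix : ∀ b c : ℝ, u ≤ b → b ≤ 4 / 5 → phiSix d b ≤ c → v < c)
    (hA : (2 / 3 - d) * v < 2) (hdv : d * v < 1 / 2) (hS : sideS6.Mem S')
    (hu : 784 / 1000 ≤ u) (hu1 : u < 800 / 1000) (hva : 796 / 1000 ≤ v) (hvb : v < 815 / 1000)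
    (hd : 62 / 1000 ≤ d) (hd1 : d < 93 / 1000) :
    ∃ i j : ℕ, 0 < (sixTCond i j).val u v d S' := by
  exact ⟨0, 355, Ex.pos_of_checkQuick six_tail_784_800_796_62
    (mem_thousandths (by push_cast; linarith) (by push_cast; linarith))
    (mem_thousandths (by push_cast; linarith) (by push_cast; linarith))
    (mem_thousandths (by push_cast; linarith) (by push_cast; linarith)) hS⟩

theorem six_tail_leaf1_9 {u v d S' : ℝ} (hv : 29 / 100 ≤ v) (hv1 : v ≤ 15 / 4)
    (hone : ∀ b c : ℝ, u ≤ b → b ≤ 93 / 100 → phiOne6 b ≤ c → v < c)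
    (hsix : ∀ b c : ℝ, u ≤ b → b ≤ 4 / 5 → phiSix d b ≤ c → v < c)
    (hA : (2 / 3 - d) * v < 2) (hdv : d * v < 1 / 2) (hS : sideS6.Mem S')
    (hu : 737 / 1000 ≤ u) (hu1 : u < 768 / 1000) (hva : 777 / 1000 ≤ v) (hvb : v < 815 / 1000)
    (hd : 93 / 1000 ≤ d) (hd1 : d < 125 / 1000) :
    ∃ i j : ℕ, 0 < (sixTCond i j).val u v d S' := by
  exact ⟨0, 0, Ex.pos_of_checkQuick six_tail_737_768_777_93
    (mem_thousandths (by push_cast; linarith) (by push_cast; linarith))
    (mem_thousandths (by push_cast; linarith) (by push_cast; linarith))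
    (mem_thousandths (by push_cast; linarith) (by push_cast; linarith)) hS⟩

theorem six_tail_leaf1_10 {u v d S' : ℝ} (hv : 29 / 100 ≤ v) (hv1 : v ≤ 15 / 4)
    (hone : ∀ b c : ℝ, u ≤ b → b ≤ 93 / 100 → phiOne6 b ≤ c → v < c)
    (hsix : ∀ b c : ℝ, u ≤ b → b ≤ 4 / 5 → phiSix d b ≤ c → v < c)
    (hA : (2 / 3 - d) * v < 2) (hdv : d * v < 1 / 2) (hS : sideS6.Mem S')
    (hu : 768 / 1000 ≤ u) (hu1 : u < 784 / 1000) (hva : 777 / 1000 ≤ v) (hvb : v < 815 / 1000)
    (hd : 93 / 1000 ≤ d) (hd1 : d < 125 / 1000) :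
    ∃ i j : ℕ, 0 < (sixTCond i j).val u v d S' := by
  exact ⟨0, 284, Ex.pos_of_checkQuick six_tail_768_784_777_93
    (mem_thousandths (by push_cast; linarith) (by push_cast; linarith))
    (mem_thousandths (by push_cast; linarith) (by push_cast; linarith))
    (mem_thousandths (by push_cast; linarith) (by push_cast; linarith)) hS⟩

theorem six_tail_leaf1_11 {u v d S' : ℝ} (hv : 29 / 100 ≤ v) (hv1 : v ≤ 15 / 4)
    (hone : ∀ b c : ℝ, u ≤ b → b ≤ 93 / 100 → phiOne6 b ≤ c → v < c)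
    (hsix : ∀ b c : ℝ, u ≤ b → b ≤ 4 / 5 → phiSix d b ≤ c → v < c)
    (hA : (2 / 3 - d) * v < 2) (hdv : d * v < 1 / 2) (hS : sideS6.Mem S')
    (hu : 784 / 1000 ≤ u) (hu1 : u < 800 / 1000) (hva : 777 / 1000 ≤ v) (hvb : v < 796 / 1000)
    (hd : 93 / 1000 ≤ d) (hd1 : d < 125 / 1000) :
    ∃ i j : ℕ, 0 < (sixTCond i j).val u v d S' := by
  exact ⟨0, 444, Ex.pos_of_checkQuick six_tail_784_800_777_93
    (mem_thousandths (by push_cast; linarith) (by push_cast; linarith))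
    (mem_thousandths (by push_cast; linarith) (by push_cast; linarith))
    (mem_thousandths (by push_cast; linarith) (by push_cast; linarith)) hS⟩

theorem six_tail_leaf1_12 {u v d S' : ℝ} (hv : 29 / 100 ≤ v) (hv1 : v ≤ 15 / 4)
    (hone : ∀ b c : ℝ, u ≤ b → b ≤ 93 / 100 → phiOne6 b ≤ c → v < c)
    (hsix : ∀ b c : ℝ, u ≤ b → b ≤ 4 / 5 → phiSix d b ≤ c → v < c)
    (hA : (2 / 3 - d) * v < 2) (hdv : d * v < 1 / 2) (hS : sideS6.Mem S')
    (hu : 784 / 1000 ≤ u) (hu1 : u < 792 / 1000) (hva : 796 / 1000 ≤ v) (hvb : v < 815 / 1000)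
    (hd : 93 / 1000 ≤ d) (hd1 : d < 109 / 1000) :
    ∃ i j : ℕ, 0 < (sixTCond i j).val u v d S' := by
  exact ⟨0, 284, Ex.pos_of_checkQuick six_tail_784_792_796_93
    (mem_thousandths (by push_cast; linarith) (by push_cast; linarith))
    (mem_thousandths (by push_cast; linarith) (by push_cast; linarith))
    (mem_thousandths (by push_cast; linarith) (by push_cast; linarith)) hS⟩

theorem six_tail_leaf1_13 {u v d S' : ℝ} (hv : 29 / 100 ≤ v) (hv1 : v ≤ 15 / 4)
    (hone : ∀ b c : ℝ, u ≤ b → b ≤ 93 / 100 → phiOne6 b ≤ c → v < c)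
    (hsix : ∀ b c : ℝ, u ≤ b → b ≤ 4 / 5 → phiSix d b ≤ c → v < c)
    (hA : (2 / 3 - d) * v < 2) (hdv : d * v < 1 / 2) (hS : sideS6.Mem S')
    (hu : 792 / 1000 ≤ u) (hu1 : u < 800 / 1000) (hva : 796 / 1000 ≤ v) (hvb : v < 800 / 1000)
    (hd : 93 / 1000 ≤ d) (hd1 : d < 109 / 1000) :
    ∃ i j : ℕ, 0 < (sixTCond i j).val u v d S' := by
  exact ⟨0, 444, Ex.pos_of_checkQuick six_tail_792_800_796_93
    (mem_thousandths (by push_cast; linarith) (by push_cast; linarith))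
    (mem_thousandths (by push_cast; linarith) (by push_cast; linarith))
    (mem_thousandths (by push_cast; linarith) (by push_cast; linarith)) hS⟩

theorem six_tail_leaf1_14 {u v d S' : ℝ} (hv : 29 / 100 ≤ v) (hv1 : v ≤ 15 / 4)
    (hone : ∀ b c : ℝ, u ≤ b → b ≤ 93 / 100 → phiOne6 b ≤ c → v < c)
    (hsix : ∀ b c : ℝ, u ≤ b → b ≤ 4 / 5 → phiSix d b ≤ c → v < c)
    (hA : (2 / 3 - d) * v < 2) (hdv : d * v < 1 / 2) (hS : sideS6.Mem S')
    (hu : 792 / 1000 ≤ u) (hu1 : u < 800 / 1000) (hva : 800 / 1000 ≤ v) (hvb : v < 805 / 1000)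
    (hd : 93 / 1000 ≤ d) (hd1 : d < 109 / 1000) :
    ∃ i j : ℕ, 0 < (sixTCond i j).val u v d S' := by
  exact ⟨0, 355, Ex.pos_of_checkQuick six_tail_792_800_800_93
    (mem_thousandths (by push_cast; linarith) (by push_cast; linarith))
    (mem_thousandths (by push_cast; linarith) (by push_cast; linarith))
    (mem_thousandths (by push_cast; linarith) (by push_cast; linarith)) hS⟩

theorem six_tail_leaf1_15 {u v d S' : ℝ} (hv : 29 / 100 ≤ v) (hv1 : v ≤ 15 / 4)
    (hone : ∀ b c : ℝ, u ≤ b → b ≤ 93 / 100 → phiOne6 b ≤ c → v < c)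
    (hsix : ∀ b c : ℝ, u ≤ b → b ≤ 4 / 5 → phiSix d b ≤ c → v < c)
    (hA : (2 / 3 - d) * v < 2) (hdv : d * v < 1 / 2) (hS : sideS6.Mem S')
    (hu : 792 / 1000 ≤ u) (hu1 : u < 800 / 1000) (hva : 805 / 1000 ≤ v) (hvb : v < 815 / 1000)
    (hd : 93 / 1000 ≤ d) (hd1 : d < 109 / 1000) :
    ∃ i j : ℕ, 0 < (sixTCond i j).val u v d S' := by
  exact ⟨0, 355, Ex.pos_of_checkQuick six_tail_792_800_805_93
    (mem_thousandths (by push_cast; linarith) (by push_cast; linarith))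
    (mem_thousandths (by push_cast; linarith) (by push_cast; linarith))
    (mem_thousandths (by push_cast; linarith) (by push_cast; linarith)) hS⟩

theorem six_tail_leaf1_16 {u v d S' : ℝ} (hv : 29 / 100 ≤ v) (hv1 : v ≤ 15 / 4)
    (hone : ∀ b c : ℝ, u ≤ b → b ≤ 93 / 100 → phiOne6 b ≤ c → v < c)
    (hsix : ∀ b c : ℝ, u ≤ b → b ≤ 4 / 5 → phiSix d b ≤ c → v < c)
    (hA : (2 / 3 - d) * v < 2) (hdv : d * v < 1 / 2) (hS : sideS6.Mem S')
    (hu : 784 / 1000 ≤ u) (hu1 : u < 800 / 1000) (hva : 796 / 1000 ≤ v) (hvb : v < 815 / 1000)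
    (hd : 109 / 1000 ≤ d) (hd1 : d < 125 / 1000) :
    ∃ i j : ℕ, 0 < (sixTCond i j).val u v d S' := by
  exact ⟨0, 227, Ex.pos_of_checkQuick six_tail_784_800_796_109
    (mem_thousandths (by push_cast; linarith) (by push_cast; linarith))
    (mem_thousandths (by push_cast; linarith) (by push_cast; linarith))
    (mem_thousandths (by push_cast; linarith) (by push_cast; linarith)) hS⟩

theorem six_tail_leaf1_17 {u v d S' : ℝ} (hv : 29 / 100 ≤ v) (hv1 : v ≤ 15 / 4)
    (hone : ∀ b c : ℝ, u ≤ b → b ≤ 93 / 100 → phiOne6 b ≤ c → v < c)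
    (hsix : ∀ b c : ℝ, u ≤ b → b ≤ 4 / 5 → phiSix d b ≤ c → v < c)
    (hA : (2 / 3 - d) * v < 2) (hdv : d * v < 1 / 2) (hS : sideS6.Mem S')
    (hu : 737 / 1000 ≤ u) (hu1 : u < 800 / 1000) (hva : 815 / 1000 ≤ v) (hvb : v < 890 / 1000)
    (hd : 62 / 1000 ≤ d) (hd1 : d < 125 / 1000) :
    ∃ i j : ℕ, 0 < (sixTCond i j).val u v d S' := by
  exact ⟨0, 0, Ex.pos_of_checkQuick six_tail_737_800_815_62
    (mem_thousandths (by push_cast; linarith) (by push_cast; linarith))
    (mem_thousandths (by push_cast; linarith) (by push_cast; linarith))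
    (mem_thousandths (by push_cast; linarith) (by push_cast; linarith)) hS⟩

theorem six_tail_leaf1_18 {u v d S' : ℝ} (hv : 29 / 100 ≤ v) (hv1 : v ≤ 15 / 4)
    (hone : ∀ b c : ℝ, u ≤ b → b ≤ 93 / 100 → phiOne6 b ≤ c → v < c)
    (hsix : ∀ b c : ℝ, u ≤ b → b ≤ 4 / 5 → phiSix d b ≤ c → v < c)
    (hA : (2 / 3 - d) * v < 2) (hdv : d * v < 1 / 2) (hS : sideS6.Mem S')
    (hu : 675 / 1000 ≤ u) (hu1 : u < 800 / 1000) (hva : 590 / 1000 ≤ v) (hvb : v < 890 / 1000)
    (hd : 125 / 1000 ≤ d) (hd1 : d < 250 / 1000) :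
    ∃ i j : ℕ, 0 < (sixTCond i j).val u v d S' := by
  exact ⟨0, 355, Ex.pos_of_checkQuick six_tail_675_800_590_125
    (mem_thousandths (by push_cast; linarith) (by push_cast; linarith))
    (mem_thousandths (by push_cast; linarith) (by push_cast; linarith))
    (mem_thousandths (by push_cast; linarith) (by push_cast; linarith)) hS⟩

theorem six_tail_leaf1_19 {u v d S' : ℝ} (hv : 29 / 100 ≤ v) (hv1 : v ≤ 15 / 4)
    (hone : ∀ b c : ℝ, u ≤ b → b ≤ 93 / 100 → phiOne6 b ≤ c → v < c)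
    (hsix : ∀ b c : ℝ, u ≤ b → b ≤ 4 / 5 → phiSix d b ≤ c → v < c)
    (hA : (2 / 3 - d) * v < 2) (hdv : d * v < 1 / 2) (hS : sideS6.Mem S')
    (hu : 675 / 1000 ≤ u) (hu1 : u < 800 / 1000) (hva : 890 / 1000 ≤ v) (hvb : v < 1491 / 1000)
    (hd : 0 / 1000 ≤ d) (hd1 : d < 250 / 1000) :
    ∃ i j : ℕ, 0 < (sixTCond i j).val u v d S' := by
  exact ⟨0, 0, Ex.pos_of_checkQuick six_tail_675_800_890_0
    (mem_thousandths (by push_cast; linarith) (by push_cast; linarith))
    (mem_thousandths (by push_cast; linarith) (by push_cast; linarith))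
    (mem_thousandths (by push_cast; linarith) (by push_cast; linarith)) hS⟩

theorem six_tail_leaf1_20 {u v d S' : ℝ} (hv : 29 / 100 ≤ v) (hv1 : v ≤ 15 / 4)
    (hone : ∀ b c : ℝ, u ≤ b → b ≤ 93 / 100 → phiOne6 b ≤ c → v < c)
    (hsix : ∀ b c : ℝ, u ≤ b → b ≤ 4 / 5 → phiSix d b ≤ c → v < c)
    (hA : (2 / 3 - d) * v < 2) (hdv : d * v < 1 / 2) (hS : sideS6.Mem S')
    (hu : 675 / 1000 ≤ u) (hu1 : u < 737 / 1000) (hva : 1491 / 1000 ≤ v) (hvb : v < 4000 / 1000)
    (hd : 0 / 1000 ≤ d) (hd1 : d < 250 / 1000) :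
    ∃ i j : ℕ, 0 < (sixTCond i j).val u v d S' := by
  have hc : v < 1975 / 1000 := 
    hsix (737 / 1000) _ (by linarith) (by norm_num) (by
      simp only [phiSix, phiG]
      norm_num
      nlinarith [mul_self_nonneg (d - 1914775 / 27841257), mul_nonneg (show 0 ≤ d by linarith) (show 0 ≤ 250 / 1000 - d by linarith)])
  exact ⟨0, 0, Ex.pos_of_checkQuick six_tail_675_737_1491_0
    (mem_thousandths (by push_cast; linarith) (by push_cast; linarith))
    (mem_thousandths (by push_cast; linarith) (by push_cast; linarith))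
    (mem_thousandths (by push_cast; linarith) (by push_cast; linarith)) hS⟩

theorem six_tail_leaf1_21 {u v d S' : ℝ} (hv : 29 / 100 ≤ v) (hv1 : v ≤ 15 / 4)
    (hone : ∀ b c : ℝ, u ≤ b → b ≤ 93 / 100 → phiOne6 b ≤ c → v < c)
    (hsix : ∀ b c : ℝ, u ≤ b → b ≤ 4 / 5 → phiSix d b ≤ c → v < c)
    (hA : (2 / 3 - d) * v < 2) (hdv : d * v < 1 / 2) (hS : sideS6.Mem S')
    (hu : 737 / 1000 ≤ u) (hu1 : u < 768 / 1000) (hva : 1491 / 1000 ≤ v) (hvb : v < 4000 / 1000)
    (hd : 0 / 1000 ≤ d) (hd1 : d < 250 / 1000) :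
    ∃ i j : ℕ, 0 < (sixTCond i j).val u v d S' := by
  have hc : v < 2360 / 1000 := 
    hsix (768 / 1000) _ (by linarith) (by norm_num) (by
      simp only [phiSix, phiG]
      norm_num
      nlinarith [mul_self_nonneg (d - 1267000 / 16796111), mul_nonneg (show 0 ≤ d by linarith) (show 0 ≤ 250 / 1000 - d by linarith)])
  exact ⟨1899, 0, Ex.pos_of_checkQuick six_tail_737_768_1491_0
    (mem_thousandths (by push_cast; linarith) (by push_cast; linarith))
    (mem_thousandths (by push_cast; linarith) (by push_cast; linarith))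
    (mem_thousandths (by push_cast; linarith) (by push_cast; linarith)) hS⟩

theorem six_tail_leaf1_22 {u v d S' : ℝ} (hv : 29 / 100 ≤ v) (hv1 : v ≤ 15 / 4)
    (hone : ∀ b c : ℝ, u ≤ b → b ≤ 93 / 100 → phiOne6 b ≤ c → v < c)
    (hsix : ∀ b c : ℝ, u ≤ b → b ≤ 4 / 5 → phiSix d b ≤ c → v < c)
    (hA : (2 / 3 - d) * v < 2) (hdv : d * v < 1 / 2) (hS : sideS6.Mem S')
    (hu : 768 / 1000 ≤ u) (hu1 : u < 800 / 1000) (hva : 1491 / 1000 ≤ v) (hvb : v < 2092 / 1000)
    (hd : 0 / 1000 ≤ d) (hd1 : d < 250 / 1000) :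
    ∃ i j : ℕ, 0 < (sixTCond i j).val u v d S' := by
  exact ⟨400, 0, Ex.pos_of_checkQuick six_tail_768_800_1491_0
    (mem_thousandths (by push_cast; linarith) (by push_cast; linarith))
    (mem_thousandths (by push_cast; linarith) (by push_cast; linarith))
    (mem_thousandths (by push_cast; linarith) (by push_cast; linarith)) hS⟩

theorem six_tail_leaf1_23 {u v d S' : ℝ} (hv : 29 / 100 ≤ v) (hv1 : v ≤ 15 / 4)
    (hone : ∀ b c : ℝ, u ≤ b → b ≤ 93 / 100 → phiOne6 b ≤ c → v < c)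
    (hsix : ∀ b c : ℝ, u ≤ b → b ≤ 4 / 5 → phiSix d b ≤ c → v < c)
    (hA : (2 / 3 - d) * v < 2) (hdv : d * v < 1 / 2) (hS : sideS6.Mem S')
    (hu : 768 / 1000 ≤ u) (hu1 : u < 800 / 1000) (hva : 2092 / 1000 ≤ v) (hvb : v < 4000 / 1000)
    (hd : 0 / 1000 ≤ d) (hd1 : d < 250 / 1000) :
    ∃ i j : ℕ, 0 < (sixTCond i j).val u v d S' := by
  have hc : v < 2693 / 1000 := 
    hone (800 / 1000) _ (by linarith) (by norm_num) (by norm_num [phiOne6, phiG])
  exact ⟨2884, 0, Ex.pos_of_checkQuick six_tail_768_800_2092_0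
    (mem_thousandths (by push_cast; linarith) (by push_cast; linarith))
    (mem_thousandths (by push_cast; linarith) (by push_cast; linarith))
    (mem_thousandths (by push_cast; linarith) (by push_cast; linarith)) hS⟩

theorem six_tail_sign_1 {u v d S' : ℝ} (hu : 675 / 1000 ≤ u) (hu1 : u < 800 / 1000) (hv : 29 / 100 ≤ v) (hv1 : v ≤ 15 / 4)
    (hone : ∀ b c : ℝ, u ≤ b → b ≤ 93 / 100 → phiOne6 b ≤ c → v < c)
    (hsix : ∀ b c : ℝ, u ≤ b → b ≤ 4 / 5 → phiSix d b ≤ c → v < c)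
    (hA : (2 / 3 - d) * v < 2) (hdv : d * v < 1 / 2) (hd : 0 / 1000 ≤ d) (hd1 : d < 250 / 1000)
    (hS : sideS6.Mem S') : ∃ i j : ℕ, 0 < (sixTCond i j).val u v d S' := by
  have hva : 290 / 1000 ≤ v := by linarith
  have hvb : v < 4000 / 1000 := by linarith
  rcases lt_or_ge v (1491 / 1000) with g0 | g0
  · rcases lt_or_ge v (890 / 1000) with g1 | g1
    · rcases lt_or_ge v (590 / 1000) with g2 | g2
      · exact six_tail_leaf1_0 hv hv1 hone hsix hA hdv hS hu hu1 hva g2 hd hd1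
      · rcases lt_or_ge d (125 / 1000) with g3 | g3
        · rcases lt_or_ge v (740 / 1000) with g4 | g4
          · exact six_tail_leaf1_1 hv hv1 hone hsix hA hdv hS hu hu1 g2 g4 hd g3
          · rcases lt_or_ge d (62 / 1000) with g5 | g5
            · exact six_tail_leaf1_2 hv hv1 hone hsix hA hdv hS hu hu1 g4 g1 hd g5
            · rcases lt_or_ge u (737 / 1000) with g6 | g6
              · exact six_tail_leaf1_3 hv hv1 hone hsix hA hdv hS hu g6 g4 g1 g5 g3
              · rcases lt_or_ge v (815 / 1000) with g7 | g7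
                · rcases lt_or_ge v (777 / 1000) with g8 | g8
                  · exact six_tail_leaf1_4 hv hv1 hone hsix hA hdv hS g6 hu1 g4 g8 g5 g3
                  · rcases lt_or_ge d (93 / 1000) with g9 | g9
                    · rcases lt_or_ge u (768 / 1000) with g10 | g10
                      · exact six_tail_leaf1_5 hv hv1 hone hsix hA hdv hS g6 g10 g8 g7 g5 g9
                      · rcases lt_or_ge u (784 / 1000) with g11 | g11
                        · exact six_tail_leaf1_6 hv hv1 hone hsix hA hdv hS g10 g11 g8 g7 g5 g9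
                        · rcases lt_or_ge v (796 / 1000) with g12 | g12
                          · exact six_tail_leaf1_7 hv hv1 hone hsix hA hdv hS g11 hu1 g8 g12 g5 g9
                          · exact six_tail_leaf1_8 hv hv1 hone hsix hA hdv hS g11 hu1 g12 g7 g5 g9
                    · rcases lt_or_ge u (768 / 1000) with g13 | g13
                      · exact six_tail_leaf1_9 hv hv1 hone hsix hA hdv hS g6 g13 g8 g7 g9 g3
                      · rcases lt_or_ge u (784 / 1000) with g14 | g14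
                        · exact six_tail_leaf1_10 hv hv1 hone hsix hA hdv hS g13 g14 g8 g7 g9 g3
                        · rcases lt_or_ge v (796 / 1000) with g15 | g15
                          · exact six_tail_leaf1_11 hv hv1 hone hsix hA hdv hS g14 hu1 g8 g15 g9 g3
                          · rcases lt_or_ge d (109 / 1000) with g16 | g16
                            · rcases lt_or_ge u (792 / 1000) with g17 | g17
                              · exact six_tail_leaf1_12 hv hv1 hone hsix hA hdv hS g14 g17 g15 g7 g9 g16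
                              · rcases lt_or_ge v (805 / 1000) with g18 | g18
                                · rcases lt_or_ge v (800 / 1000) with g19 | g19
                                  · exact six_tail_leaf1_13 hv hv1 hone hsix hA hdv hS g17 hu1 g15 g19 g9 g16
                                  · exact six_tail_leaf1_14 hv hv1 hone hsix hA hdv hS g17 hu1 g19 g18 g9 g16
                                · exact six_tail_leaf1_15 hv hv1 hone hsix hA hdv hS g17 hu1 g18 g7 g9 g16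
                            · exact six_tail_leaf1_16 hv hv1 hone hsix hA hdv hS g14 hu1 g15 g7 g16 g3
                · exact six_tail_leaf1_17 hv hv1 hone hsix hA hdv hS g6 hu1 g7 g1 g5 g3
        · exact six_tail_leaf1_18 hv hv1 hone hsix hA hdv hS hu hu1 g2 g1 g3 hd1
    · exact six_tail_leaf1_19 hv hv1 hone hsix hA hdv hS hu hu1 g1 g0 hd hd1
  · rcases lt_or_ge u (737 / 1000) with g20 | g20
    · exact six_tail_leaf1_20 hv hv1 hone hsix hA hdv hS hu g20 g0 hvb hd hd1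
    · rcases lt_or_ge u (768 / 1000) with g21 | g21
      · exact six_tail_leaf1_21 hv hv1 hone hsix hA hdv hS g20 g21 g0 hvb hd hd1
      · rcases lt_or_ge v (2092 / 1000) with g22 | g22
        · exact six_tail_leaf1_22 hv hv1 hone hsix hA hdv hS g21 hu1 g0 g22 hd hd1
        · exact six_tail_leaf1_23 hv hv1 hone hsix hA hdv hS g21 hu1 g22 hvb hd hd1

theorem six_tail_leaf2_0 {u v d S' : ℝ} (hv : 29 / 100 ≤ v) (hv1 : v ≤ 15 / 4)
    (hone : ∀ b c : ℝ, u ≤ b → b ≤ 93 / 100 → phiOne6 b ≤ c → v < c)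
    (hsix : ∀ b c : ℝ, u ≤ b → b ≤ 4 / 5 → phiSix d b ≤ c → v < c)
    (hA : (2 / 3 - d) * v < 2) (hdv : d * v < 1 / 2) (hS : sideS6.Mem S')
    (hu : 675 / 1000 ≤ u) (hu1 : u < 800 / 1000) (hva : 290 / 1000 ≤ v) (hvb : v < 1145 / 1000)
    (hd : 250 / 1000 ≤ d) (hd1 : d < 334 / 1000) :
    ∃ i j : ℕ, 0 < (sixTCond i j).val u v d S' := by
  exact ⟨0, 75, Ex.pos_of_checkQuick six_tail_675_800_290_250
    (mem_thousandths (by push_cast; linarith) (by push_cast; linarith))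
    (mem_thousandths (by push_cast; linarith) (by push_cast; linarith))
    (mem_thousandths (by push_cast; linarith) (by push_cast; linarith)) hS⟩

theorem six_tail_leaf2_1 {u v d S' : ℝ} (hv : 29 / 100 ≤ v) (hv1 : v ≤ 15 / 4)
    (hone : ∀ b c : ℝ, u ≤ b → b ≤ 93 / 100 → phiOne6 b ≤ c → v < c)
    (hsix : ∀ b c : ℝ, u ≤ b → b ≤ 4 / 5 → phiSix d b ≤ c → v < c)
    (hA : (2 / 3 - d) * v < 2) (hdv : d * v < 1 / 2) (hS : sideS6.Mem S')
    (hu : 675 / 1000 ≤ u) (hu1 : u < 737 / 1000) (hva : 1145 / 1000 ≤ v) (hvb : v < 4000 / 1000)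
    (hd : 250 / 1000 ≤ d) (hd1 : d < 292 / 1000) :
    ∃ i j : ℕ, 0 < (sixTCond i j).val u v d S' := by
  have hc : v < 1632 / 1000 := 
    hsix (737 / 1000) _ (by linarith) (by norm_num) (by
      simp only [phiSix, phiG]
      norm_num
      nlinarith [mul_self_nonneg (d - 1914775 / 27841257), mul_nonneg (show 0 ≤ d - 250 / 1000 by linarith) (show 0 ≤ 292 / 1000 - d by linarith)])
  exact ⟨0, 0, Ex.pos_of_checkQuick six_tail_675_737_1145_250
    (mem_thousandths (by push_cast; linarith) (by push_cast; linarith))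
    (mem_thousandths (by push_cast; linarith) (by push_cast; linarith))
    (mem_thousandths (by push_cast; linarith) (by push_cast; linarith)) hS⟩

theorem six_tail_leaf2_2 {u v d S' : ℝ} (hv : 29 / 100 ≤ v) (hv1 : v ≤ 15 / 4)
    (hone : ∀ b c : ℝ, u ≤ b → b ≤ 93 / 100 → phiOne6 b ≤ c → v < c)
    (hsix : ∀ b c : ℝ, u ≤ b → b ≤ 4 / 5 → phiSix d b ≤ c → v < c)
    (hA : (2 / 3 - d) * v < 2) (hdv : d * v < 1 / 2) (hS : sideS6.Mem S')
    (hu : 675 / 1000 ≤ u) (hu1 : u < 737 / 1000) (hva : 1145 / 1000 ≤ v) (hvb : v < 4000 / 1000)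
    (hd : 292 / 1000 ≤ d) (hd1 : d < 334 / 1000) :
    ∃ i j : ℕ, 0 < (sixTCond i j).val u v d S' := by
  have hc : v < 1454 / 1000 := 
    hsix (737 / 1000) _ (by linarith) (by norm_num) (by
      simp only [phiSix, phiG]
      norm_num
      nlinarith [mul_self_nonneg (d - 1914775 / 27841257), mul_nonneg (show 0 ≤ d - 292 / 1000 by linarith) (show 0 ≤ 334 / 1000 - d by linarith)])
  exact ⟨0, 0, Ex.pos_of_checkQuick six_tail_675_737_1145_292
    (mem_thousandths (by push_cast; linarith) (by push_cast; linarith))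
    (mem_thousandths (by push_cast; linarith) (by push_cast; linarith))
    (mem_thousandths (by push_cast; linarith) (by push_cast; linarith)) hS⟩

theorem six_tail_leaf2_3 {u v d S' : ℝ} (hv : 29 / 100 ≤ v) (hv1 : v ≤ 15 / 4)
    (hone : ∀ b c : ℝ, u ≤ b → b ≤ 93 / 100 → phiOne6 b ≤ c → v < c)
    (hsix : ∀ b c : ℝ, u ≤ b → b ≤ 4 / 5 → phiSix d b ≤ c → v < c)
    (hA : (2 / 3 - d) * v < 2) (hdv : d * v < 1 / 2) (hS : sideS6.Mem S')
    (hu : 737 / 1000 ≤ u) (hu1 : u < 800 / 1000) (hva : 1145 / 1000 ≤ v) (hvb : v < 4000 / 1000)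
    (hd : 250 / 1000 ≤ d) (hd1 : d < 271 / 1000) :
    ∃ i j : ℕ, 0 < (sixTCond i j).val u v d S' := by
  have hc : v < 2001 / 1000 := 
    lt_of_mul_dv (a := 250 / 1000) (by norm_num) (by norm_num) (by linarith) hv hdv
  exact ⟨1068, 0, Ex.pos_of_checkQuick six_tail_737_800_1145_250
    (mem_thousandths (by push_cast; linarith) (by push_cast; linarith))
    (mem_thousandths (by push_cast; linarith) (by push_cast; linarith))
    (mem_thousandths (by push_cast; linarith) (by push_cast; linarith)) hS⟩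

theorem six_tail_leaf2_4 {u v d S' : ℝ} (hv : 29 / 100 ≤ v) (hv1 : v ≤ 15 / 4)
    (hone : ∀ b c : ℝ, u ≤ b → b ≤ 93 / 100 → phiOne6 b ≤ c → v < c)
    (hsix : ∀ b c : ℝ, u ≤ b → b ≤ 4 / 5 → phiSix d b ≤ c → v < c)
    (hA : (2 / 3 - d) * v < 2) (hdv : d * v < 1 / 2) (hS : sideS6.Mem S')
    (hu : 737 / 1000 ≤ u) (hu1 : u < 800 / 1000) (hva : 1145 / 1000 ≤ v) (hvb : v < 4000 / 1000)
    (hd : 271 / 1000 ≤ d) (hd1 : d < 281 / 1000) :
    ∃ i j : ℕ, 0 < (sixTCond i j).val u v d S' := by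
  have hc : v < 1847 / 1000 := 
    lt_of_mul_dv (a := 271 / 1000) (by norm_num) (by norm_num) (by linarith) hv hdv
  exact ⟨357, 0, Ex.pos_of_checkQuick six_tail_737_800_1145_271
    (mem_thousandths (by push_cast; linarith) (by push_cast; linarith))
    (mem_thousandths (by push_cast; linarith) (by push_cast; linarith))
    (mem_thousandths (by push_cast; linarith) (by push_cast; linarith)) hS⟩

theorem six_tail_leaf2_5 {u v d S' : ℝ} (hv : 29 / 100 ≤ v) (hv1 : v ≤ 15 / 4)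
    (hone : ∀ b c : ℝ, u ≤ b → b ≤ 93 / 100 → phiOne6 b ≤ c → v < c)
    (hsix : ∀ b c : ℝ, u ≤ b → b ≤ 4 / 5 → phiSix d b ≤ c → v < c)
    (hA : (2 / 3 - d) * v < 2) (hdv : d * v < 1 / 2) (hS : sideS6.Mem S')
    (hu : 737 / 1000 ≤ u) (hu1 : u < 800 / 1000) (hva : 1145 / 1000 ≤ v) (hvb : v < 4000 / 1000)
    (hd : 281 / 1000 ≤ d) (hd1 : d < 292 / 1000) :
    ∃ i j : ℕ, 0 < (sixTCond i j).val u v d S' := by
  have hc : v < 1781 / 1000 := 
    lt_of_mul_dv (a := 281 / 1000) (by norm_num) (by norm_num) (by linarith) hv hdv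
  exact ⟨481, 0, Ex.pos_of_checkQuick six_tail_737_800_1145_281
    (mem_thousandths (by push_cast; linarith) (by push_cast; linarith))
    (mem_thousandths (by push_cast; linarith) (by push_cast; linarith))
    (mem_thousandths (by push_cast; linarith) (by push_cast; linarith)) hS⟩

theorem six_tail_leaf2_6 {u v d S' : ℝ} (hv : 29 / 100 ≤ v) (hv1 : v ≤ 15 / 4)
    (hone : ∀ b c : ℝ, u ≤ b → b ≤ 93 / 100 → phiOne6 b ≤ c → v < c)
    (hsix : ∀ b c : ℝ, u ≤ b → b ≤ 4 / 5 → phiSix d b ≤ c → v < c)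
    (hA : (2 / 3 - d) * v < 2) (hdv : d * v < 1 / 2) (hS : sideS6.Mem S')
    (hu : 737 / 1000 ≤ u) (hu1 : u < 800 / 1000) (hva : 1145 / 1000 ≤ v) (hvb : v < 4000 / 1000)
    (hd : 292 / 1000 ≤ d) (hd1 : d < 302 / 1000) :
    ∃ i j : ℕ, 0 < (sixTCond i j).val u v d S' := by
  have hc : v < 1714 / 1000 := 
    lt_of_mul_dv (a := 292 / 1000) (by norm_num) (by norm_num) (by linarith) hv hdv
  exact ⟨440, 0, Ex.pos_of_checkQuick six_tail_737_800_1145_292
    (mem_thousandths (by push_cast; linarith) (by push_cast; linarith))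
    (mem_thousandths (by push_cast; linarith) (by push_cast; linarith))
    (mem_thousandths (by push_cast; linarith) (by push_cast; linarith)) hS⟩

theorem six_tail_leaf2_7 {u v d S' : ℝ} (hv : 29 / 100 ≤ v) (hv1 : v ≤ 15 / 4)
    (hone : ∀ b c : ℝ, u ≤ b → b ≤ 93 / 100 → phiOne6 b ≤ c → v < c)
    (hsix : ∀ b c : ℝ, u ≤ b → b ≤ 4 / 5 → phiSix d b ≤ c → v < c)
    (hA : (2 / 3 - d) * v < 2) (hdv : d * v < 1 / 2) (hS : sideS6.Mem S')
    (hu : 737 / 1000 ≤ u) (hu1 : u < 800 / 1000) (hva : 1145 / 1000 ≤ v) (hvb : v < 4000 / 1000)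
    (hd : 302 / 1000 ≤ d) (hd1 : d < 307 / 1000) :
    ∃ i j : ℕ, 0 < (sixTCond i j).val u v d S' := by
  have hc : v < 1657 / 1000 := 
    lt_of_mul_dv (a := 302 / 1000) (by norm_num) (by norm_num) (by linarith) hv hdv
  exact ⟨0, 0, Ex.pos_of_checkQuick six_tail_737_800_1145_302
    (mem_thousandths (by push_cast; linarith) (by push_cast; linarith))
    (mem_thousandths (by push_cast; linarith) (by push_cast; linarith))
    (mem_thousandths (by push_cast; linarith) (by push_cast; linarith)) hS⟩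

theorem six_tail_leaf2_8 {u v d S' : ℝ} (hv : 29 / 100 ≤ v) (hv1 : v ≤ 15 / 4)
    (hone : ∀ b c : ℝ, u ≤ b → b ≤ 93 / 100 → phiOne6 b ≤ c → v < c)
    (hsix : ∀ b c : ℝ, u ≤ b → b ≤ 4 / 5 → phiSix d b ≤ c → v < c)
    (hA : (2 / 3 - d) * v < 2) (hdv : d * v < 1 / 2) (hS : sideS6.Mem S')
    (hu : 737 / 1000 ≤ u) (hu1 : u < 800 / 1000) (hva : 1145 / 1000 ≤ v) (hvb : v < 4000 / 1000)
    (hd : 307 / 1000 ≤ d) (hd1 : d < 313 / 1000) :
    ∃ i j : ℕ, 0 < (sixTCond i j).val u v d S' := by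
  have hc : v < 1630 / 1000 := 
    lt_of_mul_dv (a := 307 / 1000) (by norm_num) (by norm_num) (by linarith) hv hdv
  exact ⟨0, 0, Ex.pos_of_checkQuick six_tail_737_800_1145_307
    (mem_thousandths (by push_cast; linarith) (by push_cast; linarith))
    (mem_thousandths (by push_cast; linarith) (by push_cast; linarith))
    (mem_thousandths (by push_cast; linarith) (by push_cast; linarith)) hS⟩

theorem six_tail_leaf2_9 {u v d S' : ℝ} (hv : 29 / 100 ≤ v) (hv1 : v ≤ 15 / 4)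
    (hone : ∀ b c : ℝ, u ≤ b → b ≤ 93 / 100 → phiOne6 b ≤ c → v < c)
    (hsix : ∀ b c : ℝ, u ≤ b → b ≤ 4 / 5 → phiSix d b ≤ c → v < c)
    (hA : (2 / 3 - d) * v < 2) (hdv : d * v < 1 / 2) (hS : sideS6.Mem S')
    (hu : 737 / 1000 ≤ u) (hu1 : u < 768 / 1000) (hva : 1145 / 1000 ≤ v) (hvb : v < 4000 / 1000)
    (hd : 313 / 1000 ≤ d) (hd1 : d < 323 / 1000) :
    ∃ i j : ℕ, 0 < (sixTCond i j).val u v d S' := by
  have hc : v < 1526 / 1000 := 
    hsix (768 / 1000) _ (by linarith) (by norm_num) (by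
      simp only [phiSix, phiG]
      norm_num
      nlinarith [mul_self_nonneg (d - 1267000 / 16796111), mul_nonneg (show 0 ≤ d - 313 / 1000 by linarith) (show 0 ≤ 323 / 1000 - d by linarith)])
  exact ⟨0, 0, Ex.pos_of_checkQuick six_tail_737_768_1145_313
    (mem_thousandths (by push_cast; linarith) (by push_cast; linarith))
    (mem_thousandths (by push_cast; linarith) (by push_cast; linarith))
    (mem_thousandths (by push_cast; linarith) (by push_cast; linarith)) hS⟩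

theorem six_tail_leaf2_10 {u v d S' : ℝ} (hv : 29 / 100 ≤ v) (hv1 : v ≤ 15 / 4)
    (hone : ∀ b c : ℝ, u ≤ b → b ≤ 93 / 100 → phiOne6 b ≤ c → v < c)
    (hsix : ∀ b c : ℝ, u ≤ b → b ≤ 4 / 5 → phiSix d b ≤ c → v < c)
    (hA : (2 / 3 - d) * v < 2) (hdv : d * v < 1 / 2) (hS : sideS6.Mem S')
    (hu : 737 / 1000 ≤ u) (hu1 : u < 768 / 1000) (hva : 1145 / 1000 ≤ v) (hvb : v < 4000 / 1000)
    (hd : 323 / 1000 ≤ d) (hd1 : d < 334 / 1000) :
    ∃ i j : ℕ, 0 < (sixTCond i j).val u v d S' := by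
  have hc : v < 1455 / 1000 := 
    hsix (768 / 1000) _ (by linarith) (by norm_num) (by
      simp only [phiSix, phiG]
      norm_num
      nlinarith [mul_self_nonneg (d - 1267000 / 16796111), mul_nonneg (show 0 ≤ d - 323 / 1000 by linarith) (show 0 ≤ 334 / 1000 - d by linarith)])
  exact ⟨0, 0, Ex.pos_of_checkQuick six_tail_737_768_1145_323
    (mem_thousandths (by push_cast; linarith) (by push_cast; linarith))
    (mem_thousandths (by push_cast; linarith) (by push_cast; linarith))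
    (mem_thousandths (by push_cast; linarith) (by push_cast; linarith)) hS⟩

theorem six_tail_leaf2_11 {u v d S' : ℝ} (hv : 29 / 100 ≤ v) (hv1 : v ≤ 15 / 4)
    (hone : ∀ b c : ℝ, u ≤ b → b ≤ 93 / 100 → phiOne6 b ≤ c → v < c)
    (hsix : ∀ b c : ℝ, u ≤ b → b ≤ 4 / 5 → phiSix d b ≤ c → v < c)
    (hA : (2 / 3 - d) * v < 2) (hdv : d * v < 1 / 2) (hS : sideS6.Mem S')
    (hu : 768 / 1000 ≤ u) (hu1 : u < 800 / 1000) (hva : 1145 / 1000 ≤ v) (hvb : v < 4000 / 1000)
    (hd : 313 / 1000 ≤ d) (hd1 : d < 318 / 1000) :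
    ∃ i j : ℕ, 0 < (sixTCond i j).val u v d S' := by
  have hc : v < 1599 / 1000 := 
    lt_of_mul_dv (a := 313 / 1000) (by norm_num) (by norm_num) (by linarith) hv hdv
  exact ⟨0, 0, Ex.pos_of_checkQuick six_tail_768_800_1145_313
    (mem_thousandths (by push_cast; linarith) (by push_cast; linarith))
    (mem_thousandths (by push_cast; linarith) (by push_cast; linarith))
    (mem_thousandths (by push_cast; linarith) (by push_cast; linarith)) hS⟩

theorem six_tail_leaf2_12 {u v d S' : ℝ} (hv : 29 / 100 ≤ v) (hv1 : v ≤ 15 / 4)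
    (hone : ∀ b c : ℝ, u ≤ b → b ≤ 93 / 100 → phiOne6 b ≤ c → v < c)
    (hsix : ∀ b c : ℝ, u ≤ b → b ≤ 4 / 5 → phiSix d b ≤ c → v < c)
    (hA : (2 / 3 - d) * v < 2) (hdv : d * v < 1 / 2) (hS : sideS6.Mem S')
    (hu : 768 / 1000 ≤ u) (hu1 : u < 800 / 1000) (hva : 1145 / 1000 ≤ v) (hvb : v < 4000 / 1000)
    (hd : 318 / 1000 ≤ d) (hd1 : d < 323 / 1000) :
    ∃ i j : ℕ, 0 < (sixTCond i j).val u v d S' := by
  have hc : v < 1574 / 1000 := 
    lt_of_mul_dv (a := 318 / 1000) (by norm_num) (by norm_num) (by linarith) hv hdv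
  exact ⟨0, 0, Ex.pos_of_checkQuick six_tail_768_800_1145_318
    (mem_thousandths (by push_cast; linarith) (by push_cast; linarith))
    (mem_thousandths (by push_cast; linarith) (by push_cast; linarith))
    (mem_thousandths (by push_cast; linarith) (by push_cast; linarith)) hS⟩

theorem six_tail_leaf2_13 {u v d S' : ℝ} (hv : 29 / 100 ≤ v) (hv1 : v ≤ 15 / 4)
    (hone : ∀ b c : ℝ, u ≤ b → b ≤ 93 / 100 → phiOne6 b ≤ c → v < c)
    (hsix : ∀ b c : ℝ, u ≤ b → b ≤ 4 / 5 → phiSix d b ≤ c → v < c)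
    (hA : (2 / 3 - d) * v < 2) (hdv : d * v < 1 / 2) (hS : sideS6.Mem S')
    (hu : 768 / 1000 ≤ u) (hu1 : u < 800 / 1000) (hva : 1145 / 1000 ≤ v) (hvb : v < 4000 / 1000)
    (hd : 323 / 1000 ≤ d) (hd1 : d < 328 / 1000) :
    ∃ i j : ℕ, 0 < (sixTCond i j).val u v d S' := by
  have hc : v < 1549 / 1000 := 
    lt_of_mul_dv (a := 323 / 1000) (by norm_num) (by norm_num) (by linarith) hv hdv
  exact ⟨0, 0, Ex.pos_of_checkQuick six_tail_768_800_1145_323
    (mem_thousandths (by push_cast; linarith) (by push_cast; linarith))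
    (mem_thousandths (by push_cast; linarith) (by push_cast; linarith))
    (mem_thousandths (by push_cast; linarith) (by push_cast; linarith)) hS⟩

theorem six_tail_leaf2_14 {u v d S' : ℝ} (hv : 29 / 100 ≤ v) (hv1 : v ≤ 15 / 4)
    (hone : ∀ b c : ℝ, u ≤ b → b ≤ 93 / 100 → phiOne6 b ≤ c → v < c)
    (hsix : ∀ b c : ℝ, u ≤ b → b ≤ 4 / 5 → phiSix d b ≤ c → v < c)
    (hA : (2 / 3 - d) * v < 2) (hdv : d * v < 1 / 2) (hS : sideS6.Mem S')
    (hu : 768 / 1000 ≤ u) (hu1 : u < 800 / 1000) (hva : 1145 / 1000 ≤ v) (hvb : v < 4000 / 1000)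
    (hd : 328 / 1000 ≤ d) (hd1 : d < 331 / 1000) :
    ∃ i j : ℕ, 0 < (sixTCond i j).val u v d S' := by
  have hc : v < 1526 / 1000 := 
    lt_of_mul_dv (a := 328 / 1000) (by norm_num) (by norm_num) (by linarith) hv hdv
  exact ⟨0, 0, Ex.pos_of_checkQuick six_tail_768_800_1145_328
    (mem_thousandths (by push_cast; linarith) (by push_cast; linarith))
    (mem_thousandths (by push_cast; linarith) (by push_cast; linarith))
    (mem_thousandths (by push_cast; linarith) (by push_cast; linarith)) hS⟩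

theorem six_tail_leaf2_15 {u v d S' : ℝ} (hv : 29 / 100 ≤ v) (hv1 : v ≤ 15 / 4)
    (hone : ∀ b c : ℝ, u ≤ b → b ≤ 93 / 100 → phiOne6 b ≤ c → v < c)
    (hsix : ∀ b c : ℝ, u ≤ b → b ≤ 4 / 5 → phiSix d b ≤ c → v < c)
    (hA : (2 / 3 - d) * v < 2) (hdv : d * v < 1 / 2) (hS : sideS6.Mem S')
    (hu : 768 / 1000 ≤ u) (hu1 : u < 800 / 1000) (hva : 1145 / 1000 ≤ v) (hvb : v < 4000 / 1000)
    (hd : 331 / 1000 ≤ d) (hd1 : d < 334 / 1000) :
    ∃ i j : ℕ, 0 < (sixTCond i j).val u v d S' := by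
  have hc : v < 1512 / 1000 := 
    lt_of_mul_dv (a := 331 / 1000) (by norm_num) (by norm_num) (by linarith) hv hdv
  exact ⟨0, 0, Ex.pos_of_checkQuick six_tail_768_800_1145_331
    (mem_thousandths (by push_cast; linarith) (by push_cast; linarith))
    (mem_thousandths (by push_cast; linarith) (by push_cast; linarith))
    (mem_thousandths (by push_cast; linarith) (by push_cast; linarith)) hS⟩

theorem six_tail_sign_2 {u v d S' : ℝ} (hu : 675 / 1000 ≤ u) (hu1 : u < 800 / 1000) (hv : 29 / 100 ≤ v) (hv1 : v ≤ 15 / 4)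
    (hone : ∀ b c : ℝ, u ≤ b → b ≤ 93 / 100 → phiOne6 b ≤ c → v < c)
    (hsix : ∀ b c : ℝ, u ≤ b → b ≤ 4 / 5 → phiSix d b ≤ c → v < c)
    (hA : (2 / 3 - d) * v < 2) (hdv : d * v < 1 / 2) (hd : 250 / 1000 ≤ d) (hd1 : d < 334 / 1000)
    (hS : sideS6.Mem S') : ∃ i j : ℕ, 0 < (sixTCond i j).val u v d S' := by
  have hva : 290 / 1000 ≤ v := by linarith
  have hvb : v < 4000 / 1000 := by linarith
  rcases lt_or_ge v (1145 / 1000) with g0 | g0
  · exact six_tail_leaf2_0 hv hv1 hone hsix hA hdv hS hu hu1 hva g0 hd hd1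
  · rcases lt_or_ge u (737 / 1000) with g1 | g1
    · rcases lt_or_ge d (292 / 1000) with g2 | g2
      · exact six_tail_leaf2_1 hv hv1 hone hsix hA hdv hS hu g1 g0 hvb hd g2
      · exact six_tail_leaf2_2 hv hv1 hone hsix hA hdv hS hu g1 g0 hvb g2 hd1
    · rcases lt_or_ge d (292 / 1000) with g3 | g3
      · rcases lt_or_ge d (271 / 1000) with g4 | g4
        · exact six_tail_leaf2_3 hv hv1 hone hsix hA hdv hS g1 hu1 g0 hvb hd g4
        · rcases lt_or_ge d (281 / 1000) with g5 | g5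
          · exact six_tail_leaf2_4 hv hv1 hone hsix hA hdv hS g1 hu1 g0 hvb g4 g5
          · exact six_tail_leaf2_5 hv hv1 hone hsix hA hdv hS g1 hu1 g0 hvb g5 g3
      · rcases lt_or_ge d (313 / 1000) with g6 | g6
        · rcases lt_or_ge d (302 / 1000) with g7 | g7
          · exact six_tail_leaf2_6 hv hv1 hone hsix hA hdv hS g1 hu1 g0 hvb g3 g7
          · rcases lt_or_ge d (307 / 1000) with g8 | g8
            · exact six_tail_leaf2_7 hv hv1 hone hsix hA hdv hS g1 hu1 g0 hvb g7 g8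
            · exact six_tail_leaf2_8 hv hv1 hone hsix hA hdv hS g1 hu1 g0 hvb g8 g6
        · rcases lt_or_ge u (768 / 1000) with g9 | g9
          · rcases lt_or_ge d (323 / 1000) with g10 | g10
            · exact six_tail_leaf2_9 hv hv1 hone hsix hA hdv hS g1 g9 g0 hvb g6 g10
            · exact six_tail_leaf2_10 hv hv1 hone hsix hA hdv hS g1 g9 g0 hvb g10 hd1
          · rcases lt_or_ge d (323 / 1000) with g11 | g11
            · rcases lt_or_ge d (318 / 1000) with g12 | g12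
              · exact six_tail_leaf2_11 hv hv1 hone hsix hA hdv hS g9 hu1 g0 hvb g6 g12
              · exact six_tail_leaf2_12 hv hv1 hone hsix hA hdv hS g9 hu1 g0 hvb g12 g11
            · rcases lt_or_ge d (328 / 1000) with g13 | g13
              · exact six_tail_leaf2_13 hv hv1 hone hsix hA hdv hS g9 hu1 g0 hvb g11 g13
              · rcases lt_or_ge d (331 / 1000) with g14 | g14
                · exact six_tail_leaf2_14 hv hv1 hone hsix hA hdv hS g9 hu1 g0 hvb g13 g14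
                · exact six_tail_leaf2_15 hv hv1 hone hsix hA hdv hS g9 hu1 g0 hvb g14 hd1

theorem six_tail_leaf3_0 {u v d S' : ℝ} (hv : 29 / 100 ≤ v) (hv1 : v ≤ 15 / 4)
    (hone : ∀ b c : ℝ, u ≤ b → b ≤ 93 / 100 → phiOne6 b ≤ c → v < c)
    (hsix : ∀ b c : ℝ, u ≤ b → b ≤ 4 / 5 → phiSix d b ≤ c → v < c)
    (hA : (2 / 3 - d) * v < 2) (hdv : d * v < 1 / 2) (hS : sideS6.Mem S')
    (hu : 800 / 1000 ≤ u) (hu1 : u < 930 / 1000) (hva : 290 / 1000 ≤ v) (hvb : v < 722 / 1000)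
    (hd : 0 / 1000 ≤ d) (hd1 : d < 334 / 1000) :
    ∃ i j : ℕ, 0 < (sixTCond i j).val u v d S' := by
  exact ⟨0, 867, Ex.pos_of_checkQuick six_tail_800_930_290_0
    (mem_thousandths (by push_cast; linarith) (by push_cast; linarith))
    (mem_thousandths (by push_cast; linarith) (by push_cast; linarith))
    (mem_thousandths (by push_cast; linarith) (by push_cast; linarith)) hS⟩

theorem six_tail_leaf3_1 {u v d S' : ℝ} (hv : 29 / 100 ≤ v) (hv1 : v ≤ 15 / 4)
    (hone : ∀ b c : ℝ, u ≤ b → b ≤ 93 / 100 → phiOne6 b ≤ c → v < c)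
    (hsix : ∀ b c : ℝ, u ≤ b → b ≤ 4 / 5 → phiSix d b ≤ c → v < c)
    (hA : (2 / 3 - d) * v < 2) (hdv : d * v < 1 / 2) (hS : sideS6.Mem S')
    (hu : 800 / 1000 ≤ u) (hu1 : u < 865 / 1000) (hva : 722 / 1000 ≤ v) (hvb : v < 830 / 1000)
    (hd : 0 / 1000 ≤ d) (hd1 : d < 83 / 1000) :
    ∃ i j : ℕ, 0 < (sixTCond i j).val u v d S' := by
  exact ⟨0, 444, Ex.pos_of_checkQuick six_tail_800_865_722_0
    (mem_thousandths (by push_cast; linarith) (by push_cast; linarith))
    (mem_thousandths (by push_cast; linarith) (by push_cast; linarith))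
    (mem_thousandths (by push_cast; linarith) (by push_cast; linarith)) hS⟩

theorem six_tail_leaf3_2 {u v d S' : ℝ} (hv : 29 / 100 ≤ v) (hv1 : v ≤ 15 / 4)
    (hone : ∀ b c : ℝ, u ≤ b → b ≤ 93 / 100 → phiOne6 b ≤ c → v < c)
    (hsix : ∀ b c : ℝ, u ≤ b → b ≤ 4 / 5 → phiSix d b ≤ c → v < c)
    (hA : (2 / 3 - d) * v < 2) (hdv : d * v < 1 / 2) (hS : sideS6.Mem S')
    (hu : 800 / 1000 ≤ u) (hu1 : u < 865 / 1000) (hva : 830 / 1000 ≤ v) (hvb : v < 938 / 1000)
    (hd : 0 / 1000 ≤ d) (hd1 : d < 83 / 1000) :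
    ∃ i j : ℕ, 0 < (sixTCond i j).val u v d S' := by
  exact ⟨0, 182, Ex.pos_of_checkQuick six_tail_800_865_830_0
    (mem_thousandths (by push_cast; linarith) (by push_cast; linarith))
    (mem_thousandths (by push_cast; linarith) (by push_cast; linarith))
    (mem_thousandths (by push_cast; linarith) (by push_cast; linarith)) hS⟩

theorem six_tail_leaf3_3 {u v d S' : ℝ} (hv : 29 / 100 ≤ v) (hv1 : v ≤ 15 / 4)
    (hone : ∀ b c : ℝ, u ≤ b → b ≤ 93 / 100 → phiOne6 b ≤ c → v < c)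
    (hsix : ∀ b c : ℝ, u ≤ b → b ≤ 4 / 5 → phiSix d b ≤ c → v < c)
    (hA : (2 / 3 - d) * v < 2) (hdv : d * v < 1 / 2) (hS : sideS6.Mem S')
    (hu : 800 / 1000 ≤ u) (hu1 : u < 865 / 1000) (hva : 938 / 1000 ≤ v) (hvb : v < 1155 / 1000)
    (hd : 0 / 1000 ≤ d) (hd1 : d < 83 / 1000) :
    ∃ i j : ℕ, 0 < (sixTCond i j).val u v d S' := by
  exact ⟨0, 0, Ex.pos_of_checkQuick six_tail_800_865_938_0
    (mem_thousandths (by push_cast; linarith) (by push_cast; linarith))
    (mem_thousandths (by push_cast; linarith) (by push_cast; linarith))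
    (mem_thousandths (by push_cast; linarith) (by push_cast; linarith)) hS⟩

theorem six_tail_leaf3_4 {u v d S' : ℝ} (hv : 29 / 100 ≤ v) (hv1 : v ≤ 15 / 4)
    (hone : ∀ b c : ℝ, u ≤ b → b ≤ 93 / 100 → phiOne6 b ≤ c → v < c)
    (hsix : ∀ b c : ℝ, u ≤ b → b ≤ 4 / 5 → phiSix d b ≤ c → v < c)
    (hA : (2 / 3 - d) * v < 2) (hdv : d * v < 1 / 2) (hS : sideS6.Mem S')
    (hu : 800 / 1000 ≤ u) (hu1 : u < 865 / 1000) (hva : 722 / 1000 ≤ v) (hvb : v < 776 / 1000)
    (hd : 83 / 1000 ≤ d) (hd1 : d < 167 / 1000) :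
    ∃ i j : ℕ, 0 < (sixTCond i j).val u v d S' := by
  exact ⟨0, 444, Ex.pos_of_checkQuick six_tail_800_865_722_83
    (mem_thousandths (by push_cast; linarith) (by push_cast; linarith))
    (mem_thousandths (by push_cast; linarith) (by push_cast; linarith))
    (mem_thousandths (by push_cast; linarith) (by push_cast; linarith)) hS⟩

theorem six_tail_leaf3_5 {u v d S' : ℝ} (hv : 29 / 100 ≤ v) (hv1 : v ≤ 15 / 4)
    (hone : ∀ b c : ℝ, u ≤ b → b ≤ 93 / 100 → phiOne6 b ≤ c → v < c)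
    (hsix : ∀ b c : ℝ, u ≤ b → b ≤ 4 / 5 → phiSix d b ≤ c → v < c)
    (hA : (2 / 3 - d) * v < 2) (hdv : d * v < 1 / 2) (hS : sideS6.Mem S')
    (hu : 800 / 1000 ≤ u) (hu1 : u < 865 / 1000) (hva : 776 / 1000 ≤ v) (hvb : v < 803 / 1000)
    (hd : 83 / 1000 ≤ d) (hd1 : d < 167 / 1000) :
    ∃ i j : ℕ, 0 < (sixTCond i j).val u v d S' := by
  exact ⟨0, 867, Ex.pos_of_checkQuick six_tail_800_865_776_83
    (mem_thousandths (by push_cast; linarith) (by push_cast; linarith))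
    (mem_thousandths (by push_cast; linarith) (by push_cast; linarith))
    (mem_thousandths (by push_cast; linarith) (by push_cast; linarith)) hS⟩

theorem six_tail_leaf3_6 {u v d S' : ℝ} (hv : 29 / 100 ≤ v) (hv1 : v ≤ 15 / 4)
    (hone : ∀ b c : ℝ, u ≤ b → b ≤ 93 / 100 → phiOne6 b ≤ c → v < c)
    (hsix : ∀ b c : ℝ, u ≤ b → b ≤ 4 / 5 → phiSix d b ≤ c → v < c)
    (hA : (2 / 3 - d) * v < 2) (hdv : d * v < 1 / 2) (hS : sideS6.Mem S')
    (hu : 800 / 1000 ≤ u) (hu1 : u < 832 / 1000) (hva : 803 / 1000 ≤ v) (hvb : v < 830 / 1000)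
    (hd : 83 / 1000 ≤ d) (hd1 : d < 104 / 1000) :
    ∃ i j : ℕ, 0 < (sixTCond i j).val u v d S' := by
  exact ⟨0, 355, Ex.pos_of_checkQuick six_tail_800_832_803_83
    (mem_thousandths (by push_cast; linarith) (by push_cast; linarith))
    (mem_thousandths (by push_cast; linarith) (by push_cast; linarith))
    (mem_thousandths (by push_cast; linarith) (by push_cast; linarith)) hS⟩

theorem six_tail_leaf3_7 {u v d S' : ℝ} (hv : 29 / 100 ≤ v) (hv1 : v ≤ 15 / 4)
    (hone : ∀ b c : ℝ, u ≤ b → b ≤ 93 / 100 → phiOne6 b ≤ c → v < c)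
    (hsix : ∀ b c : ℝ, u ≤ b → b ≤ 4 / 5 → phiSix d b ≤ c → v < c)
    (hA : (2 / 3 - d) * v < 2) (hdv : d * v < 1 / 2) (hS : sideS6.Mem S')
    (hu : 800 / 1000 ≤ u) (hu1 : u < 832 / 1000) (hva : 803 / 1000 ≤ v) (hvb : v < 830 / 1000)
    (hd : 104 / 1000 ≤ d) (hd1 : d < 125 / 1000) :
    ∃ i j : ℕ, 0 < (sixTCond i j).val u v d S' := by
  exact ⟨0, 355, Ex.pos_of_checkQuick six_tail_800_832_803_104
    (mem_thousandths (by push_cast; linarith) (by push_cast; linarith))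
    (mem_thousandths (by push_cast; linarith) (by push_cast; linarith))
    (mem_thousandths (by push_cast; linarith) (by push_cast; linarith)) hS⟩

theorem six_tail_leaf3_8 {u v d S' : ℝ} (hv : 29 / 100 ≤ v) (hv1 : v ≤ 15 / 4)
    (hone : ∀ b c : ℝ, u ≤ b → b ≤ 93 / 100 → phiOne6 b ≤ c → v < c)
    (hsix : ∀ b c : ℝ, u ≤ b → b ≤ 4 / 5 → phiSix d b ≤ c → v < c)
    (hA : (2 / 3 - d) * v < 2) (hdv : d * v < 1 / 2) (hS : sideS6.Mem S')
    (hu : 832 / 1000 ≤ u) (hu1 : u < 865 / 1000) (hva : 803 / 1000 ≤ v) (hvb : v < 830 / 1000)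
    (hd : 83 / 1000 ≤ d) (hd1 : d < 125 / 1000) :
    ∃ i j : ℕ, 0 < (sixTCond i j).val u v d S' := by
  exact ⟨0, 284, Ex.pos_of_checkQuick six_tail_832_865_803_83
    (mem_thousandths (by push_cast; linarith) (by push_cast; linarith))
    (mem_thousandths (by push_cast; linarith) (by push_cast; linarith))
    (mem_thousandths (by push_cast; linarith) (by push_cast; linarith)) hS⟩

theorem six_tail_leaf3_9 {u v d S' : ℝ} (hv : 29 / 100 ≤ v) (hv1 : v ≤ 15 / 4)
    (hone : ∀ b c : ℝ, u ≤ b → b ≤ 93 / 100 → phiOne6 b ≤ c → v < c)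
    (hsix : ∀ b c : ℝ, u ≤ b → b ≤ 4 / 5 → phiSix d b ≤ c → v < c)
    (hA : (2 / 3 - d) * v < 2) (hdv : d * v < 1 / 2) (hS : sideS6.Mem S')
    (hu : 800 / 1000 ≤ u) (hu1 : u < 865 / 1000) (hva : 803 / 1000 ≤ v) (hvb : v < 830 / 1000)
    (hd : 125 / 1000 ≤ d) (hd1 : d < 167 / 1000) :
    ∃ i j : ℕ, 0 < (sixTCond i j).val u v d S' := by
  exact ⟨0, 10, Ex.pos_of_checkQuick six_tail_800_865_803_125
    (mem_thousandths (by push_cast; linarith) (by push_cast; linarith))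
    (mem_thousandths (by push_cast; linarith) (by push_cast; linarith))
    (mem_thousandths (by push_cast; linarith) (by push_cast; linarith)) hS⟩

theorem six_tail_leaf3_10 {u v d S' : ℝ} (hv : 29 / 100 ≤ v) (hv1 : v ≤ 15 / 4)
    (hone : ∀ b c : ℝ, u ≤ b → b ≤ 93 / 100 → phiOne6 b ≤ c → v < c)
    (hsix : ∀ b c : ℝ, u ≤ b → b ≤ 4 / 5 → phiSix d b ≤ c → v < c)
    (hA : (2 / 3 - d) * v < 2) (hdv : d * v < 1 / 2) (hS : sideS6.Mem S')
    (hu : 800 / 1000 ≤ u) (hu1 : u < 865 / 1000) (hva : 830 / 1000 ≤ v) (hvb : v < 938 / 1000)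
    (hd : 83 / 1000 ≤ d) (hd1 : d < 167 / 1000) :
    ∃ i j : ℕ, 0 < (sixTCond i j).val u v d S' := by
  exact ⟨0, 146, Ex.pos_of_checkQuick six_tail_800_865_830_83
    (mem_thousandths (by push_cast; linarith) (by push_cast; linarith))
    (mem_thousandths (by push_cast; linarith) (by push_cast; linarith))
    (mem_thousandths (by push_cast; linarith) (by push_cast; linarith)) hS⟩

theorem six_tail_leaf3_11 {u v d S' : ℝ} (hv : 29 / 100 ≤ v) (hv1 : v ≤ 15 / 4)
    (hone : ∀ b c : ℝ, u ≤ b → b ≤ 93 / 100 → phiOne6 b ≤ c → v < c)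
    (hsix : ∀ b c : ℝ, u ≤ b → b ≤ 4 / 5 → phiSix d b ≤ c → v < c)
    (hA : (2 / 3 - d) * v < 2) (hdv : d * v < 1 / 2) (hS : sideS6.Mem S')
    (hu : 800 / 1000 ≤ u) (hu1 : u < 865 / 1000) (hva : 938 / 1000 ≤ v) (hvb : v < 1155 / 1000)
    (hd : 83 / 1000 ≤ d) (hd1 : d < 167 / 1000) :
    ∃ i j : ℕ, 0 < (sixTCond i j).val u v d S' := by
  exact ⟨0, 0, Ex.pos_of_checkQuick six_tail_800_865_938_83
    (mem_thousandths (by push_cast; linarith) (by push_cast; linarith))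
    (mem_thousandths (by push_cast; linarith) (by push_cast; linarith))
    (mem_thousandths (by push_cast; linarith) (by push_cast; linarith)) hS⟩

theorem six_tail_leaf3_12 {u v d S' : ℝ} (hv : 29 / 100 ≤ v) (hv1 : v ≤ 15 / 4)
    (hone : ∀ b c : ℝ, u ≤ b → b ≤ 93 / 100 → phiOne6 b ≤ c → v < c)
    (hsix : ∀ b c : ℝ, u ≤ b → b ≤ 4 / 5 → phiSix d b ≤ c → v < c)
    (hA : (2 / 3 - d) * v < 2) (hdv : d * v < 1 / 2) (hS : sideS6.Mem S')
    (hu : 865 / 1000 ≤ u) (hu1 : u < 930 / 1000) (hva : 722 / 1000 ≤ v) (hvb : v < 938 / 1000)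
    (hd : 0 / 1000 ≤ d) (hd1 : d < 167 / 1000) :
    ∃ i j : ℕ, 0 < (sixTCond i j).val u v d S' := by
  exact ⟨0, 694, Ex.pos_of_checkQuick six_tail_865_930_722_0
    (mem_thousandths (by push_cast; linarith) (by push_cast; linarith))
    (mem_thousandths (by push_cast; linarith) (by push_cast; linarith))
    (mem_thousandths (by push_cast; linarith) (by push_cast; linarith)) hS⟩

theorem six_tail_leaf3_13 {u v d S' : ℝ} (hv : 29 / 100 ≤ v) (hv1 : v ≤ 15 / 4)
    (hone : ∀ b c : ℝ, u ≤ b → b ≤ 93 / 100 → phiOne6 b ≤ c → v < c)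
    (hsix : ∀ b c : ℝ, u ≤ b → b ≤ 4 / 5 → phiSix d b ≤ c → v < c)
    (hA : (2 / 3 - d) * v < 2) (hdv : d * v < 1 / 2) (hS : sideS6.Mem S')
    (hu : 865 / 1000 ≤ u) (hu1 : u < 930 / 1000) (hva : 938 / 1000 ≤ v) (hvb : v < 1155 / 1000)
    (hd : 0 / 1000 ≤ d) (hd1 : d < 167 / 1000) :
    ∃ i j : ℕ, 0 < (sixTCond i j).val u v d S' := by
  exact ⟨0, 444, Ex.pos_of_checkQuick six_tail_865_930_938_0
    (mem_thousandths (by push_cast; linarith) (by push_cast; linarith))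
    (mem_thousandths (by push_cast; linarith) (by push_cast; linarith))
    (mem_thousandths (by push_cast; linarith) (by push_cast; linarith)) hS⟩

theorem six_tail_leaf3_14 {u v d S' : ℝ} (hv : 29 / 100 ≤ v) (hv1 : v ≤ 15 / 4)
    (hone : ∀ b c : ℝ, u ≤ b → b ≤ 93 / 100 → phiOne6 b ≤ c → v < c)
    (hsix : ∀ b c : ℝ, u ≤ b → b ≤ 4 / 5 → phiSix d b ≤ c → v < c)
    (hA : (2 / 3 - d) * v < 2) (hdv : d * v < 1 / 2) (hS : sideS6.Mem S')
    (hu : 800 / 1000 ≤ u) (hu1 : u < 930 / 1000) (hva : 722 / 1000 ≤ v) (hvb : v < 1155 / 1000)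
    (hd : 167 / 1000 ≤ d) (hd1 : d < 334 / 1000) :
    ∃ i j : ℕ, 0 < (sixTCond i j).val u v d S' := by
  exact ⟨0, 16, Ex.pos_of_checkQuick six_tail_800_930_722_167
    (mem_thousandths (by push_cast; linarith) (by push_cast; linarith))
    (mem_thousandths (by push_cast; linarith) (by push_cast; linarith))
    (mem_thousandths (by push_cast; linarith) (by push_cast; linarith)) hS⟩

theorem six_tail_leaf3_15 {u v d S' : ℝ} (hv : 29 / 100 ≤ v) (hv1 : v ≤ 15 / 4)
    (hone : ∀ b c : ℝ, u ≤ b → b ≤ 93 / 100 → phiOne6 b ≤ c → v < c)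
    (hsix : ∀ b c : ℝ, u ≤ b → b ≤ 4 / 5 → phiSix d b ≤ c → v < c)
    (hA : (2 / 3 - d) * v < 2) (hdv : d * v < 1 / 2) (hS : sideS6.Mem S')
    (hu : 800 / 1000 ≤ u) (hu1 : u < 930 / 1000) (hva : 1155 / 1000 ≤ v) (hvb : v < 2020 / 1000)
    (hd : 0 / 1000 ≤ d) (hd1 : d < 167 / 1000) :
    ∃ i j : ℕ, 0 < (sixTCond i j).val u v d S' := by
  exact ⟨0, 24, Ex.pos_of_checkQuick six_tail_800_930_1155_0
    (mem_thousandths (by push_cast; linarith) (by push_cast; linarith))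
    (mem_thousandths (by push_cast; linarith) (by push_cast; linarith))
    (mem_thousandths (by push_cast; linarith) (by push_cast; linarith)) hS⟩

theorem six_tail_leaf3_16 {u v d S' : ℝ} (hv : 29 / 100 ≤ v) (hv1 : v ≤ 15 / 4)
    (hone : ∀ b c : ℝ, u ≤ b → b ≤ 93 / 100 → phiOne6 b ≤ c → v < c)
    (hsix : ∀ b c : ℝ, u ≤ b → b ≤ 4 / 5 → phiSix d b ≤ c → v < c)
    (hA : (2 / 3 - d) * v < 2) (hdv : d * v < 1 / 2) (hS : sideS6.Mem S')
    (hu : 800 / 1000 ≤ u) (hu1 : u < 930 / 1000) (hva : 1155 / 1000 ≤ v) (hvb : v < 1371 / 1000)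
    (hd : 167 / 1000 ≤ d) (hd1 : d < 334 / 1000) :
    ∃ i j : ℕ, 0 < (sixTCond i j).val u v d S' := by
  exact ⟨0, 0, Ex.pos_of_checkQuick six_tail_800_930_1155_167
    (mem_thousandths (by push_cast; linarith) (by push_cast; linarith))
    (mem_thousandths (by push_cast; linarith) (by push_cast; linarith))
    (mem_thousandths (by push_cast; linarith) (by push_cast; linarith)) hS⟩

theorem six_tail_leaf3_17 {u v d S' : ℝ} (hv : 29 / 100 ≤ v) (hv1 : v ≤ 15 / 4)
    (hone : ∀ b c : ℝ, u ≤ b → b ≤ 93 / 100 → phiOne6 b ≤ c → v < c)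
    (hsix : ∀ b c : ℝ, u ≤ b → b ≤ 4 / 5 → phiSix d b ≤ c → v < c)
    (hA : (2 / 3 - d) * v < 2) (hdv : d * v < 1 / 2) (hS : sideS6.Mem S')
    (hu : 800 / 1000 ≤ u) (hu1 : u < 930 / 1000) (hva : 1371 / 1000 ≤ v) (hvb : v < 1587 / 1000)
    (hd : 167 / 1000 ≤ d) (hd1 : d < 334 / 1000) :
    ∃ i j : ℕ, 0 < (sixTCond i j).val u v d S' := by
  exact ⟨1691, 0, Ex.pos_of_checkQuick six_tail_800_930_1371_167
    (mem_thousandths (by push_cast; linarith) (by push_cast; linarith))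
    (mem_thousandths (by push_cast; linarith) (by push_cast; linarith))
    (mem_thousandths (by push_cast; linarith) (by push_cast; linarith)) hS⟩

theorem six_tail_leaf3_18 {u v d S' : ℝ} (hv : 29 / 100 ≤ v) (hv1 : v ≤ 15 / 4)
    (hone : ∀ b c : ℝ, u ≤ b → b ≤ 93 / 100 → phiOne6 b ≤ c → v < c)
    (hsix : ∀ b c : ℝ, u ≤ b → b ≤ 4 / 5 → phiSix d b ≤ c → v < c)
    (hA : (2 / 3 - d) * v < 2) (hdv : d * v < 1 / 2) (hS : sideS6.Mem S')
    (hu : 800 / 1000 ≤ u) (hu1 : u < 930 / 1000) (hva : 1587 / 1000 ≤ v) (hvb : v < 2020 / 1000)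
    (hd : 167 / 1000 ≤ d) (hd1 : d < 250 / 1000) :
    ∃ i j : ℕ, 0 < (sixTCond i j).val u v d S' := by
  exact ⟨1307, 0, Ex.pos_of_checkQuick six_tail_800_930_1587_167
    (mem_thousandths (by push_cast; linarith) (by push_cast; linarith))
    (mem_thousandths (by push_cast; linarith) (by push_cast; linarith))
    (mem_thousandths (by push_cast; linarith) (by push_cast; linarith)) hS⟩

theorem six_tail_leaf3_19 {u v d S' : ℝ} (hv : 29 / 100 ≤ v) (hv1 : v ≤ 15 / 4)
    (hone : ∀ b c : ℝ, u ≤ b → b ≤ 93 / 100 → phiOne6 b ≤ c → v < c)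
    (hsix : ∀ b c : ℝ, u ≤ b → b ≤ 4 / 5 → phiSix d b ≤ c → v < c)
    (hA : (2 / 3 - d) * v < 2) (hdv : d * v < 1 / 2) (hS : sideS6.Mem S')
    (hu : 800 / 1000 ≤ u) (hu1 : u < 930 / 1000) (hva : 1587 / 1000 ≤ v) (hvb : v < 2020 / 1000)
    (hd : 250 / 1000 ≤ d) (hd1 : d < 334 / 1000) :
    ∃ i j : ℕ, 0 < (sixTCond i j).val u v d S' := by
  have hc : v < 2001 / 1000 := 
    lt_of_mul_dv (a := 250 / 1000) (by norm_num) (by norm_num) (by linarith) hv hdv
  exact ⟨2994, 0, Ex.pos_of_checkQuick six_tail_800_930_1587_250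
    (mem_thousandths (by push_cast; linarith) (by push_cast; linarith))
    (mem_thousandths (by push_cast; linarith) (by push_cast; linarith))
    (mem_thousandths (by push_cast; linarith) (by push_cast; linarith)) hS⟩

theorem six_tail_leaf3_20 {u v d S' : ℝ} (hv : 29 / 100 ≤ v) (hv1 : v ≤ 15 / 4)
    (hone : ∀ b c : ℝ, u ≤ b → b ≤ 93 / 100 → phiOne6 b ≤ c → v < c)
    (hsix : ∀ b c : ℝ, u ≤ b → b ≤ 4 / 5 → phiSix d b ≤ c → v < c)
    (hA : (2 / 3 - d) * v < 2) (hdv : d * v < 1 / 2) (hS : sideS6.Mem S')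
    (hu : 800 / 1000 ≤ u) (hu1 : u < 930 / 1000) (hva : 2020 / 1000 ≤ v) (hvb : v < 2885 / 1000)
    (hd : 0 / 1000 ≤ d) (hd1 : d < 167 / 1000) :
    ∃ i j : ℕ, 0 < (sixTCond i j).val u v d S' := by
  exact ⟨0, 0, Ex.pos_of_checkQuick six_tail_800_930_2020_0
    (mem_thousandths (by push_cast; linarith) (by push_cast; linarith))
    (mem_thousandths (by push_cast; linarith) (by push_cast; linarith))
    (mem_thousandths (by push_cast; linarith) (by push_cast; linarith)) hS⟩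

theorem six_tail_leaf3_21 {u v d S' : ℝ} (hv : 29 / 100 ≤ v) (hv1 : v ≤ 15 / 4)
    (hone : ∀ b c : ℝ, u ≤ b → b ≤ 93 / 100 → phiOne6 b ≤ c → v < c)
    (hsix : ∀ b c : ℝ, u ≤ b → b ≤ 4 / 5 → phiSix d b ≤ c → v < c)
    (hA : (2 / 3 - d) * v < 2) (hdv : d * v < 1 / 2) (hS : sideS6.Mem S')
    (hu : 800 / 1000 ≤ u) (hu1 : u < 930 / 1000) (hva : 2885 / 1000 ≤ v) (hvb : v < 4000 / 1000)
    (hd : 0 / 1000 ≤ d) (hd1 : d < 167 / 1000) :
    ∃ i j : ℕ, 0 < (sixTCond i j).val u v d S' := by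
  have hc : v < 3751 / 1000 := by linarith
  exact ⟨6730, 0, Ex.pos_of_checkQuick six_tail_800_930_2885_0
    (mem_thousandths (by push_cast; linarith) (by push_cast; linarith))
    (mem_thousandths (by push_cast; linarith) (by push_cast; linarith))
    (mem_thousandths (by push_cast; linarith) (by push_cast; linarith)) hS⟩

theorem six_tail_leaf3_22 {u v d S' : ℝ} (hv : 29 / 100 ≤ v) (hv1 : v ≤ 15 / 4)
    (hone : ∀ b c : ℝ, u ≤ b → b ≤ 93 / 100 → phiOne6 b ≤ c → v < c)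
    (hsix : ∀ b c : ℝ, u ≤ b → b ≤ 4 / 5 → phiSix d b ≤ c → v < c)
    (hA : (2 / 3 - d) * v < 2) (hdv : d * v < 1 / 2) (hS : sideS6.Mem S')
    (hu : 800 / 1000 ≤ u) (hu1 : u < 930 / 1000) (hva : 2020 / 1000 ≤ v) (hvb : v < 4000 / 1000)
    (hd : 167 / 1000 ≤ d) (hd1 : d < 334 / 1000) :
    ∃ i j : ℕ, 0 < (sixTCond i j).val u v d S' := by
  have hc : v < 2996 / 1000 := 
    lt_of_mul_dv (a := 167 / 1000) (by norm_num) (by norm_num) (by linarith) hv hdv
  exact ⟨7054, 0, Ex.pos_of_checkQuick six_tail_800_930_2020_167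
    (mem_thousandths (by push_cast; linarith) (by push_cast; linarith))
    (mem_thousandths (by push_cast; linarith) (by push_cast; linarith))
    (mem_thousandths (by push_cast; linarith) (by push_cast; linarith)) hS⟩

theorem six_tail_sign_3 {u v d S' : ℝ} (hu : 800 / 1000 ≤ u) (hu1 : u < 930 / 1000) (hv : 29 / 100 ≤ v) (hv1 : v ≤ 15 / 4)
    (hone : ∀ b c : ℝ, u ≤ b → b ≤ 93 / 100 → phiOne6 b ≤ c → v < c)
    (hsix : ∀ b c : ℝ, u ≤ b → b ≤ 4 / 5 → phiSix d b ≤ c → v < c)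
    (hA : (2 / 3 - d) * v < 2) (hdv : d * v < 1 / 2) (hd : 0 / 1000 ≤ d) (hd1 : d < 334 / 1000)
    (hS : sideS6.Mem S') : ∃ i j : ℕ, 0 < (sixTCond i j).val u v d S' := by
  have hva : 290 / 1000 ≤ v := by linarith
  have hvb : v < 4000 / 1000 := by linarith
  rcases lt_or_ge v (2020 / 1000) with g0 | g0
  · rcases lt_or_ge v (1155 / 1000) with g1 | g1
    · rcases lt_or_ge v (722 / 1000) with g2 | g2
      · exact six_tail_leaf3_0 hv hv1 hone hsix hA hdv hS hu hu1 hva g2 hd hd1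
      · rcases lt_or_ge d (167 / 1000) with g3 | g3
        · rcases lt_or_ge u (865 / 1000) with g4 | g4
          · rcases lt_or_ge d (83 / 1000) with g5 | g5
            · rcases lt_or_ge v (938 / 1000) with g6 | g6
              · rcases lt_or_ge v (830 / 1000) with g7 | g7
                · exact six_tail_leaf3_1 hv hv1 hone hsix hA hdv hS hu g4 g2 g7 hd g5
                · exact six_tail_leaf3_2 hv hv1 hone hsix hA hdv hS hu g4 g7 g6 hd g5
              · exact six_tail_leaf3_3 hv hv1 hone hsix hA hdv hS hu g4 g6 g1 hd g5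
            · rcases lt_or_ge v (938 / 1000) with g8 | g8
              · rcases lt_or_ge v (830 / 1000) with g9 | g9
                · rcases lt_or_ge v (776 / 1000) with g10 | g10
                  · exact six_tail_leaf3_4 hv hv1 hone hsix hA hdv hS hu g4 g2 g10 g5 g3
                  · rcases lt_or_ge v (803 / 1000) with g11 | g11
                    · exact six_tail_leaf3_5 hv hv1 hone hsix hA hdv hS hu g4 g10 g11 g5 g3
                    · rcases lt_or_ge d (125 / 1000) with g12 | g12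
                      · rcases lt_or_ge u (832 / 1000) with g13 | g13
                        · rcases lt_or_ge d (104 / 1000) with g14 | g14
                          · exact six_tail_leaf3_6 hv hv1 hone hsix hA hdv hS hu g13 g11 g9 g5 g14
                          · exact six_tail_leaf3_7 hv hv1 hone hsix hA hdv hS hu g13 g11 g9 g14 g12
                        · exact six_tail_leaf3_8 hv hv1 hone hsix hA hdv hS g13 g4 g11 g9 g5 g12
                      · exact six_tail_leaf3_9 hv hv1 hone hsix hA hdv hS hu g4 g11 g9 g12 g3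
                · exact six_tail_leaf3_10 hv hv1 hone hsix hA hdv hS hu g4 g9 g8 g5 g3
              · exact six_tail_leaf3_11 hv hv1 hone hsix hA hdv hS hu g4 g8 g1 g5 g3
          · rcases lt_or_ge v (938 / 1000) with g15 | g15
            · exact six_tail_leaf3_12 hv hv1 hone hsix hA hdv hS g4 hu1 g2 g15 hd g3
            · exact six_tail_leaf3_13 hv hv1 hone hsix hA hdv hS g4 hu1 g15 g1 hd g3
        · exact six_tail_leaf3_14 hv hv1 hone hsix hA hdv hS hu hu1 g2 g1 g3 hd1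
    · rcases lt_or_ge d (167 / 1000) with g16 | g16
      · exact six_tail_leaf3_15 hv hv1 hone hsix hA hdv hS hu hu1 g1 g0 hd g16
      · rcases lt_or_ge v (1587 / 1000) with g17 | g17
        · rcases lt_or_ge v (1371 / 1000) with g18 | g18
          · exact six_tail_leaf3_16 hv hv1 hone hsix hA hdv hS hu hu1 g1 g18 g16 hd1
          · exact six_tail_leaf3_17 hv hv1 hone hsix hA hdv hS hu hu1 g18 g17 g16 hd1
        · rcases lt_or_ge d (250 / 1000) with g19 | g19
          · exact six_tail_leaf3_18 hv hv1 hone hsix hA hdv hS hu hu1 g17 g0 g16 g19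
          · exact six_tail_leaf3_19 hv hv1 hone hsix hA hdv hS hu hu1 g17 g0 g19 hd1
  · rcases lt_or_ge d (167 / 1000) with g20 | g20
    · rcases lt_or_ge v (2885 / 1000) with g21 | g21
      · exact six_tail_leaf3_20 hv hv1 hone hsix hA hdv hS hu hu1 g0 g21 hd g20
      · exact six_tail_leaf3_21 hv hv1 hone hsix hA hdv hS hu hu1 g21 hvb hd g20
    · exact six_tail_leaf3_22 hv hv1 hone hsix hA hdv hS hu hu1 g0 hvb g20 hd1

theorem six_tail_leaf4_0 {u v d S' : ℝ} (hv : 29 / 100 ≤ v) (hv1 : v ≤ 15 / 4)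
    (hone : ∀ b c : ℝ, u ≤ b → b ≤ 93 / 100 → phiOne6 b ≤ c → v < c)
    (hsix : ∀ b c : ℝ, u ≤ b → b ≤ 4 / 5 → phiSix d b ≤ c → v < c)
    (hA : (2 / 3 - d) * v < 2) (hdv : d * v < 1 / 2) (hS : sideS6.Mem S')
    (hu : 930 / 1000 ≤ u) (hu1 : u < 976 / 1000) (hva : 290 / 1000 ≤ v) (hvb : v < 1155 / 1000)
    (hd : 0 / 1000 ≤ d) (hd1 : d < 167 / 1000) :
    ∃ i j : ℕ, 0 < (sixTCond i j).val u v d S' := by
  exact ⟨0, 1355, Ex.pos_of_checkQuick six_tail_930_976_290_0
    (mem_thousandths (by push_cast; linarith) (by push_cast; linarith))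
    (mem_thousandths (by push_cast; linarith) (by push_cast; linarith))
    (mem_thousandths (by push_cast; linarith) (by push_cast; linarith)) hS⟩

theorem six_tail_leaf4_1 {u v d S' : ℝ} (hv : 29 / 100 ≤ v) (hv1 : v ≤ 15 / 4)
    (hone : ∀ b c : ℝ, u ≤ b → b ≤ 93 / 100 → phiOne6 b ≤ c → v < c)
    (hsix : ∀ b c : ℝ, u ≤ b → b ≤ 4 / 5 → phiSix d b ≤ c → v < c)
    (hA : (2 / 3 - d) * v < 2) (hdv : d * v < 1 / 2) (hS : sideS6.Mem S')
    (hu : 930 / 1000 ≤ u) (hu1 : u < 976 / 1000) (hva : 1155 / 1000 ≤ v) (hvb : v < 1587 / 1000)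
    (hd : 0 / 1000 ≤ d) (hd1 : d < 83 / 1000) :
    ∃ i j : ℕ, 0 < (sixTCond i j).val u v d S' := by
  exact ⟨0, 867, Ex.pos_of_checkQuick six_tail_930_976_1155_0
    (mem_thousandths (by push_cast; linarith) (by push_cast; linarith))
    (mem_thousandths (by push_cast; linarith) (by push_cast; linarith))
    (mem_thousandths (by push_cast; linarith) (by push_cast; linarith)) hS⟩

theorem six_tail_leaf4_2 {u v d S' : ℝ} (hv : 29 / 100 ≤ v) (hv1 : v ≤ 15 / 4)
    (hone : ∀ b c : ℝ, u ≤ b → b ≤ 93 / 100 → phiOne6 b ≤ c → v < c)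
    (hsix : ∀ b c : ℝ, u ≤ b → b ≤ 4 / 5 → phiSix d b ≤ c → v < c)
    (hA : (2 / 3 - d) * v < 2) (hdv : d * v < 1 / 2) (hS : sideS6.Mem S')
    (hu : 930 / 1000 ≤ u) (hu1 : u < 976 / 1000) (hva : 1587 / 1000 ≤ v) (hvb : v < 2020 / 1000)
    (hd : 0 / 1000 ≤ d) (hd1 : d < 83 / 1000) :
    ∃ i j : ℕ, 0 < (sixTCond i j).val u v d S' := by
  exact ⟨0, 0, Ex.pos_of_checkQuick six_tail_930_976_1587_0
    (mem_thousandths (by push_cast; linarith) (by push_cast; linarith))
    (mem_thousandths (by push_cast; linarith) (by push_cast; linarith))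
    (mem_thousandths (by push_cast; linarith) (by push_cast; linarith)) hS⟩

theorem six_tail_leaf4_3 {u v d S' : ℝ} (hv : 29 / 100 ≤ v) (hv1 : v ≤ 15 / 4)
    (hone : ∀ b c : ℝ, u ≤ b → b ≤ 93 / 100 → phiOne6 b ≤ c → v < c)
    (hsix : ∀ b c : ℝ, u ≤ b → b ≤ 4 / 5 → phiSix d b ≤ c → v < c)
    (hA : (2 / 3 - d) * v < 2) (hdv : d * v < 1 / 2) (hS : sideS6.Mem S')
    (hu : 930 / 1000 ≤ u) (hu1 : u < 976 / 1000) (hva : 1155 / 1000 ≤ v) (hvb : v < 2020 / 1000)
    (hd : 83 / 1000 ≤ d) (hd1 : d < 167 / 1000) :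
    ∃ i j : ℕ, 0 < (sixTCond i j).val u v d S' := by
  exact ⟨0, 0, Ex.pos_of_checkQuick six_tail_930_976_1155_83
    (mem_thousandths (by push_cast; linarith) (by push_cast; linarith))
    (mem_thousandths (by push_cast; linarith) (by push_cast; linarith))
    (mem_thousandths (by push_cast; linarith) (by push_cast; linarith)) hS⟩

theorem six_tail_leaf4_4 {u v d S' : ℝ} (hv : 29 / 100 ≤ v) (hv1 : v ≤ 15 / 4)
    (hone : ∀ b c : ℝ, u ≤ b → b ≤ 93 / 100 → phiOne6 b ≤ c → v < c)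
    (hsix : ∀ b c : ℝ, u ≤ b → b ≤ 4 / 5 → phiSix d b ≤ c → v < c)
    (hA : (2 / 3 - d) * v < 2) (hdv : d * v < 1 / 2) (hS : sideS6.Mem S')
    (hu : 930 / 1000 ≤ u) (hu1 : u < 976 / 1000) (hva : 2020 / 1000 ≤ v) (hvb : v < 2885 / 1000)
    (hd : 0 / 1000 ≤ d) (hd1 : d < 167 / 1000) :
    ∃ i j : ℕ, 0 < (sixTCond i j).val u v d S' := by
  exact ⟨1549, 0, Ex.pos_of_checkQuick six_tail_930_976_2020_0
    (mem_thousandths (by push_cast; linarith) (by push_cast; linarith))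
    (mem_thousandths (by push_cast; linarith) (by push_cast; linarith))
    (mem_thousandths (by push_cast; linarith) (by push_cast; linarith)) hS⟩

theorem six_tail_leaf4_5 {u v d S' : ℝ} (hv : 29 / 100 ≤ v) (hv1 : v ≤ 15 / 4)
    (hone : ∀ b c : ℝ, u ≤ b → b ≤ 93 / 100 → phiOne6 b ≤ c → v < c)
    (hsix : ∀ b c : ℝ, u ≤ b → b ≤ 4 / 5 → phiSix d b ≤ c → v < c)
    (hA : (2 / 3 - d) * v < 2) (hdv : d * v < 1 / 2) (hS : sideS6.Mem S')
    (hu : 930 / 1000 ≤ u) (hu1 : u < 976 / 1000) (hva : 2885 / 1000 ≤ v) (hvb : v < 4000 / 1000)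
    (hd : 0 / 1000 ≤ d) (hd1 : d < 167 / 1000) :
    ∃ i j : ℕ, 0 < (sixTCond i j).val u v d S' := by
  have hc : v < 3751 / 1000 := by linarith
  exact ⟨19894, 0, Ex.pos_of_checkQuick six_tail_930_976_2885_0
    (mem_thousandths (by push_cast; linarith) (by push_cast; linarith))
    (mem_thousandths (by push_cast; linarith) (by push_cast; linarith))
    (mem_thousandths (by push_cast; linarith) (by push_cast; linarith)) hS⟩

theorem six_tail_sign_4 {u v d S' : ℝ} (hu : 930 / 1000 ≤ u) (hu1 : u < 976 / 1000) (hv : 29 / 100 ≤ v) (hv1 : v ≤ 15 / 4)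
    (hone : ∀ b c : ℝ, u ≤ b → b ≤ 93 / 100 → phiOne6 b ≤ c → v < c)
    (hsix : ∀ b c : ℝ, u ≤ b → b ≤ 4 / 5 → phiSix d b ≤ c → v < c)
    (hA : (2 / 3 - d) * v < 2) (hdv : d * v < 1 / 2) (hd : 0 / 1000 ≤ d) (hd1 : d < 167 / 1000)
    (hS : sideS6.Mem S') : ∃ i j : ℕ, 0 < (sixTCond i j).val u v d S' := by
  have hva : 290 / 1000 ≤ v := by linarith
  have hvb : v < 4000 / 1000 := by linarith
  rcases lt_or_ge v (2020 / 1000) with g0 | g0
  · rcases lt_or_ge v (1155 / 1000) with g1 | g1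
    · exact six_tail_leaf4_0 hv hv1 hone hsix hA hdv hS hu hu1 hva g1 hd hd1
    · rcases lt_or_ge d (83 / 1000) with g2 | g2
      · rcases lt_or_ge v (1587 / 1000) with g3 | g3
        · exact six_tail_leaf4_1 hv hv1 hone hsix hA hdv hS hu hu1 g1 g3 hd g2
        · exact six_tail_leaf4_2 hv hv1 hone hsix hA hdv hS hu hu1 g3 g0 hd g2
      · exact six_tail_leaf4_3 hv hv1 hone hsix hA hdv hS hu hu1 g1 g0 g2 hd1
  · rcases lt_or_ge v (2885 / 1000) with g4 | g4
    · exact six_tail_leaf4_4 hv hv1 hone hsix hA hdv hS hu hu1 g0 g4 hd hd1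
    · exact six_tail_leaf4_5 hv hv1 hone hsix hA hdv hS hu hu1 g4 hvb hd hd1

theorem six_tail_leaf5_0 {u v d S' : ℝ} (hv : 29 / 100 ≤ v) (hv1 : v ≤ 15 / 4)
    (hone : ∀ b c : ℝ, u ≤ b → b ≤ 93 / 100 → phiOne6 b ≤ c → v < c)
    (hsix : ∀ b c : ℝ, u ≤ b → b ≤ 4 / 5 → phiSix d b ≤ c → v < c)
    (hA : (2 / 3 - d) * v < 2) (hdv : d * v < 1 / 2) (hS : sideS6.Mem S')
    (hu : 930 / 1000 ≤ u) (hu1 : u < 976 / 1000) (hva : 290 / 1000 ≤ v) (hvb : v < 966 / 1000)
    (hd : 167 / 1000 ≤ d) (hd1 : d < 334 / 1000) :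
    ∃ i j : ℕ, 0 < (sixTCond i j).val u v d S' := by
  exact ⟨0, 182, Ex.pos_of_checkQuick six_tail_930_976_290_167
    (mem_thousandths (by push_cast; linarith) (by push_cast; linarith))
    (mem_thousandths (by push_cast; linarith) (by push_cast; linarith))
    (mem_thousandths (by push_cast; linarith) (by push_cast; linarith)) hS⟩

theorem six_tail_leaf5_1 {u v d S' : ℝ} (hv : 29 / 100 ≤ v) (hv1 : v ≤ 15 / 4)
    (hone : ∀ b c : ℝ, u ≤ b → b ≤ 93 / 100 → phiOne6 b ≤ c → v < c)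
    (hsix : ∀ b c : ℝ, u ≤ b → b ≤ 4 / 5 → phiSix d b ≤ c → v < c)
    (hA : (2 / 3 - d) * v < 2) (hdv : d * v < 1 / 2) (hS : sideS6.Mem S')
    (hu : 930 / 1000 ≤ u) (hu1 : u < 976 / 1000) (hva : 966 / 1000 ≤ v) (hvb : v < 1304 / 1000)
    (hd : 167 / 1000 ≤ d) (hd1 : d < 334 / 1000) :
    ∃ i j : ℕ, 0 < (sixTCond i j).val u v d S' := by
  exact ⟨0, 0, Ex.pos_of_checkQuick six_tail_930_976_966_167
    (mem_thousandths (by push_cast; linarith) (by push_cast; linarith))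
    (mem_thousandths (by push_cast; linarith) (by push_cast; linarith))
    (mem_thousandths (by push_cast; linarith) (by push_cast; linarith)) hS⟩

theorem six_tail_leaf5_2 {u v d S' : ℝ} (hv : 29 / 100 ≤ v) (hv1 : v ≤ 15 / 4)
    (hone : ∀ b c : ℝ, u ≤ b → b ≤ 93 / 100 → phiOne6 b ≤ c → v < c)
    (hsix : ∀ b c : ℝ, u ≤ b → b ≤ 4 / 5 → phiSix d b ≤ c → v < c)
    (hA : (2 / 3 - d) * v < 2) (hdv : d * v < 1 / 2) (hS : sideS6.Mem S')
    (hu : 930 / 1000 ≤ u) (hu1 : u < 976 / 1000) (hva : 1304 / 1000 ≤ v) (hvb : v < 1643 / 1000)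
    (hd : 167 / 1000 ≤ d) (hd1 : d < 334 / 1000) :
    ∃ i j : ℕ, 0 < (sixTCond i j).val u v d S' := by
  exact ⟨2679, 0, Ex.pos_of_checkQuick six_tail_930_976_1304_167
    (mem_thousandths (by push_cast; linarith) (by push_cast; linarith))
    (mem_thousandths (by push_cast; linarith) (by push_cast; linarith))
    (mem_thousandths (by push_cast; linarith) (by push_cast; linarith)) hS⟩

theorem six_tail_leaf5_3 {u v d S' : ℝ} (hv : 29 / 100 ≤ v) (hv1 : v ≤ 15 / 4)
    (hone : ∀ b c : ℝ, u ≤ b → b ≤ 93 / 100 → phiOne6 b ≤ c → v < c)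
    (hsix : ∀ b c : ℝ, u ≤ b → b ≤ 4 / 5 → phiSix d b ≤ c → v < c)
    (hA : (2 / 3 - d) * v < 2) (hdv : d * v < 1 / 2) (hS : sideS6.Mem S')
    (hu : 930 / 1000 ≤ u) (hu1 : u < 976 / 1000) (hva : 1643 / 1000 ≤ v) (hvb : v < 4000 / 1000)
    (hd : 167 / 1000 ≤ d) (hd1 : d < 177 / 1000) :
    ∃ i j : ℕ, 0 < (sixTCond i j).val u v d S' := by
  have hc : v < 2996 / 1000 := 
    lt_of_mul_dv (a := 167 / 1000) (by norm_num) (by norm_num) (by linarith) hv hdv
  exact ⟨7083, 0, Ex.pos_of_checkQuick six_tail_930_976_1643_167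
    (mem_thousandths (by push_cast; linarith) (by push_cast; linarith))
    (mem_thousandths (by push_cast; linarith) (by push_cast; linarith))
    (mem_thousandths (by push_cast; linarith) (by push_cast; linarith)) hS⟩

theorem six_tail_leaf5_4 {u v d S' : ℝ} (hv : 29 / 100 ≤ v) (hv1 : v ≤ 15 / 4)
    (hone : ∀ b c : ℝ, u ≤ b → b ≤ 93 / 100 → phiOne6 b ≤ c → v < c)
    (hsix : ∀ b c : ℝ, u ≤ b → b ≤ 4 / 5 → phiSix d b ≤ c → v < c)
    (hA : (2 / 3 - d) * v < 2) (hdv : d * v < 1 / 2) (hS : sideS6.Mem S')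
    (hu : 930 / 1000 ≤ u) (hu1 : u < 976 / 1000) (hva : 1643 / 1000 ≤ v) (hvb : v < 4000 / 1000)
    (hd : 177 / 1000 ≤ d) (hd1 : d < 187 / 1000) :
    ∃ i j : ℕ, 0 < (sixTCond i j).val u v d S' := by
  have hc : v < 2826 / 1000 := 
    lt_of_mul_dv (a := 177 / 1000) (by norm_num) (by norm_num) (by linarith) hv hdv
  exact ⟨6448, 0, Ex.pos_of_checkQuick six_tail_930_976_1643_177
    (mem_thousandths (by push_cast; linarith) (by push_cast; linarith))
    (mem_thousandths (by push_cast; linarith) (by push_cast; linarith))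
    (mem_thousandths (by push_cast; linarith) (by push_cast; linarith)) hS⟩

theorem six_tail_leaf5_5 {u v d S' : ℝ} (hv : 29 / 100 ≤ v) (hv1 : v ≤ 15 / 4)
    (hone : ∀ b c : ℝ, u ≤ b → b ≤ 93 / 100 → phiOne6 b ≤ c → v < c)
    (hsix : ∀ b c : ℝ, u ≤ b → b ≤ 4 / 5 → phiSix d b ≤ c → v < c)
    (hA : (2 / 3 - d) * v < 2) (hdv : d * v < 1 / 2) (hS : sideS6.Mem S')
    (hu : 930 / 1000 ≤ u) (hu1 : u < 976 / 1000) (hva : 1643 / 1000 ≤ v) (hvb : v < 4000 / 1000)
    (hd : 187 / 1000 ≤ d) (hd1 : d < 208 / 1000) :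
    ∃ i j : ℕ, 0 < (sixTCond i j).val u v d S' := by
  have hc : v < 2675 / 1000 := 
    lt_of_mul_dv (a := 187 / 1000) (by norm_num) (by norm_num) (by linarith) hv hdv
  exact ⟨7366, 0, Ex.pos_of_checkQuick six_tail_930_976_1643_187
    (mem_thousandths (by push_cast; linarith) (by push_cast; linarith))
    (mem_thousandths (by push_cast; linarith) (by push_cast; linarith))
    (mem_thousandths (by push_cast; linarith) (by push_cast; linarith)) hS⟩

theorem six_tail_leaf5_6 {u v d S' : ℝ} (hv : 29 / 100 ≤ v) (hv1 : v ≤ 15 / 4)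
    (hone : ∀ b c : ℝ, u ≤ b → b ≤ 93 / 100 → phiOne6 b ≤ c → v < c)
    (hsix : ∀ b c : ℝ, u ≤ b → b ≤ 4 / 5 → phiSix d b ≤ c → v < c)
    (hA : (2 / 3 - d) * v < 2) (hdv : d * v < 1 / 2) (hS : sideS6.Mem S')
    (hu : 930 / 1000 ≤ u) (hu1 : u < 976 / 1000) (hva : 1643 / 1000 ≤ v) (hvb : v < 4000 / 1000)
    (hd : 208 / 1000 ≤ d) (hd1 : d < 250 / 1000) :
    ∃ i j : ℕ, 0 < (sixTCond i j).val u v d S' := by
  have hc : v < 2405 / 1000 := 
    lt_of_mul_dv (a := 208 / 1000) (by norm_num) (by norm_num) (by linarith) hv hdv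
  exact ⟨6780, 0, Ex.pos_of_checkQuick six_tail_930_976_1643_208
    (mem_thousandths (by push_cast; linarith) (by push_cast; linarith))
    (mem_thousandths (by push_cast; linarith) (by push_cast; linarith))
    (mem_thousandths (by push_cast; linarith) (by push_cast; linarith)) hS⟩

theorem six_tail_leaf5_7 {u v d S' : ℝ} (hv : 29 / 100 ≤ v) (hv1 : v ≤ 15 / 4)
    (hone : ∀ b c : ℝ, u ≤ b → b ≤ 93 / 100 → phiOne6 b ≤ c → v < c)
    (hsix : ∀ b c : ℝ, u ≤ b → b ≤ 4 / 5 → phiSix d b ≤ c → v < c)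
    (hA : (2 / 3 - d) * v < 2) (hdv : d * v < 1 / 2) (hS : sideS6.Mem S')
    (hu : 930 / 1000 ≤ u) (hu1 : u < 976 / 1000) (hva : 1643 / 1000 ≤ v) (hvb : v < 4000 / 1000)
    (hd : 250 / 1000 ≤ d) (hd1 : d < 334 / 1000) :
    ∃ i j : ℕ, 0 < (sixTCond i j).val u v d S' := by
  have hc : v < 2001 / 1000 := 
    lt_of_mul_dv (a := 250 / 1000) (by norm_num) (by norm_num) (by linarith) hv hdv
  exact ⟨4520, 0, Ex.pos_of_checkQuick six_tail_930_976_1643_250
    (mem_thousandths (by push_cast; linarith) (by push_cast; linarith))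
    (mem_thousandths (by push_cast; linarith) (by push_cast; linarith))
    (mem_thousandths (by push_cast; linarith) (by push_cast; linarith)) hS⟩

theorem six_tail_sign_5 {u v d S' : ℝ} (hu : 930 / 1000 ≤ u) (hu1 : u < 976 / 1000) (hv : 29 / 100 ≤ v) (hv1 : v ≤ 15 / 4)
    (hone : ∀ b c : ℝ, u ≤ b → b ≤ 93 / 100 → phiOne6 b ≤ c → v < c)
    (hsix : ∀ b c : ℝ, u ≤ b → b ≤ 4 / 5 → phiSix d b ≤ c → v < c)
    (hA : (2 / 3 - d) * v < 2) (hdv : d * v < 1 / 2) (hd : 167 / 1000 ≤ d) (hd1 : d < 334 / 1000)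
    (hS : sideS6.Mem S') : ∃ i j : ℕ, 0 < (sixTCond i j).val u v d S' := by
  have hva : 290 / 1000 ≤ v := by linarith
  have hvb : v < 4000 / 1000 := by linarith
  rcases lt_or_ge v (1643 / 1000) with g0 | g0
  · rcases lt_or_ge v (966 / 1000) with g1 | g1
    · exact six_tail_leaf5_0 hv hv1 hone hsix hA hdv hS hu hu1 hva g1 hd hd1
    · rcases lt_or_ge v (1304 / 1000) with g2 | g2
      · exact six_tail_leaf5_1 hv hv1 hone hsix hA hdv hS hu hu1 g1 g2 hd hd1
      · exact six_tail_leaf5_2 hv hv1 hone hsix hA hdv hS hu hu1 g2 g0 hd hd1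
  · rcases lt_or_ge d (250 / 1000) with g3 | g3
    · rcases lt_or_ge d (208 / 1000) with g4 | g4
      · rcases lt_or_ge d (187 / 1000) with g5 | g5
        · rcases lt_or_ge d (177 / 1000) with g6 | g6
          · exact six_tail_leaf5_3 hv hv1 hone hsix hA hdv hS hu hu1 g0 hvb hd g6
          · exact six_tail_leaf5_4 hv hv1 hone hsix hA hdv hS hu hu1 g0 hvb g6 g5
        · exact six_tail_leaf5_5 hv hv1 hone hsix hA hdv hS hu hu1 g0 hvb g5 g4
      · exact six_tail_leaf5_6 hv hv1 hone hsix hA hdv hS hu hu1 g0 hvb g4 g3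
    · exact six_tail_leaf5_7 hv hv1 hone hsix hA hdv hS hu hu1 g0 hvb g3 hd1

theorem six_const_leaf6_0 {u v d S' : ℝ} (hv : 29 / 100 ≤ v) (hv1 : v ≤ 15 / 4)
    (hA : (2 / 3 - d) * v < 2) (hdv : d * v < 1 / 2) (hS : sideS6.Mem S')
    (hu : 975 / 1000 ≤ u) (hu1 : u < 988 / 1000) (hva : 290 / 1000 ≤ v) (hvb : v < 2020 / 1000)
    (hd : 0 / 1000 ≤ d) (hd1 : d < 167 / 1000) :
    ∃ i j : ℕ, 0 < (sixECond i j).val u v d S' := by
  exact ⟨0, 0, Ex.pos_of_checkQuick six_const_975_988_290_0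
    (mem_thousandths (by push_cast; linarith) (by push_cast; linarith))
    (mem_thousandths (by push_cast; linarith) (by push_cast; linarith))
    (mem_thousandths (by push_cast; linarith) (by push_cast; linarith)) hS⟩

theorem six_const_leaf6_1 {u v d S' : ℝ} (hv : 29 / 100 ≤ v) (hv1 : v ≤ 15 / 4)
    (hA : (2 / 3 - d) * v < 2) (hdv : d * v < 1 / 2) (hS : sideS6.Mem S')
    (hu : 975 / 1000 ≤ u) (hu1 : u < 988 / 1000) (hva : 2020 / 1000 ≤ v) (hvb : v < 2885 / 1000)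
    (hd : 0 / 1000 ≤ d) (hd1 : d < 167 / 1000) :
    ∃ i j : ℕ, 0 < (sixECond i j).val u v d S' := by
  exact ⟨0, 0, Ex.pos_of_checkQuick six_const_975_988_2020_0
    (mem_thousandths (by push_cast; linarith) (by push_cast; linarith))
    (mem_thousandths (by push_cast; linarith) (by push_cast; linarith))
    (mem_thousandths (by push_cast; linarith) (by push_cast; linarith)) hS⟩

theorem six_const_leaf6_2 {u v d S' : ℝ} (hv : 29 / 100 ≤ v) (hv1 : v ≤ 15 / 4)
    (hA : (2 / 3 - d) * v < 2) (hdv : d * v < 1 / 2) (hS : sideS6.Mem S')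
    (hu : 975 / 1000 ≤ u) (hu1 : u < 988 / 1000) (hva : 2885 / 1000 ≤ v) (hvb : v < 4000 / 1000)
    (hd : 0 / 1000 ≤ d) (hd1 : d < 167 / 1000) :
    ∃ i j : ℕ, 0 < (sixECond i j).val u v d S' := by
  have hc : v < 3751 / 1000 := by linarith
  exact ⟨26892, 0, Ex.pos_of_checkQuick six_const_975_988_2885_0
    (mem_thousandths (by push_cast; linarith) (by push_cast; linarith))
    (mem_thousandths (by push_cast; linarith) (by push_cast; linarith))
    (mem_thousandths (by push_cast; linarith) (by push_cast; linarith)) hS⟩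

theorem six_const_leaf6_3 {u v d S' : ℝ} (hv : 29 / 100 ≤ v) (hv1 : v ≤ 15 / 4)
    (hA : (2 / 3 - d) * v < 2) (hdv : d * v < 1 / 2) (hS : sideS6.Mem S')
    (hu : 975 / 1000 ≤ u) (hu1 : u < 988 / 1000) (hva : 290 / 1000 ≤ v) (hvb : v < 1643 / 1000)
    (hd : 167 / 1000 ≤ d) (hd1 : d < 334 / 1000) :
    ∃ i j : ℕ, 0 < (sixECond i j).val u v d S' := by
  exact ⟨0, 0, Ex.pos_of_checkQuick six_const_975_988_290_167
    (mem_thousandths (by push_cast; linarith) (by push_cast; linarith))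
    (mem_thousandths (by push_cast; linarith) (by push_cast; linarith))
    (mem_thousandths (by push_cast; linarith) (by push_cast; linarith)) hS⟩

theorem six_const_leaf6_4 {u v d S' : ℝ} (hv : 29 / 100 ≤ v) (hv1 : v ≤ 15 / 4)
    (hA : (2 / 3 - d) * v < 2) (hdv : d * v < 1 / 2) (hS : sideS6.Mem S')
    (hu : 975 / 1000 ≤ u) (hu1 : u < 988 / 1000) (hva : 1643 / 1000 ≤ v) (hvb : v < 4000 / 1000)
    (hd : 167 / 1000 ≤ d) (hd1 : d < 187 / 1000) :
    ∃ i j : ℕ, 0 < (sixECond i j).val u v d S' := by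
  have hc : v < 2996 / 1000 := 
    lt_of_mul_dv (a := 167 / 1000) (by norm_num) (by norm_num) (by linarith) hv hdv
  exact ⟨6022, 0, Ex.pos_of_checkQuick six_const_975_988_1643_167
    (mem_thousandths (by push_cast; linarith) (by push_cast; linarith))
    (mem_thousandths (by push_cast; linarith) (by push_cast; linarith))
    (mem_thousandths (by push_cast; linarith) (by push_cast; linarith)) hS⟩

theorem six_const_leaf6_5 {u v d S' : ℝ} (hv : 29 / 100 ≤ v) (hv1 : v ≤ 15 / 4)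
    (hA : (2 / 3 - d) * v < 2) (hdv : d * v < 1 / 2) (hS : sideS6.Mem S')
    (hu : 975 / 1000 ≤ u) (hu1 : u < 988 / 1000) (hva : 1643 / 1000 ≤ v) (hvb : v < 4000 / 1000)
    (hd : 187 / 1000 ≤ d) (hd1 : d < 208 / 1000) :
    ∃ i j : ℕ, 0 < (sixECond i j).val u v d S' := by
  have hc : v < 2675 / 1000 := 
    lt_of_mul_dv (a := 187 / 1000) (by norm_num) (by norm_num) (by linarith) hv hdv
  exact ⟨3539, 0, Ex.pos_of_checkQuick six_const_975_988_1643_187
    (mem_thousandths (by push_cast; linarith) (by push_cast; linarith))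
    (mem_thousandths (by push_cast; linarith) (by push_cast; linarith))
    (mem_thousandths (by push_cast; linarith) (by push_cast; linarith)) hS⟩

theorem six_const_leaf6_6 {u v d S' : ℝ} (hv : 29 / 100 ≤ v) (hv1 : v ≤ 15 / 4)
    (hA : (2 / 3 - d) * v < 2) (hdv : d * v < 1 / 2) (hS : sideS6.Mem S')
    (hu : 975 / 1000 ≤ u) (hu1 : u < 988 / 1000) (hva : 1643 / 1000 ≤ v) (hvb : v < 4000 / 1000)
    (hd : 208 / 1000 ≤ d) (hd1 : d < 250 / 1000) :
    ∃ i j : ℕ, 0 < (sixECond i j).val u v d S' := by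
  have hc : v < 2405 / 1000 := 
    lt_of_mul_dv (a := 208 / 1000) (by norm_num) (by norm_num) (by linarith) hv hdv
  exact ⟨6169, 0, Ex.pos_of_checkQuick six_const_975_988_1643_208
    (mem_thousandths (by push_cast; linarith) (by push_cast; linarith))
    (mem_thousandths (by push_cast; linarith) (by push_cast; linarith))
    (mem_thousandths (by push_cast; linarith) (by push_cast; linarith)) hS⟩

theorem six_const_leaf6_7 {u v d S' : ℝ} (hv : 29 / 100 ≤ v) (hv1 : v ≤ 15 / 4)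
    (hA : (2 / 3 - d) * v < 2) (hdv : d * v < 1 / 2) (hS : sideS6.Mem S')
    (hu : 975 / 1000 ≤ u) (hu1 : u < 988 / 1000) (hva : 1643 / 1000 ≤ v) (hvb : v < 4000 / 1000)
    (hd : 250 / 1000 ≤ d) (hd1 : d < 334 / 1000) :
    ∃ i j : ℕ, 0 < (sixECond i j).val u v d S' := by
  have hc : v < 2001 / 1000 := 
    lt_of_mul_dv (a := 250 / 1000) (by norm_num) (by norm_num) (by linarith) hv hdv
  exact ⟨4475, 0, Ex.pos_of_checkQuick six_const_975_988_1643_250
    (mem_thousandths (by push_cast; linarith) (by push_cast; linarith))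
    (mem_thousandths (by push_cast; linarith) (by push_cast; linarith))
    (mem_thousandths (by push_cast; linarith) (by push_cast; linarith)) hS⟩

theorem six_const_leaf6_8 {u v d S' : ℝ} (hv : 29 / 100 ≤ v) (hv1 : v ≤ 15 / 4)
    (hA : (2 / 3 - d) * v < 2) (hdv : d * v < 1 / 2) (hS : sideS6.Mem S')
    (hu : 988 / 1000 ≤ u) (hu1 : u < 1001 / 1000) (hva : 290 / 1000 ≤ v) (hvb : v < 2020 / 1000)
    (hd : 0 / 1000 ≤ d) (hd1 : d < 167 / 1000) :
    ∃ i j : ℕ, 0 < (sixECond i j).val u v d S' := by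
  exact ⟨0, 0, Ex.pos_of_checkQuick six_const_988_1001_290_0
    (mem_thousandths (by push_cast; linarith) (by push_cast; linarith))
    (mem_thousandths (by push_cast; linarith) (by push_cast; linarith))
    (mem_thousandths (by push_cast; linarith) (by push_cast; linarith)) hS⟩

theorem six_const_leaf6_9 {u v d S' : ℝ} (hv : 29 / 100 ≤ v) (hv1 : v ≤ 15 / 4)
    (hA : (2 / 3 - d) * v < 2) (hdv : d * v < 1 / 2) (hS : sideS6.Mem S')
    (hu : 988 / 1000 ≤ u) (hu1 : u < 1001 / 1000) (hva : 2020 / 1000 ≤ v) (hvb : v < 2885 / 1000)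
    (hd : 0 / 1000 ≤ d) (hd1 : d < 167 / 1000) :
    ∃ i j : ℕ, 0 < (sixECond i j).val u v d S' := by
  exact ⟨0, 0, Ex.pos_of_checkQuick six_const_988_1001_2020_0
    (mem_thousandths (by push_cast; linarith) (by push_cast; linarith))
    (mem_thousandths (by push_cast; linarith) (by push_cast; linarith))
    (mem_thousandths (by push_cast; linarith) (by push_cast; linarith)) hS⟩

theorem six_const_leaf6_10 {u v d S' : ℝ} (hv : 29 / 100 ≤ v) (hv1 : v ≤ 15 / 4)
    (hA : (2 / 3 - d) * v < 2) (hdv : d * v < 1 / 2) (hS : sideS6.Mem S')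
    (hu : 988 / 1000 ≤ u) (hu1 : u < 1001 / 1000) (hva : 2885 / 1000 ≤ v) (hvb : v < 4000 / 1000)
    (hd : 0 / 1000 ≤ d) (hd1 : d < 83 / 1000) :
    ∃ i j : ℕ, 0 < (sixECond i j).val u v d S' := by
  have hc : v < 3429 / 1000 := by
    have := mul_le_mul_of_nonneg_right (show (2 : ℝ) / 3 - 83 / 1000 ≤ 2 / 3 - d by linarith)
      (show 0 ≤ v by linarith)
    linarith
  exact ⟨0, 0, Ex.pos_of_checkQuick six_const_988_1001_2885_0
    (mem_thousandths (by push_cast; linarith) (by push_cast; linarith))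
    (mem_thousandths (by push_cast; linarith) (by push_cast; linarith))
    (mem_thousandths (by push_cast; linarith) (by push_cast; linarith)) hS⟩

theorem six_const_leaf6_11 {u v d S' : ℝ} (hv : 29 / 100 ≤ v) (hv1 : v ≤ 15 / 4)
    (hA : (2 / 3 - d) * v < 2) (hdv : d * v < 1 / 2) (hS : sideS6.Mem S')
    (hu : 988 / 1000 ≤ u) (hu1 : u < 1001 / 1000) (hva : 2885 / 1000 ≤ v) (hvb : v < 4000 / 1000)
    (hd : 83 / 1000 ≤ d) (hd1 : d < 125 / 1000) :
    ∃ i j : ℕ, 0 < (sixECond i j).val u v d S' := by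
  have hc : v < 3695 / 1000 := by
    have := mul_le_mul_of_nonneg_right (show (2 : ℝ) / 3 - 125 / 1000 ≤ 2 / 3 - d by linarith)
      (show 0 ≤ v by linarith)
    linarith
  exact ⟨0, 0, Ex.pos_of_checkQuick six_const_988_1001_2885_83
    (mem_thousandths (by push_cast; linarith) (by push_cast; linarith))
    (mem_thousandths (by push_cast; linarith) (by push_cast; linarith))
    (mem_thousandths (by push_cast; linarith) (by push_cast; linarith)) hS⟩

theorem six_const_leaf6_12 {u v d S' : ℝ} (hv : 29 / 100 ≤ v) (hv1 : v ≤ 15 / 4)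
    (hA : (2 / 3 - d) * v < 2) (hdv : d * v < 1 / 2) (hS : sideS6.Mem S')
    (hu : 988 / 1000 ≤ u) (hu1 : u < 1001 / 1000) (hva : 2885 / 1000 ≤ v) (hvb : v < 4000 / 1000)
    (hd : 125 / 1000 ≤ d) (hd1 : d < 135 / 1000) :
    ∃ i j : ℕ, 0 < (sixECond i j).val u v d S' := by
  have hc : v < 3751 / 1000 := by linarith
  exact ⟨0, 0, Ex.pos_of_checkQuick six_const_988_1001_2885_125
    (mem_thousandths (by push_cast; linarith) (by push_cast; linarith))
    (mem_thousandths (by push_cast; linarith) (by push_cast; linarith))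
    (mem_thousandths (by push_cast; linarith) (by push_cast; linarith)) hS⟩

theorem six_const_leaf6_13 {u v d S' : ℝ} (hv : 29 / 100 ≤ v) (hv1 : v ≤ 15 / 4)
    (hA : (2 / 3 - d) * v < 2) (hdv : d * v < 1 / 2) (hS : sideS6.Mem S')
    (hu : 988 / 1000 ≤ u) (hu1 : u < 1001 / 1000) (hva : 2885 / 1000 ≤ v) (hvb : v < 4000 / 1000)
    (hd : 135 / 1000 ≤ d) (hd1 : d < 140 / 1000) :
    ∃ i j : ℕ, 0 < (sixECond i j).val u v d S' := by
  have hc : v < 3705 / 1000 := 
    lt_of_mul_dv (a := 135 / 1000) (by norm_num) (by norm_num) (by linarith) hv hdv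
  exact ⟨0, 0, Ex.pos_of_checkQuick six_const_988_1001_2885_135
    (mem_thousandths (by push_cast; linarith) (by push_cast; linarith))
    (mem_thousandths (by push_cast; linarith) (by push_cast; linarith))
    (mem_thousandths (by push_cast; linarith) (by push_cast; linarith)) hS⟩

theorem six_const_leaf6_14 {u v d S' : ℝ} (hv : 29 / 100 ≤ v) (hv1 : v ≤ 15 / 4)
    (hA : (2 / 3 - d) * v < 2) (hdv : d * v < 1 / 2) (hS : sideS6.Mem S')
    (hu : 988 / 1000 ≤ u) (hu1 : u < 1001 / 1000) (hva : 2885 / 1000 ≤ v) (hvb : v < 4000 / 1000)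
    (hd : 140 / 1000 ≤ d) (hd1 : d < 146 / 1000) :
    ∃ i j : ℕ, 0 < (sixECond i j).val u v d S' := by
  have hc : v < 3573 / 1000 := 
    lt_of_mul_dv (a := 140 / 1000) (by norm_num) (by norm_num) (by linarith) hv hdv
  exact ⟨0, 0, Ex.pos_of_checkQuick six_const_988_1001_2885_140
    (mem_thousandths (by push_cast; linarith) (by push_cast; linarith))
    (mem_thousandths (by push_cast; linarith) (by push_cast; linarith))
    (mem_thousandths (by push_cast; linarith) (by push_cast; linarith)) hS⟩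

theorem six_const_leaf6_15 {u v d S' : ℝ} (hv : 29 / 100 ≤ v) (hv1 : v ≤ 15 / 4)
    (hA : (2 / 3 - d) * v < 2) (hdv : d * v < 1 / 2) (hS : sideS6.Mem S')
    (hu : 988 / 1000 ≤ u) (hu1 : u < 1001 / 1000) (hva : 2885 / 1000 ≤ v) (hvb : v < 4000 / 1000)
    (hd : 146 / 1000 ≤ d) (hd1 : d < 156 / 1000) :
    ∃ i j : ℕ, 0 < (sixECond i j).val u v d S' := by
  have hc : v < 3426 / 1000 := 
    lt_of_mul_dv (a := 146 / 1000) (by norm_num) (by norm_num) (by linarith) hv hdv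
  exact ⟨0, 0, Ex.pos_of_checkQuick six_const_988_1001_2885_146
    (mem_thousandths (by push_cast; linarith) (by push_cast; linarith))
    (mem_thousandths (by push_cast; linarith) (by push_cast; linarith))
    (mem_thousandths (by push_cast; linarith) (by push_cast; linarith)) hS⟩

theorem six_const_leaf6_16 {u v d S' : ℝ} (hv : 29 / 100 ≤ v) (hv1 : v ≤ 15 / 4)
    (hA : (2 / 3 - d) * v < 2) (hdv : d * v < 1 / 2) (hS : sideS6.Mem S')
    (hu : 988 / 1000 ≤ u) (hu1 : u < 1001 / 1000) (hva : 2885 / 1000 ≤ v) (hvb : v < 4000 / 1000)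
    (hd : 156 / 1000 ≤ d) (hd1 : d < 167 / 1000) :
    ∃ i j : ℕ, 0 < (sixECond i j).val u v d S' := by
  have hc : v < 3207 / 1000 := 
    lt_of_mul_dv (a := 156 / 1000) (by norm_num) (by norm_num) (by linarith) hv hdv
  exact ⟨0, 0, Ex.pos_of_checkQuick six_const_988_1001_2885_156
    (mem_thousandths (by push_cast; linarith) (by push_cast; linarith))
    (mem_thousandths (by push_cast; linarith) (by push_cast; linarith))
    (mem_thousandths (by push_cast; linarith) (by push_cast; linarith)) hS⟩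

theorem six_const_leaf6_17 {u v d S' : ℝ} (hv : 29 / 100 ≤ v) (hv1 : v ≤ 15 / 4)
    (hA : (2 / 3 - d) * v < 2) (hdv : d * v < 1 / 2) (hS : sideS6.Mem S')
    (hu : 988 / 1000 ≤ u) (hu1 : u < 1001 / 1000) (hva : 290 / 1000 ≤ v) (hvb : v < 1643 / 1000)
    (hd : 167 / 1000 ≤ d) (hd1 : d < 250 / 1000) :
    ∃ i j : ℕ, 0 < (sixECond i j).val u v d S' := by
  exact ⟨0, 0, Ex.pos_of_checkQuick six_const_988_1001_290_167
    (mem_thousandths (by push_cast; linarith) (by push_cast; linarith))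
    (mem_thousandths (by push_cast; linarith) (by push_cast; linarith))
    (mem_thousandths (by push_cast; linarith) (by push_cast; linarith)) hS⟩

theorem six_const_leaf6_18 {u v d S' : ℝ} (hv : 29 / 100 ≤ v) (hv1 : v ≤ 15 / 4)
    (hA : (2 / 3 - d) * v < 2) (hdv : d * v < 1 / 2) (hS : sideS6.Mem S')
    (hu : 988 / 1000 ≤ u) (hu1 : u < 1001 / 1000) (hva : 1643 / 1000 ≤ v) (hvb : v < 4000 / 1000)
    (hd : 167 / 1000 ≤ d) (hd1 : d < 177 / 1000) :
    ∃ i j : ℕ, 0 < (sixECond i j).val u v d S' := by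
  have hc : v < 2996 / 1000 := 
    lt_of_mul_dv (a := 167 / 1000) (by norm_num) (by norm_num) (by linarith) hv hdv
  exact ⟨0, 0, Ex.pos_of_checkQuick six_const_988_1001_1643_167
    (mem_thousandths (by push_cast; linarith) (by push_cast; linarith))
    (mem_thousandths (by push_cast; linarith) (by push_cast; linarith))
    (mem_thousandths (by push_cast; linarith) (by push_cast; linarith)) hS⟩

theorem six_const_leaf6_19 {u v d S' : ℝ} (hv : 29 / 100 ≤ v) (hv1 : v ≤ 15 / 4)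
    (hA : (2 / 3 - d) * v < 2) (hdv : d * v < 1 / 2) (hS : sideS6.Mem S')
    (hu : 988 / 1000 ≤ u) (hu1 : u < 1001 / 1000) (hva : 1643 / 1000 ≤ v) (hvb : v < 4000 / 1000)
    (hd : 177 / 1000 ≤ d) (hd1 : d < 187 / 1000) :
    ∃ i j : ℕ, 0 < (sixECond i j).val u v d S' := by
  have hc : v < 2826 / 1000 := 
    lt_of_mul_dv (a := 177 / 1000) (by norm_num) (by norm_num) (by linarith) hv hdv
  exact ⟨0, 0, Ex.pos_of_checkQuick six_const_988_1001_1643_177
    (mem_thousandths (by push_cast; linarith) (by push_cast; linarith))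
    (mem_thousandths (by push_cast; linarith) (by push_cast; linarith))
    (mem_thousandths (by push_cast; linarith) (by push_cast; linarith)) hS⟩

theorem six_const_leaf6_20 {u v d S' : ℝ} (hv : 29 / 100 ≤ v) (hv1 : v ≤ 15 / 4)
    (hA : (2 / 3 - d) * v < 2) (hdv : d * v < 1 / 2) (hS : sideS6.Mem S')
    (hu : 988 / 1000 ≤ u) (hu1 : u < 1001 / 1000) (hva : 1643 / 1000 ≤ v) (hvb : v < 4000 / 1000)
    (hd : 187 / 1000 ≤ d) (hd1 : d < 208 / 1000) :
    ∃ i j : ℕ, 0 < (sixECond i j).val u v d S' := by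
  have hc : v < 2675 / 1000 := 
    lt_of_mul_dv (a := 187 / 1000) (by norm_num) (by norm_num) (by linarith) hv hdv
  exact ⟨9726, 355, Ex.pos_of_checkQuick six_const_988_1001_1643_187
    (mem_thousandths (by push_cast; linarith) (by push_cast; linarith))
    (mem_thousandths (by push_cast; linarith) (by push_cast; linarith))
    (mem_thousandths (by push_cast; linarith) (by push_cast; linarith)) hS⟩

theorem six_const_leaf6_21 {u v d S' : ℝ} (hv : 29 / 100 ≤ v) (hv1 : v ≤ 15 / 4)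
    (hA : (2 / 3 - d) * v < 2) (hdv : d * v < 1 / 2) (hS : sideS6.Mem S')
    (hu : 988 / 1000 ≤ u) (hu1 : u < 1001 / 1000) (hva : 1643 / 1000 ≤ v) (hvb : v < 4000 / 1000)
    (hd : 208 / 1000 ≤ d) (hd1 : d < 229 / 1000) :
    ∃ i j : ℕ, 0 < (sixECond i j).val u v d S' := by
  have hc : v < 2405 / 1000 := 
    lt_of_mul_dv (a := 208 / 1000) (by norm_num) (by norm_num) (by linarith) hv hdv
  exact ⟨2026, 0, Ex.pos_of_checkQuick six_const_988_1001_1643_208
    (mem_thousandths (by push_cast; linarith) (by push_cast; linarith))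
    (mem_thousandths (by push_cast; linarith) (by push_cast; linarith))
    (mem_thousandths (by push_cast; linarith) (by push_cast; linarith)) hS⟩

theorem six_const_leaf6_22 {u v d S' : ℝ} (hv : 29 / 100 ≤ v) (hv1 : v ≤ 15 / 4)
    (hA : (2 / 3 - d) * v < 2) (hdv : d * v < 1 / 2) (hS : sideS6.Mem S')
    (hu : 988 / 1000 ≤ u) (hu1 : u < 1001 / 1000) (hva : 1643 / 1000 ≤ v) (hvb : v < 4000 / 1000)
    (hd : 229 / 1000 ≤ d) (hd1 : d < 250 / 1000) :
    ∃ i j : ℕ, 0 < (sixECond i j).val u v d S' := by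
  have hc : v < 2185 / 1000 := 
    lt_of_mul_dv (a := 229 / 1000) (by norm_num) (by norm_num) (by linarith) hv hdv
  exact ⟨0, 0, Ex.pos_of_checkQuick six_const_988_1001_1643_229
    (mem_thousandths (by push_cast; linarith) (by push_cast; linarith))
    (mem_thousandths (by push_cast; linarith) (by push_cast; linarith))
    (mem_thousandths (by push_cast; linarith) (by push_cast; linarith)) hS⟩

theorem six_const_leaf6_23 {u v d S' : ℝ} (hv : 29 / 100 ≤ v) (hv1 : v ≤ 15 / 4)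
    (hA : (2 / 3 - d) * v < 2) (hdv : d * v < 1 / 2) (hS : sideS6.Mem S')
    (hu : 988 / 1000 ≤ u) (hu1 : u < 1001 / 1000) (hva : 290 / 1000 ≤ v) (hvb : v < 1145 / 1000)
    (hd : 250 / 1000 ≤ d) (hd1 : d < 292 / 1000) :
    ∃ i j : ℕ, 0 < (sixECond i j).val u v d S' := by
  exact ⟨0, 0, Ex.pos_of_checkQuick six_const_988_1001_290_250
    (mem_thousandths (by push_cast; linarith) (by push_cast; linarith))
    (mem_thousandths (by push_cast; linarith) (by push_cast; linarith))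
    (mem_thousandths (by push_cast; linarith) (by push_cast; linarith)) hS⟩

theorem six_const_leaf6_24 {u v d S' : ℝ} (hv : 29 / 100 ≤ v) (hv1 : v ≤ 15 / 4)
    (hA : (2 / 3 - d) * v < 2) (hdv : d * v < 1 / 2) (hS : sideS6.Mem S')
    (hu : 988 / 1000 ≤ u) (hu1 : u < 1001 / 1000) (hva : 1145 / 1000 ≤ v) (hvb : v < 4000 / 1000)
    (hd : 250 / 1000 ≤ d) (hd1 : d < 292 / 1000) :
    ∃ i j : ℕ, 0 < (sixECond i j).val u v d S' := by
  have hc : v < 2001 / 1000 := 
    lt_of_mul_dv (a := 250 / 1000) (by norm_num) (by norm_num) (by linarith) hv hdv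
  exact ⟨4570, 182, Ex.pos_of_checkQuick six_const_988_1001_1145_250
    (mem_thousandths (by push_cast; linarith) (by push_cast; linarith))
    (mem_thousandths (by push_cast; linarith) (by push_cast; linarith))
    (mem_thousandths (by push_cast; linarith) (by push_cast; linarith)) hS⟩

theorem six_const_leaf6_25 {u v d S' : ℝ} (hv : 29 / 100 ≤ v) (hv1 : v ≤ 15 / 4)
    (hA : (2 / 3 - d) * v < 2) (hdv : d * v < 1 / 2) (hS : sideS6.Mem S')
    (hu : 988 / 1000 ≤ u) (hu1 : u < 1001 / 1000) (hva : 290 / 1000 ≤ v) (hvb : v < 4000 / 1000)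
    (hd : 292 / 1000 ≤ d) (hd1 : d < 313 / 1000) :
    ∃ i j : ℕ, 0 < (sixECond i j).val u v d S' := by
  have hc : v < 1714 / 1000 := 
    lt_of_mul_dv (a := 292 / 1000) (by norm_num) (by norm_num) (by linarith) hv hdv
  exact ⟨0, 0, Ex.pos_of_checkQuick six_const_988_1001_290_292
    (mem_thousandths (by push_cast; linarith) (by push_cast; linarith))
    (mem_thousandths (by push_cast; linarith) (by push_cast; linarith))
    (mem_thousandths (by push_cast; linarith) (by push_cast; linarith)) hS⟩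

theorem six_const_leaf6_26 {u v d S' : ℝ} (hv : 29 / 100 ≤ v) (hv1 : v ≤ 15 / 4)
    (hA : (2 / 3 - d) * v < 2) (hdv : d * v < 1 / 2) (hS : sideS6.Mem S')
    (hu : 988 / 1000 ≤ u) (hu1 : u < 1001 / 1000) (hva : 290 / 1000 ≤ v) (hvb : v < 4000 / 1000)
    (hd : 313 / 1000 ≤ d) (hd1 : d < 334 / 1000) :
    ∃ i j : ℕ, 0 < (sixECond i j).val u v d S' := by
  have hc : v < 1599 / 1000 := 
    lt_of_mul_dv (a := 313 / 1000) (by norm_num) (by norm_num) (by linarith) hv hdv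
  exact ⟨0, 0, Ex.pos_of_checkQuick six_const_988_1001_290_313
    (mem_thousandths (by push_cast; linarith) (by push_cast; linarith))
    (mem_thousandths (by push_cast; linarith) (by push_cast; linarith))
    (mem_thousandths (by push_cast; linarith) (by push_cast; linarith)) hS⟩

theorem six_const_sign {u v d S' : ℝ} (hu : 975 / 1000 ≤ u) (hu1 : u < 1001 / 1000) (hv : 29 / 100 ≤ v) (hv1 : v ≤ 15 / 4)
    (hA : (2 / 3 - d) * v < 2) (hdv : d * v < 1 / 2) (hd : 0 / 1000 ≤ d) (hd1 : d < 334 / 1000)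
    (hS : sideS6.Mem S') : ∃ i j : ℕ, 0 < (sixECond i j).val u v d S' := by
  have hva : 290 / 1000 ≤ v := by linarith
  have hvb : v < 4000 / 1000 := by linarith
  rcases lt_or_ge u (988 / 1000) with g0 | g0
  · rcases lt_or_ge d (167 / 1000) with g1 | g1
    · rcases lt_or_ge v (2020 / 1000) with g2 | g2
      · exact six_const_leaf6_0 hv hv1 hA hdv hS hu g0 hva g2 hd g1
      · rcases lt_or_ge v (2885 / 1000) with g3 | g3
        · exact six_const_leaf6_1 hv hv1 hA hdv hS hu g0 g2 g3 hd g1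
        · exact six_const_leaf6_2 hv hv1 hA hdv hS hu g0 g3 hvb hd g1
    · rcases lt_or_ge v (1643 / 1000) with g4 | g4
      · exact six_const_leaf6_3 hv hv1 hA hdv hS hu g0 hva g4 g1 hd1
      · rcases lt_or_ge d (250 / 1000) with g5 | g5
        · rcases lt_or_ge d (208 / 1000) with g6 | g6
          · rcases lt_or_ge d (187 / 1000) with g7 | g7
            · exact six_const_leaf6_4 hv hv1 hA hdv hS hu g0 g4 hvb g1 g7
            · exact six_const_leaf6_5 hv hv1 hA hdv hS hu g0 g4 hvb g7 g6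
          · exact six_const_leaf6_6 hv hv1 hA hdv hS hu g0 g4 hvb g6 g5
        · exact six_const_leaf6_7 hv hv1 hA hdv hS hu g0 g4 hvb g5 hd1
  · rcases lt_or_ge d (167 / 1000) with g8 | g8
    · rcases lt_or_ge v (2020 / 1000) with g9 | g9
      · exact six_const_leaf6_8 hv hv1 hA hdv hS g0 hu1 hva g9 hd g8
      · rcases lt_or_ge v (2885 / 1000) with g10 | g10
        · exact six_const_leaf6_9 hv hv1 hA hdv hS g0 hu1 g9 g10 hd g8
        · rcases lt_or_ge d (83 / 1000) with g11 | g11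
          · exact six_const_leaf6_10 hv hv1 hA hdv hS g0 hu1 g10 hvb hd g11
          · rcases lt_or_ge d (125 / 1000) with g12 | g12
            · exact six_const_leaf6_11 hv hv1 hA hdv hS g0 hu1 g10 hvb g11 g12
            · rcases lt_or_ge d (146 / 1000) with g13 | g13
              · rcases lt_or_ge d (135 / 1000) with g14 | g14
                · exact six_const_leaf6_12 hv hv1 hA hdv hS g0 hu1 g10 hvb g12 g14
                · rcases lt_or_ge d (140 / 1000) with g15 | g15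
                  · exact six_const_leaf6_13 hv hv1 hA hdv hS g0 hu1 g10 hvb g14 g15
                  · exact six_const_leaf6_14 hv hv1 hA hdv hS g0 hu1 g10 hvb g15 g13
              · rcases lt_or_ge d (156 / 1000) with g16 | g16
                · exact six_const_leaf6_15 hv hv1 hA hdv hS g0 hu1 g10 hvb g13 g16
                · exact six_const_leaf6_16 hv hv1 hA hdv hS g0 hu1 g10 hvb g16 g8
    · rcases lt_or_ge d (250 / 1000) with g17 | g17
      · rcases lt_or_ge v (1643 / 1000) with g18 | g18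
        · exact six_const_leaf6_17 hv hv1 hA hdv hS g0 hu1 hva g18 g8 g17
        · rcases lt_or_ge d (208 / 1000) with g19 | g19
          · rcases lt_or_ge d (187 / 1000) with g20 | g20
            · rcases lt_or_ge d (177 / 1000) with g21 | g21
              · exact six_const_leaf6_18 hv hv1 hA hdv hS g0 hu1 g18 hvb g8 g21
              · exact six_const_leaf6_19 hv hv1 hA hdv hS g0 hu1 g18 hvb g21 g20
            · exact six_const_leaf6_20 hv hv1 hA hdv hS g0 hu1 g18 hvb g20 g19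
          · rcases lt_or_ge d (229 / 1000) with g22 | g22
            · exact six_const_leaf6_21 hv hv1 hA hdv hS g0 hu1 g18 hvb g19 g22
            · exact six_const_leaf6_22 hv hv1 hA hdv hS g0 hu1 g18 hvb g22 g17
      · rcases lt_or_ge d (292 / 1000) with g23 | g23
        · rcases lt_or_ge v (1145 / 1000) with g24 | g24
          · exact six_const_leaf6_23 hv hv1 hA hdv hS g0 hu1 hva g24 g17 g23
          · exact six_const_leaf6_24 hv hv1 hA hdv hS g0 hu1 g24 hvb g17 g23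
        · rcases lt_or_ge d (313 / 1000) with g25 | g25
          · exact six_const_leaf6_25 hv hv1 hA hdv hS g0 hu1 hva hvb g23 g25
          · exact six_const_leaf6_26 hv hv1 hA hdv hS g0 hu1 hva hvb g25 hd1

theorem six_tail_sign {u v d S' : ℝ} (hu : 3 / 10 ≤ u) (hu1 : u ≤ 39 / 40) (hv : 29 / 100 ≤ v)
    (hv1 : v ≤ 15 / 4) (hone : ∀ b c : ℝ, u ≤ b → b ≤ 93 / 100 → phiOne6 b ≤ c → v < c)
    (hsix : ∀ b c : ℝ, u ≤ b → b ≤ 4 / 5 → phiSix d b ≤ c → v < c)
    (hA : (2 / 3 - d) * v < 2) (hdv : d * v < 1 / 2) (hd : 0 ≤ d) (hd1 : d ≤ 1 / 3)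
    (hS : sideS6.Mem S') : ∃ i j : ℕ, 0 < (sixTCond i j).val u v d S' := by
  rcases lt_or_ge u (675 / 1000) with g | g
  · exact six_tail_sign_0 (by linarith) g hv hv1 hone hsix hA hdv (by linarith) (by linarith) hS
  rcases lt_or_ge u (800 / 1000) with g' | g'
  · rcases lt_or_ge d (250 / 1000) with g'' | g''
    · exact six_tail_sign_1 g g' hv hv1 hone hsix hA hdv (by linarith) g'' hS
    · exact six_tail_sign_2 g g' hv hv1 hone hsix hA hdv g'' (by linarith) hS
  rcases lt_or_ge u (930 / 1000) with g'' | g''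
  · exact six_tail_sign_3 g' g'' hv hv1 hone hsix hA hdv (by linarith) (by linarith) hS
  rcases lt_or_ge d (167 / 1000) with g3 | g3
  · exact six_tail_sign_4 g'' (by linarith) hv hv1 hone hsix hA hdv (by linarith) g3 hS
  · exact six_tail_sign_5 g'' (by linarith) hv hv1 hone hsix hA hdv g3 (by linarith) hS

/-- The pole of the lower band lies past `1`. -/
theorem one_lt_lowT_pole {d : ℝ} (hd : 0 ≤ d) (hd1 : d ≤ 1 / 3) :
    1 < 10267 / 10000 + 13438 / 10000 * d - 3410 / 10000 * d ^ 2 := by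
  nlinarith [mul_nonneg hd (sub_nonneg.2 hd1)]

theorem six_tail_val (u v d S' : ℝ) :
    sixTN.val u v d S' = quadN (8901 / 10000 - 464838 / 10000 * d + 1309812 / 10000 * d ^ 2)
        (18602 / 10000 + 932514 / 10000 * d - 2850123 / 10000 * d ^ 2)
        (-17243 / 10000 - 504763 / 10000 * d + 1590104 / 10000 * d ^ 2) u ∧
      sixTG.val u v d S' = 10267 / 10000 + 13438 / 10000 * d - 3410 / 10000 * d ^ 2 - u := by
  refine ⟨?_, ?_⟩ <;>
    simp only [sixTN, sixTG, val_subT, val_quadN, val_eQ3, Ex.val, quadN] <;> push_cast <;> ring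

theorem lowT_eq (d u : ℝ) :
    lowT d u = quadN (8901 / 10000 - 464838 / 10000 * d + 1309812 / 10000 * d ^ 2)
        (18602 / 10000 + 932514 / 10000 * d - 2850123 / 10000 * d ^ 2)
        (-17243 / 10000 - 504763 / 10000 * d + 1590104 / 10000 * d ^ 2) u /
      (10267 / 10000 + 13438 / 10000 * d - 3410 / 10000 * d ^ 2 - u) := rfl

/-- The derivative of `lowT d`. -/
noncomputable def lowT' (d u : ℝ) : ℝ :=
  quadR' (8901 / 10000 - 464838 / 10000 * d + 1309812 / 10000 * d ^ 2)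
    (18602 / 10000 + 932514 / 10000 * d - 2850123 / 10000 * d ^ 2)
    (-17243 / 10000 - 504763 / 10000 * d + 1590104 / 10000 * d ^ 2)
    (10267 / 10000 + 13438 / 10000 * d - 3410 / 10000 * d ^ 2) u

theorem hasDerivAt_lowT {d u : ℝ} (hd : 0 ≤ d) (hd1 : d ≤ 1 / 3) (hu : u ≤ 1) :
    HasDerivAt (lowT d) (lowT' d u) u :=
  hasDerivAt_quadR (lt_of_le_of_lt hu (one_lt_lowT_pole hd hd1))

theorem lowT_facts {d u S' : ℝ} (hd : 0 ≤ d) (hd1 : d ≤ 1 / 3) (hu : 0 ≤ u) (hu1 : u ≤ 39 / 40)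
    (hS : sideS6.Mem S') : 0 < sixTG.val u 0 d S' ∧ -6 ≤ lowT d u := by
  obtain ⟨eN, eG⟩ := six_tail_val u 0 d S'
  have hg : 0 < sixTG.val u 0 d S' := by rw [eG]; linarith [one_lt_lowT_pole hd hd1]
  have key := Ex.pos_of_checkQuick six_tail_ge
    (mem_thousandths (show ((0 : ℤ) : ℝ) / 1000 ≤ u by push_cast; linarith)
      (show u < ((976 : ℤ) : ℝ) / 1000 by push_cast; linarith))
    (mem_thousandths (x := 0) (by norm_num) (by norm_num))
    (mem_thousandths (show ((0 : ℤ) : ℝ) / 1000 ≤ d by push_cast; linarith)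
      (show d < ((334 : ℤ) : ℝ) / 1000 by push_cast; linarith)) hS
  simp only [val_addT, val_mulT, Ex.val, eN, eG] at key
  refine ⟨hg, ?_⟩
  rw [eG] at hg
  rw [lowT_eq, le_div_iff₀ hg]
  push_cast at key
  linarith

/-- **The lower band up to `39/40`.** -/
theorem orbit_lowT_six (hf : IsOrbitFns N p q S R x y s dx dy)
    (hb : SlabBoxSix N (1 / (p + 1)) (1 / (q + 1)))
    {w : ℝ} (hw : w ∈ S) (hw0 : 0 < R w) (hwu : uOf N (R w) (x w) ≤ 39 / 40) :
    bandT N (1 / (p + 1)) (1 / (q + 1)) (1 / (q + 1) - 1 / (p + 1))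
      (lowT (1 / (q + 1) - 1 / (p + 1))) (uOf N (R w) (x w)) (y w / x w) <
      hOf N (R w) (x w) (y w) w := by
  obtain ⟨hd, hd1, hS⟩ := hb.side
  set al := 1 / (p + 1) with hald
  set be := 1 / (q + 1) with hbed
  set d := be - al with hdd
  have hI := fun w (hw : w ∈ S) (hw0 : 0 < R w) => hf.chart hb.five hb.one_le w hw hw0
  have before : ∀ u, 0 ≤ u → u ≤ 3 / 10 →
      lowT d u ≤ sixLc₁ d + sixLc₂ d * u + sixLc₃ d * u ^ 2 := fun u hu hu1 => by
    obtain ⟨eN, eG⟩ := six_tail_val u 0 d (al + be)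
    have key := Ex.pos_of_checkQuick six_tail_start
      (mem_thousandths (show ((0 : ℤ) : ℝ) / 1000 ≤ u by push_cast; linarith)
        (show u < ((301 : ℤ) : ℝ) / 1000 by push_cast; linarith))
      (mem_thousandths (x := 0) (by norm_num) (by norm_num))
      (mem_thousandths (show ((0 : ℤ) : ℝ) / 1000 ≤ d by push_cast; linarith)
        (show d < ((334 : ℤ) : ℝ) / 1000 by push_cast; linarith)) hS
    have hg : 0 < sixTG.val u 0 d (al + be) := (lowT_facts hd hd1 hu (by linarith) hS).1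
    rw [eG] at hg
    simp only [sixTStart, val_addT, val_subT, val_mulT, sixL₁, sixL₂, sixL₃, val_eQ3, Ex.val,
      eN, eG] at key
    rw [lowT_eq, div_le_iff₀ hg]
    simp only [sixLc₁, sixLc₂, sixLc₃]
    push_cast at key
    linarith
  have hLlow : ∀ w ∈ S, 0 < R w → uOf N (R w) (x w) ≤ 4 / 5 →
      bandT N al be d (fun u => sixLc₁ d + sixLc₂ d * u + sixLc₃ d * u ^ 2)
        (uOf N (R w) (x w)) (y w / x w) < hOf N (R w) (x w) (y w) w := fun w hw hw0 hwu => by
    refine lt_of_eq_of_lt ?_ (orbit_lower_six hf hb hw hw0 hwu)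
    simp only [bandT, bandL, ← hald, ← hbed, ← hdd]
    ring
  rcases le_or_gt (uOf N (R w) (x w)) (3 / 10) with hs | hs
  · refine lt_of_le_of_lt ?_ (hLlow w hw hw0 (by linarith))
    simp only [bandT]
    have hu0 : 0 < uOf N (R w) (x w) := (hI w hw hw0).1
    have h1 := before _ hu0.le hs
    have := mul_le_mul_of_nonneg_left (mul_le_mul_of_nonneg_left h1 hu0.le) hd
    linarith
  have hT : ∀ u, HasDerivAt (tangentExt (lowT d) (lowT' d) (39 / 40))
      (if u ≤ 39 / 40 then lowT' d u else lowT' d (39 / 40)) u :=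
    hasDerivAt_tangentExt fun u hu => hasDerivAt_lowT hd hd1 (by linarith)
  have key := forwardL_step_six hf hb (u₀ := 3 / 10) (u₁ := 39 / 40) (K := 1) (by norm_num)
    (by norm_num) one_pos hT (L₀ := fun u => sixLc₁ d + sixLc₂ d * u + sixLc₃ d * u ^ 2)
    (fun u r => (u ≤ 93 / 100 → vOf al be r < phiOne6 u) ∧ (u ≤ 4 / 5 → vOf al be r < phiSix d u) ∧
      d * vOf al be r < 1 / 2)
    (fun w hw hw0 _ => ⟨fun h => orbit_phiOne_six hf hb hw hw0 h,
      fun h => orbit_phi_six hf hb hw hw0 h, by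
        obtain ⟨-, -, -, hr1, -, -, -, hc, hk, -⟩ := hI w hw hw0
        exact (hb.v_mem hc hr1 hk).2.2⟩)
    (fun w hw hw0 hwu => hLlow w hw hw0 (by linarith)) (fun u hu0 hu => ?_)
    (fun u r hu hu' _ hr hE hv hv1 he hp => ?_) hw hw0 hs.le hwu
  · refine lt_of_eq_of_lt ?_ key
    simp only [bandT, tangentExt, if_pos hwu]
    rfl
  · rw [one_mul, tangentExt, if_pos (show u ≤ 39 / 40 by linarith)]
    have h1 := sub_nonpos.2 (before u hu0.le hu)
    have := mul_nonpos_of_nonneg_of_nonpos hd (mul_nonpos_of_nonneg_of_nonpos hu0.le h1)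
    linarith [sq_nonneg (3 / 10 - u)]
  · obtain ⟨h1, h2, hdv⟩ := hE
    have hbk := phiSix_coef hd hd1
    obtain ⟨i, j, hc⟩ := six_tail_sign (u := u) (d := d) (S' := al + be) hu hu' hv hv1
      (fun b c hub hb' hc => lt_of_lt_of_le ((h1 (hub.trans hb')).trans_le
        (phiG_mono_six (by norm_num) (by norm_num) (by linarith) hub (by linarith))) hc)
      (fun b c hub hb' hc => lt_of_lt_of_le ((h2 (hub.trans hb')).trans_le
        (phiG_mono_six hbk.1 hbk.2 (by linarith) hub (by linarith))) hc)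
      (al_v_lt_six hb hr (by linarith)) hdv hd hd1 hS
    have e1 : tangentExt (lowT d) (lowT' d) (39 / 40) u = lowT d u := if_pos hu'
    rw [e1] at he hp ⊢
    rw [if_pos hu']
    have hq : u < 10267 / 10000 + 13438 / 10000 * d - 3410 / 10000 * d ^ 2 := by
      linarith [one_lt_lowT_pole hd hd1]
    obtain ⟨eN, eG⟩ := six_tail_val u (vOf al be r) d (al + be)
    rw [sixTCond] at hc
    refine lieV_pos_of_cond u (vOf al be r) d (al + be) hc ?_ ?_ ?_ he hp
    · rw [eG]; linarith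
    · rw [eN, eG, lowT_eq, div_mul_cancel₀]
      linarith
    · rw [sixTM, val_quadM, eG]
      · simp only [val_eQ3, lowT_eq, lowT']
        norm_num [sub_eq_add_neg, neg_div]
      · simp only [val_eQ3]; push_cast; linarith

theorem six_end_val (u v d S' : ℝ) :
    sixEN.val u v d S' = lowEnd d * sixTG.val (39 / 40) v d S' ∨ 0 ≥ sixTG.val (39 / 40) v d S' := by
  rcases le_or_gt (sixTG.val (39 / 40) v d S') 0 with h | h
  · exact Or.inr h
  obtain ⟨-, eG⟩ := six_tail_val (39 / 40) v d S'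
  rw [eG] at h ⊢
  refine Or.inl ?_
  rw [lowEnd, lowT_eq, mul_assoc, div_mul_cancel₀ _ h.ne']
  simp only [sixEN, val_addT, val_mulT, val_eQ3, Ex.val, quadN]
  push_cast
  ring

theorem six_end_den {d : ℝ} (hd : 0 ≤ d) (hd1 : d ≤ 1 / 3) (u v S' : ℝ) :
    0 < sixEG.val u v d S' ∧ sixEN.val u v d S' = lowEnd d * sixEG.val u v d S' := by
  have e : sixEG.val u v d S' = sixTG.val (39 / 40) v d S' := by
    simp only [sixEG, sixTG, val_subT, val_eQ3, Ex.val]; push_cast; ring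
  have hg : 0 < sixTG.val (39 / 40) v d S' := by
    rw [(six_tail_val _ _ _ _).2]; linarith [one_lt_lowT_pole hd hd1]
  rw [e]
  exact ⟨hg, (six_end_val u v d S').resolve_right (not_le.2 hg)⟩

theorem lowEnd_facts {d S' : ℝ} (hd : 0 ≤ d) (hd1 : d ≤ 1 / 3) (hS : sideS6.Mem S') :
    0 < lowEnd d ∧ lowEnd d ≤ 25 ∧
      ∀ u, 97 / 100 ≤ u → u ≤ 39 / 40 → lowEnd d ≤ lowT d u := by
  have m0 : (⟨0, 1, 1000⟩ : Side).Mem (0 : ℝ) := mem_thousandths (by norm_num) (by norm_num)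
  have md : (⟨0, 334, 1000⟩ : Side).Mem d :=
    mem_thousandths (by push_cast; linarith) (by push_cast; linarith)
  obtain ⟨hg, eN⟩ := six_end_den hd hd1 0 0 S'
  have k1 := Ex.pos_of_checkQuick six_tail_end_pos m0 m0 md hS
  have k2 := Ex.pos_of_checkQuick six_tail_end_le m0 m0 md hS
  rw [eN] at k1
  simp only [val_subT, val_mulT, Ex.val, eN] at k2
  refine ⟨pos_of_mul_pos_left k1 hg.le, ?_, fun u hu hu1 => ?_⟩
  · push_cast at k2
    exact le_of_mul_le_mul_right (by linarith) hg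
  · obtain ⟨hg', eN'⟩ := six_end_den hd hd1 u 0 S'
    obtain ⟨eT, eG⟩ := six_tail_val u 0 d S'
    have k3 := Ex.pos_of_checkQuick six_tail_step
      (mem_thousandths (show ((970 : ℤ) : ℝ) / 1000 ≤ u by push_cast; linarith)
        (show u < ((976 : ℤ) : ℝ) / 1000 by push_cast; linarith)) m0 md hS
    simp only [val_subT, val_mulT, eT, eN', eG] at k3
    have h1 : 0 < 10267 / 10000 + 13438 / 10000 * d - 3410 / 10000 * d ^ 2 - u := by
      linarith [one_lt_lowT_pole hd hd1]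
    rw [lowT_eq, le_div_iff₀ h1]
    refine le_of_mul_le_mul_right ?_ hg'
    linarith

/-- **The lower band from `39/40` on.** -/
theorem orbit_lowEnd_six (hf : IsOrbitFns N p q S R x y s dx dy)
    (hb : SlabBoxSix N (1 / (p + 1)) (1 / (q + 1)))
    {w : ℝ} (hw : w ∈ S) (hw0 : 0 < R w) (hu : 39 / 40 ≤ uOf N (R w) (x w))
    :
    bandT N (1 / (p + 1)) (1 / (q + 1)) (1 / (q + 1) - 1 / (p + 1))
      (fun _ => lowEnd (1 / (q + 1) - 1 / (p + 1))) (uOf N (R w) (x w)) (y w / x w) <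
      hOf N (R w) (x w) (y w) w := by
  obtain ⟨hd, hd1, hS⟩ := hb.side
  set al := 1 / (p + 1) with hald
  set be := 1 / (q + 1) with hbed
  set d := be - al with hdd
  obtain ⟨hpos, htop, hstep⟩ := lowEnd_facts hd hd1 hS
  refine forwardL_step_six hf hb (u₀ := 39 / 40) (u₁ := uOf N (R w) (x w)) (K := 500000) (by norm_num)
    hu (by norm_num) (fun u => hasDerivAt_const u (lowEnd d)) (L₀ := lowT d)
    (fun _ r => d * vOf al be r < 1 / 2)
    (fun w hw hw0 _ => by
      obtain ⟨-, -, -, hr1, -, -, -, hc, hk, -⟩ := hf.chart hb.five hb.one_le w hw hw0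
      exact (hb.v_mem hc hr1 hk).2.2)
    (fun w hw hw0 hwu => orbit_lowT_six hf hb hw hw0 hwu) (fun u hu0 hu' => ?_)
    (fun u r hu' _ hu2 hr hdv hv hv1 he hp => ?_) hw hw0 hu le_rfl
  · rcases lt_or_ge u (97 / 100) with g | g
    · have h6 := (lowT_facts hd hd1 hu0.le hu' hS).2
      have h7 : d * (u * (lowEnd d - lowT d u)) ≤ 1 / 3 * (1 * 31) :=
        (mul_le_mul_of_nonneg_left (mul_le_mul_of_nonneg_left
          (show lowEnd d - lowT d u ≤ 31 by linarith) hu0.le) hd).trans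
          (mul_le_mul hd1 (mul_le_mul_of_nonneg_right (by linarith) (by norm_num))
            (by positivity) (by norm_num))
      have h8 := mul_le_mul (show (1 : ℝ) / 200 ≤ 39 / 40 - u by linarith)
        (show (1 : ℝ) / 200 ≤ 39 / 40 - u by linarith) (by norm_num) (by linarith)
      linarith
    · have h1 := sub_nonpos.2 (hstep u g hu')
      have := mul_nonpos_of_nonneg_of_nonpos hd (mul_nonpos_of_nonneg_of_nonpos hu0.le h1)
      linarith [sq_nonneg (39 / 40 - u)]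
  · obtain ⟨i, j, hc⟩ := six_const_sign (u := u) (d := d) (S' := al + be) (by linarith) (by linarith)
      hv hv1 (al_v_lt_six hb hr (by linarith)) hdv (by linarith) (by linarith) hS
    obtain ⟨hg, eN⟩ := six_end_den hd hd1 u (vOf al be r) (al + be)
    rw [sixECond] at hc
    refine lieV_pos_of_cond u (vOf al be r) d (al + be) hc hg eN ?_ he hp
    simp only [val_mulT, eN, mul_zero, add_zero]
    ring

end Vale.Agent.P100.Calib.Band
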