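import Vale.Agent.P100.Calib.BoxPos
import Vale.Agent.P100.Calib.SlabSignExpr
import Vale.Agent.P100.Calib.SlabGenClosed

/-!
# The closed signs of dimension six at `g = 1` as expressions

`p, e, k, w` stand for `g W, g E, g K, g W1`; `z` is the part of the numbers `G`, `G1` that varies
along the orbit. The coefficients are in Horner form in `a`, `d`, `v`.
-/

set_option linter.unusedVariables false
set_option linter.unusedSimpArgs false

namespace Vale.Agent.P100.Calib.Closed.Six.Low

open BoxPos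

local instance sixSignExprAdd : Add Ex := ⟨Ex.add⟩
local instance sixSignExprMul : Mul Ex := ⟨Ex.mul⟩

/-- The numbers of the family of dimension six at `(e, k, z)`. -/
noncomputable def numZ (e k z : ℝ) : ClosedGen.Num :=
  ⟨3 / 20, -(23 / 200), e, k, -(7 / 50) - 17 / 50 * z, -(17 / 50) * z, 7 / 2⟩

/-- `TGGS` at `g = 1`. -/
def eTGG (a d v p z : Ex) : Ex :=
  (((((((((cC (-9) 25 * v * v * v * v * v * d + cC (-69) 25 * v * v * v * v) * d + cC (-24) 5 *
    v * v * v) * d + cC (-12) 5 * v * v) * a + (((((cC (63) 50 * v * v * v * v * v * d + (cC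
    (-81) 50 * v + cC (63) 10) * v * v * v * v) * d + ((cC (-147) 125 * v + cC (-537) 50) * v +
    cC (252) 25) * v * v * v) * d + ((cC (-183) 25 * v + cC (-438) 25) * v + cC (126) 25) * v *
    v) * d + (cC (-1536) 125 * v + cC (-42) 5) * v * v) * d + cC (-768) 125 * v * v)) * a +
    (((((((cC (-441) 400 * v * v * v * v * v * d + (cC (441) 100 * v + cC (-3969) 400) * v * v *
    v * v) * d + ((cC (-1821) 500 * v + cC (2331) 100) * v + cC (-882) 25) * v * v * v) * d +
    ((((cC (-1587) 200000 * v + cC (-531) 125) * v + cC (-9453) 500) * v + cC (2079) 50) * v +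
    cC (-3087) 50) * v * v) * d + ((((cC (5643) 25000 * v + cC (-603) 25) * v + cC (-3378) 125)
    * v + cC (693) 25) * v + cC (-1323) 25) * v) * d + ((((cC (34989) 25000 * v + cC (-4788)
    125) * v + cC (-294) 25) * v + cC (126) 25) * v + cC (-441) 25)) * d + (cC (14673) 6250 * v
    + cC (-2304) 125) * v * v) * d + cC (14673) 12500 * v * v)) * a + ((((((((cC (-441) 160 * v
    * v * v * v * v * d + (cC (30849) 4000 * v + cC (-3969) 160) * v * v * v * v) * d + ((cC
    (-2583) 500 * v + cC (185073) 4000) * v + cC (-441) 5) * v * v * v) * d + ((((cC (-1587)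
    80000 * v + cC (-699) 100) * v + cC (-567) 25) * v + cC (51219) 500) * v + cC (-3087) 20) *
    v * v) * d + (((((cC (-1587) 400000 * v + cC (5643) 10000) * v + cC (-16737) 500) * v + cC
    (-15519) 500) * v + cC (10353) 100) * v + cC (-1323) 10) * v) * d + (((((cC (4293) 50000 * v
    + cC (38589) 10000) * v + cC (-5919) 125) * v + cC (-4011) 250) * v + cC (12117) 250) * v +
    cC (-441) 10)) * d + ((((cC (40239) 50000 * v + cC (18273) 2500) * v + cC (-5217) 250) * v +
    cC (-63) 25) * v + cC (441) 50)) * d + (cC (17973) 12500 * v + cC (23673) 5000) * v * v) * d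
    + (cC (17973) 25000 * v + cC (18) 25) * v)) * a + (((((((((cC (-3969) 1600 * v * v * v * v *
    v * d + (cC (924) 125 * v + cC (-35721) 1600) * v * v * v * v) * d + ((cC (-220519) 40000 *
    v + cC (48909) 1000) * v + cC (-3969) 50) * v * v * v) * d + ((((cC (-1587) 100000 * v + cC
    (-13227) 2000) * v + cC (-206083) 8000) * v + cC (123291) 1000) * v + cC (-27783) 200) * v *
    v) * d + (((((cC (-1587) 200000 * v + cC (7203) 12500) * v + cC (-54381) 2000) * v + cC
    (-53071) 1250) * v + cC (14721) 100) * v + cC (-11907) 100) * v) * d + (((((cC (16551) 50000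
    * v + cC (52989) 12500) * v + cC (-34827) 1000) * v + cC (-139187) 5000) * v + cC (20769)
    250) * v + cC (-3969) 100)) * d + (((((cC (-9) 400 * v + cC (112833) 50000) * v + cC (26343)
    3125) * v + cC (-1551) 100) * v + cC (-609) 500) * v + cC (441) 25)) * d + ((((cC (-9) 400 *
    v + cC (96777) 25000) * v + cC (38793) 6250) * v + cC (-63) 50) * v + cC (441) 100)) * d +
    (cC (7137) 3125 * v + cC (36) 25) * v) * d + cC (423) 1250 * v)) * a + ((((((((((cC (-3087)
    3200 * v * v * v * v * v * d + (cC (10941) 3200 * v + cC (-27783) 3200) * v * v * v * v) * d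
    + ((cC (-290217) 80000 * v + cC (76461) 3200) * v + cC (-3087) 100) * v * v * v) * d +
    ((((cC (-1587) 400000 * v + cC (-269989) 80000) * v + cC (-304389) 16000) * v + cC (25641)
    400) * v + cC (-21609) 400) * v * v) * d + (((((cC (-1587) 400000 * v + cC (46281) 100000) *
    v + cC (-211441) 16000) * v + cC (-355437) 10000) * v + cC (32739) 400) * v + cC (-9261)
    200) * v) * d + (((((cC (9399) 25000 * v + cC (320103) 100000) * v + cC (-177589) 10000) * v
    + cC (-241791) 10000) * v + cC (9849) 200) * v + cC (-3087) 200)) * d + (((((cC (-27) 1250 *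
    v + cC (99459) 50000) * v + cC (317247) 50000) * v + cC (-118667) 10000) * v + cC (2583)
    1000) * v + cC (441) 40)) * d + (((((cC (-9) 800 * v + cC (-27) 10000) * v + cC (154407)
    50000) * v + cC (64209) 12500) * v + cC (-6153) 1000) * v + cC (1323) 200)) * d + ((((cC
    (-9) 800 * v + cC (27) 10000) * v + cC (49563) 25000) * v + cC (153) 100) * v + cC (-441)
    200)) * d + (cC (-27) 1000 * v + cC (1269) 2500) * v) * d + cC (-27) 2500 * v)) * a +
    (((((((((((cC (-441) 3200 * v * v * v * v * v * d + (cC (9429) 16000 * v + cC (-3969) 3200)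
    * v * v * v * v) * d + ((cC (-71899) 80000 * v + cC (67893) 16000) * v + cC (-441) 100) * v
    * v * v) * d + (((cC (-54349) 80000 * v + cC (-80287) 16000) * v + cC (23499) 2000) * v + cC
    (-3087) 400) * v * v) * d + ((((cC (4503) 20000 * v + cC (-43177) 16000) * v + cC (-98209)
    10000) * v + cC (1239) 80) * v + cC (-1323) 200) * v) * d + (((((cC (327) 2500 * v + cC
    (5631) 4000) * v + cC (-42679) 10000) * v + cC (-66257) 10000) * v + cC (9597) 1000) * v +
    cC (-441) 200)) * d + (((((cC (9) 10000 * v + cC (5103) 10000) * v + cC (28497) 10000) * v +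
    cC (-49367) 10000) * v + cC (1281) 1000) * v + cC (441) 200)) * d + (((((cC (-9) 800 * v +
    cC (63) 10000) * v + cC (5469) 10000) * v + cC (24771) 10000) * v + cC (-4893) 1000) * v +
    cC (441) 200)) * d + ((((cC (-9) 800 * v + cC (-783) 10000) * v + cC (1413) 5000) * v + cC
    (81) 100) * v + cC (-441) 200)) * d + (cC (-81) 400 * v + cC (72) 625) * v) * d + cC (-108)
    625 * v) * d + cC (-27) 500)) * a + (((((((cC (-27) 4000 * v * v * v * v * d + (cC (-81)
    4000 * v + cC (-27) 2000) * v * v * v) * d + ((cC (-81) 4000 * v + cC (-27) 400) * v + cC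
    (-27) 4000) * v * v) * d + ((cC (-27) 4000 * v + cC (-189) 2000) * v + cC (-297) 4000) * v *
    v) * d + ((cC (-81) 2000 * v + cC (-621) 4000) * v + cC (-27) 1000) * v) * d + (cC (-351)
    4000 * v + cC (-27) 250) * v) * d + (cC (-81) 1000 * v + cC (-27) 1000)) * d + cC (-27)
    1000) + ((((((cC (-204) 125 * v * v * v * v * v * d + cC (-612) 125 * v * v * v * v) * d +
    cC (-408) 125 * v * v * v) * d * d * d * a + ((((cC (357) 125 * v * v * v * v * v * d + (cC
    (-612) 125 * v + cC (2499) 125) * v * v * v * v) * d + ((cC (-306) 125 * v + cC (-408) 25) *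
    v + cC (6426) 125) * v * v * v) * d + ((cC (-918) 125 * v + cC (-1836) 125) * v + cC (1428)
    25) * v * v) * d + ((cC (-612) 125 * v + cC (-408) 125) * v + cC (2856) 125) * v) * d * d *
    d) * a + (((((cC (714) 125 * v * v * v * v * v * d + (cC (-6052) 625 * v + cC (4998) 125) *
    v * v * v * v) * d + ((cC (-714) 125 * v + cC (-5848) 125) * v + cC (12852) 125) * v * v *
    v) * d + (((cC (51) 125 * v + cC (-2346) 125) * v + cC (-52496) 625) * v + cC (2856) 25) * v
    * v) * d + (((cC (153) 125 * v + cC (-408) 25) * v + cC (-43588) 625) * v + cC (5712) 125) *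
    v) * d + ((cC (102) 125 * v + cC (-408) 125) * v + cC (-2856) 125) * v) * d * d * d) * a +
    (((((((cC (357) 100 * v * v * v * v * v * d + (cC (-11271) 1250 * v + cC (2499) 100) * v * v
    * v * v) * d + ((cC (-10829) 2500 * v + cC (-12699) 250) * v + cC (3213) 50) * v * v * v) *
    d + (((cC (102) 125 * v + cC (-1411) 100) * v + cC (-66504) 625) * v + cC (357) 5) * v * v)
    * d + ((((cC (459) 250 * v + cC (357) 125) * v + cC (-11441) 1250) * v + cC (-61812) 625) *
    v + cC (714) 25) * v) * d + (((cC (2193) 250 * v + cC (357) 125) * v + cC (3961) 625) * v +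
    cC (-4284) 125) * v) * d + ((cC (1683) 125 * v + cC (102) 125) * v + cC (714) 125) * v) * d
    + cC (816) 125 * v * v) * d * d) * a + (((((((cC (357) 500 * v * v * v * v * v * d + (cC
    (-3247) 1250 * v + cC (2499) 500) * v * v * v * v) * d + ((cC (-2669) 2500 * v + cC (-3859)
    250) * v + cC (3213) 250) * v * v * v) * d + (((cC (51) 125 * v + cC (-1343) 500) * v + cC
    (-21148) 625) * v + cC (357) 25) * v * v) * d + ((((cC (459) 250 * v + cC (204) 125) * v +
    cC (2839) 1250) * v + cC (-20264) 625) * v + cC (714) 125) * v) * d + (((cC (2193) 250 * v +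
    cC (51) 25) * v + cC (6001) 625) * v + cC (-1428) 125) * v) * d + ((cC (1683) 125 * v + cC
    (102) 125) * v + cC (714) 125) * v) * d + cC (816) 125 * v * v) * d * d * d) * a * z +
    (((((cC (-1156) 625 * v * v * v * v * v * d + cC (-1156) 125 * v * v * v * v) * d + cC
    (-9248) 625 * v * v * v) * d + cC (-4624) 625 * v * v) * d * d * d * d * a + ((((cC (-1734)
    625 * v * v * v * v * v * d + (cC (-578) 625 * v + cC (-1734) 125) * v * v * v * v) * d +
    (cC (-578) 125 * v + cC (-13872) 625) * v * v * v) * d + (cC (-4624) 625 * v + cC (-6936)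
    625) * v * v) * d + cC (-2312) 625 * v * v) * d * d * d * d) * a + ((((cC (-578) 625 * v * v
    * v * v * v * d + (cC (-578) 625 * v + cC (-578) 125) * v * v * v * v) * d + (cC (-578) 125
    * v + cC (-4624) 625) * v * v * v) * d + (cC (-4624) 625 * v + cC (-2312) 625) * v * v) * d
    + cC (-2312) 625 * v * v) * d * d * d * d * d) * a * z * z + (((((((cC (9) 50 * v * v * v *
    v * d + cC (9) 50 * v * v * v) * d * d * a + (((((cC (-63) 200 * v * v * v * v * d + (cC
    (18) 25 * v + cC (-63) 40) * v * v * v) * d + ((cC (9) 100 * v + cC (9) 10) * v + cC (-63)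
    25) * v * v) * d + ((cC (-9) 100 * v + cC (9) 50) * v + cC (-63) 50) * v) * d + cC (-9) 25 *
    v * v) * d + cC (-9) 50 * v)) * a + ((((((cC (-189) 200 * v * v * v * v * d + (cC (1293)
    1000 * v + cC (-189) 40) * v * v * v) * d + ((cC (27) 100 * v + cC (2169) 1000) * v + cC
    (-189) 25) * v * v) * d + (((cC (1107) 20000 * v + cC (-27) 100) * v + cC (219) 250) * v +
    cC (-189) 50) * v) * d + (cC (-117) 4000 * v + cC (-27) 25) * v * v) * d + (cC (-423) 2500 *
    v + cC (-27) 50) * v) * d + cC (-423) 5000 * v)) * a + (((((((cC (-819) 800 * v * v * v * v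
    * d + (cC (51) 40 * v + cC (-819) 160) * v * v * v) * d + ((cC (1149) 4000 * v + cC (27) 10)
    * v + cC (-819) 100) * v * v) * d + (((cC (927) 8000 * v + cC (-603) 4000) * v + cC (57) 40)
    * v + cC (-819) 200) * v) * d + ((cC (1107) 40000 * v + cC (-9) 64) * v + cC (-177) 250) * v
    * v) * d + ((cC (243) 8000 * v + cC (-117) 250) * v + cC (-27) 100) * v) * d + (cC (27) 5000
    * v + cC (-423) 2000) * v) * d + cC (27) 10000 * v)) * a + ((((((((cC (-189) 400 * v * v * v
    * v * d + (cC (651) 1000 * v + cC (-189) 80) * v * v * v) * d + ((cC (249) 2000 * v + cC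
    (1593) 1000) * v + cC (-189) 50) * v * v) * d + (((cC (657) 10000 * v + cC (297) 2000) * v +
    cC (471) 500) * v + cC (-189) 100) * v) * d + ((cC (1107) 20000 * v + cC (-9) 50) * v + cC
    (48) 125) * v * v) * d + ((cC (297) 4000 * v + cC (-2007) 5000) * v + cC (9) 25) * v) * d +
    (cC (81) 1250 * v + cC (-1557) 10000) * v) * d + cC (729) 10000 * v) * d + cC (27) 1000)) *
    a + (((((((((cC (-63) 800 * v * v * v * v * d + (cC (129) 1000 * v + cC (-63) 160) * v * v *
    v) * d + ((cC (69) 4000 * v + cC (171) 500) * v + cC (-63) 100) * v * v) * d + (((cC (207)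
    40000 * v + cC (477) 4000) * v + cC (213) 1000) * v + cC (-63) 200) * v) * d + ((cC (1107)
    40000 * v + cC (-99) 1600) * v + cC (93) 250) * v * v) * d + ((cC (459) 8000 * v + cC (-891)
    10000) * v + cC (27) 100) * v) * d + ((cC (27) 4000 * v + cC (999) 10000) * v + cC (-441)
    20000) * v) * d + (cC (27) 1000 * v + cC (1107) 10000) * v) * d + (cC (27) 800 * v + cC (81)
    2000)) * d + cC (27) 2000)) * a + (((((cC (27) 4000 * v * v * v * d + (cC (27) 2000 * v + cC
    (27) 2000) * v * v) * d + ((cC (27) 4000 * v + cC (81) 2000) * v + cC (27) 4000) * v) * d +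
    (cC (27) 1000 * v + cC (81) 2000) * v) * d + (cC (27) 800 * v + cC (27) 2000)) * d + cC (27)
    2000) * d) * p + (((((cC (51) 125 * v * v * v * v * d + cC (153) 125 * v * v * v) * d + cC
    (102) 125 * v * v) * d * d * d * a + (((cC (51) 50 * v * v * v * v * d + (cC (-51) 250 * v +
    cC (153) 50) * v * v * v) * d + (cC (-153) 250 * v + cC (51) 25) * v * v) * d + cC (-51) 125
    * v * v) * d * d * d) * a + (((cC (102) 125 * v * v * v * v * d + (cC (-51) 125 * v + cC
    (306) 125) * v * v * v) * d + (cC (-153) 125 * v + cC (204) 125) * v * v) * d + cC (-102)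
    125 * v * v) * d * d * d * d) * a + (((cC (51) 250 * v * v * v * v * d + (cC (-51) 250 * v +
    cC (153) 250) * v * v * v) * d + (cC (-153) 250 * v + cC (51) 125) * v * v) * d + cC (-51)
    125 * v * v) * d * d * d * d * d) * a * p * z + ((((((cC (-9) 400 * v * v * v * d + cC (-9)
    400 * v * v) * d * d * a + ((cC (-63) 800 * v * v * v * d + (cC (-9) 800 * v + cC (-63) 800)
    * v * v) * d + cC (-9) 800 * v * v) * d * d) * a + (((((cC (-81) 800 * v * v * v * d + (cC
    (-27) 800 * v + cC (-81) 800) * v * v) * d + cC (-27) 800 * v * v) * d + cC (-27) 8000 * v *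
    v) * d + cC (-27) 4000 * v) * d + cC (-27) 8000)) * a + ((((((cC (-9) 160 * v * v * v * d +
    (cC (-27) 800 * v + cC (-9) 160) * v * v) * d + cC (-27) 800 * v * v) * d + cC (-27) 3200 *
    v * v) * d + (cC (-27) 16000 * v + cC (-27) 1600) * v) * d + (cC (-27) 8000 * v + cC (-27)
    3200)) * d + cC (-27) 16000)) * a + ((((((cC (-9) 800 * v * v * v * d + (cC (-9) 800 * v +
    cC (-9) 800) * v * v) * d + cC (-9) 800 * v * v) * d + cC (-27) 4000 * v * v) * d + (cC
    (-27) 8000 * v + cC (-27) 2000) * v) * d + (cC (-27) 4000 * v + cC (-27) 4000)) * d + cC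
    (-27) 8000) * d) * a + (((cC (-27) 16000 * v * v * d + (cC (-27) 16000 * v + cC (-27) 8000)
    * v) * d + (cC (-27) 8000 * v + cC (-27) 16000)) * d + cC (-27) 16000) * d * d) * p * p

theorem val_eTGG (a d v p z : Ex) (o S t u : ℝ) (e k w : ℝ) :
    (eTGG a d v p z).val o S t u =
      ClosedGen.TGGS (a.val o S t u) (d.val o S t u) (v.val o S t u) 1 (p.val o S t u) w 0 (numZ
        e k (z.val o S t u)) := by
  simp only [eTGG, ex_add, ex_mul, Ex.val, numZ,
    ClosedGen.TGGS, ClosedGen.LGGS, Closed.j1, ClosedGen.gGS, ClosedGen.hGS, Closed.LGGc,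
      Closed.LGGv, ClosedGen.GG_g, ClosedGen.GG_g0, ClosedGen.GG_kg, ClosedGen.gG_1,
      ClosedGen.gG_c, ClosedGen.gG_v, ClosedGen.hG_c, ClosedGen.hG_g, ClosedGen.hG_kc]
  push_cast
  ring

/-- `TEGS` at `g = 1`. -/
def eTEG (a d v p e z : Ex) : Ex :=
  (((((((((cC (84) 5 * v * v * v * v * d + (cC (-69) 125 * v * v + cC 84) * v * v * v) * d + (cC
    (-36) 125 * v * v + cC (672) 5) * v * v) * d + (cC (-36) 125 * v * v + cC (336) 5) * v) * a
    + (((((cC (483) 250 * v + cC (294) 5) * v * v * v * v * d + ((cC (-276) 125 * v + cC (4242)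
    125) * v + cC 294) * v * v * v) * d + (((cC (21) 125 * v + cC (-513) 125) * v + cC (17346)
    125) * v + cC (2352) 5) * v * v) * d + (((cC (84) 125 * v + cC (-216) 25) * v + cC (26208)
    125) * v + cC (1176) 5) * v) * d + ((cC (84) 125 * v + cC (-636) 125) * v + cC (13104) 125)
    * v)) * a + ((((((cC (1449) 250 * v + cC (399) 5) * v * v * v * v * d + ((cC (-17893) 2500 *
    v + cC (12726) 125) * v + cC 399) * v * v * v) * d + (((cC (57) 250 * v + cC (-30882) 625) *
    v + cC (52038) 125) * v + cC (3192) 5) * v * v) * d + ((((cC (-441) 500 * v + cC (-63) 25) *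
    v + cC (-93399) 625) * v + cC (78624) 125) * v + cC (1596) 5) * v) * d + (((cC (-441) 125 *
    v + cC (-1242) 125) * v + cC (-112916) 625) * v + cC (39312) 125) * v) * d + ((cC (-441) 125
    * v + cC (-996) 125) * v + cC (-9744) 125) * v)) * a + (((((((cC (6279) 1000 * v + cC (105)
    2) * v * v * v * v * d + ((cC (-563) 50 * v + cC (28203) 250) * v + cC (525) 2) * v * v * v)
    * d + (((cC (3767) 5000 * v + cC (-10191) 100) * v + cC (115899) 250) * v + cC 420) * v * v)
    * d + ((((cC (-951) 500 * v + cC (-17127) 1250) * v + cC (-7863) 25) * v + cC (87696) 125) *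
    v + cC 210) * v) * d + ((((cC (9) 50 * v + cC (-3501) 500) * v + cC (-29787) 625) * v + cC
    (-9509) 25) * v + cC (43848) 125) * v) * d + (((cC (33) 25 * v + cC (-648) 125) * v + cC
    (-26038) 625) * v + cC (-3612) 25) * v) * d + (((cC (33) 25 * v + cC (303) 125) * v + cC
    (-894) 125) * v + cC (504) 25))) * a + ((((((((cC (1449) 500 * v + cC (84) 5) * v * v * v *
    v * d + ((cC (-37177) 5000 * v + cC (6993) 125) * v + cC 84) * v * v * v) * d + (((cC (2897)
    2500 * v + cC (-186411) 2500) * v + cC (29169) 125) * v + cC (672) 5) * v * v) * d + ((((cC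
    (-1089) 1000 * v + cC (-12432) 625) * v + cC (-566877) 2500) * v + cC (44352) 125) * v + cC
    (336) 5) * v) * d + ((((cC (9) 50 * v + cC (-1053) 500) * v + cC (-43554) 625) * v + cC
    (-159712) 625) * v + cC (22176) 125) * v) * d + ((((cC (9) 100 * v + cC (48) 25) * v + cC
    (4977) 500) * v + cC (-41396) 625) * v + cC (-7833) 125) * v) * d + ((((cC (9) 25 * v + cC
    (39) 25) * v + cC (576) 25) * v + cC (-2124) 125) * v + cC (1008) 25)) * d + ((cC (9) 25 * v
    + cC (-18) 25) * v + cC (261) 25) * v)) * a + (((((((((cC (483) 1000 * v + cC (21) 10) * v *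
    v * v * v * d + ((cC (-8383) 5000 * v + cC (5817) 500) * v + cC (21) 2) * v * v * v) * d +
    (((cC (2327) 5000 * v + cC (-23457) 1250) * v + cC (25221) 500) * v + cC (84) 5) * v * v) *
    d + ((((cC (-69) 1000 * v + cC (-59703) 5000) * v + cC (-268701) 5000) * v + cC (9702) 125)
    * v + cC (42) 5) * v) * d + (((cC (633) 250 * v + cC (-202791) 5000) * v + cC (-58211) 1250)
    * v + cC (4851) 125) * v) * d + ((((cC (9) 100 * v + cC (1071) 1000) * v + cC (18711) 1000)
    * v + cC (-25333) 625) * v + cC (3171) 250) * v) * d + ((((cC (9) 50 * v + cC (1743) 1000) *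
    v + cC (3774) 125) * v + cC (-3201) 250) * v + cC (126) 5)) * d + (((cC (-9) 100 * v + cC
    (-27) 100) * v + cC (84) 125) * v + cC (489) 50) * v) * d + (((cC (-9) 100 * v + cC (-27)
    50) * v + cC (27) 50) * v + cC (-126) 25))) * a + (((((((cC (63) 100 * v * v * v * v * d +
    (cC (-129) 250 * v + cC (63) 20) * v * v * v) * d + ((cC (-2559) 1000 * v + cC (-423) 1000)
    * v + cC (126) 25) * v * v) * d + (((cC (291) 250 * v + cC (-7923) 1000) * v + cC (1047)
    250) * v + cC (63) 25) * v) * d + (((cC (471) 1000 * v + cC (7101) 1000) * v + cC (-999)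
    125) * v + cC (441) 50) * v) * d + ((((cC (-9) 50 * v + cC (1503) 1000) * v + cC (1197) 125)
    * v + cC (-741) 250) * v + cC (126) 25)) * d + (((cC (-9) 100 * v + cC (-63) 100) * v + cC
    (174) 125) * v + cC (-33) 50) * v) * d + (((cC (-9) 100 * v + cC (-27) 50) * v + cC (27) 50)
    * v + cC (-126) 25)) * d) * a + (((((((cC (-782) 625 * v * v * v * v * v * d + cC (-8772)
    625 * v * v * v * v) * d + cC (-21624) 625 * v * v * v) * d + cC (-14416) 625 * v * v) * d *
    a + ((((cC (-391) 125 * v * v * v * v * v * d + (cC (629) 625 * v + cC (-4386) 125) * v * v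
    * v * v) * d + (cC (-4386) 625 * v + cC (-10812) 125) * v * v * v) * d + (cC (-16932) 625 *
    v + cC (-7208) 125) * v * v) * d + cC (-11288) 625 * v * v) * d) * a + (((((cC (-1564) 625 *
    v * v * v * v * v * d + (cC (748) 625 * v + cC (-18564) 625) * v * v * v * v) * d + ((cC
    (-102) 125 * v + cC (-11832) 625) * v + cC (-46308) 625) * v * v * v) * d + ((cC (-612) 125
    * v + cC (-41004) 625) * v + cC (-30872) 625) * v * v) * d + (cC (-1224) 125 * v + cC
    (-30736) 625) * v * v) * d + (cC (-816) 125 * v + cC (-816) 125) * v) * d) * a + ((((((cC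
    (-391) 625 * v * v * v * v * v * d + (cC (119) 625 * v + cC (-5916) 625) * v * v * v * v) *
    d + ((cC (-102) 125 * v + cC (-9486) 625) * v + cC (-15402) 625) * v * v * v) * d + (((cC
    (-204) 125 * v + cC (-204) 125) * v + cC (-30702) 625) * v + cC (-10268) 625) * v * v) * d +
    ((cC (-714) 125 * v + cC (918) 125) * v + cC (-25568) 625) * v * v) * d + ((cC (-102) 25 * v
    + cC (2856) 125) * v + cC (-1224) 125) * v) * d + (cC (204) 125 * v + cC (408) 25) * v) * d)
    * a + (((((cC (-102) 125 * v * v * v * v * d + (cC (-408) 125 * v + cC (-306) 125) * v * v *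
    v) * d + (((cC (-204) 125 * v + cC (408) 125) * v + cC (-1326) 125) * v + cC (-204) 125) * v
    * v) * d + ((cC (-714) 125 * v + cC (2142) 125) * v + cC (-1224) 125) * v * v) * d + ((cC
    (-102) 25 * v + cC (3672) 125) * v + cC (-408) 125) * v) * d + (cC (204) 125 * v + cC (408)
    25) * v) * d * d) * a * z + ((((((cC (-24) 5 * v * v * v * d + cC (-24) 5 * v * v) * a +
    (((cC (-69) 250 * v + cC (-12) 1) * v * v * v * d + (cC (1182) 125 * v + cC (-12) 1) * v *
    v) * d + cC (1182) 125 * v * v)) * a + ((((cC (-69) 125 * v + cC (-54) 5) * v * v * v * d +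
    (cC (2364) 125 * v + cC (-54) 5) * v * v) * d + (cC (-18) 5 * v + cC (2364) 125) * v * v) *
    d + cC (-18) 5 * v * v)) * a + (((((cC (-69) 200 * v + cC (-21) 5) * v * v * v * d + (cC
    (573) 50 * v + cC (-21) 5) * v * v) * d + ((cC (69) 1000 * v + cC (-144) 25) * v + cC (573)
    50) * v * v) * d + (cC (9) 250 * v + cC (-162) 25) * v * v) * d + (cC (9) 250 * v + cC (-18)
    25) * v)) * a + (((((cC (-69) 1000 * v + cC (-3) 5) * v * v * v * d + (cC (501) 250 * v + cC
    (-3) 5) * v * v) * d + ((cC (69) 1000 * v + cC (-54) 25) * v + cC (501) 250) * v * v) * d +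
    (cC (9) 250 * v + cC (-72) 25) * v * v) * d + (cC (9) 250 * v + cC (-18) 25) * v) * d) * a +
    (((((cC (-9) 100 * v * v * v * d + (cC (-9) 100 * v + cC (-9) 100) * v * v) * d + (cC (9)
    100 * v + cC (-27) 100) * v * v) * d + ((cC (9) 100 * v + cC (9) 100) * v + cC (-9) 50) * v)
    * d + cC (27) 100 * v * v) * d + cC (9) 50 * v)) * a * e + ((((((((cC (-21) 500 * v * v * v
    * v * d + cC (159) 125 * v * v * v) * d + cC (159) 125 * v * v) * a + ((((cC (63) 200 * v *
    v * v * v * d + cC (-237) 1000 * v * v * v * v) * d + ((cC (-4977) 10000 * v + cC (1113)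
    250) * v + cC (-126) 25) * v * v) * d + ((cC (-297) 2500 * v + cC (624) 125) * v + cC (-252)
    25) * v) * d + ((cC (-297) 2500 * v + cC (9) 25) * v + cC (-126) 25))) * a + (((((cC (189)
    200 * v * v * v * v * d + cC (-84) 125 * v * v * v * v) * d + ((cC (-14031) 10000 * v + cC
    (738) 125) * v + cC (-378) 25) * v * v) * d + (((cC (-1557) 10000 * v + cC (-891) 2500) * v
    + cC (2133) 250) * v + cC (-756) 25) * v) * d + (((cC (1773) 2500 * v + cC (-2241) 2500) * v
    + cC (219) 125) * v + cC (-378) 25)) * d + (cC (1773) 2500 * v + cC (-9) 25) * v)) * a +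
    ((((((cC (819) 800 * v * v * v * v * d + cC (-93) 100 * v * v * v * v) * d + ((cC (-53421)
    40000 * v + cC (363) 100) * v + cC (-819) 50) * v * v) * d + (((cC (-1287) 4000 * v + cC
    (-8781) 10000) * v + cC (1581) 200) * v + cC (-819) 25) * v) * d + ((((cC (-1107) 40000 * v
    + cC (873) 500) * v + cC (-28161) 10000) * v + cC (57) 20) * v + cC (-819) 50)) * d + ((cC
    (2673) 10000 * v + cC (1287) 1000) * v + cC (-3) 50) * v) * d + ((cC (2673) 10000 * v + cC
    (-81) 250) * v + cC (63) 50))) * a + (((((((cC (189) 400 * v * v * v * v * d + cC (-291) 500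
    * v * v * v * v) * d + ((cC (-9051) 20000 * v + cC (249) 250) * v + cC (-189) 25) * v * v) *
    d + (((cC (-441) 2500 * v + cC (-5811) 5000) * v + cC (1911) 500) * v + cC (-378) 25) * v) *
    d + ((((cC (-1107) 20000 * v + cC (6687) 5000) * v + cC (-17091) 5000) * v + cC (471) 250) *
    v + cC (-189) 25)) * d + ((cC (1269) 2500 * v + cC (2097) 5000) * v + cC (24) 25) * v) * d +
    ((cC (567) 1250 * v + cC (-81) 125) * v + cC (63) 25)) * d + cC (-27) 500 * v)) * a +
    ((((((((cC (63) 800 * v * v * v * v * d + cC (-129) 1000 * v * v * v * v) * d + ((cC (-897)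
    40000 * v + cC (9) 100) * v + cC (-63) 50) * v * v) * d + (((cC (-207) 20000 * v + cC
    (-10569) 20000) * v + cC (729) 1000) * v + cC (-63) 25) * v) * d + ((((cC (-1107) 40000 * v
    + cC (5607) 20000) * v + cC (-27729) 20000) * v + cC (213) 500) * v + cC (-63) 50)) * d +
    ((cC (4401) 20000 * v + cC (-3843) 20000) * v + cC (33) 50) * v) * d + (((cC (-27) 4000 * v
    + cC (2781) 20000) * v + cC (-27) 80) * v + cC (63) 50)) * d + (cC (-81) 4000 * v + cC (-81)
    1000) * v) * d + cC (-27) 2000 * v)) * a + (((((cC (-27) 4000 * v * v * v * d + (cC (-81)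
    4000 * v + cC (-27) 4000) * v * v) * d + (cC (-81) 4000 * v + cC (-27) 800) * v * v) * d +
    ((cC (-27) 4000 * v + cC (-189) 4000) * v + cC (-27) 2000) * v) * d + (cC (-81) 4000 * v +
    cC (-27) 1000) * v) * d + cC (-27) 2000 * v) * d) * p + (((((cC (-51) 125 * v * v * v * v *
    d * d + cC (306) 125 * v * v) * d + cC (204) 125 * v) * d * a + ((((cC (-51) 50 * v * v * v
    * v * d + cC (51) 250 * v * v * v * v) * d + (cC (-204) 125 * v + cC (153) 25) * v * v) * d
    + (cC (-153) 25 * v + cC (102) 25) * v) * d + cC (-102) 25 * v) * d) * a + ((((cC (-102) 125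
    * v * v * v * v * d + cC (51) 125 * v * v * v * v) * d + (cC (-408) 125 * v + cC (612) 125)
    * v * v) * d + (cC (-306) 25 * v + cC (408) 125) * v) * d + cC (-204) 25 * v) * d * d) * a +
    ((((cC (-51) 250 * v * v * v * v * d + cC (51) 250 * v * v * v * v) * d + (cC (-204) 125 * v
    + cC (153) 125) * v * v) * d + (cC (-153) 25 * v + cC (102) 125) * v) * d + cC (-102) 25 *
    v) * d * d * d) * a * p * z + ((((cC (9) 50 * v * v * d + cC (9) 50 * v) * a + (cC (9) 25 *
    v * v * d + cC (9) 25 * v) * d) * a + (((cC (9) 40 * v * v * d + cC (9) 40 * v) * d + cC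
    (-9) 200 * v * v) * d + cC (-9) 200 * v)) * a + (((cC (9) 200 * v * v * d + cC (9) 200 * v)
    * d + cC (-9) 200 * v * v) * d + cC (-9) 200 * v) * d) * a * p * e + (((((((cC (9) 200 * v *
    v * v * d + cC (-9) 100 * v * v) * d + cC (-9) 100 * v) * a + (((cC (63) 400 * v * v * v * d
    + (cC (9) 400 * v + cC (-63) 200) * v * v) * d + (cC (-63) 2000 * v + cC (-63) 200) * v) * d
    + cC (-63) 2000 * v)) * a + ((((cC (81) 400 * v * v * v * d + (cC (27) 400 * v + cC (-81)
    200) * v * v) * d + (cC (-189) 2000 * v + cC (-81) 200) * v) * d + (cC (27) 2000 * v + cC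
    (-189) 2000) * v) * d + cC (27) 2000 * v)) * a + (((((cC (9) 80 * v * v * v * d + (cC (27)
    400 * v + cC (-9) 40) * v * v) * d + (cC (-729) 8000 * v + cC (-9) 40) * v) * d + (cC (27)
    800 * v + cC (-729) 8000) * v) * d + (cC (27) 8000 * v + cC (27) 800) * v) * d + cC (27)
    8000 * v)) * a + (((((cC (9) 400 * v * v * v * d + (cC (9) 400 * v + cC (-9) 200) * v * v) *
    d + (cC (-99) 4000 * v + cC (-9) 200) * v) * d + (cC (27) 1000 * v + cC (-99) 4000) * v) * d
    + (cC (27) 4000 * v + cC (27) 1000) * v) * d + cC (27) 4000 * v) * d) * a + (((cC (27) 8000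
    * v * v * d + (cC (27) 4000 * v + cC (27) 8000) * v) * d + (cC (27) 8000 * v + cC (27) 4000)
    * v) * d + cC (27) 8000 * v) * d * d) * p * p

theorem val_eTEG (a d v p e z : Ex) (o S t u : ℝ) (k w : ℝ) :
    (eTEG a d v p e z).val o S t u =
      ClosedGen.TEGS (a.val o S t u) (d.val o S t u) (v.val o S t u) 1 (p.val o S t u) w 0 (numZ
        (e.val o S t u) k (z.val o S t u)) := by
  simp only [eTEG, ex_add, ex_mul, Ex.val, numZ,
    ClosedGen.TEGS, ClosedGen.LEGS, Closed.j1, ClosedGen.gES, ClosedGen.gGS, ClosedGen.hES,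
      ClosedGen.hGS, Closed.LEG1, Closed.LEG1_000000_0, Closed.LEGc, Closed.LEGv, Closed.LEGw,
      ClosedGen.EG_g, ClosedGen.EG_g0, ClosedGen.EG_k1, ClosedGen.EG_kv, ClosedGen.gE_1,
      ClosedGen.gE_c, ClosedGen.gE_w, ClosedGen.gE_k1, ClosedGen.gG_1, ClosedGen.gG_c,
      ClosedGen.gG_v, ClosedGen.hE_c, ClosedGen.hE_v, ClosedGen.hG_c, ClosedGen.hG_g,
      ClosedGen.hG_kc]
  push_cast
  ring

/-- `TAS` at `g = 1`. -/
def eTA (a d v p e k w z : Ex) : Ex :=
  (((((((((((((cC (-147) 5 * v * v * v * v * v * d + cC (-1323) 5 * v * v * v * v) * d + (cC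
    (-84) 5 * v * v + cC (-4704) 5) * v * v * v) * d + ((cC (-529) 2500 * v * v + cC (-84) 1) *
    v * v + cC (-8232) 5) * v * v) * d + ((cC (-3938) 625 * v * v + cC (-672) 5) * v * v + cC
    (-7056) 5) * v) * d + ((cC (-15174) 625 * v * v + cC (-336) 5) * v * v + cC (-2352) 5)) * d
    + cC (-22472) 625 * v * v * v) * d + cC (-11236) 625 * v * v) * a + ((((((((cC (-1029) 10 *
    v * v * v * v * v * d + (cC (147) 10 * v + cC (-9261) 10) * v * v * v * v) * d + ((cC (-294)
    5 * v + cC (1323) 10) * v + cC (-16464) 5) * v * v * v) * d + ((((cC (-3703) 5000 * v + cC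
    (-42) 5) * v + cC (-294) 1) * v + cC (2352) 5) * v + cC (-28812) 5) * v * v) * d + (((((cC
    (2231) 5000 * v + cC (-13783) 625) * v + cC (-42) 1) * v + cC (-2352) 5) * v + cC (4116) 5)
    * v + cC (-24696) 5) * v) * d + (((((cC (-979) 625 * v + cC (-53109) 625) * v + cC (-336) 5)
    * v + cC (-1176) 5) * v + cC (3528) 5) * v + cC (-8232) 5)) * d + (((cC (-12957) 625 * v +
    cC (-78652) 625) * v + cC (-168) 5) * v * v + cC (1176) 5)) * d + (cC (-23956) 625 * v + cC
    (-39326) 625) * v * v) * d + cC (-11978) 625 * v * v)) * a + (((((((((cC (-2793) 20 * v * v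
    * v * v * v * d + (cC (441) 10 * v + cC (-25137) 20) * v * v * v * v) * d + ((cC (-1449) 20
    * v + cC (3969) 10) * v + cC (-22344) 5) * v * v * v) * d + ((((cC (-4761) 5000 * v + cC
    (-126) 5) * v + cC (-6657) 20) * v + cC (7056) 5) * v + cC (-39102) 5) * v * v) * d +
    (((((cC (5313) 5000 * v + cC (-15816) 625) * v + cC (-126) 1) * v + cC (-2016) 5) * v + cC
    (12348) 5) * v + cC (-33516) 5) * v) * d + ((((((cC (-21) 250 * v + cC (-5217) 625) * v + cC
    (-59058) 625) * v + cC (-1008) 5) * v + cC (462) 5) * v + cC (10584) 5) * v + cC (-11172)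
    5)) * d + (((((cC (-723) 125 * v + cC (-47856) 625) * v + cC (-86484) 625) * v + cC (-504)
    5) * v + cC (1764) 5) * v + cC (3528) 5)) * d + (((cC (-3447) 125 * v + cC (-88458) 625) * v
    + cC (-43242) 625) * v * v + cC (588) 5)) * d + (cC (-5448) 125 * v + cC (-51834) 625) * v *
    v) * d + (cC (-2724) 125 * v + cC (-1272) 125) * v)) * a + ((((((((((cC (-735) 8 * v * v * v
    * v * v * d + (cC (1911) 40 * v + cC (-6615) 8) * v * v * v * v) * d + ((cC (-273) 8 * v +
    cC (17199) 40) * v + cC (-2940) 1) * v * v * v) * d + ((((cC (-529) 1000 * v + cC (-1239)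
    40) * v + cC (-777) 8) * v + cC (7644) 5) * v + cC (-5145) 1) * v * v) * d + (((((cC (3933)
    5000 * v + cC (-2033) 250) * v + cC (-6783) 40) * v + cC 168) * v + cC (13377) 5) * v + cC
    (-4410) 1) * v) * d + ((((((cC (3) 250 * v + cC (-6987) 625) * v + cC (-5949) 250) * v + cC
    (-336) 1) * v + cC 819) * v + cC (11466) 5) * v + cC (-1470) 1)) * d + ((((((cC (-9) 50 * v
    + cC (-2619) 250) * v + cC (-117027) 1250) * v + cC (-3916) 125) * v + cC (-315) 1) * v + cC
    882) * v + cC (3822) 5)) * d + (((((cC (-183) 125 * v + cC (-5244) 125) * v + cC (-111003)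
    625) * v + cC (-1958) 125) * v + cC (-882) 5) * v + cC 294)) * d + (((cC (-27) 25 * v + cC
    (-4551) 125) * v + cC (-74514) 625) * v * v + cC (-294) 5)) * d + ((cC (96) 125 * v + cC
    (684) 25) * v + cC (-636) 25) * v) * d + (cC (48) 125 * v + cC (4092) 125) * v)) * a +
    (((((((((((cC (-147) 5 * v * v * v * v * v * d + (cC (441) 20 * v + cC (-1323) 5) * v * v *
    v * v) * d + ((cC (-21) 10 * v + cC (3969) 20) * v + cC (-4704) 5) * v * v * v) * d + ((((cC
    (-529) 5000 * v + cC (-399) 20) * v + cC (483) 10) * v + cC (3528) 5) * v + cC (-8232) 5) *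
    v * v) * d + (((((cC (851) 5000 * v + cC (1841) 625) * v + cC (-2583) 20) * v + cC 336) * v
    + cC (6174) 5) * v + cC (-7056) 5) * v) * d + ((((((cC (12) 125 * v + cC (-2464) 625) * v +
    cC (10638) 625) * v + cC (-336) 1) * v + cC 756) * v + cC (5292) 5) * v + cC (-2352) 5)) * d
    + ((((((cC (-9) 50 * v + cC (-126) 25) * v + cC (-26412) 625) * v + cC (17594) 625) * v + cC
    (-462) 1) * v + cC (3528) 5) * v + cC (1764) 5)) * d + (((((cC (-186) 125 * v + cC (-957)
    125) * v + cC (-54706) 625) * v + cC (8797) 625) * v + cC (-1764) 5) * v + cC (1176) 5)) * d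
    + ((((cC (9) 25 * v + cC (99) 25) * v + cC (5802) 125) * v + cC (-43688) 625) * v * v + cC
    (-588) 5)) * d + (((cC (54) 25 * v + cC (1902) 125) * v + cC (13842) 125) * v + cC (-2724)
    125) * v) * d + ((cC (18) 5 * v + cC (1896) 125) * v + cC (7644) 125) * v) * d + ((cC (9) 5
    * v + cC (144) 25) * v + cC (-36) 25))) * a + ((((((((((((cC (-147) 40 * v * v * v * v * v *
    d + (cC (147) 40 * v + cC (-1323) 40) * v * v * v * v) * d + ((cC (63) 40 * v + cC (1323)
    40) * v + cC (-588) 5) * v * v * v) * d + (((cC (-231) 40 * v + cC (903) 40) * v + cC (588)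
    5) * v + cC (-1029) 5) * v * v) * d + ((((cC (381) 250 * v + cC (-1743) 40) * v + cC (504)
    5) * v + cC (1029) 5) * v + cC (-882) 5) * v) * d + (((((cC (57) 125 * v + cC (171) 25) * v
    + cC (-672) 5) * v + cC (987) 5) * v + cC (882) 5) * v + cC (-294) 5)) * d + (((((cC (-87)
    250 * v + cC (-717) 125) * v + cC (1329) 125) * v + cC (-1071) 5) * v + cC (882) 5) * v + cC
    (294) 5)) * d + (((((cC (-3) 125 * v + cC (363) 50) * v + cC (-2001) 125) * v + cC (1329)
    250) * v + cC (-882) 5) * v + cC (294) 5)) * d + ((((cC (9) 25 * v + cC (63) 10) * v + cC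
    (216) 5) * v + cC (-4197) 250) * v * v + cC (-294) 5)) * d + (((cC (81) 50 * v + cC (2301)
    125) * v + cC (8463) 125) * v + cC (-906) 125) * v) * d + (((cC (-9) 50 * v + cC (18) 25) *
    v + cC (2343) 125) * v + cC (3822) 125) * v) * d + (((cC (-9) 25 * v + cC (-27) 10) * v + cC
    (162) 25) * v + cC (-54) 25)) * d + ((cC (-9) 50 * v + cC (-54) 25) * v + cC (-18) 25))) * a
    + (((((((cC (-9) 50 * v * v * v * v * d + (cC (-63) 50 * v + cC (-9) 25) * v * v * v) * d +
    ((cC (27) 50 * v + cC (-72) 25) * v + cC (-9) 50) * v * v) * d + ((cC (63) 50 * v + cC (99)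
    25) * v + cC (-117) 50) * v * v) * d + (((cC (-27) 50 * v + cC (99) 25) * v + cC (153) 25) *
    v + cC (-18) 25) * v) * d + (((cC (-9) 50 * v + cC (-72) 25) * v + cC (99) 25) * v + cC (54)
    25) * v) * d + (((cC (-9) 25 * v + cC (-9) 2) * v + cC (18) 25) * v + cC (-18) 25)) * d +
    ((cC (-9) 50 * v + cC (-54) 25) * v + cC (-18) 25)) * d) * a + ((((((cC (-18) 25 * v * v * v
    * d + cC (-54) 25 * v * v) * d + cC (-36) 25 * v) * a + (((cC (-63) 25 * v * v * v * d + (cC
    (-9) 25 * v + cC (-189) 25) * v * v) * d + (cC (-27) 25 * v + cC (-126) 25) * v) * d + cC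
    (-18) 25 * v)) * a + (((cC (-81) 25 * v * v * v * d + (cC (-27) 25 * v + cC (-243) 25) * v *
    v) * d + (cC (-81) 25 * v + cC (-162) 25) * v) * d + cC (-54) 25 * v) * d) * a + (((cC (-9)
    5 * v * v * v * d + (cC (-27) 25 * v + cC (-27) 5) * v * v) * d + (cC (-81) 25 * v + cC
    (-18) 5) * v) * d + cC (-54) 25 * v) * d * d) * a + (((cC (-9) 25 * v * v * v * d + (cC (-9)
    25 * v + cC (-27) 25) * v * v) * d + (cC (-27) 25 * v + cC (-18) 25) * v) * d + cC (-18) 25
    * v) * d * d * d) * a * w + ((((cC (48) 5 * v * v * v * v * d + cC (144) 5 * v * v * v) * d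
    + cC (96) 5 * v * v) * a + (((cC (72) 5 * v * v * v * v * d + (cC (-24) 5 * v + cC (216) 5)
    * v * v * v) * d + (cC (-72) 5 * v + cC (144) 5) * v * v) * d + cC (-48) 5 * v * v)) * a +
    (((cC (24) 5 * v * v * v * v * d + (cC (-24) 5 * v + cC (72) 5) * v * v * v) * d + (cC (-72)
    5 * v + cC (48) 5) * v * v) * d + cC (-48) 5 * v * v) * d) * a * a * k + (((((((cC (84) 5 *
    v * v * v * v * d + cC 84 * v * v * v) * d + (cC (24) 5 * v * v + cC (672) 5) * v * v) * d +
    (cC (24) 5 * v * v + cC (336) 5) * v) * d * d * a + ((((((cC 42 * v * v * v * v * d + (cC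
    (-126) 5 * v + cC 210) * v * v * v) * d + ((cC 12 * v + cC (-126) 1) * v + cC 336) * v * v)
    * d + (((cC (-84) 5 * v + cC 12) * v + cC (-1008) 5) * v + cC 168) * v) * d + (cC (-36) 1 *
    v * v + cC (-504) 5) * v) * d + cC (-192) 5 * v * v) * d + cC (-96) 5 * v)) * a + (((((((cC
    (189) 5 * v * v * v * v * d + (cC (-252) 5 * v + cC 189) * v * v * v) * d + ((cC (117) 5 * v
    + cC (-252) 1) * v + cC (1512) 5) * v * v) * d + (((cC (-156) 5 * v + cC (369) 5) * v + cC
    (-2016) 5) * v + cC (756) 5) * v) * d + (((cC 6 * v + cC (-324) 5) * v + cC (504) 5) * v +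
    cC (-1008) 5) * v) * d + ((cC (78) 5 * v + cC (-72) 1) * v + cC (252) 5) * v) * d + (cC
    (144) 5 * v + cC (-192) 5) * v) * d + cC (96) 5 * v)) * a + ((((((((cC (147) 10 * v * v * v
    * v * d + (cC (-63) 2 * v + cC (147) 2) * v * v * v) * d + ((cC (231) 10 * v + cC (-315) 2)
    * v + cC (588) 5) * v * v) * d + (((cC (-39) 2 * v + cC (987) 10) * v + cC (-252) 1) * v +
    cC (294) 5) * v) * d + (((cC (39) 5 * v + cC (-447) 10) * v + cC (756) 5) * v + cC (-126) 1)
    * v) * d + (((cC (3) 5 * v + cC (99) 5) * v + cC (-288) 5) * v + cC (378) 5) * v) * d + ((cC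
    (3) 5 * v + cC (204) 5) * v + cC (-162) 5) * v) * d + (cC (-24) 5 * v + cC (144) 5) * v) * d
    + cC (-24) 5 * v)) * a + ((((((((cC (21) 10 * v * v * v * v * d + (cC (-63) 10 * v + cC (21)
    2) * v * v * v) * d + ((cC (69) 10 * v + cC (-63) 2) * v + cC (84) 5) * v * v) * d + (((cC
    (-51) 10 * v + cC (321) 10) * v + cC (-252) 5) * v + cC (42) 5) * v) * d + (((cC (9) 5 * v +
    cC (-159) 10) * v + cC (252) 5) * v + cC (-126) 5) * v) * d + (((cC (3) 5 * v + cC (21) 5) *
    v + cC (-24) 1) * v + cC (126) 5) * v) * d + ((cC (3) 5 * v + cC 12) * v + cC (-66) 5) * v)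
    * d + (cC (-24) 5 * v + cC (48) 5) * v) * d + cC (-24) 5 * v) * d) * a * a * e + ((((cC
    (-12) 5 * v * v * v * d + cC (-12) 5 * v * v) * d * d * a + ((cC (-18) 5 * v * v * v * d +
    (cC (6) 5 * v + cC (-18) 5) * v * v) * d + cC (6) 5 * v * v) * d * d) * a + (((cC (-9) 5 * v
    * v * v * d + (cC (6) 5 * v + cC (-9) 5) * v * v) * d + (cC (3) 5 * v + cC (6) 5) * v * v) *
    d + cC (3) 5 * v * v) * d * d) * a + ((((cC (-3) 10 * v * v * v * d + (cC (3) 10 * v + cC
    (-3) 10) * v * v) * d + (cC (3) 10 * v + cC (3) 10) * v * v) * d + (cC (-3) 10 * v + cC (3)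
    10) * v * v) * d + cC (-3) 10 * v * v) * d * d) * a * a * e * e + ((((((((((cC (63) 50 * v *
    v * v * v * d + (cC (-69) 500 * v * v + cC (63) 10) * v * v * v) * d + (cC (-339) 250 * v *
    v + cC (252) 25) * v * v) * d + (cC (297) 250 * v * v + cC (126) 25) * v) * d + cC (636) 125
    * v * v) * d + cC (318) 125 * v) * a + ((((((cC (441) 100 * v * v * v * v * d + ((cC (-483)
    1000 * v + cC (63) 100) * v + cC (441) 20) * v * v * v) * d + (((cC (387) 1000 * v + cC
    (-2553) 500) * v + cC (63) 20) * v + cC (882) 25) * v * v) * d + (((cC (-699) 500 * v + cC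
    (1539) 500) * v + cC (126) 25) * v + cC (441) 25) * v) * d + ((cC (-4071) 500 * v + cC
    (2136) 125) * v + cC (63) 25) * v) * d + (cC (-1686) 125 * v + cC (1113) 125) * v) * d + cC
    (-843) 125 * v)) * a + (((((((cC (1197) 200 * v * v * v * v * d + ((cC (-621) 1000 * v + cC
    (189) 100) * v + cC (1197) 40) * v * v * v) * d + (((cC (1071) 1000 * v + cC (-8439) 1000) *
    v + cC (189) 20) * v + cC (1197) 25) * v * v) * d + ((((cC (9) 100 * v + cC (-2187) 500) * v
    + cC (-279) 200) * v + cC (378) 25) * v + cC (1197) 50) * v) * d + (((cC (-81) 100 * v + cC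
    (-12033) 500) * v + cC (2199) 125) * v + cC (189) 25) * v) * d + ((cC (-297) 100 * v + cC
    (-4878) 125) * v + cC (2637) 250) * v) * d + (cC (-18) 5 * v + cC (-2304) 125) * v) * d +
    (cC (-36) 25 * v + cC (18) 25))) * a + ((((((((cC (63) 16 * v * v * v * v * d + ((cC (-69)
    200 * v + cC (819) 400) * v + cC (315) 16) * v * v * v) * d + (((cC (981) 1000 * v + cC
    (-3081) 400) * v + cC (819) 80) * v + cC (63) 2) * v * v) * d + ((((cC (9) 50 * v + cC
    (-8889) 2000) * v + cC (-3717) 400) * v + cC (819) 50) * v + cC (63) 4) * v) * d + (((cC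
    (-81) 40 * v + cC (-9333) 400) * v + cC (63) 25) * v + cC (819) 100) * v) * d + (((cC (-9)
    40 * v + cC (-279) 40) * v + cC (-1911) 50) * v + cC (411) 100) * v) * d + ((cC (-81) 200 *
    v + cC (-81) 10) * v + cC (-8541) 500) * v) * d + (cC (-27) 10 * v + cC (9) 5)) * d + (cC
    (9) 50 * v + cC (9) 25))) * a + ((((((((cC (63) 50 * v * v * v * v * d + ((cC (-69) 1000 * v
    + cC (189) 200) * v + cC (63) 10) * v * v * v) * d + (((cC (297) 1000 * v + cC (-933) 250) *
    v + cC (189) 40) * v + cC (252) 25) * v * v) * d + ((((cC (9) 100 * v + cC (-1359) 1000) * v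
    + cC (-2007) 250) * v + cC (189) 25) * v + cC (126) 25) * v) * d + (((cC (-81) 50 * v + cC
    (-1407) 200) * v + cC (-603) 125) * v + cC (189) 50) * v) * d + (((cC (-9) 20 * v + cC
    (-126) 25) * v + cC (-333) 25) * v + cC (-66) 125) * v) * d + ((cC (-81) 100 * v + cC (-27)
    5) * v + cC (-1461) 250) * v) * d + (cC (-27) 25 * v + cC (36) 25)) * d + (cC (9) 25 * v +
    cC (18) 25)) * d) * a + ((((((((cC (63) 400 * v * v * v * v * d + (cC (63) 400 * v + cC (63)
    80) * v * v * v) * d + ((cC (-1437) 2000 * v + cC (63) 80) * v + cC (63) 50) * v * v) * d +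
    (((cC (219) 2000 * v + cC (-4041) 2000) * v + cC (63) 50) * v + cC (63) 100) * v) * d +
    (((cC (-81) 200 * v + cC (747) 2000) * v + cC (-219) 125) * v + cC (63) 100) * v) * d +
    (((cC (-9) 40 * v + cC (-207) 200) * v + cC (-159) 250) * v + cC (-9) 20) * v) * d + ((cC
    (-81) 200 * v + cC (-9) 10) * v + cC (-9) 20) * v) * d + (cC (9) 50 * v + cC (9) 25)) * d +
    (cC (9) 50 * v + cC (9) 25)) * d * d) * a * p + (((((cC (-204) 125 * v * v * v * v * d + cC
    (-612) 125 * v * v * v) * d + cC (-408) 125 * v * v) * d * d * d * a + (((cC (-102) 25 * v *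
    v * v * v * d + (cC (204) 125 * v + cC (-306) 25) * v * v * v) * d + (cC (612) 125 * v + cC
    (-204) 25) * v * v) * d + cC (408) 125 * v * v) * d * d * d) * a + (((cC (-408) 125 * v * v
    * v * v * d + (cC (408) 125 * v + cC (-1224) 125) * v * v * v) * d + (cC (1224) 125 * v + cC
    (-816) 125) * v * v) * d + cC (816) 125 * v * v) * d * d * d * d) * a + (((cC (-102) 125 * v
    * v * v * v * d + (cC (204) 125 * v + cC (-306) 125) * v * v * v) * d + (cC (612) 125 * v +
    cC (-204) 125) * v * v) * d + cC (408) 125 * v * v) * d * d * d * d * d) * a * p * z +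
    (((((cC (-9) 25 * v * v * v * d + cC (-9) 25 * v * v) * d * d * a + ((cC (-9) 10 * v * v * v
    * d + (cC (-9) 50 * v + cC (-9) 10) * v * v) * d + cC (-9) 50 * v * v) * d * d) * a + (((cC
    (-81) 100 * v * v * v * d + (cC (-9) 25 * v + cC (-81) 100) * v * v) * d + (cC (9) 100 * v +
    cC (-9) 25) * v * v) * d + cC (9) 100 * v * v) * d * d) * a + ((((cC (-63) 200 * v * v * v *
    d + (cC (-9) 40 * v + cC (-63) 200) * v * v) * d + (cC (27) 200 * v + cC (-9) 40) * v * v) *
    d + (cC (9) 200 * v + cC (27) 200) * v * v) * d + cC (9) 200 * v * v) * d * d) * a + ((((cC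
    (-9) 200 * v * v * v * d + (cC (-9) 200 * v + cC (-9) 200) * v * v) * d + (cC (9) 200 * v +
    cC (-9) 200) * v * v) * d + (cC (9) 200 * v + cC (9) 200) * v * v) * d + cC (9) 200 * v * v)
    * d * d * d) * a * p * e + (((((((((cC (-9) 400 * v * v * v * v * d + cC (153) 2000 * v * v
    * v) * d + cC (-27) 2000 * v * v) * d + cC (-9) 50 * v) * d + cC (-9) 100) * a + (((((cC
    (-63) 800 * v * v * v * v * d + (cC (-9) 800 * v + cC (1071) 4000) * v * v * v) * d + (cC
    (99) 4000 * v + cC (-189) 4000) * v * v) * d + (cC (-81) 4000 * v + cC (-63) 100) * v) * d +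
    (cC (-9) 100 * v + cC (-63) 200)) * d + cC (-9) 200)) * a + (((((cC (-81) 800 * v * v * v *
    v * d + (cC (-27) 800 * v + cC (2727) 8000) * v * v * v) * d + (cC (297) 4000 * v + cC
    (-513) 8000) * v * v) * d + ((cC (-81) 8000 * v + cC (-243) 4000) * v + cC (-81) 100) * v) *
    d + ((cC (-81) 8000 * v + cC (-27) 100) * v + cC (-81) 200)) * d + cC (-27) 200) * d) * a +
    (((((cC (-9) 160 * v * v * v * v * d + (cC (-27) 800 * v + cC (117) 640) * v * v * v) * d +
    (cC (1107) 16000 * v + cC (-27) 640) * v * v) * d + ((cC (-81) 3200 * v + cC (-1053) 16000)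
    * v + cC (-9) 20) * v) * d + (((cC (-27) 16000 * v + cC (-81) 3200) * v + cC (-27) 100) * v
    + cC (-9) 40)) * d + (cC (-27) 16000 * v * v + cC (-27) 200)) * d * d) * a + (((((cC (-9)
    800 * v * v * v * v * d + (cC (-9) 800 * v + cC (63) 2000) * v * v * v) * d + (cC (117) 8000
    * v + cC (-27) 2000) * v * v) * d + ((cC (-81) 4000 * v + cC (-243) 8000) * v + cC (-9) 100)
    * v) * d + (((cC (-27) 8000 * v + cC (-81) 4000) * v + cC (-9) 100) * v + cC (-9) 200)) * d
    + (cC (-27) 8000 * v * v + cC (-9) 200)) * d * d * d) * a + ((((cC (-27) 16000 * v * v * v *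
    d + (cC (-81) 16000 * v + cC (-27) 16000) * v * v) * d + (cC (-81) 16000 * v + cC (-81)
    16000) * v * v) * d + (cC (-27) 16000 * v + cC (-81) 16000) * v * v) * d + cC (-27) 16000 *
    v * v) * d * d * d * d) * p * p

theorem val_eTA (a d v p e k w z : Ex) (o S t u : ℝ) :
    (eTA a d v p e k w z).val o S t u =
      ClosedGen.TAS (a.val o S t u) (d.val o S t u) (v.val o S t u) 1 (p.val o S t u) (w.val o S
        t u) 0 (numZ (e.val o S t u) (k.val o S t u) (z.val o S t u)) := by
  simp only [eTA, ex_add, ex_mul, Ex.val, numZ,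
    ClosedGen.TAS, ClosedGen.TEES, ClosedGen.TMGS, ClosedGen.LEES, Closed.j1, ClosedGen.gES,
      ClosedGen.hES, ClosedGen.gMS, ClosedGen.gGS, ClosedGen.hMS, ClosedGen.hGS, ClosedGen.LMGS,
      Closed.LEE1, Closed.LEEc, Closed.LEEc_000000_0, Closed.LEEc_000000_1,
      Closed.LEEc_110000_0, Closed.LEEc_110000_1, Closed.LEEv, Closed.LEEw, ClosedGen.EE_g,
      ClosedGen.EE_k1, ClosedGen.EE_kc, ClosedGen.gE_1, ClosedGen.gE_c, ClosedGen.gE_w,
      ClosedGen.gE_k1, ClosedGen.hE_c, ClosedGen.hE_v, ClosedGen.gM_1, ClosedGen.gG_1,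
      ClosedGen.gG_c, ClosedGen.gG_v, ClosedGen.hM_c, ClosedGen.hG_c, ClosedGen.hG_g,
      ClosedGen.hG_kc, Closed.LMG1, Closed.LMG1_000000_0, Closed.LMG1_000000_1, Closed.LMGc,
      Closed.LMGc_000000_0, Closed.LMGc_000000_1, Closed.LMGv, Closed.LMGw, ClosedGen.MG_g,
      ClosedGen.MG_k1, ClosedGen.MG_kc, ClosedGen.MG_kw]
  push_cast
  ring

/-- `TMGS` at `g = 1`. -/
def eTMG (a d v p e k w z : Ex) : Ex :=
  ((((((((((((cC (-147) 10 * v * v * v * v * v * d + cC (-1323) 10 * v * v * v * v) * d + (cC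
    (-42) 5 * v * v + cC (-2352) 5) * v * v * v) * d + ((cC (-529) 5000 * v * v + cC (-42) 1) *
    v * v + cC (-4116) 5) * v * v) * d + ((cC (-1969) 625 * v * v + cC (-336) 5) * v * v + cC
    (-3528) 5) * v) * d + ((cC (-7587) 625 * v * v + cC (-168) 5) * v * v + cC (-1176) 5)) * d +
    cC (-11236) 625 * v * v * v) * d + cC (-5618) 625 * v * v) * a + ((((((((cC (-441) 10 * v *
    v * v * v * v * d + (cC (147) 10 * v + cC (-3969) 10) * v * v * v * v) * d + ((cC (-42) 1 *
    v + cC (1323) 10) * v + cC (-7056) 5) * v * v * v) * d + (((cC (-1587) 5000 * v * v + cC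
    (-1218) 5) * v + cC (2352) 5) * v + cC (-12348) 5) * v * v) * d + ((((cC (69) 250 * v + cC
    (-2907) 625) * v * v + cC (-504) 1) * v + cC (4116) 5) * v + cC (-10584) 5) * v) * d +
    ((((cC (-39) 125 * v + cC (-13761) 625) * v * v + cC (-2184) 5) * v + cC (3528) 5) * v + cC
    (-3528) 5)) * d + (((cC (-1947) 125 * v + cC (-27708) 625) * v * v + cC (-672) 5) * v + cC
    (1176) 5)) * d + (cC (-3816) 125 * v + cC (-16854) 625) * v * v) * d + cC (-1908) 125 * v *
    v)) * a + (((((((((cC (-1911) 40 * v * v * v * v * v * d + (cC (147) 4 * v + cC (-17199) 40)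
    * v * v * v * v) * d + ((cC (-2919) 40 * v + cC (1323) 4) * v + cC (-7644) 5) * v * v * v) *
    d + ((((cC (-1587) 5000 * v + cC (42) 5) * v + cC (-18543) 40) * v + cC 1176) * v + cC
    (-13377) 5) * v * v) * d + (((((cC (69) 125 * v + cC (-909) 1250) * v + cC (294) 5) * v + cC
    (-1092) 1) * v + cC 2058) * v + cC (-11466) 5) * v) * d + ((((((cC (-9) 50 * v + cC (9) 10)
    * v + cC (-21297) 1250) * v + cC (756) 5) * v + cC (-1155) 1) * v + cC 1764) * v + cC
    (-3822) 5)) * d + (((((cC (-273) 125 * v + cC (-636) 25) * v + cC (-35388) 625) * v + cC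
    168) * v + cC (-2562) 5) * v + cC 588)) * d + ((((cC (-9) 25 * v + cC (-1047) 25) * v + cC
    (-25194) 625) * v + cC (336) 5) * v + cC (-294) 5)) * d + cC (456) 125 * v * v * v) * d +
    (cC (228) 125 * v + cC (1908) 125) * v)) * a + ((((((((((cC (-441) 20 * v * v * v * v * v *
    d + (cC (147) 5 * v + cC (-3969) 20) * v * v * v * v) * d + ((cC (-1071) 20 * v + cC (1323)
    5) * v + cC (-3528) 5) * v * v * v) * d + ((((cC (-529) 5000 * v + cC (84) 5) * v + cC
    (-7287) 20) * v + cC (4704) 5) * v + cC (-6174) 5) * v * v) * d + (((((cC (69) 250 * v + cC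
    (-64) 625) * v + cC (588) 5) * v + cC (-4704) 5) * v + cC (8232) 5) * v + cC (-5292) 5) * v)
    * d + ((((((cC (-9) 50 * v + cC (387) 125) * v + cC (-10362) 625) * v + cC (1512) 5) * v +
    cC (-1134) 1) * v + cC (7056) 5) * v + cC (-1764) 5)) * d + (((((cC (-321) 125 * v + cC
    (-744) 125) * v + cC (-32596) 625) * v + cC 336) * v + cC (-3108) 5) * v + cC (2352) 5)) * d
    + (((((cC (9) 25 * v + cC (36) 25) * v + cC (438) 125) * v + cC (-22298) 625) * v + cC (672)
    5) * v + cC (-588) 5)) * d + ((cC (63) 25 * v + cC (192) 125) * v + cC (5454) 125) * v * v)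
    * d + ((cC (108) 25 * v + cC (-894) 125) * v + cC (3816) 125) * v) * d + (cC (54) 25 * v +
    cC (-108) 25) * v)) * a + (((((((((((cC (-147) 40 * v * v * v * v * v * d + (cC (147) 20 * v
    + cC (-1323) 40) * v * v * v * v) * d + ((cC (-567) 40 * v + cC (1323) 20) * v + cC (-588)
    5) * v * v * v) * d + (((cC (42) 5 * v + cC (-819) 8) * v + cC (1176) 5) * v + cC (-1029) 5)
    * v * v) * d + ((((cC (-219) 250 * v + cC (294) 5) * v + cC (-1428) 5) * v + cC (2058) 5) *
    v + cC (-882) 5) * v) * d + (((((cC (471) 250 * v + cC (-48) 5) * v + cC (756) 5) * v + cC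
    (-1911) 5) * v + cC (1764) 5) * v + cC (-294) 5)) * d + (((((cC (-48) 125 * v + cC (444)
    125) * v + cC (-2781) 125) * v + cC 168) * v + cC (-1218) 5) * v + cC (588) 5)) * d +
    (((((cC (9) 25 * v + cC (63) 50) * v + cC (2082) 125) * v + cC (-3381) 250) * v + cC (336)
    5) * v + cC (-294) 5)) * d + ((cC (18) 5 * v + cC (-894) 125) * v + cC (4086) 125) * v * v)
    * d + (((cC (-9) 50 * v + cC (189) 25) * v + cC (-2157) 125) * v + cC (2178) 125) * v) * d +
    ((cC (-9) 25 * v + cC (126) 25) * v + cC (-216) 25) * v) * d + ((cC (-9) 50 * v + cC (18)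
    25) * v + cC (-18) 25))) * a + ((((((cC (-9) 50 * v * v * v * v * d + (cC (-9) 25 * v + cC
    (-9) 25) * v * v * v) * d + ((cC (-27) 50 * v + cC (9) 5) * v + cC (-9) 50) * v * v) * d +
    ((cC (27) 25 * v + cC (-126) 25) * v + cC (108) 25) * v * v) * d + (((cC (-9) 50 * v + cC
    (81) 25) * v + cC (-207) 25) * v + cC (54) 25) * v) * d + ((cC (-9) 25 * v + cC (72) 25) * v
    + cC (-108) 25) * v) * d + ((cC (-9) 50 * v + cC (18) 25) * v + cC (-18) 25)) * d) * a +
    ((((((cC (-18) 25 * v * v * v * d + cC (-54) 25 * v * v) * d + cC (-36) 25 * v) * a + (((cC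
    (-63) 25 * v * v * v * d + (cC (9) 25 * v + cC (-189) 25) * v * v) * d + (cC (27) 25 * v +
    cC (-126) 25) * v) * d + cC (18) 25 * v)) * a + (((cC (-81) 25 * v * v * v * d + (cC (27) 25
    * v + cC (-243) 25) * v * v) * d + (cC (81) 25 * v + cC (-162) 25) * v) * d + cC (54) 25 *
    v) * d) * a + (((cC (-9) 5 * v * v * v * d + (cC (27) 25 * v + cC (-27) 5) * v * v) * d +
    (cC (81) 25 * v + cC (-18) 5) * v) * d + cC (54) 25 * v) * d * d) * a + (((cC (-9) 25 * v *
    v * v * d + (cC (9) 25 * v + cC (-27) 25) * v * v) * d + (cC (27) 25 * v + cC (-18) 25) * v)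
    * d + cC (18) 25 * v) * d * d * d) * a * w + ((((cC (48) 5 * v * v * v * v * d + cC (144) 5
    * v * v * v) * d + cC (96) 5 * v * v) * a + (((cC (72) 5 * v * v * v * v * d + (cC (-24) 5 *
    v + cC (216) 5) * v * v * v) * d + (cC (-72) 5 * v + cC (144) 5) * v * v) * d + cC (-48) 5 *
    v * v)) * a + (((cC (24) 5 * v * v * v * v * d + (cC (-24) 5 * v + cC (72) 5) * v * v * v) *
    d + (cC (-72) 5 * v + cC (48) 5) * v * v) * d + cC (-48) 5 * v * v) * d) * a * a * k +
    ((((((((cC (-42) 5 * v * v * v * v * d + cC (-42) 1 * v * v * v) * d + (cC (12) 5 * v * v +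
    cC (-336) 5) * v * v) * d + (cC (-84) 5 * v * v + cC (-168) 5) * v) * d + cC (-192) 5 * v *
    v) * d + cC (-96) 5 * v) * a + ((((((cC (-84) 5 * v * v * v * v * d + (cC (42) 5 * v + cC
    (-84) 1) * v * v * v) * d + ((cC (12) 5 * v + cC 42) * v + cC (-672) 5) * v * v) * d + (((cC
    (-12) 5 * v + cC (-204) 5) * v + cC (336) 5) * v + cC (-336) 5) * v) * d + ((cC (36) 5 * v +
    cC (-408) 5) * v + cC (168) 5) * v) * d + (cC (144) 5 * v + cC (-192) 5) * v) * d + cC (96)
    5 * v)) * a + (((((((cC (-21) 2 * v * v * v * v * d + (cC (63) 5 * v + cC (-105) 2) * v * v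
    * v) * d + ((cC (-27) 10 * v + cC 63) * v + cC (-84) 1) * v * v) * d + (((cC (-12) 5 * v +
    cC (-423) 10) * v + cC (504) 5) * v + cC (-42) 1) * v) * d + (((cC (3) 5 * v + cC (72) 5) *
    v + cC (-72) 1) * v + cC (252) 5) * v) * d + ((cC (3) 5 * v + cC (228) 5) * v + cC (-162) 5)
    * v) * d + (cC (-24) 5 * v + cC (144) 5) * v) * d + cC (-24) 5 * v)) * a + (((((((cC (-21)
    10 * v * v * v * v * d + (cC (21) 5 * v + cC (-21) 2) * v * v * v) * d + ((cC (-27) 10 * v +
    cC 21) * v + cC (-84) 5) * v * v) * d + ((cC (-183) 10 * v + cC (168) 5) * v + cC (-42) 5) *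
    v) * d + (((cC (3) 5 * v + cC (36) 5) * v + cC (-144) 5) * v + cC (84) 5) * v) * d + ((cC
    (3) 5 * v + cC (84) 5) * v + cC (-66) 5) * v) * d + (cC (-24) 5 * v + cC (48) 5) * v) * d +
    cC (-24) 5 * v) * d) * a * a * e + (((cC (-6) 5 * v * v * v * d + cC (-6) 5 * v * v) * d * d
    * a + ((cC (-6) 5 * v * v * v * d + (cC (6) 5 * v + cC (-6) 5) * v * v) * d + cC (6) 5 * v *
    v) * d * d) * a + (((cC (-3) 10 * v * v * v * d + (cC (3) 5 * v + cC (-3) 10) * v * v) * d +
    (cC (-3) 10 * v + cC (3) 5) * v * v) * d + cC (-3) 10 * v * v) * d * d) * a * a * e * e +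
    ((((((cC (-18) 25 * v * v * v * v * d + cC (-18) 25 * v * v * v) * d * d * a + (((((cC (63)
    100 * v * v * v * v * d + ((cC (-69) 1000 * v + cC (-72) 25) * v + cC (63) 20) * v * v * v)
    * d + ((cC (-3) 20 * v + cC (-18) 5) * v + cC (126) 25) * v * v) * d + ((cC (-1263) 500 * v
    + cC (-18) 25) * v + cC (63) 25) * v) * d + cC (-594) 125 * v * v) * d + cC (-297) 125 * v))
    * a + ((((((cC (189) 100 * v * v * v * v * d + ((cC (-207) 1000 * v + cC (-1293) 250) * v +
    cC (189) 20) * v * v * v) * d + (((cC (9) 100 * v + cC (-81) 100) * v + cC (-2169) 250) * v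
    + cC (378) 25) * v * v) * d + (((cC (-18) 25 * v + cC (-4329) 500) * v + cC (-438) 125) * v
    + cC (189) 25) * v) * d + (cC (-9) 5 * v + cC (-1872) 125) * v * v) * d + (cC (-36) 25 * v +
    cC (-891) 125) * v) * d + cC (-9) 25 * v)) * a + (((((((cC (819) 400 * v * v * v * v * d +
    ((cC (-207) 1000 * v + cC (-51) 10) * v + cC (819) 80) * v * v * v) * d + (((cC (9) 50 * v +
    cC (-1401) 2000) * v + cC (-54) 5) * v + cC (819) 50) * v * v) * d + (((cC (-63) 50 * v + cC
    (-18189) 2000) * v + cC (-57) 10) * v + cC (819) 100) * v) * d + ((cC (-9) 40 * v + cC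
    (-243) 100) * v + cC (-4083) 250) * v * v) * d + ((cC (63) 200 * v + cC (-81) 50) * v + cC
    (-3969) 500) * v) * d + cC (18) 25 * v * v) * d + (cC (9) 50 * v + cC (9) 25))) * a +
    (((((((cC (189) 200 * v * v * v * v * d + ((cC (-69) 1000 * v + cC (-651) 250) * v + cC
    (189) 40) * v * v * v) * d + (((cC (9) 100 * v + cC (429) 1000) * v + cC (-1593) 250) * v +
    cC (189) 25) * v * v) * d + (((cC (-9) 25 * v + cC (-2319) 1000) * v + cC (-471) 125) * v +
    cC (189) 50) * v) * d + ((cC (-9) 20 * v + cC (27) 50) * v + cC (-843) 125) * v * v) * d +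
    ((cC (63) 100 * v + cC (27) 25) * v + cC (-999) 250) * v) * d + (cC (36) 25 * v + cC (27)
    25) * v) * d + (cC (9) 25 * v + cC (18) 25)) * d) * a + (((((((cC (63) 400 * v * v * v * v *
    d + (cC (-129) 250 * v + cC (63) 80) * v * v * v) * d + ((cC (939) 2000 * v + cC (-171) 125)
    * v + cC (63) 50) * v * v) * d + (((cC (9) 50 * v + cC (1287) 2000) * v + cC (-213) 250) * v
    + cC (63) 100) * v) * d + ((cC (-9) 40 * v + cC (117) 100) * v + cC (-159) 250) * v * v) * d
    + ((cC (63) 200 * v + cC (63) 50) * v + cC (-81) 100) * v) * d + (cC (18) 25 * v + cC (18)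
    25) * v) * d + (cC (9) 50 * v + cC (9) 25)) * d * d) * a * p + (((((cC (-204) 125 * v * v *
    v * v * d + cC (-612) 125 * v * v * v) * d + cC (-408) 125 * v * v) * d * d * d * a + (((cC
    (-102) 25 * v * v * v * v * d + (cC (204) 125 * v + cC (-306) 25) * v * v * v) * d + (cC
    (612) 125 * v + cC (-204) 25) * v * v) * d + cC (408) 125 * v * v) * d * d * d) * a + (((cC
    (-408) 125 * v * v * v * v * d + (cC (408) 125 * v + cC (-1224) 125) * v * v * v) * d + (cC
    (1224) 125 * v + cC (-816) 125) * v * v) * d + cC (816) 125 * v * v) * d * d * d * d) * a +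
    (((cC (-102) 125 * v * v * v * v * d + (cC (204) 125 * v + cC (-306) 125) * v * v * v) * d +
    (cC (612) 125 * v + cC (-204) 125) * v * v) * d + cC (408) 125 * v * v) * d * d * d * d * d)
    * a * p * z + ((((cC (-9) 50 * v * v * v * d + cC (-9) 50 * v * v) * d * d * a + (cC (-9) 25
    * v * v * v * d + cC (-9) 25 * v * v) * d * d * d) * a + (((cC (-9) 40 * v * v * v * d + cC
    (-9) 40 * v * v) * d + cC (9) 200 * v * v * v) * d + cC (9) 200 * v * v) * d * d) * a +
    (((cC (-9) 200 * v * v * v * d + cC (-9) 200 * v * v) * d + cC (9) 200 * v * v * v) * d + cC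
    (9) 200 * v * v) * d * d * d) * a * p * e + ((((((((cC (-9) 800 * v * v * v * v * d + cC
    (153) 4000 * v * v * v) * d + cC (-27) 4000 * v * v) * d + cC (-9) 100 * v) * d + cC (-9)
    200) * a + ((((cC (-27) 800 * v * v * v * v * d + cC (459) 4000 * v * v * v) * d + (cC (-27)
    4000 * v + cC (-81) 4000) * v * v) * d + (cC (-27) 4000 * v + cC (-27) 100) * v) * d + cC
    (-27) 200) * d) * a + ((((cC (-27) 800 * v * v * v * v * d + cC (1809) 16000 * v * v * v) *
    d + (cC (-27) 1600 * v + cC (-351) 16000) * v * v) * d + ((cC (-27) 16000 * v + cC (-27)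
    1600) * v + cC (-27) 100) * v) * d + (cC (-27) 16000 * v * v + cC (-27) 200)) * d * d) * a +
    ((((cC (-9) 800 * v * v * v * v * d + cC (279) 8000 * v * v * v) * d + (cC (-27) 2000 * v +
    cC (-81) 8000) * v * v) * d + ((cC (-27) 8000 * v + cC (-27) 2000) * v + cC (-9) 100) * v) *
    d + (cC (-27) 8000 * v * v + cC (-9) 200)) * d * d * d) * a + (((cC (-27) 16000 * v * v * v
    * d + (cC (-27) 8000 * v + cC (-27) 16000) * v * v) * d + (cC (-27) 16000 * v + cC (-27)
    8000) * v * v) * d + cC (-27) 16000 * v * v) * d * d * d * d) * p * p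

theorem val_eTMG (a d v p e k w z : Ex) (o S t u : ℝ) :
    (eTMG a d v p e k w z).val o S t u =
      ClosedGen.TMGS (a.val o S t u) (d.val o S t u) (v.val o S t u) 1 (p.val o S t u) (w.val o
        S t u) 0 (numZ (e.val o S t u) (k.val o S t u) (z.val o S t u)) := by
  simp only [eTMG, ex_add, ex_mul, Ex.val, numZ,
    ClosedGen.TMGS, ClosedGen.LMGS, Closed.j1, ClosedGen.gMS, ClosedGen.gGS, ClosedGen.hMS,
      ClosedGen.hGS, ClosedGen.gES, ClosedGen.hES, Closed.LMG1, Closed.LMG1_000000_0,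
      Closed.LMG1_000000_1, Closed.LMGc, Closed.LMGc_000000_0, Closed.LMGc_000000_1,
      Closed.LMGv, Closed.LMGw, ClosedGen.MG_g, ClosedGen.MG_k1, ClosedGen.MG_kc,
      ClosedGen.MG_kw, ClosedGen.gM_1, ClosedGen.gG_1, ClosedGen.gG_c, ClosedGen.gG_v,
      ClosedGen.hM_c, ClosedGen.hG_c, ClosedGen.hG_g, ClosedGen.hG_kc, ClosedGen.gE_1,
      ClosedGen.gE_c, ClosedGen.gE_w, ClosedGen.gE_k1, ClosedGen.hE_c, ClosedGen.hE_v]
  push_cast
  ring

/-- `TMES` at `g = 1`. -/
def eTME (a d v p e k w : Ex) : Ex :=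
  ((((cC (3) 10 * v * v * d + cC (3) 5 * v) * a + ((cC (3) 4 * v * v * d + (cC (3) 20 * v + cC
    (3) 2) * v) * d + cC (3) 10 * v)) * a + ((cC (3) 5 * v * v * d + (cC (3) 10 * v + cC (6) 5)
    * v) * d + cC (3) 5 * v) * d) * a + ((cC (3) 20 * v * v * d + (cC (3) 20 * v + cC (3) 10) *
    v) * d + cC (3) 10 * v) * d * d) * w + ((cC (-4) 1 * v * v * v * d + cC (-8) 1 * v * v) * a
    + ((cC (-2) 1 * v * v * v * d + (cC 2 * v + cC (-4) 1) * v * v) * d + cC 4 * v * v)) * a * k
    + (((cC 4 * v * v * d + cC 12 * v) * d + (cC (-4) 1 * v + cC 8)) * a + (((cC 2 * v * v * d +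
    (cC (-2) 1 * v + cC 6) * v) * d + (cC (-8) 1 * v + cC 4)) * d + (cC 2 * v + cC (-4) 1))) * a
    * e + ((((((cC (-23) 100 * v * v * v * d + cC (-53) 25 * v * v) * d + cC (-53) 25 * v) * a +
    (((cC (-23) 40 * v * v * v * d + (cC (69) 200 * v + cC (-53) 10) * v * v) * d + (cC (69) 50
    * v + cC (-53) 10) * v) * d + cC (69) 50 * v)) * a + ((((cC (-23) 50 * v * v * v * d + (cC
    (69) 100 * v + cC (-227) 50) * v * v) * d + (cC (69) 25 * v + cC (-227) 50) * v) * d + (cC
    (3) 5 * v + cC (69) 25) * v) * d + cC (3) 10 * v)) * a + ((((cC (-23) 200 * v * v * v * d +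
    (cC (69) 200 * v + cC (-151) 100) * v * v) * d + (cC (69) 50 * v + cC (-151) 100) * v) * d +
    (cC (9) 10 * v + cC (69) 50) * v) * d + (cC (3) 20 * v + cC (9) 20) * v) * d) * a + (((cC
    (-3) 20 * v * v * d + cC (-3) 20 * v) * d + cC (3) 10 * v * v) * d + (cC (3) 20 * v + cC (3)
    20) * v) * d * d) * p + (((cC (-2) 1 * v * d + cC (-2) 1) * a + ((cC (-3) 1 * v * d + (cC 1
    * v + cC (-3) 1)) * d + cC 1)) * a + ((cC (-1) 1 * v * d + (cC 1 * v + cC (-1) 1)) * d + cC
    1) * d) * a * p * e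

theorem val_eTME (a d v p e k w : Ex) (o S t u : ℝ) (z : ℝ) :
    (eTME a d v p e k w).val o S t u =
      ClosedGen.TMES (a.val o S t u) (d.val o S t u) (v.val o S t u) 1 (p.val o S t u) (w.val o
        S t u) 0 (numZ (e.val o S t u) (k.val o S t u) z) := by
  simp only [eTME, ex_add, ex_mul, Ex.val, numZ,
    ClosedGen.TMES, ClosedGen.TME_c, ClosedGen.TME_v, ClosedGen.TME_w]
  push_cast
  ring

end Vale.Agent.P100.Calib.Closed.Six.Low
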