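import Vale.Agent.P100.Calib.SlabSixSignExpr

/-!
# Normal forms of the closed forms of dimension six: scaling, secants in `p` and in `z`
-/

set_option linter.unusedVariables false
set_option linter.unusedSimpArgs false

namespace Vale.Agent.P100.Calib.Closed.Six.Tail

open Six.Low (numZ)


/-- A coefficient of `TGGS`. -/
noncomputable def cG00000 (a d v : ℝ) : ℝ :=
  ((((((((((((-(9 / 25)) * v * v * v * v * v * d + (-(69 / 25)) * v * v * v * v) * d + (-(24 /
    5)) * v * v * v) * d + (-(12 / 5)) * v * v)) * a + ((((((63 / 50) * v * v * v * v * v * d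
    + ((((((-(81 / 50)) * v + (63 / 10)) * v) * v) * v) * v)) * d + ((((((-(147 / 125)) * v +
    (-(537 / 50))) * v + (252 / 25)) * v) * v) * v)) * d + (((((-(183 / 25)) * v + (-(438 /
    25))) * v + (126 / 25)) * v) * v)) * d + ((((-(1536 / 125)) * v + (-(42 / 5))) * v) * v))
    * d + (-(768 / 125)) * v * v)) * a + ((((((((-(441 / 400)) * v * v * v * v * v * d +
    ((((((441 / 100) * v + (-(3969 / 400))) * v) * v) * v) * v)) * d + ((((((-(1821 / 500)) *
    v + (2331 / 100)) * v + (-(882 / 25))) * v) * v) * v)) * d + (((((((-(1587 / 200000)) * v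
    + (-(531 / 125))) * v + (-(9453 / 500))) * v + (2079 / 50)) * v + (-(3087 / 50))) * v) *
    v)) * d + ((((((5643 / 25000) * v + (-(603 / 25))) * v + (-(3378 / 125))) * v + (693 /
    25)) * v + (-(1323 / 25))) * v)) * d + (((((34989 / 25000) * v + (-(4788 / 125))) * v +
    (-(294 / 25))) * v + (126 / 25)) * v + (-(441 / 25)))) * d + ((((14673 / 6250) * v +
    (-(2304 / 125))) * v) * v)) * d + (14673 / 12500) * v * v)) * a + (((((((((-(441 / 160)) *
    v * v * v * v * v * d + ((((((30849 / 4000) * v + (-(3969 / 160))) * v) * v) * v) * v)) *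
    d + ((((((-(2583 / 500)) * v + (185073 / 4000)) * v + (-(441 / 5))) * v) * v) * v)) * d +
    (((((((-(1587 / 80000)) * v + (-(699 / 100))) * v + (-(567 / 25))) * v + (51219 / 500)) *
    v + (-(3087 / 20))) * v) * v)) * d + (((((((-(1587 / 400000)) * v + (5643 / 10000)) * v +
    (-(16737 / 500))) * v + (-(15519 / 500))) * v + (10353 / 100)) * v + (-(1323 / 10))) * v))
    * d + ((((((4293 / 50000) * v + (38589 / 10000)) * v + (-(5919 / 125))) * v + (-(4011 /
    250))) * v + (12117 / 250)) * v + (-(441 / 10)))) * d + (((((40239 / 50000) * v + (18273 /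
    2500)) * v + (-(5217 / 250))) * v + (-(63 / 25))) * v + (441 / 50))) * d + ((((17973 /
    12500) * v + (23673 / 5000)) * v) * v)) * d + (((17973 / 25000) * v + (18 / 25)) * v))) *
    a + ((((((((((-(3969 / 1600)) * v * v * v * v * v * d + ((((((924 / 125) * v + (-(35721 /
    1600))) * v) * v) * v) * v)) * d + ((((((-(220519 / 40000)) * v + (48909 / 1000)) * v +
    (-(3969 / 50))) * v) * v) * v)) * d + (((((((-(1587 / 100000)) * v + (-(13227 / 2000))) *
    v + (-(206083 / 8000))) * v + (123291 / 1000)) * v + (-(27783 / 200))) * v) * v)) * d +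
    (((((((-(1587 / 200000)) * v + (7203 / 12500)) * v + (-(54381 / 2000))) * v + (-(53071 /
    1250))) * v + (14721 / 100)) * v + (-(11907 / 100))) * v)) * d + ((((((16551 / 50000) * v
    + (52989 / 12500)) * v + (-(34827 / 1000))) * v + (-(139187 / 5000))) * v + (20769 / 250))
    * v + (-(3969 / 100)))) * d + ((((((-(9 / 400)) * v + (112833 / 50000)) * v + (26343 /
    3125)) * v + (-(1551 / 100))) * v + (-(609 / 500))) * v + (441 / 25))) * d + (((((-(9 /
    400)) * v + (96777 / 25000)) * v + (38793 / 6250)) * v + (-(63 / 50))) * v + (441 / 100)))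
    * d + (((7137 / 3125) * v + (36 / 25)) * v)) * d + (423 / 1250) * v)) * a +
    (((((((((((-(3087 / 3200)) * v * v * v * v * v * d + ((((((10941 / 3200) * v + (-(27783 /
    3200))) * v) * v) * v) * v)) * d + ((((((-(290217 / 80000)) * v + (76461 / 3200)) * v +
    (-(3087 / 100))) * v) * v) * v)) * d + (((((((-(1587 / 400000)) * v + (-(269989 / 80000)))
    * v + (-(304389 / 16000))) * v + (25641 / 400)) * v + (-(21609 / 400))) * v) * v)) * d +
    (((((((-(1587 / 400000)) * v + (46281 / 100000)) * v + (-(211441 / 16000))) * v +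
    (-(355437 / 10000))) * v + (32739 / 400)) * v + (-(9261 / 200))) * v)) * d + ((((((9399 /
    25000) * v + (320103 / 100000)) * v + (-(177589 / 10000))) * v + (-(241791 / 10000))) * v
    + (9849 / 200)) * v + (-(3087 / 200)))) * d + ((((((-(27 / 1250)) * v + (99459 / 50000)) *
    v + (317247 / 50000)) * v + (-(118667 / 10000))) * v + (2583 / 1000)) * v + (441 / 40))) *
    d + ((((((-(9 / 800)) * v + (-(27 / 10000))) * v + (154407 / 50000)) * v + (64209 /
    12500)) * v + (-(6153 / 1000))) * v + (1323 / 200))) * d + (((((-(9 / 800)) * v + (27 /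
    10000)) * v + (49563 / 25000)) * v + (153 / 100)) * v + (-(441 / 200)))) * d + (((-(27 /
    1000)) * v + (1269 / 2500)) * v)) * d + (-(27 / 2500)) * v)) * a + ((((((((((((-(441 /
    3200)) * v * v * v * v * v * d + ((((((9429 / 16000) * v + (-(3969 / 3200))) * v) * v) *
    v) * v)) * d + ((((((-(71899 / 80000)) * v + (67893 / 16000)) * v + (-(441 / 100))) * v) *
    v) * v)) * d + ((((((-(54349 / 80000)) * v + (-(80287 / 16000))) * v + (23499 / 2000)) * v
    + (-(3087 / 400))) * v) * v)) * d + ((((((4503 / 20000) * v + (-(43177 / 16000))) * v +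
    (-(98209 / 10000))) * v + (1239 / 80)) * v + (-(1323 / 200))) * v)) * d + ((((((327 /
    2500) * v + (5631 / 4000)) * v + (-(42679 / 10000))) * v + (-(66257 / 10000))) * v + (9597
    / 1000)) * v + (-(441 / 200)))) * d + ((((((9 / 10000) * v + (5103 / 10000)) * v + (28497
    / 10000)) * v + (-(49367 / 10000))) * v + (1281 / 1000)) * v + (441 / 200))) * d +
    ((((((-(9 / 800)) * v + (63 / 10000)) * v + (5469 / 10000)) * v + (24771 / 10000)) * v +
    (-(4893 / 1000))) * v + (441 / 200))) * d + (((((-(9 / 800)) * v + (-(783 / 10000))) * v +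
    (1413 / 5000)) * v + (81 / 100)) * v + (-(441 / 200)))) * d + (((-(81 / 400)) * v + (72 /
    625)) * v)) * d + (-(108 / 625)) * v) * d + (-(27 / 500)))) * a + ((((((((-(27 / 4000)) *
    v * v * v * v * d + (((((-(81 / 4000)) * v + (-(27 / 2000))) * v) * v) * v)) * d +
    (((((-(81 / 4000)) * v + (-(27 / 400))) * v + (-(27 / 4000))) * v) * v)) * d + (((((-(27 /
    4000)) * v + (-(189 / 2000))) * v + (-(297 / 4000))) * v) * v)) * d + ((((-(81 / 2000)) *
    v + (-(621 / 4000))) * v + (-(27 / 1000))) * v)) * d + (((-(351 / 4000)) * v + (-(27 /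
    250))) * v)) * d + ((-(81 / 1000)) * v + (-(27 / 1000)))) * d + (-(27 / 1000))))

/-- A coefficient of `TGGS`. -/
noncomputable def cG01000 (a d v : ℝ) : ℝ :=
  (((((((((((9 / 50) * v * v * v * v * d + (9 / 50) * v * v * v) * d) * d)) * a + ((((((-(63 /
    200)) * v * v * v * v * d + (((((18 / 25) * v + (-(63 / 40))) * v) * v) * v)) * d + (((((9
    / 100) * v + (9 / 10)) * v + (-(63 / 25))) * v) * v)) * d + ((((-(9 / 100)) * v + (9 /
    50)) * v + (-(63 / 50))) * v)) * d + (-(9 / 25)) * v * v) * d + (-(9 / 50)) * v)) * a +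
    (((((((-(189 / 200)) * v * v * v * v * d + (((((1293 / 1000) * v + (-(189 / 40))) * v) *
    v) * v)) * d + (((((27 / 100) * v + (2169 / 1000)) * v + (-(189 / 25))) * v) * v)) * d +
    (((((1107 / 20000) * v + (-(27 / 100))) * v + (219 / 250)) * v + (-(189 / 50))) * v)) * d
    + ((((-(117 / 4000)) * v + (-(27 / 25))) * v) * v)) * d + (((-(423 / 2500)) * v + (-(27 /
    50))) * v)) * d + (-(423 / 5000)) * v)) * a + ((((((((-(819 / 800)) * v * v * v * v * d +
    (((((51 / 40) * v + (-(819 / 160))) * v) * v) * v)) * d + (((((1149 / 4000) * v + (27 /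
    10)) * v + (-(819 / 100))) * v) * v)) * d + (((((927 / 8000) * v + (-(603 / 4000))) * v +
    (57 / 40)) * v + (-(819 / 200))) * v)) * d + (((((1107 / 40000) * v + (-(9 / 64))) * v +
    (-(177 / 250))) * v) * v)) * d + ((((243 / 8000) * v + (-(117 / 250))) * v + (-(27 /
    100))) * v)) * d + (((27 / 5000) * v + (-(423 / 2000))) * v)) * d + (27 / 10000) * v)) * a
    + (((((((((-(189 / 400)) * v * v * v * v * d + (((((651 / 1000) * v + (-(189 / 80))) * v)
    * v) * v)) * d + (((((249 / 2000) * v + (1593 / 1000)) * v + (-(189 / 50))) * v) * v)) * d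
    + (((((657 / 10000) * v + (297 / 2000)) * v + (471 / 500)) * v + (-(189 / 100))) * v)) * d
    + (((((1107 / 20000) * v + (-(9 / 50))) * v + (48 / 125)) * v) * v)) * d + ((((297 / 4000)
    * v + (-(2007 / 5000))) * v + (9 / 25)) * v)) * d + (((81 / 1250) * v + (-(1557 / 10000)))
    * v)) * d + (729 / 10000) * v) * d + (27 / 1000))) * a + ((((((((((-(63 / 800)) * v * v *
    v * v * d + (((((129 / 1000) * v + (-(63 / 160))) * v) * v) * v)) * d + (((((69 / 4000) *
    v + (171 / 500)) * v + (-(63 / 100))) * v) * v)) * d + (((((207 / 40000) * v + (477 /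
    4000)) * v + (213 / 1000)) * v + (-(63 / 200))) * v)) * d + (((((1107 / 40000) * v + (-(99
    / 1600))) * v + (93 / 250)) * v) * v)) * d + ((((459 / 8000) * v + (-(891 / 10000))) * v +
    (27 / 100)) * v)) * d + ((((27 / 4000) * v + (999 / 10000)) * v + (-(441 / 20000))) * v))
    * d + (((27 / 1000) * v + (1107 / 10000)) * v)) * d + ((27 / 800) * v + (81 / 2000))) * d
    + (27 / 2000))) * a + (((((((27 / 4000) * v * v * v * d + ((((27 / 2000) * v + (27 /
    2000)) * v) * v)) * d + ((((27 / 4000) * v + (81 / 2000)) * v + (27 / 4000)) * v)) * d +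
    (((27 / 1000) * v + (81 / 2000)) * v)) * d + ((27 / 800) * v + (27 / 2000))) * d + (27 /
    2000)) * d))

/-- A coefficient of `TGGS`. -/
noncomputable def cG02000 (a d v : ℝ) : ℝ :=
  ((((((((((-(9 / 400)) * v * v * v * d + (-(9 / 400)) * v * v) * d) * d)) * a + (((((-(63 /
    800)) * v * v * v * d + ((((-(9 / 800)) * v + (-(63 / 800))) * v) * v)) * d + (-(9 / 800))
    * v * v) * d) * d)) * a + ((((((-(81 / 800)) * v * v * v * d + ((((-(27 / 800)) * v +
    (-(81 / 800))) * v) * v)) * d + (-(27 / 800)) * v * v) * d + (-(27 / 8000)) * v * v) * d +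
    (-(27 / 4000)) * v) * d + (-(27 / 8000)))) * a + (((((((-(9 / 160)) * v * v * v * d +
    ((((-(27 / 800)) * v + (-(9 / 160))) * v) * v)) * d + (-(27 / 800)) * v * v) * d + (-(27 /
    3200)) * v * v) * d + (((-(27 / 16000)) * v + (-(27 / 1600))) * v)) * d + ((-(27 / 8000))
    * v + (-(27 / 3200)))) * d + (-(27 / 16000)))) * a + ((((((((-(9 / 800)) * v * v * v * d +
    ((((-(9 / 800)) * v + (-(9 / 800))) * v) * v)) * d + (-(9 / 800)) * v * v) * d + (-(27 /
    4000)) * v * v) * d + (((-(27 / 8000)) * v + (-(27 / 2000))) * v)) * d + ((-(27 / 4000)) *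
    v + (-(27 / 4000)))) * d + (-(27 / 8000))) * d)) * a + ((((((-(27 / 16000)) * v * v * d +
    (((-(27 / 16000)) * v + (-(27 / 8000))) * v)) * d + ((-(27 / 8000)) * v + (-(27 /
    16000)))) * d + (-(27 / 16000))) * d) * d))

/-- A coefficient of `TGGS`. -/
noncomputable def cG10000 (a d v : ℝ) : ℝ :=
  ((((((((((((-(204 / 125)) * v * v * v * v * v * d + (-(612 / 125)) * v * v * v * v) * d +
    (-(408 / 125)) * v * v * v) * d) * d) * d)) * a + ((((((((357 / 125) * v * v * v * v * v *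
    d + ((((((-(612 / 125)) * v + (2499 / 125)) * v) * v) * v) * v)) * d + ((((((-(306 / 125))
    * v + (-(408 / 25))) * v + (6426 / 125)) * v) * v) * v)) * d + (((((-(918 / 125)) * v +
    (-(1836 / 125))) * v + (1428 / 25)) * v) * v)) * d + ((((-(612 / 125)) * v + (-(408 /
    125))) * v + (2856 / 125)) * v)) * d) * d) * d)) * a + (((((((((714 / 125) * v * v * v * v
    * v * d + ((((((-(6052 / 625)) * v + (4998 / 125)) * v) * v) * v) * v)) * d + ((((((-(714
    / 125)) * v + (-(5848 / 125))) * v + (12852 / 125)) * v) * v) * v)) * d + ((((((51 / 125)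
    * v + (-(2346 / 125))) * v + (-(52496 / 625))) * v + (2856 / 25)) * v) * v)) * d +
    (((((153 / 125) * v + (-(408 / 25))) * v + (-(43588 / 625))) * v + (5712 / 125)) * v)) * d
    + ((((102 / 125) * v + (-(408 / 125))) * v + (-(2856 / 125))) * v)) * d) * d) * d)) * a +
    ((((((((((357 / 100) * v * v * v * v * v * d + ((((((-(11271 / 1250)) * v + (2499 / 100))
    * v) * v) * v) * v)) * d + ((((((-(10829 / 2500)) * v + (-(12699 / 250))) * v + (3213 /
    50)) * v) * v) * v)) * d + ((((((102 / 125) * v + (-(1411 / 100))) * v + (-(66504 / 625)))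
    * v + (357 / 5)) * v) * v)) * d + ((((((459 / 250) * v + (357 / 125)) * v + (-(11441 /
    1250))) * v + (-(61812 / 625))) * v + (714 / 25)) * v)) * d + (((((2193 / 250) * v + (357
    / 125)) * v + (3961 / 625)) * v + (-(4284 / 125))) * v)) * d + ((((1683 / 125) * v + (102
    / 125)) * v + (714 / 125)) * v)) * d + (816 / 125) * v * v) * d) * d)) * a +
    (((((((((((357 / 500) * v * v * v * v * v * d + ((((((-(3247 / 1250)) * v + (2499 / 500))
    * v) * v) * v) * v)) * d + ((((((-(2669 / 2500)) * v + (-(3859 / 250))) * v + (3213 /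
    250)) * v) * v) * v)) * d + ((((((51 / 125) * v + (-(1343 / 500))) * v + (-(21148 / 625)))
    * v + (357 / 25)) * v) * v)) * d + ((((((459 / 250) * v + (204 / 125)) * v + (2839 /
    1250)) * v + (-(20264 / 625))) * v + (714 / 125)) * v)) * d + (((((2193 / 250) * v + (51 /
    25)) * v + (6001 / 625)) * v + (-(1428 / 125))) * v)) * d + ((((1683 / 125) * v + (102 /
    125)) * v + (714 / 125)) * v)) * d + (816 / 125) * v * v) * d) * d) * d)) * a)

/-- A coefficient of `TGGS`. -/
noncomputable def cG11000 (a d v : ℝ) : ℝ :=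
  (((((((((((51 / 125) * v * v * v * v * d + (153 / 125) * v * v * v) * d + (102 / 125) * v * v)
    * d) * d) * d)) * a + (((((((51 / 50) * v * v * v * v * d + (((((-(51 / 250)) * v + (153 /
    50)) * v) * v) * v)) * d + ((((-(153 / 250)) * v + (51 / 25)) * v) * v)) * d + (-(51 /
    125)) * v * v) * d) * d) * d)) * a + ((((((((102 / 125) * v * v * v * v * d + (((((-(51 /
    125)) * v + (306 / 125)) * v) * v) * v)) * d + ((((-(153 / 125)) * v + (204 / 125)) * v) *
    v)) * d + (-(102 / 125)) * v * v) * d) * d) * d) * d)) * a + (((((((((51 / 250) * v * v *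
    v * v * d + (((((-(51 / 250)) * v + (153 / 250)) * v) * v) * v)) * d + ((((-(153 / 250)) *
    v + (51 / 125)) * v) * v)) * d + (-(51 / 125)) * v * v) * d) * d) * d) * d) * d)) * a)

/-- A coefficient of `TGGS`. -/
noncomputable def cG20000 (a d v : ℝ) : ℝ :=
  -(Closed.j1 a d * a * (a + d) * d ^ 2 * (1 + d * v) *
    (34 / 25 * v * d * (2 + d * v)) ^ 2)

/-- `TGGS` at `g = 1`. -/
noncomputable def G6 (a d v z p : ℝ) : ℝ :=
    cG00000 a d v +
    cG01000 a d v * (p) +
    cG02000 a d v * (p) * (p) +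
    cG10000 a d v * z +
    cG11000 a d v * z * (p) +
    cG20000 a d v * z * z

theorem G_scale (a d v g W W1 R E K z : ℝ) :
    ClosedGen.TGGS a d v g W W1 R (numZ E K z) =
      G6 a d v z (g * W) := by
  simp only [G6, cG00000, cG01000, cG02000, cG10000, cG11000, cG20000, ClosedGen.TGGS, ClosedGen.LGGS, Closed.LGGc, Closed.LGGv, ClosedGen.GG_g, ClosedGen.GG_g0, ClosedGen.GG_kg, Closed.j1, ClosedGen.gGS, ClosedGen.gG_1, ClosedGen.gG_c, ClosedGen.gG_v, ClosedGen.hGS, ClosedGen.hG_c, ClosedGen.hG_g, ClosedGen.hG_kc, numZ]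
  ring

/-- A coefficient of `TEGS`. -/
noncomputable def cY00000 (a d v : ℝ) : ℝ :=
  ((((((((((((84 / 5) * v * v * v * v * d + (((((-(69 / 125)) * v * v + 84) * v) * v) * v)) * d
    + ((((-(36 / 125)) * v * v + (672 / 5)) * v) * v)) * d + (((-(36 / 125)) * v * v + (336 /
    5)) * v))) * a + (((((((((((483 / 250) * v + (294 / 5)) * v) * v) * v) * v)) * d +
    ((((((-(276 / 125)) * v + (4242 / 125)) * v + 294) * v) * v) * v)) * d + ((((((21 / 125) *
    v + (-(513 / 125))) * v + (17346 / 125)) * v + (2352 / 5)) * v) * v)) * d + (((((84 / 125)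
    * v + (-(216 / 25))) * v + (26208 / 125)) * v + (1176 / 5)) * v)) * d + ((((84 / 125) * v
    + (-(636 / 125))) * v + (13104 / 125)) * v))) * a + ((((((((((((1449 / 250) * v + (399 /
    5)) * v) * v) * v) * v)) * d + ((((((-(17893 / 2500)) * v + (12726 / 125)) * v + 399) * v)
    * v) * v)) * d + ((((((57 / 250) * v + (-(30882 / 625))) * v + (52038 / 125)) * v + (3192
    / 5)) * v) * v)) * d + ((((((-(441 / 500)) * v + (-(63 / 25))) * v + (-(93399 / 625))) * v
    + (78624 / 125)) * v + (1596 / 5)) * v)) * d + (((((-(441 / 125)) * v + (-(1242 / 125))) *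
    v + (-(112916 / 625))) * v + (39312 / 125)) * v)) * d + ((((-(441 / 125)) * v + (-(996 /
    125))) * v + (-(9744 / 125))) * v))) * a + (((((((((((((6279 / 1000) * v + (105 / 2)) * v)
    * v) * v) * v)) * d + ((((((-(563 / 50)) * v + (28203 / 250)) * v + (525 / 2)) * v) * v) *
    v)) * d + ((((((3767 / 5000) * v + (-(10191 / 100))) * v + (115899 / 250)) * v + 420) * v)
    * v)) * d + ((((((-(951 / 500)) * v + (-(17127 / 1250))) * v + (-(7863 / 25))) * v +
    (87696 / 125)) * v + 210) * v)) * d + ((((((9 / 50) * v + (-(3501 / 500))) * v + (-(29787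
    / 625))) * v + (-(9509 / 25))) * v + (43848 / 125)) * v)) * d + (((((33 / 25) * v + (-(648
    / 125))) * v + (-(26038 / 625))) * v + (-(3612 / 25))) * v)) * d + ((((33 / 25) * v + (303
    / 125)) * v + (-(894 / 125))) * v + (504 / 25)))) * a + ((((((((((((((1449 / 500) * v +
    (84 / 5)) * v) * v) * v) * v)) * d + ((((((-(37177 / 5000)) * v + (6993 / 125)) * v + 84)
    * v) * v) * v)) * d + ((((((2897 / 2500) * v + (-(186411 / 2500))) * v + (29169 / 125)) *
    v + (672 / 5)) * v) * v)) * d + ((((((-(1089 / 1000)) * v + (-(12432 / 625))) * v +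
    (-(566877 / 2500))) * v + (44352 / 125)) * v + (336 / 5)) * v)) * d + ((((((9 / 50) * v +
    (-(1053 / 500))) * v + (-(43554 / 625))) * v + (-(159712 / 625))) * v + (22176 / 125)) *
    v)) * d + ((((((9 / 100) * v + (48 / 25)) * v + (4977 / 500)) * v + (-(41396 / 625))) * v
    + (-(7833 / 125))) * v)) * d + (((((9 / 25) * v + (39 / 25)) * v + (576 / 25)) * v +
    (-(2124 / 125))) * v + (1008 / 25))) * d + ((((9 / 25) * v + (-(18 / 25))) * v + (261 /
    25)) * v))) * a + (((((((((((((((483 / 1000) * v + (21 / 10)) * v) * v) * v) * v)) * d +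
    ((((((-(8383 / 5000)) * v + (5817 / 500)) * v + (21 / 2)) * v) * v) * v)) * d + ((((((2327
    / 5000) * v + (-(23457 / 1250))) * v + (25221 / 500)) * v + (84 / 5)) * v) * v)) * d +
    ((((((-(69 / 1000)) * v + (-(59703 / 5000))) * v + (-(268701 / 5000))) * v + (9702 / 125))
    * v + (42 / 5)) * v)) * d + (((((633 / 250) * v + (-(202791 / 5000))) * v + (-(58211 /
    1250))) * v + (4851 / 125)) * v)) * d + ((((((9 / 100) * v + (1071 / 1000)) * v + (18711 /
    1000)) * v + (-(25333 / 625))) * v + (3171 / 250)) * v)) * d + (((((9 / 50) * v + (1743 /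
    1000)) * v + (3774 / 125)) * v + (-(3201 / 250))) * v + (126 / 5))) * d + (((((-(9 / 100))
    * v + (-(27 / 100))) * v + (84 / 125)) * v + (489 / 50)) * v)) * d + ((((-(9 / 100)) * v +
    (-(27 / 50))) * v + (27 / 50)) * v + (-(126 / 25))))) * a + (((((((((63 / 100) * v * v * v
    * v * d + (((((-(129 / 250)) * v + (63 / 20)) * v) * v) * v)) * d + (((((-(2559 / 1000)) *
    v + (-(423 / 1000))) * v + (126 / 25)) * v) * v)) * d + (((((291 / 250) * v + (-(7923 /
    1000))) * v + (1047 / 250)) * v + (63 / 25)) * v)) * d + (((((471 / 1000) * v + (7101 /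
    1000)) * v + (-(999 / 125))) * v + (441 / 50)) * v)) * d + (((((-(9 / 50)) * v + (1503 /
    1000)) * v + (1197 / 125)) * v + (-(741 / 250))) * v + (126 / 25))) * d + (((((-(9 / 100))
    * v + (-(63 / 100))) * v + (174 / 125)) * v + (-(33 / 50))) * v)) * d + ((((-(9 / 100)) *
    v + (-(27 / 50))) * v + (27 / 50)) * v + (-(126 / 25)))) * d)) * a)

/-- A coefficient of `TEGS`. -/
noncomputable def cY00100 (a d v : ℝ) : ℝ :=
  (((((((((-(24 / 5)) * v * v * v * d + (-(24 / 5)) * v * v)) * a + ((((((((-(69 / 250)) * v +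
    (-12)) * v) * v) * v)) * d + ((((1182 / 125) * v + (-12)) * v) * v)) * d + (1182 / 125) *
    v * v)) * a + (((((((((-(69 / 125)) * v + (-(54 / 5))) * v) * v) * v)) * d + ((((2364 /
    125) * v + (-(54 / 5))) * v) * v)) * d + ((((-(18 / 5)) * v + (2364 / 125)) * v) * v)) * d
    + (-(18 / 5)) * v * v)) * a + ((((((((((-(69 / 200)) * v + (-(21 / 5))) * v) * v) * v)) *
    d + ((((573 / 50) * v + (-(21 / 5))) * v) * v)) * d + (((((69 / 1000) * v + (-(144 / 25)))
    * v + (573 / 50)) * v) * v)) * d + ((((9 / 250) * v + (-(162 / 25))) * v) * v)) * d + (((9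
    / 250) * v + (-(18 / 25))) * v))) * a + (((((((((((-(69 / 1000)) * v + (-(3 / 5))) * v) *
    v) * v)) * d + ((((501 / 250) * v + (-(3 / 5))) * v) * v)) * d + (((((69 / 1000) * v +
    (-(54 / 25))) * v + (501 / 250)) * v) * v)) * d + ((((9 / 250) * v + (-(72 / 25))) * v) *
    v)) * d + (((9 / 250) * v + (-(18 / 25))) * v)) * d)) * a + ((((((-(9 / 100)) * v * v * v
    * d + ((((-(9 / 100)) * v + (-(9 / 100))) * v) * v)) * d + ((((9 / 100) * v + (-(27 /
    100))) * v) * v)) * d + ((((9 / 100) * v + (9 / 100)) * v + (-(9 / 50))) * v)) * d + (27 /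
    100) * v * v) * d + (9 / 50) * v)) * a)

/-- A coefficient of `TEGS`. -/
noncomputable def cY01000 (a d v : ℝ) : ℝ :=
  ((((((((((-(21 / 500)) * v * v * v * v * d + (159 / 125) * v * v * v) * d + (159 / 125) * v *
    v)) * a + (((((63 / 200) * v * v * v * v * d + (-(237 / 1000)) * v * v * v * v) * d +
    (((((-(4977 / 10000)) * v + (1113 / 250)) * v + (-(126 / 25))) * v) * v)) * d + ((((-(297
    / 2500)) * v + (624 / 125)) * v + (-(252 / 25))) * v)) * d + (((-(297 / 2500)) * v + (9 /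
    25)) * v + (-(126 / 25))))) * a + ((((((189 / 200) * v * v * v * v * d + (-(84 / 125)) * v
    * v * v * v) * d + (((((-(14031 / 10000)) * v + (738 / 125)) * v + (-(378 / 25))) * v) *
    v)) * d + (((((-(1557 / 10000)) * v + (-(891 / 2500))) * v + (2133 / 250)) * v + (-(756 /
    25))) * v)) * d + ((((1773 / 2500) * v + (-(2241 / 2500))) * v + (219 / 125)) * v + (-(378
    / 25)))) * d + (((1773 / 2500) * v + (-(9 / 25))) * v))) * a + (((((((819 / 800) * v * v *
    v * v * d + (-(93 / 100)) * v * v * v * v) * d + (((((-(53421 / 40000)) * v + (363 / 100))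
    * v + (-(819 / 50))) * v) * v)) * d + (((((-(1287 / 4000)) * v + (-(8781 / 10000))) * v +
    (1581 / 200)) * v + (-(819 / 25))) * v)) * d + (((((-(1107 / 40000)) * v + (873 / 500)) *
    v + (-(28161 / 10000))) * v + (57 / 20)) * v + (-(819 / 50)))) * d + ((((2673 / 10000) * v
    + (1287 / 1000)) * v + (-(3 / 50))) * v)) * d + (((2673 / 10000) * v + (-(81 / 250))) * v
    + (63 / 50)))) * a + ((((((((189 / 400) * v * v * v * v * d + (-(291 / 500)) * v * v * v *
    v) * d + (((((-(9051 / 20000)) * v + (249 / 250)) * v + (-(189 / 25))) * v) * v)) * d +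
    (((((-(441 / 2500)) * v + (-(5811 / 5000))) * v + (1911 / 500)) * v + (-(378 / 25))) * v))
    * d + (((((-(1107 / 20000)) * v + (6687 / 5000)) * v + (-(17091 / 5000))) * v + (471 /
    250)) * v + (-(189 / 25)))) * d + ((((1269 / 2500) * v + (2097 / 5000)) * v + (24 / 25)) *
    v)) * d + (((567 / 1250) * v + (-(81 / 125))) * v + (63 / 25))) * d + (-(27 / 500)) * v))
    * a + (((((((((63 / 800) * v * v * v * v * d + (-(129 / 1000)) * v * v * v * v) * d +
    (((((-(897 / 40000)) * v + (9 / 100)) * v + (-(63 / 50))) * v) * v)) * d + (((((-(207 /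
    20000)) * v + (-(10569 / 20000))) * v + (729 / 1000)) * v + (-(63 / 25))) * v)) * d +
    (((((-(1107 / 40000)) * v + (5607 / 20000)) * v + (-(27729 / 20000))) * v + (213 / 500)) *
    v + (-(63 / 50)))) * d + ((((4401 / 20000) * v + (-(3843 / 20000))) * v + (33 / 50)) * v))
    * d + ((((-(27 / 4000)) * v + (2781 / 20000)) * v + (-(27 / 80))) * v + (63 / 50))) * d +
    (((-(81 / 4000)) * v + (-(81 / 1000))) * v)) * d + (-(27 / 2000)) * v)) * a + (((((((-(27
    / 4000)) * v * v * v * d + ((((-(81 / 4000)) * v + (-(27 / 4000))) * v) * v)) * d +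
    ((((-(81 / 4000)) * v + (-(27 / 800))) * v) * v)) * d + ((((-(27 / 4000)) * v + (-(189 /
    4000))) * v + (-(27 / 2000))) * v)) * d + (((-(81 / 4000)) * v + (-(27 / 1000))) * v)) * d
    + (-(27 / 2000)) * v) * d))

/-- A coefficient of `TEGS`. -/
noncomputable def cY01100 (a d v : ℝ) : ℝ :=
  (((((((9 / 50) * v * v * d + (9 / 50) * v)) * a + (((9 / 25) * v * v * d + (9 / 25) * v) * d))
    * a + ((((9 / 40) * v * v * d + (9 / 40) * v) * d + (-(9 / 200)) * v * v) * d + (-(9 /
    200)) * v)) * a + (((((9 / 200) * v * v * d + (9 / 200) * v) * d + (-(9 / 200)) * v * v) *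
    d + (-(9 / 200)) * v) * d)) * a)

/-- A coefficient of `TEGS`. -/
noncomputable def cY02000 (a d v : ℝ) : ℝ :=
  (((((((((9 / 200) * v * v * v * d + (-(9 / 100)) * v * v) * d + (-(9 / 100)) * v)) * a +
    ((((63 / 400) * v * v * v * d + ((((9 / 400) * v + (-(63 / 200))) * v) * v)) * d + (((-(63
    / 2000)) * v + (-(63 / 200))) * v)) * d + (-(63 / 2000)) * v)) * a + (((((81 / 400) * v *
    v * v * d + ((((27 / 400) * v + (-(81 / 200))) * v) * v)) * d + (((-(189 / 2000)) * v +
    (-(81 / 200))) * v)) * d + (((27 / 2000) * v + (-(189 / 2000))) * v)) * d + (27 / 2000) *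
    v)) * a + ((((((9 / 80) * v * v * v * d + ((((27 / 400) * v + (-(9 / 40))) * v) * v)) * d
    + (((-(729 / 8000)) * v + (-(9 / 40))) * v)) * d + (((27 / 800) * v + (-(729 / 8000))) *
    v)) * d + (((27 / 8000) * v + (27 / 800)) * v)) * d + (27 / 8000) * v)) * a + (((((((9 /
    400) * v * v * v * d + ((((9 / 400) * v + (-(9 / 200))) * v) * v)) * d + (((-(99 / 4000))
    * v + (-(9 / 200))) * v)) * d + (((27 / 1000) * v + (-(99 / 4000))) * v)) * d + (((27 /
    4000) * v + (27 / 1000)) * v)) * d + (27 / 4000) * v) * d)) * a + ((((((27 / 8000) * v * v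
    * d + (((27 / 4000) * v + (27 / 8000)) * v)) * d + (((27 / 8000) * v + (27 / 4000)) * v))
    * d + (27 / 8000) * v) * d) * d))

/-- A coefficient of `TEGS`. -/
noncomputable def cY10000 (a d v : ℝ) : ℝ :=
  (((((((((((-(782 / 625)) * v * v * v * v * v * d + (-(8772 / 625)) * v * v * v * v) * d +
    (-(21624 / 625)) * v * v * v) * d + (-(14416 / 625)) * v * v) * d)) * a + ((((((-(391 /
    125)) * v * v * v * v * v * d + ((((((629 / 625) * v + (-(4386 / 125))) * v) * v) * v) *
    v)) * d + (((((-(4386 / 625)) * v + (-(10812 / 125))) * v) * v) * v)) * d + ((((-(16932 /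
    625)) * v + (-(7208 / 125))) * v) * v)) * d + (-(11288 / 625)) * v * v) * d)) * a +
    (((((((-(1564 / 625)) * v * v * v * v * v * d + ((((((748 / 625) * v + (-(18564 / 625))) *
    v) * v) * v) * v)) * d + ((((((-(102 / 125)) * v + (-(11832 / 625))) * v + (-(46308 /
    625))) * v) * v) * v)) * d + (((((-(612 / 125)) * v + (-(41004 / 625))) * v + (-(30872 /
    625))) * v) * v)) * d + ((((-(1224 / 125)) * v + (-(30736 / 625))) * v) * v)) * d +
    (((-(816 / 125)) * v + (-(816 / 125))) * v)) * d)) * a + ((((((((-(391 / 625)) * v * v * v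
    * v * v * d + ((((((119 / 625) * v + (-(5916 / 625))) * v) * v) * v) * v)) * d +
    ((((((-(102 / 125)) * v + (-(9486 / 625))) * v + (-(15402 / 625))) * v) * v) * v)) * d +
    ((((((-(204 / 125)) * v + (-(204 / 125))) * v + (-(30702 / 625))) * v + (-(10268 / 625)))
    * v) * v)) * d + (((((-(714 / 125)) * v + (918 / 125)) * v + (-(25568 / 625))) * v) * v))
    * d + ((((-(102 / 25)) * v + (2856 / 125)) * v + (-(1224 / 125))) * v)) * d + (((204 /
    125) * v + (408 / 25)) * v)) * d)) * a + ((((((((-(102 / 125)) * v * v * v * v * d +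
    (((((-(408 / 125)) * v + (-(306 / 125))) * v) * v) * v)) * d + ((((((-(204 / 125)) * v +
    (408 / 125)) * v + (-(1326 / 125))) * v + (-(204 / 125))) * v) * v)) * d + (((((-(714 /
    125)) * v + (2142 / 125)) * v + (-(1224 / 125))) * v) * v)) * d + ((((-(102 / 25)) * v +
    (3672 / 125)) * v + (-(408 / 125))) * v)) * d + (((204 / 125) * v + (408 / 25)) * v)) * d)
    * d)) * a)

/-- A coefficient of `TEGS`. -/
noncomputable def cY11000 (a d v : ℝ) : ℝ :=
  (((((((((-(51 / 125)) * v * v * v * v * d * d + (306 / 125) * v * v) * d + (204 / 125) * v) *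
    d)) * a + ((((((-(51 / 50)) * v * v * v * v * d + (51 / 250) * v * v * v * v) * d +
    ((((-(204 / 125)) * v + (153 / 25)) * v) * v)) * d + (((-(153 / 25)) * v + (102 / 25)) *
    v)) * d + (-(102 / 25)) * v) * d)) * a + (((((((-(102 / 125)) * v * v * v * v * d + (51 /
    125) * v * v * v * v) * d + ((((-(408 / 125)) * v + (612 / 125)) * v) * v)) * d + (((-(306
    / 25)) * v + (408 / 125)) * v)) * d + (-(204 / 25)) * v) * d) * d)) * a + ((((((((-(51 /
    250)) * v * v * v * v * d + (51 / 250) * v * v * v * v) * d + ((((-(204 / 125)) * v + (153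
    / 125)) * v) * v)) * d + (((-(153 / 25)) * v + (102 / 125)) * v)) * d + (-(102 / 25)) * v)
    * d) * d) * d)) * a)

/-- `TEGS` at `g = 1`. -/
noncomputable def Y6 (a d v z e p : ℝ) : ℝ :=
    cY00000 a d v +
    cY00100 a d v * (e) +
    cY01000 a d v * (p) +
    cY01100 a d v * (p) * (e) +
    cY02000 a d v * (p) * (p) +
    cY10000 a d v * z +
    cY11000 a d v * z * (p)

theorem Y_scale (a d v g W W1 R E K z : ℝ) :
    ClosedGen.TEGS a d v g W W1 R (numZ E K z) =
      Y6 a d v z (g * E) (g * W) := by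
  simp only [Y6, cY00000, cY00100, cY01000, cY01100, cY02000, cY10000, cY11000, ClosedGen.TEGS, ClosedGen.LEGS, Closed.LEG1, Closed.LEG1_000000_0, Closed.LEGc, Closed.LEGv, Closed.LEGw, ClosedGen.EG_g, ClosedGen.EG_g0, ClosedGen.EG_k1, ClosedGen.EG_kv, Closed.j1, ClosedGen.gES, ClosedGen.gE_1, ClosedGen.gE_c, ClosedGen.gE_w, ClosedGen.gE_k1, ClosedGen.gGS, ClosedGen.gG_1, ClosedGen.gG_c, ClosedGen.gG_v, ClosedGen.hES, ClosedGen.hE_c, ClosedGen.hE_v, ClosedGen.hGS, ClosedGen.hG_c, ClosedGen.hG_g, ClosedGen.hG_kc, numZ]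
  ring

/-- A coefficient of `TAS`. -/
noncomputable def cT00000 (a d v : ℝ) : ℝ :=
  ((((((((((((((((-(147 / 5)) * v * v * v * v * v * d + (-(1323 / 5)) * v * v * v * v) * d +
    (((((-(84 / 5)) * v * v + (-(4704 / 5))) * v) * v) * v)) * d + ((((((-(529 / 2500)) * v *
    v + (-84)) * v) * v + (-(8232 / 5))) * v) * v)) * d + (((((-(3938 / 625)) * v * v + (-(672
    / 5))) * v) * v + (-(7056 / 5))) * v)) * d + ((((-(15174 / 625)) * v * v + (-(336 / 5))) *
    v) * v + (-(2352 / 5)))) * d + (-(22472 / 625)) * v * v * v) * d + (-(11236 / 625)) * v *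
    v)) * a + (((((((((-(1029 / 10)) * v * v * v * v * v * d + ((((((147 / 10) * v + (-(9261 /
    10))) * v) * v) * v) * v)) * d + ((((((-(294 / 5)) * v + (1323 / 10)) * v + (-(16464 /
    5))) * v) * v) * v)) * d + (((((((-(3703 / 5000)) * v + (-(42 / 5))) * v + (-294)) * v +
    (2352 / 5)) * v + (-(28812 / 5))) * v) * v)) * d + (((((((2231 / 5000) * v + (-(13783 /
    625))) * v + (-42)) * v + (-(2352 / 5))) * v + (4116 / 5)) * v + (-(24696 / 5))) * v)) * d
    + ((((((-(979 / 625)) * v + (-(53109 / 625))) * v + (-(336 / 5))) * v + (-(1176 / 5))) * v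
    + (3528 / 5)) * v + (-(8232 / 5)))) * d + (((((-(12957 / 625)) * v + (-(78652 / 625))) * v
    + (-(168 / 5))) * v) * v + (1176 / 5))) * d + ((((-(23956 / 625)) * v + (-(39326 / 625)))
    * v) * v)) * d + (-(11978 / 625)) * v * v)) * a + ((((((((((-(2793 / 20)) * v * v * v * v
    * v * d + ((((((441 / 10) * v + (-(25137 / 20))) * v) * v) * v) * v)) * d + ((((((-(1449 /
    20)) * v + (3969 / 10)) * v + (-(22344 / 5))) * v) * v) * v)) * d + (((((((-(4761 / 5000))
    * v + (-(126 / 5))) * v + (-(6657 / 20))) * v + (7056 / 5)) * v + (-(39102 / 5))) * v) *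
    v)) * d + (((((((5313 / 5000) * v + (-(15816 / 625))) * v + (-126)) * v + (-(2016 / 5))) *
    v + (12348 / 5)) * v + (-(33516 / 5))) * v)) * d + (((((((-(21 / 250)) * v + (-(5217 /
    625))) * v + (-(59058 / 625))) * v + (-(1008 / 5))) * v + (462 / 5)) * v + (10584 / 5)) *
    v + (-(11172 / 5)))) * d + ((((((-(723 / 125)) * v + (-(47856 / 625))) * v + (-(86484 /
    625))) * v + (-(504 / 5))) * v + (1764 / 5)) * v + (3528 / 5))) * d + (((((-(3447 / 125))
    * v + (-(88458 / 625))) * v + (-(43242 / 625))) * v) * v + (588 / 5))) * d + ((((-(5448 /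
    125)) * v + (-(51834 / 625))) * v) * v)) * d + (((-(2724 / 125)) * v + (-(1272 / 125))) *
    v))) * a + (((((((((((-(735 / 8)) * v * v * v * v * v * d + ((((((1911 / 40) * v + (-(6615
    / 8))) * v) * v) * v) * v)) * d + ((((((-(273 / 8)) * v + (17199 / 40)) * v + (-2940)) *
    v) * v) * v)) * d + (((((((-(529 / 1000)) * v + (-(1239 / 40))) * v + (-(777 / 8))) * v +
    (7644 / 5)) * v + (-5145)) * v) * v)) * d + (((((((3933 / 5000) * v + (-(2033 / 250))) * v
    + (-(6783 / 40))) * v + 168) * v + (13377 / 5)) * v + (-4410)) * v)) * d + (((((((3 / 250)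
    * v + (-(6987 / 625))) * v + (-(5949 / 250))) * v + (-336)) * v + 819) * v + (11466 / 5))
    * v + (-1470))) * d + (((((((-(9 / 50)) * v + (-(2619 / 250))) * v + (-(117027 / 1250))) *
    v + (-(3916 / 125))) * v + (-315)) * v + 882) * v + (3822 / 5))) * d + ((((((-(183 / 125))
    * v + (-(5244 / 125))) * v + (-(111003 / 625))) * v + (-(1958 / 125))) * v + (-(882 / 5)))
    * v + 294)) * d + (((((-(27 / 25)) * v + (-(4551 / 125))) * v + (-(74514 / 625))) * v) * v
    + (-(294 / 5)))) * d + ((((96 / 125) * v + (684 / 25)) * v + (-(636 / 25))) * v)) * d +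
    (((48 / 125) * v + (4092 / 125)) * v))) * a + ((((((((((((-(147 / 5)) * v * v * v * v * v
    * d + ((((((441 / 20) * v + (-(1323 / 5))) * v) * v) * v) * v)) * d + ((((((-(21 / 10)) *
    v + (3969 / 20)) * v + (-(4704 / 5))) * v) * v) * v)) * d + (((((((-(529 / 5000)) * v +
    (-(399 / 20))) * v + (483 / 10)) * v + (3528 / 5)) * v + (-(8232 / 5))) * v) * v)) * d +
    (((((((851 / 5000) * v + (1841 / 625)) * v + (-(2583 / 20))) * v + 336) * v + (6174 / 5))
    * v + (-(7056 / 5))) * v)) * d + (((((((12 / 125) * v + (-(2464 / 625))) * v + (10638 /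
    625)) * v + (-336)) * v + 756) * v + (5292 / 5)) * v + (-(2352 / 5)))) * d + (((((((-(9 /
    50)) * v + (-(126 / 25))) * v + (-(26412 / 625))) * v + (17594 / 625)) * v + (-462)) * v +
    (3528 / 5)) * v + (1764 / 5))) * d + ((((((-(186 / 125)) * v + (-(957 / 125))) * v +
    (-(54706 / 625))) * v + (8797 / 625)) * v + (-(1764 / 5))) * v + (1176 / 5))) * d +
    ((((((9 / 25) * v + (99 / 25)) * v + (5802 / 125)) * v + (-(43688 / 625))) * v) * v +
    (-(588 / 5)))) * d + (((((54 / 25) * v + (1902 / 125)) * v + (13842 / 125)) * v + (-(2724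
    / 125))) * v)) * d + ((((18 / 5) * v + (1896 / 125)) * v + (7644 / 125)) * v)) * d + (((9
    / 5) * v + (144 / 25)) * v + (-(36 / 25))))) * a + (((((((((((((-(147 / 40)) * v * v * v *
    v * v * d + ((((((147 / 40) * v + (-(1323 / 40))) * v) * v) * v) * v)) * d + ((((((63 /
    40) * v + (1323 / 40)) * v + (-(588 / 5))) * v) * v) * v)) * d + ((((((-(231 / 40)) * v +
    (903 / 40)) * v + (588 / 5)) * v + (-(1029 / 5))) * v) * v)) * d + ((((((381 / 250) * v +
    (-(1743 / 40))) * v + (504 / 5)) * v + (1029 / 5)) * v + (-(882 / 5))) * v)) * d +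
    ((((((57 / 125) * v + (171 / 25)) * v + (-(672 / 5))) * v + (987 / 5)) * v + (882 / 5)) *
    v + (-(294 / 5)))) * d + ((((((-(87 / 250)) * v + (-(717 / 125))) * v + (1329 / 125)) * v
    + (-(1071 / 5))) * v + (882 / 5)) * v + (294 / 5))) * d + ((((((-(3 / 125)) * v + (363 /
    50)) * v + (-(2001 / 125))) * v + (1329 / 250)) * v + (-(882 / 5))) * v + (294 / 5))) * d
    + ((((((9 / 25) * v + (63 / 10)) * v + (216 / 5)) * v + (-(4197 / 250))) * v) * v + (-(294
    / 5)))) * d + (((((81 / 50) * v + (2301 / 125)) * v + (8463 / 125)) * v + (-(906 / 125)))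
    * v)) * d + (((((-(9 / 50)) * v + (18 / 25)) * v + (2343 / 125)) * v + (3822 / 125)) * v))
    * d + ((((-(9 / 25)) * v + (-(27 / 10))) * v + (162 / 25)) * v + (-(54 / 25)))) * d +
    (((-(9 / 50)) * v + (-(54 / 25))) * v + (-(18 / 25))))) * a + (((((((((-(9 / 50)) * v * v
    * v * v * d + (((((-(63 / 50)) * v + (-(9 / 25))) * v) * v) * v)) * d + (((((27 / 50) * v
    + (-(72 / 25))) * v + (-(9 / 50))) * v) * v)) * d + (((((63 / 50) * v + (99 / 25)) * v +
    (-(117 / 50))) * v) * v)) * d + (((((-(27 / 50)) * v + (99 / 25)) * v + (153 / 25)) * v +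
    (-(18 / 25))) * v)) * d + (((((-(9 / 50)) * v + (-(72 / 25))) * v + (99 / 25)) * v + (54 /
    25)) * v)) * d + ((((-(9 / 25)) * v + (-(9 / 2))) * v + (18 / 25)) * v + (-(18 / 25)))) *
    d + (((-(9 / 50)) * v + (-(54 / 25))) * v + (-(18 / 25)))) * d)) * a)

/-- A coefficient of `TAS`. -/
noncomputable def cT00001 (a d v : ℝ) : ℝ :=
  (((((((((-(18 / 25)) * v * v * v * d + (-(54 / 25)) * v * v) * d + (-(36 / 25)) * v)) * a +
    ((((-(63 / 25)) * v * v * v * d + ((((-(9 / 25)) * v + (-(189 / 25))) * v) * v)) * d +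
    (((-(27 / 25)) * v + (-(126 / 25))) * v)) * d + (-(18 / 25)) * v)) * a + (((((-(81 / 25))
    * v * v * v * d + ((((-(27 / 25)) * v + (-(243 / 25))) * v) * v)) * d + (((-(81 / 25)) * v
    + (-(162 / 25))) * v)) * d + (-(54 / 25)) * v) * d)) * a + ((((((-(9 / 5)) * v * v * v * d
    + ((((-(27 / 25)) * v + (-(27 / 5))) * v) * v)) * d + (((-(81 / 25)) * v + (-(18 / 5))) *
    v)) * d + (-(54 / 25)) * v) * d) * d)) * a + (((((((-(9 / 25)) * v * v * v * d + ((((-(9 /
    25)) * v + (-(27 / 25))) * v) * v)) * d + (((-(27 / 25)) * v + (-(18 / 25))) * v)) * d +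
    (-(18 / 25)) * v) * d) * d) * d)) * a)

/-- A coefficient of `TAS`. -/
noncomputable def cT00010 (a d v : ℝ) : ℝ :=
  ((((((((48 / 5) * v * v * v * v * d + (144 / 5) * v * v * v) * d + (96 / 5) * v * v)) * a +
    ((((72 / 5) * v * v * v * v * d + (((((-(24 / 5)) * v + (216 / 5)) * v) * v) * v)) * d +
    ((((-(72 / 5)) * v + (144 / 5)) * v) * v)) * d + (-(48 / 5)) * v * v)) * a + (((((24 / 5)
    * v * v * v * v * d + (((((-(24 / 5)) * v + (72 / 5)) * v) * v) * v)) * d + ((((-(72 / 5))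
    * v + (48 / 5)) * v) * v)) * d + (-(48 / 5)) * v * v) * d)) * a) * a)

/-- A coefficient of `TAS`. -/
noncomputable def cT00100 (a d v : ℝ) : ℝ :=
  (((((((((((((84 / 5) * v * v * v * v * d + 84 * v * v * v) * d + ((((24 / 5) * v * v + (672 /
    5)) * v) * v)) * d + (((24 / 5) * v * v + (336 / 5)) * v)) * d) * d)) * a + ((((((42 * v *
    v * v * v * d + (((((-(126 / 5)) * v + 210) * v) * v) * v)) * d + ((((12 * v + (-126)) * v
    + 336) * v) * v)) * d + (((((-(84 / 5)) * v + 12) * v + (-(1008 / 5))) * v + 168) * v)) *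
    d + (((-36) * v * v + (-(504 / 5))) * v)) * d + (-(192 / 5)) * v * v) * d + (-(96 / 5)) *
    v)) * a + ((((((((189 / 5) * v * v * v * v * d + (((((-(252 / 5)) * v + 189) * v) * v) *
    v)) * d + (((((117 / 5) * v + (-252)) * v + (1512 / 5)) * v) * v)) * d + (((((-(156 / 5))
    * v + (369 / 5)) * v + (-(2016 / 5))) * v + (756 / 5)) * v)) * d + ((((6 * v + (-(324 /
    5))) * v + (504 / 5)) * v + (-(1008 / 5))) * v)) * d + ((((78 / 5) * v + (-72)) * v + (252
    / 5)) * v)) * d + (((144 / 5) * v + (-(192 / 5))) * v)) * d + (96 / 5) * v)) * a +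
    (((((((((147 / 10) * v * v * v * v * d + (((((-(63 / 2)) * v + (147 / 2)) * v) * v) * v))
    * d + (((((231 / 10) * v + (-(315 / 2))) * v + (588 / 5)) * v) * v)) * d + (((((-(39 / 2))
    * v + (987 / 10)) * v + (-252)) * v + (294 / 5)) * v)) * d + (((((39 / 5) * v + (-(447 /
    10))) * v + (756 / 5)) * v + (-126)) * v)) * d + (((((3 / 5) * v + (99 / 5)) * v + (-(288
    / 5))) * v + (378 / 5)) * v)) * d + ((((3 / 5) * v + (204 / 5)) * v + (-(162 / 5))) * v))
    * d + (((-(24 / 5)) * v + (144 / 5)) * v)) * d + (-(24 / 5)) * v)) * a + ((((((((((21 /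
    10) * v * v * v * v * d + (((((-(63 / 10)) * v + (21 / 2)) * v) * v) * v)) * d + (((((69 /
    10) * v + (-(63 / 2))) * v + (84 / 5)) * v) * v)) * d + (((((-(51 / 10)) * v + (321 / 10))
    * v + (-(252 / 5))) * v + (42 / 5)) * v)) * d + (((((9 / 5) * v + (-(159 / 10))) * v +
    (252 / 5)) * v + (-(126 / 5))) * v)) * d + (((((3 / 5) * v + (21 / 5)) * v + (-24)) * v +
    (126 / 5)) * v)) * d + ((((3 / 5) * v + 12) * v + (-(66 / 5))) * v)) * d + (((-(24 / 5)) *
    v + (48 / 5)) * v)) * d + (-(24 / 5)) * v) * d)) * a) * a)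

/-- A coefficient of `TAS`. -/
noncomputable def cT00200 (a d v : ℝ) : ℝ :=
  ((((((((((-(12 / 5)) * v * v * v * d + (-(12 / 5)) * v * v) * d) * d)) * a + (((((-(18 / 5)) *
    v * v * v * d + ((((6 / 5) * v + (-(18 / 5))) * v) * v)) * d + (6 / 5) * v * v) * d) * d))
    * a + ((((((-(9 / 5)) * v * v * v * d + ((((6 / 5) * v + (-(9 / 5))) * v) * v)) * d +
    ((((3 / 5) * v + (6 / 5)) * v) * v)) * d + (3 / 5) * v * v) * d) * d)) * a + (((((((-(3 /
    10)) * v * v * v * d + ((((3 / 10) * v + (-(3 / 10))) * v) * v)) * d + ((((3 / 10) * v +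
    (3 / 10)) * v) * v)) * d + ((((-(3 / 10)) * v + (3 / 10)) * v) * v)) * d + (-(3 / 10)) * v
    * v) * d) * d)) * a) * a)

/-- A coefficient of `TAS`. -/
noncomputable def cT01000 (a d v : ℝ) : ℝ :=
  (((((((((((((63 / 50) * v * v * v * v * d + (((((-(69 / 500)) * v * v + (63 / 10)) * v) * v) *
    v)) * d + ((((-(339 / 250)) * v * v + (252 / 25)) * v) * v)) * d + (((297 / 250) * v * v +
    (126 / 25)) * v)) * d + (636 / 125) * v * v) * d + (318 / 125) * v)) * a + (((((((441 /
    100) * v * v * v * v * d + ((((((-(483 / 1000)) * v + (63 / 100)) * v + (441 / 20)) * v) *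
    v) * v)) * d + ((((((387 / 1000) * v + (-(2553 / 500))) * v + (63 / 20)) * v + (882 / 25))
    * v) * v)) * d + (((((-(699 / 500)) * v + (1539 / 500)) * v + (126 / 25)) * v + (441 /
    25)) * v)) * d + ((((-(4071 / 500)) * v + (2136 / 125)) * v + (63 / 25)) * v)) * d +
    (((-(1686 / 125)) * v + (1113 / 125)) * v)) * d + (-(843 / 125)) * v)) * a + ((((((((1197
    / 200) * v * v * v * v * d + ((((((-(621 / 1000)) * v + (189 / 100)) * v + (1197 / 40)) *
    v) * v) * v)) * d + ((((((1071 / 1000) * v + (-(8439 / 1000))) * v + (189 / 20)) * v +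
    (1197 / 25)) * v) * v)) * d + ((((((9 / 100) * v + (-(2187 / 500))) * v + (-(279 / 200)))
    * v + (378 / 25)) * v + (1197 / 50)) * v)) * d + (((((-(81 / 100)) * v + (-(12033 / 500)))
    * v + (2199 / 125)) * v + (189 / 25)) * v)) * d + ((((-(297 / 100)) * v + (-(4878 / 125)))
    * v + (2637 / 250)) * v)) * d + (((-(18 / 5)) * v + (-(2304 / 125))) * v)) * d + ((-(36 /
    25)) * v + (18 / 25)))) * a + (((((((((63 / 16) * v * v * v * v * d + ((((((-(69 / 200)) *
    v + (819 / 400)) * v + (315 / 16)) * v) * v) * v)) * d + ((((((981 / 1000) * v + (-(3081 /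
    400))) * v + (819 / 80)) * v + (63 / 2)) * v) * v)) * d + ((((((9 / 50) * v + (-(8889 /
    2000))) * v + (-(3717 / 400))) * v + (819 / 50)) * v + (63 / 4)) * v)) * d + (((((-(81 /
    40)) * v + (-(9333 / 400))) * v + (63 / 25)) * v + (819 / 100)) * v)) * d + (((((-(9 /
    40)) * v + (-(279 / 40))) * v + (-(1911 / 50))) * v + (411 / 100)) * v)) * d + ((((-(81 /
    200)) * v + (-(81 / 10))) * v + (-(8541 / 500))) * v)) * d + ((-(27 / 10)) * v + (9 / 5)))
    * d + ((9 / 50) * v + (9 / 25)))) * a + ((((((((((63 / 50) * v * v * v * v * d +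
    ((((((-(69 / 1000)) * v + (189 / 200)) * v + (63 / 10)) * v) * v) * v)) * d + ((((((297 /
    1000) * v + (-(933 / 250))) * v + (189 / 40)) * v + (252 / 25)) * v) * v)) * d + ((((((9 /
    100) * v + (-(1359 / 1000))) * v + (-(2007 / 250))) * v + (189 / 25)) * v + (126 / 25)) *
    v)) * d + (((((-(81 / 50)) * v + (-(1407 / 200))) * v + (-(603 / 125))) * v + (189 / 50))
    * v)) * d + (((((-(9 / 20)) * v + (-(126 / 25))) * v + (-(333 / 25))) * v + (-(66 / 125)))
    * v)) * d + ((((-(81 / 100)) * v + (-(27 / 5))) * v + (-(1461 / 250))) * v)) * d + ((-(27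
    / 25)) * v + (36 / 25))) * d + ((9 / 25) * v + (18 / 25))) * d)) * a + (((((((((((63 /
    400) * v * v * v * v * d + (((((63 / 400) * v + (63 / 80)) * v) * v) * v)) * d +
    (((((-(1437 / 2000)) * v + (63 / 80)) * v + (63 / 50)) * v) * v)) * d + (((((219 / 2000) *
    v + (-(4041 / 2000))) * v + (63 / 50)) * v + (63 / 100)) * v)) * d + (((((-(81 / 200)) * v
    + (747 / 2000)) * v + (-(219 / 125))) * v + (63 / 100)) * v)) * d + (((((-(9 / 40)) * v +
    (-(207 / 200))) * v + (-(159 / 250))) * v + (-(9 / 20))) * v)) * d + ((((-(81 / 200)) * v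
    + (-(9 / 10))) * v + (-(9 / 20))) * v)) * d + ((9 / 50) * v + (9 / 25))) * d + ((9 / 50) *
    v + (9 / 25))) * d) * d)) * a)

/-- A coefficient of `TAS`. -/
noncomputable def cT01100 (a d v : ℝ) : ℝ :=
  ((((((((((-(9 / 25)) * v * v * v * d + (-(9 / 25)) * v * v) * d) * d)) * a + (((((-(9 / 10)) *
    v * v * v * d + ((((-(9 / 50)) * v + (-(9 / 10))) * v) * v)) * d + (-(9 / 50)) * v * v) *
    d) * d)) * a + ((((((-(81 / 100)) * v * v * v * d + ((((-(9 / 25)) * v + (-(81 / 100))) *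
    v) * v)) * d + ((((9 / 100) * v + (-(9 / 25))) * v) * v)) * d + (9 / 100) * v * v) * d) *
    d)) * a + (((((((-(63 / 200)) * v * v * v * d + ((((-(9 / 40)) * v + (-(63 / 200))) * v) *
    v)) * d + ((((27 / 200) * v + (-(9 / 40))) * v) * v)) * d + ((((9 / 200) * v + (27 / 200))
    * v) * v)) * d + (9 / 200) * v * v) * d) * d)) * a + ((((((((-(9 / 200)) * v * v * v * d +
    ((((-(9 / 200)) * v + (-(9 / 200))) * v) * v)) * d + ((((9 / 200) * v + (-(9 / 200))) * v)
    * v)) * d + ((((9 / 200) * v + (9 / 200)) * v) * v)) * d + (9 / 200) * v * v) * d) * d) *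
    d)) * a)

/-- A coefficient of `TAS`. -/
noncomputable def cT02000 (a d v : ℝ) : ℝ :=
  (((((((((((-(9 / 400)) * v * v * v * v * d + (153 / 2000) * v * v * v) * d + (-(27 / 2000)) *
    v * v) * d + (-(9 / 50)) * v) * d + (-(9 / 100)))) * a + ((((((-(63 / 800)) * v * v * v *
    v * d + (((((-(9 / 800)) * v + (1071 / 4000)) * v) * v) * v)) * d + ((((99 / 4000) * v +
    (-(189 / 4000))) * v) * v)) * d + (((-(81 / 4000)) * v + (-(63 / 100))) * v)) * d + ((-(9
    / 100)) * v + (-(63 / 200)))) * d + (-(9 / 200)))) * a + (((((((-(81 / 800)) * v * v * v *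
    v * d + (((((-(27 / 800)) * v + (2727 / 8000)) * v) * v) * v)) * d + ((((297 / 4000) * v +
    (-(513 / 8000))) * v) * v)) * d + ((((-(81 / 8000)) * v + (-(243 / 4000))) * v + (-(81 /
    100))) * v)) * d + (((-(81 / 8000)) * v + (-(27 / 100))) * v + (-(81 / 200)))) * d + (-(27
    / 200))) * d)) * a + ((((((((-(9 / 160)) * v * v * v * v * d + (((((-(27 / 800)) * v +
    (117 / 640)) * v) * v) * v)) * d + ((((1107 / 16000) * v + (-(27 / 640))) * v) * v)) * d +
    ((((-(81 / 3200)) * v + (-(1053 / 16000))) * v + (-(9 / 20))) * v)) * d + ((((-(27 /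
    16000)) * v + (-(81 / 3200))) * v + (-(27 / 100))) * v + (-(9 / 40)))) * d + ((-(27 /
    16000)) * v * v + (-(27 / 200)))) * d) * d)) * a + (((((((((-(9 / 800)) * v * v * v * v *
    d + (((((-(9 / 800)) * v + (63 / 2000)) * v) * v) * v)) * d + ((((117 / 8000) * v + (-(27
    / 2000))) * v) * v)) * d + ((((-(81 / 4000)) * v + (-(243 / 8000))) * v + (-(9 / 100))) *
    v)) * d + ((((-(27 / 8000)) * v + (-(81 / 4000))) * v + (-(9 / 100))) * v + (-(9 / 200))))
    * d + ((-(27 / 8000)) * v * v + (-(9 / 200)))) * d) * d) * d)) * a + (((((((((-(27 /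
    16000)) * v * v * v * d + ((((-(81 / 16000)) * v + (-(27 / 16000))) * v) * v)) * d +
    ((((-(81 / 16000)) * v + (-(81 / 16000))) * v) * v)) * d + ((((-(27 / 16000)) * v + (-(81
    / 16000))) * v) * v)) * d + (-(27 / 16000)) * v * v) * d) * d) * d) * d))

/-- A coefficient of `TAS`. -/
noncomputable def cT11000 (a d v : ℝ) : ℝ :=
  (((((((((((-(204 / 125)) * v * v * v * v * d + (-(612 / 125)) * v * v * v) * d + (-(408 /
    125)) * v * v) * d) * d) * d)) * a + (((((((-(102 / 25)) * v * v * v * v * d + (((((204 /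
    125) * v + (-(306 / 25))) * v) * v) * v)) * d + ((((612 / 125) * v + (-(204 / 25))) * v) *
    v)) * d + (408 / 125) * v * v) * d) * d) * d)) * a + ((((((((-(408 / 125)) * v * v * v * v
    * d + (((((408 / 125) * v + (-(1224 / 125))) * v) * v) * v)) * d + ((((1224 / 125) * v +
    (-(816 / 125))) * v) * v)) * d + (816 / 125) * v * v) * d) * d) * d) * d)) * a +
    (((((((((-(102 / 125)) * v * v * v * v * d + (((((204 / 125) * v + (-(306 / 125))) * v) *
    v) * v)) * d + ((((612 / 125) * v + (-(204 / 125))) * v) * v)) * d + (408 / 125) * v * v)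
    * d) * d) * d) * d) * d)) * a)

/-- `TAS` at `g = 1`. -/
noncomputable def T6 (a d v z e p k w : ℝ) : ℝ :=
    cT00000 a d v +
    cT00001 a d v * (w) +
    cT00010 a d v * (k) +
    cT00100 a d v * (e) +
    cT00200 a d v * (e) * (e) +
    cT01000 a d v * (p) +
    cT01100 a d v * (p) * (e) +
    cT02000 a d v * (p) * (p) +
    cT11000 a d v * z * (p)

theorem T_scale (a d v g W W1 R E K z : ℝ) :
    ClosedGen.TAS a d v g W W1 R (numZ E K z) =
      T6 a d v z (g * E) (g * W) (g * K) (g * W1) := by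
  simp only [T6, cT00000, cT00001, cT00010, cT00100, cT00200, cT01000, cT01100, cT02000, cT11000, ClosedGen.TAS, ClosedGen.TEES, ClosedGen.LEES, Closed.LEE1, Closed.LEEc, Closed.LEEc_000000_0, Closed.LEEc_000000_1, Closed.LEEc_110000_0, Closed.LEEc_110000_1, Closed.LEEv, Closed.LEEw, ClosedGen.EE_g, ClosedGen.EE_k1, ClosedGen.EE_kc, Closed.j1, ClosedGen.gES, ClosedGen.gE_1, ClosedGen.gE_c, ClosedGen.gE_w, ClosedGen.gE_k1, ClosedGen.hES, ClosedGen.hE_c, ClosedGen.hE_v, ClosedGen.gMS, ClosedGen.gM_1, ClosedGen.gGS, ClosedGen.gG_1, ClosedGen.gG_c, ClosedGen.gG_v, ClosedGen.hMS, ClosedGen.hM_c, ClosedGen.hGS, ClosedGen.hG_c, ClosedGen.hG_g, ClosedGen.hG_kc, ClosedGen.TMGS, ClosedGen.LMGS, Closed.LMG1, Closed.LMG1_000000_0, Closed.LMG1_000000_1, Closed.LMGc, Closed.LMGc_000000_0, Closed.LMGc_000000_1, Closed.LMGv, Closed.LMGw, ClosedGen.MG_g, ClosedGen.MG_k1, ClosedGen.MG_kc, ClosedGen.MG_kw, numZ]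
  ring

/-- A coefficient of `TMGS`. -/
noncomputable def cN00000 (a d v : ℝ) : ℝ :=
  (((((((((((((((-(147 / 10)) * v * v * v * v * v * d + (-(1323 / 10)) * v * v * v * v) * d +
    (((((-(42 / 5)) * v * v + (-(2352 / 5))) * v) * v) * v)) * d + ((((((-(529 / 5000)) * v *
    v + (-42)) * v) * v + (-(4116 / 5))) * v) * v)) * d + (((((-(1969 / 625)) * v * v + (-(336
    / 5))) * v) * v + (-(3528 / 5))) * v)) * d + ((((-(7587 / 625)) * v * v + (-(168 / 5))) *
    v) * v + (-(1176 / 5)))) * d + (-(11236 / 625)) * v * v * v) * d + (-(5618 / 625)) * v *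
    v)) * a + (((((((((-(441 / 10)) * v * v * v * v * v * d + ((((((147 / 10) * v + (-(3969 /
    10))) * v) * v) * v) * v)) * d + ((((((-42) * v + (1323 / 10)) * v + (-(7056 / 5))) * v) *
    v) * v)) * d + ((((((-(1587 / 5000)) * v * v + (-(1218 / 5))) * v + (2352 / 5)) * v +
    (-(12348 / 5))) * v) * v)) * d + (((((((69 / 250) * v + (-(2907 / 625))) * v) * v +
    (-504)) * v + (4116 / 5)) * v + (-(10584 / 5))) * v)) * d + ((((((-(39 / 125)) * v +
    (-(13761 / 625))) * v) * v + (-(2184 / 5))) * v + (3528 / 5)) * v + (-(3528 / 5)))) * d +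
    (((((-(1947 / 125)) * v + (-(27708 / 625))) * v) * v + (-(672 / 5))) * v + (1176 / 5))) *
    d + ((((-(3816 / 125)) * v + (-(16854 / 625))) * v) * v)) * d + (-(1908 / 125)) * v * v))
    * a + ((((((((((-(1911 / 40)) * v * v * v * v * v * d + ((((((147 / 4) * v + (-(17199 /
    40))) * v) * v) * v) * v)) * d + ((((((-(2919 / 40)) * v + (1323 / 4)) * v + (-(7644 /
    5))) * v) * v) * v)) * d + (((((((-(1587 / 5000)) * v + (42 / 5)) * v + (-(18543 / 40))) *
    v + 1176) * v + (-(13377 / 5))) * v) * v)) * d + (((((((69 / 125) * v + (-(909 / 1250))) *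
    v + (294 / 5)) * v + (-1092)) * v + 2058) * v + (-(11466 / 5))) * v)) * d + (((((((-(9 /
    50)) * v + (9 / 10)) * v + (-(21297 / 1250))) * v + (756 / 5)) * v + (-1155)) * v + 1764)
    * v + (-(3822 / 5)))) * d + ((((((-(273 / 125)) * v + (-(636 / 25))) * v + (-(35388 /
    625))) * v + 168) * v + (-(2562 / 5))) * v + 588)) * d + (((((-(9 / 25)) * v + (-(1047 /
    25))) * v + (-(25194 / 625))) * v + (336 / 5)) * v + (-(294 / 5)))) * d + (456 / 125) * v
    * v * v) * d + (((228 / 125) * v + (1908 / 125)) * v))) * a + (((((((((((-(441 / 20)) * v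
    * v * v * v * v * d + ((((((147 / 5) * v + (-(3969 / 20))) * v) * v) * v) * v)) * d +
    ((((((-(1071 / 20)) * v + (1323 / 5)) * v + (-(3528 / 5))) * v) * v) * v)) * d +
    (((((((-(529 / 5000)) * v + (84 / 5)) * v + (-(7287 / 20))) * v + (4704 / 5)) * v +
    (-(6174 / 5))) * v) * v)) * d + (((((((69 / 250) * v + (-(64 / 625))) * v + (588 / 5)) * v
    + (-(4704 / 5))) * v + (8232 / 5)) * v + (-(5292 / 5))) * v)) * d + (((((((-(9 / 50)) * v
    + (387 / 125)) * v + (-(10362 / 625))) * v + (1512 / 5)) * v + (-1134)) * v + (7056 / 5))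
    * v + (-(1764 / 5)))) * d + ((((((-(321 / 125)) * v + (-(744 / 125))) * v + (-(32596 /
    625))) * v + 336) * v + (-(3108 / 5))) * v + (2352 / 5))) * d + ((((((9 / 25) * v + (36 /
    25)) * v + (438 / 125)) * v + (-(22298 / 625))) * v + (672 / 5)) * v + (-(588 / 5)))) * d
    + (((((63 / 25) * v + (192 / 125)) * v + (5454 / 125)) * v) * v)) * d + ((((108 / 25) * v
    + (-(894 / 125))) * v + (3816 / 125)) * v)) * d + (((54 / 25) * v + (-(108 / 25))) * v)))
    * a + ((((((((((((-(147 / 40)) * v * v * v * v * v * d + ((((((147 / 20) * v + (-(1323 /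
    40))) * v) * v) * v) * v)) * d + ((((((-(567 / 40)) * v + (1323 / 20)) * v + (-(588 / 5)))
    * v) * v) * v)) * d + ((((((42 / 5) * v + (-(819 / 8))) * v + (1176 / 5)) * v + (-(1029 /
    5))) * v) * v)) * d + ((((((-(219 / 250)) * v + (294 / 5)) * v + (-(1428 / 5))) * v +
    (2058 / 5)) * v + (-(882 / 5))) * v)) * d + ((((((471 / 250) * v + (-(48 / 5))) * v + (756
    / 5)) * v + (-(1911 / 5))) * v + (1764 / 5)) * v + (-(294 / 5)))) * d + ((((((-(48 / 125))
    * v + (444 / 125)) * v + (-(2781 / 125))) * v + 168) * v + (-(1218 / 5))) * v + (588 /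
    5))) * d + ((((((9 / 25) * v + (63 / 50)) * v + (2082 / 125)) * v + (-(3381 / 250))) * v +
    (336 / 5)) * v + (-(294 / 5)))) * d + (((((18 / 5) * v + (-(894 / 125))) * v + (4086 /
    125)) * v) * v)) * d + (((((-(9 / 50)) * v + (189 / 25)) * v + (-(2157 / 125))) * v +
    (2178 / 125)) * v)) * d + ((((-(9 / 25)) * v + (126 / 25)) * v + (-(216 / 25))) * v)) * d
    + (((-(9 / 50)) * v + (18 / 25)) * v + (-(18 / 25))))) * a + ((((((((-(9 / 50)) * v * v *
    v * v * d + (((((-(9 / 25)) * v + (-(9 / 25))) * v) * v) * v)) * d + (((((-(27 / 50)) * v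
    + (9 / 5)) * v + (-(9 / 50))) * v) * v)) * d + (((((27 / 25) * v + (-(126 / 25))) * v +
    (108 / 25)) * v) * v)) * d + (((((-(9 / 50)) * v + (81 / 25)) * v + (-(207 / 25))) * v +
    (54 / 25)) * v)) * d + ((((-(9 / 25)) * v + (72 / 25)) * v + (-(108 / 25))) * v)) * d +
    (((-(9 / 50)) * v + (18 / 25)) * v + (-(18 / 25)))) * d)) * a)

/-- A coefficient of `TMGS`. -/
noncomputable def cN00001 (a d v : ℝ) : ℝ :=
  (((((((((-(18 / 25)) * v * v * v * d + (-(54 / 25)) * v * v) * d + (-(36 / 25)) * v)) * a +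
    ((((-(63 / 25)) * v * v * v * d + ((((9 / 25) * v + (-(189 / 25))) * v) * v)) * d + (((27
    / 25) * v + (-(126 / 25))) * v)) * d + (18 / 25) * v)) * a + (((((-(81 / 25)) * v * v * v
    * d + ((((27 / 25) * v + (-(243 / 25))) * v) * v)) * d + (((81 / 25) * v + (-(162 / 25)))
    * v)) * d + (54 / 25) * v) * d)) * a + ((((((-(9 / 5)) * v * v * v * d + ((((27 / 25) * v
    + (-(27 / 5))) * v) * v)) * d + (((81 / 25) * v + (-(18 / 5))) * v)) * d + (54 / 25) * v)
    * d) * d)) * a + (((((((-(9 / 25)) * v * v * v * d + ((((9 / 25) * v + (-(27 / 25))) * v)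
    * v)) * d + (((27 / 25) * v + (-(18 / 25))) * v)) * d + (18 / 25) * v) * d) * d) * d)) *
    a)

/-- A coefficient of `TMGS`. -/
noncomputable def cN00010 (a d v : ℝ) : ℝ :=
  ((((((((48 / 5) * v * v * v * v * d + (144 / 5) * v * v * v) * d + (96 / 5) * v * v)) * a +
    ((((72 / 5) * v * v * v * v * d + (((((-(24 / 5)) * v + (216 / 5)) * v) * v) * v)) * d +
    ((((-(72 / 5)) * v + (144 / 5)) * v) * v)) * d + (-(48 / 5)) * v * v)) * a + (((((24 / 5)
    * v * v * v * v * d + (((((-(24 / 5)) * v + (72 / 5)) * v) * v) * v)) * d + ((((-(72 / 5))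
    * v + (48 / 5)) * v) * v)) * d + (-(48 / 5)) * v * v) * d)) * a) * a)

/-- A coefficient of `TMGS`. -/
noncomputable def cN00100 (a d v : ℝ) : ℝ :=
  ((((((((((((-(42 / 5)) * v * v * v * v * d + (-42) * v * v * v) * d + ((((12 / 5) * v * v +
    (-(336 / 5))) * v) * v)) * d + (((-(84 / 5)) * v * v + (-(168 / 5))) * v)) * d + (-(192 /
    5)) * v * v) * d + (-(96 / 5)) * v)) * a + (((((((-(84 / 5)) * v * v * v * v * d + (((((42
    / 5) * v + (-84)) * v) * v) * v)) * d + (((((12 / 5) * v + 42) * v + (-(672 / 5))) * v) *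
    v)) * d + (((((-(12 / 5)) * v + (-(204 / 5))) * v + (336 / 5)) * v + (-(336 / 5))) * v)) *
    d + ((((36 / 5) * v + (-(408 / 5))) * v + (168 / 5)) * v)) * d + (((144 / 5) * v + (-(192
    / 5))) * v)) * d + (96 / 5) * v)) * a + ((((((((-(21 / 2)) * v * v * v * v * d + (((((63 /
    5) * v + (-(105 / 2))) * v) * v) * v)) * d + (((((-(27 / 10)) * v + 63) * v + (-84)) * v)
    * v)) * d + (((((-(12 / 5)) * v + (-(423 / 10))) * v + (504 / 5)) * v + (-42)) * v)) * d +
    (((((3 / 5) * v + (72 / 5)) * v + (-72)) * v + (252 / 5)) * v)) * d + ((((3 / 5) * v +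
    (228 / 5)) * v + (-(162 / 5))) * v)) * d + (((-(24 / 5)) * v + (144 / 5)) * v)) * d +
    (-(24 / 5)) * v)) * a + (((((((((-(21 / 10)) * v * v * v * v * d + (((((21 / 5) * v +
    (-(21 / 2))) * v) * v) * v)) * d + (((((-(27 / 10)) * v + 21) * v + (-(84 / 5))) * v) *
    v)) * d + ((((-(183 / 10)) * v + (168 / 5)) * v + (-(42 / 5))) * v)) * d + (((((3 / 5) * v
    + (36 / 5)) * v + (-(144 / 5))) * v + (84 / 5)) * v)) * d + ((((3 / 5) * v + (84 / 5)) * v
    + (-(66 / 5))) * v)) * d + (((-(24 / 5)) * v + (48 / 5)) * v)) * d + (-(24 / 5)) * v) *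
    d)) * a) * a)

/-- A coefficient of `TMGS`. -/
noncomputable def cN00200 (a d v : ℝ) : ℝ :=
  (((((((((-(6 / 5)) * v * v * v * d + (-(6 / 5)) * v * v) * d) * d)) * a + (((((-(6 / 5)) * v *
    v * v * d + ((((6 / 5) * v + (-(6 / 5))) * v) * v)) * d + (6 / 5) * v * v) * d) * d)) * a
    + ((((((-(3 / 10)) * v * v * v * d + ((((3 / 5) * v + (-(3 / 10))) * v) * v)) * d +
    ((((-(3 / 10)) * v + (3 / 5)) * v) * v)) * d + (-(3 / 10)) * v * v) * d) * d)) * a) * a)

/-- A coefficient of `TMGS`. -/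
noncomputable def cN01000 (a d v : ℝ) : ℝ :=
  (((((((((((-(18 / 25)) * v * v * v * v * d + (-(18 / 25)) * v * v * v) * d) * d)) * a +
    ((((((63 / 100) * v * v * v * v * d + ((((((-(69 / 1000)) * v + (-(72 / 25))) * v + (63 /
    20)) * v) * v) * v)) * d + (((((-(3 / 20)) * v + (-(18 / 5))) * v + (126 / 25)) * v) * v))
    * d + ((((-(1263 / 500)) * v + (-(18 / 25))) * v + (63 / 25)) * v)) * d + (-(594 / 125)) *
    v * v) * d + (-(297 / 125)) * v)) * a + (((((((189 / 100) * v * v * v * v * d +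
    ((((((-(207 / 1000)) * v + (-(1293 / 250))) * v + (189 / 20)) * v) * v) * v)) * d +
    ((((((9 / 100) * v + (-(81 / 100))) * v + (-(2169 / 250))) * v + (378 / 25)) * v) * v)) *
    d + (((((-(18 / 25)) * v + (-(4329 / 500))) * v + (-(438 / 125))) * v + (189 / 25)) * v))
    * d + ((((-(9 / 5)) * v + (-(1872 / 125))) * v) * v)) * d + (((-(36 / 25)) * v + (-(891 /
    125))) * v)) * d + (-(9 / 25)) * v)) * a + ((((((((819 / 400) * v * v * v * v * d +
    ((((((-(207 / 1000)) * v + (-(51 / 10))) * v + (819 / 80)) * v) * v) * v)) * d + ((((((9 /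
    50) * v + (-(1401 / 2000))) * v + (-(54 / 5))) * v + (819 / 50)) * v) * v)) * d +
    (((((-(63 / 50)) * v + (-(18189 / 2000))) * v + (-(57 / 10))) * v + (819 / 100)) * v)) * d
    + (((((-(9 / 40)) * v + (-(243 / 100))) * v + (-(4083 / 250))) * v) * v)) * d + ((((63 /
    200) * v + (-(81 / 50))) * v + (-(3969 / 500))) * v)) * d + (18 / 25) * v * v) * d + ((9 /
    50) * v + (9 / 25)))) * a + (((((((((189 / 200) * v * v * v * v * d + ((((((-(69 / 1000))
    * v + (-(651 / 250))) * v + (189 / 40)) * v) * v) * v)) * d + ((((((9 / 100) * v + (429 /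
    1000)) * v + (-(1593 / 250))) * v + (189 / 25)) * v) * v)) * d + (((((-(9 / 25)) * v +
    (-(2319 / 1000))) * v + (-(471 / 125))) * v + (189 / 50)) * v)) * d + (((((-(9 / 20)) * v
    + (27 / 50)) * v + (-(843 / 125))) * v) * v)) * d + ((((63 / 100) * v + (27 / 25)) * v +
    (-(999 / 250))) * v)) * d + (((36 / 25) * v + (27 / 25)) * v)) * d + ((9 / 25) * v + (18 /
    25))) * d)) * a + ((((((((((63 / 400) * v * v * v * v * d + (((((-(129 / 250)) * v + (63 /
    80)) * v) * v) * v)) * d + (((((939 / 2000) * v + (-(171 / 125))) * v + (63 / 50)) * v) *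
    v)) * d + (((((9 / 50) * v + (1287 / 2000)) * v + (-(213 / 250))) * v + (63 / 100)) * v))
    * d + (((((-(9 / 40)) * v + (117 / 100)) * v + (-(159 / 250))) * v) * v)) * d + ((((63 /
    200) * v + (63 / 50)) * v + (-(81 / 100))) * v)) * d + (((18 / 25) * v + (18 / 25)) * v))
    * d + ((9 / 50) * v + (9 / 25))) * d) * d)) * a)

/-- A coefficient of `TMGS`. -/
noncomputable def cN01100 (a d v : ℝ) : ℝ :=
  (((((((((-(9 / 50)) * v * v * v * d + (-(9 / 50)) * v * v) * d) * d)) * a + (((((-(9 / 25)) *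
    v * v * v * d + (-(9 / 25)) * v * v) * d) * d) * d)) * a + ((((((-(9 / 40)) * v * v * v *
    d + (-(9 / 40)) * v * v) * d + (9 / 200) * v * v * v) * d + (9 / 200) * v * v) * d) * d))
    * a + (((((((-(9 / 200)) * v * v * v * d + (-(9 / 200)) * v * v) * d + (9 / 200) * v * v *
    v) * d + (9 / 200) * v * v) * d) * d) * d)) * a)

/-- A coefficient of `TMGS`. -/
noncomputable def cN02000 (a d v : ℝ) : ℝ :=
  ((((((((((-(9 / 800)) * v * v * v * v * d + (153 / 4000) * v * v * v) * d + (-(27 / 4000)) * v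
    * v) * d + (-(9 / 100)) * v) * d + (-(9 / 200)))) * a + ((((((-(27 / 800)) * v * v * v * v
    * d + (459 / 4000) * v * v * v) * d + ((((-(27 / 4000)) * v + (-(81 / 4000))) * v) * v)) *
    d + (((-(27 / 4000)) * v + (-(27 / 100))) * v)) * d + (-(27 / 200))) * d)) * a +
    (((((((-(27 / 800)) * v * v * v * v * d + (1809 / 16000) * v * v * v) * d + ((((-(27 /
    1600)) * v + (-(351 / 16000))) * v) * v)) * d + ((((-(27 / 16000)) * v + (-(27 / 1600))) *
    v + (-(27 / 100))) * v)) * d + ((-(27 / 16000)) * v * v + (-(27 / 200)))) * d) * d)) * a +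
    ((((((((-(9 / 800)) * v * v * v * v * d + (279 / 8000) * v * v * v) * d + ((((-(27 /
    2000)) * v + (-(81 / 8000))) * v) * v)) * d + ((((-(27 / 8000)) * v + (-(27 / 2000))) * v
    + (-(9 / 100))) * v)) * d + ((-(27 / 8000)) * v * v + (-(9 / 200)))) * d) * d) * d)) * a +
    ((((((((-(27 / 16000)) * v * v * v * d + ((((-(27 / 8000)) * v + (-(27 / 16000))) * v) *
    v)) * d + ((((-(27 / 16000)) * v + (-(27 / 8000))) * v) * v)) * d + (-(27 / 16000)) * v *
    v) * d) * d) * d) * d))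

/-- A coefficient of `TMGS`. -/
noncomputable def cN11000 (a d v : ℝ) : ℝ :=
  (((((((((((-(204 / 125)) * v * v * v * v * d + (-(612 / 125)) * v * v * v) * d + (-(408 /
    125)) * v * v) * d) * d) * d)) * a + (((((((-(102 / 25)) * v * v * v * v * d + (((((204 /
    125) * v + (-(306 / 25))) * v) * v) * v)) * d + ((((612 / 125) * v + (-(204 / 25))) * v) *
    v)) * d + (408 / 125) * v * v) * d) * d) * d)) * a + ((((((((-(408 / 125)) * v * v * v * v
    * d + (((((408 / 125) * v + (-(1224 / 125))) * v) * v) * v)) * d + ((((1224 / 125) * v +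
    (-(816 / 125))) * v) * v)) * d + (816 / 125) * v * v) * d) * d) * d) * d)) * a +
    (((((((((-(102 / 125)) * v * v * v * v * d + (((((204 / 125) * v + (-(306 / 125))) * v) *
    v) * v)) * d + ((((612 / 125) * v + (-(204 / 125))) * v) * v)) * d + (408 / 125) * v * v)
    * d) * d) * d) * d) * d)) * a)

/-- `TMGS` at `g = 1`. -/
noncomputable def N6 (a d v z e p k w : ℝ) : ℝ :=
    cN00000 a d v +
    cN00001 a d v * (w) +
    cN00010 a d v * (k) +
    cN00100 a d v * (e) +
    cN00200 a d v * (e) * (e) +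
    cN01000 a d v * (p) +
    cN01100 a d v * (p) * (e) +
    cN02000 a d v * (p) * (p) +
    cN11000 a d v * z * (p)

theorem N_scale (a d v g W W1 R E K z : ℝ) :
    ClosedGen.TMGS a d v g W W1 R (numZ E K z) =
      N6 a d v z (g * E) (g * W) (g * K) (g * W1) := by
  simp only [N6, cN00000, cN00001, cN00010, cN00100, cN00200, cN01000, cN01100, cN02000, cN11000, ClosedGen.TMGS, ClosedGen.LMGS, Closed.LMG1, Closed.LMG1_000000_0, Closed.LMG1_000000_1, Closed.LMGc, Closed.LMGc_000000_0, Closed.LMGc_000000_1, Closed.LMGv, Closed.LMGw, ClosedGen.MG_g, ClosedGen.MG_k1, ClosedGen.MG_kc, ClosedGen.MG_kw, Closed.j1, ClosedGen.gMS, ClosedGen.gM_1, ClosedGen.gGS, ClosedGen.gG_1, ClosedGen.gG_c, ClosedGen.gG_v, ClosedGen.hMS, ClosedGen.hM_c, ClosedGen.hGS, ClosedGen.hG_c, ClosedGen.hG_g, ClosedGen.hG_kc, ClosedGen.gES, ClosedGen.gE_1, ClosedGen.gE_c, ClosedGen.gE_w, ClosedGen.gE_k1, ClosedGen.hES, ClosedGen.hE_c, ClosedGen.hE_v, numZ]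
  ring

/-- A coefficient of `TMES`. -/
noncomputable def cX00001 (a d v : ℝ) : ℝ :=
  ((((((3 / 10) * v * v * d + (3 / 5) * v)) * a + (((3 / 4) * v * v * d + (((3 / 20) * v + (3 /
    2)) * v)) * d + (3 / 10) * v)) * a + ((((3 / 5) * v * v * d + (((3 / 10) * v + (6 / 5)) *
    v)) * d + (3 / 5) * v) * d)) * a + (((((3 / 20) * v * v * d + (((3 / 20) * v + (3 / 10)) *
    v)) * d + (3 / 10) * v) * d) * d))

/-- A coefficient of `TMES`. -/
noncomputable def cX00010 (a d v : ℝ) : ℝ :=
  (((((-4) * v * v * v * d + (-8) * v * v)) * a + (((-2) * v * v * v * d + (((2 * v + (-4)) * v)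
    * v)) * d + 4 * v * v)) * a)

/-- A coefficient of `TMES`. -/
noncomputable def cX00100 (a d v : ℝ) : ℝ :=
  (((((4 * v * v * d + 12 * v) * d + ((-4) * v + 8))) * a + (((2 * v * v * d + (((-2) * v + 6) *
    v)) * d + ((-8) * v + 4)) * d + (2 * v + (-4)))) * a)

/-- A coefficient of `TMES`. -/
noncomputable def cX01000 (a d v : ℝ) : ℝ :=
  ((((((((-(23 / 100)) * v * v * v * d + (-(53 / 25)) * v * v) * d + (-(53 / 25)) * v)) * a +
    ((((-(23 / 40)) * v * v * v * d + ((((69 / 200) * v + (-(53 / 10))) * v) * v)) * d + (((69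
    / 50) * v + (-(53 / 10))) * v)) * d + (69 / 50) * v)) * a + (((((-(23 / 50)) * v * v * v *
    d + ((((69 / 100) * v + (-(227 / 50))) * v) * v)) * d + (((69 / 25) * v + (-(227 / 50))) *
    v)) * d + (((3 / 5) * v + (69 / 25)) * v)) * d + (3 / 10) * v)) * a + ((((((-(23 / 200)) *
    v * v * v * d + ((((69 / 200) * v + (-(151 / 100))) * v) * v)) * d + (((69 / 50) * v +
    (-(151 / 100))) * v)) * d + (((9 / 10) * v + (69 / 50)) * v)) * d + (((3 / 20) * v + (9 /
    20)) * v)) * d)) * a + ((((((-(3 / 20)) * v * v * d + (-(3 / 20)) * v) * d + (3 / 10) * v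
    * v) * d + (((3 / 20) * v + (3 / 20)) * v)) * d) * d))

/-- A coefficient of `TMES`. -/
noncomputable def cX01100 (a d v : ℝ) : ℝ :=
  ((((((-2) * v * d + (-2))) * a + (((-3) * v * d + (1 * v + (-3))) * d + 1)) * a + ((((-1) * v
    * d + (1 * v + (-1))) * d + 1) * d)) * a)

/-- `TMES` at `g = 1`. -/
noncomputable def X6 (a d v e p k w : ℝ) : ℝ :=
    cX00001 a d v * (w) +
    cX00010 a d v * (k) +
    cX00100 a d v * (e) +
    cX01000 a d v * (p) +
    cX01100 a d v * (p) * (e)

theorem X_scale (a d v g W W1 R E K z : ℝ) :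
    g * ClosedGen.TMES a d v g W W1 R (numZ E K z) =
      X6 a d v (g * E) (g * W) (g * K) (g * W1) := by
  simp only [X6, cX00001, cX00010, cX00100, cX01000, cX01100, ClosedGen.TMES, ClosedGen.TME_c, ClosedGen.TME_v, ClosedGen.TME_w, numZ]
  ring

theorem G6_eq (a d v z p W1 R E K : ℝ) :
    G6 a d v z p = ClosedGen.TGGS a d v 1 p W1 R (numZ E K z) := by
  rw [G_scale]; simp only [one_mul]

theorem Y6_eq (a d v z e p W1 R K : ℝ) :
    Y6 a d v z e p = ClosedGen.TEGS a d v 1 p W1 R (numZ e K z) := by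
  rw [Y_scale]; simp only [one_mul]

theorem T6_eq (a d v z e p k w R : ℝ) :
    T6 a d v z e p k w = ClosedGen.TAS a d v 1 p w R (numZ e k z) := by
  rw [T_scale]; simp only [one_mul]

theorem N6_eq (a d v z e p k w R : ℝ) :
    N6 a d v z e p k w = ClosedGen.TMGS a d v 1 p w R (numZ e k z) := by
  rw [N_scale]; simp only [one_mul]

theorem X6_eq (a d v z e p k w R : ℝ) :
    X6 a d v e p k w = ClosedGen.TMES a d v 1 p w R (numZ e k z) := by
  have := X_scale a d v 1 p w R e k z
  simp only [one_mul] at this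
  exact this.symm

theorem M_scale (a d v g W W1 R E K z : ℝ) :
    g ^ 2 * ClosedGen.TMMS a d v g W W1 R (numZ E K z) =
      -((1 - 2 * a - d) * (1 + d * v) * (g * E) * (g * W)) := by
  simp only [ClosedGen.TMMS, ClosedGen.TMM_w, numZ]
  ring

/-- A point between two ends. -/
def mix (s x y : ℝ) : ℝ := (1 - s) * x + s * y

/-- The second coefficient of a function. -/
noncomputable def two (f : ℝ → ℝ) : ℝ := (f 1 + f (-1) - 2 * f 0) / 2

section
variable (a d v z z₀ z₁ p₀ p₁ s e k₀ k₁ w₀ w₁ p k w : ℝ)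

theorem T_affine : T6 a d v z e p k w = T6 a d v z e p k₀ w₀ +
    (k - k₀) * (T6 a d v z e p 1 0 - T6 a d v z e p 0 0) +
    (w - w₀) * (T6 a d v z e p 0 1 - T6 a d v z e p 0 0) := by
  simp only [T6, two, mix]
  ring

theorem N_affine : N6 a d v z e p k w = N6 a d v z e p k₀ w₀ +
    (k - k₀) * (N6 a d v z e p 1 0 - N6 a d v z e p 0 0) +
    (w - w₀) * (N6 a d v z e p 0 1 - N6 a d v z e p 0 0) := by
  simp only [N6, two, mix]
  ring

theorem X_affine : X6 a d v e p k w = X6 a d v e p k₀ w₀ +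
    (k - k₀) * (X6 a d v e p 1 0 - X6 a d v e p 0 0) +
    (w - w₀) * (X6 a d v e p 0 1 - X6 a d v e p 0 0) := by
  simp only [X6, two, mix]
  ring

theorem T_z : T6 a d v (mix s z₀ z₁) e p k w = mix s (T6 a d v z₀ e p k w) (T6 a d v z₁ e p k w) := by
  simp only [T6, two, mix]
  ring

theorem N_z : N6 a d v (mix s z₀ z₁) e p k w = mix s (N6 a d v z₀ e p k w) (N6 a d v z₁ e p k w) := by
  simp only [N6, two, mix]
  ring

theorem G_zz : (two fun x => G6 a d v x p) = -(Closed.j1 a d * a * (a + d) * d ^ 2 * (1 + d * v) *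
    (34 / 25 * v * d * (2 + d * v)) ^ 2) := by
  simp only [G6, two, cG20000]
  ring

theorem G_z : G6 a d v (mix s z₀ z₁) p = mix s (G6 a d v z₀ p) (G6 a d v z₁ p) -
    s * (1 - s) * (z₁ - z₀) ^ 2 * two fun x => G6 a d v x p := by
  simp only [G6, two, mix]
  ring

theorem Y_z : Y6 a d v (mix s z₀ z₁) e p = mix s (Y6 a d v z₀ e p) (Y6 a d v z₁ e p) := by
  simp only [Y6, two, mix]
  ring

theorem G_secant : G6 a d v z (mix s p₀ p₁) = mix s (G6 a d v z p₀) (G6 a d v z p₁) -
    s * (1 - s) * (p₁ - p₀) ^ 2 * two fun x => G6 a d v 0 x := by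
  simp only [G6, two, mix]
  ring

theorem Y_secant : Y6 a d v z e (mix s p₀ p₁) = mix s (Y6 a d v z e p₀) (Y6 a d v z e p₁) -
    s * (1 - s) * (p₁ - p₀) ^ 2 * two fun x => Y6 a d v 0 e x := by
  simp only [Y6, two, mix]
  ring

theorem T_secant : T6 a d v z e (mix s p₀ p₁) (mix s k₀ k₁) (mix s w₀ w₁) =
    mix s (T6 a d v z e p₀ k₀ w₀) (T6 a d v z e p₁ k₁ w₁) -
      s * (1 - s) * (p₁ - p₀) ^ 2 * two fun x => T6 a d v 0 e x 0 0 := by
  simp only [T6, two, mix]
  ring

theorem N_secant : N6 a d v z e (mix s p₀ p₁) (mix s k₀ k₁) (mix s w₀ w₁) =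
    mix s (N6 a d v z e p₀ k₀ w₀) (N6 a d v z e p₁ k₁ w₁) -
      s * (1 - s) * (p₁ - p₀) ^ 2 * two fun x => N6 a d v 0 e x 0 0 := by
  simp only [N6, two, mix]
  ring

theorem X_secant : X6 a d v e (mix s p₀ p₁) (mix s k₀ k₁) (mix s w₀ w₁) =
    mix s (X6 a d v e p₀ k₀ w₀) (X6 a d v e p₁ k₁ w₁) := by
  simp only [X6, two, mix]
  ring

end

end Vale.Agent.P100.Calib.Closed.Six.Tail
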