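import Vale.Agent.P100.Calib.SlabSixTailLow

/-!
# The bands of dimension six on the tail, as fractions
-/

set_option linter.unusedVariables false

namespace Vale.Agent.P100.Calib.Closed.Six.Tail

open BoxPos Large

local instance sixTailBandsAdd : Add Ex := ⟨Ex.add⟩
local instance sixTailBandsSub : Sub Ex := ⟨Ex.sub⟩
local instance sixTailBandsMul : Mul Ex := ⟨Ex.mul⟩

theorem tilt_lt {t A D T v : ℝ} (h : t < A / D + T / D * v) (hD : 0 < D) : t * D < A + T * v := by
  rw [div_mul_eq_mul_div, ← add_div, lt_div_iff₀ hD] at h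
  exact h

section
variable {o S d v u t : ℝ} {x : Ex}

theorem lowT_le (hx : x.val o S d v = u) (hD : 0 < (lowTd x).val o S d v) (h : lowT d u < t) :
    (lowTn x).val o S d v ≤ t * (lowTd x).val o S d v := by
  simp only [lowTn, lowTd, ex_add, ex_sub, ex_mul, Ex.val, hx] at hD ⊢
  push_cast at hD ⊢
  simp only [lowT] at h
  rw [div_lt_iff₀ (by linarith only [hD])] at h
  linarith only [h]

theorem lowEnd_le (hD : 0 < (lowEd x).val o S d v) (h : lowEnd d < t) :
    (lowEn x).val o S d v ≤ t * (lowEd x).val o S d v := by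
  simp only [lowEn, lowEd, ex_add, ex_sub, ex_mul, Ex.val] at hD ⊢
  push_cast at hD ⊢
  simp only [lowEnd, lowT] at h
  rw [← mul_div_assoc, div_lt_iff₀ (by linarith only [hD])] at h
  linarith only [h]

theorem layU_le (hx : x.val o S d v = u) (hD : 0 < (layUd x).val o S d v)
    (h : t < (23 / 50 + 15 * d - 175 * d ^ 2 + v / 10) / (1 - u + d)) :
    t * (layUd x).val o S d v ≤ (layUn x).val o S d v := by
  simp only [layUn, layUd, ex_add, ex_sub, ex_mul, Ex.val, hx] at hD ⊢
  push_cast at hD ⊢
  rw [lt_div_iff₀ (by linarith only [hD])] at h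
  linarith only [h]

theorem upA_le (hx : x.val o S d v = u) (hD : 0 < (upAd x).val o S d v)
    (h : t < bandsA.up d u + bandsA.tilt d u * v) :
    t * (upAd x).val o S d v ≤ (upAn x).val o S d v := by
  simp only [upAn, upAd, ex_add, ex_sub, ex_mul, Ex.val, hx] at hD ⊢
  push_cast at hD ⊢
  simp only [bandsA] at h
  have k := tilt_lt h (by linarith only [hD])
  linarith only [k]

theorem phA_false (hx : x.val o S d v = u) (hn : 0 < (phAn x).val o S d v)
    (hD : 0 < (phAd x).val o S d v) (h : v < bandsA.phi d u) : False := by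
  simp only [phAn, phAd, ex_add, ex_sub, ex_mul, Ex.val, hx] at hn hD
  push_cast at hn hD
  simp only [bandsA] at h
  rw [lt_div_iff₀ (by linarith only [hD])] at h
  linarith only [h, hn]

theorem upB_le (hx : x.val o S d v = u) (hD : 0 < (upBd x).val o S d v)
    (h : t < bandsB.up d u + bandsB.tilt d u * v) :
    t * (upBd x).val o S d v ≤ (upBn x).val o S d v := by
  simp only [upBn, upBd, ex_add, ex_sub, ex_mul, Ex.val, hx] at hD ⊢
  push_cast at hD ⊢
  simp only [bandsB] at h
  have k := tilt_lt h (by linarith only [hD])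
  linarith only [k]

theorem phB_false (hx : x.val o S d v = u) (hn : 0 < (phBn x).val o S d v)
    (hD : 0 < (phBd x).val o S d v) (h : v < bandsB.phi d u) : False := by
  simp only [phBn, phBd, ex_add, ex_sub, ex_mul, Ex.val, hx] at hn hD
  push_cast at hn hD
  simp only [bandsB] at h
  rw [lt_div_iff₀ (by linarith only [hD])] at h
  linarith only [h, hn]

theorem upC_le (hx : x.val o S d v = u) (hD : 0 < (upCd x).val o S d v)
    (h : t < bandsC.up d u + bandsC.tilt d u * v) :
    t * (upCd x).val o S d v ≤ (upCn x).val o S d v := by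
  simp only [upCn, upCd, ex_add, ex_sub, ex_mul, Ex.val, hx] at hD ⊢
  push_cast at hD ⊢
  simp only [bandsC] at h
  have k := tilt_lt h (by linarith only [hD])
  linarith only [k]

theorem phC_false (hx : x.val o S d v = u) (hn : 0 < (phCn x).val o S d v)
    (hD : 0 < (phCd x).val o S d v) (h : v < bandsC.phi d u) : False := by
  simp only [phCn, phCd, ex_add, ex_sub, ex_mul, Ex.val, hx] at hn hD
  push_cast at hn hD
  simp only [bandsC] at h
  rw [lt_div_iff₀ (by linarith only [hD])] at h
  linarith only [h, hn]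

end

end Vale.Agent.P100.Calib.Closed.Six.Tail
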