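import Vale.Agent.P100.Calib.SlabSixTailBands

/-!
# From the checks of a piece to the closed signs on its part of the chart
-/

set_option linter.unusedVariables false

namespace Vale.Agent.P100.Calib.Closed.Six.Tail

open BoxPos Large

local instance sixTailCellAdd : Add Ex := ⟨Ex.add⟩
local instance sixTailCellSub : Sub Ex := ⟨Ex.sub⟩
local instance sixTailCellMul : Mul Ex := ⟨Ex.mul⟩

/-- A point of the chart at which the ray gap is nonnegative. -/
structure Pt (d S u v t : ℝ) : Prop where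
  dpos : 0 < d
  dom : Dom S d v
  S_low : 2 / 3 < S
  S_high : S < 33 / 49
  d_le : d ≤ S
  S_mem : (⟨98, 99, 147⟩ : Side).Mem S
  facts : Six.ChartFacts d S u v t
  llg : 0 ≤ ClosedGen.LLGS ((S - d) / 2) d v (chG d S u v t) (chW d S u v t) (chW1 d S u v t)
    (chR S u) (sixNum d v (chW d S u v t) (chR S u))

theorem Pt.S_pos {d S u v t : ℝ} (T : Pt d S u v t) : 0 < S ∧ S < 1 := by
  constructor <;> linarith [T.S_low, T.S_high]

theorem Pt.v_pos {d S u v t : ℝ} (T : Pt d S u v t) : 0 < v := by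
  linarith [T.facts.v_low]

theorem dom_of {d S u v t : ℝ} (hB : Six.ChartBox d S) (hF : Six.ChartFacts d S u v t) :
    Dom S d v := by
  refine ⟨hB.pos, ?_, hF.r_lt.le, ?_⟩
  · linarith [hF.kap]
  · linarith [hB.tri]

/-- `u` is placed between two ends free of `o`. -/
theorem place {U L : Ex} {S d v u : ℝ} (h₀ : noO U = true) (h₁ : noO L = true)
    (hlo : L.val 0 S d v < u) (hhi : u ≤ U.val 0 S d v) :
    ∃ o : ℝ, (⟨0, 1, 1⟩ : Side).Mem o ∧ (U + xO * (L - U)).val o S d v = u := by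
  set a := U.val 0 S d v with ha
  set c := L.val 0 S d v with hc
  have hg : 0 < a - c := by linarith
  refine ⟨(a - u) / (a - c), ?_, ?_⟩
  · simp only [Side.Mem]
    push_cast
    refine ⟨?_, ?_⟩
    · rw [zero_div]; exact div_nonneg (by linarith) hg.le
    · rw [div_one, div_lt_one hg]; linarith
  · simp only [ex_add, ex_mul, ex_sub, Ex.val, val_noO h₀ _ 0, val_noO h₁ _ 0, ← ha, ← hc]
    field_simp
    ring

/-- The slope lies below its end at `ev = 0`. -/
theorem evU {P : Piece} {b : Box} (hp : PosD b P.hP0) (hg : PosD b P.hGn) (hn : P.tUn = evN)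
    (hd' : P.tUd = evD) {o d S u v t : ℝ} (h₀ : b.s₀.Mem o) (h₁ : b.s₁.Mem S) (h₂ : b.s₂.Mem d)
    (h₃ : b.s₃.Mem v) (T : Pt d S u v t) (hu : P.xU.val o S d v = u) :
    t * (P.tUd P.xU).val o S d v ≤ (P.tUn P.xU).val o S d v := by
  obtain ⟨hS0, hS⟩ := T.S_pos
  have h1 := hp o S d v h₀ h₁ h₂ h₃ T.dom
  simp only [Piece.hP0, val_xA, val_xB, ex_mul, ex_sub, Ex.val] at h1
  push_cast at h1
  have hGn := hg o S d v h₀ h₁ h₂ h₃ T.dom
  simp only [Piece.hGn, val_xGn, hu] at hGn
  obtain ⟨-, k⟩ := num_facts T.dpos hS0 hS T.v_pos T.facts hGn (p₀ := P.p₀.val o S d v) (by linarith)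
  rw [hn, hd']
  simp only [evN, evD, ex_sub, ex_add, ex_mul, Ex.val, val_xBB, val_xGn, val_xA, val_xB, hu]
  simp only [rEV, rK] at k
  push_cast
  linarith only [k]

/-- The slope is between the ends of a piece at a point placed in it. -/
def Between (P : Piece) (b : Box) (S d v u t : ℝ) : Prop :=
  ∀ o, b.s₀.Mem o → P.xU.val o S d v = u →
    (P.tLn P.xU).val o S d v ≤ t * (P.tLd P.xU).val o S d v ∧
      t * (P.tUd P.xU).val o S d v ≤ (P.tUn P.xU).val o S d v

/-- `u` lies in the piece. -/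
structure Within (P : Piece) (b : Box) (S d v u t : ℝ) : Prop where
  s₀ : b.s₀ = ⟨0, 1, 1⟩
  S_mem : b.s₁.Mem S
  d_mem : b.s₂.Mem d
  v_mem : b.s₃.Mem v
  noU : noO P.u₀ = true
  noL : noO P.u₁ = true
  lo : P.u₁.val 0 S d v < u
  hi : u ≤ P.u₀.val 0 S d v
  ends : Between P b S d v u t

variable {P : Piece} {b : Box} {d S u v t : ℝ}

theorem Within.exists_o (I : Within P b S d v u t) :
    ∃ o, b.s₀.Mem o ∧ P.xU.val o S d v = u := by
  obtain ⟨o, mo, hu⟩ := place I.noU I.noL I.lo I.hi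
  exact ⟨o, I.s₀ ▸ mo, hu⟩

/-- No point of the chart in an empty piece. -/
theorem piece_false (E : P.Empty b) (T : Pt d S u v t) (I : Within P b S d v u t) : False := by
  obtain ⟨o, mo, hu⟩ := I.exists_o
  obtain ⟨hL, hU⟩ := I.ends o mo hu
  exact E.false mo I.S_mem I.d_mem I.v_mem T.dpos T.dom T.S_pos.1 T.S_pos.2 T.v_pos T.facts hu hL hU

/-- The bounds of a piece at a point in it. -/
theorem piece_place (E : P.Env b) (T : Pt d S u v t) (I : Within P b S d v u t) :
    ∃ o, b.s₀.Mem o ∧ Place P o d S u v t := by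
  obtain ⟨o, mo, hu⟩ := I.exists_o
  obtain ⟨hL, hU⟩ := I.ends o mo hu
  exact ⟨o, mo, chart_place E mo I.S_mem I.d_mem I.v_mem T.dpos T.dom T.S_pos.1 T.S_pos.2 T.v_pos
    T.facts hu hL hU⟩

/-- The closed signs from the bounds of a piece at a point in its box. -/
theorem Place.signsPt {o : ℝ} (L : Place P o d S u v t) (C : P.Sign b)
    (hc : P.consts.all noO = true) (hb : b.s₀ = ⟨0, 1, 1⟩) (h₁ : b.s₁.Mem S) (h₂ : b.s₂.Mem d)
    (h₃ : b.s₃.Mem v) (T : Pt d S u v t) : Six.ChartSigns d S u v t :=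
  L.signs C hc hb h₁ h₂ h₃ T.dpos T.dom T.S_pos.1 T.S_pos.2 T.v_pos T.d_le T.facts T.llg

/-- The closed signs on a piece. -/
theorem piece_signs (E : P.Env b) (C : P.Sign b) (hc : P.consts.all noO = true)
    (T : Pt d S u v t) (I : Within P b S d v u t) : Six.ChartSigns d S u v t := by
  obtain ⟨o, mo, L⟩ := piece_place E T I
  exact L.signsPt C hc I.s₀ I.S_mem I.d_mem I.v_mem T

/-- The same place with other multipliers of the arrow. -/
theorem Place.mults {o : ℝ} (L : Place P o d S u v t) (f g h k : Ex → Ex) :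
    Place { P with k2p := f, k2m := g, kapL := h, kapU := k } o d S u v t :=
  { L with }

/-- The closed signs on a piece cut in `e`. -/
theorem piece_signs_cut {cut : Ex} {pU' : Bnd} {f g h k : Ex → Ex}
    (E : P.Env b) (E' : ({ P with pU := pU' } : Piece).Env b) (CA : (P.below cut).Sign b)
    (CB : ({ P.above cut pU' with k2p := f, k2m := g, kapL := h, kapU := k } : Piece).Sign b)
    (hcA : (P.below cut).consts.all noO = true) (hcB : (P.above cut pU').consts.all noO = true)
    (T : Pt d S u v t) (I : Within P b S d v u t) : Six.ChartSigns d S u v t := by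
  obtain ⟨o, mo, hu⟩ := I.exists_o
  obtain ⟨hL, hU⟩ := I.ends o mo hu
  have L := chart_place E mo I.S_mem I.d_mem I.v_mem T.dpos T.dom T.S_pos.1 T.S_pos.2 T.v_pos
    T.facts hu hL hU
  rcases lt_or_ge (chE d S u v t) (cut.val o S d v) with hc | hc
  · exact (L.below hc).signsPt CA hcA I.s₀ I.S_mem I.d_mem I.v_mem T
  · have L' := chart_place E' mo I.S_mem I.d_mem I.v_mem T.dpos T.dom T.S_pos.1 T.S_pos.2 T.v_pos
      T.facts hu hL hU
    exact ((L.above hc L'.p_high).mults f g h k).signsPt CB hcB I.s₀ I.S_mem I.d_mem I.v_mem T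

end Vale.Agent.P100.Calib.Closed.Six.Tail
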