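import Vale.Agent.P100.Calib.SlabSixTailDataB
import Vale.Agent.P100.Calib.SlabSixTailGlobB

/-!
# Checks of some pieces of the certificate

The checks are written as definitions so that they run one after another, which keeps the memory of the
kernel low.
-/

set_option linter.defProp false

namespace Vale.Agent.P100.Calib.Closed.Six.Tail

open BoxPos Large

local instance sixTailCheckstB9Add : Add Ex := ⟨Ex.add⟩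
local instance sixTailCheckstB9Sub : Sub Ex := ⟨Ex.sub⟩
local instance sixTailCheckstB9Mul : Mul Ex := ⟨Ex.mul⟩

def tB13_phx : PosIf ⟨⟨0, 1, 1⟩, ⟨98, 99, 147⟩, ⟨563, 825, 10000⟩, ⟨1900, 2289, 1000⟩⟩ (tB13.u₁ - tB13Lo) (phBn (tB13.u₁ + xO * (tB13Lo - tB13.u₁))) :=
  posIf_of_posD (posD_of_check (c := ⟨101, ⟨2, 0, 4, 2⟩⟩) (by decide +kernel))

def tB13_phd : PosD ⟨⟨0, 1, 1⟩, ⟨98, 99, 147⟩, ⟨563, 825, 10000⟩, ⟨1900, 2289, 1000⟩⟩ (phBd (tB13.u₁ + xO * (tB13Lo - tB13.u₁))) :=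
  posD_of_check (c := ⟨48, ⟨1, 0, 2, 1⟩⟩) (by decide +kernel)

def tB13_p0 : PosD ⟨⟨0, 1, 1⟩, ⟨98, 99, 147⟩, ⟨563, 825, 10000⟩, ⟨1900, 2289, 1000⟩⟩ (tB13.hP0) :=
  posD_of_check (c := ⟨82, ⟨0, 2, 3, 1⟩⟩) (by decide +kernel)

def tB13_gn : PosD ⟨⟨0, 1, 1⟩, ⟨98, 99, 147⟩, ⟨563, 825, 10000⟩, ⟨1900, 2289, 1000⟩⟩ (tB13.hGn) :=
  posD_of_check (c := ⟨65, ⟨1, 1, 2, 2⟩⟩) (by decide +kernel)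

def tB13_den0 : PosD ⟨⟨0, 1, 1⟩, ⟨98, 99, 147⟩, ⟨563, 825, 10000⟩, ⟨1900, 2289, 1000⟩⟩ (tB13.hDen false) :=
  posD_of_check (c := ⟨48, ⟨1, 0, 2, 1⟩⟩) (by decide +kernel)

def tB13_den1 : PosD ⟨⟨0, 1, 1⟩, ⟨98, 99, 147⟩, ⟨563, 825, 10000⟩, ⟨1900, 2289, 1000⟩⟩ (tB13.hDen true) :=
  posD_of_check (c := ⟨48, ⟨1, 0, 2, 1⟩⟩) (by decide +kernel)

def tB13_ev0 : PosD ⟨⟨0, 1, 1⟩, ⟨98, 99, 147⟩, ⟨563, 825, 10000⟩, ⟨1900, 2289, 1000⟩⟩ (tB13.hEv false) :=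
  posD_of_check (c := ⟨205, ⟨4, 2, 8, 4⟩⟩) (by decide +kernel)

def tB13_zL0 : PosD ⟨⟨0, 1, 1⟩, ⟨98, 99, 147⟩, ⟨563, 825, 10000⟩, ⟨1900, 2289, 1000⟩⟩ (tB13.hZL false) :=
  posD_of_check (c := ⟨208, ⟨4, 3, 8, 4⟩⟩) (by decide +kernel)

def tB13_zU0 : PosD ⟨⟨0, 1, 1⟩, ⟨98, 99, 147⟩, ⟨563, 825, 10000⟩, ⟨1900, 2289, 1000⟩⟩ (tB13.hZU false) :=
  posD_of_check (c := ⟨208, ⟨4, 3, 8, 4⟩⟩) (by decide +kernel)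

def tB13_eL0 : PosD ⟨⟨0, 1, 1⟩, ⟨98, 99, 147⟩, ⟨563, 825, 10000⟩, ⟨1900, 2289, 1000⟩⟩ (tB13.hEL false) :=
  posD_of_check (c := ⟨297, ⟨5, 6, 11, 6⟩⟩) (by decide +kernel)

def tB13_eH0 : PosD ⟨⟨0, 1, 1⟩, ⟨98, 99, 147⟩, ⟨563, 825, 10000⟩, ⟨1900, 2289, 1000⟩⟩ (tB13.hEH false) :=
  posD_of_check (c := ⟨297, ⟨5, 6, 11, 6⟩⟩) (by decide +kernel)

def tB13_pL0 : PosD ⟨⟨0, 1, 1⟩, ⟨98, 99, 147⟩, ⟨563, 825, 10000⟩, ⟨1900, 2289, 1000⟩⟩ (tB13.hPL false) :=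
  posD_of_check (c := ⟨323, ⟨5, 6, 11, 7⟩⟩) (by decide +kernel)

def tB13_pU0 : PosD ⟨⟨0, 1, 1⟩, ⟨98, 99, 147⟩, ⟨563, 825, 10000⟩, ⟨1900, 2289, 1000⟩⟩ (tB13.hPU false) :=
  posD_of_check (c := ⟨323, ⟨5, 6, 11, 7⟩⟩) (by decide +kernel)

def tB13_kU0 : PosD ⟨⟨0, 1, 1⟩, ⟨98, 99, 147⟩, ⟨563, 825, 10000⟩, ⟨1900, 2289, 1000⟩⟩ (tB13.hKU false) :=
  posD_of_check (c := ⟨319, ⟨5, 6, 11, 7⟩⟩) (by decide +kernel)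

def tB13_kL0 : PosD ⟨⟨0, 1, 1⟩, ⟨98, 99, 147⟩, ⟨563, 825, 10000⟩, ⟨1900, 2289, 1000⟩⟩ (tB13.hKL false) :=
  posD_of_check (c := ⟨319, ⟨5, 6, 11, 7⟩⟩) (by decide +kernel)

def tB13_wU0 : PosD ⟨⟨0, 1, 1⟩, ⟨98, 99, 147⟩, ⟨563, 825, 10000⟩, ⟨1900, 2289, 1000⟩⟩ (tB13.hWU false) :=
  posD_of_check (c := ⟨354, ⟨5, 8, 12, 7⟩⟩) (by decide +kernel)

def tB13_wL0 : PosD ⟨⟨0, 1, 1⟩, ⟨98, 99, 147⟩, ⟨563, 825, 10000⟩, ⟨1900, 2289, 1000⟩⟩ (tB13.hWL false) :=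
  posD_of_check (c := ⟨354, ⟨5, 8, 12, 7⟩⟩) (by decide +kernel)

def tB13_ev1 : PosD ⟨⟨0, 1, 1⟩, ⟨98, 99, 147⟩, ⟨563, 825, 10000⟩, ⟨1900, 2289, 1000⟩⟩ (tB13.hEv true) :=
  posD_of_check (c := ⟨204, ⟨4, 2, 8, 4⟩⟩) (by decide +kernel)

def tB13_zL1 : PosD ⟨⟨0, 1, 1⟩, ⟨98, 99, 147⟩, ⟨563, 825, 10000⟩, ⟨1900, 2289, 1000⟩⟩ (tB13.hZL true) :=
  posD_of_check (c := ⟨208, ⟨4, 3, 8, 4⟩⟩) (by decide +kernel)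

def tB13_zU1 : PosD ⟨⟨0, 1, 1⟩, ⟨98, 99, 147⟩, ⟨563, 825, 10000⟩, ⟨1900, 2289, 1000⟩⟩ (tB13.hZU true) :=
  posD_of_check (c := ⟨208, ⟨4, 3, 8, 4⟩⟩) (by decide +kernel)

def tB13_eL1 : PosD ⟨⟨0, 1, 1⟩, ⟨98, 99, 147⟩, ⟨563, 825, 10000⟩, ⟨1900, 2289, 1000⟩⟩ (tB13.hEL true) :=
  posD_of_check (c := ⟨297, ⟨5, 6, 11, 6⟩⟩) (by decide +kernel)

def tB13_eH1 : PosD ⟨⟨0, 1, 1⟩, ⟨98, 99, 147⟩, ⟨563, 825, 10000⟩, ⟨1900, 2289, 1000⟩⟩ (tB13.hEH true) :=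
  posD_of_check (c := ⟨296, ⟨5, 6, 11, 6⟩⟩) (by decide +kernel)

def tB13_pL1 : PosD ⟨⟨0, 1, 1⟩, ⟨98, 99, 147⟩, ⟨563, 825, 10000⟩, ⟨1900, 2289, 1000⟩⟩ (tB13.hPL true) :=
  posD_of_check (c := ⟨322, ⟨5, 6, 11, 7⟩⟩) (by decide +kernel)

def tB13_pU1 : PosD ⟨⟨0, 1, 1⟩, ⟨98, 99, 147⟩, ⟨563, 825, 10000⟩, ⟨1900, 2289, 1000⟩⟩ (tB13.hPU true) :=
  posD_of_check (c := ⟨322, ⟨5, 6, 11, 7⟩⟩) (by decide +kernel)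

def tB13_kU1 : PosD ⟨⟨0, 1, 1⟩, ⟨98, 99, 147⟩, ⟨563, 825, 10000⟩, ⟨1900, 2289, 1000⟩⟩ (tB13.hKU true) :=
  posD_of_check (c := ⟨318, ⟨5, 6, 11, 7⟩⟩) (by decide +kernel)

def tB13_kL1 : PosD ⟨⟨0, 1, 1⟩, ⟨98, 99, 147⟩, ⟨563, 825, 10000⟩, ⟨1900, 2289, 1000⟩⟩ (tB13.hKL true) :=
  posD_of_check (c := ⟨318, ⟨5, 6, 11, 7⟩⟩) (by decide +kernel)

def tB13_wU1 : PosD ⟨⟨0, 1, 1⟩, ⟨98, 99, 147⟩, ⟨563, 825, 10000⟩, ⟨1900, 2289, 1000⟩⟩ (tB13.hWU true) :=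
  posD_of_check (c := ⟨354, ⟨5, 8, 12, 7⟩⟩) (by decide +kernel)

def tB13_wL1 : PosD ⟨⟨0, 1, 1⟩, ⟨98, 99, 147⟩, ⟨563, 825, 10000⟩, ⟨1900, 2289, 1000⟩⟩ (tB13.hWL true) :=
  posD_of_check (c := ⟨354, ⟨5, 8, 12, 7⟩⟩) (by decide +kernel)

/-- The bounds of the piece. -/
def tB13_env : tB13.Env ⟨⟨0, 1, 1⟩, ⟨98, 99, 147⟩, ⟨563, 825, 10000⟩, ⟨1900, 2289, 1000⟩⟩ :=
  ⟨tB13_p0, Bool.forall_bool.2 ⟨tB13_den0, tB13_den1⟩, tB13_gn, Bool.forall_bool.2 ⟨tB13_ev0, tB13_ev1⟩, Bool.forall_bool.2 ⟨tB13_zL0, tB13_zL1⟩, Bool.forall_bool.2 ⟨tB13_zU0, tB13_zU1⟩, Bool.forall_bool.2 ⟨tB13_eL0, tB13_eL1⟩, ⟨.inr rfl, .inr rfl⟩, Bool.forall_bool.2 ⟨tB13_eH0, tB13_eH1⟩, ⟨.inr rfl, .inr rfl⟩, Bool.forall_bool.2 ⟨tB13_pL0, tB13_pL1⟩, ⟨.inr rfl, .inr rfl⟩,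 Bool.forall_bool.2 ⟨tB13_pU0, tB13_pU1⟩, ⟨.inr rfl, .inr rfl⟩, Bool.forall_bool.2 ⟨tB13_kU0, tB13_kU1⟩, ⟨.inr rfl, .inr rfl⟩, Bool.forall_bool.2 ⟨tB13_kL0, tB13_kL1⟩, ⟨.inr rfl, .inr rfl⟩, Bool.forall_bool.2 ⟨tB13_wU0, tB13_wU1⟩, ⟨.inr rfl, .inr rfl⟩, Bool.forall_bool.2 ⟨tB13_wL0, tB13_wL1⟩, ⟨.inr rfl, .inr rfl⟩⟩

def tB13_pp : PosD ⟨⟨0, 1, 1⟩, ⟨98, 99, 147⟩, ⟨563, 825, 10000⟩, ⟨1900, 2289, 1000⟩⟩ (tB13.xPL) :=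
  posD_of_check (c := ⟨90, ⟨1, 1, 3, 3⟩⟩) (by decide +kernel)

def tB13_k2p : PosD ⟨⟨0, 1, 1⟩, ⟨98, 99, 147⟩, ⟨563, 825, 10000⟩, ⟨1900, 2289, 1000⟩⟩ (tB13.k2p tB13.xE) :=
  posD_of_check (c := ⟨65, ⟨1, 1, 2, 2⟩⟩) (by decide +kernel)

def tB13_k2m : PosD ⟨⟨0, 1, 1⟩, ⟨98, 99, 147⟩, ⟨563, 825, 10000⟩, ⟨1900, 2289, 1000⟩⟩ (tB13.k2m tB13.xE) :=
  posD_of_check (c := ⟨24, ⟨0, 0, 1, 1⟩⟩) (by decide +kernel)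

def tB13_v2p : PosD ⟨⟨0, 1, 1⟩, ⟨98, 99, 147⟩, ⟨563, 825, 10000⟩, ⟨1900, 2289, 1000⟩⟩ (tB13.hV2p) :=
  posD_of_check (c := ⟨259, ⟨1, 6, 10, 5⟩⟩) (by decide +kernel)

def tB13_v2m : PosD ⟨⟨0, 1, 1⟩, ⟨98, 99, 147⟩, ⟨563, 825, 10000⟩, ⟨1900, 2289, 1000⟩⟩ (tB13.hV2m) :=
  posD_of_check (c := ⟨229, ⟨0, 5, 10, 4⟩⟩) (by decide +kernel)

def tB13_v3p : PosD ⟨⟨0, 1, 1⟩, ⟨98, 99, 147⟩, ⟨563, 825, 10000⟩, ⟨1900, 2289, 1000⟩⟩ (tB13.hV3p) :=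
  posD_of_check (c := ⟨247, ⟨1, 6, 9, 5⟩⟩) (by decide +kernel)

def tB13_v3m : PosD ⟨⟨0, 1, 1⟩, ⟨98, 99, 147⟩, ⟨563, 825, 10000⟩, ⟨1900, 2289, 1000⟩⟩ (tB13.hV3m) :=
  posD_of_check (c := ⟨221, ⟨0, 5, 9, 4⟩⟩) (by decide +kernel)

def tB13_kap0 : PosD ⟨⟨0, 1, 1⟩, ⟨98, 99, 147⟩, ⟨563, 825, 10000⟩, ⟨1900, 2289, 1000⟩⟩ (tB13.kap false) :=
  posD_of_check (c := ⟨66, ⟨1, 1, 2, 2⟩⟩) (by decide +kernel)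

def tB13_c10 : PosD ⟨⟨0, 1, 1⟩, ⟨98, 99, 147⟩, ⟨563, 825, 10000⟩, ⟨1900, 2289, 1000⟩⟩ (tB13.hC1 false) :=
  posD_of_check (c := ⟨261, ⟨3, 5, 9, 7⟩⟩) (by decide +kernel)

def tB13_c1h0 : PosD ⟨⟨0, 1, 1⟩, ⟨98, 99, 147⟩, ⟨563, 825, 10000⟩, ⟨1900, 2289, 1000⟩⟩ (tB13.hC1' false) :=
  posD_of_check (c := ⟨261, ⟨3, 5, 9, 7⟩⟩) (by decide +kernel)

def tB13_tg00 : PosD ⟨⟨0, 1, 1⟩, ⟨98, 99, 147⟩, ⟨563, 825, 10000⟩, ⟨1900, 2289, 1000⟩⟩ (tB13.hG false (tB13.pEnd false)) :=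
  posD_of_check (c := ⟨370, ⟨2, 7, 14, 9⟩⟩) (by decide +kernel)

def tB13_c2p00 : PosD ⟨⟨0, 1, 1⟩, ⟨98, 99, 147⟩, ⟨563, 825, 10000⟩, ⟨1900, 2289, 1000⟩⟩ (tB13.hC2p false (tB13.pEnd false)) :=
  posD_of_check (c := ⟨435, ⟨3, 8, 16, 11⟩⟩) (by decide +kernel)

def tB13_c2m00 : PosD ⟨⟨0, 1, 1⟩, ⟨98, 99, 147⟩, ⟨563, 825, 10000⟩, ⟨1900, 2289, 1000⟩⟩ (tB13.hC2m false (tB13.pEnd false)) :=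
  posD_of_check (c := ⟨406, ⟨2, 7, 16, 10⟩⟩) (by decide +kernel)

def tB13_c3p00 : PosD ⟨⟨0, 1, 1⟩, ⟨98, 99, 147⟩, ⟨563, 825, 10000⟩, ⟨1900, 2289, 1000⟩⟩ (tB13.hC3p false false) :=
  posD_of_check (c := ⟨427, ⟨3, 8, 15, 11⟩⟩) (by decide +kernel)

def tB13_c3m00 : PosD ⟨⟨0, 1, 1⟩, ⟨98, 99, 147⟩, ⟨563, 825, 10000⟩, ⟨1900, 2289, 1000⟩⟩ (tB13.hC3m false false) :=
  posD_of_check (c := ⟨402, ⟨3, 7, 15, 10⟩⟩) (by decide +kernel)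

def tB13_c3ph00 : PosD ⟨⟨0, 1, 1⟩, ⟨98, 99, 147⟩, ⟨563, 825, 10000⟩, ⟨1900, 2289, 1000⟩⟩ (tB13.hC3p' false false) :=
  posD_of_check (c := ⟨427, ⟨3, 8, 15, 11⟩⟩) (by decide +kernel)

def tB13_c3mh00 : PosD ⟨⟨0, 1, 1⟩, ⟨98, 99, 147⟩, ⟨563, 825, 10000⟩, ⟨1900, 2289, 1000⟩⟩ (tB13.hC3m' false false) :=
  posD_of_check (c := ⟨402, ⟨3, 7, 15, 10⟩⟩) (by decide +kernel)

def tB13_up00 : PosD ⟨⟨0, 1, 1⟩, ⟨98, 99, 147⟩, ⟨563, 825, 10000⟩, ⟨1900, 2289, 1000⟩⟩ (tB13.hUp false false) :=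
  posD_of_check (c := ⟨426, ⟨3, 8, 15, 11⟩⟩) (by decide +kernel)

def tB13_um00 : PosD ⟨⟨0, 1, 1⟩, ⟨98, 99, 147⟩, ⟨563, 825, 10000⟩, ⟨1900, 2289, 1000⟩⟩ (tB13.hUm false false) :=
  posD_of_check (c := ⟨400, ⟨2, 7, 15, 10⟩⟩) (by decide +kernel)

def tB13_tmg00 : PosD ⟨⟨0, 1, 1⟩, ⟨98, 99, 147⟩, ⟨563, 825, 10000⟩, ⟨1900, 2289, 1000⟩⟩ (tB13.hTMG false (tB13.pEnd false)) :=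
  posD_of_check (c := ⟨386, ⟨2, 7, 14, 10⟩⟩) (by decide +kernel)

def tB13_tg01 : PosD ⟨⟨0, 1, 1⟩, ⟨98, 99, 147⟩, ⟨563, 825, 10000⟩, ⟨1900, 2289, 1000⟩⟩ (tB13.hG true (tB13.pEnd false)) :=
  posD_of_check (c := ⟨370, ⟨2, 7, 14, 9⟩⟩) (by decide +kernel)

def tB13_c2p01 : PosD ⟨⟨0, 1, 1⟩, ⟨98, 99, 147⟩, ⟨563, 825, 10000⟩, ⟨1900, 2289, 1000⟩⟩ (tB13.hC2p true (tB13.pEnd false)) :=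
  posD_of_check (c := ⟨435, ⟨3, 8, 16, 11⟩⟩) (by decide +kernel)

def tB13_c2m01 : PosD ⟨⟨0, 1, 1⟩, ⟨98, 99, 147⟩, ⟨563, 825, 10000⟩, ⟨1900, 2289, 1000⟩⟩ (tB13.hC2m true (tB13.pEnd false)) :=
  posD_of_check (c := ⟨406, ⟨2, 7, 16, 10⟩⟩) (by decide +kernel)

def tB13_c3p01 : PosD ⟨⟨0, 1, 1⟩, ⟨98, 99, 147⟩, ⟨563, 825, 10000⟩, ⟨1900, 2289, 1000⟩⟩ (tB13.hC3p false true) :=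
  posD_of_check (c := ⟨427, ⟨3, 8, 15, 11⟩⟩) (by decide +kernel)

def tB13_c3m01 : PosD ⟨⟨0, 1, 1⟩, ⟨98, 99, 147⟩, ⟨563, 825, 10000⟩, ⟨1900, 2289, 1000⟩⟩ (tB13.hC3m false true) :=
  posD_of_check (c := ⟨402, ⟨3, 7, 15, 10⟩⟩) (by decide +kernel)

def tB13_c3ph01 : PosD ⟨⟨0, 1, 1⟩, ⟨98, 99, 147⟩, ⟨563, 825, 10000⟩, ⟨1900, 2289, 1000⟩⟩ (tB13.hC3p' false true) :=
  posD_of_check (c := ⟨427, ⟨3, 8, 15, 11⟩⟩) (by decide +kernel)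

def tB13_c3mh01 : PosD ⟨⟨0, 1, 1⟩, ⟨98, 99, 147⟩, ⟨563, 825, 10000⟩, ⟨1900, 2289, 1000⟩⟩ (tB13.hC3m' false true) :=
  posD_of_check (c := ⟨402, ⟨3, 7, 15, 10⟩⟩) (by decide +kernel)

def tB13_up01 : PosD ⟨⟨0, 1, 1⟩, ⟨98, 99, 147⟩, ⟨563, 825, 10000⟩, ⟨1900, 2289, 1000⟩⟩ (tB13.hUp false true) :=
  posD_of_check (c := ⟨426, ⟨3, 8, 15, 11⟩⟩) (by decide +kernel)

def tB13_um01 : PosD ⟨⟨0, 1, 1⟩, ⟨98, 99, 147⟩, ⟨563, 825, 10000⟩, ⟨1900, 2289, 1000⟩⟩ (tB13.hUm false true) :=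
  posD_of_check (c := ⟨400, ⟨2, 7, 15, 10⟩⟩) (by decide +kernel)

def tB13_tmg01 : PosD ⟨⟨0, 1, 1⟩, ⟨98, 99, 147⟩, ⟨563, 825, 10000⟩, ⟨1900, 2289, 1000⟩⟩ (tB13.hTMG true (tB13.pEnd false)) :=
  posD_of_check (c := ⟨386, ⟨2, 7, 14, 10⟩⟩) (by decide +kernel)

def tB13_kap1 : PosD ⟨⟨0, 1, 1⟩, ⟨98, 99, 147⟩, ⟨563, 825, 10000⟩, ⟨1900, 2289, 1000⟩⟩ (tB13.kap true) :=
  posD_of_check (c := ⟨70, ⟨1, 1, 2, 2⟩⟩) (by decide +kernel)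

def tB13_c11 : PosD ⟨⟨0, 1, 1⟩, ⟨98, 99, 147⟩, ⟨563, 825, 10000⟩, ⟨1900, 2289, 1000⟩⟩ (tB13.hC1 true) :=
  posD_of_check (c := ⟨265, ⟨3, 5, 9, 7⟩⟩) (by decide +kernel)

def tB13_c1h1 : PosD ⟨⟨0, 1, 1⟩, ⟨98, 99, 147⟩, ⟨563, 825, 10000⟩, ⟨1900, 2289, 1000⟩⟩ (tB13.hC1' true) :=
  posD_of_check (c := ⟨265, ⟨3, 5, 9, 7⟩⟩) (by decide +kernel)

def tB13_tg10 : PosD ⟨⟨0, 1, 1⟩, ⟨98, 99, 147⟩, ⟨563, 825, 10000⟩, ⟨1900, 2289, 1000⟩⟩ (tB13.hG false (tB13.pEnd true)) :=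
  posD_of_check (c := ⟨371, ⟨2, 7, 14, 9⟩⟩) (by decide +kernel)

def tB13_c2p10 : PosD ⟨⟨0, 1, 1⟩, ⟨98, 99, 147⟩, ⟨563, 825, 10000⟩, ⟨1900, 2289, 1000⟩⟩ (tB13.hC2p false (tB13.pEnd true)) :=
  posD_of_check (c := ⟨436, ⟨3, 8, 16, 11⟩⟩) (by decide +kernel)

def tB13_c2m10 : PosD ⟨⟨0, 1, 1⟩, ⟨98, 99, 147⟩, ⟨563, 825, 10000⟩, ⟨1900, 2289, 1000⟩⟩ (tB13.hC2m false (tB13.pEnd true)) :=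
  posD_of_check (c := ⟨406, ⟨2, 7, 16, 10⟩⟩) (by decide +kernel)

def tB13_c3p10 : PosD ⟨⟨0, 1, 1⟩, ⟨98, 99, 147⟩, ⟨563, 825, 10000⟩, ⟨1900, 2289, 1000⟩⟩ (tB13.hC3p true false) :=
  posD_of_check (c := ⟨430, ⟨3, 8, 15, 11⟩⟩) (by decide +kernel)

def tB13_c3m10 : PosD ⟨⟨0, 1, 1⟩, ⟨98, 99, 147⟩, ⟨563, 825, 10000⟩, ⟨1900, 2289, 1000⟩⟩ (tB13.hC3m true false) :=
  posD_of_check (c := ⟨405, ⟨3, 7, 15, 10⟩⟩) (by decide +kernel)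

def tB13_c3ph10 : PosD ⟨⟨0, 1, 1⟩, ⟨98, 99, 147⟩, ⟨563, 825, 10000⟩, ⟨1900, 2289, 1000⟩⟩ (tB13.hC3p' true false) :=
  posD_of_check (c := ⟨430, ⟨3, 8, 15, 11⟩⟩) (by decide +kernel)

def tB13_c3mh10 : PosD ⟨⟨0, 1, 1⟩, ⟨98, 99, 147⟩, ⟨563, 825, 10000⟩, ⟨1900, 2289, 1000⟩⟩ (tB13.hC3m' true false) :=
  posD_of_check (c := ⟨405, ⟨3, 7, 15, 10⟩⟩) (by decide +kernel)

def tB13_up10 : PosD ⟨⟨0, 1, 1⟩, ⟨98, 99, 147⟩, ⟨563, 825, 10000⟩, ⟨1900, 2289, 1000⟩⟩ (tB13.hUp true false) :=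
  posD_of_check (c := ⟨426, ⟨3, 8, 15, 11⟩⟩) (by decide +kernel)

def tB13_um10 : PosD ⟨⟨0, 1, 1⟩, ⟨98, 99, 147⟩, ⟨563, 825, 10000⟩, ⟨1900, 2289, 1000⟩⟩ (tB13.hUm true false) :=
  posD_of_check (c := ⟨400, ⟨2, 7, 15, 10⟩⟩) (by decide +kernel)

def tB13_tmg10 : PosD ⟨⟨0, 1, 1⟩, ⟨98, 99, 147⟩, ⟨563, 825, 10000⟩, ⟨1900, 2289, 1000⟩⟩ (tB13.hTMG false (tB13.pEnd true)) :=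
  posD_of_check (c := ⟨386, ⟨2, 7, 14, 10⟩⟩) (by decide +kernel)

def tB13_tg11 : PosD ⟨⟨0, 1, 1⟩, ⟨98, 99, 147⟩, ⟨563, 825, 10000⟩, ⟨1900, 2289, 1000⟩⟩ (tB13.hG true (tB13.pEnd true)) :=
  posD_of_check (c := ⟨371, ⟨2, 7, 14, 9⟩⟩) (by decide +kernel)

def tB13_c2p11 : PosD ⟨⟨0, 1, 1⟩, ⟨98, 99, 147⟩, ⟨563, 825, 10000⟩, ⟨1900, 2289, 1000⟩⟩ (tB13.hC2p true (tB13.pEnd true)) :=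
  posD_of_check (c := ⟨436, ⟨3, 8, 16, 11⟩⟩) (by decide +kernel)

def tB13_c2m11 : PosD ⟨⟨0, 1, 1⟩, ⟨98, 99, 147⟩, ⟨563, 825, 10000⟩, ⟨1900, 2289, 1000⟩⟩ (tB13.hC2m true (tB13.pEnd true)) :=
  posD_of_check (c := ⟨406, ⟨2, 7, 16, 10⟩⟩) (by decide +kernel)

def tB13_c3p11 : PosD ⟨⟨0, 1, 1⟩, ⟨98, 99, 147⟩, ⟨563, 825, 10000⟩, ⟨1900, 2289, 1000⟩⟩ (tB13.hC3p true true) :=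
  posD_of_check (c := ⟨430, ⟨3, 8, 15, 11⟩⟩) (by decide +kernel)

def tB13_c3m11 : PosD ⟨⟨0, 1, 1⟩, ⟨98, 99, 147⟩, ⟨563, 825, 10000⟩, ⟨1900, 2289, 1000⟩⟩ (tB13.hC3m true true) :=
  posD_of_check (c := ⟨405, ⟨3, 7, 15, 10⟩⟩) (by decide +kernel)

def tB13_c3ph11 : PosD ⟨⟨0, 1, 1⟩, ⟨98, 99, 147⟩, ⟨563, 825, 10000⟩, ⟨1900, 2289, 1000⟩⟩ (tB13.hC3p' true true) :=
  posD_of_check (c := ⟨430, ⟨3, 8, 15, 11⟩⟩) (by decide +kernel)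

def tB13_c3mh11 : PosD ⟨⟨0, 1, 1⟩, ⟨98, 99, 147⟩, ⟨563, 825, 10000⟩, ⟨1900, 2289, 1000⟩⟩ (tB13.hC3m' true true) :=
  posD_of_check (c := ⟨405, ⟨3, 7, 15, 10⟩⟩) (by decide +kernel)

def tB13_up11 : PosD ⟨⟨0, 1, 1⟩, ⟨98, 99, 147⟩, ⟨563, 825, 10000⟩, ⟨1900, 2289, 1000⟩⟩ (tB13.hUp true true) :=
  posD_of_check (c := ⟨426, ⟨3, 8, 15, 11⟩⟩) (by decide +kernel)

def tB13_um11 : PosD ⟨⟨0, 1, 1⟩, ⟨98, 99, 147⟩, ⟨563, 825, 10000⟩, ⟨1900, 2289, 1000⟩⟩ (tB13.hUm true true) :=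
  posD_of_check (c := ⟨400, ⟨2, 7, 15, 10⟩⟩) (by decide +kernel)

def tB13_tmg11 : PosD ⟨⟨0, 1, 1⟩, ⟨98, 99, 147⟩, ⟨563, 825, 10000⟩, ⟨1900, 2289, 1000⟩⟩ (tB13.hTMG true (tB13.pEnd true)) :=
  posD_of_check (c := ⟨386, ⟨2, 7, 14, 10⟩⟩) (by decide +kernel)

/-- The signs of the piece. -/
def tB13_sign : tB13.Sign ⟨⟨0, 1, 1⟩, ⟨98, 99, 147⟩, ⟨563, 825, 10000⟩, ⟨1900, 2289, 1000⟩⟩ :=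
  ⟨tB13_pp,
    tB13_k2p,
    tB13_k2m,
    Bool.forall_bool.2 ⟨(Bool.forall_bool.2 ⟨tB13_tg00, tB13_tg01⟩), (Bool.forall_bool.2 ⟨tB13_tg10, tB13_tg11⟩)⟩,
    Bool.forall_bool.2 ⟨(Bool.forall_bool.2 ⟨tB13_c2p00, tB13_c2p01⟩), (Bool.forall_bool.2 ⟨tB13_c2p10, tB13_c2p11⟩)⟩,
    Bool.forall_bool.2 ⟨(Bool.forall_bool.2 ⟨tB13_c2m00, tB13_c2m01⟩), (Bool.forall_bool.2 ⟨tB13_c2m10, tB13_c2m11⟩)⟩,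
    Bool.forall_bool.2 ⟨tB13_kap0, tB13_kap1⟩,
    Bool.forall_bool.2 ⟨tB13_c10, tB13_c11⟩,
    Bool.forall_bool.2 ⟨(Bool.forall_bool.2 ⟨tB13_c3p00, tB13_c3p01⟩), (Bool.forall_bool.2 ⟨tB13_c3p10, tB13_c3p11⟩)⟩,
    Bool.forall_bool.2 ⟨(Bool.forall_bool.2 ⟨tB13_c3m00, tB13_c3m01⟩), (Bool.forall_bool.2 ⟨tB13_c3m10, tB13_c3m11⟩)⟩,
    Bool.forall_bool.2 ⟨(Bool.forall_bool.2 ⟨tB13_tmg00, tB13_tmg01⟩), (Bool.forall_bool.2 ⟨tB13_tmg10, tB13_tmg11⟩)⟩,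
    .inr (Bool.forall_bool.2 ⟨⟨tB13_c1h0, Bool.forall_bool.2 ⟨⟨tB13_c3ph00, tB13_c3mh00, tB13_up00, tB13_um00⟩, ⟨tB13_c3ph01, tB13_c3mh01, tB13_up01, tB13_um01⟩⟩⟩, ⟨tB13_c1h1, Bool.forall_bool.2 ⟨⟨tB13_c3ph10, tB13_c3mh10, tB13_up10, tB13_um10⟩, ⟨tB13_c3ph11, tB13_c3mh11, tB13_up11, tB13_um11⟩⟩⟩⟩),
    tB13_v2p,
    tB13_v2m,
    tB13_v3p,
    tB13_v3m,
    posD_sub (b := ⟨⟨0, 1, 1⟩, ⟨98, 99, 147⟩, ⟨300, 1351, 10000⟩, ⟨290, 4000, 1000⟩⟩) (by decide +kernel) tB_vG,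
    posD_sub (b := ⟨⟨0, 1, 1⟩, ⟨98, 99, 147⟩, ⟨300, 1351, 10000⟩, ⟨290, 4000, 1000⟩⟩) (by decide +kernel) tB_vMG,
    posD_sub (b := ⟨⟨0, 1, 1⟩, ⟨98, 99, 147⟩, ⟨300, 1351, 10000⟩, ⟨290, 4000, 1000⟩⟩) (by decide +kernel) tB_ak,
    posD_sub (b := ⟨⟨0, 1, 1⟩, ⟨98, 99, 147⟩, ⟨300, 1351, 10000⟩, ⟨290, 4000, 1000⟩⟩) (by decide +kernel) tB_aw,
    posD_sub (b := ⟨⟨0, 1, 1⟩, ⟨98, 99, 147⟩, ⟨300, 1351, 10000⟩, ⟨290, 4000, 1000⟩⟩) (by decide +kernel) tB_gk,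
    posD_sub (b := ⟨⟨0, 1, 1⟩, ⟨98, 99, 147⟩, ⟨300, 1351, 10000⟩, ⟨290, 4000, 1000⟩⟩) (by decide +kernel) tB_gw,
    posD_sub (b := ⟨⟨0, 1, 1⟩, ⟨98, 99, 147⟩, ⟨300, 1351, 10000⟩, ⟨290, 4000, 1000⟩⟩) (by decide +kernel) tB_ek,
    posD_sub (b := ⟨⟨0, 1, 1⟩, ⟨98, 99, 147⟩, ⟨300, 1351, 10000⟩, ⟨290, 4000, 1000⟩⟩) (by decide +kernel) tB_ew⟩

end Vale.Agent.P100.Calib.Closed.Six.Tail
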