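import Vale.Agent.P100.Calib.SlabSixTailDataC
import Vale.Agent.P100.Calib.SlabSixTailGlobC

/-!
# Checks of some pieces of the certificate

The checks are written as definitions so that they run one after another, which keeps the memory of the
kernel low.
-/

set_option linter.defProp false

namespace Vale.Agent.P100.Calib.Closed.Six.Tail

open BoxPos Large

local instance sixTailCheckstC20Add : Add Ex := ⟨Ex.add⟩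
local instance sixTailCheckstC20Sub : Sub Ex := ⟨Ex.sub⟩
local instance sixTailCheckstC20Mul : Mul Ex := ⟨Ex.mul⟩

def tC31_phx : PosIf ⟨⟨0, 1, 1⟩, ⟨98, 99, 147⟩, ⟨7026, 8514, 30000⟩, ⟨1271, 1346, 1000⟩⟩ (tC31.u₁ - tC31Lo) (phCn (tC31.u₁ + xO * (tC31Lo - tC31.u₁))) :=
  posIf_of_posD (posD_of_check (c := ⟨108, ⟨2, 0, 4, 2⟩⟩) (by decide +kernel))

def tC31_phd : PosD ⟨⟨0, 1, 1⟩, ⟨98, 99, 147⟩, ⟨7026, 8514, 30000⟩, ⟨1271, 1346, 1000⟩⟩ (phCd (tC31.u₁ + xO * (tC31Lo - tC31.u₁))) :=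
  posD_of_check (c := ⟨51, ⟨1, 0, 2, 1⟩⟩) (by decide +kernel)

def tC31_p0 : PosD ⟨⟨0, 1, 1⟩, ⟨98, 99, 147⟩, ⟨7026, 8514, 30000⟩, ⟨1271, 1346, 1000⟩⟩ (tC31.hP0) :=
  posD_of_check (c := ⟨83, ⟨0, 2, 3, 1⟩⟩) (by decide +kernel)

def tC31_gn : PosD ⟨⟨0, 1, 1⟩, ⟨98, 99, 147⟩, ⟨7026, 8514, 30000⟩, ⟨1271, 1346, 1000⟩⟩ (tC31.hGn) :=
  posD_of_check (c := ⟨69, ⟨1, 1, 2, 2⟩⟩) (by decide +kernel)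

def tC31_den0 : PosD ⟨⟨0, 1, 1⟩, ⟨98, 99, 147⟩, ⟨7026, 8514, 30000⟩, ⟨1271, 1346, 1000⟩⟩ (tC31.hDen false) :=
  posD_of_check (c := ⟨51, ⟨1, 0, 2, 1⟩⟩) (by decide +kernel)

def tC31_den1 : PosD ⟨⟨0, 1, 1⟩, ⟨98, 99, 147⟩, ⟨7026, 8514, 30000⟩, ⟨1271, 1346, 1000⟩⟩ (tC31.hDen true) :=
  posD_of_check (c := ⟨51, ⟨1, 0, 2, 1⟩⟩) (by decide +kernel)

def tC31_ev0 : PosD ⟨⟨0, 1, 1⟩, ⟨98, 99, 147⟩, ⟨7026, 8514, 30000⟩, ⟨1271, 1346, 1000⟩⟩ (tC31.hEv false) :=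
  posD_of_check (c := ⟨219, ⟨4, 2, 8, 4⟩⟩) (by decide +kernel)

def tC31_zL0 : PosD ⟨⟨0, 1, 1⟩, ⟨98, 99, 147⟩, ⟨7026, 8514, 30000⟩, ⟨1271, 1346, 1000⟩⟩ (tC31.hZL false) :=
  posD_of_check (c := ⟨221, ⟨4, 3, 8, 4⟩⟩) (by decide +kernel)

def tC31_zU0 : PosD ⟨⟨0, 1, 1⟩, ⟨98, 99, 147⟩, ⟨7026, 8514, 30000⟩, ⟨1271, 1346, 1000⟩⟩ (tC31.hZU false) :=
  posD_of_check (c := ⟨221, ⟨4, 3, 8, 4⟩⟩) (by decide +kernel)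

def tC31_eL0 : PosD ⟨⟨0, 1, 1⟩, ⟨98, 99, 147⟩, ⟨7026, 8514, 30000⟩, ⟨1271, 1346, 1000⟩⟩ (tC31.hEL false) :=
  posD_of_check (c := ⟨314, ⟨5, 6, 11, 6⟩⟩) (by decide +kernel)

def tC31_eH0 : PosD ⟨⟨0, 1, 1⟩, ⟨98, 99, 147⟩, ⟨7026, 8514, 30000⟩, ⟨1271, 1346, 1000⟩⟩ (tC31.hEH false) :=
  posD_of_check (c := ⟨314, ⟨5, 6, 11, 6⟩⟩) (by decide +kernel)

def tC31_pL0 : PosD ⟨⟨0, 1, 1⟩, ⟨98, 99, 147⟩, ⟨7026, 8514, 30000⟩, ⟨1271, 1346, 1000⟩⟩ (tC31.hPL false) :=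
  posD_of_check (c := ⟨339, ⟨5, 6, 11, 7⟩⟩) (by decide +kernel)

def tC31_pU0 : PosD ⟨⟨0, 1, 1⟩, ⟨98, 99, 147⟩, ⟨7026, 8514, 30000⟩, ⟨1271, 1346, 1000⟩⟩ (tC31.hPU false) :=
  posD_of_check (c := ⟨341, ⟨5, 6, 11, 7⟩⟩) (by decide +kernel)

def tC31_kU0 : PosD ⟨⟨0, 1, 1⟩, ⟨98, 99, 147⟩, ⟨7026, 8514, 30000⟩, ⟨1271, 1346, 1000⟩⟩ (tC31.hKU false) :=
  posD_of_check (c := ⟨337, ⟨5, 6, 11, 7⟩⟩) (by decide +kernel)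

def tC31_kL0 : PosD ⟨⟨0, 1, 1⟩, ⟨98, 99, 147⟩, ⟨7026, 8514, 30000⟩, ⟨1271, 1346, 1000⟩⟩ (tC31.hKL false) :=
  posD_of_check (c := ⟨336, ⟨5, 6, 11, 7⟩⟩) (by decide +kernel)

def tC31_wU0 : PosD ⟨⟨0, 1, 1⟩, ⟨98, 99, 147⟩, ⟨7026, 8514, 30000⟩, ⟨1271, 1346, 1000⟩⟩ (tC31.hWU false) :=
  posD_of_check (c := ⟨370, ⟨5, 8, 12, 7⟩⟩) (by decide +kernel)

def tC31_wL0 : PosD ⟨⟨0, 1, 1⟩, ⟨98, 99, 147⟩, ⟨7026, 8514, 30000⟩, ⟨1271, 1346, 1000⟩⟩ (tC31.hWL false) :=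
  posD_of_check (c := ⟨371, ⟨5, 8, 12, 7⟩⟩) (by decide +kernel)

def tC31_ev1 : PosD ⟨⟨0, 1, 1⟩, ⟨98, 99, 147⟩, ⟨7026, 8514, 30000⟩, ⟨1271, 1346, 1000⟩⟩ (tC31.hEv true) :=
  posD_of_check (c := ⟨218, ⟨4, 2, 8, 4⟩⟩) (by decide +kernel)

def tC31_zL1 : PosD ⟨⟨0, 1, 1⟩, ⟨98, 99, 147⟩, ⟨7026, 8514, 30000⟩, ⟨1271, 1346, 1000⟩⟩ (tC31.hZL true) :=
  posD_of_check (c := ⟨220, ⟨4, 3, 8, 4⟩⟩) (by decide +kernel)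

def tC31_zU1 : PosD ⟨⟨0, 1, 1⟩, ⟨98, 99, 147⟩, ⟨7026, 8514, 30000⟩, ⟨1271, 1346, 1000⟩⟩ (tC31.hZU true) :=
  posD_of_check (c := ⟨220, ⟨4, 3, 8, 4⟩⟩) (by decide +kernel)

def tC31_eL1 : PosD ⟨⟨0, 1, 1⟩, ⟨98, 99, 147⟩, ⟨7026, 8514, 30000⟩, ⟨1271, 1346, 1000⟩⟩ (tC31.hEL true) :=
  posD_of_check (c := ⟨313, ⟨5, 6, 11, 6⟩⟩) (by decide +kernel)

def tC31_eH1 : PosD ⟨⟨0, 1, 1⟩, ⟨98, 99, 147⟩, ⟨7026, 8514, 30000⟩, ⟨1271, 1346, 1000⟩⟩ (tC31.hEH true) :=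
  posD_of_check (c := ⟨312, ⟨5, 6, 11, 6⟩⟩) (by decide +kernel)

def tC31_pL1 : PosD ⟨⟨0, 1, 1⟩, ⟨98, 99, 147⟩, ⟨7026, 8514, 30000⟩, ⟨1271, 1346, 1000⟩⟩ (tC31.hPL true) :=
  posD_of_check (c := ⟨338, ⟨5, 6, 11, 7⟩⟩) (by decide +kernel)

def tC31_pU1 : PosD ⟨⟨0, 1, 1⟩, ⟨98, 99, 147⟩, ⟨7026, 8514, 30000⟩, ⟨1271, 1346, 1000⟩⟩ (tC31.hPU true) :=
  posD_of_check (c := ⟨340, ⟨5, 6, 11, 7⟩⟩) (by decide +kernel)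

def tC31_kU1 : PosD ⟨⟨0, 1, 1⟩, ⟨98, 99, 147⟩, ⟨7026, 8514, 30000⟩, ⟨1271, 1346, 1000⟩⟩ (tC31.hKU true) :=
  posD_of_check (c := ⟨335, ⟨5, 6, 11, 7⟩⟩) (by decide +kernel)

def tC31_kL1 : PosD ⟨⟨0, 1, 1⟩, ⟨98, 99, 147⟩, ⟨7026, 8514, 30000⟩, ⟨1271, 1346, 1000⟩⟩ (tC31.hKL true) :=
  posD_of_check (c := ⟨335, ⟨5, 6, 11, 7⟩⟩) (by decide +kernel)

def tC31_wU1 : PosD ⟨⟨0, 1, 1⟩, ⟨98, 99, 147⟩, ⟨7026, 8514, 30000⟩, ⟨1271, 1346, 1000⟩⟩ (tC31.hWU true) :=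
  posD_of_check (c := ⟨369, ⟨5, 8, 12, 7⟩⟩) (by decide +kernel)

def tC31_wL1 : PosD ⟨⟨0, 1, 1⟩, ⟨98, 99, 147⟩, ⟨7026, 8514, 30000⟩, ⟨1271, 1346, 1000⟩⟩ (tC31.hWL true) :=
  posD_of_check (c := ⟨369, ⟨5, 8, 12, 7⟩⟩) (by decide +kernel)

def tC31_mupL : PosD ⟨⟨0, 1, 1⟩, ⟨98, 99, 147⟩, ⟨7026, 8514, 30000⟩, ⟨1271, 1346, 1000⟩⟩ (tC31.pL.μ) :=
  posD_of_check (c := ⟨11, ⟨0, 0, 0, 0⟩⟩) (by decide +kernel)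

/-- The bounds of the piece. -/
def tC31_env : tC31.Env ⟨⟨0, 1, 1⟩, ⟨98, 99, 147⟩, ⟨7026, 8514, 30000⟩, ⟨1271, 1346, 1000⟩⟩ :=
  ⟨tC31_p0, Bool.forall_bool.2 ⟨tC31_den0, tC31_den1⟩, tC31_gn, Bool.forall_bool.2 ⟨tC31_ev0, tC31_ev1⟩, Bool.forall_bool.2 ⟨tC31_zL0, tC31_zL1⟩, Bool.forall_bool.2 ⟨tC31_zU0, tC31_zU1⟩, Bool.forall_bool.2 ⟨tC31_eL0, tC31_eL1⟩, ⟨.inr rfl, .inr rfl⟩, Bool.forall_bool.2 ⟨tC31_eH0, tC31_eH1⟩, ⟨.inr rfl, .inr rfl⟩, Bool.forall_bool.2 ⟨tC31_pL0, tC31_pL1⟩, ⟨.inl tC31_mupL, .inr rfl⟩, Bool.forall_bool.2 ⟨tC31_pU0, tC31_pU1⟩, ⟨.inr rfl, .inr rfl⟩, Bool.forall_bool.2 ⟨tC31_kU0, tC31_kU1⟩, ⟨.inr rfl, .inr rfl⟩, Bool.forall_bool.2 ⟨tC31_kL0, tC31_kL1⟩, ⟨.inr rfl, .inr rfl⟩, Bool.forall_bool.2 ⟨tC31_wU0, tC31_wU1⟩,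 ⟨.inr rfl, .inr rfl⟩, Bool.forall_bool.2 ⟨tC31_wL0, tC31_wL1⟩, ⟨.inr rfl, .inr rfl⟩⟩

def tC31_pU20 : PosD ⟨⟨0, 1, 1⟩, ⟨98, 99, 147⟩, ⟨7026, 8514, 30000⟩, ⟨1271, 1346, 1000⟩⟩ (({ tC31 with pU := tC31PU } : Piece).hPU false) :=
  posD_of_check (c := ⟨339, ⟨5, 6, 11, 7⟩⟩) (by decide +kernel)

def tC31_pU21 : PosD ⟨⟨0, 1, 1⟩, ⟨98, 99, 147⟩, ⟨7026, 8514, 30000⟩, ⟨1271, 1346, 1000⟩⟩ (({ tC31 with pU := tC31PU } : Piece).hPU true) :=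
  posD_of_check (c := ⟨337, ⟨5, 6, 11, 7⟩⟩) (by decide +kernel)

/-- The bounds with the other bound of `p`. -/
def tC31_envU : ({ tC31 with pU := tC31PU } : Piece).Env ⟨⟨0, 1, 1⟩, ⟨98, 99, 147⟩, ⟨7026, 8514, 30000⟩, ⟨1271, 1346, 1000⟩⟩ :=
  tC31_env.withU tC31PU (Bool.forall_bool.2 ⟨tC31_pU20, tC31_pU21⟩) ⟨.inr rfl, .inr rfl⟩

def tC31A_pp : PosD ⟨⟨0, 1, 1⟩, ⟨98, 99, 147⟩, ⟨7026, 8514, 30000⟩, ⟨1271, 1346, 1000⟩⟩ (tC31A.xPL) :=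
  posD_of_check (c := ⟨95, ⟨1, 1, 3, 3⟩⟩) (by decide +kernel)

def tC31A_k2p : PosD ⟨⟨0, 1, 1⟩, ⟨98, 99, 147⟩, ⟨7026, 8514, 30000⟩, ⟨1271, 1346, 1000⟩⟩ (tC31A.k2p tC31A.xE) :=
  posD_of_check (c := ⟨74, ⟨1, 1, 2, 2⟩⟩) (by decide +kernel)

def tC31A_k2m : PosD ⟨⟨0, 1, 1⟩, ⟨98, 99, 147⟩, ⟨7026, 8514, 30000⟩, ⟨1271, 1346, 1000⟩⟩ (tC31A.k2m tC31A.xE) :=
  posD_of_check (c := ⟨30, ⟨0, 0, 1, 1⟩⟩) (by decide +kernel)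

def tC31A_v2p : PosD ⟨⟨0, 1, 1⟩, ⟨98, 99, 147⟩, ⟨7026, 8514, 30000⟩, ⟨1271, 1346, 1000⟩⟩ (tC31A.hV2p) :=
  posD_of_check (c := ⟨274, ⟨1, 6, 10, 5⟩⟩) (by decide +kernel)

def tC31A_v2m : PosD ⟨⟨0, 1, 1⟩, ⟨98, 99, 147⟩, ⟨7026, 8514, 30000⟩, ⟨1271, 1346, 1000⟩⟩ (tC31A.hV2m) :=
  posD_of_check (c := ⟨243, ⟨0, 5, 10, 4⟩⟩) (by decide +kernel)

def tC31A_v3p : PosD ⟨⟨0, 1, 1⟩, ⟨98, 99, 147⟩, ⟨7026, 8514, 30000⟩, ⟨1271, 1346, 1000⟩⟩ (tC31A.hV3p) :=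
  posD_of_check (c := ⟨259, ⟨1, 6, 9, 5⟩⟩) (by decide +kernel)

def tC31A_v3m : PosD ⟨⟨0, 1, 1⟩, ⟨98, 99, 147⟩, ⟨7026, 8514, 30000⟩, ⟨1271, 1346, 1000⟩⟩ (tC31A.hV3m) :=
  posD_of_check (c := ⟨231, ⟨0, 5, 9, 4⟩⟩) (by decide +kernel)

def tC31A_kap0 : PosD ⟨⟨0, 1, 1⟩, ⟨98, 99, 147⟩, ⟨7026, 8514, 30000⟩, ⟨1271, 1346, 1000⟩⟩ (tC31A.kap false) :=
  posD_of_check (c := ⟨72, ⟨1, 1, 2, 2⟩⟩) (by decide +kernel)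

def tC31A_c10 : PosD ⟨⟨0, 1, 1⟩, ⟨98, 99, 147⟩, ⟨7026, 8514, 30000⟩, ⟨1271, 1346, 1000⟩⟩ (tC31A.hC1 false) :=
  posD_of_check (c := ⟨275, ⟨3, 5, 9, 7⟩⟩) (by decide +kernel)

def tC31A_c1h0 : PosD ⟨⟨0, 1, 1⟩, ⟨98, 99, 147⟩, ⟨7026, 8514, 30000⟩, ⟨1271, 1346, 1000⟩⟩ (tC31A.hC1' false) :=
  posD_of_check (c := ⟨275, ⟨3, 5, 9, 7⟩⟩) (by decide +kernel)

def tC31A_tg00 : PosD ⟨⟨0, 1, 1⟩, ⟨98, 99, 147⟩, ⟨7026, 8514, 30000⟩, ⟨1271, 1346, 1000⟩⟩ (tC31A.hG false (tC31A.pEnd false)) :=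
  posD_of_check (c := ⟨387, ⟨2, 7, 14, 9⟩⟩) (by decide +kernel)

def tC31A_c2p00 : PosD ⟨⟨0, 1, 1⟩, ⟨98, 99, 147⟩, ⟨7026, 8514, 30000⟩, ⟨1271, 1346, 1000⟩⟩ (tC31A.hC2p false (tC31A.pEnd false)) :=
  posD_of_check (c := ⟨460, ⟨3, 8, 16, 11⟩⟩) (by decide +kernel)

def tC31A_c2m00 : PosD ⟨⟨0, 1, 1⟩, ⟨98, 99, 147⟩, ⟨7026, 8514, 30000⟩, ⟨1271, 1346, 1000⟩⟩ (tC31A.hC2m false (tC31A.pEnd false)) :=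
  posD_of_check (c := ⟨430, ⟨2, 7, 16, 10⟩⟩) (by decide +kernel)

def tC31A_c3p00 : PosD ⟨⟨0, 1, 1⟩, ⟨98, 99, 147⟩, ⟨7026, 8514, 30000⟩, ⟨1271, 1346, 1000⟩⟩ (tC31A.hC3p false false) :=
  posD_of_check (c := ⟨447, ⟨3, 8, 15, 11⟩⟩) (by decide +kernel)

def tC31A_c3m00 : PosD ⟨⟨0, 1, 1⟩, ⟨98, 99, 147⟩, ⟨7026, 8514, 30000⟩, ⟨1271, 1346, 1000⟩⟩ (tC31A.hC3m false false) :=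
  posD_of_check (c := ⟨423, ⟨3, 7, 15, 10⟩⟩) (by decide +kernel)

def tC31A_c3ph00 : PosD ⟨⟨0, 1, 1⟩, ⟨98, 99, 147⟩, ⟨7026, 8514, 30000⟩, ⟨1271, 1346, 1000⟩⟩ (tC31A.hC3p' false false) :=
  posD_of_check (c := ⟨447, ⟨3, 8, 15, 11⟩⟩) (by decide +kernel)

def tC31A_c3mh00 : PosD ⟨⟨0, 1, 1⟩, ⟨98, 99, 147⟩, ⟨7026, 8514, 30000⟩, ⟨1271, 1346, 1000⟩⟩ (tC31A.hC3m' false false) :=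
  posD_of_check (c := ⟨423, ⟨3, 7, 15, 10⟩⟩) (by decide +kernel)

def tC31A_up00 : PosD ⟨⟨0, 1, 1⟩, ⟨98, 99, 147⟩, ⟨7026, 8514, 30000⟩, ⟨1271, 1346, 1000⟩⟩ (tC31A.hUp false false) :=
  posD_of_check (c := ⟨446, ⟨3, 8, 15, 11⟩⟩) (by decide +kernel)

def tC31A_um00 : PosD ⟨⟨0, 1, 1⟩, ⟨98, 99, 147⟩, ⟨7026, 8514, 30000⟩, ⟨1271, 1346, 1000⟩⟩ (tC31A.hUm false false) :=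
  posD_of_check (c := ⟨418, ⟨2, 7, 15, 10⟩⟩) (by decide +kernel)

def tC31A_tmg00 : PosD ⟨⟨0, 1, 1⟩, ⟨98, 99, 147⟩, ⟨7026, 8514, 30000⟩, ⟨1271, 1346, 1000⟩⟩ (tC31A.hTMG false (tC31A.pEnd false)) :=
  posD_of_check (c := ⟨402, ⟨2, 7, 14, 10⟩⟩) (by decide +kernel)

def tC31A_tg01 : PosD ⟨⟨0, 1, 1⟩, ⟨98, 99, 147⟩, ⟨7026, 8514, 30000⟩, ⟨1271, 1346, 1000⟩⟩ (tC31A.hG true (tC31A.pEnd false)) :=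
  posD_of_check (c := ⟨387, ⟨2, 7, 14, 9⟩⟩) (by decide +kernel)

def tC31A_c2p01 : PosD ⟨⟨0, 1, 1⟩, ⟨98, 99, 147⟩, ⟨7026, 8514, 30000⟩, ⟨1271, 1346, 1000⟩⟩ (tC31A.hC2p true (tC31A.pEnd false)) :=
  posD_of_check (c := ⟨460, ⟨3, 8, 16, 11⟩⟩) (by decide +kernel)

def tC31A_c2m01 : PosD ⟨⟨0, 1, 1⟩, ⟨98, 99, 147⟩, ⟨7026, 8514, 30000⟩, ⟨1271, 1346, 1000⟩⟩ (tC31A.hC2m true (tC31A.pEnd false)) :=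
  posD_of_check (c := ⟨430, ⟨2, 7, 16, 10⟩⟩) (by decide +kernel)

def tC31A_c3p01 : PosD ⟨⟨0, 1, 1⟩, ⟨98, 99, 147⟩, ⟨7026, 8514, 30000⟩, ⟨1271, 1346, 1000⟩⟩ (tC31A.hC3p false true) :=
  posD_of_check (c := ⟨447, ⟨3, 8, 15, 11⟩⟩) (by decide +kernel)

def tC31A_c3m01 : PosD ⟨⟨0, 1, 1⟩, ⟨98, 99, 147⟩, ⟨7026, 8514, 30000⟩, ⟨1271, 1346, 1000⟩⟩ (tC31A.hC3m false true) :=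
  posD_of_check (c := ⟨423, ⟨3, 7, 15, 10⟩⟩) (by decide +kernel)

def tC31A_c3ph01 : PosD ⟨⟨0, 1, 1⟩, ⟨98, 99, 147⟩, ⟨7026, 8514, 30000⟩, ⟨1271, 1346, 1000⟩⟩ (tC31A.hC3p' false true) :=
  posD_of_check (c := ⟨447, ⟨3, 8, 15, 11⟩⟩) (by decide +kernel)

def tC31A_c3mh01 : PosD ⟨⟨0, 1, 1⟩, ⟨98, 99, 147⟩, ⟨7026, 8514, 30000⟩, ⟨1271, 1346, 1000⟩⟩ (tC31A.hC3m' false true) :=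
  posD_of_check (c := ⟨423, ⟨3, 7, 15, 10⟩⟩) (by decide +kernel)

def tC31A_up01 : PosD ⟨⟨0, 1, 1⟩, ⟨98, 99, 147⟩, ⟨7026, 8514, 30000⟩, ⟨1271, 1346, 1000⟩⟩ (tC31A.hUp false true) :=
  posD_of_check (c := ⟨446, ⟨3, 8, 15, 11⟩⟩) (by decide +kernel)

def tC31A_um01 : PosD ⟨⟨0, 1, 1⟩, ⟨98, 99, 147⟩, ⟨7026, 8514, 30000⟩, ⟨1271, 1346, 1000⟩⟩ (tC31A.hUm false true) :=
  posD_of_check (c := ⟨418, ⟨2, 7, 15, 10⟩⟩) (by decide +kernel)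

def tC31A_tmg01 : PosD ⟨⟨0, 1, 1⟩, ⟨98, 99, 147⟩, ⟨7026, 8514, 30000⟩, ⟨1271, 1346, 1000⟩⟩ (tC31A.hTMG true (tC31A.pEnd false)) :=
  posD_of_check (c := ⟨402, ⟨2, 7, 14, 10⟩⟩) (by decide +kernel)

def tC31A_kap1 : PosD ⟨⟨0, 1, 1⟩, ⟨98, 99, 147⟩, ⟨7026, 8514, 30000⟩, ⟨1271, 1346, 1000⟩⟩ (tC31A.kap true) :=
  posD_of_check (c := ⟨72, ⟨1, 1, 2, 2⟩⟩) (by decide +kernel)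

def tC31A_c11 : PosD ⟨⟨0, 1, 1⟩, ⟨98, 99, 147⟩, ⟨7026, 8514, 30000⟩, ⟨1271, 1346, 1000⟩⟩ (tC31A.hC1 true) :=
  posD_of_check (c := ⟨278, ⟨3, 5, 9, 7⟩⟩) (by decide +kernel)

def tC31A_c1h1 : PosD ⟨⟨0, 1, 1⟩, ⟨98, 99, 147⟩, ⟨7026, 8514, 30000⟩, ⟨1271, 1346, 1000⟩⟩ (tC31A.hC1' true) :=
  posD_of_check (c := ⟨278, ⟨3, 5, 9, 7⟩⟩) (by decide +kernel)

def tC31A_tg10 : PosD ⟨⟨0, 1, 1⟩, ⟨98, 99, 147⟩, ⟨7026, 8514, 30000⟩, ⟨1271, 1346, 1000⟩⟩ (tC31A.hG false (tC31A.pEnd true)) :=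
  posD_of_check (c := ⟨392, ⟨2, 7, 14, 9⟩⟩) (by decide +kernel)

def tC31A_c2p10 : PosD ⟨⟨0, 1, 1⟩, ⟨98, 99, 147⟩, ⟨7026, 8514, 30000⟩, ⟨1271, 1346, 1000⟩⟩ (tC31A.hC2p false (tC31A.pEnd true)) :=
  posD_of_check (c := ⟨465, ⟨3, 8, 16, 11⟩⟩) (by decide +kernel)

def tC31A_c2m10 : PosD ⟨⟨0, 1, 1⟩, ⟨98, 99, 147⟩, ⟨7026, 8514, 30000⟩, ⟨1271, 1346, 1000⟩⟩ (tC31A.hC2m false (tC31A.pEnd true)) :=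
  posD_of_check (c := ⟨434, ⟨2, 7, 16, 10⟩⟩) (by decide +kernel)

def tC31A_c3p10 : PosD ⟨⟨0, 1, 1⟩, ⟨98, 99, 147⟩, ⟨7026, 8514, 30000⟩, ⟨1271, 1346, 1000⟩⟩ (tC31A.hC3p true false) :=
  posD_of_check (c := ⟨450, ⟨3, 8, 15, 11⟩⟩) (by decide +kernel)

def tC31A_c3m10 : PosD ⟨⟨0, 1, 1⟩, ⟨98, 99, 147⟩, ⟨7026, 8514, 30000⟩, ⟨1271, 1346, 1000⟩⟩ (tC31A.hC3m true false) :=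
  posD_of_check (c := ⟨426, ⟨3, 7, 15, 10⟩⟩) (by decide +kernel)

def tC31A_c3ph10 : PosD ⟨⟨0, 1, 1⟩, ⟨98, 99, 147⟩, ⟨7026, 8514, 30000⟩, ⟨1271, 1346, 1000⟩⟩ (tC31A.hC3p' true false) :=
  posD_of_check (c := ⟨450, ⟨3, 8, 15, 11⟩⟩) (by decide +kernel)

def tC31A_c3mh10 : PosD ⟨⟨0, 1, 1⟩, ⟨98, 99, 147⟩, ⟨7026, 8514, 30000⟩, ⟨1271, 1346, 1000⟩⟩ (tC31A.hC3m' true false) :=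
  posD_of_check (c := ⟨426, ⟨3, 7, 15, 10⟩⟩) (by decide +kernel)

def tC31A_up10 : PosD ⟨⟨0, 1, 1⟩, ⟨98, 99, 147⟩, ⟨7026, 8514, 30000⟩, ⟨1271, 1346, 1000⟩⟩ (tC31A.hUp true false) :=
  posD_of_check (c := ⟨450, ⟨3, 8, 15, 11⟩⟩) (by decide +kernel)

def tC31A_um10 : PosD ⟨⟨0, 1, 1⟩, ⟨98, 99, 147⟩, ⟨7026, 8514, 30000⟩, ⟨1271, 1346, 1000⟩⟩ (tC31A.hUm true false) :=
  posD_of_check (c := ⟨422, ⟨2, 7, 15, 10⟩⟩) (by decide +kernel)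

def tC31A_tmg10 : PosD ⟨⟨0, 1, 1⟩, ⟨98, 99, 147⟩, ⟨7026, 8514, 30000⟩, ⟨1271, 1346, 1000⟩⟩ (tC31A.hTMG false (tC31A.pEnd true)) :=
  posD_of_check (c := ⟨405, ⟨2, 7, 14, 10⟩⟩) (by decide +kernel)

def tC31A_tg11 : PosD ⟨⟨0, 1, 1⟩, ⟨98, 99, 147⟩, ⟨7026, 8514, 30000⟩, ⟨1271, 1346, 1000⟩⟩ (tC31A.hG true (tC31A.pEnd true)) :=
  posD_of_check (c := ⟨392, ⟨2, 7, 14, 9⟩⟩) (by decide +kernel)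

def tC31A_c2p11 : PosD ⟨⟨0, 1, 1⟩, ⟨98, 99, 147⟩, ⟨7026, 8514, 30000⟩, ⟨1271, 1346, 1000⟩⟩ (tC31A.hC2p true (tC31A.pEnd true)) :=
  posD_of_check (c := ⟨465, ⟨3, 8, 16, 11⟩⟩) (by decide +kernel)

def tC31A_c2m11 : PosD ⟨⟨0, 1, 1⟩, ⟨98, 99, 147⟩, ⟨7026, 8514, 30000⟩, ⟨1271, 1346, 1000⟩⟩ (tC31A.hC2m true (tC31A.pEnd true)) :=
  posD_of_check (c := ⟨434, ⟨2, 7, 16, 10⟩⟩) (by decide +kernel)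

def tC31A_c3p11 : PosD ⟨⟨0, 1, 1⟩, ⟨98, 99, 147⟩, ⟨7026, 8514, 30000⟩, ⟨1271, 1346, 1000⟩⟩ (tC31A.hC3p true true) :=
  posD_of_check (c := ⟨450, ⟨3, 8, 15, 11⟩⟩) (by decide +kernel)

def tC31A_c3m11 : PosD ⟨⟨0, 1, 1⟩, ⟨98, 99, 147⟩, ⟨7026, 8514, 30000⟩, ⟨1271, 1346, 1000⟩⟩ (tC31A.hC3m true true) :=
  posD_of_check (c := ⟨426, ⟨3, 7, 15, 10⟩⟩) (by decide +kernel)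

def tC31A_c3ph11 : PosD ⟨⟨0, 1, 1⟩, ⟨98, 99, 147⟩, ⟨7026, 8514, 30000⟩, ⟨1271, 1346, 1000⟩⟩ (tC31A.hC3p' true true) :=
  posD_of_check (c := ⟨450, ⟨3, 8, 15, 11⟩⟩) (by decide +kernel)

def tC31A_c3mh11 : PosD ⟨⟨0, 1, 1⟩, ⟨98, 99, 147⟩, ⟨7026, 8514, 30000⟩, ⟨1271, 1346, 1000⟩⟩ (tC31A.hC3m' true true) :=
  posD_of_check (c := ⟨426, ⟨3, 7, 15, 10⟩⟩) (by decide +kernel)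

def tC31A_up11 : PosD ⟨⟨0, 1, 1⟩, ⟨98, 99, 147⟩, ⟨7026, 8514, 30000⟩, ⟨1271, 1346, 1000⟩⟩ (tC31A.hUp true true) :=
  posD_of_check (c := ⟨450, ⟨3, 8, 15, 11⟩⟩) (by decide +kernel)

def tC31A_um11 : PosD ⟨⟨0, 1, 1⟩, ⟨98, 99, 147⟩, ⟨7026, 8514, 30000⟩, ⟨1271, 1346, 1000⟩⟩ (tC31A.hUm true true) :=
  posD_of_check (c := ⟨422, ⟨2, 7, 15, 10⟩⟩) (by decide +kernel)

def tC31A_tmg11 : PosD ⟨⟨0, 1, 1⟩, ⟨98, 99, 147⟩, ⟨7026, 8514, 30000⟩, ⟨1271, 1346, 1000⟩⟩ (tC31A.hTMG true (tC31A.pEnd true)) :=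
  posD_of_check (c := ⟨405, ⟨2, 7, 14, 10⟩⟩) (by decide +kernel)

/-- The signs of the piece. -/
def tC31A_sign : tC31A.Sign ⟨⟨0, 1, 1⟩, ⟨98, 99, 147⟩, ⟨7026, 8514, 30000⟩, ⟨1271, 1346, 1000⟩⟩ :=
  ⟨tC31A_pp,
    tC31A_k2p,
    tC31A_k2m,
    Bool.forall_bool.2 ⟨(Bool.forall_bool.2 ⟨tC31A_tg00, tC31A_tg01⟩), (Bool.forall_bool.2 ⟨tC31A_tg10, tC31A_tg11⟩)⟩,
    Bool.forall_bool.2 ⟨(Bool.forall_bool.2 ⟨tC31A_c2p00, tC31A_c2p01⟩), (Bool.forall_bool.2 ⟨tC31A_c2p10, tC31A_c2p11⟩)⟩,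
    Bool.forall_bool.2 ⟨(Bool.forall_bool.2 ⟨tC31A_c2m00, tC31A_c2m01⟩), (Bool.forall_bool.2 ⟨tC31A_c2m10, tC31A_c2m11⟩)⟩,
    Bool.forall_bool.2 ⟨tC31A_kap0, tC31A_kap1⟩,
    Bool.forall_bool.2 ⟨tC31A_c10, tC31A_c11⟩,
    Bool.forall_bool.2 ⟨(Bool.forall_bool.2 ⟨tC31A_c3p00, tC31A_c3p01⟩), (Bool.forall_bool.2 ⟨tC31A_c3p10, tC31A_c3p11⟩)⟩,
    Bool.forall_bool.2 ⟨(Bool.forall_bool.2 ⟨tC31A_c3m00, tC31A_c3m01⟩), (Bool.forall_bool.2 ⟨tC31A_c3m10, tC31A_c3m11⟩)⟩,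
    Bool.forall_bool.2 ⟨(Bool.forall_bool.2 ⟨tC31A_tmg00, tC31A_tmg01⟩), (Bool.forall_bool.2 ⟨tC31A_tmg10, tC31A_tmg11⟩)⟩,
    .inr (Bool.forall_bool.2 ⟨⟨tC31A_c1h0, Bool.forall_bool.2 ⟨⟨tC31A_c3ph00, tC31A_c3mh00, tC31A_up00, tC31A_um00⟩, ⟨tC31A_c3ph01, tC31A_c3mh01, tC31A_up01, tC31A_um01⟩⟩⟩, ⟨tC31A_c1h1, Bool.forall_bool.2 ⟨⟨tC31A_c3ph10, tC31A_c3mh10, tC31A_up10, tC31A_um10⟩, ⟨tC31A_c3ph11, tC31A_c3mh11, tC31A_up11, tC31A_um11⟩⟩⟩⟩),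
    tC31A_v2p,
    tC31A_v2m,
    tC31A_v3p,
    tC31A_v3m,
    posD_sub (b := ⟨⟨0, 1, 1⟩, ⟨98, 99, 147⟩, ⟨4050, 10000, 30000⟩, ⟨290, 4000, 1000⟩⟩) (by decide +kernel) tC_vG,
    posD_sub (b := ⟨⟨0, 1, 1⟩, ⟨98, 99, 147⟩, ⟨4050, 10000, 30000⟩, ⟨290, 4000, 1000⟩⟩) (by decide +kernel) tC_vMG,
    posD_sub (b := ⟨⟨0, 1, 1⟩, ⟨98, 99, 147⟩, ⟨4050, 10000, 30000⟩, ⟨290, 4000, 1000⟩⟩) (by decide +kernel) tC_ak,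
    posD_sub (b := ⟨⟨0, 1, 1⟩, ⟨98, 99, 147⟩, ⟨4050, 10000, 30000⟩, ⟨290, 4000, 1000⟩⟩) (by decide +kernel) tC_aw,
    posD_sub (b := ⟨⟨0, 1, 1⟩, ⟨98, 99, 147⟩, ⟨4050, 10000, 30000⟩, ⟨290, 4000, 1000⟩⟩) (by decide +kernel) tC_gk,
    posD_sub (b := ⟨⟨0, 1, 1⟩, ⟨98, 99, 147⟩, ⟨4050, 10000, 30000⟩, ⟨290, 4000, 1000⟩⟩) (by decide +kernel) tC_gw,
    posD_sub (b := ⟨⟨0, 1, 1⟩, ⟨98, 99, 147⟩, ⟨4050, 10000, 30000⟩, ⟨290, 4000, 1000⟩⟩) (by decide +kernel) tC_ek,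
    posD_sub (b := ⟨⟨0, 1, 1⟩, ⟨98, 99, 147⟩, ⟨4050, 10000, 30000⟩, ⟨290, 4000, 1000⟩⟩) (by decide +kernel) tC_ew⟩

def tC31B_pp : PosD ⟨⟨0, 1, 1⟩, ⟨98, 99, 147⟩, ⟨7026, 8514, 30000⟩, ⟨1271, 1346, 1000⟩⟩ (tC31B.xPL) :=
  posD_of_check (c := ⟨95, ⟨1, 1, 3, 3⟩⟩) (by decide +kernel)

def tC31B_k2p : PosD ⟨⟨0, 1, 1⟩, ⟨98, 99, 147⟩, ⟨7026, 8514, 30000⟩, ⟨1271, 1346, 1000⟩⟩ (tC31B.k2p tC31B.xE) :=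
  posD_of_check (c := ⟨71, ⟨1, 1, 2, 2⟩⟩) (by decide +kernel)

def tC31B_k2m : PosD ⟨⟨0, 1, 1⟩, ⟨98, 99, 147⟩, ⟨7026, 8514, 30000⟩, ⟨1271, 1346, 1000⟩⟩ (tC31B.k2m tC31B.xE) :=
  posD_of_check (c := ⟨70, ⟨1, 1, 2, 2⟩⟩) (by decide +kernel)

def tC31B_v2p : PosD ⟨⟨0, 1, 1⟩, ⟨98, 99, 147⟩, ⟨7026, 8514, 30000⟩, ⟨1271, 1346, 1000⟩⟩ (tC31B.hV2p) :=
  posD_of_check (c := ⟨272, ⟨1, 6, 10, 5⟩⟩) (by decide +kernel)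

def tC31B_v2m : PosD ⟨⟨0, 1, 1⟩, ⟨98, 99, 147⟩, ⟨7026, 8514, 30000⟩, ⟨1271, 1346, 1000⟩⟩ (tC31B.hV2m) :=
  posD_of_check (c := ⟨271, ⟨1, 6, 10, 5⟩⟩) (by decide +kernel)

def tC31B_v3p : PosD ⟨⟨0, 1, 1⟩, ⟨98, 99, 147⟩, ⟨7026, 8514, 30000⟩, ⟨1271, 1346, 1000⟩⟩ (tC31B.hV3p) :=
  posD_of_check (c := ⟨257, ⟨1, 6, 9, 5⟩⟩) (by decide +kernel)

def tC31B_v3m : PosD ⟨⟨0, 1, 1⟩, ⟨98, 99, 147⟩, ⟨7026, 8514, 30000⟩, ⟨1271, 1346, 1000⟩⟩ (tC31B.hV3m) :=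
  posD_of_check (c := ⟨256, ⟨1, 6, 9, 5⟩⟩) (by decide +kernel)

def tC31B_kap0 : PosD ⟨⟨0, 1, 1⟩, ⟨98, 99, 147⟩, ⟨7026, 8514, 30000⟩, ⟨1271, 1346, 1000⟩⟩ (tC31B.kap false) :=
  posD_of_check (c := ⟨70, ⟨1, 1, 2, 2⟩⟩) (by decide +kernel)

def tC31B_c10 : PosD ⟨⟨0, 1, 1⟩, ⟨98, 99, 147⟩, ⟨7026, 8514, 30000⟩, ⟨1271, 1346, 1000⟩⟩ (tC31B.hC1 false) :=
  posD_of_check (c := ⟨274, ⟨3, 5, 9, 7⟩⟩) (by decide +kernel)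

def tC31B_c1h0 : PosD ⟨⟨0, 1, 1⟩, ⟨98, 99, 147⟩, ⟨7026, 8514, 30000⟩, ⟨1271, 1346, 1000⟩⟩ (tC31B.hC1' false) :=
  posD_of_check (c := ⟨274, ⟨3, 5, 9, 7⟩⟩) (by decide +kernel)

def tC31B_tg00 : PosD ⟨⟨0, 1, 1⟩, ⟨98, 99, 147⟩, ⟨7026, 8514, 30000⟩, ⟨1271, 1346, 1000⟩⟩ (tC31B.hG false (tC31B.pEnd false)) :=
  posD_of_check (c := ⟨387, ⟨2, 7, 14, 9⟩⟩) (by decide +kernel)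

def tC31B_c2p00 : PosD ⟨⟨0, 1, 1⟩, ⟨98, 99, 147⟩, ⟨7026, 8514, 30000⟩, ⟨1271, 1346, 1000⟩⟩ (tC31B.hC2p false (tC31B.pEnd false)) :=
  posD_of_check (c := ⟨458, ⟨3, 8, 16, 11⟩⟩) (by decide +kernel)

def tC31B_c2m00 : PosD ⟨⟨0, 1, 1⟩, ⟨98, 99, 147⟩, ⟨7026, 8514, 30000⟩, ⟨1271, 1346, 1000⟩⟩ (tC31B.hC2m false (tC31B.pEnd false)) :=
  posD_of_check (c := ⟨457, ⟨3, 8, 16, 11⟩⟩) (by decide +kernel)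

def tC31B_c3p00 : PosD ⟨⟨0, 1, 1⟩, ⟨98, 99, 147⟩, ⟨7026, 8514, 30000⟩, ⟨1271, 1346, 1000⟩⟩ (tC31B.hC3p false false) :=
  posD_of_check (c := ⟨444, ⟨3, 8, 15, 11⟩⟩) (by decide +kernel)

def tC31B_c3m00 : PosD ⟨⟨0, 1, 1⟩, ⟨98, 99, 147⟩, ⟨7026, 8514, 30000⟩, ⟨1271, 1346, 1000⟩⟩ (tC31B.hC3m false false) :=
  posD_of_check (c := ⟨444, ⟨3, 8, 15, 11⟩⟩) (by decide +kernel)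

def tC31B_c3ph00 : PosD ⟨⟨0, 1, 1⟩, ⟨98, 99, 147⟩, ⟨7026, 8514, 30000⟩, ⟨1271, 1346, 1000⟩⟩ (tC31B.hC3p' false false) :=
  posD_of_check (c := ⟨444, ⟨3, 8, 15, 11⟩⟩) (by decide +kernel)

def tC31B_c3mh00 : PosD ⟨⟨0, 1, 1⟩, ⟨98, 99, 147⟩, ⟨7026, 8514, 30000⟩, ⟨1271, 1346, 1000⟩⟩ (tC31B.hC3m' false false) :=
  posD_of_check (c := ⟨444, ⟨3, 8, 15, 11⟩⟩) (by decide +kernel)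

def tC31B_up00 : PosD ⟨⟨0, 1, 1⟩, ⟨98, 99, 147⟩, ⟨7026, 8514, 30000⟩, ⟨1271, 1346, 1000⟩⟩ (tC31B.hUp false false) :=
  posD_of_check (c := ⟨443, ⟨3, 8, 15, 11⟩⟩) (by decide +kernel)

def tC31B_um00 : PosD ⟨⟨0, 1, 1⟩, ⟨98, 99, 147⟩, ⟨7026, 8514, 30000⟩, ⟨1271, 1346, 1000⟩⟩ (tC31B.hUm false false) :=
  posD_of_check (c := ⟨443, ⟨3, 8, 15, 11⟩⟩) (by decide +kernel)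

def tC31B_tmg00 : PosD ⟨⟨0, 1, 1⟩, ⟨98, 99, 147⟩, ⟨7026, 8514, 30000⟩, ⟨1271, 1346, 1000⟩⟩ (tC31B.hTMG false (tC31B.pEnd false)) :=
  posD_of_check (c := ⟨401, ⟨2, 7, 14, 10⟩⟩) (by decide +kernel)

def tC31B_tg01 : PosD ⟨⟨0, 1, 1⟩, ⟨98, 99, 147⟩, ⟨7026, 8514, 30000⟩, ⟨1271, 1346, 1000⟩⟩ (tC31B.hG true (tC31B.pEnd false)) :=
  posD_of_check (c := ⟨387, ⟨2, 7, 14, 9⟩⟩) (by decide +kernel)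

def tC31B_c2p01 : PosD ⟨⟨0, 1, 1⟩, ⟨98, 99, 147⟩, ⟨7026, 8514, 30000⟩, ⟨1271, 1346, 1000⟩⟩ (tC31B.hC2p true (tC31B.pEnd false)) :=
  posD_of_check (c := ⟨458, ⟨3, 8, 16, 11⟩⟩) (by decide +kernel)

def tC31B_c2m01 : PosD ⟨⟨0, 1, 1⟩, ⟨98, 99, 147⟩, ⟨7026, 8514, 30000⟩, ⟨1271, 1346, 1000⟩⟩ (tC31B.hC2m true (tC31B.pEnd false)) :=
  posD_of_check (c := ⟨457, ⟨3, 8, 16, 11⟩⟩) (by decide +kernel)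

def tC31B_c3p01 : PosD ⟨⟨0, 1, 1⟩, ⟨98, 99, 147⟩, ⟨7026, 8514, 30000⟩, ⟨1271, 1346, 1000⟩⟩ (tC31B.hC3p false true) :=
  posD_of_check (c := ⟨444, ⟨3, 8, 15, 11⟩⟩) (by decide +kernel)

def tC31B_c3m01 : PosD ⟨⟨0, 1, 1⟩, ⟨98, 99, 147⟩, ⟨7026, 8514, 30000⟩, ⟨1271, 1346, 1000⟩⟩ (tC31B.hC3m false true) :=
  posD_of_check (c := ⟨444, ⟨3, 8, 15, 11⟩⟩) (by decide +kernel)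

def tC31B_c3ph01 : PosD ⟨⟨0, 1, 1⟩, ⟨98, 99, 147⟩, ⟨7026, 8514, 30000⟩, ⟨1271, 1346, 1000⟩⟩ (tC31B.hC3p' false true) :=
  posD_of_check (c := ⟨444, ⟨3, 8, 15, 11⟩⟩) (by decide +kernel)

def tC31B_c3mh01 : PosD ⟨⟨0, 1, 1⟩, ⟨98, 99, 147⟩, ⟨7026, 8514, 30000⟩, ⟨1271, 1346, 1000⟩⟩ (tC31B.hC3m' false true) :=
  posD_of_check (c := ⟨444, ⟨3, 8, 15, 11⟩⟩) (by decide +kernel)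

def tC31B_up01 : PosD ⟨⟨0, 1, 1⟩, ⟨98, 99, 147⟩, ⟨7026, 8514, 30000⟩, ⟨1271, 1346, 1000⟩⟩ (tC31B.hUp false true) :=
  posD_of_check (c := ⟨443, ⟨3, 8, 15, 11⟩⟩) (by decide +kernel)

def tC31B_um01 : PosD ⟨⟨0, 1, 1⟩, ⟨98, 99, 147⟩, ⟨7026, 8514, 30000⟩, ⟨1271, 1346, 1000⟩⟩ (tC31B.hUm false true) :=
  posD_of_check (c := ⟨443, ⟨3, 8, 15, 11⟩⟩) (by decide +kernel)

def tC31B_tmg01 : PosD ⟨⟨0, 1, 1⟩, ⟨98, 99, 147⟩, ⟨7026, 8514, 30000⟩, ⟨1271, 1346, 1000⟩⟩ (tC31B.hTMG true (tC31B.pEnd false)) :=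
  posD_of_check (c := ⟨401, ⟨2, 7, 14, 10⟩⟩) (by decide +kernel)

def tC31B_kap1 : PosD ⟨⟨0, 1, 1⟩, ⟨98, 99, 147⟩, ⟨7026, 8514, 30000⟩, ⟨1271, 1346, 1000⟩⟩ (tC31B.kap true) :=
  posD_of_check (c := ⟨73, ⟨1, 1, 2, 2⟩⟩) (by decide +kernel)

def tC31B_c11 : PosD ⟨⟨0, 1, 1⟩, ⟨98, 99, 147⟩, ⟨7026, 8514, 30000⟩, ⟨1271, 1346, 1000⟩⟩ (tC31B.hC1 true) :=
  posD_of_check (c := ⟨276, ⟨3, 5, 9, 7⟩⟩) (by decide +kernel)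

def tC31B_c1h1 : PosD ⟨⟨0, 1, 1⟩, ⟨98, 99, 147⟩, ⟨7026, 8514, 30000⟩, ⟨1271, 1346, 1000⟩⟩ (tC31B.hC1' true) :=
  posD_of_check (c := ⟨276, ⟨3, 5, 9, 7⟩⟩) (by decide +kernel)

def tC31B_tg10 : PosD ⟨⟨0, 1, 1⟩, ⟨98, 99, 147⟩, ⟨7026, 8514, 30000⟩, ⟨1271, 1346, 1000⟩⟩ (tC31B.hG false (tC31B.pEnd true)) :=
  posD_of_check (c := ⟨386, ⟨2, 7, 14, 9⟩⟩) (by decide +kernel)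

def tC31B_c2p10 : PosD ⟨⟨0, 1, 1⟩, ⟨98, 99, 147⟩, ⟨7026, 8514, 30000⟩, ⟨1271, 1346, 1000⟩⟩ (tC31B.hC2p false (tC31B.pEnd true)) :=
  posD_of_check (c := ⟨457, ⟨3, 8, 16, 11⟩⟩) (by decide +kernel)

def tC31B_c2m10 : PosD ⟨⟨0, 1, 1⟩, ⟨98, 99, 147⟩, ⟨7026, 8514, 30000⟩, ⟨1271, 1346, 1000⟩⟩ (tC31B.hC2m false (tC31B.pEnd true)) :=
  posD_of_check (c := ⟨456, ⟨3, 8, 16, 11⟩⟩) (by decide +kernel)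

def tC31B_c3p10 : PosD ⟨⟨0, 1, 1⟩, ⟨98, 99, 147⟩, ⟨7026, 8514, 30000⟩, ⟨1271, 1346, 1000⟩⟩ (tC31B.hC3p true false) :=
  posD_of_check (c := ⟨446, ⟨3, 8, 15, 11⟩⟩) (by decide +kernel)

def tC31B_c3m10 : PosD ⟨⟨0, 1, 1⟩, ⟨98, 99, 147⟩, ⟨7026, 8514, 30000⟩, ⟨1271, 1346, 1000⟩⟩ (tC31B.hC3m true false) :=
  posD_of_check (c := ⟨446, ⟨3, 8, 15, 11⟩⟩) (by decide +kernel)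

def tC31B_c3ph10 : PosD ⟨⟨0, 1, 1⟩, ⟨98, 99, 147⟩, ⟨7026, 8514, 30000⟩, ⟨1271, 1346, 1000⟩⟩ (tC31B.hC3p' true false) :=
  posD_of_check (c := ⟨446, ⟨3, 8, 15, 11⟩⟩) (by decide +kernel)

def tC31B_c3mh10 : PosD ⟨⟨0, 1, 1⟩, ⟨98, 99, 147⟩, ⟨7026, 8514, 30000⟩, ⟨1271, 1346, 1000⟩⟩ (tC31B.hC3m' true false) :=
  posD_of_check (c := ⟨446, ⟨3, 8, 15, 11⟩⟩) (by decide +kernel)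

def tC31B_up10 : PosD ⟨⟨0, 1, 1⟩, ⟨98, 99, 147⟩, ⟨7026, 8514, 30000⟩, ⟨1271, 1346, 1000⟩⟩ (tC31B.hUp true false) :=
  posD_of_check (c := ⟨442, ⟨3, 8, 15, 11⟩⟩) (by decide +kernel)

def tC31B_um10 : PosD ⟨⟨0, 1, 1⟩, ⟨98, 99, 147⟩, ⟨7026, 8514, 30000⟩, ⟨1271, 1346, 1000⟩⟩ (tC31B.hUm true false) :=
  posD_of_check (c := ⟨442, ⟨3, 8, 15, 11⟩⟩) (by decide +kernel)

def tC31B_tmg10 : PosD ⟨⟨0, 1, 1⟩, ⟨98, 99, 147⟩, ⟨7026, 8514, 30000⟩, ⟨1271, 1346, 1000⟩⟩ (tC31B.hTMG false (tC31B.pEnd true)) :=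
  posD_of_check (c := ⟨401, ⟨2, 7, 14, 10⟩⟩) (by decide +kernel)

def tC31B_tg11 : PosD ⟨⟨0, 1, 1⟩, ⟨98, 99, 147⟩, ⟨7026, 8514, 30000⟩, ⟨1271, 1346, 1000⟩⟩ (tC31B.hG true (tC31B.pEnd true)) :=
  posD_of_check (c := ⟨386, ⟨2, 7, 14, 9⟩⟩) (by decide +kernel)

def tC31B_c2p11 : PosD ⟨⟨0, 1, 1⟩, ⟨98, 99, 147⟩, ⟨7026, 8514, 30000⟩, ⟨1271, 1346, 1000⟩⟩ (tC31B.hC2p true (tC31B.pEnd true)) :=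
  posD_of_check (c := ⟨457, ⟨3, 8, 16, 11⟩⟩) (by decide +kernel)

def tC31B_c2m11 : PosD ⟨⟨0, 1, 1⟩, ⟨98, 99, 147⟩, ⟨7026, 8514, 30000⟩, ⟨1271, 1346, 1000⟩⟩ (tC31B.hC2m true (tC31B.pEnd true)) :=
  posD_of_check (c := ⟨456, ⟨3, 8, 16, 11⟩⟩) (by decide +kernel)

def tC31B_c3p11 : PosD ⟨⟨0, 1, 1⟩, ⟨98, 99, 147⟩, ⟨7026, 8514, 30000⟩, ⟨1271, 1346, 1000⟩⟩ (tC31B.hC3p true true) :=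
  posD_of_check (c := ⟨446, ⟨3, 8, 15, 11⟩⟩) (by decide +kernel)

def tC31B_c3m11 : PosD ⟨⟨0, 1, 1⟩, ⟨98, 99, 147⟩, ⟨7026, 8514, 30000⟩, ⟨1271, 1346, 1000⟩⟩ (tC31B.hC3m true true) :=
  posD_of_check (c := ⟨446, ⟨3, 8, 15, 11⟩⟩) (by decide +kernel)

def tC31B_c3ph11 : PosD ⟨⟨0, 1, 1⟩, ⟨98, 99, 147⟩, ⟨7026, 8514, 30000⟩, ⟨1271, 1346, 1000⟩⟩ (tC31B.hC3p' true true) :=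
  posD_of_check (c := ⟨446, ⟨3, 8, 15, 11⟩⟩) (by decide +kernel)

def tC31B_c3mh11 : PosD ⟨⟨0, 1, 1⟩, ⟨98, 99, 147⟩, ⟨7026, 8514, 30000⟩, ⟨1271, 1346, 1000⟩⟩ (tC31B.hC3m' true true) :=
  posD_of_check (c := ⟨446, ⟨3, 8, 15, 11⟩⟩) (by decide +kernel)

def tC31B_up11 : PosD ⟨⟨0, 1, 1⟩, ⟨98, 99, 147⟩, ⟨7026, 8514, 30000⟩, ⟨1271, 1346, 1000⟩⟩ (tC31B.hUp true true) :=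
  posD_of_check (c := ⟨442, ⟨3, 8, 15, 11⟩⟩) (by decide +kernel)

def tC31B_um11 : PosD ⟨⟨0, 1, 1⟩, ⟨98, 99, 147⟩, ⟨7026, 8514, 30000⟩, ⟨1271, 1346, 1000⟩⟩ (tC31B.hUm true true) :=
  posD_of_check (c := ⟨442, ⟨3, 8, 15, 11⟩⟩) (by decide +kernel)

def tC31B_tmg11 : PosD ⟨⟨0, 1, 1⟩, ⟨98, 99, 147⟩, ⟨7026, 8514, 30000⟩, ⟨1271, 1346, 1000⟩⟩ (tC31B.hTMG true (tC31B.pEnd true)) :=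
  posD_of_check (c := ⟨401, ⟨2, 7, 14, 10⟩⟩) (by decide +kernel)

/-- The signs of the piece. -/
def tC31B_sign : tC31B.Sign ⟨⟨0, 1, 1⟩, ⟨98, 99, 147⟩, ⟨7026, 8514, 30000⟩, ⟨1271, 1346, 1000⟩⟩ :=
  ⟨tC31B_pp,
    tC31B_k2p,
    tC31B_k2m,
    Bool.forall_bool.2 ⟨(Bool.forall_bool.2 ⟨tC31B_tg00, tC31B_tg01⟩), (Bool.forall_bool.2 ⟨tC31B_tg10, tC31B_tg11⟩)⟩,
    Bool.forall_bool.2 ⟨(Bool.forall_bool.2 ⟨tC31B_c2p00, tC31B_c2p01⟩), (Bool.forall_bool.2 ⟨tC31B_c2p10, tC31B_c2p11⟩)⟩,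
    Bool.forall_bool.2 ⟨(Bool.forall_bool.2 ⟨tC31B_c2m00, tC31B_c2m01⟩), (Bool.forall_bool.2 ⟨tC31B_c2m10, tC31B_c2m11⟩)⟩,
    Bool.forall_bool.2 ⟨tC31B_kap0, tC31B_kap1⟩,
    Bool.forall_bool.2 ⟨tC31B_c10, tC31B_c11⟩,
    Bool.forall_bool.2 ⟨(Bool.forall_bool.2 ⟨tC31B_c3p00, tC31B_c3p01⟩), (Bool.forall_bool.2 ⟨tC31B_c3p10, tC31B_c3p11⟩)⟩,
    Bool.forall_bool.2 ⟨(Bool.forall_bool.2 ⟨tC31B_c3m00, tC31B_c3m01⟩), (Bool.forall_bool.2 ⟨tC31B_c3m10, tC31B_c3m11⟩)⟩,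
    Bool.forall_bool.2 ⟨(Bool.forall_bool.2 ⟨tC31B_tmg00, tC31B_tmg01⟩), (Bool.forall_bool.2 ⟨tC31B_tmg10, tC31B_tmg11⟩)⟩,
    .inr (Bool.forall_bool.2 ⟨⟨tC31B_c1h0, Bool.forall_bool.2 ⟨⟨tC31B_c3ph00, tC31B_c3mh00, tC31B_up00, tC31B_um00⟩, ⟨tC31B_c3ph01, tC31B_c3mh01, tC31B_up01, tC31B_um01⟩⟩⟩, ⟨tC31B_c1h1, Bool.forall_bool.2 ⟨⟨tC31B_c3ph10, tC31B_c3mh10, tC31B_up10, tC31B_um10⟩, ⟨tC31B_c3ph11, tC31B_c3mh11, tC31B_up11, tC31B_um11⟩⟩⟩⟩),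
    tC31B_v2p,
    tC31B_v2m,
    tC31B_v3p,
    tC31B_v3m,
    posD_sub (b := ⟨⟨0, 1, 1⟩, ⟨98, 99, 147⟩, ⟨4050, 10000, 30000⟩, ⟨290, 4000, 1000⟩⟩) (by decide +kernel) tC_vG,
    posD_sub (b := ⟨⟨0, 1, 1⟩, ⟨98, 99, 147⟩, ⟨4050, 10000, 30000⟩, ⟨290, 4000, 1000⟩⟩) (by decide +kernel) tC_vMG,
    posD_sub (b := ⟨⟨0, 1, 1⟩, ⟨98, 99, 147⟩, ⟨4050, 10000, 30000⟩, ⟨290, 4000, 1000⟩⟩) (by decide +kernel) tC_ak,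
    posD_sub (b := ⟨⟨0, 1, 1⟩, ⟨98, 99, 147⟩, ⟨4050, 10000, 30000⟩, ⟨290, 4000, 1000⟩⟩) (by decide +kernel) tC_aw,
    posD_sub (b := ⟨⟨0, 1, 1⟩, ⟨98, 99, 147⟩, ⟨4050, 10000, 30000⟩, ⟨290, 4000, 1000⟩⟩) (by decide +kernel) tC_gk,
    posD_sub (b := ⟨⟨0, 1, 1⟩, ⟨98, 99, 147⟩, ⟨4050, 10000, 30000⟩, ⟨290, 4000, 1000⟩⟩) (by decide +kernel) tC_gw,
    posD_sub (b := ⟨⟨0, 1, 1⟩, ⟨98, 99, 147⟩, ⟨4050, 10000, 30000⟩, ⟨290, 4000, 1000⟩⟩) (by decide +kernel) tC_ek,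
    posD_sub (b := ⟨⟨0, 1, 1⟩, ⟨98, 99, 147⟩, ⟨4050, 10000, 30000⟩, ⟨290, 4000, 1000⟩⟩) (by decide +kernel) tC_ew⟩

end Vale.Agent.P100.Calib.Closed.Six.Tail
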