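import Vale.Agent.P100.Calib.SlabSixTailDataC

/-!
# Checks of some pieces of the certificate

The checks are written as definitions so that they run one after another, which keeps the memory of the
kernel low.
-/

set_option linter.defProp false

namespace Vale.Agent.P100.Calib.Closed.Six.Tail

open BoxPos Large

local instance sixTailCheckstC31Add : Add Ex := ⟨Ex.add⟩
local instance sixTailCheckstC31Sub : Sub Ex := ⟨Ex.sub⟩
local instance sixTailCheckstC31Mul : Mul Ex := ⟨Ex.mul⟩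

def tC44_phx : PosD ⟨⟨0, 1, 1⟩, ⟨98, 99, 147⟩, ⟨8514, 10000, 30000⟩, ⟨1346, 1599, 1000⟩⟩ (phCn (tC44Hi + xO * (tC44Lo - tC44Hi))) :=
  posD_of_check (c := ⟨73, ⟨2, 0, 2, 1⟩⟩) (by decide +kernel)

def tC44_phd : PosD ⟨⟨0, 1, 1⟩, ⟨98, 99, 147⟩, ⟨8514, 10000, 30000⟩, ⟨1346, 1599, 1000⟩⟩ (phCd (tC44Hi + xO * (tC44Lo - tC44Hi))) :=
  posD_of_check (c := ⟨50, ⟨1, 0, 2, 0⟩⟩) (by decide +kernel)

end Vale.Agent.P100.Calib.Closed.Six.Tail
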