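import Vale.Agent.P100.Calib.SlabSixTailDataC
import Vale.Agent.P100.Calib.SlabSixTailGlobC

/-!
# Checks of some pieces of the certificate

The checks are written as definitions so that they run one after another, which keeps the memory of the
kernel low.
-/

set_option linter.defProp false

namespace Vale.Agent.P100.Calib.Closed.Six.Tail

open BoxPos Large

local instance sixTailCheckstC42Add : Add Ex := ⟨Ex.add⟩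
local instance sixTailCheckstC42Sub : Sub Ex := ⟨Ex.sub⟩
local instance sixTailCheckstC42Mul : Mul Ex := ⟨Ex.mul⟩

def tC60_phx : PosIf ⟨⟨0, 1, 1⟩, ⟨98, 99, 147⟩, ⟨9258, 9444, 30000⟩, ⟨1510, 1532, 1000⟩⟩ (tC60.u₁ - tC60Lo) (phCn (tC60.u₁ + xO * (tC60Lo - tC60.u₁))) :=
  posIf_of_posD (posD_of_check (c := ⟨109, ⟨2, 0, 4, 2⟩⟩) (by decide +kernel))

def tC60_phd : PosD ⟨⟨0, 1, 1⟩, ⟨98, 99, 147⟩, ⟨9258, 9444, 30000⟩, ⟨1510, 1532, 1000⟩⟩ (phCd (tC60.u₁ + xO * (tC60Lo - tC60.u₁))) :=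
  posD_of_check (c := ⟨51, ⟨1, 0, 2, 1⟩⟩) (by decide +kernel)

def tC60_p0 : PosD ⟨⟨0, 1, 1⟩, ⟨98, 99, 147⟩, ⟨9258, 9444, 30000⟩, ⟨1510, 1532, 1000⟩⟩ (tC60.hP0) :=
  posD_of_check (c := ⟨83, ⟨0, 2, 3, 1⟩⟩) (by decide +kernel)

def tC60_gn : PosD ⟨⟨0, 1, 1⟩, ⟨98, 99, 147⟩, ⟨9258, 9444, 30000⟩, ⟨1510, 1532, 1000⟩⟩ (tC60.hGn) :=
  posD_of_check (c := ⟨69, ⟨1, 1, 2, 2⟩⟩) (by decide +kernel)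

def tC60_den0 : PosD ⟨⟨0, 1, 1⟩, ⟨98, 99, 147⟩, ⟨9258, 9444, 30000⟩, ⟨1510, 1532, 1000⟩⟩ (tC60.hDen false) :=
  posD_of_check (c := ⟨51, ⟨1, 0, 2, 1⟩⟩) (by decide +kernel)

def tC60_den1 : PosD ⟨⟨0, 1, 1⟩, ⟨98, 99, 147⟩, ⟨9258, 9444, 30000⟩, ⟨1510, 1532, 1000⟩⟩ (tC60.hDen true) :=
  posD_of_check (c := ⟨180, ⟨3, 4, 6, 4⟩⟩) (by decide +kernel)

def tC60_ev0 : PosD ⟨⟨0, 1, 1⟩, ⟨98, 99, 147⟩, ⟨9258, 9444, 30000⟩, ⟨1510, 1532, 1000⟩⟩ (tC60.hEv false) :=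
  posD_of_check (c := ⟨220, ⟨4, 2, 8, 4⟩⟩) (by decide +kernel)

def tC60_zL0 : PosD ⟨⟨0, 1, 1⟩, ⟨98, 99, 147⟩, ⟨9258, 9444, 30000⟩, ⟨1510, 1532, 1000⟩⟩ (tC60.hZL false) :=
  posD_of_check (c := ⟨222, ⟨4, 3, 8, 4⟩⟩) (by decide +kernel)

def tC60_zU0 : PosD ⟨⟨0, 1, 1⟩, ⟨98, 99, 147⟩, ⟨9258, 9444, 30000⟩, ⟨1510, 1532, 1000⟩⟩ (tC60.hZU false) :=
  posD_of_check (c := ⟨222, ⟨4, 3, 8, 4⟩⟩) (by decide +kernel)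

def tC60_eL0 : PosD ⟨⟨0, 1, 1⟩, ⟨98, 99, 147⟩, ⟨9258, 9444, 30000⟩, ⟨1510, 1532, 1000⟩⟩ (tC60.hEL false) :=
  posD_of_check (c := ⟨317, ⟨5, 6, 11, 6⟩⟩) (by decide +kernel)

def tC60_eH0 : PosD ⟨⟨0, 1, 1⟩, ⟨98, 99, 147⟩, ⟨9258, 9444, 30000⟩, ⟨1510, 1532, 1000⟩⟩ (tC60.hEH false) :=
  posD_of_check (c := ⟨336, ⟨5, 6, 11, 7⟩⟩) (by decide +kernel)

def tC60_pL0 : PosD ⟨⟨0, 1, 1⟩, ⟨98, 99, 147⟩, ⟨9258, 9444, 30000⟩, ⟨1510, 1532, 1000⟩⟩ (tC60.hPL false) :=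
  posD_of_check (c := ⟨344, ⟨5, 6, 11, 7⟩⟩) (by decide +kernel)

def tC60_pU0 : PosD ⟨⟨0, 1, 1⟩, ⟨98, 99, 147⟩, ⟨9258, 9444, 30000⟩, ⟨1510, 1532, 1000⟩⟩ (tC60.hPU false) :=
  posD_of_check (c := ⟨342, ⟨5, 6, 11, 7⟩⟩) (by decide +kernel)

def tC60_kU0 : PosD ⟨⟨0, 1, 1⟩, ⟨98, 99, 147⟩, ⟨9258, 9444, 30000⟩, ⟨1510, 1532, 1000⟩⟩ (tC60.hKU false) :=
  posD_of_check (c := ⟨341, ⟨5, 6, 11, 7⟩⟩) (by decide +kernel)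

def tC60_kL0 : PosD ⟨⟨0, 1, 1⟩, ⟨98, 99, 147⟩, ⟨9258, 9444, 30000⟩, ⟨1510, 1532, 1000⟩⟩ (tC60.hKL false) :=
  posD_of_check (c := ⟨337, ⟨5, 6, 11, 7⟩⟩) (by decide +kernel)

def tC60_wU0 : PosD ⟨⟨0, 1, 1⟩, ⟨98, 99, 147⟩, ⟨9258, 9444, 30000⟩, ⟨1510, 1532, 1000⟩⟩ (tC60.hWU false) :=
  posD_of_check (c := ⟨372, ⟨5, 8, 12, 7⟩⟩) (by decide +kernel)

def tC60_wL0 : PosD ⟨⟨0, 1, 1⟩, ⟨98, 99, 147⟩, ⟨9258, 9444, 30000⟩, ⟨1510, 1532, 1000⟩⟩ (tC60.hWL false) :=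
  posD_of_check (c := ⟨375, ⟨5, 8, 12, 7⟩⟩) (by decide +kernel)

def tC60_ev1 : PosD ⟨⟨0, 1, 1⟩, ⟨98, 99, 147⟩, ⟨9258, 9444, 30000⟩, ⟨1510, 1532, 1000⟩⟩ (tC60.hEv true) :=
  posD_of_check (c := ⟨273, ⟨4, 6, 9, 6⟩⟩) (by decide +kernel)

def tC60_zL1 : PosD ⟨⟨0, 1, 1⟩, ⟨98, 99, 147⟩, ⟨9258, 9444, 30000⟩, ⟨1510, 1532, 1000⟩⟩ (tC60.hZL true) :=
  posD_of_check (c := ⟨298, ⟨4, 7, 10, 6⟩⟩) (by decide +kernel)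

def tC60_zU1 : PosD ⟨⟨0, 1, 1⟩, ⟨98, 99, 147⟩, ⟨9258, 9444, 30000⟩, ⟨1510, 1532, 1000⟩⟩ (tC60.hZU true) :=
  posD_of_check (c := ⟨298, ⟨4, 7, 10, 6⟩⟩) (by decide +kernel)

def tC60_eL1 : PosD ⟨⟨0, 1, 1⟩, ⟨98, 99, 147⟩, ⟨9258, 9444, 30000⟩, ⟨1510, 1532, 1000⟩⟩ (tC60.hEL true) :=
  posD_of_check (c := ⟨371, ⟨5, 10, 12, 8⟩⟩) (by decide +kernel)

def tC60_eH1 : PosD ⟨⟨0, 1, 1⟩, ⟨98, 99, 147⟩, ⟨9258, 9444, 30000⟩, ⟨1510, 1532, 1000⟩⟩ (tC60.hEH true) :=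
  posD_of_check (c := ⟨390, ⟨5, 10, 12, 9⟩⟩) (by decide +kernel)

def tC60_pL1 : PosD ⟨⟨0, 1, 1⟩, ⟨98, 99, 147⟩, ⟨9258, 9444, 30000⟩, ⟨1510, 1532, 1000⟩⟩ (tC60.hPL true) :=
  posD_of_check (c := ⟨398, ⟨5, 10, 12, 9⟩⟩) (by decide +kernel)

def tC60_pU1 : PosD ⟨⟨0, 1, 1⟩, ⟨98, 99, 147⟩, ⟨9258, 9444, 30000⟩, ⟨1510, 1532, 1000⟩⟩ (tC60.hPU true) :=
  posD_of_check (c := ⟨395, ⟨5, 10, 12, 9⟩⟩) (by decide +kernel)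

def tC60_kU1 : PosD ⟨⟨0, 1, 1⟩, ⟨98, 99, 147⟩, ⟨9258, 9444, 30000⟩, ⟨1510, 1532, 1000⟩⟩ (tC60.hKU true) :=
  posD_of_check (c := ⟨394, ⟨5, 10, 12, 9⟩⟩) (by decide +kernel)

def tC60_kL1 : PosD ⟨⟨0, 1, 1⟩, ⟨98, 99, 147⟩, ⟨9258, 9444, 30000⟩, ⟨1510, 1532, 1000⟩⟩ (tC60.hKL true) :=
  posD_of_check (c := ⟨391, ⟨5, 10, 12, 9⟩⟩) (by decide +kernel)

def tC60_wU1 : PosD ⟨⟨0, 1, 1⟩, ⟨98, 99, 147⟩, ⟨9258, 9444, 30000⟩, ⟨1510, 1532, 1000⟩⟩ (tC60.hWU true) :=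
  posD_of_check (c := ⟨426, ⟨5, 12, 13, 9⟩⟩) (by decide +kernel)

def tC60_wL1 : PosD ⟨⟨0, 1, 1⟩, ⟨98, 99, 147⟩, ⟨9258, 9444, 30000⟩, ⟨1510, 1532, 1000⟩⟩ (tC60.hWL true) :=
  posD_of_check (c := ⟨428, ⟨5, 12, 13, 9⟩⟩) (by decide +kernel)

def tC60_nueH : PosD ⟨⟨0, 1, 1⟩, ⟨98, 99, 147⟩, ⟨9258, 9444, 30000⟩, ⟨1510, 1532, 1000⟩⟩ (tC60.eH.ν) :=
  posD_of_check (c := ⟨35, ⟨0, 0, 1, 1⟩⟩) (by decide +kernel)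

def tC60_nupU : PosD ⟨⟨0, 1, 1⟩, ⟨98, 99, 147⟩, ⟨9258, 9444, 30000⟩, ⟨1510, 1532, 1000⟩⟩ (tC60.pU.ν) :=
  posD_of_check (c := ⟨36, ⟨0, 0, 1, 1⟩⟩) (by decide +kernel)

def tC60_nuwL : PosD ⟨⟨0, 1, 1⟩, ⟨98, 99, 147⟩, ⟨9258, 9444, 30000⟩, ⟨1510, 1532, 1000⟩⟩ (tC60.wL.ν) :=
  posD_of_check (c := ⟨39, ⟨0, 0, 1, 1⟩⟩) (by decide +kernel)

/-- The bounds of the piece. -/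
def tC60_env : tC60.Env ⟨⟨0, 1, 1⟩, ⟨98, 99, 147⟩, ⟨9258, 9444, 30000⟩, ⟨1510, 1532, 1000⟩⟩ :=
  ⟨tC60_p0, Bool.forall_bool.2 ⟨tC60_den0, tC60_den1⟩, tC60_gn, Bool.forall_bool.2 ⟨tC60_ev0, tC60_ev1⟩, Bool.forall_bool.2 ⟨tC60_zL0, tC60_zL1⟩, Bool.forall_bool.2 ⟨tC60_zU0, tC60_zU1⟩, Bool.forall_bool.2 ⟨tC60_eL0, tC60_eL1⟩, ⟨.inr rfl, .inr rfl⟩, Bool.forall_bool.2 ⟨tC60_eH0, tC60_eH1⟩, ⟨.inr rfl, .inl tC60_nueH⟩, Bool.forall_bool.2 ⟨tC60_pL0, tC60_pL1⟩, ⟨.inr rfl, .inr rfl⟩, Bool.forall_bool.2 ⟨tC60_pU0, tC60_pU1⟩, ⟨.inr rfl, .inl tC60_nupU⟩, Bool.forall_bool.2 ⟨tC60_kU0, tC60_kU1⟩, ⟨.inr rfl, .inr rfl⟩, Bool.forall_bool.2 ⟨tC60_kL0, tC60_kL1⟩, ⟨.inr rfl, .inr rfl⟩, Bool.forall_bool.2 ⟨tC60_wU0, tC60_wU1⟩, ⟨.inr rfl, .inr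 rfl⟩, Bool.forall_bool.2 ⟨tC60_wL0, tC60_wL1⟩, ⟨.inr rfl, .inl tC60_nuwL⟩⟩

def tC60_pp : PosD ⟨⟨0, 1, 1⟩, ⟨98, 99, 147⟩, ⟨9258, 9444, 30000⟩, ⟨1510, 1532, 1000⟩⟩ (tC60.xPL) :=
  posD_of_check (c := ⟨102, ⟨1, 1, 3, 2⟩⟩) (by decide +kernel)

def tC60_k2p : PosD ⟨⟨0, 1, 1⟩, ⟨98, 99, 147⟩, ⟨9258, 9444, 30000⟩, ⟨1510, 1532, 1000⟩⟩ (tC60.k2p tC60.xE) :=
  posD_of_check (c := ⟨74, ⟨1, 1, 2, 1⟩⟩) (by decide +kernel)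

def tC60_k2m : PosD ⟨⟨0, 1, 1⟩, ⟨98, 99, 147⟩, ⟨9258, 9444, 30000⟩, ⟨1510, 1532, 1000⟩⟩ (tC60.k2m tC60.xE) :=
  posD_of_check (c := ⟨31, ⟨0, 0, 1, 1⟩⟩) (by decide +kernel)

def tC60_v2p : PosD ⟨⟨0, 1, 1⟩, ⟨98, 99, 147⟩, ⟨9258, 9444, 30000⟩, ⟨1510, 1532, 1000⟩⟩ (tC60.hV2p) :=
  posD_of_check (c := ⟨276, ⟨1, 6, 10, 4⟩⟩) (by decide +kernel)

def tC60_v2m : PosD ⟨⟨0, 1, 1⟩, ⟨98, 99, 147⟩, ⟨9258, 9444, 30000⟩, ⟨1510, 1532, 1000⟩⟩ (tC60.hV2m) :=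
  posD_of_check (c := ⟨245, ⟨0, 5, 10, 4⟩⟩) (by decide +kernel)

def tC60_v3p : PosD ⟨⟨0, 1, 1⟩, ⟨98, 99, 147⟩, ⟨9258, 9444, 30000⟩, ⟨1510, 1532, 1000⟩⟩ (tC60.hV3p) :=
  posD_of_check (c := ⟨260, ⟨1, 6, 9, 4⟩⟩) (by decide +kernel)

def tC60_v3m : PosD ⟨⟨0, 1, 1⟩, ⟨98, 99, 147⟩, ⟨9258, 9444, 30000⟩, ⟨1510, 1532, 1000⟩⟩ (tC60.hV3m) :=
  posD_of_check (c := ⟨232, ⟨0, 5, 9, 4⟩⟩) (by decide +kernel)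

def tC60_kap0 : PosD ⟨⟨0, 1, 1⟩, ⟨98, 99, 147⟩, ⟨9258, 9444, 30000⟩, ⟨1510, 1532, 1000⟩⟩ (tC60.kap false) :=
  posD_of_check (c := ⟨74, ⟨1, 1, 2, 1⟩⟩) (by decide +kernel)

def tC60_c10 : PosD ⟨⟨0, 1, 1⟩, ⟨98, 99, 147⟩, ⟨9258, 9444, 30000⟩, ⟨1510, 1532, 1000⟩⟩ (tC60.hC1 false) :=
  posD_of_check (c := ⟨287, ⟨3, 5, 9, 6⟩⟩) (by decide +kernel)

def tC60_c1h0 : PosD ⟨⟨0, 1, 1⟩, ⟨98, 99, 147⟩, ⟨9258, 9444, 30000⟩, ⟨1510, 1532, 1000⟩⟩ (tC60.hC1' false) :=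
  posD_of_relax (k₁ := 0) (k₂ := 0) (k₃ := 123) (n := 16) (posD_of_check (c := ⟨287, ⟨3, 5, 9, 6⟩⟩) (by decide +kernel))

def tC60_tg00 : PosD ⟨⟨0, 1, 1⟩, ⟨98, 99, 147⟩, ⟨9258, 9444, 30000⟩, ⟨1510, 1532, 1000⟩⟩ (tC60.hG false (tC60.pEnd false)) :=
  posD_of_check (c := ⟨400, ⟨2, 7, 14, 7⟩⟩) (by decide +kernel)

def tC60_c2p00 : PosD ⟨⟨0, 1, 1⟩, ⟨98, 99, 147⟩, ⟨9258, 9444, 30000⟩, ⟨1510, 1532, 1000⟩⟩ (tC60.hC2p false (tC60.pEnd false)) :=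
  posD_of_check (c := ⟨474, ⟨3, 8, 16, 8⟩⟩) (by decide +kernel)

def tC60_c2m00 : PosD ⟨⟨0, 1, 1⟩, ⟨98, 99, 147⟩, ⟨9258, 9444, 30000⟩, ⟨1510, 1532, 1000⟩⟩ (tC60.hC2m false (tC60.pEnd false)) :=
  posD_of_check (c := ⟨443, ⟨2, 7, 16, 8⟩⟩) (by decide +kernel)

def tC60_c3p00 : PosD ⟨⟨0, 1, 1⟩, ⟨98, 99, 147⟩, ⟨9258, 9444, 30000⟩, ⟨1510, 1532, 1000⟩⟩ (tC60.hC3p false false) :=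
  posD_of_check (c := ⟨459, ⟨3, 8, 15, 8⟩⟩) (by decide +kernel)

def tC60_c3m00 : PosD ⟨⟨0, 1, 1⟩, ⟨98, 99, 147⟩, ⟨9258, 9444, 30000⟩, ⟨1510, 1532, 1000⟩⟩ (tC60.hC3m false false) :=
  posD_of_check (c := ⟨434, ⟨3, 7, 15, 8⟩⟩) (by decide +kernel)

def tC60_c3ph00 : PosD ⟨⟨0, 1, 1⟩, ⟨98, 99, 147⟩, ⟨9258, 9444, 30000⟩, ⟨1510, 1532, 1000⟩⟩ (tC60.hC3p' false false) :=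
  posD_of_check (c := ⟨459, ⟨3, 8, 15, 8⟩⟩) (by decide +kernel)

def tC60_c3mh00 : PosD ⟨⟨0, 1, 1⟩, ⟨98, 99, 147⟩, ⟨9258, 9444, 30000⟩, ⟨1510, 1532, 1000⟩⟩ (tC60.hC3m' false false) :=
  posD_of_check (c := ⟨434, ⟨3, 7, 15, 8⟩⟩) (by decide +kernel)

def tC60_up00 : PosD ⟨⟨0, 1, 1⟩, ⟨98, 99, 147⟩, ⟨9258, 9444, 30000⟩, ⟨1510, 1532, 1000⟩⟩ (tC60.hUp false false) :=
  posD_of_check (c := ⟨459, ⟨3, 8, 15, 8⟩⟩) (by decide +kernel)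

def tC60_um00 : PosD ⟨⟨0, 1, 1⟩, ⟨98, 99, 147⟩, ⟨9258, 9444, 30000⟩, ⟨1510, 1532, 1000⟩⟩ (tC60.hUm false false) :=
  posD_of_check (c := ⟨431, ⟨2, 7, 15, 8⟩⟩) (by decide +kernel)

def tC60_tmg00 : PosD ⟨⟨0, 1, 1⟩, ⟨98, 99, 147⟩, ⟨9258, 9444, 30000⟩, ⟨1510, 1532, 1000⟩⟩ (tC60.hTMG false (tC60.pEnd false)) :=
  posD_of_check (c := ⟨413, ⟨2, 7, 14, 8⟩⟩) (by decide +kernel)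

def tC60_tg01 : PosD ⟨⟨0, 1, 1⟩, ⟨98, 99, 147⟩, ⟨9258, 9444, 30000⟩, ⟨1510, 1532, 1000⟩⟩ (tC60.hG true (tC60.pEnd false)) :=
  posD_of_check (c := ⟨400, ⟨2, 7, 14, 7⟩⟩) (by decide +kernel)

def tC60_c2p01 : PosD ⟨⟨0, 1, 1⟩, ⟨98, 99, 147⟩, ⟨9258, 9444, 30000⟩, ⟨1510, 1532, 1000⟩⟩ (tC60.hC2p true (tC60.pEnd false)) :=
  posD_of_check (c := ⟨474, ⟨3, 8, 16, 8⟩⟩) (by decide +kernel)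

def tC60_c2m01 : PosD ⟨⟨0, 1, 1⟩, ⟨98, 99, 147⟩, ⟨9258, 9444, 30000⟩, ⟨1510, 1532, 1000⟩⟩ (tC60.hC2m true (tC60.pEnd false)) :=
  posD_of_check (c := ⟨443, ⟨2, 7, 16, 8⟩⟩) (by decide +kernel)

def tC60_c3p01 : PosD ⟨⟨0, 1, 1⟩, ⟨98, 99, 147⟩, ⟨9258, 9444, 30000⟩, ⟨1510, 1532, 1000⟩⟩ (tC60.hC3p false true) :=
  posD_of_check (c := ⟨459, ⟨3, 8, 15, 8⟩⟩) (by decide +kernel)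

def tC60_c3m01 : PosD ⟨⟨0, 1, 1⟩, ⟨98, 99, 147⟩, ⟨9258, 9444, 30000⟩, ⟨1510, 1532, 1000⟩⟩ (tC60.hC3m false true) :=
  posD_of_check (c := ⟨434, ⟨3, 7, 15, 8⟩⟩) (by decide +kernel)

def tC60_c3ph01 : PosD ⟨⟨0, 1, 1⟩, ⟨98, 99, 147⟩, ⟨9258, 9444, 30000⟩, ⟨1510, 1532, 1000⟩⟩ (tC60.hC3p' false true) :=
  posD_of_check (c := ⟨459, ⟨3, 8, 15, 8⟩⟩) (by decide +kernel)

def tC60_c3mh01 : PosD ⟨⟨0, 1, 1⟩, ⟨98, 99, 147⟩, ⟨9258, 9444, 30000⟩, ⟨1510, 1532, 1000⟩⟩ (tC60.hC3m' false true) :=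
  posD_of_check (c := ⟨434, ⟨3, 7, 15, 8⟩⟩) (by decide +kernel)

def tC60_up01 : PosD ⟨⟨0, 1, 1⟩, ⟨98, 99, 147⟩, ⟨9258, 9444, 30000⟩, ⟨1510, 1532, 1000⟩⟩ (tC60.hUp false true) :=
  posD_of_check (c := ⟨459, ⟨3, 8, 15, 8⟩⟩) (by decide +kernel)

def tC60_um01 : PosD ⟨⟨0, 1, 1⟩, ⟨98, 99, 147⟩, ⟨9258, 9444, 30000⟩, ⟨1510, 1532, 1000⟩⟩ (tC60.hUm false true) :=
  posD_of_check (c := ⟨431, ⟨2, 7, 15, 8⟩⟩) (by decide +kernel)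

def tC60_tmg01 : PosD ⟨⟨0, 1, 1⟩, ⟨98, 99, 147⟩, ⟨9258, 9444, 30000⟩, ⟨1510, 1532, 1000⟩⟩ (tC60.hTMG true (tC60.pEnd false)) :=
  posD_of_check (c := ⟨413, ⟨2, 7, 14, 8⟩⟩) (by decide +kernel)

def tC60_kap1 : PosD ⟨⟨0, 1, 1⟩, ⟨98, 99, 147⟩, ⟨9258, 9444, 30000⟩, ⟨1510, 1532, 1000⟩⟩ (tC60.kap true) :=
  posD_of_check (c := ⟨74, ⟨1, 1, 2, 1⟩⟩) (by decide +kernel)

def tC60_c11 : PosD ⟨⟨0, 1, 1⟩, ⟨98, 99, 147⟩, ⟨9258, 9444, 30000⟩, ⟨1510, 1532, 1000⟩⟩ (tC60.hC1 true) :=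
  posD_of_check (c := ⟨283, ⟨3, 5, 9, 6⟩⟩) (by decide +kernel)

def tC60_c1h1 : PosD ⟨⟨0, 1, 1⟩, ⟨98, 99, 147⟩, ⟨9258, 9444, 30000⟩, ⟨1510, 1532, 1000⟩⟩ (tC60.hC1' true) :=
  posD_of_relax (k₁ := 0) (k₂ := 0) (k₃ := 137) (n := 16) (posD_of_check (c := ⟨283, ⟨3, 5, 9, 6⟩⟩) (by decide +kernel))

def tC60_tg10 : PosD ⟨⟨0, 1, 1⟩, ⟨98, 99, 147⟩, ⟨9258, 9444, 30000⟩, ⟨1510, 1532, 1000⟩⟩ (tC60.hG false (tC60.pEnd true)) :=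
  posD_of_check (c := ⟨392, ⟨2, 7, 14, 7⟩⟩) (by decide +kernel)

def tC60_c2p10 : PosD ⟨⟨0, 1, 1⟩, ⟨98, 99, 147⟩, ⟨9258, 9444, 30000⟩, ⟨1510, 1532, 1000⟩⟩ (tC60.hC2p false (tC60.pEnd true)) :=
  posD_of_check (c := ⟨466, ⟨3, 8, 16, 8⟩⟩) (by decide +kernel)

def tC60_c2m10 : PosD ⟨⟨0, 1, 1⟩, ⟨98, 99, 147⟩, ⟨9258, 9444, 30000⟩, ⟨1510, 1532, 1000⟩⟩ (tC60.hC2m false (tC60.pEnd true)) :=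
  posD_of_check (c := ⟨436, ⟨2, 7, 16, 8⟩⟩) (by decide +kernel)

def tC60_c3p10 : PosD ⟨⟨0, 1, 1⟩, ⟨98, 99, 147⟩, ⟨9258, 9444, 30000⟩, ⟨1510, 1532, 1000⟩⟩ (tC60.hC3p true false) :=
  posD_of_check (c := ⟨452, ⟨3, 8, 15, 8⟩⟩) (by decide +kernel)

def tC60_c3m10 : PosD ⟨⟨0, 1, 1⟩, ⟨98, 99, 147⟩, ⟨9258, 9444, 30000⟩, ⟨1510, 1532, 1000⟩⟩ (tC60.hC3m true false) :=
  posD_of_check (c := ⟨429, ⟨3, 7, 15, 8⟩⟩) (by decide +kernel)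

def tC60_c3ph10 : PosD ⟨⟨0, 1, 1⟩, ⟨98, 99, 147⟩, ⟨9258, 9444, 30000⟩, ⟨1510, 1532, 1000⟩⟩ (tC60.hC3p' true false) :=
  posD_of_check (c := ⟨452, ⟨3, 8, 15, 8⟩⟩) (by decide +kernel)

def tC60_c3mh10 : PosD ⟨⟨0, 1, 1⟩, ⟨98, 99, 147⟩, ⟨9258, 9444, 30000⟩, ⟨1510, 1532, 1000⟩⟩ (tC60.hC3m' true false) :=
  posD_of_check (c := ⟨429, ⟨3, 7, 15, 8⟩⟩) (by decide +kernel)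

def tC60_up10 : PosD ⟨⟨0, 1, 1⟩, ⟨98, 99, 147⟩, ⟨9258, 9444, 30000⟩, ⟨1510, 1532, 1000⟩⟩ (tC60.hUp true false) :=
  posD_of_check (c := ⟨451, ⟨3, 8, 15, 8⟩⟩) (by decide +kernel)

def tC60_um10 : PosD ⟨⟨0, 1, 1⟩, ⟨98, 99, 147⟩, ⟨9258, 9444, 30000⟩, ⟨1510, 1532, 1000⟩⟩ (tC60.hUm true false) :=
  posD_of_check (c := ⟨423, ⟨2, 7, 15, 8⟩⟩) (by decide +kernel)

def tC60_tmg10 : PosD ⟨⟨0, 1, 1⟩, ⟨98, 99, 147⟩, ⟨9258, 9444, 30000⟩, ⟨1510, 1532, 1000⟩⟩ (tC60.hTMG false (tC60.pEnd true)) :=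
  posD_of_check (c := ⟨406, ⟨2, 7, 14, 8⟩⟩) (by decide +kernel)

def tC60_tg11 : PosD ⟨⟨0, 1, 1⟩, ⟨98, 99, 147⟩, ⟨9258, 9444, 30000⟩, ⟨1510, 1532, 1000⟩⟩ (tC60.hG true (tC60.pEnd true)) :=
  posD_of_check (c := ⟨392, ⟨2, 7, 14, 7⟩⟩) (by decide +kernel)

def tC60_c2p11 : PosD ⟨⟨0, 1, 1⟩, ⟨98, 99, 147⟩, ⟨9258, 9444, 30000⟩, ⟨1510, 1532, 1000⟩⟩ (tC60.hC2p true (tC60.pEnd true)) :=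
  posD_of_check (c := ⟨466, ⟨3, 8, 16, 8⟩⟩) (by decide +kernel)

def tC60_c2m11 : PosD ⟨⟨0, 1, 1⟩, ⟨98, 99, 147⟩, ⟨9258, 9444, 30000⟩, ⟨1510, 1532, 1000⟩⟩ (tC60.hC2m true (tC60.pEnd true)) :=
  posD_of_check (c := ⟨436, ⟨2, 7, 16, 8⟩⟩) (by decide +kernel)

def tC60_c3p11 : PosD ⟨⟨0, 1, 1⟩, ⟨98, 99, 147⟩, ⟨9258, 9444, 30000⟩, ⟨1510, 1532, 1000⟩⟩ (tC60.hC3p true true) :=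
  posD_of_check (c := ⟨452, ⟨3, 8, 15, 8⟩⟩) (by decide +kernel)

def tC60_c3m11 : PosD ⟨⟨0, 1, 1⟩, ⟨98, 99, 147⟩, ⟨9258, 9444, 30000⟩, ⟨1510, 1532, 1000⟩⟩ (tC60.hC3m true true) :=
  posD_of_check (c := ⟨429, ⟨3, 7, 15, 8⟩⟩) (by decide +kernel)

def tC60_c3ph11 : PosD ⟨⟨0, 1, 1⟩, ⟨98, 99, 147⟩, ⟨9258, 9444, 30000⟩, ⟨1510, 1532, 1000⟩⟩ (tC60.hC3p' true true) :=
  posD_of_check (c := ⟨452, ⟨3, 8, 15, 8⟩⟩) (by decide +kernel)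

def tC60_c3mh11 : PosD ⟨⟨0, 1, 1⟩, ⟨98, 99, 147⟩, ⟨9258, 9444, 30000⟩, ⟨1510, 1532, 1000⟩⟩ (tC60.hC3m' true true) :=
  posD_of_check (c := ⟨429, ⟨3, 7, 15, 8⟩⟩) (by decide +kernel)

def tC60_up11 : PosD ⟨⟨0, 1, 1⟩, ⟨98, 99, 147⟩, ⟨9258, 9444, 30000⟩, ⟨1510, 1532, 1000⟩⟩ (tC60.hUp true true) :=
  posD_of_check (c := ⟨451, ⟨3, 8, 15, 8⟩⟩) (by decide +kernel)

def tC60_um11 : PosD ⟨⟨0, 1, 1⟩, ⟨98, 99, 147⟩, ⟨9258, 9444, 30000⟩, ⟨1510, 1532, 1000⟩⟩ (tC60.hUm true true) :=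
  posD_of_check (c := ⟨423, ⟨2, 7, 15, 8⟩⟩) (by decide +kernel)

def tC60_tmg11 : PosD ⟨⟨0, 1, 1⟩, ⟨98, 99, 147⟩, ⟨9258, 9444, 30000⟩, ⟨1510, 1532, 1000⟩⟩ (tC60.hTMG true (tC60.pEnd true)) :=
  posD_of_check (c := ⟨406, ⟨2, 7, 14, 8⟩⟩) (by decide +kernel)

/-- The signs of the piece. -/
def tC60_sign : tC60.Sign ⟨⟨0, 1, 1⟩, ⟨98, 99, 147⟩, ⟨9258, 9444, 30000⟩, ⟨1510, 1532, 1000⟩⟩ :=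
  ⟨tC60_pp,
    tC60_k2p,
    tC60_k2m,
    Bool.forall_bool.2 ⟨(Bool.forall_bool.2 ⟨tC60_tg00, tC60_tg01⟩), (Bool.forall_bool.2 ⟨tC60_tg10, tC60_tg11⟩)⟩,
    Bool.forall_bool.2 ⟨(Bool.forall_bool.2 ⟨tC60_c2p00, tC60_c2p01⟩), (Bool.forall_bool.2 ⟨tC60_c2p10, tC60_c2p11⟩)⟩,
    Bool.forall_bool.2 ⟨(Bool.forall_bool.2 ⟨tC60_c2m00, tC60_c2m01⟩), (Bool.forall_bool.2 ⟨tC60_c2m10, tC60_c2m11⟩)⟩,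
    Bool.forall_bool.2 ⟨tC60_kap0, tC60_kap1⟩,
    Bool.forall_bool.2 ⟨tC60_c10, tC60_c11⟩,
    Bool.forall_bool.2 ⟨(Bool.forall_bool.2 ⟨tC60_c3p00, tC60_c3p01⟩), (Bool.forall_bool.2 ⟨tC60_c3p10, tC60_c3p11⟩)⟩,
    Bool.forall_bool.2 ⟨(Bool.forall_bool.2 ⟨tC60_c3m00, tC60_c3m01⟩), (Bool.forall_bool.2 ⟨tC60_c3m10, tC60_c3m11⟩)⟩,
    Bool.forall_bool.2 ⟨(Bool.forall_bool.2 ⟨tC60_tmg00, tC60_tmg01⟩), (Bool.forall_bool.2 ⟨tC60_tmg10, tC60_tmg11⟩)⟩,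
    .inr (Bool.forall_bool.2 ⟨⟨tC60_c1h0, Bool.forall_bool.2 ⟨⟨tC60_c3ph00, tC60_c3mh00, tC60_up00, tC60_um00⟩, ⟨tC60_c3ph01, tC60_c3mh01, tC60_up01, tC60_um01⟩⟩⟩, ⟨tC60_c1h1, Bool.forall_bool.2 ⟨⟨tC60_c3ph10, tC60_c3mh10, tC60_up10, tC60_um10⟩, ⟨tC60_c3ph11, tC60_c3mh11, tC60_up11, tC60_um11⟩⟩⟩⟩),
    tC60_v2p,
    tC60_v2m,
    tC60_v3p,
    tC60_v3m,
    posD_sub (b := ⟨⟨0, 1, 1⟩, ⟨98, 99, 147⟩, ⟨4050, 10000, 30000⟩, ⟨290, 4000, 1000⟩⟩) (by decide +kernel) tC_vG,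
    posD_sub (b := ⟨⟨0, 1, 1⟩, ⟨98, 99, 147⟩, ⟨4050, 10000, 30000⟩, ⟨290, 4000, 1000⟩⟩) (by decide +kernel) tC_vMG,
    posD_sub (b := ⟨⟨0, 1, 1⟩, ⟨98, 99, 147⟩, ⟨4050, 10000, 30000⟩, ⟨290, 4000, 1000⟩⟩) (by decide +kernel) tC_ak,
    posD_sub (b := ⟨⟨0, 1, 1⟩, ⟨98, 99, 147⟩, ⟨4050, 10000, 30000⟩, ⟨290, 4000, 1000⟩⟩) (by decide +kernel) tC_aw,
    posD_sub (b := ⟨⟨0, 1, 1⟩, ⟨98, 99, 147⟩, ⟨4050, 10000, 30000⟩, ⟨290, 4000, 1000⟩⟩) (by decide +kernel) tC_gk,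
    posD_sub (b := ⟨⟨0, 1, 1⟩, ⟨98, 99, 147⟩, ⟨4050, 10000, 30000⟩, ⟨290, 4000, 1000⟩⟩) (by decide +kernel) tC_gw,
    posD_sub (b := ⟨⟨0, 1, 1⟩, ⟨98, 99, 147⟩, ⟨4050, 10000, 30000⟩, ⟨290, 4000, 1000⟩⟩) (by decide +kernel) tC_ek,
    posD_sub (b := ⟨⟨0, 1, 1⟩, ⟨98, 99, 147⟩, ⟨4050, 10000, 30000⟩, ⟨290, 4000, 1000⟩⟩) (by decide +kernel) tC_ew⟩

def tC61_phx : PosIf ⟨⟨0, 1, 1⟩, ⟨98, 99, 147⟩, ⟨9444, 9630, 30000⟩, ⟨1510, 1532, 1000⟩⟩ (tC61.u₁ - tC61Lo) (phCn (tC61.u₁ + xO * (tC61Lo - tC61.u₁))) :=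
  posIf_of_posD (posD_of_check (c := ⟨109, ⟨2, 0, 4, 2⟩⟩) (by decide +kernel))

def tC61_phd : PosD ⟨⟨0, 1, 1⟩, ⟨98, 99, 147⟩, ⟨9444, 9630, 30000⟩, ⟨1510, 1532, 1000⟩⟩ (phCd (tC61.u₁ + xO * (tC61Lo - tC61.u₁))) :=
  posD_of_check (c := ⟨51, ⟨1, 0, 2, 1⟩⟩) (by decide +kernel)

def tC61_p0 : PosD ⟨⟨0, 1, 1⟩, ⟨98, 99, 147⟩, ⟨9444, 9630, 30000⟩, ⟨1510, 1532, 1000⟩⟩ (tC61.hP0) :=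
  posD_of_check (c := ⟨83, ⟨0, 2, 3, 1⟩⟩) (by decide +kernel)

def tC61_gn : PosD ⟨⟨0, 1, 1⟩, ⟨98, 99, 147⟩, ⟨9444, 9630, 30000⟩, ⟨1510, 1532, 1000⟩⟩ (tC61.hGn) :=
  posD_of_check (c := ⟨69, ⟨1, 1, 2, 2⟩⟩) (by decide +kernel)

def tC61_den0 : PosD ⟨⟨0, 1, 1⟩, ⟨98, 99, 147⟩, ⟨9444, 9630, 30000⟩, ⟨1510, 1532, 1000⟩⟩ (tC61.hDen false) :=
  posD_of_check (c := ⟨51, ⟨1, 0, 2, 1⟩⟩) (by decide +kernel)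

def tC61_den1 : PosD ⟨⟨0, 1, 1⟩, ⟨98, 99, 147⟩, ⟨9444, 9630, 30000⟩, ⟨1510, 1532, 1000⟩⟩ (tC61.hDen true) :=
  posD_of_check (c := ⟨51, ⟨1, 0, 2, 1⟩⟩) (by decide +kernel)

def tC61_none0 : PosD ⟨⟨0, 1, 1⟩, ⟨98, 99, 147⟩, ⟨9444, 9630, 30000⟩, ⟨1510, 1532, 1000⟩⟩ (tC61.hNone false) :=
  posD_of_check (c := ⟨355, ⟨5, 6, 11, 7⟩⟩) (by decide +kernel)

def tC61_none1 : PosD ⟨⟨0, 1, 1⟩, ⟨98, 99, 147⟩, ⟨9444, 9630, 30000⟩, ⟨1510, 1532, 1000⟩⟩ (tC61.hNone true) :=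
  posD_of_check (c := ⟨354, ⟨5, 6, 11, 7⟩⟩) (by decide +kernel)

def tC61_nupU : PosD ⟨⟨0, 1, 1⟩, ⟨98, 99, 147⟩, ⟨9444, 9630, 30000⟩, ⟨1510, 1532, 1000⟩⟩ (tC61.pU.ν) :=
  posD_of_check (c := ⟨54, ⟨0, 0, 1, 1⟩⟩) (by decide +kernel)

/-- No point in the piece. -/
def tC61_empty : tC61.Empty ⟨⟨0, 1, 1⟩, ⟨98, 99, 147⟩, ⟨9444, 9630, 30000⟩, ⟨1510, 1532, 1000⟩⟩ :=
  ⟨tC61_p0, Bool.forall_bool.2 ⟨tC61_den0, tC61_den1⟩, tC61_gn, ⟨.inr rfl, .inl tC61_nupU⟩, Bool.forall_bool.2 ⟨tC61_none0, tC61_none1⟩⟩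

def tC62_phx : PosD ⟨⟨0, 1, 1⟩, ⟨98, 99, 147⟩, ⟨9630, 10000, 30000⟩, ⟨1510, 1532, 1000⟩⟩ (phCn (tC62Hi + xO * (tC62Lo - tC62Hi))) :=
  posD_of_check (c := ⟨75, ⟨2, 0, 2, 1⟩⟩) (by decide +kernel)

def tC62_phd : PosD ⟨⟨0, 1, 1⟩, ⟨98, 99, 147⟩, ⟨9630, 10000, 30000⟩, ⟨1510, 1532, 1000⟩⟩ (phCd (tC62Hi + xO * (tC62Lo - tC62Hi))) :=
  posD_of_check (c := ⟨50, ⟨1, 0, 2, 0⟩⟩) (by decide +kernel)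

end Vale.Agent.P100.Calib.Closed.Six.Tail
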