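import Vale.Agent.P100.Calib.SlabSixTailDataC
import Vale.Agent.P100.Calib.SlabSixTailGlobC

/-!
# Checks of some pieces of the certificate

The checks are written as definitions so that they run one after another, which keeps the memory of the
kernel low.
-/

set_option linter.defProp false

namespace Vale.Agent.P100.Calib.Closed.Six.Tail

open BoxPos Large

local instance sixTailCheckstC53Add : Add Ex := ⟨Ex.add⟩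
local instance sixTailCheckstC53Sub : Sub Ex := ⟨Ex.sub⟩
local instance sixTailCheckstC53Mul : Mul Ex := ⟨Ex.mul⟩

def tC81_p0 : PosD ⟨⟨0, 1, 1⟩, ⟨98, 99, 147⟩, ⟨9258, 10000, 30000⟩, ⟨353, 430, 1000⟩⟩ (tC81.hP0) :=
  posD_of_check (c := ⟨83, ⟨0, 2, 3, 1⟩⟩) (by decide +kernel)

def tC81_gn : PosD ⟨⟨0, 1, 1⟩, ⟨98, 99, 147⟩, ⟨9258, 10000, 30000⟩, ⟨353, 430, 1000⟩⟩ (tC81.hGn) :=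
  posD_of_check (c := ⟨57, ⟨1, 1, 2, 1⟩⟩) (by decide +kernel)

def tC81_den0 : PosD ⟨⟨0, 1, 1⟩, ⟨98, 99, 147⟩, ⟨9258, 10000, 30000⟩, ⟨353, 430, 1000⟩⟩ (tC81.hDen false) :=
  posD_of_check (c := ⟨50, ⟨1, 0, 2, 0⟩⟩) (by decide +kernel)

def tC81_den1 : PosD ⟨⟨0, 1, 1⟩, ⟨98, 99, 147⟩, ⟨9258, 10000, 30000⟩, ⟨353, 430, 1000⟩⟩ (tC81.hDen true) :=
  posD_of_check (c := ⟨50, ⟨1, 0, 2, 0⟩⟩) (by decide +kernel)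

def tC81_ev0 : PosD ⟨⟨0, 1, 1⟩, ⟨98, 99, 147⟩, ⟨9258, 10000, 30000⟩, ⟨353, 430, 1000⟩⟩ (tC81.hEv false) :=
  posD_of_check (c := ⟨125, ⟨4, 2, 4, 1⟩⟩) (by decide +kernel)

def tC81_zL0 : PosD ⟨⟨0, 1, 1⟩, ⟨98, 99, 147⟩, ⟨9258, 10000, 30000⟩, ⟨353, 430, 1000⟩⟩ (tC81.hZL false) :=
  posD_of_check (c := ⟨171, ⟨4, 3, 6, 3⟩⟩) (by decide +kernel)

def tC81_zU0 : PosD ⟨⟨0, 1, 1⟩, ⟨98, 99, 147⟩, ⟨9258, 10000, 30000⟩, ⟨353, 430, 1000⟩⟩ (tC81.hZU false) :=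
  posD_of_check (c := ⟨171, ⟨4, 3, 6, 3⟩⟩) (by decide +kernel)

def tC81_eL0 : PosD ⟨⟨0, 1, 1⟩, ⟨98, 99, 147⟩, ⟨9258, 10000, 30000⟩, ⟨353, 430, 1000⟩⟩ (tC81.hEL false) :=
  posD_of_relax (k₁ := 0) (k₂ := 0) (k₃ := 47) (n := 16) (posD_of_check (c := ⟨238, ⟨5, 6, 7, 3⟩⟩) (by decide +kernel))

def tC81_eH0 : PosD ⟨⟨0, 1, 1⟩, ⟨98, 99, 147⟩, ⟨9258, 10000, 30000⟩, ⟨353, 430, 1000⟩⟩ (tC81.hEH false) :=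
  posD_of_check (c := ⟨239, ⟨5, 6, 7, 3⟩⟩) (by decide +kernel)

def tC81_pL0 : PosD ⟨⟨0, 1, 1⟩, ⟨98, 99, 147⟩, ⟨9258, 10000, 30000⟩, ⟨353, 430, 1000⟩⟩ (tC81.hPL false) :=
  posD_of_check (c := ⟨235, ⟨5, 6, 7, 3⟩⟩) (by decide +kernel)

def tC81_pU0 : PosD ⟨⟨0, 1, 1⟩, ⟨98, 99, 147⟩, ⟨9258, 10000, 30000⟩, ⟨353, 430, 1000⟩⟩ (tC81.hPU false) :=
  posD_of_check (c := ⟨235, ⟨5, 6, 7, 3⟩⟩) (by decide +kernel)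

def tC81_kU0 : PosD ⟨⟨0, 1, 1⟩, ⟨98, 99, 147⟩, ⟨9258, 10000, 30000⟩, ⟨353, 430, 1000⟩⟩ (tC81.hKU false) :=
  posD_of_check (c := ⟨237, ⟨5, 6, 7, 3⟩⟩) (by decide +kernel)

def tC81_kL0 : PosD ⟨⟨0, 1, 1⟩, ⟨98, 99, 147⟩, ⟨9258, 10000, 30000⟩, ⟨353, 430, 1000⟩⟩ (tC81.hKL false) :=
  posD_of_check (c := ⟨239, ⟨5, 6, 7, 3⟩⟩) (by decide +kernel)

def tC81_wU0a : PosD ⟨⟨0, 1, 1⟩, ⟨98, 99, 147⟩, ⟨9258, 10000, 30000⟩, ⟨353, 391, 1000⟩⟩ (tC81.hWU false) :=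
  posD_of_check (c := ⟨267, ⟨5, 8, 8, 3⟩⟩) (by decide +kernel)

def tC81_wU0b : PosD ⟨⟨0, 1, 1⟩, ⟨98, 99, 147⟩, ⟨9258, 10000, 30000⟩, ⟨391, 430, 1000⟩⟩ (tC81.hWU false) :=
  posD_of_check (c := ⟨267, ⟨5, 8, 8, 3⟩⟩) (by decide +kernel)

def tC81_wU0 : PosD ⟨⟨0, 1, 1⟩, ⟨98, 99, 147⟩, ⟨9258, 10000, 30000⟩, ⟨353, 430, 1000⟩⟩ (tC81.hWU false) :=
  posD_join₃ tC81_wU0a tC81_wU0b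

def tC81_wL0 : PosD ⟨⟨0, 1, 1⟩, ⟨98, 99, 147⟩, ⟨9258, 10000, 30000⟩, ⟨353, 430, 1000⟩⟩ (tC81.hWL false) :=
  posD_of_check (c := ⟨270, ⟨5, 8, 8, 3⟩⟩) (by decide +kernel)

def tC81_ev1 : PosD ⟨⟨0, 1, 1⟩, ⟨98, 99, 147⟩, ⟨9258, 10000, 30000⟩, ⟨353, 430, 1000⟩⟩ (tC81.hEv true) :=
  posD_of_check (c := ⟨127, ⟨4, 2, 4, 1⟩⟩) (by decide +kernel)

def tC81_zL1 : PosD ⟨⟨0, 1, 1⟩, ⟨98, 99, 147⟩, ⟨9258, 10000, 30000⟩, ⟨353, 430, 1000⟩⟩ (tC81.hZL true) :=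
  posD_of_check (c := ⟨169, ⟨4, 3, 6, 3⟩⟩) (by decide +kernel)

def tC81_zU1 : PosD ⟨⟨0, 1, 1⟩, ⟨98, 99, 147⟩, ⟨9258, 10000, 30000⟩, ⟨353, 430, 1000⟩⟩ (tC81.hZU true) :=
  posD_of_check (c := ⟨169, ⟨4, 3, 6, 3⟩⟩) (by decide +kernel)

def tC81_eL1 : PosD ⟨⟨0, 1, 1⟩, ⟨98, 99, 147⟩, ⟨9258, 10000, 30000⟩, ⟨353, 430, 1000⟩⟩ (tC81.hEL true) :=
  posD_of_relax (k₁ := 0) (k₂ := 0) (k₃ := 73) (n := 16) (posD_of_check (c := ⟨240, ⟨5, 6, 7, 3⟩⟩) (by decide +kernel))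

def tC81_eH1 : PosD ⟨⟨0, 1, 1⟩, ⟨98, 99, 147⟩, ⟨9258, 10000, 30000⟩, ⟨353, 430, 1000⟩⟩ (tC81.hEH true) :=
  posD_of_relax (k₁ := 0) (k₂ := 0) (k₃ := 3) (n := 16) (posD_of_check (c := ⟨241, ⟨5, 6, 7, 3⟩⟩) (by decide +kernel))

def tC81_pL1 : PosD ⟨⟨0, 1, 1⟩, ⟨98, 99, 147⟩, ⟨9258, 10000, 30000⟩, ⟨353, 430, 1000⟩⟩ (tC81.hPL true) :=
  posD_of_check (c := ⟨237, ⟨5, 6, 7, 3⟩⟩) (by decide +kernel)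

def tC81_pU1 : PosD ⟨⟨0, 1, 1⟩, ⟨98, 99, 147⟩, ⟨9258, 10000, 30000⟩, ⟨353, 430, 1000⟩⟩ (tC81.hPU true) :=
  posD_of_check (c := ⟨236, ⟨5, 6, 7, 3⟩⟩) (by decide +kernel)

def tC81_kU1a : PosD ⟨⟨0, 1, 1⟩, ⟨98, 99, 147⟩, ⟨9258, 10000, 30000⟩, ⟨353, 391, 1000⟩⟩ (tC81.hKU true) :=
  posD_of_relax (k₁ := 0) (k₂ := 0) (k₃ := 2) (n := 16) (posD_of_check (c := ⟨239, ⟨5, 6, 7, 3⟩⟩) (by decide +kernel))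

def tC81_kU1ba : PosD ⟨⟨0, 1, 2⟩, ⟨98, 99, 147⟩, ⟨9258, 10000, 30000⟩, ⟨391, 430, 1000⟩⟩ (tC81.hKU true) :=
  posD_of_relax (k₁ := 0) (k₂ := 0) (k₃ := 2) (n := 16) (posD_of_check (c := ⟨241, ⟨5, 6, 7, 3⟩⟩) (by decide +kernel))

def tC81_kU1bba : PosD ⟨⟨1, 2, 2⟩, ⟨98, 99, 147⟩, ⟨9258, 10000, 30000⟩, ⟨391, 410, 1000⟩⟩ (tC81.hKU true) :=
  posD_of_relax (k₁ := 0) (k₂ := 0) (k₃ := 1) (n := 16) (posD_of_check (c := ⟨243, ⟨5, 6, 7, 3⟩⟩) (by decide +kernel))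

def tC81_kU1bbb : PosD ⟨⟨1, 2, 2⟩, ⟨98, 99, 147⟩, ⟨9258, 10000, 30000⟩, ⟨410, 430, 1000⟩⟩ (tC81.hKU true) :=
  posD_of_check (c := ⟨243, ⟨5, 6, 7, 3⟩⟩) (by decide +kernel)

def tC81_kU1bb : PosD ⟨⟨1, 2, 2⟩, ⟨98, 99, 147⟩, ⟨9258, 10000, 30000⟩, ⟨391, 430, 1000⟩⟩ (tC81.hKU true) :=
  posD_join₃ tC81_kU1bba tC81_kU1bbb

def tC81_kU1b : PosD ⟨⟨0, 1, 1⟩, ⟨98, 99, 147⟩, ⟨9258, 10000, 30000⟩, ⟨391, 430, 1000⟩⟩ (tC81.hKU true) :=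
  posD_units (b := ⟨⟨0, 2, 2⟩, ⟨98, 99, 147⟩, ⟨9258, 10000, 30000⟩, ⟨391, 430, 1000⟩⟩) (by decide +kernel) (posD_join₀ tC81_kU1ba tC81_kU1bb)

def tC81_kU1 : PosD ⟨⟨0, 1, 1⟩, ⟨98, 99, 147⟩, ⟨9258, 10000, 30000⟩, ⟨353, 430, 1000⟩⟩ (tC81.hKU true) :=
  posD_join₃ tC81_kU1a tC81_kU1b

def tC81_kL1a : PosD ⟨⟨0, 1, 2⟩, ⟨98, 99, 147⟩, ⟨9258, 10000, 30000⟩, ⟨353, 430, 1000⟩⟩ (tC81.hKL true) :=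
  posD_of_check (c := ⟨243, ⟨5, 6, 7, 3⟩⟩) (by decide +kernel)

def tC81_kL1ba : PosD ⟨⟨2, 3, 4⟩, ⟨98, 99, 147⟩, ⟨9258, 10000, 30000⟩, ⟨353, 430, 1000⟩⟩ (tC81.hKL true) :=
  posD_of_check (c := ⟨248, ⟨5, 6, 7, 3⟩⟩) (by decide +kernel)

def tC81_kL1bba : PosD ⟨⟨6, 7, 8⟩, ⟨98, 99, 147⟩, ⟨9258, 10000, 30000⟩, ⟨353, 430, 1000⟩⟩ (tC81.hKL true) :=
  posD_of_check (c := ⟨253, ⟨5, 6, 7, 3⟩⟩) (by decide +kernel)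

def tC81_kL1bbba : PosD ⟨⟨14, 15, 16⟩, ⟨98, 99, 147⟩, ⟨9258, 10000, 30000⟩, ⟨353, 430, 1000⟩⟩ (tC81.hKL true) :=
  posD_of_check (c := ⟨257, ⟨5, 6, 7, 3⟩⟩) (by decide +kernel)

def tC81_kL1bbbba : PosD ⟨⟨30, 31, 32⟩, ⟨98, 99, 147⟩, ⟨9258, 10000, 30000⟩, ⟨353, 430, 1000⟩⟩ (tC81.hKL true) :=
  posD_of_check (c := ⟨263, ⟨5, 6, 7, 3⟩⟩) (by decide +kernel)

def tC81_kL1bbbbba : PosD ⟨⟨31, 32, 32⟩, ⟨98, 99, 147⟩, ⟨9258, 10000, 30000⟩, ⟨353, 391, 1000⟩⟩ (tC81.hKL true) :=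
  posD_of_relax (k₁ := 0) (k₂ := 0) (k₃ := 4) (n := 16) (posD_of_check (c := ⟨263, ⟨5, 6, 7, 3⟩⟩) (by decide +kernel))

def tC81_kL1bbbbbb : PosD ⟨⟨31, 32, 32⟩, ⟨98, 99, 147⟩, ⟨9258, 10000, 30000⟩, ⟨391, 430, 1000⟩⟩ (tC81.hKL true) :=
  posD_of_relax (k₁ := 0) (k₂ := 0) (k₃ := 1) (n := 16) (posD_of_check (c := ⟨263, ⟨5, 6, 7, 3⟩⟩) (by decide +kernel))

def tC81_kL1bbbbb : PosD ⟨⟨31, 32, 32⟩, ⟨98, 99, 147⟩, ⟨9258, 10000, 30000⟩, ⟨353, 430, 1000⟩⟩ (tC81.hKL true) :=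
  posD_join₃ tC81_kL1bbbbba tC81_kL1bbbbbb

def tC81_kL1bbbb : PosD ⟨⟨15, 16, 16⟩, ⟨98, 99, 147⟩, ⟨9258, 10000, 30000⟩, ⟨353, 430, 1000⟩⟩ (tC81.hKL true) :=
  posD_units (b := ⟨⟨30, 32, 32⟩, ⟨98, 99, 147⟩, ⟨9258, 10000, 30000⟩, ⟨353, 430, 1000⟩⟩) (by decide +kernel) (posD_join₀ tC81_kL1bbbba tC81_kL1bbbbb)

def tC81_kL1bbb : PosD ⟨⟨7, 8, 8⟩, ⟨98, 99, 147⟩, ⟨9258, 10000, 30000⟩, ⟨353, 430, 1000⟩⟩ (tC81.hKL true) :=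
  posD_units (b := ⟨⟨14, 16, 16⟩, ⟨98, 99, 147⟩, ⟨9258, 10000, 30000⟩, ⟨353, 430, 1000⟩⟩) (by decide +kernel) (posD_join₀ tC81_kL1bbba tC81_kL1bbbb)

def tC81_kL1bb : PosD ⟨⟨3, 4, 4⟩, ⟨98, 99, 147⟩, ⟨9258, 10000, 30000⟩, ⟨353, 430, 1000⟩⟩ (tC81.hKL true) :=
  posD_units (b := ⟨⟨6, 8, 8⟩, ⟨98, 99, 147⟩, ⟨9258, 10000, 30000⟩, ⟨353, 430, 1000⟩⟩) (by decide +kernel) (posD_join₀ tC81_kL1bba tC81_kL1bbb)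

def tC81_kL1b : PosD ⟨⟨1, 2, 2⟩, ⟨98, 99, 147⟩, ⟨9258, 10000, 30000⟩, ⟨353, 430, 1000⟩⟩ (tC81.hKL true) :=
  posD_units (b := ⟨⟨2, 4, 4⟩, ⟨98, 99, 147⟩, ⟨9258, 10000, 30000⟩, ⟨353, 430, 1000⟩⟩) (by decide +kernel) (posD_join₀ tC81_kL1ba tC81_kL1bb)

def tC81_kL1 : PosD ⟨⟨0, 1, 1⟩, ⟨98, 99, 147⟩, ⟨9258, 10000, 30000⟩, ⟨353, 430, 1000⟩⟩ (tC81.hKL true) :=
  posD_units (b := ⟨⟨0, 2, 2⟩, ⟨98, 99, 147⟩, ⟨9258, 10000, 30000⟩, ⟨353, 430, 1000⟩⟩) (by decide +kernel) (posD_join₀ tC81_kL1a tC81_kL1b)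

def tC81_wU1a : PosD ⟨⟨0, 1, 1⟩, ⟨98, 99, 147⟩, ⟨9258, 10000, 30000⟩, ⟨353, 391, 1000⟩⟩ (tC81.hWU true) :=
  posD_of_check (c := ⟨269, ⟨5, 8, 8, 3⟩⟩) (by decide +kernel)

def tC81_wU1b : PosD ⟨⟨0, 1, 1⟩, ⟨98, 99, 147⟩, ⟨9258, 10000, 30000⟩, ⟨391, 430, 1000⟩⟩ (tC81.hWU true) :=
  posD_of_check (c := ⟨269, ⟨5, 8, 8, 3⟩⟩) (by decide +kernel)

def tC81_wU1 : PosD ⟨⟨0, 1, 1⟩, ⟨98, 99, 147⟩, ⟨9258, 10000, 30000⟩, ⟨353, 430, 1000⟩⟩ (tC81.hWU true) :=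
  posD_join₃ tC81_wU1a tC81_wU1b

def tC81_wL1 : PosD ⟨⟨0, 1, 1⟩, ⟨98, 99, 147⟩, ⟨9258, 10000, 30000⟩, ⟨353, 430, 1000⟩⟩ (tC81.hWL true) :=
  posD_of_check (c := ⟨271, ⟨5, 8, 8, 3⟩⟩) (by decide +kernel)

def tC81_mueL : PosD ⟨⟨0, 1, 1⟩, ⟨98, 99, 147⟩, ⟨9258, 10000, 30000⟩, ⟨353, 430, 1000⟩⟩ (tC81.eL.μ) :=
  posD_of_check (c := ⟨14, ⟨0, 0, 0, 0⟩⟩) (by decide +kernel)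

def tC81_mueH : PosD ⟨⟨0, 1, 1⟩, ⟨98, 99, 147⟩, ⟨9258, 10000, 30000⟩, ⟨353, 430, 1000⟩⟩ (tC81.eH.μ) :=
  posD_of_check (c := ⟨21, ⟨0, 0, 0, 0⟩⟩) (by decide +kernel)

def tC81_mupL : PosD ⟨⟨0, 1, 1⟩, ⟨98, 99, 147⟩, ⟨9258, 10000, 30000⟩, ⟨353, 430, 1000⟩⟩ (tC81.pL.μ) :=
  posD_of_check (c := ⟨16, ⟨0, 0, 0, 0⟩⟩) (by decide +kernel)

def tC81_muwU : PosD ⟨⟨0, 1, 1⟩, ⟨98, 99, 147⟩, ⟨9258, 10000, 30000⟩, ⟨353, 430, 1000⟩⟩ (tC81.wU.μ) :=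
  posD_of_check (c := ⟨16, ⟨0, 0, 0, 0⟩⟩) (by decide +kernel)

/-- The bounds of the piece. -/
def tC81_env : tC81.Env ⟨⟨0, 1, 1⟩, ⟨98, 99, 147⟩, ⟨9258, 10000, 30000⟩, ⟨353, 430, 1000⟩⟩ :=
  ⟨tC81_p0, Bool.forall_bool.2 ⟨tC81_den0, tC81_den1⟩, tC81_gn, Bool.forall_bool.2 ⟨tC81_ev0, tC81_ev1⟩, Bool.forall_bool.2 ⟨tC81_zL0, tC81_zL1⟩, Bool.forall_bool.2 ⟨tC81_zU0, tC81_zU1⟩, Bool.forall_bool.2 ⟨tC81_eL0, tC81_eL1⟩, ⟨.inl tC81_mueL, .inr rfl⟩, Bool.forall_bool.2 ⟨tC81_eH0, tC81_eH1⟩, ⟨.inl tC81_mueH, .inr rfl⟩, Bool.forall_bool.2 ⟨tC81_pL0, tC81_pL1⟩, ⟨.inl tC81_mupL, .inr rfl⟩, Bool.forall_bool.2 ⟨tC81_pU0, tC81_pU1⟩, ⟨.inr rfl, .inr rfl⟩, Bool.forall_bool.2 ⟨tC81_kU0, tC81_kU1⟩, ⟨.inr rfl, .inr rfl⟩, Bool.forall_bool.2 ⟨tC81_kL0,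 tC81_kL1⟩, ⟨.inr rfl, .inr rfl⟩, Bool.forall_bool.2 ⟨tC81_wU0, tC81_wU1⟩, ⟨.inl tC81_muwU, .inr rfl⟩, Bool.forall_bool.2 ⟨tC81_wL0, tC81_wL1⟩, ⟨.inr rfl, .inr rfl⟩⟩

def tC81_pp : PosD ⟨⟨0, 1, 1⟩, ⟨98, 99, 147⟩, ⟨9258, 10000, 30000⟩, ⟨353, 430, 1000⟩⟩ (tC81.xPL) :=
  posD_of_check (c := ⟨97, ⟨1, 1, 3, 3⟩⟩) (by decide +kernel)

def tC81_k2p : PosD ⟨⟨0, 1, 1⟩, ⟨98, 99, 147⟩, ⟨9258, 10000, 30000⟩, ⟨353, 430, 1000⟩⟩ (tC81.k2p tC81.xE) :=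
  posD_of_check (c := ⟨6, ⟨0, 0, 0, 0⟩⟩) (by decide +kernel)

def tC81_k2m : PosD ⟨⟨0, 1, 1⟩, ⟨98, 99, 147⟩, ⟨9258, 10000, 30000⟩, ⟨353, 430, 1000⟩⟩ (tC81.k2m tC81.xE) :=
  posD_of_check (c := ⟨74, ⟨1, 1, 2, 2⟩⟩) (by decide +kernel)

def tC81_v2p : PosD ⟨⟨0, 1, 1⟩, ⟨98, 99, 147⟩, ⟨9258, 10000, 30000⟩, ⟨353, 430, 1000⟩⟩ (tC81.hV2p) :=
  posD_of_check (c := ⟨242, ⟨0, 5, 10, 4⟩⟩) (by decide +kernel)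

def tC81_v2m : PosD ⟨⟨0, 1, 1⟩, ⟨98, 99, 147⟩, ⟨9258, 10000, 30000⟩, ⟨353, 430, 1000⟩⟩ (tC81.hV2m) :=
  posD_of_check (c := ⟨274, ⟨1, 6, 10, 5⟩⟩) (by decide +kernel)

def tC81_v3p : PosD ⟨⟨0, 1, 1⟩, ⟨98, 99, 147⟩, ⟨9258, 10000, 30000⟩, ⟨353, 430, 1000⟩⟩ (tC81.hV3p) :=
  posD_of_check (c := ⟨231, ⟨0, 5, 9, 4⟩⟩) (by decide +kernel)

def tC81_v3m : PosD ⟨⟨0, 1, 1⟩, ⟨98, 99, 147⟩, ⟨9258, 10000, 30000⟩, ⟨353, 430, 1000⟩⟩ (tC81.hV3m) :=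
  posD_of_check (c := ⟨258, ⟨1, 6, 9, 5⟩⟩) (by decide +kernel)

def tC81_kap0 : PosD ⟨⟨0, 1, 1⟩, ⟨98, 99, 147⟩, ⟨9258, 10000, 30000⟩, ⟨353, 430, 1000⟩⟩ (tC81.kap false) :=
  posD_of_check (c := ⟨74, ⟨1, 1, 2, 2⟩⟩) (by decide +kernel)

def tC81_c10 : PosD ⟨⟨0, 1, 1⟩, ⟨98, 99, 147⟩, ⟨9258, 10000, 30000⟩, ⟨353, 430, 1000⟩⟩ (tC81.hC1 false) :=
  posD_of_relax (k₁ := 0) (k₂ := 0) (k₃ := 20) (n := 16) (posD_of_check (c := ⟨284, ⟨3, 5, 9, 7⟩⟩) (by decide +kernel))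

def tC81_neg0 : PosD ⟨⟨0, 1, 1⟩, ⟨98, 99, 147⟩, ⟨9258, 10000, 30000⟩, ⟨353, 430, 1000⟩⟩ (tC81.hNeg (tC81.pEnd false)) :=
  posD_of_check (c := ⟨276, ⟨2, 5, 9, 7⟩⟩) (by decide +kernel)

def tC81_neglo0 : PosD ⟨⟨0, 1, 1⟩, ⟨98, 99, 147⟩, ⟨9258, 10000, 30000⟩, ⟨353, 430, 1000⟩⟩ (tC81.hNegLo (tC81.pEnd false)) :=
  posD_of_check (c := ⟨276, ⟨2, 5, 9, 7⟩⟩) (by decide +kernel)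

def tC81_tg00 : PosD ⟨⟨0, 1, 1⟩, ⟨98, 99, 147⟩, ⟨9258, 10000, 30000⟩, ⟨353, 430, 1000⟩⟩ (tC81.hG false (tC81.pEnd false)) :=
  posD_of_check (c := ⟨391, ⟨2, 7, 14, 9⟩⟩) (by decide +kernel)

def tC81_c2p00 : PosD ⟨⟨0, 1, 1⟩, ⟨98, 99, 147⟩, ⟨9258, 10000, 30000⟩, ⟨353, 430, 1000⟩⟩ (tC81.hC2p false (tC81.pEnd false)) :=
  posD_of_check (c := ⟨434, ⟨2, 7, 16, 10⟩⟩) (by decide +kernel)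

def tC81_c2m00 : PosD ⟨⟨0, 1, 1⟩, ⟨98, 99, 147⟩, ⟨9258, 10000, 30000⟩, ⟨353, 430, 1000⟩⟩ (tC81.hC2m false (tC81.pEnd false)) :=
  posD_of_check (c := ⟨464, ⟨3, 8, 16, 11⟩⟩) (by decide +kernel)

def tC81_c3p00 : PosD ⟨⟨0, 1, 1⟩, ⟨98, 99, 147⟩, ⟨9258, 10000, 30000⟩, ⟨353, 430, 1000⟩⟩ (tC81.hC3p false false) :=
  posD_of_check (c := ⟨432, ⟨3, 7, 15, 10⟩⟩) (by decide +kernel)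

def tC81_c3m00 : PosD ⟨⟨0, 1, 1⟩, ⟨98, 99, 147⟩, ⟨9258, 10000, 30000⟩, ⟨353, 430, 1000⟩⟩ (tC81.hC3m false false) :=
  posD_of_check (c := ⟨455, ⟨3, 8, 15, 11⟩⟩) (by decide +kernel)

def tC81_tmg00 : PosD ⟨⟨0, 1, 1⟩, ⟨98, 99, 147⟩, ⟨9258, 10000, 30000⟩, ⟨353, 430, 1000⟩⟩ (tC81.hTMG false (tC81.pEnd false)) :=
  posD_of_check (c := ⟨406, ⟨2, 7, 14, 10⟩⟩) (by decide +kernel)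

def tC81_tg01 : PosD ⟨⟨0, 1, 1⟩, ⟨98, 99, 147⟩, ⟨9258, 10000, 30000⟩, ⟨353, 430, 1000⟩⟩ (tC81.hG true (tC81.pEnd false)) :=
  posD_of_check (c := ⟨391, ⟨2, 7, 14, 9⟩⟩) (by decide +kernel)

def tC81_c2p01 : PosD ⟨⟨0, 1, 1⟩, ⟨98, 99, 147⟩, ⟨9258, 10000, 30000⟩, ⟨353, 430, 1000⟩⟩ (tC81.hC2p true (tC81.pEnd false)) :=
  posD_of_check (c := ⟨434, ⟨2, 7, 16, 10⟩⟩) (by decide +kernel)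

def tC81_c2m01 : PosD ⟨⟨0, 1, 1⟩, ⟨98, 99, 147⟩, ⟨9258, 10000, 30000⟩, ⟨353, 430, 1000⟩⟩ (tC81.hC2m true (tC81.pEnd false)) :=
  posD_of_check (c := ⟨464, ⟨3, 8, 16, 11⟩⟩) (by decide +kernel)

def tC81_c3p01 : PosD ⟨⟨0, 1, 1⟩, ⟨98, 99, 147⟩, ⟨9258, 10000, 30000⟩, ⟨353, 430, 1000⟩⟩ (tC81.hC3p false true) :=
  posD_of_check (c := ⟨432, ⟨3, 7, 15, 10⟩⟩) (by decide +kernel)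

def tC81_c3m01 : PosD ⟨⟨0, 1, 1⟩, ⟨98, 99, 147⟩, ⟨9258, 10000, 30000⟩, ⟨353, 430, 1000⟩⟩ (tC81.hC3m false true) :=
  posD_of_check (c := ⟨455, ⟨3, 8, 15, 11⟩⟩) (by decide +kernel)

def tC81_tmg01 : PosD ⟨⟨0, 1, 1⟩, ⟨98, 99, 147⟩, ⟨9258, 10000, 30000⟩, ⟨353, 430, 1000⟩⟩ (tC81.hTMG true (tC81.pEnd false)) :=
  posD_of_check (c := ⟨406, ⟨2, 7, 14, 10⟩⟩) (by decide +kernel)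

def tC81_kap1 : PosD ⟨⟨0, 1, 1⟩, ⟨98, 99, 147⟩, ⟨9258, 10000, 30000⟩, ⟨353, 430, 1000⟩⟩ (tC81.kap true) :=
  posD_of_check (c := ⟨73, ⟨1, 1, 2, 2⟩⟩) (by decide +kernel)

def tC81_c11 : PosD ⟨⟨0, 1, 1⟩, ⟨98, 99, 147⟩, ⟨9258, 10000, 30000⟩, ⟨353, 430, 1000⟩⟩ (tC81.hC1 true) :=
  posD_of_check (c := ⟨284, ⟨3, 5, 9, 7⟩⟩) (by decide +kernel)

def tC81_neg1 : PosD ⟨⟨0, 1, 1⟩, ⟨98, 99, 147⟩, ⟨9258, 10000, 30000⟩, ⟨353, 430, 1000⟩⟩ (tC81.hNeg (tC81.pEnd true)) :=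
  posD_of_check (c := ⟨276, ⟨2, 5, 9, 7⟩⟩) (by decide +kernel)

def tC81_neglo1 : PosD ⟨⟨0, 1, 1⟩, ⟨98, 99, 147⟩, ⟨9258, 10000, 30000⟩, ⟨353, 430, 1000⟩⟩ (tC81.hNegLo (tC81.pEnd true)) :=
  posD_of_check (c := ⟨276, ⟨2, 5, 9, 7⟩⟩) (by decide +kernel)

def tC81_tg10 : PosD ⟨⟨0, 1, 1⟩, ⟨98, 99, 147⟩, ⟨9258, 10000, 30000⟩, ⟨353, 430, 1000⟩⟩ (tC81.hG false (tC81.pEnd true)) :=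
  posD_of_check (c := ⟨390, ⟨2, 7, 14, 9⟩⟩) (by decide +kernel)

def tC81_c2p10 : PosD ⟨⟨0, 1, 1⟩, ⟨98, 99, 147⟩, ⟨9258, 10000, 30000⟩, ⟨353, 430, 1000⟩⟩ (tC81.hC2p false (tC81.pEnd true)) :=
  posD_of_check (c := ⟨433, ⟨2, 7, 16, 10⟩⟩) (by decide +kernel)

def tC81_c2m10 : PosD ⟨⟨0, 1, 1⟩, ⟨98, 99, 147⟩, ⟨9258, 10000, 30000⟩, ⟨353, 430, 1000⟩⟩ (tC81.hC2m false (tC81.pEnd true)) :=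
  posD_of_check (c := ⟨464, ⟨3, 8, 16, 11⟩⟩) (by decide +kernel)

def tC81_c3p10 : PosD ⟨⟨0, 1, 1⟩, ⟨98, 99, 147⟩, ⟨9258, 10000, 30000⟩, ⟨353, 430, 1000⟩⟩ (tC81.hC3p true false) :=
  posD_of_check (c := ⟨431, ⟨3, 7, 15, 10⟩⟩) (by decide +kernel)

def tC81_c3m10 : PosD ⟨⟨0, 1, 1⟩, ⟨98, 99, 147⟩, ⟨9258, 10000, 30000⟩, ⟨353, 430, 1000⟩⟩ (tC81.hC3m true false) :=
  posD_of_check (c := ⟨454, ⟨3, 8, 15, 11⟩⟩) (by decide +kernel)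

def tC81_tmg10 : PosD ⟨⟨0, 1, 1⟩, ⟨98, 99, 147⟩, ⟨9258, 10000, 30000⟩, ⟨353, 430, 1000⟩⟩ (tC81.hTMG false (tC81.pEnd true)) :=
  posD_of_check (c := ⟨406, ⟨2, 7, 14, 10⟩⟩) (by decide +kernel)

def tC81_tg11 : PosD ⟨⟨0, 1, 1⟩, ⟨98, 99, 147⟩, ⟨9258, 10000, 30000⟩, ⟨353, 430, 1000⟩⟩ (tC81.hG true (tC81.pEnd true)) :=
  posD_of_check (c := ⟨390, ⟨2, 7, 14, 9⟩⟩) (by decide +kernel)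

def tC81_c2p11 : PosD ⟨⟨0, 1, 1⟩, ⟨98, 99, 147⟩, ⟨9258, 10000, 30000⟩, ⟨353, 430, 1000⟩⟩ (tC81.hC2p true (tC81.pEnd true)) :=
  posD_of_check (c := ⟨433, ⟨2, 7, 16, 10⟩⟩) (by decide +kernel)

def tC81_c2m11 : PosD ⟨⟨0, 1, 1⟩, ⟨98, 99, 147⟩, ⟨9258, 10000, 30000⟩, ⟨353, 430, 1000⟩⟩ (tC81.hC2m true (tC81.pEnd true)) :=
  posD_of_check (c := ⟨464, ⟨3, 8, 16, 11⟩⟩) (by decide +kernel)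

def tC81_c3p11 : PosD ⟨⟨0, 1, 1⟩, ⟨98, 99, 147⟩, ⟨9258, 10000, 30000⟩, ⟨353, 430, 1000⟩⟩ (tC81.hC3p true true) :=
  posD_of_check (c := ⟨431, ⟨3, 7, 15, 10⟩⟩) (by decide +kernel)

def tC81_c3m11 : PosD ⟨⟨0, 1, 1⟩, ⟨98, 99, 147⟩, ⟨9258, 10000, 30000⟩, ⟨353, 430, 1000⟩⟩ (tC81.hC3m true true) :=
  posD_of_check (c := ⟨454, ⟨3, 8, 15, 11⟩⟩) (by decide +kernel)

def tC81_tmg11 : PosD ⟨⟨0, 1, 1⟩, ⟨98, 99, 147⟩, ⟨9258, 10000, 30000⟩, ⟨353, 430, 1000⟩⟩ (tC81.hTMG true (tC81.pEnd true)) :=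
  posD_of_check (c := ⟨406, ⟨2, 7, 14, 10⟩⟩) (by decide +kernel)

/-- The signs of the piece. -/
def tC81_sign : tC81.Sign ⟨⟨0, 1, 1⟩, ⟨98, 99, 147⟩, ⟨9258, 10000, 30000⟩, ⟨353, 430, 1000⟩⟩ :=
  ⟨tC81_pp,
    tC81_k2p,
    tC81_k2m,
    Bool.forall_bool.2 ⟨(Bool.forall_bool.2 ⟨tC81_tg00, tC81_tg01⟩), (Bool.forall_bool.2 ⟨tC81_tg10, tC81_tg11⟩)⟩,
    Bool.forall_bool.2 ⟨(Bool.forall_bool.2 ⟨tC81_c2p00, tC81_c2p01⟩), (Bool.forall_bool.2 ⟨tC81_c2p10, tC81_c2p11⟩)⟩,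
    Bool.forall_bool.2 ⟨(Bool.forall_bool.2 ⟨tC81_c2m00, tC81_c2m01⟩), (Bool.forall_bool.2 ⟨tC81_c2m10, tC81_c2m11⟩)⟩,
    Bool.forall_bool.2 ⟨tC81_kap0, tC81_kap1⟩,
    Bool.forall_bool.2 ⟨tC81_c10, tC81_c11⟩,
    Bool.forall_bool.2 ⟨(Bool.forall_bool.2 ⟨tC81_c3p00, tC81_c3p01⟩), (Bool.forall_bool.2 ⟨tC81_c3p10, tC81_c3p11⟩)⟩,
    Bool.forall_bool.2 ⟨(Bool.forall_bool.2 ⟨tC81_c3m00, tC81_c3m01⟩), (Bool.forall_bool.2 ⟨tC81_c3m10, tC81_c3m11⟩)⟩,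
    Bool.forall_bool.2 ⟨(Bool.forall_bool.2 ⟨tC81_tmg00, tC81_tmg01⟩), (Bool.forall_bool.2 ⟨tC81_tmg10, tC81_tmg11⟩)⟩,
    .inl (Bool.forall_bool.2 ⟨⟨tC81_neg0, tC81_neglo0⟩, ⟨tC81_neg1, tC81_neglo1⟩⟩),
    tC81_v2p,
    tC81_v2m,
    tC81_v3p,
    tC81_v3m,
    posD_sub (b := ⟨⟨0, 1, 1⟩, ⟨98, 99, 147⟩, ⟨4050, 10000, 30000⟩, ⟨290, 4000, 1000⟩⟩) (by decide +kernel) tC_vG,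
    posD_sub (b := ⟨⟨0, 1, 1⟩, ⟨98, 99, 147⟩, ⟨4050, 10000, 30000⟩, ⟨290, 4000, 1000⟩⟩) (by decide +kernel) tC_vMG,
    posD_sub (b := ⟨⟨0, 1, 1⟩, ⟨98, 99, 147⟩, ⟨4050, 10000, 30000⟩, ⟨290, 4000, 1000⟩⟩) (by decide +kernel) tC_ak,
    posD_sub (b := ⟨⟨0, 1, 1⟩, ⟨98, 99, 147⟩, ⟨4050, 10000, 30000⟩, ⟨290, 4000, 1000⟩⟩) (by decide +kernel) tC_aw,
    posD_sub (b := ⟨⟨0, 1, 1⟩, ⟨98, 99, 147⟩, ⟨4050, 10000, 30000⟩, ⟨290, 4000, 1000⟩⟩) (by decide +kernel) tC_gk,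
    posD_sub (b := ⟨⟨0, 1, 1⟩, ⟨98, 99, 147⟩, ⟨4050, 10000, 30000⟩, ⟨290, 4000, 1000⟩⟩) (by decide +kernel) tC_gw,
    posD_sub (b := ⟨⟨0, 1, 1⟩, ⟨98, 99, 147⟩, ⟨4050, 10000, 30000⟩, ⟨290, 4000, 1000⟩⟩) (by decide +kernel) tC_ek,
    posD_sub (b := ⟨⟨0, 1, 1⟩, ⟨98, 99, 147⟩, ⟨4050, 10000, 30000⟩, ⟨290, 4000, 1000⟩⟩) (by decide +kernel) tC_ew⟩

end Vale.Agent.P100.Calib.Closed.Six.Tail
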