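import Vale.Agent.P100.Calib.SlabSixTailDataLayerA
import Vale.Agent.P100.Calib.SlabSixTailGlobLayerA

/-!
# Checks of some pieces of the certificate

The checks are written as definitions so that they run one after another, which keeps the memory of the
kernel low.
-/

set_option linter.defProp false

namespace Vale.Agent.P100.Calib.Closed.Six.Tail

open BoxPos Large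

local instance sixTailChecksyA9Add : Add Ex := ⟨Ex.add⟩
local instance sixTailChecksyA9Sub : Sub Ex := ⟨Ex.sub⟩
local instance sixTailChecksyA9Mul : Mul Ex := ⟨Ex.mul⟩

def yA12_p0 : PosD ⟨⟨0, 1, 1⟩, ⟨98, 99, 147⟩, ⟨150, 301, 10000⟩, ⟨2776, 2886, 1000⟩⟩ (yA12.hP0) :=
  posD_of_check (c := ⟨82, ⟨0, 2, 3, 1⟩⟩) (by decide +kernel)

def yA12_gn : PosD ⟨⟨0, 1, 1⟩, ⟨98, 99, 147⟩, ⟨150, 301, 10000⟩, ⟨2776, 2886, 1000⟩⟩ (yA12.hGn) :=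
  posD_of_check (c := ⟨58, ⟨1, 1, 2, 1⟩⟩) (by decide +kernel)

def yA12_den0 : PosD ⟨⟨0, 1, 1⟩, ⟨98, 99, 147⟩, ⟨150, 301, 10000⟩, ⟨2776, 2886, 1000⟩⟩ (yA12.hDen false) :=
  posD_of_check (c := ⟨45, ⟨0, 0, 2, 0⟩⟩) (by decide +kernel)

def yA12_den1 : PosD ⟨⟨0, 1, 1⟩, ⟨98, 99, 147⟩, ⟨150, 301, 10000⟩, ⟨2776, 2886, 1000⟩⟩ (yA12.hDen true) :=
  posD_of_check (c := ⟨22, ⟨1, 0, 1, 0⟩⟩) (by decide +kernel)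

def yA12_ev0 : PosD ⟨⟨0, 1, 1⟩, ⟨98, 99, 147⟩, ⟨150, 301, 10000⟩, ⟨2776, 2886, 1000⟩⟩ (yA12.hEv false) :=
  posD_of_check (c := ⟨148, ⟨2, 2, 6, 1⟩⟩) (by decide +kernel)

def yA12_zL0 : PosD ⟨⟨0, 1, 1⟩, ⟨98, 99, 147⟩, ⟨150, 301, 10000⟩, ⟨2776, 2886, 1000⟩⟩ (yA12.hZL false) :=
  posD_of_check (c := ⟨159, ⟨2, 3, 6, 3⟩⟩) (by decide +kernel)

def yA12_zU0 : PosD ⟨⟨0, 1, 1⟩, ⟨98, 99, 147⟩, ⟨150, 301, 10000⟩, ⟨2776, 2886, 1000⟩⟩ (yA12.hZU false) :=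
  posD_of_check (c := ⟨159, ⟨2, 3, 6, 3⟩⟩) (by decide +kernel)

def yA12_eL0a : PosD ⟨⟨0, 1, 1⟩, ⟨98, 99, 147⟩, ⟨150, 225, 10000⟩, ⟨2776, 2886, 1000⟩⟩ (yA12.hEL false) :=
  posD_of_check (c := ⟨268, ⟨3, 6, 9, 3⟩⟩) (by decide +kernel)

def yA12_eL0b : PosD ⟨⟨0, 1, 1⟩, ⟨98, 99, 147⟩, ⟨225, 301, 10000⟩, ⟨2776, 2886, 1000⟩⟩ (yA12.hEL false) :=
  posD_of_check (c := ⟨269, ⟨3, 6, 9, 3⟩⟩) (by decide +kernel)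

def yA12_eL0 : PosD ⟨⟨0, 1, 1⟩, ⟨98, 99, 147⟩, ⟨150, 301, 10000⟩, ⟨2776, 2886, 1000⟩⟩ (yA12.hEL false) :=
  posD_join₂ yA12_eL0a yA12_eL0b

def yA12_eH0 : PosD ⟨⟨0, 1, 1⟩, ⟨98, 99, 147⟩, ⟨150, 301, 10000⟩, ⟨2776, 2886, 1000⟩⟩ (yA12.hEH false) :=
  posD_of_check (c := ⟨241, ⟨3, 6, 9, 3⟩⟩) (by decide +kernel)

def yA12_pL0 : PosD ⟨⟨0, 1, 1⟩, ⟨98, 99, 147⟩, ⟨150, 301, 10000⟩, ⟨2776, 2886, 1000⟩⟩ (yA12.hPL false) :=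
  posD_of_check (c := ⟨261, ⟨3, 6, 9, 3⟩⟩) (by decide +kernel)

def yA12_pU0 : PosD ⟨⟨0, 1, 1⟩, ⟨98, 99, 147⟩, ⟨150, 301, 10000⟩, ⟨2776, 2886, 1000⟩⟩ (yA12.hPU false) :=
  posD_of_check (c := ⟨268, ⟨3, 6, 9, 3⟩⟩) (by decide +kernel)

def yA12_kU0 : PosD ⟨⟨0, 1, 1⟩, ⟨98, 99, 147⟩, ⟨150, 301, 10000⟩, ⟨2776, 2886, 1000⟩⟩ (yA12.hKU false) :=
  posD_of_check (c := ⟨254, ⟨3, 6, 9, 3⟩⟩) (by decide +kernel)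

def yA12_kL0 : PosD ⟨⟨0, 1, 1⟩, ⟨98, 99, 147⟩, ⟨150, 301, 10000⟩, ⟨2776, 2886, 1000⟩⟩ (yA12.hKL false) :=
  posD_of_check (c := ⟨261, ⟨3, 6, 9, 3⟩⟩) (by decide +kernel)

def yA12_wU0 : PosD ⟨⟨0, 1, 1⟩, ⟨98, 99, 147⟩, ⟨150, 301, 10000⟩, ⟨2776, 2886, 1000⟩⟩ (yA12.hWU false) :=
  posD_of_check (c := ⟨290, ⟨3, 8, 10, 3⟩⟩) (by decide +kernel)

def yA12_wL0 : PosD ⟨⟨0, 1, 1⟩, ⟨98, 99, 147⟩, ⟨150, 301, 10000⟩, ⟨2776, 2886, 1000⟩⟩ (yA12.hWL false) :=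
  posD_of_check (c := ⟨298, ⟨3, 8, 10, 3⟩⟩) (by decide +kernel)

def yA12_ev1 : PosD ⟨⟨0, 1, 1⟩, ⟨98, 99, 147⟩, ⟨150, 301, 10000⟩, ⟨2776, 2886, 1000⟩⟩ (yA12.hEv true) :=
  posD_of_check (c := ⟨120, ⟨2, 2, 6, 1⟩⟩) (by decide +kernel)

def yA12_zL1 : PosD ⟨⟨0, 1, 1⟩, ⟨98, 99, 147⟩, ⟨150, 301, 10000⟩, ⟨2776, 2886, 1000⟩⟩ (yA12.hZL true) :=
  posD_of_check (c := ⟨134, ⟨2, 3, 6, 3⟩⟩) (by decide +kernel)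

def yA12_zU1 : PosD ⟨⟨0, 1, 1⟩, ⟨98, 99, 147⟩, ⟨150, 301, 10000⟩, ⟨2776, 2886, 1000⟩⟩ (yA12.hZU true) :=
  posD_of_check (c := ⟨134, ⟨2, 3, 6, 3⟩⟩) (by decide +kernel)

def yA12_eL1 : PosD ⟨⟨0, 1, 1⟩, ⟨98, 99, 147⟩, ⟨150, 301, 10000⟩, ⟨2776, 2886, 1000⟩⟩ (yA12.hEL true) :=
  posD_of_check (c := ⟨241, ⟨3, 6, 9, 3⟩⟩) (by decide +kernel)

def yA12_eH1 : PosD ⟨⟨0, 1, 1⟩, ⟨98, 99, 147⟩, ⟨150, 301, 10000⟩, ⟨2776, 2886, 1000⟩⟩ (yA12.hEH true) :=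
  posD_of_check (c := ⟨213, ⟨3, 6, 9, 3⟩⟩) (by decide +kernel)

def yA12_pL1 : PosD ⟨⟨0, 1, 1⟩, ⟨98, 99, 147⟩, ⟨150, 301, 10000⟩, ⟨2776, 2886, 1000⟩⟩ (yA12.hPL true) :=
  posD_of_check (c := ⟨232, ⟨3, 6, 9, 3⟩⟩) (by decide +kernel)

def yA12_pU1 : PosD ⟨⟨0, 1, 1⟩, ⟨98, 99, 147⟩, ⟨150, 301, 10000⟩, ⟨2776, 2886, 1000⟩⟩ (yA12.hPU true) :=
  posD_of_check (c := ⟨240, ⟨3, 6, 9, 3⟩⟩) (by decide +kernel)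

def yA12_kU1 : PosD ⟨⟨0, 1, 1⟩, ⟨98, 99, 147⟩, ⟨150, 301, 10000⟩, ⟨2776, 2886, 1000⟩⟩ (yA12.hKU true) :=
  posD_of_check (c := ⟨225, ⟨3, 6, 9, 3⟩⟩) (by decide +kernel)

def yA12_kL1a : PosD ⟨⟨0, 1, 1⟩, ⟨98, 99, 147⟩, ⟨150, 225, 10000⟩, ⟨2776, 2886, 1000⟩⟩ (yA12.hKL true) :=
  posD_of_check (c := ⟨233, ⟨3, 6, 9, 3⟩⟩) (by decide +kernel)

def yA12_kL1b : PosD ⟨⟨0, 1, 1⟩, ⟨98, 99, 147⟩, ⟨225, 301, 10000⟩, ⟨2776, 2886, 1000⟩⟩ (yA12.hKL true) :=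
  posD_of_check (c := ⟨233, ⟨3, 6, 9, 3⟩⟩) (by decide +kernel)

def yA12_kL1 : PosD ⟨⟨0, 1, 1⟩, ⟨98, 99, 147⟩, ⟨150, 301, 10000⟩, ⟨2776, 2886, 1000⟩⟩ (yA12.hKL true) :=
  posD_join₂ yA12_kL1a yA12_kL1b

def yA12_wU1 : PosD ⟨⟨0, 1, 1⟩, ⟨98, 99, 147⟩, ⟨150, 301, 10000⟩, ⟨2776, 2886, 1000⟩⟩ (yA12.hWU true) :=
  posD_of_check (c := ⟨261, ⟨3, 8, 10, 3⟩⟩) (by decide +kernel)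

def yA12_wL1 : PosD ⟨⟨0, 1, 1⟩, ⟨98, 99, 147⟩, ⟨150, 301, 10000⟩, ⟨2776, 2886, 1000⟩⟩ (yA12.hWL true) :=
  posD_of_check (c := ⟨270, ⟨3, 8, 10, 3⟩⟩) (by decide +kernel)

def yA12_nueL : PosD ⟨⟨0, 1, 1⟩, ⟨98, 99, 147⟩, ⟨150, 301, 10000⟩, ⟨2776, 2886, 1000⟩⟩ (yA12.eL.ν) :=
  posD_of_check (c := ⟨48, ⟨0, 0, 1, 1⟩⟩) (by decide +kernel)

def yA12_nupU : PosD ⟨⟨0, 1, 1⟩, ⟨98, 99, 147⟩, ⟨150, 301, 10000⟩, ⟨2776, 2886, 1000⟩⟩ (yA12.pU.ν) :=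
  posD_of_check (c := ⟨46, ⟨0, 0, 1, 1⟩⟩) (by decide +kernel)

def yA12_nukL : PosD ⟨⟨0, 1, 1⟩, ⟨98, 99, 147⟩, ⟨150, 301, 10000⟩, ⟨2776, 2886, 1000⟩⟩ (yA12.kL.ν) :=
  posD_of_check (c := ⟨40, ⟨0, 0, 1, 1⟩⟩) (by decide +kernel)

def yA12_nuwL : PosD ⟨⟨0, 1, 1⟩, ⟨98, 99, 147⟩, ⟨150, 301, 10000⟩, ⟨2776, 2886, 1000⟩⟩ (yA12.wL.ν) :=
  posD_of_check (c := ⟨46, ⟨0, 0, 1, 1⟩⟩) (by decide +kernel)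

/-- The bounds of the piece. -/
def yA12_env : yA12.Env ⟨⟨0, 1, 1⟩, ⟨98, 99, 147⟩, ⟨150, 301, 10000⟩, ⟨2776, 2886, 1000⟩⟩ :=
  ⟨yA12_p0, Bool.forall_bool.2 ⟨yA12_den0, yA12_den1⟩, yA12_gn, Bool.forall_bool.2 ⟨yA12_ev0, yA12_ev1⟩, Bool.forall_bool.2 ⟨yA12_zL0, yA12_zL1⟩, Bool.forall_bool.2 ⟨yA12_zU0, yA12_zU1⟩, Bool.forall_bool.2 ⟨yA12_eL0, yA12_eL1⟩, ⟨.inr rfl, .inl yA12_nueL⟩, Bool.forall_bool.2 ⟨yA12_eH0, yA12_eH1⟩, ⟨.inr rfl, .inr rfl⟩, Bool.forall_bool.2 ⟨yA12_pL0, yA12_pL1⟩, ⟨.inr rfl, .inr rfl⟩, Bool.forall_bool.2 ⟨yA12_pU0, yA12_pU1⟩, ⟨.inr rfl, .inl yA12_nupU⟩, Bool.forall_bool.2 ⟨yA12_kU0, yA12_kU1⟩, ⟨.inr rfl, .inr rfl⟩, Bool.forall_bool.2 ⟨yA12_kL0, yA12_kL1⟩, ⟨.inr rfl, .inl yA12_nukL⟩, Bool.forall_bool.2 ⟨yA12_wU0,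 yA12_wU1⟩, ⟨.inr rfl, .inr rfl⟩, Bool.forall_bool.2 ⟨yA12_wL0, yA12_wL1⟩, ⟨.inr rfl, .inl yA12_nuwL⟩⟩

def yA12_pp : PosD ⟨⟨0, 1, 1⟩, ⟨98, 99, 147⟩, ⟨150, 301, 10000⟩, ⟨2776, 2886, 1000⟩⟩ (yA12.xPL) :=
  posD_of_check (c := ⟨94, ⟨1, 1, 3, 3⟩⟩) (by decide +kernel)

def yA12_k2p : PosD ⟨⟨0, 1, 1⟩, ⟨98, 99, 147⟩, ⟨150, 301, 10000⟩, ⟨2776, 2886, 1000⟩⟩ (yA12.k2p yA12.xE) :=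
  posD_of_check (c := ⟨63, ⟨1, 1, 2, 2⟩⟩) (by decide +kernel)

def yA12_k2m : PosD ⟨⟨0, 1, 1⟩, ⟨98, 99, 147⟩, ⟨150, 301, 10000⟩, ⟨2776, 2886, 1000⟩⟩ (yA12.k2m yA12.xE) :=
  posD_of_check (c := ⟨62, ⟨1, 1, 2, 2⟩⟩) (by decide +kernel)

def yA12_v2p : PosD ⟨⟨0, 1, 1⟩, ⟨98, 99, 147⟩, ⟨150, 301, 10000⟩, ⟨2776, 2886, 1000⟩⟩ (yA12.hV2p) :=
  posD_of_check (c := ⟨256, ⟨1, 6, 10, 5⟩⟩) (by decide +kernel)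

def yA12_v2m : PosD ⟨⟨0, 1, 1⟩, ⟨98, 99, 147⟩, ⟨150, 301, 10000⟩, ⟨2776, 2886, 1000⟩⟩ (yA12.hV2m) :=
  posD_of_check (c := ⟨255, ⟨1, 6, 10, 5⟩⟩) (by decide +kernel)

def yA12_v3p : PosD ⟨⟨0, 1, 1⟩, ⟨98, 99, 147⟩, ⟨150, 301, 10000⟩, ⟨2776, 2886, 1000⟩⟩ (yA12.hV3p) :=
  posD_of_check (c := ⟨246, ⟨1, 6, 9, 5⟩⟩) (by decide +kernel)

def yA12_v3m : PosD ⟨⟨0, 1, 1⟩, ⟨98, 99, 147⟩, ⟨150, 301, 10000⟩, ⟨2776, 2886, 1000⟩⟩ (yA12.hV3m) :=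
  posD_of_check (c := ⟨246, ⟨1, 6, 9, 5⟩⟩) (by decide +kernel)

def yA12_kap0 : PosD ⟨⟨0, 1, 1⟩, ⟨98, 99, 147⟩, ⟨150, 301, 10000⟩, ⟨2776, 2886, 1000⟩⟩ (yA12.kap false) :=
  posD_of_check (c := ⟨73, ⟨1, 1, 2, 2⟩⟩) (by decide +kernel)

def yA12_c10 : PosD ⟨⟨0, 1, 1⟩, ⟨98, 99, 147⟩, ⟨150, 301, 10000⟩, ⟨2776, 2886, 1000⟩⟩ (yA12.hC1 false) :=
  posD_of_check (c := ⟨272, ⟨3, 5, 9, 7⟩⟩) (by decide +kernel)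

def yA12_c1h0 : PosD ⟨⟨0, 1, 1⟩, ⟨98, 99, 147⟩, ⟨150, 301, 10000⟩, ⟨2776, 2886, 1000⟩⟩ (yA12.hC1' false) :=
  posD_of_check (c := ⟨272, ⟨3, 5, 9, 7⟩⟩) (by decide +kernel)

def yA12_tg00 : PosD ⟨⟨0, 1, 1⟩, ⟨98, 99, 147⟩, ⟨150, 301, 10000⟩, ⟨2776, 2886, 1000⟩⟩ (yA12.hG false (yA12.pEnd false)) :=
  posD_of_check (c := ⟨375, ⟨2, 7, 14, 9⟩⟩) (by decide +kernel)

def yA12_c2p00 : PosD ⟨⟨0, 1, 1⟩, ⟨98, 99, 147⟩, ⟨150, 301, 10000⟩, ⟨2776, 2886, 1000⟩⟩ (yA12.hC2p false (yA12.pEnd false)) :=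
  posD_of_check (c := ⟨438, ⟨3, 8, 16, 11⟩⟩) (by decide +kernel)

def yA12_c2m00 : PosD ⟨⟨0, 1, 1⟩, ⟨98, 99, 147⟩, ⟨150, 301, 10000⟩, ⟨2776, 2886, 1000⟩⟩ (yA12.hC2m false (yA12.pEnd false)) :=
  posD_of_check (c := ⟨438, ⟨3, 8, 16, 11⟩⟩) (by decide +kernel)

def yA12_c3p00 : PosD ⟨⟨0, 1, 1⟩, ⟨98, 99, 147⟩, ⟨150, 301, 10000⟩, ⟨2776, 2886, 1000⟩⟩ (yA12.hC3p false false) :=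
  posD_of_check (c := ⟨436, ⟨3, 8, 15, 11⟩⟩) (by decide +kernel)

def yA12_c3m00 : PosD ⟨⟨0, 1, 1⟩, ⟨98, 99, 147⟩, ⟨150, 301, 10000⟩, ⟨2776, 2886, 1000⟩⟩ (yA12.hC3m false false) :=
  posD_of_check (c := ⟨436, ⟨3, 8, 15, 11⟩⟩) (by decide +kernel)

def yA12_c3ph00 : PosD ⟨⟨0, 1, 1⟩, ⟨98, 99, 147⟩, ⟨150, 301, 10000⟩, ⟨2776, 2886, 1000⟩⟩ (yA12.hC3p' false false) :=
  posD_of_check (c := ⟨436, ⟨3, 8, 15, 11⟩⟩) (by decide +kernel)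

def yA12_c3mh00 : PosD ⟨⟨0, 1, 1⟩, ⟨98, 99, 147⟩, ⟨150, 301, 10000⟩, ⟨2776, 2886, 1000⟩⟩ (yA12.hC3m' false false) :=
  posD_of_check (c := ⟨436, ⟨3, 8, 15, 11⟩⟩) (by decide +kernel)

def yA12_up00 : PosD ⟨⟨0, 1, 1⟩, ⟨98, 99, 147⟩, ⟨150, 301, 10000⟩, ⟨2776, 2886, 1000⟩⟩ (yA12.hUp false false) :=
  posD_of_check (c := ⟨429, ⟨3, 8, 15, 11⟩⟩) (by decide +kernel)

def yA12_um00 : PosD ⟨⟨0, 1, 1⟩, ⟨98, 99, 147⟩, ⟨150, 301, 10000⟩, ⟨2776, 2886, 1000⟩⟩ (yA12.hUm false false) :=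
  posD_of_check (c := ⟨429, ⟨3, 8, 15, 11⟩⟩) (by decide +kernel)

def yA12_tmg00 : PosD ⟨⟨0, 1, 1⟩, ⟨98, 99, 147⟩, ⟨150, 301, 10000⟩, ⟨2776, 2886, 1000⟩⟩ (yA12.hTMG false (yA12.pEnd false)) :=
  posD_of_check (c := ⟨388, ⟨2, 7, 14, 10⟩⟩) (by decide +kernel)

def yA12_tg01 : PosD ⟨⟨0, 1, 1⟩, ⟨98, 99, 147⟩, ⟨150, 301, 10000⟩, ⟨2776, 2886, 1000⟩⟩ (yA12.hG true (yA12.pEnd false)) :=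
  posD_of_check (c := ⟨375, ⟨2, 7, 14, 9⟩⟩) (by decide +kernel)

def yA12_c2p01 : PosD ⟨⟨0, 1, 1⟩, ⟨98, 99, 147⟩, ⟨150, 301, 10000⟩, ⟨2776, 2886, 1000⟩⟩ (yA12.hC2p true (yA12.pEnd false)) :=
  posD_of_check (c := ⟨438, ⟨3, 8, 16, 11⟩⟩) (by decide +kernel)

def yA12_c2m01 : PosD ⟨⟨0, 1, 1⟩, ⟨98, 99, 147⟩, ⟨150, 301, 10000⟩, ⟨2776, 2886, 1000⟩⟩ (yA12.hC2m true (yA12.pEnd false)) :=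
  posD_of_check (c := ⟨438, ⟨3, 8, 16, 11⟩⟩) (by decide +kernel)

def yA12_c3p01 : PosD ⟨⟨0, 1, 1⟩, ⟨98, 99, 147⟩, ⟨150, 301, 10000⟩, ⟨2776, 2886, 1000⟩⟩ (yA12.hC3p false true) :=
  posD_of_check (c := ⟨436, ⟨3, 8, 15, 11⟩⟩) (by decide +kernel)

def yA12_c3m01 : PosD ⟨⟨0, 1, 1⟩, ⟨98, 99, 147⟩, ⟨150, 301, 10000⟩, ⟨2776, 2886, 1000⟩⟩ (yA12.hC3m false true) :=
  posD_of_check (c := ⟨436, ⟨3, 8, 15, 11⟩⟩) (by decide +kernel)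

def yA12_c3ph01 : PosD ⟨⟨0, 1, 1⟩, ⟨98, 99, 147⟩, ⟨150, 301, 10000⟩, ⟨2776, 2886, 1000⟩⟩ (yA12.hC3p' false true) :=
  posD_of_check (c := ⟨436, ⟨3, 8, 15, 11⟩⟩) (by decide +kernel)

def yA12_c3mh01 : PosD ⟨⟨0, 1, 1⟩, ⟨98, 99, 147⟩, ⟨150, 301, 10000⟩, ⟨2776, 2886, 1000⟩⟩ (yA12.hC3m' false true) :=
  posD_of_check (c := ⟨436, ⟨3, 8, 15, 11⟩⟩) (by decide +kernel)

def yA12_up01 : PosD ⟨⟨0, 1, 1⟩, ⟨98, 99, 147⟩, ⟨150, 301, 10000⟩, ⟨2776, 2886, 1000⟩⟩ (yA12.hUp false true) :=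
  posD_of_check (c := ⟨429, ⟨3, 8, 15, 11⟩⟩) (by decide +kernel)

def yA12_um01 : PosD ⟨⟨0, 1, 1⟩, ⟨98, 99, 147⟩, ⟨150, 301, 10000⟩, ⟨2776, 2886, 1000⟩⟩ (yA12.hUm false true) :=
  posD_of_check (c := ⟨429, ⟨3, 8, 15, 11⟩⟩) (by decide +kernel)

def yA12_tmg01 : PosD ⟨⟨0, 1, 1⟩, ⟨98, 99, 147⟩, ⟨150, 301, 10000⟩, ⟨2776, 2886, 1000⟩⟩ (yA12.hTMG true (yA12.pEnd false)) :=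
  posD_of_check (c := ⟨388, ⟨2, 7, 14, 10⟩⟩) (by decide +kernel)

def yA12_kap1 : PosD ⟨⟨0, 1, 1⟩, ⟨98, 99, 147⟩, ⟨150, 301, 10000⟩, ⟨2776, 2886, 1000⟩⟩ (yA12.kap true) :=
  posD_of_check (c := ⟨70, ⟨1, 1, 2, 2⟩⟩) (by decide +kernel)

def yA12_c11 : PosD ⟨⟨0, 1, 1⟩, ⟨98, 99, 147⟩, ⟨150, 301, 10000⟩, ⟨2776, 2886, 1000⟩⟩ (yA12.hC1 true) :=
  posD_of_check (c := ⟨267, ⟨3, 5, 9, 7⟩⟩) (by decide +kernel)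

def yA12_c1h1 : PosD ⟨⟨0, 1, 1⟩, ⟨98, 99, 147⟩, ⟨150, 301, 10000⟩, ⟨2776, 2886, 1000⟩⟩ (yA12.hC1' true) :=
  posD_of_check (c := ⟨267, ⟨3, 5, 9, 7⟩⟩) (by decide +kernel)

def yA12_tg10 : PosD ⟨⟨0, 1, 1⟩, ⟨98, 99, 147⟩, ⟨150, 301, 10000⟩, ⟨2776, 2886, 1000⟩⟩ (yA12.hG false (yA12.pEnd true)) :=
  posD_of_check (c := ⟨373, ⟨2, 7, 14, 9⟩⟩) (by decide +kernel)

def yA12_c2p10 : PosD ⟨⟨0, 1, 1⟩, ⟨98, 99, 147⟩, ⟨150, 301, 10000⟩, ⟨2776, 2886, 1000⟩⟩ (yA12.hC2p false (yA12.pEnd true)) :=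
  posD_of_check (c := ⟨435, ⟨3, 8, 16, 11⟩⟩) (by decide +kernel)

def yA12_c2m10 : PosD ⟨⟨0, 1, 1⟩, ⟨98, 99, 147⟩, ⟨150, 301, 10000⟩, ⟨2776, 2886, 1000⟩⟩ (yA12.hC2m false (yA12.pEnd true)) :=
  posD_of_check (c := ⟨435, ⟨3, 8, 16, 11⟩⟩) (by decide +kernel)

def yA12_c3p10 : PosD ⟨⟨0, 1, 1⟩, ⟨98, 99, 147⟩, ⟨150, 301, 10000⟩, ⟨2776, 2886, 1000⟩⟩ (yA12.hC3p true false) :=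
  posD_of_check (c := ⟨432, ⟨3, 8, 15, 11⟩⟩) (by decide +kernel)

def yA12_c3m10 : PosD ⟨⟨0, 1, 1⟩, ⟨98, 99, 147⟩, ⟨150, 301, 10000⟩, ⟨2776, 2886, 1000⟩⟩ (yA12.hC3m true false) :=
  posD_of_check (c := ⟨432, ⟨3, 8, 15, 11⟩⟩) (by decide +kernel)

def yA12_c3ph10 : PosD ⟨⟨0, 1, 1⟩, ⟨98, 99, 147⟩, ⟨150, 301, 10000⟩, ⟨2776, 2886, 1000⟩⟩ (yA12.hC3p' true false) :=
  posD_of_check (c := ⟨431, ⟨3, 8, 15, 11⟩⟩) (by decide +kernel)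

def yA12_c3mh10 : PosD ⟨⟨0, 1, 1⟩, ⟨98, 99, 147⟩, ⟨150, 301, 10000⟩, ⟨2776, 2886, 1000⟩⟩ (yA12.hC3m' true false) :=
  posD_of_check (c := ⟨431, ⟨3, 8, 15, 11⟩⟩) (by decide +kernel)

def yA12_up10 : PosD ⟨⟨0, 1, 1⟩, ⟨98, 99, 147⟩, ⟨150, 301, 10000⟩, ⟨2776, 2886, 1000⟩⟩ (yA12.hUp true false) :=
  posD_of_check (c := ⟨427, ⟨3, 8, 15, 11⟩⟩) (by decide +kernel)

def yA12_um10 : PosD ⟨⟨0, 1, 1⟩, ⟨98, 99, 147⟩, ⟨150, 301, 10000⟩, ⟨2776, 2886, 1000⟩⟩ (yA12.hUm true false) :=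
  posD_of_check (c := ⟨427, ⟨3, 8, 15, 11⟩⟩) (by decide +kernel)

def yA12_tmg10 : PosD ⟨⟨0, 1, 1⟩, ⟨98, 99, 147⟩, ⟨150, 301, 10000⟩, ⟨2776, 2886, 1000⟩⟩ (yA12.hTMG false (yA12.pEnd true)) :=
  posD_of_check (c := ⟨387, ⟨2, 7, 14, 10⟩⟩) (by decide +kernel)

def yA12_tg11 : PosD ⟨⟨0, 1, 1⟩, ⟨98, 99, 147⟩, ⟨150, 301, 10000⟩, ⟨2776, 2886, 1000⟩⟩ (yA12.hG true (yA12.pEnd true)) :=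
  posD_of_check (c := ⟨373, ⟨2, 7, 14, 9⟩⟩) (by decide +kernel)

def yA12_c2p11 : PosD ⟨⟨0, 1, 1⟩, ⟨98, 99, 147⟩, ⟨150, 301, 10000⟩, ⟨2776, 2886, 1000⟩⟩ (yA12.hC2p true (yA12.pEnd true)) :=
  posD_of_check (c := ⟨435, ⟨3, 8, 16, 11⟩⟩) (by decide +kernel)

def yA12_c2m11 : PosD ⟨⟨0, 1, 1⟩, ⟨98, 99, 147⟩, ⟨150, 301, 10000⟩, ⟨2776, 2886, 1000⟩⟩ (yA12.hC2m true (yA12.pEnd true)) :=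
  posD_of_check (c := ⟨435, ⟨3, 8, 16, 11⟩⟩) (by decide +kernel)

def yA12_c3p11 : PosD ⟨⟨0, 1, 1⟩, ⟨98, 99, 147⟩, ⟨150, 301, 10000⟩, ⟨2776, 2886, 1000⟩⟩ (yA12.hC3p true true) :=
  posD_of_check (c := ⟨432, ⟨3, 8, 15, 11⟩⟩) (by decide +kernel)

def yA12_c3m11 : PosD ⟨⟨0, 1, 1⟩, ⟨98, 99, 147⟩, ⟨150, 301, 10000⟩, ⟨2776, 2886, 1000⟩⟩ (yA12.hC3m true true) :=
  posD_of_check (c := ⟨432, ⟨3, 8, 15, 11⟩⟩) (by decide +kernel)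

def yA12_c3ph11 : PosD ⟨⟨0, 1, 1⟩, ⟨98, 99, 147⟩, ⟨150, 301, 10000⟩, ⟨2776, 2886, 1000⟩⟩ (yA12.hC3p' true true) :=
  posD_of_check (c := ⟨431, ⟨3, 8, 15, 11⟩⟩) (by decide +kernel)

def yA12_c3mh11 : PosD ⟨⟨0, 1, 1⟩, ⟨98, 99, 147⟩, ⟨150, 301, 10000⟩, ⟨2776, 2886, 1000⟩⟩ (yA12.hC3m' true true) :=
  posD_of_check (c := ⟨431, ⟨3, 8, 15, 11⟩⟩) (by decide +kernel)

def yA12_up11 : PosD ⟨⟨0, 1, 1⟩, ⟨98, 99, 147⟩, ⟨150, 301, 10000⟩, ⟨2776, 2886, 1000⟩⟩ (yA12.hUp true true) :=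
  posD_of_check (c := ⟨427, ⟨3, 8, 15, 11⟩⟩) (by decide +kernel)

def yA12_um11 : PosD ⟨⟨0, 1, 1⟩, ⟨98, 99, 147⟩, ⟨150, 301, 10000⟩, ⟨2776, 2886, 1000⟩⟩ (yA12.hUm true true) :=
  posD_of_check (c := ⟨427, ⟨3, 8, 15, 11⟩⟩) (by decide +kernel)

def yA12_tmg11 : PosD ⟨⟨0, 1, 1⟩, ⟨98, 99, 147⟩, ⟨150, 301, 10000⟩, ⟨2776, 2886, 1000⟩⟩ (yA12.hTMG true (yA12.pEnd true)) :=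
  posD_of_check (c := ⟨387, ⟨2, 7, 14, 10⟩⟩) (by decide +kernel)

/-- The signs of the piece. -/
def yA12_sign : yA12.Sign ⟨⟨0, 1, 1⟩, ⟨98, 99, 147⟩, ⟨150, 301, 10000⟩, ⟨2776, 2886, 1000⟩⟩ :=
  ⟨yA12_pp,
    yA12_k2p,
    yA12_k2m,
    Bool.forall_bool.2 ⟨(Bool.forall_bool.2 ⟨yA12_tg00, yA12_tg01⟩), (Bool.forall_bool.2 ⟨yA12_tg10, yA12_tg11⟩)⟩,
    Bool.forall_bool.2 ⟨(Bool.forall_bool.2 ⟨yA12_c2p00, yA12_c2p01⟩), (Bool.forall_bool.2 ⟨yA12_c2p10, yA12_c2p11⟩)⟩,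
    Bool.forall_bool.2 ⟨(Bool.forall_bool.2 ⟨yA12_c2m00, yA12_c2m01⟩), (Bool.forall_bool.2 ⟨yA12_c2m10, yA12_c2m11⟩)⟩,
    Bool.forall_bool.2 ⟨yA12_kap0, yA12_kap1⟩,
    Bool.forall_bool.2 ⟨yA12_c10, yA12_c11⟩,
    Bool.forall_bool.2 ⟨(Bool.forall_bool.2 ⟨yA12_c3p00, yA12_c3p01⟩), (Bool.forall_bool.2 ⟨yA12_c3p10, yA12_c3p11⟩)⟩,
    Bool.forall_bool.2 ⟨(Bool.forall_bool.2 ⟨yA12_c3m00, yA12_c3m01⟩), (Bool.forall_bool.2 ⟨yA12_c3m10, yA12_c3m11⟩)⟩,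
    Bool.forall_bool.2 ⟨(Bool.forall_bool.2 ⟨yA12_tmg00, yA12_tmg01⟩), (Bool.forall_bool.2 ⟨yA12_tmg10, yA12_tmg11⟩)⟩,
    .inr (Bool.forall_bool.2 ⟨⟨yA12_c1h0, Bool.forall_bool.2 ⟨⟨yA12_c3ph00, yA12_c3mh00, yA12_up00, yA12_um00⟩, ⟨yA12_c3ph01, yA12_c3mh01, yA12_up01, yA12_um01⟩⟩⟩, ⟨yA12_c1h1, Bool.forall_bool.2 ⟨⟨yA12_c3ph10, yA12_c3mh10, yA12_up10, yA12_um10⟩, ⟨yA12_c3ph11, yA12_c3mh11, yA12_up11, yA12_um11⟩⟩⟩⟩),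
    yA12_v2p,
    yA12_v2m,
    yA12_v3p,
    yA12_v3m,
    posD_sub (b := ⟨⟨0, 1, 1⟩, ⟨98, 99, 147⟩, ⟨0, 301, 10000⟩, ⟨1060, 4000, 1000⟩⟩) (by decide +kernel) yA_vG,
    posD_sub (b := ⟨⟨0, 1, 1⟩, ⟨98, 99, 147⟩, ⟨0, 301, 10000⟩, ⟨1060, 4000, 1000⟩⟩) (by decide +kernel) yA_vMG,
    posD_sub (b := ⟨⟨0, 1, 1⟩, ⟨98, 99, 147⟩, ⟨0, 301, 10000⟩, ⟨1060, 4000, 1000⟩⟩) (by decide +kernel) yA_ak,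
    posD_sub (b := ⟨⟨0, 1, 1⟩, ⟨98, 99, 147⟩, ⟨0, 301, 10000⟩, ⟨1060, 4000, 1000⟩⟩) (by decide +kernel) yA_aw,
    posD_sub (b := ⟨⟨0, 1, 1⟩, ⟨98, 99, 147⟩, ⟨0, 301, 10000⟩, ⟨1060, 4000, 1000⟩⟩) (by decide +kernel) yA_gk,
    posD_sub (b := ⟨⟨0, 1, 1⟩, ⟨98, 99, 147⟩, ⟨0, 301, 10000⟩, ⟨1060, 4000, 1000⟩⟩) (by decide +kernel) yA_gw,
    posD_sub (b := ⟨⟨0, 1, 1⟩, ⟨98, 99, 147⟩, ⟨0, 301, 10000⟩, ⟨1060, 4000, 1000⟩⟩) (by decide +kernel) yA_ek,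
    posD_sub (b := ⟨⟨0, 1, 1⟩, ⟨98, 99, 147⟩, ⟨0, 301, 10000⟩, ⟨1060, 4000, 1000⟩⟩) (by decide +kernel) yA_ew⟩

def yA13_phx : PosD ⟨⟨0, 1, 1⟩, ⟨98, 99, 147⟩, ⟨0, 150, 10000⟩, ⟨2886, 3000, 1000⟩⟩ (phAn (yA13Hi + xO * (yA13Lo - yA13Hi))) :=
  posD_of_check0 (c := ⟨84, ⟨2, 0, 4, 1⟩⟩) (by decide +kernel)

def yA13_phd : PosD ⟨⟨0, 1, 1⟩, ⟨98, 99, 147⟩, ⟨0, 150, 10000⟩, ⟨2886, 3000, 1000⟩⟩ (phAd (yA13Hi + xO * (yA13Lo - yA13Hi))) :=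
  posD_of_check0 (c := ⟨47, ⟨1, 0, 2, 0⟩⟩) (by decide +kernel)

def yA14_phx : PosD ⟨⟨0, 1, 1⟩, ⟨98, 99, 147⟩, ⟨150, 225, 10000⟩, ⟨2886, 3000, 1000⟩⟩ (phAn (yA14Hi + xO * (yA14Lo - yA14Hi))) :=
  posD_of_check (c := ⟨84, ⟨2, 0, 4, 1⟩⟩) (by decide +kernel)

def yA14_phd : PosD ⟨⟨0, 1, 1⟩, ⟨98, 99, 147⟩, ⟨150, 225, 10000⟩, ⟨2886, 3000, 1000⟩⟩ (phAd (yA14Hi + xO * (yA14Lo - yA14Hi))) :=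
  posD_of_check (c := ⟨47, ⟨1, 0, 2, 0⟩⟩) (by decide +kernel)

def yA15_phx : PosD ⟨⟨0, 1, 1⟩, ⟨98, 99, 147⟩, ⟨225, 262, 10000⟩, ⟨2886, 3000, 1000⟩⟩ (phAn (yA15Hi + xO * (yA15Lo - yA15Hi))) :=
  posD_of_check (c := ⟨84, ⟨2, 0, 4, 1⟩⟩) (by decide +kernel)

def yA15_phd : PosD ⟨⟨0, 1, 1⟩, ⟨98, 99, 147⟩, ⟨225, 262, 10000⟩, ⟨2886, 3000, 1000⟩⟩ (phAd (yA15Hi + xO * (yA15Lo - yA15Hi))) :=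
  posD_of_check (c := ⟨47, ⟨1, 0, 2, 0⟩⟩) (by decide +kernel)

end Vale.Agent.P100.Calib.Closed.Six.Tail
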