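import Vale.Agent.P100.Calib.SlabSixTailCell

/-!
# A piece at the corner where `p = g W` tends to zero

Three ranges of `e = g E`: below `cutM` and below `cutC` with the checks of a piece, above `cutC`
with the checks of a piece where `p` may be small.
-/

set_option linter.unusedVariables false

namespace Vale.Agent.P100.Calib.Closed.Six.Tail

open BoxPos Large

/-- The closed signs on a corner piece. -/
theorem piece_signs_corner {P Q : Piece} {b : Box} {cutM cutC μ ε lam : Ex} {pU' : Bnd}
    {f g h k : Ex → Ex} {d S u v t : ℝ}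
    (E : P.Env b) (E' : ({ P with pU := pU' } : Piece).Env b) (CA : (P.below cutM).Sign b)
    (CB : ({ (P.above cutM pU').below cutC with k2p := f, k2m := g, kapL := h, kapU := k } :
      Piece).Sign b)
    (EQ : Q.Env b) (CL : (Q.above cutC Q.pU).SignLow b μ ε lam)
    (hcA : (P.below cutM).consts.all noO = true)
    (hcB : ((P.above cutM pU').below cutC).consts.all noO = true)
    (hcL : (Q.above cutC Q.pU).consts.all noO = true)
    (T : Pt d S u v t) (I : Within P b S d v u t) (J : Within Q b S d v u t) :
    Six.ChartSigns d S u v t := by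
  obtain ⟨o, mo, hu⟩ := J.exists_o
  obtain ⟨hL, hU⟩ := J.ends o mo hu
  have LQ := chart_place EQ mo J.S_mem J.d_mem J.v_mem T.dpos T.dom T.S_pos.1 T.S_pos.2 T.v_pos
    T.facts hu hL hU
  rcases le_or_gt (cutC.val o S d v) (chE d S u v t) with hc | hc
  · exact (LQ.above hc LQ.p_high).signsLow CL hcL J.s₀ J.S_mem J.d_mem J.v_mem T.dpos T.dom T.S_pos.1
      T.S_pos.2 T.v_pos T.d_le T.facts T.llg
  obtain ⟨o', mo', hu'⟩ := I.exists_o
  obtain ⟨hL', hU'⟩ := I.ends o' mo' hu'
  have L := chart_place E mo' I.S_mem I.d_mem I.v_mem T.dpos T.dom T.S_pos.1 T.S_pos.2 T.v_pos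
    T.facts hu' hL' hU'
  rcases lt_or_ge (chE d S u v t) (cutM.val o' S d v) with hm | hm
  · exact (L.below hm).signsPt CA hcA I.s₀ I.S_mem I.d_mem I.v_mem T
  · have L' := chart_place E' mo' I.S_mem I.d_mem I.v_mem T.dpos T.dom T.S_pos.1 T.S_pos.2 T.v_pos
      T.facts hu' hL' hU'
    have hc' : chE d S u v t < cutC.val o' S d v := by
      have hn : noO cutC = true := by
        simp only [Piece.consts, Piece.above, Piece.below, Bnd.parts, List.cons_append,
          List.nil_append, List.all_cons, Bool.and_eq_true] at hcL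
        exact hcL.2.2.2.1
      rw [val_noO hn o' o]
      exact hc
    exact (((L.above hm L'.p_high).below hc').mults f g h k).signsPt CB hcB I.s₀ I.S_mem I.d_mem
      I.v_mem T

end Vale.Agent.P100.Calib.Closed.Six.Tail
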