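import Vale.Agent.P100.Calib.SlabSixTailRules

/-!
# The pieces of the certificate
-/

namespace Vale.Agent.P100.Calib.Closed.Six.Tail

open BoxPos Large

local instance sixTailDataAAdd : Add Ex := ⟨Ex.add⟩
local instance sixTailDataASub : Sub Ex := ⟨Ex.sub⟩
local instance sixTailDataAMul : Mul Ex := ⟨Ex.mul⟩

/-- A piece: `0.29 ≤ v < 0.5`. -/
def tA0 : Piece where
  u₀ := cC (39) 40
  u₁ := cC (3) 5
  tLn := lowTn
  tLd := lowTd
  tUn := upAn
  tUd := upAd
  p₀ := cC (234297) 10000 + cC (-174256) 10000 * xD + cC (-39989) 10000 * xV + cC (115305) 10000 * (xD * xV) + cC (108816) 10000 * (xD * xD) + cC (-171674) 10000 * xS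
  zL := cC (10081) 10000 + cC (-212357) 10000 * xD + cC (-32) 10000 * xV + cC (-25708) 10000 * (xD * xV) + cC (-84) 10000 * (xV * xV) + cC (2234270) 10000 * (xD * xD) + cC (-127) 10000 * xS
  zU := cC (10100) 10000 + cC (-20856) 10000 * xD + cC (-12) 10000 * xV + cC (-15198) 10000 * (xD * xV) + cC (14) 10000 * (xV * xV) + cC (115720) 10000 * (xD * xD) + cC (-131) 10000 * xS
  k2p := fun _ => cC (10) 10000
  k2m := fun e => cC (-237) 10000 + cC (3217) 10000 * xD + cC (349) 10000 * xV + cC (-8) 10000 * e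
  kapL := fun _ => cC (5) 10000 + cC (1576) 10000 * xD + cC (91) 10000 * xV
  kapU := fun _ => cC (10) 10000 + cC (1695) 10000 * xD + cC (97) 10000 * xV
  eL := ⟨cC (-1111456) 10000 + cC (4901199) 10000 * xD + cC (2487395) 10000 * xV + cC (-1991744) 10000 * (xV * xV) + cC (-7897757) 10000 * (xD * xV) + cC (-23528414) 10000 * (xD * xD) + cC (358628) 10000 * xS,
    cC 0,
    cC 0,
    cC 0,
    cC 0⟩
  eH := ⟨cC (-827098) 10000 + cC (2432809) 10000 * xD + cC (983576) 10000 * xV + cC (-1509) 10000 * (xV * xV) + cC (-1356621) 10000 * (xD * xV) + cC (-18253159) 10000 * (xD * xD) + cC (358628) 10000 * xS,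
    cC 0,
    cC 0,
    cC (147713) 10000,
    cC 0⟩
  pL := ⟨cC (228936) 10000 + cC (-179276) 10000 * xD + cC (-44589) 10000 * xV + cC (114174) 10000 * (xD * xV) + cC (-2682) 10000 * (xV * xV) + cC (-61020) 10000 * (xD * xD) + cC (-162662) 10000 * xS,
    cC (143) 10000 + cC (-971) 10000 * xD + cC (-625) 10000 * xV,
    cC 0,
    cC (9976) 10000,
    cC 0⟩
  pU := ⟨cC (268394) 10000 + cC (-283464) 10000 * xD + cC (-249342) 10000 * xV + cC (479688) 10000 * (xD * xV) + cC (236493) 10000 * (xV * xV) + cC (-146982) 10000 * (xD * xD) + cC (-160117) 10000 * xS,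
    cC (691) 10000 + cC (-467) 10000 * xD + cC (-2382) 10000 * xV,
    cC 0,
    cC 0,
    cC 0⟩
  kU := ⟨cC (-55372) 10000 + cC (-38150) 10000 * xD + cC (193960) 10000 * xV + cC (-578786) 10000 * (xD * xV) + cC (127769) 10000 * (xV * xV) + cC (796568) 10000 * (xD * xD) + cC (-15309) 10000 * xS,
    cC (68) 10000 + cC (4439) 10000 * xD + cC (1099) 10000 * xV,
    cC (9373) 10000 + cC (22792) 10000 * xD + cC (-28490) 10000 * xV,
    cC 0,
    cC 0⟩
  kL := ⟨cC (-29462) 10000 + cC (238423) 10000 * xD + cC (99398) 10000 * xV + cC (-1077710) 10000 * (xD * xV) + cC (-132897) 10000 * (xV * xV) + cC (-2597040) 10000 * (xD * xD) + cC (15302) 10000 * xS,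
    cC (-549) 10000 + cC (4124) 10000 * xD + cC (293) 10000 * xV,
    cC (-2086) 10000 + cC (33738) 10000 * xD + cC (4997) 10000 * xV,
    cC 0,
    cC 0⟩
  wU := ⟨cC (44169) 10000 + cC (544620) 10000 * xD + cC (260847) 10000 * xV + cC (-282838) 10000 * (xD * xV) + cC (854073) 10000 * (xV * xV) + cC (-1032766) 10000 * (xD * xD) + cC (-242947) 10000 * xS,
    cC (3742) 10000 + cC (7716) 10000 * xD + cC (-11006) 10000 * xV,
    cC (23846) 10000 + cC (-43253) 10000 * xD + cC (-110809) 10000 * xV,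
    cC 0,
    cC 0⟩
  wL := ⟨cC (-304698) 10000 + cC (623835) 10000 * xD + cC (270450) 10000 * xV + cC (-1014654) 10000 * (xD * xV) + cC (-272375) 10000 * (xV * xV) + cC (-7283648) 10000 * (xD * xD) + cC (162097) 10000 * xS,
    cC (8120) 10000 + cC (-56334) 10000 * xD + cC (-35209) 10000 * xV,
    cC (13826) 10000 + cC (-61618) 10000 * xD + cC (-38512) 10000 * xV,
    cC 0,
    cC 0⟩

/-- A piece: `0.5 ≤ v < 1.0`. -/
def tA1 : Piece where
  u₀ := cC (39) 40
  u₁ := cC (3) 5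
  tLn := lowTn
  tLd := lowTd
  tUn := upAn
  tUd := upAd
  p₀ := cC (234348) 10000 + cC (-171973) 10000 * xD + cC (-39981) 10000 * xV + cC (114892) 10000 * (xD * xV) + cC (38869) 10000 * (xD * xD) + cC (-171751) 10000 * xS
  zL := cC (10110) 10000 + cC (-216602) 10000 * xD + cC (-63) 10000 * xV + cC (-24861) 10000 * (xD * xV) + cC (-33) 10000 * (xV * xV) + cC (2333321) 10000 * (xD * xD) + cC (-128) 10000 * xS
  zU := cC (10090) 10000 + cC (-21421) 10000 * xD + cC (-23) 10000 * xV + cC (-14873) 10000 * (xD * xV) + cC (13) 10000 * (xV * xV) + cC (132027) 10000 * (xD * xD) + cC (-105) 10000 * xS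
  k2p := fun e => cC (-143) 10000 + cC (935) 10000 * xD + cC (113) 10000 * xV + cC (-10) 10000 * e
  k2m := fun _ => cC (10) 10000 + cC (2150) 10000 * xD
  kapL := fun e => cC (36) 10000 + cC (152) 10000 * xD + cC (56) 10000 * xV + cC (2) 10000 * e
  kapU := fun e => cC (-229) 10000 + cC (631) 10000 * xD + cC (289) 10000 * xV + cC (-17) 10000 * e
  eL := ⟨cC (125930) 10000 + cC (-88152) 10000 * xD + cC (-11348) 10000 * xV + cC (-152) 10000 * (xV * xV) + cC (102264) 10000 * (xD * xV) + cC (390471) 10000 * (xD * xD) + cC (-347904) 10000 * xS,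
    cC 0,
    cC 0,
    cC 0,
    cC 0⟩
  eH := ⟨cC (-59857) 10000 + cC (1292405) 10000 * xD + cC (82258) 10000 * xV + cC (23803) 10000 * (xV * xV) + cC (-1399342) 10000 * (xD * xV) + cC (12608170) 10000 * (xD * xD) + cC (-130874) 10000 * xS,
    cC 0,
    cC 0,
    cC (20008) 10000,
    cC 0⟩
  pL := ⟨cC (234057) 10000 + cC (-171973) 10000 * xD + cC (-39981) 10000 * xV + cC (114892) 10000 * (xD * xV) + cC (38869) 10000 * (xD * xD) + cC (-171751) 10000 * xS,
    cC 0,
    cC 0,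
    cC (10000) 10000,
    cC 0⟩
  pU := ⟨cC (282691) 10000 + cC (170386) 10000 * xD + cC (-97189) 10000 * xV + cC (-50122) 10000 * (xD * xV) + cC (34522) 10000 * (xV * xV) + cC (-88700) 10000 * (xD * xD) + cC (-238939) 10000 * xS,
    cC (1353) 10000 + cC (11652) 10000 * xD + cC (-6248) 10000 * xV,
    cC 0,
    cC 0,
    cC 0⟩
  kU := ⟨cC (6040) 10000 + cC (342) 10000 * xD + cC (-89) 10000 * xV + cC (3466) 10000 * (xD * xV) + cC (41) 10000 * (xV * xV) + cC (8282) 10000 * (xD * xD) + cC (-8816) 10000 * xS,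
    cC (-833) 10000 + cC (12614) 10000 * xD + cC (6) 10000 * xV,
    cC (-258) 10000 + cC (3826) 10000 * xD + cC (-10) 10000 * xV,
    cC 0,
    cC 0⟩
  kL := ⟨cC (1555) 10000 + cC (28113) 10000 * xD + cC (141) 10000 * xV + cC (15812) 10000 * (xD * xV) + cC (82) 10000 * (xV * xV) + cC (-19404) 10000 * (xD * xD) + cC (-4944) 10000 * xS,
    cC (-765) 10000 + cC (9576) 10000 * xD + cC (57) 10000 * xV,
    cC (34) 10000 + cC (-2746) 10000 * xD + cC (-45) 10000 * xV,
    cC 0,
    cC 0⟩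
  wU := ⟨cC (37221) 10000 + cC (-472239) 10000 * xD + cC (-2995) 10000 * xV + cC (-463920) 10000 * (xD * xV) + cC (12353) 10000 * (xV * xV) + cC (3619945) 10000 * (xD * xD) + cC (10245) 10000 * xS,
    cC (-1266) 10000 + cC (41478) 10000 * xD + cC (-7902) 10000 * xV,
    cC (-14853) 10000 + cC (121117) 10000 * xD + cC (-4630) 10000 * xV,
    cC 0,
    cC 0⟩
  wL := ⟨cC (-219205) 10000 + cC (84257) 10000 * xD + cC (8578) 10000 * xV + cC (-149685) 10000 * (xD * xV) + cC (-2715) 10000 * (xV * xV) + cC (1510092) 10000 * (xD * xD) + cC (311645) 10000 * xS,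
    cC (1012) 10000 + cC (-23080) 10000 * xD + cC (-4338) 10000 * xV,
    cC (-7158) 10000 + cC (-38693) 10000 * xD + cC (-1680) 10000 * xV,
    cC 0,
    cC 0⟩

/-- A piece: `1.0 ≤ v < 1.342`. -/
def tA2 : Piece where
  u₀ := cC (39) 40
  u₁ := cC (290) 1000 + cC (-221) 1000 * xD + cC (412) 1000 * xV
  tLn := lowTn
  tLd := lowTd
  tUn := upAn
  tUd := upAd
  p₀ := cC (235286) 10000 + cC (-170853) 10000 * xD + cC (-39981) 10000 * xV + cC (114998) 10000 * (xD * xV) + cC (-14509) 10000 * (xD * xD) + cC (-173129) 10000 * xS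
  zL := cC (10102) 10000 + cC (-224780) 10000 * xD + cC (21) 10000 * xV + cC (-24123) 10000 * (xD * xV) + cC (-55) 10000 * (xV * xV) + cC (2526506) 10000 * (xD * xD) + cC (-129) 10000 * xS
  zU := cC (9559) 10000 + cC (34259) 10000 * xD + cC (1000) 10000 * xV + cC (-83370) 10000 * (xD * xV) + cC (-432) 10000 * (xV * xV) + cC (357077) 10000 * (xD * xD) + cC (-172) 10000 * xS
  k2p := fun e => cC (-45) 10000 + cC (442) 10000 * xD + cC (24) 10000 * xV + cC (-7) 10000 * e
  k2m := fun e => cC (184) 10000 + cC (112) 10000 * xD + cC (-89) 10000 * xV + cC (9) 10000 * e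
  kapL := fun e => cC (15) 10000 + cC (3477) 10000 * xD + cC (132) 10000 * xV + cC (-1) 10000 * e
  kapU := fun e => cC (-144) 10000 + cC (903) 10000 * xD + cC (226) 10000 * xV + cC (-14) 10000 * e
  eL := ⟨cC (-15329) 10000 + cC (53772) 10000 * xD + cC (60988) 10000 * xV + cC (15878) 10000 * (xV * xV) + cC (-132733) 10000 * (xD * xV) + cC (971262) 10000 * (xD * xD) + cC (-233482) 10000 * xS,
    cC 0,
    cC 0,
    cC 0,
    cC 0⟩
  eH := ⟨cC (-64880) 10000 + cC (1079118) 10000 * xD + cC (41290) 10000 * xV + cC (6297) 10000 * (xV * xV) + cC (-610685) 10000 * (xD * xV) + cC (7255591) 10000 * (xD * xD) + cC (-54536) 10000 * xS,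
    cC 0,
    cC 0,
    cC (11347) 10000,
    cC 0⟩
  pL := ⟨cC (260775) 10000 + cC (723495) 10000 * xD + cC (-37327) 10000 * xV + cC (-319669) 10000 * (xD * xV) + cC (9941) 10000 * (xV * xV) + cC (-974492) 10000 * (xD * xD) + cC (-308721) 10000 * xS,
    cC (-518) 10000 + cC (47643) 10000 * xD + cC (-6656) 10000 * xV,
    cC 0,
    cC (1084) 10000,
    cC 0⟩
  pU := ⟨cC (268207) 10000 + cC (575279) 10000 * xD + cC (-66182) 10000 * xV + cC (-3579) 10000 * (xD * xV) + cC (15997) 10000 * (xV * xV) + cC (-1661504) 10000 * (xD * xD) + cC (-253418) 10000 * xS,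
    cC (184) 10000 + cC (51747) 10000 * xD + cC (-6214) 10000 * xV,
    cC 0,
    cC 0,
    cC 0⟩
  kU := ⟨cC (2435) 10000 + cC (-12493) 10000 * xD + cC (1251) 10000 * xV + cC (5312) 10000 * (xD * xV) + cC (-642) 10000 * (xV * xV) + cC (40249) 10000 * (xD * xD) + cC (-4499) 10000 * xS,
    cC (-1044) 10000 + cC (13574) 10000 * xD + cC (234) 10000 * xV,
    cC (-401) 10000 + cC (5573) 10000 * xD + cC (155) 10000 * xV,
    cC 0,
    cC 0⟩
  kL := ⟨cC (3426) 10000 + cC (1069) 10000 * xD + cC (207) 10000 * xV + cC (-185) 10000 * (xD * xV) + cC (-81) 10000 * (xV * xV) + cC (-51534) 10000 * (xD * xD) + cC (-5558) 10000 * xS,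
    cC (-734) 10000 + cC (10397) 10000 * xD + cC (2) 10000 * xV,
    cC (-166) 10000 + cC (2792) 10000 * xD + cC (-16) 10000 * xV,
    cC 0,
    cC 0⟩
  wU := ⟨cC (26811) 10000 + cC (148172) 10000 * xD + cC (-31923) 10000 * xV + cC (-102077) 10000 * (xD * xV) + cC (1006) 10000 * (xV * xV) + cC (252503) 10000 * (xD * xD) + cC (39891) 10000 * xS,
    cC (-3618) 10000 + cC (35891) 10000 * xD + cC (-4882) 10000 * xV,
    cC (-18122) 10000 + cC (17683) 10000 * xD + cC (2551) 10000 * xV,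
    cC 0,
    cC 0⟩
  wL := ⟨cC (-92417) 10000 + cC (328079) 10000 * xD + cC (-2544) 10000 * xV + cC (-138262) 10000 * (xD * xV) + cC (-1246) 10000 * (xV * xV) + cC (1124948) 10000 * (xD * xD) + cC (148242) 10000 * xS,
    cC (59) 10000 + cC (14609) 10000 * xD + cC (-6006) 10000 * xV,
    cC (-11299) 10000 + cC (-24697) 10000 * xD + cC (-583) 10000 * xV,
    cC 0,
    cC 0⟩

/-- The least `u`. -/
def tA2Lo : Ex :=
  cC (3) 5

/-- A piece: `1.342 ≤ v < 1.8`. -/
def tA3 : Piece where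
  u₀ := cC (39) 40
  u₁ := cC (617) 1000 + cC (60) 1000 * xD + cC (168) 1000 * xV
  tLn := lowTn
  tLd := lowTd
  tUn := upAn
  tUd := upAd
  p₀ := cC (235945) 10000 + cC (-169667) 10000 * xD + cC (-39983) 10000 * xV + cC (115188) 10000 * (xD * xV) + cC (-75836) 10000 * (xD * xD) + cC (-174092) 10000 * xS
  zL := cC (10106) 10000 + cC (-231265) 10000 * xD + cC (37) 10000 * xV + cC (-23586) 10000 * (xD * xV) + cC (-48) 10000 * (xV * xV) + cC (2677641) 10000 * (xD * xD) + cC (-129) 10000 * xS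
  zU := cC (9669) 10000 + cC (17493) 10000 * xD + cC (610) 10000 * xV + cC (-78062) 10000 * (xD * xV) + cC (-203) 10000 * (xV * xV) + cC (705339) 10000 * (xD * xD) + cC (-154) 10000 * xS
  k2p := fun e => cC (-41) 10000 + cC (421) 10000 * xD + cC (19) 10000 * xV + cC (-8) 10000 * e
  k2m := fun e => cC (56) 10000 + cC (67) 10000 * xD + cC (-17) 10000 * xV + cC (4) 10000 * e
  kapL := fun e => cC (1) 10000 + cC (3237) 10000 * xD + cC (151) 10000 * xV + cC (6) 10000 * e
  kapU := fun e => cC (47) 10000 + cC (2308) 10000 * xD + cC (147) 10000 * xV + cC (4) 10000 * e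
  eL := ⟨cC (-4568) 10000 + cC (9734) 10000 * xD + cC (20345) 10000 * xV + cC (8127) 10000 * (xV * xV) + cC (-64300) 10000 * (xD * xV) + cC (1562214) 10000 * (xD * xD) + cC (-146900) 10000 * xS,
    cC 0,
    cC 0,
    cC 0,
    cC 0⟩
  eH := ⟨cC (-43398) 10000 + cC (490036) 10000 * xD + cC (25903) 10000 * xV + cC (-355) 10000 * (xV * xV) + cC (-133413) 10000 * (xD * xV) + cC (-169507) 10000 * (xD * xD) + cC (-34941) 10000 * xS,
    cC 0,
    cC 0,
    cC (5922) 10000,
    cC 0⟩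
  pL := ⟨cC (218490) 10000 + cC (632228) 10000 * xD + cC (-15910) 10000 * xV + cC (-264404) 10000 * (xD * xV) + cC (2116) 10000 * (xV * xV) + cC (-464148) 10000 * (xD * xD) + cC (-274797) 10000 * xS,
    cC (-2217) 10000 + cC (35835) 10000 * xD + cC (-6153) 10000 * xV,
    cC 0,
    cC 0,
    cC 0⟩
  pU := ⟨cC (302195) 10000 + cC (-46926) 10000 * xD + cC (-110030) 10000 * xV + cC (313866) 10000 * (xD * xV) + cC (22101) 10000 * (xV * xV) + cC (762808) 10000 * (xD * xD) + cC (-227657) 10000 * xS,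
    cC (6023) 10000 + cC (27396) 10000 * xD + cC (-10139) 10000 * xV,
    cC 0,
    cC 0,
    cC 0⟩
  kU := ⟨cC (2764) 10000 + cC (-17407) 10000 * xD + cC (-297) 10000 * xV + cC (8196) 10000 * (xD * xV) + cC (30) 10000 * (xV * xV) + cC (74929) 10000 * (xD * xD) + cC (-3585) 10000 * xS,
    cC (-1199) 10000 + cC (13807) 10000 * xD + cC (307) 10000 * xV,
    cC (-471) 10000 + cC (5327) 10000 * xD + cC (176) 10000 * xV,
    cC 0,
    cC 0⟩
  kL := ⟨cC (2729) 10000 + cC (1034) 10000 * xD + cC (151) 10000 * xV + cC (-1489) 10000 * (xD * xV) + cC (-56) 10000 * (xV * xV) + cC (-42542) 10000 * (xD * xD) + cC (-4277) 10000 * xS,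
    cC (-706) 10000 + cC (9854) 10000 * xD + cC (7) 10000 * xV,
    cC (-196) 10000 + cC (3043) 10000 * xD + cC (3) 10000 * xV,
    cC 0,
    cC 0⟩
  wU := ⟨cC (7349) 10000 + cC (81341) 10000 * xD + cC (-25450) 10000 * xV + cC (-61170) 10000 * (xD * xV) + cC (3376) 10000 * (xV * xV) + cC (167185) 10000 * (xD * xD) + cC (47777) 10000 * xS,
    cC (-3465) 10000 + cC (43106) 10000 * xD + cC (-5119) 10000 * xV,
    cC (-15499) 10000 + cC (23886) 10000 * xD + cC (643) 10000 * xV,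
    cC 0,
    cC 0⟩
  wL := ⟨cC (-63850) 10000 + cC (337146) 10000 * xD + cC (2985) 10000 * xV + cC (-143594) 10000 * (xD * xV) + cC (-1938) 10000 * (xV * xV) + cC (79708) 10000 * (xD * xD) + cC (99070) 10000 * xS,
    cC (-2653) 10000 + cC (43993) 10000 * xD + cC (-4753) 10000 * xV,
    cC (-12227) 10000 + cC (-846) 10000 * xD + cC (-580) 10000 * xV,
    cC 0,
    cC 0⟩

/-- The least `u`. -/
def tA3Lo : Ex :=
  cC (3) 5

/-- A piece: `1.8 ≤ v < 2.683`. -/
def tA4 : Piece where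
  u₀ := cC (39) 40
  u₁ := cC (818) 1000 + cC (-62) 1000 * xD + cC (58) 1000 * xV
  tLn := lowTn
  tLd := lowTd
  tUn := upAn
  tUd := upAd
  p₀ := cC (237906) 10000 + cC (-172944) 10000 * xD + cC (-39998) 10000 * xV + cC (117484) 10000 * (xD * xV) + cC (-202716) 10000 * (xD * xD) + cC (-176927) 10000 * xS
  zL := cC (9978) 10000 + cC (-229984) 10000 * xD + cC (80) 10000 * xV + cC (-31781) 10000 * (xD * xV) + cC (-23) 10000 * (xV * xV) + cC (3317220) 10000 * (xD * xD) + cC (-86) 10000 * xS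
  zU := cC (9713) 10000 + cC (8994) 10000 * xD + cC (345) 10000 * xV + cC (-85576) 10000 * (xD * xV) + cC (-80) 10000 * (xV * xV) + cC (2368985) 10000 * (xD * xD) + cC (-90) 10000 * xS
  k2p := fun e => cC (7) 10000 + cC (201) 10000 * xD + cC (-2) 10000 * e
  k2m := fun _ => cC (12) 10000 + cC (40) 10000 * xD
  kapL := fun e => cC (-435) 10000 + cC (-2083) 10000 * xD + cC (327) 10000 * xV + cC (-23) 10000 * e
  kapU := fun e => cC (6877) 10000 + cC (9720) 10000 * xD + cC (-1665) 10000 * xV + cC (862) 10000 * e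
  eL := ⟨cC (6862) 10000 + cC (-247107) 10000 * xD + cC (-5312) 10000 * xV + cC (5788) 10000 * (xV * xV) + cC (43711) 10000 * (xD * xV) + cC (2154612) 10000 * (xD * xD) + cC (-81824) 10000 * xS,
    cC 0,
    cC 0,
    cC 0,
    cC 0⟩
  eH := ⟨cC (13382) 10000 + cC (-573455) 10000 * xD + cC (-2053) 10000 * xV + cC (306) 10000 * (xV * xV) + cC (234572) 10000 * (xD * xV) + cC (359091) 10000 * (xD * xD) + cC (-39904) 10000 * xS,
    cC 0,
    cC 0,
    cC 0,
    cC 0⟩
  pL := ⟨cC (173935) 10000 + cC (423682) 10000 * xD + cC (-12291) 10000 * xV + cC (-161250) 10000 * (xD * xV) + cC (1031) 10000 * (xV * xV) + cC (484168) 10000 * (xD * xD) + cC (-212315) 10000 * xS,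
    cC (-4651) 10000 + cC (30928) 10000 * xD + cC (-4785) 10000 * xV,
    cC 0,
    cC 0,
    cC 0⟩
  pU := ⟨cC (262664) 10000 + cC (-693645) 10000 * xD + cC (-64061) 10000 * xV + cC (253895) 10000 * (xD * xV) + cC (8566) 10000 * (xV * xV) + cC (6146818) 10000 * (xD * xD) + cC (-213056) 10000 * xS,
    cC (7881) 10000 + cC (-157632) 10000 * xD + cC (-9808) 10000 * xV,
    cC 0,
    cC 0,
    cC 0⟩
  kU := ⟨cC (2492) 10000 + cC (-9568) 10000 * xD + cC (-252) 10000 * xV + cC (7178) 10000 * (xD * xV) + cC (74) 10000 * (xV * xV) + cC (350540) 10000 * (xD * xD) + cC (-3486) 10000 * xS,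
    cC (-651) 10000 + cC (11018) 10000 * xD + cC (12) 10000 * xV,
    cC (-69) 10000 + cC (1334) 10000 * xD + cC (-39) 10000 * xV,
    cC 0,
    cC 0⟩
  kL := ⟨cC (2263) 10000 + cC (137) 10000 * xD + cC (28) 10000 * xV + cC (-706) 10000 * (xD * xV) + cC (-5) 10000 * (xV * xV) + cC (-57533) 10000 * (xD * xD) + cC (-3464) 10000 * xS,
    cC (-577) 10000 + cC (5752) 10000 * xD + cC (-18) 10000 * xV,
    cC (-134) 10000 + cC (1338) 10000 * xD + cC (-14) 10000 * xV,
    cC 0,
    cC 0⟩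
  wU := ⟨cC (-23804) 10000 + cC (49439) 10000 * xD + cC (688) 10000 * xV + cC (-52854) 10000 * (xD * xV) + cC (-122) 10000 * (xV * xV) + cC (555292) 10000 * (xD * xD) + cC (38700) 10000 * xS,
    cC (-4303) 10000 + cC (37468) 10000 * xD + cC (-4671) 10000 * xV,
    cC (-11375) 10000 + cC (25153) 10000 * xD + cC (-1504) 10000 * xV,
    cC 0,
    cC 0⟩
  wL := ⟨cC (-29832) 10000 + cC (412019) 10000 * xD + cC (3670) 10000 * xV + cC (-161697) 10000 * (xD * xV) + cC (-1303) 10000 * (xV * xV) + cC (-1569266) 10000 * (xD * xD) + cC (45021) 10000 * xS,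
    cC (-8588) 10000 + cC (119374) 10000 * xD + cC (-2668) 10000 * xV,
    cC (-14775) 10000 + cC (39759) 10000 * xD + cC (90) 10000 * xV,
    cC 0,
    cC 0⟩

/-- The least `u`. -/
def tA4Lo : Ex :=
  cC (3) 5

/-- A piece: `1.8 ≤ v < 2.683`. -/
def tA5 : Piece where
  u₀ := cC (39) 40
  u₁ := cC (813) 1000 + cC (0) 1000 * xD + cC (60) 1000 * xV
  tLn := lowTn
  tLd := lowTd
  tUn := upAn
  tUd := upAd
  p₀ := cC (237337) 10000 + cC (-159994) 10000 * xD + cC (-39923) 10000 * xV + cC (112497) 10000 * (xD * xV) + cC (-189978) 10000 * (xD * xD) + cC (-176376) 10000 * xS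
  zL := cC (10471) 10000 + cC (-233575) 10000 * xD + cC (-251) 10000 * xV + cC (-18377) 10000 * (xD * xV) + cC (4) 10000 * (xV * xV) + cC (2523250) 10000 * (xD * xD) + cC (-249) 10000 * xS
  zU := cC (9392) 10000 + cC (-88567) 10000 * xD + cC (1375) 10000 * xV + cC (-31148) 10000 * (xD * xV) + cC (-481) 10000 * (xV * xV) + cC (1285377) 10000 * (xD * xD) + cC (-253) 10000 * xS
  k2p := fun e => cC (40) 10000 + cC (919) 10000 * xD + cC (-15) 10000 * xV + cC (-1) 10000 * e
  k2m := fun _ => cC (8) 10000 + cC (80) 10000 * xD + cC (1) 10000 * xV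
  kapL := fun e => cC (-885) 10000 + cC (-2336) 10000 * xD + cC (405) 10000 * xV + cC (-108) 10000 * e
  kapU := fun e => cC (5201) 10000 + cC (-1807) 10000 * xD + cC (-1210) 10000 * xV + cC (602) 10000 * e
  eL := ⟨cC (-2863) 10000 + cC (-208503) 10000 * xD + cC (-6370) 10000 * xV + cC (6258) 10000 * (xV * xV) + cC (39720) 10000 * (xD * xV) + cC (1971876) 10000 * (xD * xD) + cC (-67678) 10000 * xS,
    cC 0,
    cC 0,
    cC 0,
    cC 0⟩
  eH := ⟨cC (4559) 10000 + cC (-411799) 10000 * xD + cC (-1667) 10000 * xV + cC (488) 10000 * (xV * xV) + cC (153648) 10000 * (xD * xV) + cC (580478) 10000 * (xD * xD) + cC (-29013) 10000 * xS,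
    cC 0,
    cC 0,
    cC 0,
    cC 0⟩
  pL := ⟨cC (183989) 10000 + cC (287110) 10000 * xD + cC (-19017) 10000 * xV + cC (-109004) 10000 * (xD * xV) + cC (2097) 10000 * (xV * xV) + cC (38078) 10000 * (xD * xD) + cC (-212946) 10000 * xS,
    cC (-2920) 10000 + cC (13569) 10000 * xD + cC (-5525) 10000 * xV,
    cC 0,
    cC 0,
    cC 0⟩
  pU := ⟨cC (253605) 10000 + cC (1185264) 10000 * xD + cC (-43793) 10000 * xV + cC (-221109) 10000 * (xD * xV) + cC (5111) 10000 * (xV * xV) + cC (-1628417) 10000 * (xD * xD) + cC (-246411) 10000 * xS,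
    cC (4307) 10000 + cC (99442) 10000 * xD + cC (-8707) 10000 * xV,
    cC 0,
    cC 0,
    cC 0⟩
  kU := ⟨cC (1450) 10000 + cC (-2637) 10000 * xD + cC (19) 10000 * xV + cC (1054) 10000 * (xD * xV) + cC (29710) 10000 * (xD * xD) + cC (-2290) 10000 * xS,
    cC (-866) 10000 + cC (11890) 10000 * xD + cC (70) 10000 * xV,
    cC (-235) 10000 + cC (3475) 10000 * xD + cC (17) 10000 * xV,
    cC 0,
    cC 0⟩
  kL := ⟨cC (1881) 10000 + cC (-384) 10000 * xD + cC (-109) 10000 * xV + cC (-249) 10000 * (xD * xV) + cC (11) 10000 * (xV * xV) + cC (-55553) 10000 * (xD * xD) + cC (-2468) 10000 * xS,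
    cC (-485) 10000 + cC (6784) 10000 * xD + cC (-44) 10000 * xV,
    cC (-145) 10000 + cC (2130) 10000 * xD + cC (-11) 10000 * xV,
    cC 0,
    cC 0⟩
  wU := ⟨cC (-25306) 10000 + cC (168638) 10000 * xD + cC (-1538) 10000 * xV + cC (-58236) 10000 * (xD * xV) + cC (90) 10000 * (xV * xV) + cC (88302) 10000 * (xD * xD) + cC (45280) 10000 * xS,
    cC (-3292) 10000 + cC (32227) 10000 * xD + cC (-5109) 10000 * xV,
    cC (-11334) 10000 + cC (1606) 10000 * xD + cC (-1421) 10000 * xV,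
    cC 0,
    cC 0⟩
  wL := ⟨cC (-33420) 10000 + cC (314667) 10000 * xD + cC (8428) 10000 * xV + cC (-116312) 10000 * (xD * xV) + cC (-2328) 10000 * (xV * xV) + cC (15578) 10000 * (xD * xD) + cC (42174) 10000 * xS,
    cC (-9068) 10000 + cC (48416) 10000 * xD + cC (-2206) 10000 * xV,
    cC (-14809) 10000 + cC (2669) 10000 * xD + cC (221) 10000 * xV,
    cC 0,
    cC 0⟩

/-- The cut in `e`. -/
def tA5Cut : Ex :=
  cC (8397) 10000 + cC (-712381) 10000 * xD + cC (-16081) 10000 * xV + cC (3684) 10000 * (xV * xV) + cC (223061) 10000 * (xD * xV) + cC (2464003) 10000 * (xD * xD) + cC (-15148) 10000 * xS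

/-- The bound of `p` above the cut. -/
def tA5PU : Bnd :=
  ⟨cC (429238) 10000 + cC (-2443927) 10000 * xD + cC (-157378) 10000 * xV + cC (604351) 10000 * (xD * xV) + cC (22455) 10000 * (xV * xV) + cC (760730) 10000 * (xD * xD) + cC (-290958) 10000 * xS,
    cC (25512) 10000 + cC (-547567) 10000 * xD + cC (-23481) 10000 * xV,
    cC 0,
    cC 0,
    cC 0⟩

/-- A multiplier above the cut. -/
def tA5K2p : Ex → Ex :=
  fun e => cC (206) 10000 + cC (710) 10000 * xD + cC (-49) 10000 * xV + cC (38) 10000 * e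

/-- A multiplier above the cut. -/
def tA5K2m : Ex → Ex :=
  fun e => cC (12) 10000 + cC (116) 10000 * xD + cC (1) 10000 * e

/-- A multiplier above the cut. -/
def tA5KapL : Ex → Ex :=
  fun e => cC (-39) 10000 + cC (2010) 10000 * xD + cC (285) 10000 * xV + cC (194) 10000 * e

/-- A multiplier above the cut. -/
def tA5KapU : Ex → Ex :=
  fun e => cC (7263) 10000 + cC (-7372) 10000 * xD + cC (-1226) 10000 * xV + cC (1602) 10000 * e

/-- Below the cut. -/
def tA5A : Piece :=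
  tA5.below tA5Cut

/-- Above the cut. -/
def tA5B : Piece :=
  { tA5.above tA5Cut tA5PU with k2p := tA5K2p, k2m := tA5K2m, kapL := tA5KapL, kapU := tA5KapU }

/-- The least `u`. -/
def tA5Lo : Ex :=
  cC (3) 5

/-- The upper end of `u`. -/
def tA6Hi : Ex :=
  cC (39) 40

/-- The least `u`. -/
def tA6Lo : Ex :=
  cC (3) 5

end Vale.Agent.P100.Calib.Closed.Six.Tail
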