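import Vale.Agent.P100.Calib.SlabSixTailRules

/-!
# The pieces of the certificate
-/

namespace Vale.Agent.P100.Calib.Closed.Six.Tail

open BoxPos Large

local instance sixTailDataBAdd : Add Ex := ⟨Ex.add⟩
local instance sixTailDataBSub : Sub Ex := ⟨Ex.sub⟩
local instance sixTailDataBMul : Mul Ex := ⟨Ex.mul⟩

/-- A piece: `0.29 ≤ v < 0.55`. -/
def tB0 : Piece where
  u₀ := cC (4) 5
  u₁ := cC (3) 5
  tLn := lowTn
  tLd := lowTd
  tUn := upBn
  tUd := upBd
  p₀ := cC (217244) 10000 + cC (-160414) 10000 * xD + cC (-39257) 10000 * xV + cC (96131) 10000 * (xD * xV) + cC (109668) 10000 * (xD * xD) + cC (-147038) 10000 * xS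
  zL := cC (10237) 10000 + cC (-34938) 10000 * xD + cC (-451) 10000 * xV + cC (-11370) 10000 * (xD * xV) + cC (57) 10000 * (xV * xV) + cC (97087) 10000 * (xD * xD) + cC (-700) 10000 * xS
  zU := cC (10463) 10000 + cC (-16978) 10000 * xD + cC (-208) 10000 * xV + cC (-12309) 10000 * (xD * xV) + cC (148) 10000 * (xV * xV) + cC (49941) 10000 * (xD * xD) + cC (-725) 10000 * xS
  k2p := fun _ => cC (10) 10000
  k2m := fun e => cC (4566) 10000 + cC (4809) 10000 * xD + cC (-7321) 10000 * xV + cC (53) 10000 * e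
  kapL := fun e => cC (-89) 10000 + cC (-45) 10000 * xD + cC (273) 10000 * xV + cC (-2) 10000 * e
  kapU := fun e => cC (-229) 10000 + cC (-18) 10000 * xD + cC (473) 10000 * xV + cC (-7) 10000 * e
  eL := ⟨cC (-454671) 10000 + cC (-57587) 10000 * xD + cC (1528356) 10000 * xV + cC (-1506163) 10000 * (xV * xV) + cC (97941) 10000 * (xD * xV) + cC (78999) 10000 * (xD * xD) + cC (-71093) 10000 * xS,
    cC 0,
    cC 0,
    cC (195) 10000,
    cC 0⟩
  eH := ⟨cC (-282419) 10000 + cC (144258) 10000 * xD + cC (515948) 10000 * xV + cC (-3023) 10000 * (xV * xV) + cC (-620487) 10000 * (xD * xV) + cC (428108) 10000 * (xD * xD) + cC (-71093) 10000 * xS,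
    cC 0,
    cC 0,
    cC (74853) 10000,
    cC 0⟩
  pL := ⟨cC (215283) 10000 + cC (-165456) 10000 * xD + cC (-32776) 10000 * xV + cC (97667) 10000 * (xD * xV) + cC (-780) 10000 * (xV * xV) + cC (109684) 10000 * (xD * xD) + cC (-149358) 10000 * xS,
    cC (-274) 10000 + cC (-384) 10000 * xD + cC (525) 10000 * xV,
    cC 0,
    cC (10002) 10000,
    cC 0⟩
  pU := ⟨cC (236123) 10000 + cC (-118465) 10000 * xD + cC (-159883) 10000 * xV + cC (-8309) 10000 * (xD * xV) + cC (151370) 10000 * (xV * xV) + cC (160694) 10000 * (xD * xD) + cC (-151836) 10000 * xS,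
    cC (484) 10000 + cC (907) 10000 * xD + cC (-3160) 10000 * xV,
    cC 0,
    cC 0,
    cC 0⟩
  kU := ⟨cC (140115) 10000 + cC (-602630) 10000 * xD + cC (20379) 10000 * xV + cC (-133983) 10000 * (xD * xV) + cC (7107) 10000 * (xV * xV) + cC (537189) 10000 * (xD * xD) + cC (-66786) 10000 * xS,
    cC (429) 10000 + cC (-8095) 10000 * xD + cC (844) 10000 * xV,
    cC (-9233) 10000 + cC (33758) 10000 * xD + cC (1174) 10000 * xV,
    cC 0,
    cC 0⟩
  kL := ⟨cC (-34959) 10000 + cC (-431817) 10000 * xD + cC (30935) 10000 * xV + cC (-138764) 10000 * (xD * xV) + cC (11707) 10000 * (xV * xV) + cC (166065) 10000 * (xD * xD) + cC (31291) 10000 * xS,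
    cC (912) 10000 + cC (-10042) 10000 * xD + cC (-715) 10000 * xV,
    cC (3383) 10000 + cC (30646) 10000 * xD + cC (-5249) 10000 * xV,
    cC 0,
    cC 0⟩
  wU := ⟨cC (-12546) 10000 + cC (562021) 10000 * xD + cC (88747) 10000 * xV + cC (108496) 10000 * (xD * xV) + cC (98167) 10000 * (xV * xV) + cC (-363300) 10000 * (xD * xD) + cC (76130) 10000 * xS,
    cC (-1236) 10000 + cC (5570) 10000 * xD + cC (-3408) 10000 * xV,
    cC (-12597) 10000 + cC (-69363) 10000 * xD + cC (-16968) 10000 * xV,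
    cC 0,
    cC 0⟩
  wL := ⟨cC (-1427743) 10000 + cC (206779) 10000 * xD + cC (1499901) 10000 * xV + cC (-2521253) 10000 * (xD * xV) + cC (485019) 10000 * (xV * xV) + cC (955939) 10000 * (xD * xD) + cC (716960) 10000 * xS,
    cC (-7067) 10000 + cC (42356) 10000 * xD + cC (10871) 10000 * xV,
    cC (86992) 10000 + cC (172552) 10000 * xD + cC (-179658) 10000 * xV,
    cC 0,
    cC 0⟩

/-- A piece: `0.55 ≤ v < 0.9`. -/
def tB1 : Piece where
  u₀ := cC (4) 5
  u₁ := cC (3) 5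
  tLn := lowTn
  tLd := lowTd
  tUn := upBn
  tUd := upBd
  p₀ := cC (218531) 10000 + cC (-153806) 10000 * xD + cC (-39217) 10000 * xV + cC (95784) 10000 * (xD * xV) + cC (69637) 10000 * (xD * xD) + cC (-149320) 10000 * xS
  zL := cC (10394) 10000 + cC (-38359) 10000 * xD + cC (-524) 10000 * xV + cC (-10008) 10000 * (xD * xV) + cC (54) 10000 * (xV * xV) + cC (111035) 10000 * (xD * xD) + cC (-714) 10000 * xS
  zU := cC (10562) 10000 + cC (-18415) 10000 * xD + cC (-327) 10000 * xV + cC (-11341) 10000 * (xD * xV) + cC (152) 10000 * (xV * xV) + cC (56262) 10000 * (xD * xD) + cC (-740) 10000 * xS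
  k2p := fun e => cC (1178) 10000 + cC (1099) 10000 * xD + cC (879) 10000 * xV + cC (146) 10000 * e
  k2m := fun _ => cC (1023) 10000 + cC (1402) 10000 * xD + cC (-1160) 10000 * xV
  kapL := fun e => cC (63) 10000 + cC (45) 10000 * xD + cC (-6) 10000 * xV + cC (1) 10000 * e
  kapU := fun e => cC (-245) 10000 + cC (204) 10000 * xD + cC (404) 10000 * xV + cC (-12) 10000 * e
  eL := ⟨cC (111667) 10000 + cC (-39553) 10000 * xD + cC (-11777) 10000 * xV + cC (-45) 10000 * (xV * xV) + cC (98069) 10000 * (xD * xV) + cC (-48622) 10000 * (xD * xD) + cC (-328484) 10000 * xS,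
    cC 0,
    cC 0,
    cC 0,
    cC 0⟩
  eH := ⟨cC (52220) 10000 + cC (-106342) 10000 * xD + cC (1110) 10000 * xV + cC (130) 10000 * (xV * xV) + cC (85655) 10000 * (xD * xV) + cC (244347) 10000 * (xD * xD) + cC (-181054) 10000 * xS,
    cC 0,
    cC 0,
    cC (1456) 10000,
    cC 0⟩
  pL := ⟨cC (218179) 10000 + cC (-153806) 10000 * xD + cC (-39217) 10000 * xV + cC (95784) 10000 * (xD * xV) + cC (69637) 10000 * (xD * xD) + cC (-149320) 10000 * xS,
    cC 0,
    cC 0,
    cC (10000) 10000,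
    cC 0⟩
  pU := ⟨cC (307795) 10000 + cC (-150929) 10000 * xD + cC (-153001) 10000 * xV + cC (101571) 10000 * (xD * xV) + cC (56246) 10000 * (xV * xV) + cC (310879) 10000 * (xD * xD) + cC (-232791) 10000 * xS,
    cC (2625) 10000 + cC (6424) 10000 * xD + cC (-8656) 10000 * xV,
    cC 0,
    cC 0,
    cC 0⟩
  kU := ⟨cC (-2472) 10000 + cC (8157) 10000 * xD + cC (-414) 10000 * xV + cC (6179) 10000 * (xD * xV) + cC (107) 10000 * (xV * xV) + cC (-13756) 10000 * (xD * xD) + cC (2945) 10000 * xS,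
    cC (-777) 10000 + cC (11661) 10000 * xD + cC (-1) 10000 * xV,
    cC (-115) 10000 + cC (1880) 10000 * xD + cC (-17) 10000 * xV,
    cC 0,
    cC 0⟩
  kL := ⟨cC (-2108) 10000 + cC (15984) 10000 * xD + cC (-515) 10000 * xV + cC (7954) 10000 * (xD * xV) + cC (-155) 10000 * (xV * xV) + cC (-41152) 10000 * (xD * xD) + cC (1691) 10000 * xS,
    cC (-737) 10000 + cC (11379) 10000 * xD + cC (-15) 10000 * xV,
    cC (-50) 10000 + cC (1127) 10000 * xD,
    cC 0,
    cC 0⟩
  wU := ⟨cC (219484) 10000 + cC (-123132) 10000 * xD + cC (-171175) 10000 * xV + cC (257337) 10000 * (xD * xV) + cC (25732) 10000 * (xV * xV) + cC (313011) 10000 * (xD * xD) + cC (-27379) 10000 * xS,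
    cC (1671) 10000 + cC (-2063) 10000 * xD + cC (-11201) 10000 * xV,
    cC (-25936) 10000 + cC (-28754) 10000 * xD + cC (6132) 10000 * xV,
    cC 0,
    cC 0⟩
  wL := ⟨cC (-16871) 10000 + cC (213174) 10000 * xD + cC (17484) 10000 * xV + cC (-85804) 10000 * (xD * xV) + cC (-4654) 10000 * (xV * xV) + cC (-230823) 10000 * (xD * xD) + cC (87050) 10000 * xS,
    cC (-285) 10000 + cC (3893) 10000 * xD + cC (-6395) 10000 * xV,
    cC (-14978) 10000 + cC (-15523) 10000 * xD + cC (-2976) 10000 * xV,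
    cC 0,
    cC 0⟩

/-- A piece: `0.9 ≤ v < 1.162`. -/
def tB2 : Piece where
  u₀ := cC (4) 5
  u₁ := cC (-393) 1000 + cC (551) 1000 * xD + cC (930) 1000 * xV
  tLn := lowTn
  tLd := lowTd
  tUn := upBn
  tUd := upBd
  p₀ := cC (221120) 10000 + cC (-148962) 10000 * xD + cC (-39253) 10000 * xV + cC (96283) 10000 * (xD * xV) + cC (35217) 10000 * (xD * xD) + cC (-153379) 10000 * xS
  zL := cC (10551) 10000 + cC (-41721) 10000 * xD + cC (-589) 10000 * xV + cC (-8777) 10000 * (xD * xV) + cC (52) 10000 * (xV * xV) + cC (123085) 10000 * (xD * xD) + cC (-725) 10000 * xS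
  zU := cC (6599) 10000 + cC (27395) 10000 * xD + cC (8553) 10000 * xV + cC (-56917) 10000 * (xD * xV) + cC (-4535) 10000 * (xV * xV) + cC (46437) 10000 * (xD * xD) + cC (-916) 10000 * xS
  k2p := fun e => cC (-515) 10000 + cC (8109) 10000 * xD + cC (48) 10000 * xV + cC (-36) 10000 * e
  k2m := fun e => cC (230) 10000 + cC (269) 10000 * xD + cC (-227) 10000 * xV + cC (-5) 10000 * e
  kapL := fun e => cC (-262) 10000 + cC (-122) 10000 * xD + cC (322) 10000 * xV + cC (-11) 10000 * e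
  kapU := fun e => cC (-203) 10000 + cC (123) 10000 * xD + cC (343) 10000 * xV + cC (-13) 10000 * e
  eL := ⟨cC (-84307) 10000 + cC (141299) 10000 * xD + cC (155985) 10000 * xV + cC (20898) 10000 * (xV * xV) + cC (42060) 10000 * (xD * xV) + cC (-73771) 10000 * (xD * xD) + cC (-338663) 10000 * xS,
    cC 0,
    cC 0,
    cC 0,
    cC 0⟩
  eH := ⟨cC (59374) 10000 + cC (-126887) 10000 * xD + cC (-6268) 10000 * xV + cC (364) 10000 * (xV * xV) + cC (87705) 10000 * (xD * xV) + cC (275656) 10000 * (xD * xD) + cC (-181685) 10000 * xS,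
    cC 0,
    cC 0,
    cC 0,
    cC 0⟩
  pL := ⟨cC (214221) 10000 + cC (126484) 10000 * xD + cC (-45460) 10000 * xV + cC (40636) 10000 * (xD * xV) + cC (1100) 10000 * (xV * xV) + cC (-160465) 10000 * (xD * xD) + cC (-167353) 10000 * xS,
    cC (3585) 10000 + cC (24713) 10000 * xD + cC (-7341) 10000 * xV,
    cC 0,
    cC 0,
    cC 0⟩
  pU := ⟨cC (295710) 10000 + cC (-125427) 10000 * xD + cC (-72891) 10000 * xV + cC (85790) 10000 * (xD * xV) + cC (16334) 10000 * (xV * xV) + cC (279447) 10000 * (xD * xD) + cC (-260631) 10000 * xS,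
    cC (1279) 10000 + cC (8193) 10000 * xD + cC (-6100) 10000 * xV,
    cC 0,
    cC 0,
    cC 0⟩
  kU := ⟨cC (-2766) 10000 + cC (7571) 10000 * xD + cC (-705) 10000 * xV + cC (6008) 10000 * (xD * xV) + cC (253) 10000 * (xV * xV) + cC (-13293) 10000 * (xD * xD) + cC (3490) 10000 * xS,
    cC (-802) 10000 + cC (11433) 10000 * xD + cC (39) 10000 * xV,
    cC (-119) 10000 + cC (1730) 10000 * xD + cC (10) 10000 * xV,
    cC 0,
    cC 0⟩
  kL := ⟨cC (-1564) 10000 + cC (8067) 10000 * xD + cC (-21) 10000 * xV + cC (8486) 10000 * (xD * xV) + cC (-577) 10000 * (xV * xV) + cC (-34925) 10000 * (xD * xD) + cC (1843) 10000 * xS,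
    cC (-712) 10000 + cC (11454) 10000 * xD + cC (-51) 10000 * xV,
    cC (-151) 10000 + cC (1823) 10000 * xD + cC (25) 10000 * xV,
    cC 0,
    cC 0⟩
  wU := ⟨cC (283982) 10000 + cC (-112109) 10000 * xD + cC (-97965) 10000 * xV + cC (75262) 10000 * (xD * xV) + cC (-46565) 10000 * (xV * xV) + cC (140988) 10000 * (xD * xD) + cC (-66479) 10000 * xS,
    cC (-19034) 10000 + cC (19009) 10000 * xD + cC (8499) 10000 * xV,
    cC (-55054) 10000 + cC (5439) 10000 * xD + cC (30431) 10000 * xV,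
    cC 0,
    cC 0⟩
  wL := ⟨cC (308446) 10000 + cC (2273) 10000 * xD + cC (-88927) 10000 * xV + cC (19897) 10000 * (xD * xV) + cC (-61065) 10000 * (xV * xV) + cC (-91535) 10000 * (xD * xD) + cC (-108096) 10000 * xS,
    cC (-7251) 10000 + cC (17384) 10000 * xD + cC (-3355) 10000 * xV,
    cC (-51121) 10000 + cC (4808) 10000 * xD + cC (26254) 10000 * xV,
    cC 0,
    cC 0⟩

/-- The least `u`. -/
def tB2Lo : Ex :=
  cC (3) 5

/-- A piece: `1.162 ≤ v < 1.32`. -/
def tB3 : Piece where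
  u₀ := cC (4) 5
  u₁ := cC (271) 1000 + cC (0) 1000 * xD + cC (400) 1000 * xV
  tLn := lowTn
  tLd := lowTd
  tUn := upBn
  tUd := upBd
  p₀ := cC (222928) 10000 + cC (-146398) 10000 * xD + cC (-39301) 10000 * xV + cC (97085) 10000 * (xD * xV) + cC (11908) 10000 * (xD * xD) + cC (-156147) 10000 * xS
  zL := cC (10659) 10000 + cC (-44011) 10000 * xD + cC (-628) 10000 * xV + cC (-8014) 10000 * (xD * xV) + cC (50) 10000 * (xV * xV) + cC (130583) 10000 * (xD * xD) + cC (-731) 10000 * xS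
  zU := cC (10951) 10000 + cC (-8163) 10000 * xD + cC (481) 10000 * xV + cC (-33773) 10000 * (xD * xV) + cC (-723) 10000 * (xV * xV) + cC (123402) 10000 * (xD * xD) + cC (-964) 10000 * xS
  k2p := fun _ => cC (401) 10000 + cC (1359) 10000 * xD + cC (-241) 10000 * xV
  k2m := fun _ => cC (1) 10000 + cC (296) 10000 * xD + cC (1) 10000 * xV
  kapL := fun e => cC (-383) 10000 + cC (185) 10000 * xD + cC (296) 10000 * xV + cC (-27) 10000 * e
  kapU := fun e => cC (430) 10000 + cC (95) 10000 * xD + cC (-79) 10000 * xV + cC (6) 10000 * e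
  eL := ⟨cC (-46923) 10000 + cC (45040) 10000 * xD + cC (75059) 10000 * xV + cC (7522) 10000 * (xV * xV) + cC (-1467) 10000 * (xD * xV) + cC (55809) 10000 * (xD * xD) + cC (-208941) 10000 * xS,
    cC 0,
    cC 0,
    cC 0,
    cC 0⟩
  eH := ⟨cC (59251) 10000 + cC (-123756) 10000 * xD + cC (-6471) 10000 * xV + cC (491) 10000 * (xV * xV) + cC (85622) 10000 * (xD * xV) + cC (271161) 10000 * (xD * xD) + cC (-181535) 10000 * xS,
    cC 0,
    cC 0,
    cC 0,
    cC 0⟩
  pL := ⟨cC (238164) 10000 + cC (73630) 10000 * xD + cC (-41303) 10000 * xV + cC (68262) 10000 * (xD * xV) + cC (-1395) 10000 * (xV * xV) + cC (-123730) 10000 * (xD * xD) + cC (-207259) 10000 * xS,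
    cC (3272) 10000 + cC (22781) 10000 * xD + cC (-7273) 10000 * xV,
    cC 0,
    cC 0,
    cC 0⟩
  pU := ⟨cC (274011) 10000 + cC (-25482) 10000 * xD + cC (-43462) 10000 * xV + cC (59286) 10000 * (xD * xV) + cC (7510) 10000 * (xV * xV) + cC (206824) 10000 * (xD * xD) + cC (-271727) 10000 * xS,
    cC (-418) 10000 + cC (14955) 10000 * xD + cC (-5295) 10000 * xV,
    cC 0,
    cC 0,
    cC 0⟩
  kU := ⟨cC (-2686) 10000 + cC (2980) 10000 * xD + cC (377) 10000 * xV + cC (4210) 10000 * (xD * xV) + cC (-58) 10000 * (xV * xV) + cC (-13484) 10000 * (xD * xD) + cC (2749) 10000 * xS,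
    cC (-847) 10000 + cC (11194) 10000 * xD + cC (81) 10000 * xV,
    cC (-162) 10000 + cC (2292) 10000 * xD + cC (7) 10000 * xV,
    cC 0,
    cC 0⟩
  kL := ⟨cC (272) 10000 + cC (4418) 10000 * xD + cC (-1599) 10000 * xV + cC (5280) 10000 * (xD * xV) + cC (-9) 10000 * (xV * xV) + cC (-28490) 10000 * (xD * xD) + cC (1840) 10000 * xS,
    cC (-439) 10000 + cC (10912) 10000 * xD + cC (-218) 10000 * xV,
    cC (-99) 10000 + cC (2044) 10000 * xD + cC (-30) 10000 * xV,
    cC 0,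
    cC 0⟩
  wU := ⟨cC (117984) 10000 + cC (24306) 10000 * xD + cC (-48552) 10000 * xV + cC (826) 10000 * (xD * xV) + cC (-12263) 10000 * (xV * xV) + cC (32467) 10000 * (xD * xD) + cC (8848) 10000 * xS,
    cC (-7154) 10000 + cC (13009) 10000 * xD + cC (-1815) 10000 * xV,
    cC (-29451) 10000 + cC (-1730) 10000 * xD + cC (9231) 10000 * xV,
    cC 0,
    cC 0⟩
  wL := ⟨cC (64521) 10000 + cC (181027) 10000 * xD + cC (-21829) 10000 * xV + cC (-42118) 10000 * (xD * xV) + cC (-9842) 10000 * (xV * xV) + cC (-55887) 10000 * (xD * xD) + cC (21035) 10000 * xS,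
    cC (-2006) 10000 + cC (13908) 10000 * xD + cC (-5826) 10000 * xV,
    cC (-21439) 10000 + cC (-10807) 10000 * xD + cC (3470) 10000 * xV,
    cC 0,
    cC 0⟩

/-- The least `u`. -/
def tB3Lo : Ex :=
  cC (3) 5

/-- The upper end of `u`. -/
def tB4Hi : Ex :=
  cC (4) 5

/-- The least `u`. -/
def tB4Lo : Ex :=
  cC (3) 5

/-- A piece: `0.29 ≤ v < 0.6`. -/
def tB5 : Piece where
  u₀ := cC (39) 40
  u₁ := cC (4) 5
  tLn := lowTn
  tLd := lowTd
  tUn := upBn
  tUd := upBd
  p₀ := cC (215546) 10000 + cC (-158836) 10000 * xD + cC (-39163) 10000 * xV + cC (94755) 10000 * (xD * xV) + cC (105654) 10000 * (xD * xD) + cC (-144636) 10000 * xS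
  zL := cC 0
  zU := cC 0
  k2p := fun _ => cC 0
  k2m := fun _ => cC 0
  kapL := fun _ => cC 0
  kapU := fun _ => cC 0
  eL := ⟨cC 0, cC 0, cC 0, cC 0, cC 0⟩
  eH := ⟨cC 0, cC 0, cC 0, cC 0, cC 0⟩
  pL := ⟨cC 0, cC 0, cC 0, cC 0, cC 0⟩
  pU := ⟨cC 0,
    cC 0,
    cC 0,
    cC (10000) 10000,
    cC (-6996) 10000 + cC (148593) 10000 * xD + cC (17490) 10000 * xV + cC (-290789) 10000 * (xD * xV)⟩
  kU := ⟨cC 0, cC 0, cC 0, cC 0, cC 0⟩
  kL := ⟨cC 0, cC 0, cC 0, cC 0, cC 0⟩
  wU := ⟨cC 0, cC 0, cC 0, cC 0, cC 0⟩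
  wL := ⟨cC 0, cC 0, cC 0, cC 0, cC 0⟩

/-- A piece: `0.6 ≤ v < 0.67`. -/
def tB6 : Piece where
  u₀ := cC (39) 40
  u₁ := cC (4) 5
  tLn := lowTn
  tLd := lowTd
  tUn := upBn
  tUd := upBd
  p₀ := cC (218973) 10000 + cC (-156484) 10000 * xD + cC (-39175) 10000 * xV + cC (94973) 10000 * (xD * xV) + cC (89518) 10000 * (xD * xD) + cC (-149837) 10000 * xS
  zL := cC (8468) 10000 + cC (-42343) 10000 * xD + cC (-1285) 10000 * xV + cC (-6630) 10000 * (xD * xV) + cC (84) 10000 * (xV * xV) + cC (129840) 10000 * (xD * xD) + cC (-859) 10000 * xS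
  zU := cC (10570) 10000 + cC (-37642) 10000 * xD + cC (-314) 10000 * xV + cC (-11599) 10000 * (xD * xV) + cC (142) 10000 * (xV * xV) + cC (119378) 10000 * (xD * xD) + cC (-990) 10000 * xS
  k2p := fun _ => cC (10) 10000
  k2m := fun e => cC (-5049) 10000 + cC (9946) 10000 * xD + cC (5886) 10000 * xV + cC (-60) 10000 * e
  kapL := fun e => cC (-2842) 10000 + cC (3088) 10000 * xD + cC (3721) 10000 * xV + cC (-25) 10000 * e
  kapU := fun e => cC (-4617) 10000 + cC (4541) 10000 * xD + cC (5964) 10000 * xV + cC (-41) 10000 * e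
  eL := ⟨cC (-3387857) 10000 + cC (6450996) 10000 * xD + cC (7397961) 10000 * xV + cC (-4339727) 10000 * (xV * xV) + cC (-7940297) 10000 * (xD * xV) + cC (-2738356) 10000 * (xD * xD) + cC (303999) 10000 * xS,
    cC 0,
    cC 0,
    cC (263) 10000,
    cC 0⟩
  eH := ⟨cC (-1443226) 10000 + cC (2851602) 10000 * xD + cC (1605618) 10000 * xV + cC (-24597) 10000 * (xV * xV) + cC (-2570357) 10000 * (xD * xV) + cC (-1101803) 10000 * (xD * xD) + cC (303999) 10000 * xS,
    cC 0,
    cC 0,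
    cC (268085) 10000,
    cC 0⟩
  pL := ⟨cC (-55681) 10000 + cC (397039) 10000 * xD + cC (643309) 10000 * xV + cC (-629480) 10000 * (xD * xV) + cC (-439252) 10000 * (xV * xV) + cC (-175369) 10000 * (xD * xD) + cC (-137873) 10000 * xS,
    cC (-1494) 10000 + cC (1214) 10000 * xD + cC (1626) 10000 * xV,
    cC 0,
    cC (10007) 10000,
    cC 0⟩
  pU := ⟨cC (277353) 10000 + cC (-263761) 10000 * xD + cC (-208562) 10000 * xV + cC (248018) 10000 * (xD * xV) + cC (120633) 10000 * (xV * xV) + cC (141550) 10000 * (xD * xD) + cC (-148030) 10000 * xS,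
    cC (500) 10000 + cC (-529) 10000 * xD + cC (-808) 10000 * xV,
    cC 0,
    cC 0,
    cC 0⟩
  kU := ⟨cC (46681) 10000 + cC (-287725) 10000 * xD + cC (-313868) 10000 * xV + cC (454230) 10000 * (xD * xV) + cC (466682) 10000 * (xV * xV) + cC (183014) 10000 * (xD * xD) + cC (-32295) 10000 * xS,
    cC (1604) 10000 + cC (-711) 10000 * xD + cC (-1274) 10000 * xV,
    cC (31035) 10000 + cC (-13645) 10000 * xD + cC (-48744) 10000 * xV,
    cC (5169) 10000,
    cC 0⟩
  kL := ⟨cC (-434511) 10000 + cC (1974114) 10000 * xD + cC (1017182) 10000 * xV + cC (-3301824) 10000 * (xD * xV) + cC (-700740) 10000 * (xV * xV) + cC (-1708132) 10000 * (xD * xD) + cC (74419) 10000 * xS,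
    cC (-1991) 10000 + cC (15086) 10000 * xD + cC (-1647) 10000 * xV,
    cC (-29911) 10000 + cC (90502) 10000 * xD + cC (38958) 10000 * xV,
    cC 0,
    cC 0⟩
  wU := ⟨cC (-59534) 10000 + cC (-228404) 10000 * xD + cC (-683448) 10000 * xV + cC (2308077) 10000 * (xD * xV) + cC (1134141) 10000 * (xV * xV) + cC (559359) 10000 * (xD * xD) + cC (-95334) 10000 * xS,
    cC (5368) 10000 + cC (-12597) 10000 * xD + cC (-4648) 10000 * xV,
    cC (96535) 10000 + cC (-191324) 10000 * xD + cC (-136245) 10000 * xV,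
    cC (2001) 10000,
    cC 0⟩
  wL := ⟨cC (-5987725) 10000 + cC (11878680) 10000 * xD + cC (14740143) 10000 * xV + cC (-15515868) 10000 * (xD * xV) + cC (-9480807) 10000 * (xV * xV) + cC (-5662202) 10000 * (xD * xD) + cC (253315) 10000 * xS,
    cC (-32175) 10000 + cC (26171) 10000 * xD + cC (34829) 10000 * xV,
    cC 0,
    cC 0,
    cC 0⟩

/-- A piece: `0.67 ≤ v < 1.2`. -/
def tB7 : Piece where
  u₀ := cC (39) 40
  u₁ := cC (4) 5
  tLn := lowTn
  tLd := lowTd
  tUn := upBn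
  tUd := upBd
  p₀ := cC (218358) 10000 + cC (-147397) 10000 * xD + cC (-39164) 10000 * xV + cC (95426) 10000 * (xD * xV) + cC (33394) 10000 * (xD * xD) + cC (-149474) 10000 * xS
  zL := cC (8715) 10000 + cC (-47766) 10000 * xD + cC (-1344) 10000 * xV + cC (-5482) 10000 * (xD * xV) + cC (80) 10000 * (xV * xV) + cC (153611) 10000 * (xD * xD) + cC (-886) 10000 * xS
  zU := cC (10677) 10000 + cC (-39144) 10000 * xD + cC (-421) 10000 * xV + cC (-10639) 10000 * (xD * xV) + cC (139) 10000 * (xV * xV) + cC (124747) 10000 * (xD * xD) + cC (-995) 10000 * xS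
  k2p := fun e => cC (-755) 10000 + cC (824) 10000 * xD + cC (533) 10000 * xV + cC (-53) 10000 * e
  k2m := fun _ => cC (-46) 10000 + cC (4245) 10000 * xD + cC (-59) 10000 * xV
  kapL := fun e => cC (57) 10000 + cC (28) 10000 * xD + cC (34) 10000 * xV + cC (4) 10000 * e
  kapU := fun e => cC (-85) 10000 + cC (124) 10000 * xD + cC (284) 10000 * xV + cC (1) 10000 * e
  eL := ⟨cC (46384) 10000 + cC (-12467) 10000 * xD + cC (7525) 10000 * xV + cC (-4869) 10000 * (xV * xV) + cC (46805) 10000 * (xD * xV) + cC (-53496) 10000 * (xD * xD) + cC (-182468) 10000 * xS,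
    cC 0,
    cC 0,
    cC 0,
    cC 0⟩
  eH := ⟨cC (-37586) 10000 + cC (199691) 10000 * xD + cC (67901) 10000 * xV + cC (8568) 10000 * (xV * xV) + cC (-225545) 10000 * (xD * xV) + cC (640143) 10000 * (xD * xD) + cC (-127648) 10000 * xS,
    cC 0,
    cC 0,
    cC (14914) 10000,
    cC 0⟩
  pL := ⟨cC (218077) 10000 + cC (-147397) 10000 * xD + cC (-39164) 10000 * xV + cC (95426) 10000 * (xD * xV) + cC (33394) 10000 * (xD * xD) + cC (-149474) 10000 * xS,
    cC 0,
    cC 0,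
    cC (10000) 10000,
    cC 0⟩
  pU := ⟨cC (229856) 10000 + cC (22305) 10000 * xD + cC (-60861) 10000 * xV + cC (-44261) 10000 * (xD * xV) + cC (29049) 10000 * (xV * xV) + cC (312964) 10000 * (xD * xD) + cC (-221262) 10000 * xS,
    cC (-3014) 10000 + cC (7335) 10000 * xD + cC (-3433) 10000 * xV,
    cC 0,
    cC 0,
    cC 0⟩
  kU := ⟨cC (78) 10000 + cC (461) 10000 * xD + cC (-440) 10000 * xV + cC (3838) 10000 * (xD * xV) + cC (4) 10000 * (xV * xV) + cC (-9180) 10000 * (xD * xD) + cC (369) 10000 * xS,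
    cC (-730) 10000 + cC (11373) 10000 * xD + cC (-26) 10000 * xV,
    cC (-195) 10000 + cC (2705) 10000 * xD + cC (3) 10000 * xV,
    cC 0,
    cC 0⟩
  kL := ⟨cC (-2027) 10000 + cC (10456) 10000 * xD + cC (52) 10000 * xV + cC (3934) 10000 * (xD * xV) + cC (-121) 10000 * (xV * xV) + cC (-34721) 10000 * (xD * xD) + cC (1699) 10000 * xS,
    cC (-636) 10000 + cC (10628) 10000 * xD + cC (-50) 10000 * xV,
    cC (-17) 10000 + cC (1467) 10000 * xD + cC (-48) 10000 * xV,
    cC 0,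
    cC 0⟩
  wU := ⟨cC (-6897) 10000 + cC (16346) 10000 * xD + cC (-26087) 10000 * xV + cC (-58406) 10000 * (xD * xV) + cC (-1735) 10000 * (xV * xV) + cC (61205) 10000 * (xD * xD) + cC (99577) 10000 * xS,
    cC (-3859) 10000 + cC (19931) 10000 * xD + cC (-4796) 10000 * xV,
    cC (-19388) 10000 + cC (15104) 10000 * xD + cC (2610) 10000 * xV,
    cC 0,
    cC 0⟩
  wL := ⟨cC (-151795) 10000 + cC (222144) 10000 * xD + cC (4627) 10000 * xV + cC (-65238) 10000 * (xD * xV) + cC (-3428) 10000 * (xV * xV) + cC (-186030) 10000 * (xD * xD) + cC (218099) 10000 * xS,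
    cC (-2044) 10000 + cC (4722) 10000 * xD + cC (-2591) 10000 * xV,
    cC (-9917) 10000 + cC (-14468) 10000 * xD + cC (-95) 10000 * xV,
    cC 0,
    cC 0⟩

/-- A piece: `1.2 ≤ v < 1.51`. -/
def tB8 : Piece where
  u₀ := cC (39) 40
  u₁ := cC (354) 1000 + cC (433) 1000 * xD + cC (321) 1000 * xV
  tLn := lowTn
  tLd := lowTd
  tUn := upBn
  tUd := upBd
  p₀ := cC (222680) 10000 + cC (-141825) 10000 * xD + cC (-39214) 10000 * xV + cC (96123) 10000 * (xD * xV) + cC (-8639) 10000 * (xD * xD) + cC (-156131) 10000 * xS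
  zL := cC (8940) 10000 + cC (-52664) 10000 * xD + cC (-1417) 10000 * xV + cC (-3971) 10000 * (xD * xV) + cC (75) 10000 * (xV * xV) + cC (170396) 10000 * (xD * xD) + cC (-900) 10000 * xS
  zU := cC (12113) 10000 + cC (-19018) 10000 * xD + cC (-880) 10000 * xV + cC (-30072) 10000 * (xD * xV) + cC (-253) 10000 * (xV * xV) + cC (136827) 10000 * (xD * xD) + cC (-875) 10000 * xS
  k2p := fun e => cC (-124) 10000 + cC (3317) 10000 * xD + cC (11) 10000 * xV + cC (-9) 10000 * e
  k2m := fun e => cC (508) 10000 + cC (-87) 10000 * xD + cC (-219) 10000 * xV + cC (27) 10000 * e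
  kapL := fun e => cC (-787) 10000 + cC (428) 10000 * xD + cC (765) 10000 * xV + cC (-7) 10000 * e
  kapU := fun e => cC (-112) 10000 + cC (112) 10000 * xD + cC (204) 10000 * xV + cC (-18) 10000 * e
  eL := ⟨cC (-54998) 10000 + cC (174109) 10000 * xD + cC (53817) 10000 * xV + cC (9357) 10000 * (xV * xV) + cC (-8804) 10000 * (xD * xV) + cC (-69323) 10000 * (xD * xD) + cC (-167909) 10000 * xS,
    cC 0,
    cC 0,
    cC 0,
    cC 0⟩
  eH := ⟨cC (-32134) 10000 + cC (86040) 10000 * xD + cC (27429) 10000 * xV + cC (3818) 10000 * (xV * xV) + cC (-57014) 10000 * (xD * xV) + cC (302788) 10000 * (xD * xD) + cC (-64874) 10000 * xS,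
    cC 0,
    cC 0,
    cC (9079) 10000,
    cC 0⟩
  pL := ⟨cC (227120) 10000 + cC (153502) 10000 * xD + cC (-23783) 10000 * xV + cC (-23750) 10000 * (xD * xV) + cC (-318) 10000 * (xV * xV) + cC (-305568) 10000 * (xD * xD) + cC (-255501) 10000 * xS,
    cC (3488) 10000 + cC (6414) 10000 * xD + cC (-9045) 10000 * xV,
    cC 0,
    cC 0,
    cC 0⟩
  pU := ⟨cC (270925) 10000 + cC (-88199) 10000 * xD + cC (-61848) 10000 * xV + cC (78173) 10000 * (xD * xV) + cC (11508) 10000 * (xV * xV) + cC (291918) 10000 * (xD * xD) + cC (-252345) 10000 * xS,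
    cC (1605) 10000 + cC (8697) 10000 * xD + cC (-7723) 10000 * xV,
    cC 0,
    cC 0,
    cC 0⟩
  kU := ⟨cC (-1834) 10000 + cC (-626) 10000 * xD + cC (-319) 10000 * xV + cC (2444) 10000 * (xD * xV) + cC (107) 10000 * (xV * xV) + cC (-1604) 10000 * (xD * xD) + cC (2895) 10000 * xS,
    cC (-760) 10000 + cC (11249) 10000 * xD + cC (3) 10000 * xV,
    cC (-173) 10000 + cC (2810) 10000 * xD + cC (-15) 10000 * xV,
    cC 0,
    cC 0⟩
  kL := ⟨cC (-1047) 10000 + cC (1623) 10000 * xD + cC (532) 10000 * xV + cC (4662) 10000 * (xD * xV) + cC (-369) 10000 * (xV * xV) + cC (-21819) 10000 * (xD * xD) + cC (782) 10000 * xS,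
    cC (-638) 10000 + cC (10883) 10000 * xD + cC (-56) 10000 * xV,
    cC (-130) 10000 + cC (2340) 10000 * xD + cC (-11) 10000 * xV,
    cC 0,
    cC 0⟩
  wU := ⟨cC (394) 10000 + cC (88195) 10000 * xD + cC (-37552) 10000 * xV + cC (-39827) 10000 * (xD * xV) + cC (4294) 10000 * (xV * xV) + cC (-2821) 10000 * (xD * xD) + cC (86179) 10000 * xS,
    cC (-3262) 10000 + cC (19085) 10000 * xD + cC (-5145) 10000 * xV,
    cC (-17400) 10000 + cC (3657) 10000 * xD + cC (1736) 10000 * xV,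
    cC 0,
    cC 0⟩
  wL := ⟨cC (-83837) 10000 + cC (214967) 10000 * xD + cC (-6489) 10000 * xV + cC (-72396) 10000 * (xD * xV) + cC (-637) 10000 * (xV * xV) + cC (-102857) 10000 * (xD * xD) + cC (144857) 10000 * xS,
    cC (-556) 10000 + cC (8233) 10000 * xD + cC (-5267) 10000 * xV,
    cC (-12390) 10000 + cC (-10791) 10000 * xD + cC (-45) 10000 * xV,
    cC 0,
    cC 0⟩

/-- The least `u`. -/
def tB8Lo : Ex :=
  cC (4) 5

/-- A piece: `1.51 ≤ v < 1.9`. -/
def tB9 : Piece where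
  u₀ := cC (39) 40
  u₁ := cC (667) 1000 + cC (243) 1000 * xD + cC (128) 1000 * xV
  tLn := lowTn
  tLd := lowTd
  tUn := upBn
  tUd := upBd
  p₀ := cC (224181) 10000 + cC (-133847) 10000 * xD + cC (-39184) 10000 * xV + cC (95937) 10000 * (xD * xV) + cC (-56654) 10000 * (xD * xD) + cC (-158853) 10000 * xS
  zL := cC (9169) 10000 + cC (-57683) 10000 * xD + cC (-1462) 10000 * xV + cC (-2954) 10000 * (xD * xV) + cC (71) 10000 * (xV * xV) + cC (188626) 10000 * (xD * xD) + cC (-918) 10000 * xS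
  zU := cC (12650) 10000 + cC (-54961) 10000 * xD + cC (-1270) 10000 * xV + cC (-13913) 10000 * (xD * xV) + cC (-66) 10000 * (xV * xV) + cC (226852) 10000 * (xD * xD) + cC (-1178) 10000 * xS
  k2p := fun e => cC (4) 10000 + cC (2645) 10000 * xD + cC (-44) 10000 * xV + cC (-9) 10000 * e
  k2m := fun e => cC (17) 10000 + cC (427) 10000 * xD + cC (-6) 10000 * xV + cC (2) 10000 * e
  kapL := fun e => cC (-392) 10000 + cC (87) 10000 * xD + cC (418) 10000 * xV + cC (6) 10000 * e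
  kapU := fun e => cC (2846) 10000 + cC (-3382) 10000 * xD + cC (-894) 10000 * xV + cC (169) 10000 * e
  eL := ⟨cC (-35642) 10000 + cC (108277) 10000 * xD + cC (22562) 10000 * xV + cC (4256) 10000 * (xV * xV) + cC (504) 10000 * (xD * xV) + cC (-29615) 10000 * (xD * xD) + cC (-100618) 10000 * xS,
    cC 0,
    cC 0,
    cC 0,
    cC 0⟩
  eH := ⟨cC (-5890) 10000 + cC (-196755) 10000 * xD + cC (1210) 10000 * xV + cC (1431) 10000 * (xV * xV) + cC (39205) 10000 * (xD * xV) + cC (643745) 10000 * (xD * xD) + cC (-26749) 10000 * xS,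
    cC 0,
    cC 0,
    cC (807) 10000,
    cC 0⟩
  pL := ⟨cC (178080) 10000 + cC (25077) 10000 * xD + cC (-16130) 10000 * xV + cC (11819) 10000 * (xD * xV) + cC (-963) 10000 * (xV * xV) + cC (1832) 10000 * (xD * xD) + cC (-193730) 10000 * xS,
    cC (443) 10000 + cC (-3166) 10000 * xD + cC (-6822) 10000 * xV,
    cC 0,
    cC 0,
    cC 0⟩
  pU := ⟨cC (285398) 10000 + cC (-210411) 10000 * xD + cC (-66422) 10000 * xV + cC (93645) 10000 * (xD * xV) + cC (9720) 10000 * (xV * xV) + cC (536574) 10000 * (xD * xD) + cC (-247291) 10000 * xS,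
    cC (5469) 10000 + cC (-4615) 10000 * xD + cC (-9473) 10000 * xV,
    cC 0,
    cC 0,
    cC 0⟩
  kU := ⟨cC (-1664) 10000 + cC (-1185) 10000 * xD + cC (-211) 10000 * xV + cC (1597) 10000 * (xD * xV) + cC (52) 10000 * (xV * xV) + cC (500) 10000 * (xD * xD) + cC (2673) 10000 * xS,
    cC (-719) 10000 + cC (10815) 10000 * xD + cC (-2) 10000 * xV,
    cC (-171) 10000 + cC (2816) 10000 * xD + cC (-11) 10000 * xV,
    cC 0,
    cC 0⟩
  kL := ⟨cC (-950) 10000 + cC (352) 10000 * xD + cC (134) 10000 * xV + cC (2549) 10000 * (xD * xV) + cC (-146) 10000 * (xV * xV) + cC (-12638) 10000 * (xD * xD) + cC (1328) 10000 * xS,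
    cC (-578) 10000 + cC (10410) 10000 * xD + cC (-64) 10000 * xV,
    cC (-170) 10000 + cC (2492) 10000 * xD + cC (3) 10000 * xV,
    cC 0,
    cC 0⟩
  wU := ⟨cC (-36761) 10000 + cC (106208) 10000 * xD + cC (-7385) 10000 * xV + cC (-44156) 10000 * (xD * xV) + cC (796) 10000 * (xV * xV) + cC (3333) 10000 * (xD * xD) + cC (82084) 10000 * xS,
    cC (-3019) 10000 + cC (21364) 10000 * xD + cC (-5392) 10000 * xV,
    cC (-12759) 10000 + cC (3214) 10000 * xD + cC (-1164) 10000 * xV,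
    cC 0,
    cC 0⟩
  wL := ⟨cC (-80499) 10000 + cC (155483) 10000 * xD + cC (-5003) 10000 * xV + cC (-33113) 10000 * (xD * xV) + cC (-988) 10000 * (xV * xV) + cC (-52639) 10000 * (xD * xD) + cC (137851) 10000 * xS,
    cC (-2874) 10000 + cC (3833) 10000 * xD + cC (-3783) 10000 * xV,
    cC (-12488) 10000 + cC (-14464) 10000 * xD + cC (29) 10000 * xV,
    cC 0,
    cC 0⟩

/-- The least `u`. -/
def tB9Lo : Ex :=
  cC (4) 5

/-- The upper end of `u`. -/
def tB10Hi : Ex :=
  cC (71) 80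

/-- The least `u`. -/
def tB10Lo : Ex :=
  cC (4) 5

/-- A piece: `1.9 ≤ v < 2.757`. -/
def tB11 : Piece where
  u₀ := cC (39) 40
  u₁ := cC (846) 1000 + cC (-126) 1000 * xD + cC (47) 1000 * xV
  tLn := lowTn
  tLd := lowTd
  tUn := upBn
  tUd := upBd
  p₀ := cC (235962) 10000 + cC (-142608) 10000 * xD + cC (-39714) 10000 * xV + cC (105904) 10000 * (xD * xV) + cC (-183777) 10000 * (xD * xD) + cC (-175166) 10000 * xS
  zL := cC (10679) 10000 + cC (-139888) 10000 * xD + cC (-945) 10000 * xV + cC (-9021) 10000 * (xD * xV) + cC (31) 10000 * (xV * xV) + cC (1031615) 10000 * (xD * xD) + cC (-512) 10000 * xS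
  zU := cC (11369) 10000 + cC (-104016) 10000 * xD + cC (-269) 10000 * xV + cC (-7458) 10000 * (xD * xV) + cC (-213) 10000 * (xV * xV) + cC (655691) 10000 * (xD * xD) + cC (-562) 10000 * xS
  k2p := fun e => cC (140) 10000 + cC (1362) 10000 * xD + cC (-53) 10000 * xV + cC (6) 10000 * e
  k2m := fun _ => cC (174) 10000 * xD + cC (4) 10000 * xV
  kapL := fun e => cC (-465) 10000 + cC (1381) 10000 * xD + cC (244) 10000 * xV + cC (-45) 10000 * e
  kapU := fun e => cC (3994) 10000 + cC (-5944) 10000 * xD + cC (-864) 10000 * xV + cC (439) 10000 * e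
  eL := ⟨cC (-15932) 10000 + cC (-101171) 10000 * xD + cC (-1862) 10000 * xV + cC (4431) 10000 * (xV * xV) + cC (28576) 10000 * (xD * xV) + cC (384156) 10000 * (xD * xD) + cC (-48676) 10000 * xS,
    cC 0,
    cC 0,
    cC 0,
    cC 0⟩
  eH := ⟨cC (-7898) 10000 + cC (-256818) 10000 * xD + cC (-1154) 10000 * xV + cC (806) 10000 * (xV * xV) + cC (87573) 10000 * (xD * xV) + cC (263434) 10000 * (xD * xD) + cC (-14406) 10000 * xS,
    cC 0,
    cC 0,
    cC 0,
    cC 0⟩
  pL := ⟨cC (185446) 10000 + cC (96409) 10000 * xD + cC (-25880) 10000 * xV + cC (-39531) 10000 * (xD * xV) + cC (3154) 10000 * (xV * xV) + cC (489293) 10000 * (xD * xD) + cC (-199516) 10000 * xS,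
    cC (-2774) 10000 + cC (8965) 10000 * xD + cC (-5579) 10000 * xV,
    cC 0,
    cC 0,
    cC 0⟩
  pU := ⟨cC (230532) 10000 + cC (238413) 10000 * xD + cC (-35425) 10000 * xV + cC (-21529) 10000 * (xD * xV) + cC (3836) 10000 * (xV * xV) + cC (-1110235) 10000 * (xD * xD) + cC (-233723) 10000 * xS,
    cC (3204) 10000 + cC (5019) 10000 * xD + cC (-8647) 10000 * xV,
    cC 0,
    cC 0,
    cC 0⟩
  kU := ⟨cC (914) 10000 + cC (-2183) 10000 * xD + cC (11) 10000 * xV + cC (717) 10000 * (xD * xV) + cC (-2) 10000 * (xV * xV) + cC (22751) 10000 * (xD * xD) + cC (-1435) 10000 * xS,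
    cC (-738) 10000 + cC (10372) 10000 * xD + cC (24) 10000 * xV,
    cC (-184) 10000 + cC (2763) 10000 * xD,
    cC 0,
    cC 0⟩
  kL := ⟨cC (1188) 10000 + cC (-1082) 10000 * xD + cC (-132) 10000 * xV + cC (558) 10000 * (xD * xV) + cC (14) 10000 * (xV * xV) + cC (-22071) 10000 * (xD * xD) + cC (-1403) 10000 * xS,
    cC (-544) 10000 + cC (8689) 10000 * xD + cC (-25) 10000 * xV,
    cC (-167) 10000 + cC (2672) 10000 * xD + cC (-5) 10000 * xV,
    cC 0,
    cC 0⟩
  wU := ⟨cC (-24040) 10000 + cC (125700) 10000 * xD + cC (-2342) 10000 * xV + cC (-44573) 10000 * (xD * xV) + cC (250) 10000 * (xV * xV) + cC (83214) 10000 * (xD * xD) + cC (45895) 10000 * xS,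
    cC (-3527) 10000 + cC (23381) 10000 * xD + cC (-5010) 10000 * xV,
    cC (-11435) 10000 + cC (-569) 10000 * xD + cC (-1439) 10000 * xV,
    cC 0,
    cC 0⟩
  wL := ⟨cC (-19889) 10000 + cC (61790) 10000 * xD + cC (2577) 10000 * xV + cC (-1104) 10000 * (xD * xV) + cC (-1684) 10000 * (xV * xV) + cC (-155335) 10000 * (xD * xD) + cC (36129) 10000 * xS,
    cC (-8281) 10000 + cC (-38576) 10000 * xD + cC (-1705) 10000 * xV,
    cC (-14551) 10000 + cC (-31849) 10000 * xD + cC (475) 10000 * xV,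
    cC 0,
    cC 0⟩

/-- The least `u`. -/
def tB11Lo : Ex :=
  cC (71) 80

/-- A piece: `2.757 ≤ v < 3.278`. -/
def tB12 : Piece where
  u₀ := cC (39) 40
  u₁ := cC (973) 1000 + cC (-194) 1000 * xD + cC (2) 1000 * xV
  tLn := lowTn
  tLd := lowTd
  tUn := evN
  tUd := evD
  p₀ := cC (238663) 10000 + cC (-137787) 10000 * xD + cC (-39726) 10000 * xV + cC (106263) 10000 * (xD * xV) + cC (-259041) 10000 * (xD * xD) + cC (-179290) 10000 * xS
  zL := cC (-59727) 10000 + cC (191307) 10000 * xD + cC (29546) 10000 * xV + cC (-73034) 10000 * (xD * xV) + cC (-4110) 10000 * (xV * xV) + cC (-178495) 10000 * (xD * xD) + cC (19929) 10000 * xS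
  zU := cC (88684) 10000 + cC (-353717) 10000 * xD + cC (-50695) 10000 * xV + cC (72789) 10000 * (xD * xV) + cC (8030) 10000 * (xV * xV) + cC (864245) 10000 * (xD * xD) + cC (-378) 10000 * xS
  k2p := fun e => cC (-11) 10000 + cC (636) 10000 * xD + cC (-5) 10000 * xV + cC (-15) 10000 * e
  k2m := fun _ => cC (-86) 10000 + cC (263) 10000 * xD + cC (33) 10000 * xV
  kapL := fun e => cC (-9955) 10000 + cC (7821) 10000 * xD + cC (3459) 10000 * xV + cC (-289) 10000 * e
  kapU := fun e => cC (-942) 10000 + cC (45236) 10000 * xD + cC (20) 10000 * xV + cC (-76) 10000 * e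
  eL := ⟨cC (-102254) 10000 + cC (535935) 10000 * xD + cC (19577) 10000 * xV + cC (-401) 10000 * (xV * xV) + cC (-72781) 10000 * (xD * xV) + cC (-3156670) 10000 * (xD * xD) + cC (35116) 10000 * xS,
    cC 0,
    cC 0,
    cC 0,
    cC (129138) 10000 + cC (-2312322) 10000 * xD + cC (-18292) 10000 * xV + cC (418775) 10000 * (xD * xV)⟩
  eH := ⟨cC (60209) 10000 + cC (-385760) 10000 * xD + cC (-53594) 10000 * xV + cC (9307) 10000 * (xV * xV) + cC (156668) 10000 * (xD * xV) + cC (-550607) 10000 * (xD * xD) + cC (1750) 10000 * xS,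
    cC 0,
    cC 0,
    cC 0,
    cC 0⟩
  pL := ⟨cC (-242266) 10000 + cC (2371952) 10000 * xD + cC (191651) 10000 * xV + cC (-653957) 10000 * (xD * xV) + cC (-27679) 10000 * (xV * xV) + cC (-781695) 10000 * (xD * xD) + cC (-148884) 10000 * xS,
    cC (-37041) 10000 + cC (259645) 10000 * xD + cC (1746) 10000 * xV,
    cC 0,
    cC 0,
    cC 0⟩
  pU := ⟨cC (179742) 10000 + cC (680099) 10000 * xD + cC (5237) 10000 * xV + cC (-242454) 10000 * (xD * xV) + cC (-1451) 10000 * (xV * xV) + cC (2986285) 10000 * (xD * xD) + cC (-274053) 10000 * xS,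
    cC (-43864) 10000 + cC (265855) 10000 * xD + cC (3809) 10000 * xV,
    cC 0,
    cC 0,
    cC (-192027) 10000 + cC (4838040) 10000 * xD + cC (98284) 10000 * xV + cC (-1741587) 10000 * (xD * xV)⟩
  kU := ⟨cC (531) 10000 + cC (-2026) 10000 * xD + cC (21) 10000 * xV + cC (411) 10000 * (xD * xV) + cC (-3) 10000 * (xV * xV) + cC (13864) 10000 * (xD * xD) + cC (-831) 10000 * xS,
    cC (-714) 10000 + cC (9296) 10000 * xD + cC (31) 10000 * xV,
    cC (-184) 10000 + cC (2556) 10000 * xD + cC (3) 10000 * xV,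
    cC 0,
    cC 0⟩
  kL := ⟨cC (626) 10000 + cC (4326) 10000 * xD + cC (115) 10000 * xV + cC (-1713) 10000 * (xD * xV) + cC (-31) 10000 * (xV * xV) + cC (-23683) 10000 * (xD * xD) + cC (-906) 10000 * xS,
    cC (431) 10000 + cC (3031) 10000 * xD + cC (-255) 10000 * xV,
    cC (132) 10000 + cC (742) 10000 * xD + cC (-75) 10000 * xV,
    cC 0,
    cC 0⟩
  wU := ⟨cC (21213) 10000 + cC (36290) 10000 * xD + cC (-12723) 10000 * xV + cC (-15651) 10000 * (xD * xV) + cC (1851) 10000 * (xV * xV) + cC (177403) 10000 * (xD * xD) + cC (2397) 10000 * xS,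
    cC (494) 10000 + cC (263) 10000 * xD + cC (-5937) 10000 * xV,
    cC (-9558) 10000 + cC (-10783) 10000 * xD + cC (-1840) 10000 * xV,
    cC 0,
    cC 0⟩
  wL := ⟨cC (4210) 10000 + cC (100997) 10000 * xD + cC (-1088) 10000 * xV + cC (-34345) 10000 * (xD * xV) + cC (62) 10000 * (xV * xV) + cC (106528) 10000 * (xD * xD) + cC (-1007) 10000 * xS,
    cC (-7671) 10000 + cC (10864) 10000 * xD + cC (-3613) 10000 * xV,
    cC (-13044) 10000 + cC (-7329) 10000 * xD + cC (-843) 10000 * xV,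
    cC 0,
    cC 0⟩

/-- The least `u`. -/
def tB12Lo : Ex :=
  cC (71) 80

/-- A piece: `1.9 ≤ v < 2.289`. -/
def tB13 : Piece where
  u₀ := cC (39) 40
  u₁ := cC (817) 1000 + cC (34) 1000 * xD + cC (58) 1000 * xV
  tLn := lowTn
  tLd := lowTd
  tUn := upBn
  tUd := upBd
  p₀ := cC (230623) 10000 + cC (-136420) 10000 * xD + cC (-39442) 10000 * xV + cC (100234) 10000 * (xD * xV) + cC (-104337) 10000 * (xD * xD) + cC (-167931) 10000 * xS
  zL := cC (9732) 10000 + cC (-75295) 10000 * xD + cC (-1468) 10000 * xV + cC (-3480) 10000 * (xD * xV) + cC (76) 10000 * (xV * xV) + cC (337709) 10000 * (xD * xD) + cC (-887) 10000 * xS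
  zU := cC (12183) 10000 + cC (-80320) 10000 * xD + cC (-1089) 10000 * xV + cC (-3334) 10000 * (xD * xV) + cC (-132) 10000 * (xV * xV) + cC (308164) 10000 * (xD * xD) + cC (-937) 10000 * xS
  k2p := fun e => cC (151) 10000 + cC (2151) 10000 * xD + cC (-71) 10000 * xV + cC (14) 10000 * e
  k2m := fun _ => cC (-18) 10000 + cC (320) 10000 * xD + cC (9) 10000 * xV
  kapL := fun e => cC (-449) 10000 + cC (1344) 10000 * xD + cC (288) 10000 * xV + cC (-1) 10000 * e
  kapU := fun e => cC (7306) 10000 + cC (-7306) 10000 * xD + cC (-1846) 10000 * xV + cC (813) 10000 * e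
  eL := ⟨cC (-30635) 10000 + cC (25086) 10000 * xD + cC (9158) 10000 * xV + cC (2924) 10000 * (xV * xV) + cC (11459) 10000 * (xD * xV) + cC (39913) 10000 * (xD * xD) + cC (-55739) 10000 * xS,
    cC 0,
    cC 0,
    cC 0,
    cC 0⟩
  eH := ⟨cC (-11651) 10000 + cC (-181900) 10000 * xD + cC (459) 10000 * xV + cC (983) 10000 * (xV * xV) + cC (46041) 10000 * (xD * xV) + cC (377606) 10000 * (xD * xD) + cC (-14519) 10000 * xS,
    cC 0,
    cC 0,
    cC 0,
    cC 0⟩
  pL := ⟨cC (209752) 10000 + cC (-26285) 10000 * xD + cC (-32648) 10000 * xV + cC (9013) 10000 * (xD * xV) + cC (3651) 10000 * (xV * xV) + cC (272431) 10000 * (xD * xD) + cC (-215916) 10000 * xS,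
    cC (121) 10000 + cC (-8129) 10000 * xD + cC (-6614) 10000 * xV,
    cC 0,
    cC 0,
    cC 0⟩
  pU := ⟨cC (238837) 10000 + cC (-89064) 10000 * xD + cC (-29887) 10000 * xV + cC (46107) 10000 * (xD * xV) + cC (2271) 10000 * (xV * xV) + cC (160447) 10000 * (xD * xD) + cC (-243798) 10000 * xS,
    cC (1867) 10000 + cC (-7276) 10000 * xD + cC (-7706) 10000 * xV,
    cC 0,
    cC 0,
    cC 0⟩
  kU := ⟨cC (-25) 10000 + cC (-3748) 10000 * xD + cC (-73) 10000 * xV + cC (789) 10000 * (xD * xV) + cC (9) 10000 * (xV * xV) + cC (22503) 10000 * (xD * xD) + cC (272) 10000 * xS,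
    cC (-716) 10000 + cC (10183) 10000 * xD + cC (17) 10000 * xV,
    cC (-194) 10000 + cC (2771) 10000 * xD + cC (4) 10000 * xV,
    cC 0,
    cC 0⟩
  kL := ⟨cC (-65) 10000 + cC (1470) 10000 * xD + cC (-83) 10000 * xV + cC (974) 10000 * (xD * xV) + cC (-5) 10000 * (xV * xV) + cC (-18048) 10000 * (xD * xD) + cC (165) 10000 * xS,
    cC (-620) 10000 + cC (10087) 10000 * xD + cC (-24) 10000 * xV,
    cC (-176) 10000 + cC (2730) 10000 * xD + cC (-3) 10000 * xV,
    cC 0,
    cC 0⟩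
  wU := ⟨cC (-30381) 10000 + cC (68727) 10000 * xD + cC (-808) 10000 * xV + cC (-36621) 10000 * (xD * xV) + cC (67) 10000 * (xV * xV) + cC (85629) 10000 * (xD * xD) + cC (56499) 10000 * xS,
    cC (-3204) 10000 + cC (19080) 10000 * xD + cC (-5086) 10000 * xV,
    cC (-11306) 10000 + cC (4211) 10000 * xD + cC (-1724) 10000 * xV,
    cC 0,
    cC 0⟩
  wL := ⟨cC (-26452) 10000 + cC (-18930) 10000 * xD + cC (8996) 10000 * xV + cC (56508) 10000 * (xD * xV) + cC (-4988) 10000 * (xV * xV) + cC (-317259) 10000 * (xD * xD) + cC (44650) 10000 * xS,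
    cC (-8676) 10000 + cC (-61359) 10000 * xD + cC (276) 10000 * xV,
    cC (-15150) 10000 + cC (-40766) 10000 * xD + cC (1563) 10000 * xV,
    cC 0,
    cC 0⟩

/-- The least `u`. -/
def tB13Lo : Ex :=
  cC (71) 80

/-- A piece: `2.289 ≤ v < 2.512`. -/
def tB14 : Piece where
  u₀ := cC (39) 40
  u₁ := cC (873) 1000 + cC (-16) 1000 * xD + cC (35) 1000 * xV
  tLn := lowTn
  tLd := lowTd
  tUn := upBn
  tUd := upBd
  p₀ := cC (232536) 10000 + cC (-136329) 10000 * xD + cC (-39546) 10000 * xV + cC (101568) 10000 * (xD * xV) + cC (-133270) 10000 * (xD * xD) + cC (-170530) 10000 * xS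
  zL := cC (9915) 10000 + cC (-79490) 10000 * xD + cC (-1498) 10000 * xV + cC (-2721) 10000 * (xD * xV) + cC (72) 10000 * (xV * xV) + cC (354939) 10000 * (xD * xD) + cC (-896) 10000 * xS
  zU := cC (11875) 10000 + cC (-82968) 10000 * xD + cC (-1207) 10000 * xV + cC (-2396) 10000 * (xD * xV) + cC (-23) 10000 * (xV * xV) + cC (320275) 10000 * (xD * xD) + cC (-962) 10000 * xS
  k2p := fun e => cC (736) 10000 + cC (1534) 10000 * xD + cC (-210) 10000 * xV + cC (94) 10000 * e
  k2m := fun _ => cC (-26) 10000 + cC (397) 10000 * xD + cC (9) 10000 * xV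
  kapL := fun e => cC (-635) 10000 + cC (6177) 10000 * xD + cC (241) 10000 * xV + cC (42) 10000 * e
  kapU := fun e => cC (10447) 10000 + cC (-10446) 10000 * xD + cC (-2418) 10000 * xV + cC (1390) 10000 * e
  eL := ⟨cC (-242) 10000 + cC (-260771) 10000 * xD + cC (-21670) 10000 * xV + cC (6942) 10000 * (xV * xV) + cC (107415) 10000 * (xD * xV) + cC (434048) 10000 * (xD * xD) + cC (-23284) 10000 * xS,
    cC 0,
    cC 0,
    cC 0,
    cC (-23870) 10000 + cC (-105291) 10000 * xD + cC (6788) 10000 * xV + cC (110673) 10000 * (xD * xV)⟩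
  eH := ⟨cC (-14948) 10000 + cC (-159006) 10000 * xD + cC (-1751) 10000 * xV + cC (1359) 10000 * (xV * xV) + cC (47497) 10000 * (xD * xV) + cC (178994) 10000 * (xD * xD) + cC (-6299) 10000 * xS,
    cC 0,
    cC 0,
    cC 0,
    cC 0⟩
  pL := ⟨cC (190882) 10000 + cC (-68133) 10000 * xD + cC (-30958) 10000 * xV + cC (12702) 10000 * (xD * xV) + cC (3426) 10000 * (xV * xV) + cC (450820) 10000 * (xD * xD) + cC (-189036) 10000 * xS,
    cC (-513) 10000 + cC (-12428) 10000 * xD + cC (-6144) 10000 * xV,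
    cC 0,
    cC 0,
    cC 0⟩
  pU := ⟨cC (-200333) 10000 + cC (2110028) 10000 * xD + cC (299150) 10000 * xV + cC (-763595) 10000 * (xD * xV) + cC (-56144) 10000 * (xV * xV) + cC (-1491447) 10000 * (xD * xD) + cC (-280762) 10000 * xS,
    cC (-6349) 10000 + cC (44223) 10000 * xD + cC (-5910) 10000 * xV,
    cC 0,
    cC 0,
    cC (-471177) 10000 + cC (487983) 10000 * xD + cC (188276) 10000 * xV + cC (98880) 10000 * (xD * xV)⟩
  kU := ⟨cC (-8) 10000 + cC (-2513) 10000 * xD + cC (-80) 10000 * xV + cC (-165) 10000 * (xD * xV) + cC (29) 10000 * (xV * xV) + cC (24171) 10000 * (xD * xD) + cC (175) 10000 * xS,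
    cC (-763) 10000 + cC (9699) 10000 * xD + cC (48) 10000 * xV,
    cC (-207) 10000 + cC (2751) 10000 * xD + cC (10) 10000 * xV,
    cC 0,
    cC 0⟩
  kL := ⟨cC (-230) 10000 + cC (2413) 10000 * xD + cC (82) 10000 * xV + cC (-23) 10000 * (xD * xV) + cC (-31) 10000 * (xV * xV) + cC (-13280) 10000 * (xD * xD) + cC (171) 10000 * xS,
    cC (-481) 10000 + cC (9615) 10000 * xD + cC (-65) 10000 * xV,
    cC (-150) 10000 + cC (2696) 10000 * xD + cC (-12) 10000 * xV,
    cC 0,
    cC 0⟩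
  wU := ⟨cC (-30719) 10000 + cC (80007) 10000 * xD + cC (3973) 10000 * xV + cC (-36776) 10000 * (xD * xV) + cC (-254) 10000 * (xV * xV) + cC (94202) 10000 * (xD * xD) + cC (39529) 10000 * xS,
    cC (-4618) 10000 + cC (16623) 10000 * xD + cC (-4386) 10000 * xV,
    cC (-10085) 10000 + cC (1285) 10000 * xD + cC (-2027) 10000 * xV,
    cC 0,
    cC 0⟩
  wL := ⟨cC (-13558) 10000 + cC (-83232) 10000 * xD + cC (13777) 10000 * xV + cC (88227) 10000 * (xD * xV) + cC (-6166) 10000 * (xV * xV) + cC (-449841) 10000 * (xD * xD) + cC (18820) 10000 * xS,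
    cC (-5526) 10000 + cC (15391) 10000 * xD + cC (-4508) 10000 * xV,
    cC (-14668) 10000 + cC (-9626) 10000 * xD + cC (-73) 10000 * xV,
    cC 0,
    cC 0⟩

/-- The least `u`. -/
def tB14Lo : Ex :=
  cC (71) 80

/-- A piece: `2.512 ≤ v < 2.757`. -/
def tB15 : Piece where
  u₀ := cC (39) 40
  u₁ := cC (898) 1000 + cC (-51) 1000 * xD + cC (26) 1000 * xV
  tLn := lowTn
  tLd := lowTd
  tUn := upBn
  tUd := upBd
  p₀ := cC (234053) 10000 + cC (-128774) 10000 * xD + cC (-39430) 10000 * xV + cC (100081) 10000 * (xD * xV) + cC (-165059) 10000 * (xD * xD) + cC (-173385) 10000 * xS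
  zL := cC (10062) 10000 + cC (-83069) 10000 * xD + cC (-1517) 10000 * xV + cC (-2206) 10000 * (xD * xV) + cC (70) 10000 * (xV * xV) + cC (370707) 10000 * (xD * xD) + cC (-905) 10000 * xS
  zU := cC (11668) 10000 + cC (-84071) 10000 * xD + cC (-1209) 10000 * xV + cC (-1968) 10000 * (xD * xV) + cC (8) 10000 * (xV * xV) + cC (326289) 10000 * (xD * xD) + cC (-979) 10000 * xS
  k2p := fun e => cC (-21) 10000 + cC (1249) 10000 * xD + cC (-29) 10000 * xV + cC (-35) 10000 * e
  k2m := fun _ => cC (-19) 10000 + cC (497) 10000 * xD + cC (4) 10000 * xV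
  kapL := fun e => cC (-703) 10000 + cC (9848) 10000 * xD + cC (237) 10000 * xV + cC (135) 10000 * e
  kapU := fun e => cC (21) 10000 + cC (8639) 10000 * xD + cC (-165) 10000 * xV + cC (-110) 10000 * e
  eL := ⟨cC (-109404) 10000 + cC (515076) 10000 * xD + cC (28378) 10000 * xV + cC (-188) 10000 * (xV * xV) + cC (-106908) 10000 * (xD * xV) + cC (-1352389) 10000 * (xD * xD) + cC (7844) 10000 * xS,
    cC 0,
    cC 0,
    cC 0,
    cC (20207) 10000 + cC (-141598) 10000 * xD + cC (6473) 10000 * xV + cC (-86085) 10000 * (xD * xV)⟩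
  eH := ⟨cC (-20309) 10000 + cC (-135887) 10000 * xD + cC (-1594) 10000 * xV + cC (1283) 10000 * (xV * xV) + cC (45101) 10000 * (xD * xV) + cC (44605) 10000 * (xD * xD) + cC (1021) 10000 * xS,
    cC 0,
    cC 0,
    cC 0,
    cC 0⟩
  pL := ⟨cC (177650) 10000 + cC (-80821) 10000 * xD + cC (-32174) 10000 * xV + cC (11288) 10000 * (xD * xV) + cC (3693) 10000 * (xV * xV) + cC (541076) 10000 * (xD * xD) + cC (-165413) 10000 * xS,
    cC (-323) 10000 + cC (-14678) 10000 * xD + cC (-6052) 10000 * xV,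
    cC 0,
    cC 0,
    cC 0⟩
  pU := ⟨cC (217342) 10000 + cC (508648) 10000 * xD + cC (3701) 10000 * xV + cC (-161759) 10000 * (xD * xV) + cC (-1810) 10000 * (xV * xV) + cC (1067797) 10000 * (xD * xD) + cC (-316297) 10000 * xS,
    cC (-38277) 10000 + cC (177420) 10000 * xD + cC (3386) 10000 * xV,
    cC 0,
    cC 0,
    cC (-3336) 10000 + cC (893392) 10000 * xD + cC (38406) 10000 * xV + cC (-489939) 10000 * (xD * xV)⟩
  kU := ⟨cC (27) 10000 + cC (-4025) 10000 * xD + cC (-15) 10000 * xV + cC (487) 10000 * (xD * xV) + cC (3) 10000 * (xV * xV) + cC (21161) 10000 * (xD * xD) + cC (130) 10000 * xS,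
    cC (-725) 10000 + cC (9542) 10000 * xD + cC (34) 10000 * xV,
    cC (-202) 10000 + cC (2787) 10000 * xD + cC (6) 10000 * xV,
    cC 0,
    cC 0⟩
  kL := ⟨cC (109) 10000 + cC (670) 10000 * xD + cC (-111) 10000 * xV + cC (307) 10000 * (xD * xV) + cC (5) 10000 * (xV * xV) + cC (-10561) 10000 * (xD * xD) + cC (155) 10000 * xS,
    cC (-425) 10000 + cC (9140) 10000 * xD + cC (-68) 10000 * xV,
    cC (-143) 10000 + cC (2657) 10000 * xD + cC (-13) 10000 * xV,
    cC 0,
    cC 0⟩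
  wU := ⟨cC (1271) 10000 + cC (104412) 10000 * xD + cC (-9642) 10000 * xV + cC (-39111) 10000 * (xD * xV) + cC (1605) 10000 * (xV * xV) + cC (124385) 10000 * (xD * xD) + cC (22126) 10000 * xS,
    cC (-2718) 10000 + cC (17157) 10000 * xD + cC (-5142) 10000 * xV,
    cC (-11146) 10000 + cC (-2904) 10000 * xD + cC (-1423) 10000 * xV,
    cC 0,
    cC 0⟩
  wL := ⟨cC (-300) 10000 + cC (-38717) 10000 * xD + cC (3184) 10000 * xV + cC (63603) 10000 * (xD * xV) + cC (-3062) 10000 * (xV * xV) + cC (-453996) 10000 * (xD * xD) + cC (12918) 10000 * xS,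
    cC (-2415) 10000 + cC (29760) 10000 * xD + cC (-6065) 10000 * xV,
    cC (-13238) 10000 + cC (-6422) 10000 * xD + cC (-771) 10000 * xV,
    cC 0,
    cC 0⟩

/-- The least `u`. -/
def tB15Lo : Ex :=
  cC (71) 80

/-- A piece: `2.757 ≤ v < 3.425`. -/
def tB16 : Piece where
  u₀ := cC (39) 40
  u₁ := cC (933) 1000 + cC (0) 1000 * xD + cC (12) 1000 * xV
  tLn := lowTn
  tLd := lowTd
  tUn := evN
  tUd := evD
  p₀ := cC (238390) 10000 + cC (-114034) 10000 * xD + cC (-39318) 10000 * xV + cC (98818) 10000 * (xD * xV) + cC (-251730) 10000 * (xD * xD) + cC (-180869) 10000 * xS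
  zL := cC (-28269) 10000 + cC (82679) 10000 * xD + cC (19532) 10000 * xV + cC (-47615) 10000 * (xD * xV) + cC (-2641) 10000 * (xV * xV) + cC (169738) 10000 * (xD * xD) + cC (-922) 10000 * xS
  zU := cC (53863) 10000 + cC (-152738) 10000 * xD + cC (-40063) 10000 * xV + cC (8888) 10000 * (xD * xV) + cC (6842) 10000 * (xV * xV) + cC (636322) 10000 * (xD * xD) + cC (20389) 10000 * xS
  k2p := fun e => cC (-124) 10000 + cC (172) 10000 * xD + cC (25) 10000 * xV + cC (-44) 10000 * e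
  k2m := fun e => cC (-103) 10000 + cC (2173) 10000 * xD + cC (8) 10000 * xV + cC (11) 10000 * e
  kapL := fun e => cC (40319) 10000 + cC (-15) 10000 * xD + cC (-7884) 10000 * xV + cC (9368) 10000 * e
  kapU := fun e => cC (-15355) 10000 + cC (105707) 10000 * xD + cC (3388) 10000 * xV + cC (-228) 10000 * e
  eL := ⟨cC (-108659) 10000 + cC (406439) 10000 * xD + cC (22570) 10000 * xV + cC (-159) 10000 * (xV * xV) + cC (-84099) 10000 * (xD * xV) + cC (-911977) 10000 * (xD * xD) + cC (31806) 10000 * xS,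
    cC 0,
    cC 0,
    cC 0,
    cC (36358) 10000 + cC (-328278) 10000 * xD + cC (1476) 10000 * xV + cC (-26505) 10000 * (xD * xV)⟩
  eH := ⟨cC (-37613) 10000 + cC (-34007) 10000 * xD + cC (-10209) 10000 * xV + cC (3281) 10000 * (xV * xV) + cC (13260) 10000 * (xD * xV) + cC (-63755) 10000 * (xD * xD) + cC (39072) 10000 * xS,
    cC 0,
    cC 0,
    cC 0,
    cC 0⟩
  pL := ⟨cC (-59845) 10000 + cC (1036584) 10000 * xD + cC (125665) 10000 * xV + cC (-288526) 10000 * (xD * xV) + cC (-19396) 10000 * (xV * xV) + cC (-30566) 10000 * (xD * xD) + cC (-222106) 10000 * xS,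
    cC (-35211) 10000 + cC (121630) 10000 * xD + cC (3592) 10000 * xV,
    cC 0,
    cC 0,
    cC 0⟩
  pU := ⟨cC (194912) 10000 + cC (174727) 10000 * xD + cC (-7791) 10000 * xV + cC (-66878) 10000 * (xD * xV) + cC (-873) 10000 * (xV * xV) + cC (1333493) 10000 * (xD * xD) + cC (-242202) 10000 * xS,
    cC (-37743) 10000 + cC (156331) 10000 * xD + cC (3509) 10000 * xV,
    cC 0,
    cC 0,
    cC (-138326) 10000 + cC (2582634) 10000 * xD + cC (83963) 10000 * xV + cC (-1059457) 10000 * (xD * xV)⟩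
  kU := ⟨cC (-285) 10000 + cC (5933) 10000 * xD + cC (170) 10000 * xV + cC (-1879) 10000 * (xD * xV) + cC (-10) 10000 * (xV * xV) + cC (5492) 10000 * (xD * xD) + cC (-254) 10000 * xS,
    cC (-540) 10000 + cC (8122) 10000 * xD + cC (-6) 10000 * xV,
    cC (-116) 10000 + cC (1851) 10000 * xD + cC (-6) 10000 * xV,
    cC 0,
    cC (-820) 10000 + cC (11685) 10000 * xD + cC (164) 10000 * xV + cC (-1850) 10000 * (xD * xV)⟩
  kL := ⟨cC (-744) 10000 + cC (3726) 10000 * xD + cC (525) 10000 * xV + cC (-1024) 10000 * (xD * xV) + cC (-76) 10000 * (xV * xV) + cC (75) 10000 * (xD * xD) + cC (-284) 10000 * xS,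
    cC (-388) 10000 + cC (8171) 10000 * xD + cC (-55) 10000 * xV,
    cC (-45) 10000 + cC (1995) 10000 * xD + cC (-31) 10000 * xV,
    cC 0,
    cC (-427) 10000 + cC (5204) 10000 * xD + cC (156) 10000 * xV + cC (-1888) 10000 * (xD * xV)⟩
  wU := ⟨cC (80396) 10000 + cC (87955) 10000 * xD + cC (-60967) 10000 * xV + cC (-34347) 10000 * (xD * xV) + cC (10038) 10000 * (xV * xV) + cC (178515) 10000 * (xD * xD) + cC (19133) 10000 * xS,
    cC (-14309) 10000 + cC (-33126) 10000 * xD + cC (333) 10000 * xV,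
    cC (-19209) 10000 + cC (-26982) 10000 * xD + cC (2131) 10000 * xV,
    cC 0,
    cC 0⟩
  wL := ⟨cC (80774) 10000 + cC (14002) 10000 * xD + cC (-51946) 10000 * xV + cC (-3442) 10000 * (xD * xV) + cC (8053) 10000 * (xV * xV) + cC (-50924) 10000 * (xD * xD) + cC (5031) 10000 * xS,
    cC (-19318) 10000 + cC (8883) 10000 * xD + cC (664) 10000 * xV,
    cC (-21773) 10000 + cC (-648) 10000 * xD + cC (2135) 10000 * xV,
    cC 0,
    cC (-93956) 10000 + cC (477492) 10000 * xD + cC (34080) 10000 * xV + cC (-173193) 10000 * (xD * xV)⟩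

/-- The least `u`. -/
def tB16Lo : Ex :=
  cC (71) 80

/-- The upper end of `u`. -/
def tB17Hi : Ex :=
  cC (149) 160

/-- The least `u`. -/
def tB17Lo : Ex :=
  cC (71) 80

/-- A piece: `1.9 ≤ v < 2.289`. -/
def tB18 : Piece where
  u₀ := cC (39) 40
  u₁ := cC (813) 1000 + cC (246) 1000 * xD + cC (51) 1000 * xV
  tLn := lowTn
  tLd := lowTd
  tUn := upBn
  tUd := upBd
  p₀ := cC (224680) 10000 + cC (-116577) 10000 * xD + cC (-38659) 10000 * xV + cC (90298) 10000 * (xD * xV) + cC (-88400) 10000 * (xD * xD) + cC (-161576) 10000 * xS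
  zL := cC (8700) 10000 + cC (-32187) 10000 * xD + cC (-1882) 10000 * xV + cC (-675) 10000 * (xD * xV) + cC (116) 10000 * (xV * xV) + cC (48716) 10000 * (xD * xD) + cC (-1434) 10000 * xS
  zU := cC (12895) 10000 + cC (-64118) 10000 * xD + cC (-1990) 10000 * xV + cC (-1391) 10000 * (xD * xV) + cC (77) 10000 * (xV * xV) + cC (162472) 10000 * (xD * xD) + cC (-1542) 10000 * xS
  k2p := fun e => cC (2399) 10000 + cC (-413) 10000 * xD + cC (-646) 10000 * xV + cC (270) 10000 * e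
  k2m := fun _ => cC (-59) 10000 + cC (815) 10000 * xD + cC (9) 10000 * xV
  kapL := fun e => cC (-523) 10000 + cC (3748) 10000 * xD + cC (307) 10000 * xV + cC (64) 10000 * e
  kapU := fun e => cC (5124) 10000 + cC (-8042) 10000 * xD + cC (-1087) 10000 * xV + cC (591) 10000 * e
  eL := ⟨cC (-61992) 10000 + cC (201288) 10000 * xD + cC (19210) 10000 * xV + cC (639) 10000 * (xV * xV) + cC (-9838) 10000 * (xD * xV) + cC (-337993) 10000 * (xD * xD) + cC (-38302) 10000 * xS,
    cC 0,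
    cC 0,
    cC 0,
    cC 0⟩
  eH := ⟨cC (-17022) 10000 + cC (-190214) 10000 * xD + cC (3638) 10000 * xV + cC (656) 10000 * (xV * xV) + cC (23082) 10000 * (xD * xV) + cC (642383) 10000 * (xD * xD) + cC (-9921) 10000 * xS,
    cC 0,
    cC 0,
    cC 0,
    cC 0⟩
  pL := ⟨cC (209698) 10000 + cC (-208413) 10000 * xD + cC (-37081) 10000 * xV + cC (74709) 10000 * (xD * xV) + cC (3073) 10000 * (xV * xV) + cC (330323) 10000 * (xD * xD) + cC (-192759) 10000 * xS,
    cC (2583) 10000 + cC (-24280) 10000 * xD + cC (-7080) 10000 * xV,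
    cC 0,
    cC 0,
    cC 0⟩
  pU := ⟨cC (50891) 10000 + cC (1121148) 10000 * xD + cC (126128) 10000 * xV + cC (-410870) 10000 * (xD * xV) + cC (-24839) 10000 * (xV * xV) + cC (-845783) 10000 * (xD * xD) + cC (-292432) 10000 * xS,
    cC (-4128) 10000 + cC (17474) 10000 * xD + cC (-5775) 10000 * xV,
    cC 0,
    cC 0,
    cC (-56568) 10000 + cC (-591257) 10000 * xD + cC (14237) 10000 * xV + cC (499515) 10000 * (xD * xV)⟩
  kU := ⟨cC (-1826) 10000 + cC (-2773) 10000 * xD + cC (-166) 10000 * xV + cC (1501) 10000 * (xD * xV) + cC (3540) 10000 * (xD * xD) + cC (3229) 10000 * xS,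
    cC (-661) 10000 + cC (10530) 10000 * xD + cC (-21) 10000 * xV,
    cC (-197) 10000 + cC (2871) 10000 * xD + cC (1) 10000 * xV,
    cC 0,
    cC 0⟩
  kL := ⟨cC (-1601) 10000 + cC (1871) 10000 * xD + cC (-206) 10000 * xV + cC (1824) 10000 * (xD * xV) + cC (-20) 10000 * (xV * xV) + cC (-14999) 10000 * (xD * xD) + cC (2595) 10000 * xS,
    cC (-663) 10000 + cC (10608) 10000 * xD + cC (-27) 10000 * xV,
    cC (-209) 10000 + cC (2680) 10000 * xD + cC (15) 10000 * xV,
    cC 0,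
    cC 0⟩
  wU := ⟨cC (-36755) 10000 + cC (28120) 10000 * xD + cC (31) 10000 * xV + cC (-31512) 10000 * (xD * xV) + cC (167) 10000 * (xV * xV) + cC (102745) 10000 * (xD * xD) + cC (69070) 10000 * xS,
    cC (-3766) 10000 + cC (18905) 10000 * xD + cC (-4836) 10000 * xV,
    cC (-11521) 10000 + cC (8089) 10000 * xD + cC (-1942) 10000 * xV,
    cC 0,
    cC 0⟩
  wL := ⟨cC (6647) 10000 + cC (37014) 10000 * xD + cC (-24198) 10000 * xV + cC (9563) 10000 * (xD * xV) + cC (2371) 10000 * (xV * xV) + cC (31856) 10000 * (xD * xD) + cC (50799) 10000 * xS,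
    cC (-133) 10000 + cC (2987) 10000 * xD + cC (-6029) 10000 * xV,
    cC (-12696) 10000 + cC (-10971) 10000 * xD + cC (-566) 10000 * xV,
    cC 0,
    cC 0⟩

/-- The least `u`. -/
def tB18Lo : Ex :=
  cC (149) 160

/-- A piece: `2.289 ≤ v < 2.757`. -/
def tB19 : Piece where
  u₀ := cC (39) 40
  u₁ := cC (874) 1000 + cC (175) 1000 * xD + cC (28) 1000 * xV
  tLn := lowTn
  tLd := lowTd
  tUn := upBn
  tUd := upBd
  p₀ := cC (231397) 10000 + cC (-112869) 10000 * xD + cC (-38902) 10000 * xV + cC (93302) 10000 * (xD * xV) + cC (-148785) 10000 * (xD * xD) + cC (-171436) 10000 * xS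
  zL := cC (9151) 10000 + cC (-44351) 10000 * xD + cC (-1819) 10000 * xV + cC (-453) 10000 * (xD * xV) + cC (99) 10000 * (xV * xV) + cC (106354) 10000 * (xD * xD) + cC (-1312) 10000 * xS
  zU := cC (12124) 10000 + cC (-71712) 10000 * xD + cC (-1548) 10000 * xV + cC (-1395) 10000 * (xD * xV) + cC (58) 10000 * (xV * xV) + cC (209271) 10000 * (xD * xD) + cC (-1367) 10000 * xS
  k2p := fun e => cC (9152) 10000 + cC (-10245) 10000 * xD + cC (-2209) 10000 * xV + cC (1149) 10000 * e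
  k2m := fun _ => cC (-69) 10000 + cC (648) 10000 * xD + cC (19) 10000 * xV
  kapL := fun e => cC (-423) 10000 + cC (11769) 10000 * xD + cC (219) 10000 * xV + cC (371) 10000 * e
  kapU := fun e => cC (900) 10000 + cC (-11877) 10000 * xD + cC (697) 10000 * xV + cC (464) 10000 * e
  eL := ⟨cC (-97523) 10000 + cC (392308) 10000 * xD + cC (25353) 10000 * xV + cC (79) 10000 * (xV * xV) + cC (-81197) 10000 * (xD * xV) + cC (-542653) 10000 * (xD * xD) + cC (-2169) 10000 * xS,
    cC 0,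
    cC 0,
    cC 0,
    cC (23860) 10000 + cC (-203609) 10000 * xD + cC (256) 10000 * xV + cC (-2052) 10000 * (xD * xV)⟩
  eH := ⟨cC (-29677) 10000 + cC (-97690) 10000 * xD + cC (3457) 10000 * xV + cC (733) 10000 * (xV * xV) + cC (17943) 10000 * (xD * xV) + cC (229977) 10000 * (xD * xD) + cC (3085) 10000 * xS,
    cC 0,
    cC 0,
    cC 0,
    cC 0⟩
  pL := ⟨cC (59315) 10000 + cC (665449) 10000 * xD + cC (40467) 10000 * xV + cC (-180421) 10000 * (xD * xV) + cC (-6495) 10000 * (xV * xV) + cC (-779210) 10000 * (xD * xD) + cC (-185854) 10000 * xS,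
    cC (-6862) 10000 + cC (-107) 10000 * xD + cC (-4114) 10000 * xV,
    cC 0,
    cC 0,
    cC 0⟩
  pU := ⟨cC (216341) 10000 + cC (214076) 10000 * xD + cC (-5486) 10000 * xV + cC (-62158) 10000 * (xD * xV) + cC (-1325) 10000 * (xV * xV) + cC (622464) 10000 * (xD * xD) + cC (-277418) 10000 * xS,
    cC (-35246) 10000 + cC (124354) 10000 * xD + cC (3595) 10000 * xV,
    cC 0,
    cC 0,
    cC (32157) 10000 + cC (233510) 10000 * xD + cC (24420) 10000 * xV + cC (-235664) 10000 * (xD * xV)⟩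
  kU := ⟨cC (-685) 10000 + cC (-4639) 10000 * xD + cC (-90) 10000 * xV + cC (759) 10000 * (xD * xV) + cC (3) 10000 * (xV * xV) + cC (15103) 10000 * (xD * xD) + cC (1550) 10000 * xS,
    cC (-638) 10000 + cC (9652) 10000 * xD + cC (2) 10000 * xV,
    cC (-207) 10000 + cC (2857) 10000 * xD + cC (7) 10000 * xV,
    cC 0,
    cC 0⟩
  kL := ⟨cC (-762) 10000 + cC (518) 10000 * xD + cC (-190) 10000 * xV + cC (1065) 10000 * (xD * xV) + cC (9) 10000 * (xV * xV) + cC (-8574) 10000 * (xD * xD) + cC (1466) 10000 * xS,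
    cC (-538) 10000 + cC (9888) 10000 * xD + cC (-48) 10000 * xV,
    cC (-159) 10000 + cC (2623) 10000 * xD + cC (-5) 10000 * xV,
    cC 0,
    cC 0⟩
  wU := ⟨cC (-2611) 10000 + cC (75447) 10000 * xD + cC (-12015) 10000 * xV + cC (-31516) 10000 * (xD * xV) + cC (1884) 10000 * (xV * xV) + cC (115342) 10000 * (xD * xD) + cC (35788) 10000 * xS,
    cC (-2926) 10000 + cC (15198) 10000 * xD + cC (-4999) 10000 * xV,
    cC (-11746) 10000 + cC (-1893) 10000 * xD + cC (-1237) 10000 * xV,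
    cC 0,
    cC 0⟩
  wL := ⟨cC (4073) 10000 + cC (221653) 10000 * xD + cC (-17256) 10000 * xV + cC (31457) 10000 * (xD * xV) + cC (838) 10000 * (xV * xV) + cC (-1012737) 10000 * (xD * xD) + cC (26649) 10000 * xS,
    cC (-4297) 10000 + cC (60841) 10000 * xD + cC (-6741) 10000 * xV,
    cC (-13443) 10000 + cC (1770) 10000 * xD + cC (-954) 10000 * xV,
    cC 0,
    cC 0⟩

/-- The least `u`. -/
def tB19Lo : Ex :=
  cC (149) 160

/-- A piece: `2.289 ≤ v < 2.757`. -/
def tB20 : Piece where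
  u₀ := cC (39) 40
  u₁ := cC (878) 1000 + cC (141) 1000 * xD + cC (28) 1000 * xV
  tLn := lowTn
  tLd := lowTd
  tUn := evN
  tUd := evD
  p₀ := cC (228274) 10000 + cC (-97652) 10000 * xD + cC (-38209) 10000 * xV + cC (86631) 10000 * (xD * xV) + cC (-134594) 10000 * (xD * xD) + cC (-169375) 10000 * xS
  zL := cC (-28981) 10000 + cC (98768) 10000 * xD + cC (16008) 10000 * xV + cC (-39197) 10000 * (xD * xV) + cC (-2164) 10000 * (xV * xV) + cC (-52863) 10000 * (xD * xD) + cC (6540) 10000 * xS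
  zU := cC (31794) 10000 + cC (-138530) 10000 * xD + cC (-15420) 10000 * xV + cC (25808) 10000 * (xD * xV) + cC (2285) 10000 * (xV * xV) + cC (210443) 10000 * (xD * xD) + cC (82) 10000 * xS
  k2p := fun e => cC (300) 10000 + cC (-28) 10000 * xD + cC (-152) 10000 * xV + cC (-97) 10000 * e
  k2m := fun e => cC (18421) 10000 + cC (-9303) 10000 * xD + cC (-4645) 10000 * xV + cC (2755) 10000 * e
  kapL := fun e => cC (2953) 10000 + cC (-1789) 10000 * xD + cC (109) 10000 * xV + cC (1164) 10000 * e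
  kapU := fun e => cC (187) 10000 + cC (1553) 10000 * xD + cC (736) 10000 * xV + cC (810) 10000 * e
  eL := ⟨cC (-92345) 10000 + cC (272875) 10000 * xD + cC (25723) 10000 * xV + cC (-497) 10000 * (xV * xV) + cC (-57793) 10000 * (xD * xV) + cC (-308604) 10000 * (xD * xD) + cC (-7) 10000 * xS,
    cC 0,
    cC 0,
    cC 0,
    cC (-15022) 10000 + cC (111295) 10000 * xD + cC (6564) 10000 * xV + cC (-48622) 10000 * (xD * xV)⟩
  eH := ⟨cC (-37889) 10000 + cC (-28490) 10000 * xD + cC (6430) 10000 * xV + cC (917) 10000 * (xV * xV) + cC (-17253) 10000 * (xD * xV) + cC (313908) 10000 * (xD * xD) + cC (4109) 10000 * xS,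
    cC 0,
    cC 0,
    cC 0,
    cC (-10689) 10000 + cC (98272) 10000 * xD + cC (3376) 10000 * xV + cC (-31030) 10000 * (xD * xV)⟩
  pL := ⟨cC (-267317) 10000 + cC (1506246) 10000 * xD + cC (235045) 10000 * xV + cC (-414674) 10000 * (xD * xV) + cC (-34697) 10000 * (xV * xV) + cC (-967096) 10000 * (xD * xD) + cC (-200469) 10000 * xS,
    cC (-49198) 10000 + cC (89239) 10000 * xD + cC (8711) 10000 * xV,
    cC 0,
    cC 0,
    cC 0⟩
  pU := ⟨cC (251711) 10000 + cC (36384) 10000 * xD + cC (-22706) 10000 * xV + cC (5090) 10000 * (xD * xV) + cC (785) 10000 * (xV * xV) + cC (308856) 10000 * (xD * xD) + cC (-279935) 10000 * xS,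
    cC (-31210) 10000 + cC (85190) 10000 * xD + cC (3516) 10000 * xV,
    cC 0,
    cC 0,
    cC (51761) 10000 + cC (3518) 10000 * xD + cC (10815) 10000 * xV + cC (-100835) 10000 * (xD * xV)⟩
  kU := ⟨cC (-984) 10000 + cC (-3893) 10000 * xD + cC (-526) 10000 * xV + cC (724) 10000 * (xD * xV) + cC (68) 10000 * (xV * xV) + cC (11216) 10000 * (xD * xD) + cC (3010) 10000 * xS,
    cC (-591) 10000 + cC (9567) 10000 * xD + cC (-6) 10000 * xV,
    cC (-251) 10000 + cC (2705) 10000 * xD + cC (32) 10000 * xV,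
    cC 0,
    cC 0⟩
  kL := ⟨cC (-1695) 10000 + cC (2603) 10000 * xD + cC (-297) 10000 * xV + cC (948) 10000 * (xD * xV) + cC (17) 10000 * (xV * xV) + cC (-10955) 10000 * (xD * xD) + cC (2901) 10000 * xS,
    cC (-633) 10000 + cC (10236) 10000 * xD + cC (-23) 10000 * xV,
    cC (-224) 10000 + cC (2595) 10000 * xD + cC (25) 10000 * xV,
    cC 0,
    cC 0⟩
  wU := ⟨cC (2001) 10000 + cC (85045) 10000 * xD + cC (-19882) 10000 * xV + cC (-28387) 10000 * (xD * xV) + cC (3249) 10000 * (xV * xV) + cC (89501) 10000 * (xD * xD) + cC (42909) 10000 * xS,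
    cC (-2040) 10000 + cC (10628) 10000 * xD + cC (-5206) 10000 * xV,
    cC (-11612) 10000 + cC (-6543) 10000 * xD + cC (-1100) 10000 * xV,
    cC 0,
    cC 0⟩
  wL := ⟨cC (-36434) 10000 + cC (136735) 10000 * xD + cC (3480) 10000 * xV + cC (-40546) 10000 * (xD * xV) + cC (-2122) 10000 * (xV * xV) + cC (-13101) 10000 * (xD * xD) + cC (60494) 10000 * xS,
    cC (-25101) 10000 + cC (1003) 10000 * xD + cC (4651) 10000 * xV,
    cC (-24209) 10000 + cC (-8924) 10000 * xD + cC (4154) 10000 * xV,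
    cC 0,
    cC 0⟩

/-- The least `u`. -/
def tB20Lo : Ex :=
  cC (149) 160

/-- The upper end of `u`. -/
def tB21Hi : Ex :=
  cC (39) 40

/-- The least `u`. -/
def tB21Lo : Ex :=
  cC (149) 160

/-- A piece: `2.757 ≤ v < 3.321`. -/
def tB22 : Piece where
  u₀ := cC (39) 40
  u₁ := cC (942) 1000 + cC (81) 1000 * xD + cC (6) 1000 * xV
  tLn := lowTn
  tLd := lowTd
  tUn := evN
  tUd := evD
  p₀ := cC (234880) 10000 + cC (-93002) 10000 * xD + cC (-38579) 10000 * xV + cC (89963) 10000 * (xD * xV) + cC (-201848) 10000 * (xD * xD) + cC (-178773) 10000 * xS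
  zL := cC (-2488) 10000 + cC (9549) 10000 * xD + cC (4469) 10000 * xV + cC (-15954) 10000 * (xD * xV) + cC (-562) 10000 * (xV * xV) + cC (58362) 10000 * (xD * xD) + cC (-1596) 10000 * xS
  zU := cC (8791) 10000 + cC (3225) 10000 * xD + cC (-11151) 10000 * xV + cC (-20824) 10000 * (xD * xV) + cC (2479) 10000 * (xV * xV) + cC (162443) 10000 * (xD * xD) + cC (13591) 10000 * xS
  k2p := fun e => cC (3) 10000 + cC (-88) 10000 * xD + cC (-5) 10000 * xV + cC (-34) 10000 * e
  k2m := fun e => cC (5700) 10000 + cC (-122) 10000 * xD + cC (-1263) 10000 * xV + cC (1182) 10000 * e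
  kapL := fun e => cC (-4286) 10000 + cC (7418) 10000 * xD + cC (2933) 10000 * xV + cC (2235) 10000 * e
  kapU := fun e => cC (2098) 10000 + cC (4685) 10000 * xD + cC (1389) 10000 * xV + cC (3311) 10000 * e
  eL := ⟨cC (-84885) 10000 + cC (223616) 10000 * xD + cC (18133) 10000 * xV + cC (-218) 10000 * (xV * xV) + cC (-50733) 10000 * (xD * xV) + cC (-239194) 10000 * (xD * xD) + cC (19284) 10000 * xS,
    cC 0,
    cC 0,
    cC 0,
    cC (20297) 10000 + cC (-150229) 10000 * xD + cC (-485) 10000 * xV + cC (3590) 10000 * (xD * xV)⟩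
  eH := ⟨cC (-63805) 10000 + cC (110924) 10000 * xD + cC (10337) 10000 * xV + cC (644) 10000 * (xV * xV) + cC (-42303) 10000 * (xD * xV) + cC (14555) 10000 * (xD * xD) + cC (23664) 10000 * xS,
    cC 0,
    cC 0,
    cC 0,
    cC (-5891) 10000 + cC (71428) 10000 * xD + cC (1175) 10000 * xV + cC (-14241) 10000 * (xD * xV)⟩
  pL := ⟨cC (69728) 10000 + cC (535761) 10000 * xD + cC (46723) 10000 * xV + cC (-110414) 10000 * (xD * xV) + cC (-7689) 10000 * (xV * xV) + cC (5090) 10000 * (xD * xD) + cC (-229632) 10000 * xS,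
    cC (-47330) 10000 + cC (137956) 10000 * xD + cC (6368) 10000 * xV,
    cC 0,
    cC 0,
    cC 0⟩
  pU := ⟨cC (224406) 10000 + cC (10823) 10000 * xD + cC (-23858) 10000 * xV + cC (10142) 10000 * (xD * xV) + cC (725) 10000 * (xV * xV) + cC (428036) 10000 * (xD * xD) + cC (-235904) 10000 * xS,
    cC (-31753) 10000 + cC (96296) 10000 * xD + cC (2990) 10000 * xV,
    cC 0,
    cC 0,
    cC (63774) 10000 + cC (-44851) 10000 * xD + cC (10589) 10000 * xV + cC (-110491) 10000 * (xD * xV)⟩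
  kU := ⟨cC (-225) 10000 + cC (6598) 10000 * xD + cC (-550) 10000 * xV + cC (-2100) 10000 * (xD * xV) + cC (116) 10000 * (xV * xV) + cC (6189) 10000 * (xD * xD) + cC (1140) 10000 * xS,
    cC (-628) 10000 + cC (7864) 10000 * xD + cC (54) 10000 * xV,
    cC (-233) 10000 + cC (1614) 10000 * xD + cC (55) 10000 * xV,
    cC 0,
    cC (-1365) 10000 + cC (16574) 10000 * xD + cC (330) 10000 * xV + cC (-3998) 10000 * (xD * xV)⟩
  kL := ⟨cC (437) 10000 + cC (8862) 10000 * xD + cC (-648) 10000 * xV + cC (-2483) 10000 * (xD * xV) + cC (121) 10000 * (xV * xV) + cC (3896) 10000 * (xD * xD) + cC (420) 10000 * xS,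
    cC (-578) 10000 + cC (7701) 10000 * xD + cC (31) 10000 * xV,
    cC (-251) 10000 + cC (1315) 10000 * xD + cC (62) 10000 * xV,
    cC 0,
    cC (-1183) 10000 + cC (8790) 10000 * xD + cC (430) 10000 * xV + cC (-3188) 10000 * (xD * xV)⟩
  wU := ⟨cC (94311) 10000 + cC (84817) 10000 * xD + cC (-69033) 10000 * xV + cC (-34113) 10000 * (xD * xV) + cC (11140) 10000 * (xV * xV) + cC (96352) 10000 * (xD * xD) + cC (20467) 10000 * xS,
    cC (-15568) 10000 + cC (-5697) 10000 * xD + cC (150) 10000 * xV,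
    cC (-22469) 10000 + cC (-9424) 10000 * xD + cC (2849) 10000 * xV,
    cC 0,
    cC (-13202) 10000 + cC (160048) 10000 * xD + cC (3976) 10000 * xV + cC (-48193) 10000 * (xD * xV)⟩
  wL := ⟨cC (124724) 10000 + cC (323005) 10000 * xD + cC (-76008) 10000 * xV + cC (-79787) 10000 * (xD * xV) + cC (12159) 10000 * (xV * xV) + cC (-45618) 10000 * (xD * xD) + cC (-19446) 10000 * xS,
    cC (-14419) 10000 + cC (16743) 10000 * xD + cC (-1744) 10000 * xV,
    cC (-22572) 10000 + cC (-22014) 10000 * xD + cC (2816) 10000 * xV,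
    cC 0,
    cC (-105767) 10000 + cC (694435) 10000 * xD + cC (38364) 10000 * xV + cC (-251881) 10000 * (xD * xV)⟩

/-- The least `u`. -/
def tB22Lo : Ex :=
  cC (149) 160

/-- The upper end of `u`. -/
def tB23Hi : Ex :=
  cC (4) 5

/-- The least `u`. -/
def tB23Lo : Ex :=
  cC (3) 5

end Vale.Agent.P100.Calib.Closed.Six.Tail
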