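import Vale.Agent.P100.Calib.SlabSixTailRules

/-!
# The pieces of the certificate
-/

namespace Vale.Agent.P100.Calib.Closed.Six.Tail

open BoxPos Large

local instance sixTailDataCAdd : Add Ex := ⟨Ex.add⟩
local instance sixTailDataCSub : Sub Ex := ⟨Ex.sub⟩
local instance sixTailDataCMul : Mul Ex := ⟨Ex.mul⟩

/-- A piece: `0.29 ≤ v < 0.353`. -/
def tC0 : Piece where
  u₀ := cC (4) 5
  u₁ := cC (3) 5
  tLn := lowTn
  tLd := lowTd
  tUn := upCn
  tUd := upCd
  p₀ := cC (191532) 10000 + cC (-136484) 10000 * xD + cC (-34526) 10000 * xV + cC (63578) 10000 * (xD * xV) + cC (81778) 10000 * (xD * xD) + cC (-112811) 10000 * xS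
  zL := cC 0
  zU := cC 0
  k2p := fun _ => cC 0
  k2m := fun _ => cC 0
  kapL := fun _ => cC 0
  kapU := fun _ => cC 0
  eL := ⟨cC 0, cC 0, cC 0, cC 0, cC 0⟩
  eH := ⟨cC 0, cC 0, cC 0, cC 0, cC 0⟩
  pL := ⟨cC 0, cC 0, cC 0, cC 0, cC 0⟩
  pU := ⟨cC 0,
    cC 0,
    cC 0,
    cC (10000) 10000,
    cC (-12925) 10000 + cC (53178) 10000 * xD + cC (42572) 10000 * xV + cC (-168487) 10000 * (xD * xV)⟩
  kU := ⟨cC 0, cC 0, cC 0, cC 0, cC 0⟩
  kL := ⟨cC 0, cC 0, cC 0, cC 0, cC 0⟩
  wU := ⟨cC 0, cC 0, cC 0, cC 0, cC 0⟩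
  wL := ⟨cC 0, cC 0, cC 0, cC 0, cC 0⟩

/-- A piece: `0.353 ≤ v < 0.43`. -/
def tC1 : Piece where
  u₀ := cC (4) 5
  u₁ := cC (7) 10
  tLn := lowTn
  tLd := lowTd
  tUn := upCn
  tUd := upCd
  p₀ := cC (191247) 10000 + cC (-133645) 10000 * xD + cC (-34526) 10000 * xV + cC (63578) 10000 * (xD * xV) + cC (76291) 10000 * (xD * xD) + cC (-112886) 10000 * xS
  zL := cC 0
  zU := cC 0
  k2p := fun _ => cC 0
  k2m := fun _ => cC 0
  kapL := fun _ => cC 0
  kapU := fun _ => cC 0
  eL := ⟨cC 0, cC 0, cC 0, cC 0, cC 0⟩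
  eH := ⟨cC 0, cC 0, cC 0, cC 0, cC 0⟩
  pL := ⟨cC 0, cC 0, cC 0, cC 0, cC 0⟩
  pU := ⟨cC 0,
    cC 0,
    cC 0,
    cC (10000) 10000,
    cC (-18090) 10000 + cC (73102) 10000 * xD + cC (49091) 10000 * xV + cC (-191043) 10000 * (xD * xV)⟩
  kU := ⟨cC 0, cC 0, cC 0, cC 0, cC 0⟩
  kL := ⟨cC 0, cC 0, cC 0, cC 0, cC 0⟩
  wU := ⟨cC 0, cC 0, cC 0, cC 0, cC 0⟩
  wL := ⟨cC 0, cC 0, cC 0, cC 0, cC 0⟩

/-- A piece: `0.43 ≤ v < 0.55`. -/
def tC2 : Piece where
  u₀ := cC (4) 5
  u₁ := cC (3) 5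
  tLn := lowTn
  tLd := lowTd
  tUn := upCn
  tUd := upCd
  p₀ := cC (189214) 10000 + cC (-128956) 10000 * xD + cC (-34737) 10000 * xV + cC (64586) 10000 * (xD * xV) + cC (66404) 10000 * (xD * xD) + cC (-110633) 10000 * xS
  zL := cC (9872) 10000 + cC (-14649) 10000 * xD + cC (-1568) 10000 * xV + cC (-5770) 10000 * (xD * xV) + cC (367) 10000 * (xV * xV) + cC (15831) 10000 * (xD * xD) + cC (-1955) 10000 * xS
  zU := cC (10756) 10000 + cC (-4680) 10000 * xD + cC (-1323) 10000 * xV + cC (-7726) 10000 * (xD * xV) + cC (704) 10000 * (xV * xV) + cC (-3285) 10000 * (xD * xD) + cC (-2050) 10000 * xS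
  k2p := fun _ => cC (10) 10000
  k2m := fun e => cC (6443) 10000 + cC (8158) 10000 * xD + cC (-13451) 10000 * xV + cC (-52) 10000 * e
  kapL := fun e => cC (6) 10000 + cC (63) 10000 * xD + cC (96) 10000 * xV + cC (1) 10000 * e
  kapU := fun e => cC (-261) 10000 + cC (203) 10000 * xD + cC (377) 10000 * xV + cC (-11) 10000 * e
  eL := ⟨cC (-106132) 10000 + cC (160079) 10000 * xD + cC (664771) 10000 * xV + cC (-594732) 10000 * (xV * xV) + cC (-237915) 10000 * (xD * xV) + cC (-39402) 10000 * (xD * xD) + cC (-295386) 10000 * xS,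
    cC 0,
    cC 0,
    cC (2504) 10000,
    cC 0⟩
  eH := ⟨cC (-192079) 10000 + cC (-79429) 10000 * xD + cC (247240) 10000 * xV + cC (122762) 10000 * (xV * xV) + cC (-442118) 10000 * (xD * xV) + cC (843814) 10000 * (xD * xD) + cC (-49975) 10000 * xS,
    cC 0,
    cC 0,
    cC (52672) 10000,
    cC 0⟩
  pL := ⟨cC (188922) 10000 + cC (-128956) 10000 * xD + cC (-34737) 10000 * xV + cC (64586) 10000 * (xD * xV) + cC (66404) 10000 * (xD * xD) + cC (-110633) 10000 * xS,
    cC 0,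
    cC 0,
    cC (10000) 10000,
    cC 0⟩
  pU := ⟨cC (226253) 10000 + cC (-160593) 10000 * xD + cC (-200888) 10000 * xV + cC (46368) 10000 * (xD * xV) + cC (164985) 10000 * (xV * xV) + cC (180002) 10000 * (xD * xD) + cC (-116400) 10000 * xS,
    cC (969) 10000 + cC (-35) 10000 * xD + cC (-4659) 10000 * xV,
    cC 0,
    cC 0,
    cC 0⟩
  kU := ⟨cC (-8155) 10000 + cC (16621) 10000 * xD + cC (-3246) 10000 * xV + cC (6801) 10000 * (xD * xV) + cC (927) 10000 * (xV * xV) + cC (-28312) 10000 * (xD * xD) + cC (12617) 10000 * xS,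
    cC (-660) 10000 + cC (11349) 10000 * xD + cC (-101) 10000 * xV,
    cC (-45) 10000 + cC (730) 10000 * xD + cC (105) 10000 * xV,
    cC 0,
    cC 0⟩
  kL := ⟨cC (-15786) 10000 + cC (26154) 10000 * xD + cC (3217) 10000 * xV + cC (1216) 10000 * (xD * xV) + cC (3168) 10000 * (xV * xV) + cC (-35832) 10000 * (xD * xD) + cC (14778) 10000 * xS,
    cC (-568) 10000 + cC (11304) 10000 * xD + cC (-218) 10000 * xV,
    cC (768) 10000 + cC (391) 10000 * xD + cC (-1030) 10000 * xV,
    cC 0,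
    cC 0⟩
  wU := ⟨cC (103652) 10000 + cC (24892) 10000 * xD + cC (-58822) 10000 * xV + cC (69398) 10000 * (xD * xV) + cC (51118) 10000 * (xV * xV) + cC (64899) 10000 * (xD * xD) + cC (34657) 10000 * xS,
    cC (520) 10000 + cC (2581) 10000 * xD + cC (-8882) 10000 * xV,
    cC (-18933) 10000 + cC (-23003) 10000 * xD + cC (-5629) 10000 * xV,
    cC 0,
    cC 0⟩
  wL := ⟨cC (-80897) 10000 + cC (193130) 10000 * xD + cC (32385) 10000 * xV + cC (-81778) 10000 * (xD * xV) + cC (-10301) 10000 * (xV * xV) + cC (-154166) 10000 * (xD * xD) + cC (156763) 10000 * xS,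
    cC (-2311) 10000 + cC (7407) 10000 * xD + cC (-3236) 10000 * xV,
    cC (-15287) 10000 + cC (-9282) 10000 * xD + cC (-987) 10000 * xV,
    cC 0,
    cC 0⟩

/-- A piece: `0.55 ≤ v < 0.9`. -/
def tC3 : Piece where
  u₀ := cC (4) 5
  u₁ := cC (3) 5
  tLn := lowTn
  tLd := lowTd
  tUn := upCn
  tUd := upCd
  p₀ := cC (188229) 10000 + cC (-118920) 10000 * xD + cC (-34813) 10000 * xV + cC (65440) 10000 * (xD * xV) + cC (44948) 10000 * (xD * xD) + cC (-110938) 10000 * xS
  zL := cC (10175) 10000 + cC (-16673) 10000 * xD + cC (-1782) 10000 * xV + cC (-4400) 10000 * (xD * xV) + cC (339) 10000 * (xV * xV) + cC (18172) 10000 * (xD * xD) + cC (-1988) 10000 * xS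
  zU := cC (11243) 10000 + cC (-7468) 10000 * xD + cC (-1738) 10000 * xV + cC (-6173) 10000 * (xD * xV) + cC (653) 10000 * (xV * xV) + cC (1073) 10000 * (xD * xD) + cC (-2081) 10000 * xS
  k2p := fun e => cC (846) 10000 + cC (-2934) 10000 * xD + cC (47) 10000 * xV + cC (-17) 10000 * e
  k2m := fun e => cC (2340) 10000 + cC (4049) 10000 * xD + cC (-3392) 10000 * xV + cC (-47) 10000 * e
  kapL := fun e => cC (118) 10000 + cC (50) 10000 * xD + cC (-44) 10000 * xV + cC (4) 10000 * e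
  kapU := fun e => cC (-285) 10000 + cC (330) 10000 * xD + cC (434) 10000 * xV + cC (-10) 10000 * e
  eL := ⟨cC (90652) 10000 + cC (-124211) 10000 * xD + cC (-11248) 10000 * xV + cC (-727) 10000 * (xV * xV) + cC (94057) 10000 * (xD * xV) + cC (180426) 10000 * (xD * xD) + cC (-285681) 10000 * xS,
    cC 0,
    cC 0,
    cC (197) 10000,
    cC 0⟩
  eH := ⟨cC (42447) 10000 + cC (-108536) 10000 * xD + cC (-8675) 10000 * xV + cC (52) 10000 * (xV * xV) + cC (106840) 10000 * (xD * xV) + cC (146853) 10000 * (xD * xD) + cC (-156537) 10000 * xS,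
    cC 0,
    cC 0,
    cC 0,
    cC 0⟩
  pL := ⟨cC (187914) 10000 + cC (-118920) 10000 * xD + cC (-34813) 10000 * xV + cC (65440) 10000 * (xD * xV) + cC (44948) 10000 * (xD * xD) + cC (-110938) 10000 * xS,
    cC 0,
    cC 0,
    cC (10000) 10000,
    cC 0⟩
  pU := ⟨cC (227312) 10000 + cC (-177876) 10000 * xD + cC (-108029) 10000 * xV + cC (86262) 10000 * (xD * xV) + cC (42783) 10000 * (xV * xV) + cC (214467) 10000 * (xD * xD) + cC (-137272) 10000 * xS,
    cC (1250) 10000 + cC (2531) 10000 * xD + cC (-5669) 10000 * xV,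
    cC 0,
    cC 0,
    cC 0⟩
  kU := ⟨cC (-9681) 10000 + cC (16518) 10000 * xD + cC (-563) 10000 * xV + cC (3292) 10000 * (xD * xV) + cC (381) 10000 * (xV * xV) + cC (-29750) 10000 * (xD * xD) + cC (13323) 10000 * xS,
    cC (-761) 10000 + cC (11250) 10000 * xD + cC (67) 10000 * xV,
    cC (-102) 10000 + cC (1034) 10000 * xD + cC (93) 10000 * xV,
    cC 0,
    cC 0⟩
  kL := ⟨cC (-10234) 10000 + cC (21631) 10000 * xD + cC (225) 10000 * xV + cC (4088) 10000 * (xD * xV) + cC (238) 10000 * (xV * xV) + cC (-35582) 10000 * (xD * xD) + cC (11528) 10000 * xS,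
    cC (-633) 10000 + cC (11322) 10000 * xD + cC (-119) 10000 * xV,
    cC (208) 10000 + cC (732) 10000 * xD + cC (-209) 10000 * xV,
    cC 0,
    cC 0⟩
  wU := ⟨cC (150657) 10000 + cC (-9261) 10000 * xD + cC (-44450) 10000 * xV + cC (-3112) 10000 * (xD * xV) + cC (-5459) 10000 * (xV * xV) + cC (73139) 10000 * (xD * xD) + cC (-13588) 10000 * xS,
    cC (-3271) 10000 + cC (11801) 10000 * xD + cC (-6506) 10000 * xV,
    cC (-28524) 10000 + cC (-2319) 10000 * xD + cC (4915) 10000 * xV,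
    cC 0,
    cC 0⟩
  wL := ⟨cC (31038) 10000 + cC (179204) 10000 * xD + cC (17381) 10000 * xV + cC (-14146) 10000 * (xD * xV) + cC (3152) 10000 * (xV * xV) + cC (-92560) 10000 * (xD * xD) + cC (11693) 10000 * xS,
    cC (135) 10000 + cC (1111) 10000 * xD + cC (-7333) 10000 * xV,
    cC (-12806) 10000 + cC (-25950) 10000 * xD + cC (-5952) 10000 * xV,
    cC 0,
    cC 0⟩

/-- A piece: `0.9 ≤ v < 1.162`. -/
def tC4 : Piece where
  u₀ := cC (4) 5
  u₁ := cC (-278) 1000 + cC (0) 1000 * xD + cC (916) 1000 * xV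
  tLn := lowTn
  tLd := lowTd
  tUn := upCn
  tUd := upCd
  p₀ := cC (201497) 10000 + cC (-120790) 10000 * xD + cC (-36752) 10000 * xV + cC (75667) 10000 * (xD * xV) + cC (24018) 10000 * (xD * xD) + cC (-128988) 10000 * xS
  zL := cC (10783) 10000 + cC (-23743) 10000 * xD + cC (-1653) 10000 * xV + cC (-4062) 10000 * (xD * xV) + cC (246) 10000 * (xV * xV) + cC (34905) 10000 * (xD * xD) + cC (-1921) 10000 * xS
  zU := cC (10132) 10000 + cC (-12186) 10000 * xD + cC (7206) 10000 * xV + cC (-11630) 10000 * (xD * xV) + cC (-6908) 10000 * (xV * xV) + cC (27755) 10000 * (xD * xD) + cC (-1574) 10000 * xS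
  k2p := fun e => cC (3460) 10000 + cC (-1879) 10000 * xD + cC (-2118) 10000 * xV + cC (56) 10000 * e
  k2m := fun e => cC (418) 10000 + cC (1160) 10000 * xD + cC (-591) 10000 * xV + cC (-22) 10000 * e
  kapL := fun e => cC (-269) 10000 + cC (75) 10000 * xD + cC (354) 10000 * xV + cC (-4) 10000 * e
  kapU := fun e => cC (-239) 10000 + cC (165) 10000 * xD + cC (395) 10000 * xV + cC (-11) 10000 * e
  eL := ⟨cC (-118801) 10000 + cC (-92132) 10000 * xD + cC (194356) 10000 * xV + cC (-1598) 10000 * (xV * xV) + cC (91132) 10000 * (xD * xV) + cC (100010) 10000 * (xD * xD) + cC (-269427) 10000 * xS,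
    cC 0,
    cC 0,
    cC 0,
    cC 0⟩
  eH := ⟨cC (37203) 10000 + cC (-101683) 10000 * xD + cC (-6757) 10000 * xV + cC (-148) 10000 * (xV * xV) + cC (97126) 10000 * (xD * xV) + cC (149599) 10000 * (xD * xD) + cC (-150717) 10000 * xS,
    cC 0,
    cC 0,
    cC 0,
    cC 0⟩
  pL := ⟨cC (215709) 10000 + cC (-109041) 10000 * xD + cC (-58294) 10000 * xV + cC (75218) 10000 * (xD * xV) + cC (3629) 10000 * (xV * xV) + cC (61195) 10000 * (xD * xD) + cC (-122787) 10000 * xS,
    cC (6363) 10000 + cC (4268) 10000 * xD + cC (-7665) 10000 * xV,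
    cC 0,
    cC 0,
    cC 0⟩
  pU := ⟨cC (251900) 10000 + cC (-125003) 10000 * xD + cC (-63116) 10000 * xV + cC (64326) 10000 * (xD * xV) + cC (17275) 10000 * (xV * xV) + cC (199003) 10000 * (xD * xD) + cC (-206872) 10000 * xS,
    cC (617) 10000 + cC (5715) 10000 * xD + cC (-5159) 10000 * xV,
    cC 0,
    cC 0,
    cC 0⟩
  kU := ⟨cC (-6261) 10000 + cC (13536) 10000 * xD + cC (-2210) 10000 * xV + cC (6262) 10000 * (xD * xV) + cC (-524) 10000 * (xV * xV) + cC (-28401) 10000 * (xD * xD) + cC (11349) 10000 * xS,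
    cC (-750) 10000 + cC (11184) 10000 * xD + cC (33) 10000 * xV,
    cC (-354) 10000 + cC (1060) 10000 * xD + cC (344) 10000 * xV,
    cC 0,
    cC 0⟩
  kL := ⟨cC (-6176) 10000 + cC (18328) 10000 * xD + cC (-2064) 10000 * xV + cC (6582) 10000 * (xD * xV) + cC (-594) 10000 * (xV * xV) + cC (-42109) 10000 * (xD * xD) + cC (10242) 10000 * xS,
    cC (-716) 10000 + cC (11450) 10000 * xD + cC (-51) 10000 * xV,
    cC (-349) 10000 + cC (1299) 10000 * xD + cC (293) 10000 * xV,
    cC 0,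
    cC 0⟩
  wU := ⟨cC (250780) 10000 + cC (-97351) 10000 * xD + cC (-99923) 10000 * xV + cC (87247) 10000 * (xD * xV) + cC (-58124) 10000 * (xV * xV) + cC (70679) 10000 * (xD * xD) + cC (-3149) 10000 * xS,
    cC (-16374) 10000 + cC (12000) 10000 * xD + cC (7147) 10000 * xV,
    cC (-55089) 10000 + cC (-2253) 10000 * xD + cC (31971) 10000 * xV,
    cC 0,
    cC 0⟩
  wL := ⟨cC (214323) 10000 + cC (31199) 10000 * xD + cC (-84476) 10000 * xV + cC (60906) 10000 * (xD * xV) + cC (-50844) 10000 * (xV * xV) + cC (-31341) 10000 * (xD * xD) + cC (-20652) 10000 * xS,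
    cC (-6350) 10000 + cC (11374) 10000 * xD + cC (-2916) 10000 * xV,
    cC (-44134) 10000 + cC (-9784) 10000 * xD + cC (22971) 10000 * xV,
    cC 0,
    cC 0⟩

/-- The least `u`. -/
def tC4Lo : Ex :=
  cC (3) 5

/-- A piece: `0.9 ≤ v < 1.023`. -/
def tC5 : Piece where
  u₀ := cC (4) 5
  u₁ := cC (-169) 1000 + cC (1432) 1000 * xD + cC (472) 1000 * xV
  tLn := lowTn
  tLd := lowTd
  tUn := upCn
  tUd := upCd
  p₀ := cC (186795) 10000 + cC (-104226) 10000 * xD + cC (-33907) 10000 * xV + cC (62267) 10000 * (xD * xV) + cC (22790) 10000 * (xD * xD) + cC (-112261) 10000 * xS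
  zL := cC (10763) 10000 + cC (-14788) 10000 * xD + cC (-2325) 10000 * xV + cC (-2875) 10000 * (xD * xV) + cC (439) 10000 * (xV * xV) + cC (12460) 10000 * (xD * xD) + cC (-2882) 10000 * xS
  zU := cC (18453) 10000 + cC (-26267) 10000 * xD + cC (-5238) 10000 * xV + cC (-2797) 10000 * (xD * xV) + cC (-31) 10000 * (xV * xV) + cC (10100) 10000 * (xD * xD) + cC (-2453) 10000 * xS
  k2p := fun e => cC (-889) 10000 + cC (599) 10000 * xD + cC (226) 10000 * xV + cC (-86) 10000 * e
  k2m := fun e => cC (2263) 10000 + cC (1816) 10000 * xD + cC (-2050) 10000 * xV + cC (46) 10000 * e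
  kapL := fun e => cC (-364) 10000 + cC (481) 10000 * xD + cC (336) 10000 * xV + cC (-7) 10000 * e
  kapU := fun e => cC (-354) 10000 + cC (441) 10000 * xD + cC (390) 10000 * xV + cC (-16) 10000 * e
  eL := ⟨cC (-163769) 10000 + cC (374141) 10000 * xD + cC (126373) 10000 * xV + cC (-4739) 10000 * (xV * xV) + cC (4253) 10000 * (xD * xV) + cC (-6816) 10000 * (xD * xD) + cC (-219817) 10000 * xS,
    cC 0,
    cC 0,
    cC 0,
    cC 0⟩
  eH := ⟨cC (14848) 10000 + cC (-131001) 10000 * xD + cC (-10734) 10000 * xV + cC (173) 10000 * (xV * xV) + cC (110022) 10000 * (xD * xV) + cC (179172) 10000 * (xD * xD) + cC (-108598) 10000 * xS,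
    cC 0,
    cC 0,
    cC 0,
    cC 0⟩
  pL := ⟨cC (246822) 10000 + cC (-420591) 10000 * xD + cC (-53067) 10000 * xV + cC (115799) 10000 * (xD * xV) + cC (5429) 10000 * (xV * xV) + cC (305169) 10000 * (xD * xD) + cC (-107378) 10000 * xS,
    cC (8821) 10000 + cC (-19432) 10000 * xD + cC (-4820) 10000 * xV,
    cC 0,
    cC 0,
    cC 0⟩
  pU := ⟨cC (214561) 10000 + cC (-239306) 10000 * xD + cC (-44006) 10000 * xV + cC (98498) 10000 * (xD * xV) + cC (9869) 10000 * (xV * xV) + cC (268899) 10000 * (xD * xD) + cC (-145977) 10000 * xS,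
    cC (467) 10000 + cC (313) 10000 * xD + cC (-3705) 10000 * xV,
    cC 0,
    cC 0,
    cC 0⟩
  kU := ⟨cC (-11338) 10000 + cC (24252) 10000 * xD + cC (-2938) 10000 * xV + cC (-3190) 10000 * (xD * xV) + cC (2216) 10000 * (xV * xV) + cC (-36447) 10000 * (xD * xD) + cC (16463) 10000 * xS,
    cC (-905) 10000 + cC (11231) 10000 * xD + cC (202) 10000 * xV,
    cC (-285) 10000 + cC (1237) 10000 * xD + cC (233) 10000 * xV,
    cC 0,
    cC 0⟩
  kL := ⟨cC (-11319) 10000 + cC (24051) 10000 * xD + cC (-338) 10000 * xV + cC (3746) 10000 * (xD * xV) + cC (-788) 10000 * (xV * xV) + cC (-43407) 10000 * (xD * xD) + cC (14660) 10000 * xS,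
    cC (-661) 10000 + cC (11353) 10000 * xD + cC (-94) 10000 * xV,
    cC (-176) 10000 + cC (1111) 10000 * xD + cC (157) 10000 * xV,
    cC 0,
    cC 0⟩
  wU := ⟨cC (254333) 10000 + cC (-344499) 10000 * xD + cC (-83543) 10000 * xV + cC (-50680) 10000 * (xD * xV) + cC (-29133) 10000 * (xV * xV) + cC (133482) 10000 * (xD * xD) + cC (61071) 10000 * xS,
    cC (-11119) 10000 + cC (24786) 10000 * xD + cC (-971) 10000 * xV,
    cC (-55593) 10000 + cC (48736) 10000 * xD + cC (20034) 10000 * xV,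
    cC 0,
    cC 0⟩
  wL := ⟨cC (147286) 10000 + cC (-82903) 10000 * xD + cC (9291) 10000 * xV + cC (-109745) 10000 * (xD * xV) + cC (-35056) 10000 * (xV * xV) + cC (-9246) 10000 * (xD * xD) + cC (14231) 10000 * xS,
    cC (-7854) 10000 + cC (16838) 10000 * xD + cC (-2822) 10000 * xV,
    cC (-43331) 10000 + cC (32046) 10000 * xD + cC (12191) 10000 * xV,
    cC 0,
    cC 0⟩

/-- The least `u`. -/
def tC5Lo : Ex :=
  cC (3) 5

/-- A piece: `1.023 ≤ v < 1.162`. -/
def tC6 : Piece where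
  u₀ := cC (4) 5
  u₁ := cC (688) 1000 + cC (389) 1000 * xD + cC (0) 1000 * xV
  tLn := lowTn
  tLd := lowTd
  tUn := upCn
  tUd := upCd
  p₀ := cC (191416) 10000 + cC (-104564) 10000 * xD + cC (-34870) 10000 * xV + cC (66187) 10000 * (xD * xV) + cC (14448) 10000 * (xD * xD) + cC (-118250) 10000 * xS
  zL := cC (10847) 10000 + cC (-15880) 10000 * xD + cC (-2309) 10000 * xV + cC (-2654) 10000 * (xD * xV) + cC (404) 10000 * (xV * xV) + cC (14074) 10000 * (xD * xD) + cC (-2805) 10000 * xS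
  zU := cC (12566) 10000 + cC (-22807) 10000 * xD + cC (-2188) 10000 * xV + cC (-3289) 10000 * (xD * xV) + cC (446) 10000 * (xV * xV) + cC (22175) 10000 * (xD * xD) + cC (-2850) 10000 * xS
  k2p := fun e => cC (2075) 10000 + cC (-4305) 10000 * xD + cC (-192) 10000 * xV + cC (102) 10000 * e
  k2m := fun e => cC (-1269) 10000 + cC (3771) 10000 * xD + cC (-199) 10000 * xV + cC (-116) 10000 * e
  kapL := fun e => cC (595) 10000 + cC (-365) 10000 * xD + cC (163) 10000 * xV + cC (75) 10000 * e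
  kapU := fun e => cC (2725) 10000 + cC (-3236) 10000 * xD + cC (-110) 10000 * xV + cC (236) 10000 * e
  eL := ⟨cC (-8234) 10000 + cC (28493) 10000 * xD + cC (-2374) 10000 * xV + cC (-1780) 10000 * (xV * xV) + cC (88782) 10000 * (xD * xV) + cC (40238) 10000 * (xD * xD) + cC (-130852) 10000 * xS,
    cC 0,
    cC 0,
    cC 0,
    cC 0⟩
  eH := ⟨cC (23852) 10000 + cC (-154287) 10000 * xD + cC (-9997) 10000 * xV + cC (-366) 10000 * (xV * xV) + cC (110661) 10000 * (xD * xV) + cC (222841) 10000 * (xD * xD) + cC (-118067) 10000 * xS,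
    cC 0,
    cC 0,
    cC 0,
    cC 0⟩
  pL := ⟨cC (-1238697) 10000 + cC (6382926) 10000 * xD + cC (246971) 10000 * xV + cC (-956094) 10000 * (xD * xV) + cC (-6993) 10000 * (xV * xV) + cC (-4120638) 10000 * (xD * xD) + cC (44485) 10000 * xS,
    cC (-121951) 10000 + cC (527604) 10000 * xD + cC (-1509) 10000 * xV,
    cC 0,
    cC 0,
    cC 0⟩
  pU := ⟨cC (-303998) 10000 + cC (2230275) 10000 * xD + cC (119991) 10000 * xV + cC (-699376) 10000 * (xD * xV) + cC (7194) 10000 * (xV * xV) + cC (-2445553) 10000 * (xD * xD) + cC (497349) 10000 * xS,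
    cC (7394) 10000 + cC (142437) 10000 * xD + cC (2505) 10000 * xV,
    cC 0,
    cC 0,
    cC 0⟩
  kU := ⟨cC (-9973) 10000 + cC (39300) 10000 * xD + cC (-6838) 10000 * xV + cC (-10034) 10000 * (xD * xV) + cC (1534) 10000 * (xV * xV) + cC (-5454) 10000 * (xD * xD) + cC (15229) 10000 * xS,
    cC (-681) 10000 + cC (10990) 10000 * xD + cC (20) 10000 * xV,
    cC (-203) 10000 + cC (-1626) 10000 * xD + cC (855) 10000 * xV,
    cC 0,
    cC 0⟩
  kL := ⟨cC (-11036) 10000 + cC (32782) 10000 * xD + cC (-4423) 10000 * xV + cC (12068) 10000 * (xD * xV) + cC (-409) 10000 * (xV * xV) + cC (-62445) 10000 * (xD * xD) + cC (14907) 10000 * xS,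
    cC (-502) 10000 + cC (12218) 10000 * xD + cC (-441) 10000 * xV,
    cC (90) 10000 + cC (778) 10000 * xD + cC (26) 10000 * xV,
    cC 0,
    cC 0⟩
  wU := ⟨cC (130604) 10000 + cC (-215035) 10000 * xD + cC (-87626) 10000 * xV + cC (57785) 10000 * (xD * xV) + cC (6518) 10000 * (xV * xV) + cC (169047) 10000 * (xD * xD) + cC (57402) 10000 * xS,
    cC (2380) 10000 + cC (3503) 10000 * xD + cC (-8473) 10000 * xV,
    cC (-21688) 10000 + cC (3031) 10000 * xD + cC (2014) 10000 * xV,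
    cC 0,
    cC 0⟩
  wL := ⟨cC (-170027) 10000 + cC (122774) 10000 * xD + cC (65890) 10000 * xV + cC (-92066) 10000 * (xD * xV) + cC (33097) 10000 * (xV * xV) + cC (-214242) 10000 * (xD * xD) + cC (161875) 10000 * xS,
    cC (3137) 10000 + cC (19694) 10000 * xD + cC (-10726) 10000 * xV,
    cC (3686) 10000 + cC (14736) 10000 * xD + cC (-21175) 10000 * xV,
    cC 0,
    cC 0⟩

/-- The cut in `e`. -/
def tC6Cut : Ex :=
  cC (75) 10000 + cC (-36521) 10000 * xD + cC (-446) 10000 * xV + cC (-2577) 10000 * (xV * xV) + cC (89942) 10000 * (xD * xV) + cC (152489) 10000 * (xD * xD) + cC (-128582) 10000 * xS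

/-- The bound of `p` above the cut. -/
def tC6PU : Bnd :=
  ⟨cC (192261) 10000 + cC (-156148) 10000 * xD + cC (-16432) 10000 * xV + cC (68587) 10000 * (xD * xV) + cC (3610) 10000 * (xV * xV) + cC (243761) 10000 * (xD * xD) + cC (-166332) 10000 * xS,
    cC (-2070) 10000 + cC (5104) 10000 * xD + cC (-2767) 10000 * xV,
    cC 0,
    cC 0,
    cC 0⟩

/-- A multiplier above the cut. -/
def tC6K2p : Ex → Ex :=
  fun e => cC (1671) 10000 + cC (-4133) 10000 * xD + cC (-6) 10000 * xV + cC (78) 10000 * e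

/-- A multiplier above the cut. -/
def tC6K2m : Ex → Ex :=
  fun _ => cC (-94) 10000 + cC (2072) 10000 * xD + cC (-217) 10000 * xV

/-- A multiplier above the cut. -/
def tC6KapL : Ex → Ex :=
  fun e => cC (-760) 10000 + cC (1904) 10000 * xD + cC (392) 10000 * xV + cC (-8) 10000 * e

/-- A multiplier above the cut. -/
def tC6KapU : Ex → Ex :=
  fun e => cC (415) 10000 + cC (-446) 10000 * xD + cC (254) 10000 * xV + cC (50) 10000 * e

/-- Below the cut. -/
def tC6A : Piece :=
  tC6.below tC6Cut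

/-- Above the cut. -/
def tC6B : Piece :=
  { tC6.above tC6Cut tC6PU with k2p := tC6K2p, k2m := tC6K2m, kapL := tC6KapL, kapU := tC6KapU }

/-- The least `u`. -/
def tC6Lo : Ex :=
  cC (3) 5

/-- The upper end of `u`. -/
def tC7Hi : Ex :=
  cC (4) 5

/-- The least `u`. -/
def tC7Lo : Ex :=
  cC (3) 5

/-- The upper end of `u`. -/
def tC8Hi : Ex :=
  cC (4) 5

/-- The least `u`. -/
def tC8Lo : Ex :=
  cC (3) 5

/-- A piece: `0.29 ≤ v < 0.417`. -/
def tC9 : Piece where
  u₀ := cC (39) 40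
  u₁ := cC (4) 5
  tLn := lowTn
  tLd := lowTd
  tUn := upCn
  tUd := upCd
  p₀ := cC (188620) 10000 + cC (-134420) 10000 * xD + cC (-34526) 10000 * xV + cC (63578) 10000 * (xD * xV) + cC (78141) 10000 * (xD * xD) + cC (-108868) 10000 * xS
  zL := cC 0
  zU := cC 0
  k2p := fun _ => cC 0
  k2m := fun _ => cC 0
  kapL := fun _ => cC 0
  kapU := fun _ => cC 0
  eL := ⟨cC 0, cC 0, cC 0, cC 0, cC 0⟩
  eH := ⟨cC 0, cC 0, cC 0, cC 0, cC 0⟩
  pL := ⟨cC 0, cC 0, cC 0, cC 0, cC 0⟩
  pU := ⟨cC 0,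
    cC 0,
    cC 0,
    cC (10000) 10000,
    cC (-14588) 10000 + cC (60936) 10000 * xD + cC (46228) 10000 * xV + cC (-179834) 10000 * (xD * xV)⟩
  kU := ⟨cC 0, cC 0, cC 0, cC 0, cC 0⟩
  kL := ⟨cC 0, cC 0, cC 0, cC 0, cC 0⟩
  wU := ⟨cC 0, cC 0, cC 0, cC 0, cC 0⟩
  wL := ⟨cC 0, cC 0, cC 0, cC 0, cC 0⟩

/-- A piece: `0.417 ≤ v < 0.6`. -/
def tC10 : Piece where
  u₀ := cC (71) 80
  u₁ := cC (4) 5
  tLn := lowTn
  tLd := lowTd
  tUn := upCn
  tUd := upCd
  p₀ := cC (189120) 10000 + cC (-129486) 10000 * xD + cC (-34851) 10000 * xV + cC (64787) 10000 * (xD * xV) + cC (67325) 10000 * (xD * xD) + cC (-110347) 10000 * xS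
  zL := cC (9300) 10000 + cC (-14589) 10000 * xD + cC (-1707) 10000 * xV + cC (-5443) 10000 * (xD * xV) + cC (391) 10000 * (xV * xV) + cC (17126) 10000 * (xD * xD) + cC (-2494) 10000 * xS
  zU := cC (10466) 10000 + cC (-14040) 10000 * xD + cC (-1396) 10000 * xV + cC (-7474) 10000 * (xD * xV) + cC (696) 10000 * (xV * xV) + cC (18201) 10000 * (xD * xD) + cC (-2730) 10000 * xS
  k2p := fun _ => cC (10) 10000
  k2m := fun e => cC (9219) 10000 + cC (10777) 10000 * xD + cC (-17584) 10000 * xV + cC (-33) 10000 * e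
  kapL := fun e => cC (-405) 10000 + cC (-189) 10000 * xD + cC (1250) 10000 * xV + cC (2) 10000 * e
  kapU := fun e => cC (200) 10000 + cC (987) 10000 * xD + cC (-382) 10000 * xV + cC (5) 10000 * e
  eL := ⟨cC (-1125398) 10000 + cC (1160184) 10000 * xD + cC (1854993) 10000 * xV + cC (-776436) 10000 * (xV * xV) + cC (-1826646) 10000 * (xD * xV) + cC (356224) 10000 * (xD * xD) + cC (241649) 10000 * xS,
    cC 0,
    cC 0,
    cC (4380) 10000,
    cC 0⟩
  eH := ⟨cC (-792523) 10000 + cC (309454) 10000 * xD + cC (861672) 10000 * xV + cC (-35714) 10000 * (xV * xV) + cC (-550861) 10000 * (xD * xV) + cC (894351) 10000 * (xD * xD) + cC (241649) 10000 * xS,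
    cC 0,
    cC 0,
    cC (165010) 10000,
    cC 0⟩
  pL := ⟨cC (132527) 10000 + cC (-36976) 10000 * xD + cC (80263) 10000 * xV + cC (-66000) 10000 * (xD * xV) + cC (-60423) 10000 * (xV * xV) + cC (48987) 10000 * (xD * xD) + cC (-102984) 10000 * xS,
    cC (-622) 10000 + cC (510) 10000 * xD + cC (429) 10000 * xV,
    cC 0,
    cC (10092) 10000,
    cC 0⟩
  pU := ⟨cC (227616) 10000 + cC (-236287) 10000 * xD + cC (-140237) 10000 * xV + cC (189417) 10000 * (xD * xV) + cC (71755) 10000 * (xV * xV) + cC (138447) 10000 * (xD * xD) + cC (-108103) 10000 * xS,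
    cC (631) 10000 + cC (-1220) 10000 * xD + cC (-990) 10000 * xV,
    cC 0,
    cC 0,
    cC 0⟩
  kU := ⟨cC (280293) 10000 + cC (-668198) 10000 * xD + cC (-510269) 10000 * xV + cC (731873) 10000 * (xD * xV) + cC (524564) 10000 * (xV * xV) + cC (137620) 10000 * (xD * xD) + cC (-71880) 10000 * xS,
    cC (6437) 10000 + cC (-4278) 10000 * xD + cC (-5146) 10000 * xV,
    cC (24737) 10000 + cC (4766) 10000 * xD + cC (-56811) 10000 * xV,
    cC 0,
    cC 0⟩
  kL := ⟨cC (-444514) 10000 + cC (1048506) 10000 * xD + cC (560954) 10000 * xV + cC (-1535009) 10000 * (xD * xV) + cC (-9662) 10000 * (xV * xV) + cC (-450693) 10000 * (xD * xD) + cC (91920) 10000 * xS,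
    cC (-3393) 10000 + cC (11113) 10000 * xD + cC (-4842) 10000 * xV,
    cC (-492) 10000 + cC (26637) 10000 * xD + cC (-8701) 10000 * xV,
    cC 0,
    cC 0⟩
  wU := ⟨cC (-137952) 10000 + cC (259439) 10000 * xD + cC (8883) 10000 * xV + cC (357714) 10000 * (xD * xV) + cC (161699) 10000 * (xV * xV) + cC (-109602) 10000 * (xD * xD) + cC (-32454) 10000 * xS,
    cC (2626) 10000 + cC (-4676) 10000 * xD + cC (-1595) 10000 * xV,
    cC (31441) 10000 + cC (-62593) 10000 * xD + cC (-40662) 10000 * xV,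
    cC (10348) 10000,
    cC 0⟩
  wL := ⟨cC (-1780243) 10000 + cC (2919001) 10000 * xD + cC (3414154) 10000 * xV + cC (-3541028) 10000 * (xD * xV) + cC (-1662086) 10000 * (xV * xV) + cC (-756528) 10000 * (xD * xD) + cC (187093) 10000 * xS,
    cC (-16536) 10000 + cC (13983) 10000 * xD + cC (11737) 10000 * xV,
    cC (24981) 10000 + cC (-38010) 10000 * xD + cC (-35330) 10000 * xV,
    cC 0,
    cC 0⟩

/-- A piece: `0.417 ≤ v < 0.6`. -/
def tC11 : Piece where
  u₀ := cC (39) 40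
  u₁ := cC (71) 80
  tLn := lowTn
  tLd := lowTd
  tUn := upCn
  tUd := upCd
  p₀ := cC (187230) 10000 + cC (-127985) 10000 * xD + cC (-34596) 10000 * xV + cC (63957) 10000 * (xD * xV) + cC (65361) 10000 * (xD * xD) + cC (-107916) 10000 * xS
  zL := cC 0
  zU := cC 0
  k2p := fun _ => cC 0
  k2m := fun _ => cC 0
  kapL := fun _ => cC 0
  kapU := fun _ => cC 0
  eL := ⟨cC 0, cC 0, cC 0, cC 0, cC 0⟩
  eH := ⟨cC 0, cC 0, cC 0, cC 0, cC 0⟩
  pL := ⟨cC 0, cC 0, cC 0, cC 0, cC 0⟩
  pU := ⟨cC 0,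
    cC 0,
    cC 0,
    cC (10000) 10000,
    cC (-20036) 10000 + cC (87012) 10000 * xD + cC (43596) 10000 * xV + cC (-175606) 10000 * (xD * xV)⟩
  kU := ⟨cC 0, cC 0, cC 0, cC 0, cC 0⟩
  kL := ⟨cC 0, cC 0, cC 0, cC 0, cC 0⟩
  wU := ⟨cC 0, cC 0, cC 0, cC 0, cC 0⟩
  wL := ⟨cC 0, cC 0, cC 0, cC 0, cC 0⟩

/-- A piece: `0.6 ≤ v < 0.67`. -/
def tC12 : Piece where
  u₀ := cC (39) 40
  u₁ := cC (4) 5
  tLn := lowTn
  tLd := lowTd
  tUn := upCn
  tUd := upCd
  p₀ := cC (191886) 10000 + cC (-124004) 10000 * xD + cC (-34707) 10000 * xV + cC (64559) 10000 * (xD * xV) + cC (56180) 10000 * (xD * xD) + cC (-115452) 10000 * xS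
  zL := cC (7699) 10000 + cC (-13181) 10000 * xD + cC (-1947) 10000 * xV + cC (-4275) 10000 * (xD * xV) + cC (375) 10000 * (xV * xV) + cC (17986) 10000 * (xD * xD) + cC (-2425) 10000 * xS
  zU := cC (10657) 10000 + cC (-15172) 10000 * xD + cC (-1535) 10000 * xV + cC (-6731) 10000 * (xD * xV) + cC (635) 10000 * (xV * xV) + cC (19876) 10000 * (xD * xD) + cC (-2771) 10000 * xS
  k2p := fun _ => cC (10) 10000
  k2m := fun e => cC (4868) 10000 + cC (14553) 10000 * xD + cC (-9686) 10000 * xV + cC (-25) 10000 * e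
  kapL := fun e => cC (-138) 10000 + cC (177) 10000 * xD + cC (322) 10000 * xV + cC (6) 10000 * e
  kapU := fun e => cC (-288) 10000 + cC (340) 10000 * xD + cC (505) 10000 * xV + cC (4) 10000 * e
  eL := ⟨cC (-702935) 10000 + cC (666650) 10000 * xD + cC (1991527) 10000 * xV + cC (-1346348) 10000 * (xV * xV) + cC (-915276) 10000 * (xD * xV) + cC (-88606) 10000 * (xD * xD) + cC (-156844) 10000 * xS,
    cC 0,
    cC 0,
    cC (4258) 10000,
    cC 0⟩
  eH := ⟨cC (-64435) 10000 + cC (17244) 10000 * xD + cC (133384) 10000 * xV + cC (54829) 10000 * (xV * xV) + cC (-117231) 10000 * (xD * xV) + cC (374143) 10000 * (xD * xD) + cC (-174201) 10000 * xS,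
    cC 0,
    cC 0,
    cC (40113) 10000,
    cC 0⟩
  pL := ⟨cC (183403) 10000 + cC (-79722) 10000 * xD + cC (-27416) 10000 * xV + cC (57560) 10000 * (xD * xV) + cC (-3449) 10000 * (xV * xV) + cC (44635) 10000 * (xD * xD) + cC (-125795) 10000 * xS,
    cC (-1696) 10000 + cC (4858) 10000 * xD + cC (160) 10000 * xV,
    cC 0,
    cC (10102) 10000,
    cC 0⟩
  pU := ⟨cC (323319) 10000 + cC (-362846) 10000 * xD + cC (-309608) 10000 * xV + cC (285556) 10000 * (xD * xV) + cC (152043) 10000 * (xV * xV) + cC (191810) 10000 * (xD * xD) + cC (-128540) 10000 * xS,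
    cC (5372) 10000 + cC (-7376) 10000 * xD + cC (-7429) 10000 * xV,
    cC 0,
    cC 0,
    cC 0⟩
  kU := ⟨cC (215112) 10000 + cC (-717042) 10000 * xD + cC (2409) 10000 * xV + cC (-50598) 10000 * (xD * xV) + cC (-3003) 10000 * (xV * xV) + cC (242520) 10000 * (xD * xD) + cC (14247) 10000 * xS,
    cC (10572) 10000 + cC (-25265) 10000 * xD + cC (1334) 10000 * xV,
    cC (-18041) 10000 + cC (47869) 10000 * xD + cC (3655) 10000 * xV,
    cC 0,
    cC 0⟩
  kL := ⟨cC (-88725) 10000 + cC (250736) 10000 * xD + cC (-2105) 10000 * xV + cC (22774) 10000 * (xD * xV) + cC (487) 10000 * (xV * xV) + cC (-129453) 10000 * (xD * xD) + cC (21929) 10000 * xS,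
    cC (-3580) 10000 + cC (21024) 10000 * xD + cC (-377) 10000 * xV,
    cC (6510) 10000 + cC (-14839) 10000 * xD + cC (-1140) 10000 * xV,
    cC 0,
    cC 0⟩
  wU := ⟨cC (75664) 10000 + cC (-51273) 10000 * xD + cC (-298960) 10000 * xV + cC (273020) 10000 * (xD * xV) + cC (205153) 10000 * (xV * xV) + cC (24701) 10000 * (xD * xD) + cC (109270) 10000 * xS,
    cC (13922) 10000 + cC (-12181) 10000 * xD + cC (-21643) 10000 * xV,
    cC (2928) 10000 + cC (-36095) 10000 * xD + cC (-21092) 10000 * xV,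
    cC 0,
    cC 0⟩
  wL := ⟨cC (-499508) 10000 + cC (1372923) 10000 * xD + cC (38162) 10000 * xV + cC (2492) 10000 * (xD * xV) + cC (17538) 10000 * (xV * xV) + cC (-566037) 10000 * (xD * xD) + cC (166001) 10000 * xS,
    cC (-19823) 10000 + cC (65471) 10000 * xD + cC (-6239) 10000 * xV,
    cC (22225) 10000 + cC (-84436) 10000 * xD + cC (-13690) 10000 * xV,
    cC 0,
    cC 0⟩

/-- A piece: `0.67 ≤ v < 0.897`. -/
def tC13 : Piece where
  u₀ := cC (39) 40
  u₁ := cC (4) 5
  tLn := lowTn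
  tLd := lowTd
  tUn := upCn
  tUd := upCd
  p₀ := cC (191040) 10000 + cC (-118864) 10000 * xD + cC (-34890) 10000 * xV + cC (65520) 10000 * (xD * xV) + cC (44365) 10000 * (xD * xD) + cC (-115015) 10000 * xS
  zL := cC (7818) 10000 + cC (-13698) 10000 * xD + cC (-2067) 10000 * xV + cC (-3461) 10000 * (xD * xV) + cC (352) 10000 * (xV * xV) + cC (17862) 10000 * (xD * xD) + cC (-2468) 10000 * xS
  zU := cC (10846) 10000 + cC (-16210) 10000 * xD + cC (-1684) 10000 * xV + cC (-5894) 10000 * (xD * xV) + cC (571) 10000 * (xV * xV) + cC (20927) 10000 * (xD * xD) + cC (-2785) 10000 * xS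
  k2p := fun _ => cC (84) 10000 + cC (-223) 10000 * xD
  k2m := fun e => cC (2912) 10000 + cC (10648) 10000 * xD + cC (-4628) 10000 * xV + cC (-6) 10000 * e
  kapL := fun e => cC (-2) 10000 + cC (182) 10000 * xD + cC (34) 10000 * xV + cC (-1) 10000 * e
  kapU := fun e => cC (-398) 10000 + cC (477) 10000 * xD + cC (375) 10000 * xV + cC (-22) 10000 * e
  eL := ⟨cC (29446) 10000 + cC (-96107) 10000 * xD + cC (-4537) 10000 * xV + cC (-2055) 10000 * (xV * xV) + cC (94865) 10000 * (xD * xV) + cC (104931) 10000 * (xD * xD) + cC (-140809) 10000 * xS,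
    cC 0,
    cC 0,
    cC (264) 10000,
    cC 0⟩
  eH := ⟨cC (-55867) 10000 + cC (108091) 10000 * xD + cC (16360) 10000 * xV + cC (83480) 10000 * (xV * xV) + cC (-191343) 10000 * (xD * xV) + cC (323272) 10000 * (xD * xD) + cC (-94312) 10000 * xS,
    cC 0,
    cC 0,
    cC (26995) 10000,
    cC 0⟩
  pL := ⟨cC (190763) 10000 + cC (-118864) 10000 * xD + cC (-34890) 10000 * xV + cC (65520) 10000 * (xD * xV) + cC (44365) 10000 * (xD * xD) + cC (-115015) 10000 * xS,
    cC 0,
    cC 0,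
    cC (10000) 10000,
    cC 0⟩
  pU := ⟨cC (257122) 10000 + cC (-144832) 10000 * xD + cC (-177870) 10000 * xV + cC (76464) 10000 * (xD * xV) + cC (88074) 10000 * (xV * xV) + cC (153101) 10000 * (xD * xD) + cC (-148325) 10000 * xS,
    cC (2249) 10000 + cC (970) 10000 * xD + cC (-6777) 10000 * xV,
    cC 0,
    cC 0,
    cC 0⟩
  kU := ⟨cC (-9085) 10000 + cC (15730) 10000 * xD + cC (-2095) 10000 * xV + cC (5077) 10000 * (xD * xV) + cC (-130) 10000 * (xV * xV) + cC (-32270) 10000 * (xD * xD) + cC (13733) 10000 * xS,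
    cC (-696) 10000 + cC (11319) 10000 * xD + cC (-45) 10000 * xV,
    cC (-165) 10000 + cC (1235) 10000 * xD + cC (203) 10000 * xV,
    cC 0,
    cC 0⟩
  kL := ⟨cC (-11246) 10000 + cC (22879) 10000 * xD + cC (-8) 10000 * xV + cC (4330) 10000 * (xD * xV) + cC (-445) 10000 * (xV * xV) + cC (-38502) 10000 * (xD * xD) + cC (12206) 10000 * xS,
    cC (-670) 10000 + cC (11238) 10000 * xD + cC (-31) 10000 * xV,
    cC (189) 10000 + cC (721) 10000 * xD + cC (1) 10000 * xV,
    cC 0,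
    cC 0⟩
  wU := ⟨cC (34132) 10000 + cC (61997) 10000 * xD + cC (-75683) 10000 * xV + cC (6243) 10000 * (xD * xV) + cC (-1239) 10000 * (xV * xV) + cC (-45493) 10000 * (xD * xD) + cC (99886) 10000 * xS,
    cC (-3070) 10000 + cC (9227) 10000 * xD + cC (-4506) 10000 * xV,
    cC (-23210) 10000 + cC (-4435) 10000 * xD + cC (8144) 10000 * xV,
    cC 0,
    cC 0⟩
  wL := ⟨cC (-132728) 10000 + cC (209495) 10000 * xD + cC (22043) 10000 * xV + cC (-62879) 10000 * (xD * xV) + cC (-6002) 10000 * (xV * xV) + cC (-141360) 10000 * (xD * xD) + cC (176458) 10000 * xS,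
    cC (-2718) 10000 + cC (7800) 10000 * xD + cC (-3007) 10000 * xV,
    cC (-9788) 10000 + cC (-11084) 10000 * xD + cC (-1795) 10000 * xV,
    cC 0,
    cC 0⟩

/-- A piece: `0.897 ≤ v < 1.037`. -/
def tC14 : Piece where
  u₀ := cC (39) 40
  u₁ := cC (4) 5
  tLn := lowTn
  tLd := lowTd
  tUn := upCn
  tUd := upCd
  p₀ := cC (200822) 10000 + cC (-122751) 10000 * xD + cC (-36609) 10000 * xV + cC (74788) 10000 * (xD * xV) + cC (32290) 10000 * (xD * xD) + cC (-127839) 10000 * xS
  zL := cC (8327) 10000 + cC (-19742) 10000 * xD + cC (-2063) 10000 * xV + cC (-2706) 10000 * (xD * xV) + cC (274) 10000 * (xV * xV) + cC (31108) 10000 * (xD * xD) + cC (-2308) 10000 * xS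
  zU := cC (10858) 10000 + cC (-22378) 10000 * xD + cC (-1364) 10000 * xV + cC (-5956) 10000 * (xD * xV) + cC (340) 10000 * (xV * xV) + cC (37673) 10000 * (xD * xD) + cC (-2163) 10000 * xS
  k2p := fun e => cC (-1179) 10000 + cC (4) 10000 * xD + cC (1237) 10000 * xV + cC (-22) 10000 * e
  k2m := fun e => cC (1229) 10000 + cC (3493) 10000 * xD + cC (-1554) 10000 * xV + cC (-5) 10000 * e
  kapL := fun e => cC (6) 10000 + cC (71) 10000 * xD + cC (-7) 10000 * xV + cC (-9) 10000 * e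
  kapU := fun e => cC (-23) 10000 + cC (148) 10000 * xD + cC (352) 10000 * xV + cC (23) 10000 * e
  eL := ⟨cC (36338) 10000 + cC (-85113) 10000 * xD + cC (-3026) 10000 * xV + cC (-1166) 10000 * (xV * xV) + cC (84639) 10000 * (xD * xV) + cC (97360) 10000 * (xD * xD) + cC (-154071) 10000 * xS,
    cC 0,
    cC 0,
    cC 0,
    cC 0⟩
  eH := ⟨cC (-46811) 10000 + cC (197155) 10000 * xD + cC (40788) 10000 * xV + cC (27965) 10000 * (xV * xV) + cC (-173904) 10000 * (xD * xV) + cC (198352) 10000 * (xD * xD) + cC (-102046) 10000 * xS,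
    cC 0,
    cC 0,
    cC (17764) 10000,
    cC 0⟩
  pL := ⟨cC (200537) 10000 + cC (-122751) 10000 * xD + cC (-36609) 10000 * xV + cC (74788) 10000 * (xD * xV) + cC (32290) 10000 * (xD * xD) + cC (-127839) 10000 * xS,
    cC 0,
    cC 0,
    cC (10000) 10000,
    cC 0⟩
  pU := ⟨cC (244363) 10000 + cC (-74895) 10000 * xD + cC (-99076) 10000 * xV + cC (77126) 10000 * (xD * xV) + cC (30992) 10000 * (xV * xV) + cC (102101) 10000 * (xD * xD) + cC (-185392) 10000 * xS,
    cC (1613) 10000 + cC (8712) 10000 * xD + cC (-7761) 10000 * xV,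
    cC 0,
    cC 0,
    cC 0⟩
  kU := ⟨cC (-4955) 10000 + cC (18047) 10000 * xD + cC (-4983) 10000 * xV + cC (50) 10000 * (xD * xV) + cC (1004) 10000 * (xV * xV) + cC (-22458) 10000 * (xD * xD) + cC (10444) 10000 * xS,
    cC (-896) 10000 + cC (10849) 10000 * xD + cC (239) 10000 * xV,
    cC (-500) 10000 + cC (814) 10000 * xD + cC (611) 10000 * xV,
    cC 0,
    cC 0⟩
  kL := ⟨cC (-7135) 10000 + cC (15377) 10000 * xD + cC (-462) 10000 * xV + cC (4204) 10000 * (xD * xV) + cC (-148) 10000 * (xV * xV) + cC (-35276) 10000 * (xD * xD) + cC (8694) 10000 * xS,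
    cC (-697) 10000 + cC (11371) 10000 * xD + cC (-45) 10000 * xV,
    cC (-25) 10000 + cC (1581) 10000 * xD + cC (12) 10000 * xV,
    cC 0,
    cC 0⟩
  wU := ⟨cC (-316) 10000 + cC (117282) 10000 * xD + cC (-54488) 10000 * xV + cC (-21642) 10000 * (xD * xV) + cC (-5021) 10000 * (xV * xV) + cC (-65036) 10000 * (xD * xD) + cC (114179) 10000 * xS,
    cC (-5027) 10000 + cC (9844) 10000 * xD + cC (-2457) 10000 * xV,
    cC (-22359) 10000 + cC (-6628) 10000 * xD + cC (8223) 10000 * xV,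
    cC 0,
    cC 0⟩
  wL := ⟨cC (-117971) 10000 + cC (175178) 10000 * xD + cC (45549) 10000 * xV + cC (-33469) 10000 * (xD * xV) + cC (-42483) 10000 * (xV * xV) + cC (-114710) 10000 * (xD * xD) + cC (170981) 10000 * xS,
    cC (-7699) 10000 + cC (6178) 10000 * xD + cC (2411) 10000 * xV,
    cC (-18308) 10000 + cC (-12799) 10000 * xD + cC (7377) 10000 * xV,
    cC 0,
    cC 0⟩

/-- A piece: `1.037 ≤ v < 1.2`. -/
def tC15 : Piece where
  u₀ := cC (39) 40
  u₁ := cC (174) 1000 + cC (492) 1000 * xD + cC (481) 1000 * xV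
  tLn := lowTn
  tLd := lowTd
  tUn := upCn
  tUd := upCd
  p₀ := cC (202583) 10000 + cC (-118560) 10000 * xD + cC (-36688) 10000 * xV + cC (75284) 10000 * (xD * xV) + cC (18820) 10000 * (xD * xD) + cC (-130933) 10000 * xS
  zL := cC (8410) 10000 + cC (-20246) 10000 * xD + cC (-2115) 10000 * xV + cC (-2169) 10000 * (xD * xV) + cC (258) 10000 * (xV * xV) + cC (30965) 10000 * (xD * xD) + cC (-2333) 10000 * xS
  zU := cC (16308) 10000 + cC (-27792) 10000 * xD + cC (-4572) 10000 * xV + cC (-6910) 10000 * (xD * xV) + cC (-418) 10000 * (xV * xV) + cC (41812) 10000 * (xD * xD) + cC (-2004) 10000 * xS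
  k2p := fun e => cC (-465) 10000 + cC (1485) 10000 * xD + cC (276) 10000 * xV + cC (-39) 10000 * e
  k2m := fun e => cC (3859) 10000 + cC (-1736) 10000 * xD + cC (-2016) 10000 * xV + cC (180) 10000 * e
  kapL := fun e => cC (-1110) 10000 + cC (931) 10000 * xD + cC (1061) 10000 * xV + cC (-5) 10000 * e
  kapU := fun _ => cC (185) 10000 + cC (-70) 10000 * xD + cC (67) 10000 * xV
  eL := ⟨cC (-130773) 10000 + cC (126443) 10000 * xD + cC (140715) 10000 * xV + cC (-12762) 10000 * (xV * xV) + cC (7170) 10000 * (xD * xV) + cC (44983) 10000 * (xD * xD) + cC (-153814) 10000 * xS,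
    cC 0,
    cC 0,
    cC 0,
    cC 0⟩
  eH := ⟨cC (-30623) 10000 + cC (49222) 10000 * xD + cC (44509) 10000 * xV + cC (-3313) 10000 * (xV * xV) + cC (17799) 10000 * (xD * xV) + cC (63487) 10000 * (xD * xD) + cC (-88648) 10000 * xS,
    cC 0,
    cC 0,
    cC (11999) 10000,
    cC 0⟩
  pL := ⟨cC (244060) 10000 + cC (-160890) 10000 * xD + cC (-86688) 10000 * xV + cC (110746) 10000 * (xD * xV) + cC (12149) 10000 * (xV * xV) + cC (112672) 10000 * (xD * xD) + cC (-176698) 10000 * xS,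
    cC (10283) 10000 + cC (-3058) 10000 * xD + cC (-13936) 10000 * xV,
    cC 0,
    cC 0,
    cC 0⟩
  pU := ⟨cC (261416) 10000 + cC (-145584) 10000 * xD + cC (-86375) 10000 * xV + cC (124828) 10000 * (xD * xV) + cC (18517) 10000 * (xV * xV) + cC (122614) 10000 * (xD * xD) + cC (-204666) 10000 * xS,
    cC (2727) 10000 + cC (5899) 10000 * xD + cC (-8204) 10000 * xV,
    cC 0,
    cC 0,
    cC 0⟩
  kU := ⟨cC (-7166) 10000 + cC (8756) 10000 * xD + cC (-741) 10000 * xV + cC (3863) 10000 * (xD * xV) + cC (26) 10000 * (xV * xV) + cC (-23819) 10000 * (xD * xD) + cC (10338) 10000 * xS,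
    cC (-657) 10000 + cC (11123) 10000 * xD + cC (-54) 10000 * xV,
    cC (-79) 10000 + cC (1814) 10000 * xD + cC (13) 10000 * xV,
    cC 0,
    cC 0⟩
  kL := ⟨cC (-6612) 10000 + cC (10919) 10000 * xD + cC (-712) 10000 * xV + cC (7295) 10000 * (xD * xV) + cC (-535) 10000 * (xV * xV) + cC (-33464) 10000 * (xD * xD) + cC (9250) 10000 * xS,
    cC (-660) 10000 + cC (11018) 10000 * xD + cC (-26) 10000 * xV,
    cC (-123) 10000 + cC (1399) 10000 * xD + cC (125) 10000 * xV,
    cC 0,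
    cC 0⟩
  wU := ⟨cC (-21663) 10000 + cC (93811) 10000 * xD + cC (-40730) 10000 * xV + cC (-30868) 10000 * (xD * xV) + cC (7124) 10000 * (xV * xV) + cC (-53593) 10000 * (xD * xD) + cC (115065) 10000 * xS,
    cC (-6005) 10000 + cC (13175) 10000 * xD + cC (-2240) 10000 * xV,
    cC (-18300) 10000 + cC (-806) 10000 * xD + cC (3088) 10000 * xV,
    cC 0,
    cC 0⟩
  wL := ⟨cC (-124525) 10000 + cC (227157) 10000 * xD + cC (72322) 10000 * xV + cC (-118483) 10000 * (xD * xV) + cC (-45800) 10000 * (xV * xV) + cC (-157960) 10000 * (xD * xD) + cC (165128) 10000 * xS,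
    cC (-7910) 10000 + cC (12187) 10000 * xD + cC (880) 10000 * xV,
    cC (-22276) 10000 + cC (-1016) 10000 * xD + cC (7904) 10000 * xV,
    cC 0,
    cC 0⟩

/-- The least `u`. -/
def tC15Lo : Ex :=
  cC (4) 5

/-- A piece: `0.897 ≤ v < 1.2`. -/
def tC16 : Piece where
  u₀ := cC (39) 40
  u₁ := cC (150) 1000 + cC (531) 1000 * xD + cC (494) 1000 * xV
  tLn := lowTn
  tLd := lowTd
  tUn := upCn
  tUd := upCd
  p₀ := cC (190743) 10000 + cC (-106894) 10000 * xD + cC (-34819) 10000 * xV + cC (66016) 10000 * (xD * xV) + cC (19328) 10000 * (xD * xD) + cC (-116856) 10000 * xS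
  zL := cC (8312) 10000 + cC (-11250) 10000 * xD + cC (-2419) 10000 * xV + cC (-2398) 10000 * (xD * xV) + cC (419) 10000 * (xV * xV) + cC (11610) 10000 * (xD * xD) + cC (-3448) 10000 * xS
  zU := cC (19069) 10000 + cC (-33535) 10000 * xD + cC (-7218) 10000 * xV + cC (3528) 10000 * (xD * xV) + cC (-318) 10000 * (xV * xV) + cC (26977) 10000 * (xD * xD) + cC (-2774) 10000 * xS
  k2p := fun e => cC (-929) 10000 + cC (193) 10000 * xD + cC (844) 10000 * xV + cC (-44) 10000 * e
  k2m := fun e => cC (-397) 10000 + cC (8462) 10000 * xD + cC (-1305) 10000 * xV + cC (-57) 10000 * e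
  kapL := fun e => cC (-190) 10000 + cC (190) 10000 * xD + cC (213) 10000 * xV + cC (-4) 10000 * e
  kapU := fun e => cC (2459) 10000 + cC (-1286) 10000 * xD + cC (-1263) 10000 * xV + cC (86) 10000 * e
  eL := ⟨cC (-166554) 10000 + cC (164958) 10000 * xD + cC (170950) 10000 * xV + cC (-22563) 10000 * (xV * xV) + cC (-15815) 10000 * (xD * xV) + cC (37154) 10000 * (xD * xD) + cC (-136394) 10000 * xS,
    cC 0,
    cC 0,
    cC 0,
    cC 0⟩
  eH := ⟨cC (-10460) 10000 + cC (-152286) 10000 * xD + cC (-247) 10000 * xV + cC (-2016) 10000 * (xV * xV) + cC (88285) 10000 * (xD * xV) + cC (225437) 10000 * (xD * xD) + cC (-20636) 10000 * xS,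
    cC 0,
    cC 0,
    cC 0,
    cC 0⟩
  pL := ⟨cC (190460) 10000 + cC (-106894) 10000 * xD + cC (-34819) 10000 * xV + cC (66016) 10000 * (xD * xV) + cC (19328) 10000 * (xD * xD) + cC (-116856) 10000 * xS,
    cC 0,
    cC 0,
    cC (10000) 10000,
    cC 0⟩
  pU := ⟨cC (310899) 10000 + cC (-412186) 10000 * xD + cC (-155120) 10000 * xV + cC (230031) 10000 * (xD * xV) + cC (36792) 10000 * (xV * xV) + cC (340675) 10000 * (xD * xD) + cC (-162060) 10000 * xS,
    cC (5406) 10000 + cC (-3106) 10000 * xD + cC (-8479) 10000 * xV,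
    cC 0,
    cC 0,
    cC 0⟩
  kU := ⟨cC (-9542) 10000 + cC (17696) 10000 * xD + cC (-2750) 10000 * xV + cC (522) 10000 * (xD * xV) + cC (93) 10000 * (xV * xV) + cC (-10564) 10000 * (xD * xD) + cC (14010) 10000 * xS,
    cC (-571) 10000 + cC (10313) 10000 * xD + cC (73) 10000 * xV,
    cC (8) 10000 + cC (-509) 10000 * xD + cC (460) 10000 * xV,
    cC 0,
    cC 0⟩
  kL := ⟨cC (-10262) 10000 + cC (26005) 10000 * xD + cC (-1611) 10000 * xV + cC (4379) 10000 * (xD * xV) + cC (169) 10000 * (xV * xV) + cC (-44633) 10000 * (xD * xD) + cC (11632) 10000 * xS,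
    cC (-424) 10000 + cC (10853) 10000 * xD + cC (-192) 10000 * xV,
    cC (247) 10000 + cC (475) 10000 * xD + cC (-3) 10000 * xV,
    cC 0,
    cC 0⟩
  wU := ⟨cC (23957) 10000 + cC (-22513) 10000 * xD + cC (-57996) 10000 * xV + cC (-11857) 10000 * (xD * xV) + cC (-535) 10000 * (xV * xV) + cC (-22705) 10000 * (xD * xD) + cC (127293) 10000 * xS,
    cC (-7913) 10000 + cC (15055) 10000 * xD + cC (-1059) 10000 * xV,
    cC (-27030) 10000 + cC (10890) 10000 * xD + cC (7834) 10000 * xV,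
    cC 0,
    cC 0⟩
  wL := ⟨cC (-100735) 10000 + cC (182718) 10000 * xD + cC (-11279) 10000 * xV + cC (-19723) 10000 * (xD * xV) + cC (1156) 10000 * (xV * xV) + cC (-138775) 10000 * (xD * xD) + cC (162314) 10000 * xS,
    cC (-427) 10000 + cC (6165) 10000 * xD + cC (-4780) 10000 * xV,
    cC (-9798) 10000 + cC (-13702) 10000 * xD + cC (-1149) 10000 * xV,
    cC 0,
    cC 0⟩

/-- The least `u`. -/
def tC16Lo : Ex :=
  cC (4) 5

/-- A piece: `0.897 ≤ v < 1.037`. -/
def tC17 : Piece where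
  u₀ := cC (39) 40
  u₁ := cC (335) 1000 + cC (341) 1000 * xD + cC (362) 1000 * xV
  tLn := lowTn
  tLd := lowTd
  tUn := upCn
  tUd := upCd
  p₀ := cC (183363) 10000 + cC (-99853) 10000 * xD + cC (-33482) 10000 * xV + cC (60589) 10000 * (xD * xV) + cC (19098) 10000 * (xD * xD) + cC (-108478) 10000 * xS
  zL := cC (8575) 10000 + cC (-9641) 10000 * xD + cC (-2631) 10000 * xV + cC (-2677) 10000 * (xD * xV) + cC (562) 10000 * (xV * xV) + cC (9447) 10000 * (xD * xD) + cC (-4040) 10000 * xS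
  zU := cC (17327) 10000 + cC (-25941) 10000 * xD + cC (-6936) 10000 * xV + cC (3991) 10000 * (xD * xV) + cC (77) 10000 * (xV * xV) + cC (15338) 10000 * (xD * xD) + cC (-3192) 10000 * xS
  k2p := fun _ => cC (271) 10000 + cC (-2645) 10000 * xD + cC (692) 10000 * xV
  k2m := fun e => cC (-3889) 10000 + cC (23184) 10000 * xD + cC (-2094) 10000 * xV + cC (-63) 10000 * e
  kapL := fun e => cC (-30) 10000 + cC (400) 10000 * xD + cC (-60) 10000 * xV + cC (-9) 10000 * e
  kapU := fun e => cC (-696) 10000 + cC (1143) 10000 * xD + cC (416) 10000 * xV + cC (-31) 10000 * e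
  eL := ⟨cC (-118745) 10000 + cC (76395) 10000 * xD + cC (121109) 10000 * xV + cC (-13819) 10000 * (xV * xV) + cC (4365) 10000 * (xD * xV) + cC (91314) 10000 * (xD * xD) + cC (-124201) 10000 * xS,
    cC 0,
    cC 0,
    cC 0,
    cC 0⟩
  eH := ⟨cC (-20309) 10000 + cC (-129406) 10000 * xD + cC (-2552) 10000 * xV + cC (-3297) 10000 * (xV * xV) + cC (105008) 10000 * (xD * xV) + cC (152630) 10000 * (xD * xD) + cC (-8622) 10000 * xS,
    cC 0,
    cC 0,
    cC 0,
    cC 0⟩
  pL := ⟨cC (183081) 10000 + cC (-99853) 10000 * xD + cC (-33482) 10000 * xV + cC (60589) 10000 * (xD * xV) + cC (19098) 10000 * (xD * xD) + cC (-108478) 10000 * xS,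
    cC 0,
    cC 0,
    cC (10000) 10000,
    cC 0⟩
  pU := ⟨cC (268291) 10000 + cC (-353214) 10000 * xD + cC (-117746) 10000 * xV + cC (198160) 10000 * (xD * xV) + cC (25925) 10000 * (xV * xV) + cC (265984) 10000 * (xD * xD) + cC (-140106) 10000 * xS,
    cC (4736) 10000 + cC (-5505) 10000 * xD + cC (-7058) 10000 * xV,
    cC 0,
    cC 0,
    cC 0⟩
  kU := ⟨cC (-11966) 10000 + cC (37560) 10000 * xD + cC (-5631) 10000 * xV + cC (-15337) 10000 * (xD * xV) + cC (2105) 10000 * (xV * xV) + cC (-3796) 10000 * (xD * xD) + cC (15290) 10000 * xS,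
    cC (-648) 10000 + cC (10163) 10000 * xD + cC (258) 10000 * xV,
    cC (-26) 10000 + cC (-2212) 10000 * xD + cC (1121) 10000 * xV,
    cC 0,
    cC 0⟩
  kL := ⟨cC (-12590) 10000 + cC (28219) 10000 * xD + cC (-2077) 10000 * xV + cC (5792) 10000 * (xD * xV) + cC (749) 10000 * (xV * xV) + cC (-42271) 10000 * (xD * xD) + cC (13118) 10000 * xS,
    cC (-197) 10000 + cC (10725) 10000 * xD + cC (-386) 10000 * xV,
    cC (710) 10000 + cC (-201) 10000 * xD + cC (-277) 10000 * xV,
    cC 0,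
    cC 0⟩
  wU := ⟨cC (-18396) 10000 + cC (69579) 10000 * xD + cC (-45959) 10000 * xV + cC (-1154) 10000 * (xD * xV) + cC (-3259) 10000 * (xV * xV) + cC (-44647) 10000 * (xD * xD) + cC (137818) 10000 * xS,
    cC (-5896) 10000 + cC (11424) 10000 * xD + cC (-2120) 10000 * xV,
    cC (-21044) 10000 + cC (-4063) 10000 * xD + cC (5850) 10000 * xV,
    cC 0,
    cC 0⟩
  wL := ⟨cC (-79223) 10000 + cC (213815) 10000 * xD + cC (-2390) 10000 * xV + cC (-29465) 10000 * (xD * xV) + cC (869) 10000 * (xV * xV) + cC (-130658) 10000 * (xD * xD) + cC (109312) 10000 * xS,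
    cC (-1407) 10000 + cC (7630) 10000 * xD + cC (-4268) 10000 * xV,
    cC (-8738) 10000 + cC (-16141) 10000 * xD + cC (-1736) 10000 * xV,
    cC 0,
    cC 0⟩

/-- The least `u`. -/
def tC17Lo : Ex :=
  cC (4) 5

/-- A piece: `1.037 ≤ v < 1.2`. -/
def tC18 : Piece where
  u₀ := cC (39) 40
  u₁ := cC (223) 1000 + cC (534) 1000 * xD + cC (439) 1000 * xV
  tLn := lowTn
  tLd := lowTd
  tUn := upCn
  tUd := upCd
  p₀ := cC (187693) 10000 + cC (-102906) 10000 * xD + cC (-34192) 10000 * xV + cC (63107) 10000 * (xD * xV) + cC (18329) 10000 * (xD * xD) + cC (-113532) 10000 * xS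
  zL := cC (8422) 10000 + cC (-9015) 10000 * xD + cC (-2613) 10000 * xV + cC (-2152) 10000 * (xD * xV) + cC (478) 10000 * (xV * xV) + cC (7420) 10000 * (xD * xD) + cC (-3956) 10000 * xS
  zU := cC (19641) 10000 + cC (-31140) 10000 * xD + cC (-8604) 10000 * xV + cC (4091) 10000 * (xD * xV) + cC (471) 10000 * (xV * xV) + cC (21466) 10000 * (xD * xD) + cC (-3598) 10000 * xS
  k2p := fun e => cC (-5924) 10000 + cC (2439) 10000 * xD + cC (3716) 10000 * xV + cC (-275) 10000 * e
  k2m := fun e => cC (7419) 10000 + cC (57) 10000 * xD + cC (-4952) 10000 * xV + cC (319) 10000 * e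
  kapL := fun e => cC (-1104) 10000 + cC (1172) 10000 * xD + cC (477) 10000 * xV + cC (-76) 10000 * e
  kapU := fun e => cC (6428) 10000 + cC (-5198) 10000 * xD + cC (-3116) 10000 * xV + cC (279) 10000 * e
  eL := ⟨cC (-234737) 10000 + cC (233278) 10000 * xD + cC (205264) 10000 * xV + cC (-37239) 10000 * (xV * xV) + cC (-57580) 10000 * (xD * xV) + cC (2838) 10000 * (xD * xD) + cC (-65577) 10000 * xS,
    cC 0,
    cC 0,
    cC 0,
    cC 0⟩
  eH := ⟨cC (-12729) 10000 + cC (-188321) 10000 * xD + cC (-5038) 10000 * xV + cC (-2500) 10000 * (xV * xV) + cC (107365) 10000 * (xD * xV) + cC (246396) 10000 * (xD * xD) + cC (-4729) 10000 * xS,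
    cC 0,
    cC 0,
    cC 0,
    cC 0⟩
  pL := ⟨cC (230394) 10000 + cC (-197248) 10000 * xD + cC (-118944) 10000 * xV + cC (177803) 10000 * (xD * xV) + cC (20291) 10000 * (xV * xV) + cC (151142) 10000 * (xD * xD) + cC (-135708) 10000 * xS,
    cC (5671) 10000 + cC (10165) 10000 * xD + cC (-12900) 10000 * xV,
    cC 0,
    cC (604) 10000,
    cC 0⟩
  pU := ⟨cC (1791276) 10000 + cC (-4730155) 10000 * xD + cC (-1037170) 10000 * xV + cC (1750253) 10000 * (xD * xV) + cC (91366) 10000 * (xV * xV) + cC (2789955) 10000 * (xD * xD) + cC (22415) 10000 * xS,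
    cC (73955) 10000 + cC (-140335) 10000 * xD + cC (-6954) 10000 * xV,
    cC 0,
    cC 0,
    cC 0⟩
  kU := ⟨cC (-7945) 10000 + cC (-2770) 10000 * xD + cC (-348) 10000 * xV + cC (-5993) 10000 * (xD * xV) + cC (511) 10000 * (xV * xV) + cC (14872) 10000 * (xD * xD) + cC (15399) 10000 * xS,
    cC (-512) 10000 + cC (10293) 10000 * xD + cC (46) 10000 * xV,
    cC (-184) 10000 + cC (1067) 10000 * xD + cC (252) 10000 * xV,
    cC 0,
    cC 0⟩
  kL := ⟨cC (-12552) 10000 + cC (29964) 10000 * xD + cC (-2030) 10000 * xV + cC (3051) 10000 * (xD * xV) + cC (-4) 10000 * (xV * xV) + cC (-48052) 10000 * (xD * xD) + cC (15279) 10000 * xS,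
    cC (-558) 10000 + cC (11048) 10000 * xD + cC (-136) 10000 * xV,
    cC (-55) 10000 + cC (673) 10000 * xD + cC (226) 10000 * xV,
    cC 0,
    cC 0⟩
  wU := ⟨cC (-28421) 10000 + cC (110642) 10000 * xD + cC (-34568) 10000 * xV + cC (-25121) 10000 * (xD * xV) + cC (237) 10000 * (xV * xV) + cC (-71258) 10000 * (xD * xD) + cC (126107) 10000 * xS,
    cC (-4552) 10000 + cC (10398) 10000 * xD + cC (-3074) 10000 * xV,
    cC (-18501) 10000 + cC (-4822) 10000 * xD + cC (3622) 10000 * xV,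
    cC 0,
    cC 0⟩
  wL := ⟨cC (-107943) 10000 + cC (409922) 10000 * xD + cC (68909) 10000 * xV + cC (-173160) 10000 * (xD * xV) + cC (-32322) 10000 * (xV * xV) + cC (-262617) 10000 * (xD * xD) + cC (101914) 10000 * xS,
    cC (-11379) 10000 + cC (20246) 10000 * xD + cC (-798) 10000 * xV,
    cC (-26926) 10000 + cC (867) 10000 * xD + cC (8561) 10000 * xV,
    cC 0,
    cC 0⟩

/-- The cut in `e`. -/
def tC18Cut : Ex :=
  cC (-228558) 10000 + cC (224242) 10000 * xD + cC (185378) 10000 * xV + cC (-28404) 10000 * (xV * xV) + cC (-57227) 10000 * (xD * xV) + cC (57996) 10000 * (xD * xD) + cC (-56649) 10000 * xS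

/-- The bound of `p` above the cut. -/
def tC18PU : Bnd :=
  ⟨cC (239578) 10000 + cC (-300141) 10000 * xD + cC (-79910) 10000 * xV + cC (172357) 10000 * (xD * xV) + cC (12562) 10000 * (xV * xV) + cC (252872) 10000 * (xD * xD) + cC (-147996) 10000 * xS,
    cC (4034) 10000 + cC (-3831) 10000 * xD + cC (-7515) 10000 * xV,
    cC 0,
    cC 0,
    cC 0⟩

/-- A multiplier above the cut. -/
def tC18K2p : Ex → Ex :=
  fun e => cC (-157) 10000 + cC (-2463) 10000 * xD + cC (888) 10000 * xV + cC (-3) 10000 * e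

/-- A multiplier above the cut. -/
def tC18K2m : Ex → Ex :=
  fun e => cC (8638) 10000 + cC (2168) 10000 * xD + cC (-6018) 10000 * xV + cC (477) 10000 * e

/-- A multiplier above the cut. -/
def tC18KapL : Ex → Ex :=
  fun e => cC (233) 10000 + cC (-926) 10000 * xD + cC (323) 10000 * xV + cC (36) 10000 * e

/-- A multiplier above the cut. -/
def tC18KapU : Ex → Ex :=
  fun e => cC (3345) 10000 + cC (-2370) 10000 * xD + cC (-1638) 10000 * xV + cC (139) 10000 * e

/-- Below the cut. -/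
def tC18A : Piece :=
  tC18.below tC18Cut

/-- Above the cut. -/
def tC18B : Piece :=
  { tC18.above tC18Cut tC18PU with k2p := tC18K2p, k2m := tC18K2m, kapL := tC18KapL, kapU := tC18KapU }

/-- The least `u`. -/
def tC18Lo : Ex :=
  cC (4) 5

/-- A piece: `1.037 ≤ v < 1.2`. -/
def tC19 : Piece where
  u₀ := cC (39) 40
  u₁ := cC (248) 1000 + cC (554) 1000 * xD + cC (412) 1000 * xV
  tLn := lowTn
  tLd := lowTd
  tUn := upCn
  tUd := upCd
  p₀ := cC (183331) 10000 + cC (-80823) 10000 * xD + cC (-32916) 10000 * xV + cC (58951) 10000 * (xD * xV) + cC (-9353) 10000 * (xD * xD) + cC (-113247) 10000 * xS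
  zL := cC (8545) 10000 + cC (-8585) 10000 * xD + cC (-2709) 10000 * xV + cC (-2101) 10000 * (xD * xV) + cC (514) 10000 * (xV * xV) + cC (6822) 10000 * (xD * xD) + cC (-4184) 10000 * xS
  zU := cC (18837) 10000 + cC (-29959) 10000 * xD + cC (-7391) 10000 * xV + cC (2044) 10000 * (xD * xV) + cC (318) 10000 * (xV * xV) + cC (22703) 10000 * (xD * xD) + cC (-3816) 10000 * xS
  k2p := fun _ => cC (386) 10000 + cC (-3356) 10000 * xD + cC (676) 10000 * xV
  k2m := fun e => cC (6015) 10000 + cC (7347) 10000 * xD + cC (-5494) 10000 * xV + cC (379) 10000 * e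
  kapL := fun e => cC (-1125) 10000 + cC (1437) 10000 * xD + cC (427) 10000 * xV + cC (-75) 10000 * e
  kapU := fun e => cC (6714) 10000 + cC (-5285) 10000 * xD + cC (-3279) 10000 * xV + cC (300) 10000 * e
  eL := ⟨cC (-253046) 10000 + cC (341909) 10000 * xD + cC (190470) 10000 * xV + cC (-32381) 10000 * (xV * xV) + cC (-58983) 10000 * (xD * xV) + cC (-155208) 10000 * (xD * xD) + cC (-49176) 10000 * xS,
    cC 0,
    cC 0,
    cC 0,
    cC 0⟩
  eH := ⟨cC (-22237) 10000 + cC (-158685) 10000 * xD + cC (-4717) 10000 * xV + cC (-2803) 10000 * (xV * xV) + cC (107543) 10000 * (xD * xV) + cC (194038) 10000 * (xD * xD) + cC (3168) 10000 * xS,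
    cC 0,
    cC 0,
    cC 0,
    cC 0⟩
  pL := ⟨cC (176106) 10000 + cC (13600) 10000 * xD + cC (-102275) 10000 * xV + cC (153383) 10000 * (xD * xV) + cC (18453) 10000 * (xV * xV) + cC (-100676) 10000 * (xD * xD) + cC (-128245) 10000 * xS,
    cC (1483) 10000 + cC (17351) 10000 * xD + cC (-11219) 10000 * xV,
    cC 0,
    cC (401) 10000,
    cC 0⟩
  pU := ⟨cC (1628495) 10000 + cC (-4116516) 10000 * xD + cC (-907414) 10000 * xV + cC (1409809) 10000 * (xD * xV) + cC (85382) 10000 * (xV * xV) + cC (2588020) 10000 * (xD * xD) + cC (-20904) 10000 * xS,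
    cC (64894) 10000 + cC (-109194) 10000 * xD + cC (-7662) 10000 * xV,
    cC 0,
    cC 0,
    cC 0⟩
  kU := ⟨cC (-10612) 10000 + cC (23437) 10000 * xD + cC (-4435) 10000 * xV + cC (4350) 10000 * (xD * xV) + cC (1153) 10000 * (xV * xV) + cC (-42133) 10000 * (xD * xD) + cC (15786) 10000 * xS,
    cC (-875) 10000 + cC (11346) 10000 * xD + cC (87) 10000 * xV,
    cC (-101) 10000 + cC (978) 10000 * xD + cC (198) 10000 * xV,
    cC 0,
    cC 0⟩
  kL := ⟨cC (-18628) 10000 + cC (57768) 10000 * xD + cC (-426) 10000 * xV + cC (-1739) 10000 * (xD * xV) + cC (-29) 10000 * (xV * xV) + cC (-78114) 10000 * (xD * xD) + cC (15616) 10000 * xS,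
    cC (-483) 10000 + cC (10912) 10000 * xD + cC (-159) 10000 * xV,
    cC (138) 10000 + cC (148) 10000 * xD + cC (205) 10000 * xV,
    cC 0,
    cC 0⟩
  wU := ⟨cC (-15195) 10000 + cC (64411) 10000 * xD + cC (-48070) 10000 * xV + cC (1804) 10000 * (xD * xV) + cC (179) 10000 * (xV * xV) + cC (-38283) 10000 * (xD * xD) + cC (132550) 10000 * xS,
    cC (-3362) 10000 + cC (6395) 10000 * xD + cC (-3061) 10000 * xV,
    cC (-18480) 10000 + cC (-7845) 10000 * xD + cC (4356) 10000 * xV,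
    cC 0,
    cC 0⟩
  wL := ⟨cC (-439825) 10000 + cC (1801649) 10000 * xD + cC (226578) 10000 * xV + cC (-521472) 10000 * (xD * xV) + cC (-48778) 10000 * (xV * xV) + cC (-1725217) 10000 * (xD * xD) + cC (109288) 10000 * xS,
    cC (-18628) 10000 + cC (37765) 10000 * xD + cC (695) 10000 * xV,
    cC (-25655) 10000 + cC (-568) 10000 * xD + cC (7880) 10000 * xV,
    cC 0,
    cC 0⟩

/-- The cut in `e`. -/
def tC19Cut : Ex :=
  cC (-251121) 10000 + cC (338945) 10000 * xD + cC (179537) 10000 * xV + cC (-25549) 10000 * (xV * xV) + cC (-71947) 10000 * (xD * xV) + cC (-88185) 10000 * (xD * xD) + cC (-42736) 10000 * xS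

/-- The bound of `p` above the cut. -/
def tC19PU : Bnd :=
  ⟨cC (248323) 10000 + cC (-354648) 10000 * xD + cC (-86616) 10000 * xV + cC (193911) 10000 * (xD * xV) + cC (12833) 10000 * (xV * xV) + cC (280959) 10000 * (xD * xD) + cC (-140270) 10000 * xS,
    cC (4888) 10000 + cC (-7131) 10000 * xD + cC (-7346) 10000 * xV,
    cC 0,
    cC 0,
    cC 0⟩

/-- A multiplier above the cut. -/
def tC19K2p : Ex → Ex :=
  fun _ => cC (403) 10000 + cC (-3398) 10000 * xD + cC (673) 10000 * xV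

/-- A multiplier above the cut. -/
def tC19K2m : Ex → Ex :=
  fun e => cC (10195) 10000 + cC (3640) 10000 * xD + cC (-7256) 10000 * xV + cC (637) 10000 * e

/-- A multiplier above the cut. -/
def tC19KapL : Ex → Ex :=
  fun e => cC (1166) 10000 + cC (-3320) 10000 * xD + cC (303) 10000 * xV + cC (24) 10000 * e

/-- A multiplier above the cut. -/
def tC19KapU : Ex → Ex :=
  fun e => cC (6605) 10000 + cC (-5187) 10000 * xD + cC (-3224) 10000 * xV + cC (296) 10000 * e

/-- Below the cut. -/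
def tC19A : Piece :=
  tC19.below tC19Cut

/-- Above the cut. -/
def tC19B : Piece :=
  { tC19.above tC19Cut tC19PU with k2p := tC19K2p, k2m := tC19K2m, kapL := tC19KapL, kapU := tC19KapU }

/-- The least `u`. -/
def tC19Lo : Ex :=
  cC (4) 5

/-- A piece: `1.037 ≤ v < 1.116`. -/
def tC20 : Piece where
  u₀ := cC (39) 40
  u₁ := cC (170) 1000 + cC (609) 1000 * xD + cC (473) 1000 * xV
  tLn := lowTn
  tLd := lowTd
  tUn := upCn
  tUd := upCd
  p₀ := cC (180640) 10000 + cC (-80561) 10000 * xD + cC (-32306) 10000 * xV + cC (56952) 10000 * (xD * xV) + cC (-5275) 10000 * (xD * xD) + cC (-109919) 10000 * xS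
  zL := cC (9023) 10000 + cC (-11124) 10000 * xD + cC (-2756) 10000 * xV + cC (-2184) 10000 * (xD * xV) + cC (548) 10000 * (xV * xV) + cC (10943) 10000 * (xD * xD) + cC (-4256) 10000 * xS
  zU := cC (18851) 10000 + cC (-28154) 10000 * xD + cC (-7212) 10000 * xV + cC (2423) 10000 * (xD * xV) + cC (-84) 10000 * (xV * xV) + cC (18449) 10000 * (xD * xD) + cC (-3908) 10000 * xS
  k2p := fun _ => cC (10) 10000
  k2m := fun e => cC (8572) 10000 + cC (8973) 10000 * xD + cC (-7756) 10000 * xV + cC (536) 10000 * e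
  kapL := fun e => cC (-1156) 10000 + cC (1294) 10000 * xD + cC (517) 10000 * xV + cC (-70) 10000 * e
  kapU := fun e => cC (6547) 10000 + cC (-5079) 10000 * xD + cC (-3307) 10000 * xV + cC (279) 10000 * e
  eL := ⟨cC (-267906) 10000 + cC (351780) 10000 * xD + cC (202753) 10000 * xV + cC (-32726) 10000 * (xV * xV) + cC (-62025) 10000 * (xD * xV) + cC (-150520) 10000 * (xD * xD) + cC (-48523) 10000 * xS,
    cC 0,
    cC 0,
    cC 0,
    cC 0⟩
  eH := ⟨cC (-27903) 10000 + cC (-138855) 10000 * xD + cC (-3187) 10000 * xV + cC (-3416) 10000 * (xV * xV) + cC (106707) 10000 * (xD * xV) + cC (164068) 10000 * (xD * xD) + cC (5778) 10000 * xS,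
    cC 0,
    cC 0,
    cC 0,
    cC 0⟩
  pL := ⟨cC (80078) 10000 + cC (411338) 10000 * xD + cC (-60609) 10000 * xV + cC (51821) 10000 * (xD * xV) + cC (15617) 10000 * (xV * xV) + cC (-507781) 10000 * (xD * xD) + cC (-122962) 10000 * xS,
    cC (-1216) 10000 + cC (22663) 10000 * xD + cC (-10395) 10000 * xV,
    cC 0,
    cC (365) 10000,
    cC 0⟩
  pU := ⟨cC (1753965) 10000 + cC (-4228921) 10000 * xD + cC (-1074172) 10000 * xV + cC (1529824) 10000 * (xD * xV) + cC (125523) 10000 * (xV * xV) + cC (2561456) 10000 * (xD * xD) + cC (-17742) 10000 * xS,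
    cC (67572) 10000 + cC (-106380) 10000 * xD + cC (-11027) 10000 * xV,
    cC 0,
    cC 0,
    cC 0⟩
  kU := ⟨cC (3735) 10000 + cC (-68257) 10000 * xD + cC (-14221) 10000 * xV + cC (36412) 10000 * (xD * xV) + cC (2259) 10000 * (xV * xV) + cC (84203) 10000 * (xD * xD) + cC (15975) 10000 * xS,
    cC (-1176) 10000 + cC (12329) 10000 * xD + cC (76) 10000 * xV,
    cC (1398) 10000 + cC (-2211) 10000 * xD + cC (-227) 10000 * xV,
    cC 0,
    cC 0⟩
  kL := ⟨cC (-22760) 10000 + cC (70348) 10000 * xD + cC (2762) 10000 * xV + cC (-8209) 10000 * (xD * xV) + cC (-488) 10000 * (xV * xV) + cC (-84157) 10000 * (xD * xD) + cC (15655) 10000 * xS,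
    cC (-346) 10000 + cC (10718) 10000 * xD + cC (-223) 10000 * xV,
    cC (267) 10000 + cC (-98) 10000 * xD + cC (165) 10000 * xV,
    cC 0,
    cC 0⟩
  wU := ⟨cC (142367) 10000 + cC (-315876) 10000 * xD + cC (-136375) 10000 * xV + cC (95851) 10000 * (xD * xV) + cC (10966) 10000 * (xV * xV) + cC (142014) 10000 * (xD * xD) + cC (127768) 10000 * xS,
    cC (-2938) 10000 + cC (5407) 10000 * xD + cC (-3155) 10000 * xV,
    cC (-30840) 10000 + cC (14249) 10000 * xD + cC (9147) 10000 * xV,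
    cC 0,
    cC 0⟩
  wL := ⟨cC (-817943) 10000 + cC (3064595) 10000 * xD + cC (528101) 10000 * xV + cC (-1042275) 10000 * (xD * xV) + cC (-108866) 10000 * (xV * xV) + cC (-2726082) 10000 * (xD * xD) + cC (108034) 10000 * xS,
    cC (-25339) 10000 + cC (48045) 10000 * xD + cC (3671) 10000 * xV,
    cC (-28250) 10000 + cC (1608) 10000 * xD + cC (9758) 10000 * xV,
    cC 0,
    cC 0⟩

/-- The cut in `e`. -/
def tC20Cut : Ex :=
  cC (-264447) 10000 + cC (361771) 10000 * xD + cC (188018) 10000 * xV + cC (-26713) 10000 * (xV * xV) + cC (-57032) 10000 * (xD * xV) + cC (-135027) 10000 * (xD * xD) + cC (-44456) 10000 * xS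

/-- The bound of `p` above the cut. -/
def tC20PU : Bnd :=
  ⟨cC (235556) 10000 + cC (-260982) 10000 * xD + cC (-94097) 10000 * xV + cC (206834) 10000 * (xD * xV) + cC (14354) 10000 * (xV * xV) + cC (105061) 10000 * (xD * xD) + cC (-136319) 10000 * xS,
    cC (5432) 10000 + cC (-8686) 10000 * xD + cC (-7388) 10000 * xV,
    cC 0,
    cC 0,
    cC 0⟩

/-- A multiplier above the cut. -/
def tC20K2p : Ex → Ex :=
  fun _ => cC (10) 10000

/-- A multiplier above the cut. -/
def tC20K2m : Ex → Ex :=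
  fun e => cC (17991) 10000 + cC (2174) 10000 * xD + cC (-12780) 10000 * xV + cC (1002) 10000 * e

/-- A multiplier above the cut. -/
def tC20KapL : Ex → Ex :=
  fun e => cC (1530) 10000 + cC (-3940) 10000 * xD + cC (117) 10000 * xV + cC (8) 10000 * e

/-- A multiplier above the cut. -/
def tC20KapU : Ex → Ex :=
  fun e => cC (-695) 10000 + cC (1809) 10000 * xD + cC (168) 10000 * xV + cC (-43) 10000 * e

/-- Below the cut. -/
def tC20A : Piece :=
  tC20.below tC20Cut

/-- Above the cut. -/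
def tC20B : Piece :=
  { tC20.above tC20Cut tC20PU with k2p := tC20K2p, k2m := tC20K2m, kapL := tC20KapL, kapU := tC20KapU }

/-- The least `u`. -/
def tC20Lo : Ex :=
  cC (4) 5

/-- The upper end of `u`. -/
def tC21Hi : Ex :=
  cC (71) 80

/-- The least `u`. -/
def tC21Lo : Ex :=
  cC (4) 5

/-- A piece: `1.116 ≤ v < 1.2`. -/
def tC22 : Piece where
  u₀ := cC (149) 160
  u₁ := cC (333) 1000 + cC (581) 1000 * xD + cC (334) 1000 * xV
  tLn := lowTn
  tLd := lowTd
  tUn := upCn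
  tUd := upCd
  p₀ := cC (182750) 10000 + cC (-83945) 10000 * xD + cC (-33960) 10000 * xV + cC (61930) 10000 * (xD * xV) + cC (-9095) 10000 * (xD * xD) + cC (-110764) 10000 * xS
  zL := cC (10008) 10000 + cC (-13312) 10000 * xD + cC (-2835) 10000 * xV + cC (-1752) 10000 * (xD * xV) + cC (518) 10000 * (xV * xV) + cC (11483) 10000 * (xD * xD) + cC (-4085) 10000 * xS
  zU := cC (15758) 10000 + cC (-19076) 10000 * xD + cC (-5453) 10000 * xV + cC (-1640) 10000 * (xD * xV) + cC (298) 10000 * (xV * xV) + cC (11756) 10000 * (xD * xD) + cC (-4064) 10000 * xS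
  k2p := fun _ => cC (10) 10000
  k2m := fun e => cC (-5651) 10000 + cC (12615) 10000 * xD + cC (215) 10000 * xV + cC (-604) 10000 * e
  kapL := fun e => cC (3784) 10000 + cC (-3771) 10000 * xD + cC (-1570) 10000 * xV + cC (170) 10000 * e
  kapU := fun e => cC (4344) 10000 + cC (-4925) 10000 * xD + cC (-1699) 10000 * xV + cC (168) 10000 * e
  eL := ⟨cC (-215004) 10000 + cC (228099) 10000 * xD + cC (142794) 10000 * xV + cC (-24553) 10000 * (xV * xV) + cC (-9169) 10000 * (xD * xV) + cC (-52026) 10000 * (xD * xD) + cC (-27219) 10000 * xS,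
    cC 0,
    cC 0,
    cC 0,
    cC 0⟩
  eH := ⟨cC (-24784) 10000 + cC (-156066) 10000 * xD + cC (-4688) 10000 * xV + cC (-2647) 10000 * (xV * xV) + cC (108135) 10000 * (xD * xV) + cC (200521) 10000 * (xD * xD) + cC (-7347) 10000 * xS,
    cC 0,
    cC 0,
    cC 0,
    cC 0⟩
  pL := ⟨cC (-2617545) 10000 + cC (2915128) 10000 * xD + cC (3111917) 10000 * xV + cC (-2316887) 10000 * (xD * xV) + cC (-647457) 10000 * (xV * xV) + cC (-334648) 10000 * (xD * xD) + cC (-103955) 10000 * xS,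
    cC (-317985) 10000 + cC (18682) 10000 * xD + cC (275219) 10000 * xV,
    cC 0,
    cC 0,
    cC 0⟩
  pU := ⟨cC (1418040) 10000 + cC (-3521545) 10000 * xD + cC (-707361) 10000 * xV + cC (1078696) 10000 * (xD * xV) + cC (61974) 10000 * (xV * xV) + cC (2279125) 10000 * (xD * xD) + cC (-63548) 10000 * xS,
    cC (61840) 10000 + cC (-102225) 10000 * xD + cC (-7201) 10000 * xV,
    cC 0,
    cC 0,
    cC 0⟩
  kU := ⟨cC (-23814) 10000 + cC (15922) 10000 * xD + cC (3318) 10000 * xV + cC (7977) 10000 * (xD * xV) + cC (-465) 10000 * (xV * xV) + cC (28967) 10000 * (xD * xD) + cC (15571) 10000 * xS,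
    cC (-2940) 10000 + cC (15837) 10000 * xD + cC (588) 10000 * xV,
    cC (1876) 10000 + cC (-3212) 10000 * xD + cC (-330) 10000 * xV,
    cC 0,
    cC 0⟩
  kL := ⟨cC (-26959) 10000 + cC (103324) 10000 * xD + cC (3200) 10000 * xV + cC (-11348) 10000 * (xD * xV) + cC (-293) 10000 * (xV * xV) + cC (-138590) 10000 * (xD * xD) + cC (15256) 10000 * xS,
    cC (952) 10000 + cC (7925) 10000 * xD + cC (-534) 10000 * xV,
    cC (523) 10000 + cC (-413) 10000 * xD + cC (34) 10000 * xV,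
    cC 0,
    cC 0⟩
  wU := ⟨cC (420269) 10000 + cC (-1431125) 10000 * xD + cC (-299754) 10000 * xV + cC (440008) 10000 * (xD * xV) + cC (40263) 10000 * (xV * xV) + cC (1156120) 10000 * (xD * xD) + cC (130319) 10000 * xS,
    cC (8963) 10000 + cC (-17419) 10000 * xD + cC (-7217) 10000 * xV,
    cC (-25393) 10000 + cC (10958) 10000 * xD + cC (4789) 10000 * xV,
    cC 0,
    cC 0⟩
  wL := ⟨cC (-197827) 10000 + cC (428595) 10000 * xD + cC (-73124) 10000 * xV + cC (179215) 10000 * (xD * xV) + cC (-103976) 10000 * (xV * xV) + cC (1008591) 10000 * (xD * xD) + cC (194711) 10000 * xS,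
    cC (5875) 10000 + cC (-90767) 10000 * xD + cC (18267) 10000 * xV,
    cC (11685) 10000 + cC (-213603) 10000 * xD + cC (38321) 10000 * xV,
    cC 0,
    cC 0⟩

/-- The cut in `e`. -/
def tC22Cut : Ex :=
  cC (-213629) 10000 + cC (261227) 10000 * xD + cC (131392) 10000 * xV + cC (-17097) 10000 * (xV * xV) + cC (-21286) 10000 * (xD * xV) + cC (-44218) 10000 * (xD * xD) + cC (-29254) 10000 * xS

/-- The bound of `p` above the cut. -/
def tC22PU : Bnd :=
  ⟨cC (233156) 10000 + cC (-261506) 10000 * xD + cC (-83996) 10000 * xV + cC (191199) 10000 * (xD * xV) + cC (12186) 10000 * (xV * xV) + cC (134671) 10000 * (xD * xD) + cC (-139025) 10000 * xS,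
    cC (3991) 10000 + cC (-5634) 10000 * xD + cC (-6458) 10000 * xV,
    cC 0,
    cC 0,
    cC 0⟩

/-- A multiplier above the cut. -/
def tC22K2p : Ex → Ex :=
  fun _ => cC (10) 10000

/-- A multiplier above the cut. -/
def tC22K2m : Ex → Ex :=
  fun e => cC (6342) 10000 + cC (2330) 10000 * xD + cC (-5443) 10000 * xV + cC (67) 10000 * e

/-- A multiplier above the cut. -/
def tC22KapL : Ex → Ex :=
  fun e => cC (-2844) 10000 + cC (1605) 10000 * xD + cC (1918) 10000 * xV + cC (-84) 10000 * e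

/-- A multiplier above the cut. -/
def tC22KapU : Ex → Ex :=
  fun e => cC (-1361) 10000 + cC (2694) 10000 * xD + cC (387) 10000 * xV + cC (-82) 10000 * e

/-- Below the cut. -/
def tC22A : Piece :=
  tC22.below tC22Cut

/-- Above the cut. -/
def tC22B : Piece :=
  { tC22.above tC22Cut tC22PU with k2p := tC22K2p, k2m := tC22K2m, kapL := tC22KapL, kapU := tC22KapU }

/-- The least `u`. -/
def tC22Lo : Ex :=
  cC (71) 80

/-- A piece: `1.116 ≤ v < 1.2`. -/
def tC23 : Piece where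
  u₀ := cC (39) 40
  u₁ := cC (149) 160
  tLn := lowTn
  tLd := lowTd
  tUn := upCn
  tUd := upCd
  p₀ := cC (182750) 10000 + cC (-83945) 10000 * xD + cC (-33960) 10000 * xV + cC (61930) 10000 * (xD * xV) + cC (-9095) 10000 * (xD * xD) + cC (-110764) 10000 * xS
  zL := cC (9109) 10000 + cC (-11494) 10000 * xD + cC (-2778) 10000 * xV + cC (-1906) 10000 * (xD * xV) + cC (517) 10000 * (xV * xV) + cC (11034) 10000 * (xD * xD) + cC (-4275) 10000 * xS
  zU := cC (9471) 10000 + cC (-8330) 10000 * xD + cC (-2646) 10000 * xV + cC (-2170) 10000 * (xD * xV) + cC (516) 10000 * (xV * xV) + cC (4574) 10000 * (xD * xD) + cC (-4071) 10000 * xS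
  k2p := fun _ => cC (197) 10000 + cC (-1722) 10000 * xD + cC (346) 10000 * xV
  k2m := fun e => cC (-8501) 10000 + cC (31331) 10000 * xD + cC (-1107) 10000 * xV + cC (-269) 10000 * e
  kapL := fun e => cC (599) 10000 + cC (-1434) 10000 * xD + cC (69) 10000 * xV + cC (-9) 10000 * e
  kapU := fun e => cC (2238) 10000 + cC (-1675) 10000 * xD + cC (-566) 10000 * xV + cC (306) 10000 * e
  eL := ⟨cC (-36404) 10000 + cC (-87796) 10000 * xD + cC (7151) 10000 * xV + cC (-4105) 10000 * (xV * xV) + cC (77771) 10000 * (xD * xV) + cC (119154) 10000 * (xD * xD) + cC (-16838) 10000 * xS,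
    cC 0,
    cC 0,
    cC 0,
    cC 0⟩
  eH := ⟨cC (-30580) 10000 + cC (-145307) 10000 * xD + cC (-2234) 10000 * xV + cC (-3482) 10000 * (xV * xV) + cC (103927) 10000 * (xD * xV) + cC (178320) 10000 * (xD * xD) + cC (10686) 10000 * xS,
    cC 0,
    cC 0,
    cC 0,
    cC 0⟩
  pL := ⟨cC (182475) 10000 + cC (-83945) 10000 * xD + cC (-33960) 10000 * xV + cC (61930) 10000 * (xD * xV) + cC (-9095) 10000 * (xD * xD) + cC (-110764) 10000 * xS,
    cC 0,
    cC 0,
    cC (10000) 10000,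
    cC 0⟩
  pU := ⟨cC (517235) 10000 + cC (-1058623) 10000 * xD + cC (-103942) 10000 * xV + cC (130451) 10000 * (xD * xV) + cC (9054) 10000 * (xV * xV) + cC (693810) 10000 * (xD * xD) + cC (-85812) 10000 * xS,
    cC (53161) 10000 + cC (-97528) 10000 * xD + cC (-1432) 10000 * xV,
    cC 0,
    cC 0,
    cC 0⟩
  kU := ⟨cC (-11266) 10000 + cC (70479) 10000 * xD + cC (-14540) 10000 * xV + cC (-79686) 10000 * (xD * xV) + cC (13828) 10000 * (xV * xV) + cC (70205) 10000 * (xD * xD) + cC (15536) 10000 * xS,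
    cC (-858) 10000 + cC (9567) 10000 * xD + cC (562) 10000 * xV,
    cC (-351) 10000 + cC (-2918) 10000 * xD + cC (1503) 10000 * xV,
    cC 0,
    cC 0⟩
  kL := ⟨cC (-22977) 10000 + cC (63972) 10000 * xD + cC (3958) 10000 * xV + cC (-7360) 10000 * (xD * xV) + cC (-713) 10000 * (xV * xV) + cC (-75265) 10000 * (xD * xD) + cC (15467) 10000 * xS,
    cC (-35) 10000 + cC (10186) 10000 * xD + cC (-330) 10000 * xV,
    cC (541) 10000 + cC (-238) 10000 * xD + cC (-16) 10000 * xV,
    cC 0,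
    cC 0⟩
  wU := ⟨cC (-93528) 10000 + cC (157203) 10000 * xD + cC (-6782) 10000 * xV + cC (-10978) 10000 * (xD * xV) + cC (-769) 10000 * (xV * xV) + cC (-38509) 10000 * (xD * xD) + cC (136819) 10000 * xS,
    cC (-2136) 10000 + cC (4026) 10000 * xD + cC (-3536) 10000 * xV,
    cC (-7919) 10000 + cC (-20245) 10000 * xD + cC (-867) 10000 * xV,
    cC 0,
    cC 0⟩
  wL := ⟨cC (-10726) 10000 + cC (-200023) 10000 * xD + cC (-27815) 10000 * xV + cC (86415) 10000 * (xD * xV) + cC (-1936) 10000 * (xV * xV) + cC (277380) 10000 * (xD * xD) + cC (123123) 10000 * xS,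
    cC (10016) 10000 + cC (-34069) 10000 * xD + cC (-3564) 10000 * xV,
    cC (-4832) 10000 + cC (-27501) 10000 * xD + cC (-1911) 10000 * xV,
    cC 0,
    cC 0⟩

/-- The cut in `e`. -/
def tC23Cut : Ex :=
  cC (-32072) 10000 + cC (-93999) 10000 * xD + cC (4279) 10000 * xV + cC (-4523) 10000 * (xV * xV) + cC (94138) 10000 * (xD * xV) + cC (130729) 10000 * (xD * xD) + cC (-19613) 10000 * xS

/-- The bound of `p` above the cut. -/
def tC23PU : Bnd :=
  ⟨cC (219938) 10000 + cC (-236494) 10000 * xD + cC (-78155) 10000 * xV + cC (199755) 10000 * (xD * xV) + cC (9517) 10000 * (xV * xV) + cC (91339) 10000 * (xD * xD) + cC (-137105) 10000 * xS,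
    cC (3382) 10000 + cC (-6237) 10000 * xD + cC (-6422) 10000 * xV,
    cC 0,
    cC 0,
    cC 0⟩

/-- A multiplier above the cut. -/
def tC23K2p : Ex → Ex :=
  fun e => cC (241) 10000 + cC (-1249) 10000 * xD + cC (96) 10000 * xV + cC (-39) 10000 * e

/-- A multiplier above the cut. -/
def tC23K2m : Ex → Ex :=
  fun e => cC (-7446) 10000 + cC (30173) 10000 * xD + cC (-1409) 10000 * xV + cC (-149) 10000 * e

/-- A multiplier above the cut. -/
def tC23KapL : Ex → Ex :=
  fun e => cC (437) 10000 + cC (-492) 10000 * xD + cC (137) 10000 * xV + cC (73) 10000 * e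

/-- A multiplier above the cut. -/
def tC23KapU : Ex → Ex :=
  fun e => cC (-1335) 10000 + cC (2655) 10000 * xD + cC (380) 10000 * xV + cC (-81) 10000 * e

/-- Below the cut. -/
def tC23A : Piece :=
  tC23.below tC23Cut

/-- Above the cut. -/
def tC23B : Piece :=
  { tC23.above tC23Cut tC23PU with k2p := tC23K2p, k2m := tC23K2m, kapL := tC23KapL, kapU := tC23KapU }

/-- A piece: `1.2 ≤ v < 1.271`. -/
def tC24 : Piece where
  u₀ := cC (39) 40
  u₁ := cC (392) 1000 + cC (514) 1000 * xD + cC (303) 1000 * xV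
  tLn := lowTn
  tLd := lowTd
  tUn := upCn
  tUd := upCd
  p₀ := cC (204751) 10000 + cC (-116171) 10000 * xD + cC (-36732) 10000 * xV + cC (75559) 10000 * (xD * xV) + cC (10712) 10000 * (xD * xD) + cC (-134408) 10000 * xS
  zL := cC (8467) 10000 + cC (-20619) 10000 * xD + cC (-2140) 10000 * xV + cC (-1826) 10000 * (xD * xV) + cC (245) 10000 * (xV * xV) + cC (30890) 10000 * (xD * xD) + cC (-2351) 10000 * xS
  zU := cC (17151) 10000 + cC (-36110) 10000 * xD + cC (-6236) 10000 * xV + cC (-3201) 10000 * (xD * xV) + cC (727) 10000 * (xV * xV) + cC (52112) 10000 * (xD * xD) + cC (-2365) 10000 * xS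
  k2p := fun e => cC (-369) 10000 + cC (1594) 10000 * xD + cC (209) 10000 * xV + cC (-28) 10000 * e
  k2m := fun e => cC (665) 10000 + cC (2759) 10000 * xD + cC (-683) 10000 * xV + cC (23) 10000 * e
  kapL := fun e => cC (173) 10000 + cC (612) 10000 * xD + cC (-10) 10000 * xV + cC (11) 10000 * e
  kapU := fun e => cC (1363) 10000 + cC (-1225) 10000 * xD + cC (-479) 10000 * xV + cC (62) 10000 * e
  eL := ⟨cC (-121839) 10000 + cC (176395) 10000 * xD + cC (103370) 10000 * xV + cC (-10363) 10000 * (xV * xV) + cC (-17320) 10000 * (xD * xV) + cC (3306) 10000 * (xD * xD) + cC (-106097) 10000 * xS,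
    cC 0,
    cC 0,
    cC 0,
    cC 0⟩
  eH := ⟨cC (-8687) 10000 + cC (-140561) 10000 * xD + cC (2447) 10000 * xV + cC (-247) 10000 * (xV * xV) + cC (58485) 10000 * (xD * xV) + cC (279379) 10000 * (xD * xD) + cC (-27871) 10000 * xS,
    cC 0,
    cC 0,
    cC 0,
    cC 0⟩
  pL := ⟨cC (212763) 10000 + cC (-264162) 10000 * xD + cC (-12162) 10000 * xV + cC (161655) 10000 * (xD * xV) + cC (-20431) 10000 * (xV * xV) + cC (168323) 10000 * (xD * xD) + cC (-186820) 10000 * xS,
    cC (10175) 10000 + cC (-10256) 10000 * xD + cC (-13114) 10000 * xV,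
    cC 0,
    cC 0,
    cC 0⟩
  pU := ⟨cC (284635) 10000 + cC (-175051) 10000 * xD + cC (-105572) 10000 * xV + cC (145329) 10000 * (xD * xV) + cC (22013) 10000 * (xV * xV) + cC (132833) 10000 * (xD * xD) + cC (-211663) 10000 * xS,
    cC (4569) 10000 + cC (5529) 10000 * xD + cC (-9682) 10000 * xV,
    cC 0,
    cC 0,
    cC 0⟩
  kU := ⟨cC (-6611) 10000 + cC (11098) 10000 * xD + cC (-2263) 10000 * xV + cC (-1652) 10000 * (xD * xV) + cC (1508) 10000 * (xV * xV) + cC (-18989) 10000 * (xD * xD) + cC (9806) 10000 * xS,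
    cC (-846) 10000 + cC (11059) 10000 * xD + cC (101) 10000 * xV,
    cC (-43) 10000 + cC (2189) 10000 * xD + cC (-68) 10000 * xV,
    cC 0,
    cC 0⟩
  kL := ⟨cC (-6246) 10000 + cC (7877) 10000 * xD + cC (-1138) 10000 * xV + cC (8609) 10000 * (xD * xV) + cC (-35) 10000 * (xV * xV) + cC (-34572) 10000 * (xD * xD) + cC (8857) 10000 * xS,
    cC (-220) 10000 + cC (11236) 10000 * xD + cC (-425) 10000 * xV,
    cC (250) 10000 + cC (1757) 10000 * xD + cC (-240) 10000 * xV,
    cC 0,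
    cC 0⟩
  wU := ⟨cC (71543) 10000 + cC (10874) 10000 * xD + cC (-131316) 10000 * xV + cC (16739) 10000 * (xD * xV) + cC (23290) 10000 * (xV * xV) + cC (-33982) 10000 * (xD * xD) + cC (112405) 10000 * xS,
    cC (-3454) 10000 + cC (13006) 10000 * xD + cC (-4477) 10000 * xV,
    cC (-24325) 10000 + cC (1495) 10000 * xD + cC (7449) 10000 * xV,
    cC 0,
    cC 0⟩
  wL := ⟨cC (-115861) 10000 + cC (147037) 10000 * xD + cC (4912) 10000 * xV + cC (-3565) 10000 * (xD * xV) + cC (-8367) 10000 * (xV * xV) + cC (-94983) 10000 * (xD * xD) + cC (177989) 10000 * xS,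
    cC (420) 10000 + cC (3533) 10000 * xD + cC (-5181) 10000 * xV,
    cC (-9914) 10000 + cC (-15845) 10000 * xD + cC (-692) 10000 * xV,
    cC 0,
    cC 0⟩

/-- The least `u`. -/
def tC24Lo : Ex :=
  cC (4) 5

/-- A piece: `1.2 ≤ v < 1.271`. -/
def tC25 : Piece where
  u₀ := cC (39) 40
  u₁ := cC (439) 1000 + cC (508) 1000 * xD + cC (265) 1000 * xV
  tLn := lowTn
  tLd := lowTd
  tUn := upCn
  tUd := upCd
  p₀ := cC (193744) 10000 + cC (-99869) 10000 * xD + cC (-34998) 10000 * xV + cC (66732) 10000 * (xD * xV) + cC (2770) 10000 * (xD * xD) + cC (-122382) 10000 * xS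
  zL := cC (8446) 10000 + cC (-12189) 10000 * xD + cC (-2451) 10000 * xV + cC (-1848) 10000 * (xD * xV) + cC (374) 10000 * (xV * xV) + cC (12183) 10000 * (xD * xD) + cC (-3442) 10000 * xS
  zU := cC (17690) 10000 + cC (-33137) 10000 * xD + cC (-7028) 10000 * xV + cC (2438) 10000 * (xD * xV) + cC (733) 10000 * (xV * xV) + cC (29360) 10000 * (xD * xD) + cC (-3330) 10000 * xS
  k2p := fun e => cC (-1791) 10000 + cC (1548) 10000 * xD + cC (1198) 10000 * xV + cC (-59) 10000 * e
  k2m := fun e => cC (3514) 10000 + cC (4939) 10000 * xD + cC (-3281) 10000 * xV + cC (83) 10000 * e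
  kapL := fun e => cC (305) 10000 + cC (-260) 10000 * xD + cC (161) 10000 * xV + cC (63) 10000 * e
  kapU := fun e => cC (8864) 10000 + cC (-8321) 10000 * xD + cC (-3568) 10000 * xV + cC (514) 10000 * e
  eL := ⟨cC (-174477) 10000 + cC (222942) 10000 * xD + cC (127998) 10000 * xV + cC (-20309) 10000 * (xV * xV) + cC (-41242) 10000 * (xD * xV) + cC (-22442) 10000 * (xD * xD) + cC (-54387) 10000 * xS,
    cC 0,
    cC 0,
    cC 0,
    cC 0⟩
  eH := ⟨cC (-13845) 10000 + cC (-167434) 10000 * xD + cC (-690) 10000 * xV + cC (-1441) 10000 * (xV * xV) + cC (83450) 10000 * (xD * xV) + cC (262751) 10000 * (xD * xD) + cC (-11753) 10000 * xS,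
    cC 0,
    cC 0,
    cC 0,
    cC 0⟩
  pL := ⟨cC (266931) 10000 + cC (-319532) 10000 * xD + cC (-124271) 10000 * xV + cC (206834) 10000 * (xD * xV) + cC (18146) 10000 * (xV * xV) + cC (256660) 10000 * (xD * xD) + cC (-155385) 10000 * xS,
    cC (9818) 10000 + cC (437) 10000 * xD + cC (-14737) 10000 * xV,
    cC 0,
    cC 0,
    cC 0⟩
  pU := ⟨cC (262959) 10000 + cC (-275057) 10000 * xD + cC (-96206) 10000 * xV + cC (170953) 10000 * (xD * xV) + cC (16856) 10000 * (xV * xV) + cC (237777) 10000 * (xD * xD) + cC (-168896) 10000 * xS,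
    cC (4666) 10000 + cC (1227) 10000 * xD + cC (-8830) 10000 * xV,
    cC 0,
    cC 0,
    cC 0⟩
  kU := ⟨cC (-8678) 10000 + cC (22616) 10000 * xD + cC (-8035) 10000 * xV + cC (-5232) 10000 * (xD * xV) + cC (5092) 10000 * (xV * xV) + cC (-29480) 10000 * (xD * xD) + cC (14070) 10000 * xS,
    cC (-965) 10000 + cC (11089) 10000 * xD + cC (201) 10000 * xV,
    cC (345) 10000 + cC (1708) 10000 * xD + cC (-313) 10000 * xV,
    cC 0,
    cC 0⟩
  kL := ⟨cC (-9215) 10000 + cC (14358) 10000 * xD + cC (-1427) 10000 * xV + cC (6815) 10000 * (xD * xV) + cC (-252) 10000 * (xV * xV) + cC (-32275) 10000 * (xD * xD) + cC (12604) 10000 * xS,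
    cC (-195) 10000 + cC (10416) 10000 * xD + cC (-280) 10000 * xV,
    cC (233) 10000 + cC (645) 10000 * xD + cC (-7) 10000 * xV,
    cC 0,
    cC 0⟩
  wU := ⟨cC (135127) 10000 + cC (-123633) 10000 * xD + cC (-190679) 10000 * xV + cC (71959) 10000 * (xD * xV) + cC (35141) 10000 * (xV * xV) + cC (-6382) 10000 * (xD * xD) + cC (126283) 10000 * xS,
    cC (-3629) 10000 + cC (11660) 10000 * xD + cC (-4148) 10000 * xV,
    cC (-29051) 10000 + cC (7638) 10000 * xD + cC (9655) 10000 * xV,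
    cC 0,
    cC 0⟩
  wL := ⟨cC (-288711) 10000 + cC (523633) 10000 * xD + cC (138378) 10000 * xV + cC (-157475) 10000 * (xD * xV) + cC (-37867) 10000 * (xV * xV) + cC (-185846) 10000 * (xD * xD) + cC (187924) 10000 * xS,
    cC (-3741) 10000 + cC (1417) 10000 * xD + cC (-1073) 10000 * xV,
    cC (-3158) 10000 + cC (-34533) 10000 * xD + cC (-1665) 10000 * xV,
    cC 0,
    cC 0⟩

/-- The least `u`. -/
def tC25Lo : Ex :=
  cC (4) 5

/-- A piece: `1.2 ≤ v < 1.271`. -/
def tC26 : Piece where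
  u₀ := cC (39) 40
  u₁ := cC (447) 1000 + cC (515) 1000 * xD + cC (257) 1000 * xV
  tLn := lowTn
  tLd := lowTd
  tUn := upCn
  tUd := upCd
  p₀ := cC (189182) 10000 + cC (-93779) 10000 * xD + cC (-34913) 10000 * xV + cC (65599) 10000 * (xD * xV) + cC (-3378) 10000 * (xD * xD) + cC (-116965) 10000 * xS
  zL := cC (8529) 10000 + cC (-9637) 10000 * xD + cC (-2616) 10000 * xV + cC (-1819) 10000 * (xD * xV) + cC (438) 10000 * (xV * xV) + cC (7814) 10000 * (xD * xD) + cC (-3977) 10000 * xS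
  zU := cC (16271) 10000 + cC (-24043) 10000 * xD + cC (-6306) 10000 * xV + cC (394) 10000 * (xD * xV) + cC (699) 10000 * (xV * xV) + cC (17108) 10000 * (xD * xD) + cC (-3780) 10000 * xS
  k2p := fun e => cC (7504) 10000 + cC (-10268) 10000 * xD + cC (-2043) 10000 * xV + cC (535) 10000 * e
  k2m := fun e => cC (6194) 10000 + cC (-3599) 10000 * xD + cC (-2765) 10000 * xV + cC (406) 10000 * e
  kapL := fun e => cC (1174) 10000 + cC (-947) 10000 * xD + cC (-567) 10000 * xV + cC (34) 10000 * e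
  kapU := fun e => cC (5918) 10000 + cC (-5748) 10000 * xD + cC (-2469) 10000 * xV + cC (312) 10000 * e
  eL := ⟨cC (-199537) 10000 + cC (219302) 10000 * xD + cC (142997) 10000 * xV + cC (-25918) 10000 * (xV * xV) + cC (-44449) 10000 * (xD * xV) + cC (3764) 10000 * (xD * xD) + cC (-31705) 10000 * xS,
    cC 0,
    cC 0,
    cC 0,
    cC 0⟩
  eH := ⟨cC (-11980) 10000 + cC (-214995) 10000 * xD + cC (-5882) 10000 * xV + cC (-2084) 10000 * (xV * xV) + cC (105963) 10000 * (xD * xV) + cC (290850) 10000 * (xD * xD) + cC (1443) 10000 * xS,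
    cC 0,
    cC 0,
    cC 0,
    cC 0⟩
  pL := ⟨cC (223362) 10000 + cC (-178348) 10000 * xD + cC (-116393) 10000 * xV + cC (187821) 10000 * (xD * xV) + cC (18102) 10000 * (xV * xV) + cC (131915) 10000 * (xD * xD) + cC (-136758) 10000 * xS,
    cC (3281) 10000 + cC (17596) 10000 * xD + cC (-12861) 10000 * xV,
    cC 0,
    cC (631) 10000,
    cC 0⟩
  pU := ⟨cC (1284184) 10000 + cC (-3511453) 10000 * xD + cC (-538001) 10000 * xV + cC (967596) 10000 * (xD * xV) + cC (29238) 10000 * (xV * xV) + cC (2412472) 10000 * (xD * xD) + cC (-59313) 10000 * xS,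
    cC (62417) 10000 + cC (-126851) 10000 * xD + cC (-1252) 10000 * xV,
    cC 0,
    cC 0,
    cC 0⟩
  kU := ⟨cC (-920) 10000 + cC (-19144) 10000 * xD + cC (-15653) 10000 * xV + cC (27249) 10000 * (xD * xV) + cC (4419) 10000 * (xV * xV) + cC (-1540) 10000 * (xD * xD) + cC (15366) 10000 * xS,
    cC (-1386) 10000 + cC (12283) 10000 * xD + cC (259) 10000 * xV,
    cC (856) 10000 + cC (-114) 10000 * xD + cC (-308) 10000 * xV,
    cC 0,
    cC 0⟩
  kL := ⟨cC (-12765) 10000 + cC (29201) 10000 * xD + cC (-1356) 10000 * xV + cC (1979) 10000 * (xD * xV) + cC (8) 10000 * (xV * xV) + cC (-46114) 10000 * (xD * xD) + cC (14987) 10000 * xS,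
    cC (-436) 10000 + cC (10962) 10000 * xD + cC (-210) 10000 * xV,
    cC (33) 10000 + cC (790) 10000 * xD + cC (130) 10000 * xV,
    cC 0,
    cC 0⟩
  wU := ⟨cC (-69152) 10000 + cC (168286) 10000 * xD + cC (-12105) 10000 * xV + cC (-38213) 10000 * (xD * xV) + cC (-1007) 10000 * (xV * xV) + cC (-90323) 10000 * (xD * xD) + cC (132791) 10000 * xS,
    cC (-4753) 10000 + cC (11926) 10000 * xD + cC (-3312) 10000 * xV,
    cC (-14525) 10000 + cC (-8572) 10000 * xD + cC (1262) 10000 * xV,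
    cC 0,
    cC 0⟩
  wL := ⟨cC (-480685) 10000 + cC (1617164) 10000 * xD + cC (260288) 10000 * xV + cC (-533386) 10000 * (xD * xV) + cC (-47731) 10000 * (xV * xV) + cC (-1159892) 10000 * (xD * xD) + cC (117927) 10000 * xS,
    cC (-25542) 10000 + cC (57627) 10000 * xD + cC (1325) 10000 * xV,
    cC (-16524) 10000 + cC (-12221) 10000 * xD + cC (3332) 10000 * xV,
    cC 0,
    cC 0⟩

/-- The cut in `e`. -/
def tC26Cut : Ex :=
  cC (-183246) 10000 + cC (160057) 10000 * xD + cC (127725) 10000 * xV + cC (-21869) 10000 * (xV * xV) + cC (-20887) 10000 * (xD * xV) + cC (94080) 10000 * (xD * xD) + cC (-30513) 10000 * xS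

/-- The bound of `p` above the cut. -/
def tC26PU : Bnd :=
  ⟨cC (241244) 10000 + cC (-308592) 10000 * xD + cC (-80181) 10000 * xV + cC (183488) 10000 * (xD * xV) + cC (11061) 10000 * (xV * xV) + cC (261717) 10000 * (xD * xD) + cC (-150505) 10000 * xS,
    cC (3352) 10000 + cC (-751) 10000 * xD + cC (-7794) 10000 * xV,
    cC 0,
    cC 0,
    cC 0⟩

/-- A multiplier above the cut. -/
def tC26K2p : Ex → Ex :=
  fun e => cC (-4035) 10000 + cC (1633) 10000 * xD + cC (2621) 10000 * xV + cC (-193) 10000 * e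

/-- A multiplier above the cut. -/
def tC26K2m : Ex → Ex :=
  fun e => cC (10430) 10000 + cC (-5710) 10000 * xD + cC (-5333) 10000 * xV + cC (568) 10000 * e

/-- A multiplier above the cut. -/
def tC26KapL : Ex → Ex :=
  fun e => cC (535) 10000 + cC (-1499) 10000 * xD + cC (421) 10000 * xV + cC (154) 10000 * e

/-- A multiplier above the cut. -/
def tC26KapU : Ex → Ex :=
  fun e => cC (19074) 10000 + cC (-20410) 10000 * xD + cC (-7667) 10000 * xV + cC (1078) 10000 * e

/-- Below the cut. -/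
def tC26A : Piece :=
  tC26.below tC26Cut

/-- Above the cut. -/
def tC26B : Piece :=
  { tC26.above tC26Cut tC26PU with k2p := tC26K2p, k2m := tC26K2m, kapL := tC26KapL, kapU := tC26KapU }

/-- The least `u`. -/
def tC26Lo : Ex :=
  cC (4) 5

/-- The upper end of `u`. -/
def tC27Hi : Ex :=
  cC (71) 80

/-- The least `u`. -/
def tC27Lo : Ex :=
  cC (4) 5

/-- A piece: `1.2 ≤ v < 1.271`. -/
def tC28 : Piece where
  u₀ := cC (61) 64
  u₁ := cC (489) 1000 + cC (503) 1000 * xD + cC (227) 1000 * xV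
  tLn := lowTn
  tLd := lowTd
  tUn := upCn
  tUd := upCd
  p₀ := cC (184991) 10000 + cC (-83937) 10000 * xD + cC (-34292) 10000 * xV + cC (63016) 10000 * (xD * xV) + cC (-12454) 10000 * (xD * xD) + cC (-113627) 10000 * xS
  zL := cC (9581) 10000 + cC (-13110) 10000 * xD + cC (-2771) 10000 * xV + cC (-1639) 10000 * (xD * xV) + cC (477) 10000 * (xV * xV) + cC (11963) 10000 * (xD * xD) + cC (-4062) 10000 * xS
  zU := cC (13631) 10000 + cC (-13066) 10000 * xD + cC (-4813) 10000 * xV + cC (-2446) 10000 * (xD * xV) + cC (557) 10000 * (xV * xV) + cC (5034) 10000 * (xD * xD) + cC (-4011) 10000 * xS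
  k2p := fun e => cC (4852) 10000 + cC (-6001) 10000 * xD + cC (-1513) 10000 * xV + cC (339) 10000 * e
  k2m := fun e => cC (-6311) 10000 + cC (14816) 10000 * xD + cC (-259) 10000 * xV + cC (-930) 10000 * e
  kapL := fun e => cC (-1772) 10000 + cC (-130) 10000 * xD + cC (1300) 10000 * xV + cC (-110) 10000 * e
  kapU := fun e => cC (5376) 10000 + cC (-6566) 10000 * xD + cC (-1996) 10000 * xV + cC (214) 10000 * e
  eL := ⟨cC (-172500) 10000 + cC (125777) 10000 * xD + cC (109265) 10000 * xV + cC (-20169) 10000 * (xV * xV) + cC (5062) 10000 * (xD * xV) + cC (61802) 10000 * (xD * xD) + cC (-15966) 10000 * xS,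
    cC 0,
    cC 0,
    cC 0,
    cC 0⟩
  eH := ⟨cC (-642870) 10000 + cC (1354715) 10000 * xD + cC (647929) 10000 * xV + cC (-167561) 10000 * (xV * xV) + cC (-692495) 10000 * (xD * xV) + cC (-668179) 10000 * (xD * xD) + cC (-23243) 10000 * xS,
    cC 0,
    cC 0,
    cC 0,
    cC (-509955) 10000 + cC (1281040) 10000 * xD + cC (377590) 10000 * xV + cC (-914020) 10000 * (xD * xV)⟩
  pL := ⟨cC (-3330908) 10000 + cC (4184909) 10000 * xD + cC (3674149) 10000 * xV + cC (-3017378) 10000 * (xD * xV) + cC (-743390) 10000 * (xV * xV) + cC (-565067) 10000 * (xD * xD) + cC (-122358) 10000 * xS,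
    cC (-418384) 10000 + cC (44514) 10000 * xD + cC (331714) 10000 * xV,
    cC 0,
    cC 0,
    cC 0⟩
  pU := ⟨cC (1166400) 10000 + cC (-2963746) 10000 * xD + cC (-474437) 10000 * xV + cC (779235) 10000 * (xD * xV) + cC (29926) 10000 * (xV * xV) + cC (2031460) 10000 * (xD * xD) + cC (-95868) 10000 * xS,
    cC (57678) 10000 + cC (-102196) 10000 * xD + cC (-3874) 10000 * xV,
    cC 0,
    cC 0,
    cC 0⟩
  kU := ⟨cC (-25163) 10000 + cC (41357) 10000 * xD + cC (3496) 10000 * xV + cC (5297) 10000 * (xD * xV) + cC (248) 10000 * (xV * xV) + cC (-41258) 10000 * (xD * xD) + cC (15448) 10000 * xS,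
    cC (-2406) 10000 + cC (13373) 10000 * xD + cC (772) 10000 * xV,
    cC (1401) 10000 + cC (-1151) 10000 * xD + cC (-461) 10000 * xV,
    cC 0,
    cC 0⟩
  kL := ⟨cC (-15036) 10000 + cC (36203) 10000 * xD + cC (-30) 10000 * xV + cC (454) 10000 * (xD * xV) + cC (-303) 10000 * (xV * xV) + cC (-50914) 10000 * (xD * xD) + cC (15049) 10000 * xS,
    cC (-787) 10000 + cC (11497) 10000 * xD + cC (-46) 10000 * xV,
    cC (-4) 10000 + cC (712) 10000 * xD + cC (179) 10000 * xV,
    cC 0,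
    cC 0⟩
  wU := ⟨cC (-58946) 10000 + cC (83404) 10000 * xD + cC (-32359) 10000 * xV + cC (18348) 10000 * (xD * xV) + cC (3300) 10000 * (xV * xV) + cC (4148) 10000 * (xD * xD) + cC (136644) 10000 * xS,
    cC (38) 10000 + cC (741) 10000 * xD + cC (-4557) 10000 * xV,
    cC (-8978) 10000 + cC (-19868) 10000 * xD + cC (-325) 10000 * xV,
    cC 0,
    cC 0⟩
  wL := ⟨cC (-138590) 10000 + cC (-634491) 10000 * xD + cC (109722) 10000 * xV + cC (1170454) 10000 * (xD * xV) + cC (-259275) 10000 * (xV * xV) + cC (167100) 10000 * (xD * xD) + cC (216617) 10000 * xS,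
    cC (494) 10000 + cC (-127826) 10000 * xD + cC (30047) 10000 * xV,
    cC (5292) 10000 + cC (-172268) 10000 * xD + cC (29032) 10000 * xV,
    cC 0,
    cC (45641) 10000 + cC (-209529) 10000 * xD + cC (-38032) 10000 * xV + cC (174608) 10000 * (xD * xV)⟩

/-- The cut in `e`. -/
def tC28Cut : Ex :=
  cC (-809787) 10000 + cC (1658194) 10000 * xD + cC (789224) 10000 * xV + cC (-193852) 10000 * (xV * xV) + cC (-803219) 10000 * (xD * xV) + cC (-784786) 10000 * (xD * xD) + cC (-42609) 10000 * xS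

/-- The bound of `p` above the cut. -/
def tC28PU : Bnd :=
  ⟨cC (-1206801) 10000 + cC (2963072) 10000 * xD + cC (1553747) 10000 * xV + cC (-1658959) 10000 * (xD * xV) + cC (-428172) 10000 * (xV * xV) + cC (-1469614) 10000 * (xD * xD) + cC (-212868) 10000 * xS,
    cC (15025) 10000 + cC (-13519) 10000 * xD + cC (-14013) 10000 * xV,
    cC 0,
    cC 0,
    cC (-927374) 10000 + cC (2023162) 10000 * xD + cC (673152) 10000 * xV + cC (-1363019) 10000 * (xD * xV)⟩

/-- A multiplier above the cut. -/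
def tC28K2p : Ex → Ex :=
  fun _ => cC (145) 10000 + cC (-4110) 10000 * xD + cC (1029) 10000 * xV

/-- A multiplier above the cut. -/
def tC28K2m : Ex → Ex :=
  fun e => cC (9091) 10000 + cC (-1400) 10000 * xD + cC (-5742) 10000 * xV + cC (387) 10000 * e

/-- A multiplier above the cut. -/
def tC28KapL : Ex → Ex :=
  fun e => cC (569) 10000 + cC (-964) 10000 * xD + cC (25) 10000 * xV + cC (71) 10000 * e

/-- A multiplier above the cut. -/
def tC28KapU : Ex → Ex :=
  fun e => cC (524) 10000 + cC (446) 10000 * xD + cC (-548) 10000 * xV + cC (-85) 10000 * e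

/-- Below the cut. -/
def tC28A : Piece :=
  tC28.below tC28Cut

/-- Above the cut. -/
def tC28B : Piece :=
  { tC28.above tC28Cut tC28PU with k2p := tC28K2p, k2m := tC28K2m, kapL := tC28KapL, kapU := tC28KapU }

/-- The least `u`. -/
def tC28Lo : Ex :=
  cC (149) 160

/-- A piece: `1.2 ≤ v < 1.271`. -/
def tC29 : Piece where
  u₀ := cC (39) 40
  u₁ := cC (61) 64
  tLn := lowTn
  tLd := lowTd
  tUn := upCn
  tUd := upCd
  p₀ := cC (184991) 10000 + cC (-83937) 10000 * xD + cC (-34292) 10000 * xV + cC (63016) 10000 * (xD * xV) + cC (-12454) 10000 * (xD * xD) + cC (-113627) 10000 * xS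
  zL := cC (9076) 10000 + cC (-12074) 10000 * xD + cC (-2744) 10000 * xV + cC (-1705) 10000 * (xD * xV) + cC (476) 10000 * (xV * xV) + cC (11605) 10000 * (xD * xD) + cC (-4153) 10000 * xS
  zU := cC (9142) 10000 + cC (-7466) 10000 * xD + cC (-2645) 10000 * xV + cC (-1926) 10000 * (xD * xV) + cC (485) 10000 * (xV * xV) + cC (2383) 10000 * (xD * xD) + cC (-4042) 10000 * xS
  k2p := fun e => cC (-1777) 10000 + cC (-4966) 10000 * xD + cC (1406) 10000 * xV + cC (-807) 10000 * e
  k2m := fun e => cC (-6019) 10000 + cC (28071) 10000 * xD + cC (-1888) 10000 * xV + cC (-135) 10000 * e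
  kapL := fun e => cC (522) 10000 + cC (-2220) 10000 * xD + cC (479) 10000 * xV + cC (50) 10000 * e
  kapU := fun e => cC (2549) 10000 + cC (-2790) 10000 * xD + cC (-651) 10000 * xV + cC (302) 10000 * e
  eL := ⟨cC (-28437) 10000 + cC (-163343) 10000 * xD + cC (10800) 10000 * xV + cC (-5074) 10000 * (xV * xV) + cC (72881) 10000 * (xD * xV) + cC (248915) 10000 * (xD * xD) + cC (-8602) 10000 * xS,
    cC 0,
    cC 0,
    cC 0,
    cC 0⟩
  eH := ⟨cC (-625400) 10000 + cC (1318650) 10000 * xD + cC (622875) 10000 * xV + cC (-160501) 10000 * (xV * xV) + cC (-669355) 10000 * (xD * xV) + cC (-661621) 10000 * (xD * xD) + cC (-11101) 10000 * xS,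
    cC 0,
    cC 0,
    cC 0,
    cC (-483416) 10000 + cC (1202752) 10000 * xD + cC (355218) 10000 * xV + cC (-847948) 10000 * (xD * xV)⟩
  pL := ⟨cC (184718) 10000 + cC (-83937) 10000 * xD + cC (-34292) 10000 * xV + cC (63016) 10000 * (xD * xV) + cC (-12454) 10000 * (xD * xD) + cC (-113627) 10000 * xS,
    cC 0,
    cC 0,
    cC (10000) 10000,
    cC 0⟩
  pU := ⟨cC (493202) 10000 + cC (-958653) 10000 * xD + cC (-96008) 10000 * xV + cC (142927) 10000 * (xD * xV) + cC (6296) 10000 * (xV * xV) + cC (602303) 10000 * (xD * xD) + cC (-115943) 10000 * xS,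
    cC (49456) 10000 + cC (-94946) 10000 * xD + cC (559) 10000 * xV,
    cC 0,
    cC 0,
    cC 0⟩
  kU := ⟨cC (5265) 10000 + cC (50477) 10000 * xD + cC (-39122) 10000 * xV + cC (-12760) 10000 * (xD * xV) + cC (17998) 10000 * (xV * xV) + cC (-47192) 10000 * (xD * xD) + cC (15242) 10000 * xS,
    cC (-2868) 10000 + cC (11148) 10000 * xD + cC (1705) 10000 * xV,
    cC (-181) 10000 + cC (528) 10000 * xD + cC (394) 10000 * xV,
    cC 0,
    cC 0⟩
  kL := ⟨cC (-13608) 10000 + cC (29547) 10000 * xD + cC (-815) 10000 * xV + cC (2749) 10000 * (xD * xV) + cC (-80) 10000 * (xV * xV) + cC (-44337) 10000 * (xD * xD) + cC (14608) 10000 * xS,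
    cC (-564) 10000 + cC (11050) 10000 * xD + cC (-98) 10000 * xV,
    cC (219) 10000 + cC (456) 10000 * xD + cC (75) 10000 * xV,
    cC 0,
    cC 0⟩
  wU := ⟨cC (-85726) 10000 + cC (118045) 10000 * xD + cC (-14050) 10000 * xV + cC (-968) 10000 * (xD * xV) + cC (685) 10000 * (xV * xV) + cC (-4640) 10000 * (xD * xD) + cC (139700) 10000 * xS,
    cC (-1521) 10000 + cC (3125) 10000 * xD + cC (-3930) 10000 * xV,
    cC (-7832) 10000 + cC (-19666) 10000 * xD + cC (-877) 10000 * xV,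
    cC 0,
    cC 0⟩
  wL := ⟨cC (-108155) 10000 + cC (235546) 10000 * xD + cC (5540) 10000 * xV + cC (-25922) 10000 * (xD * xV) + cC (-939) 10000 * (xV * xV) + cC (-163376) 10000 * (xD * xD) + cC (129950) 10000 * xS,
    cC (-2258) 10000 + cC (6090) 10000 * xD + cC (-3530) 10000 * xV,
    cC (-7937) 10000 + cC (-16313) 10000 * xD + cC (-2073) 10000 * xV,
    cC 0,
    cC 0⟩

/-- The cut in `e`. -/
def tC29Cut : Ex :=
  cC (-614329) 10000 + cC (1241061) 10000 * xD + cC (637922) 10000 * xV + cC (-167268) 10000 * (xV * xV) + cC (-662773) 10000 * (xD * xV) + cC (-548348) 10000 * (xD * xD) + cC (-29830) 10000 * xS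

/-- The bound of `p` above the cut. -/
def tC29PU : Bnd :=
  ⟨cC (-1263238) 10000 + cC (3077712) 10000 * xD + cC (1569526) 10000 * xV + cC (-1672568) 10000 * (xD * xV) + cC (-425461) 10000 * (xV * xV) + cC (-1557480) 10000 * (xD * xD) + cC (-197648) 10000 * xS,
    cC (248) 10000 + cC (3082) 10000 * xD + cC (-6467) 10000 * xV,
    cC 0,
    cC 0,
    cC (-1310959) 10000 + cC (3228713) 10000 * xD + cC (991040) 10000 * xV + cC (-2361923) 10000 * (xD * xV)⟩

/-- A multiplier above the cut. -/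
def tC29K2p : Ex → Ex :=
  fun _ => cC (1786) 10000 + cC (-9044) 10000 * xD + cC (1045) 10000 * xV

/-- A multiplier above the cut. -/
def tC29K2m : Ex → Ex :=
  fun e => cC (-5336) 10000 + cC (23886) 10000 * xD + cC (-1695) 10000 * xV + cC (-301) 10000 * e

/-- A multiplier above the cut. -/
def tC29KapL : Ex → Ex :=
  fun e => cC (977) 10000 + cC (-2927) 10000 * xD + cC (403) 10000 * xV + cC (109) 10000 * e

/-- A multiplier above the cut. -/
def tC29KapU : Ex → Ex :=
  fun e => cC (489) 10000 + cC (836) 10000 * xD + cC (-756) 10000 * xV + cC (-152) 10000 * e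

/-- Below the cut. -/
def tC29A : Piece :=
  tC29.below tC29Cut

/-- Above the cut. -/
def tC29B : Piece :=
  { tC29.above tC29Cut tC29PU with k2p := tC29K2p, k2m := tC29K2m, kapL := tC29KapL, kapU := tC29KapU }

/-- A piece: `1.271 ≤ v < 1.346`. -/
def tC30 : Piece where
  u₀ := cC (39) 40
  u₁ := cC (501) 1000 + cC (461) 1000 * xD + cC (227) 1000 * xV
  tLn := lowTn
  tLd := lowTd
  tUn := upCn
  tUd := upCd
  p₀ := cC (205447) 10000 + cC (-114019) 10000 * xD + cC (-36727) 10000 * xV + cC (75527) 10000 * (xD * xV) + cC (4632) 10000 * (xD * xD) + cC (-135719) 10000 * xS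
  zL := cC (8504) 10000 + cC (-20870) 10000 * xD + cC (-2156) 10000 * xV + cC (-1610) 10000 * (xD * xV) + cC (238) 10000 * (xV * xV) + cC (30833) 10000 * (xD * xD) + cC (-2362) 10000 * xS
  zU := cC (16241) 10000 + cC (-39188) 10000 * xD + cC (-5209) 10000 * xV + cC (-1247) 10000 * (xD * xV) + cC (485) 10000 * (xV * xV) + cC (55663) 10000 * (xD * xD) + cC (-2441) 10000 * xS
  k2p := fun e => cC (-1325) 10000 + cC (2455) 10000 * xD + cC (615) 10000 * xV + cC (-85) 10000 * e
  k2m := fun e => cC (2067) 10000 + cC (1195) 10000 * xD + cC (-1587) 10000 * xV + cC (10) 10000 * e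
  kapL := fun e => cC (123) 10000 + cC (851) 10000 * xD + cC (17) 10000 * xV + cC (16) 10000 * e
  kapU := fun e => cC (3922) 10000 + cC (-3745) 10000 * xD + cC (-1512) 10000 * xV + cC (221) 10000 * e
  eL := ⟨cC (-108621) 10000 + cC (163441) 10000 * xD + cC (82563) 10000 * xV + cC (-8213) 10000 * (xV * xV) + cC (-15615) 10000 * (xD * xV) + cC (4797) 10000 * (xD * xD) + cC (-87783) 10000 * xS,
    cC 0,
    cC 0,
    cC 0,
    cC 0⟩
  eH := ⟨cC (-10659) 10000 + cC (-138766) 10000 * xD + cC (2869) 10000 * xV + cC (-249) 10000 * (xV * xV) + cC (55395) 10000 * (xD * xV) + cC (285038) 10000 * (xD * xD) + cC (-25448) 10000 * xS,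
    cC 0,
    cC 0,
    cC 0,
    cC 0⟩
  pL := ⟨cC (217276) 10000 + cC (-297891) 10000 * xD + cC (-18285) 10000 * xV + cC (172586) 10000 * (xD * xV) + cC (-16102) 10000 * (xV * xV) + cC (201016) 10000 * (xD * xD) + cC (-189259) 10000 * xS,
    cC (9205) 10000 + cC (-12418) 10000 * xD + cC (-12147) 10000 * xV,
    cC 0,
    cC 0,
    cC 0⟩
  pU := ⟨cC (257831) 10000 + cC (-111764) 10000 * xD + cC (-75297) 10000 * xV + cC (121207) 10000 * (xD * xV) + cC (12733) 10000 * (xV * xV) + cC (96472) 10000 * (xD * xD) + cC (-214250) 10000 * xS,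
    cC (2830) 10000 + cC (10428) 10000 * xD + cC (-9076) 10000 * xV,
    cC 0,
    cC 0,
    cC 0⟩
  kU := ⟨cC (-5951) 10000 + cC (11263) 10000 * xD + cC (-3439) 10000 * xV + cC (-2251) 10000 * (xD * xV) + cC (2019) 10000 * (xV * xV) + cC (-18315) 10000 * (xD * xD) + cC (9759) 10000 * xS,
    cC (-855) 10000 + cC (11042) 10000 * xD + cC (100) 10000 * xV,
    cC (11) 10000 + cC (2298) 10000 * xD + cC (-117) 10000 * xV,
    cC 0,
    cC 0⟩
  kL := ⟨cC (-5760) 10000 + cC (8994) 10000 * xD + cC (-1784) 10000 * xV + cC (7022) 10000 * (xD * xV) + cC (185) 10000 * (xV * xV) + cC (-33674) 10000 * (xD * xD) + cC (8949) 10000 * xS,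
    cC (-351) 10000 + cC (11166) 10000 * xD + cC (-294) 10000 * xV,
    cC (104) 10000 + cC (1750) 10000 * xD + cC (-108) 10000 * xV,
    cC 0,
    cC 0⟩
  wU := ⟨cC (59450) 10000 + cC (13905) 10000 * xD + cC (-116510) 10000 * xV + cC (11584) 10000 * (xD * xV) + cC (20502) 10000 * (xV * xV) + cC (-35830) 10000 * (xD * xD) + cC (114292) 10000 * xS,
    cC (-3272) 10000 + cC (13723) 10000 * xD + cC (-4730) 10000 * xV,
    cC (-23068) 10000 + cC (2121) 10000 * xD + cC (6057) 10000 * xV,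
    cC 0,
    cC 0⟩
  wL := ⟨cC (-117461) 10000 + cC (118274) 10000 * xD + cC (32278) 10000 * xV + cC (22488) 10000 * (xD * xV) + cC (-21660) 10000 * (xV * xV) + cC (-121360) 10000 * (xD * xD) + cC (162263) 10000 * xS,
    cC (-91) 10000 + cC (6652) 10000 * xD + cC (-5274) 10000 * xV,
    cC (-10970) 10000 + cC (-13887) 10000 * xD + cC (-279) 10000 * xV,
    cC 0,
    cC 0⟩

/-- The least `u`. -/
def tC30Lo : Ex :=
  cC (4) 5

/-- A piece: `1.271 ≤ v < 1.346`. -/
def tC31 : Piece where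
  u₀ := cC (39) 40
  u₁ := cC (524) 1000 + cC (457) 1000 * xD + cC (210) 1000 * xV
  tLn := lowTn
  tLd := lowTd
  tUn := upCn
  tUd := upCd
  p₀ := cC (194657) 10000 + cC (-97860) 10000 * xD + cC (-34978) 10000 * xV + cC (66649) 10000 * (xD * xV) + cC (-1532) 10000 * (xD * xD) + cC (-124083) 10000 * xS
  zL := cC (8500) 10000 + cC (-12479) 10000 * xD + cC (-2465) 10000 * xV + cC (-1635) 10000 * (xD * xV) + cC (359) 10000 * (xV * xV) + cC (12227) 10000 * (xD * xD) + cC (-3457) 10000 * xS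
  zU := cC (16448) 10000 + cC (-30501) 10000 * xD + cC (-6189) 10000 * xV + cC (1693) 10000 * (xD * xV) + cC (694) 10000 * (xV * xV) + cC (27094) 10000 * (xD * xD) + cC (-3427) 10000 * xS
  k2p := fun e => cC (11706) 10000 + cC (-12912) 10000 * xD + cC (-3976) 10000 * xV + cC (833) 10000 * e
  k2m := fun _ => cC (-577) 10000 + cC (2430) 10000 * xD + cC (125) 10000 * xV
  kapL := fun e => cC (4036) 10000 + cC (-4110) 10000 * xD + cC (-1594) 10000 * xV + cC (228) 10000 * e
  kapU := fun e => cC (5925) 10000 + cC (-6148) 10000 * xD + cC (-2348) 10000 * xV + cC (327) 10000 * e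
  eL := ⟨cC (-157343) 10000 + cC (186101) 10000 * xD + cC (105524) 10000 * xV + cC (-16389) 10000 * (xV * xV) + cC (-29929) 10000 * (xD * xV) + cC (6314) 10000 * (xD * xD) + cC (-40441) 10000 * xS,
    cC 0,
    cC 0,
    cC 0,
    cC 0⟩
  eH := ⟨cC (-16004) 10000 + cC (-170660) 10000 * xD + cC (311) 10000 * xV + cC (-1578) 10000 * (xV * xV) + cC (80191) 10000 * (xD * xV) + cC (275792) 10000 * (xD * xD) + cC (-8575) 10000 * xS,
    cC 0,
    cC 0,
    cC 0,
    cC 0⟩
  pL := ⟨cC (261463) 10000 + cC (-335730) 10000 * xD + cC (-112460) 10000 * xV + cC (196559) 10000 * (xD * xV) + cC (15318) 10000 * (xV * xV) + cC (314764) 10000 * (xD * xD) + cC (-155829) 10000 * xS,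
    cC (8206) 10000 + cC (1981) 10000 * xD + cC (-13526) 10000 * xV,
    cC 0,
    cC (434) 10000,
    cC 0⟩
  pU := ⟨cC (1501666) 10000 + cC (-4728182) 10000 * xD + cC (-618467) 10000 * xV + cC (1281665) 10000 * (xD * xV) + cC (32759) 10000 * (xV * xV) + cC (3510617) 10000 * (xD * xD) + cC (-25364) 10000 * xS,
    cC (86851) 10000 + cC (-200192) 10000 * xD + cC (-3995) 10000 * xV,
    cC 0,
    cC 0,
    cC 0⟩
  kU := ⟨cC (-857) 10000 + cC (21502) 10000 * xD + cC (-20882) 10000 * xV + cC (-1967) 10000 * (xD * xV) + cC (9868) 10000 * (xV * xV) + cC (-31898) 10000 * (xD * xD) + cC (13825) 10000 * xS,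
    cC (-1227) 10000 + cC (11222) 10000 * xD + cC (357) 10000 * xV,
    cC (590) 10000 + cC (1586) 10000 * xD + cC (-451) 10000 * xV,
    cC 0,
    cC 0⟩
  kL := ⟨cC (-9807) 10000 + cC (18322) 10000 * xD + cC (-1895) 10000 * xV + cC (4501) 10000 * (xD * xV) + cC (23) 10000 * (xV * xV) + cC (-38151) 10000 * (xD * xD) + cC (13847) 10000 * xS,
    cC (-585) 10000 + cC (11051) 10000 * xD + cC (-115) 10000 * xV,
    cC (-111) 10000 + cC (1253) 10000 * xD + cC (139) 10000 * xV,
    cC 0,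
    cC 0⟩
  wU := ⟨cC (-44536) 10000 + cC (105882) 10000 * xD + cC (-21792) 10000 * xV + cC (-26076) 10000 * (xD * xV) + cC (861) 10000 * (xV * xV) + cC (-71860) 10000 * (xD * xD) + cC (127897) 10000 * xS,
    cC (-4264) 10000 + cC (12452) 10000 * xD + cC (-3796) 10000 * xV,
    cC (-16165) 10000 + cC (-2860) 10000 * xD + cC (1262) 10000 * xV,
    cC 0,
    cC 0⟩
  wL := ⟨cC (-173135) 10000 + cC (669796) 10000 * xD + cC (49548) 10000 * xV + cC (-190125) 10000 * (xD * xV) + cC (-9246) 10000 * (xV * xV) + cC (-513265) 10000 * (xD * xD) + cC (111449) 10000 * xS,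
    cC (-14017) 10000 + cC (36518) 10000 * xD + cC (-2371) 10000 * xV,
    cC (-18274) 10000 + cC (-4671) 10000 * xD + cC (2825) 10000 * xV,
    cC 0,
    cC 0⟩

/-- The cut in `e`. -/
def tC31Cut : Ex :=
  cC (-148003) 10000 + cC (150276) 10000 * xD + cC (96159) 10000 * xV + cC (-14044) 10000 * (xV * xV) + cC (-9497) 10000 * (xD * xV) + cC (67912) 10000 * (xD * xD) + cC (-40780) 10000 * xS

/-- The bound of `p` above the cut. -/
def tC31PU : Bnd :=
  ⟨cC (240339) 10000 + cC (-225121) 10000 * xD + cC (-77500) 10000 * xV + cC (164276) 10000 * (xD * xV) + cC (11154) 10000 * (xV * xV) + cC (194047) 10000 * (xD * xD) + cC (-171123) 10000 * xS,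
    cC (2709) 10000 + cC (5407) 10000 * xD + cC (-8624) 10000 * xV,
    cC 0,
    cC 0,
    cC 0⟩

/-- A multiplier above the cut. -/
def tC31K2p : Ex → Ex :=
  fun e => cC (-3049) 10000 + cC (3729) 10000 * xD + cC (1531) 10000 * xV + cC (-136) 10000 * e

/-- A multiplier above the cut. -/
def tC31K2m : Ex → Ex :=
  fun e => cC (3314) 10000 + cC (3124) 10000 * xD + cC (-2858) 10000 * xV + cC (11) 10000 * e

/-- A multiplier above the cut. -/
def tC31KapL : Ex → Ex :=
  fun e => cC (232) 10000 + cC (-178) 10000 * xD + cC (352) 10000 * xV + cC (143) 10000 * e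

/-- A multiplier above the cut. -/
def tC31KapU : Ex → Ex :=
  fun e => cC (13878) 10000 + cC (-15268) 10000 * xD + cC (-5305) 10000 * xV + cC (845) 10000 * e

/-- Below the cut. -/
def tC31A : Piece :=
  tC31.below tC31Cut

/-- Above the cut. -/
def tC31B : Piece :=
  { tC31.above tC31Cut tC31PU with k2p := tC31K2p, k2m := tC31K2m, kapL := tC31KapL, kapU := tC31KapU }

/-- The least `u`. -/
def tC31Lo : Ex :=
  cC (4) 5

/-- A piece: `1.271 ≤ v < 1.346`. -/
def tC32 : Piece where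
  u₀ := cC (39) 40
  u₁ := cC (528) 1000 + cC (481) 1000 * xD + cC (201) 1000 * xV
  tLn := lowTn
  tLd := lowTd
  tUn := upCn
  tUd := upCd
  p₀ := cC (190313) 10000 + cC (-92695) 10000 * xD + cC (-34858) 10000 * xV + cC (65416) 10000 * (xD * xV) + cC (-5809) 10000 * (xD * xD) + cC (-118814) 10000 * xS
  zL := cC (8592) 10000 + cC (-9953) 10000 * xD + cC (-2627) 10000 * xV + cC (-1608) 10000 * (xD * xV) + cC (418) 10000 * (xV * xV) + cC (7903) 10000 * (xD * xD) + cC (-3992) 10000 * xS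
  zU := cC (14757) 10000 + cC (-20082) 10000 * xD + cC (-5340) 10000 * xV + cC (-722) 10000 * (xD * xV) + cC (655) 10000 * (xV * xV) + cC (13279) 10000 * (xD * xD) + cC (-3865) 10000 * xS
  k2p := fun e => cC (5258) 10000 + cC (-9827) 10000 * xD + cC (-534) 10000 * xV + cC (464) 10000 * e
  k2m := fun e => cC (-898) 10000 + cC (3243) 10000 * xD + cC (202) 10000 * xV + cC (4) 10000 * e
  kapL := fun e => cC (-1066) 10000 + cC (352) 10000 * xD + cC (776) 10000 * xV + cC (-13) 10000 * e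
  kapU := fun e => cC (4932) 10000 + cC (-5035) 10000 * xD + cC (-1962) 10000 * xV + cC (265) 10000 * e
  eL := ⟨cC (-175319) 10000 + cC (165396) 10000 * xD + cC (114032) 10000 * xV + cC (-20198) 10000 * (xV * xV) + cC (-24977) 10000 * (xD * xV) + cC (50071) 10000 * (xD * xD) + cC (-19917) 10000 * xS,
    cC 0,
    cC 0,
    cC 0,
    cC 0⟩
  eH := ⟨cC (-476637) 10000 + cC (1330471) 10000 * xD + cC (389603) 10000 * xV + cC (-81988) 10000 * (xV * xV) + cC (-557162) 10000 * (xD * xV) + cC (-909177) 10000 * (xD * xD) + cC (-15865) 10000 * xS,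
    cC 0,
    cC 0,
    cC 0,
    cC (-515312) 10000 + cC (1529770) 10000 * xD + cC (348191) 10000 * xV + cC (-1001872) 10000 * (xD * xV)⟩
  pL := ⟨cC (163120) 10000 + cC (-39506) 10000 * xD + cC (-62863) 10000 * xV + cC (125724) 10000 * (xD * xV) + cC (5970) 10000 * (xV * xV) + cC (61882) 10000 * (xD * xD) + cC (-137392) 10000 * xS,
    cC (40) 10000 + cC (22996) 10000 * xD + cC (-11758) 10000 * xV,
    cC 0,
    cC (389) 10000,
    cC 0⟩
  pU := ⟨cC (1148372) 10000 + cC (-3145507) 10000 * xD + cC (-414724) 10000 * xV + cC (762778) 10000 * (xD * xV) + cC (17233) 10000 * (xV * xV) + cC (2260161) 10000 * (xD * xD) + cC (-90101) 10000 * xS,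
    cC (61072) 10000 + cC (-127984) 10000 * xD + cC (-271) 10000 * xV,
    cC 0,
    cC 0,
    cC 0⟩
  kU := ⟨cC (-2042) 10000 + cC (-13630) 10000 * xD + cC (-13576) 10000 * xV + cC (23268) 10000 * (xD * xV) + cC (3592) 10000 * (xV * xV) + cC (-8640) 10000 * (xD * xD) + cC (15385) 10000 * xS,
    cC (-1582) 10000 + cC (12589) 10000 * xD + cC (317) 10000 * xV,
    cC (660) 10000 + cC (256) 10000 * xD + cC (-215) 10000 * xV,
    cC 0,
    cC 0⟩
  kL := ⟨cC (-12537) 10000 + cC (28327) 10000 * xD + cC (-1418) 10000 * xV + cC (2624) 10000 * (xD * xV) + cC (-47) 10000 * (xV * xV) + cC (-46180) 10000 * (xD * xD) + cC (14933) 10000 * xS,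
    cC (-705) 10000 + cC (11386) 10000 * xD + cC (-93) 10000 * xV,
    cC (-89) 10000 + cC (994) 10000 * xD + cC (180) 10000 * xV,
    cC 0,
    cC 0⟩
  wU := ⟨cC (-19675) 10000 + cC (19358) 10000 * xD + cC (-42930) 10000 * xV + cC (3952) 10000 * (xD * xV) + cC (4653) 10000 * (xV * xV) + cC (-39116) 10000 * (xD * xD) + cC (137570) 10000 * xS,
    cC (-3201) 10000 + cC (9900) 10000 * xD + cC (-4092) 10000 * xV,
    cC (-17269) 10000 + cC (31) 10000 * xD + cC (1530) 10000 * xV,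
    cC 0,
    cC 0⟩
  wL := ⟨cC (-752186) 10000 + cC (2332832) 10000 * xD + cC (416293) 10000 * xV + cC (-718865) 10000 * (xD * xV) + cC (-71524) 10000 * (xV * xV) + cC (-1631058) 10000 * (xD * xD) + cC (127068) 10000 * xS,
    cC (-39506) 10000 + cC (85064) 10000 * xD + cC (5283) 10000 * xV,
    cC (-8305) 10000 + cC (-25369) 10000 * xD + cC (176) 10000 * xV,
    cC 0,
    cC 0⟩

/-- The cut in `e`. -/
def tC32Cut : Ex :=
  cC (-584404) 10000 + cC (1493071) 10000 * xD + cC (476057) 10000 * xV + cC (-96706) 10000 * (xV * xV) + cC (-598034) 10000 * (xD * xV) + cC (-937199) 10000 * (xD * xD) + cC (-41803) 10000 * xS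

/-- The bound of `p` above the cut. -/
def tC32PU : Bnd :=
  ⟨cC (-957695) 10000 + cC (3376960) 10000 * xD + cC (1031777) 10000 * xV + cC (-1487325) 10000 * (xD * xV) + cC (-235509) 10000 * (xV * xV) + cC (-2422638) 10000 * (xD * xD) + cC (-214549) 10000 * xS,
    cC (3484) 10000 + cC (-2697) 10000 * xD + cC (-7524) 10000 * xV,
    cC 0,
    cC 0,
    cC (-1646187) 10000 + cC (4846090) 10000 * xD + cC (1151049) 10000 * xV + cC (-3304911) 10000 * (xD * xV)⟩

/-- A multiplier above the cut. -/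
def tC32K2p : Ex → Ex :=
  fun e => cC (2478) 10000 + cC (-6242) 10000 * xD + cC (332) 10000 * xV + cC (250) 10000 * e

/-- A multiplier above the cut. -/
def tC32K2m : Ex → Ex :=
  fun e => cC (6557) 10000 + cC (-4072) 10000 * xD + cC (-2705) 10000 * xV + cC (548) 10000 * e

/-- A multiplier above the cut. -/
def tC32KapL : Ex → Ex :=
  fun e => cC (2045) 10000 + cC (-3749) 10000 * xD + cC (-25) 10000 * xV + cC (293) 10000 * e

/-- A multiplier above the cut. -/
def tC32KapU : Ex → Ex :=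
  fun e => cC (14822) 10000 + cC (-18426) 10000 * xD + cC (-4924) 10000 * xV + cC (1017) 10000 * e

/-- Below the cut. -/
def tC32A : Piece :=
  tC32.below tC32Cut

/-- Above the cut. -/
def tC32B : Piece :=
  { tC32.above tC32Cut tC32PU with k2p := tC32K2p, k2m := tC32K2m, kapL := tC32KapL, kapU := tC32KapU }

/-- The least `u`. -/
def tC32Lo : Ex :=
  cC (4) 5

/-- A piece: `1.271 ≤ v < 1.346`. -/
def tC33 : Piece where
  u₀ := cC (39) 40
  u₁ := cC (522) 1000 + cC (530) 1000 * xD + cC (194) 1000 * xV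
  tLn := lowTn
  tLd := lowTd
  tUn := upCn
  tUd := upCd
  p₀ := cC (186500) 10000 + cC (-82304) 10000 * xD + cC (-34216) 10000 * xV + cC (62865) 10000 * (xD * xV) + cC (-15901) 10000 * (xD * xD) + cC (-116188) 10000 * xS
  zL := cC (9141) 10000 + cC (-12406) 10000 * xD + cC (-2750) 10000 * xV + cC (-1498) 10000 * (xD * xV) + cC (453) 10000 * (xV * xV) + cC (11715) 10000 * (xD * xD) + cC (-4167) 10000 * xS
  zU := cC (12448) 10000 + cC (-8554) 10000 * xD + cC (-4237) 10000 * xV + cC (-3355) 10000 * (xD * xV) + cC (563) 10000 * (xV * xV) + cC (-696) 10000 * (xD * xD) + cC (-4075) 10000 * xS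
  k2p := fun e => cC (6623) 10000 + cC (-13711) 10000 * xD + cC (-338) 10000 * xV + cC (609) 10000 * e
  k2m := fun e => cC (10592) 10000 + cC (-9674) 10000 * xD + cC (-3892) 10000 * xV + cC (756) 10000 * e
  kapL := fun e => cC (-1038) 10000 + cC (-234) 10000 * xD + cC (792) 10000 * xV + cC (-62) 10000 * e
  kapU := fun e => cC (5299) 10000 + cC (-5598) 10000 * xD + cC (-2029) 10000 * xV + cC (305) 10000 * e
  eL := ⟨cC (-161042) 10000 + cC (70119) 10000 * xD + cC (98001) 10000 * xV + cC (-18600) 10000 * (xV * xV) + cC (12616) 10000 * (xD * xV) + cC (146037) 10000 * (xD * xD) + cC (-6392) 10000 * xS,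
    cC 0,
    cC 0,
    cC 0,
    cC 0⟩
  eH := ⟨cC (-25512) 10000 + cC (83553) 10000 * xD + cC (11001) 10000 * xV + cC (-242) 10000 * (xV * xV) + cC (-23120) 10000 * (xD * xV) + cC (-16909) 10000 * (xD * xD) + cC (-33320) 10000 * xS,
    cC 0,
    cC 0,
    cC 0,
    cC (1010) 10000 + cC (25334) 10000 * xD + cC (2031) 10000 * xV + cC (-5425) 10000 * (xD * xV)⟩
  pL := ⟨cC (90811) 10000 + cC (228307) 10000 * xD + cC (-46991) 10000 * xV + cC (81551) 10000 * (xD * xV) + cC (7034) 10000 * (xV * xV) + cC (-172044) 10000 * (xD * xD) + cC (-126942) 10000 * xS,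
    cC (-9013) 10000 + cC (46512) 10000 * xD + cC (-10457) 10000 * xV,
    cC 0,
    cC 0,
    cC 0⟩
  pU := ⟨cC (1123743) 10000 + cC (-2888154) 10000 * xD + cC (-411686) 10000 * xV + cC (686241) 10000 * (xD * xV) + cC (23449) 10000 * (xV * xV) + cC (2072350) 10000 * (xD * xD) + cC (-122149) 10000 * xS,
    cC (56608) 10000 + cC (-101986) 10000 * xD + cC (-3230) 10000 * xV,
    cC 0,
    cC 0,
    cC 0⟩
  kU := ⟨cC (-9919) 10000 + cC (8967) 10000 * xD + cC (-7597) 10000 * xV + cC (15465) 10000 * (xD * xV) + cC (2103) 10000 * (xV * xV) + cC (-24615) 10000 * (xD * xD) + cC (15491) 10000 * xS,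
    cC (-1715) 10000 + cC (12540) 10000 * xD + cC (404) 10000 * xV,
    cC (881) 10000 + cC (-386) 10000 * xD + cC (-215) 10000 * xV,
    cC 0,
    cC 0⟩
  kL := ⟨cC (-15353) 10000 + cC (38091) 10000 * xD + cC (-659) 10000 * xV + cC (366) 10000 * (xD * xV) + cC (-75) 10000 * (xV * xV) + cC (-52135) 10000 * (xD * xD) + cC (15427) 10000 * xS,
    cC (-802) 10000 + cC (11674) 10000 * xD + cC (-88) 10000 * xV,
    cC (8) 10000 + cC (670) 10000 * xD + cC (183) 10000 * xV,
    cC 0,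
    cC 0⟩
  wU := ⟨cC (-53435) 10000 + cC (72706) 10000 * xD + cC (-38593) 10000 * xV + cC (17459) 10000 * (xD * xV) + cC (4278) 10000 * (xV * xV) + cC (-3429) 10000 * (xD * xD) + cC (142107) 10000 * xS,
    cC (47) 10000 + cC (1075) 10000 * xD + cC (-4541) 10000 * xV,
    cC (-10132) 10000 + cC (-17474) 10000 * xD + cC (229) 10000 * xV,
    cC 0,
    cC 0⟩
  wL := ⟨cC (-1262078) 10000 + cC (3954467) 10000 * xD + cC (684203) 10000 * xV + cC (-1137457) 10000 * (xD * xV) + cC (-103887) 10000 * (xV * xV) + cC (-3035004) 10000 * (xD * xD) + cC (139832) 10000 * xS,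
    cC (-56290) 10000 + cC (109063) 10000 * xD + cC (11290) 10000 * xV,
    cC (923) 10000 + cC (-37989) 10000 * xD + cC (-3421) 10000 * xV,
    cC 0,
    cC 0⟩

/-- The cut in `e`. -/
def tC33Cut : Ex :=
  cC (-130617) 10000 + cC (338823) 10000 * xD + cC (65094) 10000 * xV + cC (-1951) 10000 * (xV * xV) + cC (-76207) 10000 * (xD * xV) + cC (-161769) 10000 * (xD * xD) + cC (-51938) 10000 * xS

/-- The bound of `p` above the cut. -/
def tC33PU : Bnd :=
  ⟨cC (293410) 10000 + cC (-29910) 10000 * xD + cC (-52533) 10000 * xV + cC (15604) 10000 * (xD * xV) + cC (7423) 10000 * (xV * xV) + cC (-18598) 10000 * (xD * xD) + cC (-264159) 10000 * xS,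
    cC (-12210) 10000 + cC (16872) 10000 * xD + cC (-155) 10000 * xV,
    cC 0,
    cC 0,
    cC (36766) 10000 + cC (-31740) 10000 * xD + cC (4208) 10000 * xV + cC (-17641) 10000 * (xD * xV)⟩

/-- A multiplier above the cut. -/
def tC33K2p : Ex → Ex :=
  fun e => cC (-2351) 10000 + cC (-6744) 10000 * xD + cC (3289) 10000 * xV + cC (-248) 10000 * e

/-- A multiplier above the cut. -/
def tC33K2m : Ex → Ex :=
  fun e => cC (14270) 10000 + cC (-1241) 10000 * xD + cC (-9294) 10000 * xV + cC (396) 10000 * e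

/-- A multiplier above the cut. -/
def tC33KapL : Ex → Ex :=
  fun e => cC (3213) 10000 + cC (-6606) 10000 * xD + cC (-139) 10000 * xV + cC (267) 10000 * e

/-- A multiplier above the cut. -/
def tC33KapU : Ex → Ex :=
  fun e => cC (10079) 10000 + cC (-11324) 10000 * xD + cC (-3538) 10000 * xV + cC (720) 10000 * e

/-- Below the cut. -/
def tC33A : Piece :=
  tC33.below tC33Cut

/-- Above the cut. -/
def tC33B : Piece :=
  { tC33.above tC33Cut tC33PU with k2p := tC33K2p, k2m := tC33K2m, kapL := tC33KapL, kapU := tC33KapU }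

/-- The least `u`. -/
def tC33Lo : Ex :=
  cC (4) 5

/-- A piece: `1.346 ≤ v < 1.599`. -/
def tC34 : Piece where
  u₀ := cC (39) 40
  u₁ := cC (604) 1000 + cC (417) 1000 * xD + cC (158) 1000 * xV
  tLn := lowTn
  tLd := lowTd
  tUn := upCn
  tUd := upCd
  p₀ := cC (210405) 10000 + cC (-116906) 10000 * xD + cC (-37543) 10000 * xV + cC (80797) 10000 * (xD * xV) + cC (-10716) 10000 * (xD * xD) + cC (-141871) 10000 * xS
  zL := cC (8842) 10000 + cC (-26873) 10000 * xD + cC (-2148) 10000 * xV + cC (-1152) 10000 * (xD * xV) + cC (209) 10000 * (xV * xV) + cC (46531) 10000 * (xD * xD) + cC (-2118) 10000 * xS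
  zU := cC (15321) 10000 + cC (-47908) 10000 * xD + cC (-3962) 10000 * xV + cC (56) 10000 * (xD * xV) + cC (202) 10000 * (xV * xV) + cC (78785) 10000 * (xD * xD) + cC (-2100) 10000 * xS
  k2p := fun e => cC (-258) 10000 + cC (2085) 10000 * xD + cC (168) 10000 * xV + cC (-2) 10000 * e
  k2m := fun e => cC (-21) 10000 + cC (942) 10000 * xD + cC (-12) 10000 * xV + cC (9) 10000 * e
  kapL := fun e => cC (-198) 10000 + cC (631) 10000 * xD + cC (295) 10000 * xV + cC (25) 10000 * e
  kapU := fun e => cC (5572) 10000 + cC (-6103) 10000 * xD + cC (-1941) 10000 * xV + cC (359) 10000 * e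
  eL := ⟨cC (-84707) 10000 + cC (163738) 10000 * xD + cC (53628) 10000 * xV + cC (-2357) 10000 * (xV * xV) + cC (-21235) 10000 * (xD * xV) + cC (2181) 10000 * (xD * xD) + cC (-78349) 10000 * xS,
    cC 0,
    cC 0,
    cC 0,
    cC 0⟩
  eH := ⟨cC (-11835) 10000 + cC (-137995) 10000 * xD + cC (3848) 10000 * xV + cC (-219) 10000 * (xV * xV) + cC (47524) 10000 * (xD * xV) + cC (316039) 10000 * (xD * xD) + cC (-24616) 10000 * xS,
    cC 0,
    cC 0,
    cC 0,
    cC 0⟩
  pL := ⟨cC (245946) 10000 + cC (-247072) 10000 * xD + cC (-69554) 10000 * xV + cC (142697) 10000 * (xD * xV) + cC (7078) 10000 * (xV * xV) + cC (128321) 10000 * (xD * xD) + cC (-191438) 10000 * xS,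
    cC (7755) 10000 + cC (-15969) 10000 * xD + cC (-10671) 10000 * xV,
    cC 0,
    cC 0,
    cC 0⟩
  pU := ⟨cC (250972) 10000 + cC (-96978) 10000 * xD + cC (-58701) 10000 * xV + cC (106887) 10000 * (xD * xV) + cC (7527) 10000 * (xV * xV) + cC (91710) 10000 * (xD * xD) + cC (-221695) 10000 * xS,
    cC (2981) 10000 + cC (8743) 10000 * xD + cC (-8942) 10000 * xV,
    cC 0,
    cC 0,
    cC 0⟩
  kU := ⟨cC (-4710) 10000 + cC (720) 10000 * xD + cC (-439) 10000 * xV + cC (2826) 10000 * (xD * xV) + cC (-10) 10000 * (xV * xV) + cC (-11095) 10000 * (xD * xD) + cC (7756) 10000 * xS,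
    cC (-666) 10000 + cC (11015) 10000 * xD + cC (-46) 10000 * xV,
    cC (-193) 10000 + cC (2578) 10000 * xD + cC (11) 10000 * xV,
    cC 0,
    cC 0⟩
  kL := ⟨cC (-4930) 10000 + cC (12276) 10000 * xD + cC (-669) 10000 * xV + cC (2150) 10000 * (xD * xV) + cC (26) 10000 * (xV * xV) + cC (-33546) 10000 * (xD * xD) + cC (6792) 10000 * xS,
    cC (-716) 10000 + cC (11703) 10000 * xD + cC (-86) 10000 * xV,
    cC (-196) 10000 + cC (2417) 10000 * xD + cC (29) 10000 * xV,
    cC 0,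
    cC 0⟩
  wU := ⟨cC (-5320) 10000 + cC (-19276) 10000 * xD + cC (-35833) 10000 * xV + cC (-3186) 10000 * (xD * xV) + cC (3925) 10000 * (xV * xV) + cC (28128) 10000 * (xD * xD) + cC (105441) 10000 * xS,
    cC (-3019) 10000 + cC (15122) 10000 * xD + cC (-5037) 10000 * xV,
    cC (-17157) 10000 + cC (7349) 10000 * xD + cC (960) 10000 * xV,
    cC 0,
    cC 0⟩
  wL := ⟨cC (-100587) 10000 + cC (123793) 10000 * xD + cC (-1705) 10000 * xV + cC (26500) 10000 * (xD * xV) + cC (-6694) 10000 * (xV * xV) + cC (-166743) 10000 * (xD * xD) + cC (166617) 10000 * xS,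
    cC (-2227) 10000 + cC (450) 10000 * xD + cC (-3188) 10000 * xV,
    cC (-11785) 10000 + cC (-18116) 10000 * xD + cC (544) 10000 * xV,
    cC 0,
    cC 0⟩

/-- The least `u`. -/
def tC34Lo : Ex :=
  cC (4) 5

/-- The upper end of `u`. -/
def tC35Hi : Ex :=
  cC (71) 80

/-- The least `u`. -/
def tC35Lo : Ex :=
  cC (4) 5

/-- A piece: `1.346 ≤ v < 1.599`. -/
def tC36 : Piece where
  u₀ := cC (39) 40
  u₁ := cC (620) 1000 + cC (335) 1000 * xD + cC (157) 1000 * xV
  tLn := lowTn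
  tLd := lowTd
  tUn := upCn
  tUd := upCd
  p₀ := cC (205221) 10000 + cC (-108717) 10000 * xD + cC (-36697) 10000 * xV + cC (75342) 10000 * (xD * xV) + cC (-9228) 10000 * (xD * xD) + cC (-136110) 10000 * xS
  zL := cC (8577) 10000 + cC (-18428) 10000 * xD + cC (-2302) 10000 * xV + cC (-1166) 10000 * (xD * xV) + cC (262) 10000 * (xV * xV) + cC (23593) 10000 * (xD * xD) + cC (-2708) 10000 * xS
  zU := cC (15676) 10000 + cC (-40879) 10000 * xD + cC (-4940) 10000 * xV + cC (1931) 10000 * (xD * xV) + cC (422) 10000 * (xV * xV) + cC (52982) 10000 * (xD * xD) + cC (-2575) 10000 * xS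
  k2p := fun e => cC (-602) 10000 + cC (2566) 10000 * xD + cC (364) 10000 * xV + cC (7) 10000 * e
  k2m := fun e => cC (-190) 10000 + cC (1509) 10000 * xD + cC (27) 10000 * xV + cC (9) 10000 * e
  kapL := fun e => cC (3) 10000 + cC (-2) 10000 * xD + cC (345) 10000 * xV + cC (75) 10000 * e
  kapU := fun e => cC (9407) 10000 + cC (-9161) 10000 * xD + cC (-3311) 10000 * xV + cC (678) 10000 * e
  eL := ⟨cC (-108182) 10000 + cC (154558) 10000 * xD + cC (67938) 10000 * xV + cC (-6750) 10000 * (xV * xV) + cC (-26286) 10000 * (xD * xV) + cC (10503) 10000 * (xD * xD) + cC (-56492) 10000 * xS,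
    cC 0,
    cC 0,
    cC 0,
    cC 0⟩
  eH := ⟨cC (-14986) 10000 + cC (-148115) 10000 * xD + cC (4090) 10000 * xV + cC (-833) 10000 * (xV * xV) + cC (55141) 10000 * (xD * xV) + cC (308105) 10000 * (xD * xD) + cC (-18372) 10000 * xS,
    cC 0,
    cC 0,
    cC 0,
    cC 0⟩
  pL := ⟨cC (264579) 10000 + cC (-329543) 10000 * xD + cC (-88989) 10000 * xV + cC (181865) 10000 * (xD * xV) + cC (9628) 10000 * (xV * xV) + cC (231773) 10000 * (xD * xD) + cC (-183369) 10000 * xS,
    cC (9919) 10000 + cC (-14162) 10000 * xD + cC (-12401) 10000 * xV,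
    cC 0,
    cC 0,
    cC 0⟩
  pU := ⟨cC (256486) 10000 + cC (-190314) 10000 * xD + cC (-68098) 10000 * xV + cC (128315) 10000 * (xD * xV) + cC (9030) 10000 * (xV * xV) + cC (249416) 10000 * (xD * xD) + cC (-205207) 10000 * xS,
    cC (3707) 10000 + cC (8150) 10000 * xD + cC (-9369) 10000 * xV,
    cC 0,
    cC 0,
    cC 0⟩
  kU := ⟨cC (-5217) 10000 + cC (-5903) 10000 * xD + cC (-493) 10000 * xV + cC (2652) 10000 * (xD * xV) + cC (-21) 10000 * (xV * xV) + cC (-681) 10000 * (xD * xD) + cC (10236) 10000 * xS,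
    cC (-607) 10000 + cC (10742) 10000 * xD + cC (-47) 10000 * xV,
    cC (-264) 10000 + cC (2734) 10000 * xD + cC (28) 10000 * xV,
    cC 0,
    cC 0⟩
  kL := ⟨cC (-6160) 10000 + cC (12661) 10000 * xD + cC (-1401) 10000 * xV + cC (4088) 10000 * (xD * xV) + cC (98) 10000 * (xV * xV) + cC (-32791) 10000 * (xD * xD) + cC (9050) 10000 * xS,
    cC (-357) 10000 + cC (10483) 10000 * xD + cC (-179) 10000 * xV,
    cC (17) 10000 + cC (1411) 10000 * xD + cC (11) 10000 * xV,
    cC 0,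
    cC 0⟩
  wU := ⟨cC (64513) 10000 + cC (-382402) 10000 * xD + cC (-64483) 10000 * xV + cC (73839) 10000 * (xD * xV) + cC (6470) 10000 * (xV * xV) + cC (367414) 10000 * (xD * xD) + cC (113246) 10000 * xS,
    cC (-2709) 10000 + cC (11472) 10000 * xD + cC (-4780) 10000 * xV,
    cC (-21781) 10000 + cC (22134) 10000 * xD + cC (1862) 10000 * xV,
    cC 0,
    cC 0⟩
  wL := ⟨cC (-113507) 10000 + cC (-10872) 10000 * xD + cC (-14791) 10000 * xV + cC (110969) 10000 * (xD * xV) + cC (-3546) 10000 * (xV * xV) + cC (195214) 10000 * (xD * xD) + cC (180424) 10000 * xS,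
    cC (7873) 10000 + cC (-46397) 10000 * xD + cC (-3352) 10000 * xV,
    cC (-412) 10000 + cC (-55654) 10000 * xD + cC (-1585) 10000 * xV,
    cC 0,
    cC 0⟩

/-- The least `u`. -/
def tC36Lo : Ex :=
  cC (71) 80

/-- A piece: `1.346 ≤ v < 1.467`. -/
def tC37 : Piece where
  u₀ := cC (39) 40
  u₁ := cC (592) 1000 + cC (415) 1000 * xD + cC (167) 1000 * xV
  tLn := lowTn
  tLd := lowTd
  tUn := upCn
  tUd := upCd
  p₀ := cC (201991) 10000 + cC (-106840) 10000 * xD + cC (-36531) 10000 * xV + cC (74027) 10000 * (xD * xV) + cC (-6839) 10000 * (xD * xD) + cC (-131797) 10000 * xS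
  zL := cC (8473) 10000 + cC (-15035) 10000 * xD + cC (-2360) 10000 * xV + cC (-1405) 10000 * (xD * xV) + cC (300) 10000 * (xV * xV) + cC (16650) 10000 * (xD * xD) + cC (-3044) 10000 * xS
  zU := cC (15994) 10000 + cC (-37120) 10000 * xD + cC (-5411) 10000 * xV + cC (1957) 10000 * (xD * xV) + cC (547) 10000 * (xV * xV) + cC (41543) 10000 * (xD * xD) + cC (-2914) 10000 * xS
  k2p := fun e => cC (-1047) 10000 + cC (1618) 10000 * xD + cC (801) 10000 * xV + cC (3) 10000 * e
  k2m := fun e => cC (-250) 10000 + cC (1728) 10000 * xD + cC (40) 10000 * xV + cC (11) 10000 * e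
  kapL := fun e => cC (353) 10000 + cC (301) 10000 * xD + cC (144) 10000 * xV + cC (122) 10000 * e
  kapU := fun e => cC (10425) 10000 + cC (-10891) 10000 * xD + cC (-3653) 10000 * xV + cC (740) 10000 * e
  eL := ⟨cC (-132142) 10000 + cC (203509) 10000 * xD + cC (83878) 10000 * xV + cC (-10513) 10000 * (xV * xV) + cC (-40966) 10000 * (xD * xV) + cC (-18238) 10000 * (xD * xD) + cC (-49220) 10000 * xS,
    cC 0,
    cC 0,
    cC 0,
    cC 0⟩
  eH := ⟨cC (-12435) 10000 + cC (-171291) 10000 * xD + cC (1718) 10000 * xV + cC (-1119) 10000 * (xV * xV) + cC (69835) 10000 * (xD * xV) + cC (310522) 10000 * (xD * xD) + cC (-15733) 10000 * xS,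
    cC 0,
    cC 0,
    cC 0,
    cC 0⟩
  pL := ⟨cC (274210) 10000 + cC (-370926) 10000 * xD + cC (-104885) 10000 * xV + cC (209037) 10000 * (xD * xV) + cC (12193) 10000 * (xV * xV) + cC (268372) 10000 * (xD * xD) + cC (-173621) 10000 * xS,
    cC (10828) 10000 + cC (-12080) 10000 * xD + cC (-13408) 10000 * xV,
    cC 0,
    cC 0,
    cC 0⟩
  pU := ⟨cC (253366) 10000 + cC (-260779) 10000 * xD + cC (-65089) 10000 * xV + cC (144241) 10000 * (xD * xV) + cC (8032) 10000 * (xV * xV) + cC (315956) 10000 * (xD * xD) + cC (-192852) 10000 * xS,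
    cC (3152) 10000 + cC (3671) 10000 * xD + cC (-8244) 10000 * xV,
    cC 0,
    cC 0,
    cC 0⟩
  kU := ⟨cC (-7144) 10000 + cC (-2608) 10000 * xD + cC (323) 10000 * xV + cC (-1707) 10000 * (xD * xV) + cC (159) 10000 * (xV * xV) + cC (3325) 10000 * (xD * xD) + cC (11766) 10000 * xS,
    cC (-650) 10000 + cC (10621) 10000 * xD + cC (12) 10000 * xV,
    cC (-226) 10000 + cC (2636) 10000 * xD + cC (1) 10000 * xV,
    cC 0,
    cC 0⟩
  kL := ⟨cC (-6542) 10000 + cC (8861) 10000 * xD + cC (-2438) 10000 * xV + cC (6499) 10000 * (xD * xV) + cC (212) 10000 * (xV * xV) + cC (-28083) 10000 * (xD * xD) + cC (11201) 10000 * xS,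
    cC (-81) 10000 + cC (10067) 10000 * xD + cC (-306) 10000 * xV,
    cC (147) 10000 + cC (1033) 10000 * xD + cC (-16) 10000 * xV,
    cC 0,
    cC 0⟩
  wU := ⟨cC (117134) 10000 + cC (-377414) 10000 * xD + cC (-121155) 10000 * xV + cC (112099) 10000 * (xD * xV) + cC (16566) 10000 * (xV * xV) + cC (232950) 10000 * (xD * xD) + cC (119680) 10000 * xS,
    cC (-2847) 10000 + cC (11698) 10000 * xD + cC (-4705) 10000 * xV,
    cC (-25598) 10000 + cC (19822) 10000 * xD + cC (4548) 10000 * xV,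
    cC 0,
    cC 0⟩
  wL := ⟨cC (-90859) 10000 + cC (-78185) 10000 * xD + cC (-28221) 10000 * xV + cC (134846) 10000 * (xD * xV) + cC (-2184) 10000 * (xV * xV) + cC (248502) 10000 * (xD * xD) + cC (171314) 10000 * xS,
    cC (5562) 10000 + cC (-31763) 10000 * xD + cC (-4228) 10000 * xV,
    cC (-3107) 10000 + cC (-44590) 10000 * xD + cC (-1072) 10000 * xV,
    cC 0,
    cC 0⟩

/-- The least `u`. -/
def tC37Lo : Ex :=
  cC (71) 80

/-- A piece: `1.467 ≤ v < 1.599`. -/
def tC38 : Piece where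
  u₀ := cC (39) 40
  u₁ := cC (671) 1000 + cC (341) 1000 * xD + cC (125) 1000 * xV
  tLn := lowTn
  tLd := lowTd
  tUn := upCn
  tUd := upCd
  p₀ := cC (205706) 10000 + cC (-110323) 10000 * xD + cC (-36928) 10000 * xV + cC (76209) 10000 * (xD * xV) + cC (-8706) 10000 * (xD * xD) + cC (-136246) 10000 * xS
  zL := cC (8418) 10000 + cC (-14825) 10000 * xD + cC (-2356) 10000 * xV + cC (-1149) 10000 * (xD * xV) + cC (280) 10000 * (xV * xV) + cC (15227) 10000 * (xD * xD) + cC (-2996) 10000 * xS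
  zU := cC (14966) 10000 + cC (-37085) 10000 * xD + cC (-4626) 10000 * xV + cC (1637) 10000 * (xD * xV) + cC (452) 10000 * (xV * xV) + cC (44474) 10000 * (xD * xD) + cC (-2880) 10000 * xS
  k2p := fun e => cC (8458) 10000 + cC (-9267) 10000 * xD + cC (-2355) 10000 * xV + cC (801) 10000 * e
  k2m := fun _ => cC (-405) 10000 + cC (1768) 10000 * xD + cC (112) 10000 * xV
  kapL := fun e => cC (2982) 10000 + cC (-5147) 10000 * xD + cC (-480) 10000 * xV + cC (332) 10000 * e
  kapU := fun e => cC (57) 10000 + cC (-111) 10000 * xD + cC (-176) 10000 * xV + cC (-122) 10000 * e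
  eL := ⟨cC (-123620) 10000 + cC (187073) 10000 * xD + cC (72130) 10000 * xV + cC (-8876) 10000 * (xV * xV) + cC (-41708) 10000 * (xD * xV) + cC (-3288) 10000 * (xD * xD) + cC (-36460) 10000 * xS,
    cC 0,
    cC 0,
    cC 0,
    cC 0⟩
  eH := ⟨cC (-11935) 10000 + cC (-184548) 10000 * xD + cC (448) 10000 * xV + cC (-622) 10000 * (xV * xV) + cC (68067) 10000 * (xD * xV) + cC (343603) 10000 * (xD * xD) + cC (-12497) 10000 * xS,
    cC 0,
    cC 0,
    cC 0,
    cC 0⟩
  pL := ⟨cC (250372) 10000 + cC (-410922) 10000 * xD + cC (-69719) 10000 * xV + cC (180246) 10000 * (xD * xV) + cC (5709) 10000 * (xV * xV) + cC (430180) 10000 * (xD * xD) + cC (-177033) 10000 * xS,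
    cC (5333) 10000 + cC (-14061) 10000 * xD + cC (-9048) 10000 * xV,
    cC 0,
    cC (497) 10000,
    cC 0⟩
  pU := ⟨cC (1722352) 10000 + cC (-7120916) 10000 * xD + cC (-531286) 10000 * xV + cC (1681578) 10000 * (xD * xV) + cC (-460) 10000 * (xV * xV) + cC (6163325) 10000 * (xD * xD) + cC (-15661) 10000 * xS,
    cC (126923) 10000 + cC (-410993) 10000 * xD + cC (2893) 10000 * xV,
    cC 0,
    cC 0,
    cC 0⟩
  kU := ⟨cC (-7559) 10000 + cC (-3075) 10000 * xD + cC (725) 10000 * xV + cC (-13184) 10000 * (xD * xV) + cC (1051) 10000 * (xV * xV) + cC (41833) 10000 * (xD * xD) + cC (11242) 10000 * xS,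
    cC (-765) 10000 + cC (10091) 10000 * xD + cC (149) 10000 * xV,
    cC (-165) 10000 + cC (2880) 10000 * xD + cC (-64) 10000 * xV,
    cC 0,
    cC 0⟩
  kL := ⟨cC (-8106) 10000 + cC (18716) 10000 * xD + cC (-1384) 10000 * xV + cC (3470) 10000 * (xD * xV) + cC (49) 10000 * (xV * xV) + cC (-44255) 10000 * (xD * xD) + cC (11111) 10000 * xS,
    cC (-567) 10000 + cC (10941) 10000 * xD + cC (-113) 10000 * xV,
    cC (-143) 10000 + cC (1653) 10000 * xD + cC (88) 10000 * xV,
    cC 0,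
    cC 0⟩
  wU := ⟨cC (-43456) 10000 + cC (91795) 10000 * xD + cC (-17429) 10000 * xV + cC (-24939) 10000 * (xD * xV) + cC (1229) 10000 * (xV * xV) + cC (-63262) 10000 * (xD * xD) + cC (118377) 10000 * xS,
    cC (-4127) 10000 + cC (15251) 10000 * xD + cC (-4329) 10000 * xV,
    cC (-15142) 10000 + cC (-199) 10000 * xD + cC (195) 10000 * xV,
    cC 0,
    cC 0⟩
  wL := ⟨cC (-199100) 10000 + cC (845125) 10000 * xD + cC (40686) 10000 * xV + cC (-106780) 10000 * (xD * xV) + cC (-9858) 10000 * (xV * xV) + cC (-1000164) 10000 * (xD * xD) + cC (108326) 10000 * xS,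
    cC (-17293) 10000 + cC (52728) 10000 * xD + cC (-2739) 10000 * xV,
    cC (-14867) 10000 + cC (-10470) 10000 * xD + cC (1323) 10000 * xV,
    cC 0,
    cC 0⟩

/-- The cut in `e`. -/
def tC38Cut : Ex :=
  cC (-117066) 10000 + cC (134790) 10000 * xD + cC (67649) 10000 * xV + cC (-7775) 10000 * (xV * xV) + cC (-29344) 10000 * (xD * xV) + cC (124189) 10000 * (xD * xD) + cC (-34894) 10000 * xS

/-- The bound of `p` above the cut. -/
def tC38PU : Bnd :=
  ⟨cC (246343) 10000 + cC (-203863) 10000 * xD + cC (-64357) 10000 * xV + cC (127638) 10000 * (xD * xV) + cC (8013) 10000 * (xV * xV) + cC (335120) 10000 * (xD * xD) + cC (-198738) 10000 * xS,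
    cC (2242) 10000 + cC (15080) 10000 * xD + cC (-9796) 10000 * xV,
    cC 0,
    cC 0,
    cC (6663) 10000 + cC (-31803) 10000 * xD + cC (-4540) 10000 * xV + cC (21679) 10000 * (xD * xV)⟩

/-- A multiplier above the cut. -/
def tC38K2p : Ex → Ex :=
  fun e => cC (-135) 10000 + cC (2257) 10000 * xD + cC (218) 10000 * xV + cC (80) 10000 * e

/-- A multiplier above the cut. -/
def tC38K2m : Ex → Ex :=
  fun _ => cC (-405) 10000 + cC (1768) 10000 * xD + cC (112) 10000 * xV

/-- A multiplier above the cut. -/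
def tC38KapL : Ex → Ex :=
  fun e => cC (706) 10000 + cC (213) 10000 * xD + cC (202) 10000 * xV + cC (302) 10000 * e

/-- A multiplier above the cut. -/
def tC38KapU : Ex → Ex :=
  fun e => cC (15745) 10000 + cC (-19293) 10000 * xD + cC (-5112) 10000 * xV + cC (1217) 10000 * e

/-- Below the cut. -/
def tC38A : Piece :=
  tC38.below tC38Cut

/-- Above the cut. -/
def tC38B : Piece :=
  { tC38.above tC38Cut tC38PU with k2p := tC38K2p, k2m := tC38K2m, kapL := tC38KapL, kapU := tC38KapU }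

/-- The least `u`. -/
def tC38Lo : Ex :=
  cC (71) 80

/-- A piece: `1.467 ≤ v < 1.599`. -/
def tC39 : Piece where
  u₀ := cC (39) 40
  u₁ := cC (674) 1000 + cC (348) 1000 * xD + cC (122) 1000 * xV
  tLn := lowTn
  tLd := lowTd
  tUn := upCn
  tUd := upCd
  p₀ := cC (203846) 10000 + cC (-106737) 10000 * xD + cC (-36500) 10000 * xV + cC (73868) 10000 * (xD * xV) + cC (-8353) 10000 * (xD * xD) + cC (-134475) 10000 * xS
  zL := cC (8397) 10000 + cC (-13472) 10000 * xD + cC (-2397) 10000 * xV + cC (-1161) 10000 * (xD * xV) + cC (294) 10000 * (xV * xV) + cC (12539) 10000 * (xD * xD) + cC (-3164) 10000 * xS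
  zU := cC (14739) 10000 + cC (-34025) 10000 * xD + cC (-4610) 10000 * xV + cC (1340) 10000 * (xD * xV) + cC (477) 10000 * (xV * xV) + cC (38080) 10000 * (xD * xD) + cC (-3058) 10000 * xS
  k2p := fun e => cC (7142) 10000 + cC (-7937) 10000 * xD + cC (-1842) 10000 * xV + cC (717) 10000 * e
  k2m := fun _ => cC (-484) 10000 + cC (1998) 10000 * xD + cC (131) 10000 * xV
  kapL := fun e => cC (802) 10000 + cC (-170) 10000 * xD + cC (22) 10000 * xV + cC (231) 10000 * e
  kapU := fun e => cC (-2113) 10000 + cC (2400) 10000 * xD + cC (459) 10000 * xV + cC (-346) 10000 * e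
  eL := ⟨cC (-127974) 10000 + cC (182279) 10000 * xD + cC (73157) 10000 * xV + cC (-9481) 10000 * (xV * xV) + cC (-38543) 10000 * (xD * xV) + cC (4057) 10000 * (xD * xD) + cC (-30752) 10000 * xS,
    cC 0,
    cC 0,
    cC 0,
    cC 0⟩
  eH := ⟨cC (-254421) 10000 + cC (351213) 10000 * xD + cC (250647) 10000 * xV + cC (-59045) 10000 * (xV * xV) + cC (-261028) 10000 * (xD * xV) + cC (232756) 10000 * (xD * xD) + cC (-20120) 10000 * xS,
    cC 0,
    cC 0,
    cC 0,
    cC (15884) 10000 + cC (-418554) 10000 * xD + cC (-10826) 10000 * xV + cC (285313) 10000 * (xD * xV)⟩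
  pL := ⟨cC (238379) 10000 + cC (-324127) 10000 * xD + cC (-72763) 10000 * xV + cC (180398) 10000 * (xD * xV) + cC (6233) 10000 * (xV * xV) + cC (268690) 10000 * (xD * xD) + cC (-171152) 10000 * xS,
    cC (5160) 10000 + cC (-9212) 10000 * xD + cC (-9673) 10000 * xV,
    cC 0,
    cC (465) 10000,
    cC 0⟩
  pU := ⟨cC (1471536) 10000 + cC (-5503992) 10000 * xD + cC (-448968) 10000 * xV + cC (1296036) 10000 * (xD * xV) + cC (1164) 10000 * (xV * xV) + cC (4424994) 10000 * (xD * xD) + cC (-50294) 10000 * xS,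
    cC (107511) 10000 + cC (-322508) 10000 * xD + cC (2320) 10000 * xV,
    cC 0,
    cC 0,
    cC 0⟩
  kU := ⟨cC (-7846) 10000 + cC (14808) 10000 * xD + cC (-3636) 10000 * xV + cC (-3085) 10000 * (xD * xV) + cC (1932) 10000 * (xV * xV) + cC (-19293) 10000 * (xD * xD) + cC (12072) 10000 * xS,
    cC (-1293) 10000 + cC (11216) 10000 * xD + cC (332) 10000 * xV,
    cC (-11) 10000 + cC (2203) 10000 * xD + cC (-71) 10000 * xV,
    cC 0,
    cC 0⟩
  kL := ⟨cC (-8791) 10000 + cC (18670) 10000 * xD + cC (-1177) 10000 * xV + cC (2839) 10000 * (xD * xV) + cC (9) 10000 * (xV * xV) + cC (-38541) 10000 * (xD * xD) + cC (11706) 10000 * xS,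
    cC (-716) 10000 + cC (11451) 10000 * xD + cC (-89) 10000 * xV,
    cC (-177) 10000 + cC (1686) 10000 * xD + cC (106) 10000 * xV,
    cC 0,
    cC 0⟩
  wU := ⟨cC (-13688) 10000 + cC (-8608) 10000 * xD + cC (-35729) 10000 * xV + cC (1684) 10000 * (xD * xV) + cC (3780) 10000 * (xV * xV) + cC (2424) 10000 * (xD * xD) + cC (121725) 10000 * xS,
    cC (-3034) 10000 + cC (12313) 10000 * xD + cC (-4629) 10000 * xV,
    cC (-16721) 10000 + cC (3037) 10000 * xD + cC (756) 10000 * xV,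
    cC 0,
    cC 0⟩
  wL := ⟨cC (-346357) 10000 + cC (1317796) 10000 * xD + cC (119896) 10000 * xV + cC (-323947) 10000 * (xD * xV) + cC (-14356) 10000 * (xV * xV) + cC (-1061740) 10000 * (xD * xD) + cC (113984) 10000 * xS,
    cC (-26912) 10000 + cC (75956) 10000 * xD + cC (-416) 10000 * xV,
    cC (-12323) 10000 + cC (-13820) 10000 * xD + cC (325) 10000 * xV,
    cC 0,
    cC 0⟩

/-- The cut in `e`. -/
def tC39Cut : Ex :=
  cC (-331924) 10000 + cC (603160) 10000 * xD + cC (289932) 10000 * xV + cC (-61004) 10000 * (xV * xV) + cC (-309565) 10000 * (xD * xV) + cC (1087) 10000 * (xD * xD) + cC (-39730) 10000 * xS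

/-- The bound of `p` above the cut. -/
def tC39PU : Bnd :=
  ⟨cC (-828101) 10000 + cC (1859427) 10000 * xD + cC (1074784) 10000 * xV + cC (-1189893) 10000 * (xD * xV) + cC (-264943) 10000 * (xV * xV) + cC (84672) 10000 * (xD * xD) + cC (-238255) 10000 * xS,
    cC (-12408) 10000 + cC (22355) 10000 * xD + cC (-1118) 10000 * xV,
    cC 0,
    cC 0,
    cC (-629621) 10000 + cC (1177808) 10000 * xD + cC (429191) 10000 * xV + cC (-802869) 10000 * (xD * xV)⟩

/-- A multiplier above the cut. -/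
def tC39K2p : Ex → Ex :=
  fun e => cC (2309) 10000 + cC (-1187) 10000 * xD + cC (-520) 10000 * xV + cC (270) 10000 * e

/-- A multiplier above the cut. -/
def tC39K2m : Ex → Ex :=
  fun _ => cC (-484) 10000 + cC (1998) 10000 * xD + cC (131) 10000 * xV

/-- A multiplier above the cut. -/
def tC39KapL : Ex → Ex :=
  fun e => cC (1218) 10000 + cC (-1008) 10000 * xD + cC (97) 10000 * xV + cC (339) 10000 * e

/-- A multiplier above the cut. -/
def tC39KapU : Ex → Ex :=
  fun e => cC (4352) 10000 + cC (-5373) 10000 * xD + cC (-1434) 10000 * xV + cC (293) 10000 * e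

/-- Below the cut. -/
def tC39A : Piece :=
  tC39.below tC39Cut

/-- Above the cut. -/
def tC39B : Piece :=
  { tC39.above tC39Cut tC39PU with k2p := tC39K2p, k2m := tC39K2m, kapL := tC39KapL, kapU := tC39KapU }

/-- The least `u`. -/
def tC39Lo : Ex :=
  cC (71) 80

/-- A piece: `1.599 ≤ v < 1.9`. -/
def tC40 : Piece where
  u₀ := cC (39) 40
  u₁ := cC (749) 1000 + cC (324) 1000 * xD + cC (78) 1000 * xV
  tLn := lowTn
  tLd := lowTd
  tUn := upCn
  tUd := upCd
  p₀ := cC (208782) 10000 + cC (-99555) 10000 * xD + cC (-36732) 10000 * xV + cC (75612) 10000 * (xD * xV) + cC (-37124) 10000 * (xD * xD) + cC (-142531) 10000 * xS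
  zL := cC (8714) 10000 + cC (-22335) 10000 * xD + cC (-2227) 10000 * xV + cC (-522) 10000 * (xD * xV) + cC (203) 10000 * (xV * xV) + cC (30367) 10000 * (xD * xD) + cC (-2421) 10000 * xS
  zU := cC (13967) 10000 + cC (-41842) 10000 * xD + cC (-3458) 10000 * xV + cC (444) 10000 * (xD * xV) + cC (317) 10000 * (xV * xV) + cC (61487) 10000 * (xD * xD) + cC (-2681) 10000 * xS
  k2p := fun e => cC (9882) 10000 + cC (-8595) 10000 * xD + cC (-2728) 10000 * xV + cC (1045) 10000 * e
  k2m := fun _ => cC (-237) 10000 + cC (1780) 10000 * xD + cC (29) 10000 * xV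
  kapL := fun e => cC (-27) 10000 + cC (967) 10000 * xD + cC (332) 10000 * xV + cC (134) 10000 * e
  kapU := fun e => cC (6835) 10000 + cC (-8582) 10000 * xD + cC (-1410) 10000 * xV + cC (825) 10000 * e
  eL := ⟨cC (-89706) 10000 + cC (127303) 10000 * xD + cC (41070) 10000 * xV + cC (-3493) 10000 * (xV * xV) + cC (-15428) 10000 * (xD * xV) + cC (36665) 10000 * (xD * xD) + cC (-30746) 10000 * xS,
    cC 0,
    cC 0,
    cC 0,
    cC 0⟩
  eH := ⟨cC (-51450) 10000 + cC (145279) 10000 * xD + cC (24628) 10000 * xV + cC (-2232) 10000 * (xV * xV) + cC (-51415) 10000 * (xD * xV) + cC (-45288) 10000 * (xD * xD) + cC (-22808) 10000 * xS,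
    cC 0,
    cC 0,
    cC 0,
    cC (-10473) 10000 + cC (35818) 10000 * xD + cC (515) 10000 * xV + cC (22314) 10000 * (xD * xV)⟩
  pL := ⟨cC (237095) 10000 + cC (-363693) 10000 * xD + cC (-52347) 10000 * xV + cC (146666) 10000 * (xD * xV) + cC (3028) 10000 * (xV * xV) + cC (401516) 10000 * (xD * xD) + cC (-188582) 10000 * xS,
    cC (6511) 10000 + cC (-24123) 10000 * xD + cC (-9161) 10000 * xV,
    cC 0,
    cC 0,
    cC 0⟩
  pU := ⟨cC (108247) 10000 + cC (1058009) 10000 * xD + cC (37105) 10000 * xV + cC (-289040) 10000 * (xD * xV) + cC (-2060) 10000 * (xV * xV) + cC (-1336766) 10000 * (xD * xD) + cC (-269713) 10000 * xS,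
    cC (-3637) 10000 + cC (16758) 10000 * xD + cC (-5849) 10000 * xV,
    cC 0,
    cC 0,
    cC (-10677) 10000 + cC (-505) 10000 * xD + cC (-19171) 10000 * xV + cC (191794) 10000 * (xD * xV)⟩
  kU := ⟨cC (-6261) 10000 + cC (3372) 10000 * xD + cC (-542) 10000 * xV + cC (2224) 10000 * (xD * xV) + cC (36) 10000 * (xV * xV) + cC (-16085) 10000 * (xD * xD) + cC (9883) 10000 * xS,
    cC (-677) 10000 + cC (10835) 10000 * xD + cC (-27) 10000 * xV,
    cC (-198) 10000 + cC (2479) 10000 * xD + cC (25) 10000 * xV,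
    cC 0,
    cC 0⟩
  kL := ⟨cC (-5714) 10000 + cC (7121) 10000 * xD + cC (-338) 10000 * xV + cC (3166) 10000 * (xD * xV) + cC (-113) 10000 * (xV * xV) + cC (-23525) 10000 * (xD * xD) + cC (8120) 10000 * xS,
    cC (-643) 10000 + cC (10610) 10000 * xD + cC (-18) 10000 * xV,
    cC (-154) 10000 + cC (1963) 10000 * xD + cC (53) 10000 * xV,
    cC 0,
    cC 0⟩
  wU := ⟨cC (-60703) 10000 + cC (120956) 10000 * xD + cC (-9271) 10000 * xV + cC (-31216) 10000 * (xD * xV) + cC (984) 10000 * (xV * xV) + cC (-76911) 10000 * (xD * xD) + cC (119490) 10000 * xS,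
    cC (-4455) 10000 + cC (19230) 10000 * xD + cC (-4627) 10000 * xV,
    cC (-13324) 10000 + cC (-375) 10000 * xD + cC (-846) 10000 * xV,
    cC 0,
    cC 0⟩
  wL := ⟨cC (-16885) 10000 + cC (78495) 10000 * xD + cC (-43015) 10000 * xV + cC (28375) 10000 * (xD * xV) + cC (4843) 10000 * (xV * xV) + cC (-97672) 10000 * (xD * xD) + cC (107609) 10000 * xS,
    cC (5586) 10000 + cC (14386) 10000 * xD + cC (-9832) 10000 * xV,
    cC (-10502) 10000 + cC (-9829) 10000 * xD + cC (-1487) 10000 * xV,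
    cC 0,
    cC 0⟩

/-- The least `u`. -/
def tC40Lo : Ex :=
  cC (4) 5

/-- The upper end of `u`. -/
def tC41Hi : Ex :=
  cC (71) 80

/-- The least `u`. -/
def tC41Lo : Ex :=
  cC (4) 5

/-- A piece: `1.346 ≤ v < 1.467`. -/
def tC42 : Piece where
  u₀ := cC (39) 40
  u₁ := cC (603) 1000 + cC (420) 1000 * xD + cC (158) 1000 * xV
  tLn := lowTn
  tLd := lowTd
  tUn := upCn
  tUd := upCd
  p₀ := cC (195531) 10000 + cC (-95347) 10000 * xD + cC (-34893) 10000 * xV + cC (66282) 10000 * (xD * xV) + cC (-6084) 10000 * (xD * xD) + cC (-125879) 10000 * xS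
  zL := cC (8575) 10000 + cC (-12848) 10000 * xD + cC (-2484) 10000 * xV + cC (-1367) 10000 * (xD * xV) + cC (341) 10000 * (xV * xV) + cC (12246) 10000 * (xD * xD) + cC (-3480) 10000 * xS
  zU := cC (15094) 10000 + cC (-27509) 10000 * xD + cC (-5211) 10000 * xV + cC (788) 10000 * (xD * xV) + cC (604) 10000 * (xV * xV) + cC (24263) 10000 * (xD * xD) + cC (-3522) 10000 * xS
  k2p := fun e => cC (-1324) 10000 + cC (1094) 10000 * xD + cC (990) 10000 * xV + cC (-50) 10000 * e
  k2m := fun _ => cC (-636) 10000 + cC (2670) 10000 * xD + cC (128) 10000 * xV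
  kapL := fun e => cC (-1904) 10000 + cC (1791) 10000 * xD + cC (984) 10000 * xV + cC (-61) 10000 * e
  kapU := fun e => cC (3762) 10000 + cC (-6059) 10000 * xD + cC (-754) 10000 * xV + cC (326) 10000 * e
  eL := ⟨cC (-139125) 10000 + cC (143764) 10000 * xD + cC (82404) 10000 * xV + cC (-12324) 10000 * (xV * xV) + cC (-15865) 10000 * (xD * xV) + cC (44302) 10000 * (xD * xD) + cC (-27088) 10000 * xS,
    cC 0,
    cC 0,
    cC 0,
    cC 0⟩
  eH := ⟨cC (-160334) 10000 + cC (720617) 10000 * xD + cC (64766) 10000 * xV + cC (740) 10000 * (xV * xV) + cC (-220973) 10000 * (xD * xV) + cC (-666976) 10000 * (xD * xD) + cC (-21589) 10000 * xS,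
    cC 0,
    cC 0,
    cC 0,
    cC (-24261) 10000 + cC (103604) 10000 * xD + cC (-12338) 10000 * xV + cC (52680) 10000 * (xD * xV)⟩
  pL := ⟨cC (261232) 10000 + cC (-364105) 10000 * xD + cC (-109903) 10000 * xV + cC (214931) 10000 * (xD * xV) + cC (13259) 10000 * (xV * xV) + cC (323817) 10000 * (xD * xD) + cC (-154778) 10000 * xS,
    cC (7299) 10000 + cC (2107) 10000 * xD + cC (-12919) 10000 * xV,
    cC 0,
    cC (398) 10000,
    cC 0⟩
  pU := ⟨cC (1471423) 10000 + cC (-4562902) 10000 * xD + cC (-577481) 10000 * xV + cC (1171987) 10000 * (xD * xV) + cC (36020) 10000 * (xV * xV) + cC (3350360) 10000 * (xD * xD) + cC (-58340) 10000 * xS,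
    cC (96782) 10000 + cC (-222389) 10000 * xD + cC (-6634) 10000 * xV,
    cC 0,
    cC 0,
    cC 0⟩
  kU := ⟨cC (-8588) 10000 + cC (14294) 10000 * xD + cC (-5505) 10000 * xV + cC (5031) 10000 * (xD * xV) + cC (2213) 10000 * (xV * xV) + cC (-32107) 10000 * (xD * xD) + cC (13791) 10000 * xS,
    cC (-1302) 10000 + cC (11633) 10000 * xD + cC (300) 10000 * xV,
    cC (235) 10000 + cC (1436) 10000 * xD + cC (-131) 10000 * xV,
    cC 0,
    cC 0⟩
  kL := ⟨cC (-10278) 10000 + cC (18760) 10000 * xD + cC (-1460) 10000 * xV + cC (3889) 10000 * (xD * xV) + cC (-56) 10000 * (xV * xV) + cC (-37642) 10000 * (xD * xD) + cC (13982) 10000 * xS,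
    cC (-646) 10000 + cC (11111) 10000 * xD + cC (-81) 10000 * xV,
    cC (-125) 10000 + cC (1296) 10000 * xD + cC (142) 10000 * xV,
    cC 0,
    cC 0⟩
  wU := ⟨cC (-22978) 10000 + cC (42950) 10000 * xD + cC (-39745) 10000 * xV + cC (-4235) 10000 * (xD * xV) + cC (4493) 10000 * (xV * xV) + cC (-51897) 10000 * (xD * xD) + cC (132329) 10000 * xS,
    cC (-3373) 10000 + cC (11778) 10000 * xD + cC (-4339) 10000 * xV,
    cC (-17046) 10000 + cC (153) 10000 * xD + cC (1377) 10000 * xV,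
    cC 0,
    cC 0⟩
  wL := ⟨cC (-271420) 10000 + cC (957617) 10000 * xD + cC (97482) 10000 * xV + cC (-254073) 10000 * (xD * xV) + cC (-14829) 10000 * (xV * xV) + cC (-735699) 10000 * (xD * xD) + cC (117710) 10000 * xS,
    cC (-19632) 10000 + cC (49825) 10000 * xD + cC (-1050) 10000 * xV,
    cC (-14679) 10000 + cC (-9722) 10000 * xD + cC (1235) 10000 * xV,
    cC 0,
    cC 0⟩

/-- The cut in `e`. -/
def tC42Cut : Ex :=
  cC (-240005) 10000 + cC (907101) 10000 * xD + cC (115553) 10000 * xV + cC (-2115) 10000 * (xV * xV) + cC (-273043) 10000 * (xD * xV) + cC (-721785) 10000 * (xD * xD) + cC (-50483) 10000 * xS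

/-- The bound of `p` above the cut. -/
def tC42PU : Bnd :=
  ⟨cC (-229790) 10000 + cC (2513030) 10000 * xD + cC (167598) 10000 * xV + cC (-790740) 10000 * (xD * xV) + cC (8774) 10000 * (xV * xV) + cC (-2621328) 10000 * (xD * xD) + cC (-233622) 10000 * xS,
    cC (-5472) 10000 + cC (5273) 10000 * xD + cC (-2732) 10000 * xV,
    cC 0,
    cC 0,
    cC (-69570) 10000 + cC (297064) 10000 * xD + cC (-43295) 10000 * xV + cC (184864) 10000 * (xD * xV)⟩

/-- A multiplier above the cut. -/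
def tC42K2p : Ex → Ex :=
  fun e => cC (1948) 10000 + cC (-3214) 10000 * xD + cC (80) 10000 * xV + cC (256) 10000 * e

/-- A multiplier above the cut. -/
def tC42K2m : Ex → Ex :=
  fun e => cC (-111) 10000 + cC (2124) 10000 * xD + cC (-60) 10000 * xV + cC (41) 10000 * e

/-- A multiplier above the cut. -/
def tC42KapL : Ex → Ex :=
  fun e => cC (1507) 10000 + cC (-2370) 10000 * xD + cC (65) 10000 * xV + cC (284) 10000 * e

/-- A multiplier above the cut. -/
def tC42KapU : Ex → Ex :=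
  fun e => cC (10311) 10000 + cC (-13655) 10000 * xD + cC (-3092) 10000 * xV + cC (787) 10000 * e

/-- Below the cut. -/
def tC42A : Piece :=
  tC42.below tC42Cut

/-- Above the cut. -/
def tC42B : Piece :=
  { tC42.above tC42Cut tC42PU with k2p := tC42K2p, k2m := tC42K2m, kapL := tC42KapL, kapU := tC42KapU }

/-- The least `u`. -/
def tC42Lo : Ex :=
  cC (71) 80

/-- A piece: `1.467 ≤ v < 1.599`. -/
def tC43 : Piece where
  u₀ := cC (39) 40
  u₁ := cC (678) 1000 + cC (385) 1000 * xD + cC (113) 1000 * xV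
  tLn := lowTn
  tLd := lowTd
  tUn := upCn
  tUd := upCd
  p₀ := cC (197100) 10000 + cC (-91919) 10000 * xD + cC (-34863) 10000 * xV + cC (66165) 10000 * (xD * xV) + cC (-13340) 10000 * (xD * xD) + cC (-128810) 10000 * xS
  zL := cC (8656) 10000 + cC (-13321) 10000 * xD + cC (-2493) 10000 * xV + cC (-1064) 10000 * (xD * xV) + cC (319) 10000 * (xV * xV) + cC (12308) 10000 * (xD * xD) + cC (-3505) 10000 * xS
  zU := cC (13714) 10000 + cC (-24418) 10000 * xD + cC (-4272) 10000 * xV + cC (71) 10000 * (xD * xV) + cC (490) 10000 * (xV * xV) + cC (20887) 10000 * (xD * xD) + cC (-3601) 10000 * xS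
  k2p := fun e => cC (4218) 10000 + cC (-7749) 10000 * xD + cC (230) 10000 * xV + cC (768) 10000 * e
  k2m := fun _ => cC (-788) 10000 + cC (2670) 10000 * xD + cC (231) 10000 * xV
  kapL := fun e => cC (997) 10000 + cC (-1062) 10000 * xD + cC (78) 10000 * xV + cC (256) 10000 * e
  kapU := fun e => cC (-4524) 10000 + cC (1754) 10000 * xD + cC (2274) 10000 * xV + cC (-318) 10000 * e
  eL := ⟨cC (-125173) 10000 + cC (110175) 10000 * xD + cC (65194) 10000 * xV + cC (-9427) 10000 * (xV * xV) + cC (-9249) 10000 * (xD * xV) + cC (83510) 10000 * (xD * xD) + cC (-14231) 10000 * xS,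
    cC 0,
    cC 0,
    cC 0,
    cC 0⟩
  eH := ⟨cC (-29720) 10000 + cC (88104) 10000 * xD + cC (14146) 10000 * xV + cC (-768) 10000 * (xV * xV) + cC (-28598) 10000 * (xD * xV) + cC (-9173) 10000 * (xD * xD) + cC (-31683) 10000 * xS,
    cC 0,
    cC 0,
    cC 0,
    cC (5076) 10000 + cC (6887) 10000 * xD + cC (-3078) 10000 * xV + cC (15104) 10000 * (xD * xV)⟩
  pL := ⟨cC (224516) 10000 + cC (-314012) 10000 * xD + cC (-73980) 10000 * xV + cC (179472) 10000 * (xD * xV) + cC (6420) 10000 * (xV * xV) + cC (348380) 10000 * (xD * xD) + cC (-158770) 10000 * xS,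
    cC (2763) 10000 + cC (5779) 10000 * xD + cC (-10552) 10000 * xV,
    cC 0,
    cC 0,
    cC 0⟩
  pU := ⟨cC (1257268) 10000 + cC (-3894711) 10000 * xD + cC (-403643) 10000 * xV + cC (859350) 10000 * (xD * xV) + cC (17457) 10000 * (xV * xV) + cC (3015987) 10000 * (xD * xD) + cC (-107724) 10000 * xS,
    cC (89737) 10000 + cC (-215316) 10000 * xD + cC (-3175) 10000 * xV,
    cC 0,
    cC 0,
    cC 0⟩
  kU := ⟨cC (-11268) 10000 + cC (14916) 10000 * xD + cC (-1224) 10000 * xV + cC (4449) 10000 * (xD * xV) + cC (461) 10000 * (xV * xV) + cC (-30657) 10000 * (xD * xD) + cC (13588) 10000 * xS,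
    cC (-1397) 10000 + cC (12110) 10000 * xD + cC (248) 10000 * xV,
    cC (139) 10000 + cC (1477) 10000 * xD + cC (-57) 10000 * xV,
    cC 0,
    cC 0⟩
  kL := ⟨cC (-10439) 10000 + cC (21935) 10000 * xD + cC (-1165) 10000 * xV + cC (2703) 10000 * (xD * xV) + cC (-12) 10000 * (xV * xV) + cC (-40564) 10000 * (xD * xD) + cC (13206) 10000 * xS,
    cC (-694) 10000 + cC (11338) 10000 * xD + cC (-89) 10000 * xV,
    cC (-120) 10000 + cC (1383) 10000 * xD + cC (121) 10000 * xV,
    cC 0,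
    cC 0⟩
  wU := ⟨cC (-34854) 10000 + cC (19532) 10000 * xD + cC (-28781) 10000 * xV + cC (1970) 10000 * (xD * xV) + cC (3130) 10000 * (xV * xV) + cC (-10935) 10000 * (xD * xD) + cC (131151) 10000 * xS,
    cC (-2392) 10000 + cC (9962) 10000 * xD + cC (-4708) 10000 * xV,
    cC (-14412) 10000 + cC (-1587) 10000 * xD + cC (-71) 10000 * xV,
    cC 0,
    cC 0⟩
  wL := ⟨cC (-475076) 10000 + cC (1586998) 10000 * xD + cC (200829) 10000 * xV + cC (-396122) 10000 * (xD * xV) + cC (-27800) 10000 * (xV * xV) + cC (-1261228) 10000 * (xD * xD) + cC (122551) 10000 * xS,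
    cC (-33750) 10000 + cC (79012) 10000 * xD + cC (3047) 10000 * xV,
    cC (-8787) 10000 + cC (-18561) 10000 * xD + cC (-1082) 10000 * xV,
    cC 0,
    cC 0⟩

/-- The cut in `e`. -/
def tC43Cut : Ex :=
  cC (-92110) 10000 + cC (238100) 10000 * xD + cC (50036) 10000 * xV + cC (-3540) 10000 * (xV * xV) + cC (-55676) 10000 * (xD * xV) + cC (-75473) 10000 * (xD * xD) + cC (-52925) 10000 * xS

/-- The bound of `p` above the cut. -/
def tC43PU : Bnd :=
  ⟨cC (303953) 10000 + cC (-56963) 10000 * xD + cC (-49454) 10000 * xV + cC (26095) 10000 * (xD * xV) + cC (5311) 10000 * (xV * xV) + cC (42271) 10000 * (xD * xD) + cC (-281984) 10000 * xS,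
    cC (-15304) 10000 + cC (25988) 10000 * xD + cC (281) 10000 * xV,
    cC 0,
    cC 0,
    cC (55413) 10000 + cC (-92990) 10000 * xD + cC (-1930) 10000 * xV + cC (1289) 10000 * (xD * xV)⟩

/-- A multiplier above the cut. -/
def tC43K2p : Ex → Ex :=
  fun e => cC (-160) 10000 + cC (5010) 10000 * xD + cC (-160) 10000 * xV + cC (97) 10000 * e

/-- A multiplier above the cut. -/
def tC43K2m : Ex → Ex :=
  fun _ => cC (-788) 10000 + cC (2670) 10000 * xD + cC (231) 10000 * xV

/-- A multiplier above the cut. -/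
def tC43KapL : Ex → Ex :=
  fun e => cC (1940) 10000 + cC (-2888) 10000 * xD + cC (13) 10000 * xV + cC (399) 10000 * e

/-- A multiplier above the cut. -/
def tC43KapU : Ex → Ex :=
  fun e => cC (1971) 10000 + cC (-6294) 10000 * xD + cC (581) 10000 * xV + cC (413) 10000 * e

/-- Below the cut. -/
def tC43A : Piece :=
  tC43.below tC43Cut

/-- Above the cut. -/
def tC43B : Piece :=
  { tC43.above tC43Cut tC43PU with k2p := tC43K2p, k2m := tC43K2m, kapL := tC43KapL, kapU := tC43KapU }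

/-- The least `u`. -/
def tC43Lo : Ex :=
  cC (71) 80

/-- The upper end of `u`. -/
def tC44Hi : Ex :=
  cC (149) 160

/-- The least `u`. -/
def tC44Lo : Ex :=
  cC (71) 80

/-- A piece: `1.346 ≤ v < 1.467`. -/
def tC45 : Piece where
  u₀ := cC (39) 40
  u₁ := cC (605) 1000 + cC (455) 1000 * xD + cC (150) 1000 * xV
  tLn := lowTn
  tLd := lowTd
  tUn := upCn
  tUd := upCd
  p₀ := cC (192302) 10000 + cC (-95669) 10000 * xD + cC (-34557) 10000 * xV + cC (64393) 10000 * (xD * xV) + cC (279) 10000 * (xD * xD) + cC (-121259) 10000 * xS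
  zL := cC (8672) 10000 + cC (-10351) 10000 * xD + cC (-2644) 10000 * xV + cC (-1336) 10000 * (xD * xV) + cC (396) 10000 * (xV * xV) + cC (7966) 10000 * (xD * xD) + cC (-4011) 10000 * xS
  zU := cC (13252) 10000 + cC (-16137) 10000 * xD + cC (-4406) 10000 * xV + cC (-1514) 10000 * (xD * xV) + cC (569) 10000 * (xV * xV) + cC (8754) 10000 * (xD * xD) + cC (-3952) 10000 * xS
  k2p := fun e => cC (6458) 10000 + cC (-13550) 10000 * xD + cC (185) 10000 * xV + cC (899) 10000 * e
  k2m := fun _ => cC (-1048) 10000 + cC (3304) 10000 * xD + cC (291) 10000 * xV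
  kapL := fun e => cC (1444) 10000 + cC (-2622) 10000 * xD + cC (46) 10000 * xV + cC (243) 10000 * e
  kapU := fun e => cC (-2781) 10000 + cC (2015) 10000 * xD + cC (1145) 10000 * xV + cC (-306) 10000 * e
  eL := ⟨cC (-147688) 10000 + cC (91856) 10000 * xD + cC (85107) 10000 * xV + cC (-14690) 10000 * (xV * xV) + cC (-3405) 10000 * (xD * xV) + cC (124376) 10000 * (xD * xD) + cC (-7827) 10000 * xS,
    cC 0,
    cC 0,
    cC 0,
    cC 0⟩
  eH := ⟨cC (-26912) 10000 + cC (82162) 10000 * xD + cC (13504) 10000 * xV + cC (-865) 10000 * (xV * xV) + cC (-25624) 10000 * (xD * xV) + cC (-8010) 10000 * (xD * xD) + cC (-33646) 10000 * xS,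
    cC 0,
    cC 0,
    cC 0,
    cC (4420) 10000 + cC (12945) 10000 * xD + cC (-1493) 10000 * xV + cC (6992) 10000 * (xD * xV)⟩
  pL := ⟨cC (145506) 10000 + cC (35326) 10000 * xD + cC (-61794) 10000 * xV + cC (123902) 10000 * (xD * xV) + cC (7468) 10000 * (xV * xV) + cC (-16808) 10000 * (xD * xD) + cC (-139830) 10000 * xS,
    cC (-3868) 10000 + cC (31017) 10000 * xD + cC (-10803) 10000 * xV,
    cC 0,
    cC 0,
    cC 0⟩
  pU := ⟨cC (1061015) 10000 + cC (-2874408) 10000 * xD + cC (-342641) 10000 * xV + cC (645492) 10000 * (xD * xV) + cC (12427) 10000 * (xV * xV) + cC (2092747) 10000 * (xD * xD) + cC (-121735) 10000 * xS,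
    cC (61500) 10000 + cC (-128297) 10000 * xD + cC (-806) 10000 * xV,
    cC 0,
    cC 0,
    cC 0⟩
  kU := ⟨cC (-14932) 10000 + cC (20152) 10000 * xD + cC (-458) 10000 * xV + cC (5744) 10000 * (xD * xV) + cC (205) 10000 * (xV * xV) + cC (-28258) 10000 * (xD * xD) + cC (15028) 10000 * xS,
    cC (-1743) 10000 + cC (13064) 10000 * xD + cC (299) 10000 * xV,
    cC (486) 10000 + cC (431) 10000 * xD + cC (-101) 10000 * xV,
    cC 0,
    cC 0⟩
  kL := ⟨cC (-13434) 10000 + cC (31742) 10000 * xD + cC (-812) 10000 * xV + cC (1204) 10000 * (xD * xV) + cC (-53) 10000 * (xV * xV) + cC (-47461) 10000 * (xD * xD) + cC (14599) 10000 * xS,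
    cC (-789) 10000 + cC (11649) 10000 * xD + cC (-88) 10000 * xV,
    cC (-50) 10000 + cC (975) 10000 * xD + cC (154) 10000 * xV,
    cC 0,
    cC 0⟩
  wU := ⟨cC (-23094) 10000 + cC (-24889) 10000 * xD + cC (-39793) 10000 * xV + cC (18331) 10000 * (xD * xV) + cC (4583) 10000 * (xV * xV) + cC (16624) 10000 * (xD * xD) + cC (139299) 10000 * xS,
    cC (-1833) 10000 + cC (7714) 10000 * xD + cC (-4658) 10000 * xV,
    cC (-14825) 10000 + cC (-2054) 10000 * xD + cC (234) 10000 * xV,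
    cC 0,
    cC 0⟩
  wL := ⟨cC (-1025480) 10000 + cC (3242473) 10000 * xD + cC (527400) 10000 * xV + cC (-899220) 10000 * (xD * xV) + cC (-76800) 10000 * (xV * xV) + cC (-2479278) 10000 * (xD * xD) + cC (134904) 10000 * xS,
    cC (-54595) 10000 + cC (110860) 10000 * xD + cC (10156) 10000 * xV,
    cC (-30) 10000 + cC (-35653) 10000 * xD + cC (-3431) 10000 * xV,
    cC 0,
    cC 0⟩

/-- The cut in `e`. -/
def tC45Cut : Ex :=
  cC (-106248) 10000 + cC (273325) 10000 * xD + cC (52793) 10000 * xV + cC (-1604) 10000 * (xV * xV) + cC (-64116) 10000 * (xD * xV) + cC (-99806) 10000 * (xD * xD) + cC (-50494) 10000 * xS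

/-- The bound of `p` above the cut. -/
def tC45PU : Bnd :=
  ⟨cC (306339) 10000 + cC (-102652) 10000 * xD + cC (-53157) 10000 * xV + cC (35156) 10000 * (xD * xV) + cC (5526) 10000 * (xV * xV) + cC (71123) 10000 * (xD * xD) + cC (-268337) 10000 * xS,
    cC (-13198) 10000 + cC (19482) 10000 * xD + cC (6) 10000 * xV,
    cC 0,
    cC 0,
    cC (49115) 10000 + cC (-71669) 10000 * xD + cC (-184) 10000 * xV + cC (-3672) 10000 * (xD * xV)⟩

/-- A multiplier above the cut. -/
def tC45K2p : Ex → Ex :=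
  fun e => cC (-4547) 10000 + cC (8771) 10000 * xD + cC (1474) 10000 * xV + cC (-190) 10000 * e

/-- A multiplier above the cut. -/
def tC45K2m : Ex → Ex :=
  fun e => cC (-246) 10000 + cC (2293) 10000 * xD + cC (66) 10000 * xV + cC (79) 10000 * e

/-- A multiplier above the cut. -/
def tC45KapL : Ex → Ex :=
  fun e => cC (2325) 10000 + cC (-4039) 10000 * xD + cC (-88) 10000 * xV + cC (353) 10000 * e

/-- A multiplier above the cut. -/
def tC45KapU : Ex → Ex :=
  fun e => cC (3574) 10000 + cC (-6302) 10000 * xD + cC (-532) 10000 * xV + cC (344) 10000 * e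

/-- Below the cut. -/
def tC45A : Piece :=
  tC45.below tC45Cut

/-- Above the cut. -/
def tC45B : Piece :=
  { tC45.above tC45Cut tC45PU with k2p := tC45K2p, k2m := tC45K2m, kapL := tC45KapL, kapU := tC45KapU }

/-- The least `u`. -/
def tC45Lo : Ex :=
  cC (149) 160

/-- A piece: `1.346 ≤ v < 1.405`. -/
def tC46 : Piece where
  u₀ := cC (39) 40
  u₁ := cC (577) 1000 + cC (510) 1000 * xD + cC (158) 1000 * xV
  tLn := lowTn
  tLd := lowTd
  tUn := evN
  tUd := evD
  p₀ := cC (188191) 10000 + cC (-83399) 10000 * xD + cC (-34760) 10000 * xV + cC (64532) 10000 * (xD * xV) + cC (-18613) 10000 * (xD * xD) + cC (-117755) 10000 * xS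
  zL := cC (-53) 10000 + cC (-2339) 10000 * xD + cC (186) 10000 * xV + cC (-394) 10000 * (xD * xV) + cC (1) 10000 * (xV * xV) + cC (3098) 10000 * (xD * xD) + cC (1073) 10000 * xS
  zU := cC (11112) 10000 + cC (-3808) 10000 * xD + cC (-3751) 10000 * xV + cC (-3827) 10000 * (xD * xV) + cC (561) 10000 * (xV * xV) + cC (-6881) 10000 * (xD * xD) + cC (-4072) 10000 * xS
  k2p := fun e => cC (10725) 10000 + cC (-17184) 10000 * xD + cC (-2365) 10000 * xV + cC (827) 10000 * e
  k2m := fun _ => cC (-1316) 10000 + cC (4180) 10000 * xD + cC (290) 10000 * xV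
  kapL := fun e => cC (2862) 10000 + cC (-5752) 10000 * xD + cC (-120) 10000 * xV + cC (256) 10000 * e
  kapU := fun e => cC (2591) 10000 + cC (-5004) 10000 * xD + cC (-145) 10000 * xV + cC (232) 10000 * e
  eL := ⟨cC (-136892) 10000 + cC (-31048) 10000 * xD + cC (86414) 10000 * xV + cC (-17464) 10000 * (xV * xV) + cC (22865) 10000 * (xD * xV) + cC (280543) 10000 * (xD * xD) + cC (-1014) 10000 * xS,
    cC 0,
    cC 0,
    cC 0,
    cC 0⟩
  eH := ⟨cC (-22600) 10000 + cC (78138) 10000 * xD + cC (8043) 10000 * xV + cC (367) 10000 * (xV * xV) + cC (-19162) 10000 * (xD * xV) + cC (-16494) 10000 * (xD * xD) + cC (-33406) 10000 * xS,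
    cC 0,
    cC 0,
    cC 0,
    cC 0⟩
  pL := ⟨cC (46251) 10000 + cC (277946) 10000 * xD + cC (-411) 10000 * xV + cC (46655) 10000 * (xD * xV) + cC (-4194) 10000 * (xV * xV) + cC (-136139) 10000 * (xD * xD) + cC (-130401) 10000 * xS,
    cC (-15022) 10000 + cC (57501) 10000 * xD + cC (-8605) 10000 * xV,
    cC 0,
    cC 0,
    cC 0⟩
  pU := ⟨cC (978419) 10000 + cC (-2429727) 10000 * xD + cC (-314859) 10000 * xV + cC (519675) 10000 * (xD * xV) + cC (14622) 10000 * (xV * xV) + cC (1766678) 10000 * (xD * xD) + cC (-142189) 10000 * xS,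
    cC (50445) 10000 + cC (-89519) 10000 * xD + cC (-1818) 10000 * xV,
    cC 0,
    cC 0,
    cC 0⟩
  kU := ⟨cC (-17682) 10000 + cC (29906) 10000 * xD + cC (-2577) 10000 * xV + cC (8105) 10000 * (xD * xV) + cC (1540) 10000 * (xV * xV) + cC (-41362) 10000 * (xD * xD) + cC (15387) 10000 * xS,
    cC (-2367) 10000 + cC (13132) 10000 * xD + cC (710) 10000 * xV,
    cC (1088) 10000 + cC (-379) 10000 * xD + cC (-350) 10000 * xV,
    cC 0,
    cC 0⟩
  kL := ⟨cC (-16287) 10000 + cC (48009) 10000 * xD + cC (-1090) 10000 * xV + cC (6387) 10000 * (xD * xV) + cC (-327) 10000 * (xV * xV) + cC (-88265) 10000 * (xD * xD) + cC (15315) 10000 * xS,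
    cC (-944) 10000 + cC (13133) 10000 * xD + cC (-330) 10000 * xV,
    cC (-131) 10000 + cC (1938) 10000 * xD + cC (-18) 10000 * xV,
    cC 0,
    cC 0⟩
  wU := ⟨cC (-59767) 10000 + cC (73257) 10000 * xD + cC (-34791) 10000 * xV + cC (15023) 10000 * (xD * xV) + cC (4236) 10000 * (xV * xV) + cC (-4496) 10000 * (xD * xD) + cC (146449) 10000 * xS,
    cC (-489) 10000 + cC (4087) 10000 * xD + cC (-4893) 10000 * xV,
    cC (-10004) 10000 + cC (-15829) 10000 * xD + cC (-342) 10000 * xV,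
    cC 0,
    cC 0⟩
  wL := ⟨cC (-1494477) 10000 + cC (3959567) 10000 * xD + cC (911377) 10000 * xV + cC (-1244146) 10000 * (xD * xV) + cC (-150939) 10000 * (xV * xV) + cC (-2617030) 10000 * (xD * xD) + cC (149030) 10000 * xS,
    cC (-73322) 10000 + cC (117677) 10000 * xD + cC (20898) 10000 * xV,
    cC (11390) 10000 + cC (-47380) 10000 * xD + cC (-8507) 10000 * xV,
    cC 0,
    cC 0⟩

/-- The cut in `e`. -/
def tC46Cut : Ex :=
  cC (-99269) 10000 + cC (249749) 10000 * xD + cC (37032) 10000 * xV + cC (1989) 10000 * (xV * xV) + cC (-40905) 10000 * (xD * xV) + cC (-100472) 10000 * (xD * xD) + cC (-42500) 10000 * xS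

/-- The bound of `p` above the cut. -/
def tC46PU : Bnd :=
  ⟨cC (274880) 10000 + cC (-30284) 10000 * xD + cC (-43041) 10000 * xV + cC (18288) 10000 * (xD * xV) + cC (5672) 10000 * (xV * xV) + cC (-1722) 10000 * (xD * xD) + cC (-254261) 10000 * xS,
    cC (-18532) 10000 + cC (24177) 10000 * xD + cC (2998) 10000 * xV,
    cC 0,
    cC 0,
    cC 0⟩

/-- A multiplier above the cut. -/
def tC46K2p : Ex → Ex :=
  fun e => cC (-415) 10000 + cC (-4422) 10000 * xD + cC (1144) 10000 * xV + cC (-222) 10000 * e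

/-- A multiplier above the cut. -/
def tC46K2m : Ex → Ex :=
  fun _ => cC (-1316) 10000 + cC (4180) 10000 * xD + cC (290) 10000 * xV

/-- A multiplier above the cut. -/
def tC46KapL : Ex → Ex :=
  fun e => cC (3535) 10000 + cC (-7257) 10000 * xD + cC (-149) 10000 * xV + cC (323) 10000 * e

/-- A multiplier above the cut. -/
def tC46KapU : Ex → Ex :=
  fun e => cC (-657) 10000 + cC (-1387) 10000 * xD + cC (952) 10000 * xV + cC (-45) 10000 * e

/-- Below the cut. -/
def tC46A : Piece :=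
  tC46.below tC46Cut

/-- Above the cut. -/
def tC46B : Piece :=
  { tC46.above tC46Cut tC46PU with k2p := tC46K2p, k2m := tC46K2m, kapL := tC46KapL, kapU := tC46KapU }

/-- The least `u`. -/
def tC46Lo : Ex :=
  cC (149) 160

/-- A piece: `1.405 ≤ v < 1.436`. -/
def tC47 : Piece where
  u₀ := cC (39) 40
  u₁ := cC (607) 1000 + cC (504) 1000 * xD + cC (138) 1000 * xV
  tLn := lowTn
  tLd := lowTd
  tUn := evN
  tUd := evD
  p₀ := cC (188876) 10000 + cC (-82112) 10000 * xD + cC (-34744) 10000 * xV + cC (64479) 10000 * (xD * xV) + cC (-21177) 10000 * (xD * xD) + cC (-118999) 10000 * xS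
  zL := cC (-47271) 10000 + cC (60027) 10000 * xD + cC (52827) 10000 * xV + cC (-35135) 10000 * (xD * xV) + cC (-14674) 10000 * (xV * xV) + cC (-17553) 10000 * (xD * xD) + cC (1077) 10000 * xS
  zU := cC (61543) 10000 + cC (-73689) 10000 * xD + cC (-59260) 10000 * xV + cC (33766) 10000 * (xD * xV) + cC (15995) 10000 * (xV * xV) + cC (19249) 10000 * (xD * xD) + cC (-4254) 10000 * xS
  k2p := fun e => cC (9738) 10000 + cC (-17103) 10000 * xD + cC (-1641) 10000 * xV + cC (844) 10000 * e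
  k2m := fun _ => cC (-1349) 10000 + cC (4276) 10000 * xD + cC (292) 10000 * xV
  kapL := fun e => cC (3020) 10000 + cC (-6440) 10000 * xD + cC (6) 10000 * xV + cC (311) 10000 * e
  kapU := fun e => cC (-5316) 10000 + cC (4832) 10000 * xD + cC (2384) 10000 * xV + cC (-330) 10000 * e
  eL := ⟨cC (-536603) 10000 + cC (597007) 10000 * xD + cC (504200) 10000 * xV + cC (-132109) 10000 * (xV * xV) + cC (-277792) 10000 * (xD * xV) + cC (-35119) 10000 * (xD * xD) + cC (7299) 10000 * xS,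
    cC 0,
    cC 0,
    cC 0,
    cC 0⟩
  eH := ⟨cC (-22363) 10000 + cC (79253) 10000 * xD + cC (7052) 10000 * xV + cC (704) 10000 * (xV * xV) + cC (-19160) 10000 * (xD * xV) + cC (-18286) 10000 * (xD * xD) + cC (-32939) 10000 * xS,
    cC 0,
    cC 0,
    cC 0,
    cC (3713) 10000 + cC (-12021) 10000 * xD + cC (-86908) 10000 * xV + cC (281619) 10000 * (xD * xV)⟩
  pL := ⟨cC (-1252634) 10000 + cC (2646742) 10000 * xD + cC (1264419) 10000 * xV + cC (-1034605) 10000 * (xD * xV) + cC (-322933) 10000 * (xV * xV) + cC (-1337661) 10000 * (xD * xD) + cC (-126964) 10000 * xS,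
    cC (-37424) 10000 + cC (92625) 10000 * xD + cC (-606) 10000 * xV,
    cC 0,
    cC 0,
    cC 0⟩
  pU := ⟨cC (894353) 10000 + cC (-2207323) 10000 * xD + cC (-255124) 10000 * xV + cC (431614) 10000 * (xD * xV) + cC (8155) 10000 * (xV * xV) + cC (1623312) 10000 * (xD * xD) + cC (-148708) 10000 * xS,
    cC (46794) 10000 + cC (-87884) 10000 * xD + cC (283) 10000 * xV,
    cC 0,
    cC 0,
    cC 0⟩
  kU := ⟨cC (12) 10000 + cC (43794) 10000 * xD + cC (-36123) 10000 * xV + cC (7865) 10000 * (xD * xV) + cC (14933) 10000 * (xV * xV) + cC (-58527) 10000 * (xD * xD) + cC (15507) 10000 * xS,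
    cC (-7858) 10000 + cC (16204) 10000 * xD + cC (3850) 10000 * xV,
    cC (689) 10000 + cC (64) 10000 * xD + cC (-150) 10000 * xV,
    cC 0,
    cC 0⟩
  kL := ⟨cC (-17306) 10000 + cC (48842) 10000 * xD + cC (-413) 10000 * xV + cC (6294) 10000 * (xD * xV) + cC (-68) 10000 * (xV * xV) + cC (-93741) 10000 * (xD * xD) + cC (15145) 10000 * xS,
    cC (-872) 10000 + cC (13778) 10000 * xD + cC (-525) 10000 * xV,
    cC (53) 10000 + cC (2530) 10000 * xD + cC (-282) 10000 * xV,
    cC 0,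
    cC 0⟩
  wU := ⟨cC (-107102) 10000 + cC (22540) 10000 * xD + cC (-36972) 10000 * xV + cC (87013) 10000 * (xD * xV) + cC (19564) 10000 * (xV * xV) + cC (33487) 10000 * (xD * xD) + cC (144311) 10000 * xS,
    cC (2974) 10000 + cC (-648) 10000 * xD + cC (-6252) 10000 * xV,
    cC (9101) 10000 + cC (-29106) 10000 * xD + cC (-10737) 10000 * xV,
    cC 0,
    cC 0⟩
  wL := ⟨cC (-2685865) 10000 + cC (5400023) 10000 * xD + cC (2011346) 10000 * xV + cC (-2003604) 10000 * (xD * xV) + cC (-384985) 10000 * (xV * xV) + cC (-2852267) 10000 * (xD * xD) + cC (153795) 10000 * xS,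
    cC (-124825) 10000 + cC (142015) 10000 * xD + cC (50738) 10000 * xV,
    cC (44406) 10000 + cC (-66228) 10000 * xD + cC (-27108) 10000 * xV,
    cC 0,
    cC 0⟩

/-- The cut in `e`. -/
def tC47Cut : Ex :=
  cC (-81476) 10000 + cC (209130) 10000 * xD + cC (22173) 10000 * xV + cC (4765) 10000 * (xV * xV) + cC (-29705) 10000 * (xD * xV) + cC (-62635) 10000 * (xD * xD) + cC (-39967) 10000 * xS

/-- The bound of `p` above the cut. -/
def tC47PU : Bnd :=
  ⟨cC (267685) 10000 + cC (2776) 10000 * xD + cC (-43717) 10000 * xV + cC (11963) 10000 * (xD * xV) + cC (6862) 10000 * (xV * xV) + cC (-33245) 10000 * (xD * xD) + cC (-252400) 10000 * xS,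
    cC (-19696) 10000 + cC (26089) 10000 * xD + cC (3376) 10000 * xV,
    cC 0,
    cC 0,
    cC (6407650) 10000 + cC (-20763600) 10000 * xD + cC (-4692684) 10000 * xV + cC (15206363) 10000 * (xD * xV)⟩

/-- A multiplier above the cut. -/
def tC47K2p : Ex → Ex :=
  fun e => cC (32) 10000 + cC (-5201) 10000 * xD + cC (1152) 10000 * xV + cC (-112) 10000 * e

/-- A multiplier above the cut. -/
def tC47K2m : Ex → Ex :=
  fun _ => cC (-1349) 10000 + cC (4276) 10000 * xD + cC (292) 10000 * xV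

/-- A multiplier above the cut. -/
def tC47KapL : Ex → Ex :=
  fun e => cC (3763) 10000 + cC (-7427) 10000 * xD + cC (-191) 10000 * xV + cC (384) 10000 * e

/-- A multiplier above the cut. -/
def tC47KapU : Ex → Ex :=
  fun e => cC (1271) 10000 + cC (-3889) 10000 * xD + cC (626) 10000 * xV + cC (315) 10000 * e

/-- Below the cut. -/
def tC47A : Piece :=
  tC47.below tC47Cut

/-- Above the cut. -/
def tC47B : Piece :=
  { tC47.above tC47Cut tC47PU with k2p := tC47K2p, k2m := tC47K2m, kapL := tC47KapL, kapU := tC47KapU }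

/-- The least `u`. -/
def tC47Lo : Ex :=
  cC (149) 160

/-- A piece: `1.436 ≤ v < 1.446`. -/
def tC48 : Piece where
  u₀ := cC (39) 40
  u₁ := cC (650) 1000 + cC (474) 1000 * xD + cC (115) 1000 * xV
  tLn := lowTn
  tLd := lowTd
  tUn := evN
  tUd := evD
  p₀ := cC (191559) 10000 + cC (-92814) 10000 * xD + cC (-34755) 10000 * xV + cC (64516) 10000 * (xD * xV) + cC (-5146) 10000 * (xD * xD) + cC (-120348) 10000 * xS
  zL := cC (-61840) 10000 + cC (224328) 10000 * xD + cC (36192) 10000 * xV + cC (-114250) 10000 * (xD * xV) + cC (-95910) 10000 * (xD * xD) + cC (1086) 10000 * xS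
  zU := cC (65391) 10000 + cC (-212836) 10000 * xD + cC (-33552) 10000 * xV + cC (96847) 10000 * (xD * xV) + cC (94817) 10000 * (xD * xD) + cC (-4239) 10000 * xS
  k2p := fun e => cC (5606) 10000 + cC (-15171) 10000 * xD + cC (687) 10000 * xV + cC (770) 10000 * e
  k2m := fun _ => cC (-1460) 10000 + cC (4276) 10000 * xD + cC (369) 10000 * xV
  kapL := fun e => cC (4188) 10000 + cC (-6144) 10000 * xD + cC (-819) 10000 * xV + cC (347) 10000 * e
  kapU := fun e => cC (-5246) 10000 + cC (4260) 10000 * xD + cC (2478) 10000 * xV + cC (-321) 10000 * e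
  eL := ⟨cC (-607289) 10000 + cC (1884456) 10000 * xD + cC (316791) 10000 * xV + cC (-884214) 10000 * (xD * xV) + cC (-686121) 10000 * (xD * xD) + cC (8558) 10000 * xS,
    cC 0,
    cC 0,
    cC 0,
    cC 0⟩
  eH := ⟨cC (-23630) 10000 + cC (78291) 10000 * xD + cC (8825) 10000 * xV + cC (-18462) 10000 * (xD * xV) + cC (-18372) 10000 * (xD * xD) + cC (-32691) 10000 * xS,
    cC 0,
    cC 0,
    cC 0,
    cC (-135540) 10000 + cC (439217) 10000 * xD + cC (-1728) 10000 * xV + cC (5600) 10000 * (xD * xV)⟩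
  pL := ⟨cC (-1591071) 10000 + cC (6542976) 10000 * xD + cC (855616) 10000 * xV + cC (-2666288) 10000 * (xD * xV) + cC (-3653655) 10000 * (xD * xD) + cC (-127395) 10000 * xS,
    cC (-40281) 10000 + cC (120973) 10000 * xD + cC (-4986) 10000 * xV,
    cC 0,
    cC 0,
    cC 0⟩
  pU := ⟨cC (751294) 10000 + cC (-1705883) 10000 * xD + cC (-185199) 10000 * xV + cC (315460) 10000 * (xD * xV) + cC (1187218) 10000 * (xD * xD) + cC (-153116) 10000 * xS,
    cC (39999) 10000 + cC (-65805) 10000 * xD + cC (160) 10000 * xV,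
    cC 0,
    cC 0,
    cC 0⟩
  kU := ⟨cC (-67187) 10000 + cC (112325) 10000 * xD + cC (25838) 10000 * xV + cC (-13101) 10000 * (xD * xV) + cC (-95054) 10000 * (xD * xD) + cC (15617) 10000 * xS,
    cC (-20723) 10000 + cC (22759) 10000 * xD + cC (11262) 10000 * xV,
    cC (644) 10000 + cC (-394) 10000 * xD,
    cC 0,
    cC 0⟩
  kL := ⟨cC (-15219) 10000 + cC (35583) 10000 * xD + cC (-1068) 10000 * xV + cC (3386) 10000 * (xD * xV) + cC (-53798) 10000 * (xD * xD) + cC (15273) 10000 * xS,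
    cC (-531) 10000 + cC (11760) 10000 * xD + cC (-295) 10000 * xV,
    cC (302) 10000 + cC (569) 10000 * xD,
    cC 0,
    cC 0⟩
  wU := ⟨cC (-59860) 10000 + cC (-113553) 10000 * xD + cC (-34614) 10000 * xV + cC (51476) 10000 * (xD * xV) + cC (447831) 10000 * (xD * xD) + cC (151648) 10000 * xS,
    cC (6570) 10000 + cC (-22401) 10000 * xD + cC (-3733) 10000 * xV,
    cC (343) 10000 + cC (-48584) 10000 * xD,
    cC 0,
    cC 0⟩
  wL := ⟨cC (-2163701) 10000 + cC (7156508) 10000 * xD + cC (912285) 10000 * xV + cC (-2411676) 10000 * (xD * xV) + cC (-4029657) 10000 * (xD * xD) + cC (155624) 10000 * xS,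
    cC (-179439) 10000 + cC (209914) 10000 * xD + cC (72393) 10000 * xV,
    cC (17957) 10000 + cC (-103562) 10000 * xD,
    cC 0,
    cC 0⟩

/-- The cut in `e`. -/
def tC48Cut : Ex :=
  cC (-75821) 10000 + cC (188414) 10000 * xD + cC (22543) 10000 * xV + cC (2821) 10000 * (xV * xV) + cC (-25541) 10000 * (xD * xV) + cC (-47368) 10000 * (xD * xD) + cC (-38410) 10000 * xS

/-- The bound of `p` above the cut. -/
def tC48PU : Bnd :=
  ⟨cC (247627) 10000 + cC (36160) 10000 * xD + cC (-23135) 10000 * xV + cC (9894) 10000 * (xD * xV) + cC (-82720) 10000 * (xD * xD) + cC (-252529) 10000 * xS,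
    cC (-19596) 10000 + cC (25224) 10000 * xD + cC (3472) 10000 * xV,
    cC 0,
    cC 0,
    cC (-49470520) 10000 + cC (149902467) 10000 * xD + cC (34217062) 10000 * xV + cC (-103633356) 10000 * (xD * xV)⟩

/-- A multiplier above the cut. -/
def tC48K2p : Ex → Ex :=
  fun e => cC (1014) 10000 + cC (-3448) 10000 * xD + cC (88) 10000 * xV + cC (-106) 10000 * e

/-- A multiplier above the cut. -/
def tC48K2m : Ex → Ex :=
  fun _ => cC (-1460) 10000 + cC (4276) 10000 * xD + cC (369) 10000 * xV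

/-- A multiplier above the cut. -/
def tC48KapL : Ex → Ex :=
  fun e => cC (4382) 10000 + cC (-7034) 10000 * xD + cC (-675) 10000 * xV + cC (407) 10000 * e

/-- A multiplier above the cut. -/
def tC48KapU : Ex → Ex :=
  fun e => cC (1573) 10000 + cC (-3993) 10000 * xD + cC (460) 10000 * xV + cC (328) 10000 * e

/-- Below the cut. -/
def tC48A : Piece :=
  tC48.below tC48Cut

/-- Above the cut. -/
def tC48B : Piece :=
  { tC48.above tC48Cut tC48PU with k2p := tC48K2p, k2m := tC48K2m, kapL := tC48KapL, kapU := tC48KapU }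

/-- The least `u`. -/
def tC48Lo : Ex :=
  cC (149) 160

/-- The upper end of `u`. -/
def tC49Hi : Ex :=
  cC (61) 64

/-- The least `u`. -/
def tC49Lo : Ex :=
  cC (149) 160

/-- A piece: `1.446 ≤ v < 1.467`. -/
def tC50 : Piece where
  u₀ := cC (39) 40
  u₁ := cC (634) 1000 + cC (472) 1000 * xD + cC (126) 1000 * xV
  tLn := lowTn
  tLd := lowTd
  tUn := evN
  tUd := evD
  p₀ := cC (141531) 10000 + cC (136577) 10000 * xD + cC (-14478) 10000 * xV + cC (-222508) 10000 * (xD * xD) + cC (-121240) 10000 * xS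
  zL := cC (-87) 10000 + cC (-1782) 10000 * xD + cC (68) 10000 * xV + cC (1276) 10000 * (xD * xD) + cC (1122) 10000 * xS
  zU := cC (13297) 10000 + cC (-22433) 10000 * xD + cC (-3022) 10000 * xV + cC (14581) 10000 * (xD * xD) + cC (-4163) 10000 * xS
  k2p := fun e => cC (-456) 10000 + cC (-2571) 10000 * xD + cC (857) 10000 * xV + cC (-147) 10000 * e
  k2m := fun _ => cC (-1297) 10000 + cC (4015) 10000 * xD + cC (312) 10000 * xV
  kapL := fun e => cC (2749) 10000 + cC (-6125) 10000 * xD + cC (57) 10000 * xV + cC (360) 10000 * e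
  kapU := fun e => cC (-17) 10000 + cC (-3122) 10000 * xD + cC (1122) 10000 * xV + cC (245) 10000 * e
  eL := ⟨cC (-140676) 10000 + cC (210312) 10000 * xD + cC (38320) 10000 * xV + cC (-58599) 10000 * (xD * xD) + cC (5987) 10000 * xS,
    cC 0,
    cC 0,
    cC 0,
    cC 0⟩
  eH := ⟨cC (-12321) 10000 + cC (31515) 10000 * xD + cC (3098) 10000 * xV + cC (13441) 10000 * (xD * xD) + cC (-32476) 10000 * xS,
    cC 0,
    cC 0,
    cC 0,
    cC 0⟩
  pL := ⟨cC (-1061) 10000 + cC (587657) 10000 * xD + cC (-457) 10000 * xV + cC (-537913) 10000 * (xD * xD) + cC (-129262) 10000 * xS,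
    cC (-7788) 10000 + cC (46189) 10000 * xD + cC (-11675) 10000 * xV,
    cC 0,
    cC 0,
    cC 0⟩
  pU := ⟨cC (242780) 10000 + cC (12651) 10000 * xD + cC (-15025) 10000 * xV + cC (159) 10000 * (xD * xD) + cC (-256854) 10000 * xS,
    cC (-25780) 10000 + cC (33349) 10000 * xD + cC (6087) 10000 * xV,
    cC 0,
    cC 0,
    cC 0⟩
  kU := ⟨cC (-1053) 10000 + cC (-127546) 10000 * xD + cC (1986) 10000 * xV + cC (292448) 10000 * (xD * xD) + cC (15313) 10000 * xS,
    cC (-7773) 10000 + cC (29946) 10000 * xD + cC (775) 10000 * xV,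
    cC (978) 10000 + cC (-1572) 10000 * xD + cC (4) 10000 * xV,
    cC 0,
    cC 0⟩
  kL := ⟨cC (-29940) 10000 + cC (125000) 10000 * xD + cC (2560) 10000 * xV + cC (-220713) 10000 * (xD * xD) + cC (14591) 10000 * xS,
    cC (-1825) 10000 + cC (19470) 10000 * xD + cC (-1092) 10000 * xV,
    cC (-582) 10000 + cC (6217) 10000 * xD + cC (-637) 10000 * xV,
    cC 0,
    cC 0⟩
  wU := ⟨cC (-397074) 10000 + cC (-759069) 10000 * xD + cC (171139) 10000 * xV + cC (3163862) 10000 * (xD * xD) + cC (149387) 10000 * xS,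
    cC (-61704) 10000 + cC (83423) 10000 * xD + cC (19869) 10000 * xV,
    cC (69707) 10000 + cC (-167212) 10000 * xD + cC (-22457) 10000 * xV,
    cC 0,
    cC 0⟩
  wL := ⟨cC (-2731657) 10000 + cC (14660794) 10000 * xD + cC (-33655) 10000 * xV + cC (-19298577) 10000 * (xD * xD) + cC (154775) 10000 * xS,
    cC (-177621) 10000 + cC (776816) 10000 * xD + cC (-49825) 10000 * xV,
    cC (49240) 10000 + cC (-156857) 10000 * xD + cC (-10418) 10000 * xV,
    cC 0,
    cC 0⟩

/-- The least `u`. -/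
def tC50Lo : Ex :=
  cC (61) 64

/-- A piece: `1.446 ≤ v < 1.467`. -/
def tC51 : Piece where
  u₀ := cC (39) 40
  u₁ := cC (631) 1000 + cC (489) 1000 * xD + cC (125) 1000 * xV
  tLn := lowTn
  tLd := lowTd
  tUn := evN
  tUd := evD
  p₀ := cC (141990) 10000 + cC (125544) 10000 * xD + cC (-14142) 10000 * xV + cC (-200888) 10000 * (xD * xD) + cC (-120668) 10000 * xS
  zL := cC (-89) 10000 + cC (-1650) 10000 * xD + cC (65) 10000 * xV + cC (1103) 10000 * (xD * xD) + cC (1096) 10000 * xS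
  zU := cC (32650) 10000 + cC (-143830) 10000 * xD + cC (-3028) 10000 * xV + cC (205634) 10000 * (xD * xD) + cC (-4237) 10000 * xS
  k2p := fun e => cC (7805) 10000 + cC (-13548) 10000 * xD + cC (-1271) 10000 * xV + cC (723) 10000 * e
  k2m := fun _ => cC (-1377) 10000 + cC (4270) 10000 * xD + cC (312) 10000 * xV
  kapL := fun e => cC (3200) 10000 + cC (-6200) 10000 * xD + cC (-144) 10000 * xV + cC (333) 10000 * e
  kapU := fun e => cC (-3971) 10000 + cC (3057) 10000 * xD + cC (2010) 10000 * xV + cC (-214) 10000 * e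
  eL := ⟨cC (-224261) 10000 + cC (722423) 10000 * xD + cC (38233) 10000 * xV + cC (-858895) 10000 * (xD * xD) + cC (8748) 10000 * xS,
    cC 0,
    cC 0,
    cC 0,
    cC 0⟩
  eH := ⟨cC (-11472) 10000 + cC (26597) 10000 * xD + cC (2962) 10000 * xV + cC (20651) 10000 * (xD * xD) + cC (-32207) 10000 * xS,
    cC 0,
    cC 0,
    cC 0,
    cC 0⟩
  pL := ⟨cC (-687445) 10000 + cC (4371548) 10000 * xD + cC (2505) 10000 * xV + cC (-5669894) 10000 * (xD * xD) + cC (-127955) 10000 * xS,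
    cC (-100645) 10000 + cC (331142) 10000 * xD + cC (-9001) 10000 * xV,
    cC 0,
    cC 0,
    cC 0⟩
  pU := ⟨cC (437169) 10000 + cC (-392809) 10000 * xD + cC (-77726) 10000 * xV + cC (94942) 10000 * (xD * xD) + cC (-158367) 10000 * xS,
    cC (4432) 10000 + cC (18996) 10000 * xD + cC (6081) 10000 * xV,
    cC 0,
    cC 0,
    cC 0⟩
  kU := ⟨cC (-58326) 10000 + cC (99477) 10000 * xD + cC (13985) 10000 * xV + cC (-34908) 10000 * (xD * xD) + cC (15663) 10000 * xS,
    cC (-17993) 10000 + cC (37601) 10000 * xD + cC (6051) 10000 * xV,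
    cC (1956) 10000 + cC (-3014) 10000 * xD + cC (-324) 10000 * xV,
    cC 0,
    cC 0⟩
  kL := ⟨cC (-46956) 10000 + cC (157422) 10000 * xD + cC (9879) 10000 * xV + cC (-255707) 10000 * (xD * xD) + cC (14391) 10000 * xS,
    cC (-837) 10000 + cC (20402) 10000 * xD + cC (-2031) 10000 * xV,
    cC (1704) 10000 + cC (5210) 10000 * xD + cC (-2034) 10000 * xV,
    cC 0,
    cC 0⟩
  wU := ⟨cC (139506) 10000 + cC (-2350122) 10000 * xD + cC (-34427) 10000 * xV + cC (5728811) 10000 * (xD * xD) + cC (153282) 10000 * xS,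
    cC (42994) 10000 + cC (-158156) 10000 * xD + cC (944) 10000 * xV,
    cC (59836) 10000 + cC (-253368) 10000 * xD + cC (3910) 10000 * xV,
    cC 0,
    cC 0⟩
  wL := ⟨cC (-2839984) 10000 + cC (15853609) 10000 * xD + cC (-188690) 10000 * xV + cC (-19911682) 10000 * (xD * xD) + cC (158006) 10000 * xS,
    cC (-158098) 10000 + cC (703649) 10000 * xD + cC (-50536) 10000 * xV,
    cC (53933) 10000 + cC (-278462) 10000 * xD + cC (13507) 10000 * xV,
    cC 0,
    cC 0⟩

/-- The cut in `e`. -/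
def tC51Cut : Ex :=
  cC (-64478) 10000 + cC (85966) 10000 * xD + cC (24513) 10000 * xV + cC (-933) 10000 * (xV * xV) + cC (7856) 10000 * (xD * xV) + cC (40358) 10000 * (xD * xD) + cC (-35348) 10000 * xS

/-- The bound of `p` above the cut. -/
def tC51PU : Bnd :=
  ⟨cC (242814) 10000 + cC (113) 10000 * xD + cC (-17012) 10000 * xV + cC (16979) 10000 * (xD * xD) + cC (-249753) 10000 * xS,
    cC (-23990) 10000 + cC (32039) 10000 * xD + cC (5002) 10000 * xV,
    cC 0,
    cC 0,
    cC (-1569833) 10000 + cC (1085640) 10000 * xV⟩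

/-- A multiplier above the cut. -/
def tC51K2p : Ex → Ex :=
  fun e => cC (7900) 10000 + cC (-13651) 10000 * xD + cC (-1299) 10000 * xV + cC (734) 10000 * e

/-- A multiplier above the cut. -/
def tC51K2m : Ex → Ex :=
  fun _ => cC (-1384) 10000 + cC (4207) 10000 * xD + cC (330) 10000 * xV

/-- A multiplier above the cut. -/
def tC51KapL : Ex → Ex :=
  fun e => cC (3541) 10000 + cC (-7303) 10000 * xD + cC (-101) 10000 * xV + cC (358) 10000 * e

/-- A multiplier above the cut. -/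
def tC51KapU : Ex → Ex :=
  fun e => cC (1321) 10000 + cC (-4143) 10000 * xD + cC (679) 10000 * xV + cC (334) 10000 * e

/-- Below the cut. -/
def tC51A : Piece :=
  tC51.below tC51Cut

/-- Above the cut. -/
def tC51B : Piece :=
  { tC51.above tC51Cut tC51PU with k2p := tC51K2p, k2m := tC51K2m, kapL := tC51KapL, kapU := tC51KapU }

/-- The least `u`. -/
def tC51Lo : Ex :=
  cC (61) 64

/-- A piece: `1.446 ≤ v < 1.456`. -/
def tC52 : Piece where
  u₀ := cC (39) 40
  u₁ := cC (684) 1000 + cC (516) 1000 * xD + cC (82) 1000 * xV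
  tLn := lowTn
  tLd := lowTd
  tUn := evN
  tUd := evD
  p₀ := cC (160564) 10000 + cC (-2375) 10000 * xD + cC (-13498) 10000 * xV + cC (-119390) 10000 * xS
  zL := cC (4457) 10000 + cC (-7822) 10000 * xD + cC (-1582) 10000 * xV + cC (1055) 10000 * xS
  zU := cC (5005) 10000 + cC (-7589) 10000 * xD + cC (-896) 10000 * xV + cC (-1268) 10000 * xS
  k2p := fun e => cC (23485) 10000 + cC (-41797) 10000 * xD + cC (-2812) 10000 * xV + cC (2970) 10000 * e
  k2m := fun _ => cC (-1540) 10000 + cC (4556) 10000 * xD + cC (360) 10000 * xV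
  kapL := fun e => cC (841) 10000 + cC (-4179) 10000 * xD + cC (1024) 10000 * xV + cC (333) 10000 * e
  kapU := fun e => cC (908) 10000 + cC (-4353) 10000 * xD + cC (994) 10000 * xV + cC (322) 10000 * e
  eL := ⟨cC (-78051) 10000 + cC (132818) 10000 * xD + cC (16730) 10000 * xV + cC (-12360) 10000 * xS,
    cC 0,
    cC 0,
    cC 0,
    cC 0⟩
  eH := ⟨cC (-13403) 10000 + cC (39522) 10000 * xD + cC (2726) 10000 * xV + cC (-31835) 10000 * xS,
    cC 0,
    cC 0,
    cC 0,
    cC (6552) 10000 + cC (11601) 10000 * xD + cC (-478) 10000 * xV⟩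
  pL := ⟨cC (146588) 10000 + cC (68896) 10000 * xD + cC (-24233) 10000 * xV + cC (-124988) 10000 * xS,
    cC (-20340) 10000 + cC (39540) 10000 * xD,
    cC 0,
    cC 0,
    cC 0⟩
  pU := ⟨cC (252108) 10000 + cC (7748) 10000 * xD + cC (-25946) 10000 * xV + cC (-245677) 10000 * xS,
    cC (-16466) 10000 + cC (30788) 10000 * xD,
    cC 0,
    cC 0,
    cC (46629) 10000 + cC (-27239) 10000 * xD + cC (-9699) 10000 * xV⟩
  kU := ⟨cC (-40710) 10000 + cC (131125) 10000 * xD + cC (-689) 10000 * xV + cC (2949) 10000 * xS,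
    cC (-24350) 10000 + cC (81709) 10000 * xD,
    cC 0,
    cC 0,
    cC (29402) 10000 + cC (-79513) 10000 * xD + cC (-1384) 10000 * xV⟩
  kL := ⟨cC (-11780) 10000 + cC (5366) 10000 * xD + cC (555) 10000 * xV + cC (15225) 10000 * xS,
    cC (-343) 10000 + cC (9876) 10000 * xD,
    cC (484) 10000,
    cC 0,
    cC 0⟩
  wU := ⟨cC (-57483) 10000 + cC (-8099) 10000 * xD + cC (-10732) 10000 * xV + cC (153243) 10000 * xS,
    cC (-7600) 10000 + cC (4043) 10000 * xD,
    cC (-15616) 10000,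
    cC 0,
    cC (-2227) 10000 + cC (6815) 10000 * xD⟩
  wL := ⟨cC (-520477) 10000 + cC (191399) 10000 * xD + cC (30153) 10000 * xV + cC (535058) 10000 * xS,
    cC (-19660) 10000 + cC (70329) 10000 * xD,
    cC 0,
    cC 0,
    cC (-18203) 10000 + cC (174098) 10000 * xD + cC (-1626) 10000 * xV⟩

/-- The least `u`. -/
def tC52Lo : Ex :=
  cC (61) 64

/-- A piece: `1.456 ≤ v < 1.467`. -/
def tC53 : Piece where
  u₀ := cC (39) 40
  u₁ := cC (850) 1000 + cC (376) 1000 * xD + cC (0) 1000 * xV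
  tLn := lowTn
  tLd := lowTd
  tUn := upCn
  tUd := upCd
  p₀ := cC (160991) 10000 + cC (-2362) 10000 * xD + cC (-13661) 10000 * xV + cC (-119681) 10000 * xS
  zL := cC (7813) 10000 + cC (-6903) 10000 * xD + cC (-1919) 10000 * xV + cC (-4408) 10000 * xS
  zU := cC (10168) 10000 + cC (-12781) 10000 * xD + cC (-1871) 10000 * xV + cC (-4402) 10000 * xS
  k2p := fun e => cC (-18594) 10000 + cC (16930) 10000 * xD + cC (10267) 10000 * xV + cC (525) 10000 * e
  k2m := fun e => cC (-3774) 10000 + cC (8192) 10000 * xD + cC (1198) 10000 * xV + cC (20) 10000 * e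
  kapL := fun _ => cC (2) 10000
  kapU := fun _ => cC (2) 10000
  eL := ⟨cC (2038709) 10000 + cC (-1842101) 10000 * xD + cC (-428284) 10000 * xV + cC (-1248048) 10000 * xS,
    cC 0,
    cC 0,
    cC 0,
    cC 0⟩
  eH := ⟨cC (2038871) 10000 + cC (-1842101) 10000 * xD + cC (-428284) 10000 * xV + cC (-1248048) 10000 * xS,
    cC 0,
    cC 0,
    cC 0,
    cC (250000) 10000⟩
  pL := ⟨cC (-1203134) 10000 + cC (1230674) 10000 * xD + cC (273017) 10000 * xV + cC (715717) 10000 * xS,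
    cC (6694) 10000,
    cC 0,
    cC 0,
    cC (-5542150) 10000 + cC (7558347) 10000 * xD + cC (2149715) 10000 * xV⟩
  pU := ⟨cC (-1164180) 10000 + cC (1195881) 10000 * xD + cC (264928) 10000 * xV + cC (692144) 10000 * xS,
    cC (6505) 10000,
    cC 0,
    cC 0,
    cC (26700687) 10000 + cC (-78401300) 10000 * xD + cC (-547927) 10000 * xV⟩
  kU := ⟨cC (-1135) 10000,
    cC 0,
    cC 0,
    cC 0,
    cC (586268) 10000 + cC (-1604867) 10000 * xD + cC (-35359) 10000 * xV⟩
  kL := ⟨cC (48655) 10000 + cC (-43213) 10000 * xD + cC (-10047) 10000 * xV + cC (-29277) 10000 * xS,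
    cC (-235) 10000,
    cC 0,
    cC 0,
    cC (24293072) 10000 + cC (-63872609) 10000 * xD + cC (-2159310) 10000 * xV⟩
  wU := ⟨cC (-17322725) 10000 + cC (15580170) 10000 * xD + cC (3622352) 10000 * xV + cC (10555773) 10000 * xS,
    cC (84578) 10000,
    cC 0,
    cC 0,
    cC (26637099) 10000 + cC (-80645161) 10000 * xD⟩
  wL := ⟨cC (-62918) 10000,
    cC 0,
    cC 0,
    cC 0,
    cC (4494863) 10000 + cC (-11853759) 10000 * xD + cC (-372516) 10000 * xV⟩

/-- The cut in `e`. -/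
def tC53Cut : Ex :=
  cC (2038712) 10000 + cC (-1842101) 10000 * xD + cC (-428284) 10000 * xV + cC (-1248048) 10000 * xS

/-- The bound of `p` above the cut. -/
def tC53PU : Bnd :=
  ⟨cC (-1202722) 10000 + cC (1230674) 10000 * xD + cC (273017) 10000 * xV + cC (715717) 10000 * xS,
    cC (6694) 10000,
    cC 0,
    cC 0,
    cC (26763785) 10000 + cC (-78528494) 10000 * xD + cC (-562680) 10000 * xV⟩

/-- A multiplier above the cut. -/
def tC53K2p : Ex → Ex :=
  fun e => cC (-19215) 10000 + cC (18648) 10000 * xD + cC (10295) 10000 * xV + cC (510) 10000 * e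

/-- A multiplier above the cut. -/
def tC53K2m : Ex → Ex :=
  fun e => cC (-3774) 10000 + cC (8192) 10000 * xD + cC (1198) 10000 * xV + cC (20) 10000 * e

/-- A multiplier above the cut. -/
def tC53KapL : Ex → Ex :=
  fun _ => cC (2) 10000

/-- A multiplier above the cut. -/
def tC53KapU : Ex → Ex :=
  fun _ => cC (2) 10000

/-- Below the cut. -/
def tC53A : Piece :=
  tC53.below tC53Cut

/-- Above the cut. -/
def tC53B : Piece :=
  { tC53.above tC53Cut tC53PU with k2p := tC53K2p, k2m := tC53K2m, kapL := tC53KapL, kapU := tC53KapU }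

/-- The least `u`. -/
def tC53Lo : Ex :=
  cC (61) 64

/-- A piece: `1.446 ≤ v < 1.467`. -/
def tC54 : Piece where
  u₀ := cC (39) 40
  u₁ := cC (918) 1000 + cC (0) 1000 * xD + cC (38) 1000 * xV
  tLn := lowTn
  tLd := lowTd
  tUn := upCn
  tUd := upCd
  p₀ := cC (160731) 10000 + cC (-2882) 10000 * xD + cC (-13495) 10000 * xV + cC (-119397) 10000 * xS
  zL := cC 0
  zU := cC 0
  k2p := fun _ => cC 0
  k2m := fun _ => cC 0
  kapL := fun _ => cC 0
  kapU := fun _ => cC 0
  eL := ⟨cC 0, cC 0, cC 0, cC 0, cC 0⟩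
  eH := ⟨cC 0, cC 0, cC 0, cC 0, cC 0⟩
  pL := ⟨cC 0, cC 0, cC 0, cC 0, cC 0⟩
  pU := ⟨cC 0,
    cC 0,
    cC 0,
    cC 0,
    cC (104653928) 10000 + cC (-315274899) 10000 * xD + cC (-71885247) 10000 * xV + cC (216571291) 10000 * (xD * xV)⟩
  kU := ⟨cC 0, cC 0, cC 0, cC 0, cC 0⟩
  kL := ⟨cC 0, cC 0, cC 0, cC 0, cC 0⟩
  wU := ⟨cC 0, cC 0, cC 0, cC 0, cC 0⟩
  wL := ⟨cC 0, cC 0, cC 0, cC 0, cC 0⟩

/-- The least `u`. -/
def tC54Lo : Ex :=
  cC (61) 64

/-- The upper end of `u`. -/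
def tC55Hi : Ex :=
  cC (61) 64

/-- The least `u`. -/
def tC55Lo : Ex :=
  cC (149) 160

/-- A piece: `1.467 ≤ v < 1.488`. -/
def tC56 : Piece where
  u₀ := cC (39) 40
  u₁ := cC (750) 1000 + cC (150) 1000 * xD + cC (118) 1000 * xV
  tLn := lowTn
  tLd := lowTd
  tUn := evN
  tUd := evD
  p₀ := cC (162050) 10000 + cC (-1794) 10000 * xD + cC (-13999) 10000 * xV + cC (-120805) 10000 * xS
  zL := cC (4287) 10000 + cC (-6185) 10000 * xD + cC (-1845) 10000 * xV + cC (1088) 10000 * xS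
  zU := cC (5487) 10000 + cC (-3790) 10000 * xD + cC (-1353) 10000 * xV + cC (-2829) 10000 * xS
  k2p := fun e => cC (-3274) 10000 + cC (682) 10000 * xD + cC (2142) 10000 * xV + cC (-85) 10000 * e
  k2m := fun _ => cC (-1475) 10000 + cC (4486) 10000 * xD + cC (331) 10000 * xV
  kapL := fun e => cC (986) 10000 + cC (-3226) 10000 * xD + cC (610) 10000 * xV + cC (353) 10000 * e
  kapU := fun e => cC (1236) 10000 + cC (-4114) 10000 * xD + cC (665) 10000 * xV + cC (386) 10000 * e
  eL := ⟨cC (-77121) 10000 + cC (73478) 10000 * xD + cC (23256) 10000 * xV + cC (729) 10000 * xS,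
    cC 0,
    cC 0,
    cC 0,
    cC 0⟩
  eH := ⟨cC (-13588) 10000 + cC (39151) 10000 * xD + cC (2849) 10000 * xV + cC (-31644) 10000 * xS,
    cC 0,
    cC 0,
    cC 0,
    cC (4340) 10000 + cC (12979) 10000 * xD + cC (709) 10000 * xV⟩
  pL := ⟨cC (1235061) 10000 + cC (-2921136) 10000 * xD + cC (-48673) 10000 * xV + cC (-270921) 10000 * xS,
    cC (545509) 10000 + cC (-1620198) 10000 * xD + cC (-24212) 10000 * xV,
    cC 0,
    cC 0,
    cC 0⟩
  pU := ⟨cC (230625) 10000 + cC (14397) 10000 * xD + cC (-12212) 10000 * xV + cC (-246627) 10000 * xS,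
    cC (-28438) 10000 + cC (33867) 10000 * xD + cC (7552) 10000 * xV,
    cC 0,
    cC 0,
    cC (41683) 10000 + cC (-44861) 10000 * xD + cC (-2193) 10000 * xV⟩
  kU := ⟨cC (-116154) 10000 + cC (191750) 10000 * xD + cC (29038) 10000 * xV + cC (17296) 10000 * xS,
    cC (-56517) 10000 + cC (112305) 10000 * xD + cC (15636) 10000 * xV,
    cC (600) 10000,
    cC 0,
    cC 0⟩
  kL := ⟨cC (-11088) 10000 + cC (7577) 10000 * xD + cC (-348) 10000 * xV + cC (15059) 10000 * xS,
    cC (81) 10000 + cC (10796) 10000 * xD + cC (-495) 10000 * xV,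
    cC (487) 10000,
    cC 0,
    cC 0⟩
  wU := ⟨cC (-292789) 10000 + cC (471558) 10000 * xD + cC (39096) 10000 * xV + cC (158433) 10000 * xS,
    cC (-132669) 10000 + cC (267412) 10000 * xD + cC (26991) 10000 * xV,
    cC (-15134) 10000,
    cC 0,
    cC 0⟩
  wL := ⟨cC (-419163) 10000 + cC (237671) 10000 * xD + cC (-48399) 10000 * xV + cC (535059) 10000 * xS,
    cC (36155) 10000 + cC (95519) 10000 * xD + cC (-43219) 10000 * xV,
    cC 0,
    cC 0,
    cC (106034) 10000 + cC (134923) 10000 * xD + cC (-76188) 10000 * xV⟩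

/-- The least `u`. -/
def tC56Lo : Ex :=
  cC (61) 64

/-- A piece: `1.467 ≤ v < 1.488`. -/
def tC57 : Piece where
  u₀ := cC (39) 40
  u₁ := cC (867) 1000 + cC (0) 1000 * xD + cC (66) 1000 * xV
  tLn := lowTn
  tLd := lowTd
  tUn := upCn
  tUd := upCd
  p₀ := cC (161609) 10000 + cC (-1782) 10000 * xD + cC (-13830) 10000 * xV + cC (-120521) 10000 * xS
  zL := cC (7793) 10000 + cC (-6979) 10000 * xD + cC (-1903) 10000 * xV + cC (-4377) 10000 * xS
  zU := cC (9848) 10000 + cC (-8933) 10000 * xD + cC (-2490) 10000 * xV + cC (-4317) 10000 * xS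
  k2p := fun e => cC (-17912) 10000 + cC (22753) 10000 * xD + cC (8366) 10000 * xV + cC (413) 10000 * e
  k2m := fun e => cC (-3616) 10000 + cC (8105) 10000 * xD + cC (1177) 10000 * xV + cC (20) 10000 * e
  kapL := fun _ => cC (2) 10000
  kapU := fun _ => cC (2) 10000
  eL := ⟨cC (2005127) 10000 + cC (-1821497) 10000 * xD + cC (-419772) 10000 * xV + cC (-1226531) 10000 * xS,
    cC 0,
    cC 0,
    cC 0,
    cC (3764952) 10000 + cC (-11506568) 10000 * xD⟩
  eH := ⟨cC (2005291) 10000 + cC (-1821497) 10000 * xD + cC (-419772) 10000 * xV + cC (-1226531) 10000 * xS,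
    cC 0,
    cC 0,
    cC 0,
    cC (250000) 10000⟩
  pL := ⟨cC (-2103874) 10000 + cC (1960163) 10000 * xD + cC (435129) 10000 * xV + cC (1372695) 10000 * xS,
    cC (73597) 10000 + cC (-89495) 10000 * xD + cC (-21794) 10000 * xV,
    cC 0,
    cC 0,
    cC (-1535932) 10000 + cC (1966661) 10000 * xD + cC (767769) 10000 * xV⟩
  pU := ⟨cC (-4231442) 10000 + cC (3920624) 10000 * xD + cC (887824) 10000 * xV + cC (2644178) 10000 * xS,
    cC (66527) 10000 + cC (-64090) 10000 * xD + cC (-15608) 10000 * xV,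
    cC 0,
    cC 0,
    cC (26387099) 10000 + cC (-80645161) 10000 * xD⟩
  kU := ⟨cC (-1470) 10000,
    cC 0,
    cC 0,
    cC 0,
    cC (11744533) 10000 + cC (-34104319) 10000 * xD + cC (-387121) 10000 * xV⟩
  kL := ⟨cC (2695649) 10000 + cC (-2447968) 10000 * xD + cC (-564145) 10000 * xV + cC (-1648374) 10000 * xS,
    cC (-13439) 10000,
    cC 0,
    cC 0,
    cC (26387099) 10000 + cC (-80645161) 10000 * xD⟩
  wU := ⟨cC (-40149275) 10000 + cC (48823071) 10000 * xD + cC (12494511) 10000 * xV + cC (8785946) 10000 * xS,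
    cC (253855) 10000 + cC (-417264) 10000 * xD + cC (-31951) 10000 * xV,
    cC (4326272) 10000 + cC (-6101135) 10000 * xD + cC (-1579524) 10000 * xV,
    cC 0,
    cC (26387099) 10000 + cC (-80645161) 10000 * xD⟩
  wL := ⟨cC (-43790) 10000 + cC (-16897) 10000 * xD + cC (-3894) 10000 * xV + cC (-11378) 10000 * xS,
    cC (-93) 10000,
    cC 0,
    cC 0,
    cC (21699324) 10000 + cC (-61759579) 10000 * xD + cC (-976854) 10000 * xV⟩

/-- The cut in `e`. -/
def tC57Cut : Ex :=
  cC (2005130) 10000 + cC (-1821497) 10000 * xD + cC (-419772) 10000 * xV + cC (-1226531) 10000 * xS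

/-- The bound of `p` above the cut. -/
def tC57PU : Bnd :=
  ⟨cC (-4156756) 10000 + cC (3825419) 10000 * xD + cC (864985) 10000 * xV + cC (2628692) 10000 * xS,
    cC (83837) 10000 + cC (-89495) 10000 * xD + cC (-21794) 10000 * xV,
    cC 0,
    cC 0,
    cC (26387099) 10000 + cC (-80645161) 10000 * xD⟩

/-- A multiplier above the cut. -/
def tC57K2p : Ex → Ex :=
  fun e => cC (-17218) 10000 + cC (22628) 10000 * xD + cC (7888) 10000 * xV + cC (377) 10000 * e

/-- A multiplier above the cut. -/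
def tC57K2m : Ex → Ex :=
  fun e => cC (-3624) 10000 + cC (8172) 10000 * xD + cC (1167) 10000 * xV + cC (20) 10000 * e

/-- A multiplier above the cut. -/
def tC57KapL : Ex → Ex :=
  fun _ => cC (2) 10000

/-- A multiplier above the cut. -/
def tC57KapU : Ex → Ex :=
  fun _ => cC (2) 10000

/-- Below the cut. -/
def tC57A : Piece :=
  tC57.below tC57Cut

/-- Above the cut. -/
def tC57B : Piece :=
  { tC57.above tC57Cut tC57PU with k2p := tC57K2p, k2m := tC57K2m, kapL := tC57KapL, kapU := tC57KapU }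

/-- The least `u`. -/
def tC57Lo : Ex :=
  cC (61) 64

/-- A piece: `1.488 ≤ v < 1.51`. -/
def tC58 : Piece where
  u₀ := cC (39) 40
  u₁ := cC (949) 1000 + cC (75) 1000 * xD + cC (0) 1000 * xV
  tLn := lowTn
  tLd := lowTd
  tUn := upCn
  tUd := upCd
  p₀ := cC (193986) 10000 + cC (-101116) 10000 * xD + cC (-35661) 10000 * xV + cC (67230) 10000 * (xD * xV) + cC (658) 10000 * (xD * xD) + cC (-120805) 10000 * xS
  zL := cC 0
  zU := cC 0
  k2p := fun _ => cC 0
  k2m := fun _ => cC 0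
  kapL := fun _ => cC 0
  kapU := fun _ => cC 0
  eL := ⟨cC 0, cC 0, cC 0, cC 0, cC 0⟩
  eH := ⟨cC 0, cC 0, cC 0, cC 0, cC 0⟩
  pL := ⟨cC 0, cC 0, cC 0, cC 0, cC 0⟩
  pU := ⟨cC 0,
    cC 0,
    cC 0,
    cC 0,
    cC (51375773) 10000 + cC (-158549441) 10000 * xD + cC (-34260657) 10000 * xV + cC (105744093) 10000 * (xD * xV)⟩
  kU := ⟨cC 0, cC 0, cC 0, cC 0, cC 0⟩
  kL := ⟨cC 0, cC 0, cC 0, cC 0, cC 0⟩
  wU := ⟨cC 0, cC 0, cC 0, cC 0, cC 0⟩
  wL := ⟨cC 0, cC 0, cC 0, cC 0, cC 0⟩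

/-- The least `u`. -/
def tC58Lo : Ex :=
  cC (61) 64

/-- A piece: `1.467 ≤ v < 1.51`. -/
def tC59 : Piece where
  u₀ := cC (39) 40
  u₁ := cC (974) 1000 + cC (0) 1000 * xD + cC (0) 1000 * xV
  tLn := lowTn
  tLd := lowTd
  tUn := upCn
  tUd := upCd
  p₀ := cC (187348) 10000 + cC (-75527) 10000 * xD + cC (-33056) 10000 * xV + cC (59195) 10000 * (xD * xV) + cC (-19858) 10000 * (xD * xD) + cC (-120060) 10000 * xS
  zL := cC 0
  zU := cC 0
  k2p := fun _ => cC 0
  k2m := fun _ => cC 0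
  kapL := fun _ => cC 0
  kapU := fun _ => cC 0
  eL := ⟨cC 0, cC 0, cC 0, cC 0, cC 0⟩
  eH := ⟨cC 0, cC 0, cC 0, cC 0, cC 0⟩
  pL := ⟨cC 0, cC 0, cC 0, cC 0, cC 0⟩
  pU := ⟨cC 0,
    cC 0,
    cC 0,
    cC 0,
    cC (25727835) 10000 + cC (-77831432) 10000 * xD + cC (-17296890) 10000 * xV + cC (52339629) 10000 * (xD * xV)⟩
  kU := ⟨cC 0, cC 0, cC 0, cC 0, cC 0⟩
  kL := ⟨cC 0, cC 0, cC 0, cC 0, cC 0⟩
  wU := ⟨cC 0, cC 0, cC 0, cC 0, cC 0⟩
  wL := ⟨cC 0, cC 0, cC 0, cC 0, cC 0⟩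

/-- The least `u`. -/
def tC59Lo : Ex :=
  cC (61) 64

/-- A piece: `1.51 ≤ v < 1.532`. -/
def tC60 : Piece where
  u₀ := cC (39) 40
  u₁ := cC (759) 1000 + cC (457) 1000 * xD + cC (46) 1000 * xV
  tLn := lowTn
  tLd := lowTd
  tUn := evN
  tUd := evD
  p₀ := cC (140674) 10000 + cC (145707) 10000 * xD + cC (-14480) 10000 * xV + cC (-231400) 10000 * (xD * xD) + cC (-122924) 10000 * xS
  zL := cC (-89053) 10000 + cC (600245) 10000 * xD + cC (-1799) 10000 * xV + cC (-970515) 10000 * (xD * xD) + cC (-1089) 10000 * xS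
  zU := cC (83469) 10000 + cC (-520272) 10000 * xD + cC (-498) 10000 * xV + cC (818299) 10000 * (xD * xD) + cC (540) 10000 * xS
  k2p := fun e => cC (4287) 10000 + cC (-11607) 10000 * xD + cC (787) 10000 * xV + cC (794) 10000 * e
  k2m := fun _ => cC (-1360) 10000 + cC (4202) 10000 * xD + cC (315) 10000 * xV
  kapL := fun e => cC (1786) 10000 + cC (-5661) 10000 * xD + cC (758) 10000 * xV + cC (481) 10000 * e
  kapU := fun e => cC (1109) 10000 + cC (-4034) 10000 * xD + cC (772) 10000 * xV + cC (412) 10000 * e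
  eL := ⟨cC (-693345) 10000 + cC (4191826) 10000 * xD + cC (11160) 10000 * xV + cC (-6490977) 10000 * (xD * xD) + cC (-27811) 10000 * xS,
    cC 0,
    cC 0,
    cC 0,
    cC 0⟩
  eH := ⟨cC (-11965) 10000 + cC (26518) 10000 * xD + cC (3082) 10000 * xV + cC (19186) 10000 * (xD * xD) + cC (-31485) 10000 * xS,
    cC 0,
    cC 0,
    cC 0,
    cC (-15268) 10000 + cC (42743) 10000 * xD + cC (7471) 10000 * xV⟩
  pL := ⟨cC (-2415834) 10000 + cC (17310275) 10000 * xD + cC (-355162) 10000 * xV + cC (-23062438) 10000 * (xD * xD) + cC (-227772) 10000 * xS,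
    cC (-214053) 10000 + cC (1540590) 10000 * xD + cC (-180687) 10000 * xV,
    cC 0,
    cC 0,
    cC 0⟩
  pU := ⟨cC (213127) 10000 + cC (97827) 10000 * xD + cC (-12298) 10000 * xV + cC (-75073) 10000 * (xD * xD) + cC (-248441) 10000 * xS,
    cC (-33892) 10000 + cC (52660) 10000 * xD + cC (7240) 10000 * xV,
    cC 0,
    cC 0,
    cC (70030) 10000 + cC (-127065) 10000 * xD + cC (-3942) 10000 * xV⟩
  kU := ⟨cC (-122720) 10000 + cC (245156) 10000 * xD + cC (30867) 10000 * xV + cC (-124052) 10000 * (xD * xD) + cC (17241) 10000 * xS,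
    cC (-32362) 10000 + cC (64086) 10000 * xD + cC (9917) 10000 * xV,
    cC (6456) 10000 + cC (-9629) 10000 * xD + cC (-1877) 10000 * xV,
    cC 0,
    cC 0⟩
  kL := ⟨cC (-12534) 10000 + cC (37476) 10000 * xD + cC (-1872) 10000 * xV + cC (-53529) 10000 * (xD * xD) + cC (14641) 10000 * xS,
    cC (-524) 10000 + cC (11276) 10000 * xD + cC (-194) 10000 * xV,
    cC (-276) 10000 + cC (851) 10000 * xD + cC (319) 10000 * xV,
    cC 0,
    cC 0⟩
  wU := ⟨cC (-168827) 10000 + cC (-339756) 10000 * xD + cC (13158) 10000 * xV + cC (1711383) 10000 * (xD * xD) + cC (161977) 10000 * xS,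
    cC (21060) 10000 + cC (-54334) 10000 * xD + cC (-6822) 10000 * xV,
    cC (35385) 10000 + cC (-133875) 10000 * xD + cC (-5426) 10000 * xV,
    cC 0,
    cC 0⟩
  wL := ⟨cC (-1602942) 10000 + cC (9765666) 10000 * xD + cC (-384335) 10000 * xV + cC (-11497079) 10000 * (xD * xD) + cC (355350) 10000 * xS,
    cC (-206512) 10000 + cC (265097) 10000 * xD + cC (80377) 10000 * xV,
    cC (-36923) 10000 + cC (-324446) 10000 * xD + cC (86454) 10000 * xV,
    cC 0,
    cC (-219996) 10000 + cC (-556480) 10000 * xD + cC (272828) 10000 * xV⟩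

/-- The least `u`. -/
def tC60Lo : Ex :=
  cC (61) 64

/-- A piece: `1.51 ≤ v < 1.532`. -/
def tC61 : Piece where
  u₀ := cC (39) 40
  u₁ := cC (923) 1000 + cC (158) 1000 * xD + cC (0) 1000 * xV
  tLn := lowTn
  tLd := lowTd
  tUn := upCn
  tUd := upCd
  p₀ := cC (178929) 10000 + cC (-19237) 10000 * xD + cC (-31577) 10000 * xV + cC (54760) 10000 * (xD * xV) + cC (-98216) 10000 * (xD * xD) + cC (-122542) 10000 * xS
  zL := cC 0
  zU := cC 0
  k2p := fun _ => cC 0
  k2m := fun _ => cC 0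
  kapL := fun _ => cC 0
  kapU := fun _ => cC 0
  eL := ⟨cC 0, cC 0, cC 0, cC 0, cC 0⟩
  eH := ⟨cC 0, cC 0, cC 0, cC 0, cC 0⟩
  pL := ⟨cC 0, cC 0, cC 0, cC 0, cC 0⟩
  pU := ⟨cC 0,
    cC 0,
    cC 0,
    cC 0,
    cC (8282736) 10000 + cC (-26018648) 10000 * xD + cC (-5189184) 10000 * xV + cC (16311423) 10000 * (xD * xV)⟩
  kU := ⟨cC 0, cC 0, cC 0, cC 0, cC 0⟩
  kL := ⟨cC 0, cC 0, cC 0, cC 0, cC 0⟩
  wU := ⟨cC 0, cC 0, cC 0, cC 0, cC 0⟩
  wL := ⟨cC 0, cC 0, cC 0, cC 0, cC 0⟩

/-- The least `u`. -/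
def tC61Lo : Ex :=
  cC (61) 64

/-- The upper end of `u`. -/
def tC62Hi : Ex :=
  cC (39) 40

/-- The least `u`. -/
def tC62Lo : Ex :=
  cC (61) 64

/-- A piece: `1.532 ≤ v < 1.554`. -/
def tC63 : Piece where
  u₀ := cC (39) 40
  u₁ := cC (898) 1000 + cC (240) 1000 * xD + cC (0) 1000 * xV
  tLn := lowTn
  tLd := lowTd
  tUn := evN
  tUd := evD
  p₀ := cC (140613) 10000 + cC (147306) 10000 * xD + cC (-14480) 10000 * xV + cC (-232003) 10000 * (xD * xD) + cC (-123493) 10000 * xS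
  zL := cC (-271) 10000 + cC (48529) 10000 * xD + cC (-1785) 10000 * xV + cC (-92496) 10000 * (xD * xD) + cC (-4236) 10000 * xS
  zU := cC (3072) 10000 + cC (-19395) 10000 * xD + cC (72) 10000 * xV + cC (24521) 10000 * (xD * xD) + cC (1265) 10000 * xS
  k2p := fun e => cC (-4140) 10000 + cC (5319) 10000 * xD + cC (1774) 10000 * xV + cC (-57) 10000 * e
  k2m := fun _ => cC (-1374) 10000 + cC (4331) 10000 * xD + cC (297) 10000 * xV
  kapL := fun e => cC (241) 10000 + cC (-3383) 10000 * xD + cC (1169) 10000 * xV + cC (375) 10000 * e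
  kapU := fun e => cC (445) 10000 + cC (-3620) 10000 * xD + cC (1107) 10000 * xV + cC (402) 10000 * e
  eL := ⟨cC (-51444) 10000 + cC (241847) 10000 * xD + cC (3010) 10000 * xV + cC (-259098) 10000 * (xD * xD) + cC (-33012) 10000 * xS,
    cC 0,
    cC 0,
    cC 0,
    cC 0⟩
  eH := ⟨cC (-11525) 10000 + cC (22424) 10000 * xD + cC (3090) 10000 * xV + cC (25141) 10000 * (xD * xD) + cC (-31120) 10000 * xS,
    cC 0,
    cC 0,
    cC 0,
    cC (5517) 10000 + cC (12701) 10000 * xD + cC (-36) 10000 * xV⟩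
  pL := ⟨cC (155181) 10000 + cC (609326) 10000 * xD + cC (-28817) 10000 * xV + cC (-891117) 10000 * (xD * xD) + cC (-244326) 10000 * xS,
    cC (-19929) 10000 + cC (52720) 10000 * xD + cC (-1826) 10000 * xV,
    cC 0,
    cC 0,
    cC 0⟩
  pU := ⟨cC (226537) 10000 + cC (-18567) 10000 * xD + cC (-8271) 10000 * xV + cC (81135) 10000 * (xD * xD) + cC (-246577) 10000 * xS,
    cC (-34008) 10000 + cC (42218) 10000 * xD + cC (9344) 10000 * xV,
    cC 0,
    cC 0,
    cC (53965) 10000 + cC (-56387) 10000 * xD + cC (-7686) 10000 * xV⟩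
  kU := ⟨cC (2626) 10000 + cC (-41563) 10000 * xD + cC (-896) 10000 * xV + cC (131156) 10000 * (xD * xD) + cC (3112) 10000 * xS,
    cC (-12175) 10000 + cC (47340) 10000 * xD + cC (-161) 10000 * xV,
    cC (-1603) 10000 + cC (5250) 10000 * xD + cC (-11) 10000 * xV,
    cC 0,
    cC (14612) 10000 + cC (-43250) 10000 * xD + cC (62) 10000 * xV⟩
  kL := ⟨cC (-10138) 10000 + cC (35534) 10000 * xD + cC (-1264) 10000 * xV + cC (-44765) 10000 * (xD * xD) + cC (10551) 10000 * xS,
    cC (-1210) 10000 + cC (11210) 10000 * xD + cC (199) 10000 * xV,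
    cC (-150) 10000 + cC (148) 10000 * xD + cC (273) 10000 * xV,
    cC 0,
    cC 0⟩
  wU := ⟨cC (-34606) 10000 + cC (-17126) 10000 * xD + cC (-28723) 10000 * xV + cC (75508) 10000 * (xD * xD) + cC (148949) 10000 * xS,
    cC (-5260) 10000 + cC (-5344) 10000 * xD + cC (110) 10000 * xV,
    cC (-17563) 10000 + cC (-8036) 10000 * xD + cC (3140) 10000 * xV,
    cC 0,
    cC 0⟩
  wL := ⟨cC (-519797) 10000 + cC (812019) 10000 * xD + cC (-22447) 10000 * xV + cC (-1071612) 10000 * (xD * xD) + cC (523673) 10000 * xS,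
    cC (-45764) 10000 + cC (134500) 10000 * xD + cC (4329) 10000 * xV,
    cC (-23088) 10000 + cC (26543) 10000 * xD + cC (9586) 10000 * xV,
    cC 0,
    cC (-20539) 10000 + cC (80100) 10000 * xD + cC (21731) 10000 * xV⟩

/-- The least `u`. -/
def tC63Lo : Ex :=
  cC (61) 64

/-- The upper end of `u`. -/
def tC64Hi : Ex :=
  cC (39) 40

/-- The least `u`. -/
def tC64Lo : Ex :=
  cC (61) 64

/-- A piece: `1.532 ≤ v < 1.59`. -/
def tC65 : Piece where
  u₀ := cC (39) 40
  u₁ := cC (974) 1000 + cC (0) 1000 * xD + cC (0) 1000 * xV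
  tLn := lowTn
  tLd := lowTd
  tUn := upCn
  tUd := upCd
  p₀ := cC (178929) 10000 + cC (-19237) 10000 * xD + cC (-31577) 10000 * xV + cC (54760) 10000 * (xD * xV) + cC (-98216) 10000 * (xD * xD) + cC (-122542) 10000 * xS
  zL := cC 0
  zU := cC 0
  k2p := fun _ => cC 0
  k2m := fun _ => cC 0
  kapL := fun _ => cC 0
  kapU := fun _ => cC 0
  eL := ⟨cC 0, cC 0, cC 0, cC 0, cC 0⟩
  eH := ⟨cC 0, cC 0, cC 0, cC 0, cC 0⟩
  pL := ⟨cC 0, cC 0, cC 0, cC 0, cC 0⟩
  pU := ⟨cC 0,
    cC 0,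
    cC 0,
    cC 0,
    cC (8282736) 10000 + cC (-26018648) 10000 * xD + cC (-5189184) 10000 * xV + cC (16311423) 10000 * (xD * xV)⟩
  kU := ⟨cC 0, cC 0, cC 0, cC 0, cC 0⟩
  kL := ⟨cC 0, cC 0, cC 0, cC 0, cC 0⟩
  wU := ⟨cC 0, cC 0, cC 0, cC 0, cC 0⟩
  wL := ⟨cC 0, cC 0, cC 0, cC 0, cC 0⟩

/-- The least `u`. -/
def tC65Lo : Ex :=
  cC (61) 64

/-- The upper end of `u`. -/
def tC66Hi : Ex :=
  cC (39) 40

/-- The least `u`. -/
def tC66Lo : Ex :=
  cC (61) 64

/-- The upper end of `u`. -/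
def tC67Hi : Ex :=
  cC (149) 160

/-- The least `u`. -/
def tC67Lo : Ex :=
  cC (71) 80

/-- A piece: `1.599 ≤ v < 1.69`. -/
def tC68 : Piece where
  u₀ := cC (39) 40
  u₁ := cC (968) 1000 + cC (0) 1000 * xD + cC (4) 1000 * xV
  tLn := lowTn
  tLd := lowTd
  tUn := upCn
  tUd := upCd
  p₀ := cC (191954) 10000 + cC (-78196) 10000 * xD + cC (-32155) 10000 * xV + cC (56611) 10000 * (xD * xV) + cC (-11056) 10000 * (xD * xD) + cC (-127202) 10000 * xS
  zL := cC 0
  zU := cC 0
  k2p := fun _ => cC 0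
  k2m := fun _ => cC 0
  kapL := fun _ => cC 0
  kapU := fun _ => cC 0
  eL := ⟨cC 0, cC 0, cC 0, cC 0, cC 0⟩
  eH := ⟨cC 0, cC 0, cC 0, cC 0, cC 0⟩
  pL := ⟨cC 0, cC 0, cC 0, cC 0, cC 0⟩
  pU := ⟨cC 0,
    cC 0,
    cC 0,
    cC 0,
    cC (5237604) 10000 + cC (-17273997) 10000 * xD + cC (-3141980) 10000 * xV + cC (10373178) 10000 * (xD * xV)⟩
  kU := ⟨cC 0, cC 0, cC 0, cC 0, cC 0⟩
  kL := ⟨cC 0, cC 0, cC 0, cC 0, cC 0⟩
  wU := ⟨cC 0, cC 0, cC 0, cC 0, cC 0⟩
  wL := ⟨cC 0, cC 0, cC 0, cC 0, cC 0⟩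

/-- The least `u`. -/
def tC68Lo : Ex :=
  cC (149) 160

/-- The upper end of `u`. -/
def tC69Hi : Ex :=
  cC (39) 40

/-- The least `u`. -/
def tC69Lo : Ex :=
  cC (149) 160

/-- A piece: `1.9 ≤ v < 2.259`. -/
def tC70 : Piece where
  u₀ := cC (39) 40
  u₁ := cC (895) 1000 + cC (270) 1000 * xD + cC (7) 1000 * xV
  tLn := lowTn
  tLd := lowTd
  tUn := evN
  tUd := evD
  p₀ := cC (212982) 10000 + cC (-95525) 10000 * xD + cC (-36917) 10000 * xV + cC (76365) 10000 * (xD * xV) + cC (-53857) 10000 * (xD * xD) + cC (-148894) 10000 * xS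
  zL := cC (-14967) 10000 + cC (54435) 10000 * xD + cC (9306) 10000 * xV + cC (-22100) 10000 * (xD * xV) + cC (-1306) 10000 * (xV * xV) + cC (-40818) 10000 * (xD * xD) + cC (2529) 10000 * xS
  zU := cC (22456) 10000 + cC (-79191) 10000 * xD + cC (-10425) 10000 * xV + cC (15586) 10000 * (xD * xV) + cC (1682) 10000 * (xV * xV) + cC (86712) 10000 * (xD * xD) + cC (-1862) 10000 * xS
  k2p := fun e => cC (5331) 10000 + cC (-5981) 10000 * xD + cC (-1011) 10000 * xV + cC (737) 10000 * e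
  k2m := fun _ => cC (-277) 10000 + cC (2048) 10000 * xD + cC (31) 10000 * xV
  kapL := fun e => cC (182) 10000 + cC (634) 10000 * xD + cC (770) 10000 * xV + cC (475) 10000 * e
  kapU := fun e => cC (5470) 10000 + cC (-8889) 10000 * xD + cC (-70) 10000 * xV + cC (1195) 10000 * e
  eL := ⟨cC (-101209) 10000 + cC (255093) 10000 * xD + cC (48041) 10000 * xV + cC (-6945) 10000 * (xV * xV) + cC (-51354) 10000 * (xD * xV) + cC (-153026) 10000 * (xD * xD) + cC (-21071) 10000 * xS,
    cC 0,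
    cC 0,
    cC 0,
    cC 0⟩
  eH := ⟨cC (-37985) 10000 + cC (100444) 10000 * xD + cC (12558) 10000 * xV + cC (197) 10000 * (xV * xV) + cC (-36045) 10000 * (xD * xV) + cC (-4590) 10000 * (xD * xD) + cC (-19659) 10000 * xS,
    cC 0,
    cC 0,
    cC 0,
    cC (5635) 10000 + cC (-23461) 10000 * xD + cC (-5992) 10000 * xV + cC (41344) 10000 * (xD * xV)⟩
  pL := ⟨cC (-268951) 10000 + cC (1393826) 10000 * xD + cC (263184) 10000 * xV + cC (-384026) 10000 * (xD * xV) + cC (-41497) 10000 * (xV * xV) + cC (-984475) 10000 * (xD * xD) + cC (-225766) 10000 * xS,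
    cC (-51315) 10000 + cC (73937) 10000 * xD + cC (11504) 10000 * xV,
    cC 0,
    cC 0,
    cC 0⟩
  pU := ⟨cC (280196) 10000 + cC (3152) 10000 * xD + cC (-38931) 10000 * xV + cC (25009) 10000 * (xD * xV) + cC (3224) 10000 * (xV * xV) + cC (53913) 10000 * (xD * xD) + cC (-282238) 10000 * xS,
    cC (-24124) 10000 + cC (55621) 10000 * xD + cC (2060) 10000 * xV,
    cC 0,
    cC 0,
    cC (8818) 10000 + cC (129024) 10000 * xD + cC (25688) 10000 * xV + cC (-130158) 10000 * (xD * xV)⟩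
  kU := ⟨cC (-5556) 10000 + cC (8806) 10000 * xD + cC (-232) 10000 * xV + cC (426) 10000 * (xD * xV) + cC (18) 10000 * (xV * xV) + cC (-15052) 10000 * (xD * xD) + cC (7565) 10000 * xS,
    cC (-524) 10000 + cC (10088) 10000 * xD + cC (-57) 10000 * xV,
    cC (-85) 10000 + cC (1849) 10000 * xD + cC (11) 10000 * xV,
    cC 0,
    cC (-328) 10000 + cC (2447) 10000 * xD + cC (9) 10000 * xV + cC (-67) 10000 * (xD * xV)⟩
  kL := ⟨cC (-4566) 10000 + cC (5724) 10000 * xD + cC (-591) 10000 * xV + cC (2075) 10000 * (xD * xV) + cC (-5) 10000 * (xV * xV) + cC (-18314) 10000 * (xD * xD) + cC (7234) 10000 * xS,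
    cC (-553) 10000 + cC (10257) 10000 * xD + cC (-45) 10000 * xV,
    cC (-197) 10000 + cC (2086) 10000 * xD + cC (58) 10000 * xV,
    cC 0,
    cC 0⟩
  wU := ⟨cC (-47376) 10000 + cC (52825) 10000 * xD + cC (-6145) 10000 * xV + cC (-9840) 10000 * (xD * xV) + cC (1006) 10000 * (xV * xV) + cC (24271) 10000 * (xD * xD) + cC (88994) 10000 * xS,
    cC (918) 10000 + cC (11976) 10000 * xD + cC (-6772) 10000 * xV,
    cC (-8347) 10000 + cC (-4345) 10000 * xD + cC (-2852) 10000 * xV,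
    cC 0,
    cC (6510) 10000 + cC (-48203) 10000 * xD + cC (-3425) 10000 * xV + cC (25370) 10000 * (xD * xV)⟩
  wL := ⟨cC (-181002) 10000 + cC (542814) 10000 * xD + cC (68104) 10000 * xV + cC (-146364) 10000 * (xD * xV) + cC (-9802) 10000 * (xV * xV) + cC (-234181) 10000 * (xD * xD) + cC (83234) 10000 * xS,
    cC (12741) 10000 + cC (-35340) 10000 * xD + cC (-8147) 10000 * xV,
    cC (512) 10000 + cC (-40806) 10000 * xD + cC (-3832) 10000 * xV,
    cC 0,
    cC (-7373) 10000 + cC (31496) 10000 * xD + cC (3882) 10000 * xV + cC (-16577) 10000 * (xD * xV)⟩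

/-- The least `u`. -/
def tC70Lo : Ex :=
  cC (4) 5

/-- A piece: `2.259 ≤ v < 2.687`. -/
def tC71 : Piece where
  u₀ := cC (39) 40
  u₁ := cC (941) 1000 + cC (109) 1000 * xD + cC (0) 1000 * xV
  tLn := lowTn
  tLd := lowTd
  tUn := evN
  tUd := evD
  p₀ := cC (216905) 10000 + cC (-80882) 10000 * xD + cC (-36914) 10000 * xV + cC (76495) 10000 * (xD * xV) + cC (-98588) 10000 * (xD * xD) + cC (-156533) 10000 * xS
  zL := cC (-13904) 10000 + cC (59993) 10000 * xD + cC (10768) 10000 * xV + cC (-24694) 10000 * (xD * xV) + cC (-1502) 10000 * (xV * xV) + cC (-38621) 10000 * (xD * xD) + cC (-2518) 10000 * xS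
  zU := cC (10982) 10000 + cC (-54415) 10000 * xD + cC (-6496) 10000 * xV + cC (6368) 10000 * (xD * xV) + cC (1176) 10000 * (xV * xV) + cC (82375) 10000 * (xD * xD) + cC (4999) 10000 * xS
  k2p := fun e => cC (3592) 10000 + cC (-1402) 10000 * xD + cC (-742) 10000 * xV + cC (604) 10000 * e
  k2m := fun _ => cC (-264) 10000 + cC (2025) 10000 * xD + cC (34) 10000 * xV
  kapL := fun e => cC (-1644) 10000 + cC (3886) 10000 * xD + cC (1434) 10000 * xV + cC (689) 10000 * e
  kapU := fun e => cC (7227) 10000 + cC (-14809) 10000 * xD + cC (-464) 10000 * xV + cC (981) 10000 * e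
  eL := ⟨cC (-57859) 10000 + cC (168473) 10000 * xD + cC (17959) 10000 * xV + cC (-894) 10000 * (xV * xV) + cC (-39086) 10000 * (xD * xV) + cC (-88525) 10000 * (xD * xD) + cC (-17279) 10000 * xS,
    cC 0,
    cC 0,
    cC 0,
    cC 0⟩
  eH := ⟨cC (-44893) 10000 + cC (90640) 10000 * xD + cC (11575) 10000 * xV + cC (383) 10000 * (xV * xV) + cC (-36854) 10000 * (xD * xV) + cC (28917) 10000 * (xD * xD) + cC (-6011) 10000 * xS,
    cC 0,
    cC 0,
    cC 0,
    cC (-31547) 10000 + cC (199457) 10000 * xD + cC (10451) 10000 * xV + cC (-56655) 10000 * (xD * xV)⟩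
  pL := ⟨cC (-176436) 10000 + cC (1213630) 10000 * xD + cC (190825) 10000 * xV + cC (-286001) 10000 * (xD * xV) + cC (-27379) 10000 * (xV * xV) + cC (-836886) 10000 * (xD * xD) + cC (-244842) 10000 * xS,
    cC (-66064) 10000 + cC (119312) 10000 * xD + cC (14547) 10000 * xV,
    cC 0,
    cC 0,
    cC 0⟩
  pU := ⟨cC (268078) 10000 + cC (-35071) 10000 * xD + cC (-36144) 10000 * xV + cC (33596) 10000 * (xD * xV) + cC (2336) 10000 * (xV * xV) + cC (98759) 10000 * (xD * xD) + cC (-264278) 10000 * xS,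
    cC (-24456) 10000 + cC (54278) 10000 * xD + cC (2280) 10000 * xV,
    cC 0,
    cC 0,
    cC (10303) 10000 + cC (110435) 10000 * xD + cC (25208) 10000 * xV + cC (-121823) 10000 * (xD * xV)⟩
  kU := ⟨cC (-2519) 10000 + cC (11113) 10000 * xD + cC (-1573) 10000 * xV + cC (-1155) 10000 * (xD * xV) + cC (273) 10000 * (xV * xV) + cC (-8666) 10000 * (xD * xD) + cC (5664) 10000 * xS,
    cC (-557) 10000 + cC (8744) 10000 * xD + cC (50) 10000 * xV,
    cC (-252) 10000 + cC (1149) 10000 * xD + cC (133) 10000 * xV,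
    cC 0,
    cC (-1881) 10000 + cC (13950) 10000 * xD + cC (550) 10000 * xV + cC (-4074) 10000 * (xD * xV)⟩
  kL := ⟨cC (-4146) 10000 + cC (16104) 10000 * xD + cC (-428) 10000 * xV + cC (-1707) 10000 * (xD * xV) + cC (77) 10000 * (xV * xV) + cC (-16321) 10000 * (xD * xD) + cC (5081) 10000 * xS,
    cC (-448) 10000 + cC (8826) 10000 * xD + cC (-14) 10000 * xV,
    cC (-112) 10000 + cC (969) 10000 * xD + cC (81) 10000 * xV,
    cC 0,
    cC (-2611) 10000 + cC (11157) 10000 * xD + cC (1157) 10000 * xV + cC (-4939) 10000 * (xD * xV)⟩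
  wU := ⟨cC (88284) 10000 + cC (-45801) 10000 * xD + cC (-82841) 10000 * xV + cC (9351) 10000 * (xD * xV) + cC (12525) 10000 * (xV * xV) + cC (90095) 10000 * (xD * xD) + cC (68166) 10000 * xS,
    cC (-10137) 10000 + cC (8628) 10000 * xD + cC (-1630) 10000 * xV,
    cC (-22972) 10000 + cC (638) 10000 * xD + cC (3259) 10000 * xV,
    cC 0,
    cC (-34198) 10000 + cC (253341) 10000 * xD + cC (12728) 10000 * xV + cC (-94284) 10000 * (xD * xV)⟩
  wL := ⟨cC (95946) 10000 + cC (-5424) 10000 * xD + cC (-96357) 10000 * xV + cC (-7539) 10000 * (xD * xV) + cC (14691) 10000 * (xV * xV) + cC (15567) 10000 * (xD * xD) + cC (84877) 10000 * xS,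
    cC (-46950) 10000 + cC (32981) 10000 * xD + cC (12228) 10000 * xV,
    cC (-42945) 10000 + cC (17058) 10000 * xD + cC (10769) 10000 * xV,
    cC 0,
    cC (-113724) 10000 + cC (156505) 10000 * xD + cC (48115) 10000 * xV + cC (-52772) 10000 * (xD * xV)⟩

/-- The least `u`. -/
def tC71Lo : Ex :=
  cC (4) 5

/-- A piece: `1.2 ≤ v < 1.271`. -/
def tC72 : Piece where
  u₀ := cC (149) 160
  u₁ := cC (707) 1000 + cC (538) 1000 * xD + cC (34) 1000 * xV
  tLn := lowTn
  tLd := lowTd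
  tUn := evN
  tUd := evD
  p₀ := cC (184991) 10000 + cC (-83937) 10000 * xD + cC (-34292) 10000 * xV + cC (63016) 10000 * (xD * xV) + cC (-12454) 10000 * (xD * xD) + cC (-113627) 10000 * xS
  zL := cC (-31) 10000 + cC (-4827) 10000 * xD + cC (334) 10000 * xV + cC (-692) 10000 * (xD * xV) + cC (-2) 10000 * (xV * xV) + cC (5903) 10000 * (xD * xD) + cC (2409) 10000 * xS
  zU := cC (11664) 10000 + cC (-14589) 10000 * xD + cC (-2990) 10000 * xV + cC (-1930) 10000 * (xD * xV) + cC (492) 10000 * (xV * xV) + cC (5991) 10000 * (xD * xD) + cC (-3880) 10000 * xS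
  k2p := fun _ => cC (2195) 10000 + cC (-6554) 10000 * xD
  k2m := fun e => cC (-8750) 10000 + cC (16505) 10000 * xD + cC (1038) 10000 * xV + cC (-922) 10000 * e
  kapL := fun e => cC (1731) 10000 + cC (-2100) 10000 * xD + cC (-466) 10000 * xV + cC (107) 10000 * e
  kapU := fun e => cC (1953) 10000 + cC (-2270) 10000 * xD + cC (-627) 10000 * xV + cC (81) 10000 * e
  eL := ⟨cC (-77952) 10000 + cC (15943) 10000 * xD + cC (23894) 10000 * xV + cC (-5875) 10000 * (xV * xV) + cC (58427) 10000 * (xD * xV) + cC (139847) 10000 * (xD * xD) + cC (-25624) 10000 * xS,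
    cC 0,
    cC 0,
    cC 0,
    cC 0⟩
  eH := ⟨cC (-10877) 10000 + cC (98635) 10000 * xD + cC (7252) 10000 * xV + cC (266) 10000 * (xV * xV) + cC (-17284) 10000 * (xD * xV) + cC (-45303) 10000 * (xD * xD) + cC (-66781) 10000 * xS,
    cC 0,
    cC 0,
    cC 0,
    cC 0⟩
  pL := ⟨cC (460329) 10000 + cC (-786510) 10000 * xD + cC (-90661) 10000 * xV + cC (83824) 10000 * (xD * xV) + cC (6666) 10000 * (xV * xV) + cC (445871) 10000 * (xD * xD) + cC (-88509) 10000 * xS,
    cC (51120) 10000 + cC (-81836) 10000 * xD + cC (-4406) 10000 * xV,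
    cC 0,
    cC 0,
    cC 0⟩
  pU := ⟨cC (853391) 10000 + cC (-2543446) 10000 * xD + cC (-161156) 10000 * xV + cC (259343) 10000 * (xD * xV) + cC (8497) 10000 * (xV * xV) + cC (2277390) 10000 * (xD * xD) + cC (-81750) 10000 * xS,
    cC (57765) 10000 + cC (-109796) 10000 * xD + cC (-1804) 10000 * xV,
    cC 0,
    cC 0,
    cC 0⟩
  kU := ⟨cC (107667) 10000 + cC (-217995) 10000 * xD + cC (-107939) 10000 * xV + cC (110071) 10000 * (xD * xV) + cC (22911) 10000 * (xV * xV) + cC (78158) 10000 * (xD * xD) + cC (15556) 10000 * xS,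
    cC (-1731) 10000 + cC (12607) 10000 * xD + cC (422) 10000 * xV,
    cC (-4359) 10000 + cC (5784) 10000 * xD + cC (2352) 10000 * xV,
    cC 0,
    cC 0⟩
  kL := ⟨cC (-30006) 10000 + cC (116911) 10000 * xD + cC (-1829) 10000 * xV + cC (3125) 10000 * (xD * xV) + cC (69) 10000 * (xV * xV) + cC (-163544) 10000 * (xD * xD) + cC (17017) 10000 * xS,
    cC (-1499) 10000 + cC (14319) 10000 * xD + cC (-198) 10000 * xV,
    cC (205) 10000 + cC (302) 10000 * xD + cC (112) 10000 * xV,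
    cC 0,
    cC 0⟩
  wU := ⟨cC (-52620) 10000 + cC (26520) 10000 * xD + cC (-49007) 10000 * xV + cC (34276) 10000 * (xD * xV) + cC (7195) 10000 * (xV * xV) + cC (-25985) 10000 * (xD * xD) + cC (177968) 10000 * xS,
    cC (136) 10000 + cC (5728) 10000 * xD + cC (-6022) 10000 * xV,
    cC (-12527) 10000 + cC (-9435) 10000 * xD + cC (-700) 10000 * xV,
    cC 0,
    cC 0⟩
  wL := ⟨cC (-1099900) 10000 + cC (3115484) 10000 * xD + cC (392346) 10000 * xV + cC (-754393) 10000 * (xD * xV) + cC (-42771) 10000 * (xV * xV) + cC (-1607982) 10000 * (xD * xD) + cC (254131) 10000 * xS,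
    cC (77194) 10000 + cC (-176857) 10000 * xD + cC (-18535) 10000 * xV,
    cC (70371) 10000 + cC (-214524) 10000 * xD + cC (-12526) 10000 * xV,
    cC 0,
    cC 0⟩

/-- The cut in `e`. -/
def tC72Cut : Ex :=
  cC (-40788) 10000 + cC (207693) 10000 * xD + cC (12214) 10000 * xV + cC (786) 10000 * (xV * xV) + cC (-19347) 10000 * (xD * xV) + cC (-70012) 10000 * (xD * xD) + cC (-82352) 10000 * xS

/-- The bound of `p` above the cut. -/
def tC72PU : Bnd :=
  ⟨cC (298523) 10000 + cC (44799) 10000 * xD + cC (-43668) 10000 * xV + cC (15205) 10000 * (xD * xV) + cC (6762) 10000 * (xV * xV) + cC (-67657) 10000 * (xD * xD) + cC (-316045) 10000 * xS,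
    cC (-21714) 10000 + cC (33842) 10000 * xD + cC (2872) 10000 * xV,
    cC 0,
    cC 0,
    cC 0⟩

/-- A multiplier above the cut. -/
def tC72K2p : Ex → Ex :=
  fun e => cC (27) 10000 + cC (-2596) 10000 * xD + cC (248) 10000 * xV + cC (-217) 10000 * e

/-- A multiplier above the cut. -/
def tC72K2m : Ex → Ex :=
  fun _ => cC (-1181) 10000 + cC (3767) 10000 * xD + cC (284) 10000 * xV

/-- A multiplier above the cut. -/
def tC72KapL : Ex → Ex :=
  fun e => cC (1149) 10000 + cC (-373) 10000 * xD + cC (-527) 10000 * xV + cC (59) 10000 * e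

/-- A multiplier above the cut. -/
def tC72KapU : Ex → Ex :=
  fun e => cC (276) 10000 + cC (547) 10000 * xD + cC (-457) 10000 * xV + cC (-122) 10000 * e

/-- Below the cut. -/
def tC72A : Piece :=
  tC72.below tC72Cut

/-- Above the cut. -/
def tC72B : Piece :=
  { tC72.above tC72Cut tC72PU with k2p := tC72K2p, k2m := tC72K2m, kapL := tC72KapL, kapU := tC72KapU }

/-- The least `u`. -/
def tC72Lo : Ex :=
  cC (71) 80

/-- A piece: `1.467 ≤ v < 1.488`. -/
def tC73 : Piece where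
  u₀ := cC (39) 40
  u₁ := cC (644) 1000 + cC (476) 1000 * xD + cC (119) 1000 * xV
  tLn := lowTn
  tLd := lowTd
  tUn := evN
  tUd := evD
  p₀ := cC (192952) 10000 + cC (-86898) 10000 * xD + cC (-37161) 10000 * xV + cC (72305) 10000 * (xD * xV) + cC (-33270) 10000 * (xD * xD) + cC (-121144) 10000 * xS
  zL := cC (-78238) 10000 + cC (329207) 10000 * xD + cC (36009) 10000 * xV + cC (-115308) 10000 * (xD * xV) + cC (-256377) 10000 * (xD * xD) + cC (1114) 10000 * xS
  zU := cC (105325) 10000 + cC (-382080) 10000 * xD + cC (-51739) 10000 * xV + cC (156493) 10000 * (xD * xV) + cC (220319) 10000 * (xD * xD) + cC (-4150) 10000 * xS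
  k2p := fun e => cC (-1719) 10000 + cC (-2469) 10000 * xD + cC (1712) 10000 * xV + cC (-137) 10000 * e
  k2m := fun _ => cC (-1340) 10000 + cC (4236) 10000 * xD + cC (294) 10000 * xV
  kapL := fun e => cC (3079) 10000 + cC (-5565) 10000 * xD + cC (-247) 10000 * xV + cC (372) 10000 * e
  kapU := fun e => cC (-153) 10000 + cC (-2746) 10000 * xD + cC (1142) 10000 * xV + cC (236) 10000 * e
  eL := ⟨cC (-748594) 10000 + cC (2713947) 10000 * xD + cC (333750) 10000 * xV + cC (-953644) 10000 * (xD * xV) + cC (-1816156) 10000 * (xD * xD) + cC (7497) 10000 * xS,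
    cC 0,
    cC 0,
    cC 0,
    cC 0⟩
  eH := ⟨cC (-21312) 10000 + cC (65925) 10000 * xD + cC (7753) 10000 * xV + cC (-14989) 10000 * (xD * xV) + cC (-7009) 10000 * (xD * xD) + cC (-32065) 10000 * xS,
    cC 0,
    cC 0,
    cC 0,
    cC (-830827) 10000 + cC (2584003) 10000 * xD + cC (556838) 10000 * xV + cC (-1711621) 10000 * (xD * xV)⟩
  pL := ⟨cC (-3079850) 10000 + cC (12330791) 10000 * xD + cC (1493689) 10000 * xV + cC (-4429264) 10000 * (xD * xV) + cC (-8251103) 10000 * (xD * xD) + cC (-129460) 10000 * xS,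
    cC (-155297) 10000 + cC (244687) 10000 * xD + cC (46232) 10000 * xV,
    cC 0,
    cC 0,
    cC 0⟩
  pU := ⟨cC (225457) 10000 + cC (97043) 10000 * xD + cC (-16532) 10000 * xV + cC (1372) 10000 * (xD * xV) + cC (-119283) 10000 * (xD * xD) + cC (-251134) 10000 * xS,
    cC (-26649) 10000 + cC (38793) 10000 * xD + cC (5390) 10000 * xV,
    cC 0,
    cC 0,
    cC (-4738952) 10000 + cC (14918031) 10000 * xD + cC (3212857) 10000 * xV + cC (-10063457) 10000 * (xD * xV)⟩
  kU := ⟨cC (-68670) 10000 + cC (145978) 10000 * xD + cC (21978) 10000 * xV + cC (-18166) 10000 * (xD * xV) + cC (-110563) 10000 * (xD * xD) + cC (15455) 10000 * xS,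
    cC (-15425) 10000 + cC (26779) 10000 * xD + cC (6575) 10000 * xV,
    cC (1880) 10000 + cC (-1805) 10000 * xD + cC (-545) 10000 * xV,
    cC 0,
    cC 0⟩
  kL := ⟨cC (-16449) 10000 + cC (44008) 10000 * xD + cC (-549) 10000 * xV + cC (-441) 10000 * (xD * xV) + cC (-57034) 10000 * (xD * xD) + cC (15128) 10000 * xS,
    cC (-767) 10000 + cC (11937) 10000 * xD + cC (-166) 10000 * xV,
    cC (118) 10000 + cC (477) 10000 * xD + cC (147) 10000 * xV,
    cC 0,
    cC 0⟩
  wU := ⟨cC (-807533) 10000 + cC (1471293) 10000 * xD + cC (295982) 10000 * xV + cC (-259265) 10000 * (xD * xV) + cC (-514558) 10000 * (xD * xD) + cC (151635) 10000 * xS,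
    cC (-117074) 10000 + cC (131056) 10000 * xD + cC (46773) 10000 * xV,
    cC (43167) 10000 + cC (-83971) 10000 * xD + cC (-21563) 10000 * xV,
    cC 0,
    cC 0⟩
  wL := ⟨cC (-3987639) 10000 + cC (11881893) 10000 * xD + cC (1687195) 10000 * xV + cC (-3577490) 10000 * (xD * xV) + cC (-6542565) 10000 * (xD * xD) + cC (137347) 10000 * xS,
    cC (20656) 10000 + cC (7473) 10000 * xD + cC (-20705) 10000 * xV,
    cC (243564) 10000 + cC (-381615) 10000 * xD + cC (-94274) 10000 * xV,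
    cC 0,
    cC 0⟩

/-- The least `u`. -/
def tC73Lo : Ex :=
  cC (61) 64

/-- A piece: `1.488 ≤ v < 1.51`. -/
def tC74 : Piece where
  u₀ := cC (39) 40
  u₁ := cC (783) 1000 + cC (462) 1000 * xD + cC (28) 1000 * xV
  tLn := lowTn
  tLd := lowTd
  tUn := evN
  tUd := evD
  p₀ := cC (193274) 10000 + cC (-86686) 10000 * xD + cC (-37067) 10000 * xV + cC (72000) 10000 * (xD * xV) + cC (-33452) 10000 * (xD * xD) + cC (-121693) 10000 * xS
  zL := cC (-118716) 10000 + cC (481941) 10000 * xD + cC (59597) 10000 * xV + cC (-192669) 10000 * (xD * xV) + cC (-315582) 10000 * (xD * xD) + cC (222) 10000 * xS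
  zU := cC (112892) 10000 + cC (-433120) 10000 * xD + cC (-56192) 10000 * xV + cC (175182) 10000 * (xD * xV) + cC (255914) 10000 * (xD * xD) + cC (120) 10000 * xS
  k2p := fun e => cC (3415) 10000 + cC (-13709) 10000 * xD + cC (1949) 10000 * xV + cC (888) 10000 * e
  k2m := fun _ => cC (-1397) 10000 + cC (4236) 10000 * xD + cC (332) 10000 * xV
  kapL := fun e => cC (275) 10000 + cC (-5181) 10000 * xD + cC (1457) 10000 * xV + cC (296) 10000 * e
  kapU := fun e => cC (-3711) 10000 + cC (5051) 10000 * xD + cC (1200) 10000 * xV + cC (-292) 10000 * e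
  eL := ⟨cC (-923379) 10000 + cC (3446734) 10000 * xD + cC (460654) 10000 * xV + cC (-1417945) 10000 * (xD * xV) + cC (-1874669) 10000 * (xD * xD) + cC (-24643) 10000 * xS,
    cC 0,
    cC 0,
    cC 0,
    cC 0⟩
  eH := ⟨cC (-22840) 10000 + cC (70280) 10000 * xD + cC (8629) 10000 * xV + cC (-17760) 10000 * (xD * xV) + cC (-7550) 10000 * (xD * xD) + cC (-31762) 10000 * xS,
    cC 0,
    cC 0,
    cC 0,
    cC (-53024) 10000 + cC (172444) 10000 * xD + cC (34109) 10000 * xV + cC (-91020) 10000 * (xD * xV)⟩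
  pL := ⟨cC (-3958039) 10000 + cC (16528396) 10000 * xD + cC (1751195) 10000 * xV + cC (-5221978) 10000 * (xD * xV) + cC (-12182941) 10000 * (xD * xD) + cC (-221572) 10000 * xS,
    cC (-260873) 10000 + cC (525459) 10000 * xD + cC (59185) 10000 * xV,
    cC 0,
    cC 0,
    cC 0⟩
  pU := ⟨cC (212099) 10000 + cC (-573030) 10000 * xD + cC (167589) 10000 * xV + cC (-384607) 10000 * (xD * xV) + cC (1093205) 10000 * (xD * xD) + cC (-156838) 10000 * xS,
    cC (-40303) 10000 + cC (-40852) 10000 * xD + cC (49734) 10000 * xV,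
    cC 0,
    cC 0,
    cC 0⟩
  kU := ⟨cC (-61596) 10000 + cC (100533) 10000 * xD + cC (20377) 10000 * xV + cC (-717) 10000 * (xD * xV) + cC (-104747) 10000 * (xD * xD) + cC (16121) 10000 * xS,
    cC (-20650) 10000 + cC (31017) 10000 * xD + cC (9098) 10000 * xV,
    cC (563) 10000 + cC (1901) 10000 * xD + cC (-426) 10000 * xV,
    cC 0,
    cC 0⟩
  kL := ⟨cC (-19597) 10000 + cC (62368) 10000 * xD + cC (1681) 10000 * xV + cC (-9736) 10000 * (xD * xV) + cC (-67809) 10000 * (xD * xD) + cC (14541) 10000 * xS,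
    cC (-1074) 10000 + cC (11790) 10000 * xD + cC (58) 10000 * xV,
    cC (-270) 10000 + cC (816) 10000 * xD + cC (318) 10000 * xV,
    cC 0,
    cC 0⟩
  wU := ⟨cC (237374) 10000 + cC (-2553617) 10000 * xD + cC (-95873) 10000 * xV + cC (840766) 10000 * (xD * xV) + cC (2181718) 10000 * (xD * xD) + cC (172875) 10000 * xS,
    cC (94707) 10000 + cC (-108954) 10000 * xD + cC (-43904) 10000 * xV,
    cC (62690) 10000 + cC (-48147) 10000 * xD + cC (-41103) 10000 * xV,
    cC 0,
    cC 0⟩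
  wL := ⟨cC (-3813992) 10000 + cC (13614244) 10000 * xD + cC (1250169) 10000 * xV + cC (-2939352) 10000 * (xD * xV) + cC (-10656120) 10000 * (xD * xD) + cC (165074) 10000 * xS,
    cC (-287065) 10000 + cC (555325) 10000 * xD + cC (68853) 10000 * xV,
    cC (101732) 10000 + cC (-221035) 10000 * xD + cC (-31076) 10000 * xV,
    cC 0,
    cC (482925) 10000 + cC (-1564881) 10000 * xD + cC (-324545) 10000 * xV + cC (1051668) 10000 * (xD * xV)⟩

/-- The cut in `e`. -/
def tC74Cut : Ex :=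
  cC (-127492) 10000 + cC (268312) 10000 * xD + cC (84211) 10000 * xV + cC (-19214) 10000 * (xV * xV) + cC (-59025) 10000 * (xD * xV) + cC (-94839) 10000 * (xD * xD) + cC (-32599) 10000 * xS

/-- The bound of `p` above the cut. -/
def tC74PU : Bnd :=
  ⟨cC (281955) 10000 + cC (-110889) 10000 * xD + cC (-39727) 10000 * xV + cC (52564) 10000 * (xD * xV) + cC (48279) 10000 * (xD * xD) + cC (-247278) 10000 * xS,
    cC (-16440) 10000 + cC (24401) 10000 * xD + cC (1463) 10000 * xV,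
    cC 0,
    cC 0,
    cC (-850406) 10000 + cC (2742970) 10000 * xD + cC (597450) 10000 * xV + cC (-1874238) 10000 * (xD * xV)⟩

/-- A multiplier above the cut. -/
def tC74K2p : Ex → Ex :=
  fun e => cC (3664) 10000 + cC (-13888) 10000 * xD + cC (1900) 10000 * xV + cC (953) 10000 * e

/-- A multiplier above the cut. -/
def tC74K2m : Ex → Ex :=
  fun _ => cC (-1361) 10000 + cC (4302) 10000 * xD + cC (295) 10000 * xV

/-- A multiplier above the cut. -/
def tC74KapL : Ex → Ex :=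
  fun e => cC (2661) 10000 + cC (-4898) 10000 * xD + cC (10) 10000 * xV + cC (456) 10000 * e

/-- A multiplier above the cut. -/
def tC74KapU : Ex → Ex :=
  fun e => cC (1087) 10000 + cC (-3609) 10000 * xD + cC (677) 10000 * xV + cC (381) 10000 * e

/-- Below the cut. -/
def tC74A : Piece :=
  tC74.below tC74Cut

/-- Above the cut. -/
def tC74B : Piece :=
  { tC74.above tC74Cut tC74PU with k2p := tC74K2p, k2m := tC74K2m, kapL := tC74KapL, kapU := tC74KapU }

/-- The least `u`. -/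
def tC74Lo : Ex :=
  cC (61) 64

/-- A piece: `1.599 ≤ v < 1.743`. -/
def tC75 : Piece where
  u₀ := cC (39) 40
  u₁ := cC (798) 1000 + cC (351) 1000 * xD + cC (44) 1000 * xV
  tLn := lowTn
  tLd := lowTd
  tUn := evN
  tUd := evD
  p₀ := cC (198853) 10000 + cC (-88275) 10000 * xD + cC (-34818) 10000 * xV + cC (65993) 10000 * (xD * xV) + cC (-20887) 10000 * (xD * xD) + cC (-132071) 10000 * xS
  zL := cC (-27658) 10000 + cC (88742) 10000 * xD + cC (19356) 10000 * xV + cC (-32868) 10000 * (xD * xV) + cC (-3317) 10000 * (xV * xV) + cC (-71511) 10000 * (xD * xD) + cC (1494) 10000 * xS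
  zU := cC (42034) 10000 + cC (-112039) 10000 * xD + cC (-26172) 10000 * xV + cC (33338) 10000 * (xD * xV) + cC (4777) 10000 * (xV * xV) + cC (86658) 10000 * (xD * xD) + cC (-3217) 10000 * xS
  k2p := fun e => cC (29909) 10000 + cC (-51755) 10000 * xD + cC (-4505) 10000 * xV + cC (3639) 10000 * e
  k2m := fun _ => cC (-872) 10000 + cC (2936) 10000 * xD + cC (237) 10000 * xV
  kapL := fun e => cC (1526) 10000 + cC (-3200) 10000 * xD + cC (478) 10000 * xV + cC (491) 10000 * e
  kapU := fun e => cC (2555) 10000 + cC (-4365) 10000 * xD + cC (286) 10000 * xV + cC (694) 10000 * e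
  eL := ⟨cC (-253159) 10000 + cC (591942) 10000 * xD + cC (155020) 10000 * xV + cC (-26884) 10000 * (xV * xV) + cC (-178925) 10000 * (xD * xV) + cC (-326982) 10000 * (xD * xD) + cC (-11002) 10000 * xS,
    cC 0,
    cC 0,
    cC 0,
    cC 0⟩
  eH := ⟨cC (-26847) 10000 + cC (83572) 10000 * xD + cC (8945) 10000 * xV + cC (728) 10000 * (xV * xV) + cC (-27123) 10000 * (xD * xV) + cC (-4901) 10000 * (xD * xD) + cC (-28874) 10000 * xS,
    cC 0,
    cC 0,
    cC 0,
    cC (1947) 10000 + cC (17122) 10000 * xD + cC (-888) 10000 * xV + cC (7424) 10000 * (xD * xV)⟩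
  pL := ⟨cC (-935996) 10000 + cC (3222676) 10000 * xD + cC (686640) 10000 * xV + cC (-977795) 10000 * (xD * xV) + cC (-115079) 10000 * (xV * xV) + cC (-2342559) 10000 * (xD * xD) + cC (-166131) 10000 * xS,
    cC (-76489) 10000 + cC (122507) 10000 * xD + cC (19070) 10000 * xV,
    cC 0,
    cC 0,
    cC 0⟩
  pU := ⟨cC (283501) 10000 + cC (-19591) 10000 * xD + cC (-46754) 10000 * xV + cC (31122) 10000 * (xD * xV) + cC (5274) 10000 * (xV * xV) + cC (2088) 10000 * (xD * xD) + cC (-270005) 10000 * xS,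
    cC (-21807) 10000 + cC (39216) 10000 * xD + cC (2491) 10000 * xV,
    cC 0,
    cC 0,
    cC (-2468) 10000 + cC (122777) 10000 * xD + cC (31506) 10000 * xV + cC (-124980) 10000 * (xD * xV)⟩
  kU := ⟨cC (-19322) 10000 + cC (32840) 10000 * xD + cC (3862) 10000 * xV + cC (-2181) 10000 * (xD * xV) + cC (-213) 10000 * (xV * xV) + cC (-37952) 10000 * (xD * xD) + cC (13350) 10000 * xS,
    cC (-2753) 10000 + cC (13399) 10000 * xD + cC (819) 10000 * xV,
    cC (235) 10000 + cC (1356) 10000 * xD + cC (-81) 10000 * xV,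
    cC 0,
    cC 0⟩
  kL := ⟨cC (-8417) 10000 + cC (15042) 10000 * xD + cC (-2029) 10000 * xV + cC (3757) 10000 * (xD * xV) + cC (130) 10000 * (xV * xV) + cC (-32636) 10000 * (xD * xD) + cC (12978) 10000 * xS,
    cC (-313) 10000 + cC (10585) 10000 * xD + cC (-192) 10000 * xV,
    cC (-53) 10000 + cC (1255) 10000 * xD + cC (101) 10000 * xV,
    cC 0,
    cC 0⟩
  wU := ⟨cC (-159294) 10000 + cC (212553) 10000 * xD + cC (36323) 10000 * xV + cC (-32437) 10000 * (xD * xV) + cC (-1817) 10000 * (xV * xV) + cC (-85740) 10000 * (xD * xD) + cC (129640) 10000 * xS,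
    cC (-13870) 10000 + cC (25507) 10000 * xD + cC (-446) 10000 * xV,
    cC (-3559) 10000 + cC (-11598) 10000 * xD + cC (-5046) 10000 * xV,
    cC 0,
    cC 0⟩
  wL := ⟨cC (-1080171) 10000 + cC (2501924) 10000 * xD + cC (612979) 10000 * xV + cC (-678185) 10000 * (xD * xV) + cC (-93967) 10000 * (xV * xV) + cC (-1454208) 10000 * (xD * xD) + cC (117488) 10000 * xS,
    cC (7586) 10000 + cC (15551) 10000 * xD + cC (-12508) 10000 * xV,
    cC (48836) 10000 + cC (-90141) 10000 * xD + cC (-24456) 10000 * xV,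
    cC 0,
    cC 0⟩

/-- The least `u`. -/
def tC75Lo : Ex :=
  cC (149) 160

/-- A piece: `1.599 ≤ v < 1.669`. -/
def tC76 : Piece where
  u₀ := cC (39) 40
  u₁ := cC (845) 1000 + cC (399) 1000 * xD + cC (6) 1000 * xV
  tLn := lowTn
  tLd := lowTd
  tUn := evN
  tUd := evD
  p₀ := cC (199555) 10000 + cC (-103842) 10000 * xD + cC (-36355) 10000 * xV + cC (70727) 10000 * (xD * xV) + cC (-6002) 10000 * (xD * xD) + cC (-127827) 10000 * xS
  zL := cC (-109313) 10000 + cC (358002) 10000 * xD + cC (76464) 10000 * xV + cC (-123297) 10000 * (xD * xV) + cC (-12837) 10000 * (xV * xV) + cC (-282787) 10000 * (xD * xD) + cC (-3983) 10000 * xS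
  zU := cC (80931) 10000 + cC (-257858) 10000 * xD + cC (-52438) 10000 * xV + cC (79096) 10000 * (xD * xV) + cC (8975) 10000 * (xV * xV) + cC (208565) 10000 * (xD * xD) + cC (1466) 10000 * xS
  k2p := fun e => cC (1994) 10000 + cC (-831) 10000 * xD + cC (51) 10000 * xV + cC (701) 10000 * e
  k2m := fun _ => cC (-1160) 10000 + cC (3778) 10000 * xD + cC (267) 10000 * xV
  kapL := fun e => cC (-20572) 10000 + cC (37236) 10000 * xD + cC (2456) 10000 * xV + cC (-3136) 10000 * e
  kapU := fun e => cC (-25434) 10000 + cC (46173) 10000 * xD + cC (2972) 10000 * xV + cC (-3833) 10000 * e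
  eL := ⟨cC (-581021) 10000 + cC (1854177) 10000 * xD + cC (358573) 10000 * xV + cC (-58086) 10000 * (xV * xV) + cC (-561656) 10000 * (xD * xV) + cC (-1417015) 10000 * (xD * xD) + cC (-32587) 10000 * xS,
    cC 0,
    cC 0,
    cC 0,
    cC 0⟩
  eH := ⟨cC (-23621) 10000 + cC (78811) 10000 * xD + cC (6538) 10000 * xV + cC (1227) 10000 * (xV * xV) + cC (-24001) 10000 * (xD * xV) + cC (-5724) 10000 * (xD * xD) + cC (-29872) 10000 * xS,
    cC 0,
    cC 0,
    cC 0,
    cC (-105165) 10000 + cC (365516) 10000 * xD + cC (64237) 10000 * xV + cC (-204272) 10000 * (xD * xV)⟩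
  pL := ⟨cC (-2861084) 10000 + cC (10057542) 10000 * xD + cC (1771082) 10000 * xV + cC (-2794216) 10000 * (xD * xV) + cC (-267104) 10000 * (xV * xV) + cC (-8322715) 10000 * (xD * xD) + cC (-243027) 10000 * xS,
    cC (-199060) 10000 + cC (353478) 10000 * xD + cC (55426) 10000 * xV,
    cC 0,
    cC 0,
    cC 0⟩
  pU := ⟨cC (541145) 10000 + cC (-891650) 10000 * xD + cC (-132798) 10000 * xV + cC (167822) 10000 * (xD * xV) + cC (11182) 10000 * (xV * xV) + cC (431792) 10000 * (xD * xD) + cC (-154414) 10000 * xS,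
    cC (29511) 10000 + cC (2781) 10000 * xD + cC (-4189) 10000 * xV,
    cC 0,
    cC 0,
    cC 0⟩
  kU := ⟨cC (59308) 10000 + cC (-179168) 10000 * xD + cC (-53633) 10000 * xV + cC (75223) 10000 * (xD * xV) + cC (9336) 10000 * (xV * xV) + cC (91732) 10000 * (xD * xD) + cC (18079) 10000 * xS,
    cC (-11464) 10000 + cC (29109) 10000 * xD + cC (3409) 10000 * xV,
    cC (-3928) 10000 + cC (7846) 10000 * xD + cC (1384) 10000 * xV,
    cC 0,
    cC 0⟩
  kL := ⟨cC (-15795) 10000 + cC (47095) 10000 * xD + cC (879) 10000 * xV + cC (-4506) 10000 * (xD * xV) + cC (-195) 10000 * (xV * xV) + cC (-56746) 10000 * (xD * xD) + cC (13390) 10000 * xS,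
    cC (-1035) 10000 + cC (11293) 10000 * xD + cC (113) 10000 * xV,
    cC (-212) 10000 + cC (736) 10000 * xD + cC (274) 10000 * xV,
    cC 0,
    cC 0⟩
  wU := ⟨cC (141755) 10000 + cC (-387474) 10000 * xD + cC (-148223) 10000 * xV + cC (128567) 10000 * (xD * xV) + cC (20841) 10000 * (xV * xV) + cC (245413) 10000 * (xD * xD) + cC (143044) 10000 * xS,
    cC (-39) 10000 + cC (1121) 10000 * xD + cC (-4651) 10000 * xV,
    cC (-23078) 10000 + cC (4395) 10000 * xD + cC (4124) 10000 * xV,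
    cC 0,
    cC 0⟩
  wL := ⟨cC (-1066841) 10000 + cC (3903406) 10000 * xD + cC (512900) 10000 * xV + cC (-1038694) 10000 * (xD * xV) + cC (-85489) 10000 * (xV * xV) + cC (-3150796) 10000 * (xD * xD) + cC (143825) 10000 * xS,
    cC (-232591) 10000 + cC (297942) 10000 * xD + cC (84570) 10000 * xV,
    cC (-83178) 10000 + cC (33133) 10000 * xD + cC (36222) 10000 * xV,
    cC 0,
    cC (1790207) 10000 + cC (-6608240) 10000 * xD + cC (-1125086) 10000 * xV + cC (4152143) 10000 * (xD * xV)⟩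

/-- The cut in `e`. -/
def tC76Cut : Ex :=
  cC (-45278) 10000 + cC (141241) 10000 * xD + cC (8419) 10000 * xV + cC (-209) 10000 * (xV * xV) + cC (-10595) 10000 * (xD * xV) + cC (-27460) 10000 * (xD * xD) + cC (-31488) 10000 * xS

/-- The bound of `p` above the cut. -/
def tC76PU : Bnd :=
  ⟨cC (344886) 10000 + cC (-288296) 10000 * xD + cC (-77749) 10000 * xV + cC (86003) 10000 * (xD * xV) + cC (8216) 10000 * (xV * xV) + cC (226342) 10000 * (xD * xD) + cC (-250323) 10000 * xS,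
    cC (-10351) 10000 + cC (13775) 10000 * xD + cC (-393) 10000 * xV,
    cC 0,
    cC 0,
    cC (7456) 10000 + cC (71032) 10000 * xD + cC (29075) 10000 * xV + cC (-104764) 10000 * (xD * xV)⟩

/-- A multiplier above the cut. -/
def tC76K2p : Ex → Ex :=
  fun e => cC (2597) 10000 + cC (-2085) 10000 * xD + cC (39) 10000 * xV + cC (808) 10000 * e

/-- A multiplier above the cut. -/
def tC76K2m : Ex → Ex :=
  fun _ => cC (-1160) 10000 + cC (3778) 10000 * xD + cC (267) 10000 * xV

/-- A multiplier above the cut. -/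
def tC76KapL : Ex → Ex :=
  fun e => cC (582) 10000 + cC (-1689) 10000 * xD + cC (696) 10000 * xV + cC (418) 10000 * e

/-- A multiplier above the cut. -/
def tC76KapU : Ex → Ex :=
  fun e => cC (9498) 10000 + cC (-16420) 10000 * xD + cC (-1986) 10000 * xV + cC (486) 10000 * e

/-- Below the cut. -/
def tC76A : Piece :=
  tC76.below tC76Cut

/-- Above the cut. -/
def tC76B : Piece :=
  { tC76.above tC76Cut tC76PU with k2p := tC76K2p, k2m := tC76K2m, kapL := tC76KapL, kapU := tC76KapU }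

/-- The least `u`. -/
def tC76Lo : Ex :=
  cC (149) 160

/-- A piece: `1.669 ≤ v < 1.743`. -/
def tC77 : Piece where
  u₀ := cC (39) 40
  u₁ := cC (974) 1000 + cC (0) 1000 * xD + cC (0) 1000 * xV
  tLn := lowTn
  tLd := lowTd
  tUn := upCn
  tUd := upCd
  p₀ := cC (199475) 10000 + cC (-96812) 10000 * xD + cC (-35947) 10000 * xV + cC (69290) 10000 * (xD * xV) + cC (-15477) 10000 * (xD * xD) + cC (-129537) 10000 * xS
  zL := cC (8546) 10000 + cC (-9974) 10000 * xD + cC (-2570) 10000 * xV + cC (-829) 10000 * (xD * xV) + cC (325) 10000 * (xV * xV) + cC (5955) 10000 * (xD * xD) + cC (-3991) 10000 * xS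
  zU := cC (9730) 10000 + cC (-13801) 10000 * xD + cC (-2411) 10000 * xV + cC (-1155) 10000 * (xD * xV) + cC (322) 10000 * (xV * xV) + cC (10598) 10000 * (xD * xD) + cC (-3968) 10000 * xS
  k2p := fun e => cC (-7322) 10000 + cC (16785) 10000 * xD + cC (2199) 10000 * xV + cC (121) 10000 * e
  k2m := fun e => cC (-3166) 10000 + cC (7396) 10000 * xD + cC (885) 10000 * xV + cC (20) 10000 * e
  kapL := fun _ => cC (2) 10000
  kapU := fun _ => cC (2) 10000
  eL := ⟨cC (814063) 10000 + cC (3405072) 10000 * xD + cC (-176681) 10000 * xV + cC (82209) 10000 * (xV * xV) + cC (-1473259) 10000 * (xD * xV) + cC (-4445900) 10000 * (xD * xD) + cC (-1027230) 10000 * xS,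
    cC 0,
    cC 0,
    cC 0,
    cC 0⟩
  eH := ⟨cC (814224) 10000 + cC (3405072) 10000 * xD + cC (-176681) 10000 * xV + cC (82209) 10000 * (xV * xV) + cC (-1473259) 10000 * (xD * xV) + cC (-4445900) 10000 * (xD * xD) + cC (-1027230) 10000 * xS,
    cC 0,
    cC 0,
    cC 0,
    cC (250000) 10000⟩
  pL := ⟨cC (200008) 10000 + cC (-96812) 10000 * xD + cC (-35947) 10000 * xV + cC (69290) 10000 * (xD * xV) + cC (-15477) 10000 * (xD * xD) + cC (-129537) 10000 * xS,
    cC 0,
    cC 0,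
    cC 0,
    cC 0⟩
  pU := ⟨cC (200408) 10000 + cC (-96812) 10000 * xD + cC (-35947) 10000 * xV + cC (69290) 10000 * (xD * xV) + cC (-15477) 10000 * (xD * xD) + cC (-129537) 10000 * xS,
    cC 0,
    cC 0,
    cC 0,
    cC (43826437) 10000 + cC (-146766181) 10000 * xD + cC (-24942195) 10000 * xV + cC (83573567) 10000 * (xD * xV)⟩
  kU := ⟨cC (-838) 10000,
    cC 0,
    cC 0,
    cC 0,
    cC (3533) 10000 + cC (-3857) 10000 * xD + cC (-1888) 10000 * xV + cC (7636) 10000 * (xD * xV)⟩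
  kL := ⟨cC (1414) 10000,
    cC 0,
    cC 0,
    cC 0,
    cC (27056664) 10000 + cC (-90556158) 10000 * xD + cC (-15416756) 10000 * xV + cC (51610144) 10000 * (xD * xV)⟩
  wU := ⟨cC (-1644584) 10000 + cC (-6532368) 10000 * xD + cC (338949) 10000 * xV + cC (2826334) 10000 * (xD * xV) + cC (-157712) 10000 * (xV * xV) + cC (8529116) 10000 * (xD * xD) + cC (1970661) 10000 * xS,
    cC (19184) 10000,
    cC 0,
    cC 0,
    cC (140659494) 10000 + cC (-474880122) 10000 * xD + cC (-80699651) 10000 * xV + cC (272449869) 10000 * (xD * xV)⟩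
  wL := ⟨cC (-58377) 10000,
    cC 0,
    cC 0,
    cC 0,
    cC (21026981) 10000 + cC (-70356721) 10000 * xD + cC (-12015933) 10000 * xV + cC (40272010) 10000 * (xD * xV)⟩

/-- The cut in `e`. -/
def tC77Cut : Ex :=
  cC (814066) 10000 + cC (3405072) 10000 * xD + cC (-176681) 10000 * xV + cC (82209) 10000 * (xV * xV) + cC (-1473259) 10000 * (xD * xV) + cC (-4445900) 10000 * (xD * xD) + cC (-1027230) 10000 * xS

/-- The bound of `p` above the cut. -/
def tC77PU : Bnd :=
  ⟨cC (200408) 10000 + cC (-96812) 10000 * xD + cC (-35947) 10000 * xV + cC (69290) 10000 * (xD * xV) + cC (-15477) 10000 * (xD * xD) + cC (-129537) 10000 * xS,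
    cC 0,
    cC 0,
    cC 0,
    cC (43826437) 10000 + cC (-146766181) 10000 * xD + cC (-24942195) 10000 * xV + cC (83573567) 10000 * (xD * xV)⟩

/-- A multiplier above the cut. -/
def tC77K2p : Ex → Ex :=
  fun e => cC (-7403) 10000 + cC (16967) 10000 * xD + cC (2218) 10000 * xV + cC (121) 10000 * e

/-- A multiplier above the cut. -/
def tC77K2m : Ex → Ex :=
  fun e => cC (-3166) 10000 + cC (7396) 10000 * xD + cC (885) 10000 * xV + cC (20) 10000 * e

/-- A multiplier above the cut. -/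
def tC77KapL : Ex → Ex :=
  fun _ => cC (2) 10000

/-- A multiplier above the cut. -/
def tC77KapU : Ex → Ex :=
  fun _ => cC (2) 10000

/-- Below the cut. -/
def tC77A : Piece :=
  tC77.below tC77Cut

/-- Above the cut. -/
def tC77B : Piece :=
  { tC77.above tC77Cut tC77PU with k2p := tC77K2p, k2m := tC77K2m, kapL := tC77KapL, kapU := tC77KapU }

/-- The least `u`. -/
def tC77Lo : Ex :=
  cC (149) 160

/-- A piece: `0.353 ≤ v < 0.43`. -/
def tC78 : Piece where
  u₀ := cC (7) 10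
  u₁ := cC (3) 5
  tLn := lowTn
  tLd := lowTd
  tUn := upCn
  tUd := upCd
  p₀ := cC (195743) 10000 + cC (-140019) 10000 * xD + cC (-36611) 10000 * xV + cC (74800) 10000 * (xD * xV) + cC (80623) 10000 * (xD * xD) + cC (-118053) 10000 * xS
  zL := cC (10436) 10000 + cC (-15745) 10000 * xD + cC (-1059) 10000 * xV + cC (-7832) 10000 * (xD * xV) + cC (311) 10000 * (xV * xV) + cC (21312) 10000 * (xD * xD) + cC (-1589) 10000 * xS
  zU := cC (10518) 10000 + cC (-7187) 10000 * xD + cC (-810) 10000 * xV + cC (-9415) 10000 * (xD * xV) + cC (467) 10000 * (xV * xV) + cC (5551) 10000 * (xD * xD) + cC (-1552) 10000 * xS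
  k2p := fun _ => cC (10) 10000
  k2m := fun e => cC (717) 10000 + cC (15052) 10000 * xD + cC (-4968) 10000 * xV + cC (-10) 10000 * e
  kapL := fun _ => cC (33) 10000 + cC (-89) 10000 * xD + cC (45) 10000 * xV
  kapU := fun _ => cC (26) 10000 + cC (-88) 10000 * xD + cC (72) 10000 * xV
  eL := ⟨cC (-3559293) 10000 + cC (204858) 10000 * xD + cC (5434432) 10000 * xV + cC (-74895) 10000 * (xV * xV) + cC (-5641541) 10000 * (xD * xV) + cC (7134756) 10000 * (xD * xD) + cC (1788043) 10000 * xS,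
    cC 0,
    cC 0,
    cC 0,
    cC 0⟩
  eH := ⟨cC (-3558778) 10000 + cC (204858) 10000 * xD + cC (5434432) 10000 * xV + cC (-74895) 10000 * (xV * xV) + cC (-5641541) 10000 * (xD * xV) + cC (7134756) 10000 * (xD * xD) + cC (1788043) 10000 * xS,
    cC 0,
    cC 0,
    cC (800000) 10000,
    cC 0⟩
  pL := ⟨cC (196324) 10000 + cC (-140019) 10000 * xD + cC (-36611) 10000 * xV + cC (74800) 10000 * (xD * xV) + cC (80623) 10000 * (xD * xD) + cC (-118053) 10000 * xS,
    cC 0,
    cC 0,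
    cC (24742) 10000,
    cC 0⟩
  pU := ⟨cC (196761) 10000 + cC (-140019) 10000 * xD + cC (-36611) 10000 * xV + cC (74800) 10000 * (xD * xV) + cC (80623) 10000 * (xD * xD) + cC (-118053) 10000 * xS,
    cC 0,
    cC 0,
    cC 0,
    cC 0⟩
  kU := ⟨cC (-19922) 10000,
    cC 0,
    cC 0,
    cC (102992) 10000,
    cC 0⟩
  kL := ⟨cC (-5810) 10000,
    cC 0,
    cC 0,
    cC (219731) 10000,
    cC 0⟩
  wU := ⟨cC (-62529) 10000,
    cC 0,
    cC 0,
    cC (152798) 10000,
    cC 0⟩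
  wL := ⟨cC (-7601) 10000,
    cC 0,
    cC 0,
    cC (780440) 10000,
    cC 0⟩

/-- A piece: `0.353 ≤ v < 0.43`. -/
def tC79 : Piece where
  u₀ := cC (7) 10
  u₁ := cC (3) 5
  tLn := lowTn
  tLd := lowTd
  tUn := upCn
  tUd := upCd
  p₀ := cC (182759) 10000 + cC (-123310) 10000 * xD + cC (-35002) 10000 * xV + cC (66751) 10000 * (xD * xV) + cC (55472) 10000 * (xD * xD) + cC (-102249) 10000 * xS
  zL := cC (10377) 10000 + cC (-9915) 10000 * xD + cC (-1569) 10000 * xV + cC (-6655) 10000 * (xD * xV) + cC (610) 10000 * (xV * xV) + cC (7433) 10000 * (xD * xD) + cC (-2333) 10000 * xS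
  zU := cC (10419) 10000 + cC (-1730) 10000 * xD + cC (-1502) 10000 * xV + cC (-7161) 10000 * (xD * xV) + cC (711) 10000 * (xV * xV) + cC (-9190) 10000 * (xD * xD) + cC (-2077) 10000 * xS
  k2p := fun _ => cC (10) 10000
  k2m := fun e => cC (-5542) 10000 + cC (22190) 10000 * xD + cC (1949) 10000 * xV + cC (-68) 10000 * e
  kapL := fun e => cC (-160) 10000 + cC (-126) 10000 * xD + cC (758) 10000 * xV + cC (1) 10000 * e
  kapU := fun e => cC (489) 10000 + cC (-581) 10000 * xD + cC (-589) 10000 * xV + cC (2) 10000 * e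
  eL := ⟨cC (-5023583) 10000 + cC (4551663) 10000 * xD + cC (9950453) 10000 * xV + cC (-3143331) 10000 * (xV * xV) + cC (-13940387) 10000 * (xD * xV) + cC (4779031) 10000 * (xD * xD) + cC (1837602) 10000 * xS,
    cC 0,
    cC 0,
    cC (2439) 10000,
    cC 0⟩
  eH := ⟨cC (-3259784) 10000 + cC (-2225599) 10000 * xD + cC (5225926) 10000 * xV + cC (5983) 10000 * (xV * xV) + cC (-4814149) 10000 * (xD * xV) + cC (11255716) 10000 * (xD * xD) + cC (1837602) 10000 * xS,
    cC 0,
    cC 0,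
    cC (800000) 10000,
    cC 0⟩
  pL := ⟨cC (45060) 10000 + cC (131971) 10000 * xD + cC (297319) 10000 * xV + cC (-440754) 10000 * (xD * xV) + cC (-179042) 10000 * (xV * xV) + cC (-11511) 10000 * (xD * xD) + cC (-71649) 10000 * xS,
    cC (-167) 10000,
    cC 0,
    cC (10039) 10000,
    cC 0⟩
  pU := ⟨cC (183725) 10000 + cC (-123310) 10000 * xD + cC (-35002) 10000 * xV + cC (66751) 10000 * (xD * xV) + cC (55472) 10000 * (xD * xD) + cC (-102249) 10000 * xS,
    cC 0,
    cC 0,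
    cC 0,
    cC 0⟩
  kU := ⟨cC (731453) 10000 + cC (-1005571) 10000 * xD + cC (-2383316) 10000 * xV + cC (3934999) 10000 * (xD * xV) + cC (1772416) 10000 * (xV * xV) + cC (-291006) 10000 * (xD * xD) + cC (-252763) 10000 * xS,
    cC (3897) 10000 + cC (-4728) 10000 * xD + cC (-3384) 10000 * xV,
    cC (54597) 10000 + cC (-92077) 10000 * xD + cC (-80542) 10000 * xV,
    cC (3172) 10000,
    cC 0⟩
  kL := ⟨cC (385052) 10000 + cC (-1555649) 10000 * xD + cC (3319902) 10000 * xV + cC (-7600697) 10000 * (xD * xV) + cC (-5535110) 10000 * (xV * xV) + cC (710013) 10000 * (xD * xD) + cC (247967) 10000 * xS,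
    cC (-10297) 10000 + cC (16209) 10000 * xD + cC (13260) 10000 * xV,
    cC (-328283) 10000 + cC (603455) 10000 * xD + cC (465465) 10000 * xV,
    cC 0,
    cC 0⟩
  wU := ⟨cC (-502690) 10000 + cC (912405) 10000 * xD + cC (-270566) 10000 * xV + cC (1471685) 10000 * (xD * xV) + cC (1668676) 10000 * (xV * xV) + cC (-303247) 10000 * (xD * xD) + cC (-48087) 10000 * xS,
    cC (2841) 10000 + cC (-4348) 10000 * xD + cC (-4189) 10000 * xV,
    cC (120960) 10000 + cC (-186675) 10000 * xD + cC (-196262) 10000 * xV,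
    cC (24644) 10000,
    cC 0⟩
  wL := ⟨cC (766726) 10000 + cC (-5524730) 10000 * xD + cC (16851179) 10000 * xV + cC (-35473810) 10000 * (xD * xV) + cC (-29517489) 10000 * (xV * xV) + cC (5484458) 10000 * (xD * xD) + cC (1785511) 10000 * xS,
    cC (-51862) 10000 + cC (68173) 10000 * xD + cC (68231) 10000 * xV,
    cC (-1594296) 10000 + cC (2499931) 10000 * xD + cC (2544808) 10000 * xV,
    cC 0,
    cC 0⟩

/-- A piece: `0.353 ≤ v < 0.43`. -/
def tC80 : Piece where
  u₀ := cC (7) 10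
  u₁ := cC (3) 5
  tLn := lowTn
  tLd := lowTd
  tUn := upCn
  tUd := upCd
  p₀ := cC (176629) 10000 + cC (-112908) 10000 * xD + cC (-35000) 10000 * xV + cC (65890) 10000 * (xD * xV) + cC (40383) 10000 * (xD * xD) + cC (-95532) 10000 * xS
  zL := cC (10382) 10000 + cC (-7860) 10000 * xD + cC (-1851) 10000 * xV + cC (-6125) 10000 * (xD * xV) + cC (784) 10000 * (xV * xV) + cC (3585) 10000 * (xD * xD) + cC (-2709) 10000 * xS
  zU := cC (10452) 10000 + cC (22) 10000 * xD + cC (-1972) 10000 * xV + cC (-5857) 10000 * (xD * xV) + cC (845) 10000 * (xV * xV) + cC (-13447) 10000 * (xD * xD) + cC (-2330) 10000 * xS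
  k2p := fun _ => cC (10) 10000
  k2m := fun e => cC (-7540) 10000 + cC (28940) 10000 * xD + cC (987) 10000 * xV + cC (-112) 10000 * e
  kapL := fun e => cC (-1288) 10000 + cC (5033) 10000 * xD + cC (-67) 10000 * xV + cC (3) 10000 * e
  kapU := fun e => cC (123) 10000 + cC (-854) 10000 * xD + cC (711) 10000 * xV + cC (3) 10000 * e
  eL := ⟨cC (-7292156) 10000 + cC (15003658) 10000 * xD + cC (18617137) 10000 * xV + cC (-10960104) 10000 * (xV * xV) + cC (-26760088) 10000 * (xD * xV) + cC (-5778511) 10000 * (xD * xD) + cC (997220) 10000 * xS,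
    cC 0,
    cC 0,
    cC (2728) 10000,
    cC 0⟩
  eH := ⟨cC (-2012963) 10000 + cC (-1310777) 10000 * xD + cC (3376308) 10000 * xV + cC (-11335) 10000 * (xV * xV) + cC (-3077967) 10000 * (xD * xV) + cC (6745733) 10000 * (xD * xD) + cC (997220) 10000 * xS,
    cC 0,
    cC 0,
    cC (508625) 10000,
    cC 0⟩
  pL := ⟨cC (187059) 10000 + cC (-159890) 10000 * xD + cC (-57576) 10000 * xV + cC (73669) 10000 * (xD * xV) + cC (2730) 10000 * (xV * xV) + cC (95123) 10000 * (xD * xD) + cC (-88511) 10000 * xS,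
    cC (830) 10000 + cC (-1041) 10000 * xD + cC (-1603) 10000 * xV,
    cC 0,
    cC (10049) 10000,
    cC 0⟩
  pU := ⟨cC (268084) 10000 + cC (-485164) 10000 * xD + cC (-208645) 10000 * xV + cC (496525) 10000 * (xD * xV) + cC (60762) 10000 * (xV * xV) + cC (342925) 10000 * (xD * xD) + cC (-93240) 10000 * xS,
    cC (537) 10000 + cC (-1574) 10000 * xD + cC (-241) 10000 * xV,
    cC 0,
    cC 0,
    cC 0⟩
  kU := ⟨cC (334147) 10000 + cC (-1201766) 10000 * xD + cC (-614551) 10000 * xV + cC (-1603233) 10000 * (xD * xV) + cC (2662745) 10000 * (xV * xV) + cC (1025117) 10000 * (xD * xD) + cC (-66630) 10000 * xS,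
    cC (564) 10000 + cC (7438) 10000 * xD + cC (-5802) 10000 * xV,
    cC (8211) 10000 + cC (162448) 10000 * xD + cC (-152013) 10000 * xV,
    cC (9669) 10000,
    cC 0⟩
  kL := ⟨cC (1407626) 10000 + cC (-3208961) 10000 * xD + cC (160190) 10000 * xV + cC (-2407077) 10000 * (xD * xV) + cC (-3951672) 10000 * (xV * xV) + cC (885351) 10000 * (xD * xD) + cC (174037) 10000 * xS,
    cC (-5254) 10000 + cC (9) 10000 * xD + cC (11766) 10000 * xV,
    cC (-326728) 10000 + cC (485219) 10000 * xD + cC (513308) 10000 * xV,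
    cC 0,
    cC 0⟩
  wU := ⟨cC (-551873) 10000 + cC (118142) 10000 * xD + cC (468829) 10000 * xV + cC (425765) 10000 * (xD * xV) + cC (2196934) 10000 * (xV * xV) + cC (265306) 10000 * (xD * xD) + cC (-56977) 10000 * xS,
    cC (4038) 10000 + cC (-1633) 10000 * xD + cC (-9317) 10000 * xV,
    cC (132056) 10000 + cC (-67942) 10000 * xD + cC (-317397) 10000 * xV,
    cC (22224) 10000,
    cC 0⟩
  wL := ⟨cC (-1650158) 10000 + cC (5891310) 10000 * xD + cC (13049353) 10000 * xV + cC (-12442323) 10000 * (xD * xV) + cC (-31067010) 10000 * (xV * xV) + cC (-2227537) 10000 * (xD * xD) + cC (998815) 10000 * xS,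
    cC (-25202) 10000 + cC (-33771) 10000 * xD + cC (70394) 10000 * xV,
    cC (-872414) 10000 + cC (101412) 10000 * xD + cC (2273861) 10000 * xV,
    cC 0,
    cC 0⟩

/-- A piece: `0.353 ≤ v < 0.43`. -/
def tC81 : Piece where
  u₀ := cC (7) 10
  u₁ := cC (3) 5
  tLn := lowTn
  tLd := lowTd
  tUn := upCn
  tUd := upCd
  p₀ := cC (172069) 10000 + cC (-101581) 10000 * xD + cC (-33984) 10000 * xV + cC (62113) 10000 * (xD * xV) + cC (26566) 10000 * (xD * xD) + cC (-91889) 10000 * xS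
  zL := cC (10741) 10000 + cC (-9431) 10000 * xD + cC (-2046) 10000 * xV + cC (-5731) 10000 * (xD * xV) + cC (881) 10000 * (xV * xV) + cC (5944) 10000 * (xD * xD) + cC (-2836) 10000 * xS
  zU := cC (10273) 10000 + cC (1996) 10000 * xD + cC (-2289) 10000 * xV + cC (-5053) 10000 * (xD * xV) + cC (930) 10000 * (xV * xV) + cC (-17201) 10000 * (xD * xD) + cC (-2418) 10000 * xS
  k2p := fun _ => cC (10) 10000
  k2m := fun e => cC (9742) 10000 + cC (20137) 10000 * xD + cC (-30415) 10000 * xV + cC (28) 10000 * e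
  kapL := fun e => cC (2228) 10000 + cC (544) 10000 * xD + cC (-4293) 10000 * xV + cC (39) 10000 * e
  kapU := fun e => cC (1347) 10000 + cC (31) 10000 * xD + cC (-2370) 10000 * xV + cC (22) 10000 * e
  eL := ⟨cC (-5066051) 10000 + cC (7106954) 10000 * xD + cC (15929340) 10000 * xV + cC (-12649228) 10000 * (xV * xV) + cC (-15491168) 10000 * (xD * xV) + cC (-368744) 10000 * (xD * xD) + cC (500269) 10000 * xS,
    cC 0,
    cC 0,
    cC (3112) 10000,
    cC 0⟩
  eH := ⟨cC (-1185384) 10000 + cC (-779769) 10000 * xD + cC (1947545) 10000 * xV + cC (-2063) 10000 * (xV * xV) + cC (-1359387) 10000 * (xD * xV) + cC (3696262) 10000 * (xD * xD) + cC (500269) 10000 * xS,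
    cC 0,
    cC 0,
    cC (316865) 10000,
    cC 0⟩
  pL := ⟨cC (197495) 10000 + cC (-141937) 10000 * xD + cC (-70962) 10000 * xV + cC (82180) 10000 * (xD * xV) + cC (-873) 10000 * (xV * xV) + cC (39173) 10000 * (xD * xD) + cC (-98284) 10000 * xS,
    cC (1613) 10000 + cC (-2229) 10000 * xD + cC (-2826) 10000 * xV,
    cC 0,
    cC (10099) 10000,
    cC 0⟩
  pU := ⟨cC (321813) 10000 + cC (-571773) 10000 * xD + cC (-399173) 10000 * xV + cC (640525) 10000 * (xD * xV) + cC (221995) 10000 * (xV * xV) + cC (362852) 10000 * (xD * xD) + cC (-87904) 10000 * xS,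
    cC (1389) 10000 + cC (-2845) 10000 * xD + cC (-1431) 10000 * xV,
    cC 0,
    cC 0,
    cC 0⟩
  kU := ⟨cC (124345) 10000 + cC (-763730) 10000 * xD + cC (802459) 10000 * xV + cC (-1604278) 10000 * (xD * xV) + cC (1385811) 10000 * (xV * xV) + cC (968774) 10000 * (xD * xD) + cC (-259214) 10000 * xS,
    cC (1377) 10000 + cC (5240) 10000 * xD + cC (-8596) 10000 * xV,
    cC (23710) 10000 + cC (91028) 10000 * xD + cC (-190616) 10000 * xV,
    cC 0,
    cC 0⟩
  kL := ⟨cC (1492052) 10000 + cC (-3515448) 10000 * xD + cC (-1079550) 10000 * xV + cC (-1697231) 10000 * (xD * xV) + cC (-1388036) 10000 * (xV * xV) + cC (157992) 10000 * (xD * xD) + cC (232852) 10000 * xS,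
    cC (-1393) 10000 + cC (1715) 10000 * xD + cC (2501) 10000 * xV,
    cC (-275839) 10000 + cC (549534) 10000 * xD + cC (351772) 10000 * xV,
    cC 0,
    cC 0⟩
  wU := ⟨cC (-125563) 10000 + cC (45600) 10000 * xD + cC (-386354) 10000 * xV + cC (77662) 10000 * (xD * xV) + cC (1158218) 10000 * (xV * xV) + cC (-66641) 10000 * (xD * xD) + cC (213847) 10000 * xS,
    cC (2234) 10000 + cC (2010) 10000 * xD + cC (-8247) 10000 * xV,
    cC (18616) 10000 + cC (-8869) 10000 * xD + cC (-81340) 10000 * xV,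
    cC (11644) 10000,
    cC 0⟩
  wL := ⟨cC (1008512) 10000 + cC (-5615112) 10000 * xD + cC (-1365265) 10000 * xV + cC (-2537314) 10000 * (xD * xV) + cC (-433530) 10000 * (xV * xV) + cC (268455) 10000 * (xD * xD) + cC (1038976) 10000 * xS,
    cC (33223) 10000 + cC (-21459) 10000 * xD + cC (-72194) 10000 * xV,
    cC (-223688) 10000 + cC (869108) 10000 * xD + cC (171654) 10000 * xV,
    cC 0,
    cC 0⟩

/-- A piece: `1.467 ≤ v < 1.599`. -/
def tC82 : Piece where
  u₀ := cC (39) 40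
  u₁ := cC (677) 1000 + cC (416) 1000 * xD + cC (108) 1000 * xV
  tLn := lowTn
  tLd := lowTd
  tUn := evN
  tUd := evD
  p₀ := cC (194337) 10000 + cC (-93128) 10000 * xD + cC (-34692) 10000 * xV + cC (64867) 10000 * (xD * xV) + cC (-6844) 10000 * (xD * xD) + cC (-124496) 10000 * xS
  zL := cC (-44289) 10000 + cC (198500) 10000 * xD + cC (20115) 10000 * xV + cC (-45848) 10000 * (xD * xV) + cC (-2238) 10000 * (xV * xV) + cC (-225243) 10000 * (xD * xD) + cC (1242) 10000 * xS
  zU := cC (57319) 10000 + cC (-197180) 10000 * xD + cC (-28526) 10000 * xV + cC (48625) 10000 * (xD * xV) + cC (3871) 10000 * (xV * xV) + cC (191303) 10000 * (xD * xD) + cC (-3879) 10000 * xS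
  k2p := fun e => cC (6774) 10000 + cC (-11801) 10000 * xD + cC (-1038) 10000 * xV + cC (643) 10000 * e
  k2m := fun _ => cC (-1054) 10000 + cC (3444) 10000 * xD + cC (263) 10000 * xV
  kapL := fun e => cC (1724) 10000 + cC (-4669) 10000 * xD + cC (419) 10000 * xV + cC (346) 10000 * e
  kapU := fun e => cC (-6520) 10000 + cC (8953) 10000 * xD + cC (2232) 10000 * xV + cC (-329) 10000 * e
  eL := ⟨cC (-437195) 10000 + cC (1327587) 10000 * xD + cC (231937) 10000 * xV + cC (-33316) 10000 * (xV * xV) + cC (-335711) 10000 * (xD * xV) + cC (-1148304) 10000 * (xD * xD) + cC (-1762) 10000 * xS,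
    cC 0,
    cC 0,
    cC 0,
    cC 0⟩
  eH := ⟨cC (-23747) 10000 + cC (77713) 10000 * xD + cC (8207) 10000 * xV + cC (647) 10000 * (xV * xV) + cC (-22757) 10000 * (xD * xV) + cC (-7316) 10000 * (xD * xD) + cC (-31626) 10000 * xS,
    cC 0,
    cC 0,
    cC 0,
    cC (-261590) 10000 + cC (631115) 10000 * xD + cC (123751) 10000 * xV + cC (-237935) 10000 * (xD * xV)⟩
  pL := ⟨cC (-1036318) 10000 + cC (4505241) 10000 * xD + cC (619823) 10000 * xV + cC (-1142341) 10000 * (xD * xV) + cC (-90984) 10000 * (xV * xV) + cC (-4331407) 10000 * (xD * xD) + cC (-142484) 10000 * xS,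
    cC (-22568) 10000 + cC (55201) 10000 * xD + cC (-3053) 10000 * xV,
    cC 0,
    cC 0,
    cC 0⟩
  pU := ⟨cC (906708) 10000 + cC (-2487480) 10000 * xD + cC (-227607) 10000 * xV + cC (470190) 10000 * (xD * xV) + cC (1254) 10000 * (xV * xV) + cC (1931879) 10000 * (xD * xD) + cC (-145564) 10000 * xS,
    cC (54016) 10000 + cC (-122534) 10000 * xD + cC (2599) 10000 * xV,
    cC 0,
    cC 0,
    cC 0⟩
  kU := ⟨cC (-17706) 10000 + cC (5758) 10000 * xD + cC (2337) 10000 * xV + cC (5078) 10000 * (xD * xV) + cC (-205) 10000 * (xV * xV) + cC (17536) 10000 * (xD * xD) + cC (14680) 10000 * xS,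
    cC (-6037) 10000 + cC (22571) 10000 * xD + cC (1267) 10000 * xV,
    cC (69) 10000 + cC (1582) 10000 * xD + cC (-27) 10000 * xV,
    cC 0,
    cC 0⟩
  kL := ⟨cC (-14238) 10000 + cC (36419) 10000 * xD + cC (-586) 10000 * xV + cC (413) 10000 * (xD * xV) + cC (-22) 10000 * (xV * xV) + cC (-52245) 10000 * (xD * xD) + cC (14313) 10000 * xS,
    cC (-866) 10000 + cC (12009) 10000 * xD + cC (-104) 10000 * xV,
    cC (-20) 10000 + cC (972) 10000 * xD + cC (133) 10000 * xV,
    cC 0,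
    cC 0⟩
  wU := ⟨cC (-63053) 10000 + cC (12341) 10000 * xD + cC (-23448) 10000 * xV + cC (10282) 10000 * (xD * xV) + cC (3171) 10000 * (xV * xV) + cC (150013) 10000 * (xD * xD) + cC (140023) 10000 * xS,
    cC (-826) 10000 + cC (7401) 10000 * xD + cC (-5354) 10000 * xV,
    cC (-7609) 10000 + cC (-18163) 10000 * xD + cC (-1534) 10000 * xV,
    cC 0,
    cC 0⟩
  wL := ⟨cC (-2222253) 10000 + cC (7844832) 10000 * xD + cC (967197) 10000 * xV + cC (-1787707) 10000 * (xD * xV) + cC (-112100) 10000 * (xV * xV) + cC (-6577045) 10000 * (xD * xD) + cC (141657) 10000 * xS,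
    cC (-110470) 10000 + cC (248667) 10000 * xD + cC (19580) 10000 * xV,
    cC (34662) 10000 + cC (-116857) 10000 * xD + cC (-10406) 10000 * xV,
    cC 0,
    cC 0⟩

/-- The cut in `e`. -/
def tC82Cut : Ex :=
  cC (-82537) 10000 + cC (218932) 10000 * xD + cC (28052) 10000 * xV + cC (1852) 10000 * (xV * xV) + cC (-39171) 10000 * (xD * xV) + cC (-77446) 10000 * (xD * xD) + cC (-38179) 10000 * xS

/-- The bound of `p` above the cut. -/
def tC82PU : Bnd :=
  ⟨cC (306228) 10000 + cC (-148723) 10000 * xD + cC (-60209) 10000 * xV + cC (58500) 10000 * (xD * xV) + cC (6948) 10000 * (xV * xV) + cC (113964) 10000 * (xD * xD) + cC (-256745) 10000 * xS,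
    cC (-18647) 10000 + cC (27863) 10000 * xD + cC (2272) 10000 * xV,
    cC 0,
    cC 0,
    cC (2522915) 10000 + cC (-9672308) 10000 * xD + cC (-1719777) 10000 * xV + cC (6593257) 10000 * (xD * xV)⟩

/-- A multiplier above the cut. -/
def tC82K2p : Ex → Ex :=
  fun e => cC (10292) 10000 + cC (-16463) 10000 * xD + cC (-1908) 10000 * xV + cC (1037) 10000 * e

/-- A multiplier above the cut. -/
def tC82K2m : Ex → Ex :=
  fun _ => cC (-1054) 10000 + cC (3444) 10000 * xD + cC (263) 10000 * xV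

/-- A multiplier above the cut. -/
def tC82KapL : Ex → Ex :=
  fun e => cC (1801) 10000 + cC (-1129) 10000 * xD + cC (-169) 10000 * xV + cC (440) 10000 * e

/-- A multiplier above the cut. -/
def tC82KapU : Ex → Ex :=
  fun e => cC (395) 10000 + cC (273) 10000 * xD + cC (456) 10000 * xV + cC (456) 10000 * e

/-- Below the cut. -/
def tC82A : Piece :=
  tC82.below tC82Cut

/-- Above the cut. -/
def tC82B : Piece :=
  { tC82.above tC82Cut tC82PU with k2p := tC82K2p, k2m := tC82K2m, kapL := tC82KapL, kapU := tC82KapU }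

/-- The least `u`. -/
def tC82Lo : Ex :=
  cC (149) 160

/-- A piece: `1.467 ≤ v < 1.599`. -/
def tC83 : Piece where
  u₀ := cC (39) 40
  u₁ := cC (786) 1000 + cC (55) 1000 * xD + cC (107) 1000 * xV
  tLn := lowTn
  tLd := lowTd
  tUn := evN
  tUd := evD
  p₀ := cC (192755) 10000 + cC (-91010) 10000 * xD + cC (-34365) 10000 * xV + cC (63477) 10000 * (xD * xV) + cC (-6665) 10000 * (xD * xD) + cC (-122901) 10000 * xS
  zL := cC (-80336) 10000 + cC (258171) 10000 * xD + cC (54905) 10000 * xV + cC (-88825) 10000 * (xD * xV) + cC (-9375) 10000 * (xV * xV) + cC (-209598) 10000 * (xD * xD) + cC (1200) 10000 * xS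
  zU := cC (90098) 10000 + cC (-284890) 10000 * xD + cC (-54490) 10000 * xV + cC (87728) 10000 * (xD * xV) + cC (8523) 10000 * (xV * xV) + cC (241117) 10000 * (xD * xD) + cC (-3997) 10000 * xS
  k2p := fun e => cC (3725) 10000 + cC (1616) 10000 * xD + cC (-1462) 10000 * xV + cC (776) 10000 * e
  k2m := fun _ => cC (-1156) 10000 + cC (3706) 10000 * xD + cC (280) 10000 * xV
  kapL := fun e => cC (78) 10000 + cC (2562) 10000 * xD + cC (181) 10000 * xV + cC (407) 10000 * e
  kapU := fun e => cC (-6118) 10000 + cC (5228) 10000 * xD + cC (2578) 10000 * xV + cC (-410) 10000 * e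
  eL := ⟨cC (-697330) 10000 + cC (2078339) 10000 * xD + cC (431187) 10000 * xV + cC (-68176) 10000 * (xV * xV) + cC (-645228) 10000 * (xD * xV) + cC (-1688643) 10000 * (xD * xD) + cC (1764) 10000 * xS,
    cC 0,
    cC 0,
    cC 0,
    cC 0⟩
  eH := ⟨cC (-23258) 10000 + cC (75369) 10000 * xD + cC (7993) 10000 * xV + cC (611) 10000 * (xV * xV) + cC (-21664) 10000 * (xD * xV) + cC (-6255) 10000 * (xD * xD) + cC (-31589) 10000 * xS,
    cC 0,
    cC 0,
    cC 0,
    cC (-40709) 10000 + cC (153955) 10000 * xD + cC (27390) 10000 * xV + cC (-83362) 10000 * (xD * xV)⟩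
  pL := ⟨cC (-2746243) 10000 + cC (8184702) 10000 * xD + cC (1960001) 10000 * xV + cC (-2833879) 10000 * (xD * xV) + cC (-329151) 10000 * (xV * xV) + cC (-5550481) 10000 * (xD * xD) + cC (-137365) 10000 * xS,
    cC (-150449) 10000 + cC (217688) 10000 * xD + cC (49884) 10000 * xV,
    cC 0,
    cC 0,
    cC 0⟩
  pU := ⟨cC (449040) 10000 + cC (-1621089) 10000 * xD + cC (113096) 10000 * xV + cC (279285) 10000 * (xD * xV) + cC (-73385) 10000 * (xV * xV) + cC (1318486) 10000 * (xD * xD) + cC (-149644) 10000 * xS,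
    cC (5303) 10000 + cC (-101663) 10000 * xD + cC (31252) 10000 * xV,
    cC 0,
    cC 0,
    cC 0⟩
  kU := ⟨cC (-5390) 10000 + cC (-141321) 10000 * xD + cC (5488) 10000 * xV + cC (-1003) 10000 * (xD * xV) + cC (-869) 10000 * (xV * xV) + cC (359712) 10000 * (xD * xD) + cC (15237) 10000 * xS,
    cC (-11023) 10000 + cC (38534) 10000 * xD + cC (1347) 10000 * xV,
    cC (800) 10000 + cC (-1466) 10000 * xD + cC (94) 10000 * xV,
    cC 0,
    cC 0⟩
  kL := ⟨cC (-16203) 10000 + cC (39419) 10000 * xD + cC (598) 10000 * xV + cC (-1180) 10000 * (xD * xV) + cC (-240) 10000 * (xV * xV) + cC (-47999) 10000 * (xD * xD) + cC (14476) 10000 * xS,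
    cC (-1010) 10000 + cC (12116) 10000 * xD + cC (-31) 10000 * xV,
    cC (89) 10000 + cC (525) 10000 * xD + cC (150) 10000 * xV,
    cC 0,
    cC 0⟩
  wU := ⟨cC (-42196) 10000 + cC (-207719) 10000 * xD + cC (-63166) 10000 * xV + cC (54970) 10000 * (xD * xV) + cC (10970) 10000 * (xV * xV) + cC (849668) 10000 * (xD * xD) + cC (144389) 10000 * xS,
    cC (14711) 10000 + cC (-32016) 10000 * xD + cC (-7712) 10000 * xV,
    cC (9869) 10000 + cC (-73837) 10000 * xD + cC (-1891) 10000 * xV,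
    cC 0,
    cC 0⟩
  wL := ⟨cC (-3569482) 10000 + cC (12393267) 10000 * xD + cC (1497793) 10000 * xV + cC (-2778032) 10000 * (xD * xV) + cC (-165079) 10000 * (xV * xV) + cC (-9564789) 10000 * (xD * xD) + cC (149738) 10000 * xS,
    cC (-171903) 10000 + cC (398860) 10000 * xD + cC (28569) 10000 * xV,
    cC (85030) 10000 + cC (-250054) 10000 * xD + cC (-16401) 10000 * xV,
    cC 0,
    cC 0⟩

/-- The cut in `e`. -/
def tC83Cut : Ex :=
  cC (-48383) 10000 + cC (121640) 10000 * xD + cC (9756) 10000 * xV + cC (6052) 10000 * (xV * xV) + cC (-21037) 10000 * (xD * xV) + cC (-65706) 10000 * (xD * xD) + cC (-32728) 10000 * xS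

/-- The bound of `p` above the cut. -/
def tC83PU : Bnd :=
  ⟨cC (314979) 10000 + cC (-193666) 10000 * xD + cC (-64092) 10000 * xV + cC (64164) 10000 * (xD * xV) + cC (7420) 10000 * (xV * xV) + cC (154457) 10000 * (xD * xD) + cC (-251940) 10000 * xS,
    cC (-16778) 10000 + cC (22679) 10000 * xD + cC (2037) 10000 * xV,
    cC 0,
    cC 0,
    cC (-26043) 10000 + cC (193717) 10000 * xD + cC (49035) 10000 * xV + cC (-178473) 10000 * (xD * xV)⟩

/-- A multiplier above the cut. -/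
def tC83K2p : Ex → Ex :=
  fun e => cC (9488) 10000 + cC (-11196) 10000 * xD + cC (-2057) 10000 * xV + cC (1282) 10000 * e

/-- A multiplier above the cut. -/
def tC83K2m : Ex → Ex :=
  fun _ => cC (-1156) 10000 + cC (3706) 10000 * xD + cC (280) 10000 * xV

/-- A multiplier above the cut. -/
def tC83KapL : Ex → Ex :=
  fun e => cC (2662) 10000 + cC (-6661) 10000 * xD + cC (408) 10000 * xV + cC (491) 10000 * e

/-- A multiplier above the cut. -/
def tC83KapU : Ex → Ex :=
  fun e => cC (-62) 10000 + cC (994) 10000 * xD + cC (625) 10000 * xV + cC (471) 10000 * e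

/-- Below the cut. -/
def tC83A : Piece :=
  tC83.below tC83Cut

/-- Above the cut. -/
def tC83B : Piece :=
  { tC83.above tC83Cut tC83PU with k2p := tC83K2p, k2m := tC83K2m, kapL := tC83KapL, kapU := tC83KapU }

/-- The least `u`. -/
def tC83Lo : Ex :=
  cC (149) 160

/-- A piece: `1.467 ≤ v < 1.599`. -/
def tC84 : Piece where
  u₀ := cC (39) 40
  u₁ := cC (832) 1000 + cC (0) 1000 * xD + cC (89) 1000 * xV
  tLn := lowTn
  tLd := lowTd
  tUn := evN
  tUd := evD
  p₀ := cC (197072) 10000 + cC (-103484) 10000 * xD + cC (-36022) 10000 * xV + cC (69268) 10000 * (xD * xV) + cC (-124840) 10000 * xS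
  zL := cC (-73806) 10000 + cC (156830) 10000 * xD + cC (66451) 10000 * xV + cC (-105648) 10000 * (xD * xV) + cC (-11469) 10000 * (xV * xV) + cC (1160) 10000 * xS
  zU := cC (71807) 10000 + cC (-149948) 10000 * xD + cC (-59951) 10000 * xV + cC (94519) 10000 * (xD * xV) + cC (9585) 10000 * (xV * xV) + cC (-653) 10000 * xS
  k2p := fun e => cC (4912) 10000 + cC (-8091) 10000 * xD + cC (-346) 10000 * xV + cC (774) 10000 * e
  k2m := fun _ => cC (-1210) 10000 + cC (3842) 10000 * xD + cC (288) 10000 * xV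
  kapL := fun e => cC (1386) 10000 + cC (-3432) 10000 * xD + cC (478) 10000 * xV + cC (393) 10000 * e
  kapU := fun e => cC (-4584) 10000 + cC (2018) 10000 * xD + cC (2308) 10000 * xV + cC (-343) 10000 * e
  eL := ⟨cC (-575776) 10000 + cC (1156619) 10000 * xD + cC (474278) 10000 * xV + cC (-75946) 10000 * (xV * xV) + cC (-711213) 10000 * (xD * xV) + cC (-19348) 10000 * xS,
    cC 0,
    cC 0,
    cC 0,
    cC 0⟩
  eH := ⟨cC (-22521) 10000 + cC (70796) 10000 * xD + cC (7915) 10000 * xV + cC (587) 10000 * (xV * xV) + cC (-21174) 10000 * (xD * xV) + cC (-31558) 10000 * xS,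
    cC 0,
    cC 0,
    cC 0,
    cC (13990) 10000 + cC (-26692) 10000 * xD + cC (-8127) 10000 * xV + cC (33930) 10000 * (xD * xV)⟩
  pL := ⟨cC (-2274256) 10000 + cC (4845169) 10000 * xD + cC (2041786) 10000 * xV + cC (-2878008) 10000 * (xD * xV) + cC (-344251) 10000 * (xV * xV) + cC (-194134) 10000 * xS,
    cC (-154842) 10000 + cC (190547) 10000 * xD + cC (58474) 10000 * xV,
    cC 0,
    cC 0,
    cC 0⟩
  pU := ⟨cC (616517) 10000 + cC (-1330934) 10000 * xD + cC (-121122) 10000 * xV + cC (532802) 10000 * (xD * xV) + cC (-27388) 10000 * (xV * xV) + cC (-152486) 10000 * xS,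
    cC (46289) 10000 + cC (-175731) 10000 * xD + cC (19204) 10000 * xV,
    cC 0,
    cC 0,
    cC 0⟩
  kU := ⟨cC (-79795) 10000 + cC (201808) 10000 * xD + cC (14475) 10000 * xV + cC (-23763) 10000 * (xD * xV) + cC (-1052) 10000 * (xV * xV) + cC (15551) 10000 * xS,
    cC (-18219) 10000 + cC (59557) 10000 * xD + cC (1784) 10000 * xV,
    cC (3593) 10000 + cC (-10055) 10000 * xD + cC (-13) 10000 * xV,
    cC 0,
    cC 0⟩
  kL := ⟨cC (-12013) 10000 + cC (11515) 10000 * xD + cC (419) 10000 * xV + cC (-1328) 10000 * (xD * xV) + cC (-182) 10000 * (xV * xV) + cC (14556) 10000 * xS,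
    cC (-1016) 10000 + cC (12119) 10000 * xD + cC (-30) 10000 * xV,
    cC (127) 10000 + cC (360) 10000 * xD + cC (158) 10000 * xV,
    cC 0,
    cC 0⟩
  wU := ⟨cC (-111780) 10000 + cC (283507) 10000 * xD + cC (-91187) 10000 * xV + cC (96300) 10000 * (xD * xV) + cC (17507) 10000 * (xV * xV) + cC (150410) 10000 * xS,
    cC (13042) 10000 + cC (-14994) 10000 * xD + cC (-9757) 10000 * xV,
    cC (13210) 10000 + cC (-76084) 10000 * xD + cC (-3232) 10000 * xV,
    cC 0,
    cC 0⟩
  wL := ⟨cC (-3200644) 10000 + cC (7454677) 10000 * xD + cC (1828155) 10000 * xV + cC (-2906446) 10000 * (xD * xV) + cC (-258053) 10000 * (xV * xV) + cC (159867) 10000 * xS,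
    cC (-337839) 10000 + cC (709471) 10000 * xD + cC (74419) 10000 * xV,
    cC (64461) 10000 + cC (-249958) 10000 * xD + cC (-1838) 10000 * xV,
    cC 0,
    cC (2274664) 10000 + cC (-7522026) 10000 * xD + cC (-1550553) 10000 * xV + cC (5127489) 10000 * (xD * xV)⟩

/-- The cut in `e`. -/
def tC84Cut : Ex :=
  cC (-82762) 10000 + cC (225949) 10000 * xD + cC (38305) 10000 * xV + cC (444) 10000 * (xV * xV) + cC (-68160) 10000 * (xD * xV) + cC (-130930) 10000 * (xD * xD) + cC (-32172) 10000 * xS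

/-- The bound of `p` above the cut. -/
def tC84PU : Bnd :=
  ⟨cC (302503) 10000 + cC (-106864) 10000 * xD + cC (-65309) 10000 * xV + cC (65316) 10000 * (xD * xV) + cC (7461) 10000 * (xV * xV) + cC (-249573) 10000 * xS,
    cC (-15686) 10000 + cC (20606) 10000 * xD + cC (1734) 10000 * xV,
    cC 0,
    cC 0,
    cC (-242059) 10000 + cC (892491) 10000 * xD + cC (183597) 10000 * xV + cC (-613506) 10000 * (xD * xV)⟩

/-- A multiplier above the cut. -/
def tC84K2p : Ex → Ex :=
  fun e => cC (13445) 10000 + cC (-14197) 10000 * xD + cC (-2990) 10000 * xV + cC (2105) 10000 * e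

/-- A multiplier above the cut. -/
def tC84K2m : Ex → Ex :=
  fun _ => cC (-1210) 10000 + cC (3842) 10000 * xD + cC (288) 10000 * xV

/-- A multiplier above the cut. -/
def tC84KapL : Ex → Ex :=
  fun e => cC (1772) 10000 + cC (-3645) 10000 * xD + cC (353) 10000 * xV + cC (458) 10000 * e

/-- A multiplier above the cut. -/
def tC84KapU : Ex → Ex :=
  fun e => cC (296) 10000 + cC (-1049) 10000 * xD + cC (775) 10000 * xV + cC (461) 10000 * e

/-- Below the cut. -/
def tC84A : Piece :=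
  tC84.below tC84Cut

/-- Above the cut. -/
def tC84B : Piece :=
  { tC84.above tC84Cut tC84PU with k2p := tC84K2p, k2m := tC84K2m, kapL := tC84KapL, kapU := tC84KapU }

/-- The least `u`. -/
def tC84Lo : Ex :=
  cC (149) 160

/-- A piece: `1.467 ≤ v < 1.532`. -/
def tC85 : Piece where
  u₀ := cC (39) 40
  u₁ := cC (658) 1000 + cC (452) 1000 * xD + cC (114) 1000 * xV
  tLn := lowTn
  tLd := lowTd
  tUn := evN
  tUd := evD
  p₀ := cC (195695) 10000 + cC (-104420) 10000 * xD + cC (-36362) 10000 * xV + cC (69914) 10000 * (xD * xV) + cC (-122032) 10000 * xS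
  zL := cC (-83311) 10000 + cC (194658) 10000 * xD + cC (71419) 10000 * xV + cC (-131653) 10000 * (xD * xV) + cC (-10401) 10000 * (xV * xV) + cC (1170) 10000 * xS
  zU := cC (91725) 10000 + cC (-164635) 10000 * xD + cC (-79546) 10000 * xV + cC (102069) 10000 * (xD * xV) + cC (15271) 10000 * (xV * xV) + cC (-4107) 10000 * xS
  k2p := fun e => cC (7800) 10000 + cC (-14567) 10000 * xD + cC (-1025) 10000 * xV + cC (738) 10000 * e
  k2m := fun _ => cC (-1249) 10000 + cC (3935) 10000 * xD + cC (295) 10000 * xV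
  kapL := fun e => cC (1615) 10000 + cC (-2605) 10000 * xD + cC (128) 10000 * xV + cC (384) 10000 * e
  kapU := fun e => cC (-6125) 10000 + cC (6573) 10000 * xD + cC (2419) 10000 * xV + cC (-343) 10000 * e
  eL := ⟨cC (-795523) 10000 + cC (1407305) 10000 * xD + cC (676500) 10000 * xV + cC (-129405) 10000 * (xV * xV) + cC (-834300) 10000 * (xD * xV) + cC (5805) 10000 * xS,
    cC 0,
    cC 0,
    cC 0,
    cC 0⟩
  eH := ⟨cC (-19207) 10000 + cC (65468) 10000 * xD + cC (4986) 10000 * xV + cC (1213) 10000 * (xV * xV) + cC (-17614) 10000 * (xD * xV) + cC (-32055) 10000 * xS,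
    cC 0,
    cC 0,
    cC 0,
    cC (431490) 10000 + cC (-1403705) 10000 * xD + cC (-286742) 10000 * xV + cC (952804) 10000 * (xD * xV)⟩
  pL := ⟨cC (-3326180) 10000 + cC (7313313) 10000 * xD + cC (2813222) 10000 * xV + cC (-4431123) 10000 * (xD * xV) + cC (-427079) 10000 * (xV * xV) + cC (-134079) 10000 * xS,
    cC (-222661) 10000 + cC (290815) 10000 * xD + cC (83688) 10000 * xV,
    cC 0,
    cC 0,
    cC 0⟩
  pU := ⟨cC (-18356) 10000 + cC (208519) 10000 * xD + cC (355471) 10000 * xV + cC (-362622) 10000 * (xD * xV) + cC (-89650) 10000 * (xV * xV) + cC (-154654) 10000 * xS,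
    cC (-34919) 10000 + cC (21710) 10000 * xD + cC (32874) 10000 * xV,
    cC 0,
    cC 0,
    cC 0⟩
  kU := ⟨cC (-43835) 10000 + cC (56737) 10000 * xD + cC (4997) 10000 * xV + cC (26552) 10000 * (xD * xV) + cC (-1336) 10000 * (xV * xV) + cC (15452) 10000 * xS,
    cC (-20715) 10000 + cC (57341) 10000 * xD + cC (3846) 10000 * xV,
    cC (751) 10000 + cC (197) 10000 * xD + cC (-199) 10000 * xV,
    cC 0,
    cC 0⟩
  kL := ⟨cC (-12040) 10000 + cC (11288) 10000 * xD + cC (649) 10000 * xV + cC (-2634) 10000 * (xD * xV) + cC (-164) 10000 * (xV * xV) + cC (14933) 10000 * xS,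
    cC (-999) 10000 + cC (12259) 10000 * xD + cC (-75) 10000 * xV,
    cC (13) 10000 + cC (712) 10000 * xD + cC (167) 10000 * xV,
    cC 0,
    cC 0⟩
  wU := ⟨cC (-124917) 10000 + cC (85053) 10000 * xD + cC (-93657) 10000 * xV + cC (261625) 10000 * (xD * xV) + cC (18422) 10000 * (xV * xV) + cC (149598) 10000 * xS,
    cC (22377) 10000 + cC (-44558) 10000 * xD + cC (-9944) 10000 * xV,
    cC (30392) 10000 + cC (-92296) 10000 * xD + cC (-11360) 10000 * xV,
    cC 0,
    cC 0⟩
  wL := ⟨cC (-4107656) 10000 + cC (8688441) 10000 * xD + cC (2734159) 10000 * xV + cC (-4130201) 10000 * (xD * xV) + cC (-371676) 10000 * (xV * xV) + cC (146150) 10000 * xS,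
    cC (-158731) 10000 + cC (306781) 10000 * xD + cC (37584) 10000 * xV,
    cC (139953) 10000 + cC (-291956) 10000 * xD + cC (-43769) 10000 * xV,
    cC 0,
    cC 0⟩

/-- The cut in `e`. -/
def tC85Cut : Ex :=
  cC (-36427) 10000 + cC (107377) 10000 * xD + cC (-16757) 10000 * xV + cC (10370) 10000 * (xV * xV) + cC (27819) 10000 * (xD * xV) + cC (-50003) 10000 * (xD * xD) + cC (-33829) 10000 * xS

/-- The bound of `p` above the cut. -/
def tC85PU : Bnd :=
  ⟨cC (305540) 10000 + cC (-107601) 10000 * xD + cC (-72747) 10000 * xV + cC (74560) 10000 * (xD * xV) + cC (9511) 10000 * (xV * xV) + cC (-250276) 10000 * xS,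
    cC (-18926) 10000 + cC (27284) 10000 * xD + cC (2546) 10000 * xV,
    cC 0,
    cC 0,
    cC (-9437457) 10000 + cC (30688253) 10000 * xD + cC (6218978) 10000 * xV + cC (-20170283) 10000 * (xD * xV)⟩

/-- A multiplier above the cut. -/
def tC85K2p : Ex → Ex :=
  fun e => cC (8970) 10000 + cC (-11309) 10000 * xD + cC (-2058) 10000 * xV + cC (1054) 10000 * e

/-- A multiplier above the cut. -/
def tC85K2m : Ex → Ex :=
  fun _ => cC (-1292) 10000 + cC (4119) 10000 * xD + cC (287) 10000 * xV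

/-- A multiplier above the cut. -/
def tC85KapL : Ex → Ex :=
  fun e => cC (2127) 10000 + cC (-3301) 10000 * xD + cC (2) 10000 * xV + cC (439) 10000 * e

/-- A multiplier above the cut. -/
def tC85KapU : Ex → Ex :=
  fun e => cC (1032) 10000 + cC (-3207) 10000 * xD + cC (668) 10000 * xV + cC (424) 10000 * e

/-- Below the cut. -/
def tC85A : Piece :=
  tC85.below tC85Cut

/-- Above the cut. -/
def tC85B : Piece :=
  { tC85.above tC85Cut tC85PU with k2p := tC85K2p, k2m := tC85K2m, kapL := tC85KapL, kapU := tC85KapU }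

/-- The least `u`. -/
def tC85Lo : Ex :=
  cC (149) 160

/-- A piece: `1.532 ≤ v < 1.599`. -/
def tC86 : Piece where
  u₀ := cC (39) 40
  u₁ := cC (905) 1000 + cC (0) 1000 * xD + cC (43) 1000 * xV
  tLn := lowTn
  tLd := lowTd
  tUn := evN
  tUd := evD
  p₀ := cC (202020) 10000 + cC (-120666) 10000 * xD + cC (-39355) 10000 * xV + cC (79939) 10000 * (xD * xV) + cC (-124219) 10000 * xS
  zL := cC (-81846) 10000 + cC (220859) 10000 * xD + cC (68318) 10000 * xV + cC (-146140) 10000 * (xD * xV) + cC (-7998) 10000 * (xV * xV) + cC (-4170) 10000 * xS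
  zU := cC (41197) 10000 + cC (-103467) 10000 * xD + cC (-32061) 10000 * xV + cC (64937) 10000 * (xD * xV) + cC (3698) 10000 * (xV * xV) + cC (1297) 10000 * xS
  k2p := fun e => cC (3326) 10000 + cC (-6810) 10000 * xD + cC (634) 10000 * xV + cC (956) 10000 * e
  k2m := fun _ => cC (-1310) 10000 + cC (4119) 10000 * xD + cC (298) 10000 * xV
  kapL := fun e => cC (1026) 10000 + cC (-4022) 10000 * xD + cC (850) 10000 * xV + cC (405) 10000 * e
  kapU := fun e => cC (3298) 10000 + cC (-7124) 10000 * xD + cC (11) 10000 * xV + cC (411) 10000 * e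
  eL := ⟨cC (-319590) 10000 + cC (754551) 10000 * xD + cC (244108) 10000 * xV + cC (-29676) 10000 * (xV * xV) + cC (-455499) 10000 * (xD * xV) + cC (-32048) 10000 * xS,
    cC 0,
    cC 0,
    cC 0,
    cC 0⟩
  eH := ⟨cC (-25334) 10000 + cC (76420) 10000 * xD + cC (9866) 10000 * xV + cC (299) 10000 * (xV * xV) + cC (-24850) 10000 * (xD * xV) + cC (-30811) 10000 * xS,
    cC 0,
    cC 0,
    cC 0,
    cC (-360203) 10000 + cC (1191630) 10000 * xD + cC (231956) 10000 * xV + cC (-747859) 10000 * (xD * xV)⟩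
  pL := ⟨cC (-1927720) 10000 + cC (4642038) 10000 * xD + cC (1504539) 10000 * xV + cC (-2385391) 10000 * (xD * xV) + cC (-201984) 10000 * (xV * xV) + cC (-242528) 10000 * xS,
    cC (-296767) 10000 + cC (501304) 10000 * xD + cC (86823) 10000 * xV,
    cC 0,
    cC 0,
    cC 0⟩
  pU := ⟨cC (225537) 10000 + cC (3880) 10000 * xD + cC (-4277) 10000 * xV + cC (353) 10000 * (xD * xV) + cC (-1958) 10000 * (xV * xV) + cC (-246328) 10000 * xS,
    cC (-27761) 10000 + cC (27293) 10000 * xD + cC (8292) 10000 * xV,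
    cC 0,
    cC 0,
    cC (-1883978) 10000 + cC (6240293) 10000 * xD + cC (1251710) 10000 * xV + cC (-4091791) 10000 * (xD * xV)⟩
  kU := ⟨cC (-31291) 10000 + cC (39222) 10000 * xD + cC (22855) 10000 * xV + cC (-25158) 10000 * (xD * xV) + cC (-1045) 10000 * (xV * xV) + cC (2001) 10000 * xS,
    cC (-8609) 10000 + cC (8311) 10000 * xD + cC (5310) 10000 * xV,
    cC (583) 10000 + cC (400) 10000 * xD + cC (-461) 10000 * xV,
    cC 0,
    cC (-1582) 10000 + cC (32372) 10000 * xD + cC (2198) 10000 * xV + cC (-21794) 10000 * (xD * xV)⟩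
  kL := ⟨cC (-4901) 10000 + cC (481) 10000 * xD + cC (-4452) 10000 * xV + cC (2547) 10000 * (xD * xV) + cC (650) 10000 * (xV * xV) + cC (14525) 10000 * xS,
    cC (-69) 10000 + cC (8956) 10000 * xD + cC (-25) 10000 * xV,
    cC (-94) 10000 + cC (174) 10000 * xD + cC (335) 10000 * xV,
    cC 0,
    cC 0⟩
  wU := ⟨cC (40093) 10000 + cC (8719) 10000 * xD + cC (-121917) 10000 * xV + cC (52469) 10000 * (xD * xV) + cC (19517) 10000 * (xV * xV) + cC (145244) 10000 * xS,
    cC (-2421) 10000 + cC (7269) 10000 * xD + cC (-4322) 10000 * xV,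
    cC (-17805) 10000 + cC (-14081) 10000 * xD + cC (4417) 10000 * xV,
    cC 0,
    cC (-2857459) 10000 + cC (9278969) 10000 * xD + cC (1848934) 10000 * xV + cC (-6003577) 10000 * (xD * xV)⟩
  wL := ⟨cC (14331) 10000 + cC (21027) 10000 * xD + cC (-329312) 10000 * xV + cC (417593) 10000 * (xD * xV) + cC (24213) 10000 * (xV * xV) + cC (326462) 10000 * xS,
    cC (32602) 10000 + cC (-195799) 10000 * xD + cC (16351) 10000 * xV,
    cC (579) 10000 + cC (-161946) 10000 * xD + cC (26524) 10000 * xV,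
    cC 0,
    cC (3559370) 10000 + cC (-11817083) 10000 * xD + cC (-2159889) 10000 * xV + cC (7219197) 10000 * (xD * xV)⟩

/-- The least `u`. -/
def tC86Lo : Ex :=
  cC (149) 160

/-- The upper end of `u`. -/
def tC87Hi : Ex :=
  cC (617) 640

/-- The least `u`. -/
def tC87Lo : Ex :=
  cC (61) 64

/-- A piece: `1.446 ≤ v < 1.467`. -/
def tC88 : Piece where
  u₀ := cC (1241) 1280
  u₁ := cC (964) 1000 + cC (14) 1000 * xD + cC (0) 1000 * xV
  tLn := lowTn
  tLd := lowTd
  tUn := evN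
  tUd := evD
  p₀ := cC (142606) 10000 + cC (114058) 10000 * xD + cC (-13810) 10000 * xV + cC (-179397) 10000 * (xD * xD) + cC (-120111) 10000 * xS
  zL := cC (-85970) 10000 + cC (543588) 10000 * xD + cC (-1309) 10000 * xV + cC (-845337) 10000 * (xD * xD) + cC (1280) 10000 * xS
  zU := cC (93016) 10000 + cC (-544245) 10000 * xD + cC (-392) 10000 * xV + cC (830539) 10000 * (xD * xD) + cC (-4298) 10000 * xS
  k2p := fun e => cC (-1671) 10000 + cC (-2822) 10000 * xD + cC (1783) 10000 * xV + cC (-102) 10000 * e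
  k2m := fun _ => cC (-1469) 10000 + cC (4471) 10000 * xD + cC (330) 10000 * xV
  kapL := fun e => cC (-1048) 10000 + cC (-2911) 10000 * xD + cC (1346) 10000 * xV + cC (-113) 10000 * e
  kapU := fun e => cC (936) 10000 + cC (-3609) 10000 * xD + cC (671) 10000 * xV + cC (305) 10000 * e
  eL := ⟨cC (-808531) 10000 + cC (4676195) 10000 * xD + cC (7062) 10000 * xV + cC (-7087767) 10000 * (xD * xD) + cC (11743) 10000 * xS,
    cC 0,
    cC 0,
    cC 0,
    cC 0⟩
  eH := ⟨cC (-8114) 10000 + cC (16802) 10000 * xD + cC (2758) 10000 * xV + cC (35941) 10000 * (xD * xD) + cC (-35844) 10000 * xS,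
    cC 0,
    cC 0,
    cC 0,
    cC (-15078) 10000 + cC (42177) 10000 * xD + cC (7549) 10000 * xV⟩
  pL := ⟨cC (2649306) 10000 + cC (-3279177) 10000 * xD + cC (-1094252) 10000 * xV + cC (1588571) 10000 * (xD * xD) + cC (-143746) 10000 * xS,
    cC (1205189) 10000 + cC (-1173483) 10000 * xD + cC (-566594) 10000 * xV,
    cC 0,
    cC 0,
    cC 0⟩
  pU := ⟨cC (454366) 10000 + cC (-986080) 10000 * xD + cC (-7421) 10000 * xV + cC (925716) 10000 * (xD * xD) + cC (-250432) 10000 * xS,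
    cC (36573) 10000 + cC (-175461) 10000 * xD + cC (9916) 10000 * xV,
    cC 0,
    cC 0,
    cC (-10853) 10000 + cC (139770) 10000 * xD + cC (-7629) 10000 * xV⟩
  kU := ⟨cC (-8946) 10000 + cC (33886) 10000 * xD + cC (244) 10000 * xV + cC (-42603) 10000 * (xD * xD) + cC (7119) 10000 * xS,
    cC (-1342) 10000 + cC (11055) 10000 * xD + cC (281) 10000 * xV,
    cC (157) 10000,
    cC 0,
    cC (311) 10000 + cC (1921) 10000 * xD + cC (-98) 10000 * xV⟩
  kL := ⟨cC (-17671) 10000 + cC (41119) 10000 * xD + cC (114) 10000 * xV + cC (-49112) 10000 * (xD * xD) + cC (15354) 10000 * xS,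
    cC (-608) 10000 + cC (11778) 10000 * xD + cC (-243) 10000 * xV,
    cC (486) 10000,
    cC 0,
    cC 0⟩
  wU := ⟨cC (-218855) 10000 + cC (-1064796) 10000 * xD + cC (199310) 10000 * xV + cC (1609390) 10000 * (xD * xD) + cC (179303) 10000 * xS,
    cC (-163409) 10000 + cC (-4275) 10000 * xD + cC (108767) 10000 * xV,
    cC (-13866) 10000,
    cC 0,
    cC 0⟩
  wL := ⟨cC (-93569) 10000 + cC (-264579) 10000 * xD + cC (-41369) 10000 * xV + cC (100618) 10000 * (xD * xD) + cC (327527) 10000 * xS,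
    cC (73409) 10000 + cC (-114661) 10000 * xD + cC (-26107) 10000 * xV,
    cC (-8683) 10000,
    cC 0,
    cC (74438) 10000 + cC (-110509) 10000 * xD + cC (-14770) 10000 * xV⟩

/-- The least `u`. -/
def tC88Lo : Ex :=
  cC (617) 640

/-- A piece: `1.446 ≤ v < 1.467`. -/
def tC89 : Piece where
  u₀ := cC (39) 40
  u₁ := cC (1241) 1280
  tLn := lowTn
  tLd := lowTd
  tUn := evN
  tUd := evD
  p₀ := cC (142606) 10000 + cC (114058) 10000 * xD + cC (-13810) 10000 * xV + cC (-179397) 10000 * (xD * xD) + cC (-120111) 10000 * xS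
  zL := cC (-91927) 10000 + cC (575445) 10000 * xD + cC (-706) 10000 * xV + cC (-894516) 10000 * (xD * xD) + cC (1073) 10000 * xS
  zU := cC (94372) 10000 + cC (-551895) 10000 * xD + cC (-494) 10000 * xV + cC (842575) 10000 * (xD * xD) + cC (-4302) 10000 * xS
  k2p := fun e => cC (-1424) 10000 + cC (-1693) 10000 * xD + cC (1386) 10000 * xV + cC (-102) 10000 * e
  k2m := fun _ => cC (-1476) 10000 + cC (4404) 10000 * xD + cC (350) 10000 * xV
  kapL := fun e => cC (1727) 10000 + cC (-5181) 10000 * xD + cC (488) 10000 * xV + cC (300) 10000 * e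
  kapU := fun e => cC (1344) 10000 + cC (-5515) 10000 * xD + cC (862) 10000 * xV + cC (339) 10000 * e
  eL := ⟨cC (-817793) 10000 + cC (4727237) 10000 * xD + cC (7954) 10000 * xV + cC (-7170013) 10000 * (xD * xD) + cC (12076) 10000 * xS,
    cC 0,
    cC 0,
    cC 0,
    cC 0⟩
  eH := ⟨cC (-11380) 10000 + cC (26438) 10000 * xD + cC (2840) 10000 * xV + cC (20299) 10000 * (xD * xD) + cC (-31952) 10000 * xS,
    cC 0,
    cC 0,
    cC 0,
    cC (-22747) 10000 + cC (45088) 10000 * xD + cC (12119) 10000 * xV⟩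
  pL := ⟨cC (-2868522) 10000 + cC (16966614) 10000 * xD + cC (23037) 10000 * xV + cC (-24097854) 10000 * (xD * xD) + cC (-124718) 10000 * xS,
    cC (-253327) 10000 + cC (692313) 10000 * xD + cC (14524) 10000 * xV,
    cC 0,
    cC 0,
    cC 0⟩
  pU := ⟨cC (267391) 10000 + cC (-86167) 10000 * xD + cC (-21058) 10000 * xV + cC (104200) 10000 * (xD * xD) + cC (-249694) 10000 * xS,
    cC (-15640) 10000 + cC (16245) 10000 * xD + cC (2755) 10000 * xV,
    cC 0,
    cC 0,
    cC (30025) 10000 + cC (-55426) 10000 * xD + cC (8043) 10000 * xV⟩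
  kU := ⟨cC (-37669) 10000 + cC (-32697) 10000 * xD + cC (8331) 10000 * xV + cC (247527) 10000 * (xD * xD) + cC (16003) 10000 * xS,
    cC (-17963) 10000 + cC (45024) 10000 * xD + cC (4240) 10000 * xV,
    cC (3455) 10000 + cC (-9025) 10000 * xD,
    cC 0,
    cC 0⟩
  kL := ⟨cC (-16881) 10000 + cC (38022) 10000 * xD + cC (67) 10000 * xV + cC (-45644) 10000 * (xD * xD) + cC (15230) 10000 * xS,
    cC (-155) 10000 + cC (10507) 10000 * xD + cC (-272) 10000 * xV,
    cC (563) 10000 + cC (-238) 10000 * xD,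
    cC 0,
    cC 0⟩
  wU := ⟨cC (-279599) 10000 + cC (-1075798) 10000 * xD + cC (38453) 10000 * xV + cC (4607194) 10000 * (xD * xD) + cC (163969) 10000 * xS,
    cC (-14277) 10000 + cC (-96250) 10000 * xD + cC (26993) 10000 * xV,
    cC (91934) 10000 + cC (-329113) 10000 * xD,
    cC 0,
    cC 0⟩
  wL := ⟨cC (-4281679) 10000 + cC (21266564) 10000 * xD + cC (-108790) 10000 * xV + cC (-23943459) 10000 * (xD * xD) + cC (131509) 10000 * xS,
    cC (2908) 10000 + cC (205192) 10000 * xD + cC (-52716) 10000 * xV,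
    cC (252869) 10000 + cC (-829029) 10000 * xD,
    cC 0,
    cC 0⟩

/-- A piece: `1.743 ≤ v < 1.9`. -/
def tC90 : Piece where
  u₀ := cC (39) 40
  u₁ := cC (852) 1000 + cC (327) 1000 * xD + cC (20) 1000 * xV
  tLn := lowTn
  tLd := lowTd
  tUn := evN
  tUd := evD
  p₀ := cC (204836) 10000 + cC (-97629) 10000 * xD + cC (-35692) 10000 * xV + cC (69791) 10000 * (xD * xV) + cC (-17190) 10000 * (xD * xD) + cC (-138040) 10000 * xS
  zL := cC (-52642) 10000 + cC (185489) 10000 * xD + cC (35227) 10000 * xV + cC (-63680) 10000 * (xD * xV) + cC (-5550) 10000 * (xV * xV) + cC (-153567) 10000 * (xD * xD) + cC (-741) 10000 * xS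
  zU := cC (54377) 10000 + cC (-158983) 10000 * xD + cC (-36921) 10000 * xV + cC (49444) 10000 * (xD * xV) + cC (6595) 10000 * (xV * xV) + cC (120468) 10000 * (xD * xD) + cC (1841) 10000 * xS
  k2p := fun e => cC (15398) 10000 + cC (-22855) 10000 * xD + cC (-2453) 10000 * xV + cC (2286) 10000 * e
  k2m := fun _ => cC (-788) 10000 + cC (2889) 10000 * xD + cC (186) 10000 * xV
  kapL := fun e => cC (853) 10000 + cC (-2112) 10000 * xD + cC (813) 10000 * xV + cC (631) 10000 * e
  kapU := fun e => cC (4951) 10000 + cC (-9373) 10000 * xD + cC (-418) 10000 * xV + cC (599) 10000 * e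
  eL := ⟨cC (-292829) 10000 + cC (771137) 10000 * xD + cC (189399) 10000 * xV + cC (-32276) 10000 * (xV * xV) + cC (-246427) 10000 * (xD * xV) + cC (-442182) 10000 * (xD * xD) + cC (-27430) 10000 * xS,
    cC 0,
    cC 0,
    cC 0,
    cC 0⟩
  eH := ⟨cC (-29573) 10000 + cC (84826) 10000 * xD + cC (9522) 10000 * xV + cC (671) 10000 * (xV * xV) + cC (-29541) 10000 * (xD * xV) + cC (1498) 10000 * (xD * xD) + cC (-25547) 10000 * xS,
    cC 0,
    cC 0,
    cC 0,
    cC (8446) 10000 + cC (-10327) 10000 * xD + cC (-4697) 10000 * xV + cC (23278) 10000 * (xD * xV)⟩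
  pL := ⟨cC (-1878876) 10000 + cC (6330150) 10000 * xD + cC (1222080) 10000 * xV + cC (-1817023) 10000 * (xD * xV) + cC (-180212) 10000 * (xV * xV) + cC (-4733940) 10000 * (xD * xD) + cC (-252666) 10000 * xS,
    cC (-200983) 10000 + cC (314350) 10000 * xD + cC (61897) 10000 * xV,
    cC 0,
    cC 0,
    cC 0⟩
  pU := ⟨cC (273475) 10000 + cC (-11656) 10000 * xD + cC (-44627) 10000 * xV + cC (35333) 10000 * (xD * xV) + cC (4556) 10000 * (xV * xV) + cC (3573) 10000 * (xD * xD) + cC (-263145) 10000 * xS,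
    cC (-24735) 10000 + cC (47862) 10000 * xD + cC (2941) 10000 * xV,
    cC 0,
    cC 0,
    cC (-38537) 10000 + cC (274214) 10000 * xD + cC (53465) 10000 * xV + cC (-216261) 10000 * (xD * xV)⟩
  kU := ⟨cC (-12743) 10000 + cC (28714) 10000 * xD + cC (-299) 10000 * xV + cC (-282) 10000 * (xD * xV) + cC (206) 10000 * (xV * xV) + cC (-31352) 10000 * (xD * xD) + cC (11992) 10000 * xS,
    cC (-2415) 10000 + cC (13439) 10000 * xD + cC (569) 10000 * xV,
    cC (-141) 10000 + cC (973) 10000 * xD + cC (182) 10000 * xV,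
    cC 0,
    cC (-9281) 10000 + cC (39639) 10000 * xD + cC (4886) 10000 * xV + cC (-20863) 10000 * (xD * xV)⟩
  kL := ⟨cC (-9569) 10000 + cC (20226) 10000 * xD + cC (-730) 10000 * xV + cC (1328) 10000 * (xD * xV) + cC (-44) 10000 * (xV * xV) + cC (-31465) 10000 * (xD * xD) + cC (11760) 10000 * xS,
    cC (-330) 10000 + cC (10051) 10000 * xD + cC (-114) 10000 * xV,
    cC (20) 10000 + cC (807) 10000 * xD + cC (113) 10000 * xV,
    cC 0,
    cC 0⟩
  wU := ⟨cC (-52822) 10000 + cC (41031) 10000 * xD + cC (-49656) 10000 * xV + cC (26899) 10000 * (xD * xV) + cC (9475) 10000 * (xV * xV) + cC (260915) 10000 * (xD * xD) + cC (130432) 10000 * xS,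
    cC (-5006) 10000 + cC (6972) 10000 * xD + cC (-2918) 10000 * xV,
    cC (-4284) 10000 + cC (-36470) 10000 * xD + cC (-706) 10000 * xV,
    cC 0,
    cC 0⟩
  wL := ⟨cC (-564662) 10000 + cC (1601466) 10000 * xD + cC (176653) 10000 * xV + cC (-426140) 10000 * (xD * xV) + cC (-20479) 10000 * (xV * xV) + cC (-1541727) 10000 * (xD * xD) + cC (284081) 10000 * xS,
    cC (-75360) 10000 + cC (131498) 10000 * xD + cC (21352) 10000 * xV,
    cC (-34311) 10000 + cC (36215) 10000 * xD + cC (9003) 10000 * xV,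
    cC 0,
    cC (-300904) 10000 + cC (704751) 10000 * xD + cC (142138) 10000 * xV + cC (-250015) 10000 * (xD * xV)⟩

/-- The least `u`. -/
def tC90Lo : Ex :=
  cC (149) 160

/-- A piece: `1.743 ≤ v < 1.9`. -/
def tC91 : Piece where
  u₀ := cC (39) 40
  u₁ := cC (940) 1000 + cC (0) 1000 * xD + cC (18) 1000 * xV
  tLn := lowTn
  tLd := lowTd
  tUn := evN
  tUd := evD
  p₀ := cC (202159) 10000 + cC (-92450) 10000 * xD + cC (-36141) 10000 * xV + cC (70853) 10000 * (xD * xV) + cC (-30146) 10000 * (xD * xD) + cC (-134283) 10000 * xS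
  zL := cC (-14708) 10000 + cC (69828) 10000 * xD + cC (11719) 10000 * xV + cC (-25347) 10000 * (xD * xV) + cC (-1766) 10000 * (xV * xV) + cC (-62446) 10000 * (xD * xD) + cC (-3589) 10000 * xS
  zU := cC (9345) 10000 + cC (-40093) 10000 * xD + cC (-4573) 10000 * xV + cC (8978) 10000 * (xD * xV) + cC (546) 10000 * (xV * xV) + cC (40771) 10000 * (xD * xD) + cC (1592) 10000 * xS
  k2p := fun e => cC (-2239) 10000 + cC (5266) 10000 * xD + cC (658) 10000 * xV + cC (-81) 10000 * e
  k2m := fun _ => cC (-976) 10000 + cC (3615) 10000 * xD + cC (186) 10000 * xV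
  kapL := fun e => cC (1966) 10000 + cC (-3730) 10000 * xD + cC (340) 10000 * xV + cC (497) 10000 * e
  kapU := fun e => cC (5480) 10000 + cC (-10558) 10000 * xD + cC (-658) 10000 * xV + cC (467) 10000 * e
  eL := ⟨cC (-85026) 10000 + cC (206187) 10000 * xD + cC (50034) 10000 * xV + cC (-6292) 10000 * (xV * xV) + cC (-73314) 10000 * (xD * xV) + cC (-74284) 10000 * (xD * xD) + cC (-27814) 10000 * xS,
    cC 0,
    cC 0,
    cC 0,
    cC 0⟩
  eH := ⟨cC (-28390) 10000 + cC (81030) 10000 * xD + cC (9577) 10000 * xV + cC (542) 10000 * (xV * xV) + cC (-27643) 10000 * (xD * xV) + cC (1924) 10000 * (xD * xD) + cC (-26742) 10000 * xS,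
    cC 0,
    cC 0,
    cC 0,
    cC (-177127) 10000 + cC (689440) 10000 * xD + cC (100830) 10000 * xV + cC (-374536) 10000 * (xD * xV)⟩
  pL := ⟨cC (-375495) 10000 + cC (1867244) 10000 * xD + cC (337129) 10000 * xV + cC (-529460) 10000 * (xD * xV) + cC (-50296) 10000 * (xV * xV) + cC (-1421835) 10000 * (xD * xD) + cC (-249915) 10000 * xS,
    cC (-66809) 10000 + cC (93732) 10000 * xD + cC (19078) 10000 * xV,
    cC 0,
    cC 0,
    cC 0⟩
  pU := ⟨cC (317026) 10000 + cC (-140267) 10000 * xD + cC (-64783) 10000 * xV + cC (52667) 10000 * (xD * xV) + cC (6456) 10000 * (xV * xV) + cC (54125) 10000 * (xD * xD) + cC (-250992) 10000 * xS,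
    cC (-7971) 10000 + cC (12554) 10000 * xD + cC (-1368) 10000 * xV,
    cC 0,
    cC 0,
    cC (37177) 10000 + cC (-28955) 10000 * xD + cC (6834) 10000 * xV + cC (-29770) 10000 * (xD * xV)⟩
  kU := ⟨cC (-6757) 10000 + cC (18493) 10000 * xD + cC (4706) 10000 * xV + cC (-4278) 10000 * (xD * xV) + cC (-439) 10000 * (xV * xV) + cC (-17155) 10000 * (xD * xD) + cC (929) 10000 * xS,
    cC (-2386) 10000 + cC (5993) 10000 * xD + cC (1438) 10000 * xV,
    cC (21) 10000 + cC (-76) 10000 * xD,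
    cC 0,
    cC (-33354) 10000 + cC (136729) 10000 * xD + cC (18912) 10000 * xV + cC (-74640) 10000 * (xD * xV)⟩
  kL := ⟨cC (-9460) 10000 + cC (32609) 10000 * xD + cC (-2847) 10000 * xV + cC (-289) 10000 * (xD * xV) + cC (479) 10000 * (xV * xV) + cC (-41339) 10000 * (xD * xD) + cC (12073) 10000 * xS,
    cC (-1148) 10000 + cC (11357) 10000 * xD + cC (150) 10000 * xV,
    cC (-256) 10000 + cC (505) 10000 * xD + cC (310) 10000 * xV,
    cC 0,
    cC 0⟩
  wU := ⟨cC (63507) 10000 + cC (-91398) 10000 * xD + cC (-101006) 10000 * xV + cC (46253) 10000 * (xD * xV) + cC (14814) 10000 * (xV * xV) + cC (36738) 10000 * (xD * xD) + cC (128288) 10000 * xS,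
    cC (-6155) 10000 + cC (10015) 10000 * xD + cC (-2789) 10000 * xV,
    cC (-22136) 10000 + cC (537) 10000 * xD + cC (3915) 10000 * xV,
    cC 0,
    cC (-1444328) 10000 + cC (5432755) 10000 * xD + cC (809495) 10000 * xV + cC (-3042397) 10000 * (xD * xV)⟩
  wL := ⟨cC (229577) 10000 + cC (-56565) 10000 * xD + cC (-224534) 10000 * xV + cC (92900) 10000 * (xD * xV) + cC (28464) 10000 * (xV * xV) + cC (-58864) 10000 * (xD * xD) + cC (110608) 10000 * xS,
    cC (-24944) 10000 + cC (14269) 10000 * xD + cC (6828) 10000 * xV,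
    cC (-44083) 10000 + cC (-9701) 10000 * xD + cC (17421) 10000 * xV,
    cC 0,
    cC (-907341) 10000 + cC (3197121) 10000 * xD + cC (520564) 10000 * xV + cC (-1834263) 10000 * (xD * xV)⟩

/-- The least `u`. -/
def tC91Lo : Ex :=
  cC (149) 160

/-- The upper end of `u`. -/
def tC92Hi : Ex :=
  cC (39) 40

/-- The least `u`. -/
def tC92Lo : Ex :=
  cC (149) 160

/-- The upper end of `u`. -/
def tC93Hi : Ex :=
  cC (4) 5

/-- The least `u`. -/
def tC93Lo : Ex :=
  cC (3) 5

/-- A piece: `1.9 ≤ v < 2.136`. -/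
def tC94 : Piece where
  u₀ := cC (39) 40
  u₁ := cC (965) 1000 + cC (33) 1000 * xD + cC (0) 1000 * xV
  tLn := lowTn
  tLd := lowTd
  tUn := upCn
  tUd := upCd
  p₀ := cC (205776) 10000 + cC (-80285) 10000 * xD + cC (-35025) 10000 * xV + cC (67198) 10000 * (xD * xV) + cC (-44199) 10000 * (xD * xD) + cC (-143456) 10000 * xS
  zL := cC (8670) 10000 + cC (-14404) 10000 * xD + cC (-2382) 10000 * xV + cC (-361) 10000 * (xD * xV) + cC (239) 10000 * (xV * xV) + cC (12017) 10000 * (xD * xD) + cC (-3481) 10000 * xS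
  zU := cC (9556) 10000 + cC (-17642) 10000 * xD + cC (-2050) 10000 * xV + cC (-1405) 10000 * (xD * xV) + cC (242) 10000 * (xV * xV) + cC (18892) 10000 * (xD * xD) + cC (-3461) 10000 * xS
  k2p := fun e => cC (-8038) 10000 + cC (21352) 10000 * xD + cC (2256) 10000 * xV + cC (163) 10000 * e
  k2m := fun e => cC (-2311) 10000 + cC (6235) 10000 * xD + cC (593) 10000 * xV + cC (21) 10000 * e
  kapL := fun e => cC (-7665) 10000 + cC (15360) 10000 * xD + cC (2617) 10000 * xV + cC (195) 10000 * e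
  kapU := fun e => cC (-9164) 10000 + cC (18545) 10000 * xD + cC (3160) 10000 * xV + cC (235) 10000 * e
  eL := ⟨cC (690130) 10000 + cC (3345813) 10000 * xD + cC (-223158) 10000 * xV + cC (70537) 10000 * (xV * xV) + cC (-1147096) 10000 * (xD * xV) + cC (-5190226) 10000 * (xD * xD) + cC (-793060) 10000 * xS,
    cC 0,
    cC 0,
    cC 0,
    cC (2183008) 10000 + cC (-8284646) 10000 * xD + cC (-1022006) 10000 * xV + cC (3878579) 10000 * (xD * xV)⟩
  eH := ⟨cC (690291) 10000 + cC (3345813) 10000 * xD + cC (-223158) 10000 * xV + cC (70537) 10000 * (xV * xV) + cC (-1147096) 10000 * (xD * xV) + cC (-5190226) 10000 * (xD * xD) + cC (-793060) 10000 * xS,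
    cC 0,
    cC 0,
    cC 0,
    cC (250000) 10000⟩
  pL := ⟨cC (-5601037) 10000 + cC (22334379) 10000 * xD + cC (3315971) 10000 * xV + cC (-6429081) 10000 * (xD * xV) + cC (-482026) 10000 * (xV * xV) + cC (-21618749) 10000 * (xD * xD) + cC (-113844) 10000 * xS,
    cC (106627) 10000 + cC (-197787) 10000 * xD + cC (-29110) 10000 * xV,
    cC 0,
    cC 0,
    cC (4145096) 10000 + cC (-15730904) 10000 * xD + cC (-1940587) 10000 * xV + cC (7364656) 10000 * (xD * xV)⟩
  pU := ⟨cC (-5600657) 10000 + cC (22334379) 10000 * xD + cC (3315971) 10000 * xV + cC (-6429081) 10000 * (xD * xV) + cC (-482026) 10000 * (xV * xV) + cC (-21618749) 10000 * (xD * xD) + cC (-113844) 10000 * xS,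
    cC (106627) 10000 + cC (-197787) 10000 * xD + cC (-29110) 10000 * xV,
    cC 0,
    cC 0,
    cC (21386821) 10000 + cC (-84806353) 10000 * xD + cC (-10311489) 10000 * xV + cC (41162875) 10000 * (xD * xV)⟩
  kU := ⟨cC (-736) 10000,
    cC 0,
    cC 0,
    cC 0,
    cC (4183003) 10000 + cC (-15865862) 10000 * xD + cC (-1957697) 10000 * xV + cC (7430146) 10000 * (xD * xV)⟩
  kL := ⟨cC (-579697) 10000 + cC (4138758) 10000 * xD + cC (359574) 10000 * xV + cC (-1180521) 10000 * (xD * xV) + cC (-53039) 10000 * (xV * xV) + cC (-6064645) 10000 * (xD * xD) + cC (-745) 10000 * xS,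
    cC (15806) 10000 + cC (-33641) 10000 * xD + cC (-3826) 10000 * xV,
    cC (-92510) 10000 + cC (191480) 10000 * xD + cC (23080) 10000 * xV,
    cC 0,
    cC (19077524) 10000 + cC (-72101750) 10000 * xD + cC (-8898289) 10000 * xV + cC (33631746) 10000 * (xD * xV)⟩
  wU := ⟨cC (2550312) 10000 + cC (-35576118) 10000 * xD + cC (-1895251) 10000 * xV + cC (10206532) 10000 * (xD * xV) + cC (271059) 10000 * (xV * xV) + cC (60057441) 10000 * (xD * xD) + cC (370173) 10000 * xS,
    cC (-116631) 10000 + cC (271979) 10000 * xD + cC (27657) 10000 * xV,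
    cC (1112988) 10000 + cC (-2310645) 10000 * xD + cC (-276891) 10000 * xV,
    cC 0,
    cC (-395600) 10000 + cC (9649293) 10000 * xD + cC (339790) 10000 * xV + cC (-5078575) 10000 * (xD * xV)⟩
  wL := ⟨cC (-663257) 10000 + cC (4343401) 10000 * xD + cC (377354) 10000 * xV + cC (-1238892) 10000 * (xD * xV) + cC (-55662) 10000 * (xV * xV) + cC (-6364513) 10000 * (xD * xD) + cC (-782) 10000 * xS,
    cC (16587) 10000 + cC (-35304) 10000 * xD + cC (-4015) 10000 * xV,
    cC (-97084) 10000 + cC (200948) 10000 * xD + cC (24221) 10000 * xV,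
    cC 0,
    cC (16217284) 10000 + cC (-61109161) 10000 * xD + cC (-7543992) 10000 * xV + cC (28491315) 10000 * (xD * xV)⟩

/-- The least `u`. -/
def tC94Lo : Ex :=
  cC (4) 5

/-- The upper end of `u`. -/
def tC95Hi : Ex :=
  cC (39) 40

/-- The least `u`. -/
def tC95Lo : Ex :=
  cC (4) 5

end Vale.Agent.P100.Calib.Closed.Six.Tail
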