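import Vale.Agent.P100.Calib.SlabSixTailRules

/-!
# The pieces of the certificate
-/

namespace Vale.Agent.P100.Calib.Closed.Six.Tail

open BoxPos Large

local instance sixTailDataLayerAAdd : Add Ex := ⟨Ex.add⟩
local instance sixTailDataLayerASub : Sub Ex := ⟨Ex.sub⟩
local instance sixTailDataLayerAMul : Mul Ex := ⟨Ex.mul⟩

/-- A piece: `1.07 ≤ v < 1.5`. -/
def yA0 : Piece where
  u₀ := cC 1 + cC (-2) 5 * xD
  u₁ := cC (9749) 10000
  tLn := lowEn
  tLd := lowEd
  tUn := layUn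
  tUd := layUd
  p₀ := cC (237383) 10000 + cC (-174816) 10000 * xD + cC (-39999) 10000 * xV + cC (117948) 10000 * (xD * xV) + cC (-80239) 10000 * (xD * xD) + cC (-176200) 10000 * xS
  zL := cC 0
  zU := cC 0
  k2p := fun _ => cC 0
  k2m := fun _ => cC 0
  kapL := fun _ => cC 0
  kapU := fun _ => cC 0
  eL := ⟨cC 0, cC 0, cC 0, cC 0, cC 0⟩
  eH := ⟨cC 0, cC 0, cC 0, cC 0, cC 0⟩
  pL := ⟨cC 0, cC 0, cC 0, cC 0, cC 0⟩
  pU := ⟨cC 0,
    cC 0,
    cC 0,
    cC (10000) 10000,
    cC (34888) 10000 + cC (-2325581) 10000 * xD + cC (-23256) 10000 * xV + cC (1550388) 10000 * (xD * xV)⟩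
  kU := ⟨cC 0, cC 0, cC 0, cC 0, cC 0⟩
  kL := ⟨cC 0, cC 0, cC 0, cC 0, cC 0⟩
  wU := ⟨cC 0, cC 0, cC 0, cC 0, cC 0⟩
  wL := ⟨cC 0, cC 0, cC 0, cC 0, cC 0⟩

/-- A piece: `1.07 ≤ v < 1.5`. -/
def yA1 : Piece where
  u₀ := cC 1 + cC (-2) 5 * xD
  u₁ := cC (9749) 10000
  tLn := lowEn
  tLd := lowEd
  tUn := layUn
  tUd := layUd
  p₀ := cC (234085) 10000 + cC (-167467) 10000 * xD + cC (-39968) 10000 * xV + cC (113938) 10000 * (xD * xV) + cC (-46247) 10000 * (xD * xD) + cC (-171394) 10000 * xS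
  zL := cC (6925) 10000 + cC (-122484) 10000 * xD + cC (-806) 10000 * xV + cC (-9144) 10000 * (xD * xV) + cC (17) 10000 * (xV * xV) + cC (1346760) 10000 * (xD * xD) + cC (-246) 10000 * xS
  zU := cC (9938) 10000 + cC (-130347) 10000 * xD + cC (-74) 10000 * xV + cC (-13945) 10000 * (xD * xV) + cC (10) 10000 * (xV * xV) + cC (1347846) 10000 * (xD * xD) + cC (-286) 10000 * xS
  k2p := fun e => cC (401) 10000 * xD + cC (19) 10000 * xV + cC (7) 10000 * e
  k2m := fun _ => cC (22) 10000 + cC (66) 10000 * xD + cC (-8) 10000 * xV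
  kapL := fun e => cC (69) 10000 + cC (15811) 10000 * xD + cC (344) 10000 * xV + cC (265) 10000 * e
  kapU := fun e => cC (270) 10000 + cC (8141) 10000 * xD + cC (-39) 10000 * xV + cC (48) 10000 * e
  eL := ⟨cC (15692) 10000 + cC (-573840) 10000 * xD + cC (1516) 10000 * xV + cC (-359) 10000 * (xV * xV) + cC (92245) 10000 * (xD * xV) + cC (3657672) 10000 * (xD * xD) + cC (-51691) 10000 * xS,
    cC 0,
    cC 0,
    cC 0,
    cC 0⟩
  eH := ⟨cC (-1615) 10000 + cC (-259474) 10000 * xD + cC (10377) 10000 * xV + cC (237) 10000 * (xV * xV) + cC (11186) 10000 * (xD * xV) + cC (2923659) 10000 * (xD * xD) + cC (-45580) 10000 * xS,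
    cC 0,
    cC 0,
    cC (2541) 10000,
    cC 0⟩
  pL := ⟨cC (233890) 10000 + cC (-167467) 10000 * xD + cC (-39968) 10000 * xV + cC (113938) 10000 * (xD * xV) + cC (-46247) 10000 * (xD * xD) + cC (-171394) 10000 * xS,
    cC 0,
    cC 0,
    cC (10000) 10000,
    cC 0⟩
  pU := ⟨cC (252587) 10000 + cC (-2781319) 10000 * xD + cC (-56086) 10000 * xV + cC (2098351) 10000 * (xD * xV) + cC (7108) 10000 * (xV * xV) + cC (52974846) 10000 * (xD * xD) + cC (-202073) 10000 * xS,
    cC (-28255) 10000 + cC (644090) 10000 * xD + cC (14165) 10000 * xV,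
    cC 0,
    cC 0,
    cC 0⟩
  kU := ⟨cC (1040) 10000 + cC (-7916) 10000 * xD + cC (-45) 10000 * xV + cC (3555) 10000 * (xD * xV) + cC (148) 10000 * (xV * xV) + cC (59507) 10000 * (xD * xD) + cC (-2500) 10000 * xS,
    cC (-964) 10000 + cC (10640) 10000 * xD + cC (203) 10000 * xV,
    cC (-193) 10000 + cC (3161) 10000 * xD + cC (51) 10000 * xV,
    cC (74) 10000,
    cC 0⟩
  kL := ⟨cC (-3280) 10000 + cC (-17931) 10000 * xD + cC (3012) 10000 * xV + cC (20958) 10000 * (xD * xV) + cC (-412) 10000 * (xV * xV) + cC (1230966) 10000 * (xD * xD) + cC (-2752) 10000 * xS,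
    cC (-1977) 10000 + cC (19782) 10000 * xD + cC (688) 10000 * xV,
    cC (205) 10000 + cC (-5516) 10000 * xD + cC (-92) 10000 * xV,
    cC 0,
    cC 0⟩
  wU := ⟨cC (29432) 10000 + cC (-2764612) 10000 * xD + cC (-101898) 10000 * xV + cC (1291591) 10000 * (xD * xV) + cC (24381) 10000 * (xV * xV) + cC (5369698) 10000 * (xD * xD) + cC (150461) 10000 * xS,
    cC (-13853) 10000 + cC (376604) 10000 * xD + cC (-816) 10000 * xV,
    cC (-21526) 10000 + cC (293653) 10000 * xD + cC (764) 10000 * xV,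
    cC 0,
    cC 0⟩
  wL := ⟨cC (-1304401) 10000 + cC (-2324137) 10000 * xD + cC (561155) 10000 * xV + cC (3493146) 10000 * (xD * xV) + cC (-75832) 10000 * (xV * xV) + cC (234611916) 10000 * (xD * xD) + cC (513479) 10000 * xS,
    cC (-235530) 10000 + cC (1932197) 10000 * xD + cC (119323) 10000 * xV,
    cC (65878) 10000 + cC (-1619843) 10000 * xD + cC (-18524) 10000 * xV,
    cC 0,
    cC 0⟩

/-- A piece: `1.5 ≤ v < 2.2`. -/
def yA2 : Piece where
  u₀ := cC 1 + cC (-2) 5 * xD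
  u₁ := cC (9749) 10000
  tLn := lowEn
  tLd := lowEd
  tUn := layUn
  tUd := layUd
  p₀ := cC (236380) 10000 + cC (-168647) 10000 * xD + cC (-39983) 10000 * xV + cC (115273) 10000 * (xD * xV) + cC (-126325) 10000 * (xD * xD) + cC (-174732) 10000 * xS
  zL := cC (6845) 10000 + cC (-127677) 10000 * xD + cC (-754) 10000 * xV + cC (-8794) 10000 * (xD * xV) + cC (3) 10000 * (xV * xV) + cC (1452430) 10000 * (xD * xD) + cC (-133) 10000 * xS
  zU := cC (10178) 10000 + cC (-162625) 10000 * xD + cC (-30) 10000 * xV + cC (-15681) 10000 * (xD * xV) + cC (8) 10000 * (xV * xV) + cC (2212357) 10000 * (xD * xD) + cC (-220) 10000 * xS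
  k2p := fun e => cC (-20) 10000 + cC (241) 10000 * xD + cC (8) 10000 * xV + cC (-10) 10000 * e
  k2m := fun _ => cC (10) 10000 + cC (65) 10000 * xD
  kapL := fun e => cC (410) 10000 + cC (4880) 10000 * xD + cC (251) 10000 * xV + cC (296) 10000 * e
  kapU := fun e => cC (850) 10000 + cC (7285) 10000 * xD + cC (186) 10000 * xV + cC (395) 10000 * e
  eL := ⟨cC (18523) 10000 + cC (-782457) 10000 * xD + cC (-1689) 10000 * xV + cC (-184) 10000 * (xV * xV) + cC (249511) 10000 * (xD * xV) + cC (2531564) 10000 * (xD * xD) + cC (-49548) 10000 * xS,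
    cC 0,
    cC 0,
    cC 0,
    cC 0⟩
  eH := ⟨cC (-20665) 10000 + cC (-212121) 10000 * xD + cC (11267) 10000 * xV + cC (85) 10000 * (xV * xV) + cC (16379) 10000 * (xD * xV) + cC (2608895) 10000 * (xD * xD) + cC (-19775) 10000 * xS,
    cC 0,
    cC 0,
    cC (2883) 10000,
    cC 0⟩
  pL := ⟨cC (236230) 10000 + cC (-168647) 10000 * xD + cC (-39983) 10000 * xV + cC (115273) 10000 * (xD * xV) + cC (-126325) 10000 * (xD * xD) + cC (-174732) 10000 * xS,
    cC 0,
    cC 0,
    cC (10000) 10000,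
    cC 0⟩
  pU := ⟨cC (430927) 10000 + cC (473728) 10000 * xD + cC (-188694) 10000 * xV + cC (-320486) 10000 * (xD * xV) + cC (26105) 10000 * (xV * xV) + cC (1424156) 10000 * (xD * xD) + cC (-161163) 10000 * xS,
    cC (80375) 10000 + cC (-383218) 10000 * xD + cC (-39211) 10000 * xV,
    cC 0,
    cC 0,
    cC 0⟩
  kU := ⟨cC (2564) 10000 + cC (-1251) 10000 * xD + cC (5) 10000 * xV + cC (-108) 10000 * (xD * xV) + cC (3) 10000 * (xV * xV) + cC (11362) 10000 * (xD * xD) + cC (-3817) 10000 * xS,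
    cC (-748) 10000 + cC (8603) 10000 * xD + cC (51) 10000 * xV,
    cC (-209) 10000 + cC (2484) 10000 * xD + cC (12) 10000 * xV,
    cC 0,
    cC 0⟩
  kL := ⟨cC (-140) 10000 + cC (-10667) 10000 * xD + cC (976) 10000 * xV + cC (7656) 10000 * (xD * xV) + cC (-196) 10000 * (xV * xV) + cC (350858) 10000 * (xD * xD) + cC (-2302) 10000 * xS,
    cC (-1095) 10000 + cC (7504) 10000 * xD + cC (269) 10000 * xV,
    cC (-85) 10000 + cC (-1883) 10000 * xD + cC (26) 10000 * xV,
    cC 0,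
    cC 0⟩
  wU := ⟨cC (-68402) 10000 + cC (278082) 10000 * xD + cC (-2050) 10000 * xV + cC (-102003) 10000 * (xD * xV) + cC (612) 10000 * (xV * xV) + cC (844719) 10000 * (xD * xD) + cC (108029) 10000 * xS,
    cC (-4163) 10000 + cC (107617) 10000 * xD + cC (-5045) 10000 * xV,
    cC (-11450) 10000 + cC (22827) 10000 * xD + cC (-1507) 10000 * xV,
    cC 0,
    cC 0⟩
  wL := ⟨cC (-87282) 10000 + cC (173158) 10000 * xD + cC (1440) 10000 * xV + cC (-45098) 10000 * (xD * xV) + cC (-408) 10000 * (xV * xV) + cC (553059) 10000 * (xD * xD) + cC (127044) 10000 * xS,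
    cC (-5624) 10000 + cC (42142) 10000 * xD + cC (-3643) 10000 * xV,
    cC (-11306) 10000 + cC (-9418) 10000 * xD + cC (-1014) 10000 * xV,
    cC 0,
    cC 0⟩

/-- The cut in `e`. -/
def yA2Cut : Ex :=
  cC (-12937) 10000 + cC (-220389) 10000 * xD + cC (1544) 10000 * xV + cC (1711) 10000 * (xV * xV) + cC (-12908) 10000 * (xD * xV) + cC (-118977) 10000 * (xD * xD) + cC (-15735) 10000 * xS

/-- The bound of `p` above the cut. -/
def yA2PU : Bnd :=
  ⟨cC (202909) 10000 + cC (-1431131) 10000 * xD + cC (-28683) 10000 * xV + cC (369825) 10000 * (xD * xV) + cC (4702) 10000 * (xV * xV) + cC (5766397) 10000 * (xD * xD) + cC (-232827) 10000 * xS,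
    cC (-22188) 10000 + cC (-199335) 10000 * xD + cC (-3591) 10000 * xV,
    cC 0,
    cC 0,
    cC 0⟩

/-- A multiplier above the cut. -/
def yA2K2p : Ex → Ex :=
  fun e => cC (-34) 10000 + cC (-184) 10000 * xD + cC (13) 10000 * xV + cC (-19) 10000 * e

/-- A multiplier above the cut. -/
def yA2K2m : Ex → Ex :=
  fun _ => cC (10) 10000 + cC (65) 10000 * xD

/-- A multiplier above the cut. -/
def yA2KapL : Ex → Ex :=
  fun e => cC (-931) 10000 + cC (-1775) 10000 * xD + cC (950) 10000 * xV + cC (121) 10000 * e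

/-- A multiplier above the cut. -/
def yA2KapU : Ex → Ex :=
  fun e => cC (-113) 10000 + cC (-24268) 10000 * xD + cC (463) 10000 * xV + cC (-188) 10000 * e

/-- Below the cut. -/
def yA2A : Piece :=
  yA2.below yA2Cut

/-- Above the cut. -/
def yA2B : Piece :=
  { yA2.above yA2Cut yA2PU with k2p := yA2K2p, k2m := yA2K2m, kapL := yA2KapL, kapU := yA2KapU }

/-- A piece: `2.2 ≤ v < 2.569`. -/
def yA3 : Piece where
  u₀ := cC 1 + cC (-2) 5 * xD
  u₁ := cC (9749) 10000
  tLn := lowEn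
  tLd := lowEd
  tUn := layUn
  tUd := layUd
  p₀ := cC (237473) 10000 + cC (-167638) 10000 * xD + cC (-39984) 10000 * xV + cC (115375) 10000 * (xD * xV) + cC (-186183) 10000 * (xD * xD) + cC (-176329) 10000 * xS
  zL := cC (6819) 10000 + cC (-132718) 10000 * xD + cC (-714) 10000 * xV + cC (-7656) 10000 * (xD * xV) + cC (-6) 10000 * (xV * xV) + cC (1521881) 10000 * (xD * xD) + cC (-134) 10000 * xS
  zU := cC (10198) 10000 + cC (-165404) 10000 * xD + cC (-36) 10000 * xV + cC (-15332) 10000 * (xD * xV) + cC (7) 10000 * (xV * xV) + cC (2301771) 10000 * (xD * xD) + cC (-223) 10000 * xS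
  k2p := fun _ => cC (19) 10000 + cC (575) 10000 * xD + cC (-3) 10000 * xV
  k2m := fun e => cC (13) 10000 + cC (94) 10000 * xD + cC (2) 10000 * e
  kapL := fun e => cC (-11) 10000 + cC (5924) 10000 * xD + cC (336) 10000 * xV + cC (288) 10000 * e
  kapU := fun e => cC (2079) 10000 + cC (-501) 10000 * xD + cC (-64) 10000 * xV + cC (598) 10000 * e
  eL := ⟨cC (12685) 10000 + cC (-818413) 10000 * xD + cC (-485) 10000 * xV + cC (-398) 10000 * (xV * xV) + cC (284970) 10000 * (xD * xV) + cC (906435) 10000 * (xD * xD) + cC (-43317) 10000 * xS,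
    cC 0,
    cC 0,
    cC 0,
    cC 0⟩
  eH := ⟨cC (-31246) 10000 + cC (-322911) 10000 * xD + cC (10368) 10000 * xV + cC (62) 10000 * (xV * xV) + cC (37595) 10000 * (xD * xV) + cC (3407188) 10000 * (xD * xD),
    cC 0,
    cC 0,
    cC (2662) 10000,
    cC 0⟩
  pL := ⟨cC (166035) 10000 + cC (-132765) 10000 * xD + cC (-21344) 10000 * xV + cC (75930) 10000 * (xD * xV) + cC (-3) 10000 * (xV * xV) + cC (203597) 10000 * (xD * xD) + cC (-153192) 10000 * xS,
    cC (-9734) 10000 + cC (12440) 10000 * xD + cC (79) 10000 * xV,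
    cC 0,
    cC (5343) 10000,
    cC 0⟩
  pU := ⟨cC (190936) 10000 + cC (1254084) 10000 * xD + cC (-26874) 10000 * xV + cC (-537813) 10000 * (xD * xV) + cC (4653) 10000 * (xV * xV) + cC (19880) 10000 * (xD * xD) + cC (-176204) 10000 * xS,
    cC (6764) 10000 + cC (-230656) 10000 * xD + cC (-5374) 10000 * xV,
    cC 0,
    cC 0,
    cC 0⟩
  kU := ⟨cC (1411) 10000 + cC (-3163) 10000 * xD + cC (-92) 10000 * xV + cC (427) 10000 * (xD * xV) + cC (17) 10000 * (xV * xV) + cC (26232) 10000 * (xD * xD) + cC (-1870) 10000 * xS,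
    cC (-617) 10000 + cC (6997) 10000 * xD + cC (17) 10000 * xV,
    cC (-163) 10000 + cC (1810) 10000 * xD + cC (2) 10000 * xV,
    cC 0,
    cC 0⟩
  kL := ⟨cC (869) 10000 + cC (608) 10000 * xD + cC (360) 10000 * xV + cC (1044) 10000 * (xD * xV) + cC (-72) 10000 * (xV * xV) + cC (-65991) 10000 * (xD * xD) + cC (-1984) 10000 * xS,
    cC (-689) 10000 + cC (2510) 10000 * xD + cC (133) 10000 * xV,
    cC (-171) 10000 + cC (484) 10000 * xD + cC (28) 10000 * xV,
    cC 0,
    cC 0⟩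
  wU := ⟨cC (-7750) 10000 + cC (74143) 10000 * xD + cC (-928) 10000 * xV + cC (-30531) 10000 * (xD * xV) + cC (675) 10000 * (xV * xV) + cC (64122) 10000 * (xD * xD) + cC (10788) 10000 * xS,
    cC (-9066) 10000 + cC (4382) 10000 * xD + cC (-2464) 10000 * xV,
    cC (-11301) 10000 + cC (-4220) 10000 * xD + cC (-1245) 10000 * xV,
    cC 0,
    cC 0⟩
  wL := ⟨cC (-28299) 10000 + cC (95776) 10000 * xD + cC (1045) 10000 * xV + cC (-29886) 10000 * (xD * xV) + cC (-221) 10000 * (xV * xV) + cC (81473) 10000 * (xD * xD) + cC (40006) 10000 * xS,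
    cC (-8546) 10000 + cC (24703) 10000 * xD + cC (-3556) 10000 * xV,
    cC (-12619) 10000 + cC (-2675) 10000 * xD + cC (-996) 10000 * xV,
    cC 0,
    cC 0⟩

/-- The cut in `e`. -/
def yA3Cut : Ex :=
  cC (-4988) 10000 + cC (-1158956) 10000 * xD + cC (-3283) 10000 * xV + cC (223) 10000 * (xV * xV) + cC (362063) 10000 * (xD * xV) + cC (3000416) 10000 * (xD * xD) + cC (-98) 10000 * xS

/-- The bound of `p` above the cut. -/
def yA3PU : Bnd :=
  ⟨cC (165519) 10000 + cC (-1848733) 10000 * xD + cC (-28709) 10000 * xV + cC (447697) 10000 * (xD * xV) + cC (4510) 10000 * (xV * xV) + cC (8241104) 10000 * (xD * xD) + cC (-176329) 10000 * xS,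
    cC (-25883) 10000 + cC (-211105) 10000 * xD + cC (-2667) 10000 * xV,
    cC 0,
    cC 0,
    cC 0⟩

/-- A multiplier above the cut. -/
def yA3K2p : Ex → Ex :=
  fun _ => cC (10) 10000 + cC (474) 10000 * xD

/-- A multiplier above the cut. -/
def yA3K2m : Ex → Ex :=
  fun e => cC (13) 10000 + cC (202) 10000 * xD + cC (1) 10000 * xV + cC (5) 10000 * e

/-- A multiplier above the cut. -/
def yA3KapL : Ex → Ex :=
  fun e => cC (1530) 10000 + cC (38098) 10000 * xD + cC (419) 10000 * xV + cC (1743) 10000 * e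

/-- A multiplier above the cut. -/
def yA3KapU : Ex → Ex :=
  fun e => cC (4527) 10000 + cC (16956) 10000 * xD + cC (-432) 10000 * xV + cC (1822) 10000 * e

/-- Below the cut. -/
def yA3A : Piece :=
  yA3.below yA3Cut

/-- Above the cut. -/
def yA3B : Piece :=
  { yA3.above yA3Cut yA3PU with k2p := yA3K2p, k2m := yA3K2m, kapL := yA3KapL, kapU := yA3KapU }

/-- A piece: `2.569 ≤ v < 2.776`. -/
def yA4 : Piece where
  u₀ := cC 1 + cC (-2) 5 * xD
  u₁ := cC (9749) 10000
  tLn := lowEn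
  tLd := lowEd
  tUn := layUn
  tUd := layUd
  p₀ := cC (238413) 10000 + cC (-172784) 10000 * xD + cC (-39998) 10000 * xV + cC (117490) 10000 * (xD * xV) + cC (-225270) 10000 * (xD * xD) + cC (-177655) 10000 * xS
  zL := cC (6739) 10000 + cC (-132206) 10000 * xD + cC (-695) 10000 * xV + cC (-9145) 10000 * (xD * xV) + cC (-6) 10000 * (xV * xV) + cC (1673223) 10000 * (xD * xD) + cC (-65) 10000 * xS
  zU := cC (10096) 10000 + cC (-178482) 10000 * xD + cC (-12) 10000 * xV + cC (-17018) 10000 * (xD * xV) + cC (2) 10000 * (xV * xV) + cC (3433699) 10000 * (xD * xD) + cC (-108) 10000 * xS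
  k2p := fun _ => cC (10) 10000 + cC (242) 10000 * xD
  k2m := fun e => cC (11) 10000 + cC (84) 10000 * xD + cC (1) 10000 * e
  kapL := fun e => cC (-11641) 10000 + cC (4258) 10000 * xD + cC (4870) 10000 * xV + cC (165) 10000 * e
  kapU := fun e => cC (5) 10000 + cC (-7369) 10000 * xD + cC (677) 10000 * xV + cC (452) 10000 * e
  eL := ⟨cC (16006) 10000 + cC (-926948) 10000 * xD + cC (-625) 10000 * xV + cC (-335) 10000 * (xV * xV) + cC (342003) 10000 * (xD * xV) + cC (-1392810) 10000 * (xD * xD) + cC (-48338) 10000 * xS,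
    cC 0,
    cC 0,
    cC 0,
    cC 0⟩
  eH := ⟨cC (-59141) 10000 + cC (-364583) 10000 * xD + cC (9558) 10000 * xV + cC (208) 10000 * (xV * xV) + cC (48121) 10000 * (xD * xV) + cC (4398581) 10000 * (xD * xD) + cC (43235) 10000 * xS,
    cC 0,
    cC 0,
    cC (2607) 10000,
    cC 0⟩
  pL := ⟨cC (157523) 10000 + cC (-155424) 10000 * xD + cC (-25638) 10000 * xV + cC (92255) 10000 * (xD * xV) + cC (-173) 10000 * (xV * xV) + cC (-50732) 10000 * (xD * xD) + cC (-118760) 10000 * xS,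
    cC (-7060) 10000 + cC (8082) 10000 * xD + cC (156) 10000 * xV,
    cC 0,
    cC (6657) 10000,
    cC 0⟩
  pU := ⟨cC (143188) 10000 + cC (550580) 10000 * xD + cC (-3897) 10000 * xV + cC (-560277) 10000 * (xD * xV) + cC (1518) 10000 * (xV * xV) + cC (7927821) 10000 * (xD * xD) + cC (-161457) 10000 * xS,
    cC (-5440) 10000 + cC (-553910) 10000 * xD + cC (-500) 10000 * xV,
    cC 0,
    cC 0,
    cC 0⟩
  kU := ⟨cC (1437) 10000 + cC (-3759) 10000 * xD + cC (-62) 10000 * xV + cC (578) 10000 * (xD * xV) + cC (10) 10000 * (xV * xV) + cC (43490) 10000 * (xD * xD) + cC (-1965) 10000 * xS,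
    cC (-617) 10000 + cC (6143) 10000 * xD + cC (18) 10000 * xV,
    cC (-159) 10000 + cC (1413) 10000 * xD + cC (2) 10000 * xV,
    cC 0,
    cC 0⟩
  kL := ⟨cC (-30) 10000 + cC (1226) 10000 * xD + cC (635) 10000 * xV + cC (1299) 10000 * (xD * xV) + cC (-122) 10000 * (xV * xV) + cC (-79222) 10000 * (xD * xD) + cC (-1238) 10000 * xS,
    cC (-668) 10000 + cC (1501) 10000 * xD + cC (139) 10000 * xV,
    cC (-182) 10000 + cC (-235) 10000 * xD + cC (38) 10000 * xV,
    cC 0,
    cC 0⟩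
  wU := ⟨cC (1595) 10000 + cC (62247) 10000 * xD + cC (-1828) 10000 * xV + cC (-22112) 10000 * (xD * xV) + cC (446) 10000 * (xV * xV) + cC (132530) 10000 * (xD * xD) + cC (1163) 10000 * xS,
    cC (-8231) 10000 + cC (1247) 10000 * xD + cC (-2959) 10000 * xV,
    cC (-11877) 10000 + cC (-9891) 10000 * xD + cC (-984) 10000 * xV,
    cC 0,
    cC 0⟩
  wL := ⟨cC (-263523) 10000 + cC (-595094) 10000 * xD + cC (198927) 10000 * xV + cC (243803) 10000 * (xD * xV) + cC (-37582) 10000 * (xV * xV) + cC (-793903) 10000 * (xD * xD) + cC (-15) 10000 * xS,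
    cC (-82571) 10000 + cC (-57723) 10000 * xD + cC (25408) 10000 * xV,
    cC (-37685) 10000 + cC (-36075) 10000 * xD + cC (8816) 10000 * xV,
    cC 0,
    cC 0⟩

/-- The cut in `e`. -/
def yA4Cut : Ex :=
  cC (-241) 10000 + cC (-1316488) 10000 * xD + cC (-12220) 10000 * xV + cC (1796) 10000 * (xV * xV) + cC (483198) 10000 * (xD * xV) + cC (61891) 10000 * (xD * xD) + cC (11194) 10000 * xS

/-- The bound of `p` above the cut. -/
def yA4PU : Bnd :=
  ⟨cC (161919) 10000 + cC (-2190210) 10000 * xD + cC (-43778) 10000 * xV + cC (549761) 10000 * (xD * xV) + cC (6941) 10000 * (xV * xV) + cC (8728027) 10000 * (xD * xD) + cC (-135131) 10000 * xS,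
    cC (-21221) 10000 + cC (-323486) 10000 * xD + cC (-4141) 10000 * xV,
    cC 0,
    cC 0,
    cC 0⟩

/-- A multiplier above the cut. -/
def yA4K2p : Ex → Ex :=
  fun _ => cC (10) 10000 + cC (113) 10000 * xD

/-- A multiplier above the cut. -/
def yA4K2m : Ex → Ex :=
  fun e => cC (10) 10000 + cC (139) 10000 * xD + cC (1) 10000 * e

/-- A multiplier above the cut. -/
def yA4KapL : Ex → Ex :=
  fun e => cC (-8045) 10000 + cC (39458) 10000 * xD + cC (6408) 10000 * xV + cC (4684) 10000 * e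

/-- A multiplier above the cut. -/
def yA4KapU : Ex → Ex :=
  fun e => cC (4134) 10000 + cC (20265) 10000 * xD + cC (1820) 10000 * xV + cC (5175) 10000 * e

/-- Below the cut. -/
def yA4A : Piece :=
  yA4.below yA4Cut

/-- Above the cut. -/
def yA4B : Piece :=
  { yA4.above yA4Cut yA4PU with k2p := yA4K2p, k2m := yA4K2m, kapL := yA4KapL, kapU := yA4KapU }

/-- A piece: `2.569 ≤ v < 2.776`. -/
def yA5 : Piece where
  u₀ := cC 1 + cC (-2) 5 * xD
  u₁ := cC (9749) 10000
  tLn := lowEn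
  tLd := lowEd
  tUn := layUn
  tUd := layUd
  p₀ := cC (237753) 10000 + cC (-162768) 10000 * xD + cC (-39959) 10000 * xV + cC (113694) 10000 * (xD * xV) + cC (-204724) 10000 * (xD * xD) + cC (-176832) 10000 * xS
  zL := cC (7091) 10000 + cC (-133195) 10000 * xD + cC (-858) 10000 * xV + cC (-6143) 10000 * (xD * xV) + cC (16) 10000 * (xV * xV) + cC (1448007) 10000 * (xD * xD) + cC (-254) 10000 * xS
  zU := cC (10076) 10000 + cC (-139007) 10000 * xD + cC (-110) 10000 * xV + cC (-12404) 10000 * (xD * xV) + cC (9) 10000 * (xV * xV) + cC (1483645) 10000 * (xD * xD) + cC (-298) 10000 * xS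
  k2p := fun e => cC (52) 10000 + cC (844) 10000 * xD + cC (-11) 10000 * xV + cC (10) 10000 * e
  k2m := fun _ => cC (7) 10000 + cC (116) 10000 * xD + cC (1) 10000 * xV
  kapL := fun e => cC (-877) 10000 + cC (-13669) 10000 * xD + cC (347) 10000 * xV + cC (-282) 10000 * e
  kapU := fun e => cC (2720) 10000 + cC (-5149) 10000 * xD + cC (-159) 10000 * xV + cC (718) 10000 * e
  eL := ⟨cC (2379) 10000 + cC (-669896) 10000 * xD + cC (-948) 10000 * xV + cC (30) 10000 * (xV * xV) + cC (229319) 10000 * (xD * xV) + cC (685746) 10000 * (xD * xD) + cC (-30320) 10000 * xS,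
    cC 0,
    cC 0,
    cC 0,
    cC 0⟩
  eH := ⟨cC (-43032) 10000 + cC (-362680) 10000 * xD + cC (6442) 10000 * xV + cC (599) 10000 * (xV * xV) + cC (50186) 10000 * (xD * xV) + cC (1144446) 10000 * (xD * xD) + cC (28217) 10000 * xS,
    cC 0,
    cC 0,
    cC (2164) 10000,
    cC 0⟩
  pL := ⟨cC (84323) 10000 + cC (-316624) 10000 * xD + cC (4481) 10000 * xV + cC (63023) 10000 * (xD * xV) + cC (-1031) 10000 * (xV * xV) + cC (623680) 10000 * (xD * xD) + cC (-130483) 10000 * xS,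
    cC (-18692) 10000 + cC (-66794) 10000 * xD + cC (-132) 10000 * xV,
    cC 0,
    cC 0,
    cC 0⟩
  pU := ⟨cC (235255) 10000 + cC (1028720) 10000 * xD + cC (-30025) 10000 * xV + cC (-357332) 10000 * (xD * xV) + cC (2487) 10000 * (xV * xV) + cC (180293) 10000 * (xD * xD) + cC (-221719) 10000 * xS,
    cC (14981) 10000 + cC (-115324) 10000 * xD + cC (-10079) 10000 * xV,
    cC 0,
    cC 0,
    cC (39247) 10000 + cC (-2616252) 10000 * xD + cC (-15276) 10000 * xV + cC (1018393) 10000 * (xD * xV)⟩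
  kU := ⟨cC (1027) 10000 + cC (-1041) 10000 * xD + cC (-5) 10000 * xV + cC (81) 10000 * (xD * xV) + cC (1) 10000 * (xV * xV) + cC (18695) 10000 * (xD * xD) + cC (-1501) 10000 * xS,
    cC (-665) 10000 + cC (8998) 10000 * xD + cC (21) 10000 * xV,
    cC (-174) 10000 + cC (2378) 10000 * xD + cC (2) 10000 * xV,
    cC 0,
    cC 0⟩
  kL := ⟨cC (828) 10000 + cC (4365) 10000 * xD + cC (319) 10000 * xV + cC (-1397) 10000 * (xD * xV) + cC (-67) 10000 * (xV * xV) + cC (-72609) 10000 * (xD * xD) + cC (-1746) 10000 * xS,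
    cC (-89) 10000 + cC (-844) 10000 * xD + cC (-91) 10000 * xV,
    cC (-55) 10000 + cC (12) 10000 * xD + cC (-18) 10000 * xV,
    cC 0,
    cC 0⟩
  wU := ⟨cC (-3807) 10000 + cC (156013) 10000 * xD + cC (869) 10000 * xV + cC (-45254) 10000 * (xD * xV) + cC (-54) 10000 * (xV * xV) + cC (117966) 10000 * (xD * xD) + cC (3477) 10000 * xS,
    cC (-5384) 10000 + cC (35550) 10000 * xD + cC (-4196) 10000 * xV,
    cC (-10811) 10000 + cC (-4109) 10000 * xD + cC (-1436) 10000 * xV,
    cC 0,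
    cC 0⟩
  wL := ⟨cC (-36054) 10000 + cC (-277095) 10000 * xD + cC (36163) 10000 * xV + cC (146200) 10000 * (xD * xV) + cC (-8184) 10000 * (xV * xV) + cC (-1041506) 10000 * (xD * xD) + cC (-6012) 10000 * xS,
    cC (2434) 10000 + cC (89883) 10000 * xD + cC (-8418) 10000 * xV,
    cC (-10098) 10000 + cC (14106) 10000 * xD + cC (-2168) 10000 * xV,
    cC 0,
    cC 0⟩

/-- The cut in `e`. -/
def yA5Cut : Ex :=
  cC (-21752) 10000 + cC (-920123) 10000 * xD + cC (-19648) 10000 * xV + cC (3873) 10000 * (xV * xV) + cC (257322) 10000 * (xD * xV) + cC (1028967) 10000 * (xD * xD) + cC (54518) 10000 * xS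

/-- The bound of `p` above the cut. -/
def yA5PU : Bnd :=
  ⟨cC (136993) 10000 + cC (-2683250) 10000 * xD + cC (-50310) 10000 * xV + cC (716457) 10000 * (xD * xV) + cC (7490) 10000 * (xV * xV) + cC (-3388829) 10000 * (xD * xD) + cC (-75598) 10000 * xS,
    cC (-25784) 10000 + cC (-456420) 10000 * xD + cC (-1975) 10000 * xV,
    cC 0,
    cC 0,
    cC (-14108) 10000 + cC (3285351) 10000 * xD + cC (14737) 10000 * xV + cC (-1486738) 10000 * (xD * xV)⟩

/-- A multiplier above the cut. -/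
def yA5K2p : Ex → Ex :=
  fun e => cC (21) 10000 + cC (572) 10000 * xD + cC (-7) 10000 * xV + cC (-2) 10000 * e

/-- A multiplier above the cut. -/
def yA5K2m : Ex → Ex :=
  fun e => cC (26) 10000 + cC (293) 10000 * xD + cC (-3) 10000 * xV + cC (8) 10000 * e

/-- A multiplier above the cut. -/
def yA5KapL : Ex → Ex :=
  fun e => cC (5303) 10000 + cC (50772) 10000 * xD + cC (-845) 10000 * xV + cC (2681) 10000 * e

/-- A multiplier above the cut. -/
def yA5KapU : Ex → Ex :=
  fun e => cC (3350) 10000 + cC (247) 10000 * xD + cC (-304) 10000 * xV + cC (1108) 10000 * e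

/-- Below the cut. -/
def yA5A : Piece :=
  yA5.below yA5Cut

/-- Above the cut. -/
def yA5B : Piece :=
  { yA5.above yA5Cut yA5PU with k2p := yA5K2p, k2m := yA5K2m, kapL := yA5KapL, kapU := yA5KapU }

/-- The upper end of `u`. -/
def yA6Hi : Ex :=
  cC (157) 160 + cC (-1) 10 * xD

/-- The least `u`. -/
def yA6Lo : Ex :=
  cC (9749) 10000

/-- A piece: `2.776 ≤ v < 2.886`. -/
def yA7 : Piece where
  u₀ := cC (79) 80 + cC (-1) 5 * xD
  u₁ := cC (157) 160 + cC (-1) 10 * xD
  tLn := lowEn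
  tLd := lowEd
  tUn := layUn
  tUd := layUd
  p₀ := cC (238553) 10000 + cC (-172719) 10000 * xD + cC (-40000) 10000 * xV + cC (117476) 10000 * (xD * xV) + cC (-235420) 10000 * (xD * xD) + cC (-177845) 10000 * xS
  zL := cC (10219) 10000 + cC (-332347) 10000 * xD + cC (-301) 10000 * xV + cC (-26116) 10000 * (xD * xV) + cC (5) 10000 * (xV * xV) + cC (6673260) 10000 * (xD * xD) + cC (-121) 10000 * xS
  zU := cC (10099) 10000 + cC (-170212) 10000 * xD + cC (-36) 10000 * xV + cC (-15117) 10000 * (xD * xV) + cC (3) 10000 * (xV * xV) + cC (2730381) 10000 * (xD * xD) + cC (-144) 10000 * xS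
  k2p := fun _ => cC (9) 10000 + cC (309) 10000 * xD
  k2m := fun _ => cC (9) 10000 + cC (60) 10000 * xD
  kapL := fun e => cC (-800) 10000 + cC (-4818) 10000 * xD + cC (575) 10000 * xV + cC (8) 10000 * e
  kapU := fun e => cC (2655) 10000 + cC (-3409) 10000 * xD + cC (184) 10000 * xV + cC (1283) 10000 * e
  eL := ⟨cC (7403) 10000 + cC (-866180) 10000 * xD + cC (-710) 10000 * xV + cC (-134) 10000 * (xV * xV) + cC (327662) 10000 * (xD * xV) + cC (-3361765) 10000 * (xD * xD) + cC (-34397) 10000 * xS,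
    cC 0,
    cC 0,
    cC 0,
    cC 0⟩
  eH := ⟨cC (4452) 10000 + cC (-728076) 10000 * xD + cC (-2053) 10000 * xV + cC (349) 10000 * (xV * xV) + cC (221594) 10000 * (xD * xV) + cC (379445) 10000 * (xD * xD) + cC (-13884) 10000 * xS,
    cC 0,
    cC 0,
    cC 0,
    cC 0⟩
  pL := ⟨cC (76617) 10000 + cC (-2212020) 10000 * xD + cC (7417) 10000 * xV + cC (505612) 10000 * (xD * xV) + cC (-1561) 10000 * (xV * xV) + cC (-1731814) 10000 * (xD * xD) + cC (-144231) 10000 * xS,
    cC (-30571) 10000 + cC (-655416) 10000 * xD + cC (321) 10000 * xV,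
    cC 0,
    cC 0,
    cC 0⟩
  pU := ⟨cC (173234) 10000 + cC (359989) 10000 * xD + cC (-11998) 10000 * xV + cC (-330065) 10000 * (xD * xV) + cC (1024) 10000 * (xV * xV) + cC (9255289) 10000 * (xD * xD) + cC (-181226) 10000 * xS,
    cC (1069) 10000 + cC (-301460) 10000 * xD + cC (-4636) 10000 * xV,
    cC 0,
    cC 0,
    cC 0⟩
  kU := ⟨cC (1278) 10000 + cC (508) 10000 * xD + cC (-19) 10000 * xV + cC (-263) 10000 * (xD * xV) + cC (4) 10000 * (xV * xV) + cC (19417) 10000 * (xD * xD) + cC (-1862) 10000 * xS,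
    cC (-671) 10000 + cC (8913) 10000 * xD + cC (24) 10000 * xV,
    cC (-179) 10000 + cC (2264) 10000 * xD + cC (4) 10000 * xV,
    cC 0,
    cC 0⟩
  kL := ⟨cC (586) 10000 + cC (13449) 10000 * xD + cC (661) 10000 * xV + cC (-4862) 10000 * (xD * xV) + cC (-118) 10000 * (xV * xV) + cC (-49854) 10000 * (xD * xD) + cC (-2263) 10000 * xS,
    cC (-311) 10000 + cC (6438) 10000 * xD + cC (-101) 10000 * xV,
    cC (-95) 10000 + cC (1821) 10000 * xD + cC (-26) 10000 * xV,
    cC 0,
    cC 0⟩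
  wU := ⟨cC (-16006) 10000 + cC (182238) 10000 * xD + cC (-538) 10000 * xV + cC (-64376) 10000 * (xD * xV) + cC (294) 10000 * (xV * xV) + cC (396371) 10000 * (xD * xD) + cC (24892) 10000 * xS,
    cC (-8688) 10000 + cC (7520) 10000 * xD + cC (-2699) 10000 * xV,
    cC (-12063) 10000 + cC (-9522) 10000 * xD + cC (-959) 10000 * xV,
    cC 0,
    cC 0⟩
  wL := ⟨cC (-92362) 10000 + cC (195529) 10000 * xD + cC (-370) 10000 * xV + cC (-4853) 10000 * (xD * xV) + cC (-240) 10000 * (xV * xV) + cC (-2597945) 10000 * (xD * xD) + cC (130410) 10000 * xS,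
    cC (-24453) 10000 + cC (73745) 10000 * xD + cC (4624) 10000 * xV,
    cC (-17631) 10000 + cC (-23317) 10000 * xD + cC (2352) 10000 * xV,
    cC 0,
    cC 0⟩

/-- The cut in `e`. -/
def yA7Cut : Ex :=
  cC (-26339) 10000 + cC (-891459) 10000 * xD + cC (-6283) 10000 * xV + cC (945) 10000 * (xV * xV) + cC (340764) 10000 * (xD * xV) + cC (-5086036) 10000 * (xD * xD) + cC (30441) 10000 * xS

/-- The bound of `p` above the cut. -/
def yA7PU : Bnd :=
  ⟨cC (75280) 10000 + cC (-1850742) 10000 * xD + cC (-10221) 10000 * xV + cC (508199) 10000 * (xD * xV) + cC (1718) 10000 * (xV * xV) + cC (-2845155) 10000 * (xD * xD) + cC (-108292) 10000 * xS,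
    cC (-37270) 10000 + cC (-308189) 10000 * xD + cC (489) 10000 * xV,
    cC 0,
    cC 0,
    cC 0⟩

/-- A multiplier above the cut. -/
def yA7K2p : Ex → Ex :=
  fun e => cC (7) 10000 + cC (248) 10000 * xD + cC (-1) 10000 * e

/-- A multiplier above the cut. -/
def yA7K2m : Ex → Ex :=
  fun e => cC (10) 10000 + cC (230) 10000 * xD + cC (1) 10000 * e

/-- A multiplier above the cut. -/
def yA7KapL : Ex → Ex :=
  fun e => cC (585) 10000 + cC (12317) 10000 * xD + cC (808) 10000 * xV + cC (1359) 10000 * e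

/-- A multiplier above the cut. -/
def yA7KapU : Ex → Ex :=
  fun e => cC (1162) 10000 + cC (-6754) 10000 * xD + cC (318) 10000 * xV + cC (707) 10000 * e

/-- Below the cut. -/
def yA7A : Piece :=
  yA7.below yA7Cut

/-- Above the cut. -/
def yA7B : Piece :=
  { yA7.above yA7Cut yA7PU with k2p := yA7K2p, k2m := yA7K2m, kapL := yA7KapL, kapU := yA7KapU }

/-- A piece: `2.776 ≤ v < 2.886`. -/
def yA8 : Piece where
  u₀ := cC 1 + cC (-2) 5 * xD
  u₁ := cC (79) 80 + cC (-1) 5 * xD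
  tLn := lowEn
  tLd := lowEd
  tUn := layUn
  tUd := layUd
  p₀ := cC (238553) 10000 + cC (-172719) 10000 * xD + cC (-40000) 10000 * xV + cC (117476) 10000 * (xD * xV) + cC (-235420) 10000 * (xD * xD) + cC (-177845) 10000 * xS
  zL := cC (6902) 10000 + cC (-134043) 10000 * xD + cC (-777) 10000 * xV + cC (-8144) 10000 * (xD * xV) + cC (7) 10000 * (xV * xV) + cC (1634157) 10000 * (xD * xD) + cC (-123) 10000 * xS
  zU := cC (10097) 10000 + cC (-172056) 10000 * xD + cC (-36) 10000 * xV + cC (-15132) 10000 * (xD * xV) + cC (3) 10000 * (xV * xV) + cC (2779392) 10000 * (xD * xD) + cC (-144) 10000 * xS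
  k2p := fun e => cC (12) 10000 + cC (254) 10000 * xD + cC (-1) 10000 * xV + cC (1) 10000 * e
  k2m := fun e => cC (11) 10000 + cC (65) 10000 * xD + cC (1) 10000 * e
  kapL := fun e => cC (474) 10000 + cC (-7065) 10000 * xD + cC (-41) 10000 * xV + cC (-146) 10000 * e
  kapU := fun e => cC (3164) 10000 + cC (-10810) 10000 * xD + cC (-184) 10000 * xV + cC (990) 10000 * e
  eL := ⟨cC (2526) 10000 + cC (-898756) 10000 * xD + cC (-1358) 10000 * xV + cC (106) 10000 * (xV * xV) + cC (345490) 10000 * (xD * xV) + cC (-5496443) 10000 * (xD * xD) + cC (-23683) 10000 * xS,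
    cC 0,
    cC 0,
    cC 0,
    cC 0⟩
  eH := ⟨cC (-53234) 10000 + cC (-379592) 10000 * xD + cC (7601) 10000 * xV + cC (485) 10000 * (xV * xV) + cC (63805) 10000 * (xD * xV) + cC (1102292) 10000 * (xD * xD) + cC (39356) 10000 * xS,
    cC 0,
    cC 0,
    cC (2491) 10000,
    cC 0⟩
  pL := ⟨cC (-147016) 10000 + cC (-2779233) 10000 * xD + cC (111202) 10000 * xV + cC (801309) 10000 * (xD * xV) + cC (-13592) 10000 * (xV * xV) + cC (-6364868) 10000 * (xD * xD) + cC (-85420) 10000 * xS,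
    cC (-149352) 10000 + cC (-647398) 10000 * xD + cC (46434) 10000 * xV,
    cC 0,
    cC 0,
    cC 0⟩
  pU := ⟨cC (193629) 10000 + cC (471924) 10000 * xD + cC (-26419) 10000 * xV + cC (-348048) 10000 * (xD * xV) + cC (2553) 10000 * (xV * xV) + cC (12564030) 10000 * (xD * xD) + cC (-178738) 10000 * xS,
    cC (8304) 10000 + cC (-215331) 10000 * xD + cC (-8688) 10000 * xV,
    cC 0,
    cC 0,
    cC 0⟩
  kU := ⟨cC (801) 10000 + cC (412) 10000 * xD + cC (-19) 10000 * xV + cC (-307) 10000 * (xD * xV) + cC (4) 10000 * (xV * xV) + cC (15777) 10000 * (xD * xD) + cC (-1143) 10000 * xS,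
    cC (-668) 10000 + cC (8431) 10000 * xD + cC (28) 10000 * xV,
    cC (-179) 10000 + cC (2185) 10000 * xD + cC (5) 10000 * xV,
    cC 0,
    cC 0⟩
  kL := ⟨cC (379) 10000 + cC (-10081) 10000 * xD + cC (247) 10000 * xV + cC (4419) 10000 * (xD * xV) + cC (-45) 10000 * (xV * xV) + cC (-110432) 10000 * (xD * xD) + cC (-1062) 10000 * xS,
    cC (-1748) 10000 + cC (-6958) 10000 * xD + cC (526) 10000 * xV,
    cC (-486) 10000 + cC (-2154) 10000 * xD + cC (145) 10000 * xV,
    cC 0,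
    cC (838) 10000 + cC (-111445) 10000 * xD + cC (-301) 10000 * xV + cC (40146) 10000 * (xD * xV)⟩
  wU := ⟨cC (5743) 10000 + cC (174627) 10000 * xD + cC (-2497) 10000 * xV + cC (-55889) 10000 * (xD * xV) + cC (385) 10000 * (xV * xV) + cC (465940) 10000 * (xD * xD) + cC (-1947) 10000 * xS,
    cC (-2737) 10000 + cC (34314) 10000 * xD + cC (-5056) 10000 * xV,
    cC (-10701) 10000 + cC (-5497) 10000 * xD + cC (-1429) 10000 * xV,
    cC 0,
    cC 0⟩
  wL := ⟨cC (-205680) 10000 + cC (-1461598) 10000 * xD + cC (106322) 10000 * xV + cC (318885) 10000 * (xD * xV) + cC (-11318) 10000 * (xV * xV) + cC (-2680876) 10000 * (xD * xD) + cC (-5599) 10000 * xS,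
    cC (-197884) 10000 + cC (-539340) 10000 * xD + cC (62569) 10000 * xV,
    cC (-51252) 10000 + cC (-65762) 10000 * xD + cC (12318) 10000 * xV,
    cC 0,
    cC 0⟩

/-- The cut in `e`. -/
def yA8Cut : Ex :=
  cC (-37594) 10000 + cC (-1245547) 10000 * xD + cC (-16634) 10000 * xV + cC (3006) 10000 * (xV * xV) + cC (449168) 10000 * (xD * xV) + cC (-6840728) 10000 * (xD * xD) + cC (75332) 10000 * xS

/-- The bound of `p` above the cut. -/
def yA8PU : Bnd :=
  ⟨cC (77463) 10000 + cC (-2572299) 10000 * xD + cC (-32830) 10000 * xV + cC (704335) 10000 * (xD * xV) + cC (4940) 10000 * (xV * xV) + cC (-2112615) 10000 * (xD * xD) + cC (-33662) 10000 * xS,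
    cC (-31808) 10000 + cC (-351046) 10000 * xD + cC (-771) 10000 * xV,
    cC 0,
    cC 0,
    cC (-123929) 10000 + cC (18549782) 10000 * xD + cC (55254) 10000 * xV + cC (-7153874) 10000 * (xD * xV)⟩

/-- A multiplier above the cut. -/
def yA8K2p : Ex → Ex :=
  fun _ => cC (9) 10000 + cC (128) 10000 * xD

/-- A multiplier above the cut. -/
def yA8K2m : Ex → Ex :=
  fun e => cC (12) 10000 + cC (390) 10000 * xD + cC (-1) 10000 * xV + cC (1) 10000 * e

/-- A multiplier above the cut. -/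
def yA8KapL : Ex → Ex :=
  fun e => cC (-4234) 10000 + cC (177958) 10000 * xD + cC (7100) 10000 * xV + cC (14898) 10000 * e

/-- A multiplier above the cut. -/
def yA8KapU : Ex → Ex :=
  fun e => cC (22295) 10000 + cC (-39522) 10000 * xD + cC (-5215) 10000 * xV + cC (4812) 10000 * e

/-- Below the cut. -/
def yA8A : Piece :=
  yA8.below yA8Cut

/-- Above the cut. -/
def yA8B : Piece :=
  { yA8.above yA8Cut yA8PU with k2p := yA8K2p, k2m := yA8K2m, kapL := yA8KapL, kapU := yA8KapU }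

/-- The upper end of `u`. -/
def yA9Hi : Ex :=
  cC (313) 320 + cC (-1) 20 * xD

/-- The least `u`. -/
def yA9Lo : Ex :=
  cC (9749) 10000

/-- A piece: `2.776 ≤ v < 2.886`. -/
def yA10 : Piece where
  u₀ := cC (157) 160 + cC (-1) 10 * xD
  u₁ := cC (313) 320 + cC (-1) 20 * xD
  tLn := lowEn
  tLd := lowEd
  tUn := layUn
  tUd := layUd
  p₀ := cC (238146) 10000 + cC (-162765) 10000 * xD + cC (-39966) 10000 * xV + cC (113906) 10000 * (xD * xV) + cC (-224557) 10000 * (xD * xD) + cC (-177385) 10000 * xS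
  zL := cC (10632) 10000 + cC (-259635) 10000 * xD + cC (-480) 10000 * xV + cC (-14752) 10000 * (xD * xV) + cC (12) 10000 * (xV * xV) + cC (2909106) 10000 * (xD * xD) + cC (-252) 10000 * xS
  zU := cC (10094) 10000 + cC (-140927) 10000 * xD + cC (-114) 10000 * xV + cC (-12243) 10000 * (xD * xV) + cC (9) 10000 * (xV * xV) + cC (1517924) 10000 * (xD * xD) + cC (-300) 10000 * xS
  k2p := fun e => cC (24) 10000 + cC (583) 10000 * xD + cC (-6) 10000 * xV + cC (1) 10000 * e
  k2m := fun e => cC (10) 10000 + cC (118) 10000 * xD + cC (1) 10000 * e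
  kapL := fun e => cC (-1230) 10000 + cC (-4980) 10000 * xD + cC (571) 10000 * xV + cC (-213) 10000 * e
  kapU := fun e => cC (579) 10000 + cC (-6388) 10000 * xD + cC (225) 10000 * xV + cC (188) 10000 * e
  eL := ⟨cC (10799) 10000 + cC (-2786869) 10000 * xD + cC (-10763) 10000 * xV + cC (477) 10000 * (xV * xV) + cC (732195) 10000 * (xD * xV) + cC (19115118) 10000 * (xD * xD) + cC (3679) 10000 * xS,
    cC 0,
    cC 0,
    cC 0,
    cC (-43643) 10000 + cC (2909745) 10000 * xD + cC (-1227) 10000 * xV + cC (81789) 10000 * (xD * xV)⟩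
  eH := ⟨cC (2961) 10000 + cC (-463733) 10000 * xD + cC (-4691) 10000 * xV + cC (934) 10000 * (xV * xV) + cC (160241) 10000 * (xD * xV) + cC (-380096) 10000 * (xD * xD) + cC (-13056) 10000 * xS,
    cC 0,
    cC 0,
    cC 0,
    cC 0⟩
  pL := ⟨cC (83574) 10000 + cC (-1927912) 10000 * xD + cC (6222) 10000 * xV + cC (510809) 10000 * (xD * xV) + cC (-1457) 10000 * (xV * xV) + cC (-1369340) 10000 * (xD * xD) + cC (-160734) 10000 * xS,
    cC (-33225) 10000 + cC (-409392) 10000 * xD + cC (71) 10000 * xV,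
    cC 0,
    cC 0,
    cC 0⟩
  pU := ⟨cC (198233) 10000 + cC (2959451) 10000 * xD + cC (-4451) 10000 * xV + cC (-905880) 10000 * (xD * xV) + cC (2386) 10000 * (xV * xV) + cC (-37068190) 10000 * (xD * xD) + cC (-270370) 10000 * xS,
    cC (-2987) 10000 + cC (-622848) 10000 * xD + cC (-1219) 10000 * xV,
    cC 0,
    cC 0,
    cC (-140824) 10000 + cC (9388323) 10000 * xD + cC (14757) 10000 * xV + cC (-983768) 10000 * (xD * xV)⟩
  kU := ⟨cC (1663) 10000 + cC (517) 10000 * xD + cC (-16) 10000 * xV + cC (-138) 10000 * (xD * xV) + cC (3) 10000 * (xV * xV) + cC (13535) 10000 * (xD * xD) + cC (-2465) 10000 * xS,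
    cC (-668) 10000 + cC (9878) 10000 * xD + cC (11) 10000 * xV,
    cC (-177) 10000 + cC (2602) 10000 * xD,
    cC 0,
    cC 0⟩
  kL := ⟨cC (539) 10000 + cC (5414) 10000 * xD + cC (788) 10000 * xV + cC (-1882) 10000 * (xD * xV) + cC (-115) 10000 * (xV * xV) + cC (-3658) 10000 * (xD * xD) + cC (-2791) 10000 * xS,
    cC (-928) 10000 + cC (8899) 10000 * xD + cC (108) 10000 * xV,
    cC (-224) 10000 + cC (2429) 10000 * xD + cC (18) 10000 * xV,
    cC 0,
    cC 0⟩
  wU := ⟨cC (-30944) 10000 + cC (128033) 10000 * xD + cC (-6225) 10000 * xV + cC (-44379) 10000 * (xD * xV) + cC (735) 10000 * (xV * xV) + cC (171666) 10000 * (xD * xD) + cC (66941) 10000 * xS,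
    cC (3802) 10000 + cC (17576) 10000 * xD + cC (-7162) 10000 * xV,
    cC (-9227) 10000 + cC (-4712) 10000 * xD + cC (-2043) 10000 * xV,
    cC 0,
    cC 0⟩
  wL := ⟨cC (-251364) 10000 + cC (1532610) 10000 * xD + cC (87409) 10000 * xV + cC (-386979) 10000 * (xD * xV) + cC (-12082) 10000 * (xV * xV) + cC (3093723) 10000 * (xD * xD) + cC (131124) 10000 * xS,
    cC (-110423) 10000 + cC (607749) 10000 * xD + cC (30374) 10000 * xV,
    cC (-41564) 10000 + cC (101466) 10000 * xD + cC (9449) 10000 * xV,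
    cC 0,
    cC (244009) 10000 + cC (-16267108) 10000 * xD + cC (-95594) 10000 * xV + cC (6372927) 10000 * (xD * xV)⟩

/-- The cut in `e`. -/
def yA10Cut : Ex :=
  cC (-17200) 10000 + cC (-2697082) 10000 * xD + cC (-16862) 10000 * xV + cC (1541) 10000 * (xV * xV) + cC (734263) 10000 * (xD * xV) + cC (16748256) 10000 * (xD * xD) + cC (59201) 10000 * xS

/-- The bound of `p` above the cut. -/
def yA10PU : Bnd :=
  ⟨cC (104963) 10000 + cC (-2049037) 10000 * xD + cC (-19509) 10000 * xV + cC (560058) 10000 * (xD * xV) + cC (3254) 10000 * (xV * xV) + cC (-1666678) 10000 * (xD * xD) + cC (-139194) 10000 * xS,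
    cC (-37596) 10000 + cC (-380302) 10000 * xD + cC (909) 10000 * xV,
    cC 0,
    cC 0,
    cC 0⟩

/-- A multiplier above the cut. -/
def yA10K2p : Ex → Ex :=
  fun e => cC (6) 10000 + cC (524) 10000 * xD + cC (-3) 10000 * xV + cC (-5) 10000 * e

/-- A multiplier above the cut. -/
def yA10K2m : Ex → Ex :=
  fun e => cC (9) 10000 + cC (229) 10000 * xD + cC (1) 10000 * e

/-- A multiplier above the cut. -/
def yA10KapL : Ex → Ex :=
  fun e => cC (-1407) 10000 + cC (4007) 10000 * xD + cC (609) 10000 * xV + cC (-176) 10000 * e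

/-- A multiplier above the cut. -/
def yA10KapU : Ex → Ex :=
  fun e => cC (-340) 10000 + cC (-6083) 10000 * xD + cC (383) 10000 * xV + cC (-60) 10000 * e

/-- Below the cut. -/
def yA10A : Piece :=
  yA10.below yA10Cut

/-- Above the cut. -/
def yA10B : Piece :=
  { yA10.above yA10Cut yA10PU with k2p := yA10K2p, k2m := yA10K2m, kapL := yA10KapL, kapU := yA10KapU }

/-- A piece: `2.776 ≤ v < 2.886`. -/
def yA11 : Piece where
  u₀ := cC (79) 80 + cC (-1) 5 * xD
  u₁ := cC (157) 160 + cC (-1) 10 * xD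
  tLn := lowEn
  tLd := lowEd
  tUn := layUn
  tUd := layUd
  p₀ := cC (238146) 10000 + cC (-162765) 10000 * xD + cC (-39966) 10000 * xV + cC (113906) 10000 * (xD * xV) + cC (-224557) 10000 * (xD * xD) + cC (-177385) 10000 * xS
  zL := cC (10103) 10000 + cC (-256428) 10000 * xD + cC (-570) 10000 * xV + cC (-12847) 10000 * (xD * xV) + cC (13) 10000 * (xV * xV) + cC (3044760) 10000 * (xD * xD) + cC (-253) 10000 * xS
  zU := cC (10091) 10000 + cC (-141506) 10000 * xD + cC (-114) 10000 * xV + cC (-12241) 10000 * (xD * xV) + cC (9) 10000 * (xV * xV) + cC (1530438) 10000 * (xD * xD) + cC (-301) 10000 * xS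
  k2p := fun e => cC (31) 10000 + cC (529) 10000 * xD + cC (-7) 10000 * xV + cC (3) 10000 * e
  k2m := fun _ => cC (8) 10000 + cC (130) 10000 * xD
  kapL := fun e => cC (-63) 10000 + cC (-15074) 10000 * xD + cC (343) 10000 * xV + cC (-80) 10000 * e
  kapU := fun e => cC (708) 10000 + cC (-11733) 10000 * xD + cC (207) 10000 * xV + cC (171) 10000 * e
  eL := ⟨cC (6319) 10000 + cC (-2665781) 10000 * xD + cC (-10163) 10000 * xV + cC (523) 10000 * (xV * xV) + cC (706337) 10000 * (xD * xV) + cC (17909548) 10000 * (xD * xD) + cC (8125) 10000 * xS,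
    cC 0,
    cC 0,
    cC 0,
    cC (-56441) 10000 + cC (3367066) 10000 * xD + cC (3377) 10000 * xV + cC (-82549) 10000 * (xD * xV)⟩
  eH := ⟨cC (1877) 10000 + cC (-545539) 10000 * xD + cC (-4705) 10000 * xV + cC (983) 10000 * (xV * xV) + cC (156705) 10000 * (xD * xV) + cC (148120) 10000 * (xD * xD) + cC (-6300) 10000 * xS,
    cC 0,
    cC 0,
    cC 0,
    cC 0⟩
  pL := ⟨cC (69512) 10000 + cC (-1893259) 10000 * xD + cC (4816) 10000 * xV + cC (500722) 10000 * (xD * xV) + cC (-945) 10000 * (xV * xV) + cC (-2347855) 10000 * (xD * xD) + cC (-135524) 10000 * xS,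
    cC (-35193) 10000 + cC (-417578) 10000 * xD + cC (920) 10000 * xV,
    cC 0,
    cC 0,
    cC 0⟩
  pU := ⟨cC (172586) 10000 + cC (3075484) 10000 * xD + cC (8738) 10000 * xV + cC (-916704) 10000 * (xD * xV) + cC (325) 10000 * (xV * xV) + cC (-33893167) 10000 * (xD * xD) + cC (-269665) 10000 * xS,
    cC (-8813) 10000 + cC (-495838) 10000 * xD + cC (-376) 10000 * xV,
    cC 0,
    cC 0,
    cC (-371516) 10000 + cC (17003195) 10000 * xD + cC (97855) 10000 * xV + cC (-3726575) 10000 * (xD * xV)⟩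
  kU := ⟨cC (1643) 10000 + cC (191) 10000 * xD + cC (-15) 10000 * xV + cC (-140) 10000 * (xD * xV) + cC (3) 10000 * (xV * xV) + cC (14404) 10000 * (xD * xD) + cC (-2412) 10000 * xS,
    cC (-657) 10000 + cC (9637) 10000 * xD + cC (10) 10000 * xV,
    cC (-175) 10000 + cC (2573) 10000 * xD + cC (-1) 10000 * xV,
    cC 0,
    cC 0⟩
  kL := ⟨cC (-177) 10000 + cC (11420) 10000 * xD + cC (1152) 10000 * xV + cC (-3669) 10000 * (xD * xV) + cC (-174) 10000 * (xV * xV) + cC (-15082) 10000 * (xD * xD) + cC (-2576) 10000 * xS,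
    cC (-768) 10000 + cC (8891) 10000 * xD + cC (54) 10000 * xV,
    cC (-166) 10000 + cC (2345) 10000 * xD + cC (-1) 10000 * xV,
    cC 0,
    cC (1896) 10000 + cC (-63064) 10000 * xD + cC (-656) 10000 * xV + cC (21852) 10000 * (xD * xV)⟩
  wU := ⟨cC (-34705) 10000 + cC (142408) 10000 * xD + cC (-4896) 10000 * xV + cC (-47007) 10000 * (xD * xV) + cC (633) 10000 * (xV * xV) + cC (156578) 10000 * (xD * xD) + cC (67520) 10000 * xS,
    cC (1374) 10000 + cC (21782) 10000 * xD + cC (-6388) 10000 * xV,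
    cC (-9760) 10000 + cC (-4168) 10000 * xD + cC (-1858) 10000 * xV,
    cC 0,
    cC 0⟩
  wL := ⟨cC (-312756) 10000 + cC (313241) 10000 * xD + cC (107377) 10000 * xV + cC (-36662) 10000 * (xD * xV) + cC (-16949) 10000 * (xV * xV) + cC (999008) 10000 * (xD * xD) + cC (205972) 10000 * xS,
    cC (-95461) 10000 + cC (6086) 10000 * xD + cC (31867) 10000 * xV,
    cC (-38601) 10000 + cC (-37512) 10000 * xD + cC (10231) 10000 * xV,
    cC 0,
    cC (26502) 10000 + cC (-8531603) 10000 * xD + cC (2579) 10000 * xV + cC (3064558) 10000 * (xD * xV)⟩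

/-- The cut in `e`. -/
def yA11Cut : Ex :=
  cC (-24386) 10000 + cC (-2524267) 10000 * xD + cC (-19250) 10000 * xV + cC (2155) 10000 * (xV * xV) + cC (707342) 10000 * (xD * xV) + cC (14094950) 10000 * (xD * xD) + cC (74592) 10000 * xS

/-- The bound of `p` above the cut. -/
def yA11PU : Bnd :=
  ⟨cC (92869) 10000 + cC (-2067231) 10000 * xD + cC (-22709) 10000 * xV + cC (562433) 10000 * (xD * xV) + cC (3850) 10000 * (xV * xV) + cC (-3423274) 10000 * (xD * xD) + cC (-105690) 10000 * xS,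
    cC (-37338) 10000 + cC (-389324) 10000 * xD + cC (937) 10000 * xV,
    cC 0,
    cC 0,
    cC 0⟩

/-- A multiplier above the cut. -/
def yA11K2p : Ex → Ex :=
  fun e => cC (9) 10000 + cC (400) 10000 * xD + cC (-3) 10000 * xV + cC (-4) 10000 * e

/-- A multiplier above the cut. -/
def yA11K2m : Ex → Ex :=
  fun e => cC (11) 10000 + cC (361) 10000 * xD + cC (-1) 10000 * xV + cC (2) 10000 * e

/-- A multiplier above the cut. -/
def yA11KapL : Ex → Ex :=
  fun e => cC (486) 10000 + cC (-23583) 10000 * xD + cC (1051) 10000 * xV + cC (1301) 10000 * e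

/-- A multiplier above the cut. -/
def yA11KapU : Ex → Ex :=
  fun e => cC (1658) 10000 + cC (-13548) 10000 * xD + cC (34) 10000 * xV + cC (429) 10000 * e

/-- Below the cut. -/
def yA11A : Piece :=
  yA11.below yA11Cut

/-- Above the cut. -/
def yA11B : Piece :=
  { yA11.above yA11Cut yA11PU with k2p := yA11K2p, k2m := yA11K2m, kapL := yA11KapL, kapU := yA11KapU }

/-- A piece: `2.776 ≤ v < 2.886`. -/
def yA12 : Piece where
  u₀ := cC 1 + cC (-2) 5 * xD
  u₁ := cC (79) 80 + cC (-1) 5 * xD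
  tLn := lowEn
  tLd := lowEd
  tUn := layUn
  tUd := layUd
  p₀ := cC (238146) 10000 + cC (-162765) 10000 * xD + cC (-39966) 10000 * xV + cC (113906) 10000 * (xD * xV) + cC (-224557) 10000 * (xD * xD) + cC (-177385) 10000 * xS
  zL := cC (7110) 10000 + cC (-134473) 10000 * xD + cC (-863) 10000 * xV + cC (-5834) 10000 * (xD * xV) + cC (16) 10000 * (xV * xV) + cC (1456878) 10000 * (xD * xD) + cC (-255) 10000 * xS
  zU := cC (10087) 10000 + cC (-142666) 10000 * xD + cC (-115) 10000 * xV + cC (-12239) 10000 * (xD * xV) + cC (9) 10000 * (xV * xV) + cC (1555531) 10000 * (xD * xD) + cC (-302) 10000 * xS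
  k2p := fun e => cC (1) 10000 + cC (354) 10000 * xD + cC (1) 10000 * xV + cC (-3) 10000 * e
  k2m := fun e => cC (9) 10000 + cC (704) 10000 * xD + cC (-2) 10000 * xV + cC (2) 10000 * e
  kapL := fun e => cC (11084) 10000 + cC (-17833) 10000 * xD + cC (-38) 10000 * xV + cC (5319) 10000 * e
  kapU := fun e => cC (927) 10000 + cC (-26642) 10000 * xD + cC (388) 10000 * xV + cC (405) 10000 * e
  eL := ⟨cC (-113555) 10000 + cC (410707) 10000 * xD + cC (31387) 10000 * xV + cC (-3358) 10000 * (xV * xV) + cC (74613) 10000 * (xD * xV) + cC (-9484223) 10000 * (xD * xD) + cC (40003) 10000 * xS,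
    cC 0,
    cC 0,
    cC 0,
    cC (338245) 10000 + cC (-10059770) 10000 * xD + cC (-77534) 10000 * xV + cC (2704858) 10000 * (xD * xV)⟩
  eH := ⟨cC (5621) 10000 + cC (-729340) 10000 * xD + cC (-8407) 10000 * xV + cC (1715) 10000 * (xV * xV) + cC (153835) 10000 * (xD * xV) + cC (1336861) 10000 * (xD * xD) + cC (6573) 10000 * xS,
    cC 0,
    cC 0,
    cC 0,
    cC 0⟩
  pL := ⟨cC (-37476) 10000 + cC (-3819173) 10000 * xD + cC (77670) 10000 * xV + cC (1023645) 10000 * (xD * xV) + cC (-13181) 10000 * (xV * xV) + cC (-13413413) 10000 * (xD * xD) + cC (-94804) 10000 * xS,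
    cC (-57260) 10000 + cC (-1369074) 10000 * xD + cC (19203) 10000 * xV,
    cC 0,
    cC 0,
    cC 0⟩
  pU := ⟨cC (169104) 10000 + cC (1170138) 10000 * xD + cC (-16987) 10000 * xV + cC (-433186) 10000 * (xD * xV) + cC (2617) 10000 * (xV * xV) + cC (3496934) 10000 * (xD * xD) + cC (-208346) 10000 * xS,
    cC (-35801) 10000 + cC (267454) 10000 * xD + cC (1270) 10000 * xV,
    cC 0,
    cC 0,
    cC (196996) 10000 + cC (-3890373) 10000 * xD + cC (-23724) 10000 * xV + cC (1024865) 10000 * (xD * xV)⟩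
  kU := ⟨cC (1382) 10000 + cC (-5659) 10000 * xD + cC (-359) 10000 * xV + cC (854) 10000 * (xD * xV) + cC (44) 10000 * (xV * xV) + cC (15344) 10000 * (xD * xD) + cC (-943) 10000 * xS,
    cC (-85) 10000 + cC (3605) 10000 * xD + cC (-129) 10000 * xV,
    cC (-46) 10000 + cC (1109) 10000 * xD + cC (-30) 10000 * xV,
    cC 0,
    cC 0⟩
  kL := ⟨cC (862) 10000 + cC (-2404) 10000 * xD + cC (30) 10000 * xV + cC (4470) 10000 * (xD * xV) + cC (-23) 10000 * (xV * xV) + cC (-377448) 10000 * (xD * xD) + cC (-1191) 10000 * xS,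
    cC (-77) 10000 + cC (-10986) 10000 * xD + cC (-16) 10000 * xV,
    cC (-29) 10000 + cC (-2265) 10000 * xD + cC (-10) 10000 * xV,
    cC 0,
    cC (1163) 10000 + cC (-30179) 10000 * xD + cC (-402) 10000 * xV + cC (10457) 10000 * (xD * xV)⟩
  wU := ⟨cC (6479) 10000 + cC (30213) 10000 * xD + cC (-2801) 10000 * xV + cC (-8364) 10000 * (xD * xV) + cC (592) 10000 * (xV * xV) + cC (129389) 10000 * (xD * xD) + cC (-4516) 10000 * xS,
    cC (-9617) 10000 + cC (10229) 10000 * xD + cC (-2691) 10000 * xV,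
    cC (-11705) 10000 + cC (-10341) 10000 * xD + cC (-1065) 10000 * xV,
    cC 0,
    cC 0⟩
  wL := ⟨cC (-193485) 10000 + cC (-1036015) 10000 * xD + cC (96867) 10000 * xV + cC (367487) 10000 * (xD * xV) + cC (-17510) 10000 * (xV * xV) + cC (-1013188) 10000 * (xD * xD) + cC (88233) 10000 * xS,
    cC (-44640) 10000 + cC (-95883) 10000 * xD + cC (15862) 10000 * xV,
    cC (-26494) 10000 + cC (6373) 10000 * xD + cC (5962) 10000 * xV,
    cC 0,
    cC (-137798) 10000 + cC (1379973) 10000 * xD + cC (72321) 10000 * xV + cC (-579434) 10000 * (xD * xV)⟩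

/-- The upper end of `u`. -/
def yA13Hi : Ex :=
  cC (79) 80 + cC (-1) 5 * xD

/-- The least `u`. -/
def yA13Lo : Ex :=
  cC (9749) 10000

/-- The upper end of `u`. -/
def yA14Hi : Ex :=
  cC (79) 80 + cC (-1) 5 * xD

/-- The least `u`. -/
def yA14Lo : Ex :=
  cC (9749) 10000

/-- The upper end of `u`. -/
def yA15Hi : Ex :=
  cC (79) 80 + cC (-1) 5 * xD

/-- The least `u`. -/
def yA15Lo : Ex :=
  cC (9749) 10000

/-- A piece: `2.886 ≤ v < 3.0`. -/
def yA16 : Piece where
  u₀ := cC (79) 80 + cC (-1) 5 * xD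
  u₁ := cC (9749) 10000
  tLn := lowEn
  tLd := lowEd
  tUn := layUn
  tUd := layUd
  p₀ := cC (238328) 10000 + cC (-155700) 10000 * xD + cC (-39903) 10000 * xV + cC (111604) 10000 * (xD * xV) + cC (-235925) 10000 * (xD * xD) + cC (-177929) 10000 * xS
  zL := cC (10053) 10000 + cC (-233185) 10000 * xD + cC (-693) 10000 * xV + cC (-10253) 10000 * (xD * xV) + cC (21) 10000 * (xV * xV) + cC (2468411) 10000 * (xD * xD) + cC (-347) 10000 * xS
  zU := cC (10043) 10000 + cC (-127099) 10000 * xD + cC (-167) 10000 * xV + cC (-10606) 10000 * (xD * xV) + cC (11) 10000 * (xV * xV) + cC (1155561) 10000 * (xD * xD) + cC (-360) 10000 * xS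
  k2p := fun e => cC (-27) 10000 + cC (438) 10000 * xD + cC (5) 10000 * xV + cC (-10) 10000 * e
  k2m := fun e => cC (24) 10000 + cC (623) 10000 * xD + cC (-6) 10000 * xV + cC (6) 10000 * e
  kapL := fun e => cC (8271) 10000 + cC (54998) 10000 * xD + cC (-2116) 10000 * xV + cC (1564) 10000 * e
  kapU := fun e => cC (1308) 10000 + cC (-19975) 10000 * xD + cC (-67) 10000 * xV + cC (-35) 10000 * e
  eL := ⟨cC (-113973) 10000 + cC (1352132) 10000 * xD + cC (17328) 10000 * xV + cC (-244) 10000 * (xV * xV) + cC (-60942) 10000 * (xD * xV) + cC (-15570059) 10000 * (xD * xD) + cC (40607) 10000 * xS,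
    cC 0,
    cC 0,
    cC 0,
    cC (119875) 10000 + cC (-2301845) 10000 * xD + cC (-1346) 10000 * xV + cC (332) 10000 * (xD * xV)⟩
  eH := ⟨cC (-59) 10000 + cC (-567785) 10000 * xD + cC (-5000) 10000 * xV + cC (977) 10000 * (xV * xV) + cC (161372) 10000 * (xD * xV) + cC (212747) 10000 * (xD * xD) + cC (-1788) 10000 * xS,
    cC 0,
    cC 0,
    cC 0,
    cC 0⟩
  pL := ⟨cC (-168528) 10000 + cC (-3467055) 10000 * xD + cC (155639) 10000 * xV + cC (642773) 10000 * (xD * xV) + cC (-20646) 10000 * (xV * xV) + cC (2813473) 10000 * (xD * xD) + cC (-138069) 10000 * xS,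
    cC (-101200) 10000 + cC (-1112123) 10000 * xD + cC (32304) 10000 * xV,
    cC 0,
    cC 0,
    cC 0⟩
  pU := ⟨cC (157298) 10000 + cC (656490) 10000 * xD + cC (-6323) 10000 * xV + cC (-300628) 10000 * (xD * xV) + cC (52) 10000 * (xV * xV) + cC (5834289) 10000 * (xD * xD) + cC (-203029) 10000 * xS,
    cC (-35477) 10000 + cC (264116) 10000 * xD + cC (1081) 10000 * xV,
    cC 0,
    cC 0,
    cC (126032) 10000 + cC (-876214) 10000 * xD + cC (4271) 10000 * xV + cC (-106882) 10000 * (xD * xV)⟩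
  kU := ⟨cC (636) 10000 + cC (450) 10000 * xD + cC (39) 10000 * xV + cC (-169) 10000 * (xD * xV) + cC (-3) 10000 * (xV * xV) + cC (13371) 10000 * (xD * xD) + cC (-1094) 10000 * xS,
    cC (-764) 10000 + cC (9981) 10000 * xD + cC (44) 10000 * xV,
    cC (-199) 10000 + cC (2647) 10000 * xD + cC (8) 10000 * xV,
    cC 0,
    cC 0⟩
  kL := ⟨cC (-1368) 10000 + cC (37314) 10000 * xD + cC (1107) 10000 * xV + cC (-11182) 10000 * (xD * xV) + cC (-131) 10000 * (xV * xV) + cC (-77565) 10000 * (xD * xD) + cC (-1241) 10000 * xS,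
    cC (-178) 10000 + cC (5549) 10000 * xD + cC (-118) 10000 * xV,
    cC (41) 10000 + cC (1011) 10000 * xD + cC (-60) 10000 * xV,
    cC 0,
    cC (16023) 10000 + cC (-525135) 10000 * xD + cC (-5340) 10000 * xV + cC (175045) 10000 * (xD * xV)⟩
  wU := ⟨cC (8017) 10000 + cC (33449) 10000 * xD + cC (-1254) 10000 * xV + cC (-18321) 10000 * (xD * xV) + cC (220) 10000 * (xV * xV) + cC (178055) 10000 * (xD * xD) + cC (-7434) 10000 * xS,
    cC (-5981) 10000 + cC (-13652) 10000 * xD + cC (-3703) 10000 * xV,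
    cC (-11235) 10000 + cC (-12882) 10000 * xD + cC (-1235) 10000 * xV,
    cC 0,
    cC 0⟩
  wL := ⟨cC (-181972) 10000 + cC (661099) 10000 * xD + cC (46621) 10000 * xV + cC (-115813) 10000 * (xD * xV) + cC (-6142) 10000 * (xV * xV) + cC (-6890240) 10000 * (xD * xD) + cC (141853) 10000 * xS,
    cC (-55203) 10000 + cC (6) 10000 * xD + cC (19539) 10000 * xV,
    cC (-35207) 10000 + cC (62606) 10000 * xD + cC (8733) 10000 * xV,
    cC 0,
    cC (-603752) 10000 + cC (12076029) 10000 * xD + cC (232263) 10000 * xV + cC (-4118656) 10000 * (xD * xV)⟩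

/-- A piece: `2.886 ≤ v < 3.0`. -/
def yA17 : Piece where
  u₀ := cC 1 + cC (-2) 5 * xD
  u₁ := cC (79) 80 + cC (-1) 5 * xD
  tLn := lowEn
  tLd := lowEd
  tUn := layUn
  tUd := layUd
  p₀ := cC (238436) 10000 + cC (-159761) 10000 * xD + cC (-39940) 10000 * xV + cC (113041) 10000 * (xD * xV) + cC (-240241) 10000 * (xD * xD) + cC (-177929) 10000 * xS
  zL := cC (7127) 10000 + cC (-135473) 10000 * xD + cC (-867) 10000 * xV + cC (-5627) 10000 * (xD * xV) + cC (16) 10000 * (xV * xV) + cC (1465115) 10000 * (xD * xD) + cC (-256) 10000 * xS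
  zU := cC (10098) 10000 + cC (-143506) 10000 * xD + cC (-117) 10000 * xV + cC (-12123) 10000 * (xD * xV) + cC (9) 10000 * (xV * xV) + cC (1567769) 10000 * (xD * xD) + cC (-303) 10000 * xS
  k2p := fun e => cC (3) 10000 + cC (239) 10000 * xD + cC (1) 10000 * xV + cC (-2) 10000 * e
  k2m := fun e => cC (10) 10000 + cC (657) 10000 * xD + cC (-2) 10000 * xV + cC (2) 10000 * e
  kapL := fun e => cC (27835) 10000 + cC (-78355) 10000 * xD + cC (-5180) 10000 * xV + cC (6284) 10000 * e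
  kapU := fun e => cC (2781) 10000 + cC (-34360) 10000 * xD + cC (-164) 10000 * xV + cC (513) 10000 * e
  eL := ⟨cC (-121341) 10000 + cC (449796) 10000 * xD + cC (33278) 10000 * xV + cC (-3685) 10000 * (xV * xV) + cC (116326) 10000 * (xD * xV) + cC (-13153745) 10000 * (xD * xD) + cC (45094) 10000 * xS,
    cC 0,
    cC 0,
    cC 0,
    cC (376694) 10000 + cC (-12039094) 10000 * xD + cC (-84370) 10000 * xV + cC (3152833) 10000 * (xD * xV)⟩
  eH := ⟨cC (2900) 10000 + cC (-729656) 10000 * xD + cC (-7102) 10000 * xV + cC (1429) 10000 * (xV * xV) + cC (157407) 10000 * (xD * xV) + cC (1087223) 10000 * (xD * xD) + cC (8426) 10000 * xS,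
    cC 0,
    cC 0,
    cC 0,
    cC 0⟩
  pL := ⟨cC (-44143) 10000 + cC (-3011728) 10000 * xD + cC (72987) 10000 * xV + cC (789913) 10000 * (xD * xV) + cC (-11965) 10000 * (xV * xV) + cC (-7962766) 10000 * (xD * xD) + cC (-87570) 10000 * xS,
    cC (-54189) 10000 + cC (-987517) 10000 * xD + cC (15367) 10000 * xV,
    cC 0,
    cC 0,
    cC 0⟩
  pU := ⟨cC (146716) 10000 + cC (1227754) 10000 * xD + cC (-10802) 10000 * xV + cC (-449823) 10000 * (xD * xV) + cC (1360) 10000 * (xV * xV) + cC (4183637) 10000 * (xD * xD) + cC (-186782) 10000 * xS,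
    cC (-34617) 10000 + cC (301256) 10000 * xD + cC (606) 10000 * xV,
    cC 0,
    cC 0,
    cC (179642) 10000 + cC (-2493730) 10000 * xD + cC (-17834) 10000 * xV + cC (579481) 10000 * (xD * xV)⟩
  kU := ⟨cC (2447) 10000 + cC (-8988) 10000 * xD + cC (-1079) 10000 * xV + cC (2317) 10000 * (xD * xV) + cC (163) 10000 * (xV * xV) + cC (19934) 10000 * (xD * xD) + cC (-942) 10000 * xS,
    cC (-173) 10000 + cC (5998) 10000 * xD + cC (-118) 10000 * xV,
    cC (-58) 10000 + cC (1673) 10000 * xD + cC (-31) 10000 * xV,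
    cC 0,
    cC 0⟩
  kL := ⟨cC (988) 10000 + cC (4068) 10000 * xD + cC (-141) 10000 * xV + cC (2151) 10000 * (xD * xV) + cC (9) 10000 * (xV * xV) + cC (-355886) 10000 * (xD * xD) + cC (-1050) 10000 * xS,
    cC (6) 10000 + cC (-9070) 10000 * xD + cC (-60) 10000 * xV,
    cC (-31) 10000 + cC (-1820) 10000 * xD + cC (-13) 10000 * xV,
    cC 0,
    cC 0⟩
  wU := ⟨cC (10244) 10000 + cC (50082) 10000 * xD + cC (-3593) 10000 * xV + cC (-16685) 10000 * (xD * xV) + cC (552) 10000 * (xV * xV) + cC (68471) 10000 * (xD * xD) + cC (-6062) 10000 * xS,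
    cC (-4870) 10000 + cC (1193) 10000 * xD + cC (-4265) 10000 * xV,
    cC (-11054) 10000 + cC (-11629) 10000 * xD + cC (-1279) 10000 * xV,
    cC 0,
    cC 0⟩
  wL := ⟨cC (-235713) 10000 + cC (-1397488) 10000 * xD + cC (123696) 10000 * xV + cC (500237) 10000 * (xD * xV) + cC (-21536) 10000 * (xV * xV) + cC (-3234283) 10000 * (xD * xD) + cC (86035) 10000 * xS,
    cC (-76405) 10000 + cC (-381360) 10000 * xD + cC (28104) 10000 * xV,
    cC (-37863) 10000 + cC (-77247) 10000 * xD + cC (10243) 10000 * xV,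
    cC 0,
    cC (-275873) 10000 + cC (2181861) 10000 * xD + cC (122880) 10000 * xV + cC (-1024637) 10000 * (xD * xV)⟩

/-- The upper end of `u`. -/
def yA18Hi : Ex :=
  cC (79) 80 + cC (-1) 5 * xD

/-- The least `u`. -/
def yA18Lo : Ex :=
  cC (9749) 10000

/-- The upper end of `u`. -/
def yA19Hi : Ex :=
  cC (157) 160 + cC (-1) 10 * xD

/-- The least `u`. -/
def yA19Lo : Ex :=
  cC (9749) 10000

/-- A piece: `2.886 ≤ v < 3.0`. -/
def yA20 : Piece where
  u₀ := cC 1 + cC (-2) 5 * xD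
  u₁ := cC (79) 80 + cC (-1) 5 * xD
  tLn := lowEn
  tLd := lowEd
  tUn := layUn
  tUd := layUd
  p₀ := cC (238652) 10000 + cC (-169135) 10000 * xD + cC (-39983) 10000 * xV + cC (116318) 10000 * (xD * xV) + cC (-253255) 10000 * (xD * xD) + cC (-178135) 10000 * xS
  zL := cC (6911) 10000 + cC (-134959) 10000 * xD + cC (-779) 10000 * xV + cC (-7950) 10000 * (xD * xV) + cC (7) 10000 * (xV * xV) + cC (1648839) 10000 * (xD * xD) + cC (-124) 10000 * xS
  zU := cC (10101) 10000 + cC (-172649) 10000 * xD + cC (-37) 10000 * xV + cC (-15061) 10000 * (xD * xV) + cC (3) 10000 * (xV * xV) + cC (2798112) 10000 * (xD * xD) + cC (-144) 10000 * xS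
  k2p := fun e => cC (13) 10000 + cC (239) 10000 * xD + cC (-1) 10000 * xV + cC (1) 10000 * e
  k2m := fun e => cC (12) 10000 + cC (65) 10000 * xD + cC (1) 10000 * e
  kapL := fun e => cC (-1513) 10000 + cC (-6657) 10000 * xD + cC (660) 10000 * xV + cC (-115) 10000 * e
  kapU := fun e => cC (1780) 10000 + cC (-10861) 10000 * xD + cC (514) 10000 * xV + cC (1384) 10000 * e
  eL := ⟨cC (1080) 10000 + cC (-903474) 10000 * xD + cC (-1217) 10000 * xV + cC (84) 10000 * (xV * xV) + cC (354870) 10000 * (xD * xV) + cC (-6470729) 10000 * (xD * xD) + cC (-22036) 10000 * xS,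
    cC 0,
    cC 0,
    cC 0,
    cC 0⟩
  eH := ⟨cC (-356) 10000 + cC (-926970) 10000 * xD + cC (-2654) 10000 * xV + cC (518) 10000 * (xV * xV) + cC (221461) 10000 * (xD * xV) + cC (1475719) 10000 * (xD * xD) + cC (5571) 10000 * xS,
    cC 0,
    cC 0,
    cC 0,
    cC 0⟩
  pL := ⟨cC (14232) 10000 + cC (-2019851) 10000 * xD + cC (26097) 10000 * xV + cC (452544) 10000 * (xD * xV) + cC (-3610) 10000 * (xV * xV) + cC (-7406502) 10000 * (xD * xD) + cC (-82567) 10000 * xS,
    cC (-43406) 10000 + cC (-919813) 10000 * xD + cC (9918) 10000 * xV,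
    cC 0,
    cC 0,
    cC 0⟩
  pU := ⟨cC (183785) 10000 + cC (199910) 10000 * xD + cC (-22052) 10000 * xV + cC (-280021) 10000 * (xD * xV) + cC (2066) 10000 * (xV * xV) + cC (13404642) 10000 * (xD * xD) + cC (-175846) 10000 * xS,
    cC (4075) 10000 + cC (-257538) 10000 * xD + cC (-7080) 10000 * xV,
    cC 0,
    cC 0,
    cC 0⟩
  kU := ⟨cC (769) 10000 + cC (477) 10000 * xD + cC (-18) 10000 * xV + cC (-322) 10000 * (xD * xV) + cC (4) 10000 * (xV * xV) + cC (17328) 10000 * (xD * xD) + cC (-1105) 10000 * xS,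
    cC (-665) 10000 + cC (8406) 10000 * xD + cC (27) 10000 * xV,
    cC (-178) 10000 + cC (2162) 10000 * xD + cC (5) 10000 * xV,
    cC 0,
    cC 0⟩
  kL := ⟨cC (836) 10000 + cC (611) 10000 * xD + cC (-68) 10000 * xV + cC (652) 10000 * (xD * xV) + cC (5) 10000 * (xV * xV) + cC (-132684) 10000 * (xD * xD) + cC (-1008) 10000 * xS,
    cC (-271) 10000 + cC (-11497) 10000 * xD + cC (23) 10000 * xV,
    cC (-93) 10000 + cC (-3454) 10000 * xD + cC (11) 10000 * xV,
    cC 0,
    cC (-1925) 10000 + cC (105612) 10000 * xD + cC (668) 10000 * xV + cC (-36595) 10000 * (xD * xV)⟩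
  wU := ⟨cC (6388) 10000 + cC (146636) 10000 * xD + cC (-1975) 10000 * xV + cC (-47212) 10000 * (xD * xV) + cC (296) 10000 * (xV * xV) + cC (380254) 10000 * (xD * xD) + cC (-3995) 10000 * xS,
    cC (-3513) 10000 + cC (20223) 10000 * xD + cC (-4721) 10000 * xV,
    cC (-10865) 10000 + cC (-8785) 10000 * xD + cC (-1355) 10000 * xV,
    cC 0,
    cC 0⟩
  wL := ⟨cC (-74815) 10000 + cC (-2102487) 10000 * xD + cC (57214) 10000 * xV + cC (395277) 10000 * (xD * xV) + cC (-8327) 10000 * (xV * xV) + cC (-972343) 10000 * (xD * xD) + cC (-24835) 10000 * xS,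
    cC (-76605) 10000 + cC (-1091839) 10000 * xD + cC (20412) 10000 * xV,
    cC (-29812) 10000 + cC (-175684) 10000 * xD + cC (4769) 10000 * xV,
    cC 0,
    cC 0⟩

/-- The cut in `e`. -/
def yA20Cut : Ex :=
  cC (175902) 10000 + cC (-2844090) 10000 * xD + cC (-139992) 10000 * xV + cC (22998) 10000 * (xV * xV) + cC (978946) 10000 * (xD * xV) + cC (-4229404) 10000 * (xD * xD) + cC (40056) 10000 * xS

/-- The bound of `p` above the cut. -/
def yA20PU : Bnd :=
  ⟨cC (508363) 10000 + cC (-5518880) 10000 * xD + cC (-276349) 10000 * xV + cC (1619547) 10000 * (xD * xV) + cC (43670) 10000 * (xV * xV) + cC (4446970) 10000 * (xD * xD) + cC (-104462) 10000 * xS,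
    cC (-12179) 10000 + cC (-479145) 10000 * xD + cC (-6792) 10000 * xV,
    cC 0,
    cC 0,
    cC (558273) 10000 + cC (-37218055) 10000 * xD + cC (-186090) 10000 * xV + cC (12406018) 10000 * (xD * xV)⟩

/-- A multiplier above the cut. -/
def yA20K2p : Ex → Ex :=
  fun _ => cC (15) 10000 + cC (73) 10000 * xD + cC (-2) 10000 * xV

/-- A multiplier above the cut. -/
def yA20K2m : Ex → Ex :=
  fun e => cC (11) 10000 + cC (389) 10000 * xD + cC (-1) 10000 * xV + cC (1) 10000 * e

/-- A multiplier above the cut. -/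
def yA20KapL : Ex → Ex :=
  fun e => cC (15988) 10000 + cC (547909) 10000 * xD + cC (745) 10000 * xV + cC (21305) 10000 * e

/-- A multiplier above the cut. -/
def yA20KapU : Ex → Ex :=
  fun e => cC (21870) 10000 + cC (59855) 10000 * xD + cC (-3946) 10000 * xV + cC (8905) 10000 * e

/-- Below the cut. -/
def yA20A : Piece :=
  yA20.below yA20Cut

/-- Above the cut. -/
def yA20B : Piece :=
  { yA20.above yA20Cut yA20PU with k2p := yA20K2p, k2m := yA20K2m, kapL := yA20KapL, kapU := yA20KapU }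

/-- A piece: `3.0 ≤ v < 3.071`. -/
def yA21 : Piece where
  u₀ := cC 1 + cC (-2) 5 * xD
  u₁ := cC (79) 80 + cC (-1) 5 * xD
  tLn := lowEn
  tLd := lowEd
  tUn := layUn
  tUd := layUd
  p₀ := cC (238728) 10000 + cC (-166980) 10000 * xD + cC (-39977) 10000 * xV + cC (115671) 10000 * (xD * xV) + cC (-265123) 10000 * (xD * xD) + cC (-178273) 10000 * xS
  zL := cC (6837) 10000 + cC (-135854) 10000 * xD + cC (-731) 10000 * xV + cC (-7736) 10000 * (xD * xV) + cC (-1) 10000 * (xV * xV) + cC (1659093) 10000 * (xD * xD) + cC (-118) 10000 * xS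
  zU := cC (10209) 10000 + cC (-172982) 10000 * xD + cC (-108) 10000 * xV + cC (-15106) 10000 * (xD * xV) + cC (15) 10000 * (xV * xV) + cC (2821071) 10000 * (xD * xD) + cC (-145) 10000 * xS
  k2p := fun e => cC (11) 10000 + cC (237) 10000 * xD + cC (1) 10000 * e
  k2m := fun e => cC (14) 10000 + cC (62) 10000 * xD + cC (2) 10000 * e
  kapL := fun e => cC (-1225) 10000 + cC (-8623) 10000 * xD + cC (698) 10000 * xV + cC (153) 10000 * e
  kapU := fun e => cC (3244) 10000 + cC (-19788) 10000 * xD + cC (195) 10000 * xV + cC (1676) 10000 * e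
  eL := ⟨cC (66) 10000 + cC (-912646) 10000 * xD + cC (-1307) 10000 * xV + cC (95) 10000 * (xV * xV) + cC (363945) 10000 * (xD * xV) + cC (-7239578) 10000 * (xD * xD) + cC (-20410) 10000 * xS,
    cC 0,
    cC 0,
    cC 0,
    cC 0⟩
  eH := ⟨cC (-572) 10000 + cC (-936610) 10000 * xD + cC (-2727) 10000 * xV + cC (513) 10000 * (xV * xV) + cC (226169) 10000 * (xD * xV) + cC (1245888) 10000 * (xD * xD) + cC (6255) 10000 * xS,
    cC 0,
    cC 0,
    cC 0,
    cC 0⟩
  pL := ⟨cC (166465) 10000 + cC (-996800) 10000 * xD + cC (-50125) 10000 * xV + cC (149945) 10000 * (xD * xV) + cC (4639) 10000 * (xV * xV) + cC (-4359252) 10000 * (xD * xD) + cC (-81402) 10000 * xS,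
    cC (60077) 10000 + cC (-705771) 10000 * xD + cC (-25272) 10000 * xV,
    cC 0,
    cC 0,
    cC 0⟩
  pU := ⟨cC (220650) 10000 + cC (1474892) 10000 * xD + cC (-36399) 10000 * xV + cC (-750009) 10000 * (xD * xV) + cC (5026) 10000 * (xV * xV) + cC (-23294154) 10000 * (xD * xD) + cC (-201657) 10000 * xS,
    cC (8550) 10000 + cC (-865210) 10000 * xD + cC (-7049) 10000 * xV,
    cC 0,
    cC 0,
    cC (-34751) 10000 + cC (4633840) 10000 * xD + cC (-10327) 10000 * xV + cC (1376925) 10000 * (xD * xV)⟩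
  kU := ⟨cC (733) 10000 + cC (642) 10000 * xD + cC (-15) 10000 * xV + cC (-369) 10000 * (xD * xV) + cC (3) 10000 * (xV * xV) + cC (18009) 10000 * (xD * xD) + cC (-1058) 10000 * xS,
    cC (-660) 10000 + cC (8423) 10000 * xD + cC (26) 10000 * xV,
    cC (-176) 10000 + cC (2159) 10000 * xD + cC (5) 10000 * xV,
    cC 0,
    cC 0⟩
  kL := ⟨cC (158) 10000 + cC (68) 10000 * xD + cC (127) 10000 * xV + cC (531) 10000 * (xD * xV) + cC (-20) 10000 * (xV * xV) + cC (-113909) 10000 * (xD * xD) + cC (-544) 10000 * xS,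
    cC (834) 10000 + cC (-3351) 10000 * xD + cC (-357) 10000 * xV,
    cC (241) 10000 + cC (-303) 10000 * xD + cC (-103) 10000 * xV,
    cC 0,
    cC (3877) 10000 + cC (-124358) 10000 * xD + cC (-955) 10000 * xV + cC (35753) 10000 * (xD * xV)⟩
  wU := ⟨cC (8324) 10000 + cC (106929) 10000 * xD + cC (-2172) 10000 * xV + cC (-36389) 10000 * (xD * xV) + cC (318) 10000 * (xV * xV) + cC (318107) 10000 * (xD * xD) + cC (-6303) 10000 * xS,
    cC (-4162) 10000 + cC (5538) 10000 * xD + cC (-4480) 10000 * xV,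
    cC (-11072) 10000 + cC (-10815) 10000 * xD + cC (-1278) 10000 * xV,
    cC 0,
    cC 0⟩
  wL := ⟨cC (66368) 10000 + cC (-1689906) 10000 * xD + cC (-20797) 10000 * xV + cC (296787) 10000 * (xD * xV) + cC (1973) 10000 * (xV * xV) + cC (-296048) 10000 * (xD * xD) + cC (-26747) 10000 * xS,
    cC (41241) 10000 + cC (-839141) 10000 * xD + cC (-19907) 10000 * xV,
    cC (-546) 10000 + cC (-118801) 10000 * xD + cC (-5228) 10000 * xV,
    cC 0,
    cC 0⟩

/-- The cut in `e`. -/
def yA21Cut : Ex :=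
  cC (-45774) 10000 + cC (-3969270) 10000 * xD + cC (-3196) 10000 * xV + cC (-393) 10000 * (xV * xV) + cC (1236983) 10000 * (xD * xV) + cC (19972863) 10000 * (xD * xD) + cC (74574) 10000 * xS

/-- The bound of `p` above the cut. -/
def yA21PU : Bnd :=
  ⟨cC (61329) 10000 + cC (-1790799) 10000 * xD + cC (-350) 10000 * xV + cC (468296) 10000 * (xD * xV) + cC (127) 10000 * (xV * xV) + cC (-4735785) 10000 * (xD * xD) + cC (-91046) 10000 * xS,
    cC (-39357) 10000 + cC (-298923) 10000 * xD + cC (1631) 10000 * xV,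
    cC 0,
    cC 0,
    cC (-7880) 10000 + cC (1051151) 10000 * xD + cC (1579) 10000 * xV + cC (-210569) 10000 * (xD * xV)⟩

/-- A multiplier above the cut. -/
def yA21K2p : Ex → Ex :=
  fun _ => cC (10) 10000 + cC (-8) 10000 * xD

/-- A multiplier above the cut. -/
def yA21K2m : Ex → Ex :=
  fun e => cC (8) 10000 + cC (385) 10000 * xD + cC (1) 10000 * e

/-- A multiplier above the cut. -/
def yA21KapL : Ex → Ex :=
  fun e => cC (43116) 10000 + cC (456734) 10000 * xD + cC (-5341) 10000 * xV + cC (24515) 10000 * e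

/-- A multiplier above the cut. -/
def yA21KapU : Ex → Ex :=
  fun e => cC (13509) 10000 + cC (-110787) 10000 * xD + cC (213) 10000 * xV + cC (11606) 10000 * e

/-- Below the cut. -/
def yA21A : Piece :=
  yA21.below yA21Cut

/-- Above the cut. -/
def yA21B : Piece :=
  { yA21.above yA21Cut yA21PU with k2p := yA21K2p, k2m := yA21K2m, kapL := yA21KapL, kapU := yA21KapU }

/-- A piece: `3.0 ≤ v < 3.106`. -/
def yA22 : Piece where
  u₀ := cC 1 + cC (-2) 5 * xD
  u₁ := cC (79) 80 + cC (-1) 5 * xD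
  tLn := lowEn
  tLd := lowEd
  tUn := layUn
  tUd := layUd
  p₀ := cC (238697) 10000 + cC (-159892) 10000 * xD + cC (-39938) 10000 * xV + cC (113334) 10000 * (xD * xV) + cC (-262272) 10000 * (xD * xD) + cC (-178406) 10000 * xS
  zL := cC (7051) 10000 + cC (-136793) 10000 * xD + cC (-827) 10000 * xV + cC (-6129) 10000 * (xD * xV) + cC (11) 10000 * (xV * xV) + cC (1533858) 10000 * (xD * xD) + cC (-213) 10000 * xS
  zU := cC (10144) 10000 + cC (-153088) 10000 * xD + cC (-118) 10000 * xV + cC (-12724) 10000 * (xD * xV) + cC (11) 10000 * (xV * xV) + cC (1871510) 10000 * (xD * xD) + cC (-241) 10000 * xS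
  k2p := fun e => cC (7) 10000 + cC (113) 10000 * xD + cC (-2) 10000 * e
  k2m := fun e => cC (18) 10000 + cC (417) 10000 * xD + cC (-3) 10000 * xV + cC (2) 10000 * e
  kapL := fun e => cC (42698) 10000 + cC (-208875) 10000 * xD + cC (-9865) 10000 * xV + cC (6040) 10000 * e
  kapU := fun e => cC (20783) 10000 + cC (-182987) 10000 * xD + cC (-3040) 10000 * xV + cC (5127) 10000 * e
  eL := ⟨cC (-124861) 10000 + cC (967178) 10000 * xD + cC (27168) 10000 * xV + cC (-2308) 10000 * (xV * xV) + cC (92126) 10000 * (xD * xV) + cC (-25141309) 10000 * (xD * xD) + cC (53353) 10000 * xS,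
    cC 0,
    cC 0,
    cC 0,
    cC (394322) 10000 + cC (-15634816) 10000 * xD + cC (-73549) 10000 * xV + cC (3619552) 10000 * (xD * xV)⟩
  eH := ⟨cC (-1405) 10000 + cC (-794329) 10000 * xD + cC (-4017) 10000 * xV + cC (816) 10000 * (xV * xV) + cC (181128) 10000 * (xD * xV) + cC (924347) 10000 * (xD * xD) + cC (9164) 10000 * xS,
    cC 0,
    cC 0,
    cC 0,
    cC 0⟩
  pL := ⟨cC (10137) 10000 + cC (732826) 10000 * xD + cC (19551) 10000 * xV + cC (-141042) 10000 * (xD * xV) + cC (-2690) 10000 * (xV * xV) + cC (3009289) 10000 * (xD * xD) + cC (-79749) 10000 * xS,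
    cC (-30007) 10000 + cC (494203) 10000 * xD + cC (-350) 10000 * xV,
    cC 0,
    cC 0,
    cC 0⟩
  pU := ⟨cC (100972) 10000 + cC (1495244) 10000 * xD + cC (-6169) 10000 * xV + cC (-532328) 10000 * (xD * xV) + cC (720) 10000 * (xV * xV) + cC (4628750) 10000 * (xD * xD) + cC (-131585) 10000 * xS,
    cC (-35957) 10000 + cC (344956) 10000 * xD + cC (757) 10000 * xV,
    cC 0,
    cC 0,
    cC (159048) 10000 + cC (-1956112) 10000 * xD + cC (-8612) 10000 * xV + cC (391750) 10000 * (xD * xV)⟩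
  kU := ⟨cC (1594) 10000 + cC (-5505) 10000 * xD + cC (-571) 10000 * xV + cC (1436) 10000 * (xD * xV) + cC (87) 10000 * (xV * xV) + cC (20729) 10000 * (xD * xD) + cC (-962) 10000 * xS,
    cC (-527) 10000 + cC (7760) 10000 * xD + cC (-14) 10000 * xV,
    cC (-141) 10000 + cC (2053) 10000 * xD + cC (-6) 10000 * xV,
    cC 0,
    cC 0⟩
  kL := ⟨cC (-2639) 10000 + cC (841) 10000 * xD + cC (1688) 10000 * xV + cC (553) 10000 * (xD * xV) + cC (-272) 10000 * (xV * xV) + cC (-116318) 10000 * (xD * xD) + cC (32) 10000 * xS,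
    cC (1241) 10000 + cC (-3801) 10000 * xD + cC (-476) 10000 * xV,
    cC (479) 10000 + cC (-568) 10000 * xD + cC (-178) 10000 * xV,
    cC 0,
    cC (8132) 10000 + cC (-99141) 10000 * xD + cC (-2396) 10000 * xV + cC (27648) 10000 * (xD * xV)⟩
  wU := ⟨cC (17096) 10000 + cC (32815) 10000 * xD + cC (-6998) 10000 * xV + cC (-11908) 10000 * (xD * xV) + cC (1028) 10000 * (xV * xV) + cC (69267) 10000 * (xD * xD) + cC (-7338) 10000 * xS,
    cC (-3584) 10000 + cC (-1805) 10000 * xD + cC (-4660) 10000 * xV,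
    cC (-11058) 10000 + cC (-11652) 10000 * xD + cC (-1275) 10000 * xV,
    cC 0,
    cC 0⟩
  wL := ⟨cC (-29004) 10000 + cC (2277398) 10000 * xD + cC (6731) 10000 * xV + cC (-373002) 10000 * (xD * xV) + cC (181) 10000 * (xV * xV) + cC (-6559911) 10000 * (xD * xD) + cC (-23034) 10000 * xS,
    cC (-48591) 10000 + cC (1897963) 10000 * xD + cC (-4266) 10000 * xV,
    cC (-21780) 10000 + cC (440731) 10000 * xD + cC (-1277) 10000 * xV,
    cC 0,
    cC 0⟩

/-- A piece: `3.0 ≤ v < 3.143`. -/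
def yA23 : Piece where
  u₀ := cC 1 + cC (-2) 5 * xD
  u₁ := cC (79) 80 + cC (-1) 5 * xD
  tLn := lowEn
  tLd := lowEd
  tUn := layUn
  tUd := layUd
  p₀ := cC (238651) 10000 + cC (-152691) 10000 * xD + cC (-39884) 10000 * xV + cC (110977) 10000 * (xD * xV) + cC (-259735) 10000 * (xD * xD) + cC (-178587) 10000 * xS
  zL := cC (7217) 10000 + cC (-134672) 10000 * xD + cC (-907) 10000 * xV + cC (-5043) 10000 * (xD * xV) + cC (20) 10000 * (xV * xV) + cC (1416991) 10000 * (xD * xD) + cC (-314) 10000 * xS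
  zU := cC (10087) 10000 + cC (-134238) 10000 * xD + cC (-170) 10000 * xV + cC (-10962) 10000 * (xD * xV) + cC (13) 10000 * (xV * xV) + cC (1313962) 10000 * (xD * xD) + cC (-342) 10000 * xS
  k2p := fun e => cC (21) 10000 + cC (-16) 10000 * xD + cC (-4) 10000 * xV + cC (-2) 10000 * e
  k2m := fun e => cC (21) 10000 + cC (571) 10000 * xD + cC (-5) 10000 * xV + cC (6) 10000 * e
  kapL := fun e => cC (13924) 10000 + cC (1997) 10000 * xD + cC (-3660) 10000 * xV + cC (2073) 10000 * e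
  kapU := fun e => cC (3265) 10000 + cC (-38383) 10000 * xD + cC (-444) 10000 * xV + cC (217) 10000 * e
  eL := ⟨cC (-106389) 10000 + cC (540795) 10000 * xD + cC (16713) 10000 * xV + cC (-41) 10000 * (xV * xV) + cC (-67866) 10000 * (xD * xV) + cC (-4376015) 10000 * (xD * xD) + cC (56977) 10000 * xS,
    cC 0,
    cC 0,
    cC 0,
    cC (126187) 10000 + cC (-2634958) 10000 * xD + cC (1066) 10000 * xV + cC (-33884) 10000 * (xD * xV)⟩
  eH := ⟨cC (-938) 10000 + cC (-657258) 10000 * xD + cC (-6088) 10000 * xV + cC (1296) 10000 * (xV * xV) + cC (137966) 10000 * (xD * xV) + cC (755008) 10000 * (xD * xD) + cC (11189) 10000 * xS,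
    cC 0,
    cC 0,
    cC 0,
    cC 0⟩
  pL := ⟨cC (45524) 10000 + cC (-130148) 10000 * xD + cC (6672) 10000 * xV + cC (40710) 10000 * (xD * xV) + cC (-1316) 10000 * (xV * xV) + cC (242117) 10000 * (xD * xD) + cC (-80583) 10000 * xS,
    cC (-18184) 10000 + cC (15568) 10000 * xD + cC (-699) 10000 * xV,
    cC 0,
    cC 0,
    cC 0⟩
  pU := ⟨cC (122091) 10000 + cC (938115) 10000 * xD + cC (-7222) 10000 * xV + cC (-389032) 10000 * (xD * xV) + cC (395) 10000 * (xV * xV) + cC (6282304) 10000 * (xD * xD) + cC (-150824) 10000 * xS,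
    cC (-35241) 10000 + cC (302192) 10000 * xD + cC (872) 10000 * xV,
    cC 0,
    cC 0,
    cC (158729) 10000 + cC (-1887691) 10000 * xD + cC (-5834) 10000 * xV + cC (244184) 10000 * (xD * xV)⟩
  kU := ⟨cC (475) 10000 + cC (-1190) 10000 * xD + cC (28) 10000 * xV + cC (268) 10000 * (xD * xV) + cC (-4) 10000 * (xV * xV) + cC (7514) 10000 * (xD * xD) + cC (-768) 10000 * xS,
    cC (-735) 10000 + cC (8981) 10000 * xD + cC (45) 10000 * xV,
    cC (-196) 10000 + cC (2445) 10000 * xD + cC (9) 10000 * xV,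
    cC 0,
    cC 0⟩
  kL := ⟨cC (-144) 10000 + cC (27542) 10000 * xD + cC (303) 10000 * xV + cC (-7170) 10000 * (xD * xV) + cC (-49) 10000 * (xV * xV) + cC (-168291) 10000 * (xD * xD) + cC (-505) 10000 * xS,
    cC (1413) 10000 + cC (-4844) 10000 * xD + cC (-519) 10000 * xV,
    cC (312) 10000 + cC (-897) 10000 * xD + cC (-125) 10000 * xV,
    cC 0,
    cC (2426) 10000 + cC (-80779) 10000 * xD + cC (-771) 10000 * xV + cC (25701) 10000 * (xD * xV)⟩
  wU := ⟨cC (11893) 10000 + cC (42833) 10000 * xD + cC (-3884) 10000 * xV + cC (-14582) 10000 * (xD * xV) + cC (589) 10000 * (xV * xV) + cC (68675) 10000 * (xD * xD) + cC (-7695) 10000 * xS,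
    cC (-5115) 10000 + cC (-3474) 10000 * xD + cC (-4145) 10000 * xV,
    cC (-11038) 10000 + cC (-13671) 10000 * xD + cC (-1267) 10000 * xV,
    cC 0,
    cC 0⟩
  wL := ⟨cC (7619) 10000 + cC (205837) 10000 * xD + cC (-611) 10000 * xV + cC (-1745) 10000 * (xD * xV) + cC (-37) 10000 * (xV * xV) + cC (-2404082) 10000 * (xD * xD) + cC (-13494) 10000 * xS,
    cC (-9051) 10000 + cC (145721) 10000 * xD + cC (-4618) 10000 * xV,
    cC (-12359) 10000 + cC (21044) 10000 * xD + cC (-1341) 10000 * xV,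
    cC 0,
    cC 0⟩

/-- A piece: `2.776 ≤ v < 2.886`. -/
def yA24 : Piece where
  u₀ := cC 1 + cC (-2) 5 * xD
  u₁ := cC (157) 160 + cC (-1) 10 * xD
  tLn := lowEn
  tLd := lowEd
  tUn := layUn
  tUd := layUd
  p₀ := cC (239817) 10000 + cC (-176787) 10000 * xD + cC (-40000) 10000 * xV + cC (118855) 10000 * (xD * xV) + cC (-233423) 10000 * (xD * xD) + cC (-179737) 10000 * xS
  zL := cC (6671) 10000 + cC (-129593) 10000 * xD + cC (-682) 10000 * xV + cC (-10516) 10000 * (xD * xV) + cC (-6) 10000 * (xV * xV) + cC (1784477) 10000 * (xD * xD) + cC (-14) 10000 * xS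
  zU := cC (10056) 10000 + cC (-183723) 10000 * xD + cC (-3) 10000 * xV + cC (-18437) 10000 * (xD * xV) + cC (4363499) 10000 * (xD * xD) + cC (-57) 10000 * xS
  k2p := fun _ => cC (10) 10000 + cC (99) 10000 * xD
  k2m := fun _ => cC (10) 10000 + cC (21) 10000 * xD
  kapL := fun e => cC (-1151) 10000 + cC (-5242) 10000 * xD + cC (530) 10000 * xV + cC (-254) 10000 * e
  kapU := fun e => cC (402) 10000 + cC (-6050) 10000 * xD + cC (713) 10000 * xV + cC (864) 10000 * e
  eL := ⟨cC (18267) 10000 + cC (-1151086) 10000 * xD + cC (-2247) 10000 * xV + cC (437489) 10000 * (xD * xV) + cC (-6561581) 10000 * (xD * xD) + cC (-45707) 10000 * xS,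
    cC 0,
    cC 0,
    cC 0,
    cC 0⟩
  eH := ⟨cC (-205283) 10000 * xD,
    cC 0,
    cC 0,
    cC 0,
    cC 0⟩
  pL := ⟨cC (94149) 10000 + cC (-1668243) 10000 * xD + cC (-1170) 10000 * xV + cC (465425) 10000 * (xD * xV) + cC (-2) 10000 * (xV * xV) + cC (-1567872) 10000 * (xD * xD) + cC (-164123) 10000 * xS,
    cC (-36024) 10000 + cC (-286445) 10000 * xD + cC (-41) 10000 * xV,
    cC 0,
    cC 0,
    cC 0⟩
  pU := ⟨cC (131060) 10000 + cC (21349) 10000 * xD + cC (-8773) 10000 * xV + cC (-825959) 10000 * (xD * xV) + cC (2336) 10000 * (xV * xV) + cC (27895092) 10000 * (xD * xD) + cC (-132904) 10000 * xS,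
    cC (-5431) 10000 + cC (-1188299) 10000 * xD + cC (-445) 10000 * xV,
    cC 0,
    cC 0,
    cC 0⟩
  kU := ⟨cC (2432) 10000 + cC (539) 10000 * xD + cC (-44) 10000 * xV + cC (-334) 10000 * (xD * xV) + cC (8) 10000 * (xV * xV) + cC (19876) 10000 * (xD * xD) + cC (-3547) 10000 * xS,
    cC (-708) 10000 + cC (10517) 10000 * xD + cC (27) 10000 * xV,
    cC (-194) 10000 + cC (2927) 10000 * xD + cC (6) 10000 * xV,
    cC 0,
    cC 0⟩
  kL := ⟨cC (1878) 10000 + cC (62) 10000 * xD + cC (16) 10000 * xV + cC (44) 10000 * (xD * xV) + cC (-3) 10000 * (xV * xV) + cC (-34763) 10000 * (xD * xD) + cC (-2871) 10000 * xS,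
    cC (-733) 10000 + cC (9357) 10000 * xD + cC (35) 10000 * xV,
    cC (-203) 10000 + cC (2516) 10000 * xD + cC (10) 10000 * xV,
    cC 0,
    cC 0⟩
  wU := ⟨cC (38246) 10000 + cC (697893) 10000 * xD + cC (-30314) 10000 * xV + cC (-268806) 10000 * (xD * xV) + cC (6048) 10000 * (xV * xV) + cC (2246089) 10000 * (xD * xD) + cC (982) 10000 * xS,
    cC (-23401) 10000 + cC (-105273) 10000 * xD + cC (2499) 10000 * xV,
    cC (-16326) 10000 + cC (-40266) 10000 * xD + cC (520) 10000 * xV,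
    cC 0,
    cC 0⟩
  wL := ⟨cC (-44964) 10000 + cC (111867) 10000 * xD + cC (677) 10000 * xV + cC (-28229) 10000 * (xD * xV) + cC (-120) 10000 * (xV * xV) + cC (-219382) 10000 * (xD * xD) + cC (65815) 10000 * xS,
    cC (-7497) 10000 + cC (-18746) 10000 * xD + cC (-3170) 10000 * xV,
    cC (-12094) 10000 + cC (-25605) 10000 * xD + cC (-887) 10000 * xV,
    cC 0,
    cC 0⟩

/-- The cut in `e`. -/
def yA24Cut : Ex :=
  cC (-5700) 10000 + cC (-300595) 10000 * xD + cC (7291) 10000 * xV + cC (-1593) 10000 * (xV * xV) + cC (43574) 10000 * (xD * xV) + cC (-3465612) 10000 * (xD * xD) + cC (-22011) 10000 * xS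

/-- The bound of `p` above the cut. -/
def yA24PU : Bnd :=
  ⟨cC (111219) 10000 + cC (1407895) 10000 * xD + cC (-3004) 10000 * xV + cC (-310513) 10000 * (xD * xV) + cC (448) 10000 * (xV * xV) + cC (77372558) 10000 * (xD * xD) + cC (-158958) 10000 * xS,
    cC (-34298) 10000 + cC (1522676) 10000 * xD + cC (-424) 10000 * xV,
    cC 0,
    cC 0,
    cC 0⟩

/-- A multiplier above the cut. -/
def yA24K2p : Ex → Ex :=
  fun _ => cC (10) 10000 + cC (64) 10000 * xD

/-- A multiplier above the cut. -/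
def yA24K2m : Ex → Ex :=
  fun _ => cC (10) 10000 + cC (100) 10000 * xD

/-- A multiplier above the cut. -/
def yA24KapL : Ex → Ex :=
  fun e => cC (1176) 10000 + cC (129407) 10000 * xD + cC (1509) 10000 * xV + cC (3948) 10000 * e

/-- A multiplier above the cut. -/
def yA24KapU : Ex → Ex :=
  fun e => cC (-164) 10000 + cC (-26902) 10000 * xD + cC (939) 10000 * xV + cC (931) 10000 * e

/-- Below the cut. -/
def yA24A : Piece :=
  yA24.below yA24Cut

/-- The cut of the part where `p` may be small. -/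
def yA24CutC : Ex :=
  cC (-4) 5

/-- Between the cuts. -/
def yA24B : Piece :=
  { (yA24.above yA24Cut yA24PU).below yA24CutC with k2p := yA24K2p, k2m := yA24K2m, kapL := yA24KapL, kapU := yA24KapU }

/-- A piece: `2.776 ≤ v < 2.886`. -/
def yA24Q : Piece where
  u₀ := cC 1 + cC (-2) 5 * xD
  u₁ := cC (157) 160 + cC (-1) 10 * xD
  tLn := lowEn
  tLd := lowEd
  tUn := layUn
  tUd := layUd
  p₀ := cC (-1)
  zL := cC (6713) 10000 + cC (-157063) 10000 * xD + cC (-723) 10000 * xV + cC (-6) 10000 * xS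
  zU := cC (10030) 10000 + cC (-202519) 10000 * xD
  k2p := fun _ => cC (20) 10000
  k2m := fun _ => cC (20) 10000
  kapL := fun _ => cC 0
  kapU := fun _ => cC 0
  eL := ⟨cC (25652) 10000 + cC (15577) 10000 * xD + cC (-2287) 10000 * xV + cC (-56709) 10000 * xS,
    cC 0,
    cC 0,
    cC 0,
    cC 0⟩
  eH := ⟨cC (-205283) 10000 * xD,
    cC 0,
    cC 0,
    cC 0,
    cC 0⟩
  pL := ⟨cC 0,
    cC (-20055) 10000 + cC (24326) 10000 * xD + cC (107) 10000 * xV,
    cC 0,
    cC 0,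
    cC 0⟩
  pU := ⟨cC 0,
    cC (-35754) 10000 + cC (345985) 10000 * xD,
    cC 0,
    cC 0,
    cC (7682) 10000⟩
  kU := ⟨cC 0,
    cC (-714) 10000 + cC (9044) 10000 * xD + cC (37) 10000 * xV,
    cC (-194) 10000 + cC (2303) 10000 * xD + cC (10) 10000 * xV,
    cC 0,
    cC 0⟩
  kL := ⟨cC 0,
    cC (-712) 10000 + cC (8920) 10000 * xD + cC (36) 10000 * xV,
    cC (-207) 10000 + cC (2396) 10000 * xD + cC (10) 10000 * xV,
    cC 0,
    cC 0⟩
  wU := ⟨cC 0,
    cC (-8878) 10000 + cC (5219) 10000 * xD + cC (-3286) 10000 * xV,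
    cC (-12230) 10000 + cC (-11504) 10000 * xD + cC (-949) 10000 * xV,
    cC 0,
    cC 0⟩
  wL := ⟨cC 0,
    cC (-11184) 10000 + cC (7343) 10000 * xD + cC (-2724) 10000 * xV,
    cC (-13591) 10000 + cC (-9096) 10000 * xD + cC (-699) 10000 * xV,
    cC 0,
    cC 0⟩

/-- The part where `p` may be small. -/
def yA24QL : Piece :=
  yA24Q.above yA24CutC yA24Q.pU

/-- A constant of that part. -/
def yA24QMu : Ex :=
  cC (955) 10000

/-- A constant of that part. -/
def yA24QEps : Ex :=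
  cC (2792) 10000

/-- A constant of that part. -/
def yA24QLam : Ex :=
  cC (593) 10000

/-- A piece: `2.886 ≤ v < 3.036`. -/
def yA25 : Piece where
  u₀ := cC 1 + cC (-2) 5 * xD
  u₁ := cC (79) 80 + cC (-1) 5 * xD
  tLn := lowEn
  tLd := lowEd
  tUn := layUn
  tUd := layUd
  p₀ := cC (239864) 10000 + cC (-176479) 10000 * xD + cC (-39998) 10000 * xV + cC (118823) 10000 * (xD * xV) + cC (-267563) 10000 * (xD * xD) + cC (-179809) 10000 * xS
  zL := cC (6675) 10000 + cC (-130336) 10000 * xD + cC (-683) 10000 * xV + cC (-10327) 10000 * (xD * xV) + cC (-6) 10000 * (xV * xV) + cC (1807913) 10000 * (xD * xD) + cC (-14) 10000 * xS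
  zU := cC (10056) 10000 + cC (-186180) 10000 * xD + cC (-3) 10000 * xV + cC (-18464) 10000 * (xD * xV) + cC (4481163) 10000 * (xD * xD) + cC (-57) 10000 * xS
  k2p := fun _ => cC (10) 10000 + cC (82) 10000 * xD
  k2m := fun _ => cC (10) 10000 + cC (22) 10000 * xD
  kapL := fun e => cC (-927) 10000 + cC (-9429) 10000 * xD + cC (639) 10000 * xV + cC (-36) 10000 * e
  kapU := fun e => cC (608) 10000 + cC (-20669) 10000 * xD + cC (797) 10000 * xV + cC (1156) 10000 * e
  eL := ⟨cC (12810) 10000 + cC (-1368998) 10000 * xD + cC (-2060) 10000 * xV + cC (559587) 10000 * (xD * xV) + cC (-18553773) 10000 * (xD * xD) + cC (-35300) 10000 * xS,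
    cC 0,
    cC 0,
    cC 0,
    cC 0⟩
  eH := ⟨cC (-205283) 10000 * xD,
    cC 0,
    cC 0,
    cC 0,
    cC 0⟩
  pL := ⟨cC (65235) 10000 + cC (-1705320) 10000 * xD + cC (-1886) 10000 * xV + cC (471041) 10000 * (xD * xV) + cC (204) 10000 * (xV * xV) + cC (-2576936) 10000 * (xD * xD) + cC (-110938) 10000 * xS,
    cC (-36265) 10000 + cC (-259492) 10000 * xD + cC (85) 10000 * xV,
    cC 0,
    cC 0,
    cC 0⟩
  pU := ⟨cC (143063) 10000 + cC (-906500) 10000 * xD + cC (-12243) 10000 * xV + cC (-964306) 10000 * (xD * xV) + cC (3273) 10000 * (xV * xV) + cC (76563049) 10000 * (xD * xD) + cC (-148188) 10000 * xS,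
    cC (-11390) 10000 + cC (-1828423) 10000 * xD + cC (1520) 10000 * xV,
    cC 0,
    cC 0,
    cC 0⟩
  kU := ⟨cC (2262) 10000 + cC (772) 10000 * xD + cC (-22) 10000 * xV + cC (-432) 10000 * (xD * xV) + cC (4) 10000 * (xV * xV) + cC (31773) 10000 * (xD * xD) + cC (-3339) 10000 * xS,
    cC (-711) 10000 + cC (8149) 10000 * xD + cC (29) 10000 * xV,
    cC (-196) 10000 + cC (2055) 10000 * xD + cC (7) 10000 * xV,
    cC 0,
    cC 0⟩
  kL := ⟨cC (1896) 10000 + cC (167) 10000 * xD + cC (10) 10000 * (xD * xV) + cC (-42379) 10000 * (xD * xD) + cC (-2861) 10000 * xS,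
    cC (-741) 10000 + cC (9062) 10000 * xD + cC (39) 10000 * xV,
    cC (-204) 10000 + cC (2437) 10000 * xD + cC (10) 10000 * xV,
    cC 0,
    cC 0⟩
  wU := ⟨cC (12549) 10000 + cC (927951) 10000 * xD + cC (-40101) 10000 * xV + cC (-339536) 10000 * (xD * xV) + cC (7505) 10000 * (xV * xV) + cC (2959732) 10000 * (xD * xD) + cC (62458) 10000 * xS,
    cC (-38176) 10000 + cC (-231536) 10000 * xD + cC (7431) 10000 * xV,
    cC (-20781) 10000 + cC (-81030) 10000 * xD + cC (2046) 10000 * xV,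
    cC 0,
    cC 0⟩
  wL := ⟨cC (-49692) 10000 + cC (131419) 10000 * xD + cC (339) 10000 * xV + cC (-33287) 10000 * (xD * xV) + cC (-56) 10000 * (xV * xV) + cC (-960117) 10000 * (xD * xD) + cC (73567) 10000 * xS,
    cC (-7510) 10000 + cC (-7902) 10000 * xD + cC (-3152) 10000 * xV,
    cC (-12082) 10000 + cC (-19652) 10000 * xD + cC (-886) 10000 * xV,
    cC 0,
    cC 0⟩

/-- The cut in `e`. -/
def yA25Cut : Ex :=
  cC (-43342) 10000 + cC (-705916) 10000 * xD + cC (26649) 10000 * xV + cC (-4905) 10000 * (xV * xV) + cC (251703) 10000 * (xD * xV) + cC (-1550147) 10000 * (xD * xD) + cC (-7907) 10000 * xS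

/-- The bound of `p` above the cut. -/
def yA25PU : Bnd :=
  ⟨cC (103775) 10000 + cC (1240300) 10000 * xD + cC (-52) 10000 * xV + cC (-284602) 10000 * (xD * xV) + cC (-13) 10000 * (xV * xV) + cC (67354157) 10000 * (xD * xD) + cC (-154793) 10000 * xS,
    cC (-35139) 10000 + cC (1376801) 10000 * xD + cC (-126) 10000 * xV,
    cC 0,
    cC 0,
    cC 0⟩

/-- A multiplier above the cut. -/
def yA25K2p : Ex → Ex :=
  fun _ => cC (10) 10000 + cC (50) 10000 * xD

/-- A multiplier above the cut. -/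
def yA25K2m : Ex → Ex :=
  fun _ => cC (10) 10000 + cC (65) 10000 * xD

/-- A multiplier above the cut. -/
def yA25KapL : Ex → Ex :=
  fun e => cC (-2501) 10000 + cC (-21602) 10000 * xD + cC (840) 10000 * xV + cC (-864) 10000 * e

/-- A multiplier above the cut. -/
def yA25KapU : Ex → Ex :=
  fun e => cC (-35) 10000 + cC (-40284) 10000 * xD + cC (944) 10000 * xV + cC (1041) 10000 * e

/-- Below the cut. -/
def yA25A : Piece :=
  yA25.below yA25Cut

/-- The cut of the part where `p` may be small. -/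
def yA25CutC : Ex :=
  cC (-4) 5

/-- Between the cuts. -/
def yA25B : Piece :=
  { (yA25.above yA25Cut yA25PU).below yA25CutC with k2p := yA25K2p, k2m := yA25K2m, kapL := yA25KapL, kapU := yA25KapU }

/-- A piece: `2.886 ≤ v < 3.036`. -/
def yA25Q : Piece where
  u₀ := cC 1 + cC (-2) 5 * xD
  u₁ := cC (79) 80 + cC (-1) 5 * xD
  tLn := lowEn
  tLd := lowEd
  tUn := layUn
  tUd := layUd
  p₀ := cC (-1)
  zL := cC (6713) 10000 + cC (-157063) 10000 * xD + cC (-723) 10000 * xV + cC (-6) 10000 * xS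
  zU := cC (10030) 10000 + cC (-202519) 10000 * xD
  k2p := fun _ => cC (20) 10000
  k2m := fun _ => cC (20) 10000
  kapL := fun _ => cC 0
  kapU := fun _ => cC 0
  eL := ⟨cC (25652) 10000 + cC (15577) 10000 * xD + cC (-2287) 10000 * xV + cC (-56709) 10000 * xS,
    cC 0,
    cC 0,
    cC 0,
    cC 0⟩
  eH := ⟨cC (-205283) 10000 * xD,
    cC 0,
    cC 0,
    cC 0,
    cC 0⟩
  pL := ⟨cC 0,
    cC (-20055) 10000 + cC (24326) 10000 * xD + cC (107) 10000 * xV,
    cC 0,
    cC 0,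
    cC 0⟩
  pU := ⟨cC 0,
    cC (-35754) 10000 + cC (345985) 10000 * xD,
    cC 0,
    cC 0,
    cC (7682) 10000⟩
  kU := ⟨cC 0,
    cC (-714) 10000 + cC (9044) 10000 * xD + cC (37) 10000 * xV,
    cC (-194) 10000 + cC (2303) 10000 * xD + cC (10) 10000 * xV,
    cC 0,
    cC 0⟩
  kL := ⟨cC 0,
    cC (-712) 10000 + cC (8920) 10000 * xD + cC (36) 10000 * xV,
    cC (-207) 10000 + cC (2396) 10000 * xD + cC (10) 10000 * xV,
    cC 0,
    cC 0⟩
  wU := ⟨cC 0,
    cC (-8878) 10000 + cC (5219) 10000 * xD + cC (-3286) 10000 * xV,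
    cC (-12230) 10000 + cC (-11504) 10000 * xD + cC (-949) 10000 * xV,
    cC 0,
    cC 0⟩
  wL := ⟨cC 0,
    cC (-11184) 10000 + cC (7343) 10000 * xD + cC (-2724) 10000 * xV,
    cC (-13591) 10000 + cC (-9096) 10000 * xD + cC (-699) 10000 * xV,
    cC 0,
    cC 0⟩

/-- The part where `p` may be small. -/
def yA25QL : Piece :=
  yA25Q.above yA25CutC yA25Q.pU

/-- A constant of that part. -/
def yA25QMu : Ex :=
  cC (955) 10000

/-- A constant of that part. -/
def yA25QEps : Ex :=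
  cC (2792) 10000

/-- A constant of that part. -/
def yA25QLam : Ex :=
  cC (593) 10000

end Vale.Agent.P100.Calib.Closed.Six.Tail
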