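import Vale.Agent.P100.Calib.SlabSixTailRules

/-!
# The pieces of the certificate
-/

namespace Vale.Agent.P100.Calib.Closed.Six.Tail

open BoxPos Large

local instance sixTailDataLayerBAdd : Add Ex := ⟨Ex.add⟩
local instance sixTailDataLayerBSub : Sub Ex := ⟨Ex.sub⟩
local instance sixTailDataLayerBMul : Mul Ex := ⟨Ex.mul⟩

/-- A piece: `1.03 ≤ v < 1.5`. -/
def yB0 : Piece where
  u₀ := cC 1 + cC (-2) 5 * xD
  u₁ := cC (9749) 10000
  tLn := lowEn
  tLd := lowEd
  tUn := layUn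
  tUd := layUd
  p₀ := cC (228507) 10000 + cC (-157027) 10000 * xD + cC (-39759) 10000 * xV + cC (106114) 10000 * (xD * xV) + cC (-7240) 10000 * (xD * xD) + cC (-163563) 10000 * xS
  zL := cC (6943) 10000 + cC (-110717) 10000 * xD + cC (-878) 10000 * xV + cC (-8610) 10000 * (xD * xV) + cC (40) 10000 * (xV * xV) + cC (1168400) 10000 * (xD * xD) + cC (-519) 10000 * xS
  zU := cC (9527) 10000 + cC (-83355) 10000 * xD + cC (-219) 10000 * xV + cC (-11300) 10000 * (xD * xV) + cC (38) 10000 * (xV * xV) + cC (522518) 10000 * (xD * xD) + cC (-620) 10000 * xS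
  k2p := fun e => cC (-90) 10000 + cC (1971) 10000 * xD + cC (25) 10000 * xV + cC (-8) 10000 * e
  k2m := fun e => cC (53) 10000 + cC (727) 10000 * xD + cC (-35) 10000 * xV + cC (4) 10000 * e
  kapL := fun e => cC (-552) 10000 + cC (-898) 10000 * xD + cC (210) 10000 * xV + cC (-159) 10000 * e
  kapU := fun e => cC (-609) 10000 + cC (-2312) 10000 * xD + cC (353) 10000 * xV + cC (-179) 10000 * e
  eL := ⟨cC (14253) 10000 + cC (-552068) 10000 * xD + cC (914) 10000 * xV + cC (506) 10000 * (xV * xV) + cC (61677) 10000 * (xD * xV) + cC (4478283) 10000 * (xD * xD) + cC (-51027) 10000 * xS,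
    cC 0,
    cC 0,
    cC 0,
    cC 0⟩
  eH := ⟨cC (16761) 10000 + cC (-501226) 10000 * xD + cC (8216) 10000 * xV + cC (391) 10000 * (xV * xV) + cC (22529) 10000 * (xD * xV) + cC (3696817) 10000 * (xD * xD) + cC (-58819) 10000 * xS,
    cC 0,
    cC 0,
    cC (1864) 10000,
    cC 0⟩
  pL := ⟨cC (281019) 10000 + cC (-1448684) 10000 * xD + cC (-27182) 10000 * xV + cC (385460) 10000 * (xD * xV) + cC (393) 10000 * (xV * xV) + cC (70974) 10000 * (xD * xD) + cC (-308019) 10000 * xS,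
    cC (-12104) 10000 + cC (-306498) 10000 * xD + cC (523) 10000 * xV,
    cC 0,
    cC (5664) 10000,
    cC 0⟩
  pU := ⟨cC (414776) 10000 + cC (-1594049) 10000 * xD + cC (-99049) 10000 * xV + cC (494605) 10000 * (xD * xV) + cC (16216) 10000 * (xV * xV) + cC (-7745701) 10000 * (xD * xD) + cC (-409985) 10000 * xS,
    cC (5258) 10000 + cC (-480259) 10000 * xD + cC (-15393) 10000 * xV,
    cC 0,
    cC 0,
    cC 0⟩
  kU := ⟨cC (1517) 10000 + cC (-1706) 10000 * xD + cC (-27) 10000 * xV + cC (1230) 10000 * (xD * xV) + cC (5) 10000 * (xV * xV) + cC (9845) 10000 * (xD * xD) + cC (-2262) 10000 * xS,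
    cC (-776) 10000 + cC (10939) 10000 * xD + cC (34) 10000 * xV,
    cC (-206) 10000 + cC (2999) 10000 * xD + cC (4) 10000 * xV,
    cC 0,
    cC 0⟩
  kL := ⟨cC (1025) 10000 + cC (-1399) 10000 * xD + cC (32) 10000 * xV + cC (1728) 10000 * (xD * xV) + cC (-18) 10000 * (xV * xV) + cC (-26529) 10000 * (xD * xD) + cC (-1586) 10000 * xS,
    cC (-753) 10000 + cC (9754) 10000 * xD + cC (51) 10000 * xV,
    cC (-207) 10000 + cC (2892) 10000 * xD + cC (8) 10000 * xV,
    cC 0,
    cC 0⟩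
  wU := ⟨cC (-36013) 10000 + cC (12500) 10000 * xD + cC (-23276) 10000 * xV + cC (42022) 10000 * (xD * xV) + cC (10943) 10000 * (xV * xV) + cC (-467309) 10000 * (xD * xD) + cC (68217) 10000 * xS,
    cC (-4247) 10000 + cC (-26980) 10000 * xD + cC (-3506) 10000 * xV,
    cC (-8919) 10000 + cC (-16299) 10000 * xD + cC (-2248) 10000 * xV,
    cC (524) 10000,
    cC 0⟩
  wL := ⟨cC (-158585) 10000 + cC (247346) 10000 * xD + cC (2721) 10000 * xV + cC (-73649) 10000 * (xD * xV) + cC (-914) 10000 * (xV * xV) + cC (529926) 10000 * (xD * xD) + cC (231099) 10000 * xS,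
    cC (-3998) 10000 + cC (41777) 10000 * xD + cC (-4039) 10000 * xV,
    cC (-10744) 10000 + cC (-10056) 10000 * xD + cC (-1131) 10000 * xV,
    cC 0,
    cC 0⟩

/-- A piece: `1.5 ≤ v < 2.2`. -/
def yB1 : Piece where
  u₀ := cC 1 + cC (-2) 5 * xD
  u₁ := cC (9749) 10000
  tLn := lowEn
  tLd := lowEd
  tUn := layUn
  tUd := layUd
  p₀ := cC (231535) 10000 + cC (-151368) 10000 * xD + cC (-39791) 10000 * xV + cC (106907) 10000 * (xD * xV) + cC (-101682) 10000 * (xD * xD) + cC (-168142) 10000 * xS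
  zL := cC (7013) 10000 + cC (-112013) 10000 * xD + cC (-933) 10000 * xV + cC (-6974) 10000 * (xD * xV) + cC (38) 10000 * (xV * xV) + cC (1155630) 10000 * (xD * xD) + cC (-532) 10000 * xS
  zU := cC (9665) 10000 + cC (-87158) 10000 * xD + cC (-270) 10000 * xV + cC (-10187) 10000 * (xD * xV) + cC (34) 10000 * (xV * xV) + cC (546730) 10000 * (xD * xD) + cC (-633) 10000 * xS
  k2p := fun e => cC (-42) 10000 + cC (2294) 10000 * xD + cC (5) 10000 * xV + cC (1) 10000 * e
  k2m := fun e => cC (94) 10000 + cC (184) 10000 * xD + cC (-23) 10000 * xV + cC (15) 10000 * e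
  kapL := fun e => cC (2046) 10000 + cC (662) 10000 * xD + cC (-161) 10000 * xV + cC (526) 10000 * e
  kapU := fun e => cC (2307) 10000 + cC (-3812) 10000 * xD + cC (-114) 10000 * xV + cC (553) 10000 * e
  eL := ⟨cC (3179) 10000 + cC (-472442) 10000 * xD + cC (1436) 10000 * xV + cC (372) 10000 * (xV * xV) + cC (72285) 10000 * (xD * xV) + cC (3511789) 10000 * (xD * xD) + cC (-38650) 10000 * xS,
    cC 0,
    cC 0,
    cC 0,
    cC 0⟩
  eH := ⟨cC (-16483) 10000 + cC (-450821) 10000 * xD + cC (7905) 10000 * xV + cC (380) 10000 * (xV * xV) + cC (16201) 10000 * (xD * xV) + cC (2868743) 10000 * (xD * xD) + cC (-8502) 10000 * xS,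
    cC 0,
    cC 0,
    cC (1652) 10000,
    cC 0⟩
  pL := ⟨cC (122318) 10000 + cC (-4261833) 10000 * xD + cC (53356) 10000 * xV + cC (1199404) 10000 * (xD * xV) + cC (-14659) 10000 * (xV * xV) + cC (-7276915) 10000 * (xD * xD) + cC (-186549) 10000 * xS,
    cC (-22666) 10000 + cC (-1213552) 10000 * xD + cC (15206) 10000 * xV,
    cC 0,
    cC 0,
    cC 0⟩
  pU := ⟨cC (373124) 10000 + cC (-3105585) 10000 * xD + cC (-61936) 10000 * xV + cC (761412) 10000 * (xD * xV) + cC (7738) 10000 * (xV * xV) + cC (-2803268) 10000 * (xD * xD) + cC (-362587) 10000 * xS,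
    cC (-5384) 10000 + cC (-668778) 10000 * xD + cC (-5895) 10000 * xV,
    cC 0,
    cC 0,
    cC 0⟩
  kU := ⟨cC (813) 10000 + cC (-2274) 10000 * xD + cC (8) 10000 * xV + cC (924) 10000 * (xD * xV) + cC (-3) 10000 * (xV * xV) + cC (14000) 10000 * (xD * xD) + cC (-1237) 10000 * xS,
    cC (-767) 10000 + cC (10309) 10000 * xD + cC (43) 10000 * xV,
    cC (-201) 10000 + cC (2805) 10000 * xD + cC (7) 10000 * xV,
    cC 0,
    cC 0⟩
  kL := ⟨cC (1067) 10000 + cC (-1671) 10000 * xD + cC (74) 10000 * xV + cC (1172) 10000 * (xD * xV) + cC (-21) 10000 * (xV * xV) + cC (-23971) 10000 * (xD * xD) + cC (-1705) 10000 * xS,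
    cC (-686) 10000 + cC (8641) 10000 * xD + cC (34) 10000 * xV,
    cC (-188) 10000 + cC (2614) 10000 * xD + cC (4) 10000 * xV,
    cC 0,
    cC 0⟩
  wU := ⟨cC (5152) 10000 + cC (-20003) 10000 * xD + cC (-28173) 10000 * xV + cC (5865) 10000 * (xD * xV) + cC (6203) 10000 * (xV * xV) + cC (-66028) 10000 * (xD * xD) + cC (40792) 10000 * xS,
    cC (12561) 10000 + cC (-57356) 10000 * xD + cC (-11552) 10000 * xV,
    cC (-4513) 10000 + cC (-26404) 10000 * xD + cC (-3941) 10000 * xV,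
    cC (340) 10000,
    cC 0⟩
  wL := ⟨cC (-122278) 10000 + cC (275766) 10000 * xD + cC (-2443) 10000 * xV + cC (-52597) 10000 * (xD * xV) + cC (-1486) 10000 * (xV * xV) + cC (688590) 10000 * (xD * xD) + cC (187163) 10000 * xS,
    cC (-1475) 10000 + cC (66737) 10000 * xD + cC (-6371) 10000 * xV,
    cC (-10960) 10000 + cC (-13619) 10000 * xD + cC (-948) 10000 * xV,
    cC 0,
    cC 0⟩

/-- A piece: `2.2 ≤ v < 3.0`. -/
def yB2 : Piece where
  u₀ := cC 1 + cC (-2) 5 * xD
  u₁ := cC (9749) 10000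
  tLn := lowEn
  tLd := lowEd
  tUn := evN
  tUd := evD
  p₀ := cC (237156) 10000 + cC (-139924) 10000 * xD + cC (-39711) 10000 * xV + cC (105841) 10000 * (xD * xV) + cC (-215428) 10000 * (xD * xD) + cC (-177026) 10000 * xS
  zL := cC (-6516) 10000 + cC (32424) 10000 * xD + cC (-3756) 10000 * xV + cC (-15994) 10000 * (xD * xV) + cC (1241) 10000 * (xV * xV) + cC (-1912) 10000 * (xD * xD) + cC (16036) 10000 * xS
  zU := cC (9872) 10000 + cC (-93122) 10000 * xD + cC (-322) 10000 * xV + cC (-8940) 10000 * (xD * xV) + cC (31) 10000 * (xV * xV) + cC (584118) 10000 * (xD * xD) + cC (-652) 10000 * xS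
  k2p := fun e => cC (-64) 10000 + cC (1418) 10000 * xD + cC (5) 10000 * xV + cC (-18) 10000 * e
  k2m := fun _ => cC (-23) 10000 + cC (223) 10000 * xD + cC (13) 10000 * xV
  kapL := fun e => cC (2513) 10000 + cC (-15297) 10000 * xD + cC (150) 10000 * xV + cC (648) 10000 * e
  kapU := fun e => cC (434) 10000 + cC (-8570) 10000 * xD + cC (339) 10000 * xV + cC (134) 10000 * e
  eL := ⟨cC (-88803) 10000 + cC (566273) 10000 * xD + cC (17289) 10000 * xV + cC (-292) 10000 * (xV * xV) + cC (-58236) 10000 * (xD * xV) + cC (-3256515) 10000 * (xD * xD) + cC (22052) 10000 * xS,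
    cC 0,
    cC 0,
    cC 0,
    cC 0⟩
  eH := ⟨cC (-6335) 10000 + cC (-479768) 10000 * xD + cC (-850) 10000 * xV + cC (919) 10000 * (xV * xV) + cC (62428) 10000 * (xD * xV) + cC (1258657) 10000 * (xD * xD) + cC (2730) 10000 * xS,
    cC 0,
    cC 0,
    cC 0,
    cC 0⟩
  pL := ⟨cC (-17416) 10000 + cC (-3340389) 10000 * xD + cC (93004) 10000 * xV + cC (853688) 10000 * (xD * xV) + cC (-15749) 10000 * (xV * xV) + cC (-2396622) 10000 * (xD * xD) + cC (-147759) 10000 * xS,
    cC (-61698) 10000 + cC (-850456) 10000 * xD + cC (21862) 10000 * xV,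
    cC 0,
    cC 0,
    cC 0⟩
  pU := ⟨cC (228547) 10000 + cC (573775) 10000 * xD + cC (1217) 10000 * xV + cC (-215799) 10000 * (xD * xV) + cC (-1228) 10000 * (xV * xV) + cC (2465855) 10000 * (xD * xD) + cC (-325454) 10000 * xS,
    cC (-39541) 10000 + cC (228489) 10000 * xD + cC (3357) 10000 * xV,
    cC 0,
    cC 0,
    cC 0⟩
  kU := ⟨cC (468) 10000 + cC (-2310) 10000 * xD + cC (-3) 10000 * xV + cC (485) 10000 * (xD * xV) + cC (-1) 10000 * (xV * xV) + cC (14545) 10000 * (xD * xD) + cC (-651) 10000 * xS,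
    cC (-697) 10000 + cC (9514) 10000 * xD + cC (24) 10000 * xV,
    cC (-186) 10000 + cC (2643) 10000 * xD + cC (3) 10000 * xV,
    cC 0,
    cC 0⟩
  kL := ⟨cC (174) 10000 + cC (679) 10000 * xD + cC (179) 10000 * xV + cC (-95) 10000 * (xD * xV) + cC (-28) 10000 * (xV * xV) + cC (-4958) 10000 * (xD * xD) + cC (-710) 10000 * xS,
    cC (-631) 10000 + cC (9032) 10000 * xD + cC (5) 10000 * xV,
    cC (-160) 10000 + cC (2579) 10000 * xD + cC (-6) 10000 * xV,
    cC 0,
    cC 0⟩
  wU := ⟨cC (10421) 10000 + cC (130638) 10000 * xD + cC (-8254) 10000 * xV + cC (-44199) 10000 * (xD * xV) + cC (1266) 10000 * (xV * xV) + cC (188237) 10000 * (xD * xD) + cC (5016) 10000 * xS,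
    cC (414) 10000 + cC (19211) 10000 * xD + cC (-6353) 10000 * xV,
    cC (-10008) 10000 + cC (-6950) 10000 * xD + cC (-1750) 10000 * xV,
    cC 0,
    cC 0⟩
  wL := ⟨cC (-44341) 10000 + cC (879014) 10000 * xD + cC (-14599) 10000 * xV + cC (-179493) 10000 * (xD * xV) + cC (2097) 10000 * (xV * xV) + cC (-3462855) 10000 * (xD * xD) + cC (82582) 10000 * xS,
    cC (38903) 10000 + cC (-380945) 10000 * xD + cC (-12324) 10000 * xV,
    cC (-2088) 10000 + cC (-155016) 10000 * xD + cC (-1323) 10000 * xV,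
    cC 0,
    cC 0⟩

/-- The cut in `e`. -/
def yB2Cut : Ex :=
  cC (-58734) 10000 + cC (14951) 10000 * xD + cC (3366) 10000 * xV + cC (1927) 10000 * (xV * xV) + cC (-22825) 10000 * (xD * xV) + cC (-612709) 10000 * (xD * xD) + cC (36613) 10000 * xS

/-- The bound of `p` above the cut. -/
def yB2PU : Bnd :=
  ⟨cC (446814) 10000 + cC (-3508524) 10000 * xD + cC (-190421) 10000 * xV + cC (1001790) 10000 * (xD * xV) + cC (27280) 10000 * (xV * xV) + cC (-11719936) 10000 * (xD * xD) + cC (-165086) 10000 * xS,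
    cC (29314) 10000 + cC (-961794) 10000 * xD + cC (-14761) 10000 * xV,
    cC 0,
    cC 0,
    cC 0⟩

/-- A multiplier above the cut. -/
def yB2K2p : Ex → Ex :=
  fun e => cC (-190) 10000 + cC (-1903) 10000 * xD + cC (63) 10000 * xV + cC (-108) 10000 * e

/-- A multiplier above the cut. -/
def yB2K2m : Ex → Ex :=
  fun e => cC (-41) 10000 + cC (-281) 10000 * xD + cC (15) 10000 * xV + cC (-42) 10000 * e

/-- A multiplier above the cut. -/
def yB2KapL : Ex → Ex :=
  fun e => cC (16316) 10000 + cC (16401) 10000 * xD + cC (-3439) 10000 * xV + cC (4208) 10000 * e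

/-- A multiplier above the cut. -/
def yB2KapU : Ex → Ex :=
  fun e => cC (535) 10000 + cC (-40017) 10000 * xD + cC (848) 10000 * xV + cC (-190) 10000 * e

/-- Below the cut. -/
def yB2A : Piece :=
  yB2.below yB2Cut

/-- Above the cut. -/
def yB2B : Piece :=
  { yB2.above yB2Cut yB2PU with k2p := yB2K2p, k2m := yB2K2m, kapL := yB2KapL, kapU := yB2KapU }

/-- A piece: `3.0 ≤ v < 3.312`. -/
def yB3 : Piece where
  u₀ := cC 1 + cC (-2) 5 * xD
  u₁ := cC (9749) 10000
  tLn := lowEn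
  tLd := lowEd
  tUn := evN
  tUd := evD
  p₀ := cC (238476) 10000 + cC (-131628) 10000 * xD + cC (-39650) 10000 * xV + cC (104408) 10000 * (xD * xV) + cC (-259790) 10000 * (xD * xD) + cC (-179457) 10000 * xS
  zL := cC (-157608) 10000 + cC (482804) 10000 * xD + cC (80409) 10000 * xV + cC (-166944) 10000 * (xD * xV) + cC (-11199) 10000 * (xV * xV) + cC (-14768) 10000 * (xD * xD) + cC (32047) 10000 * xS
  zU := cC (258469) 10000 + cC (-172251) 10000 * xD + cC (-162010) 10000 * xV + cC (4706) 10000 * (xD * xV) + cC (26208) 10000 * (xV * xV) + cC (1060274) 10000 * (xD * xD) + cC (2036) 10000 * xS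
  k2p := fun e => cC (-11) 10000 + cC (-108) 10000 * xD + cC (7) 10000 * xV + cC (-7) 10000 * e
  k2m := fun e => cC (27) 10000 + cC (-52) 10000 * xD + cC (18) 10000 * xV + cC (42) 10000 * e
  kapL := fun e => cC (980) 10000 + cC (-21327) 10000 * xD + cC (2043) 10000 * xV + cC (3893) 10000 * e
  kapU := fun e => cC (-19126) 10000 + cC (2478) 10000 * xD + cC (6473) 10000 * xV + cC (-112) 10000 * e
  eL := ⟨cC (-107060) 10000 + cC (538110) 10000 * xD + cC (19472) 10000 * xV + cC (-656) 10000 * (xV * xV) + cC (-49817) 10000 * (xD * xV) + cC (-3252604) 10000 * (xD * xD) + cC (44557) 10000 * xS,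
    cC 0,
    cC 0,
    cC 0,
    cC (-33521) 10000 + cC (970512) 10000 * xD + cC (30186) 10000 * xV + cC (-556609) 10000 * (xD * xV)⟩
  eH := ⟨cC (152204) 10000 + cC (-592633) 10000 * xD + cC (-110169) 10000 * xV + cC (18265) 10000 * (xV * xV) + cC (115652) 10000 * (xD * xV) + cC (752916) 10000 * (xD * xD) + cC (21049) 10000 * xS,
    cC 0,
    cC 0,
    cC 0,
    cC 0⟩
  pL := ⟨cC (-431190) 10000 + cC (1183603) 10000 * xD + cC (313036) 10000 * xV + cC (-372832) 10000 * (xD * xV) + cC (-48413) 10000 * (xV * xV) + cC (-300592) 10000 * (xD * xD) + cC (-111851) 10000 * xS,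
    cC (-24158) 10000 + cC (11112) 10000 * xD + cC (1272) 10000 * xV,
    cC 0,
    cC 0,
    cC 0⟩
  pU := ⟨cC (166317) 10000 + cC (372319) 10000 * xD + cC (-2625) 10000 * xV + cC (-167803) 10000 * (xD * xV) + cC (-917) 10000 * (xV * xV) + cC (2833163) 10000 * (xD * xD) + cC (-219779) 10000 * xS,
    cC (-40348) 10000 + cC (207797) 10000 * xD + cC (3493) 10000 * xV,
    cC 0,
    cC 0,
    cC (-29623) 10000 + cC (1926825) 10000 * xD + cC (43351) 10000 * xV + cC (-762247) 10000 * (xD * xV)⟩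
  kU := ⟨cC (365) 10000 + cC (-1250) 10000 * xD + cC (-37) 10000 * xV + cC (166) 10000 * (xD * xV) + cC (8) 10000 * (xV * xV) + cC (9894) 10000 * (xD * xD) + cC (-469) 10000 * xS,
    cC (-732) 10000 + cC (8999) 10000 * xD + cC (40) 10000 * xV,
    cC (-193) 10000 + cC (2492) 10000 * xD + cC (7) 10000 * xV,
    cC 0,
    cC (387) 10000 + cC (-12779) 10000 * xD + cC (-128) 10000 * xV + cC (4260) 10000 * (xD * xV)⟩
  kL := ⟨cC (-713) 10000 + cC (9754) 10000 * xD + cC (449) 10000 * xV + cC (-2794) 10000 * (xD * xV) + cC (-59) 10000 * (xV * xV) + cC (-16307) 10000 * (xD * xD) + cC (-189) 10000 * xS,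
    cC (137) 10000 + cC (5948) 10000 * xD + cC (-181) 10000 * xV,
    cC (60) 10000 + cC (1482) 10000 * xD + cC (-54) 10000 * xV,
    cC 0,
    cC (-4212) 10000 + cC (67457) 10000 * xD + cC (1427) 10000 * xV + cC (-22839) 10000 * (xD * xV)⟩
  wU := ⟨cC (71622) 10000 + cC (16640) 10000 * xD + cC (-39336) 10000 * xV + cC (-7085) 10000 * (xD * xV) + cC (5982) 10000 * (xV * xV) + cC (132493) 10000 * (xD * xD) + cC (-9830) 10000 * xS,
    cC (-9713) 10000 + cC (12811) 10000 * xD + cC (-2820) 10000 * xV,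
    cC (-15290) 10000 + cC (-6610) 10000 * xD + cC (-5) 10000 * xV,
    cC 0,
    cC 0⟩
  wL := ⟨cC (883) 10000 + cC (84219) 10000 * xD + cC (5585) 10000 * xV + cC (-24300) 10000 * (xD * xV) + cC (-922) 10000 * (xV * xV) + cC (50035) 10000 * (xD * xD) + cC (-14032) 10000 * xS,
    cC (-11672) 10000 + cC (29587) 10000 * xD + cC (-2713) 10000 * xV,
    cC (-14192) 10000 + cC (-628) 10000 * xD + cC (-582) 10000 * xV,
    cC 0,
    cC 0⟩

end Vale.Agent.P100.Calib.Closed.Six.Tail
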