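import Vale.Agent.P100.Calib.BoxPosTree
import Vale.Agent.P100.Calib.SlabSixSignExpr
import Vale.Agent.P100.Calib.SlabSixSignCoef

/-!
# The certificate of the closed signs in dimension six

A piece is a box of `(d, v)` with bounds, affine in `e = g E` and `p = g W`, of `p`, `g K` and
`g W1`, and with the multipliers of the `TEG` part of the arrow. A bound carries multipliers of
two facts of the chart: `p` above `p₀` (drift) and `ev_pos`. The variables of the expressions are
`(o, S, d, v)`; `o` places `u` between `u₀` and `u₁`, or `e` between its bounds. The slope lies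
between two fractions in `u`, `d` and `v`; every bound is affine in it after clearing denominators.
-/

set_option linter.unusedVariables false

namespace Vale.Agent.P100.Calib.Closed.Six.Tail

open BoxPos

local instance sixEngExprAdd : Add Ex := ⟨Ex.add⟩
local instance sixEngExprSub : Sub Ex := ⟨Ex.sub⟩
local instance sixEngExprMul : Mul Ex := ⟨Ex.mul⟩

/-- A bound affine in `e` and `p`, with the multipliers of drift and of `ev_pos`. -/
structure Bnd where
  (free slope slopeP μ ν : Ex)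

/-- A piece. -/
structure Piece where
  (u₀ u₁ : Ex)
  (tLn tLd tUn tUd : Ex → Ex)
  (p₀ zL zU : Ex)
  (k2p k2m kapL kapU : Ex → Ex)
  (eL eH pL pU kU kL wU wL : Bnd)

/-- `o`. -/
abbrev xO : Ex := .x₀
/-- `S`. -/
abbrev xS : Ex := .x₁
/-- `d`. -/
abbrev xD : Ex := .x₂
/-- `v`. -/
abbrev xV : Ex := .x₃

/-- The bound at `(e, p)`. -/
def Bnd.ex (c : Bnd) (e p : Ex) : Ex := c.free + c.slope * e + c.slopeP * p

/-- `al`. -/
def xA : Ex := cC 1 2 * (xS - xD)

/-- `be`. -/
def xB : Ex := cC 1 2 * (xS + xD)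

/-- `7/50 - 21 d/10`. -/
def xC : Ex := cC 7 50 - cC 21 10 * xD

/-- `b (2 - S)`. -/
def xBB : Ex := xB * (cC 2 - xS)

/-- `u` between its bounds. -/
def Piece.xU (P : Piece) : Ex := P.u₀ + xO * (P.u₁ - P.u₀)

/-- `e` between its bounds. -/
def Piece.xE (P : Piece) : Ex := P.eL.free + xO * (P.eH.free - P.eL.free)

/-- `b (2 - S)` times the denominator of the slope times `h/d`. -/
def xK (u n m : Ex) : Ex := xS * (cC 1 + (cC 1 - xA) * xV) * m + xBB * u * n

/-- `b (2 - S)` times the denominator of the slope times `2 + d v - h u`. -/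
def xY (u n m : Ex) : Ex := (cC 2 + xD * xV) * xBB * m - xD * u * xK u n m

/-- The numerator of `g`. -/
def xGn (u : Ex) : Ex :=
  cC 4 * ((cC 2 + xD * xV) * xB - xS * u * (cC 1 + xD * xV))

/-- The common denominator. -/
def xDn (u n m : Ex) : Ex := (cC 1 - xS) * xS * xB * xY u n m

/-- The numerator of `p`. -/
def xPn (u n m : Ex) : Ex := xGn u * xK u n m * (cC 1 - xS)

/-- The numerator of `- E`. -/
def xEv (u n m : Ex) : Ex := (cC 19 10 + xV * (cC 7 50 - cC 1 5 * xD)) * xBB * m + xC * u * xK u n m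

/-- The numerator of `e`. -/
def xEn (u n m : Ex) : Ex := cC (-1) * xGn u * xEv u n m * xS

/-- The numerator of `g K`. -/
def xKn (u n m : Ex) : Ex := xC * xGn u * (xBB * m - xD * u * xK u n m) * xS

/-- The numerator of `g W1`, over `S b` times the common denominator. -/
def xWn (u n m : Ex) : Ex :=
  xGn u * (cC 1 - xS) * (xK u n m * (xA - (cC 1 - xA) * xD * xV) * xS -
    xB * xB * (cC 2 - xS) * (cC 2 - xS) * n)

/-- The numerator of `ev`. -/
def xEV (u n m : Ex) : Ex :=
  let c := cC 4 * xS * xB * (cC 1 - u)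
  xBB * m * (xGn u - c * (cC 2 + xD * xV)) - xD * u * xK u n m * (xGn u - c)

/-- The multipliers of a bound, times the two facts. -/
def Bnd.slack (c : Bnd) (p₀ u n m : Ex) : Ex :=
  c.μ * (xPn u n m - xDn u n m * p₀) + c.ν * xEV u n m

/-- A bound, times the denominator. -/
def Bnd.num (c : Bnd) (u n m : Ex) : Ex :=
  xDn u n m * c.free + c.slope * xEn u n m + c.slopeP * xPn u n m

/-- An end of the slope. -/
def Piece.at (P : Piece) (upper : Bool) (f : Ex → Ex → Ex → Ex) : Ex :=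
  let u := P.xU
  cond upper (f u (P.tUn u) (P.tUd u)) (f u (P.tLn u) (P.tLd u))

/-- The denominator of the slope. -/
def Piece.hDen (P : Piece) (b : Bool) : Ex := cond b (P.tUd P.xU) (P.tLd P.xU)

/-- The numerator of `g` is positive. -/
def Piece.hGn (P : Piece) : Ex := xGn P.xU

/-- `E` is negative. -/
def Piece.hEv (P : Piece) (b : Bool) : Ex := P.at b xEv

/-- `e` above its lower bound. -/
def Piece.hEL (P : Piece) (b : Bool) : Ex :=
  P.at b fun u n m => xEn u n m - xDn u n m * P.eL.free - P.eL.slack P.p₀ u n m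

/-- `e` below its upper bound. -/
def Piece.hEH (P : Piece) (b : Bool) : Ex :=
  P.at b fun u n m => xDn u n m * P.eH.free - xEn u n m - P.eH.slack P.p₀ u n m

/-- `p` above its lower bound. -/
def Piece.hPL (P : Piece) (b : Bool) : Ex :=
  P.at b fun u n m =>
    xPn u n m - (xDn u n m * P.pL.free + P.pL.slope * xEn u n m) - P.pL.slack P.p₀ u n m

/-- `p` below its bound. -/
def Piece.hPU (P : Piece) (b : Bool) : Ex :=
  P.at b fun u n m =>
    xDn u n m * P.pU.free + P.pU.slope * xEn u n m - xPn u n m - P.pU.slack P.p₀ u n m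

/-- `g K` below its bound. -/
def Piece.hKU (P : Piece) (b : Bool) : Ex :=
  P.at b fun u n m => P.kU.num u n m - xKn u n m - P.kU.slack P.p₀ u n m

/-- `g K` above its bound. -/
def Piece.hKL (P : Piece) (b : Bool) : Ex :=
  P.at b fun u n m => xKn u n m - P.kL.num u n m - P.kL.slack P.p₀ u n m

/-- `g W1` below its bound. -/
def Piece.hWU (P : Piece) (b : Bool) : Ex :=
  P.at b fun u n m => (P.wU.num u n m - P.wU.slack P.p₀ u n m) * xS * xB - xWn u n m

/-- `g W1` above its bound. -/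
def Piece.hWL (P : Piece) (b : Bool) : Ex :=
  P.at b fun u n m => xWn u n m - (P.wL.num u n m + P.wL.slack P.p₀ u n m) * xS * xB

/-- The numerator of `(1 - R d W)/(1 + d v)` above its lower bound. -/
def Piece.hZL (P : Piece) (b : Bool) : Ex :=
  P.at b fun u n m => xBB * m - xD * u * xK u n m - P.zL * (cC 1 + xD * xV) * xBB * m

/-- The numerator of `(1 - R d W)/(1 + d v)` below its upper bound. -/
def Piece.hZU (P : Piece) (b : Bool) : Ex :=
  P.at b fun u n m => P.zU * (cC 1 + xD * xV) * xBB * m - (xBB * m - xD * u * xK u n m)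

/-- The ray gap at `(u h/d, R)`, `G` at its least, for two constants. -/
def eLL (q r : Ex) : Ex :=
  Low.eLLG xA xD xV q r (cC (-1) * (cC 19 10 + xV * (cC 7 50 - cC 1 5 * xD) + q * xC))
    (xC * (cC 1 - xD * q))

/-- The ray gap at the ratio `Q/Z` of `u h/d`, `o` the `u`, times `Z (1 - S)`. -/
def xLLG (Z Q : Ex) : Ex :=
  let A := cC 2 * eLL (cC 0) (cC 1) - eLL (cC 0) (cC 2)
  let B := cC 2 * eLL (cC 1) (cC 1) - eLL (cC 1) (cC 2) - A
  let C := eLL (cC 0) (cC 2) - eLL (cC 0) (cC 1)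
  let D := eLL (cC 1) (cC 2) - eLL (cC 1) (cC 1) - C
  (A * Z + B * Q) * (cC 1 - xS) + (C * Z + D * Q) * xS * xO

/-- The ray gap at the least `h/d`: the slope is zero. -/
def hLLGlo : Ex := xLLG xBB (xO * (xS * (cC 1 + (cC 1 - xA) * xV)))

/-- The ray gap at `h = 1`. -/
def hLLGhi : Ex := xLLG xD xO

/-- The excess of `4 (1 - a v)` over `b` times the lower bound of `p`. -/
def Piece.hP0 (P : Piece) : Ex := cC 4 * (cC 1 - xA * xV) - xB * P.p₀

/-- Minus the multiples of drift and of `ev_pos` that `pU` carries. -/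
def Piece.hNone (P : Piece) (b : Bool) : Ex :=
  P.at b fun u n m => cC (-1) * P.pU.slack P.p₀ u n m

/-- The upper end of `p`. -/
def Piece.xPU (P : Piece) : Ex := P.pU.free + P.pU.slope * P.xE

/-- The lower end of `p`. -/
def Piece.xPL (P : Piece) : Ex := P.pL.free + P.pL.slope * P.xE

/-- `g TME` at the low ends. -/
def Piece.xM (P : Piece) (p : Ex) : Ex :=
  Low.eTME xA xD xV p P.xE (P.kL.ex P.xE p) (P.wL.ex P.xE p)

/-- `g TME` at the high ends. -/
def Piece.xM' (P : Piece) (p : Ex) : Ex :=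
  Low.eTME xA xD xV p P.xE (P.kU.ex P.xE p) (P.wU.ex P.xE p)

/-- An end of `z`. -/
def Piece.zEnd (P : Piece) (upper : Bool) : Ex := cond upper P.zU P.zL

/-- `TGG` at `p`. -/
def Piece.hG (P : Piece) (j : Bool) (p : Ex) : Ex := Low.eTGG xA xD xV p (P.zEnd j)

/-- `g TME` is negative at the high ends. -/
def Piece.hNeg (P : Piece) (p : Ex) : Ex := cC (-1) * P.xM' p

/-- The condition between `TGG` and `TEG`, `TEG` positive. -/
def Piece.hC2p (P : Piece) (j : Bool) (p : Ex) : Ex :=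
  cC 4 * P.k2p P.xE * Low.eTGG xA xD xV p (P.zEnd j) -
    xD * xD * (cC 1 + xD * xV) * Low.eTEG xA xD xV p P.xE (P.zEnd j)

/-- The condition between `TGG` and `TEG`, `TEG` negative. -/
def Piece.hC2m (P : Piece) (j : Bool) (p : Ex) : Ex :=
  cC 4 * P.k2m P.xE * Low.eTGG xA xD xV p (P.zEnd j) +
    xD * xD * (cC 1 + xD * xV) * Low.eTEG xA xD xV p P.xE (P.zEnd j)

/-- An end of `p`. -/
def Piece.pEnd (P : Piece) (upper : Bool) : Ex := cond upper P.xPU P.xPL

/-- `TA` at its worst ends. -/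
def Piece.xT (P : Piece) (j : Bool) (p : Ex) : Ex :=
  Low.eTA xA xD xV p P.xE (P.kU.ex P.xE p) (P.wU.ex P.xE p) (P.zEnd j)

/-- The multiplier between `TA` and `g TME` at an end of `p`. -/
def Piece.kap (P : Piece) (upper : Bool) : Ex := cond upper (P.kapU P.xE) (P.kapL P.xE)

/-- Between `- e (1 - S) p` and minus `g TME`, low ends. -/
def Piece.hC1 (P : Piece) (i : Bool) : Ex :=
  P.kap i * (cC (-1) * P.xE) * (cC 1 - cC 2 * xA - xD) * cC 20 3 * P.pEnd i + cC 4 * P.xM (P.pEnd i)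

/-- Between `- e (1 - S) p` and `g TME`, high ends. -/
def Piece.hC1' (P : Piece) (i : Bool) : Ex :=
  P.kap i * (cC (-1) * P.xE) * (cC 1 - cC 2 * xA - xD) * cC 20 3 * P.pEnd i - cC 4 * P.xM' (P.pEnd i)

/-- The arrow, `TEG` positive, low ends of `g TME`. -/
def Piece.hC3p (P : Piece) (i j : Bool) : Ex :=
  P.xT j (P.pEnd i) + P.kap i * P.xM (P.pEnd i)
    - P.k2p P.xE * Low.eTEG xA xD xV (P.pEnd i) P.xE (P.zEnd j)

/-- The arrow, `TEG` negative, low ends of `g TME`. -/
def Piece.hC3m (P : Piece) (i j : Bool) : Ex :=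
  P.xT j (P.pEnd i) + P.kap i * P.xM (P.pEnd i)
    + P.k2m P.xE * Low.eTEG xA xD xV (P.pEnd i) P.xE (P.zEnd j)

/-- The arrow, `TEG` positive, high ends of `g TME`. -/
def Piece.hC3p' (P : Piece) (i j : Bool) : Ex :=
  P.xT j (P.pEnd i) - P.kap i * P.xM' (P.pEnd i)
    - P.k2p P.xE * Low.eTEG xA xD xV (P.pEnd i) P.xE (P.zEnd j)

/-- The arrow, `TEG` negative, high ends of `g TME`. -/
def Piece.hC3m' (P : Piece) (i j : Bool) : Ex :=
  P.xT j (P.pEnd i) - P.kap i * P.xM' (P.pEnd i)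
    + P.k2m P.xE * Low.eTEG xA xD xV (P.pEnd i) P.xE (P.zEnd j)

/-- `TA` above the `TEG` part, `TEG` positive. -/
def Piece.hUp (P : Piece) (i j : Bool) : Ex :=
  P.xT j (P.pEnd i) - P.k2p P.xE * Low.eTEG xA xD xV (P.pEnd i) P.xE (P.zEnd j)

/-- `TA` above the `TEG` part, `TEG` negative. -/
def Piece.hUm (P : Piece) (i j : Bool) : Ex :=
  P.xT j (P.pEnd i) + P.k2m P.xE * Low.eTEG xA xD xV (P.pEnd i) P.xE (P.zEnd j)

/-- `g TME` is negative at the low ends. -/
def Piece.hNegLo (P : Piece) (p : Ex) : Ex := cC (-1) * P.xM p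

/-- `TMG` at its worst ends. -/
def Piece.hTMG (P : Piece) (j : Bool) (p : Ex) : Ex :=
  Low.eTMG xA xD xV p P.xE (P.kU.ex P.xE p) (P.wL.ex P.xE p) (P.zEnd j)

/-- Concavity in `p` of `hC2p`. -/
def Piece.hV2p (P : Piece) : Ex :=
  xD * xD * (cC 1 + xD * xV) * Low.eTEG2 xA xD xV - cC 4 * P.k2p P.xE * Low.eTGG2 xA xD xV

/-- Concavity in `p` of `hC2m`. -/
def Piece.hV2m (P : Piece) : Ex :=
  cC (-1) * (cC 4 * P.k2m P.xE * Low.eTGG2 xA xD xV +
    xD * xD * (cC 1 + xD * xV) * Low.eTEG2 xA xD xV)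

/-- Concavity in `p` of `hC3p`. -/
def Piece.hV3p (P : Piece) : Ex := P.k2p P.xE * Low.eTEG2 xA xD xV - Low.eTA2 xA xD xV

/-- Concavity in `p` of `hC3m`. -/
def Piece.hV3m (P : Piece) : Ex :=
  cC (-1) * (Low.eTA2 xA xD xV + P.k2m P.xE * Low.eTEG2 xA xD xV)

/-- Concavity in `p` of `TGG`. -/
def hVG : Ex := cC (-1) * Low.eTGG2 xA xD xV
/-- Concavity in `p` of `TMG`. -/
def hVMG : Ex := cC (-1) * Low.eTMG2 xA xD xV
/-- `TA` falls in `k`. -/
def hAk : Ex := cC (-1) * Low.eTAk xA xD xV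
/-- `TA` falls in `w`. -/
def hAw : Ex := cC (-1) * Low.eTAw xA xD xV
/-- `TMG` falls in `k`. -/
def hGk : Ex := cC (-1) * Low.eTMGk xA xD xV
/-- `TMG` rises in `w`. -/
def hGw : Ex := Low.eTMGw xA xD xV
/-- `g TME` rises in `k`. -/
def hMk : Ex := Low.eTMEk xA xD xV
/-- `g TME` rises in `w`. -/
def hMw : Ex := Low.eTMEw xA xD xV

end Vale.Agent.P100.Calib.Closed.Six.Tail
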