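import Vale.Agent.P100.Calib.SlabSixTailSigns

/-!
# The closed signs of a piece where `p = g W` may be arbitrarily small

Instead of a multiplier between `TA` and `g TME`, which grows like `1/p`, the piece carries
`|g TME| ≤ μ p` and `ε p ≤ - e`; then `TA` above `lam` plus the `TEG` part is enough.
-/

set_option linter.unusedVariables false

namespace Vale.Agent.P100.Calib.Closed.Six.Tail

open BoxPos Large

local instance sixTailLowAdd : Add Ex := ⟨Ex.add⟩
local instance sixTailLowSub : Sub Ex := ⟨Ex.sub⟩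
local instance sixTailLowMul : Mul Ex := ⟨Ex.mul⟩

variable {P : Piece} {b : Box}

set_option maxHeartbeats 800000 in
/-- **The signs of a piece where `p` may be small** at `g = 1`. -/
theorem core_signsLow {μ ε lam : Ex} (C : P.SignLow b μ ε lam) {o S d v z p e k w : ℝ} (h₀ : b.s₀.Mem o) (h₁ : b.s₁.Mem S)
    (h₂ : b.s₂.Mem d) (h₃ : b.s₃.Mem v) (hS : S < 1) (hS0 : 0 < S) (hd : 0 < d) (hD : Dom S d v) (hv : 0 < v)
    (B : Bounds P o S d v z p e k w) :
    let a := (S - d) / 2
    let M := -((1 - 2 * a - d) * (1 + d * v) * e * p)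
    let T := T6 a d v z e p k w
    let G := G6 a d v z p
    let X := X6 a d v e p k w
    let Y := Y6 a d v z e p
    0 < G ∧ 0 ≤ N6 a d v z e p k w ∧
      0 < 4 * T * M * G - 16 * (3 / 20) * (1 + d * v) * X ^ 2 * G -
        d ^ 2 * (1 + d * v) * Y ^ 2 * M := by
  intro a M T G X Y
  have ev : ∀ {f : Ex}, PosD b f → 0 < f.val o S d v := fun h => h o S d v h₀ h₁ h₂ h₃ hD
  have hA : xA.val o S d v = a := val_xA o S d v
  have ha0 : 0 ≤ a := B.a_nonneg
  have hE : P.xE.val o S d v = e := B.e_eq
  set pl := P.pL.free.val o S d v + P.pL.slope.val o S d v * e with hpl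
  set pu := P.pU.free.val o S d v + P.pU.slope.val o S d v * e with hpu
  obtain ⟨s, hs0, hs1, hp⟩ : ∃ s : ℝ, 0 ≤ s ∧ s ≤ 1 ∧ p = mix s pl pu := by
    rcases eq_or_lt_of_le (B.p_low.trans B.p_high) with h | h
    · exact ⟨0, le_rfl, zero_le_one, by unfold mix; linarith [B.p_low, B.p_high]⟩
    · refine ⟨(p - pl) / (pu - pl), div_nonneg (sub_nonneg.2 B.p_low) (by linarith), ?_, ?_⟩
      · rw [div_le_one (by linarith)]; linarith [B.p_high]
      · unfold mix
        have hne : pu - pl ≠ 0 := (sub_pos.2 h).ne'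
        field_simp
        ring
  let lk := fun x => P.kL.free.val o S d v + P.kL.slope.val o S d v * e + P.kL.slopeP.val o S d v * x
  let uk := fun x => P.kU.free.val o S d v + P.kU.slope.val o S d v * e + P.kU.slopeP.val o S d v * x
  let lw := fun x => P.wL.free.val o S d v + P.wL.slope.val o S d v * e + P.wL.slopeP.val o S d v * x
  let uw := fun x => P.wU.free.val o S d v + P.wU.slope.val o S d v * e + P.wU.slopeP.val o S d v * x
  have mlk : lk p = mix s (lk pl) (lk pu) := by rw [hp]; simp only [lk, mix]; ring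
  have muk : uk p = mix s (uk pl) (uk pu) := by rw [hp]; simp only [uk, mix]; ring
  have mlw : lw p = mix s (lw pl) (lw pu) := by rw [hp]; simp only [lw, mix]; ring
  have muw : uw p = mix s (uw pl) (uw pu) := by rw [hp]; simp only [uw, mix]; ring
  have kG2 : two (fun x => G6 a d v 0 x) ≤ 0 := by
    have := Low.val_eTGG2 xA xD xV o S d v e 0 0 0
    have k := ev C.vG
    simp only [hVG, ex_mul, Ex.val] at k
    simp only [hA, Ex.val] at this
    simp only [two, G6_eq (W1 := 0) (R := 0) (E := e) (K := 0)]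
    push_cast at k
    linarith
  have kMG2 : two (fun x => N6 a d v 0 e x 0 0) ≤ 0 := by
    have := Low.val_eTMG2 xA xD xV o S d v e 0 0 0
    have k := ev C.vMG
    simp only [hVMG, ex_mul, Ex.val] at k
    simp only [hA, Ex.val] at this
    simp only [two, N6_eq (R := 0)]
    push_cast at k
    linarith
  have dAk : T6 a d v z e p 1 0 - T6 a d v z e p 0 0 ≤ 0 := by
    have := Low.val_eTAk xA xD xV o S d v p e 0 z
    have k := ev C.ak
    simp only [hAk, ex_mul, Ex.val] at k
    simp only [hA, Ex.val] at this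
    simp only [T6_eq (R := 0)]
    push_cast at k
    linarith
  have dAw : T6 a d v z e p 0 1 - T6 a d v z e p 0 0 ≤ 0 := by
    have := Low.val_eTAw xA xD xV o S d v p e 0 z
    have k := ev C.aw
    simp only [hAw, ex_mul, Ex.val] at k
    simp only [hA, Ex.val] at this
    simp only [T6_eq (R := 0)]
    push_cast at k
    linarith
  have dGk : N6 a d v z e p 1 0 - N6 a d v z e p 0 0 ≤ 0 := by
    have := Low.val_eTMGk xA xD xV o S d v p e 0 z
    have k := ev C.gk
    simp only [hGk, ex_mul, Ex.val] at k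
    simp only [hA, Ex.val] at this
    simp only [N6_eq (R := 0)]
    push_cast at k
    linarith
  have dGw : 0 ≤ N6 a d v z e p 0 1 - N6 a d v z e p 0 0 := by
    have := Low.val_eTMGw xA xD xV o S d v p e 0 z
    have k := ev C.gw
    simp only [hGw] at k
    simp only [hA, Ex.val] at this
    simp only [N6_eq (R := 0)]
    linarith
  have dMk : 0 ≤ X6 a d v e p 1 0 - X6 a d v e p 0 0 := by
    have := Low.val_eTMEk xA xD xV o S d v p e 0 0
    have k := ev C.ek
    simp only [hMk] at k
    simp only [hA, Ex.val] at this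
    simp only [X6_eq (z := 0) (R := 0)]
    linarith
  have dMw : 0 ≤ X6 a d v e p 0 1 - X6 a d v e p 0 0 := by
    have := Low.val_eTMEw xA xD xV o S d v p e 0 0
    have k := ev C.ew
    simp only [hMw] at k
    simp only [hA, Ex.val] at this
    simp only [X6_eq (z := 0) (R := 0)]
    linarith
  obtain ⟨zl, hzl⟩ : ∃ x, x = P.zL.val o S d v := ⟨_, rfl⟩
  obtain ⟨zu, hzu⟩ : ∃ x, x = P.zU.val o S d v := ⟨_, rfl⟩
  obtain ⟨sz, hz0, hz1, hz⟩ : ∃ sz : ℝ, 0 ≤ sz ∧ sz ≤ 1 ∧ z = mix sz zl zu :=
    exists_mix (hzl ▸ B.z_low) (hzu ▸ B.z_high)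
  have hb1 : 0 < 1 + d * v := by positivity
  have kGz : two (fun x => G6 a d v x p) ≤ 0 := by
    rw [G_zz, neg_nonpos]
    have : 0 < a + d := by simp only [a]; linarith
    have : 0 ≤ Closed.j1 a d := by simp only [Closed.j1, a]; linarith
    have : 0 ≤ a := B.a_nonneg
    positivity
  have k0 : 0 ≤ k - lk p := sub_nonneg.2 B.k_low
  have k1 : k - uk p ≤ 0 := sub_nonpos.2 B.k_high
  have w0 : 0 ≤ w - lw p := sub_nonneg.2 B.w_low
  have w1 : w - uw p ≤ 0 := sub_nonpos.2 B.w_high
  have hT : T6 a d v z e p (uk p) (uw p) ≤ T := by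
    simp only [T]
    rw [T_affine (k₀ := uk p) (w₀ := uw p) (k := k) (w := w)]
    linarith only [mul_nonneg_of_nonpos_of_nonpos k1 dAk, mul_nonneg_of_nonpos_of_nonpos w1 dAw]
  have hM : X6 a d v e p (lk p) (lw p) ≤ X ∧ X ≤ X6 a d v e p (uk p) (uw p) := by
    simp only [X]
    constructor
    · rw [X_affine (k₀ := lk p) (w₀ := lw p) (k := k) (w := w)]
      linarith only [mul_nonneg k0 dMk, mul_nonneg w0 dMw]
    · rw [X_affine (k₀ := uk p) (w₀ := uw p) (k := k) (w := w)]
      linarith only [mul_nonpos_of_nonpos_of_nonneg k1 dMk, mul_nonpos_of_nonpos_of_nonneg w1 dMw]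
  have hTMG : N6 a d v z e p (uk p) (lw p) ≤ N6 a d v z e p k w := by
    rw [N_affine (k₀ := uk p) (w₀ := lw p) (k := k) (w := w)]
    linarith only [mul_nonneg_of_nonpos_of_nonpos k1 dGk, mul_nonneg w0 dGw]
  have hend : ∀ i, (P.pEnd i).val o S d v = cond i pu pl := by
    intro i
    cases i
    · simp only [Piece.pEnd, cond_false, Piece.xPL, ex_add, ex_mul, Ex.val, hE, hpl]
    · simp only [Piece.pEnd, cond_true, Piece.xPU, ex_add, ex_mul, Ex.val, hE, hpu]
  set c2 := d * d * (1 + d * v) with hc2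
  set Q1 := (1 - 2 * a - d) * (20 / 3) with hQ1
  set q1 := (P.k2p P.xE).val o S d v with hq1
  set q2 := (P.k2m P.xE).val o S d v with hq2
  have hzend : ∀ j, (P.zEnd j).val o S d v = cond j zu zl := fun j => by
    cases j <;> simp [Piece.zEnd, hzu, hzl]
  have vM : ∀ x : Ex, (P.xM x).val o S d v = X6 a d v e (x.val o S d v) (lk (x.val o S d v))
      (lw (x.val o S d v)) := by
    intro x
    simp only [Piece.xM, Low.val_eTME (z := (0 : ℝ)), X6_eq (z := 0) (R := 0), hA, hE, Ex.val, Bnd.ex, ex_add, ex_mul, lk, lw]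
  have vM' : ∀ x : Ex, (P.xM' x).val o S d v = X6 a d v e (x.val o S d v) (uk (x.val o S d v))
      (uw (x.val o S d v)) := by
    intro x
    simp only [Piece.xM', Low.val_eTME (z := (0 : ℝ)), X6_eq (z := 0) (R := 0), hA, hE, Ex.val, Bnd.ex, ex_add, ex_mul, uk, uw]
  have vT : ∀ (j : Bool) (x : Ex), (P.xT j x).val o S d v =
      T6 a d v (cond j zu zl) e (x.val o S d v) (uk (x.val o S d v)) (uw (x.val o S d v)) := by
    intro j x
    simp only [Piece.xT, Low.val_eTA, T6_eq (R := 0), hA, hE, hzend, Ex.val, Bnd.ex, ex_add, ex_mul, uk, uw]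
  have vG : ∀ (j : Bool) (x : Ex), (Low.eTGG xA xD xV x (P.zEnd j)).val o S d v =
      G6 a d v (cond j zu zl) (x.val o S d v) := by
    intro j x
    rw [Low.val_eTGG xA xD xV x (P.zEnd j) o S d v 0 0 0, hA, hzend, G6_eq (W1 := 0) (R := 0) (E := 0) (K := 0)]; rfl
  have vY : ∀ (j : Bool) (x : Ex), (Low.eTEG xA xD xV x P.xE (P.zEnd j)).val o S d v =
      Y6 a d v (cond j zu zl) e (x.val o S d v) := by
    intro j x
    rw [Low.val_eTEG xA xD xV x P.xE (P.zEnd j) o S d v 0 0, hA, hE, hzend, Y6_eq (W1 := 0) (R := 0) (K := 0)]; rfl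
  -- a concave function of `z` at the point
  have zmix : ∀ {x y c : ℝ}, 0 < x → 0 < y → c ≤ 0 →
      0 < mix sz x y - sz * (1 - sz) * (zu - zl) ^ 2 * c := fun hx hy hc =>
    secant_pos hx hy hc hz0 hz1
  have eG : ∀ i, 0 < G6 a d v z (cond i pu pl) := fun i => by
    have k1 := ev (C.tg i false)
    have k2 := ev (C.tg i true)
    simp only [Piece.hG, vG, hend, cond_false, cond_true] at k1 k2
    have k3 : two (fun x => G6 a d v x (cond i pu pl)) ≤ 0 := by
      rw [G_zz]; rw [G_zz] at kGz; exact kGz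
    rw [hz, G_z]
    exact zmix k1 k2 k3
  have hGpos : 0 < G := by
    simp only [G]; rw [hp, G_secant]
    exact secant_pos (eG false) (eG true) kG2 hs0 hs1
  have hc : 0 ≤ c2 := by
    have : 0 < 1 + d * v := by positivity
    positivity
  have hY2 : ∀ (q σ : ℝ), 0 ≤ q →
      (∀ i j, 0 < 4 * q * G6 a d v (cond j zu zl) (cond i pu pl) -
        σ * c2 * Y6 a d v (cond j zu zl) e (cond i pu pl)) →
      4 * q * (two fun x => G6 a d v 0 x) - σ * c2 * (two fun x => Y6 a d v 0 e x) ≤ 0 →
      0 < 4 * q * G - σ * c2 * Y := by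
    intro q σ hq h h2
    have hi : ∀ i, 0 < 4 * q * G6 a d v z (cond i pu pl) - σ * c2 * Y6 a d v z e (cond i pu pl) := by
      intro i
      rw [hz, G_z, Y_z]
      have k3 : 4 * q * (two fun x => G6 a d v x (cond i pu pl)) ≤ 0 := by
        rw [G_zz]; rw [G_zz] at kGz
        exact mul_nonpos_of_nonneg_of_nonpos (by linarith) kGz
      have := zmix (h i false) (h i true) k3
      simp only [cond_false, cond_true, mix] at this ⊢
      linarith only [this]
    simp only [G, Y]; rw [hp, G_secant, Y_secant]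
    have := secant_pos (p₀ := pl) (p₁ := pu) (hi false) (hi true) h2 hs0 hs1
    simp only [cond_false, cond_true, mix] at this ⊢
    linarith only [this]
  have tG2 : (Low.eTGG2 xA xD xV).val o S d v = two (fun x => G6 a d v 0 x) := by
    have := Low.val_eTGG2 xA xD xV o S d v e 0 0 0
    simp only [hA, Ex.val] at this
    simp only [two, G6_eq (W1 := 0) (R := 0) (E := e) (K := 0)]
    linarith only [this]
  have tY2 : (Low.eTEG2 xA xD xV).val o S d v = two (fun x => Y6 a d v 0 e x) := by
    have := Low.val_eTEG2 xA xD xV o S d v e 0 0 0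
    simp only [hA, Ex.val] at this
    simp only [two, Y6_eq (W1 := 0) (R := 0) (K := 0)]
    linarith only [this]
  have tA2 : (Low.eTA2 xA xD xV).val o S d v = two (fun x => T6 a d v 0 e x 0 0) := by
    have := Low.val_eTA2 xA xD xV o S d v e 0 0 0
    simp only [hA, Ex.val] at this
    simp only [two, T6_eq (R := 0)]
    linarith only [this]
  have Yp : 0 < 4 * q1 * G - 1 * c2 * Y := hY2 q1 1 (ev C.k2p).le (fun i j => by
      have := ev (C.c2p i j)
      simp only [Piece.hC2p, ex_mul, ex_sub, ex_add, Ex.val, vG, vY, hend] at this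
      push_cast at this
      simp only [hc2, hq1]
      linarith only [this]) (by
      have := ev C.v2p
      simp only [Piece.hV2p, ex_mul, ex_sub, ex_add, Ex.val, tG2, tY2] at this
      push_cast at this
      simp only [hc2, hq1]
      linarith only [this])
  have Ym : 0 < 4 * q2 * G - (-1) * c2 * Y := hY2 q2 (-1) (ev C.k2m).le (fun i j => by
      have := ev (C.c2m i j)
      simp only [Piece.hC2m, ex_mul, ex_sub, ex_add, Ex.val, vG, vY, hend] at this
      push_cast at this
      simp only [hc2, hq2]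
      linarith only [this]) (by
      have := ev C.v2m
      simp only [Piece.hV2m, ex_mul, ex_sub, ex_add, Ex.val, tG2, tY2] at this
      push_cast at this
      simp only [hc2, hq2]
      linarith only [this])
  have he : 0 < -e := neg_pos.2 B.e_neg
  have hlu : 0 < pl ∧ 0 < pu := by
    have h := ev C.pp
    simp only [Piece.xPL, ex_add, ex_mul, Ex.val, hE, ← hpl] at h
    exact ⟨h, h.trans_le (B.p_low.trans B.p_high)⟩
  have hQ : 0 < Q1 := by simp only [hQ1, a]; linarith
  have V3p : two (fun x => T6 a d v 0 e x 0 0) - 1 * q1 * two (fun x => Y6 a d v 0 e x) ≤ 0 := by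
    have := ev C.v3p
    simp only [Piece.hV3p, ex_mul, ex_sub, Ex.val, tA2, tY2] at this
    linarith only [this]
  have V3m : two (fun x => T6 a d v 0 e x 0 0) - (-1) * q2 * two (fun x => Y6 a d v 0 e x) ≤ 0 := by
    have := ev C.v3m
    simp only [Piece.hV3m, ex_mul, ex_add, Ex.val, tA2, tY2] at this
    push_cast at this
    linarith only [this]
  set l := lam.val o S d v with hl
  set m := μ.val o S d v with hm
  set r := ε.val o S d v with hr
  -- `TA` less the `TEG` part stays above `lam` between the ends of `p`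
  have above : ∀ (σ q : ℝ),
      (∀ i, 0 < T6 a d v z e (cond i pu pl) (uk (cond i pu pl)) (uw (cond i pu pl)) -
        σ * q * Y6 a d v z e (cond i pu pl) - l) →
      two (fun x => T6 a d v 0 e x 0 0) - σ * q * two (fun x => Y6 a d v 0 e x) ≤ 0 →
      0 < T6 a d v z e p (uk p) (uw p) - σ * q * Y - l := by
    intro σ q h h2
    have k := secant_pos (p₀ := pl) (p₁ := pu) (h false) (h true) h2 hs0 hs1
    simp only [Y]
    rw [muk, muw, hp, T_secant, Y_secant]
    simp only [cond_false, cond_true, mix] at k ⊢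
    linarith only [k]
  have Up := above 1 q1 (fun i => by
    have k1 := ev (C.up i false)
    have k2 := ev (C.up i true)
    simp only [Piece.hUp, ex_mul, ex_add, ex_sub, Ex.val, vT, vY, hend, cond_false, cond_true] at k1 k2
    simp only [hl, hq1]
    rw [hz, T_z, Y_z]
    refine mix_pos k1 k2 hz0 hz1 ?_
    simp only [mix]; ring) V3p
  have Um := above (-1) q2 (fun i => by
    have k1 := ev (C.um i false)
    have k2 := ev (C.um i true)
    simp only [Piece.hUm, ex_mul, ex_add, ex_sub, Ex.val, vT, vY, hend, cond_false, cond_true] at k1 k2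
    simp only [hl, hq2]
    rw [hz, T_z, Y_z]
    refine mix_pos k1 k2 hz0 hz1 ?_
    simp only [mix]; ring) V3m
  have hr0 : 0 < r := ev C.eps
  have hl0 : 0 < l := ev C.lam_pos
  have hlm : 0 < Q1 * r * l - 4 * m * m := by
    have := ev C.lam_mu
    simp only [ex_mul, ex_sub, Ex.val] at this
    push_cast at this
    simp only [hQ1, hr, hl, hm, a]
    linarith only [this]
  have hp0 : 0 < p := hlu.1.trans_le B.p_low
  have hre : r * p < -e := by
    have := ev C.eLow
    simp only [Piece.xPU, ex_mul, ex_add, ex_sub, Ex.val, hE, ← hpu] at this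
    push_cast at this
    have h2 := mul_le_mul_of_nonneg_left B.p_high hr0.le
    simp only [← hr, ← hpu] at this h2
    linarith only [this, h2]
  have hXl : -(m * p) ≤ X := by
    refine le_trans ?_ hM.1
    have k1 := ev (C.xl false)
    have k2 := ev (C.xl true)
    simp only [ex_mul, ex_add, Ex.val, vM, hend, cond_false, cond_true, ← hm] at k1 k2
    have k := secant_pos (p₀ := pl) (p₁ := pu) k1 k2 (le_refl (0 : ℝ)) hs0 hs1
    conv_rhs => rw [mlw, mlk, hp, X_secant]
    rw [hp]
    simp only [mix] at k ⊢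
    linarith only [k]
  have hXu : X ≤ m * p := by
    refine le_trans hM.2 ?_
    have k1 := ev (C.xu false)
    have k2 := ev (C.xu true)
    simp only [ex_mul, ex_sub, Ex.val, vM', hend, cond_false, cond_true, ← hm] at k1 k2
    have k := secant_pos (p₀ := pl) (p₁ := pu) k1 k2 (le_refl (0 : ℝ)) hs0 hs1
    conv_lhs => rw [muw, muk, hp, X_secant]
    rw [hp]
    simp only [mix] at k ⊢
    linarith only [k]
  have bnd : ∀ U : ℝ, 0 < U - l → 0 < Q1 * p * (-e * U) - 4 * (m * p) * (m * p) := by
    intro U hU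
    have h1 := mul_pos (mul_pos (mul_pos hQ hp0) hp0) hl0
    have h2 := mul_pos (mul_pos hlm hp0) hp0
    have h3 := mul_pos (mul_pos (mul_pos hQ hp0) hl0) (sub_pos.2 hre)
    have h4 := mul_pos (mul_pos (mul_pos hQ hp0) he) hU
    linarith only [h2, h3, h4]
  have Lp : 0 < Q1 * p * (-e * T6 a d v z e p (uk p) (uw p) - -e * 1 * q1 * Y) -
      4 * -(m * p) * -(m * p) := by
    have := bnd _ Up
    linarith only [this]
  have Lm : 0 < Q1 * p * (-e * T6 a d v z e p (uk p) (uw p) - -e * (-1) * q2 * Y) -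
      4 * -(m * p) * -(m * p) := by
    have := bnd _ Um
    linarith only [this]
  refine ⟨hGpos, ?_, ?_⟩
  · have h : ∀ i, 0 < N6 a d v z e (cond i pu pl) (uk (cond i pu pl)) (lw (cond i pu pl)) :=
      fun i => by
        have k1 := ev (C.tmg i false)
        have k2 := ev (C.tmg i true)
        simp only [Piece.hTMG, Low.val_eTMG, hA, hE, hzend, Ex.val, Bnd.ex, ex_add, ex_mul, hend,
          cond_false, cond_true] at k1 k2
        rw [hz, N_z]
        exact mix_pos k1 k2 hz0 hz1 (by simp only [N6_eq (R := 0), uk, lw])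
    have hh : 0 < N6 a d v z e p (uk p) (lw p) := by
      rw [mlw, muk]; conv_rhs => rw [hp, N_secant]
      exact secant_pos (h false) (h true) kMG2 hs0 hs1
    exact (hh.trans_le hTMG).le
  · have := arrow_pos (Q := 1 + d * v) hQ (by positivity) hp0 he hGpos hc
      hT ⟨hXl, hXu⟩ Yp Ym Lp Lm (.inr ⟨by linarith only [Lp], by linarith only [Lm]⟩)
      (M := M * (20 / 3)) (by simp only [M, hQ1]; ring)
    simp only [hc2] at this
    linarith only [this]

set_option maxHeartbeats 800000 in
/-- **The closed signs from the bounds of a piece where `p` may be small.** -/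
theorem Place.signsLow {P : Piece} {b : Box} {μ ε lam : Ex} {o d S u v t : ℝ} (L : Place P o d S u v t)
    (C : P.SignLow b μ ε lam) (hc : P.consts.all noO = true) (hb : b.s₀ = ⟨0, 1, 1⟩) (h₁ : b.s₁.Mem S)
    (h₂ : b.s₂.Mem d) (h₃ : b.s₃.Mem v) (hd : 0 < d) (hD : Dom S d v) (hS0 : 0 < S) (hS : S < 1)
    (hv : 0 < v) (hdS : d ≤ S) (hF : Six.ChartFacts d S u v t)
    (hllg : 0 ≤ ClosedGen.LLGS ((S - d) / 2) d v (chG d S u v t) (chW d S u v t) (chW1 d S u v t)
      (chR S u) (sixNum d v (chW d S u v t) (chR S u))) :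
    Six.ChartSigns d S u v t := by
  have hgap : P.eL.free.val o S d v < P.eH.free.val o S d v := L.e_low.trans_lt L.e_high
  have htop := L.e_high
  set g := chG d S u v t with hg
  set W := chW d S u v t with hW
  set W1 := chW1 d S u v t with hW1
  set R := chR S u with hR
  set E0 := eSix d v W R with hE0
  set K0 := kSix d W R with hK0
  set p := g * W with hp
  set k := g * K0 with hk
  set w := g * W1 with hw
  set e := chE d S u v t with he'
  have he : e = g * E0 := rfl
  set o' := (e - P.eL.free.val o S d v) / (P.eH.free.val o S d v - P.eL.free.val o S d v) with ho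
  have hgap' : 0 < P.eH.free.val o S d v - P.eL.free.val o S d v := by linarith
  have hm : b.s₀.Mem o' := by
    rw [hb]
    simp only [Side.Mem]
    push_cast
    refine ⟨?_, ?_⟩
    · rw [zero_div]; exact div_nonneg (sub_nonneg.2 L.e_low) hgap'.le
    · rw [div_one, div_lt_one hgap']; linarith
  have cst : ∀ x ∈ P.consts, x.val o' S d v = x.val o S d v := fun x hx =>
    val_noO (List.all_eq_true.1 hc x hx) o' o S d v
  simp only [Piece.consts, Bnd.parts, List.cons_append, List.nil_append, List.forall_mem_cons,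
    List.not_mem_nil, false_imp_iff, implies_true, and_true] at cst
  obtain ⟨-, zL1, zU1, eL1, -, -, -, -, eH1, -, -, -, -, pL1, pL2, -, -, -, pU1, pU2, -, -, -, kU1, kU2,
    kU3, -, -, kL1, kL2, kL3, -, -, wU1, wU2, wU3, -, -, wL1, wL2, wL3, -, -⟩ := cst
  have hB' : Bounds P o' S d v (chZ d S u v t) p e k w :=
    { z_low := by rw [zL1]; exact L.z_low
      z_high := by rw [zU1]; exact L.z_high
      a_nonneg := by linarith only [hdS]
      e_eq := by rw [eL1, eH1, ho, div_mul_cancel₀ _ hgap'.ne']; ring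
      e_neg := by rw [he]; exact mul_neg_of_pos_of_neg L.g_pos L.E_neg
      p_low := by rw [pL1, pL2]; exact L.p_low
      p_high := by rw [pU1, pU2]; exact L.p_high
      k_low := by rw [kL1, kL2, kL3]; exact L.k_low
      k_high := by rw [kU1, kU2, kU3]; exact L.k_high
      w_low := by rw [wL1, wL2, wL3]; exact L.w_low
      w_high := by rw [wU1, wU2, wU3]; exact L.w_high }
  obtain ⟨s1, s2, s3⟩ := core_signsLow C hm h₁ h₂ h₃ hS hS0 hd hD hv hB'
  rw [he] at s2 s3
  have hnum : sixNum d v W R = Low.numZ E0 K0 (chZ d S u v t) := sixNum_eq d v W R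
  refine ⟨?_, ?_, ?_, ?_, ?_⟩
  · rw [hnum, G_scale]; exact s1
  · refine pos_of_mul_pos_right (a := g ^ 2) ?_ (sq_nonneg _)
    rw [hnum, M_scale]
    have h1 : 0 < 1 - 2 * ((S - d) / 2) - d := by linarith
    have h2 : 0 < 1 + d * v := by positivity
    have h3 : g * E0 * (g * W) < 0 :=
      mul_neg_of_neg_of_pos (mul_neg_of_pos_of_neg L.g_pos L.E_neg)
        (mul_pos L.g_pos (by simp only [hW, chW]; have := hF.H_pos; have : 0 < 1 - S := by linarith
                             positivity))
    have := mul_neg_of_pos_of_neg (mul_pos h1 h2) h3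
    linarith only [this]
  · refine pos_of_mul_pos_right (a := g ^ 2) ?_ (sq_nonneg _)
    rw [hnum]
    have e1 : g ^ 2 * ClosedGen.TArrowS ((S - d) / 2) d v g W W1 R
        (Low.numZ E0 K0 (chZ d S u v t)) =
        4 * T6 ((S - d) / 2) d v (chZ d S u v t) (g * E0) p k w *
            -((1 - 2 * ((S - d) / 2) - d) * (1 + d * v) * (g * E0) * p) *
            G6 ((S - d) / 2) d v (chZ d S u v t) p -
          16 * (3 / 20) * (1 + d * v) * X6 ((S - d) / 2) d v (g * E0) p k w ^ 2 *
            G6 ((S - d) / 2) d v (chZ d S u v t) p -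
          d ^ 2 * (1 + d * v) * Y6 ((S - d) / 2) d v (chZ d S u v t) (g * E0) p ^ 2 *
            -((1 - 2 * ((S - d) / 2) - d) * (1 + d * v) * (g * E0) * p) := by
      simp only [ClosedGen.TArrowS]
      rw [T_scale, G_scale, Y_scale, ← hp, ← hk, ← hw, ← X_scale, ← M_scale]
      simp only [Low.numZ]
      ring
    exact e1 ▸ s3
  · rw [hnum, N_scale]; exact s2
  · exact hllg


end Vale.Agent.P100.Calib.Closed.Six.Tail
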