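import Vale.Agent.P100.Calib.SlabLargeBox

/-!
# Positivity on a box where `d` is positive

A box may start at `d = 0`. The packed test is then run with the side of `d` written from its upper
end down to zero, so that only the corner at the upper end has to be strict.
-/

namespace Vale.Agent.P100.Calib.Closed.Six.Tail

open BoxPos Large

/-- What a check may use of `S`, `d` and `v` besides the box. -/
structure Dom (S d v : ℝ) : Prop where
  pos : 0 < d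
  kap : S + S * d * v ≤ 1
  rlt : (S - d) * v ≤ 2
  tri : 4 * S + d ≤ 3

/-- Positive at the points of the box that a check may use. -/
def PosD (b : Box) (e : Ex) : Prop :=
  ∀ o S d v : ℝ, b.s₀.Mem o → b.s₁.Mem S → b.s₂.Mem d → b.s₃.Mem v → Dom S d v →
    0 < e.val o S d v

/-- `1 - S (1 + d v)`. -/
def xKap : Ex := .sub (.cst 1 1) (.add .x₁ (.mul (.mul .x₁ .x₂) .x₃))

/-- `2 - (S - d) v`. -/
def xRlt : Ex := .sub (.cst 2 1) (.mul (.sub .x₁ .x₂) .x₃)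

/-- `3 - 4 S - d`. -/
def xTri : Ex := .sub (.cst 3 1) (.add (.mul (.cst 4 1) .x₁) .x₂)

/-- An expression less nonnegative multiples of the facts of `Dom`. -/
def relax (e : Ex) (k₁ k₂ k₃ : ℕ) (n : ℕ) : Ex :=
  .sub e (.add (.add (.mul (.cst k₁ n) xKap) (.mul (.cst k₂ n) xRlt)) (.mul (.cst k₃ n) xTri))

theorem posD_of_relax {b : Box} {e : Ex} {k₁ k₂ k₃ n : ℕ}
    (h : PosD b (relax e k₁ k₂ k₃ n)) : PosD b e := by
  intro o S d v h₀ h₁ h₂ h₃ hD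
  have k := h o S d v h₀ h₁ h₂ h₃ hD
  simp only [relax, xKap, xRlt, xTri, Ex.val] at k
  push_cast at k
  simp only [div_one] at k
  have n0 : (0 : ℝ) ≤ n := Nat.cast_nonneg _
  have h1 := mul_nonneg (div_nonneg (Nat.cast_nonneg (α := ℝ) k₁) n0) (sub_nonneg.2 hD.kap)
  have h2 := mul_nonneg (div_nonneg (Nat.cast_nonneg (α := ℝ) k₂) n0) (sub_nonneg.2 hD.rlt)
  have h3 := mul_nonneg (div_nonneg (Nat.cast_nonneg (α := ℝ) k₃) n0) (sub_nonneg.2 hD.tri)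
  linarith

theorem posD_of_box {b : Box} {e : Ex} (h : PosBox b e) : PosD b e :=
  fun o S d v h₀ h₁ h₂ h₃ _ => h o S d v h₀ h₁ h₂ h₃

theorem posD_of_check {e : Ex} {c : Cfg} {b : Box} (h : e.checkQuick c b = true) : PosD b e :=
  posD_of_box (posBox_of_check h)

/-- The test with the side of `d` written downwards. -/
theorem posD_of_check0 {e : Ex} {c : Cfg} {s t r : Side} {hi : ℤ} {n : ℕ}
    (h : e.checkQuick c ⟨s, t, ⟨hi, 0, n⟩, r⟩ = true) : PosD ⟨s, t, ⟨0, hi, n⟩, r⟩ e := by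
  intro o S d v h₀ h₁ h₂ h₃ hD
  have hd := hD.pos
  have hc := Ex.check_of_tree (Ex.checkTree_of_quick h)
  simp only [Ex.check, Bool.and_eq_true, decide_eq_true_eq] at hc
  obtain ⟨hok, d₀, d₁, d₂, d₃, ht⟩ := hc
  obtain ⟨t₀, a₀, e₀⟩ := Side.param d₀ h₀
  obtain ⟨t₁, a₁, e₁⟩ := Side.param d₁ h₁
  obtain ⟨t₃, a₃, e₃⟩ := Side.param d₃ h₃
  have hn : (0 : ℝ) < n := by exact_mod_cast d₂
  have hx : d * n < hi := by
    have := h₂.2
    simp only at this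
    rwa [lt_div_iff₀ hn] at this
  have hp : 0 < d * n := mul_pos hd hn
  have a₂ : 0 ≤ (hi : ℝ) / (d * n) - 1 := by
    rw [sub_nonneg, le_div_iff₀ hp]
    linarith
  have e₂ : ((hi : ℤ) : ℝ) + ((0 : ℤ) : ℝ) * ((hi : ℝ) / (d * n) - 1) =
      d * n * (1 + ((hi : ℝ) / (d * n) - 1)) := by
    field_simp
    push_cast
    ring
  refine pos_of_test (good_res (w := ![t₀, t₁, (hi : ℝ) / (d * n) - 1, t₃])
    ⟨s, t, ⟨hi, 0, n⟩, r⟩ d₀ d₁ d₂ d₃ e₀ e₁ e₂ e₃ e hok) ?_ ht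
  intro i
  fin_cases i <;> assumption

theorem posD_join₀ {a m z : ℤ} {n : ℕ} {s t r : Side} {e : Ex}
    (h : PosD ⟨⟨a, m, n⟩, s, t, r⟩ e) (h' : PosD ⟨⟨m, z, n⟩, s, t, r⟩ e) :
    PosD ⟨⟨a, z, n⟩, s, t, r⟩ e := fun o S d v h₀ h₁ h₂ h₃ hd =>
  (Side.mem_or (m := m) h₀).elim (fun k => h o S d v k h₁ h₂ h₃ hd)
    fun k => h' o S d v k h₁ h₂ h₃ hd

theorem posD_join₂ {a m z : ℤ} {n : ℕ} {s t r : Side} {e : Ex}
    (h : PosD ⟨s, t, ⟨a, m, n⟩, r⟩ e) (h' : PosD ⟨s, t, ⟨m, z, n⟩, r⟩ e) :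
    PosD ⟨s, t, ⟨a, z, n⟩, r⟩ e := fun o S d v h₀ h₁ h₂ h₃ hd =>
  (Side.mem_or (m := m) h₂).elim (fun k => h o S d v h₀ h₁ k h₃ hd)
    fun k => h' o S d v h₀ h₁ k h₃ hd

theorem posD_join₃ {a m z : ℤ} {n : ℕ} {s t r : Side} {e : Ex}
    (h : PosD ⟨s, t, r, ⟨a, m, n⟩⟩ e) (h' : PosD ⟨s, t, r, ⟨m, z, n⟩⟩ e) :
    PosD ⟨s, t, r, ⟨a, z, n⟩⟩ e := fun o S d v h₀ h₁ h₂ h₃ hd =>
  (Side.mem_or (m := m) h₃).elim (fun k => h o S d v h₀ h₁ h₂ k hd)
    fun k => h' o S d v h₀ h₁ h₂ k hd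

/-- The same side in other units. -/
def sameSide (s t : Side) : Bool :=
  decide (0 < s.den) && decide (0 < t.den) && decide (s.lo * t.den = t.lo * s.den) &&
    decide (s.hi * t.den = t.hi * s.den)

/-- The same box in other units. -/
def sameBox (b b' : Box) : Bool :=
  sameSide b.s₀ b'.s₀ && sameSide b.s₁ b'.s₁ && sameSide b.s₂ b'.s₂ && sameSide b.s₃ b'.s₃

theorem sameSide_mem {s t : Side} (h : sameSide s t = true) {x : ℝ} (hx : t.Mem x) : s.Mem x := by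
  simp only [sameSide, Bool.and_eq_true, decide_eq_true_eq] at h
  obtain ⟨⟨⟨hs, ht⟩, hl⟩, hh⟩ := h
  have hs' : (0 : ℝ) < s.den := by exact_mod_cast hs
  have ht' : (0 : ℝ) < t.den := by exact_mod_cast ht
  have hl' : (s.lo : ℝ) / s.den = (t.lo : ℝ) / t.den := by
    rw [div_eq_div_iff hs'.ne' ht'.ne']; exact_mod_cast hl
  have hh' : (s.hi : ℝ) / s.den = (t.hi : ℝ) / t.den := by
    rw [div_eq_div_iff hs'.ne' ht'.ne']; exact_mod_cast hh
  exact ⟨hl' ▸ hx.1, hh' ▸ hx.2⟩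

theorem posD_units {b b' : Box} {e : Ex} (h : sameBox b b' = true) (hb : PosD b e) :
    PosD b' e := by
  simp only [sameBox, Bool.and_eq_true] at h
  intro o S d v h₀ h₁ h₂ h₃ hd
  exact hb o S d v (sameSide_mem h.1.1.1 h₀) (sameSide_mem h.1.1.2 h₁) (sameSide_mem h.1.2 h₂)
    (sameSide_mem h.2 h₃) hd

end Vale.Agent.P100.Calib.Closed.Six.Tail
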