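import Vale.Agent.P100.Calib.SlabSixTailPiece
import Vale.Agent.P100.Calib.SlabSixTailAlgebra

/-!
# A piece whose checks hold gives the closed signs
-/

set_option linter.unusedVariables false

namespace Vale.Agent.P100.Calib.Closed.Six.Tail

open BoxPos Large

local instance sixTailSoundAdd : Add Ex := ⟨Ex.add⟩
local instance sixTailSoundSub : Sub Ex := ⟨Ex.sub⟩
local instance sixTailSoundMul : Mul Ex := ⟨Ex.mul⟩

variable {P : Piece} {b : Box}

/-- The value of a bound between the ends of the slope. -/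
theorem bound_pos {F : Ex → Ex → Ex → Ex} {f : ℝ → ℝ → ℝ} {o S d v t : ℝ}
    (hf : ∀ n m : Ex, (F P.xU n m).val o S d v = f (n.val o S d v) (m.val o S d v))
    (haff : ∀ n m, f n m = f 0 1 * m + f 1 0 * n)
    (h : ∀ i, PosD b (P.at i F)) (hm : ∀ i, PosD b (P.hDen i)) (hD : Dom S d v)
    (h₀ : b.s₀.Mem o) (h₁ : b.s₁.Mem S) (h₂ : b.s₂.Mem d) (h₃ : b.s₃.Mem v)
    (hL : (P.tLn P.xU).val o S d v ≤ t * (P.tLd P.xU).val o S d v)
    (hU : t * (P.tUd P.xU).val o S d v ≤ (P.tUn P.xU).val o S d v) : 0 < f t 1 := by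
  have kL := h false o S d v h₀ h₁ h₂ h₃ hD
  have kU := h true o S d v h₀ h₁ h₂ h₃ hD
  simp only [Piece.at, cond_false, cond_true, hf] at kL kU
  rw [haff] at kL kU
  rw [haff, mul_one]
  exact between kL kU (hm false o S d v h₀ h₁ h₂ h₃ hD) (hm true o S d v h₀ h₁ h₂ h₃ hD) hL hU

/-- A concave function is positive between two positive ends. -/
theorem secant_pos {x y c s p₀ p₁ : ℝ} (hx : 0 < x) (hy : 0 < y) (hc : c ≤ 0) (h₀ : 0 ≤ s)
    (h₁ : s ≤ 1) : 0 < mix s x y - s * (1 - s) * (p₁ - p₀) ^ 2 * c := by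
  have k1 : 0 ≤ -(s * (1 - s) * (p₁ - p₀) ^ 2 * c) := by
    have := mul_nonneg (mul_nonneg h₀ (sub_nonneg.2 h₁)) (sq_nonneg (p₁ - p₀))
    nlinarith
  have k2 : min x y ≤ mix s x y := by
    unfold mix
    nlinarith [min_le_left x y, min_le_right x y]
  have := lt_min hx hy
  linarith

/-- A concave arrow: the square of a linear function over `p` is convex. -/
theorem split_pos {Q1 s pl pu p U Ul Uu X Xl Xu : ℝ} (hQ1 : 0 < Q1) (hs0 : 0 ≤ s) (hs1 : s ≤ 1)
    (hl : 0 < pl) (hu : 0 < pu) (hp : p = mix s pl pu) (hU : mix s Ul Uu ≤ U)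
    (hX : X = mix s Xl Xu) (cl : 0 < Q1 * pl * Ul - 4 * Xl * Xl)
    (cu : 0 < Q1 * pu * Uu - 4 * Xu * Xu) : 0 < Q1 * p * U - 4 * X * X := by
  have hp0 : 0 < p := by
    rw [hp]; unfold mix; nlinarith [min_le_left pl pu, min_le_right pl pu, lt_min hl hu]
  set r := X / p with hr
  have e1 : r * p = X := by rw [hr]; field_simp
  have e2 : ∀ {x X' U' : ℝ}, 0 < x → 0 < Q1 * x * U' - 4 * X' * X' →
      0 < Q1 * U' - 8 * r * X' + 4 * r ^ 2 * x := by
    intro x X' U' hx h
    refine pos_of_mul_pos_left (b := x) ?_ hx.le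
    nlinarith [sq_nonneg (X' - r * x)]
  have k := secant_pos (c := 0) (p₀ := pl) (p₁ := pu) (e2 hl cl) (e2 hu cu) le_rfl hs0 hs1
  have k2 : 0 < Q1 * U - 8 * r * X + 4 * r ^ 2 * p := by
    have := mul_le_mul_of_nonneg_left hU hQ1.le
    rw [hX, hp]
    unfold mix at k this ⊢
    linarith
  have k3 := mul_pos hp0 k2
  rw [← e1] at k3 ⊢
  linarith

/-- A value between two positive values. -/
theorem mix_pos {x y r s : ℝ} (hx : 0 < x) (hy : 0 < y) (h₀ : 0 ≤ s) (h₁ : s ≤ 1)
    (h : r = mix s x y) : 0 < r := by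
  have := secant_pos (p₀ := x) (p₁ := y) hx hy (le_refl (0 : ℝ)) h₀ h₁
  rw [h]
  simp only [mix] at this ⊢
  linarith

/-- A point between two bounds is a mixture. -/
theorem exists_mix {x y r : ℝ} (h₁ : x ≤ r) (h₂ : r ≤ y) :
    ∃ s : ℝ, 0 ≤ s ∧ s ≤ 1 ∧ r = mix s x y := by
  rcases eq_or_lt_of_le (h₁.trans h₂) with h | h
  · exact ⟨0, le_rfl, zero_le_one, by unfold mix; linarith⟩
  · refine ⟨(r - x) / (y - x), div_nonneg (by linarith) (by linarith), ?_, ?_⟩
    · rw [div_le_one (by linarith)]; linarith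
    · have hne : y - x ≠ 0 := (sub_pos.2 h).ne'
      unfold mix
      field_simp
      ring

/-- The arrow from its parts. -/
theorem arrow_pos {Q1 Q p E q₁ q₂ c2 M T T₁ X Xl Xu Y G : ℝ} (hQ1 : 0 < Q1) (hQ : 0 < Q)
    (hp : 0 < p) (he : 0 < E) (hG : 0 < G) (hc : 0 ≤ c2) (hT : T₁ ≤ T)
    (hM : Xl ≤ X ∧ X ≤ Xu) (Yp : 0 < 4 * q₁ * G - 1 * c2 * Y)
    (Ym : 0 < 4 * q₂ * G - (-1) * c2 * Y)
    (Lp : 0 < Q1 * p * (E * T₁ - E * 1 * q₁ * Y) - 4 * Xl * Xl)
    (Lm : 0 < Q1 * p * (E * T₁ - E * (-1) * q₂ * Y) - 4 * Xl * Xl)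
    (high : Xu < 0 ∨ (0 < Q1 * p * (E * T₁ - E * 1 * q₁ * Y) - 4 * Xu * Xu ∧
      0 < Q1 * p * (E * T₁ - E * (-1) * q₂ * Y) - 4 * Xu * Xu)) (hMe : M = Q1 * Q * p * E) :
    0 < 4 * T * M * G - 16 * Q * X ^ 2 * G - c2 * Y ^ 2 * M := by
  obtain ⟨r₁, r₂⟩ : 0 < Q1 * p * (E * (T - q₁ * Y)) - 4 * X ^ 2 ∧
      0 < Q1 * p * (E * (T + q₂ * Y)) - 4 * X ^ 2 := by
    have hQp := mul_pos hQ1 hp
    have hTT := mul_le_mul_of_nonneg_left (mul_le_mul_of_nonneg_left hT he.le) hQp.le
    rcases le_or_gt X 0 with h | h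
    · have : X ^ 2 ≤ Xl ^ 2 := by nlinarith [hM.1]
      constructor <;> nlinarith
    · rcases high with h' | ⟨h1, h2⟩
      · linarith [hM.2]
      · have : X ^ 2 ≤ Xu ^ 2 := by nlinarith [hM.2]
        constructor <;> nlinarith
  have hMp : 0 < M := by rw [hMe]; positivity
  rcases le_or_gt 0 Y with hY | hY
  · have k := mul_pos (mul_pos hQ hG) r₁
    have h2 := mul_nonneg (mul_nonneg hY hMp.le) Yp.le
    rw [hMe] at h2 ⊢
    nlinarith [h2, k]
  · have k := mul_pos (mul_pos hQ hG) r₂
    have h2 := mul_nonneg (mul_nonneg (neg_nonneg.2 hY.le) hMp.le) Ym.le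
    rw [hMe] at h2 ⊢
    nlinarith [h2, k]

/-- A square below a product from two linear conditions. -/
theorem endpoint_pos {Q U Y k : ℝ} (hQ : 0 ≤ Q) (h1 : 0 < k * Q + 4 * Y) (h2 : 0 < k * Q - 4 * Y)
    (h3 : 0 < U + k * Y) (h4 : 0 < U - k * Y) : 0 < Q * U - 4 * Y * Y := by
  have hkQ : 0 < k * Q := by linarith
  have hk : 0 < k := pos_of_mul_pos_left hkQ hQ
  refine pos_of_mul_pos_right (a := k) ?_ hk.le
  rcases le_total 0 Y with hY | hY
  · nlinarith [mul_nonneg hY h2.le, mul_pos hkQ h4]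
  · nlinarith [mul_nonneg (neg_nonneg.2 hY) h1.le, mul_pos hkQ h3]

/-- The signs at the level of `p = g W`, `e = g E`, `k = g K`, `w = g W1`. -/
structure Bounds (P : Piece) (o S d v z p e k w : ℝ) : Prop where
  z_low : P.zL.val o S d v ≤ z
  z_high : z ≤ P.zU.val o S d v
  e_eq : P.eL.free.val o S d v + o * (P.eH.free.val o S d v - P.eL.free.val o S d v) = e
  a_nonneg : 0 ≤ (S - d) / 2
  e_neg : e < 0
  p_low : P.pL.free.val o S d v + P.pL.slope.val o S d v * e ≤ p
  p_high : p ≤ P.pU.free.val o S d v + P.pU.slope.val o S d v * e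
  k_low : P.kL.free.val o S d v + P.kL.slope.val o S d v * e + P.kL.slopeP.val o S d v * p ≤ k
  k_high : k ≤ P.kU.free.val o S d v + P.kU.slope.val o S d v * e + P.kU.slopeP.val o S d v * p
  w_low : P.wL.free.val o S d v + P.wL.slope.val o S d v * e + P.wL.slopeP.val o S d v * p ≤ w
  w_high : w ≤ P.wU.free.val o S d v + P.wU.slope.val o S d v * e + P.wU.slopeP.val o S d v * p

set_option maxHeartbeats 800000 in
/-- **The signs of a piece** at `g = 1`. -/
theorem core_signs (C : P.Sign b) {o S d v z p e k w : ℝ} (h₀ : b.s₀.Mem o) (h₁ : b.s₁.Mem S)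
    (h₂ : b.s₂.Mem d) (h₃ : b.s₃.Mem v) (hS : S < 1) (hS0 : 0 < S) (hd : 0 < d) (hD : Dom S d v) (hv : 0 < v)
    (B : Bounds P o S d v z p e k w) :
    let a := (S - d) / 2
    let M := -((1 - 2 * a - d) * (1 + d * v) * e * p)
    let T := T6 a d v z e p k w
    let G := G6 a d v z p
    let X := X6 a d v e p k w
    let Y := Y6 a d v z e p
    0 < G ∧ 0 ≤ N6 a d v z e p k w ∧
      0 < 4 * T * M * G - 16 * (3 / 20) * (1 + d * v) * X ^ 2 * G -
        d ^ 2 * (1 + d * v) * Y ^ 2 * M := by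
  intro a M T G X Y
  have ev : ∀ {f : Ex}, PosD b f → 0 < f.val o S d v := fun h => h o S d v h₀ h₁ h₂ h₃ hD
  have hA : xA.val o S d v = a := val_xA o S d v
  have ha0 : 0 ≤ a := B.a_nonneg
  have hE : P.xE.val o S d v = e := B.e_eq
  set pl := P.pL.free.val o S d v + P.pL.slope.val o S d v * e with hpl
  set pu := P.pU.free.val o S d v + P.pU.slope.val o S d v * e with hpu
  obtain ⟨s, hs0, hs1, hp⟩ : ∃ s : ℝ, 0 ≤ s ∧ s ≤ 1 ∧ p = mix s pl pu := by
    rcases eq_or_lt_of_le (B.p_low.trans B.p_high) with h | h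
    · exact ⟨0, le_rfl, zero_le_one, by unfold mix; linarith [B.p_low, B.p_high]⟩
    · refine ⟨(p - pl) / (pu - pl), div_nonneg (sub_nonneg.2 B.p_low) (by linarith), ?_, ?_⟩
      · rw [div_le_one (by linarith)]; linarith [B.p_high]
      · unfold mix
        have hne : pu - pl ≠ 0 := (sub_pos.2 h).ne'
        field_simp
        ring
  let lk := fun x => P.kL.free.val o S d v + P.kL.slope.val o S d v * e + P.kL.slopeP.val o S d v * x
  let uk := fun x => P.kU.free.val o S d v + P.kU.slope.val o S d v * e + P.kU.slopeP.val o S d v * x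
  let lw := fun x => P.wL.free.val o S d v + P.wL.slope.val o S d v * e + P.wL.slopeP.val o S d v * x
  let uw := fun x => P.wU.free.val o S d v + P.wU.slope.val o S d v * e + P.wU.slopeP.val o S d v * x
  have mlk : lk p = mix s (lk pl) (lk pu) := by rw [hp]; simp only [lk, mix]; ring
  have muk : uk p = mix s (uk pl) (uk pu) := by rw [hp]; simp only [uk, mix]; ring
  have mlw : lw p = mix s (lw pl) (lw pu) := by rw [hp]; simp only [lw, mix]; ring
  have muw : uw p = mix s (uw pl) (uw pu) := by rw [hp]; simp only [uw, mix]; ring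
  have kG2 : two (fun x => G6 a d v 0 x) ≤ 0 := by
    have := Low.val_eTGG2 xA xD xV o S d v e 0 0 0
    have k := ev C.vG
    simp only [hVG, ex_mul, Ex.val] at k
    simp only [hA, Ex.val] at this
    simp only [two, G6_eq (W1 := 0) (R := 0) (E := e) (K := 0)]
    push_cast at k
    linarith
  have kMG2 : two (fun x => N6 a d v 0 e x 0 0) ≤ 0 := by
    have := Low.val_eTMG2 xA xD xV o S d v e 0 0 0
    have k := ev C.vMG
    simp only [hVMG, ex_mul, Ex.val] at k
    simp only [hA, Ex.val] at this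
    simp only [two, N6_eq (R := 0)]
    push_cast at k
    linarith
  have dAk : T6 a d v z e p 1 0 - T6 a d v z e p 0 0 ≤ 0 := by
    have := Low.val_eTAk xA xD xV o S d v p e 0 z
    have k := ev C.ak
    simp only [hAk, ex_mul, Ex.val] at k
    simp only [hA, Ex.val] at this
    simp only [T6_eq (R := 0)]
    push_cast at k
    linarith
  have dAw : T6 a d v z e p 0 1 - T6 a d v z e p 0 0 ≤ 0 := by
    have := Low.val_eTAw xA xD xV o S d v p e 0 z
    have k := ev C.aw
    simp only [hAw, ex_mul, Ex.val] at k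
    simp only [hA, Ex.val] at this
    simp only [T6_eq (R := 0)]
    push_cast at k
    linarith
  have dGk : N6 a d v z e p 1 0 - N6 a d v z e p 0 0 ≤ 0 := by
    have := Low.val_eTMGk xA xD xV o S d v p e 0 z
    have k := ev C.gk
    simp only [hGk, ex_mul, Ex.val] at k
    simp only [hA, Ex.val] at this
    simp only [N6_eq (R := 0)]
    push_cast at k
    linarith
  have dGw : 0 ≤ N6 a d v z e p 0 1 - N6 a d v z e p 0 0 := by
    have := Low.val_eTMGw xA xD xV o S d v p e 0 z
    have k := ev C.gw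
    simp only [hGw] at k
    simp only [hA, Ex.val] at this
    simp only [N6_eq (R := 0)]
    linarith
  have dMk : 0 ≤ X6 a d v e p 1 0 - X6 a d v e p 0 0 := by
    have := Low.val_eTMEk xA xD xV o S d v p e 0 0
    have k := ev C.ek
    simp only [hMk] at k
    simp only [hA, Ex.val] at this
    simp only [X6_eq (z := 0) (R := 0)]
    linarith
  have dMw : 0 ≤ X6 a d v e p 0 1 - X6 a d v e p 0 0 := by
    have := Low.val_eTMEw xA xD xV o S d v p e 0 0
    have k := ev C.ew
    simp only [hMw] at k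
    simp only [hA, Ex.val] at this
    simp only [X6_eq (z := 0) (R := 0)]
    linarith
  obtain ⟨zl, hzl⟩ : ∃ x, x = P.zL.val o S d v := ⟨_, rfl⟩
  obtain ⟨zu, hzu⟩ : ∃ x, x = P.zU.val o S d v := ⟨_, rfl⟩
  obtain ⟨sz, hz0, hz1, hz⟩ : ∃ sz : ℝ, 0 ≤ sz ∧ sz ≤ 1 ∧ z = mix sz zl zu :=
    exists_mix (hzl ▸ B.z_low) (hzu ▸ B.z_high)
  have hb1 : 0 < 1 + d * v := by positivity
  have kGz : two (fun x => G6 a d v x p) ≤ 0 := by
    rw [G_zz, neg_nonpos]
    have : 0 < a + d := by simp only [a]; linarith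
    have : 0 ≤ Closed.j1 a d := by simp only [Closed.j1, a]; linarith
    have : 0 ≤ a := B.a_nonneg
    positivity
  have k0 : 0 ≤ k - lk p := sub_nonneg.2 B.k_low
  have k1 : k - uk p ≤ 0 := sub_nonpos.2 B.k_high
  have w0 : 0 ≤ w - lw p := sub_nonneg.2 B.w_low
  have w1 : w - uw p ≤ 0 := sub_nonpos.2 B.w_high
  have hT : T6 a d v z e p (uk p) (uw p) ≤ T := by
    simp only [T]
    rw [T_affine (k₀ := uk p) (w₀ := uw p) (k := k) (w := w)]
    linarith only [mul_nonneg_of_nonpos_of_nonpos k1 dAk, mul_nonneg_of_nonpos_of_nonpos w1 dAw]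
  have hM : X6 a d v e p (lk p) (lw p) ≤ X ∧ X ≤ X6 a d v e p (uk p) (uw p) := by
    simp only [X]
    constructor
    · rw [X_affine (k₀ := lk p) (w₀ := lw p) (k := k) (w := w)]
      linarith only [mul_nonneg k0 dMk, mul_nonneg w0 dMw]
    · rw [X_affine (k₀ := uk p) (w₀ := uw p) (k := k) (w := w)]
      linarith only [mul_nonpos_of_nonpos_of_nonneg k1 dMk, mul_nonpos_of_nonpos_of_nonneg w1 dMw]
  have hTMG : N6 a d v z e p (uk p) (lw p) ≤ N6 a d v z e p k w := by
    rw [N_affine (k₀ := uk p) (w₀ := lw p) (k := k) (w := w)]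
    linarith only [mul_nonneg_of_nonpos_of_nonpos k1 dGk, mul_nonneg w0 dGw]
  have hend : ∀ i, (P.pEnd i).val o S d v = cond i pu pl := by
    intro i
    cases i
    · simp only [Piece.pEnd, cond_false, Piece.xPL, ex_add, ex_mul, Ex.val, hE, hpl]
    · simp only [Piece.pEnd, cond_true, Piece.xPU, ex_add, ex_mul, Ex.val, hE, hpu]
  set c2 := d * d * (1 + d * v) with hc2
  set Q1 := (1 - 2 * a - d) * (20 / 3) with hQ1
  set q1 := (P.k2p P.xE).val o S d v with hq1
  set q2 := (P.k2m P.xE).val o S d v with hq2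
  have hzend : ∀ j, (P.zEnd j).val o S d v = cond j zu zl := fun j => by
    cases j <;> simp [Piece.zEnd, hzu, hzl]
  have vM : ∀ x : Ex, (P.xM x).val o S d v = X6 a d v e (x.val o S d v) (lk (x.val o S d v))
      (lw (x.val o S d v)) := by
    intro x
    simp only [Piece.xM, Low.val_eTME (z := (0 : ℝ)), X6_eq (z := 0) (R := 0), hA, hE, Ex.val, Bnd.ex, ex_add, ex_mul, lk, lw]
  have vM' : ∀ x : Ex, (P.xM' x).val o S d v = X6 a d v e (x.val o S d v) (uk (x.val o S d v))
      (uw (x.val o S d v)) := by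
    intro x
    simp only [Piece.xM', Low.val_eTME (z := (0 : ℝ)), X6_eq (z := 0) (R := 0), hA, hE, Ex.val, Bnd.ex, ex_add, ex_mul, uk, uw]
  have vT : ∀ (j : Bool) (x : Ex), (P.xT j x).val o S d v =
      T6 a d v (cond j zu zl) e (x.val o S d v) (uk (x.val o S d v)) (uw (x.val o S d v)) := by
    intro j x
    simp only [Piece.xT, Low.val_eTA, T6_eq (R := 0), hA, hE, hzend, Ex.val, Bnd.ex, ex_add, ex_mul, uk, uw]
  have vG : ∀ (j : Bool) (x : Ex), (Low.eTGG xA xD xV x (P.zEnd j)).val o S d v =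
      G6 a d v (cond j zu zl) (x.val o S d v) := by
    intro j x
    rw [Low.val_eTGG xA xD xV x (P.zEnd j) o S d v 0 0 0, hA, hzend, G6_eq (W1 := 0) (R := 0) (E := 0) (K := 0)]; rfl
  have vY : ∀ (j : Bool) (x : Ex), (Low.eTEG xA xD xV x P.xE (P.zEnd j)).val o S d v =
      Y6 a d v (cond j zu zl) e (x.val o S d v) := by
    intro j x
    rw [Low.val_eTEG xA xD xV x P.xE (P.zEnd j) o S d v 0 0, hA, hE, hzend, Y6_eq (W1 := 0) (R := 0) (K := 0)]; rfl
  -- a concave function of `z` at the point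
  have zmix : ∀ {x y c : ℝ}, 0 < x → 0 < y → c ≤ 0 →
      0 < mix sz x y - sz * (1 - sz) * (zu - zl) ^ 2 * c := fun hx hy hc =>
    secant_pos hx hy hc hz0 hz1
  have eG : ∀ i, 0 < G6 a d v z (cond i pu pl) := fun i => by
    have k1 := ev (C.tg i false)
    have k2 := ev (C.tg i true)
    simp only [Piece.hG, vG, hend, cond_false, cond_true] at k1 k2
    have k3 : two (fun x => G6 a d v x (cond i pu pl)) ≤ 0 := by
      rw [G_zz]; rw [G_zz] at kGz; exact kGz
    rw [hz, G_z]
    exact zmix k1 k2 k3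
  have hGpos : 0 < G := by
    simp only [G]; rw [hp, G_secant]
    exact secant_pos (eG false) (eG true) kG2 hs0 hs1
  have hc : 0 ≤ c2 := by
    have : 0 < 1 + d * v := by positivity
    positivity
  have hY2 : ∀ (q σ : ℝ), 0 ≤ q →
      (∀ i j, 0 < 4 * q * G6 a d v (cond j zu zl) (cond i pu pl) -
        σ * c2 * Y6 a d v (cond j zu zl) e (cond i pu pl)) →
      4 * q * (two fun x => G6 a d v 0 x) - σ * c2 * (two fun x => Y6 a d v 0 e x) ≤ 0 →
      0 < 4 * q * G - σ * c2 * Y := by
    intro q σ hq h h2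
    have hi : ∀ i, 0 < 4 * q * G6 a d v z (cond i pu pl) - σ * c2 * Y6 a d v z e (cond i pu pl) := by
      intro i
      rw [hz, G_z, Y_z]
      have k3 : 4 * q * (two fun x => G6 a d v x (cond i pu pl)) ≤ 0 := by
        rw [G_zz]; rw [G_zz] at kGz
        exact mul_nonpos_of_nonneg_of_nonpos (by linarith) kGz
      have := zmix (h i false) (h i true) k3
      simp only [cond_false, cond_true, mix] at this ⊢
      linarith only [this]
    simp only [G, Y]; rw [hp, G_secant, Y_secant]
    have := secant_pos (p₀ := pl) (p₁ := pu) (hi false) (hi true) h2 hs0 hs1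
    simp only [cond_false, cond_true, mix] at this ⊢
    linarith only [this]
  have tG2 : (Low.eTGG2 xA xD xV).val o S d v = two (fun x => G6 a d v 0 x) := by
    have := Low.val_eTGG2 xA xD xV o S d v e 0 0 0
    simp only [hA, Ex.val] at this
    simp only [two, G6_eq (W1 := 0) (R := 0) (E := e) (K := 0)]
    linarith only [this]
  have tY2 : (Low.eTEG2 xA xD xV).val o S d v = two (fun x => Y6 a d v 0 e x) := by
    have := Low.val_eTEG2 xA xD xV o S d v e 0 0 0
    simp only [hA, Ex.val] at this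
    simp only [two, Y6_eq (W1 := 0) (R := 0) (K := 0)]
    linarith only [this]
  have tA2 : (Low.eTA2 xA xD xV).val o S d v = two (fun x => T6 a d v 0 e x 0 0) := by
    have := Low.val_eTA2 xA xD xV o S d v e 0 0 0
    simp only [hA, Ex.val] at this
    simp only [two, T6_eq (R := 0)]
    linarith only [this]
  have Yp : 0 < 4 * q1 * G - 1 * c2 * Y := hY2 q1 1 (ev C.k2p).le (fun i j => by
      have := ev (C.c2p i j)
      simp only [Piece.hC2p, ex_mul, ex_sub, ex_add, Ex.val, vG, vY, hend] at this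
      push_cast at this
      simp only [hc2, hq1]
      linarith only [this]) (by
      have := ev C.v2p
      simp only [Piece.hV2p, ex_mul, ex_sub, ex_add, Ex.val, tG2, tY2] at this
      push_cast at this
      simp only [hc2, hq1]
      linarith only [this])
  have Ym : 0 < 4 * q2 * G - (-1) * c2 * Y := hY2 q2 (-1) (ev C.k2m).le (fun i j => by
      have := ev (C.c2m i j)
      simp only [Piece.hC2m, ex_mul, ex_sub, ex_add, Ex.val, vG, vY, hend] at this
      push_cast at this
      simp only [hc2, hq2]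
      linarith only [this]) (by
      have := ev C.v2m
      simp only [Piece.hV2m, ex_mul, ex_sub, ex_add, Ex.val, tG2, tY2] at this
      push_cast at this
      simp only [hc2, hq2]
      linarith only [this])
  have he : 0 < -e := neg_pos.2 B.e_neg
  have hlu : 0 < pl ∧ 0 < pu := by
    have h := ev C.pp
    simp only [Piece.xPL, ex_add, ex_mul, Ex.val, hE, ← hpl] at h
    exact ⟨h, h.trans_le (B.p_low.trans B.p_high)⟩
  have hQ : 0 < Q1 := by simp only [hQ1, a]; linarith
  -- the arrow at one pair of values of `g TME` and one sign of `TEG`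
  have split : ∀ (σ q : ℝ) (Z : Bool → ℝ),
      (∀ i, 0 < Q1 * cond i pu pl *
        (-e * T6 a d v z e (cond i pu pl)
    (uk (cond i pu pl)) (uw (cond i pu pl)) -
          -e * σ * q * Y6 a d v z e (cond i pu pl)) - 4 * Z i * Z i) →
      two (fun x => T6 a d v 0 e x 0 0) - σ * q * two (fun x => Y6 a d v 0 e x) ≤ 0 →
      0 < Q1 * p * (-e * T6 a d v z e p (uk p) (uw p) - -e * σ * q * Y) -
        4 * mix s (Z false) (Z true) * mix s (Z false) (Z true) := by
    intro σ q Z h h2
    refine split_pos (Ul := -e * T6 a d v z e pl (uk pl) (uw pl) -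
        -e * σ * q * Y6 a d v z e pl)
      (Uu := -e * T6 a d v z e pu (uk pu) (uw pu) - -e * σ * q * Y6 a d v z e pu)
      (Xl := Z false) (Xu := Z true)
      hQ hs0 hs1 hlu.1 hlu.2 hp ?_ rfl (h false) (h true)
    have := mul_nonneg (mul_nonneg hs0 (sub_nonneg.2 hs1)) (sq_nonneg (pu - pl))
    have h3 := mul_nonpos_of_nonneg_of_nonpos this (mul_nonpos_of_nonneg_of_nonpos he.le h2)
    simp only [Y]
    rw [muk, muw]
    conv_rhs => rw [hp, T_secant, Y_secant]
    simp only [mix] at h3 ⊢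
    linarith only [h3]
  have V3p : two (fun x => T6 a d v 0 e x 0 0) - 1 * q1 * two (fun x => Y6 a d v 0 e x) ≤ 0 := by
    have := ev C.v3p
    simp only [Piece.hV3p, ex_mul, ex_sub, Ex.val, tA2, tY2] at this
    linarith only [this]
  have V3m : two (fun x => T6 a d v 0 e x 0 0) - (-1) * q2 * two (fun x => Y6 a d v 0 e x) ≤ 0 := by
    have := ev C.v3m
    simp only [Piece.hV3m, ex_mul, ex_add, Ex.val, tA2, tY2] at this
    push_cast at this
    linarith only [this]
  let U : ℝ → ℝ → Bool → ℝ := fun σ q i => T6 a d v z e (cond i pu pl)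
    (uk (cond i pu pl)) (uw (cond i pu pl)) - σ * q * Y6 a d v z e (cond i pu pl)
  let Yl : Bool → ℝ := fun i =>
    X6 a d v e (cond i pu pl) (lk (cond i pu pl)) (lw (cond i pu pl))
  let Yu : Bool → ℝ := fun i =>
    X6 a d v e (cond i pu pl) (uk (cond i pu pl)) (uw (cond i pu pl))
  let Zl : Bool → ℝ := fun i => min (Yl i) 0
  let Zu : Bool → ℝ := fun i => max (Yu i) 0
  have hQe : ∀ i, 0 < Q1 * cond i pu pl * -e := fun i => by
    cases i
    · exact mul_pos (mul_pos hQ hlu.1) he
    · exact mul_pos (mul_pos hQ hlu.2) he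
  obtain ⟨ka, hka⟩ : ∃ ka : Bool → ℝ, ka = fun i => (P.kap i).val o S d v := ⟨_, rfl⟩
  have hk : ∀ i, 0 < ka i := fun i => by simp only [hka]; exact ev (C.kap i)
  have c1 : ∀ i, 0 < ka i * (Q1 * cond i pu pl * -e) + 4 * Yl i := fun i => by
    have := ev (C.c1 i)
    simp only [Piece.hC1, ex_mul, ex_add, ex_sub, Ex.val, vM, hE, hA, hend] at this
    push_cast at this
    simp only [Yl, hQ1, hka]
    linarith only [this]
  have c3p : ∀ i, 0 < U 1 q1 i + ka i * Yl i := fun i => by
    have k1 := ev (C.c3p i false)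
    have k2 := ev (C.c3p i true)
    simp only [Piece.hC3p, ex_mul, ex_add, ex_sub, Ex.val, vM, vT, vY, hE, hA, hend, cond_false,
      cond_true] at k1 k2
    simp only [U, Yl, hq1, hka]
    rw [hz, T_z, Y_z]
    refine mix_pos k1 k2 hz0 hz1 ?_
    simp only [mix]; ring
  have c3m : ∀ i, 0 < U (-1) q2 i + ka i * Yl i := fun i => by
    have k1 := ev (C.c3m i false)
    have k2 := ev (C.c3m i true)
    simp only [Piece.hC3m, ex_mul, ex_add, ex_sub, Ex.val, vM, vT, vY, hE, hA, hend, cond_false,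
      cond_true] at k1 k2
    simp only [U, Yl, hq2, hka]
    rw [hz, T_z, Y_z]
    refine mix_pos k1 k2 hz0 hz1 ?_
    simp only [mix]; ring
  have hU0 : ∀ i, 0 < U 1 q1 i ∧ 0 < U (-1) q2 i := fun i => by
    rcases C.high with h | h
    · have hy := ev (h i).2
      simp only [Piece.hNegLo, ex_mul, Ex.val, vM, hend] at hy
      push_cast at hy
      have hy' : Yl i < 0 := by simp only [Yl]; linarith only [hy]
      have := mul_neg_of_pos_of_neg (hk i) hy'
      exact ⟨by linarith [c3p i], by linarith [c3m i]⟩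
    · obtain ⟨-, h'⟩ := h i
      obtain ⟨-, -, f4, f5⟩ := h' false
      obtain ⟨-, -, t4, t5⟩ := h' true
      have k4 := ev f4
      have k5 := ev f5
      have l4 := ev t4
      have l5 := ev t5
      simp only [Piece.hUp, Piece.hUm, ex_mul, ex_add, ex_sub, Ex.val, vT, vY, hE, hA, hend,
        cond_false, cond_true] at k4 k5 l4 l5
      simp only [U, hq1, hq2]
      rw [hz, T_z, Y_z]
      exact ⟨mix_pos k4 l4 hz0 hz1 (by simp only [mix]; ring),
        mix_pos k5 l5 hz0 hz1 (by simp only [mix]; ring)⟩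
  have low : ∀ i σ q, 0 < U σ q i → 0 < U σ q i + ka i * Yl i →
      0 < Q1 * cond i pu pl * (-e * T6 a d v z e (cond i pu pl)
    (uk (cond i pu pl)) (uw (cond i pu pl)) - -e * σ * q * Y6 a d v z e (cond i pu pl)) -
        4 * Zl i * Zl i := by
    intro i σ q h0 h1
    have hQp := mul_pos (hk i) (hQe i)
    have hz : Zl i ≤ 0 := min_le_right _ _
    have hz' : ka i * Zl i ≤ 0 := mul_nonpos_of_nonneg_of_nonpos (hk i).le hz
    have := endpoint_pos (k := ka i) (Y := Zl i) (U := U σ q i) (hQe i).le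
      (by rcases min_choice (Yl i) 0 with e' | e' <;> simp only [Zl, e'] <;> linarith [c1 i])
      (by linarith)
      (by rcases min_choice (Yl i) 0 with e' | e' <;> simp only [Zl, e'] <;> linarith)
      (by linarith)
    simp only [U] at this
    linarith only [this]
  have Lp := split 1 q1 Zl (fun i => low i 1 q1 (hU0 i).1 (c3p i)) V3p
  have Lm := split (-1) q2 Zl (fun i => low i (-1) q2 (hU0 i).2 (c3m i)) V3m
  have hM1 : mix s (Zl false) (Zl true) ≤ X := by
    refine le_trans ?_ hM.1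
    conv_rhs => rw [mlw, mlk, hp, X_secant]
    exact add_le_add (mul_le_mul_of_nonneg_left (min_le_left _ _) (sub_nonneg.2 hs1))
      (mul_le_mul_of_nonneg_left (min_le_left _ _) hs0)
  have hM2 : X ≤ mix s (Yu false) (Yu true) := by
    refine hM.2.trans (le_of_eq ?_)
    conv_lhs => rw [muw, muk, hp, X_secant]
    rfl
  have fin : ∃ Xu, X ≤ Xu ∧ (Xu < 0 ∨
      (0 < Q1 * p * (-e * T6 a d v z e p (uk p) (uw p) - -e * 1 * q1 * Y) - 4 * Xu * Xu ∧
        0 < Q1 * p * (-e * T6 a d v z e p (uk p) (uw p) - -e * (-1) * q2 * Y) -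
          4 * Xu * Xu)) := by
    rcases C.high with h | h
    · refine ⟨_, hM2, .inl ?_⟩
      have h' : ∀ i, 0 < -Yu i := fun i => by
        have := ev (h i).1
        simp only [Piece.hNeg, ex_mul, Ex.val, vM', hend] at this
        push_cast at this
        simp only [Yu]
        linarith only [this]
      have hh := secant_pos (p₀ := pl) (p₁ := pu) (h' false) (h' true) (le_refl (0 : ℝ)) hs0 hs1
      simp only [mix] at hh ⊢
      linarith only [hh]
    · refine ⟨mix s (Zu false) (Zu true), hM2.trans (add_le_add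
        (mul_le_mul_of_nonneg_left (le_max_left _ _) (sub_nonneg.2 hs1))
        (mul_le_mul_of_nonneg_left (le_max_left _ _) hs0)), .inr ?_⟩
      have up : ∀ i σ q, 0 < U σ q i → 0 < U σ q i - ka i * Yu i →
          0 < Q1 * cond i pu pl * (-e * T6 a d v z e (cond i pu pl)
    (uk (cond i pu pl)) (uw (cond i pu pl)) - -e * σ * q * Y6 a d v z e (cond i pu pl)) -
            4 * Zu i * Zu i := by
        intro i σ q h0 h1
        have k1 := ev (h i).1
        simp only [Piece.hC1', ex_mul, ex_add, ex_sub, Ex.val, vM', hE, hA, hend] at k1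
        push_cast at k1
        have k1' : 0 < ka i * (Q1 * cond i pu pl * -e) - 4 * Yu i := by
          simp only [Yu, hQ1, hka]; linarith only [k1]
        have hQp := mul_pos (hk i) (hQe i)
        have hz : 0 ≤ Zu i := le_max_right _ _
        have hz' : 0 ≤ ka i * Zu i := mul_nonneg (hk i).le hz
        have := endpoint_pos (k := ka i) (Y := Zu i) (U := U σ q i) (hQe i).le
          (by linarith)
          (by rcases max_choice (Yu i) 0 with e' | e' <;> simp only [Zu, e'] <;> linarith)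
          (by linarith)
          (by rcases max_choice (Yu i) 0 with e' | e' <;> simp only [Zu, e'] <;> linarith)
        simp only [U] at this
        linarith only [this]
      refine ⟨split 1 q1 Zu (fun i => up i 1 q1 (hU0 i).1 ?_) V3p,
        split (-1) q2 Zu (fun i => up i (-1) q2 (hU0 i).2 ?_) V3m⟩
      · have k1 := ev ((h i).2 false).1
        have k2 := ev ((h i).2 true).1
        simp only [Piece.hC3p', ex_mul, ex_add, ex_sub, Ex.val, vM', vT, vY, hE, hA, hend,
          cond_false, cond_true] at k1 k2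
        simp only [U, Yu, hq1, hka]
        rw [hz, T_z, Y_z]
        refine mix_pos k1 k2 hz0 hz1 ?_
        simp only [mix]; ring
      · have k1 := ev ((h i).2 false).2.1
        have k2 := ev ((h i).2 true).2.1
        simp only [Piece.hC3m', ex_mul, ex_add, ex_sub, Ex.val, vM', vT, vY, hE, hA, hend,
          cond_false, cond_true] at k1 k2
        simp only [U, Yu, hq2, hka]
        rw [hz, T_z, Y_z]
        refine mix_pos k1 k2 hz0 hz1 ?_
        simp only [mix]; ring
  obtain ⟨Xu, hXu, high⟩ := fin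
  refine ⟨hGpos, ?_, ?_⟩
  · have h : ∀ i, 0 < N6 a d v z e (cond i pu pl) (uk (cond i pu pl)) (lw (cond i pu pl)) :=
      fun i => by
        have k1 := ev (C.tmg i false)
        have k2 := ev (C.tmg i true)
        simp only [Piece.hTMG, Low.val_eTMG, hA, hE, hzend, Ex.val, Bnd.ex, ex_add, ex_mul, hend,
          cond_false, cond_true] at k1 k2
        rw [hz, N_z]
        exact mix_pos k1 k2 hz0 hz1 (by simp only [N6_eq (R := 0), uk, lw])
    have hh : 0 < N6 a d v z e p (uk p) (lw p) := by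
      rw [mlw, muk]; conv_rhs => rw [hp, N_secant]
      exact secant_pos (h false) (h true) kMG2 hs0 hs1
    exact (hh.trans_le hTMG).le
  · have := arrow_pos (Q := 1 + d * v) hQ (by positivity) (hlu.1.trans_le B.p_low) he hGpos hc
      hT ⟨hM1, hXu⟩ Yp Ym Lp Lm high (M := M * (20 / 3)) (by simp only [M, hQ1]; ring)
    simp only [hc2] at this
    linarith only [this]

end Vale.Agent.P100.Calib.Closed.Six.Tail
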