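import Vale.Agent.P100.Calib.SlabSixTopChecksA

/-!
# Signs for the last strip and the threshold, dimension six
-/

namespace Vale.Agent.P100.Calib.Band

open BoxPos

theorem six_top_node_3 {e v ρ S' : ℝ}
    (hx0 : 0 / 100000 ≤ e) (hx1 : e < 222 / 100000) (hy0 : 2900 / 10000 ≤ v) (hy1 : v < 20200 / 10000)
    (hz0 : 0 / 10000 ≤ ρ) (hz1 : ρ < 25001 / 10000) (hA : (2 / 3 - ρ * e) * v < 2) (h5 : ρ * e ≤ 1 / 16)
    (hS : SixSide (ρ * e) S') : ∃ i j : ℕ, 0 < (sixLayCond i j).val e v ρ S' := by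
  have hd := ((mul_le_mul (show ρ ≤ (25001 / 10000 : ℝ) by linarith) (show e ≤ (222 / 100000 : ℝ) by linarith) (by linarith) (by norm_num)).trans
      (show (25001 / 10000 : ℝ) * (222 / 100000) ≤ (2775111 / 500000000 : ℝ) by norm_num))
  exact ⟨0, 219, Ex.pos_of_checkQuick six_top_0 (lowMem 100000 (by push_cast; linarith) hx1) (lowMem 10000 hy0 hy1)
    (lowMem 10000 (by push_cast; linarith) hz1) (hS.mem_quad (s := 666675) hd (by norm_num))⟩

theorem six_top_node_5 {e v ρ S' : ℝ}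
    (hx0 : 222 / 100000 ≤ e) (hx1 : e < 2501 / 100000) (hy0 : 2900 / 10000 ≤ v) (hy1 : v < 20200 / 10000)
    (hz0 : 0 / 10000 ≤ ρ) (hz1 : ρ < 12500 / 10000) (hA : (2 / 3 - ρ * e) * v < 2) (h5 : ρ * e ≤ 1 / 16)
    (hS : SixSide (ρ * e) S') : ∃ i j : ℕ, 0 < (sixLayCond i j).val e v ρ S' := by
  have hd := ((mul_le_mul (show ρ ≤ (12500 / 10000 : ℝ) by linarith) (show e ≤ (2501 / 100000 : ℝ) by linarith) (by linarith) (by norm_num)).trans
      (show (12500 / 10000 : ℝ) * (2501 / 100000) ≤ (2501 / 80000 : ℝ) by norm_num))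
  exact ⟨0, 30, Ex.pos_of_checkQuick six_top_1 (lowMem 100000 (by push_cast; linarith) hx1) (lowMem 10000 hy0 hy1)
    (lowMem 10000 (by push_cast; linarith) hz1) (hS.mem_quad (s := 666912) hd (by norm_num))⟩

theorem six_top_node_6 {e v ρ S' : ℝ}
    (hx0 : 222 / 100000 ≤ e) (hx1 : e < 2501 / 100000) (hy0 : 2900 / 10000 ≤ v) (hy1 : v < 20200 / 10000)
    (hz0 : 12500 / 10000 ≤ ρ) (hz1 : ρ < 25001 / 10000) (hA : (2 / 3 - ρ * e) * v < 2) (h5 : ρ * e ≤ 1 / 16)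
    (hS : SixSide (ρ * e) S') : ∃ i j : ℕ, 0 < (sixLayCond i j).val e v ρ S' := by
  have hd := ((mul_le_mul (show ρ ≤ (25001 / 10000 : ℝ) by linarith) (show e ≤ (2501 / 100000 : ℝ) by linarith) (by linarith) (by norm_num)).trans
      (show (25001 / 10000 : ℝ) * (2501 / 100000) ≤ (62527501 / 1000000000 : ℝ) by norm_num))
  exact ⟨0, 0, Ex.pos_of_checkQuick six_top_2 (lowMem 100000 (by push_cast; linarith) hx1) (lowMem 10000 hy0 hy1)
    (lowMem 10000 (by push_cast; linarith) hz1) (hS.mem_quad (s := 667645) hd (by norm_num))⟩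

theorem six_top_node_4 {e v ρ S' : ℝ}
    (hx0 : 222 / 100000 ≤ e) (hx1 : e < 2501 / 100000) (hy0 : 2900 / 10000 ≤ v) (hy1 : v < 20200 / 10000)
    (hz0 : 0 / 10000 ≤ ρ) (hz1 : ρ < 25001 / 10000) (hA : (2 / 3 - ρ * e) * v < 2) (h5 : ρ * e ≤ 1 / 16)
    (hS : SixSide (ρ * e) S') : ∃ i j : ℕ, 0 < (sixLayCond i j).val e v ρ S' := by
  rcases lt_or_ge ρ (12500 / 10000) with g | g
  · exact six_top_node_5 hx0 hx1 hy0 hy1 hz0 g hA h5 hS
  · exact six_top_node_6 hx0 hx1 hy0 hy1 g hz1 hA h5 hS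

theorem six_top_node_2 {e v ρ S' : ℝ}
    (hx0 : 0 / 100000 ≤ e) (hx1 : e < 2501 / 100000) (hy0 : 2900 / 10000 ≤ v) (hy1 : v < 20200 / 10000)
    (hz0 : 0 / 10000 ≤ ρ) (hz1 : ρ < 25001 / 10000) (hA : (2 / 3 - ρ * e) * v < 2) (h5 : ρ * e ≤ 1 / 16)
    (hS : SixSide (ρ * e) S') : ∃ i j : ℕ, 0 < (sixLayCond i j).val e v ρ S' := by
  rcases lt_or_ge e (222 / 100000) with g | g
  · exact six_top_node_3 hx0 g hy0 hy1 hz0 hz1 hA h5 hS
  · exact six_top_node_4 g hx1 hy0 hy1 hz0 hz1 hA h5 hS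

theorem six_top_node_9 {e v ρ S' : ℝ}
    (hx0 : 0 / 100000 ≤ e) (hx1 : e < 222 / 100000) (hy0 : 20200 / 10000 ≤ v) (hy1 : v < 37501 / 10000)
    (hz0 : 0 / 10000 ≤ ρ) (hz1 : ρ < 12500 / 10000) (hA : (2 / 3 - ρ * e) * v < 2) (h5 : ρ * e ≤ 1 / 16)
    (hS : SixSide (ρ * e) S') : ∃ i j : ℕ, 0 < (sixLayCond i j).val e v ρ S' := by
  have hd := ((mul_le_mul (show ρ ≤ (12500 / 10000 : ℝ) by linarith) (show e ≤ (222 / 100000 : ℝ) by linarith) (by linarith) (by norm_num)).trans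
      (show (12500 / 10000 : ℝ) * (222 / 100000) ≤ (111 / 40000 : ℝ) by norm_num))
  have hv : v < 30127 / 10000 := lt_of_mul_lt_mul_left (a := 2 / 3 - (111 / 40000 : ℝ))
    ((mul_le_mul_of_nonneg_right (sub_le_sub_left hd (2 / 3)) (by linarith)).trans_lt (by linarith)) (by norm_num)
  exact ⟨46, 0, Ex.pos_of_checkQuick six_top_3 (lowMem 100000 (by push_cast; linarith) hx1) (lowMem 10000 hy0 hv)
    (lowMem 10000 (by push_cast; linarith) hz1) (hS.mem_quad (s := 666669) hd (by norm_num))⟩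

theorem six_top_node_11 {e v ρ S' : ℝ}
    (hx0 : 0 / 100000 ≤ e) (hx1 : e < 222 / 100000) (hy0 : 20200 / 10000 ≤ v) (hy1 : v < 28850 / 10000)
    (hz0 : 12500 / 10000 ≤ ρ) (hz1 : ρ < 25001 / 10000) (hA : (2 / 3 - ρ * e) * v < 2) (h5 : ρ * e ≤ 1 / 16)
    (hS : SixSide (ρ * e) S') : ∃ i j : ℕ, 0 < (sixLayCond i j).val e v ρ S' := by
  have hd := ((mul_le_mul (show ρ ≤ (25001 / 10000 : ℝ) by linarith) (show e ≤ (222 / 100000 : ℝ) by linarith) (by linarith) (by norm_num)).trans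
      (show (25001 / 10000 : ℝ) * (222 / 100000) ≤ (2775111 / 500000000 : ℝ) by norm_num))
  exact ⟨0, 0, Ex.pos_of_checkQuick six_top_4 (lowMem 100000 (by push_cast; linarith) hx1) (lowMem 10000 hy0 hy1)
    (lowMem 10000 (by push_cast; linarith) hz1) (hS.mem_quad (s := 666675) hd (by norm_num))⟩

theorem six_top_node_12 {e v ρ S' : ℝ}
    (hx0 : 0 / 100000 ≤ e) (hx1 : e < 222 / 100000) (hy0 : 28850 / 10000 ≤ v) (hy1 : v < 37501 / 10000)
    (hz0 : 12500 / 10000 ≤ ρ) (hz1 : ρ < 25001 / 10000) (hA : (2 / 3 - ρ * e) * v < 2) (h5 : ρ * e ≤ 1 / 16)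
    (hS : SixSide (ρ * e) S') : ∃ i j : ℕ, 0 < (sixLayCond i j).val e v ρ S' := by
  have hd := ((mul_le_mul (show ρ ≤ (25001 / 10000 : ℝ) by linarith) (show e ≤ (222 / 100000 : ℝ) by linarith) (by linarith) (by norm_num)).trans
      (show (25001 / 10000 : ℝ) * (222 / 100000) ≤ (2775111 / 500000000 : ℝ) by norm_num))
  have hv : v < 30253 / 10000 := lt_of_mul_lt_mul_left (a := 2 / 3 - (2775111 / 500000000 : ℝ))
    ((mul_le_mul_of_nonneg_right (sub_le_sub_left hd (2 / 3)) (by linarith)).trans_lt (by linarith)) (by norm_num)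
  exact ⟨60, 0, Ex.pos_of_checkQuick six_top_5 (lowMem 100000 (by push_cast; linarith) hx1) (lowMem 10000 hy0 hv)
    (lowMem 10000 (by push_cast; linarith) hz1) (hS.mem_quad (s := 666675) hd (by norm_num))⟩

theorem six_top_node_10 {e v ρ S' : ℝ}
    (hx0 : 0 / 100000 ≤ e) (hx1 : e < 222 / 100000) (hy0 : 20200 / 10000 ≤ v) (hy1 : v < 37501 / 10000)
    (hz0 : 12500 / 10000 ≤ ρ) (hz1 : ρ < 25001 / 10000) (hA : (2 / 3 - ρ * e) * v < 2) (h5 : ρ * e ≤ 1 / 16)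
    (hS : SixSide (ρ * e) S') : ∃ i j : ℕ, 0 < (sixLayCond i j).val e v ρ S' := by
  rcases lt_or_ge v (28850 / 10000) with g | g
  · exact six_top_node_11 hx0 hx1 hy0 g hz0 hz1 hA h5 hS
  · exact six_top_node_12 hx0 hx1 g hy1 hz0 hz1 hA h5 hS

theorem six_top_node_8 {e v ρ S' : ℝ}
    (hx0 : 0 / 100000 ≤ e) (hx1 : e < 222 / 100000) (hy0 : 20200 / 10000 ≤ v) (hy1 : v < 37501 / 10000)
    (hz0 : 0 / 10000 ≤ ρ) (hz1 : ρ < 25001 / 10000) (hA : (2 / 3 - ρ * e) * v < 2) (h5 : ρ * e ≤ 1 / 16)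
    (hS : SixSide (ρ * e) S') : ∃ i j : ℕ, 0 < (sixLayCond i j).val e v ρ S' := by
  rcases lt_or_ge ρ (12500 / 10000) with g | g
  · exact six_top_node_9 hx0 hx1 hy0 hy1 hz0 g hA h5 hS
  · exact six_top_node_10 hx0 hx1 hy0 hy1 g hz1 hA h5 hS

theorem six_top_node_15 {e v ρ S' : ℝ}
    (hx0 : 222 / 100000 ≤ e) (hx1 : e < 2501 / 100000) (hy0 : 20200 / 10000 ≤ v) (hy1 : v < 28850 / 10000)
    (hz0 : 0 / 10000 ≤ ρ) (hz1 : ρ < 12500 / 10000) (hA : (2 / 3 - ρ * e) * v < 2) (h5 : ρ * e ≤ 1 / 16)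
    (hS : SixSide (ρ * e) S') : ∃ i j : ℕ, 0 < (sixLayCond i j).val e v ρ S' := by
  have hd := ((mul_le_mul (show ρ ≤ (12500 / 10000 : ℝ) by linarith) (show e ≤ (2501 / 100000 : ℝ) by linarith) (by linarith) (by norm_num)).trans
      (show (12500 / 10000 : ℝ) * (2501 / 100000) ≤ (2501 / 80000 : ℝ) by norm_num))
  exact ⟨52, 0, Ex.pos_of_checkQuick six_top_6 (lowMem 100000 (by push_cast; linarith) hx1) (lowMem 10000 hy0 hy1)
    (lowMem 10000 (by push_cast; linarith) hz1) (hS.mem_quad (s := 666912) hd (by norm_num))⟩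

theorem six_top_node_16 {e v ρ S' : ℝ}
    (hx0 : 222 / 100000 ≤ e) (hx1 : e < 2501 / 100000) (hy0 : 28850 / 10000 ≤ v) (hy1 : v < 37501 / 10000)
    (hz0 : 0 / 10000 ≤ ρ) (hz1 : ρ < 12500 / 10000) (hA : (2 / 3 - ρ * e) * v < 2) (h5 : ρ * e ≤ 1 / 16)
    (hS : SixSide (ρ * e) S') : ∃ i j : ℕ, 0 < (sixLayCond i j).val e v ρ S' := by
  have hd := ((mul_le_mul (show ρ ≤ (12500 / 10000 : ℝ) by linarith) (show e ≤ (2501 / 100000 : ℝ) by linarith) (by linarith) (by norm_num)).trans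
      (show (12500 / 10000 : ℝ) * (2501 / 100000) ≤ (2501 / 80000 : ℝ) by norm_num))
  have hv : v < 31478 / 10000 := lt_of_mul_lt_mul_left (a := 2 / 3 - (2501 / 80000 : ℝ))
    ((mul_le_mul_of_nonneg_right (sub_le_sub_left hd (2 / 3)) (by linarith)).trans_lt (by linarith)) (by norm_num)
  exact ⟨112, 0, Ex.pos_of_checkQuick six_top_7 (lowMem 100000 (by push_cast; linarith) hx1) (lowMem 10000 hy0 hv)
    (lowMem 10000 (by push_cast; linarith) hz1) (hS.mem_quad (s := 666912) hd (by norm_num))⟩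

theorem six_top_node_14 {e v ρ S' : ℝ}
    (hx0 : 222 / 100000 ≤ e) (hx1 : e < 2501 / 100000) (hy0 : 20200 / 10000 ≤ v) (hy1 : v < 37501 / 10000)
    (hz0 : 0 / 10000 ≤ ρ) (hz1 : ρ < 12500 / 10000) (hA : (2 / 3 - ρ * e) * v < 2) (h5 : ρ * e ≤ 1 / 16)
    (hS : SixSide (ρ * e) S') : ∃ i j : ℕ, 0 < (sixLayCond i j).val e v ρ S' := by
  rcases lt_or_ge v (28850 / 10000) with g | g
  · exact six_top_node_15 hx0 hx1 hy0 g hz0 hz1 hA h5 hS
  · exact six_top_node_16 hx0 hx1 g hy1 hz0 hz1 hA h5 hS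

theorem six_top_node_19 {e v ρ S' : ℝ}
    (hx0 : 222 / 100000 ≤ e) (hx1 : e < 764 / 100000) (hy0 : 20200 / 10000 ≤ v) (hy1 : v < 28850 / 10000)
    (hz0 : 12500 / 10000 ≤ ρ) (hz1 : ρ < 25001 / 10000) (hA : (2 / 3 - ρ * e) * v < 2) (h5 : ρ * e ≤ 1 / 16)
    (hS : SixSide (ρ * e) S') : ∃ i j : ℕ, 0 < (sixLayCond i j).val e v ρ S' := by
  have hd := ((mul_le_mul (show ρ ≤ (25001 / 10000 : ℝ) by linarith) (show e ≤ (764 / 100000 : ℝ) by linarith) (by linarith) (by norm_num)).trans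
      (show (25001 / 10000 : ℝ) * (764 / 100000) ≤ (4775191 / 250000000 : ℝ) by norm_num))
  exact ⟨22, 0, Ex.pos_of_checkQuick six_top_8 (lowMem 100000 (by push_cast; linarith) hx1) (lowMem 10000 hy0 hy1)
    (lowMem 10000 (by push_cast; linarith) hz1) (hS.mem_quad (s := 666758) hd (by norm_num))⟩

theorem six_top_node_21 {e v ρ S' : ℝ}
    (hx0 : 764 / 100000 ≤ e) (hx1 : e < 2501 / 100000) (hy0 : 20200 / 10000 ≤ v) (hy1 : v < 28850 / 10000)
    (hz0 : 12500 / 10000 ≤ ρ) (hz1 : ρ < 18750 / 10000) (hA : (2 / 3 - ρ * e) * v < 2) (h5 : ρ * e ≤ 1 / 16)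
    (hS : SixSide (ρ * e) S') : ∃ i j : ℕ, 0 < (sixLayCond i j).val e v ρ S' := by
  have hd := ((mul_le_mul (show ρ ≤ (18750 / 10000 : ℝ) by linarith) (show e ≤ (2501 / 100000 : ℝ) by linarith) (by linarith) (by norm_num)).trans
      (show (18750 / 10000 : ℝ) * (2501 / 100000) ≤ (7503 / 160000 : ℝ) by norm_num))
  exact ⟨41, 0, Ex.pos_of_checkQuick six_top_9 (lowMem 100000 (by push_cast; linarith) hx1) (lowMem 10000 hy0 hy1)
    (lowMem 10000 (by push_cast; linarith) hz1) (hS.mem_quad (s := 667217) hd (by norm_num))⟩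

theorem six_top_node_22 {e v ρ S' : ℝ}
    (hx0 : 764 / 100000 ≤ e) (hx1 : e < 2501 / 100000) (hy0 : 20200 / 10000 ≤ v) (hy1 : v < 28850 / 10000)
    (hz0 : 18750 / 10000 ≤ ρ) (hz1 : ρ < 25001 / 10000) (hA : (2 / 3 - ρ * e) * v < 2) (h5 : ρ * e ≤ 1 / 16)
    (hS : SixSide (ρ * e) S') : ∃ i j : ℕ, 0 < (sixLayCond i j).val e v ρ S' := by
  have hd := ((mul_le_mul (show ρ ≤ (25001 / 10000 : ℝ) by linarith) (show e ≤ (2501 / 100000 : ℝ) by linarith) (by linarith) (by norm_num)).trans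
      (show (25001 / 10000 : ℝ) * (2501 / 100000) ≤ (62527501 / 1000000000 : ℝ) by norm_num))
  exact ⟨34, 0, Ex.pos_of_checkQuick six_top_10 (lowMem 100000 (by push_cast; linarith) hx1) (lowMem 10000 hy0 hy1)
    (lowMem 10000 (by push_cast; linarith) hz1) (hS.mem_quad (s := 667645) hd (by norm_num))⟩

theorem six_top_node_20 {e v ρ S' : ℝ}
    (hx0 : 764 / 100000 ≤ e) (hx1 : e < 2501 / 100000) (hy0 : 20200 / 10000 ≤ v) (hy1 : v < 28850 / 10000)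
    (hz0 : 12500 / 10000 ≤ ρ) (hz1 : ρ < 25001 / 10000) (hA : (2 / 3 - ρ * e) * v < 2) (h5 : ρ * e ≤ 1 / 16)
    (hS : SixSide (ρ * e) S') : ∃ i j : ℕ, 0 < (sixLayCond i j).val e v ρ S' := by
  rcases lt_or_ge ρ (18750 / 10000) with g | g
  · exact six_top_node_21 hx0 hx1 hy0 hy1 hz0 g hA h5 hS
  · exact six_top_node_22 hx0 hx1 hy0 hy1 g hz1 hA h5 hS

theorem six_top_node_18 {e v ρ S' : ℝ}
    (hx0 : 222 / 100000 ≤ e) (hx1 : e < 2501 / 100000) (hy0 : 20200 / 10000 ≤ v) (hy1 : v < 28850 / 10000)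
    (hz0 : 12500 / 10000 ≤ ρ) (hz1 : ρ < 25001 / 10000) (hA : (2 / 3 - ρ * e) * v < 2) (h5 : ρ * e ≤ 1 / 16)
    (hS : SixSide (ρ * e) S') : ∃ i j : ℕ, 0 < (sixLayCond i j).val e v ρ S' := by
  rcases lt_or_ge e (764 / 100000) with g | g
  · exact six_top_node_19 hx0 g hy0 hy1 hz0 hz1 hA h5 hS
  · exact six_top_node_20 g hx1 hy0 hy1 hz0 hz1 hA h5 hS

theorem six_top_node_23 {e v ρ S' : ℝ}
    (hx0 : 222 / 100000 ≤ e) (hx1 : e < 2501 / 100000) (hy0 : 28850 / 10000 ≤ v) (hy1 : v < 37501 / 10000)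
    (hz0 : 12500 / 10000 ≤ ρ) (hz1 : ρ < 25001 / 10000) (hA : (2 / 3 - ρ * e) * v < 2) (h5 : ρ * e ≤ 1 / 16)
    (hS : SixSide (ρ * e) S') : ∃ i j : ℕ, 0 < (sixLayCond i j).val e v ρ S' := by
  have hd := ((mul_le_mul (show ρ ≤ (25001 / 10000 : ℝ) by linarith) (show e ≤ (2501 / 100000 : ℝ) by linarith) (by linarith) (by norm_num)).trans
      (show (25001 / 10000 : ℝ) * (2501 / 100000) ≤ (62527501 / 1000000000 : ℝ) by norm_num))
  have hv : v < 33106 / 10000 := lt_of_mul_lt_mul_left (a := 2 / 3 - (62527501 / 1000000000 : ℝ))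
    ((mul_le_mul_of_nonneg_right (sub_le_sub_left hd (2 / 3)) (by linarith)).trans_lt (by linarith)) (by norm_num)
  exact ⟨100, 0, Ex.pos_of_checkQuick six_top_11 (lowMem 100000 (by push_cast; linarith) hx1) (lowMem 10000 hy0 hv)
    (lowMem 10000 (by push_cast; linarith) hz1) (hS.mem_quad (s := 667645) hd (by norm_num))⟩

theorem six_top_node_17 {e v ρ S' : ℝ}
    (hx0 : 222 / 100000 ≤ e) (hx1 : e < 2501 / 100000) (hy0 : 20200 / 10000 ≤ v) (hy1 : v < 37501 / 10000)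
    (hz0 : 12500 / 10000 ≤ ρ) (hz1 : ρ < 25001 / 10000) (hA : (2 / 3 - ρ * e) * v < 2) (h5 : ρ * e ≤ 1 / 16)
    (hS : SixSide (ρ * e) S') : ∃ i j : ℕ, 0 < (sixLayCond i j).val e v ρ S' := by
  rcases lt_or_ge v (28850 / 10000) with g | g
  · exact six_top_node_18 hx0 hx1 hy0 g hz0 hz1 hA h5 hS
  · exact six_top_node_23 hx0 hx1 g hy1 hz0 hz1 hA h5 hS

theorem six_top_node_13 {e v ρ S' : ℝ}
    (hx0 : 222 / 100000 ≤ e) (hx1 : e < 2501 / 100000) (hy0 : 20200 / 10000 ≤ v) (hy1 : v < 37501 / 10000)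
    (hz0 : 0 / 10000 ≤ ρ) (hz1 : ρ < 25001 / 10000) (hA : (2 / 3 - ρ * e) * v < 2) (h5 : ρ * e ≤ 1 / 16)
    (hS : SixSide (ρ * e) S') : ∃ i j : ℕ, 0 < (sixLayCond i j).val e v ρ S' := by
  rcases lt_or_ge ρ (12500 / 10000) with g | g
  · exact six_top_node_14 hx0 hx1 hy0 hy1 hz0 g hA h5 hS
  · exact six_top_node_17 hx0 hx1 hy0 hy1 g hz1 hA h5 hS

theorem six_top_node_7 {e v ρ S' : ℝ}
    (hx0 : 0 / 100000 ≤ e) (hx1 : e < 2501 / 100000) (hy0 : 20200 / 10000 ≤ v) (hy1 : v < 37501 / 10000)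
    (hz0 : 0 / 10000 ≤ ρ) (hz1 : ρ < 25001 / 10000) (hA : (2 / 3 - ρ * e) * v < 2) (h5 : ρ * e ≤ 1 / 16)
    (hS : SixSide (ρ * e) S') : ∃ i j : ℕ, 0 < (sixLayCond i j).val e v ρ S' := by
  rcases lt_or_ge e (222 / 100000) with g | g
  · exact six_top_node_8 hx0 g hy0 hy1 hz0 hz1 hA h5 hS
  · exact six_top_node_13 g hx1 hy0 hy1 hz0 hz1 hA h5 hS

theorem six_top_node_1 {e v ρ S' : ℝ}
    (hx0 : 0 / 100000 ≤ e) (hx1 : e < 2501 / 100000) (hy0 : 2900 / 10000 ≤ v) (hy1 : v < 37501 / 10000)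
    (hz0 : 0 / 10000 ≤ ρ) (hz1 : ρ < 25001 / 10000) (hA : (2 / 3 - ρ * e) * v < 2) (h5 : ρ * e ≤ 1 / 16)
    (hS : SixSide (ρ * e) S') : ∃ i j : ℕ, 0 < (sixLayCond i j).val e v ρ S' := by
  rcases lt_or_ge v (20200 / 10000) with g | g
  · exact six_top_node_2 hx0 hx1 hy0 g hz0 hz1 hA h5 hS
  · exact six_top_node_7 hx0 hx1 g hy1 hz0 hz1 hA h5 hS

theorem six_top_node_25 {u v d S' : ℝ}
    (hx0 : 9750 / 10000 ≤ u) (hx1 : u < 9751 / 10000) (hy0 : 2900 / 10000 ≤ v) (hy1 : v < 6950 / 10000)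
    (hz0 : 0 / 10000 ≤ d) (hz1 : d < 301 / 10000) 
    (hS : SixSide d S') : ∃ m : ℕ, 0 < (sixPsiCond sixAN sixANb sixAG m).val u v d S' := by
  exact ⟨0, Ex.pos_of_checkQuick six_top_12 (lowMem 10000 (by push_cast; linarith) hx1) (lowMem 10000 hy0 hy1)
    (lowMem 10000 (by push_cast; linarith) hz1) (hS.mem_quad (s := 666894) (c := (301 / 10000 : ℝ)) (show d ≤ (301 / 10000 : ℝ) by linarith) (by norm_num))⟩

theorem six_top_node_26 {u v d S' : ℝ}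
    (hx0 : 9750 / 10000 ≤ u) (hx1 : u < 9751 / 10000) (hy0 : 6950 / 10000 ≤ v) (hy1 : v < 11000 / 10000)
    (hz0 : 0 / 10000 ≤ d) (hz1 : d < 301 / 10000) 
    (hS : SixSide d S') : ∃ m : ℕ, 0 < (sixPsiCond sixAN sixANb sixAG m).val u v d S' := by
  exact ⟨14, Ex.pos_of_checkQuick six_top_13 (lowMem 10000 (by push_cast; linarith) hx1) (lowMem 10000 hy0 hy1)
    (lowMem 10000 (by push_cast; linarith) hz1) (hS.mem_quad (s := 666894) (c := (301 / 10000 : ℝ)) (show d ≤ (301 / 10000 : ℝ) by linarith) (by norm_num))⟩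

theorem six_top_node_24 {u v d S' : ℝ}
    (hx0 : 9750 / 10000 ≤ u) (hx1 : u < 9751 / 10000) (hy0 : 2900 / 10000 ≤ v) (hy1 : v < 11000 / 10000)
    (hz0 : 0 / 10000 ≤ d) (hz1 : d < 301 / 10000) 
    (hS : SixSide d S') : ∃ m : ℕ, 0 < (sixPsiCond sixAN sixANb sixAG m).val u v d S' := by
  rcases lt_or_ge v (6950 / 10000) with g | g
  · exact six_top_node_25 hx0 hx1 hy0 g hz0 hz1  hS
  · exact six_top_node_26 hx0 hx1 g hy1 hz0 hz1  hS

theorem six_top_node_28 {u v d S' : ℝ}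
    (hx0 : 9750 / 10000 ≤ u) (hx1 : u < 9751 / 10000) (hy0 : 2900 / 10000 ≤ v) (hy1 : v < 6800 / 10000)
    (hz0 : 300 / 10000 ≤ d) (hz1 : d < 1351 / 10000) 
    (hS : SixSide d S') : ∃ m : ℕ, 0 < (sixPsiCond sixBN sixBNb sixBG m).val u v d S' := by
  exact ⟨0, Ex.pos_of_checkQuick six_top_14 (lowMem 10000 (by push_cast; linarith) hx1) (lowMem 10000 hy0 hy1)
    (lowMem 10000 (by push_cast; linarith) hz1) (hS.mem_quad (s := 671230) (c := (1351 / 10000 : ℝ)) (show d ≤ (1351 / 10000 : ℝ) by linarith) (by norm_num))⟩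

theorem six_top_node_29 {u v d S' : ℝ}
    (hx0 : 9750 / 10000 ≤ u) (hx1 : u < 9751 / 10000) (hy0 : 6800 / 10000 ≤ v) (hy1 : v < 10701 / 10000)
    (hz0 : 300 / 10000 ≤ d) (hz1 : d < 1351 / 10000) 
    (hS : SixSide d S') : ∃ m : ℕ, 0 < (sixPsiCond sixBN sixBNb sixBG m).val u v d S' := by
  exact ⟨53, Ex.pos_of_checkQuick six_top_15 (lowMem 10000 (by push_cast; linarith) hx1) (lowMem 10000 hy0 hy1)
    (lowMem 10000 (by push_cast; linarith) hz1) (hS.mem_quad (s := 671230) (c := (1351 / 10000 : ℝ)) (show d ≤ (1351 / 10000 : ℝ) by linarith) (by norm_num))⟩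

theorem six_top_node_27 {u v d S' : ℝ}
    (hx0 : 9750 / 10000 ≤ u) (hx1 : u < 9751 / 10000) (hy0 : 2900 / 10000 ≤ v) (hy1 : v < 10701 / 10000)
    (hz0 : 300 / 10000 ≤ d) (hz1 : d < 1351 / 10000) 
    (hS : SixSide d S') : ∃ m : ℕ, 0 < (sixPsiCond sixBN sixBNb sixBG m).val u v d S' := by
  rcases lt_or_ge v (6800 / 10000) with g | g
  · exact six_top_node_28 hx0 hx1 hy0 g hz0 hz1  hS
  · exact six_top_node_29 hx0 hx1 g hy1 hz0 hz1  hS

theorem six_top_node_31 {u v d S' : ℝ}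
    (hx0 : 9750 / 10000 ≤ u) (hx1 : u < 9751 / 10000) (hy0 : 2900 / 10000 ≤ v) (hy1 : v < 6275 / 10000)
    (hz0 : 1350 / 10000 ≤ d) (hz1 : d < 3334 / 10000) 
    (hS : SixSide d S') : ∃ m : ℕ, 0 < (sixPsiCond sixCN sixCNb sixCG m).val u v d S' := by
  exact ⟨0, Ex.pos_of_checkQuick six_top_16 (lowMem 10000 (by push_cast; linarith) hx1) (lowMem 10000 hy0 hy1)
    (lowMem 10000 (by push_cast; linarith) hz1) (hS.mem_high (s := 673470) (by norm_num))⟩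

theorem six_top_node_33 {u v d S' : ℝ}
    (hx0 : 9750 / 10000 ≤ u) (hx1 : u < 9751 / 10000) (hy0 : 6275 / 10000 ≤ v) (hy1 : v < 9651 / 10000)
    (hz0 : 1350 / 10000 ≤ d) (hz1 : d < 2342 / 10000) 
    (hS : SixSide d S') : ∃ m : ℕ, 0 < (sixPsiCond sixCN sixCNb sixCG m).val u v d S' := by
  exact ⟨116, Ex.pos_of_checkQuick six_top_17 (lowMem 10000 (by push_cast; linarith) hx1) (lowMem 10000 hy0 hy1)
    (lowMem 10000 (by push_cast; linarith) hz1) (hS.mem_high (s := 673470) (by norm_num))⟩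

theorem six_top_node_35 {u v d S' : ℝ}
    (hx0 : 9750 / 10000 ≤ u) (hx1 : u < 9751 / 10000) (hy0 : 6275 / 10000 ≤ v) (hy1 : v < 9651 / 10000)
    (hz0 : 2342 / 10000 ≤ d) (hz1 : d < 2838 / 10000) 
    (hS : SixSide d S') : ∃ m : ℕ, 0 < (sixPsiCond sixCN sixCNb sixCG m).val u v d S' := by
  exact ⟨255, Ex.pos_of_checkQuick six_top_18 (lowMem 10000 (by push_cast; linarith) hx1) (lowMem 10000 hy0 hy1)
    (lowMem 10000 (by push_cast; linarith) hz1) (hS.mem_high (s := 673470) (by norm_num))⟩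

theorem six_top_node_37 {u v d S' : ℝ}
    (hx0 : 9750 / 10000 ≤ u) (hx1 : u < 9751 / 10000) (hy0 : 6275 / 10000 ≤ v) (hy1 : v < 7963 / 10000)
    (hz0 : 2838 / 10000 ≤ d) (hz1 : d < 3334 / 10000) 
    (hS : SixSide d S') : ∃ m : ℕ, 0 < (sixPsiCond sixCN sixCNb sixCG m).val u v d S' := by
  exact ⟨332, Ex.pos_of_checkQuick six_top_19 (lowMem 10000 (by push_cast; linarith) hx1) (lowMem 10000 hy0 hy1)
    (lowMem 10000 (by push_cast; linarith) hz1) (hS.mem_high (s := 673470) (by norm_num))⟩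

theorem six_top_node_38 {u v d S' : ℝ}
    (hx0 : 9750 / 10000 ≤ u) (hx1 : u < 9751 / 10000) (hy0 : 7963 / 10000 ≤ v) (hy1 : v < 9651 / 10000)
    (hz0 : 2838 / 10000 ≤ d) (hz1 : d < 3334 / 10000) 
    (hS : SixSide d S') : ∃ m : ℕ, 0 < (sixPsiCond sixCN sixCNb sixCG m).val u v d S' := by
  exact ⟨562, Ex.pos_of_checkQuick six_top_20 (lowMem 10000 (by push_cast; linarith) hx1) (lowMem 10000 hy0 hy1)
    (lowMem 10000 (by push_cast; linarith) hz1) (hS.mem_high (s := 673470) (by norm_num))⟩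

theorem six_top_node_36 {u v d S' : ℝ}
    (hx0 : 9750 / 10000 ≤ u) (hx1 : u < 9751 / 10000) (hy0 : 6275 / 10000 ≤ v) (hy1 : v < 9651 / 10000)
    (hz0 : 2838 / 10000 ≤ d) (hz1 : d < 3334 / 10000) 
    (hS : SixSide d S') : ∃ m : ℕ, 0 < (sixPsiCond sixCN sixCNb sixCG m).val u v d S' := by
  rcases lt_or_ge v (7963 / 10000) with g | g
  · exact six_top_node_37 hx0 hx1 hy0 g hz0 hz1  hS
  · exact six_top_node_38 hx0 hx1 g hy1 hz0 hz1  hS

theorem six_top_node_34 {u v d S' : ℝ}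
    (hx0 : 9750 / 10000 ≤ u) (hx1 : u < 9751 / 10000) (hy0 : 6275 / 10000 ≤ v) (hy1 : v < 9651 / 10000)
    (hz0 : 2342 / 10000 ≤ d) (hz1 : d < 3334 / 10000) 
    (hS : SixSide d S') : ∃ m : ℕ, 0 < (sixPsiCond sixCN sixCNb sixCG m).val u v d S' := by
  rcases lt_or_ge d (2838 / 10000) with g | g
  · exact six_top_node_35 hx0 hx1 hy0 hy1 hz0 g  hS
  · exact six_top_node_36 hx0 hx1 hy0 hy1 g hz1  hS

theorem six_top_node_32 {u v d S' : ℝ}
    (hx0 : 9750 / 10000 ≤ u) (hx1 : u < 9751 / 10000) (hy0 : 6275 / 10000 ≤ v) (hy1 : v < 9651 / 10000)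
    (hz0 : 1350 / 10000 ≤ d) (hz1 : d < 3334 / 10000) 
    (hS : SixSide d S') : ∃ m : ℕ, 0 < (sixPsiCond sixCN sixCNb sixCG m).val u v d S' := by
  rcases lt_or_ge d (2342 / 10000) with g | g
  · exact six_top_node_33 hx0 hx1 hy0 hy1 hz0 g  hS
  · exact six_top_node_34 hx0 hx1 hy0 hy1 g hz1  hS

theorem six_top_node_30 {u v d S' : ℝ}
    (hx0 : 9750 / 10000 ≤ u) (hx1 : u < 9751 / 10000) (hy0 : 2900 / 10000 ≤ v) (hy1 : v < 9651 / 10000)
    (hz0 : 1350 / 10000 ≤ d) (hz1 : d < 3334 / 10000) 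
    (hS : SixSide d S') : ∃ m : ℕ, 0 < (sixPsiCond sixCN sixCNb sixCG m).val u v d S' := by
  rcases lt_or_ge v (6275 / 10000) with g | g
  · exact six_top_node_31 hx0 hx1 hy0 g hz0 hz1  hS
  · exact six_top_node_32 hx0 hx1 g hy1 hz0 hz1  hS

theorem six_top_node_41 {u v d S' : ℝ}
    (hx0 : 9749 / 10000 ≤ u) (hx1 : u < 9751 / 10000) (hy0 : 2900 / 10000 ≤ v) (hy1 : v < 20200 / 10000)
    (hz0 : 0 / 10000 ≤ d) (hz1 : d < 150 / 10000) 
    (hS : SixSide d S') : ∃ m : ℕ, 0 < (sixJoinCond sixAN sixANb sixAG m).val u v d S' := by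
  exact ⟨13099, Ex.pos_of_checkQuick six_top_21 (lowMem 10000 (by push_cast; linarith) hx1) (lowMem 10000 hy0 hy1)
    (lowMem 10000 (by push_cast; linarith) hz1) (hS.mem_quad (s := 666723) (c := (3 / 200 : ℝ)) (show d ≤ (3 / 200 : ℝ) by linarith) (by norm_num))⟩

theorem six_top_node_42 {u v d S' : ℝ}
    (hx0 : 9749 / 10000 ≤ u) (hx1 : u < 9751 / 10000) (hy0 : 2900 / 10000 ≤ v) (hy1 : v < 20200 / 10000)
    (hz0 : 150 / 10000 ≤ d) (hz1 : d < 301 / 10000) 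
    (hS : SixSide d S') : ∃ m : ℕ, 0 < (sixJoinCond sixAN sixANb sixAG m).val u v d S' := by
  exact ⟨13099, Ex.pos_of_checkQuick six_top_22 (lowMem 10000 (by push_cast; linarith) hx1) (lowMem 10000 hy0 hy1)
    (lowMem 10000 (by push_cast; linarith) hz1) (hS.mem_quad (s := 666894) (c := (301 / 10000 : ℝ)) (show d ≤ (301 / 10000 : ℝ) by linarith) (by norm_num))⟩

theorem six_top_node_40 {u v d S' : ℝ}
    (hx0 : 9749 / 10000 ≤ u) (hx1 : u < 9751 / 10000) (hy0 : 2900 / 10000 ≤ v) (hy1 : v < 20200 / 10000)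
    (hz0 : 0 / 10000 ≤ d) (hz1 : d < 301 / 10000) 
    (hS : SixSide d S') : ∃ m : ℕ, 0 < (sixJoinCond sixAN sixANb sixAG m).val u v d S' := by
  rcases lt_or_ge d (150 / 10000) with g | g
  · exact six_top_node_41 hx0 hx1 hy0 hy1 hz0 g  hS
  · exact six_top_node_42 hx0 hx1 hy0 hy1 g hz1  hS

theorem six_top_node_43 {u v d S' : ℝ}
    (hx0 : 9749 / 10000 ≤ u) (hx1 : u < 9751 / 10000) (hy0 : 20200 / 10000 ≤ v) (hy1 : v < 37501 / 10000)
    (hz0 : 0 / 10000 ≤ d) (hz1 : d < 301 / 10000) 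
    (hS : SixSide d S') : ∃ m : ℕ, 0 < (sixJoinCond sixAN sixANb sixAG m).val u v d S' := by
  exact ⟨1915112, Ex.pos_of_checkQuick six_top_23 (lowMem 10000 (by push_cast; linarith) hx1) (lowMem 10000 hy0 hy1)
    (lowMem 10000 (by push_cast; linarith) hz1) (hS.mem_quad (s := 666894) (c := (301 / 10000 : ℝ)) (show d ≤ (301 / 10000 : ℝ) by linarith) (by norm_num))⟩

theorem six_top_node_39 {u v d S' : ℝ}
    (hx0 : 9749 / 10000 ≤ u) (hx1 : u < 9751 / 10000) (hy0 : 2900 / 10000 ≤ v) (hy1 : v < 37501 / 10000)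
    (hz0 : 0 / 10000 ≤ d) (hz1 : d < 301 / 10000) 
    (hS : SixSide d S') : ∃ m : ℕ, 0 < (sixJoinCond sixAN sixANb sixAG m).val u v d S' := by
  rcases lt_or_ge v (20200 / 10000) with g | g
  · exact six_top_node_40 hx0 hx1 hy0 g hz0 hz1  hS
  · exact six_top_node_43 hx0 hx1 g hy1 hz0 hz1  hS

theorem six_top_node_45 {u v d S' : ℝ}
    (hx0 : 9749 / 10000 ≤ u) (hx1 : u < 9751 / 10000) (hy0 : 2900 / 10000 ≤ v) (hy1 : v < 20200 / 10000)
    (hz0 : 300 / 10000 ≤ d) (hz1 : d < 626 / 10000) 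
    (hS : SixSide d S') : ∃ m : ℕ, 0 < (sixJoinCond sixBN sixBNb sixBG m).val u v d S' := by
  exact ⟨1915112, Ex.pos_of_checkQuick six_top_24 (lowMem 10000 (by push_cast; linarith) hx1) (lowMem 10000 hy0 hy1)
    (lowMem 10000 (by push_cast; linarith) hz1) (hS.mem_quad (s := 667647) (c := (313 / 5000 : ℝ)) (show d ≤ (313 / 5000 : ℝ) by linarith) (by norm_num))⟩

theorem six_top_node_46 {u v d S' : ℝ}
    (hx0 : 9749 / 10000 ≤ u) (hx1 : u < 9751 / 10000) (hy0 : 20200 / 10000 ≤ v) (hy1 : v < 37501 / 10000)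
    (hz0 : 300 / 10000 ≤ d) (hz1 : d < 626 / 10000) 
    (hS : SixSide d S') : ∃ m : ℕ, 0 < (sixJoinCond sixBN sixBNb sixBG m).val u v d S' := by
  exact ⟨1915112, Ex.pos_of_checkQuick six_top_25 (lowMem 10000 (by push_cast; linarith) hx1) (lowMem 10000 hy0 hy1)
    (lowMem 10000 (by push_cast; linarith) hz1) (hS.mem_quad (s := 667647) (c := (313 / 5000 : ℝ)) (show d ≤ (313 / 5000 : ℝ) by linarith) (by norm_num))⟩

theorem six_top_node_44 {u v d S' : ℝ}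
    (hx0 : 9749 / 10000 ≤ u) (hx1 : u < 9751 / 10000) (hy0 : 2900 / 10000 ≤ v) (hy1 : v < 37501 / 10000)
    (hz0 : 300 / 10000 ≤ d) (hz1 : d < 626 / 10000) 
    (hS : SixSide d S') : ∃ m : ℕ, 0 < (sixJoinCond sixBN sixBNb sixBG m).val u v d S' := by
  rcases lt_or_ge v (20200 / 10000) with g | g
  · exact six_top_node_45 hx0 hx1 hy0 g hz0 hz1  hS
  · exact six_top_node_46 hx0 hx1 g hy1 hz0 hz1  hS

/-- The rung condition of the last strip. -/
theorem six_lay_sign {e v ρ S' : ℝ} (he : 0 ≤ e) (he1 : e ≤ 1 / 40) (hv : 29 / 100 ≤ v)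
    (hv1 : v ≤ 15 / 4) (hρ : 0 ≤ ρ) (hρ1 : ρ ≤ 5 / 2) (hA : (2 / 3 - ρ * e) * v < 2)
    (h5 : ρ * e ≤ 1 / 16) (hS : SixSide (ρ * e) S') : ∃ i j : ℕ, 0 < (sixLayCond i j).val e v ρ S' :=
  six_top_node_1 (by linarith) (by linarith) (by linarith) (by linarith) (by linarith) (by linarith) hA h5 hS

/-- `dv < 0` at the band below the threshold, piece A. -/
theorem six_a_psi_sign {v d S' : ℝ} (hv : 29 / 100 ≤ v) (hv1 : v < 11000 / 10000) (h0 : 0 ≤ d) (h1 : d ≤ 3 / 100)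
    (hS : SixSide d S') : ∃ m : ℕ, 0 < (sixPsiCond sixAN sixANb sixAG m).val (39 / 40) v d S' :=
  six_top_node_24 (by norm_num) (by norm_num) (by linarith) hv1 (by linarith) (by linarith) hS

/-- `dv < 0` at the band below the threshold, piece B. -/
theorem six_b_psi_sign {v d S' : ℝ} (hv : 29 / 100 ≤ v) (hv1 : v < 10701 / 10000) (h0 : 3 / 100 ≤ d) (h1 : d ≤ 27 / 200)
    (hS : SixSide d S') : ∃ m : ℕ, 0 < (sixPsiCond sixBN sixBNb sixBG m).val (39 / 40) v d S' :=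
  six_top_node_27 (by norm_num) (by norm_num) (by linarith) hv1 (by linarith) (by linarith) hS

/-- `dv < 0` at the band below the threshold, piece C. -/
theorem six_c_psi_sign {v d S' : ℝ} (hv : 29 / 100 ≤ v) (hv1 : v < 9651 / 10000) (h0 : 27 / 200 ≤ d) (h1 : d ≤ 1 / 3)
    (hS : SixSide d S') : ∃ m : ℕ, 0 < (sixPsiCond sixCN sixCNb sixCG m).val (39 / 40) v d S' :=
  six_top_node_30 (by norm_num) (by norm_num) (by linarith) hv1 (by linarith) (by linarith) hS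

/-- The last strip starts above the band of piece A. -/
theorem six_a_join_sign {u v d S' : ℝ} (hu : 9749 / 10000 ≤ u) (hu1 : u ≤ 39 / 40) (hv : 29 / 100 ≤ v)
    (hv1 : v ≤ 15 / 4) (h0 : 0 ≤ d) (h1 : d ≤ 3 / 100) (hS : SixSide d S') :
    ∃ m : ℕ, 0 < (sixJoinCond sixAN sixANb sixAG m).val u v d S' :=
  six_top_node_39 (by linarith) (by linarith) (by linarith) (by linarith) (by linarith) (by linarith) hS

/-- The last strip starts above the band of piece B. -/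
theorem six_b_join_sign {u v d S' : ℝ} (hu : 9749 / 10000 ≤ u) (hu1 : u ≤ 39 / 40) (hv : 29 / 100 ≤ v)
    (hv1 : v ≤ 15 / 4) (h0 : 3 / 100 ≤ d) (h1 : d ≤ 1 / 16) (hS : SixSide d S') :
    ∃ m : ℕ, 0 < (sixJoinCond sixBN sixBNb sixBG m).val u v d S' :=
  six_top_node_44 (by linarith) (by linarith) (by linarith) (by linarith) (by linarith) (by linarith) hS

end Vale.Agent.P100.Calib.Band
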