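import Vale.Agent.P100.Calib.SlabSixUpperStart

/-!
# Crude bounds below the last strip, dimension six
-/

namespace Vale.Agent.P100.Calib.Band

open BoxPos

local instance sixTopStartAdd : Add Ex := ⟨Ex.add⟩
local instance sixTopStartSub : Sub Ex := ⟨Ex.sub⟩
local instance sixTopStartMul : Mul Ex := ⟨Ex.mul⟩

/-- `160 G - N - Nb v`. -/
def sixCrude (N Nb G : Ex) : Ex := eC 160 * G - (N + Nb * eV)

theorem six_a_crude : (sixCrude sixAN sixANb sixAG).checkQuick sixUpCfg
    (sixUpBox 5000 9751 2900 37501 0 301 700000) = true := by decide +kernel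

theorem six_b_crude : (sixCrude sixBN sixBNb sixBG).checkQuick sixUpCfg
    (sixUpBox 5000 9751 2900 37501 300 626 700000) = true := by decide +kernel

theorem six_low_crude : (eC 160 - sixU0).checkQuick sixUpCfg
    (sixUpBox 0 5001 2900 2901 0 626 700000) = true := by decide +kernel

theorem six_lay_pos : (eQuad 4600 150000 (-1750000) 10000).checkQuick sixUpCfg
    (sixUpBox 0 9751 2900 2901 0 626 700000) = true := by decide +kernel

end Vale.Agent.P100.Calib.Band
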