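import Vale.Agent.P100.Calib.SlabSixUpperTail
import Vale.Agent.P100.Calib.SlabSixTopSigns
import Vale.Agent.P100.Calib.SlabSixTopStart
import Vale.Agent.P100.Calib.SlabPsiPast

/-!
# The threshold and the last strip above a given band, dimension six

From a band `Tf + bf v` on `[1/2, 39/40]`: where it forces `dv < 0` for `v` under `11/10 - d`, the
threshold holds from `39/40` on; where it stays under the strip as long as `dv > 0`, so does the
strip up to `1 - 2 d/5`.
-/

namespace Vale.Agent.P100.Calib.Band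

open BoxPos Bubble Chart

variable {N p q : ℝ} {S : Set ℝ} {R x y s dx dy : ℝ → ℝ}

/-- `al v ≤ 1` on the chart. -/
theorem SlabBoxSix.al_mul_le {N al be r : ℝ} (hb : SlabBoxSix N al be) (hr : r < 1) :
    al * vOf al be r ≤ 1 := by
  obtain ⟨hal, hbe, hd, -⟩ := hb.facts
  have e : (be - al) * (al * vOf al be r) = be * r - al := by
    unfold vOf; field_simp
  refine le_of_mul_le_mul_left (a := be - al) ?_ hd
  have := mul_le_mul_of_nonneg_left hr.le hbe.le
  linarith

/-- `dv > 0` under a band at a point of the orbit. -/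
theorem orbit_exitP_pos_six (hf : IsOrbitFns N p q S R x y s dx dy)
    (hb : SlabBoxSix N (1 / (p + 1)) (1 / (q + 1))) {Tf bf : ℝ → ℝ} {w : ℝ} (hw : w ∈ S)
    (hw0 : 0 < R w)
    (hup : hOf N (R w) (x w) (y w) w < bandT N (1 / (p + 1)) (1 / (q + 1))
        (1 / (q + 1) - 1 / (p + 1)) Tf (uOf N (R w) (x w)) (y w / x w) +
      (1 / (q + 1) - 1 / (p + 1)) * uOf N (R w) (x w) *
        (bf (uOf N (R w) (x w)) * vOf (1 / (p + 1)) (1 / (q + 1)) (y w / x w))) :
    0 < exitP (1 / (p + 1) + 1 / (q + 1)) (1 / (q + 1) - 1 / (p + 1)) (uOf N (R w) (x w))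
      (vOf (1 / (p + 1)) (1 / (q + 1)) (y w / x w))
      (Tf (uOf N (R w) (x w)) +
        bf (uOf N (R w) (x w)) * vOf (1 / (p + 1)) (1 / (q + 1)) (y w / x w)) 1 0 := by
  obtain ⟨-, -, -, hr1, -, -, -, -, -, -⟩ := hf.chart hb.five hb.one_le w hw hw0
  exact exitP_pos_of_upper_six hf hb hw hw0 rfl (hb.al_mul_le hr1) hup

/-- **`11/10 - d ≤ v` from `u = 39/40` on.** -/
theorem orbit_psi_ratio_six (hf : IsOrbitFns N p q S R x y s dx dy)
    (hb : SlabBoxSix N (1 / (p + 1)) (1 / (q + 1))) {Tf bf : ℝ → ℝ}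
    (hup : ∀ w ∈ S, 0 < R w → uOf N (R w) (x w) = 39 / 40 →
      hOf N (R w) (x w) (y w) w < bandT N (1 / (p + 1)) (1 / (q + 1))
          (1 / (q + 1) - 1 / (p + 1)) Tf (uOf N (R w) (x w)) (y w / x w) +
        (1 / (q + 1) - 1 / (p + 1)) * uOf N (R w) (x w) *
          (bf (uOf N (R w) (x w)) * vOf (1 / (p + 1)) (1 / (q + 1)) (y w / x w)))
    (hsign : ∀ v, 29 / 100 ≤ v → v < 11 / 10 - (1 / (q + 1) - 1 / (p + 1)) →
      exitP (1 / (p + 1) + 1 / (q + 1)) (1 / (q + 1) - 1 / (p + 1)) (39 / 40) v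
        (Tf (39 / 40) + bf (39 / 40) * v) 1 0 < 0)
    {w : ℝ} (hw : w ∈ S) (hw0 : 0 < R w) (hu : 39 / 40 ≤ uOf N (R w) (x w)) :
    11 / 10 - (1 / (q + 1) - 1 / (p + 1)) ≤
      vOf (1 / (p + 1)) (1 / (q + 1)) (y w / x w) := by
  obtain ⟨hal, hbe, hd, -⟩ := hb.facts
  obtain ⟨z, hz, hz0, hzu, hzr⟩ :=
    orbit_exists_earlier hf hb.five hb.one_le hal hbe (by norm_num) hw hw0 hu
  refine le_trans (b := vOf (1 / (p + 1)) (1 / (q + 1)) (y z / x z)) ?_ ?_
  · by_contra hn
    rw [not_le] at hn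
    obtain ⟨-, -, -, hr1, -, -, -, hc0, hk, -⟩ := hf.chart hb.five hb.one_le z hz hz0
    have hp := orbit_exitP_pos_six hf hb hz hz0 (hup z hz hz0 hzu)
    rw [hzu] at hp
    exact absurd hp (not_lt.2 (hsign _ (hb.v_mem hc0 hr1 hk).1 hn).le)
  · simp only [vOf]
    exact div_le_div_of_nonneg_right
      (sub_le_sub_right (mul_le_mul_of_nonneg_left hzr (div_pos hbe hal).le) 1) hd.le

/-- The coefficient of the last strip. -/
noncomputable def sixLayC (d : ℝ) : ℝ := 23 / 50 + 15 * d - 175 * d ^ 2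

theorem sixLay_val {e v ρ S' : ℝ} :
    sixLayN.val e v ρ S' = sixLayC (ρ * e) ∧ (eC 1 10).val e v ρ S' = 1 / 10 ∧
      sixLayg.val e v ρ S' = 1 + ρ := by
  refine ⟨?_, ?_, ?_⟩
  · rw [sixLayN, val_toCorner]
    simp only [eQuad, Ex.val, sixLayC]
    push_cast
    ring
  · simp only [Ex.val]
    push_cast
    ring
  · simp only [sixLayg, val_addK, Ex.val]
    push_cast
    ring

/-- The rung of the last strip. -/
theorem six_lay_upperV {u v d S' : ℝ} (hd : 0 < d) (h1 : d < 1 / 16) (hu : 39 / 40 ≤ u)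
    (hu1 : u ≤ 1 - 2 / 5 * d) (hv : 29 / 100 ≤ v) (hv1 : v ≤ 15 / 4)
    (hA : (2 / 3 - d) * v < 2) (hS : SixSide d S')
    (he : 0 < lieE S' d u v (ratA (sixLayC d) 0 0 (1 + d) u + ratB (1 / 10) (1 + d) u * v) 1)
    (hp : 0 < exitP S' d u v (ratA (sixLayC d) 0 0 (1 + d) u + ratB (1 / 10) (1 + d) u * v) 1 0) :
    0 < upperV S' d u v (ratA (sixLayC d) 0 0 (1 + d) u + ratB (1 / 10) (1 + d) u * v)
      (ratB (1 / 10) (1 + d) u)
      (ratA' (sixLayC d) 0 0 (1 + d) u + ratB' (1 / 10) (1 + d) u * v) := by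
  obtain ⟨e, rfl⟩ : ∃ e, u = 1 - e := ⟨1 - u, by ring⟩
  have hpe : 0 < e := by linarith
  obtain ⟨ρ, rfl⟩ : ∃ ρ, d = ρ * e := ⟨d / e, (div_mul_cancel₀ d hpe.ne').symm⟩
  have hρ0 : 0 ≤ ρ := (pos_of_mul_pos_left hd hpe.le).le
  have hρ1 : ρ ≤ 5 / 2 := by
    refine le_of_mul_le_mul_right ?_ hpe
    linarith
  obtain ⟨i, j, hc⟩ := six_lay_sign (S' := S') hpe.le (by linarith) hv hv1 hρ0 hρ1 hA h1.le hS
  obtain ⟨eN, eB, eg⟩ := sixLay_val (e := e) (v := v) (ρ := ρ) (S' := S')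
  have hg : 1 + ρ * e - (1 - e) = e * (1 + ρ) := by ring
  have h2 : e * (1 + ρ) ≠ 0 := (mul_pos hpe (by linarith)).ne'
  refine upperV_pos_of_ratCorner v S' e ρ hpe hc (by rw [eg]; linarith) ?_ ?_ ?_ he hp
  · rw [eN, eg, ratA, hg]
    simp only [zero_mul, add_zero]
    rw [div_mul_cancel₀ _ h2]
  · rw [eB, eg, ratB, hg, div_mul_cancel₀ _ h2]
  · simp only [val_addK, val_mulK, eN, eB, eg, ratA', ratB', hg, Ex.val, zero_mul, mul_zero,
      add_zero, zero_add]
    generalize e * (1 + ρ) = g at h2 ⊢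
    field_simp
    push_cast
    ring

/-- **The band of the last strip.** -/
theorem orbit_layer_ratio_six (hf : IsOrbitFns N p q S R x y s dx dy)
    (hb : SlabBoxSix N (1 / (p + 1)) (1 / (q + 1))) {Tf bf : ℝ → ℝ}
    (hd16 : 1 / (q + 1) - 1 / (p + 1) < 1 / 16)
    (hS : 1 / (p + 1) + 1 / (q + 1) ≤ 2 / 3 + (1 / (q + 1) - 1 / (p + 1)) ^ 2 / 4)
    (hup : ∀ w ∈ S, 0 < R w → 1 / 2 ≤ uOf N (R w) (x w) → uOf N (R w) (x w) ≤ 39 / 40 →
      hOf N (R w) (x w) (y w) w < bandT N (1 / (p + 1)) (1 / (q + 1))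
          (1 / (q + 1) - 1 / (p + 1)) Tf (uOf N (R w) (x w)) (y w / x w) +
        (1 / (q + 1) - 1 / (p + 1)) * uOf N (R w) (x w) *
          (bf (uOf N (R w) (x w)) * vOf (1 / (p + 1)) (1 / (q + 1)) (y w / x w)))
    (hjoin : ∀ u v, 9749 / 10000 ≤ u → u ≤ 39 / 40 → 29 / 100 ≤ v → v ≤ 15 / 4 →
      0 < exitP (1 / (p + 1) + 1 / (q + 1)) (1 / (q + 1) - 1 / (p + 1)) u v
        (Tf u + bf u * v) 1 0 →
      Tf u + bf u * v ≤ (sixLayC (1 / (q + 1) - 1 / (p + 1)) + v / 10) /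
        (1 + (1 / (q + 1) - 1 / (p + 1)) - u))
    (hcrude : ∀ u v, 1 / 2 ≤ u → u ≤ 39 / 40 → 29 / 100 ≤ v → v ≤ 15 / 4 → Tf u + bf u * v ≤ 160)
    {w : ℝ} (hw : w ∈ S) (hw0 : 0 < R w) (hu : 39 / 40 ≤ uOf N (R w) (x w))
    (hwu : uOf N (R w) (x w) ≤ 1 - 2 / 5 * (1 / (q + 1) - 1 / (p + 1))) :
    hOf N (R w) (x w) (y w) w < bandT N (1 / (p + 1)) (1 / (q + 1)) (1 / (q + 1) - 1 / (p + 1))
        (fun u => sixLayC (1 / (q + 1) - 1 / (p + 1)) / (1 - u + (1 / (q + 1) - 1 / (p + 1))))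
        (uOf N (R w) (x w)) (y w / x w) +
      (1 / (q + 1) - 1 / (p + 1)) * uOf N (R w) (x w) *
        (1 / 10 / (1 - uOf N (R w) (x w) + (1 / (q + 1) - 1 / (p + 1))) *
          vOf (1 / (p + 1)) (1 / (q + 1)) (y w / x w)) := by
  obtain ⟨-, -, hd, -⟩ := hb.facts
  set al := 1 / (p + 1) with hald
  set be := 1 / (q + 1) with hbed
  set d := be - al with hdd
  have hside := hb.sixSide hS
  rw [← hdd] at hside
  have hC : 0 < sixLayC d := by
    have k := Ex.pos_of_checkQuick six_lay_pos (y₀ := 0) (y₁ := 29 / 100) (y₂ := d) (y₃ := al + be)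
      (lowMem 10000 (by norm_num) (by norm_num)) (lowMem 10000 (by norm_num) (by norm_num))
      (lowMem 10000 (by push_cast; linarith) (by push_cast; linarith))
      (hside.mem_high (by norm_num))
    simp only [eQuad, Ex.val] at k
    push_cast at k
    simp only [sixLayC]
    linarith
  have hq : 1 - 2 / 5 * d < 1 + d := by linarith
  have hT := hasDerivAt_tangentExt (e := 1 - 2 / 5 * d) (f := ratA (sixLayC d) 0 0 (1 + d))
    (f' := ratA' (sixLayC d) 0 0 (1 + d)) fun u hu => hasDerivAt_ratA (lt_of_le_of_lt hu hq)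
  have hB := hasDerivAt_tangentExt (e := 1 - 2 / 5 * d) (f := ratB (1 / 10) (1 + d))
    (f' := ratB' (1 / 10) (1 + d)) fun u hu => hasDerivAt_ratB (lt_of_le_of_lt hu hq)
  have key := forwardUV_step_six hf hb (u₀ := 39 / 40) (u₁ := 1 - 2 / 5 * d) (K := 1000000000)
    (by norm_num) (by norm_num) hT hB
    (U₀ := fun u => if u < 1 / 2 then sixUfun d u else Tf u)
    (b₀ := fun u => if u < 1 / 2 then 0 else bf u)
    (fun u r => 9749 / 10000 ≤ u → u ≤ 39 / 40 →
      0 < exitP (al + be) d u (vOf al be r) (Tf u + bf u * vOf al be r) 1 0)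
    (fun w hw hw0 _ h h' => orbit_exitP_pos_six hf hb hw hw0 (hup w hw hw0 (by linarith) h'))
    (fun w hw hw0 hwu => ?_) (fun u r hu0 hu hE hv hv1 => ?_)
    (fun u r hu hu' _ hr _ hv hv1 he hp => ?_) hw hw0 hu hwu
  · refine lt_of_lt_of_eq key ?_
    simp only [bandT, tangentExt, if_pos hwu, ratA, ratB, ← hald, ← hbed, ← hdd]
    ring_nf
  · rcases lt_or_ge (uOf N (R w) (x w)) (1 / 2) with g | g
    · refine lt_of_lt_of_eq (orbit_upper_six hf hb hw hw0 (by linarith)) ?_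
      simp only [bandT, bandL, sixUfun, if_pos g, ← hald, ← hbed, ← hdd]
      ring
    · refine lt_of_lt_of_eq (hup w hw hw0 g hwu) ?_
      simp only [bandT, if_neg (not_lt.2 g), ← hald, ← hbed, ← hdd]
  · have hu' : u ≤ 1 - 2 / 5 * d := by linarith
    simp only [tangentExt, if_pos hu', ← hald, ← hbed, ← hdd] at hv hv1 hE ⊢
    set v := vOf al be r
    have hg : 0 < 1 + d - u := by linarith
    have hL : 0 ≤ ratA (sixLayC d) 0 0 (1 + d) u + ratB (1 / 10) (1 + d) u * v := by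
      simp only [ratA, ratB, zero_mul, add_zero]
      exact add_nonneg (div_nonneg hC.le hg.le)
        (mul_nonneg (div_nonneg (by norm_num) hg.le) (by linarith))
    rcases lt_or_ge u (9749 / 10000) with g | g
    · have hU : (if u < 1 / 2 then sixUfun d u else Tf u) +
          (if u < 1 / 2 then 0 else bf u) * v ≤ 160 := by
        rcases lt_or_ge u (1 / 2) with g' | g'
        · simp only [if_pos g', zero_mul, add_zero]
          have k := Ex.pos_of_checkQuick six_low_crude (y₀ := u) (y₁ := 29 / 100) (y₂ := d)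
            (y₃ := al + be) (lowMem 10000 (by push_cast; linarith) (by push_cast; linarith))
            (lowMem 10000 (by norm_num) (by norm_num))
            (lowMem 10000 (by push_cast; linarith) (by push_cast; linarith))
            (hside.mem_high (by norm_num))
          simp only [sixU0, eRatN, eQuad, Ex.val, val_addU, val_mulU, val_subU] at k
          push_cast at k
          simp only [sixUfun, sixUc₁, sixUc₂, sixUc₃]
          linarith
        · simp only [if_neg (not_lt.2 g')]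
          exact hcrude u v g' hu hv hv1
      have h1 : d * u ≤ 1 / 16 := by
        have := mul_le_mul hd16.le (show u ≤ 1 by linarith) hu0.le (by norm_num)
        linarith
      have h2 := mul_le_mul_of_nonneg_left (sub_le_sub hU hL) (mul_pos hd hu0).le
      have h3 : d * u * (160 - 0) ≤ 10 := by linarith
      have h4 : (1 / 10000 : ℝ) ^ 2 ≤ (39 / 40 - u) ^ 2 := pow_le_pow_left₀ (by norm_num) (by linarith) 2
      linarith
    · have hnh : ¬ u < 1 / 2 := by linarith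
      simp only [if_neg hnh]
      have hle := hjoin u v g hu hv hv1 (hE g hu)
      have e : (sixLayC d + v / 10) / (1 + d - u) =
          ratA (sixLayC d) 0 0 (1 + d) u + ratB (1 / 10) (1 + d) u * v := by
        simp only [ratA, ratB, zero_mul, add_zero]
        ring
      rw [e] at hle
      have h5 := mul_nonneg (mul_pos hd hu0).le (sub_nonneg.2 hle)
      have h6 : 0 ≤ 1000000000 * (39 / 40 - u) ^ 2 := by positivity
      linarith
  · simp only [tangentExt, if_pos hu'] at he hp ⊢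
    exact six_lay_upperV hd hd16 hu hu' hv hv1 (al_v_lt_six hb hr (le_trans (by norm_num) hv))
      hside he hp

end Vale.Agent.P100.Calib.Band
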