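import Vale.Agent.P100.Calib.SlabSixTopDefs

/-!
# Certificates of the last strip and of the threshold, dimension six
-/

-- The checks are definitions, so that they run one after another with little memory.
set_option linter.defProp false

namespace Vale.Agent.P100.Calib.Band

open BoxPos

def six_top_0 : (sixLayCond 0 219).checkQuick sixLayCfg
    ⟨⟨0, 222, 100000⟩, ⟨2900, 20200, 10000⟩, ⟨0, 25001, 10000⟩, ⟨666666, 666675, 1000000⟩⟩ = true := by decide +kernel

def six_top_1 : (sixLayCond 0 30).checkQuick sixLayCfg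
    ⟨⟨222, 2501, 100000⟩, ⟨2900, 20200, 10000⟩, ⟨0, 12500, 10000⟩, ⟨666666, 666912, 1000000⟩⟩ = true := by decide +kernel

def six_top_2 : (sixLayCond 0 0).checkQuick sixLayCfg
    ⟨⟨222, 2501, 100000⟩, ⟨2900, 20200, 10000⟩, ⟨12500, 25001, 10000⟩, ⟨666666, 667645, 1000000⟩⟩ = true := by decide +kernel

def six_top_3 : (sixLayCond 46 0).checkQuick sixLayCfg
    ⟨⟨0, 222, 100000⟩, ⟨20200, 30127, 10000⟩, ⟨0, 12500, 10000⟩, ⟨666666, 666669, 1000000⟩⟩ = true := by decide +kernel

def six_top_4 : (sixLayCond 0 0).checkQuick sixLayCfg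
    ⟨⟨0, 222, 100000⟩, ⟨20200, 28850, 10000⟩, ⟨12500, 25001, 10000⟩, ⟨666666, 666675, 1000000⟩⟩ = true := by decide +kernel

def six_top_5 : (sixLayCond 60 0).checkQuick sixLayCfg
    ⟨⟨0, 222, 100000⟩, ⟨28850, 30253, 10000⟩, ⟨12500, 25001, 10000⟩, ⟨666666, 666675, 1000000⟩⟩ = true := by decide +kernel

def six_top_6 : (sixLayCond 52 0).checkQuick sixLayCfg
    ⟨⟨222, 2501, 100000⟩, ⟨20200, 28850, 10000⟩, ⟨0, 12500, 10000⟩, ⟨666666, 666912, 1000000⟩⟩ = true := by decide +kernel

def six_top_7 : (sixLayCond 112 0).checkQuick sixLayCfg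
    ⟨⟨222, 2501, 100000⟩, ⟨28850, 31478, 10000⟩, ⟨0, 12500, 10000⟩, ⟨666666, 666912, 1000000⟩⟩ = true := by decide +kernel

def six_top_8 : (sixLayCond 22 0).checkQuick sixLayCfg
    ⟨⟨222, 764, 100000⟩, ⟨20200, 28850, 10000⟩, ⟨12500, 25001, 10000⟩, ⟨666666, 666758, 1000000⟩⟩ = true := by decide +kernel

def six_top_9 : (sixLayCond 41 0).checkQuick sixLayCfg
    ⟨⟨764, 2501, 100000⟩, ⟨20200, 28850, 10000⟩, ⟨12500, 18750, 10000⟩, ⟨666666, 667217, 1000000⟩⟩ = true := by decide +kernel

def six_top_10 : (sixLayCond 34 0).checkQuick sixLayCfg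
    ⟨⟨764, 2501, 100000⟩, ⟨20200, 28850, 10000⟩, ⟨18750, 25001, 10000⟩, ⟨666666, 667645, 1000000⟩⟩ = true := by decide +kernel

def six_top_11 : (sixLayCond 100 0).checkQuick sixLayCfg
    ⟨⟨222, 2501, 100000⟩, ⟨28850, 33106, 10000⟩, ⟨12500, 25001, 10000⟩, ⟨666666, 667645, 1000000⟩⟩ = true := by decide +kernel

def six_top_12 : (sixPsiCond sixAN sixANb sixAG 0).checkQuick sixUpCfg
    (sixUpBox 9750 9751 2900 6950 0 301 666894) = true := by decide +kernel

def six_top_13 : (sixPsiCond sixAN sixANb sixAG 14).checkQuick sixUpCfg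
    (sixUpBox 9750 9751 6950 11000 0 301 666894) = true := by decide +kernel

def six_top_14 : (sixPsiCond sixBN sixBNb sixBG 0).checkQuick sixUpCfg
    (sixUpBox 9750 9751 2900 6800 300 1351 671230) = true := by decide +kernel

def six_top_15 : (sixPsiCond sixBN sixBNb sixBG 53).checkQuick sixUpCfg
    (sixUpBox 9750 9751 6800 10701 300 1351 671230) = true := by decide +kernel

def six_top_16 : (sixPsiCond sixCN sixCNb sixCG 0).checkQuick sixUpCfg
    (sixUpBox 9750 9751 2900 6275 1350 3334 673470) = true := by decide +kernel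

def six_top_17 : (sixPsiCond sixCN sixCNb sixCG 116).checkQuick sixUpCfg
    (sixUpBox 9750 9751 6275 9651 1350 2342 673470) = true := by decide +kernel

def six_top_18 : (sixPsiCond sixCN sixCNb sixCG 255).checkQuick sixUpCfg
    (sixUpBox 9750 9751 6275 9651 2342 2838 673470) = true := by decide +kernel

def six_top_19 : (sixPsiCond sixCN sixCNb sixCG 332).checkQuick sixUpCfg
    (sixUpBox 9750 9751 6275 7963 2838 3334 673470) = true := by decide +kernel

def six_top_20 : (sixPsiCond sixCN sixCNb sixCG 562).checkQuick sixUpCfg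
    (sixUpBox 9750 9751 7963 9651 2838 3334 673470) = true := by decide +kernel

def six_top_21 : (sixJoinCond sixAN sixANb sixAG 13099).checkQuick sixUpCfg
    (sixUpBox 9749 9751 2900 20200 0 150 666723) = true := by decide +kernel

def six_top_22 : (sixJoinCond sixAN sixANb sixAG 13099).checkQuick sixUpCfg
    (sixUpBox 9749 9751 2900 20200 150 301 666894) = true := by decide +kernel

def six_top_23 : (sixJoinCond sixAN sixANb sixAG 1915112).checkQuick sixUpCfg
    (sixUpBox 9749 9751 20200 37501 0 301 666894) = true := by decide +kernel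

def six_top_24 : (sixJoinCond sixBN sixBNb sixBG 1915112).checkQuick sixUpCfg
    (sixUpBox 9749 9751 2900 20200 300 626 667647) = true := by decide +kernel

def six_top_25 : (sixJoinCond sixBN sixBNb sixBG 1915112).checkQuick sixUpCfg
    (sixUpBox 9749 9751 20200 37501 300 626 667647) = true := by decide +kernel

end Vale.Agent.P100.Calib.Band
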