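import Vale.Agent.P100.Calib.SlabSixUpperBox

/-!
# The threshold and the join with the last strip, dimension six: expressions
-/

namespace Vale.Agent.P100.Calib.Band

open BoxPos

local instance sixTopAdd : Add Ex := ⟨Ex.add⟩
local instance sixTopSub : Sub Ex := ⟨Ex.sub⟩
local instance sixTopMul : Mul Ex := ⟨Ex.mul⟩

/-- `11/10 - d - v`. -/
def sixPsiGap : Ex := eC 11 10 - eD - eV

/-- `- G dv - m (psi - v)` at the band `(N + Nb v)/G`. -/
def sixPsiCond (N Nb G : Ex) (m : ℕ) : Ex :=
  eC 0 - eDvH (N + Nb * eV) G - eC m 1000 * sixPsiGap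

/-- The last strip above the band, cleared. -/
def sixJoinGap (N Nb G : Ex) : Ex :=
  (eQuad 4600 150000 (-1750000) 10000 + eC 1 10 * eV) * G - (N + Nb * eV) * (eC 1 - eU + eD)

/-- `- G dv + m` times the gap of the join. -/
def sixJoinCond (N Nb G : Ex) (m : ℕ) : Ex :=
  eC 0 - eDvH (N + Nb * eV) G + eC m 1000 * sixJoinGap N Nb G

end Vale.Agent.P100.Calib.Band
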