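import Vale.Agent.P100.Calib.SlabSixUpperBox

/-!
# Certificates of the upper band of piece A
-/

-- The checks are definitions, so that they run one after another with little memory.
set_option linter.defProp false

namespace Vale.Agent.P100.Calib.Band

open BoxPos

def six_a_up_0 : (sixACond 0 0 0).checkQuick sixUpCfg
    (sixUpBox 5000 7000 2900 20200 0 301 666894) = true := by decide +kernel

def six_a_up_1 : (sixACond 0 89 0).checkQuick sixUpCfg
    (sixUpBox 7000 7862 2900 20200 0 301 666894) = true := by decide +kernel

def six_a_up_2 : (sixACond 0 175 0).checkQuick sixUpCfg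
    (sixUpBox 7862 8500 2900 11550 0 150 666723) = true := by decide +kernel

def six_a_up_3 : (sixACond 0 0 0).checkQuick sixUpCfg
    (sixUpBox 7862 8500 11550 20200 0 150 666723) = true := by decide +kernel

def six_a_up_4 : (sixACond 0 0 0).checkQuick sixUpCfg
    (sixUpBox 7862 8500 2900 20200 150 301 666894) = true := by decide +kernel

def six_a_up_5 : (sixACond 0 242 0).checkQuick sixUpCfg
    (sixUpBox 8500 8958 2900 11550 0 150 666723) = true := by decide +kernel

def six_a_up_6 : (sixACond 0 86 0).checkQuick sixUpCfg
    (sixUpBox 8500 8958 11550 20200 0 150 666723) = true := by decide +kernel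

def six_a_up_7 : (sixACond 0 0 0).checkQuick sixUpCfg
    (sixUpBox 8500 8958 2900 20200 150 301 666894) = true := by decide +kernel

def six_a_up_8 : (sixACond 0 2105 0).checkQuick sixUpCfg
    (sixUpBox 8958 9300 2900 11550 0 150 666723) = true := by decide +kernel

def six_a_up_9 : (sixACond 0 225 0).checkQuick sixUpCfg
    (sixUpBox 8958 9300 11550 20200 0 150 666723) = true := by decide +kernel

def six_a_up_10 : (sixACond 0 0 0).checkQuick sixUpCfg
    (sixUpBox 8958 9300 2900 20200 150 301 666894) = true := by decide +kernel

def six_a_up_11 : (sixACond 0 511 0).checkQuick sixUpCfg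
    (sixUpBox 9300 9559 2900 20200 0 301 666894) = true := by decide +kernel

def six_a_up_12 : (sixACond 0 851 0).checkQuick sixUpCfg
    (sixUpBox 9559 9751 2900 20200 0 301 666894) = true := by decide +kernel

def six_a_up_13 : (sixACond 0 0 232).checkQuick sixUpCfg
    (sixUpBox 9300 9559 20200 37501 0 301 666894) = true := by decide +kernel

def six_a_up_14 : (sixACond 0 0 0).checkQuick sixUpCfg
    (sixUpBox 9559 9751 20200 28850 0 150 666723) = true := by decide +kernel

def six_a_up_15 : (sixACond 17428 0 198).checkQuick sixUpCfg
    (sixUpBox 9559 9662 20200 28850 150 301 666894) = true := by decide +kernel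

def six_a_up_16 : (sixACond 0 0 282).checkQuick sixUpCfg
    (sixUpBox 9662 9751 20200 28850 150 225 666794) = true := by decide +kernel

def six_a_up_17 : (sixACond 0 0 0).checkQuick sixUpCfg
    (sixUpBox 9662 9751 20200 24525 225 301 666894) = true := by decide +kernel

def six_a_up_18 : (sixACond 51111 0 187).checkQuick sixUpCfg
    (sixUpBox 9662 9751 24525 28850 225 301 666894) = true := by decide +kernel

def six_a_out_0 : (Ex.sub (eC 0) sixAP).checkQuick sixUpCfg
    (sixUpBox 5000 7000 20200 37501 0 301 666894) = true := by decide +kernel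

def six_a_out_1 : (Ex.sub (eC 0) sixAP).checkQuick sixUpCfg
    (sixUpBox 7000 8500 20200 37501 0 301 666894) = true := by decide +kernel

def six_a_out_2 : (Ex.sub (eC 0) sixAP).checkQuick sixUpCfg
    (sixUpBox 8500 9300 20200 37501 0 301 666894) = true := by decide +kernel

def six_a_out_3 : (Ex.sub (eC 0) sixAP).checkQuick sixUpCfg
    (sixUpBox 9559 9751 28850 37501 0 150 666723) = true := by decide +kernel

def six_a_out_4 : (Ex.sub (eC 0) sixAP).checkQuick sixUpCfg
    (sixUpBox 9559 9751 28850 37501 150 301 666894) = true := by decide +kernel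

end Vale.Agent.P100.Calib.Band
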