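import Vale.Agent.P100.Calib.SlabSixUpperBox

/-!
# Certificates of the upper band of piece B
-/

-- The checks are definitions, so that they run one after another with little memory.
set_option linter.defProp false

namespace Vale.Agent.P100.Calib.Band

open BoxPos

def six_b_up_19 : (sixBCond 0 0 0).checkQuick sixUpCfg
    (sixUpBox 5000 7000 2900 20200 300 1351 671230) = true := by decide +kernel

def six_b_up_20 : (sixBCond 0 153 0).checkQuick sixUpCfg
    (sixUpBox 7000 7862 2900 20200 300 825 668369) = true := by decide +kernel

def six_b_up_21 : (sixBCond 0 91 0).checkQuick sixUpCfg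
    (sixUpBox 7000 7862 2900 20200 825 1351 671230) = true := by decide +kernel

def six_b_up_22 : (sixBCond 0 267 0).checkQuick sixUpCfg
    (sixUpBox 7862 8205 2900 11550 300 562 667457) = true := by decide +kernel

def six_b_up_23 : (sixBCond 0 142 0).checkQuick sixUpCfg
    (sixUpBox 7862 8205 2900 11550 562 825 668369) = true := by decide +kernel

def six_b_up_24 : (sixBCond 0 288 0).checkQuick sixUpCfg
    (sixUpBox 8205 8500 2900 11550 300 562 667457) = true := by decide +kernel

def six_b_up_25 : (sixBCond 0 148 0).checkQuick sixUpCfg
    (sixUpBox 8205 8500 2900 11550 562 825 668369) = true := by decide +kernel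

def six_b_up_26 : (sixBCond 0 0 0).checkQuick sixUpCfg
    (sixUpBox 7862 8500 11550 20200 300 825 668369) = true := by decide +kernel

def six_b_up_27 : (sixBCond 0 82 0).checkQuick sixUpCfg
    (sixUpBox 7862 8500 2900 11550 825 1351 671230) = true := by decide +kernel

def six_b_up_28 : (sixBCond 0 0 0).checkQuick sixUpCfg
    (sixUpBox 7862 8500 11550 20200 825 1351 671230) = true := by decide +kernel

def six_b_up_29 : (sixBCond 0 5031503953 0).checkQuick sixUpCfg
    (sixUpBox 8500 8745 2900 7225 300 562 667457) = true := by decide +kernel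

def six_b_up_30 : (sixBCond 0 299 0).checkQuick sixUpCfg
    (sixUpBox 8500 8745 7225 11550 300 562 667457) = true := by decide +kernel

def six_b_up_31 : (sixBCond 0 155 0).checkQuick sixUpCfg
    (sixUpBox 8500 8745 2900 11550 562 825 668369) = true := by decide +kernel

def six_b_up_32 : (sixBCond 0 358 0).checkQuick sixUpCfg
    (sixUpBox 8745 8958 2900 11550 300 562 667457) = true := by decide +kernel

def six_b_up_33 : (sixBCond 0 152 0).checkQuick sixUpCfg
    (sixUpBox 8745 8958 2900 11550 562 825 668369) = true := by decide +kernel

def six_b_up_34 : (sixBCond 0 0 0).checkQuick sixUpCfg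
    (sixUpBox 8500 8958 11550 20200 300 825 668369) = true := by decide +kernel

def six_b_up_35 : (sixBCond 0 75 0).checkQuick sixUpCfg
    (sixUpBox 8500 8745 2900 11550 825 1351 671230) = true := by decide +kernel

def six_b_up_36 : (sixBCond 0 71 0).checkQuick sixUpCfg
    (sixUpBox 8745 8958 2900 11550 825 1088 669627) = true := by decide +kernel

def six_b_up_37 : (sixBCond 0 25 0).checkQuick sixUpCfg
    (sixUpBox 8745 8958 2900 11550 1088 1351 671230) = true := by decide +kernel

def six_b_up_38 : (sixBCond 0 0 0).checkQuick sixUpCfg
    (sixUpBox 8500 8958 11550 20200 825 1351 671230) = true := by decide +kernel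

def six_b_up_39 : (sixBCond 0 414 0).checkQuick sixUpCfg
    (sixUpBox 8958 9141 2900 11550 300 562 667457) = true := by decide +kernel

def six_b_up_40 : (sixBCond 0 161 0).checkQuick sixUpCfg
    (sixUpBox 8958 9141 2900 11550 562 825 668369) = true := by decide +kernel

def six_b_up_41 : (sixBCond 0 490 0).checkQuick sixUpCfg
    (sixUpBox 9141 9300 2900 11550 300 562 667457) = true := by decide +kernel

def six_b_up_42 : (sixBCond 0 158 0).checkQuick sixUpCfg
    (sixUpBox 9141 9300 2900 11550 562 825 668369) = true := by decide +kernel

def six_b_up_43 : (sixBCond 0 0 0).checkQuick sixUpCfg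
    (sixUpBox 8958 9300 11550 20200 300 825 668369) = true := by decide +kernel

def six_b_up_44 : (sixBCond 0 66 0).checkQuick sixUpCfg
    (sixUpBox 8958 9300 2900 11550 825 1351 671230) = true := by decide +kernel

def six_b_up_45 : (sixBCond 0 0 0).checkQuick sixUpCfg
    (sixUpBox 8958 9300 11550 20200 825 1351 671230) = true := by decide +kernel

def six_b_up_46 : (sixBCond 0 415 0).checkQuick sixUpCfg
    (sixUpBox 9300 9559 2900 11550 300 825 668369) = true := by decide +kernel

def six_b_up_47 : (sixBCond 0 0 0).checkQuick sixUpCfg
    (sixUpBox 9300 9559 11550 20200 300 825 668369) = true := by decide +kernel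

def six_b_up_48 : (sixBCond 0 41 0).checkQuick sixUpCfg
    (sixUpBox 9300 9559 2900 11550 825 1351 671230) = true := by decide +kernel

def six_b_up_49 : (sixBCond 0 0 0).checkQuick sixUpCfg
    (sixUpBox 9300 9559 11550 20200 825 1351 671230) = true := by decide +kernel

def six_b_up_50 : (sixBCond 0 8847096241 0).checkQuick sixUpCfg
    (sixUpBox 9559 9751 2900 11550 300 825 668369) = true := by decide +kernel

def six_b_up_51 : (sixBCond 0 0 0).checkQuick sixUpCfg
    (sixUpBox 9559 9751 11550 20200 300 825 668369) = true := by decide +kernel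

def six_b_up_52 : (sixBCond 0 416 0).checkQuick sixUpCfg
    (sixUpBox 9559 9751 2900 11550 825 1351 671230) = true := by decide +kernel

def six_b_up_53 : (sixBCond 0 0 0).checkQuick sixUpCfg
    (sixUpBox 9559 9751 11550 20200 825 1351 671230) = true := by decide +kernel

def six_b_up_54 : (sixBCond 1637 0 48).checkQuick sixUpCfg
    (sixUpBox 9300 9559 20200 37501 300 825 668369) = true := by decide +kernel

def six_b_up_55 : (sixBCond 0 0 0).checkQuick sixUpCfg
    (sixUpBox 9300 9559 20200 37501 825 1351 671230) = true := by decide +kernel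

def six_b_up_56 : (sixBCond 4061 0 83).checkQuick sixUpCfg
    (sixUpBox 9559 9662 20200 28850 300 562 667457) = true := by decide +kernel

def six_b_up_57 : (sixBCond 0 0 0).checkQuick sixUpCfg
    (sixUpBox 9559 9662 20200 24525 562 825 668369) = true := by decide +kernel

def six_b_up_58 : (sixBCond 10515 0 0).checkQuick sixUpCfg
    (sixUpBox 9559 9662 24525 28850 562 825 668369) = true := by decide +kernel

def six_b_up_59 : (sixBCond 0 0 0).checkQuick sixUpCfg
    (sixUpBox 9662 9751 20200 24525 300 562 667457) = true := by decide +kernel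

def six_b_up_60 : (sixBCond 21358 0 0).checkQuick sixUpCfg
    (sixUpBox 9662 9751 24525 28850 300 562 667457) = true := by decide +kernel

def six_b_up_61 : (sixBCond 0 0 0).checkQuick sixUpCfg
    (sixUpBox 9662 9751 20200 24525 562 825 668369) = true := by decide +kernel

def six_b_up_62 : (sixBCond 12495 0 0).checkQuick sixUpCfg
    (sixUpBox 9662 9751 24525 28850 562 825 668369) = true := by decide +kernel

def six_b_up_63 : (sixBCond 782083 0 8065).checkQuick sixUpCfg
    (sixUpBox 9559 9751 28850 37501 300 825 668369) = true := by decide +kernel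

def six_b_up_64 : (sixBCond 747 0 0).checkQuick sixUpCfg
    (sixUpBox 9559 9751 20200 28850 825 1351 671230) = true := by decide +kernel

def six_b_up_65 : (sixBCond 77798776113 0 0).checkQuick sixUpCfg
    (sixUpBox 9559 9751 28850 37501 825 1351 671230) = true := by decide +kernel

def six_b_out_0 : (Ex.sub (eC 0) sixBP).checkQuick sixUpCfg
    (sixUpBox 5000 7000 20200 37501 300 1351 671230) = true := by decide +kernel

end Vale.Agent.P100.Calib.Band
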