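import Vale.Agent.P100.Calib.SlabUpperLowDefs
import Vale.Agent.P100.Calib.BoxPosFast

/-!
# Boxes of the low piece: `S` next to `3/5`
-/

namespace Vale.Agent.P100.Calib.Band

open BoxPos

/-- The packing away from the corner. -/
def lowFlatCfg : Cfg := ⟨620, ⟨12, 3, 12, 6⟩⟩

/-- The packing in the corner. -/
def lowCornCfg : Cfg := ⟨720, ⟨19, 3, 12, 6⟩⟩

/-- A box; `S` runs from `3/5` to `s` millionths. -/
def lowUpBox (a b : ℤ) (k : ℕ) (x y p q s : ℤ) : Box :=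
  ⟨⟨a, b, k⟩, ⟨x, y, 10000⟩, ⟨p, q, 10000⟩, ⟨600000, s, 1000000⟩⟩

theorem lowMem {a b : ℤ} (k : ℕ) {x : ℝ} (h1 : (a : ℝ) / k ≤ x) (h2 : x < (b : ℝ) / k) :
    (⟨a, b, k⟩ : Side).Mem x :=
  ⟨h1, h2⟩

theorem lowS_mem {d c S : ℝ} {s : ℤ} (h0 : 0 ≤ d) (hdc : d ≤ c) (hs : S ≤ 3 / 5 + d * d / 3)
    (hs0 : 3 / 5 ≤ S) (h : 3 / 5 + c * c / 3 < (s : ℝ) / 1000000) :
    (⟨600000, s, 1000000⟩ : Side).Mem S := by
  have := mul_le_mul hdc hdc h0 (h0.trans hdc)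
  refine ⟨?_, ?_⟩ <;> push_cast <;> linarith

theorem lowV_lt {v d c H : ℝ} (hA : (3 / 5 - d) * v < 2) (hdc : d ≤ c) (hv : 0 ≤ v)
    (hH : 2 ≤ (3 / 5 - c) * H) (hc : c < 3 / 5) : v < H := by
  refine lt_of_mul_lt_mul_left (a := 3 / 5 - c) ?_ (by linarith)
  have := mul_le_mul_of_nonneg_right (sub_le_sub_left hdc (3 / 5)) hv
  linarith

end Vale.Agent.P100.Calib.Band
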