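import Vale.Agent.P100.Calib.SlabSixUpperDefs
import Vale.Agent.P100.Calib.SlabUpperLowBox

/-!
# Boxes of the upper bands of dimension six

`S` lies between `2/3` and each of `33/49`, `2/3 + d²/4`, `(3 - d)/4`.
-/

namespace Vale.Agent.P100.Calib.Band

open BoxPos

/-- The packing of the upper bands. -/
def sixUpCfg : Cfg := ⟨700, ⟨8, 3, 11, 6⟩⟩

/-- The packing of the last strip. -/
def sixLayCfg : Cfg := ⟨700, ⟨11, 3, 10, 6⟩⟩

/-- A box; `S` runs from `2/3` to `s` millionths. -/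
def sixUpBox (a b x y p q s : ℤ) : Box :=
  ⟨⟨a, b, 10000⟩, ⟨x, y, 10000⟩, ⟨p, q, 10000⟩, ⟨666666, s, 1000000⟩⟩

/-- The range of `S` at `d` under the pinch. -/
structure SixSide (d S : ℝ) : Prop where
  pos : 0 ≤ d
  low : 2 / 3 ≤ S
  high : S ≤ 33 / 49
  quad : S ≤ 2 / 3 + d * d / 4
  tri : d ≤ 3 - 4 * S

namespace SixSide

variable {d S : ℝ} {s : ℤ}

theorem mem_high (h : SixSide d S) (hs : (33 : ℝ) / 49 < (s : ℝ) / 1000000) :
    (⟨666666, s, 1000000⟩ : Side).Mem S := by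
  obtain ⟨-, h1, h2, -, -⟩ := h
  refine ⟨?_, ?_⟩ <;> push_cast <;> linarith

theorem mem_quad (h : SixSide d S) {c : ℝ} (hdc : d ≤ c)
    (hs : 2 / 3 + c * c / 4 < (s : ℝ) / 1000000) : (⟨666666, s, 1000000⟩ : Side).Mem S := by
  obtain ⟨h0, h1, -, h3, -⟩ := h
  have := mul_le_mul hdc hdc h0 (h0.trans hdc)
  refine ⟨?_, ?_⟩ <;> push_cast <;> linarith

theorem mem_tri (h : SixSide d S) {a : ℝ} (had : a ≤ d)
    (hs : (3 - a) / 4 < (s : ℝ) / 1000000) : (⟨666666, s, 1000000⟩ : Side).Mem S := by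
  obtain ⟨-, h1, -, -, h4⟩ := h
  refine ⟨?_, ?_⟩ <;> push_cast <;> linarith

end SixSide

end Vale.Agent.P100.Calib.Band
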