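import Vale.Agent.P100.Calib.SlabSixUpperBox

/-!
# Certificates of the upper band of piece C
-/

-- The checks are definitions, so that they run one after another with little memory.
set_option linter.defProp false

namespace Vale.Agent.P100.Calib.Band

open BoxPos

def six_c_up_66 : (sixCCond 0 0 0).checkQuick sixUpCfg
    (sixUpBox 5000 6117 2900 20200 1350 3334 673470) = true := by decide +kernel

def six_c_up_67 : (sixCCond 0 0 0).checkQuick sixUpCfg
    (sixUpBox 6117 7000 2900 20200 1350 2342 673470) = true := by decide +kernel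

def six_c_up_68 : (sixCCond 0 0 0).checkQuick sixUpCfg
    (sixUpBox 6117 7000 2900 11550 2342 3334 673470) = true := by decide +kernel

def six_c_up_69 : (sixCCond 0 21 0).checkQuick sixUpCfg
    (sixUpBox 7000 7463 2900 11550 1350 1846 673470) = true := by decide +kernel

def six_c_up_70 : (sixCCond 0 0 0).checkQuick sixUpCfg
    (sixUpBox 7000 7463 2900 7225 1846 2342 673470) = true := by decide +kernel

def six_c_up_71 : (sixCCond 0 0 0).checkQuick sixUpCfg
    (sixUpBox 7000 7463 7225 11550 1846 2342 673470) = true := by decide +kernel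

def six_c_up_72 : (sixCCond 0 7 0).checkQuick sixUpCfg
    (sixUpBox 7463 7862 2900 11550 1350 1846 673470) = true := by decide +kernel

def six_c_up_73 : (sixCCond 0 0 0).checkQuick sixUpCfg
    (sixUpBox 7463 7862 2900 7225 1846 2342 673470) = true := by decide +kernel

def six_c_up_74 : (sixCCond 0 0 0).checkQuick sixUpCfg
    (sixUpBox 7463 7862 7225 11550 1846 2342 673470) = true := by decide +kernel

def six_c_up_75 : (sixCCond 0 8 0).checkQuick sixUpCfg
    (sixUpBox 7000 7463 2900 7225 2342 2838 673470) = true := by decide +kernel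

def six_c_up_76 : (sixCCond 0 0 0).checkQuick sixUpCfg
    (sixUpBox 7000 7463 7225 11550 2342 2838 673470) = true := by decide +kernel

def six_c_up_77 : (sixCCond 0 0 0).checkQuick sixUpCfg
    (sixUpBox 7000 7463 2900 11550 2838 3334 673470) = true := by decide +kernel

def six_c_up_78 : (sixCCond 0 0 0).checkQuick sixUpCfg
    (sixUpBox 7463 7862 2900 7225 2342 2838 673470) = true := by decide +kernel

def six_c_up_79 : (sixCCond 0 0 0).checkQuick sixUpCfg
    (sixUpBox 7463 7862 7225 11550 2342 2838 673470) = true := by decide +kernel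

def six_c_up_80 : (sixCCond 0 9 0).checkQuick sixUpCfg
    (sixUpBox 7463 7862 2900 7225 2838 3334 673470) = true := by decide +kernel

def six_c_up_81 : (sixCCond 0 0 0).checkQuick sixUpCfg
    (sixUpBox 7463 7862 7225 11550 2838 3334 673470) = true := by decide +kernel

def six_c_up_82 : (sixCCond 0 0 0).checkQuick sixUpCfg
    (sixUpBox 7862 8205 2900 11550 1350 1846 673470) = true := by decide +kernel

def six_c_up_83 : (sixCCond 0 0 0).checkQuick sixUpCfg
    (sixUpBox 7862 8205 2900 7225 1846 2342 673470) = true := by decide +kernel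

def six_c_up_84 : (sixCCond 0 0 0).checkQuick sixUpCfg
    (sixUpBox 7862 8205 7225 11550 1846 2342 673470) = true := by decide +kernel

def six_c_up_85 : (sixCCond 0 0 0).checkQuick sixUpCfg
    (sixUpBox 8205 8500 2900 7225 1350 1846 673470) = true := by decide +kernel

def six_c_up_86 : (sixCCond 0 0 0).checkQuick sixUpCfg
    (sixUpBox 8205 8500 7225 11550 1350 1846 673470) = true := by decide +kernel

def six_c_up_87 : (sixCCond 0 0 0).checkQuick sixUpCfg
    (sixUpBox 8205 8500 2900 7225 1846 2342 673470) = true := by decide +kernel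

def six_c_up_88 : (sixCCond 0 0 0).checkQuick sixUpCfg
    (sixUpBox 8205 8358 7225 11550 1846 2094 673470) = true := by decide +kernel

def six_c_up_89 : (sixCCond 0 0 0).checkQuick sixUpCfg
    (sixUpBox 8205 8358 7225 9387 2094 2342 673470) = true := by decide +kernel

def six_c_up_90 : (sixCCond 0 0 0).checkQuick sixUpCfg
    (sixUpBox 8205 8358 9387 11550 2094 2342 673470) = true := by decide +kernel

def six_c_up_91 : (sixCCond 0 0 0).checkQuick sixUpCfg
    (sixUpBox 8358 8500 7225 9387 1846 2094 673470) = true := by decide +kernel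

def six_c_up_92 : (sixCCond 0 0 0).checkQuick sixUpCfg
    (sixUpBox 8358 8500 9387 11550 1846 2094 673470) = true := by decide +kernel

def six_c_up_93 : (sixCCond 0 0 0).checkQuick sixUpCfg
    (sixUpBox 8358 8500 7225 9387 2094 2342 673470) = true := by decide +kernel

def six_c_up_94 : (sixCCond 0 0 0).checkQuick sixUpCfg
    (sixUpBox 8358 8500 9387 11550 2094 2342 673470) = true := by decide +kernel

def six_c_up_95 : (sixCCond 0 0 0).checkQuick sixUpCfg
    (sixUpBox 7862 8500 11550 20200 1350 2342 673470) = true := by decide +kernel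

def six_c_up_96 : (sixCCond 0 0 0).checkQuick sixUpCfg
    (sixUpBox 7862 8205 2900 7225 2342 2838 673470) = true := by decide +kernel

def six_c_up_97 : (sixCCond 0 0 0).checkQuick sixUpCfg
    (sixUpBox 7862 8205 7225 11550 2342 2838 673470) = true := by decide +kernel

def six_c_up_98 : (sixCCond 0 17 0).checkQuick sixUpCfg
    (sixUpBox 7862 8205 2900 7225 2838 3334 673470) = true := by decide +kernel

def six_c_up_99 : (sixCCond 0 0 0).checkQuick sixUpCfg
    (sixUpBox 7862 8205 7225 11550 2838 3334 673470) = true := by decide +kernel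

def six_c_up_100 : (sixCCond 0 0 0).checkQuick sixUpCfg
    (sixUpBox 8205 8500 2900 7225 2342 2838 673470) = true := by decide +kernel

def six_c_up_101 : (sixCCond 0 0 0).checkQuick sixUpCfg
    (sixUpBox 8205 8358 7225 9387 2342 2590 673470) = true := by decide +kernel

def six_c_up_102 : (sixCCond 0 0 0).checkQuick sixUpCfg
    (sixUpBox 8205 8358 9387 11550 2342 2590 673470) = true := by decide +kernel

def six_c_up_103 : (sixCCond 0 0 0).checkQuick sixUpCfg
    (sixUpBox 8205 8358 7225 11550 2590 2838 673470) = true := by decide +kernel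

def six_c_up_104 : (sixCCond 0 0 0).checkQuick sixUpCfg
    (sixUpBox 8358 8500 7225 9387 2342 2590 673470) = true := by decide +kernel

def six_c_up_105 : (sixCCond 0 0 0).checkQuick sixUpCfg
    (sixUpBox 8358 8500 9387 11550 2342 2590 673470) = true := by decide +kernel

def six_c_up_106 : (sixCCond 0 0 0).checkQuick sixUpCfg
    (sixUpBox 8358 8500 7225 11550 2590 2838 673470) = true := by decide +kernel

def six_c_up_107 : (sixCCond 0 0 0).checkQuick sixUpCfg
    (sixUpBox 8205 8500 2900 7225 2838 3334 673470) = true := by decide +kernel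

def six_c_up_108 : (sixCCond 0 0 0).checkQuick sixUpCfg
    (sixUpBox 8205 8500 7225 11550 2838 3334 673470) = true := by decide +kernel

def six_c_up_109 : (sixCCond 0 2798021191 0).checkQuick sixUpCfg
    (sixUpBox 8500 8745 2900 7225 1350 1846 673470) = true := by decide +kernel

def six_c_up_110 : (sixCCond 0 0 0).checkQuick sixUpCfg
    (sixUpBox 8500 8745 7225 11550 1350 1846 673470) = true := by decide +kernel

def six_c_up_111 : (sixCCond 0 0 0).checkQuick sixUpCfg
    (sixUpBox 8500 8745 2900 7225 1846 2342 673470) = true := by decide +kernel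

def six_c_up_112 : (sixCCond 0 0 0).checkQuick sixUpCfg
    (sixUpBox 8500 8626 7225 9387 1846 2094 673470) = true := by decide +kernel

def six_c_up_113 : (sixCCond 0 0 0).checkQuick sixUpCfg
    (sixUpBox 8500 8626 9387 11550 1846 2094 673470) = true := by decide +kernel

end Vale.Agent.P100.Calib.Band
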