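import Vale.Agent.P100.Calib.SlabTailLowDefs
import Vale.Agent.P100.Calib.SlabTailExit
import Vale.Agent.P100.Calib.BoxPosFast

/-!
# Certificates of the exit curve to 79/80, low piece
-/

namespace Vale.Agent.P100.Calib.Band

open BoxPos

/-- A coefficient. -/
def lowCF0 : Ex := Ex.add (Ex.add (eC 36368 10000) (Ex.mul (eC 181564 10000) eD)) (Ex.mul (eC 6669050 10000) (Ex.mul eD eD))

/-- A coefficient. -/
def lowCF1 : Ex := Ex.add (Ex.add (eC 23882 10000) (Ex.mul (eC (-19814) 10000) eD)) (Ex.mul (eC (-1743146) 10000) (Ex.mul eD eD))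

/-- A coefficient. -/
def lowCF3 : Ex := Ex.add (Ex.add (eC 5623 10000) (Ex.mul (eC 274824 10000) eD)) (Ex.mul (eC 7628920 10000) (Ex.mul eD eD))

/-- A coefficient. -/
def lowCA : Ex := Ex.add (Ex.add (eC 1369 10000) (Ex.mul (eC 4375 10000) eD)) (Ex.mul (eC 13704 10000) (Ex.mul eD eD))

/-- A coefficient. -/
def lowCB : Ex := eC 96 10000

/-- A coefficient. -/
def lowCL : Ex := Ex.add (Ex.add (Ex.sub (eC 119 100) (Ex.mul (eC 67 20) eD)) (Ex.mul (Ex.sub (eC 31 20) (Ex.mul (eC 69 10) eD)) eU)) (Ex.mul (Ex.add (eC 11 20) (Ex.mul (eC 2 5) eD)) (Ex.mul eU eU))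

/-- A numerator. -/
def lowXLow : Ex := eExitPH (eCurveA lowCF0 lowCF1 lowCF3 lowCA lowCB) (eCurveW lowCA lowCB) (eCurveGW lowCF1 lowCF3 lowCA lowCB) lowCL (eC 1)

/-- A numerator. -/
def lowXHigh : Ex := eExitPH (eCurveA lowCF0 lowCF1 lowCF3 lowCA lowCB) (eCurveW lowCA lowCB) (eCurveGW lowCF1 lowCF3 lowCA lowCB) lowTailN lowTailG

/-- A numerator. -/
def lowSLow : Ex := eSlopePH (eCurveA lowCF0 lowCF1 lowCF3 lowCA lowCB) (eCurveW lowCA lowCB) (eCurveGW lowCF1 lowCF3 lowCA lowCB) lowCL (eC 1)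

/-- A numerator. -/
def lowSHigh : Ex := eSlopePH (eCurveA lowCF0 lowCF1 lowCF3 lowCA lowCB) (eCurveW lowCA lowCB) (eCurveGW lowCF1 lowCF3 lowCA lowCB) lowTailN lowTailG

/-- The end condition. -/
def lowEnd : Ex := Ex.sub (Ex.mul (Ex.sub (eC 3 5) eD) (eCurveA lowCF0 lowCF1 lowCF3 lowCA lowCB)) (Ex.mul (eC 2) (eCurveW lowCA lowCB))

theorem low_xlow_0 : lowXLow.checkQuick ⟨760, ⟨12, 0, 27, 4⟩⟩
    ⟨⟨0, 4000, 10000⟩, ⟨3300, 3301, 10000⟩, ⟨0, 501, 10000⟩, sideS⟩ = true := by decide +kernel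

theorem low_xlow_4000 : lowXLow.checkQuick ⟨760, ⟨12, 0, 27, 4⟩⟩
    ⟨⟨4000, 6001, 10000⟩, ⟨3300, 3301, 10000⟩, ⟨0, 501, 10000⟩, sideS⟩ = true := by decide +kernel

theorem low_xhigh_6000 : lowXHigh.checkQuick ⟨760, ⟨12, 0, 27, 4⟩⟩
    ⟨⟨6000, 8000, 10000⟩, ⟨3300, 3301, 10000⟩, ⟨0, 501, 10000⟩, sideS⟩ = true := by decide +kernel

theorem low_xhigh_8000 : lowXHigh.checkQuick ⟨760, ⟨12, 0, 27, 4⟩⟩
    ⟨⟨8000, 9000, 10000⟩, ⟨3300, 3301, 10000⟩, ⟨0, 501, 10000⟩, sideS⟩ = true := by decide +kernel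

theorem low_xhigh_9000 : lowXHigh.checkQuick ⟨760, ⟨12, 0, 27, 4⟩⟩
    ⟨⟨9000, 9500, 10000⟩, ⟨3300, 3301, 10000⟩, ⟨0, 501, 10000⟩, sideS⟩ = true := by decide +kernel

theorem low_xhigh_9500 : lowXHigh.checkQuick ⟨760, ⟨12, 0, 27, 4⟩⟩
    ⟨⟨9500, 9750, 10000⟩, ⟨3300, 3301, 10000⟩, ⟨0, 501, 10000⟩, sideS⟩ = true := by decide +kernel

theorem low_xhigh_9750 : lowXHigh.checkQuick ⟨760, ⟨12, 0, 27, 4⟩⟩
    ⟨⟨9750, 9876, 10000⟩, ⟨3300, 3301, 10000⟩, ⟨0, 501, 10000⟩, sideS⟩ = true := by decide +kernel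

theorem low_xhigh_9876 : lowXHigh.checkQuick ⟨760, ⟨12, 0, 27, 4⟩⟩
    ⟨⟨9876, 9920, 10000⟩, ⟨3300, 3301, 10000⟩, ⟨0, 377, 10000⟩, sideS⟩ = true := by decide +kernel

theorem low_xhigh_9920 : lowXHigh.checkQuick ⟨760, ⟨12, 0, 27, 4⟩⟩
    ⟨⟨9920, 9950, 10000⟩, ⟨3300, 3301, 10000⟩, ⟨0, 244, 10000⟩, sideS⟩ = true := by decide +kernel

theorem low_xhigh_9950 : lowXHigh.checkQuick ⟨760, ⟨12, 0, 27, 4⟩⟩
    ⟨⟨9950, 9975, 10000⟩, ⟨3300, 3301, 10000⟩, ⟨0, 153, 10000⟩, sideS⟩ = true := by decide +kernel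

theorem low_xhigh_9975 : lowXHigh.checkQuick ⟨760, ⟨12, 0, 27, 4⟩⟩
    ⟨⟨9975, 10001, 10000⟩, ⟨3300, 3301, 10000⟩, ⟨0, 77, 10000⟩, sideS⟩ = true := by decide +kernel

theorem low_slow_0 : lowSLow.checkQuick ⟨600, ⟨10, 0, 22, 2⟩⟩
    ⟨⟨0, 4000, 10000⟩, ⟨3300, 3301, 10000⟩, ⟨0, 501, 10000⟩, sideS⟩ = true := by decide +kernel

theorem low_slow_4000 : lowSLow.checkQuick ⟨600, ⟨10, 0, 22, 2⟩⟩
    ⟨⟨4000, 6001, 10000⟩, ⟨3300, 3301, 10000⟩, ⟨0, 501, 10000⟩, sideS⟩ = true := by decide +kernel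

theorem low_shigh_6000 : lowSHigh.checkQuick ⟨600, ⟨10, 0, 22, 2⟩⟩
    ⟨⟨6000, 8000, 10000⟩, ⟨3300, 3301, 10000⟩, ⟨0, 501, 10000⟩, sideS⟩ = true := by decide +kernel

theorem low_shigh_8000 : lowSHigh.checkQuick ⟨600, ⟨10, 0, 22, 2⟩⟩
    ⟨⟨8000, 9000, 10000⟩, ⟨3300, 3301, 10000⟩, ⟨0, 501, 10000⟩, sideS⟩ = true := by decide +kernel

theorem low_shigh_9000 : lowSHigh.checkQuick ⟨600, ⟨10, 0, 22, 2⟩⟩
    ⟨⟨9000, 9500, 10000⟩, ⟨3300, 3301, 10000⟩, ⟨0, 501, 10000⟩, sideS⟩ = true := by decide +kernel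

theorem low_shigh_9500 : lowSHigh.checkQuick ⟨600, ⟨10, 0, 22, 2⟩⟩
    ⟨⟨9500, 9750, 10000⟩, ⟨3300, 3301, 10000⟩, ⟨0, 501, 10000⟩, sideS⟩ = true := by decide +kernel

theorem low_shigh_9750 : lowSHigh.checkQuick ⟨600, ⟨10, 0, 22, 2⟩⟩
    ⟨⟨9750, 9876, 10000⟩, ⟨3300, 3301, 10000⟩, ⟨0, 501, 10000⟩, sideS⟩ = true := by decide +kernel

theorem low_shigh_9876 : lowSHigh.checkQuick ⟨600, ⟨10, 0, 22, 2⟩⟩
    ⟨⟨9876, 9920, 10000⟩, ⟨3300, 3301, 10000⟩, ⟨0, 377, 10000⟩, sideS⟩ = true := by decide +kernel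

theorem low_shigh_9920 : lowSHigh.checkQuick ⟨600, ⟨10, 0, 22, 2⟩⟩
    ⟨⟨9920, 9950, 10000⟩, ⟨3300, 3301, 10000⟩, ⟨0, 244, 10000⟩, sideS⟩ = true := by decide +kernel

theorem low_shigh_9950 : lowSHigh.checkQuick ⟨600, ⟨10, 0, 22, 2⟩⟩
    ⟨⟨9950, 9975, 10000⟩, ⟨3300, 3301, 10000⟩, ⟨0, 153, 10000⟩, sideS⟩ = true := by decide +kernel

theorem low_shigh_9975 : lowSHigh.checkQuick ⟨600, ⟨10, 0, 22, 2⟩⟩
    ⟨⟨9975, 10001, 10000⟩, ⟨3300, 3301, 10000⟩, ⟨0, 77, 10000⟩, sideS⟩ = true := by decide +kernel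

theorem low_end_check : lowEnd.checkQuick ⟨420, ⟨8, 3, 12, 4⟩⟩
    ⟨⟨9875, 9876, 10000⟩, ⟨3300, 3301, 10000⟩, ⟨378, 501, 10000⟩, sideS⟩ = true := by decide +kernel

/-- The end condition at `1 - u = 33/100 d`. -/
def lowEndD : Ex :=
  Ex.sub (Ex.mul (Ex.sub (eC 3 5) eD)
    (Ex.sub (Ex.sub (Ex.mul lowCF0 (Ex.mul (Ex.add (Ex.mul (eC 33 100) eD) lowCA) (Ex.add (Ex.mul (eC 33 100) eD) lowCB)))
      (Ex.mul (Ex.mul lowCF1 (Ex.mul (eC 33 100) eD)) (Ex.add (Ex.mul (eC 33 100) eD) lowCB)))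
      (Ex.mul (Ex.mul lowCF3 (Ex.mul (eC 33 100) eD)) (Ex.add (Ex.mul (eC 33 100) eD) lowCA))))
    (Ex.mul (eC 2) (Ex.mul (Ex.add (Ex.mul (eC 33 100) eD) lowCA) (Ex.add (Ex.mul (eC 33 100) eD) lowCB)))

theorem low_endD_check : lowEndD.checkQuick ⟨420, ⟨8, 3, 12, 4⟩⟩
    ⟨⟨9875, 9876, 10000⟩, ⟨3300, 3301, 10000⟩, ⟨0, 379, 10000⟩, sideS⟩ = true := by decide +kernel

end Vale.Agent.P100.Calib.Band
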