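import Vale.Agent.P100.Calib.SlabUpperLowExpr
import Vale.Agent.P100.Calib.SlabTailLowExitChecks

/-!
# Expressions of the tilted upper band, low piece

`A, B, C, D, b` quadratic in `d`, `p = 21003/10000 d`; `lowUpG` is `lowUpg` times `e` in the corner.
-/

namespace Vale.Agent.P100.Calib.Band

open BoxPos

/-- A quadratic in `d`. -/
def eQuad (a b c : ℤ) (k : ℕ) : Ex :=
  Ex.add (Ex.add (eC a k) (Ex.mul (eC b k) eD)) (Ex.mul (eC c k) (Ex.mul eD eD))

/-- A coefficient. -/
def lowUA : Ex := eQuad 2752 (-591490) 3423010 100000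

/-- A coefficient. -/
def lowUB : Ex := eQuad 28203 12200 (-1679960) 10000

/-- A coefficient. -/
def lowUC : Ex := eQuad 14906 (-148016) 343779 10000

/-- A coefficient. -/
def lowUD : Ex := eQuad 6491 (-196057) 1629351 10000

/-- A coefficient. -/
def lowUb : Ex := eQuad 25092 (-35066) 29962 10000

/-- A coefficient. -/
def lowUP : Ex := Ex.mul (eC 21003 10000) eD

/-- A coefficient. -/
def lowUQ : Ex := eC 714 10000

/-- A coefficient. -/
def lowUR : Ex := eC 24 100000

/-- The denominator. -/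
def lowUpG : Ex := eUpLG lowUP lowUQ lowUR

/-- The numerator. -/
def lowUpN : Ex := eUpLN lowUA lowUB lowUC lowUD lowUP lowUQ lowUR

/-- The slope numerator. -/
def lowUpM : Ex := eUpLM lowUA lowUC lowUD lowUP lowUQ lowUR

/-- The gap to the exit curve. -/
def lowUpP : Ex :=
  Ex.sub (eCurveA lowCF0 lowCF1 lowCF3 lowCA lowCB) (Ex.mul (eCurveW lowCA lowCB) eV)

/-- The condition. -/
def lowUpCond (i j l : ℕ) : Ex := eUpCondP lowUpN lowUpG lowUpM lowUb lowUpP i j l

/-- The denominator over `e` in the corner. -/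
def lowUpg : Ex :=
  Ex.mul (Ex.add (eC 1) (Ex.mul (eC 21003 10000) .x₂))
    (Ex.mul (Ex.add .x₀ lowUQ) (Ex.add .x₀ lowUR))

/-- The condition in the corner. -/
def lowUpCorn (i j l : ℕ) : Ex :=
  cUpCondP (toCorner lowUpN) lowUpg (toCorner lowUpM) (toCorner lowUb) (toCorner lowUpP) i j l

end Vale.Agent.P100.Calib.Band
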