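import Vale.Agent.P100.Calib.SlabSixUpperExpr
import Vale.Agent.P100.Calib.SlabUpperLowDefs

/-!
# The upper bands of dimension six past `u = 1/2`: expressions

On the pieces `A, B, C` of `d` a band `(n₀ + n₁ u + n₂ u² + b v)/(q - u)` under an exit curve of the
same shape; on the last strip `(23/50 + 15 d - 175 d² + v/10)/(e + d)`.
-/

namespace Vale.Agent.P100.Calib.Band

open BoxPos

local instance sixUpDefsAdd : Add Ex := ⟨Ex.add⟩
local instance sixUpDefsSub : Sub Ex := ⟨Ex.sub⟩
local instance sixUpDefsMul : Mul Ex := ⟨Ex.mul⟩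

/-- `n₀ + n₁ u + n₂ u²`. -/
def eRatN (n₀ n₁ n₂ : Ex) : Ex := n₀ + n₁ * eU + n₂ * (eU * eU)

/-- `G²` times the derivative in `u` of the band. -/
def eRatM (n₀ n₁ n₂ b G : Ex) : Ex := (n₁ + eC 2 * (n₂ * eU)) * G + (eRatN n₀ n₁ n₂ + b * eV)

/-- The upper band of piece A, numerator. -/
def sixAN : Ex := eRatN (eQuad 9899 25384 (-56770) 10000) (eQuad 22367 (-265277) 521275 10000) (eQuad (-23294) 218415 (-445561) 10000)

/-- Its tilt, numerator. -/
def sixANb : Ex := eQuad 1047 (-2664) 6386 10000

/-- Its denominator. -/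
def sixAG : Ex := eQuad 10213 4158 60449 10000 - eU

/-- Its slope, numerator. -/
def sixAM : Ex := eRatM (eQuad 9899 25384 (-56770) 10000) (eQuad 22367 (-265277) 521275 10000) (eQuad (-23294) 218415 (-445561) 10000) sixANb sixAG

/-- The gap under the exit curve. -/
def sixAP : Ex := eRatN (eQuad 4449 11025 450604 10000) (eQuad 1677 (-63372) 257195 10000) (eQuad (-4134) 52233 (-1111663) 10000) - (eQuad 10613 (-2562) (-126334) 10000 - eU) * eV

/-- The rung condition. -/
def sixACond (i j l : ℕ) : Ex :=
  eUpRat sixAN sixANb sixAG sixAM i j - eC l 1000 * (sixAG * sixAG * sixAP)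

/-- The upper band of piece B, numerator. -/
def sixBN : Ex := eRatN (eQuad 10782 12374 38760 10000) (eQuad 25272 (-275010) 503730 10000) (eQuad (-29700) 245756 (-383337) 10000)

/-- Its tilt, numerator. -/
def sixBNb : Ex := eQuad 2012 (-8887) 20378 10000

/-- Its denominator. -/
def sixBG : Ex := eQuad 10235 6592 61782 10000 - eU

/-- Its slope, numerator. -/
def sixBM : Ex := eRatM (eQuad 10782 12374 38760 10000) (eQuad 25272 (-275010) 503730 10000) (eQuad (-29700) 245756 (-383337) 10000) sixBNb sixBG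

/-- The gap under the exit curve. -/
def sixBP : Ex := eRatN (eQuad 4688 9807 143445 10000) (eQuad 778 42834 (-818829) 10000) (eQuad (-3339) (-87629) 887392 10000) - (eQuad 10679 (-15531) 94429 10000 - eU) * eV

/-- The rung condition. -/
def sixBCond (i j l : ℕ) : Ex :=
  eUpRat sixBN sixBNb sixBG sixBM i j - eC l 1000 * (sixBG * sixBG * sixBP)

/-- The upper band of piece C, numerator. -/
def sixCN : Ex := eRatN (eQuad 9974 31024 (-37444) 10000) (eQuad 22172 (-252383) 439811 10000) (eQuad (-28318) 252797 (-453520) 10000)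

/-- Its tilt, numerator. -/
def sixCNb : Ex := eQuad 2260 (-10274) 16907 10000

/-- Its denominator. -/
def sixCG : Ex := eQuad 10349 5840 65512 10000 - eU

/-- Its slope, numerator. -/
def sixCM : Ex := eRatM (eQuad 9974 31024 (-37444) 10000) (eQuad 22172 (-252383) 439811 10000) (eQuad (-28318) 252797 (-453520) 10000) sixCNb sixCG

/-- The gap under the exit curve. -/
def sixCP : Ex := eRatN (eQuad 1003 82233 (-211870) 10000) (eQuad 10241 (-191297) 483620 10000) (eQuad (-10414) 111314 (-276523) 10000) - (eQuad 9993 1635 682 10000 - eU) * eV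

/-- The rung condition. -/
def sixCCond (i j l : ℕ) : Ex :=
  eUpRat sixCN sixCNb sixCG sixCM i j - eC l 1000 * (sixCG * sixCG * sixCP)

/-- The band of the last strip at `v = 0`, numerator. -/
def sixLayN : Ex := toCorner (eQuad 4600 150000 (-1750000) 10000)

/-- Its denominator over `e`. -/
def sixLayg : Ex := eC 1 + .x₂

/-- The rung condition of the last strip. -/
def sixLayCond (i j : ℕ) : Ex :=
  cUpRat sixLayN (eC 1 10) sixLayg (sixLayN + eC 1 10 * eV) i j

end Vale.Agent.P100.Calib.Band
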