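import Vale.Agent.P100.Calib.SlabCornerExpr
import Vale.Agent.P100.Calib.SlabTailExit

/-!
# Tilted upper bands with three poles, for small `d`

`a = A/(e + p) + B + C (u - 3/5)/(e + q) + D (u - 3/5)/(e + r)` with `e = 1 - u`, and the rung
conditions with a third multiplier on a gap known to be nonnegative.
-/

namespace Vale.Agent.P100.Calib.Band

open BoxPos

local instance upLowAdd : Add Ex := ⟨Ex.add⟩
local instance upLowSub : Sub Ex := ⟨Ex.sub⟩
local instance upLowMul : Mul Ex := ⟨Ex.mul⟩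

/-- The band. -/
noncomputable def upLA (A B C D p q r u : ℝ) : ℝ :=
  A / (1 - u + p) + B + C * ((u - 3 / 5) / (1 - u + q)) + D * ((u - 3 / 5) / (1 - u + r))

/-- Its derivative. -/
noncomputable def upLD (A C D p q r u : ℝ) : ℝ :=
  A / (1 - u + p) ^ 2 + C * ((2 / 5 + q) / (1 - u + q) ^ 2) + D * ((2 / 5 + r) / (1 - u + r) ^ 2)

/-- The denominator. -/
noncomputable def upLG (p q r u : ℝ) : ℝ := (1 - u + p) * ((1 - u + q) * (1 - u + r))

/-- The numerator. -/
noncomputable def upLN (A B C D p q r u : ℝ) : ℝ :=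
  A * ((1 - u + q) * (1 - u + r)) + B * upLG p q r u +
    C * (u - 3 / 5) * ((1 - u + p) * (1 - u + r)) + D * (u - 3 / 5) * ((1 - u + p) * (1 - u + q))

/-- `G ^ 2` times the derivative. -/
noncomputable def upLM (A C D p q r u : ℝ) : ℝ :=
  A * (((1 - u + q) * (1 - u + r)) * ((1 - u + q) * (1 - u + r))) +
    C * (2 / 5 + q) * (((1 - u + p) * (1 - u + r)) * ((1 - u + p) * (1 - u + r))) +
    D * (2 / 5 + r) * (((1 - u + p) * (1 - u + q)) * ((1 - u + p) * (1 - u + q)))

theorem upLG_pos {p q r u : ℝ} (hp : u < 1 + p) (hq : u < 1 + q) (hr : u < 1 + r) :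
    0 < upLG p q r u :=
  mul_pos (by linarith) (mul_pos (by linarith) (by linarith))

theorem upLN_eq {A B C D p q r u : ℝ} (hp : u < 1 + p) (hq : u < 1 + q) (hr : u < 1 + r) :
    upLN A B C D p q r u = upLA A B C D p q r u * upLG p q r u := by
  have h1 : 1 - u + p ≠ 0 := by linarith
  have h2 : 1 - u + q ≠ 0 := by linarith
  have h3 : 1 - u + r ≠ 0 := by linarith
  simp only [upLN, upLA, upLG]
  generalize 1 - u + p = P at h1 ⊢
  generalize 1 - u + q = Q at h2 ⊢
  generalize 1 - u + r = T at h3 ⊢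
  field_simp

theorem upLM_eq {A C D p q r u : ℝ} (hp : u < 1 + p) (hq : u < 1 + q) (hr : u < 1 + r) :
    upLM A C D p q r u = upLD A C D p q r u * upLG p q r u ^ 2 := by
  have h1 : 1 - u + p ≠ 0 := by linarith
  have h2 : 1 - u + q ≠ 0 := by linarith
  have h3 : 1 - u + r ≠ 0 := by linarith
  simp only [upLM, upLD, upLG]
  generalize 1 - u + p = P at h1 ⊢
  generalize 1 - u + q = Q at h2 ⊢
  generalize 1 - u + r = T at h3 ⊢
  field_simp

theorem hasDerivAt_upL {A B C D p q r u : ℝ} (hp : u < 1 + p) (hq : u < 1 + q)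
    (hr : u < 1 + r) : HasDerivAt (upLA A B C D p q r) (upLD A C D p q r u) u := by
  have hx : ∀ c, u < 1 + c → HasDerivAt (fun t : ℝ => (t - 3 / 5) / (1 - t + c))
      ((2 / 5 + c) / (1 - u + c) ^ 2) u := fun c hc => by
    refine (((hasDerivAt_id u).sub_const (3 / 5)).fun_div
      (((hasDerivAt_id u).const_sub 1).add_const c)
      (by simp only [id_eq]; linarith)).congr_deriv ?_
    simp only [id_eq]
    ring
  refine (((((hasDerivAt_const u A).fun_div (((hasDerivAt_id u).const_sub 1).add_const p)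
    (by simp only [id_eq]; linarith)).add_const B).fun_add ((hx q hq).const_mul C)).fun_add
      ((hx r hr).const_mul D)).congr_deriv ?_
  simp only [upLD, id_eq]
  ring

/-- `upLG`. -/
def eUpLG (p q r : Ex) : Ex := (eC 1 - eU + p) * ((eC 1 - eU + q) * (eC 1 - eU + r))

/-- `upLN`. -/
def eUpLN (A B C D p q r : Ex) : Ex :=
  A * ((eC 1 - eU + q) * (eC 1 - eU + r)) + B * eUpLG p q r +
    C * (eU - eC 3 5) * ((eC 1 - eU + p) * (eC 1 - eU + r)) +
    D * (eU - eC 3 5) * ((eC 1 - eU + p) * (eC 1 - eU + q))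

/-- `upLM`. -/
def eUpLM (A C D p q r : Ex) : Ex :=
  A * (((eC 1 - eU + q) * (eC 1 - eU + r)) * ((eC 1 - eU + q) * (eC 1 - eU + r))) +
    C * (eC 2 5 + q) * (((eC 1 - eU + p) * (eC 1 - eU + r)) * ((eC 1 - eU + p) * (eC 1 - eU + r))) +
    D * (eC 2 5 + r) * (((eC 1 - eU + p) * (eC 1 - eU + q)) * ((eC 1 - eU + p) * (eC 1 - eU + q)))

/-- An expression in `(u, v, d, S)` read in the corner variables. -/
def toCorner : Ex → Ex
  | .cst n k => .cst n k
  | .x₀ => cU
  | .x₁ => .x₁
  | .x₂ => cD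
  | .x₃ => .x₃
  | .add a b => .add (toCorner a) (toCorner b)
  | .sub a b => .sub (toCorner a) (toCorner b)
  | .mul a b => .mul (toCorner a) (toCorner b)

theorem val_toCorner (e v ρ S : ℝ) : ∀ a : Ex,
    (toCorner a).val e v ρ S = a.val (1 - e) v (ρ * e) S
  | .cst n k => rfl
  | .x₀ => by simp [toCorner, cU, val_subK, Ex.val]
  | .x₁ => rfl
  | .x₂ => by simp [toCorner, cD, val_mulK, Ex.val]
  | .x₃ => rfl
  | .add a b => by simp [toCorner, Ex.val, val_toCorner e v ρ S a, val_toCorner e v ρ S b]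
  | .sub a b => by simp [toCorner, Ex.val, val_toCorner e v ρ S a, val_toCorner e v ρ S b]
  | .mul a b => by simp [toCorner, Ex.val, val_toCorner e v ρ S a, val_toCorner e v ρ S b]

variable (A B C D p q r : Ex) (u v d S : ℝ)

theorem val_upLG : (eUpLG p q r).val u v d S =
    upLG (p.val u v d S) (q.val u v d S) (r.val u v d S) u := by
  simp only [eUpLG, val_mulU, val_addU, val_subU, Ex.val, upLG]
  push_cast
  ring

theorem val_upLN : (eUpLN A B C D p q r).val u v d S = upLN (A.val u v d S) (B.val u v d S)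
    (C.val u v d S) (D.val u v d S) (p.val u v d S) (q.val u v d S) (r.val u v d S) u := by
  simp only [eUpLN, val_mulU, val_addU, val_subU, val_upLG, Ex.val, upLN]
  push_cast
  ring

theorem val_upLM : (eUpLM A C D p q r).val u v d S = upLM (A.val u v d S) (C.val u v d S)
    (D.val u v d S) (p.val u v d S) (q.val u v d S) (r.val u v d S) u := by
  simp only [eUpLM, val_mulU, val_addU, val_subU, Ex.val, upLM]
  push_cast
  ring

/-- The condition with a third multiplier `l` on the gap `P`. -/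
def eUpCondP (N G M b P : Ex) (i j l : ℕ) : Ex :=
  eUpCond N G M b i j - eC l 1000 * (G * G * P)

/-- The corner condition with a third multiplier. -/
def cUpCondP (N g M b P : Ex) (i j l : ℕ) : Ex :=
  cUpCond N g M b i j - eC l 1000 * (g * g * P)

theorem condP_imp {N G M b P : Ex} {i j l : ℕ} (h : 0 < (eUpCondP N G M b P i j l).val u v d S)
    (hP : 0 ≤ P.val u v d S) : 0 < (eUpCond N G M b i j).val u v d S := by
  simp only [eUpCondP, val_subU (eUpCond N G M b i j), val_mulU, Ex.val] at h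
  push_cast at h
  have := mul_nonneg (show (0 : ℝ) ≤ (l : ℝ) / 1000 by positivity)
    (mul_nonneg (mul_self_nonneg (G.val u v d S)) hP)
  linarith

theorem cornP_imp {N g M b P : Ex} {i j l : ℕ} (h : 0 < (cUpCondP N g M b P i j l).val u v d S)
    (hP : 0 ≤ P.val u v d S) : 0 < (cUpCond N g M b i j).val u v d S := by
  simp only [cUpCondP, val_subK (cUpCond N g M b i j), val_mulK, Ex.val] at h
  push_cast at h
  have := mul_nonneg (show (0 : ℝ) ≤ (l : ℝ) / 1000 by positivity)
    (mul_nonneg (mul_self_nonneg (g.val u v d S)) hP)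
  linarith

end Vale.Agent.P100.Calib.Band
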