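import Vale.Agent.P100.Calib.SlabCornerExpr
import Vale.Agent.P100.Calib.SlabUpperLowExpr

/-!
# Upper bands `(n₀ + n₁ u + n₂ u² + b v)/(q - u)`

The band and its tilt as functions of `u`, and the rung numerator at such a band: on the chart and
in the corner variables `(e, v, ρ, S)`, `u = 1 - e`, `d = ρ e`.
-/

namespace Vale.Agent.P100.Calib.Band

open BoxPos

local instance sixRatAdd : Add Ex := ⟨Ex.add⟩
local instance sixRatSub : Sub Ex := ⟨Ex.sub⟩
local instance sixRatMul : Mul Ex := ⟨Ex.mul⟩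

/-- The band at `v = 0`. -/
noncomputable def ratA (n₀ n₁ n₂ q u : ℝ) : ℝ := (n₀ + n₁ * u + n₂ * u ^ 2) / (q - u)

/-- Its derivative. -/
noncomputable def ratA' (n₀ n₁ n₂ q u : ℝ) : ℝ :=
  ((n₁ + 2 * n₂ * u) * (q - u) + (n₀ + n₁ * u + n₂ * u ^ 2)) / (q - u) ^ 2

/-- The tilt. -/
noncomputable def ratB (b q u : ℝ) : ℝ := b / (q - u)

/-- Its derivative. -/
noncomputable def ratB' (b q u : ℝ) : ℝ := b / (q - u) ^ 2

theorem hasDerivAt_ratA {n₀ n₁ n₂ q u : ℝ} (h : u < q) :
    HasDerivAt (ratA n₀ n₁ n₂ q) (ratA' n₀ n₁ n₂ q u) u := by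
  refine ((((hasDerivAt_id u).const_mul n₁).const_add n₀).fun_add
    (((hasDerivAt_id u).fun_pow 2).const_mul n₂)).fun_div ((hasDerivAt_id u).const_sub q)
    (by simp only [id_eq]; linarith) |>.congr_deriv ?_
  simp only [ratA', id_eq]
  ring

theorem hasDerivAt_ratB {b q u : ℝ} (h : u < q) : HasDerivAt (ratB b q) (ratB' b q u) u := by
  refine ((hasDerivAt_const u b).fun_div ((hasDerivAt_id u).const_sub q)
    (by simp only [id_eq]; linarith)).congr_deriv ?_
  simp only [ratB', id_eq]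
  ring

/-- The condition of the rung: `G ³ upperV - i lieE - j dv`, at `(N + Nb v)/G`. -/
def eUpRat (N Nb G M : Ex) (i j : ℕ) : Ex :=
  let n := N + Nb * eV
  eB * Nb * eU * G * eDvH n G + eB * eU * M * eLieE n G -
    G * (eLieA n G - n * eB * eLieE n G) -
    eC i 1000 * (G * G * eLieE n G) - eC j 1000 * (G * G * eDvH n G)

/-- The same in the corner variables; `g` is the denominator over `e`. -/
def cUpRat (N Nb g M : Ex) (i j : ℕ) : Ex :=
  let n := N + Nb * eV
  cB * Nb * cU * g * cDvH n g + cB * cU * M * cLieE n g -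
    g * (cLieA n g - n * cB * .x₀ * cLieE n g) -
    eC i 1000 * (g * g * cLieE n g) - eC j 1000 * (g * g * cDvH n g)

variable (u v d S : ℝ)

theorem val_dvH_rat {n G : Ex} {t : ℝ} (hn : n.val u v d S = t * G.val u v d S) :
    (eDvH n G).val u v d S = G.val u v d S * exitP S d u v t 1 0 := by
  obtain ⟨hB, hA, hQ⟩ := val_rat_parts u v d S
  simp only [eDvH, val_addT, val_subT, val_mulT, Ex.val, hB, hA, hQ, exitP, bandD, bandK, hn]
  push_cast
  ring

theorem upperV_pos_of_rat {N Nb G M : Ex} {i j : ℕ} {a a' β : ℝ}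
    (h : 0 < (eUpRat N Nb G M i j).val u v d S) (hG : 0 < G.val u v d S)
    (hn : N.val u v d S = a * G.val u v d S) (hb : Nb.val u v d S = β * G.val u v d S)
    (hm : M.val u v d S = a' * G.val u v d S ^ 2)
    (he : 0 < lieE S d u v (a + β * v) 1) (hp : 0 < exitP S d u v (a + β * v) 1 0) :
    0 < upperV S d u v (a + β * v) β a' := by
  obtain ⟨hB, -, -⟩ := val_rat_parts u v d S
  have hn' : (N + Nb * eV).val u v d S = (a + β * v) * G.val u v d S := by
    simp only [val_addU, val_mulU, Ex.val, hn, hb]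
    ring
  have e1 : (eLieE (N + Nb * eV) G).val u v d S =
      G.val u v d S * lieE S d u v (a + β * v) 1 := by
    rw [val_lieE, hn']
    simp only [lieE]
    ring
  have e2 := val_dvH_rat u v d S hn'
  have e3 : (eLieA (N + Nb * eV) G).val u v d S -
      (N + Nb * eV).val u v d S * bandB S d * (eLieE (N + Nb * eV) G).val u v d S =
      G.val u v d S ^ 2 * lieT S d u v (a + β * v) 0 0 := by
    rw [e1, val_lieA, hn']
    simp only [lieA, lieE, lieT, bandK, bandD]
    generalize bandB S d = B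
    generalize bandQ S d u v = Q
    ring
  simp only [eUpRat, val_subU, val_mulU, val_addU (eB * Nb * eU * G * _), e1, e2, hB, hm,
    hb] at h e3
  rw [e3] at h
  simp only [Ex.val, Int.cast_natCast, Nat.cast_ofNat] at h
  set g := G.val u v d S
  have h1 := mul_nonneg (show (0 : ℝ) ≤ i / 1000 by positivity)
    (mul_nonneg (pow_nonneg hG.le 3) he.le)
  have h2 := mul_nonneg (show (0 : ℝ) ≤ j / 1000 by positivity)
    (mul_nonneg (pow_nonneg hG.le 3) hp.le)
  refine pos_of_mul_pos_right (a := g ^ 3) ?_ (pow_nonneg hG.le 3)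
  simp only [upperV]
  linarith

variable (e ρ : ℝ)

theorem upperV_pos_of_ratCorner {N Nb g M : Ex} {i j : ℕ} {a a' β : ℝ} (hpe : 0 < e)
    (h : 0 < (cUpRat N Nb g M i j).val e v ρ S) (hg : 0 < g.val e v ρ S)
    (hn : N.val e v ρ S = a * (e * g.val e v ρ S))
    (hb : Nb.val e v ρ S = β * (e * g.val e v ρ S))
    (hm : M.val e v ρ S = a' * (e * g.val e v ρ S) ^ 2)
    (he : 0 < lieE S (ρ * e) (1 - e) v (a + β * v) 1)
    (hp : 0 < exitP S (ρ * e) (1 - e) v (a + β * v) 1 0) :
    0 < upperV S (ρ * e) (1 - e) v (a + β * v) β a' := by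
  have hn' : (N + Nb * eV).val e v ρ S = (a + β * v) * (e * g.val e v ρ S) := by
    simp only [val_addK, val_mulK, Ex.val, hn, hb]
    ring
  have kE := val_cLieE e v ρ S (N + Nb * eV) g
  have kX := val_cDvH e v ρ S (N + Nb * eV) g
  have kA := val_cLieA e v ρ S (N + Nb * eV) g
  rw [hn'] at kE kX kA
  obtain ⟨hB, -, -⟩ := val_corn_parts e v ρ S
  simp only [cUpRat, val_subK, val_mulK, val_addK (cB * Nb * cU * g * _), hn', hB,
    hm, hb] at h
  simp only [cU, val_subK, Ex.val, Int.cast_natCast, Int.cast_one, Nat.cast_one, div_one,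
    Nat.cast_ofNat] at h
  set G := g.val e v ρ S
  set E' := (cLieE (N + Nb * eV) g).val e v ρ S
  set X' := (cDvH (N + Nb * eV) g).val e v ρ S
  set A' := (cLieA (N + Nb * eV) g).val e v ρ S
  set H := e * G with hH
  have hHpos : 0 < H := mul_pos hpe hg
  have e1 : e ^ 2 * E' = H * lieE S (ρ * e) (1 - e) v (a + β * v) 1 := by
    rw [kE]
    simp only [lieE]
    ring
  have e2 : e * X' = H * exitP S (ρ * e) (1 - e) v (a + β * v) 1 0 := by
    rw [kX]
    simp only [exitP, bandK, bandD]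
    ring
  have e3 : e * A' - (a + β * v) * H * bandB S (ρ * e) * (e ^ 2 * E') =
      H ^ 2 * lieT S (ρ * e) (1 - e) v (a + β * v) 0 0 := by
    rw [e1, kA]
    simp only [lieA, lieE, lieT, bandK, bandD]
    generalize bandB S (ρ * e) = B
    generalize bandQ S (ρ * e) (1 - e) v = Q
    ring
  have hE : 0 < E' := pos_of_mul_pos_right (e1 ▸ mul_pos hHpos he) (by positivity)
  have hX : 0 < X' := pos_of_mul_pos_right (e2 ▸ mul_pos hHpos hp) hpe.le
  have h1 := mul_nonneg (show (0 : ℝ) ≤ i / 1000 by positivity) (mul_nonneg (sq_nonneg G) hE.le)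
  have h2 := mul_nonneg (show (0 : ℝ) ≤ j / 1000 by positivity) (mul_nonneg (sq_nonneg G) hX.le)
  have key : 0 < e * bandB S (ρ * e) * β * (1 - e) * (G * G) * X' +
      bandB S (ρ * e) * (1 - e) * (a' * H ^ 2) * E' -
      G * (A' - (a + β * v) * H * bandB S (ρ * e) * e * E') := by linarith
  refine pos_of_mul_pos_right (a := H ^ 3) ?_ (pow_nonneg hHpos.le 3)
  have k2 := mul_pos (pow_pos hpe 2) key
  have t1 := congrArg (fun t => bandB S (ρ * e) * β * (1 - e) * H ^ 2 * t) e2
  have t2 := congrArg (fun t => bandB S (ρ * e) * (1 - e) * a' * H ^ 2 * t) e1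
  have t3 := congrArg (fun t => H * t) e3
  simp only [upperV]
  simp only [hH] at t1 t2 t3 k2 ⊢
  linarith

end Vale.Agent.P100.Calib.Band
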