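import Vale.Agent.P100.Calib.SlabSixBands
import Vale.Agent.P100.Calib.SlabSixForwardTilt
import Vale.Agent.P100.Calib.SlabSixUpperBox

/-!
# A tilted upper band on `[1/2, 39/40]`, dimension six

From the band `sixUc` at `u = 1/2` and the rung sign under an exit curve `Phi`.
-/

namespace Vale.Agent.P100.Calib.Band

open BoxPos Bubble Chart

variable {N p q : ℝ} {S : Set ℝ} {R x y s dx dy : ℝ → ℝ}

/-- The range of `S` on the slab under the pinch. -/
theorem SlabBoxSix.sixSide {N al be : ℝ} (hb : SlabBoxSix N al be)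
    (hS : al + be ≤ 2 / 3 + (be - al) ^ 2 / 4) : SixSide (be - al) (al + be) := by
  obtain ⟨hal, hbe, hd, -⟩ := hb.facts
  refine ⟨hd.le, hb.S_low, hb.S_high, by rw [← sq]; exact hS, ?_⟩
  refine le_of_mul_le_mul_left (a := N) ?_ (by linarith [hb.six])
  linarith [hb.sum, hb.low]

/-- The band up to `u = 3/5` as a function. -/
noncomputable def sixUfun (d u : ℝ) : ℝ := sixUc₁ d + sixUc₂ d * u + sixUc₃ d * u ^ 2

/-- **A tilted upper band past `u = 1/2`.** -/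
theorem orbit_upper_ratio_six (hf : IsOrbitFns N p q S R x y s dx dy)
    (hb : SlabBoxSix N (1 / (p + 1)) (1 / (q + 1))) {n₀ n₁ n₂ qq b : ℝ} (hq : 39 / 40 < qq)
    {Phi : ℝ → ℝ}
    (hphi : ∀ w ∈ S, 0 < R w → 1 / 2 ≤ uOf N (R w) (x w) → uOf N (R w) (x w) ≤ 39 / 40 →
      vOf (1 / (p + 1)) (1 / (q + 1)) (y w / x w) < Phi (uOf N (R w) (x w)))
    (hbefore : ∀ u v, 0 < u → u ≤ 1 / 2 → 29 / 100 ≤ v →
      (1 / (q + 1) - 1 / (p + 1)) * (u * (sixUfun (1 / (q + 1) - 1 / (p + 1)) u -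
        ratA n₀ n₁ n₂ qq u - ratB b qq u * v)) ≤ (1 / 2 - u) ^ 2)
    (hsign : ∀ u v, 1 / 2 ≤ u → u ≤ 39 / 40 → 29 / 100 ≤ v → v ≤ 15 / 4 → v < Phi u →
      0 < lieE (1 / (p + 1) + 1 / (q + 1)) (1 / (q + 1) - 1 / (p + 1)) u v
          (ratA n₀ n₁ n₂ qq u + ratB b qq u * v) 1 →
      0 < exitP (1 / (p + 1) + 1 / (q + 1)) (1 / (q + 1) - 1 / (p + 1)) u v
          (ratA n₀ n₁ n₂ qq u + ratB b qq u * v) 1 0 →
      0 < upperV (1 / (p + 1) + 1 / (q + 1)) (1 / (q + 1) - 1 / (p + 1)) u v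
          (ratA n₀ n₁ n₂ qq u + ratB b qq u * v) (ratB b qq u)
          (ratA' n₀ n₁ n₂ qq u + ratB' b qq u * v))
    {w : ℝ} (hw : w ∈ S) (hw0 : 0 < R w) (hu : 1 / 2 ≤ uOf N (R w) (x w))
    (hwu : uOf N (R w) (x w) ≤ 39 / 40) :
    hOf N (R w) (x w) (y w) w < bandT N (1 / (p + 1)) (1 / (q + 1))
        (1 / (q + 1) - 1 / (p + 1)) (ratA n₀ n₁ n₂ qq) (uOf N (R w) (x w)) (y w / x w) +
      (1 / (q + 1) - 1 / (p + 1)) * uOf N (R w) (x w) *
        (ratB b qq (uOf N (R w) (x w)) * vOf (1 / (p + 1)) (1 / (q + 1)) (y w / x w)) := by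
  set al := 1 / (p + 1) with hald
  set be := 1 / (q + 1) with hbed
  set d := be - al with hdd
  have hT := hasDerivAt_tangentExt (e := 39 / 40) (f := ratA n₀ n₁ n₂ qq)
    (f' := ratA' n₀ n₁ n₂ qq) fun u hu => hasDerivAt_ratA (lt_of_le_of_lt hu hq)
  have hB := hasDerivAt_tangentExt (e := 39 / 40) (f := ratB b qq) (f' := ratB' b qq)
    fun u hu => hasDerivAt_ratB (lt_of_le_of_lt hu hq)
  have key := forwardUV_step_six hf hb (u₀ := 1 / 2) (u₁ := 39 / 40) (K := 1) (by norm_num)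
    one_pos hT hB (U₀ := sixUfun d) (b₀ := fun _ => 0)
    (fun u r => 1 / 2 ≤ u → vOf al be r < Phi u)
    (fun w hw hw0 hwu h => hphi w hw hw0 h hwu)
    (fun w hw hw0 hwu => ?_) (fun u r hu0 hu _ hv _ => ?_)
    (fun u r hu hu' _ _ hE hv hv1 he hp => ?_) hw hw0 hu hwu
  · refine lt_of_lt_of_eq key ?_
    simp only [bandT, tangentExt, if_pos hwu]
    rfl
  · refine lt_of_lt_of_eq (orbit_upper_six hf hb hw hw0 (hwu.trans (by norm_num))) ?_
    simp only [bandT, bandL, sixUfun, ← hald, ← hbed, ← hdd]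
    ring
  · have h := hbefore u _ hu0 hu hv
    have hu' : u ≤ 39 / 40 := hu.trans (by norm_num)
    simp only [tangentExt, if_pos hu']
    simp only [hald, hbed, hdd] at h ⊢
    linarith
  · simp only [tangentExt, if_pos hu'] at he hp ⊢
    exact hsign u _ hu hu' hv hv1 (hE hu) he hp

end Vale.Agent.P100.Calib.Band
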