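import Vale.Agent.P100.Calib.SlabRungChecks
import Vale.Agent.P100.Calib.SlabSlopeExpr

/-!
# Certificates of the bands, small difference of the exponents
-/

namespace Vale.Agent.P100.Calib.Band

open BoxPos

/-- A coefficient. -/
def smallL₁ : Ex := Ex.add (eC 119 100) (Ex.mul (eC (-67) 20) eD)

/-- A coefficient. -/
def smallL₂ : Ex := Ex.add (eC 31 20) (Ex.mul (eC (-69) 10) eD)

/-- A coefficient. -/
def smallL₃ : Ex := Ex.add (eC 11 20) (Ex.mul (eC 2 5) eD)

/-- A coefficient. -/
def smallA : Ex := Ex.add (eC 5 8) (Ex.mul (eC (-13) 50) eD)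

/-- A coefficient. -/
def smallB : Ex := Ex.add (eC 33 50) (Ex.mul (eC (-4) 5) eD)

/-- A coefficient. -/
def smallK : Ex := Ex.add (eC 5 8) (Ex.mul (eC 9 25) eD)

/-- A coefficient. -/
def smallU₁ : Ex := Ex.add (eC 161 100) (Ex.mul (eC (-28) 5) eD)

/-- A coefficient. -/
def smallU₂ : Ex := Ex.add (eC 7 10) (Ex.mul (eC (-4) 1) eD)

/-- A coefficient. -/
def smallU₃ : Ex := Ex.add (eC 89 20) (Ex.mul (eC (-45) 2) eD)

/-- A numerator. -/
def smallLie : Ex := eLie smallL₁ smallL₂ smallL₃

/-- A numerator. -/
def smallExit : Ex := eExitG smallA smallB smallK (eC 21 20) smallL₁ smallL₂ smallL₃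

/-- A numerator. -/
def smallSlope : Ex := eSlopeB smallA smallB smallK (eC 21 20) smallL₁ smallL₂ smallL₃

/-- A numerator. -/
def smallUpper : Ex := Ex.sub (eC 0) (eLie smallU₁ smallU₂ smallU₃)

/-- The packing for the exit at a band. -/
def smallExitCfg : Cfg := ⟨300, ⟨10, 0, 7, 4⟩⟩

/-- The packing for the slope at a band. -/
def smallSlopeCfg : Cfg := ⟨300, ⟨9, 0, 5, 3⟩⟩

theorem small_lie_0_0 : smallLie.check lieCfg (rBox 0 150 807 0 121) = true := by decide +kernel

theorem small_lie_150_0 : smallLie.check lieCfg (rBox 150 300 953 0 121) = true := by decide +kernel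

theorem small_lie_300_0 : smallLie.check lieCfg (rBox 300 450 1171 0 121) = true := by decide +kernel

theorem small_lie_450_0 : smallLie.check lieCfg (rBox 450 600 1536 0 121) = true := by decide +kernel

theorem small_lie_600_0 : smallLie.check lieCfg (rBox 600 700 1953 0 121) = true := by decide +kernel

theorem small_lie_700_0 : smallLie.check lieCfg (rBox 700 750 2265 0 121) = true := by decide +kernel

theorem small_lie_750_0 : smallLie.check lieCfg (rBox 750 801 2703 0 121) = true := by decide +kernel

theorem small_exit_0 : smallExit.check smallExitCfg (rBox 0 801 331 0 121) = true := by decide +kernel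

theorem small_slope_0 : smallSlope.check smallSlopeCfg (rBox 0 801 331 0 121) = true := by decide +kernel

theorem small_upper_0 : smallUpper.check lieCfg (rBox 0 150 741 0 121) = true := by decide +kernel

theorem small_upper_150 : smallUpper.check lieCfg (rBox 150 300 900 0 121) = true := by decide +kernel

theorem small_upper_300 : smallUpper.check lieCfg (rBox 300 400 1044 0 121) = true := by decide +kernel

theorem small_upper_400 : smallUpper.check lieCfg (rBox 400 500 1241 0 121) = true := by decide +kernel

theorem small_upper_500 : smallUpper.check lieCfg (rBox 500 550 1368 0 121) = true := by decide +kernel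

theorem small_upper_550 : smallUpper.check lieCfg (rBox 550 601 1526 0 121) = true := by decide +kernel

end Vale.Agent.P100.Calib.Band
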