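import Mathlib

/-!
# The quantities of the lower band of the strip

`StripAtoms` holds the variables; the other quantities are polynomials in them.
-/

namespace Vale.Agent.P100.Calib.Band

/-- The variables. -/
structure StripAtoms where
  /-- The variable `w`. -/
  w : ℝ
  /-- The variable `v`. -/
  v : ℝ
  /-- The variable `I`. -/
  I : ℝ
  /-- The variable `S`. -/
  S : ℝ
  /-- The variable `d`. -/
  d : ℝ
  /-- The variable `a`. -/
  a : ℝ
  /-- The variable `b`. -/
  b : ℝ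
  /-- The variable `K`. -/
  K : ℝ
  /-- The variable `IT`. -/
  IT : ℝ
  /-- The variable `dv`. -/
  dv : ℝ

namespace StripAtoms

variable (p : StripAtoms)

/-- `1 + d v`. -/
def q : ℝ := 1 + p.dv

/-- `2 + d v`. -/
def D0 : ℝ := 2 + p.dv

/-- `u = 1 - w`. -/
def u : ℝ := 1 - p.w

/-- `q u`. -/
def qu : ℝ := p.q * p.u

/-- `b - a q u`. -/
def P : ℝ := p.b - p.a * p.qu

/-- The function `allQn`. -/
def qn : ℝ := p.b * p.D0 - p.S * p.qu

/-- `u d`. -/
def ud : ℝ := p.u * p.d

/-- Minus the slope of `allEn` in `H`. -/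
def e1 : ℝ := p.ud * (p.qn - p.S * (p.w * p.b))

/-- `allEn` at `H = 0`. -/
def E0 : ℝ := p.qn - p.S * (p.w * (p.b * p.D0))

/-- The slope of `allFlow` in `H`. -/
def f0 : ℝ := p.qn + p.S * (p.K * p.ud)

/-- Minus `allFlow` at `H = 0`. -/
def N : ℝ := p.S * (p.K * p.D0)

/-- Ten times the coefficient of the band. -/
def G : ℝ := 10 * (p.S * (p.v * p.q)) + (2 + 20 * p.I) * (p.K * p.IT)

/-- Its derivative in `v`. -/
def Gv : ℝ := 10 * (p.S * (1 + 2 * p.dv)) - (1 + 10 * p.I) * (2 * (p.a * p.IT) + p.K * (p.S * p.d))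

/-- Ten times the numerator of the band in `H`. -/
def n : ℝ := 10 * p.K - p.w * p.G

/-- A hundred times the coefficient of the multiplier. -/
def be : ℝ := 4 + 20 * p.I + 15 * (p.I * (p.a * p.v)) + 113 * p.d - 80 * p.dv + 97 * p.w

/-- A part of `allFh` at `H = 0`. -/
def A0 : ℝ := p.N + p.S * (p.v * p.D0)

/-- A part of its slope. -/
def A1 : ℝ := p.f0 + p.S * (p.v * p.ud)

/-- A hundred times the derivative of the band in `v` at `H = 0`. -/
def FV : ℝ := 100 * p.a + 10 * (p.w * p.Gv)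

/-- The value at `H = 0`. -/
def c0 : ℝ := 100 * (p.P * p.A0) - 10 * (p.G * (p.u * p.E0)) - p.FV * (p.qu * p.N) - p.w *
    (p.be * p.N)

/-- The linear coefficient. -/
def c1 : ℝ := 10 * (p.G * (p.u * p.e1)) - 100 * (p.a * (p.qu * p.E0)) + p.FV * (p.qu * p.f0) +
    100 * (p.a * (p.ud * (p.qu * p.N))) - 100 * (p.P * (p.A1 + p.ud * p.A0 + p.E0)) + p.w *
    (p.be * p.f0)

/-- The quadratic coefficient. -/
def c2 : ℝ := 100 * (p.a * (p.qu * p.e1)) - 100 * (p.a * (p.ud * (p.qu * p.f0))) + 100 * (p.P *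
    (p.ud * p.A1 + p.e1))

/-- Minus the value at the band, cleared. -/
def condA : ℝ := -(p.c2 * (p.n * p.n) + 10 * (p.c1 * (p.n * p.P)) + 100 * (p.c0 * (p.P * p.P)))

/-- The slope at the band, cleared. -/
def condB : ℝ := 10 * (p.c1 * p.P) + 2 * (p.c2 * p.n)

/-- The slope where the radial speed vanishes, cleared. -/
def condC : ℝ := p.c1 * p.f0 + 2 * (p.c2 * p.N)

end StripAtoms

end Vale.Agent.P100.Calib.Band
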