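import Vale.Agent.P100.Pack.FastFour

/-!
# The test in four variables with the mask built row by row

`checkBig` is `checkFour` with `2 ^ (K * n)` computed as a power of the packing point of the first
variable, so that every exponent stays small.
-/

namespace Vale.Agent.P100.Pack

/-- `maskDigits` at `a` rows of `w` blocks. -/
def maskRows (K w a Z : ℕ) : Bool :=
  Nat.blt Z ((2 ^ (K * w)) ^ a) &&
    Nat.beq (Z &&& (2 ^ (K - 1) * (((2 ^ (K * w)) ^ a - 1) / (2 ^ K - 1)))) 0

theorem maskRows_eq (K w a Z : ℕ) : maskRows K w a Z = maskDigits K (a * w) Z := by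
  simp only [maskRows, maskDigits, repunit, ← pow_mul, mul_comm a w, mul_assoc]

/-- `checkFour` with `maskRows`. -/
noncomputable def checkBig (C : ℕ → Chart) (K a b c d : ℕ) (e : Ex) : Bool :=
  let P := pt4 C K (deg4 a b c d)
  chartsOk C && e.ok 4 && decide (1 ≤ K) &&
    (Nat.beq (eval4 P e).n₀ a && Nat.beq (eval4 P e).n₁ b && Nat.beq (eval4 P e).n₂ c &&
      Nat.beq (eval4 P e).n₃ d) &&
    Nat.blt (Nat.mul 2 (eval4 P e).bnd) (Nat.pow 2 K) && decide (0 ≤ (eval4 P e).val) &&
    maskRows K (width 3 (deg4 a b c d)) (a + 1) (eval4 P e).val.toNat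

theorem checkFour_of_big {C : ℕ → Chart} {K a b c d : ℕ} {e : Ex}
    (h : checkBig C K a b c d e = true) : checkFour C K a b c d e = true := by
  simpa only [checkBig, checkFour, maskRows_eq] using h

end Vale.Agent.P100.Pack
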