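import Vale.Agent.P100.Calib.SlabStripEndBig

/-!
# The test in four variables on signed magnitudes

`checkSgn` is `checkBig` with each value kept as one natural number and a sign, so the kernel keeps
fewer large numbers at once.
-/

namespace Vale.Agent.P100.Pack

/-- A sign and a magnitude. -/
structure Sg where
  neg : Bool
  mag : ℕ

/-- Signed value and degrees. -/
structure SgRes where
  val : Sg
  n₀ : ℕ
  n₁ : ℕ
  n₂ : ℕ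
  n₃ : ℕ

/-- The opposite. -/
def Sg.flip : Sg → Sg
  | ⟨s, m⟩ => ⟨!s, m⟩

/-- The sum. -/
def Sg.add : Sg → Sg → Sg
  | ⟨s, m⟩, ⟨t, n⟩ => cond (s == t) ⟨s, Nat.add m n⟩
      (cond (Nat.ble n m) ⟨s, Nat.sub m n⟩ ⟨t, Nat.sub n m⟩)

/-- The product. -/
def Sg.mul : Sg → Sg → Sg
  | ⟨s, m⟩, ⟨t, n⟩ => ⟨s != t, Nat.mul m n⟩

/-- The product with a natural number. -/
def Sg.scale : Sg → ℕ → Sg
  | ⟨s, m⟩, k => ⟨s, Nat.mul m k⟩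

/-- The power. -/
def Sg.pw : Sg → ℕ → Sg
  | ⟨s, m⟩, k => ⟨s && Nat.beq (Nat.mod k 2) 1, Nat.pow m k⟩

/-- The form of an integer. -/
def Sg.of : ℤ → Sg
  | .ofNat m => ⟨false, m⟩
  | .negSucc m => ⟨true, m + 1⟩

/-- The value brought to higher degrees. -/
def SgRes.lift (P : Pt4) (r : SgRes) (a b c e : ℕ) : Sg :=
  cond (Nat.beq a r.n₀ && (Nat.beq b r.n₁ && (Nat.beq c r.n₂ && Nat.beq e r.n₃))) r.val
    (r.val.scale (Nat.mul (Nat.pow P.p₀ (Nat.sub a r.n₀))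
      (Nat.mul (Nat.pow P.p₁ (Nat.sub b r.n₁))
        (Nat.mul (Nat.pow P.p₂ (Nat.sub c r.n₂)) (Nat.pow P.p₃ (Nat.sub e r.n₃))))))

/-- `eval4` with one natural number for each value. -/
noncomputable def evalSgn (P : Pt4) (e : Ex) : SgRes :=
  Ex.rec (motive := fun _ => SgRes)
    (fun i => Nat.casesOn i ⟨Sg.of P.x₀, 1, 0, 0, 0⟩
      fun i => Nat.casesOn i ⟨Sg.of P.x₁, 0, 1, 0, 0⟩
      fun i => Nat.casesOn i ⟨Sg.of P.x₂, 0, 0, 1, 0⟩ fun _ => ⟨Sg.of P.x₃, 0, 0, 0, 1⟩)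
    (fun z => ⟨Sg.of z, 0, 0, 0, 0⟩)
    (fun _ _ p q => ⟨Sg.add
        (p.lift P (nmax p.n₀ q.n₀) (nmax p.n₁ q.n₁) (nmax p.n₂ q.n₂) (nmax p.n₃ q.n₃))
        (q.lift P (nmax p.n₀ q.n₀) (nmax p.n₁ q.n₁) (nmax p.n₂ q.n₂) (nmax p.n₃ q.n₃)),
      nmax p.n₀ q.n₀, nmax p.n₁ q.n₁, nmax p.n₂ q.n₂, nmax p.n₃ q.n₃⟩)
    (fun _ _ p q => ⟨Sg.add
        (p.lift P (nmax p.n₀ q.n₀) (nmax p.n₁ q.n₁) (nmax p.n₂ q.n₂) (nmax p.n₃ q.n₃))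
        (q.lift P (nmax p.n₀ q.n₀) (nmax p.n₁ q.n₁) (nmax p.n₂ q.n₂) (nmax p.n₃ q.n₃)).flip,
      nmax p.n₀ q.n₀, nmax p.n₁ q.n₁, nmax p.n₂ q.n₂, nmax p.n₃ q.n₃⟩)
    (fun _ _ p q => ⟨Sg.mul p.val q.val, Nat.add p.n₀ q.n₀,
      Nat.add p.n₁ q.n₁, Nat.add p.n₂ q.n₂, Nat.add p.n₃ q.n₃⟩)
    (fun _ k p => ⟨p.val.pw k, Nat.mul k p.n₀, Nat.mul k p.n₁, Nat.mul k p.n₂, Nat.mul k p.n₃⟩)
    e

/-- The sign is plus and the magnitude passes the mask. -/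
def Sg.ok (K w a : ℕ) : Sg → Bool
  | ⟨false, m⟩ => maskRows K w a m
  | ⟨true, m⟩ => Nat.beq m 0

/-- `checkBig` on signed magnitudes. -/
noncomputable def checkSgn (C : ℕ → Chart) (K a b c d : ℕ) (e : Ex) : Bool :=
  let P := pt4 C K (deg4 a b c d)
  chartsOk C && e.ok 4 && decide (1 ≤ K) &&
    (Nat.beq (eval4 P e).n₀ a && Nat.beq (eval4 P e).n₁ b && Nat.beq (eval4 P e).n₂ c &&
      Nat.beq (eval4 P e).n₃ d) &&
    Nat.blt (Nat.mul 2 (eval4 P e).bnd) (Nat.pow 2 K) &&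
    (evalSgn P e).val.ok K (width 3 (deg4 a b c d)) (a + 1)

/-- The integer of a signed magnitude. -/
def Sg.toInt : Sg → ℤ
  | ⟨false, m⟩ => m
  | ⟨true, m⟩ => -(m : ℤ)

theorem Sg.toInt_of (z : ℤ) : (Sg.of z).toInt = z := by
  cases z <;> simp [Sg.of, Sg.toInt, Int.negSucc_eq]

theorem Sg.toInt_flip (x : Sg) : x.flip.toInt = -x.toInt := by
  rcases x with ⟨_ | _, m⟩ <;> simp [Sg.flip, Sg.toInt]

theorem Sg.toInt_add (x y : Sg) : (x.add y).toInt = x.toInt + y.toInt := by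
  rcases x with ⟨_ | _, m⟩ <;> rcases y with ⟨_ | _, n⟩
  all_goals rcases h : Nat.ble n m <;> simp [Sg.add, Sg.toInt, h]
  all_goals
    try simp only [Nat.ble_eq, Bool.eq_false_iff, ne_eq] at h
    try push_cast
    try omega

theorem Sg.toInt_mul (x y : Sg) : (x.mul y).toInt = x.toInt * y.toInt := by
  rcases x with ⟨_ | _, m⟩ <;> rcases y with ⟨_ | _, n⟩ <;> simp [Sg.mul, Sg.toInt]

theorem Sg.toInt_scale (x : Sg) (k : ℕ) : (x.scale k).toInt = x.toInt * (k : ℤ) := by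
  rcases x with ⟨_ | _, m⟩ <;> simp [Sg.scale, Sg.toInt]

theorem Sg.toInt_pw (x : Sg) (k : ℕ) : (x.pw k).toInt = x.toInt ^ k := by
  rcases x with ⟨_ | _, m⟩
  · simp [Sg.pw, Sg.toInt]
  · rcases Nat.even_or_odd k with hk | hk
    · have h : Nat.mod k 2 = 0 := Nat.even_iff.mp hk
      simp [Sg.pw, h, Sg.toInt, hk.neg_pow]
    · have h : Nat.mod k 2 = 1 := Nat.odd_iff.mp hk
      simp [Sg.pw, h, Sg.toInt, hk.neg_pow]

theorem SgRes.toInt_lift (P : Pt4) (r : SgRes) (r' : Res4) (a b c e : ℕ)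
    (h : r.val.toInt = r'.val ∧ r.n₀ = r'.n₀ ∧ r.n₁ = r'.n₁ ∧ r.n₂ = r'.n₂ ∧ r.n₃ = r'.n₃) :
    (r.lift P a b c e).toInt = r'.lift P a b c e := by
  obtain ⟨h0, h1, h2, h3, h4⟩ := h
  simp only [SgRes.lift, Res4.lift, h1, h2, h3, h4]
  cases (Nat.beq a r'.n₀ && (Nat.beq b r'.n₁ && (Nat.beq c r'.n₂ && Nat.beq e r'.n₃)))
  · exact (Sg.toInt_scale _ _).trans (by rw [h0]; rfl)
  · exact h0

/-- `r` and `r'` have one value and one list of degrees. -/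
def SgRes.Same (r : SgRes) (r' : Res4) : Prop :=
  r.val.toInt = r'.val ∧ r.n₀ = r'.n₀ ∧ r.n₁ = r'.n₁ ∧ r.n₂ = r'.n₂ ∧ r.n₃ = r'.n₃

theorem SgRes.toInt_pair (P : Pt4) {p q : SgRes} {p' q' : Res4} (hp : p.Same p') (hq : q.Same q') :
    (p.lift P (nmax p.n₀ q.n₀) (nmax p.n₁ q.n₁) (nmax p.n₂ q.n₂) (nmax p.n₃ q.n₃)).toInt =
        p'.lift P (nmax p'.n₀ q'.n₀) (nmax p'.n₁ q'.n₁) (nmax p'.n₂ q'.n₂) (nmax p'.n₃ q'.n₃) ∧
      (q.lift P (nmax p.n₀ q.n₀) (nmax p.n₁ q.n₁) (nmax p.n₂ q.n₂) (nmax p.n₃ q.n₃)).toInt =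
        q'.lift P (nmax p'.n₀ q'.n₀) (nmax p'.n₁ q'.n₁) (nmax p'.n₂ q'.n₂) (nmax p'.n₃ q'.n₃) := by
  rw [SgRes.toInt_lift P p p' _ _ _ _ hp, SgRes.toInt_lift P q q' _ _ _ _ hq,
    hp.2.1, hp.2.2.1, hp.2.2.2.1, hp.2.2.2.2, hq.2.1, hq.2.2.1, hq.2.2.2.1, hq.2.2.2.2]
  exact ⟨rfl, rfl⟩

theorem SgRes.degrees {p q : SgRes} {p' q' : Res4} (hp : p.Same p') (hq : q.Same q') :
    nmax p.n₀ q.n₀ = nmax p'.n₀ q'.n₀ ∧ nmax p.n₁ q.n₁ = nmax p'.n₁ q'.n₁ ∧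
      nmax p.n₂ q.n₂ = nmax p'.n₂ q'.n₂ ∧ nmax p.n₃ q.n₃ = nmax p'.n₃ q'.n₃ :=
  ⟨congrArg₂ nmax hp.2.1 hq.2.1, congrArg₂ nmax hp.2.2.1 hq.2.2.1,
    congrArg₂ nmax hp.2.2.2.1 hq.2.2.2.1, congrArg₂ nmax hp.2.2.2.2 hq.2.2.2.2⟩

theorem evalSgn_eq (P : Pt4) : ∀ e : Ex, (evalSgn P e).val.toInt = (eval4 P e).val ∧
    (evalSgn P e).n₀ = (eval4 P e).n₀ ∧ (evalSgn P e).n₁ = (eval4 P e).n₁ ∧
    (evalSgn P e).n₂ = (eval4 P e).n₂ ∧ (evalSgn P e).n₃ = (eval4 P e).n₃ := by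
  intro e
  induction e with
  | var i =>
    rcases i with _ | _ | _ | i <;> exact ⟨Sg.toInt_of _, rfl, rfl, rfl, rfl⟩
  | num z => exact ⟨Sg.toInt_of _, rfl, rfl, rfl, rfl⟩
  | add e f he hf =>
    exact ⟨(Sg.toInt_add _ _).trans
      (congrArg₂ Int.add (SgRes.toInt_pair P he hf).1 (SgRes.toInt_pair P he hf).2),
      SgRes.degrees he hf⟩
  | sub e f he hf =>
    exact ⟨((Sg.toInt_add _ _).trans (congrArg₂ (· + ·) (SgRes.toInt_pair P he hf).1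
      ((Sg.toInt_flip _).trans (congrArg Neg.neg (SgRes.toInt_pair P he hf).2)))).trans
      (Int.sub_eq_add_neg).symm, SgRes.degrees he hf⟩
  | mul e f he hf =>
    obtain ⟨e0, e1, e2, e3, e4⟩ := he
    obtain ⟨f0, f1, f2, f3, f4⟩ := hf
    exact ⟨(Sg.toInt_mul _ _).trans (congrArg₂ Int.mul e0 f0), congrArg₂ Nat.add e1 f1,
      congrArg₂ Nat.add e2 f2, congrArg₂ Nat.add e3 f3, congrArg₂ Nat.add e4 f4⟩
  | pow e k he =>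
    obtain ⟨e0, e1, e2, e3, e4⟩ := he
    exact ⟨(Sg.toInt_pw _ k).trans (congrArg (· ^ k) e0), congrArg (Nat.mul k) e1,
      congrArg (Nat.mul k) e2, congrArg (Nat.mul k) e3, congrArg (Nat.mul k) e4⟩

theorem checkFour_of_sgn {C : ℕ → Chart} {K a b c d : ℕ} {e : Ex}
    (h : checkSgn C K a b c d e = true) : checkFour C K a b c d e = true := by
  obtain ⟨hv, -, -, -, -⟩ := evalSgn_eq (pt4 C K (deg4 a b c d)) e
  simp only [checkSgn, Bool.and_eq_true] at h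
  obtain ⟨h1, h2⟩ := h
  obtain ⟨s, m, hs⟩ : ∃ s m, (evalSgn (pt4 C K (deg4 a b c d)) e).val = ⟨s, m⟩ := ⟨_, _, rfl⟩
  rw [hs] at h2 hv
  rcases s with _ | _
  · simp only [checkFour, Bool.and_eq_true, ← hv, Sg.toInt, Int.toNat_natCast]
    exact ⟨⟨h1, by simp⟩, by rw [← maskRows_eq]; exact h2⟩
  · simp only [Sg.ok, Nat.beq_eq] at h2
    subst h2
    simp only [checkFour, Bool.and_eq_true, ← hv, Sg.toInt, Nat.cast_zero, neg_zero, Int.toNat_zero]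
    exact ⟨⟨h1, by simp⟩, by simp [maskDigits]⟩

end Vale.Agent.P100.Pack
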