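import Vale.Agent.P100.Pack.FastFour

/-!
# The ray gap of the strip: numerator

In the variables `2 a`, `d`, a numerator and denominator of `v`, numerators of `g`, `g W R`, `g E`,
`g K`, the denominator of the last two, `R`, `G d²/(a b)` and `D2 d`.
-/

namespace Vale.Agent.P100.Calib.StripMid

open Pack Pack.Ex

local instance llgAdd : Add Ex := ⟨Ex.add⟩
local instance llgMul : Mul Ex := ⟨Ex.mul⟩

/-- A coefficient. -/
def coL0 : Ex := ((var 0)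
 * ((((var 2)
 * ((var 3)
 * ((var 3)
 * ((var 3)
 * (num (256))))))
 + ((var 1)
 * (((var 2)
 * (((var 3)
 * ((var 3)
 * ((var 3)
 * (num (-256)))))
 + ((var 2)
 * ((var 3)
 * ((var 3)
 * (num (384)))))))
 + ((var 1)
 * (((var 2)
 * ((var 2)
 * (((var 3)
 * ((var 3)
 * (num (-384))))
 + ((var 2)
 * ((var 3)
 * (num (128)))))))
 + ((var 1)
 * ((var 2)
 * ((var 2)
 * ((var 2)
 * ((var 3)
 * (num (-128))))))))))))
 + ((var 0)
 * (((var 2)
 * ((var 3)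
 * ((var 3)
 * ((var 3)
 * (num (-256))))))
 + ((var 1)
 * (((var 2)
 * ((var 2)
 * ((var 3)
 * ((var 3)
 * (num (-384))))))
 + ((var 1)
 * ((var 2)
 * ((var 2)
 * ((var 2)
 * ((var 3)
 * (num (-128)))))))))))))

/-- A coefficient. -/
def coL1 : Ex := ((var 0)
 * (((var 1)
 * (((var 3)
 * ((var 3)
 * ((var 3)
 * ((var 3)
 * (num (-256))))))
 + ((var 1)
 * ((((var 3)
 * ((var 3)
 * ((var 3)
 * ((var 3)
 * (num (256))))))
 + ((var 2)
 * ((var 3)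
 * ((var 3)
 * ((var 3)
 * (num (-384)))))))
 + ((var 1)
 * (((var 2)
 * (((var 3)
 * ((var 3)
 * ((var 3)
 * (num (384)))))
 + ((var 2)
 * ((var 3)
 * ((var 3)
 * (num (-128)))))))
 + ((var 1)
 * ((var 2)
 * ((var 2)
 * ((var 3)
 * ((var 3)
 * (num (128)))))))))))))
 + ((var 0)
 * ((((var 3)
 * ((var 3)
 * ((var 3)
 * ((var 3)
 * (num (-128))))))
 + ((var 1)
 * ((((var 3)
 * ((var 3)
 * ((var 3)
 * ((var 3)
 * (num (384))))))
 + ((var 2)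
 * ((var 3)
 * ((var 3)
 * ((var 3)
 * (num (-192)))))))
 + ((var 1)
 * (((var 2)
 * (((var 3)
 * ((var 3)
 * ((var 3)
 * (num (576)))))
 + ((var 2)
 * ((var 3)
 * ((var 3)
 * (num (-64)))))))
 + ((var 1)
 * ((var 2)
 * ((var 2)
 * ((var 3)
 * ((var 3)
 * (num (192))))))))))))
 + ((var 0)
 * (((var 3)
 * ((var 3)
 * ((var 3)
 * ((var 3)
 * (num (128))))))
 + ((var 1)
 * (((var 2)
 * ((var 3)
 * ((var 3)
 * ((var 3)
 * (num (192))))))
 + ((var 1)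
 * ((var 2)
 * ((var 2)
 * ((var 3)
 * ((var 3)
 * (num (64)))))))))))))))

/-- A coefficient. -/
def coL2 : Ex := ((var 0)
 * ((((var 3)
 * ((var 3)
 * ((var 3)
 * ((var 3)
 * (num (128))))))
 + ((var 1)
 * ((((var 3)
 * ((var 3)
 * ((var 3)
 * ((var 3)
 * (num (-256))))))
 + ((var 2)
 * ((var 3)
 * ((var 3)
 * ((var 3)
 * (num (128)))))))
 + ((var 1)
 * ((((var 3)
 * ((var 3)
 * ((var 3)
 * ((var 3)
 * (num (128))))))
 + ((var 2)
 * (((var 3)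
 * ((var 3)
 * ((var 3)
 * (num (-320)))))
 + ((var 2)
 * ((var 3)
 * ((var 3)
 * (num (-32))))))))
 + ((var 1)
 * (((var 2)
 * (((var 3)
 * ((var 3)
 * ((var 3)
 * (num (192)))))
 + ((var 2)
 * ((var 2)
 * ((var 3)
 * (num (-32)))))))
 + ((var 1)
 * (((var 2)
 * ((var 2)
 * (((var 3)
 * ((var 3)
 * (num (32))))
 + ((var 2)
 * ((var 3)
 * (num (64)))))))
 + ((var 1)
 * ((var 2)
 * ((var 2)
 * ((var 2)
 * ((var 3)
 * (num (-32))))))))))))))))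
 + ((var 0)
 * ((((var 3)
 * ((var 3)
 * ((var 3)
 * ((var 3)
 * (num (-256))))))
 + ((var 1)
 * ((((var 3)
 * ((var 3)
 * ((var 3)
 * ((var 3)
 * (num (256))))))
 + ((var 2)
 * ((var 3)
 * ((var 3)
 * ((var 3)
 * (num (-384)))))))
 + ((var 1)
 * (((var 2)
 * (((var 3)
 * ((var 3)
 * ((var 3)
 * (num (448)))))
 + ((var 2)
 * ((var 3)
 * ((var 3)
 * (num (-96)))))))
 + ((var 1)
 * (((var 2)
 * ((var 2)
 * (((var 3)
 * ((var 3)
 * (num (160))))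
 + ((var 2)
 * ((var 3)
 * (num (32)))))))
 + ((var 1)
 * ((var 2)
 * ((var 2)
 * ((var 2)
 * ((var 3)
 * (num (-32))))))))))))))
 + ((var 0)
 * (((var 3)
 * ((var 3)
 * ((var 3)
 * ((var 3)
 * (num (128))))))
 + ((var 1)
 * (((var 2)
 * ((var 3)
 * ((var 3)
 * ((var 3)
 * (num (256))))))
 + ((var 1)
 * ((var 2)
 * ((var 2)
 * ((var 3)
 * ((var 3)
 * (num (128)))))))))))))))

/-- A coefficient. -/
def coL3 : Ex := ((var 0)
 * (((var 1)
 * (((var 3)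
 * ((var 3)
 * ((var 3)
 * ((var 3)
 * (num (128))))))
 + ((var 1)
 * ((((var 3)
 * ((var 3)
 * ((var 3)
 * ((var 3)
 * (num (-256))))))
 + ((var 2)
 * ((var 3)
 * ((var 3)
 * ((var 3)
 * (num (256)))))))
 + ((var 1)
 * ((((var 3)
 * ((var 3)
 * ((var 3)
 * ((var 3)
 * (num (128))))))
 + ((var 2)
 * (((var 3)
 * ((var 3)
 * ((var 3)
 * (num (-512)))))
 + ((var 2)
 * ((var 3)
 * ((var 3)
 * (num (160))))))))
 + ((var 1)
 * (((var 2)
 * (((var 3)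
 * ((var 3)
 * ((var 3)
 * (num (256)))))
 + ((var 2)
 * (((var 3)
 * ((var 3)
 * (num (-320))))
 + ((var 2)
 * ((var 3)
 * (num (32))))))))
 + ((var 1)
 * (((var 2)
 * ((var 2)
 * (((var 3)
 * ((var 3)
 * (num (160))))
 + ((var 2)
 * ((var 3)
 * (num (-64)))))))
 + ((var 1)
 * ((var 2)
 * ((var 2)
 * ((var 2)
 * ((var 3)
 * (num (32)))))))))))))))))
 + ((var 0)
 * (((var 1)
 * (((var 3)
 * ((var 3)
 * ((var 3)
 * ((var 3)
 * (num (-256))))))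
 + ((var 1)
 * ((((var 3)
 * ((var 3)
 * ((var 3)
 * ((var 3)
 * (num (256))))))
 + ((var 2)
 * ((var 3)
 * ((var 3)
 * ((var 3)
 * (num (-512)))))))
 + ((var 1)
 * (((var 2)
 * (((var 3)
 * ((var 3)
 * ((var 3)
 * (num (512)))))
 + ((var 2)
 * ((var 3)
 * ((var 3)
 * (num (-320)))))))
 + ((var 1)
 * (((var 2)
 * ((var 2)
 * (((var 3)
 * ((var 3)
 * (num (320))))
 + ((var 2)
 * ((var 3)
 * (num (-64)))))))
 + ((var 1)
 * ((var 2)
 * ((var 2)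
 * ((var 2)
 * ((var 3)
 * (num (64)))))))))))))))
 + ((var 0)
 * ((var 1)
 * (((var 3)
 * ((var 3)
 * ((var 3)
 * ((var 3)
 * (num (128))))))
 + ((var 1)
 * (((var 2)
 * ((var 3)
 * ((var 3)
 * ((var 3)
 * (num (256))))))
 + ((var 1)
 * (((var 2)
 * ((var 2)
 * ((var 3)
 * ((var 3)
 * (num (160))))))
 + ((var 1)
 * ((var 2)
 * ((var 2)
 * ((var 2)
 * ((var 3)
 * (num (32))))))))))))))))))

/-- A coefficient. -/
def coL4 : Ex := ((var 0)
 * (((var 1)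
 * ((var 1)
 * ((var 1)
 * (((var 2)
 * ((var 3)
 * ((var 3)
 * ((var 3)
 * (num (-112))))))
 + ((var 1)
 * (((var 2)
 * (((var 3)
 * ((var 3)
 * ((var 3)
 * (num (-112)))))
 + ((var 2)
 * ((var 3)
 * ((var 3)
 * (num (-144)))))))
 + ((var 1)
 * (((var 2)
 * (((var 3)
 * ((var 3)
 * ((var 3)
 * (num (-80)))))
 + ((var 2)
 * (((var 3)
 * ((var 3)
 * (num (-208))))
 + ((var 2)
 * ((var 3)
 * (num (-44))))))))
 + ((var 1)
 * (((var 2)
 * (((var 3)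
 * ((var 3)
 * ((var 3)
 * (num (48)))))
 + ((var 2)
 * (((var 3)
 * ((var 3)
 * (num (-112))))
 + ((var 2)
 * ((var 3)
 * (num (-76))))))))
 + ((var 1)
 * (((var 2)
 * ((var 2)
 * (((var 3)
 * ((var 3)
 * (num (80))))
 + ((var 2)
 * ((var 3)
 * (num (-36)))))))
 + ((var 1)
 * ((var 2)
 * ((var 2)
 * ((var 2)
 * ((var 3)
 * (num (28)))))))))))))))))))
 + ((var 0)
 * (((var 1)
 * ((var 1)
 * (((var 2)
 * ((var 3)
 * ((var 3)
 * ((var 3)
 * (num (-112))))))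
 + ((var 1)
 * (((var 2)
 * (((var 3)
 * ((var 3)
 * ((var 3)
 * (num (-64)))))
 + ((var 2)
 * ((var 3)
 * ((var 3)
 * (num (-144)))))))
 + ((var 1)
 * (((var 2)
 * (((var 3)
 * ((var 3)
 * ((var 3)
 * (num (-304)))))
 + ((var 2)
 * (((var 3)
 * ((var 3)
 * (num (-208))))
 + ((var 2)
 * ((var 3)
 * (num (-44))))))))
 + ((var 1)
 * (((var 2)
 * (((var 3)
 * ((var 3)
 * ((var 3)
 * (num (224)))))
 + ((var 2)
 * (((var 3)
 * ((var 3)
 * (num (-368))))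
 + ((var 2)
 * ((var 3)
 * (num (-88))))))))
 + ((var 1)
 * (((var 2)
 * ((var 2)
 * (((var 3)
 * ((var 3)
 * (num (336))))
 + ((var 2)
 * ((var 3)
 * (num (-108)))))))
 + ((var 1)
 * ((var 2)
 * ((var 2)
 * ((var 2)
 * ((var 3)
 * (num (112))))))))))))))))))
 + ((var 0)
 * (((var 1)
 * (((var 2)
 * ((var 3)
 * ((var 3)
 * ((var 3)
 * (num (-28))))))
 + ((var 1)
 * (((var 2)
 * (((var 3)
 * ((var 3)
 * ((var 3)
 * (num (20)))))
 + ((var 2)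
 * ((var 3)
 * ((var 3)
 * (num (-36)))))))
 + ((var 1)
 * (((var 2)
 * (((var 3)
 * ((var 3)
 * ((var 3)
 * (num (-388)))))
 + ((var 2)
 * (((var 3)
 * ((var 3)
 * (num (-52))))
 + ((var 2)
 * ((var 3)
 * (num (-11))))))))
 + ((var 1)
 * (((var 2)
 * (((var 3)
 * ((var 3)
 * ((var 3)
 * (num (396)))))
 + ((var 2)
 * (((var 3)
 * ((var 3)
 * (num (-428))))
 + ((var 2)
 * ((var 3)
 * (num (-31))))))))
 + ((var 1)
 * (((var 2)
 * ((var 2)
 * (((var 3)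
 * ((var 3)
 * (num (548))))
 + ((var 2)
 * ((var 3)
 * (num (-117)))))))
 + ((var 1)
 * ((var 2)
 * ((var 2)
 * ((var 2)
 * ((var 3)
 * (num (175)))))))))))))))))
 + ((var 0)
 * (((var 1)
 * (((var 2)
 * ((var 3)
 * ((var 3)
 * ((var 3)
 * (num (12))))))
 + ((var 1)
 * (((var 2)
 * ((var 3)
 * ((var 3)
 * ((var 3)
 * (num (-200))))))
 + ((var 1)
 * (((var 2)
 * (((var 3)
 * ((var 3)
 * ((var 3)
 * (num (332)))))
 + ((var 2)
 * (((var 3)
 * ((var 3)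
 * (num (-208))))
 + ((var 2)
 * ((var 3)
 * (num (-3))))))))
 + ((var 1)
 * (((var 2)
 * ((var 2)
 * (((var 3)
 * ((var 3)
 * (num (432))))
 + ((var 2)
 * ((var 3)
 * (num (-54)))))))
 + ((var 1)
 * ((var 2)
 * ((var 2)
 * ((var 2)
 * ((var 3)
 * (num (133)))))))))))))))
 + ((var 0)
 * (((var 1)
 * (((var 2)
 * ((var 3)
 * ((var 3)
 * ((var 3)
 * (num (-36))))))
 + ((var 1)
 * (((var 2)
 * (((var 3)
 * ((var 3)
 * ((var 3)
 * (num (132)))))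
 + ((var 2)
 * ((var 3)
 * ((var 3)
 * (num (-36)))))))
 + ((var 1)
 * (((var 2)
 * ((var 2)
 * (((var 3)
 * ((var 3)
 * (num (164))))
 + ((var 2)
 * ((var 3)
 * (num (-9)))))))
 + ((var 1)
 * ((var 2)
 * ((var 2)
 * ((var 2)
 * ((var 3)
 * (num (49)))))))))))))
 + ((var 0)
 * ((var 1)
 * (((var 2)
 * ((var 3)
 * ((var 3)
 * ((var 3)
 * (num (20))))))
 + ((var 1)
 * (((var 2)
 * ((var 2)
 * ((var 3)
 * ((var 3)
 * (num (24))))))
 + ((var 1)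
 * ((var 2)
 * ((var 2)
 * ((var 2)
 * ((var 3)
 * (num (7))))))))))))))))))))))

/-- A coefficient. -/
def coL5 : Ex := ((var 0)
 * (((var 1)
 * ((var 1)
 * ((var 1)
 * (((var 2)
 * ((var 3)
 * ((var 3)
 * ((var 3)
 * (num (256))))))
 + ((var 1)
 * (((var 2)
 * (((var 3)
 * ((var 3)
 * ((var 3)
 * (num (-128)))))
 + ((var 2)
 * ((var 3)
 * ((var 3)
 * (num (384)))))))
 + ((var 1)
 * (((var 2)
 * ((var 2)
 * (((var 3)
 * ((var 3)
 * (num (-192))))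
 + ((var 2)
 * ((var 3)
 * (num (128)))))))
 + ((var 1)
 * ((var 2)
 * ((var 2)
 * ((var 2)
 * ((var 3)
 * (num (-64)))))))))))))))
 + ((var 0)
 * (((var 1)
 * ((var 1)
 * (((var 2)
 * ((var 3)
 * ((var 3)
 * ((var 3)
 * (num (256))))))
 + ((var 1)
 * (((var 2)
 * (((var 3)
 * ((var 3)
 * ((var 3)
 * (num (-256)))))
 + ((var 2)
 * ((var 3)
 * ((var 3)
 * (num (384)))))))
 + ((var 1)
 * (((var 2)
 * ((var 2)
 * (((var 3)
 * ((var 3)
 * (num (-384))))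
 + ((var 2)
 * ((var 3)
 * (num (128)))))))
 + ((var 1)
 * ((var 2)
 * ((var 2)
 * ((var 2)
 * ((var 3)
 * (num (-128))))))))))))))
 + ((var 0)
 * (((var 1)
 * (((var 2)
 * ((var 3)
 * ((var 3)
 * ((var 3)
 * (num (64))))))
 + ((var 1)
 * (((var 2)
 * (((var 3)
 * ((var 3)
 * ((var 3)
 * (num (-160)))))
 + ((var 2)
 * ((var 3)
 * ((var 3)
 * (num (96)))))))
 + ((var 1)
 * (((var 2)
 * ((var 2)
 * (((var 3)
 * ((var 3)
 * (num (-240))))
 + ((var 2)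
 * ((var 3)
 * (num (32)))))))
 + ((var 1)
 * ((var 2)
 * ((var 2)
 * ((var 2)
 * ((var 3)
 * (num (-80)))))))))))))
 + ((var 0)
 * ((var 1)
 * (((var 2)
 * ((var 3)
 * ((var 3)
 * ((var 3)
 * (num (-32))))))
 + ((var 1)
 * (((var 2)
 * ((var 2)
 * ((var 3)
 * ((var 3)
 * (num (-48))))))
 + ((var 1)
 * ((var 2)
 * ((var 2)
 * ((var 2)
 * ((var 3)
 * (num (-16))))))))))))))))))

/-- A coefficient. -/
def coL6 : Ex := ((var 0)
 * (((var 1)
 * ((var 1)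
 * (((var 2)
 * ((var 3)
 * ((var 3)
 * ((var 3)
 * (num (224))))))
 + ((var 1)
 * (((var 2)
 * (((var 3)
 * ((var 3)
 * ((var 3)
 * (num (32)))))
 + ((var 2)
 * ((var 3)
 * ((var 3)
 * (num (336)))))))
 + ((var 1)
 * (((var 2)
 * (((var 3)
 * ((var 3)
 * ((var 3)
 * (num (32)))))
 + ((var 2)
 * (((var 3)
 * ((var 3)
 * (num (48))))
 + ((var 2)
 * ((var 3)
 * (num (136))))))))
 + ((var 1)
 * (((var 2)
 * (((var 3)
 * ((var 3)
 * ((var 3)
 * (num (-32)))))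
 + ((var 2)
 * (((var 3)
 * ((var 3)
 * (num (48))))
 + ((var 2)
 * (((var 3)
 * (num (-24)))
 + ((var 2)
 * (num (12)))))))))
 + ((var 1)
 * (((var 2)
 * ((var 2)
 * (((var 3)
 * ((var 3)
 * (num (-48))))
 + ((var 2)
 * (((var 3)
 * (num (24)))
 + ((var 2)
 * (num (-20))))))))
 + ((var 1)
 * (((var 2)
 * ((var 2)
 * ((var 2)
 * (((var 3)
 * (num (-8)))
 + ((var 2)
 * (num (4)))))))
 + ((var 1)
 * ((var 2)
 * ((var 2)
 * ((var 2)
 * ((var 2)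
 * (num (4))))))))))))))))))))
 + ((var 0)
 * (((var 1)
 * (((var 2)
 * ((var 3)
 * ((var 3)
 * ((var 3)
 * (num (224))))))
 + ((var 1)
 * (((var 2)
 * (((var 3)
 * ((var 3)
 * ((var 3)
 * (num (-64)))))
 + ((var 2)
 * ((var 3)
 * ((var 3)
 * (num (336)))))))
 + ((var 1)
 * (((var 2)
 * (((var 3)
 * ((var 3)
 * ((var 3)
 * (num (352)))))
 + ((var 2)
 * (((var 3)
 * ((var 3)
 * (num (-96))))
 + ((var 2)
 * ((var 3)
 * (num (136))))))))
 + ((var 1)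
 * (((var 2)
 * (((var 3)
 * ((var 3)
 * ((var 3)
 * (num (-256)))))
 + ((var 2)
 * (((var 3)
 * ((var 3)
 * (num (528))))
 + ((var 2)
 * (((var 3)
 * (num (-144)))
 + ((var 2)
 * (num (12)))))))))
 + ((var 1)
 * (((var 2)
 * ((var 2)
 * (((var 3)
 * ((var 3)
 * (num (-384))))
 + ((var 2)
 * (((var 3)
 * (num (264)))
 + ((var 2)
 * (num (-56))))))))
 + ((var 1)
 * ((var 2)
 * ((var 2)
 * ((var 2)
 * (((var 3)
 * (num (-128)))
 + ((var 2)
 * (num (44))))))))))))))))))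
 + ((var 0)
 * ((((var 2)
 * ((var 3)
 * ((var 3)
 * ((var 3)
 * (num (56))))))
 + ((var 1)
 * (((var 2)
 * (((var 3)
 * ((var 3)
 * ((var 3)
 * (num (-88)))))
 + ((var 2)
 * ((var 3)
 * ((var 3)
 * (num (84)))))))
 + ((var 1)
 * (((var 2)
 * (((var 3)
 * ((var 3)
 * ((var 3)
 * (num (616)))))
 + ((var 2)
 * (((var 3)
 * ((var 3)
 * (num (-132))))
 + ((var 2)
 * ((var 3)
 * (num (34))))))))
 + ((var 1)
 * (((var 2)
 * (((var 3)
 * ((var 3)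
 * ((var 3)
 * (num (-584)))))
 + ((var 2)
 * (((var 3)
 * ((var 3)
 * (num (924))))
 + ((var 2)
 * (((var 3)
 * (num (-126)))
 + ((var 2)
 * (num (3)))))))))
 + ((var 1)
 * (((var 2)
 * ((var 2)
 * (((var 3)
 * ((var 3)
 * (num (-876))))
 + ((var 2)
 * (((var 3)
 * (num (462)))
 + ((var 2)
 * (num (-41))))))))
 + ((var 1)
 * (((var 2)
 * ((var 2)
 * ((var 2)
 * (((var 3)
 * (num (-338)))
 + ((var 2)
 * (num (77)))))))
 + ((var 1)
 * ((var 2)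
 * ((var 2)
 * ((var 2)
 * ((var 2)
 * (num (-23))))))))))))))))))
 + ((var 0)
 * ((((var 2)
 * ((var 3)
 * ((var 3)
 * ((var 3)
 * (num (-24))))))
 + ((var 1)
 * (((var 2)
 * (((var 3)
 * ((var 3)
 * ((var 3)
 * (num (368)))))
 + ((var 2)
 * ((var 3)
 * ((var 3)
 * (num (-36)))))))
 + ((var 1)
 * (((var 2)
 * (((var 3)
 * ((var 3)
 * ((var 3)
 * (num (-568)))))
 + ((var 2)
 * (((var 3)
 * ((var 3)
 * (num (552))))
 + ((var 2)
 * ((var 3)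
 * (num (-30))))))))
 + ((var 1)
 * (((var 2)
 * ((var 2)
 * (((var 3)
 * ((var 3)
 * (num (-852))))
 + ((var 2)
 * (((var 3)
 * (num (276)))
 + ((var 2)
 * (num (-9))))))))
 + ((var 1)
 * (((var 2)
 * ((var 2)
 * ((var 2)
 * (((var 3)
 * (num (-350)))
 + ((var 2)
 * (num (46)))))))
 + ((var 1)
 * ((var 2)
 * ((var 2)
 * ((var 2)
 * ((var 2)
 * (num (-33))))))))))))))))
 + ((var 0)
 * ((((var 2)
 * ((var 3)
 * ((var 3)
 * ((var 3)
 * (num (72))))))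
 + ((var 1)
 * (((var 2)
 * (((var 3)
 * ((var 3)
 * ((var 3)
 * (num (-248)))))
 + ((var 2)
 * ((var 3)
 * ((var 3)
 * (num (108)))))))
 + ((var 1)
 * (((var 2)
 * ((var 2)
 * (((var 3)
 * ((var 3)
 * (num (-372))))
 + ((var 2)
 * ((var 3)
 * (num (54)))))))
 + ((var 1)
 * (((var 2)
 * ((var 2)
 * ((var 2)
 * (((var 3)
 * (num (-158)))
 + ((var 2)
 * (num (9)))))))
 + ((var 1)
 * ((var 2)
 * ((var 2)
 * ((var 2)
 * ((var 2)
 * (num (-17))))))))))))))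
 + ((var 0)
 * (((var 2)
 * ((var 3)
 * ((var 3)
 * ((var 3)
 * (num (-40))))))
 + ((var 1)
 * (((var 2)
 * ((var 2)
 * ((var 3)
 * ((var 3)
 * (num (-60))))))
 + ((var 1)
 * (((var 2)
 * ((var 2)
 * ((var 2)
 * ((var 3)
 * (num (-26))))))
 + ((var 1)
 * ((var 2)
 * ((var 2)
 * ((var 2)
 * ((var 2)
 * (num (-3)))))))))))))))))))))))

/-- The numerator of `g LLG`. -/
def tplL : Ex := ((((var 14) * ((var 12) * ((var 9) * ((var 7) * coL0))))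
 + (((var 14) * ((var 12) * ((var 10) * ((var 6) * coL1))))
 + ((var 14) * ((var 12) * ((var 9) * ((var 6) * coL2))))))
 + ((((var 13) * ((var 12) * ((var 9) * ((var 6) * coL3))))
 + ((var 14) * ((var 12) * ((var 10) * ((var 8) * ((var 5) * coL4))))))
 + (((var 14) * ((var 11) * ((var 10) * ((var 8) * ((var 5) * coL5)))))
 + ((var 14) * ((var 12) * ((var 10) * ((var 8) * ((var 4) * coL6))))))))

end Vale.Agent.P100.Calib.StripMid
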