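import Vale.Agent.P100.Calib.SlabStripEndExpr
import Vale.Agent.P100.Calib.SlabStripLLGExpr

/-!
# The strip for `u` near one: the window of the models and the ray gap

At an end of `μ` the Flow is `C = N/Qd`, and the exact fields are affine in it. The models hold
between their ends, and the ray gap is affine in the Flow and in `T`.
-/

namespace Vale.Agent.P100.Calib.StripEnd

open Pack Pack.Ex StripMid

local instance endBoundAdd : Add Ex := ⟨Ex.add⟩
local instance endBoundSub : Sub Ex := ⟨Ex.sub⟩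
local instance endBoundMul : Mul Ex := ⟨Ex.mul⟩

namespace Piece

variable (P : Piece)

/-- `u`. -/
def U : Ex := num 1 - P.w

/-- `2 + d v`, times the denominator of `v`. -/
def pn2 : Ex := num 2 * P.vd + P.d * P.vn

/-- The numerator of `C`. -/
def N (b : Bool) : Ex := P.A * P.cn' b

/-- The denominator of `C`. -/
def Qd (b : Bool) : Ex := num (P.mu.pick b).2 * P.qn

/-- `20 (2 b)²` times the slope of `E`. -/
def Ab : Ex := num 50 * pow P.B 2 - num 43 * pow P.A 2

/-- `20 I (2 - 6 I - 4 a²) (2 b)²`. -/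
def Bb : Ex := num 20 * P.I * (num 2 - num 6 * P.I - pow P.A 2) * pow P.B 2

/-- `d + 3 I²`. -/
def Dk : Ex := P.d + num 3 * pow P.I 2

/-- The numerator of the slope of `K`. -/
def Kq : Ex := P.Ab * P.d - num 3 * pow P.I 2 * P.Bb

/-- `D1`, times `2 vd Qd`. -/
def Dn (b : Bool) : Ex :=
  P.Qd b * (P.B * P.pn2 - num 2 * P.S * P.U * P.qn) + num 2 * P.U * P.d * P.N b * P.vd

/-- `u C (2 + d v)`, times `2 vd Qd`. -/
def Fn (b : Bool) : Ex := num 2 * P.U * P.N b * P.pn2

/-- `1 - R d W`, scaled, times `2 vd Qd`. -/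
def Rn (b : Bool) : Ex := P.Dn b - P.d * P.Fn b

/-- `- g E`, scaled, times `2 vd² Qd`. -/
def Ln (b : Bool) : Ex :=
  P.Dn b * (P.Bb * P.vn * P.Dk + (P.Ab + P.Bb) * P.vd) - P.Kq * P.Fn b * P.vd

/-- `b² g W1`, scaled, times `4 vd² Qd`. -/
def Wn (b : Bool) : Ex :=
  num 2 * P.U * P.S * P.pn2 * P.N b * (P.A * P.vd - (num 2 - P.A) * P.d * P.vn) -
    num 2 * (num 2 - P.S) * P.B * P.N b * P.pn2 * P.vd +
    P.Dn b * P.S * (num 2 * P.vd + (num 2 - P.A) * P.vn)

/-- The denominator of the exact `e`. -/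
def eDen (b : Bool) : Ex := num 5 * P.Qd b * pow P.B 4 * P.pn2 * P.Dk

/-- `± 1`, for the lower or upper end. -/
def side (hi : Bool) : Ex := num (cond hi (-1) 1)

/-- The Flow at an end of `μ` lies between its ends. -/
def winP (b hi : Bool) : Ex :=
  side hi * (P.cn' b * P.pd - num (P.mu.pick b).2 * P.pn (!hi))

/-- `e` lies between its ends. -/
def winE (b hi : Bool) : Ex :=
  side hi * (num 2 * P.f0 * P.Ln b - P.en hi * (P.eDen b * P.vd))

/-- `k` lies between its ends. -/
def winK (b hi : Bool) : Ex :=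
  side hi * (num 2 * P.f0 * (P.Rn b * P.Kq) - P.kk hi * P.eDen b)

/-- `b² g W1` lies between its ends. -/
def winW (b hi : Bool) : Ex :=
  side hi * (P.wd * P.Wn b - P.wn hi * (pow P.S 2 * P.U * P.pn2 * P.vd * P.Qd b))

/-- `T` lies between its ends. -/
def winT (b hi : Bool) : Ex :=
  side hi * (P.td * (P.Rn b * P.vd) - P.B * P.tn hi * (P.qn * P.Dn b))

/-- Minus the curvature of `MG` in `p`. -/
def curveMG : Ex := num (-1) * coMG12

/-- The numerators of the ray gap at an end. -/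
def gapSub (b t : Bool) : ℕ → Ex := fun i =>
  match i with
  | 0 => P.A
  | 1 => P.d
  | 2 => P.vn
  | 3 => P.vd
  | 4 => P.Dn b * P.vd
  | 5 => P.Fn b * P.vd
  | 6 => num (-1) * P.Ln b
  | 7 => num (-1) * P.Kq * (P.Rn b * P.vd)
  | 8 => num 20 * pow P.B 2 * P.Dk
  | 9 => P.S * P.U
  | 10 => num 2 * P.I
  | 11 => P.gn t
  | 12 => num 5 * P.B * P.td
  | 13 => P.cn
  | _ => P.cd

/-- The ray gap at an end. -/
def gap (b t : Bool) : Ex := subst (P.gapSub b t) tplL

end Piece

end Vale.Agent.P100.Calib.StripEnd
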