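import Vale.Agent.P100.Calib.SlabStripSevFwdB

/-!
# The closed conditions of the upper bands for `N` between seven and twenty: the rest
-/

namespace Vale.Agent.P100.Calib.Band

open Vale.Agent.P100.Bubble Chart

namespace AllLow

open Pack

local instance stripSevRestAdd : Add Pack.Ex := ⟨Ex.add⟩
local instance stripSevRestSub : Sub Pack.Ex := ⟨Ex.sub⟩
local instance stripSevRestMul : Mul Pack.Ex := ⟨Ex.mul⟩

theorem sev_den {a b u v I t : ℝ} (hP : SevPt a b u v I t)
    (hu8 : u ≤ 111 / 125) :
    0 < (stripAt a b u v).sevDen := by
  obtain ⟨hC, hI20, hI7, hk, hS0, hw0, hw1, hK0, hK97, hKI, ht0, ht1, hgate⟩ :=
    hP
  have hI0 : 0 < I := by linarith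
  have hb1 : 0 ≤ eStripSevDenLess.eval (stabPt (1 - u) (1 - a * v) I t) := by
    exact nonneg_of_checkFour stripSevDen0_ok (strip_point
      (by simp only [stripSevDen0Box]
          exact side_point (den := 125) (by norm_num) (by push_cast; linarith)
            (by push_cast; linarith))
      (by simp only [stripSevDen0Box]
          exact side_point (den := 100) (by norm_num) (by push_cast; linarith)
            (by push_cast; linarith))
      (by simp only [stripSevDen0Box]
          exact strip_back (den := 140) (by norm_num) (by push_cast; linarith)
            (by push_cast; linarith))
      (by simp only [stripSevDen0Box]
          exact side_point (den := 1) (by norm_num) (by push_cast; linarith)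
            (by push_cast; linarith)))
  simp only [eStripSevDenLess, eval_sub', Ex.eval, evalUpB_sevDen hC] at hb1
  simp only [stabPt] at hb1
  norm_num at hb1
  have : 0 < ((1 - u) * ((1 - a * v) * (I * t))) ^ 3 := by positivity
  refine pos_of_mul_pos_left (b := ((a + b) ^ 2 * v) ^ 3 * (a + b) ^ 2) ?_ (by positivity)
  linarith

theorem sev_end {a b u v I t : ℝ} (hP : SevPt a b u v I t)
    (hu8 : 111 / 125 ≤ u) :
    0 < (stripAt a b u v).upA := by
  obtain ⟨hC, hI20, hI7, hk, hS0, hw0, hw1, hK0, hK97, hKI, ht0, ht1, hgate⟩ :=
    hP
  have hI0 : 0 < I := by linarith
  have hb1 : 0 ≤ eStripUpBEndLess.eval (stabPt (1 - u) (1 - a * v) I t) := by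
    rcases lt_or_ge (1 - u) (3 / 50) with h2 | h2
    · exact nonneg_of_checkFour stripSevEnd5_ok (strip_point
        (by simp only [stripSevEnd5Box]
            exact side_point (den := 50) (by norm_num) (by push_cast; linarith)
              (by push_cast; linarith))
        (by simp only [stripSevEnd5Box]
            exact side_point (den := 100) (by norm_num) (by push_cast; linarith)
              (by push_cast; linarith))
        (by simp only [stripSevEnd5Box]
            exact strip_back (den := 140) (by norm_num) (by push_cast; linarith)
              (by push_cast; linarith))
        (by simp only [stripSevEnd5Box]
            exact side_point (den := 1) (by norm_num) (by push_cast; linarith)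
              (by push_cast; linarith)))
    · rcases lt_or_ge (1 - a * v) (97 / 200) with h4 | h4
      · exact nonneg_of_checkFour stripSevEnd4_ok (strip_point
          (by simp only [stripSevEnd4Box]
              exact side_point (den := 50) (by norm_num) (by push_cast; linarith)
                (by push_cast; linarith))
          (by simp only [stripSevEnd4Box]
              exact side_point (den := 200) (by norm_num) (by push_cast; linarith)
                (by push_cast; linarith))
          (by simp only [stripSevEnd4Box]
              exact strip_back (den := 140) (by norm_num) (by push_cast; linarith)
                (by push_cast; linarith))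
          (by simp only [stripSevEnd4Box]
              exact side_point (den := 1) (by norm_num) (by push_cast; linarith)
                (by push_cast; linarith)))
      · rcases lt_or_ge (1 - u) (9 / 100) with h6 | h6
        · exact nonneg_of_checkFour stripSevEnd3_ok (strip_point
            (by simp only [stripSevEnd3Box]
                exact side_point (den := 100) (by norm_num) (by push_cast; linarith)
                  (by push_cast; linarith))
            (by simp only [stripSevEnd3Box]
                exact side_point (den := 200) (by norm_num) (by push_cast; linarith)
                  (by push_cast; linarith))
            (by simp only [stripSevEnd3Box]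
                exact strip_back (den := 140) (by norm_num) (by push_cast; linarith)
                  (by push_cast; linarith))
            (by simp only [stripSevEnd3Box]
                exact side_point (den := 1) (by norm_num) (by push_cast; linarith)
                  (by push_cast; linarith)))
        · rcases lt_or_ge (1 - a * v) (291 / 400) with h8 | h8
          · exact nonneg_of_checkFour stripSevEnd2_ok (strip_point
              (by simp only [stripSevEnd2Box]
                  exact side_point (den := 100) (by norm_num) (by push_cast; linarith)
                    (by push_cast; linarith))
              (by simp only [stripSevEnd2Box]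
                  exact side_point (den := 400) (by norm_num) (by push_cast; linarith)
                    (by push_cast; linarith))
              (by simp only [stripSevEnd2Box]
                  exact strip_back (den := 140) (by norm_num) (by push_cast; linarith)
                    (by push_cast; linarith))
              (by simp only [stripSevEnd2Box]
                  exact side_point (den := 1) (by norm_num) (by push_cast; linarith)
                    (by push_cast; linarith)))
          · rcases lt_or_ge t (1 / 2) with h10 | h10
            · exact nonneg_of_checkFour stripSevEnd1_ok (strip_point
                (by simp only [stripSevEnd1Box]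
                    exact side_point (den := 100) (by norm_num) (by push_cast; linarith)
                      (by push_cast; linarith))
                (by simp only [stripSevEnd1Box]
                    exact side_point (den := 400) (by norm_num) (by push_cast; linarith)
                      (by push_cast; linarith))
                (by simp only [stripSevEnd1Box]
                    exact strip_back (den := 140) (by norm_num) (by push_cast; linarith)
                      (by push_cast; linarith))
                (by simp only [stripSevEnd1Box]
                    exact side_point (den := 2) (by norm_num) (by push_cast; linarith)
                      (by push_cast; linarith)))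
            · exact nonneg_of_checkFour stripSevEnd0_ok (strip_point
                (by simp only [stripSevEnd0Box]
                    exact side_point (den := 100) (by norm_num) (by push_cast; linarith)
                      (by push_cast; linarith))
                (by simp only [stripSevEnd0Box]
                    exact side_point (den := 400) (by norm_num) (by push_cast; linarith)
                      (by push_cast; linarith))
                (by simp only [stripSevEnd0Box]
                    exact strip_back (den := 140) (by norm_num) (by push_cast; linarith)
                      (by push_cast; linarith))
                (by simp only [stripSevEnd0Box]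
                    exact side_point (den := 2) (by norm_num) (by push_cast; linarith)
                      (by push_cast; linarith)))
  simp only [eStripUpBEndLess, eval_sub', eval_mul', evalUpB_upA hC] at hb1
  simp only [Ex.eval, stabPt] at hb1
  norm_num at hb1
  have : 0 < (1 - u) ^ 3 * ((1 - a * v) ^ 2 * (I ^ 3 * (t ^ 2))) := by positivity
  refine pos_of_mul_pos_left (b := ((a + b) ^ 2 * v) ^ 3 * (a + b) ^ 9) ?_ (by positivity)
  linarith

theorem sev_mid {a b u v I t : ℝ} (hP : SevPt a b u v I t)
    (hu6 : 133 / 200 < u) (hu8 : u ≤ 111 / 125) :
    0 ≤ (stripAt a b u v).sevAm := by
  obtain ⟨hC, hI20, hI7, hk, hS0, hw0, hw1, hK0, hK97, hKI, ht0, ht1, hgate⟩ :=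
    hP
  have hI0 : 0 < I := by linarith
  have hb1 : 0 ≤ eStripUpB_sevAm.eval (stabPt (1 - u) (1 - a * v) I t) := by
    rcases lt_or_ge (1 - a * v) (97 / 200) with h2 | h2
    · exact nonneg_of_checkFour stripSevMid2_ok (strip_point
        (by simp only [stripSevMid2Box]
            exact side_point (den := 1000) (by norm_num) (by push_cast; linarith)
              (by push_cast; linarith))
        (by simp only [stripSevMid2Box]
            exact side_point (den := 200) (by norm_num) (by push_cast; linarith)
              (by push_cast; linarith))
        (by simp only [stripSevMid2Box]
            exact strip_back (den := 140) (by norm_num) (by push_cast; linarith)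
              (by push_cast; linarith))
        (by simp only [stripSevMid2Box]
            exact side_point (den := 1) (by norm_num) (by push_cast; linarith)
              (by push_cast; linarith)))
    · rcases lt_or_ge (1 - a * v) (291 / 400) with h4 | h4
      · exact nonneg_of_checkFour stripSevMid1_ok (strip_point
          (by simp only [stripSevMid1Box]
              exact side_point (den := 1000) (by norm_num) (by push_cast; linarith)
                (by push_cast; linarith))
          (by simp only [stripSevMid1Box]
              exact side_point (den := 400) (by norm_num) (by push_cast; linarith)
                (by push_cast; linarith))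
          (by simp only [stripSevMid1Box]
              exact strip_back (den := 140) (by norm_num) (by push_cast; linarith)
                (by push_cast; linarith))
          (by simp only [stripSevMid1Box]
              exact side_point (den := 1) (by norm_num) (by push_cast; linarith)
                (by push_cast; linarith)))
      · exact nonneg_of_checkFour stripSevMid0_ok (strip_point
          (by simp only [stripSevMid0Box]
              exact side_point (den := 1000) (by norm_num) (by push_cast; linarith)
                (by push_cast; linarith))
          (by simp only [stripSevMid0Box]
              exact side_point (den := 400) (by norm_num) (by push_cast; linarith)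
                (by push_cast; linarith))
          (by simp only [stripSevMid0Box]
              exact strip_back (den := 140) (by norm_num) (by push_cast; linarith)
                (by push_cast; linarith))
          (by simp only [stripSevMid0Box]
              exact side_point (den := 1) (by norm_num) (by push_cast; linarith)
                (by push_cast; linarith)))
  rw [evalUpB_sevAm hC] at hb1
  exact nonneg_of_mul_nonneg_left hb1 (by positivity)

theorem sev_slope {a b u v I t : ℝ} (hP : SevPt a b u v I t)
    (hu6 : 133 / 200 < u) :
    0 ≤ (stripAt a b u v).upB := by
  obtain ⟨hC, hI20, hI7, hk, hS0, hw0, hw1, hK0, hK97, hKI, ht0, ht1, hgate⟩ :=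
    hP
  have hI0 : 0 < I := by linarith
  have hb1 : 0 ≤ eStripSevSlopeLess.eval (stabPt (1 - u) (1 - a * v) I t) := by
    rcases le_or_gt I (27 / 280) with h2 | h2
    · exact nonneg_of_checkFour stripSevSlope1_ok (strip_point
        (by simp only [stripSevSlope1Box]
            exact side_point (den := 200) (by norm_num) (by push_cast; linarith)
              (by push_cast; linarith))
        (by simp only [stripSevSlope1Box]
            exact side_point (den := 100) (by norm_num) (by push_cast; linarith)
              (by push_cast; linarith))
        (by simp only [stripSevSlope1Box]
            exact strip_back (den := 280) (by norm_num) (by push_cast; linarith)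
              (by push_cast; linarith))
        (by simp only [stripSevSlope1Box]
            exact side_point (den := 1) (by norm_num) (by push_cast; linarith)
              (by push_cast; linarith)))
    · exact nonneg_of_checkFour stripSevSlope0_ok (strip_point
        (by simp only [stripSevSlope0Box]
            exact side_point (den := 200) (by norm_num) (by push_cast; linarith)
              (by push_cast; linarith))
        (by simp only [stripSevSlope0Box]
            exact side_point (den := 100) (by norm_num) (by push_cast; linarith)
              (by push_cast; linarith))
        (by simp only [stripSevSlope0Box]
            exact strip_back (den := 280) (by norm_num) (by push_cast; linarith)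
              (by push_cast; linarith))
        (by simp only [stripSevSlope0Box]
            exact side_point (den := 1) (by norm_num) (by push_cast; linarith)
              (by push_cast; linarith)))
  simp only [eStripSevSlopeLess, eval_sub', eval_mul', eval_num', evalUpB_upB hC] at hb1
  simp only [Ex.eval, stabPt] at hb1
  norm_num at hb1
  have := mul_pos (show 0 < t ^ 2 * (I ^ 8 * (1 - u) ^ 2) by positivity) hgate
  refine nonneg_of_mul_nonneg_left (b := ((a + b) ^ 2 * v) ^ 3 * (a + b) ^ 6) ?_ (by positivity)
  linarith

theorem sev_top {a b u v I t : ℝ} (hP : SevPt a b u v I t)
    (hu6 : 133 / 200 < u) :
    0 ≤ (stripAt a b u v).upC := by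
  obtain ⟨hC, hI20, hI7, hk, hS0, hw0, hw1, hK0, hK97, hKI, ht0, ht1, hgate⟩ :=
    hP
  have hI0 : 0 < I := by linarith
  have hb1 : 0 ≤ eStripUpB_upC.eval (stabPt (1 - u) (1 - a * v) I t) := by
    exact nonneg_of_checkFour stripSevTop0_ok (strip_point
      (by simp only [stripSevTop0Box]
          exact side_point (den := 200) (by norm_num) (by push_cast; linarith)
            (by push_cast; linarith))
      (by simp only [stripSevTop0Box]
          exact side_point (den := 100) (by norm_num) (by push_cast; linarith)
            (by push_cast; linarith))
      (by simp only [stripSevTop0Box]
          exact strip_back (den := 140) (by norm_num) (by push_cast; linarith)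
            (by push_cast; linarith))
      (by simp only [stripSevTop0Box]
          exact side_point (den := 1) (by norm_num) (by push_cast; linarith)
            (by push_cast; linarith)))
  rw [evalUpB_upC hC] at hb1
  exact nonneg_of_mul_nonneg_left hb1 (by positivity)

/-- **The closed conditions of the upper bands.** -/
theorem strip_sev_conds {a b u v : ℝ} (h : SevPlace a b u v) : SevConds a b u v := by
  obtain ⟨I, t, hP⟩ := sev_pt h
  refine ⟨fun hu8 => ?_, sev_den hP, sev_end hP, sev_mid hP, sev_slope hP, sev_top hP⟩
  rcases le_or_gt I (1 / 12) with h1 | h1
  · exact sev_fwda hP hu8 h1
  · rcases le_or_gt I (1 / 9) with h2 | h2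
    · exact sev_fwdb hP hu8 h1 h2
    · rcases lt_or_ge (1 - a * v) (15 / 32) with h3 | h3
      · exact sev_fwdc0 hP hu8 h2 h3
      · exact sev_fwdc1 hP hu8 h2 h3

end AllLow

end Vale.Agent.P100.Calib.Band
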