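import Vale.Agent.P100.Calib.SlabStripEndChart
import Vale.Agent.P100.Calib.SlabStripSevExit

/-!
# A line above `K = 1 - a v` for `u` near one

On orbits with `be - al ≤ I`, for real `N` in `[7, 20)` and `31/100 < al`:
`1 - a v < 13/25 + 41/5 (1 - u)` from `u = 39/40` on. At the entry the lower band and the tube keep
`K` below the line; on it the lower band makes it grow along the flow.
-/

set_option linter.unusedVariables false
set_option linter.defProp false

open Set Filter Topology

namespace Vale.Agent.P100.Calib.StripEnd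

open Pack Pack.Ex Band StripMid Vale.Agent.P100.Bubble Chart

local instance endLineAdd : Add Ex := ⟨Ex.add⟩
local instance endLineSub : Sub Ex := ⟨Ex.sub⟩
local instance endLineMul : Mul Ex := ⟨Ex.mul⟩

/-- The numerator of `o` on the line, over `1000`; the variables are `I`, `w` and `d/I`. -/
def lineO : Ex := num 480 - num 8200 * var 1

/-- The quantities on the line. -/
def lineGeo : Geo := ⟨var 0, var 0 * var 2, var 1, lineO, num 1000⟩

/-- The quantities above the line. -/
def lineGeoL : Geo := ⟨var 0, var 0 * var 2, var 1, lineO * var 3, num 1000⟩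

/-- The denominator of the lower band. -/
def lineHd (g : Geo) : Ex := num 40 * (g.E * g.Wn)

/-- `Den` at the lower band, times `E` and its denominator. -/
def lineDH (g : Geo) : Ex := g.Pn * lineHd g - g.ud * (g.E * g.lowM 4)

/-- A positive multiple of the flow applied to the line, at the lower band. -/
def lineDot (g : Geo) : Ex :=
  num 1000 * (g.A * (g.qn * (g.Qn * (g.E * g.lowM 4) - g.S * (g.Kn * lineDH g)))) -
    num 16400 * (g.E * ((lineHd g - g.ud * g.lowM 4) * (g.Qn * g.E) -
      g.S * (g.w * (g.B * (g.E * lineDH g)))))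

/-- Its strict form. -/
def lineDotPos : Ex := num (2 ^ 80) * lineDot lineGeo - pow (var 0 * (var 1 * var 2)) 6

/-- The four boxes of `I` and `d/I`. -/
inductive LineBox
  | a | b | c | d

/-- The range of `I`. -/
def LineBox.qI : LineBox → ℤ × ℤ × ℕ
  | .a => (500, 1250, 10000)
  | .b => (1250, 1300, 10000)
  | .c => (1300, 1357, 10000)
  | .d => (1357, 1429, 10000)

/-- The range of `d/I`. -/
def LineBox.qd : LineBox → ℤ × ℤ × ℕ
  | .a => (0, 1, 1)
  | .b => (0, 1, 1)
  | .c => (0, 93, 100)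
  | .d => (0, 81, 100)

/-- The ranges of a check. -/
def LineBox.box (B : LineBox) (qw : ℤ × ℤ × ℕ) (q : Chart) : ℕ → Chart
  | 0 => sideUp B.qI
  | 1 => sideUp qw
  | 2 => sideUp B.qd
  | _ => q

/-- The line is carried upwards. -/
theorem lineDot_ok (B : LineBox) : Chk (B.box (0, 1, 40) (side (0, 1, 1))) lineDotPos := by
  cases B
  · exact ⟨560, 10, 6, 7, 0, by decide +kernel⟩
  · exact ⟨560, 10, 6, 7, 0, by decide +kernel⟩
  · exact ⟨560, 10, 6, 7, 0, by decide +kernel⟩
  · exact ⟨560, 10, 6, 7, 0, by decide +kernel⟩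

/-- Above the line, where it is entered, the lower band is above the tube. -/
theorem lineWin_ok (B : LineBox) :
    Chk (B.box (249, 260, 10000) (sideUp (0, 1, 1))) (lineGeoL.loWin 4) := by
  cases B
  · exact ⟨300, 8, 6, 5, 3, by decide +kernel⟩
  · exact ⟨300, 8, 6, 5, 3, by decide +kernel⟩
  · exact ⟨300, 8, 6, 5, 3, by decide +kernel⟩
  · exact ⟨300, 8, 6, 5, 3, by decide +kernel⟩

variable {a b u v H : ℝ}

/-- The box of a point with `d ≤ I`. -/
theorem lineBox_of (hP : TubePlace a b u v) (hI : 1 / 20 < allStabI a b)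
    (hdI : b - a ≤ allStabI a b) :
    ∃ B : LineBox, InU B.qI (allStabI a b) ∧ InU B.qd ((b - a) / allStabI a b) := by
  obtain ⟨hI0, hI7, ha, hd, -, -, -, -, -, -⟩ := hP
  have h1 : (b - a) / allStabI a b ≤ 1 := (div_le_one hI0).2 hdI
  have h0 : 0 < (b - a) / allStabI a b := div_pos hd hI0
  have hcap : 2 * allStabI a b + (b - a) < 19 / 50 := by simp only [allStabI]; linarith
  rcases le_or_gt (allStabI a b) (1250 / 10000) with i1 | i1
  · exact ⟨.a, ⟨by norm_num [LineBox.qI], by norm_num [LineBox.qI]; linarith,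
      by norm_num [LineBox.qI]; linarith⟩, ⟨by norm_num [LineBox.qd],
      by norm_num [LineBox.qd]; linarith, by norm_num [LineBox.qd]; linarith⟩⟩
  rcases le_or_gt (allStabI a b) (1300 / 10000) with i2 | i2
  · exact ⟨.b, ⟨by norm_num [LineBox.qI], by norm_num [LineBox.qI]; linarith,
      by norm_num [LineBox.qI]; linarith⟩, ⟨by norm_num [LineBox.qd],
      by norm_num [LineBox.qd]; linarith, by norm_num [LineBox.qd]; linarith⟩⟩
  rcases le_or_gt (allStabI a b) (1357 / 10000) with i3 | i3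
  · have h2 : (b - a) / allStabI a b ≤ 93 / 100 := by rw [div_le_iff₀ hI0]; linarith
    exact ⟨.c, ⟨by norm_num [LineBox.qI], by norm_num [LineBox.qI]; linarith,
      by norm_num [LineBox.qI]; linarith⟩, ⟨by norm_num [LineBox.qd],
      by norm_num [LineBox.qd]; linarith, by norm_num [LineBox.qd]; linarith⟩⟩
  · have h2 : (b - a) / allStabI a b ≤ 81 / 100 := by rw [div_le_iff₀ hI0]; linarith
    exact ⟨.d, ⟨by norm_num [LineBox.qI], by norm_num [LineBox.qI]; linarith,
      by norm_num [LineBox.qI]; linarith⟩, ⟨by norm_num [LineBox.qd],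
      by norm_num [LineBox.qd]; linarith, by norm_num [LineBox.qd]; linarith⟩⟩

/-- At the entry no point is on or above the line. -/
theorem line_entry (hP : TubePlace a b u v) (hI : 1 / 20 < allStabI a b)
    (hdI : b - a ≤ allStabI a b) (hl : 0 ≤ endLow 4 a b u v H) (ht : 0 < stripTube a b u v H)
    (hw0 : 249 / 10000 < 1 - u) (hw1 : 1 - u ≤ 26 / 1000) :
    1 - a * v < 13 / 25 + 41 / 5 * (1 - u) := by
  by_contra hn
  rw [not_lt] at hn
  obtain ⟨B, hB0, hB2⟩ := lineBox_of hP hI hdI
  have hI0 := hP.I_pos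
  have hav : 0 < a * v := mul_pos (by linarith [hP.a_gt]) hP.v_pos
  have hm : 0 < 480 - 8200 * (1 - u) := by linarith
  obtain ⟨s, hs⟩ : ∃ s, s = a * v * 1000 / (480 - 8200 * (1 - u)) := ⟨_, rfl⟩
  have h3 : InU ((0, 1, 1) : ℤ × ℤ × ℕ) s := by
    refine ⟨by norm_num, ?_, ?_⟩
    · norm_num; rw [hs]; positivity
    · norm_num; rw [hs, div_le_one hm]; linarith
  obtain ⟨y, hy⟩ : ∃ y : ℕ → ℝ, y = fun i => match i with
    | 0 => allStabI a b
    | 1 => 1 - u
    | 2 => (b - a) / allStabI a b
    | _ => s := ⟨_, rfl⟩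
  have hg : GeoAt lineGeoL y a b u v := by
    refine ⟨?_, ?_, ?_, ?_, ?_⟩ <;>
      simp only [lineGeoL, lineO, end_sub, end_mul, Ex.eval, hy]
    · field_simp
    · norm_num
    · push_cast
      rw [hs]
      field_simp
  refine left_false hg hP ((lineWin_ok B).nonneg fun i hi => ?_) hl ht
  interval_cases i
  · rw [hy]; exact sideUp_mem hB0
  · rw [hy]; exact sideUp_mem ⟨by norm_num, by norm_num; linarith, by norm_num; linarith⟩
  · rw [hy]; exact sideUp_mem hB2
  · rw [hy]; exact sideUp_mem h3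

/-- On the line the flow carries it upwards. -/
theorem line_sign (hP : TubePlace a b u v) (hI : 1 / 20 < allStabI a b)
    (hdI : b - a ≤ allStabI a b) (hl : 0 ≤ endLow 4 a b u v H) (hw : 1 - u ≤ 1 / 40)
    (hF : 13 / 25 + 41 / 5 * (1 - u) - (1 - a * v) = 0) :
    0 < -(41 / 5) * (u * allEn a b u v H) +
      a * ((1 + (b - a) * v) * (u * allFlow a b u v H)) := by
  obtain ⟨B, hB0, hB2⟩ := lineBox_of hP hI hdI
  obtain ⟨ha, hW, hK, hS, eQ, hQ⟩ := end_pos hP
  have hI0 := hP.I_pos
  have hd := hP.d_pos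
  have hu := hP.u_pos
  have hw0 : 0 < 1 - u := by linarith [hP.u_lt]
  have hv := hP.v_pos
  have hdI0 : 0 < (b - a) / allStabI a b := div_pos hd hI0
  obtain ⟨y, hy⟩ : ∃ y : ℕ → ℝ, y = fun i => match i with
    | 0 => allStabI a b
    | 1 => 1 - u
    | 2 => (b - a) / allStabI a b
    | _ => 0 := ⟨_, rfl⟩
  have hg : GeoAt lineGeo y a b u v := by
    refine ⟨?_, ?_, ?_, ?_, ?_⟩ <;>
      simp only [lineGeo, lineO, end_sub, end_mul, Ex.eval, hy]
    · field_simp
    · norm_num
    · push_cast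
      linarith
  have hc : 0 ≤ lineDotPos.eval y := by
    refine (lineDot_ok B).nonneg fun i hi => ?_
    interval_cases i
    · rw [hy]; exact sideUp_mem hB0
    · rw [hy]; exact sideUp_mem ⟨by norm_num, by norm_num; linarith, by norm_num; linarith⟩
    · rw [hy]; exact sideUp_mem hB2
    · rw [hy]; exact side_mem ⟨by norm_num, by norm_num, by norm_num⟩
  have hpos : 0 < (lineDot lineGeo).eval y := by
    simp only [lineDotPos, end_sub, end_mul, Ex.eval] at hc
    have : 0 < y 0 * (y 1 * y 2) := by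
      rw [hy]; exact mul_pos hI0 (mul_pos hw0 hdI0)
    have := pow_pos this 6
    refine pos_of_mul_pos_right (lt_of_lt_of_le this ?_)
      (show (0 : ℝ) ≤ ((2 ^ 80 : ℤ) : ℝ) by norm_num)
    linarith
  have V := hg.vals ha
  generalize 2 * a * lineGeo.den.eval y = E at V
  have hE := V.pos
  obtain ⟨M, hM⟩ : ∃ M, M = 1 - a * v - (1 - u) * endG 4 a b v := ⟨_, rfl⟩
  obtain ⟨Wp, hWp⟩ : ∃ Wp, Wp = b - a * ((1 + (b - a) * v) * u) := ⟨_, rfl⟩
  rw [← hWp] at hW
  obtain ⟨L, hL⟩ : ∃ L, L = M / Wp := ⟨_, rfl⟩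
  obtain ⟨X, hX⟩ : ∃ X : ℝ → ℝ, X = fun H =>
      a * ((1 + (b - a) * v) * allFlow a b u v H) - 41 / 5 * allEn a b u v H := ⟨_, rfl⟩
  have e : (lineDot lineGeo).eval y = 4000 * E ^ 3 * (80 * E ^ 2 * Wp) * X L := by
    simp only [lineDot, lineDH, lineHd, Geo.lowM, end_add, end_sub, end_mul, Ex.eval, V.eE, V.eS,
      V.eA, V.eV, V.eK, V.eq, V.eP, V.eT, V.eW, V.eQ, V.eud, hg.hI, hg.hw,
      show lineGeo.B.eval y = 2 * b by
        simp only [Geo.B, end_add, V.eS, hg.hd]; ring,
      ← hWp, hX, hL, hM, endG, allFlow, allEn, allDen]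
    push_cast
    field_simp
    ring
  rw [e] at hpos
  have hXL : 0 < X L := pos_of_mul_pos_right hpos (by positivity)
  have hHL : L ≤ H := by
    rw [hL, div_le_iff₀ hW, hM, hWp]
    simp only [endLow] at hl
    linarith
  have hsl : 0 ≤ allQn a b u v - (a + b) * ((1 - u) * b) := by
    rw [← eQ]
    have h1 : a + b ≤ 2 + (b - a) * v := by
      have := mul_pos hd hv
      simp only [allStabI] at hI0
      linarith
    have h2 : (a + b) * ((1 - u) * b) ≤ (2 + (b - a) * v) * ((1 - u) * b) :=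
      mul_le_mul_of_nonneg_right h1 (mul_nonneg hw0.le (by linarith))
    have h3 : 0 ≤ u * ((b - a) * (1 - a * v)) := by positivity
    linarith
  have eX : X H = X L + (H - L) * (a * ((1 + (b - a) * v) *
      (allQn a b u v + (a + b) * ((1 - a * v) * (u * (b - a))))) +
      41 / 5 * (u * (b - a) * (allQn a b u v - (a + b) * ((1 - u) * b)))) := by
    simp only [hX, allFlow, allEn, allDen]; ring
  have hXH : 0 < X H := by
    rw [eX]
    have hq : 0 < 1 + (b - a) * v := by linarith [mul_pos hd hv]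
    have h1 : 0 ≤ a * ((1 + (b - a) * v) *
        (allQn a b u v + (a + b) * ((1 - a * v) * (u * (b - a))))) := by positivity
    have h2 : 0 ≤ 41 / 5 * (u * (b - a) * (allQn a b u v - (a + b) * ((1 - u) * b))) := by
      positivity
    have := mul_nonneg (sub_nonneg.2 hHL) (add_nonneg h1 h2)
    linarith
  have := mul_pos hu hXH
  simp only [hX] at this
  linarith

end Vale.Agent.P100.Calib.StripEnd

namespace Vale.Agent.P100.Calib.Band

open Vale.Agent.P100.Bubble Chart StripEnd

variable {N p q : ℝ} {S : Set ℝ} {R x y s dx dy : ℝ → ℝ}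

theorem hasGrad_endLine (a : ℝ) :
    HasGrad (fun u v _ => 13 / 25 + 41 / 5 * (1 - u) - (1 - a * v))
      (fun _ _ _ => -(41 / 5)) (fun _ _ _ => a) (fun _ _ _ => 0) := by
  intro u v H du dv dh t hu hv hh
  refine ((((hu.const_sub 1).const_mul (41 / 5 : ℝ)).const_add (13 / 25 : ℝ)).fun_sub
    ((hv.const_mul a).const_sub 1)).congr_deriv ?_
  ring

/-- **The line above `K` from `u = 39/40` on** for real `N ∈ [7, 20)`, `31/100 < 1/(p+1)` and
`be - al ≤ I`. -/
theorem orbit_strip_end_line (hf : IsOrbitFns N p q S R x y s dx dy)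
    (hb : SlabBoxAll N (1 / (p + 1)) (1 / (q + 1))) (h7 : 7 ≤ N) (h20 : N < 20)
    (ha : 31 / 100 < 1 / (p + 1))
    (hdI : 1 / (q + 1) - 1 / (p + 1) ≤ allStabI (1 / (p + 1)) (1 / (q + 1)))
    {w : ℝ} (hw : w ∈ S) (hw0 : 0 < R w) (hwu : 39 / 40 ≤ uOf N (R w) (x w)) :
    1 - 1 / (p + 1) * vOf (1 / (p + 1)) (1 / (q + 1)) (y w / x w) <
      13 / 25 + 41 / 5 * (1 - uOf N (R w) (x w)) := by
  have hI : 1 / 20 < allStabI (1 / (p + 1)) (1 / (q + 1)) := by
    have hN : 0 < N := by linarith
    have hIN : N * allStabI (1 / (p + 1)) (1 / (q + 1)) = 1 := by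
      have := hb.dim
      simp only [allStabI]
      linarith
    refine lt_of_mul_lt_mul_left (a := N) ?_ hN.le
    linarith
  have key := forward_step_all hf hb (u₀ := 39 / 40) (u₁ := 1) (K := 9000000) (by norm_num)
    (hasGrad_endLine (1 / (p + 1))) (by fun_prop)
    (fun u v H => 973 / 1000 ≤ u →
      TubePlace (1 / (p + 1)) (1 / (q + 1)) u v ∧
        0 ≤ endLow 4 (1 / (p + 1)) (1 / (q + 1)) u v H ∧
        0 < stripTube (1 / (p + 1)) (1 / (q + 1)) u v H)
    (fun z hz hz0 _ hzu => ?_) (fun v h1 h2 h3 => ?_) (fun u v H hP he hu hE => ?_)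
    (fun u v H hP he hu _ hE hF => ?_) hw hw0 hwu (orbit_point_all hf hb hw hw0).1.u_lt.le
  · linarith
  · have hP := (orbit_point_all hf hb hz hz0).1
    refine ⟨tubePlace_of hb h7 ha hP.u_pos hP.u_lt hP.toVRange, ?_,
      orbit_strip_tube hf hb h7 ha hz hz0 (by linarith)⟩
    rw [endLow_four]
    exact orbit_strip_sev_low hf hb h7 h20 ha hz hz0
  · have : 0 ≤ 1 / (p + 1) * v := by
      have := (div_pos one_pos (show 0 < p + 1 from by
        by_contra hp
        have : 1 / (p + 1) ≤ 0 := div_nonpos_of_nonneg_of_nonpos zero_le_one (not_lt.1 hp)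
        linarith))
      have : 0 < v := pos_of_mul_pos_right (show 0 < (N + 2 * (1 / (p + 1))) * v by linarith)
        (by linarith)
      positivity
    linarith
  · have hP' := tubePlace_of hb h7 ha hP.u_pos hP.u_lt hP.toVRange
    rcases le_or_gt (974 / 1000) u with h | h
    · obtain ⟨-, hl, ht⟩ := hE (by linarith)
      have := line_entry hP' hI hdI hl ht (by linarith) (by linarith)
      have : 0 ≤ 9000000 * (39 / 40 - u) ^ 2 := by positivity
      linarith
    · have hsq : 1 / 1000000 ≤ (39 / 40 - u) ^ 2 := by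
        have := mul_le_mul (show 1 / 1000 ≤ 39 / 40 - u by linarith)
          (show 1 / 1000 ≤ 39 / 40 - u by linarith) (by norm_num) (by linarith)
        linarith
      have : 0 < 1 / (p + 1) * v := mul_pos (by linarith) hP'.v_pos
      have := hP.u_lt
      linarith
  · obtain ⟨hP', hl, -⟩ := hE (by linarith)
    have := line_sign hP' hI hdI hl (by linarith) hF
    simp only [allDot, zero_mul, add_zero]
    linarith

end Vale.Agent.P100.Calib.Band
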