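import Vale.Agent.P100.Calib.SlabStripEndPlaceSev
import Vale.Agent.P100.Calib.SlabStripSevExit
import Vale.Agent.P100.Calib.SlabMainOrbit

/-!
# The signs of the strip along orbits for `u > 4/5` and `7 <= n < 20`, from those of the charts
-/

set_option linter.unusedVariables false

open Set

namespace Vale.Agent.P100.Calib.StripEnd

open Pack Band Bubble Chart StripMid

/-- The signs at a point of a chart. -/
def EndSigns7 (n : ℕ) : Prop :=
  ∀ a b u v t H : ℝ, Closed.All.ChartBox n (b - a) (a + b) →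
    Closed.All.ChartFacts (b - a) (a + b) u v t → Closed.chH (b - a) (a + b) u v t = H →
    EndBands7 a b u v H → 1 / 20 < allStabI a b → allStabI a b ≤ 1 / 7 → 4 / 5 < u →
    EndPlace7 a b u v H → Closed.Strip.ChartSigns (b - a) (a + b) u v t

/-- **The signs of the strip on `4/5 < u`** for `7 <= n < 20`, from those of the charts. -/
theorem orbit_signs_strip_end7 {n : ℕ} (hn : 7 ≤ n) (hn' : n < 20) (hS : EndSigns7 n) :
    OrbitSignsStrip n (fun r u => 0 < r ∧ 4 / 5 < u) := by
  intro N p q R₀ R x y s dx dy hc hf hb hcb ha z hz hκ hZ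
  obtain ⟨hR, hu⟩ := hZ
  have hn7 : (7 : ℝ) ≤ n := by exact_mod_cast hn
  have hn19 : (n : ℝ) ≤ 19 := by exact_mod_cast (show n ≤ 19 by omega)
  have hlo := hcb.dim_low
  have hhi := hcb.dim_high (by omega)
  rw [← hb.dim_eq] at hlo hhi
  have h7 : 7 ≤ N := by linarith
  have h20 : N < 20 := by linarith
  have hd := hb.facts.2.2.1
  have hP := (orbit_point_all hf hb hz hR).1
  obtain ⟨-, eH⟩ := slopeAt_eq_all hc hf hb hz hR.ne'
  have hPl := sevPlace_of hb h7 h20 ha hP.u_pos hP.u_lt hP.toVRange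
  have hB : EndBands7 (1 / (p + 1)) (1 / (q + 1)) (uOf N (R z) (x z))
      (vOf (1 / (p + 1)) (1 / (q + 1)) (y z / x z))
      (hOf N (R z) (x z) (y z) z / (1 / (q + 1) - 1 / (p + 1))) :=
    ⟨tubePlace_of hb h7 ha hP.u_pos hP.u_lt hP.toVRange,
      orbit_strip_sev_low hf hb h7 h20 ha hz hR,
      orbit_strip_sev_top hf hb h7 h20 ha hz hR (by linarith),
      orbit_strip_tube hf hb h7 ha hz hR (by linarith),
      hP.flow_pos, hP.den_pos, hP.H_pos⟩
  refine hS _ _ _ _ _ _ hcb (chartFacts_orbit_all hc hf hb hz hR) ?_ hB hPl.I_gt hPl.I_le hu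
    (end_place7 hB hPl.I_gt hPl.I_le hu)
  rw [eq_div_iff hd.ne']
  linarith

end Vale.Agent.P100.Calib.StripEnd
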