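import Vale.Agent.P100.Calib.SlabStripEndOrbit
import Vale.Agent.P100.Calib.SlabStripEndOrbitSev
import Vale.Agent.P100.Calib.SlabStripEndLine

/-!
# The signs of the strip for `u > 4/5` from those of the single charts

`Certs*` are the statements for the single charts, in three groups for each range of dimensions.
In the dimensions from seven to twenty a point also carries the exit line of `orbit_strip_end_line`.
-/

set_option linter.unusedVariables false

open Set

namespace Vale.Agent.P100.Calib.StripEnd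

open Pack Band Bubble Chart StripMid

/-- `D2` at most at its kink. -/
def DLow (a b : ℝ) : Prop := (b - a) * (1 - allStabI a b) ≤ (a + b) * allStabI a b

/-- `D2` at least at its kink. -/
def DHigh (a b : ℝ) : Prop := (a + b) * allStabI a b ≤ (b - a) * (1 - allStabI a b)

/-- The line below the exit near `u = 1`. -/
def ExitLine (a b u v : ℝ) : Prop :=
  b - a ≤ allStabI a b → 39 / 40 ≤ u → 1 - a * v < 13 / 25 + 41 / 5 * (1 - u)

/-- The signs over a chart, from twenty on. -/
def CSigns (n : ℕ) (c : EndChart) (side : ℝ → ℝ → Prop) : Prop :=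
  ∀ (a b u v t H : ℝ) (x : ℕ → ℝ), Closed.All.ChartBox n (b - a) (a + b) →
    Closed.All.ChartFacts (b - a) (a + b) u v t → Closed.chH (b - a) (a + b) u v t = H →
    EndBands a b u v H → allStabI a b ≤ 1 / 20 → 4 / 5 < u → c.Point x a b u v H → side a b →
    Closed.Strip.ChartSigns (b - a) (a + b) u v t

/-- The signs over a chart, from seven to twenty. -/
def CSigns7 (n : ℕ) (c : EndChart) (side : ℝ → ℝ → Prop) : Prop :=
  ∀ (a b u v t H : ℝ) (x : ℕ → ℝ), Closed.All.ChartBox n (b - a) (a + b) →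
    Closed.All.ChartFacts (b - a) (a + b) u v t → Closed.chH (b - a) (a + b) u v t = H →
    EndBands7 a b u v H → 1 / 20 < allStabI a b → allStabI a b ≤ 1 / 7 → 4 / 5 < u →
    ExitLine a b u v → c.Point x a b u v H → side a b →
    Closed.Strip.ChartSigns (b - a) (a + b) u v t

/-- The statements for the charts at small `I` and `Z` from twenty on. -/
structure CertsIZ (n : ℕ) : Prop where
  cIAt : CSigns n endIAt DLow
  cIAu : CSigns n endIAu DLow
  cIBt : CSigns n endIBt DLow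
  cIBu : CSigns n endIBu DLow
  cICt : CSigns n endICt DLow
  cICu : CSigns n endICu DLow
  cIDp : CSigns n endIDp DLow
  cIDq : CSigns n endIDq DLow
  cIDr : CSigns n endIDr DLow
  cIDu : CSigns n endIDu DLow
  cIEp : CSigns n endIEp DHigh
  cIEq : CSigns n endIEq DHigh
  cIEu : CSigns n endIEu DHigh
  cZA : CSigns n endZA DLow
  cZB : CSigns n endZB DLow

/-- The statements for the `C` charts from twenty on. -/
structure CertsC (n : ℕ) : Prop where
  cIFp : CSigns n endIFp DHigh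
  cIFq : CSigns n endIFq DHigh
  cIFg : CSigns n endIFg DHigh
  cIFh : CSigns n endIFh DHigh
  cIGt : CSigns n endIGt DHigh
  cIGu : CSigns n endIGu DHigh
  cCA : CSigns n endCA DHigh
  cCB : CSigns n endCB DHigh

/-- The statements for the `D` charts from twenty on. -/
structure CertsD (n : ℕ) : Prop where
  cD00 : CSigns n endD00 DHigh
  cD01 : CSigns n endD01 DHigh
  cD02 : CSigns n endD02 DHigh
  cD03 : CSigns n endD03 DHigh
  cD04 : CSigns n endD04 DHigh
  cD05 : CSigns n endD05 DHigh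
  cD06 : CSigns n endD06 DHigh
  cD07 : CSigns n endD07 DHigh
  cD08 : CSigns n endD08 DHigh
  cD09 : CSigns n endD09 DHigh
  cD10 : CSigns n endD10 DHigh
  cD11 : CSigns n endD11 DHigh
  cD12 : CSigns n endD12 DHigh
  cD13 : CSigns n endD13 DHigh
  cD14 : CSigns n endD14 DHigh
  cD15 : CSigns n endD15 DHigh
  cD16 : CSigns n endD16 DHigh
  cD17 : CSigns n endD17 DHigh
  cD18 : CSigns n endD18 DHigh
  cD19 : CSigns n endD19 DHigh
  cD20 : CSigns n endD20 DHigh
  cD21 : CSigns n endD21 DHigh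
  cD22 : CSigns n endD22 DHigh
  cD23 : CSigns n endD23 DHigh
  cD24 : CSigns n endD24 DHigh
  cD25 : CSigns n endD25 DHigh
  cD26 : CSigns n endD26 DHigh
  cD27 : CSigns n endD27 DHigh
  cD28 : CSigns n endD28 DHigh
  cD29 : CSigns n endD29 DHigh
  cD30 : CSigns n endD30 DHigh
  cD31 : CSigns n endD31 DHigh
  cD32 : CSigns n endD32 DHigh
  cD33 : CSigns n endD33 DHigh
  cD34 : CSigns n endD34 DHigh
  cD35 : CSigns n endD35 DHigh
  cD36 : CSigns n endD36 DHigh
  cD37 : CSigns n endD37 DHigh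
  cD38 : CSigns n endD38 DHigh
  cD39 : CSigns n endD39 DHigh
  cD40 : CSigns n endD40 DHigh
  cD41 : CSigns n endD41 DHigh
  cD42 : CSigns n endD42 DHigh
  cD43 : CSigns n endD43 DHigh
  cD44 : CSigns n endD44 DHigh
  cD45 : CSigns n endD45 DHigh
  cD46 : CSigns n endD46 DHigh
  cD47 : CSigns n endD47 DHigh
  cD48 : CSigns n endD48 DHigh
  cD49 : CSigns n endD49 DHigh
  cD50 : CSigns n endD50 DHigh
  cD51 : CSigns n endD51 DHigh
  cD52 : CSigns n endD52 DHigh
  cD53 : CSigns n endD53 DHigh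
  cD54 : CSigns n endD54 DHigh
  cD55 : CSigns n endD55 DHigh
  cD56 : CSigns n endD56 DHigh
  cD57 : CSigns n endD57 DHigh

/-- The statements for the charts at small `I` and `Z` from seven to twenty. -/
structure CertsIZ7 (n : ℕ) : Prop where
  cIAL : CSigns7 n sevIAL DLow
  cIBL : CSigns7 n sevIBL DLow
  cICL : CSigns7 n sevICL DLow
  cIDL : CSigns7 n sevIDL DLow
  cIEL : CSigns7 n sevIEL DHigh
  cIAH : CSigns7 n sevIAH DLow
  cIBH : CSigns7 n sevIBH DLow
  cICH : CSigns7 n sevICH DLow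
  cIDH : CSigns7 n sevIDH DLow
  cIEH : CSigns7 n sevIEH DHigh
  cIAG : CSigns7 n sevIAG DLow
  cIBG : CSigns7 n sevIBG DLow
  cICG : CSigns7 n sevICG DLow
  cIDGa : CSigns7 n sevIDGa DLow
  cIDGb : CSigns7 n sevIDGb DLow
  cIEGc : CSigns7 n sevIEGc DHigh
  cIEGd : CSigns7 n sevIEGd DHigh
  cZBL : CSigns7 n sevZBL DLow
  cZBH : CSigns7 n sevZBH DLow

/-- The statements for the `C` charts from seven to twenty. -/
structure CertsC7 (n : ℕ) : Prop where
  cCBL : CSigns7 n sevCBL DHigh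
  cCBH : CSigns7 n sevCBH DHigh

/-- The statements for the `D` charts from seven to twenty. -/
structure CertsD7 (n : ℕ) : Prop where
  cDa : CSigns7 n sevDa DHigh
  cDb : CSigns7 n sevDb DHigh
  cDc : CSigns7 n sevDc DHigh
  cDd : CSigns7 n sevDd DHigh
  cDe : CSigns7 n sevDe DHigh
  cDf : CSigns7 n sevDf DHigh
  cDg : CSigns7 n sevDg DHigh
  cDh : CSigns7 n sevDh DHigh
  cDi : CSigns7 n sevDi DHigh
  cDj : CSigns7 n sevDj DHigh
  cDk : CSigns7 n sevDk DHigh
  cDl : CSigns7 n sevDl DHigh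

/-- The signs from twenty on from the charts. -/
theorem endSigns_of {n : ℕ} (hZ : CertsIZ n) (hC : CertsC n) (hD : CertsD n) : EndSigns n := by
  intro a b u v t H hb hF hH hB hI hu hP
  cases hP with
  | cIAt x hx hk => exact hZ.cIAt a b u v t H x hb hF hH hB hI hu hx hk
  | cIAu x hx hk => exact hZ.cIAu a b u v t H x hb hF hH hB hI hu hx hk
  | cIBt x hx hk => exact hZ.cIBt a b u v t H x hb hF hH hB hI hu hx hk
  | cIBu x hx hk => exact hZ.cIBu a b u v t H x hb hF hH hB hI hu hx hk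
  | cICt x hx hk => exact hZ.cICt a b u v t H x hb hF hH hB hI hu hx hk
  | cICu x hx hk => exact hZ.cICu a b u v t H x hb hF hH hB hI hu hx hk
  | cIDp x hx hk => exact hZ.cIDp a b u v t H x hb hF hH hB hI hu hx hk
  | cIDq x hx hk => exact hZ.cIDq a b u v t H x hb hF hH hB hI hu hx hk
  | cIDr x hx hk => exact hZ.cIDr a b u v t H x hb hF hH hB hI hu hx hk
  | cIDu x hx hk => exact hZ.cIDu a b u v t H x hb hF hH hB hI hu hx hk
  | cIEp x hx hk => exact hZ.cIEp a b u v t H x hb hF hH hB hI hu hx hk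
  | cIEq x hx hk => exact hZ.cIEq a b u v t H x hb hF hH hB hI hu hx hk
  | cIEu x hx hk => exact hZ.cIEu a b u v t H x hb hF hH hB hI hu hx hk
  | cIFp x hx hk => exact hC.cIFp a b u v t H x hb hF hH hB hI hu hx hk
  | cIFq x hx hk => exact hC.cIFq a b u v t H x hb hF hH hB hI hu hx hk
  | cIFg x hx hk => exact hC.cIFg a b u v t H x hb hF hH hB hI hu hx hk
  | cIFh x hx hk => exact hC.cIFh a b u v t H x hb hF hH hB hI hu hx hk
  | cIGt x hx hk => exact hC.cIGt a b u v t H x hb hF hH hB hI hu hx hk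
  | cIGu x hx hk => exact hC.cIGu a b u v t H x hb hF hH hB hI hu hx hk
  | cZA x hx hk => exact hZ.cZA a b u v t H x hb hF hH hB hI hu hx hk
  | cZB x hx hk => exact hZ.cZB a b u v t H x hb hF hH hB hI hu hx hk
  | cCA x hx hk => exact hC.cCA a b u v t H x hb hF hH hB hI hu hx hk
  | cCB x hx hk => exact hC.cCB a b u v t H x hb hF hH hB hI hu hx hk
  | cD00 x hx hk => exact hD.cD00 a b u v t H x hb hF hH hB hI hu hx hk
  | cD01 x hx hk => exact hD.cD01 a b u v t H x hb hF hH hB hI hu hx hk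
  | cD02 x hx hk => exact hD.cD02 a b u v t H x hb hF hH hB hI hu hx hk
  | cD03 x hx hk => exact hD.cD03 a b u v t H x hb hF hH hB hI hu hx hk
  | cD04 x hx hk => exact hD.cD04 a b u v t H x hb hF hH hB hI hu hx hk
  | cD05 x hx hk => exact hD.cD05 a b u v t H x hb hF hH hB hI hu hx hk
  | cD06 x hx hk => exact hD.cD06 a b u v t H x hb hF hH hB hI hu hx hk
  | cD07 x hx hk => exact hD.cD07 a b u v t H x hb hF hH hB hI hu hx hk
  | cD08 x hx hk => exact hD.cD08 a b u v t H x hb hF hH hB hI hu hx hk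
  | cD09 x hx hk => exact hD.cD09 a b u v t H x hb hF hH hB hI hu hx hk
  | cD10 x hx hk => exact hD.cD10 a b u v t H x hb hF hH hB hI hu hx hk
  | cD11 x hx hk => exact hD.cD11 a b u v t H x hb hF hH hB hI hu hx hk
  | cD12 x hx hk => exact hD.cD12 a b u v t H x hb hF hH hB hI hu hx hk
  | cD13 x hx hk => exact hD.cD13 a b u v t H x hb hF hH hB hI hu hx hk
  | cD14 x hx hk => exact hD.cD14 a b u v t H x hb hF hH hB hI hu hx hk
  | cD15 x hx hk => exact hD.cD15 a b u v t H x hb hF hH hB hI hu hx hk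
  | cD16 x hx hk => exact hD.cD16 a b u v t H x hb hF hH hB hI hu hx hk
  | cD17 x hx hk => exact hD.cD17 a b u v t H x hb hF hH hB hI hu hx hk
  | cD18 x hx hk => exact hD.cD18 a b u v t H x hb hF hH hB hI hu hx hk
  | cD19 x hx hk => exact hD.cD19 a b u v t H x hb hF hH hB hI hu hx hk
  | cD20 x hx hk => exact hD.cD20 a b u v t H x hb hF hH hB hI hu hx hk
  | cD21 x hx hk => exact hD.cD21 a b u v t H x hb hF hH hB hI hu hx hk
  | cD22 x hx hk => exact hD.cD22 a b u v t H x hb hF hH hB hI hu hx hk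
  | cD23 x hx hk => exact hD.cD23 a b u v t H x hb hF hH hB hI hu hx hk
  | cD24 x hx hk => exact hD.cD24 a b u v t H x hb hF hH hB hI hu hx hk
  | cD25 x hx hk => exact hD.cD25 a b u v t H x hb hF hH hB hI hu hx hk
  | cD26 x hx hk => exact hD.cD26 a b u v t H x hb hF hH hB hI hu hx hk
  | cD27 x hx hk => exact hD.cD27 a b u v t H x hb hF hH hB hI hu hx hk
  | cD28 x hx hk => exact hD.cD28 a b u v t H x hb hF hH hB hI hu hx hk
  | cD29 x hx hk => exact hD.cD29 a b u v t H x hb hF hH hB hI hu hx hk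
  | cD30 x hx hk => exact hD.cD30 a b u v t H x hb hF hH hB hI hu hx hk
  | cD31 x hx hk => exact hD.cD31 a b u v t H x hb hF hH hB hI hu hx hk
  | cD32 x hx hk => exact hD.cD32 a b u v t H x hb hF hH hB hI hu hx hk
  | cD33 x hx hk => exact hD.cD33 a b u v t H x hb hF hH hB hI hu hx hk
  | cD34 x hx hk => exact hD.cD34 a b u v t H x hb hF hH hB hI hu hx hk
  | cD35 x hx hk => exact hD.cD35 a b u v t H x hb hF hH hB hI hu hx hk
  | cD36 x hx hk => exact hD.cD36 a b u v t H x hb hF hH hB hI hu hx hk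
  | cD37 x hx hk => exact hD.cD37 a b u v t H x hb hF hH hB hI hu hx hk
  | cD38 x hx hk => exact hD.cD38 a b u v t H x hb hF hH hB hI hu hx hk
  | cD39 x hx hk => exact hD.cD39 a b u v t H x hb hF hH hB hI hu hx hk
  | cD40 x hx hk => exact hD.cD40 a b u v t H x hb hF hH hB hI hu hx hk
  | cD41 x hx hk => exact hD.cD41 a b u v t H x hb hF hH hB hI hu hx hk
  | cD42 x hx hk => exact hD.cD42 a b u v t H x hb hF hH hB hI hu hx hk
  | cD43 x hx hk => exact hD.cD43 a b u v t H x hb hF hH hB hI hu hx hk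
  | cD44 x hx hk => exact hD.cD44 a b u v t H x hb hF hH hB hI hu hx hk
  | cD45 x hx hk => exact hD.cD45 a b u v t H x hb hF hH hB hI hu hx hk
  | cD46 x hx hk => exact hD.cD46 a b u v t H x hb hF hH hB hI hu hx hk
  | cD47 x hx hk => exact hD.cD47 a b u v t H x hb hF hH hB hI hu hx hk
  | cD48 x hx hk => exact hD.cD48 a b u v t H x hb hF hH hB hI hu hx hk
  | cD49 x hx hk => exact hD.cD49 a b u v t H x hb hF hH hB hI hu hx hk
  | cD50 x hx hk => exact hD.cD50 a b u v t H x hb hF hH hB hI hu hx hk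
  | cD51 x hx hk => exact hD.cD51 a b u v t H x hb hF hH hB hI hu hx hk
  | cD52 x hx hk => exact hD.cD52 a b u v t H x hb hF hH hB hI hu hx hk
  | cD53 x hx hk => exact hD.cD53 a b u v t H x hb hF hH hB hI hu hx hk
  | cD54 x hx hk => exact hD.cD54 a b u v t H x hb hF hH hB hI hu hx hk
  | cD55 x hx hk => exact hD.cD55 a b u v t H x hb hF hH hB hI hu hx hk
  | cD56 x hx hk => exact hD.cD56 a b u v t H x hb hF hH hB hI hu hx hk
  | cD57 x hx hk => exact hD.cD57 a b u v t H x hb hF hH hB hI hu hx hk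

/-- The signs from seven to twenty from the charts. -/
theorem signs_of_charts7 {n : ℕ} (hZ : CertsIZ7 n) (hC : CertsC7 n) (hD : CertsD7 n)
    {a b u v t H : ℝ} (hb : Closed.All.ChartBox n (b - a) (a + b))
    (hF : Closed.All.ChartFacts (b - a) (a + b) u v t)
    (hH : Closed.chH (b - a) (a + b) u v t = H) (hB : EndBands7 a b u v H)
    (hI0 : 1 / 20 < allStabI a b) (hI : allStabI a b ≤ 1 / 7) (hu : 4 / 5 < u)
    (hL : ExitLine a b u v) (hP : EndPlace7 a b u v H) :
    Closed.Strip.ChartSigns (b - a) (a + b) u v t := by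
  cases hP with
  | cIAL x hx hk => exact hZ.cIAL a b u v t H x hb hF hH hB hI0 hI hu hL hx hk
  | cIBL x hx hk => exact hZ.cIBL a b u v t H x hb hF hH hB hI0 hI hu hL hx hk
  | cICL x hx hk => exact hZ.cICL a b u v t H x hb hF hH hB hI0 hI hu hL hx hk
  | cIDL x hx hk => exact hZ.cIDL a b u v t H x hb hF hH hB hI0 hI hu hL hx hk
  | cIEL x hx hk => exact hZ.cIEL a b u v t H x hb hF hH hB hI0 hI hu hL hx hk
  | cIAH x hx hk => exact hZ.cIAH a b u v t H x hb hF hH hB hI0 hI hu hL hx hk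
  | cIBH x hx hk => exact hZ.cIBH a b u v t H x hb hF hH hB hI0 hI hu hL hx hk
  | cICH x hx hk => exact hZ.cICH a b u v t H x hb hF hH hB hI0 hI hu hL hx hk
  | cIDH x hx hk => exact hZ.cIDH a b u v t H x hb hF hH hB hI0 hI hu hL hx hk
  | cIEH x hx hk => exact hZ.cIEH a b u v t H x hb hF hH hB hI0 hI hu hL hx hk
  | cIAG x hx hk => exact hZ.cIAG a b u v t H x hb hF hH hB hI0 hI hu hL hx hk
  | cIBG x hx hk => exact hZ.cIBG a b u v t H x hb hF hH hB hI0 hI hu hL hx hk
  | cICG x hx hk => exact hZ.cICG a b u v t H x hb hF hH hB hI0 hI hu hL hx hk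
  | cIDGa x hx hk => exact hZ.cIDGa a b u v t H x hb hF hH hB hI0 hI hu hL hx hk
  | cIDGb x hx hk => exact hZ.cIDGb a b u v t H x hb hF hH hB hI0 hI hu hL hx hk
  | cIEGc x hx hk => exact hZ.cIEGc a b u v t H x hb hF hH hB hI0 hI hu hL hx hk
  | cIEGd x hx hk => exact hZ.cIEGd a b u v t H x hb hF hH hB hI0 hI hu hL hx hk
  | cZBL x hx hk => exact hZ.cZBL a b u v t H x hb hF hH hB hI0 hI hu hL hx hk
  | cCBL x hx hk => exact hC.cCBL a b u v t H x hb hF hH hB hI0 hI hu hL hx hk
  | cZBH x hx hk => exact hZ.cZBH a b u v t H x hb hF hH hB hI0 hI hu hL hx hk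
  | cCBH x hx hk => exact hC.cCBH a b u v t H x hb hF hH hB hI0 hI hu hL hx hk
  | cDa x hx hk => exact hD.cDa a b u v t H x hb hF hH hB hI0 hI hu hL hx hk
  | cDb x hx hk => exact hD.cDb a b u v t H x hb hF hH hB hI0 hI hu hL hx hk
  | cDc x hx hk => exact hD.cDc a b u v t H x hb hF hH hB hI0 hI hu hL hx hk
  | cDd x hx hk => exact hD.cDd a b u v t H x hb hF hH hB hI0 hI hu hL hx hk
  | cDe x hx hk => exact hD.cDe a b u v t H x hb hF hH hB hI0 hI hu hL hx hk
  | cDf x hx hk => exact hD.cDf a b u v t H x hb hF hH hB hI0 hI hu hL hx hk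
  | cDg x hx hk => exact hD.cDg a b u v t H x hb hF hH hB hI0 hI hu hL hx hk
  | cDh x hx hk => exact hD.cDh a b u v t H x hb hF hH hB hI0 hI hu hL hx hk
  | cDi x hx hk => exact hD.cDi a b u v t H x hb hF hH hB hI0 hI hu hL hx hk
  | cDj x hx hk => exact hD.cDj a b u v t H x hb hF hH hB hI0 hI hu hL hx hk
  | cDk x hx hk => exact hD.cDk a b u v t H x hb hF hH hB hI0 hI hu hL hx hk
  | cDl x hx hk => exact hD.cDl a b u v t H x hb hF hH hB hI0 hI hu hL hx hk

/-- **The signs of the strip on `4/5 < u`** for `7 ≤ n < 20`, from those of the single charts. -/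
theorem orbit_signs_strip_end7_of {n : ℕ} (hn : 7 ≤ n) (hn' : n < 20)
    (hZ : CertsIZ7 n) (hC : CertsC7 n) (hD : CertsD7 n) :
    OrbitSignsStrip n (fun r u => 0 < r ∧ 4 / 5 < u) := by
  intro N p q R₀ R x y s dx dy hc hf hb hcb ha z hz hκ hZ'
  obtain ⟨hR, hu⟩ := hZ'
  have hn7 : (7 : ℝ) ≤ n := by exact_mod_cast hn
  have hn19 : (n : ℝ) ≤ 19 := by exact_mod_cast (show n ≤ 19 by omega)
  have hlo := hcb.dim_low
  have hhi := hcb.dim_high (by omega)
  rw [← hb.dim_eq] at hlo hhi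
  have h7 : 7 ≤ N := by linarith
  have h20 : N < 20 := by linarith
  have hd := hb.facts.2.2.1
  have hP := (orbit_point_all hf hb hz hR).1
  obtain ⟨-, eH⟩ := slopeAt_eq_all hc hf hb hz hR.ne'
  have hPl := sevPlace_of hb h7 h20 ha hP.u_pos hP.u_lt hP.toVRange
  have hB : EndBands7 (1 / (p + 1)) (1 / (q + 1)) (uOf N (R z) (x z))
      (vOf (1 / (p + 1)) (1 / (q + 1)) (y z / x z))
      (hOf N (R z) (x z) (y z) z / (1 / (q + 1) - 1 / (p + 1))) :=
    ⟨tubePlace_of hb h7 ha hP.u_pos hP.u_lt hP.toVRange,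
      orbit_strip_sev_low hf hb h7 h20 ha hz hR,
      orbit_strip_sev_top hf hb h7 h20 ha hz hR (by linarith),
      orbit_strip_tube hf hb h7 ha hz hR (by linarith),
      hP.flow_pos, hP.den_pos, hP.H_pos⟩
  refine signs_of_charts7 hZ hC hD hcb (chartFacts_orbit_all hc hf hb hz hR) ?_ hB hPl.I_gt hPl.I_le hu
    (fun hdI hw => orbit_strip_end_line hf hb h7 h20 ha hdI hz hR hw)
    (end_place7 hB hPl.I_gt hPl.I_le hu)
  rw [eq_div_iff hd.ne']
  linarith

/-- **The signs of the strip on `4/5 < u`** from twenty on, from those of the single charts. -/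
theorem orbit_signs_strip_end_of {n : ℕ} (hn : 20 ≤ n)
    (hZ : CertsIZ n) (hC : CertsC n) (hD : CertsD n) :
    OrbitSignsStrip n (fun r u => 0 < r ∧ 4 / 5 < u) :=
  orbit_signs_strip_end hn (endSigns_of hZ hC hD)

end Vale.Agent.P100.Calib.StripEnd
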