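import Vale.Agent.P100.Calib.SlabStripEndDCert
import Vale.Agent.P100.Calib.SlabStripEndSigns

/-!
# The signs from one bin with the coordinates `(d, I / d, (1 - u) / d)`

Above the kink of `D2`, where `I / d` may exceed one.
-/

set_option linter.unusedVariables false

namespace Vale.Agent.P100.Calib.StripEndD

open Pack hiding ev_add ev_mul
open Pack.Ex Band StripMid StripEnd

local instance endCBinAdd : Add Ex := ⟨Ex.add⟩
local instance endCBinSub : Sub Ex := ⟨Ex.sub⟩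
local instance endCBinMul : Mul Ex := ⟨Ex.mul⟩

/-- `D2 d = (1 - I - (I / d) S) / S²` above the kink. -/
theorem kap_dflat {P : Piece} {x : ℕ → ℝ} (hI : P.I = var 0 * var 1) (hd : P.d = var 0)
    (hcn : P.cn = num 1 - P.I - var 1 * P.S) (hcd : P.cd = P.S * P.S)
    (h : Place P x) (h0 : 0 < x 0)
    (hflat : P.S.eval x * P.I.eval x ≤ P.d.eval x * (1 - P.I.eval x)) :
    (AllN.kapAll (1 / P.I.eval x) (xa P x) + 1) / P.d.eval x = kap P x := by
  have eI : P.I.eval x = x 0 * x 1 := by rw [hI]; rfl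
  have ed : P.d.eval x = x 0 := by rw [hd]; rfl
  refine kap_flat h.I h.d h.S eval_S
    (by linarith [eval_A' (P := P) (x := x), eval_S (P := P) (x := x)]) ⟨fun hk => ?_, fun _ => ?_⟩
  all_goals simp only [kap, hcn, hcd, ev_sub, ev_mul, Ex.eval]
  · have e := le_antisymm hflat hk
    rw [eI, ed] at e
    have : P.S.eval x * x 1 = 1 - x 0 * x 1 := by
      refine mul_left_cancel₀ h0.ne' ?_
      linarith
    rw [eI, mul_comm (x 1), this]
    push_cast
    simp
  · rw [eI, ed]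
    push_cast
    field_simp

/-- A piece and a chart over one bin, both checked. -/
structure Bin (c : EndChart) (P : Piece) (B : StripEnd.EBox) : Prop where
  ok : c.Cert7
  cert : Cert P B
  lies : P.Over c
  box : B.q₀ = c.q₀ ∧ B.q₁ = c.q₁ ∧ B.q₂ = c.q₂ ∧ B.q₃ = c.q₃
  cI : c.I = var 0 * var 1
  cd : c.d = var 0
  cw : c.w = var 0 * var 2
  cden : c.den = num 100
  pI : P.I = var 0 * var 1
  pd : P.d = var 0
  pcn : P.cn = num 1 - P.I - var 1 * P.S
  pcd : P.cd = P.S * P.S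

variable {c : EndChart} {P : Piece} {B : StripEnd.EBox} {n : ℕ} {a b u v t H : ℝ}

/-- The signs over a bin. -/
theorem Bin.signs (K : Bin c P B) (hb : Closed.All.ChartBox n (b - a) (a + b))
    (hF : Closed.All.ChartFacts (b - a) (a + b) u v t)
    (hH : Closed.chH (b - a) (a + b) u v t = H) (hB : EndBands7 a b u v H) (hk : DHigh a b)
    (h0 : InU c.q₀ (b - a)) (h1 : InU c.q₁ (allStabI a b / (b - a)))
    (h2 : InU c.q₂ ((1 - u) / (b - a))) :
    Closed.Strip.ChartSigns (b - a) (a + b) u v t := by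
  obtain ⟨hI, hd, hw, eS, -⟩ := end_facts7 hB
  have hn : b - a ≠ 0 := hd.ne'
  obtain ⟨s, hs⟩ := K.ok.point hB h0 h1 h2
    (by rw [K.cI]; simp only [Ex.eval, StripEnd.pt4]; field_simp)
    (by rw [K.cd]; rfl)
    (by rw [K.cw]; simp only [Ex.eval, StripEnd.pt4]; field_simp)
    (by rw [K.cden]; simp [Ex.eval])
  obtain ⟨e0, e1, e2, e3⟩ := K.box
  have hq : 0 < c.q₃.2.2 := K.ok.fits.den.1
  have hM : B.Mem (StripEnd.pt4 (b - a) (allStabI a b / (b - a)) ((1 - u) / (b - a)) s) :=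
    ⟨e0 ▸ h0, e1 ▸ h1, e2 ▸ h2, e3 ▸ ⟨hq, hs.1.2.2.2.1.le, hs.1.2.2.2.2⟩⟩
  have hP := K.cert.place hM (K.lies.vo _)
  refine signs_of_cert K.cert hM K.lies hs hb hF hH ?_
  refine kap_dflat K.pI K.pd K.pcn K.pcd hP hd ?_
  have eI : P.I.eval (StripEnd.pt4 (b - a) (allStabI a b / (b - a)) ((1 - u) / (b - a)) s) =
      allStabI a b := by
    rw [K.pI]; simp only [Ex.eval, StripEnd.pt4]; field_simp
  have ed : P.d.eval (StripEnd.pt4 (b - a) (allStabI a b / (b - a)) ((1 - u) / (b - a)) s) =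
      b - a := by
    rw [K.pd]; rfl
  rw [eval_S, eI, ed, ← eS]
  exact hk

/-- Membership of a quotient in a range. -/
theorem inU_div {q : ℤ × ℤ × ℕ} {y z : ℝ} (hz : 0 < z) (hq : 0 < q.2.2)
    (h1 : (q.1 : ℝ) * z < q.2.2 * y) (h2 : (q.2.2 : ℝ) * y ≤ q.2.1 * z) : InU q (y / z) := by
  have hq' : (0 : ℝ) < q.2.2 := by exact_mod_cast hq
  refine ⟨hq, ?_, ?_⟩
  · rw [div_lt_div_iff₀ hq' hz]; linarith
  · rw [div_le_div_iff₀ hz hq']; linarith

/-- `I ≤ k d` above the kink, from `d ≤ b`. -/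
theorem si_le {I d k p b : ℝ} (hk : (1 - 2 * I) * I ≤ d * (1 - I)) (hd : d ≤ b) (hI0 : 0 < I)
    (hI : I ≤ 1 / 7) (hk1 : 1 ≤ k) (hp : p * (2 * k - 1) ≤ k - 1) (hp7 : p < 1 / 7)
    (hgp : b * (1 - p) < (1 - 2 * p) * p) (hgq : b * (1 - 1 / 7) < (1 - 2 / 7) * (1 / 7)) :
    I ≤ k * d := by
  by_contra hc
  rw [not_le] at hc
  have h1 : k * ((1 - 2 * I) * I) ≤ k * (d * (1 - I)) :=
    mul_le_mul_of_nonneg_left hk (by linarith)
  have h2 : k * d * (1 - I) < I * (1 - I) := mul_lt_mul_of_pos_right hc (by linarith)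
  have h3 : k * (1 - 2 * I) < 1 - I := by
    refine lt_of_mul_lt_mul_left ?_ hI0.le
    linarith
  have h4 : p < I := by
    refine lt_of_mul_lt_mul_right (a := 2 * k - 1) ?_ (by linarith)
    linarith
  have h5 : (1 - 2 * I) * I ≤ b * (1 - I) :=
    hk.trans (mul_le_mul_of_nonneg_right hd (by linarith))
  nlinarith [mul_nonneg (mul_nonneg (sub_nonneg.2 h4.le) (sub_nonneg.2 hI)) (sub_nonneg.2 hp7.le),
    mul_nonneg (sub_nonneg.2 h4.le) (sub_nonneg.2 hgq.le),
    mul_nonneg (sub_nonneg.2 hI) (sub_nonneg.2 hgp.le)]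

end Vale.Agent.P100.Calib.StripEndD
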