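import Vale.Agent.P100.Calib.SlabStripSevAtoms

/-!
# The quantities of the left exit band of the strip for `N` between seven and twenty

Polynomials in the variables of `StripAtoms`, and in the point `s` of the window.
-/

namespace Vale.Agent.P100.Calib.Band.StripAtoms

variable (p : StripAtoms)

/-- `67/100 - u`. -/
noncomputable def slT : ℝ := (67 - 100 * p.u) / 100

/-- The centre of the window over `2 I`. -/
noncomputable def slC : ℝ := (23 + 6 * p.u + 48 * (p.u * p.u)) / 20

/-- Its derivative in `u`. -/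
noncomputable def slCd : ℝ := (6 + 96 * p.u) / 20

/-- The coefficient of `K IT` in the left exit band. -/
def slg : ℝ := 13 - 4 * p.u + 18 * (p.u * p.u)

/-- Twenty times the coefficient of the left exit band. -/
def slG : ℝ := 20 * (p.S * (p.v * p.q)) - p.slg * p.upKI

/-- Twice its derivative in `v`. -/
def slGv : ℝ := 40 * (p.S * (1 + 2 * p.dv)) + p.slg * (2 * (p.a * p.IT) + p.K * (p.S * p.d))

/-- Twenty times its numerator. -/
def slM : ℝ := 20 * p.K - p.w * p.slG

/-- Its derivative in `u`. -/
def slMu : ℝ := p.slG + p.w * ((36 * p.u - 4) * p.upKI)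

/-- The numerator of `H` on the left exit band. -/
noncomputable def slN : ℝ := p.u * p.slM + 13 * (p.slT * (2 * (p.I * p.slC) - p.v))

/-- The left exit band above `stripSev`, cleared. -/
noncomputable def slGap : ℝ := p.slN * p.upW - 20 * (p.u * (p.P * p.sevN))

/-- Minus the flow on the left exit band, cleared. -/
noncomputable def slFlow : ℝ := 20 * (p.u * (p.N * p.P)) - p.f0 * p.slN

/-- The value of `H` on the band at the point `s` of the window, cleared. -/
noncomputable def slH (s : ℝ) : ℝ := p.slM - 26 * (p.I * (p.slT * s))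

/-- The derivative in `u`, cleared. -/
noncomputable def slFu (s : ℝ) : ℝ := (26 * (p.I * (p.slT * s + p.u * s + p.slT * p.slCd)) + p.u
    * p.slMu) * (20 * p.P) + 20 * (p.a * (p.qu * (p.slH s)))

/-- Twice the derivative in `v`, cleared. -/
noncomputable def slFv (s : ℝ) : ℝ := 40 * (p.a * (p.u * (p.ud * (p.slH s)))) - (40 * (p.a * p.u)
    + p.u * (p.w * p.slGv) + 26 * p.slT) * (20 * p.P)

/-- `allEn`, cleared. -/
noncomputable def slEn (s : ℝ) : ℝ := p.E0 * (20 * p.P) - p.e1 * (p.slH s)

/-- `allFlow`, cleared. -/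
noncomputable def slFl (s : ℝ) : ℝ := p.f0 * (p.slH s) - p.N * (20 * p.P)

/-- `allFh`, cleared. -/
noncomputable def slFh (s : ℝ) : ℝ := p.A0 * (20 * p.P * (20 * p.P)) - (p.A1 + p.ud * p.A0 +
    p.E0) * ((p.slH s) * (20 * p.P)) + (p.ud * p.A1 + p.e1) * ((p.slH s) * (p.slH s))

/-- Minus the flow through the band less a multiple of the gap. -/
noncomputable def slMain (s : ℝ) : ℝ := 4 * (20 * p.P * (p.slFh s)) - 4 * ((p.slFu s) * (p.slEn
    s)) - 2 * (p.q * ((p.slFv s) * (p.slFl s))) - p.P * p.P * (p.sevN * (20 * p.P) - (p.slH s) *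
    p.upW)

end Vale.Agent.P100.Calib.Band.StripAtoms
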