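import Vale.Agent.P100.Calib.SlabAllLowExpr

/-!
# The packed numerators of the left exit band of the strip

The variables are `(u, sigma, I, theta)`, `d = theta (19/50 - 2 I)`; `V` is the numerator of `v`
over `100 K2`, `Sx` that of the point of the window over `100`.
-/

namespace Vale.Agent.P100.Calib.Band.AllLow

open Pack

local instance stripSevLeftAdd : Add Pack.Ex := ⟨Ex.add⟩
local instance stripSevLeftSub : Sub Pack.Ex := ⟨Ex.sub⟩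
local instance stripSevLeftMul : Mul Pack.Ex := ⟨Ex.mul⟩

/-- A packed quantity. -/
def eSl_w (_V _K2 : Pack.Ex) : Pack.Ex := (eN 1) - (Ex.var 0)

/-- A packed quantity. -/
def eSl_v (V _K2 : Pack.Ex) : Pack.Ex := (eN 1) * V

/-- A packed quantity. -/
def eSl_I (_V _K2 : Pack.Ex) : Pack.Ex := (eN 1) * (Ex.var 2)

/-- A packed quantity. -/
def eSl_S (_V _K2 : Pack.Ex) : Pack.Ex := (eN 1) - ((eN 2) * (Ex.var 2))

/-- A packed quantity. -/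
def eSl_d (_V _K2 : Pack.Ex) : Pack.Ex := (eN 2) * ((Ex.var 3) * ((eN 19) - ((eN 100) * (Ex.var
    2))))

/-- A packed quantity. -/
def eSl_a (_V _K2 : Pack.Ex) : Pack.Ex := ((eN 50) - ((eN 100) * (Ex.var 2))) - ((Ex.var 3) *
    ((eN 19) - ((eN 100) * (Ex.var 2))))

/-- A packed quantity. -/
def eSl_b (_V _K2 : Pack.Ex) : Pack.Ex := ((eN 50) - ((eN 100) * (Ex.var 2))) + ((Ex.var 3) *
    ((eN 19) - ((eN 100) * (Ex.var 2))))

/-- A packed quantity. -/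
def eSl_K (V K2 : Pack.Ex) : Pack.Ex := ((Ex.pow (eN 100) 2) * K2) - ((eSl_a V K2) * (eSl_v V K2))

/-- A packed quantity. -/
def eSl_dv (V K2 : Pack.Ex) : Pack.Ex := (eSl_d V K2) * (eSl_v V K2)

/-- A packed quantity. -/
def eSl_IT (V K2 : Pack.Ex) : Pack.Ex := (((eSl_I V K2) * (Ex.pow (eN 100) 2)) * K2) - ((eSl_S V
    K2) * (((Ex.var 3) * ((eN 19) - ((eN 100) * (Ex.var 2)))) * (eSl_v V K2)))

/-- A packed quantity. -/
def eSl_slT (_V _K2 : Pack.Ex) : Pack.Ex := (eN 67) - ((eN 100) * (Ex.var 0))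

/-- A packed quantity. -/
def eSl_slC (_V _K2 : Pack.Ex) : Pack.Ex := (eN 5) * ((eN 23) + (((eN 6) * (Ex.var 0)) + ((eN 48)
    * ((Ex.var 0) * (Ex.var 0)))))

/-- A packed quantity. -/
def eSl_slCd (_V _K2 : Pack.Ex) : Pack.Ex := (eN 30) + ((eN 480) * (Ex.var 0))

/-- A packed quantity. -/
def eSl_q (V K2 : Pack.Ex) : Pack.Ex := ((Ex.pow (eN 100) 2) * K2) + (eSl_dv V K2)

/-- A packed quantity. -/
def eSl_D0 (V K2 : Pack.Ex) : Pack.Ex := (((eN 2) * (Ex.pow (eN 100) 2)) * K2) + (eSl_dv V K2)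

/-- A packed quantity. -/
def eSl_u (V K2 : Pack.Ex) : Pack.Ex := (eN 1) - (eSl_w V K2)

/-- A packed quantity. -/
def eSl_qu (V K2 : Pack.Ex) : Pack.Ex := (eSl_q V K2) * (eSl_u V K2)

/-- A packed quantity. -/
def eSl_P (V K2 : Pack.Ex) : Pack.Ex := (((eSl_b V K2) * (Ex.pow (eN 100) 2)) * K2) - ((eSl_a V
    K2) * (eSl_qu V K2))

/-- A packed quantity. -/
def eSl_qn (V K2 : Pack.Ex) : Pack.Ex := ((eSl_b V K2) * (eSl_D0 V K2)) - (((eSl_S V K2) *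
    (eSl_qu V K2)) * (eN 100))

/-- A packed quantity. -/
def eSl_ud (V K2 : Pack.Ex) : Pack.Ex := (eSl_u V K2) * (eSl_d V K2)

/-- A packed quantity. -/
def eSl_e1 (V K2 : Pack.Ex) : Pack.Ex := (eSl_ud V K2) * ((eSl_qn V K2) - ((((eSl_S V K2) *
    ((eSl_w V K2) * (eSl_b V K2))) * (Ex.pow (eN 100) 2)) * K2))

/-- A packed quantity. -/
def eSl_E0 (V K2 : Pack.Ex) : Pack.Ex := (eSl_qn V K2) - ((eSl_S V K2) * ((eSl_w V K2) * ((eSl_b
    V K2) * (eSl_D0 V K2))))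

/-- A packed quantity. -/
def eSl_f0 (V K2 : Pack.Ex) : Pack.Ex := (eSl_qn V K2) + ((eSl_S V K2) * ((eSl_K V K2) * (eSl_ud
    V K2)))

/-- A packed quantity. -/
def eSl_N (V K2 : Pack.Ex) : Pack.Ex := (eSl_S V K2) * ((eSl_K V K2) * (eSl_D0 V K2))

/-- A packed quantity. -/
def eSl_A0 (V K2 : Pack.Ex) : Pack.Ex := (eSl_N V K2) + (((eSl_S V K2) * ((eSl_v V K2) * (eSl_D0
    V K2))) * (eN 100))

/-- A packed quantity. -/
def eSl_A1 (V K2 : Pack.Ex) : Pack.Ex := (eSl_f0 V K2) + (((eSl_S V K2) * ((eSl_v V K2) * (eSl_ud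
    V K2))) * (eN 100))

/-- A packed quantity. -/
def eSl_sevK (V K2 : Pack.Ex) : Pack.Ex := ((eN 100) * (eSl_b V K2)) - ((eSl_a V K2) * ((eSl_u V
    K2) * ((eN 130) - ((eN 80) * (eSl_u V K2)))))

/-- A packed quantity. -/
def eSl_upP0 (V K2 : Pack.Ex) : Pack.Ex := (((((eN 653) * (eSl_I V K2)) * (eN 100)) + ((eN 189) *
    ((eSl_a V K2) * (eSl_I V K2)))) - (((eN 828) * ((eSl_I V K2) * (eSl_I V K2))) * (eN 100))) -
    ((eN 398) * (eN 100))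

/-- A packed quantity. -/
def eSl_upP1 (V K2 : Pack.Ex) : Pack.Ex := (((((eN 464) * (eN 100)) - ((eN 1676) * (eSl_a V K2)))
    * (eN 100)) + ((eN 1565) * ((eSl_a V K2) * (eSl_a V K2)))) + ((eSl_I V K2) * (((((eN 5790) *
    (eSl_a V K2)) * (eN 100)) + ((eN 1661) * ((eSl_a V K2) * (eSl_a V K2)))) - ((eN 2620) *
    (Ex.pow (eN 100) 2))))

/-- A packed quantity. -/
def eSl_upP2 (V K2 : Pack.Ex) : Pack.Ex := (((((eN 8980) * (eSl_a V K2)) - ((eN 1503) * (eN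
    100))) * (eN 100)) - ((eN 13330) * ((eSl_a V K2) * (eSl_a V K2)))) + ((eSl_I V K2) * (((((eN
    4840) * (eN 100)) - ((eN 15870) * (eSl_a V K2))) * (eN 100)) + ((eN 1947) * ((eSl_a V K2) *
    (eSl_a V K2)))))

/-- A packed quantity. -/
def eSl_upPsi (V K2 : Pack.Ex) : Pack.Ex := ((eSl_upP0 V K2) * (eN 100)) + ((eSl_u V K2) *
    ((eSl_upP1 V K2) + ((eSl_u V K2) * ((eSl_upP2 V K2) + (((eN 60) * ((eSl_u V K2) * (eSl_u V
    K2))) * (Ex.pow (eN 100) 2))))))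

/-- A packed quantity. -/
def eSl_sevPsi (V K2 : Pack.Ex) : Pack.Ex := (eSl_upPsi V K2) + ((eN 3) * (Ex.pow (eN 100) 2))

/-- A packed quantity. -/
def eSl_sevN (V K2 : Pack.Ex) : Pack.Ex := ((((eN 100) * (Ex.pow (eN 100) 2)) * K2) + ((eSl_sevK
    V K2) * (eSl_v V K2))) + (((eSl_I V K2) * (eSl_sevPsi V K2)) * K2)

/-- A packed quantity. -/
def eSl_upW (V K2 : Pack.Ex) : Pack.Ex := (eN 100) * ((eSl_b V K2) - ((eSl_u V K2) * (eSl_a V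
    K2)))

/-- A packed quantity. -/
def eSl_upKI (V K2 : Pack.Ex) : Pack.Ex := (eSl_K V K2) * (eSl_IT V K2)

/-- A packed quantity. -/
def eSl_slg (V K2 : Pack.Ex) : Pack.Ex := ((eN 13) - ((eN 4) * (eSl_u V K2))) + ((eN 18) *
    ((eSl_u V K2) * (eSl_u V K2)))

/-- A packed quantity. -/
def eSl_slG (V K2 : Pack.Ex) : Pack.Ex := (((eN 20) * ((eSl_S V K2) * ((eSl_v V K2) * (eSl_q V
    K2)))) * (eN 100)) - ((eSl_slg V K2) * (eSl_upKI V K2))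

/-- A packed quantity. -/
def eSl_slGv (V K2 : Pack.Ex) : Pack.Ex := (((eN 40) * ((eSl_S V K2) * (((Ex.pow (eN 100) 2) *
    K2) + ((eN 2) * (eSl_dv V K2))))) * (eN 100)) + ((eSl_slg V K2) * (((eN 2) * ((eSl_a V K2) *
    (eSl_IT V K2))) + ((eSl_K V K2) * ((eSl_S V K2) * (eSl_d V K2)))))

/-- A packed quantity. -/
def eSl_slM (V K2 : Pack.Ex) : Pack.Ex := ((((eN 20) * (eSl_K V K2)) * (Ex.pow (eN 100) 2)) * K2)
    - ((eSl_w V K2) * (eSl_slG V K2))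

/-- A packed quantity. -/
def eSl_slMu (V K2 : Pack.Ex) : Pack.Ex := (eSl_slG V K2) + ((eSl_w V K2) * ((((eN 36) * (eSl_u V
    K2)) - (eN 4)) * (eSl_upKI V K2)))

/-- A packed quantity. -/
def eSl_slN (V K2 : Pack.Ex) : Pack.Ex := ((eSl_u V K2) * (eSl_slM V K2)) + ((((eN 13) *
    ((eSl_slT V K2) * ((((eN 2) * ((eSl_I V K2) * (eSl_slC V K2))) * K2) - (eSl_v V K2)))) *
    (Ex.pow (eN 100) 2)) * K2)

/-- A packed quantity. -/
def eSl_slGap (V K2 : Pack.Ex) : Pack.Ex := ((eSl_slN V K2) * (eSl_upW V K2)) - ((eN 20) *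
    ((eSl_u V K2) * ((eSl_P V K2) * (eSl_sevN V K2))))

/-- A packed quantity. -/
def eSl_slFlow (V K2 : Pack.Ex) : Pack.Ex := ((eN 20) * ((eSl_u V K2) * ((eSl_N V K2) * (eSl_P V
    K2)))) - ((eSl_f0 V K2) * (eSl_slN V K2))

/-- A packed quantity. -/
def eSl_slH (V K2 Sx : Pack.Ex) : Pack.Ex := (eSl_slM V K2) - ((((eN 26) * ((eSl_I V K2) *
    ((eSl_slT V K2) * Sx))) * (Ex.pow (eN 100) 2)) * (Ex.pow K2 2))

/-- A packed quantity. -/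
def eSl_slFu (V K2 Sx : Pack.Ex) : Pack.Ex := ((((((eN 26) * ((eSl_I V K2) * ((((eSl_slT V K2) *
    Sx) + (((eSl_u V K2) * Sx) * (eN 100))) + ((eSl_slT V K2) * (eSl_slCd V K2))))) * (Ex.pow (eN
    100) 2)) * (Ex.pow K2 2)) + ((eSl_u V K2) * (eSl_slMu V K2))) * ((eN 20) * (eSl_P V K2))) +
    ((eN 20) * ((eSl_a V K2) * ((eSl_qu V K2) * (eSl_slH V K2 Sx))))

/-- A packed quantity. -/
def eSl_slFv (V K2 Sx : Pack.Ex) : Pack.Ex := ((eN 40) * ((eSl_a V K2) * ((eSl_u V K2) * ((eSl_ud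
    V K2) * (eSl_slH V K2 Sx))))) - (((((((eN 40) * ((eSl_a V K2) * (eSl_u V K2))) * (Ex.pow (eN
    100) 2)) * K2) + ((eSl_u V K2) * ((eSl_w V K2) * (eSl_slGv V K2)))) + ((((eN 26) * (eSl_slT V
    K2)) * (Ex.pow (eN 100) 2)) * K2)) * ((eN 20) * (eSl_P V K2)))

/-- A packed quantity. -/
def eSl_slEn (V K2 Sx : Pack.Ex) : Pack.Ex := ((((eSl_E0 V K2) * ((eN 20) * (eSl_P V K2))) *
    (Ex.pow (eN 100) 2)) * K2) - ((eSl_e1 V K2) * (eSl_slH V K2 Sx))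

/-- A packed quantity. -/
def eSl_slFl (V K2 Sx : Pack.Ex) : Pack.Ex := ((eSl_f0 V K2) * (eSl_slH V K2 Sx)) - ((eSl_N V K2)
    * ((eN 20) * (eSl_P V K2)))

/-- A packed quantity. -/
def eSl_slFh (V K2 Sx : Pack.Ex) : Pack.Ex := (((((eSl_A0 V K2) * (((eN 20) * (eSl_P V K2)) *
    ((eN 20) * (eSl_P V K2)))) * (Ex.pow (eN 100) 2)) * K2) - ((((((eSl_A1 V K2) * (Ex.pow (eN
    100) 2)) * K2) + ((eSl_ud V K2) * (eSl_A0 V K2))) + (((eSl_E0 V K2) * (Ex.pow (eN 100) 2)) *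
    K2)) * ((eSl_slH V K2 Sx) * ((eN 20) * (eSl_P V K2))))) + ((((eSl_ud V K2) * (eSl_A1 V K2)) +
    (eSl_e1 V K2)) * ((eSl_slH V K2 Sx) * (eSl_slH V K2 Sx)))

/-- A packed quantity. -/
def eSl_slMain (V K2 Sx : Pack.Ex) : Pack.Ex := ((((eN 4) * (((eN 20) * (eSl_P V K2)) * (eSl_slFh
    V K2 Sx))) - ((eN 4) * ((eSl_slFu V K2 Sx) * (eSl_slEn V K2 Sx)))) - ((eN 2) * ((eSl_q V K2)
    * ((eSl_slFv V K2 Sx) * (eSl_slFl V K2 Sx))))) - (((((eSl_P V K2) * (eSl_P V K2)) *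
    (((eSl_sevN V K2) * ((eN 20) * (eSl_P V K2))) - ((eSl_slH V K2 Sx) * (eSl_upW V K2)))) *
    (Ex.pow (eN 100) 4)) * (Ex.pow K2 2))

end Vale.Agent.P100.Calib.Band.AllLow
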