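import Vale.Agent.P100.Calib.SlabStripUpEvalB
import Vale.Agent.P100.Calib.SlabStripSevLeftAtoms
import Vale.Agent.P100.Calib.SlabStripSevLeftExpr

/-!
# The values of the packed numerators of the left exit band

`StripSevLeftPoint` relates a point to the variables.
-/

namespace Vale.Agent.P100.Calib.Band.AllLow

open Pack

local instance stripSevLeftEvalAdd : Add Pack.Ex := ⟨Ex.add⟩
local instance stripSevLeftEvalSub : Sub Pack.Ex := ⟨Ex.sub⟩
local instance stripSevLeftEvalMul : Mul Pack.Ex := ⟨Ex.mul⟩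

/-- The values of the variables. -/
structure StripSevLeftPoint (x : ℕ → ℝ) (p : StripAtoms) (V K2 : Pack.Ex) (k₂ : ℝ) : Prop where
  hu : x 0 = p.u
  hk2 : K2.eval x = k₂
  h_w : (eSl_w V K2).eval x = p.w
  h_v : (eSl_v V K2).eval x = p.v * ((100 : ℝ) * k₂)
  h_I : (eSl_I V K2).eval x = p.I
  h_S : (eSl_S V K2).eval x = p.S
  h_d : (eSl_d V K2).eval x = p.d * ((100 : ℝ))
  h_a : (eSl_a V K2).eval x = p.a * ((100 : ℝ))
  h_b : (eSl_b V K2).eval x = p.b * ((100 : ℝ))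
  h_K : (eSl_K V K2).eval x = p.K * ((100 : ℝ) ^ 2 * k₂)
  h_IT : (eSl_IT V K2).eval x = p.IT * ((100 : ℝ) ^ 2 * k₂)
  h_dv : (eSl_dv V K2).eval x = p.dv * ((100 : ℝ) ^ 2 * k₂)
  h_slT : (eSl_slT V K2).eval x = p.slT * ((100 : ℝ))
  h_slC : (eSl_slC V K2).eval x = p.slC * ((100 : ℝ))
  h_slCd : (eSl_slCd V K2).eval x = p.slCd * ((100 : ℝ))

variable {x : ℕ → ℝ} {p : StripAtoms} {V K2 Sx : Pack.Ex} {k₂ s : ℝ}

theorem evalSl_q (h : StripSevLeftPoint x p V K2 k₂) :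
    (eSl_q V K2).eval x = p.q * ((100 : ℝ) ^ 2 * k₂) := by
  simp only [eSl_q, StripAtoms.q, eval_add', eval_num', Ex.eval, h.h_dv, h.hk2]
  push_cast
  ring

theorem evalSl_D0 (h : StripSevLeftPoint x p V K2 k₂) :
    (eSl_D0 V K2).eval x = p.D0 * ((100 : ℝ) ^ 2 * k₂) := by
  simp only [eSl_D0, StripAtoms.D0, eval_add', eval_num', Ex.eval, h.h_dv, h.hk2]
  push_cast
  ring

theorem evalSl_u (h : StripSevLeftPoint x p V K2 k₂) :
    (eSl_u V K2).eval x = p.u := by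
  simp only [eSl_u, StripAtoms.u, eval_sub', eval_num', h.h_w]
  push_cast
  ring

theorem evalSl_qu (h : StripSevLeftPoint x p V K2 k₂) :
    (eSl_qu V K2).eval x = p.qu * ((100 : ℝ) ^ 2 * k₂) := by
  simp only [eSl_qu, StripAtoms.qu, eval_mul', evalSl_q h, evalSl_u h]
  ring

theorem evalSl_P (h : StripSevLeftPoint x p V K2 k₂) :
    (eSl_P V K2).eval x = p.P * ((100 : ℝ) ^ 3 * k₂) := by
  simp only [eSl_P, StripAtoms.P, eval_sub', eval_num', Ex.eval, h.h_b, h.h_a, evalSl_qu h, h.hk2]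
  push_cast
  ring

theorem evalSl_qn (h : StripSevLeftPoint x p V K2 k₂) :
    (eSl_qn V K2).eval x = p.qn * ((100 : ℝ) ^ 3 * k₂) := by
  simp only [eSl_qn, StripAtoms.qn, eval_sub', eval_mul', eval_num', h.h_b, evalSl_D0 h, h.h_S, evalSl_qu h]
  push_cast
  ring

theorem evalSl_ud (h : StripSevLeftPoint x p V K2 k₂) :
    (eSl_ud V K2).eval x = p.ud * ((100 : ℝ)) := by
  simp only [eSl_ud, StripAtoms.ud, eval_mul', evalSl_u h, h.h_d]
  ring

theorem evalSl_e1 (h : StripSevLeftPoint x p V K2 k₂) :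
    (eSl_e1 V K2).eval x = p.e1 * ((100 : ℝ) ^ 4 * k₂) := by
  simp only [eSl_e1, StripAtoms.e1, eval_sub', eval_mul', eval_num', Ex.eval, evalSl_ud h, evalSl_qn h, h.h_S, h.h_w, h.h_b, h.hk2]
  push_cast
  ring

theorem evalSl_E0 (h : StripSevLeftPoint x p V K2 k₂) :
    (eSl_E0 V K2).eval x = p.E0 * ((100 : ℝ) ^ 3 * k₂) := by
  simp only [eSl_E0, StripAtoms.E0, eval_sub', eval_mul', evalSl_qn h, h.h_S, h.h_w, h.h_b, evalSl_D0 h]
  ring

theorem evalSl_f0 (h : StripSevLeftPoint x p V K2 k₂) :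
    (eSl_f0 V K2).eval x = p.f0 * ((100 : ℝ) ^ 3 * k₂) := by
  simp only [eSl_f0, StripAtoms.f0, eval_add', eval_mul', evalSl_qn h, h.h_S, h.h_K, evalSl_ud h]
  ring

theorem evalSl_N (h : StripSevLeftPoint x p V K2 k₂) :
    (eSl_N V K2).eval x = p.N * ((100 : ℝ) ^ 4 * k₂ ^ 2) := by
  simp only [eSl_N, StripAtoms.N, eval_mul', h.h_S, h.h_K, evalSl_D0 h]
  ring

theorem evalSl_A0 (h : StripSevLeftPoint x p V K2 k₂) :
    (eSl_A0 V K2).eval x = p.A0 * ((100 : ℝ) ^ 4 * k₂ ^ 2) := by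
  simp only [eSl_A0, StripAtoms.A0, eval_add', eval_mul', eval_num', evalSl_N h, h.h_S, h.h_v, evalSl_D0 h]
  push_cast
  ring

theorem evalSl_A1 (h : StripSevLeftPoint x p V K2 k₂) :
    (eSl_A1 V K2).eval x = p.A1 * ((100 : ℝ) ^ 3 * k₂) := by
  simp only [eSl_A1, StripAtoms.A1, eval_add', eval_mul', eval_num', evalSl_f0 h, h.h_S, h.h_v, evalSl_ud h]
  push_cast
  ring

theorem evalSl_sevK (h : StripSevLeftPoint x p V K2 k₂) :
    (eSl_sevK V K2).eval x = p.sevK * ((100 : ℝ)) := by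
  simp only [eSl_sevK, StripAtoms.sevK, eval_sub', eval_mul', eval_num', h.h_b, h.h_a, evalSl_u h]
  push_cast
  ring

theorem evalSl_upP0 (h : StripSevLeftPoint x p V K2 k₂) :
    (eSl_upP0 V K2).eval x = p.upP0 * ((100 : ℝ)) := by
  simp only [eSl_upP0, StripAtoms.upP0, eval_add', eval_sub', eval_mul', eval_num', h.h_I, h.h_a]
  push_cast
  ring

theorem evalSl_upP1 (h : StripSevLeftPoint x p V K2 k₂) :
    (eSl_upP1 V K2).eval x = p.upP1 * ((100 : ℝ) ^ 2) := by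
  simp only [eSl_upP1, StripAtoms.upP1, eval_add', eval_sub', eval_num', Ex.eval, h.h_a, h.h_I]
  push_cast
  ring

theorem evalSl_upP2 (h : StripSevLeftPoint x p V K2 k₂) :
    (eSl_upP2 V K2).eval x = p.upP2 * ((100 : ℝ) ^ 2) := by
  simp only [eSl_upP2, StripAtoms.upP2, eval_add', eval_sub', eval_mul', eval_num', h.h_a, h.h_I]
  push_cast
  ring

theorem evalSl_upPsi (h : StripSevLeftPoint x p V K2 k₂) :
    (eSl_upPsi V K2).eval x = p.upPsi * ((100 : ℝ) ^ 2) := by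
  simp only [eSl_upPsi, StripAtoms.upPsi, eval_add', eval_num', Ex.eval, evalSl_upP0 h, evalSl_u h, evalSl_upP1 h, evalSl_upP2 h]
  push_cast
  ring

theorem evalSl_sevPsi (h : StripSevLeftPoint x p V K2 k₂) :
    (eSl_sevPsi V K2).eval x = p.sevPsi * ((100 : ℝ) ^ 2) := by
  simp only [eSl_sevPsi, StripAtoms.sevPsi, eval_add', eval_num', Ex.eval, evalSl_upPsi h]
  push_cast
  ring

theorem evalSl_sevN (h : StripSevLeftPoint x p V K2 k₂) :
    (eSl_sevN V K2).eval x = p.sevN * ((100 : ℝ) ^ 2 * k₂) := by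
  simp only [eSl_sevN, StripAtoms.sevN, eval_add', eval_num', Ex.eval, evalSl_sevK h, h.h_v, h.h_I, evalSl_sevPsi h, h.hk2]
  push_cast
  ring

theorem evalSl_upW (h : StripSevLeftPoint x p V K2 k₂) :
    (eSl_upW V K2).eval x = p.upW * ((100 : ℝ)) := by
  simp only [eSl_upW, StripAtoms.upW, eval_sub', eval_mul', eval_num', h.h_b, evalSl_u h, h.h_a]
  push_cast
  ring

theorem evalSl_upKI (h : StripSevLeftPoint x p V K2 k₂) :
    (eSl_upKI V K2).eval x = p.upKI * ((100 : ℝ) ^ 4 * k₂ ^ 2) := by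
  simp only [eSl_upKI, StripAtoms.upKI, eval_mul', h.h_K, h.h_IT]
  ring

theorem evalSl_slg (h : StripSevLeftPoint x p V K2 k₂) :
    (eSl_slg V K2).eval x = p.slg := by
  simp only [eSl_slg, StripAtoms.slg, eval_add', eval_sub', eval_mul', eval_num', evalSl_u h]
  push_cast
  ring

theorem evalSl_slG (h : StripSevLeftPoint x p V K2 k₂) :
    (eSl_slG V K2).eval x = p.slG * ((100 : ℝ) ^ 4 * k₂ ^ 2) := by
  simp only [eSl_slG, StripAtoms.slG, eval_sub', eval_mul', eval_num', h.h_S, h.h_v, evalSl_q h, evalSl_slg h, evalSl_upKI h]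
  push_cast
  ring

theorem evalSl_slGv (h : StripSevLeftPoint x p V K2 k₂) :
    (eSl_slGv V K2).eval x = p.slGv * ((100 : ℝ) ^ 3 * k₂) := by
  simp only [eSl_slGv, StripAtoms.slGv, eval_add', eval_num', Ex.eval, h.h_S, h.h_dv, evalSl_slg h, h.h_a, h.h_IT, h.h_K, h.h_d, h.hk2]
  push_cast
  ring

theorem evalSl_slM (h : StripSevLeftPoint x p V K2 k₂) :
    (eSl_slM V K2).eval x = p.slM * ((100 : ℝ) ^ 4 * k₂ ^ 2) := by
  simp only [eSl_slM, StripAtoms.slM, eval_sub', eval_num', Ex.eval, h.h_K, h.h_w, evalSl_slG h, h.hk2]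
  push_cast
  ring

theorem evalSl_slMu (h : StripSevLeftPoint x p V K2 k₂) :
    (eSl_slMu V K2).eval x = p.slMu * ((100 : ℝ) ^ 4 * k₂ ^ 2) := by
  simp only [eSl_slMu, StripAtoms.slMu, eval_add', eval_sub', eval_mul', eval_num', evalSl_slG h, h.h_w, evalSl_u h, evalSl_upKI h]
  push_cast
  ring

theorem evalSl_slN (h : StripSevLeftPoint x p V K2 k₂) :
    (eSl_slN V K2).eval x = p.slN * ((100 : ℝ) ^ 4 * k₂ ^ 2) := by
  simp only [eSl_slN, StripAtoms.slN, eval_add', eval_sub', eval_num', Ex.eval, evalSl_u h, evalSl_slM h, h.h_slT, h.h_I, h.h_slC, h.h_v, h.hk2]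
  push_cast
  ring

theorem evalSl_slGap (h : StripSevLeftPoint x p V K2 k₂) :
    (eSl_slGap V K2).eval x = p.slGap * ((100 : ℝ) ^ 5 * k₂ ^ 2) := by
  simp only [eSl_slGap, StripAtoms.slGap, eval_sub', eval_mul', eval_num', evalSl_slN h, evalSl_upW h, evalSl_u h, evalSl_P h, evalSl_sevN h]
  push_cast
  ring

theorem evalSl_slFlow (h : StripSevLeftPoint x p V K2 k₂) :
    (eSl_slFlow V K2).eval x = p.slFlow * ((100 : ℝ) ^ 7 * k₂ ^ 3) := by
  simp only [eSl_slFlow, StripAtoms.slFlow, eval_sub', eval_mul', eval_num', evalSl_u h, evalSl_N h, evalSl_P h, evalSl_f0 h, evalSl_slN h]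
  push_cast
  ring

theorem evalSl_slH (h : StripSevLeftPoint x p V K2 k₂) (hs : Sx.eval x = s * 100) :
    (eSl_slH V K2 Sx).eval x = (p.slH s) * ((100 : ℝ) ^ 4 * k₂ ^ 2) := by
  simp only [eSl_slH, StripAtoms.slH, eval_sub', eval_num', Ex.eval, evalSl_slM h, h.h_I, h.h_slT, h.hk2, hs]
  push_cast
  ring

theorem evalSl_slFu (h : StripSevLeftPoint x p V K2 k₂) (hs : Sx.eval x = s * 100) :
    (eSl_slFu V K2 Sx).eval x = (p.slFu s) * ((100 : ℝ) ^ 7 * k₂ ^ 3) := by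
  simp only [eSl_slFu, StripAtoms.slFu, eval_add', eval_num', Ex.eval, h.h_I, h.h_slT, evalSl_u h, h.h_slCd, evalSl_slMu h, evalSl_P h, h.h_a, evalSl_qu h, evalSl_slH h hs, h.hk2, hs]
  push_cast
  ring

theorem evalSl_slFv (h : StripSevLeftPoint x p V K2 k₂) (hs : Sx.eval x = s * 100) :
    (eSl_slFv V K2 Sx).eval x = (p.slFv s) * ((100 : ℝ) ^ 6 * k₂ ^ 2) := by
  simp only [eSl_slFv, StripAtoms.slFv, eval_sub', eval_num', Ex.eval, h.h_a, evalSl_u h, evalSl_ud h, evalSl_slH h hs, h.h_w, evalSl_slGv h, h.h_slT, evalSl_P h, h.hk2]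
  push_cast
  ring

theorem evalSl_slEn (h : StripSevLeftPoint x p V K2 k₂) (hs : Sx.eval x = s * 100) :
    (eSl_slEn V K2 Sx).eval x = (p.slEn s) * ((100 : ℝ) ^ 8 * k₂ ^ 3) := by
  simp only [eSl_slEn, StripAtoms.slEn, eval_sub', eval_num', Ex.eval, evalSl_E0 h, evalSl_P h, evalSl_e1 h, evalSl_slH h hs, h.hk2]
  push_cast
  ring

theorem evalSl_slFl (h : StripSevLeftPoint x p V K2 k₂) (hs : Sx.eval x = s * 100) :
    (eSl_slFl V K2 Sx).eval x = (p.slFl s) * ((100 : ℝ) ^ 7 * k₂ ^ 3) := by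
  simp only [eSl_slFl, StripAtoms.slFl, eval_sub', eval_mul', eval_num', evalSl_f0 h, evalSl_slH h hs, evalSl_N h, evalSl_P h]
  push_cast
  ring

theorem evalSl_slFh (h : StripSevLeftPoint x p V K2 k₂) (hs : Sx.eval x = s * 100) :
    (eSl_slFh V K2 Sx).eval x = (p.slFh s) * ((100 : ℝ) ^ 12 * k₂ ^ 5) := by
  simp only [eSl_slFh, StripAtoms.slFh, eval_add', eval_sub', eval_num', Ex.eval, evalSl_A0 h, evalSl_P h, evalSl_A1 h, evalSl_ud h, evalSl_E0 h, evalSl_slH h hs, evalSl_e1 h, h.hk2]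
  push_cast
  ring

theorem evalSl_slMain (h : StripSevLeftPoint x p V K2 k₂) (hs : Sx.eval x = s * 100) :
    (eSl_slMain V K2 Sx).eval x = (p.slMain s) * ((100 : ℝ) ^ 15 * k₂ ^ 6) := by
  simp only [eSl_slMain, StripAtoms.slMain, eval_sub', eval_num', Ex.eval, evalSl_P h, evalSl_slFh h hs, evalSl_slFu h hs, evalSl_slEn h hs, evalSl_q h, evalSl_slFv h hs, evalSl_slFl h hs, evalSl_sevN h, evalSl_slH h hs, evalSl_upW h, h.hk2]
  push_cast
  ring

end Vale.Agent.P100.Calib.Band.AllLow
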