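import Vale.Agent.P100.Calib.SlabStripSevLeftCheck
import Vale.Agent.P100.Calib.SlabStripSevLeftEval
import Vale.Agent.P100.Calib.SlabStripSevSigns

/-!
# The closed conditions of the left exit band of the strip for `N` between seven and twenty

The chart is `(u, sigma, I, theta)` with `d = theta (19/50 - 2 I)`. The window of `v` is
`2 I (C + u s)`, `C = (23 + 6 u + 48 u ^ 2) / 20`, `s` between `stripSevLeftLo` and `stripSevLeftHi`.
-/

namespace Vale.Agent.P100.Calib.Band

open Vale.Agent.P100.Bubble Chart

/-- The centre of the window over `2 I`. -/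
noncomputable def stripSevLeftC (u : ℝ) : ℝ := (23 + 6 * u + 48 * (u * u)) / 20

/-- The lower end of the window. -/
noncomputable def stripSevLeftLo (u : ℝ) : ℝ := -(20 + (40 * u + 150 * (u * u))) / 100

/-- The upper end of the window. -/
noncomputable def stripSevLeftHi (u : ℝ) : ℝ := (81 + 165 * (u * (u * u))) / 100

namespace AllLow

open Pack

local instance stripSevLeftSignsAdd : Add Pack.Ex := ⟨Ex.add⟩
local instance stripSevLeftSignsSub : Sub Pack.Ex := ⟨Ex.sub⟩
local instance stripSevLeftSignsMul : Mul Pack.Ex := ⟨Ex.mul⟩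

/-- The chart at a point. -/
theorem stripSevLeftPoint_of {a b u v σ θ k₂ : ℝ} {V K2 : Pack.Ex}
    (hθ : θ * (19 / 50 - 2 * allStabI a b) = b - a)
    (hk : K2.eval (stabPt u σ (allStabI a b) θ) = k₂)
    (hV : V.eval (stabPt u σ (allStabI a b) θ) = v * (100 * k₂)) :
    StripSevLeftPoint (stabPt u σ (allStabI a b) θ) (stripAt a b u v) V K2 k₂ := by
  have hS : a + b = 1 - 2 * allStabI a b := by simp only [allStabI]; ring
  obtain ⟨I, hI⟩ : ∃ I, I = allStabI a b := ⟨_, rfl⟩
  rw [← hI] at hθ hk hV hS ⊢
  obtain rfl : b = 1 - 2 * I - a := by linarith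
  obtain rfl : a = (1 - 2 * I - θ * (19 / 50 - 2 * I)) / 2 := by linarith
  constructor <;>
    simp only [eSl_w, eSl_v, eSl_I, eSl_S, eSl_d, eSl_a, eSl_b, eSl_K, eSl_IT, eSl_dv, eSl_slT,
      eSl_slC, eSl_slCd, StripAtoms.slT, StripAtoms.slC, StripAtoms.slCd, StripAtoms.u, stripAt,
      ← hI, Ex.eval, eval_add', eval_sub', eval_mul', eval_num', hk, hV, stabPt] <;>
    push_cast <;> ring

/-- The last variable of the chart. -/
theorem strip_sev_left_theta {a b u v : ℝ} (h : SevPlace a b u v) :
    ∃ θ, 0 < θ ∧ θ < 1 ∧ θ * (19 / 50 - 2 * allStabI a b) = b - a := by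
  obtain ⟨hI20, hI7, ha, hd, -⟩ := h
  have hI0 : 0 < allStabI a b := by linarith
  have hD : 0 < 19 / 50 - 2 * allStabI a b := by linarith
  refine ⟨(b - a) / (19 / 50 - 2 * allStabI a b), div_pos hd hD, ?_, ?_⟩
  · rw [div_lt_one hD]
    simp only [allStabI]
    linarith
  · rw [div_mul_cancel₀ _ hD.ne']

theorem strip_sev_left_window_facts {u : ℝ} (hu : 0 < u) (hu9 : u ≤ 67 / 100) :
    0 < stripSevLeftC u + u * stripSevLeftLo u ∧ stripSevLeftLo u < stripSevLeftHi u := by
  have h1 : u * u ≤ 4489 / 10000 := by
    have := mul_le_mul hu9 hu9 hu.le (by norm_num)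
    linarith
  have h0 : 0 ≤ u * u := mul_self_nonneg u
  have h3 : 0 ≤ u * (u * u) := mul_nonneg hu.le h0
  simp only [stripSevLeftC, stripSevLeftLo, stripSevLeftHi]
  refine ⟨?_, by linarith⟩
  have h2 := mul_le_mul_of_nonneg_left (show 20 + (40 * u + 150 * (u * u)) ≤ 115 by linarith) hu.le
  linarith

theorem strip_sev_left_v_lt {a b u v : ℝ} (h : SevPlace a b u v) : v < 323 / 100 := by
  obtain ⟨-, -, ha, -, -, -, hv, hav, -⟩ := h
  have := mul_lt_mul_of_pos_right ha hv
  linarith

/-- A point of a reversed side with two denominators. -/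
theorem strip_back_mix {A B : ℤ} {c d : ℕ} (hc : 0 < c) (hd : 0 < d) {y : ℝ}
    (h1 : (B : ℝ) < y * d) (h2 : y * c ≤ (A : ℝ)) :
    ∃ t : ℝ, 0 ≤ t ∧ 0 < ((c : ℤ) : ℝ) + ((d : ℤ) : ℝ) * t ∧
      (A : ℝ) + B * t = y * (((c : ℤ) : ℝ) + ((d : ℤ) : ℝ) * t) := by
  have hc' : (0 : ℝ) < c := by exact_mod_cast hc
  have hd' : (0 : ℝ) < d := by exact_mod_cast hd
  have ht : 0 ≤ ((A : ℝ) - y * c) / (y * d - B) := div_nonneg (by linarith) (by linarith)
  refine ⟨_, ht, by push_cast; positivity, ?_⟩
  have e := div_mul_cancel₀ ((A : ℝ) - y * c) (show y * d - B ≠ 0 by linarith)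
  push_cast
  linear_combination -e

/-- Below the window the band lies over `stripUp`. -/
theorem strip_sev_left_gap {a b u v : ℝ} (h : SevPlace a b u v) (hu9 : u ≤ 67 / 100)
    (hv : v ≤ 2 * allStabI a b * (stripSevLeftC u + u * stripSevLeftLo u)) :
    0 ≤ (stripAt a b u v).slGap := by
  obtain ⟨θ, hθ0, hθ1, hθ⟩ := strip_sev_left_theta h
  obtain ⟨hI20, hI7, -, -, hu, -, hv0, -⟩ := h
  have hI0 : 0 < allStabI a b := by linarith
  obtain ⟨hL, -⟩ := strip_sev_left_window_facts hu hu9
  set E := 2 * allStabI a b * (stripSevLeftC u + u * stripSevLeftLo u) with hE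
  have hE0 : 0 < E := by positivity
  have hC := stripSevLeftPoint_of (u := u) (v := v) (σ := v / E) (k₂ := 1) (V := eSlLeftV) (K2 := eN 1)
    hθ
    (by simp only [eval_num']; norm_num)
    (by
      have e := div_mul_cancel₀ v hE0.ne'
      simp only [eSlLeftV, eSlTwo, eSlCen, eSlLo, Ex.eval, eval_sub', eval_mul',
        eval_num', stabPt]
      simp only [hE, stripSevLeftC, stripSevLeftLo] at e ⊢
      push_cast
      linear_combination 100 * e)
  have hs : v / E ≤ 1 := (div_le_one hE0).2 hv
  have hs0 : 0 < v / E := div_pos hv0 hE0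
  have hb : 0 ≤ (eSl_slGap eSlLeftV (eN 1)).eval (stabPt u (v / E) (allStabI a b) θ) :=
    nonneg_of_checkFour stripSevLeftLeftSlGap_ok (strip_point
      (by simp only [stripSevLeftLeftSlGapBox]
          exact strip_back_mix (c := 10) (d := 1) (by norm_num) (by norm_num) (by push_cast; linarith)
            (by push_cast; linarith))
      (by simp only [stripSevLeftLeftSlGapBox]
          exact strip_back (den := 1) (by norm_num) (by push_cast; linarith)
            (by push_cast; linarith))
      (by simp only [stripSevLeftLeftSlGapBox]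
          exact strip_back_mix (c := 7) (d := 20) (by norm_num) (by norm_num) (by push_cast; linarith)
            (by push_cast; linarith))
      (by simp only [stripSevLeftLeftSlGapBox]
          exact side_point (den := 1) (by norm_num) (by push_cast; linarith)
            (by push_cast; linarith)))
  rw [evalSl_slGap hC] at hb
  exact nonneg_of_mul_nonneg_left hb (by positivity)

/-- Above the window the band lies under the flow line. -/
theorem strip_sev_left_low {a b u v : ℝ} (h : SevPlace a b u v) (hu9 : u ≤ 67 / 100)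
    (hv : 2 * allStabI a b * (stripSevLeftC u + u * stripSevLeftHi u) ≤ v) :
    0 ≤ (stripAt a b u v).slFlow := by
  obtain ⟨θ, hθ0, hθ1, hθ⟩ := strip_sev_left_theta h
  have hv3 := strip_sev_left_v_lt h
  obtain ⟨hI20, hI7, -, -, hu, -, hv0, -⟩ := h
  have hI0 : 0 < allStabI a b := by linarith
  set E := 2 * allStabI a b * (stripSevLeftC u + u * stripSevLeftHi u) with hE
  have hD : 0 < 323 / 100 - E := by linarith
  obtain ⟨σ, hσ⟩ : ∃ σ, σ = (v - E) / (323 / 100 - E) := ⟨_, rfl⟩
  have hσ0 : 0 ≤ σ := hσ ▸ div_nonneg (by linarith) hD.le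
  have hσ1 : σ < 1 := by rw [hσ, div_lt_one hD]; linarith
  have hσe : σ * (323 / 100 - E) = v - E := by rw [hσ, div_mul_cancel₀ _ hD.ne']
  have hC := stripSevLeftPoint_of (u := u) (v := v) (σ := σ) (k₂ := 1) (V := eSlRightV) (K2 := eN 1) hθ
    (by simp only [eval_num']; norm_num)
    (by
      simp only [eSlRightV, eSlEdge, eSlTwo, eSlCen, eSlHi, Ex.eval, eval_add', eval_sub',
        eval_num', stabPt]
      simp only [hE, stripSevLeftC, stripSevLeftHi] at hσe ⊢
      push_cast
      linear_combination 100 * hσe)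
  have hb : 0 ≤ (eSl_slFlow eSlRightV (eN 1)).eval (stabPt u σ (allStabI a b) θ) :=
    nonneg_of_checkFour stripSevLeftRightSlFlow_ok (strip_point
      (by simp only [stripSevLeftRightSlFlowBox]
          exact strip_back_mix (c := 100) (d := 1) (by norm_num) (by norm_num) (by push_cast; linarith)
            (by push_cast; linarith))
      (by simp only [stripSevLeftRightSlFlowBox]
          exact side_point (den := 1) (by norm_num) (by push_cast; linarith)
            (by push_cast; linarith))
      (by simp only [stripSevLeftRightSlFlowBox]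
          exact strip_back_mix (c := 7) (d := 20) (by norm_num) (by norm_num) (by push_cast; linarith)
            (by push_cast; linarith))
      (by simp only [stripSevLeftRightSlFlowBox]
          exact side_point (den := 1) (by norm_num) (by push_cast; linarith)
            (by push_cast; linarith)))
  rw [evalSl_slFlow hC] at hb
  exact nonneg_of_mul_nonneg_left hb (by positivity)

/-- The exit condition in the window. -/
theorem strip_sev_left_main {a b u v s : ℝ} (h : SevPlace a b u v) (hu9 : u ≤ 67 / 100)
    (hs0 : stripSevLeftLo u ≤ s) (hs1 : s < stripSevLeftHi u)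
    (hv : v = 2 * allStabI a b * (stripSevLeftC u + u * s)) :
    0 ≤ (stripAt a b u v).slMain s := by
  obtain ⟨θ, hθ0, hθ1, hθ⟩ := strip_sev_left_theta h
  obtain ⟨hI20, hI7, -, -, hu, -, hv0, -⟩ := h
  have hI0 : 0 < allStabI a b := by linarith
  have hD : 0 < stripSevLeftHi u - stripSevLeftLo u := by linarith [(strip_sev_left_window_facts hu hu9).2]
  obtain ⟨σ, hσ⟩ : ∃ σ, σ = (s - stripSevLeftLo u) / (stripSevLeftHi u - stripSevLeftLo u) := ⟨_, rfl⟩
  have hσ0 : 0 ≤ σ := hσ ▸ div_nonneg (by linarith) hD.le
  have hσ1 : σ < 1 := by rw [hσ, div_lt_one hD]; linarith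
  have hσe : σ * (stripSevLeftHi u - stripSevLeftLo u) = s - stripSevLeftLo u := by
    rw [hσ, div_mul_cancel₀ _ hD.ne']
  simp only [stripSevLeftHi, stripSevLeftLo] at hσe
  simp only [stripSevLeftC] at hv
  have hS : eSlPoint.eval (stabPt u σ (allStabI a b) θ) = s * 100 := by
    simp only [eSlPoint, eSlLo, eSlHi, Ex.eval, eval_add', eval_sub', eval_num', stabPt]
    push_cast
    linear_combination 100 * hσe
  have hC := stripSevLeftPoint_of (u := u) (v := v) (σ := σ) (k₂ := 1) (V := eSlWinV) (K2 := eN 1) hθ
    (by simp only [eval_num']; norm_num)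
    (by
      simp only [eSlWinV, eSlTwo, eSlCen, Ex.eval, eval_mul', eval_num', hS, stabPt]
      push_cast
      linear_combination -100 * hv)
  have hb : 0 ≤ (eSl_slMain eSlWinV (eN 1) eSlPoint).eval (stabPt u σ (allStabI a b) θ) :=
    nonneg_of_checkFour stripSevLeftWinSlMain_ok (strip_point
      (by simp only [stripSevLeftWinSlMainBox]
          exact strip_back_mix (c := 10) (d := 1) (by norm_num) (by norm_num) (by push_cast; linarith)
            (by push_cast; linarith))
      (by simp only [stripSevLeftWinSlMainBox]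
          exact side_point (den := 1) (by norm_num) (by push_cast; linarith)
            (by push_cast; linarith))
      (by simp only [stripSevLeftWinSlMainBox]
          exact strip_back_mix (c := 7) (d := 20) (by norm_num) (by norm_num) (by push_cast; linarith)
            (by push_cast; linarith))
      (by simp only [stripSevLeftWinSlMainBox]
          exact side_point (den := 1) (by norm_num) (by push_cast; linarith)
            (by push_cast; linarith)))
  rw [evalSl_slMain hC hS] at hb
  exact nonneg_of_mul_nonneg_left hb (by positivity)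

end AllLow

end Vale.Agent.P100.Calib.Band
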