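import Vale.Agent.P100.Calib.SlabStripSevLowExpr

/-!
# The checks of the lower band for `N` between seven and twenty

Each check is a definition, so that they are compiled one after another.
-/

set_option linter.defProp false

namespace Vale.Agent.P100.Calib.Band.AllLow

open Pack

/-- A box. -/
def stripSevLowMain0Box : ℕ → Chart
  | 0 => ⟨0, 1, 1, 20⟩ | 1 => ⟨0, 1, 1, 2⟩ | 2 => ⟨1, 1, 7, 20⟩ | _ => ⟨0, 1, 1, 1⟩

/-- The check of this box. -/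
def stripSevLowMain0_ok : checkFour stripSevLowMain0Box 212 5 5 29 9 eSlwMain = true := by
  decide +kernel

/-- A box. -/
def stripSevLowMain1Box : ℕ → Chart
  | 0 => ⟨1, 2, 20, 5⟩ | 1 => ⟨0, 1, 1, 2⟩ | 2 => ⟨1, 1, 7, 20⟩ | _ => ⟨0, 1, 1, 1⟩

/-- The check of this box. -/
def stripSevLowMain1_ok : checkFour stripSevLowMain1Box 214 5 5 29 9 eSlwMain = true := by
  decide +kernel

/-- A box. -/
def stripSevLowMain2Box : ℕ → Chart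
  | 0 => ⟨2, 1, 5, 1⟩ | 1 => ⟨0, 1, 1, 2⟩ | 2 => ⟨1, 1, 7, 20⟩ | _ => ⟨0, 1, 1, 1⟩

/-- The check of this box. -/
def stripSevLowMain2_ok : checkFour stripSevLowMain2Box 206 5 5 29 9 eSlwMain = true := by
  decide +kernel

/-- A box. -/
def stripSevLowMain3Box : ℕ → Chart
  | 0 => ⟨0, 1, 1, 5⟩ | 1 => ⟨1, 1, 2, 1⟩ | 2 => ⟨1, 1, 7, 20⟩ | _ => ⟨0, 1, 1, 1⟩

/-- The check of this box. -/
def stripSevLowMain3_ok : checkFour stripSevLowMain3Box 206 5 5 29 9 eSlwMain = true := by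
  decide +kernel

/-- A box. -/
def stripSevLowMain4Box : ℕ → Chart
  | 0 => ⟨1, 1, 5, 2⟩ | 1 => ⟨1, 1, 2, 1⟩ | 2 => ⟨1, 1, 7, 20⟩ | _ => ⟨0, 1, 1, 1⟩

/-- The check of this box. -/
def stripSevLowMain4_ok : checkFour stripSevLowMain4Box 208 5 5 29 9 eSlwMain = true := by
  decide +kernel

/-- A box. -/
def stripSevLowMain5Box : ℕ → Chart
  | 0 => ⟨1, 1, 2, 1⟩ | 1 => ⟨1, 1, 2, 1⟩ | 2 => ⟨1, 1, 7, 20⟩ | _ => ⟨0, 1, 1, 2⟩

/-- The check of this box. -/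
def stripSevLowMain5_ok : checkFour stripSevLowMain5Box 208 5 5 29 9 eSlwMain = true := by
  decide +kernel

/-- A box. -/
def stripSevLowMain6Box : ℕ → Chart
  | 0 => ⟨1, 1, 2, 1⟩ | 1 => ⟨1, 1, 2, 1⟩ | 2 => ⟨1, 1, 7, 20⟩ | _ => ⟨1, 1, 2, 1⟩

/-- The check of this box. -/
def stripSevLowMain6_ok : checkFour stripSevLowMain6Box 208 5 5 29 9 eSlwMain = true := by
  decide +kernel

/-- A box. -/
def stripSevLowB0Box : ℕ → Chart
  | 0 => ⟨0, 1, 1, 2⟩ | 1 => ⟨0, 1, 1, 2⟩ | 2 => ⟨1, 1, 7, 20⟩ | _ => ⟨0, 1, 1, 1⟩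

/-- The check of this box. -/
def stripSevLowB0_ok : checkFour stripSevLowB0Box 164 4 4 24 7 eSlw_slwB = true := by
  decide +kernel

/-- A box. -/
def stripSevLowB1Box : ℕ → Chart
  | 0 => ⟨1, 1, 2, 1⟩ | 1 => ⟨0, 1, 1, 2⟩ | 2 => ⟨1, 1, 7, 20⟩ | _ => ⟨0, 1, 1, 1⟩

/-- The check of this box. -/
def stripSevLowB1_ok : checkFour stripSevLowB1Box 166 4 4 24 7 eSlw_slwB = true := by
  decide +kernel

/-- A box. -/
def stripSevLowB2Box : ℕ → Chart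
  | 0 => ⟨0, 1, 1, 1⟩ | 1 => ⟨1, 1, 2, 1⟩ | 2 => ⟨1, 1, 7, 20⟩ | _ => ⟨0, 1, 1, 1⟩

/-- The check of this box. -/
def stripSevLowB2_ok : checkFour stripSevLowB2Box 164 4 4 24 7 eSlw_slwB = true := by
  decide +kernel

/-- A box. -/
def stripSevLowC0Box : ℕ → Chart
  | 0 => ⟨0, 1, 1, 1⟩ | 1 => ⟨0, 1, 1, 1⟩ | 2 => ⟨1, 1, 7, 20⟩ | _ => ⟨0, 1, 1, 1⟩

/-- The check of this box. -/
def stripSevLowC0_ok : checkFour stripSevLowC0Box 164 4 4 25 7 eSlw_slwC = true := by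
  decide +kernel

/-- A box. -/
def stripSevLowBe0Box : ℕ → Chart
  | 0 => ⟨0, 1, 1, 1⟩ | 1 => ⟨0, 1, 1, 1⟩ | 2 => ⟨1, 1, 7, 20⟩ | _ => ⟨0, 1, 1, 1⟩

/-- The check of this box. -/
def stripSevLowBe0_ok : checkFour stripSevLowBe0Box 60 1 2 8 2 eSlw_slwBe = true := by
  decide +kernel

end Vale.Agent.P100.Calib.Band.AllLow
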