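import Vale.Agent.P100.Calib.SlabStripSevLowEval
import Vale.Agent.P100.Calib.SlabStripSevLowCheck
import Vale.Agent.P100.Calib.SlabStripSevLeftSigns

/-!
# The closed conditions of the lower band for `N` between seven and twenty

The chart is `(w, kappa, I, tau)`, `K = kappa (S + I tau) / (S (1 + I S))`, `tau = S d v / (2 I)`.
-/

namespace Vale.Agent.P100.Calib.Band

open Vale.Agent.P100.Bubble Chart

namespace AllLow

open Pack

local instance stripSevLowSignsAdd : Add Pack.Ex := ⟨Ex.add⟩
local instance stripSevLowSignsSub : Sub Pack.Ex := ⟨Ex.sub⟩
local instance stripSevLowSignsMul : Mul Pack.Ex := ⟨Ex.mul⟩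

/-- A point of a side with two denominators. -/
theorem side_mix {A B : ℤ} {c d : ℕ} (hc : 0 < c) (hd : 0 < d) {y : ℝ}
    (h1 : (A : ℝ) ≤ y * c) (h2 : y * d < (B : ℝ)) :
    ∃ t : ℝ, 0 ≤ t ∧ 0 < ((c : ℤ) : ℝ) + ((d : ℤ) : ℝ) * t ∧
      (A : ℝ) + B * t = y * (((c : ℤ) : ℝ) + ((d : ℤ) : ℝ) * t) := by
  have hc' : (0 : ℝ) < c := by exact_mod_cast hc
  have hd' : (0 : ℝ) < d := by exact_mod_cast hd
  have ht : 0 ≤ (y * c - (A : ℝ)) / ((B : ℝ) - y * d) := div_nonneg (by linarith) (by linarith)
  refine ⟨_, ht, by push_cast; positivity, ?_⟩
  have e := div_mul_cancel₀ (y * c - (A : ℝ)) (show (B : ℝ) - y * d ≠ 0 by linarith)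
  push_cast
  linear_combination e

/-- What the checks use at a point. -/
structure SevLowPt (a b u v I k t k₁ k₂ k₃ k₄ : ℝ) : Prop where
  chart : StripSevLowChart (stabPt (1 - u) k I t) (stripAt a b u v) k₁ k₂ k₃ k₄
  I_gt : 1 / 20 < I
  I_le : I ≤ 1 / 7
  w_pos : 0 < 1 - u
  w_lt : 1 - u < 1
  k_pos : 0 < k
  k_lt : k < 1
  t_pos : 0 < t
  t_lt : t < 1
  k1_pos : 0 < k₁
  k2_pos : 0 < k₂
  k3_pos : 0 < k₃
  k4_pos : 0 < k₄
  gate : 0 < eSlwGate.eval (stabPt (1 - u) k I t)

theorem sev_low_pt {a b u v : ℝ} (h : SevPlace a b u v) :
    ∃ I k t k₁ k₂ k₃ k₄, SevLowPt a b u v I k t k₁ k₂ k₃ k₄ := by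
  obtain ⟨hI20, hI7, ha, hd, hu, hu1, hv, hav, hlo, hhi⟩ := h
  obtain ⟨I, hI⟩ : ∃ I, I = allStabI a b := ⟨_, rfl⟩
  rw [← hI] at hI20 hI7 hlo hhi
  have hI0 : 0 < I := by linarith
  have hS : a + b = 1 - 2 * I := by simp only [hI, allStabI]; ring
  obtain ⟨S, hSd⟩ : ∃ S, S = 1 - 2 * I := ⟨_, rfl⟩
  rw [← hSd] at hS
  rw [hS] at hhi
  have hS0 : 0 < S := by linarith
  obtain ⟨t, ht⟩ : ∃ t, t = S * ((b - a) * v) / (2 * I) := ⟨_, rfl⟩
  have hte : t * (2 * I) = S * ((b - a) * v) := by
    rw [ht, div_mul_cancel₀ _ (by positivity)]
  have ht0 : 0 < t := ht ▸ by positivity
  have ht1 : t < 1 := by rw [ht, div_lt_one (by positivity)]; exact hhi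
  have hm : 0 < S + I * t := by positivity
  have hc : 0 < 1 + I * S := by positivity
  have hK : 0 < 1 - a * v := by linarith
  obtain ⟨k, hk⟩ : ∃ k, k = (1 - a * v) * (S * (1 + I * S)) / (S + I * t) := ⟨_, rfl⟩
  have hke : k * (S + I * t) = (1 - a * v) * (S * (1 + I * S)) := by
    rw [hk, div_mul_cancel₀ _ hm.ne']
  have hk0 : 0 < k := hk ▸ by positivity
  have hk1 : k < 1 := by
    rw [hk, div_lt_one hm]
    have h1 : (1 - a * v) * (1 + 2 * a * I) < 1 := by
      linarith [mul_lt_mul_of_pos_left hlo (show 0 < a by linarith)]
    have h2 : 2 * I * (1 - a * v) < v := by
      refine lt_of_mul_lt_mul_left (a := 1 + 2 * a * I) ?_ (by positivity)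
      linarith [mul_lt_mul_of_pos_left h1 (show 0 < 2 * I by linarith)]
    have e1 : S = 2 * a + (b - a) := by linarith
    have e : (1 - a * v) * (S * (1 + I * S)) =
        S * ((1 - a * v) * (1 + 2 * a * I)) + S * ((b - a) * (I * (1 - a * v))) := by
      linear_combination (1 - a * v) * I * S * e1
    have h3 := mul_lt_mul_of_pos_left h1 hS0
    have h4 := mul_lt_mul_of_pos_left h2 (mul_pos hS0 hd)
    linarith
  have e2 : 2 * (S + I * t) * (1 + I * S - k) = (1 + I * S) * (S ^ 2 * v) := by
    linear_combination -2 * hke + (1 + I * S) * hte +
      (1 + I * S) * S * v * hS
  have hk2 : 0 < 1 + I * S - k := by linarith [mul_pos hI0 hS0]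
  have hC : StripSevLowChart (stabPt (1 - u) k I t) (stripAt a b u v) (2 * (S + I * t))
      (1 + I * S - k) (2 * (1 + I * S)) S := by
    constructor <;>
      simp only [eSlwK1, eSlwK2, eSlwK3, eSlwK4, eSlwM0, eSlwK0, eSlwS0, eSlwIt, eSlwX0, eSlw_w,
        eSlw_v, eSlw_I, eSlw_S, eSlw_d, eSlw_a, eSlw_b, eSlw_K, eSlw_IT, eSlw_dv, stripAt, ← hI,
        Ex.eval, eval_sub', eval_mul', eval_num', stabPt] <;>
      push_cast <;> (try simp only [← hSd]) <;>
      first
      | linarith
      | linear_combination 2 * e2
      | linear_combination hte
      | linear_combination 2 * hke
      | linear_combination (1 + I * S) * S * hte - (b - a) * e2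
      | linear_combination -a * e2 - S * hke
      | linear_combination -b * e2 - S * hke + (1 + I * S) * S * hte
      | linear_combination -(1 / 2 : ℝ) * hte + (1 / 2 : ℝ) * (b - a) * v * hS
  refine ⟨I, k, t, _, _, _, _, hC, hI20, hI7, by linarith, by linarith, hk0, hk1, ht0, ht1,
    by positivity, hk2, by positivity, hS0, ?_⟩
  have e : eSlwGate.eval (stabPt (1 - u) k I t) =
      (1 + I * S) * (S ^ 2 * v) * (50 * a - 31 / 2) := by
    simp only [eSlwGate, eSlwK2, eSlwM0, eSlwK0, eSlwS0, eSlwIt, eSlwX0, Ex.eval,
      eval_sub', eval_num', stabPt]
    push_cast
    simp only [← hSd]
    linear_combination -(50 * S) * hke - (31 / 2 : ℝ) * e2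
  rw [e]
  exact mul_pos (by positivity) (by linarith)

/-- **The closed conditions of the lower band.** -/
theorem strip_sev_low_conds {a b u v : ℝ} (h : SevPlace a b u v) :
    0 < (stripAt a b u v).slwA ∧ 0 ≤ (stripAt a b u v).slwB ∧
      0 ≤ (stripAt a b u v).slwC ∧ 0 ≤ (stripAt a b u v).slwBe := by
  obtain ⟨I, k, t, k₁, k₂, k₃, k₄, hP⟩ := sev_low_pt h
  obtain ⟨hC, hI20, hI7, hw0, hw1, hk0, hk1, ht0, ht1, h1, h2, h3, h4, hgate⟩ := hP
  refine ⟨?_, ?_, ?_, ?_⟩
  · have hb : 0 ≤ eSlwMain.eval (stabPt (1 - u) k I t) := by
      rcases lt_or_ge k (1 / 2) with g1 | g1
      · rcases lt_or_ge (1 - u) (1 / 20) with g2 | g2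
        · exact nonneg_of_checkFour stripSevLowMain0_ok (strip_point
            (by simp only [stripSevLowMain0Box]
                exact side_mix (c := 1) (d := 20) (by norm_num) (by norm_num)
                  (by push_cast; linarith) (by push_cast; linarith))
            (by simp only [stripSevLowMain0Box]
                exact side_mix (c := 1) (d := 2) (by norm_num) (by norm_num)
                  (by push_cast; linarith) (by push_cast; linarith))
            (by simp only [stripSevLowMain0Box]
                exact strip_back_mix (c := 7) (d := 20) (by norm_num) (by norm_num)
                  (by push_cast; linarith) (by push_cast; linarith))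
            (by simp only [stripSevLowMain0Box]
                exact side_mix (c := 1) (d := 1) (by norm_num) (by norm_num)
                  (by push_cast; linarith) (by push_cast; linarith)))
        · rcases lt_or_ge (1 - u) (2 / 5) with g3 | g3
          · exact nonneg_of_checkFour stripSevLowMain1_ok (strip_point
              (by simp only [stripSevLowMain1Box]
                  exact side_mix (c := 20) (d := 5) (by norm_num) (by norm_num)
                    (by push_cast; linarith) (by push_cast; linarith))
              (by simp only [stripSevLowMain1Box]
                  exact side_mix (c := 1) (d := 2) (by norm_num) (by norm_num)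
                    (by push_cast; linarith) (by push_cast; linarith))
              (by simp only [stripSevLowMain1Box]
                  exact strip_back_mix (c := 7) (d := 20) (by norm_num) (by norm_num)
                    (by push_cast; linarith) (by push_cast; linarith))
              (by simp only [stripSevLowMain1Box]
                  exact side_mix (c := 1) (d := 1) (by norm_num) (by norm_num)
                    (by push_cast; linarith) (by push_cast; linarith)))
          · exact nonneg_of_checkFour stripSevLowMain2_ok (strip_point
              (by simp only [stripSevLowMain2Box]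
                  exact side_mix (c := 5) (d := 1) (by norm_num) (by norm_num)
                    (by push_cast; linarith) (by push_cast; linarith))
              (by simp only [stripSevLowMain2Box]
                  exact side_mix (c := 1) (d := 2) (by norm_num) (by norm_num)
                    (by push_cast; linarith) (by push_cast; linarith))
              (by simp only [stripSevLowMain2Box]
                  exact strip_back_mix (c := 7) (d := 20) (by norm_num) (by norm_num)
                    (by push_cast; linarith) (by push_cast; linarith))
              (by simp only [stripSevLowMain2Box]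
                  exact side_mix (c := 1) (d := 1) (by norm_num) (by norm_num)
                    (by push_cast; linarith) (by push_cast; linarith)))
      · rcases lt_or_ge (1 - u) (1 / 5) with g2 | g2
        · exact nonneg_of_checkFour stripSevLowMain3_ok (strip_point
            (by simp only [stripSevLowMain3Box]
                exact side_mix (c := 1) (d := 5) (by norm_num) (by norm_num)
                  (by push_cast; linarith) (by push_cast; linarith))
            (by simp only [stripSevLowMain3Box]
                exact side_mix (c := 2) (d := 1) (by norm_num) (by norm_num)
                  (by push_cast; linarith) (by push_cast; linarith))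
            (by simp only [stripSevLowMain3Box]
                exact strip_back_mix (c := 7) (d := 20) (by norm_num) (by norm_num)
                  (by push_cast; linarith) (by push_cast; linarith))
            (by simp only [stripSevLowMain3Box]
                exact side_mix (c := 1) (d := 1) (by norm_num) (by norm_num)
                  (by push_cast; linarith) (by push_cast; linarith)))
        · rcases lt_or_ge (1 - u) (1 / 2) with g3 | g3
          · exact nonneg_of_checkFour stripSevLowMain4_ok (strip_point
              (by simp only [stripSevLowMain4Box]
                  exact side_mix (c := 5) (d := 2) (by norm_num) (by norm_num)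
                    (by push_cast; linarith) (by push_cast; linarith))
              (by simp only [stripSevLowMain4Box]
                  exact side_mix (c := 2) (d := 1) (by norm_num) (by norm_num)
                    (by push_cast; linarith) (by push_cast; linarith))
              (by simp only [stripSevLowMain4Box]
                  exact strip_back_mix (c := 7) (d := 20) (by norm_num) (by norm_num)
                    (by push_cast; linarith) (by push_cast; linarith))
              (by simp only [stripSevLowMain4Box]
                  exact side_mix (c := 1) (d := 1) (by norm_num) (by norm_num)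
                    (by push_cast; linarith) (by push_cast; linarith)))
          · rcases lt_or_ge t (1 / 2) with g4 | g4
            · exact nonneg_of_checkFour stripSevLowMain5_ok (strip_point
                (by simp only [stripSevLowMain5Box]
                    exact side_mix (c := 2) (d := 1) (by norm_num) (by norm_num)
                      (by push_cast; linarith) (by push_cast; linarith))
                (by simp only [stripSevLowMain5Box]
                    exact side_mix (c := 2) (d := 1) (by norm_num) (by norm_num)
                      (by push_cast; linarith) (by push_cast; linarith))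
                (by simp only [stripSevLowMain5Box]
                    exact strip_back_mix (c := 7) (d := 20) (by norm_num) (by norm_num)
                      (by push_cast; linarith) (by push_cast; linarith))
                (by simp only [stripSevLowMain5Box]
                    exact side_mix (c := 1) (d := 2) (by norm_num) (by norm_num)
                      (by push_cast; linarith) (by push_cast; linarith)))
            · exact nonneg_of_checkFour stripSevLowMain6_ok (strip_point
                (by simp only [stripSevLowMain6Box]
                    exact side_mix (c := 2) (d := 1) (by norm_num) (by norm_num)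
                      (by push_cast; linarith) (by push_cast; linarith))
                (by simp only [stripSevLowMain6Box]
                    exact side_mix (c := 2) (d := 1) (by norm_num) (by norm_num)
                      (by push_cast; linarith) (by push_cast; linarith))
                (by simp only [stripSevLowMain6Box]
                    exact strip_back_mix (c := 7) (d := 20) (by norm_num) (by norm_num)
                      (by push_cast; linarith) (by push_cast; linarith))
                (by simp only [stripSevLowMain6Box]
                    exact side_mix (c := 2) (d := 1) (by norm_num) (by norm_num)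
                      (by push_cast; linarith) (by push_cast; linarith)))
    simp only [eSlwMain, eval_sub', eval_mul', eval_num', evalSlw_slwA hC] at hb
    simp only [eSlwM0, eSlwS0, eSlwIt, eSlwK0, Ex.eval, eval_add', eval_sub', eval_num',
      stabPt] at hb
    push_cast at hb
    have hm : 0 < 1 - 2 * I + I * t := by linarith [mul_pos (show 0 < I by linarith) ht0]
    have hc : 0 < 1 + I * (1 - 2 * I) := by
      linarith [mul_pos (show 0 < I by linarith) (show 0 < 1 - 2 * I by linarith)]
    have := mul_pos (show 0 < (1 - u) ^ 2 * t ^ 2 * (k ^ 2 * (I ^ 3 * ((1 - 2 * I + I * t) ^ 2 *
      (1 + I * (1 - 2 * I)) ^ 3))) by positivity) hgate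
    refine pos_of_mul_pos_left (b := k₁ ^ 3 * k₂ ^ 3 * k₃ ^ 3 * k₄ ^ 9) ?_ (by positivity)
    linarith
  · have hb : 0 ≤ eSlw_slwB.eval (stabPt (1 - u) k I t) := by
      rcases lt_or_ge k (1 / 2) with g1 | g1
      · rcases lt_or_ge (1 - u) (1 / 2) with g2 | g2
        · exact nonneg_of_checkFour stripSevLowB0_ok (strip_point
            (by simp only [stripSevLowB0Box]
                exact side_mix (c := 1) (d := 2) (by norm_num) (by norm_num)
                  (by push_cast; linarith) (by push_cast; linarith))
            (by simp only [stripSevLowB0Box]
                exact side_mix (c := 1) (d := 2) (by norm_num) (by norm_num)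
                  (by push_cast; linarith) (by push_cast; linarith))
            (by simp only [stripSevLowB0Box]
                exact strip_back_mix (c := 7) (d := 20) (by norm_num) (by norm_num)
                  (by push_cast; linarith) (by push_cast; linarith))
            (by simp only [stripSevLowB0Box]
                exact side_mix (c := 1) (d := 1) (by norm_num) (by norm_num)
                  (by push_cast; linarith) (by push_cast; linarith)))
        · exact nonneg_of_checkFour stripSevLowB1_ok (strip_point
            (by simp only [stripSevLowB1Box]
                exact side_mix (c := 2) (d := 1) (by norm_num) (by norm_num)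
                  (by push_cast; linarith) (by push_cast; linarith))
            (by simp only [stripSevLowB1Box]
                exact side_mix (c := 1) (d := 2) (by norm_num) (by norm_num)
                  (by push_cast; linarith) (by push_cast; linarith))
            (by simp only [stripSevLowB1Box]
                exact strip_back_mix (c := 7) (d := 20) (by norm_num) (by norm_num)
                  (by push_cast; linarith) (by push_cast; linarith))
            (by simp only [stripSevLowB1Box]
                exact side_mix (c := 1) (d := 1) (by norm_num) (by norm_num)
                  (by push_cast; linarith) (by push_cast; linarith)))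
      · exact nonneg_of_checkFour stripSevLowB2_ok (strip_point
          (by simp only [stripSevLowB2Box]
              exact side_mix (c := 1) (d := 1) (by norm_num) (by norm_num)
                (by push_cast; linarith) (by push_cast; linarith))
          (by simp only [stripSevLowB2Box]
              exact side_mix (c := 2) (d := 1) (by norm_num) (by norm_num)
                (by push_cast; linarith) (by push_cast; linarith))
          (by simp only [stripSevLowB2Box]
              exact strip_back_mix (c := 7) (d := 20) (by norm_num) (by norm_num)
                (by push_cast; linarith) (by push_cast; linarith))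
          (by simp only [stripSevLowB2Box]
              exact side_mix (c := 1) (d := 1) (by norm_num) (by norm_num)
                (by push_cast; linarith) (by push_cast; linarith)))
    rw [evalSlw_slwB hC] at hb
    exact nonneg_of_mul_nonneg_left hb (by positivity)
  · have hb : 0 ≤ eSlw_slwC.eval (stabPt (1 - u) k I t) := by
      exact nonneg_of_checkFour stripSevLowC0_ok (strip_point
        (by simp only [stripSevLowC0Box]
            exact side_mix (c := 1) (d := 1) (by norm_num) (by norm_num)
              (by push_cast; linarith) (by push_cast; linarith))
        (by simp only [stripSevLowC0Box]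
            exact side_mix (c := 1) (d := 1) (by norm_num) (by norm_num)
              (by push_cast; linarith) (by push_cast; linarith))
        (by simp only [stripSevLowC0Box]
            exact strip_back_mix (c := 7) (d := 20) (by norm_num) (by norm_num)
              (by push_cast; linarith) (by push_cast; linarith))
        (by simp only [stripSevLowC0Box]
            exact side_mix (c := 1) (d := 1) (by norm_num) (by norm_num)
              (by push_cast; linarith) (by push_cast; linarith)))
    rw [evalSlw_slwC hC] at hb
    exact nonneg_of_mul_nonneg_left hb (by positivity)
  · have hb : 0 ≤ eSlw_slwBe.eval (stabPt (1 - u) k I t) := by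
      exact nonneg_of_checkFour stripSevLowBe0_ok (strip_point
        (by simp only [stripSevLowBe0Box]
            exact side_mix (c := 1) (d := 1) (by norm_num) (by norm_num)
              (by push_cast; linarith) (by push_cast; linarith))
        (by simp only [stripSevLowBe0Box]
            exact side_mix (c := 1) (d := 1) (by norm_num) (by norm_num)
              (by push_cast; linarith) (by push_cast; linarith))
        (by simp only [stripSevLowBe0Box]
            exact strip_back_mix (c := 7) (d := 20) (by norm_num) (by norm_num)
              (by push_cast; linarith) (by push_cast; linarith))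
        (by simp only [stripSevLowBe0Box]
            exact side_mix (c := 1) (d := 1) (by norm_num) (by norm_num)
              (by push_cast; linarith) (by push_cast; linarith)))
    rw [evalSlw_slwBe hC] at hb
    exact nonneg_of_mul_nonneg_left hb (by positivity)

end AllLow

end Vale.Agent.P100.Calib.Band
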