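import Vale.Agent.P100.Calib.SlabStripLow
import Vale.Agent.P100.Calib.SlabStripSevLowSigns

/-!
# The lower band of the strip for `N` between seven and twenty, on the whole chart

`H (b - a u (1 + d v)) >= 1 - a v - (1 - u) G`,
`G = S v (1 + d v) + (1/5 + 4 I) (1 - a v) (I - S d v / 2)`, on orbits, for real `N` in `[7, 20)` and
`31/100 < a`. It is an exit barrier up to `u = 1`.
-/

open Set Filter Topology

namespace Vale.Agent.P100.Calib.Band

open Vale.Agent.P100.Bubble Chart

/-- The coefficient of the band. -/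
noncomputable def stripSevG (a b v : ℝ) : ℝ :=
  (a + b) * (v * (1 + (b - a) * v)) + (1 / 5 + 4 * allStabI a b) *
    ((1 - a * v) * (allStabI a b - (a + b) * ((b - a) * v) / 2))

/-- Its derivative. -/
noncomputable def stripSevGd (a b v : ℝ) : ℝ :=
  (a + b) * (1 + 2 * ((b - a) * v)) - (1 / 5 + 4 * allStabI a b) *
    (a * (allStabI a b - (a + b) * ((b - a) * v) / 2) + (1 - a * v) * ((a + b) * (b - a)) / 2)

/-- **The band function.** -/
noncomputable def stripSevLow (a b u v H : ℝ) : ℝ :=
  H * (b - a * ((1 + (b - a) * v) * u)) - (1 - a * v) + (1 - u) * stripSevG a b v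

theorem hasGrad_stripSevLow (a b : ℝ) :
    HasGrad (fun u v H => stripSevLow a b u v H)
      (fun _ v H => -(a * (1 + (b - a) * v) * H) - stripSevG a b v)
      (fun u v H => -(a * u * (b - a) * H) + a + (1 - u) * stripSevGd a b v)
      (fun u v _ => b - a * ((1 + (b - a) * v) * u)) := by
  intro u v H du dv dh t hu hv hh
  have h1 := ((((hv.const_mul (b - a)).const_add 1).fun_mul hu).const_mul a).const_sub b
  have h2 : HasDerivAt (fun s => stripSevG a b (v s)) (stripSevGd a b (v t) * dv) t := by
    refine (((hv.fun_mul ((hv.const_mul (b - a)).const_add 1)).const_mul (a + b)).fun_add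
      ((((hv.const_mul a).const_sub 1).fun_mul
        ((((hv.const_mul (b - a)).const_mul (a + b)).div_const 2).const_sub _)).const_mul
          _)).congr_deriv ?_
    simp only [stripSevGd]
    ring
  refine (((hh.fun_mul h1).fun_sub ((hv.const_mul a).const_sub 1)).fun_add
    ((hu.const_sub 1).fun_mul h2)).congr_deriv ?_
  ring

/-- The sign of the exit condition. -/
theorem strip_sev_low_sign {a b u v H : ℝ} (hP : SevPlace a b u v)
    (hfl : 0 < allFlow a b u v H) (hF : stripSevLow a b u v H ≤ 0) :
    allDot a b u v H (-(a * (1 + (b - a) * v) * H) - stripSevG a b v)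
      (-(a * u * (b - a) * H) + a + (1 - u) * stripSevGd a b v)
      (b - a * ((1 + (b - a) * v) * u)) < 0 := by
  obtain ⟨hA, hB, hC, hBe⟩ := AllLow.strip_sev_low_conds hP
  obtain ⟨hI20, hI7, ha, hd, hu, hu1, hv, hav, hlo, hhi⟩ := hP
  have hI0 : 0 < allStabI a b := by linarith
  set p := stripAt a b u v with hp
  have hK : 0 < 1 - a * v := by linarith
  have hw : 0 < 1 - u := by linarith
  have hS0 : 0 < a + b := by linarith
  have hPp : 0 < p.P := by
    have e : p.P = (1 - u) * b + u * ((b - a) * (1 - a * v)) := by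
      simp only [hp, stripAt, StripAtoms.P, StripAtoms.qu, StripAtoms.q, StripAtoms.u]
      ring
    rw [e]
    exact add_pos (mul_pos hw (by linarith)) (by positivity)
  have hf0 : 0 < p.f0 := by
    have e : p.f0 = (1 - u) * ((2 - (a + b)) * b + b * ((b - a) * v)) +
        u * ((b - a) * (1 - a * v)) + (a + b) * ((1 - u) * b) +
        (a + b) * ((1 - a * v) * (u * (b - a))) := by
      simp only [hp, stripAt, StripAtoms.f0, StripAtoms.qn, StripAtoms.D0, StripAtoms.qu,
        StripAtoms.q, StripAtoms.ud, StripAtoms.u]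
      ring
    have hb : 0 < b := by linarith
    have h2 : 0 < 2 - (a + b) := by
      simp only [allStabI] at hI0
      linarith
    rw [e]
    positivity
  have eflow : allFlow a b u v H = p.f0 * H - p.N := by
    simp only [hp, stripAt, StripAtoms.f0, StripAtoms.N, StripAtoms.qn, StripAtoms.D0,
      StripAtoms.qu, StripAtoms.q, StripAtoms.ud, StripAtoms.u, allFlow, allQn, allDen]
    ring
  have eF : 10 * stripSevLow a b u v H = 10 * p.P * H - p.slwNum := by
    simp only [hp, stripAt, StripAtoms.P, StripAtoms.slwNum, StripAtoms.slwG, StripAtoms.qu,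
      StripAtoms.q, StripAtoms.u, stripSevLow, stripSevG]
    ring
  have eT : 1000 * allDot a b u v H (-(a * (1 + (b - a) * v) * H) - stripSevG a b v)
      (-(a * u * (b - a) * H) + a + (1 - u) * stripSevGd a b v)
      (b - a * ((1 + (b - a) * v) * u)) + p.w * p.slwBe * allFlow a b u v H =
      p.slwC2 * H ^ 2 + p.slwC1 * H + p.slwC0 := by
    simp only [hp, stripAt, StripAtoms.slwC2, StripAtoms.slwC1, StripAtoms.slwC0, StripAtoms.A0,
      StripAtoms.A1, StripAtoms.slwFV, StripAtoms.slwGv, StripAtoms.slwG, StripAtoms.P, StripAtoms.N,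
      StripAtoms.f0, StripAtoms.E0, StripAtoms.e1, StripAtoms.qn, StripAtoms.D0, StripAtoms.qu,
      StripAtoms.q, StripAtoms.ud, StripAtoms.u, allDot, allEn, allFh, allFlow, allQn, allDen,
      stripSevG, stripSevGd]
    ring
  have hy : H ≤ p.slwNum / (10 * p.P) := by
    rw [le_div_iff₀ (by positivity)]
    linarith
  have hz : p.N / p.f0 < H := by
    rw [div_lt_iff₀ hf0]
    linarith
  have key : p.slwC2 * H ^ 2 + p.slwC1 * H + p.slwC0 < 0 := by
    simp only [StripAtoms.slwA, StripAtoms.slwB, StripAtoms.slwC] at hA hB hC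
    refine strip_quad hz hy ?_ ?_ ?_
    · refine neg_of_mul_neg_left (b := 100 * p.P ^ 2) ?_ (by positivity)
      field_simp
      linarith
    · refine nonneg_of_mul_nonneg_left (b := 10 * p.P) ?_ (by positivity)
      field_simp
      linarith
    · refine nonneg_of_mul_nonneg_left (b := p.f0) ?_ hf0
      field_simp
      linarith
  have hbe : 0 ≤ p.w * p.slwBe := mul_nonneg hw.le hBe
  have := mul_nonneg hbe hfl.le
  linarith

variable {N p q : ℝ} {S : Set ℝ} {R x y s dx dy : ℝ → ℝ}

/-- **The lower band of the strip** for real `N ∈ [7, 20)` and `31/100 < 1/(p+1)`, on the whole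
chart. -/
theorem orbit_strip_sev_low (hf : IsOrbitFns N p q S R x y s dx dy)
    (hb : SlabBoxAll N (1 / (p + 1)) (1 / (q + 1))) (h7 : 7 ≤ N) (h20 : N < 20) (ha : 31 / 100 < 1 / (p + 1))
    {w : ℝ} (hw : w ∈ S) (hw0 : 0 < R w) :
    0 ≤ stripSevLow (1 / (p + 1)) (1 / (q + 1)) (uOf N (R w) (x w))
      (vOf (1 / (p + 1)) (1 / (q + 1)) (y w / x w))
      (hOf N (R w) (x w) (y w) w / (1 / (q + 1) - 1 / (p + 1))) := by
  have hu0 := (orbit_point_all hf hb hw hw0).1.u_pos
  have bnd : ∀ u v H, AllPoint N (1 / (p + 1)) (1 / (q + 1)) u v H →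
      -(1 - u * ((1 / (q + 1) - 1 / (p + 1)) * H)) ≤
        stripSevLow (1 / (p + 1)) (1 / (q + 1)) u v H := by
    intro u v H hP
    obtain ⟨hI20, hI7, ha', hd, hu, hu1, hv, hav, hlo, hhi⟩ :=
      sevPlace_of hb h7 h20 ha hP.u_pos hP.u_lt hP.toVRange
    have hH := hP.H_pos
    have hH1 := hP.H_lt
    generalize 1 / (p + 1) = a at *
    generalize 1 / (q + 1) = b at *
    have hI0 : 0 < allStabI a b := by linarith
    have hK : 0 < 1 - a * v := by linarith
    have hb0 : 0 < b := by linarith
    have hS : 0 < a + b := by linarith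
    have hIT : 0 < allStabI a b - (a + b) * ((b - a) * v) / 2 := by linarith
    have hG : 0 ≤ (1 - u) * stripSevG a b v := by
      refine mul_nonneg (by linarith) ?_
      simp only [stripSevG]
      positivity
    have h1 : u * ((b - a) * H) ≤ 1 := by
      linarith [mul_le_of_le_one_left (mul_pos hd hH).le hu1.le]
    have h2 : 0 ≤ H * ((1 - u) * b) + (1 - u * ((b - a) * H)) * (a * v) := by
      refine add_nonneg (mul_nonneg hH.le (mul_nonneg (by linarith) hb0.le))
        (mul_nonneg (by linarith) (mul_nonneg (by linarith) hv.le))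
    simp only [stripSevLow]
    linarith
  refine exit_end_all hf hb (u₀ := uOf N (R w) (x w)) (η := uOf N (R w) (x w) / 2) (M := 2)
    (by positivity) (by norm_num) (hasGrad_stripSevLow _ _) (fun _ _ _ => True)
    (fun _ _ _ => trivial) (fun u v H hP _ _ => ?_)
    (fun ε hε => ⟨ε, hε, fun u v H hP _ _ hh => ?_⟩) (fun u v H hP _ _ _ hF => ?_) hw hw0 le_rfl
  · have := bnd u v H hP
    have := mul_pos hP.u_pos (mul_pos hb.facts.2.2.1 hP.H_pos)
    linarith
  · have := bnd u v H hP
    linarith
  · exact strip_sev_low_sign (sevPlace_of hb h7 h20 ha hP.u_pos hP.u_lt hP.toVRange) hP.flow_pos hF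

end Vale.Agent.P100.Calib.Band
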