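import Vale.Agent.P100.Calib.SlabStripEndWindow
import Vale.Agent.P100.Calib.SlabStripSevLow

/-!
# A chart for `u` near one and the point it gives

The numerator of `o = a v` is affine in the last variable, whose range the windows give; in that
range the exit bands pin `C`.
-/

set_option linter.unusedVariables false

namespace Vale.Agent.P100.Calib.StripEnd

open Pack Pack.Ex Band StripMid

local instance endChartAdd : Add Ex := ⟨Ex.add⟩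
local instance endChartSub : Sub Ex := ⟨Ex.sub⟩
local instance endChartMul : Mul Ex := ⟨Ex.mul⟩

/-- Four numbers as a point. -/
def pt4 (x₀ x₁ x₂ x₃ : ℝ) : ℕ → ℝ
  | 0 => x₀
  | 1 => x₁
  | 2 => x₂
  | _ => x₃

/-- The data of a chart: `o = (n₀ + n₁ x₃) / den`, the ranges, and the ends of `μ`. -/
structure EndChart where
  (I d w den n₀ n₁ : Ex)
  (q₀ q₁ q₂ q₃ : ℤ × ℤ × ℕ)
  (t₀ t₁ mu₀ mu₁ : ℤ × ℕ)

namespace EndChart

variable (c : EndChart)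

/-- The quantities of the chart. -/
def geo : Geo := ⟨c.I, c.d, c.w, c.n₀ + c.n₁ * var 3, c.den⟩

/-- The numerator of `o` at `x₃ = t`, cleared. -/
def oAt (t : ℤ × ℕ) : Ex := num t.2 * c.n₀ + num t.1 * c.n₁

/-- Left of the window: `o` is `x₃` times its value at `t₀`. -/
def geoL : Geo := ⟨c.I, c.d, c.w, c.oAt c.t₀ * var 3, c.den * num c.t₀.2⟩

/-- Right of the window: `o` goes from its value at `t₁` to one. -/
def geoR : Geo :=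
  ⟨c.I, c.d, c.w, c.oAt c.t₁ + (c.den * num c.t₁.2 - c.oAt c.t₁) * var 3, c.den * num c.t₁.2⟩

/-- The ranges of a check. -/
def box (q : Chart) : ℕ → Chart
  | 0 => sideUp c.q₀
  | 1 => sideUp c.q₁
  | 2 => sideUp c.q₂
  | _ => q

/-- Only the last variable of `n₀ + n₁ x₃` moves with `x₃`. -/
structure Flat : Prop where
  I : ∀ x₀ x₁ x₂ s, c.I.eval (pt4 x₀ x₁ x₂ s) = c.I.eval (pt4 x₀ x₁ x₂ 0)
  d : ∀ x₀ x₁ x₂ s, c.d.eval (pt4 x₀ x₁ x₂ s) = c.d.eval (pt4 x₀ x₁ x₂ 0)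
  w : ∀ x₀ x₁ x₂ s, c.w.eval (pt4 x₀ x₁ x₂ s) = c.w.eval (pt4 x₀ x₁ x₂ 0)
  den : ∀ x₀ x₁ x₂ s, c.den.eval (pt4 x₀ x₁ x₂ s) = c.den.eval (pt4 x₀ x₁ x₂ 0)
  n₀ : ∀ x₀ x₁ x₂ s, c.n₀.eval (pt4 x₀ x₁ x₂ s) = c.n₀.eval (pt4 x₀ x₁ x₂ 0)
  n₁ : ∀ x₀ x₁ x₂ s, c.n₁.eval (pt4 x₀ x₁ x₂ s) = c.n₁.eval (pt4 x₀ x₁ x₂ 0)

/-- The numbers fit together. -/
structure Fits : Prop where
  den : 0 < c.q₃.2.2 ∧ 0 < c.t₀.2 ∧ 0 < c.t₁.2 ∧ 0 < c.mu₀.2 ∧ 0 < c.mu₁.2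
  t₀ : (c.q₃.1 : ℝ) / c.q₃.2.2 ≤ c.t₀.1 / c.t₀.2 ∧ (c.t₀.1 : ℝ) / c.t₀.2 ≤ c.q₃.2.1 / c.q₃.2.2
  t₁ : (c.q₃.1 : ℝ) / c.q₃.2.2 ≤ c.t₁.1 / c.t₁.2 ∧ (c.t₁.1 : ℝ) / c.t₁.2 ≤ c.q₃.2.1 / c.q₃.2.2
  mu : (c.mu₀.1 : ℝ) ≤ 18 / 5 * c.mu₀.2 ∧ (c.mu₁.1 : ℝ) ≤ 18 / 5 * c.mu₁.2

/-- The checks of a chart. -/
structure Cert : Prop where
  flat : c.Flat
  fits : c.Fits
  left : Chk (c.box (sideUp (0, 1, 1))) (c.geoL.loWin 2)
  right : Chk (c.box (side (0, 1, 1))) c.geoR.hiWin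
  up : Chk (c.box (side c.q₃)) (c.geo.muUp 2 c.mu₁)
  down : Chk (c.box (side c.q₃)) (c.geo.muLo c.mu₀)

/-- The checks of a chart for `N` between seven and twenty. -/
structure Cert7 : Prop where
  flat : c.Flat
  fits : c.Fits
  left : Chk (c.box (sideUp (0, 1, 1))) (c.geoL.loWin 4)
  right : Chk (c.box (side (0, 1, 1))) c.geoR.hiWin
  up : Chk (c.box (side c.q₃)) (c.geo.muUp 4 c.mu₁)
  down : Chk (c.box (side c.q₃)) (c.geo.muLo c.mu₀)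

/-- A point of the chart at which `C` is pinned. -/
def Point (x : ℕ → ℝ) (a b u v H : ℝ) : Prop :=
  (InU c.q₀ (x 0) ∧ InU c.q₁ (x 1) ∧ InU c.q₂ (x 2) ∧
      (c.q₃.1 : ℝ) / c.q₃.2.2 < x 3 ∧ x 3 < (c.q₃.2.1 : ℝ) / c.q₃.2.2) ∧
    GeoAt c.geo x a b u v ∧
    ∃ m : ℝ, (c.mu₀.1 : ℝ) / c.mu₀.2 ≤ m ∧ m ≤ (c.mu₁.1 : ℝ) / c.mu₁.2 ∧
      pinC a b u v H * c.geo.qn.eval x =
        c.geo.A.eval x * (c.geo.den.eval x - c.geo.o.eval x - m * c.geo.o.eval x * c.geo.w.eval x)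

end EndChart

/-- What holds on orbits for `u` near one. -/
structure EndBands (a b u v H : ℝ) : Prop where
  place : TubePlace a b u v
  low : 0 ≤ stripLow a b u v H
  top : 0 ≤ stripTop a b u v H
  tube : 0 < stripTube a b u v H
  flow : 0 < allFlow a b u v H
  den : 0 < allDen a b u v H
  pos : 0 < H

/-- What holds on orbits for `u` near one and `N` between seven and twenty. -/
structure EndBands7 (a b u v H : ℝ) : Prop where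
  place : TubePlace a b u v
  low : 0 ≤ stripSevLow a b u v H
  top : 0 ≤ stripTop a b u v H
  tube : 0 < stripTube a b u v H
  flow : 0 < allFlow a b u v H
  den : 0 < allDen a b u v H
  pos : 0 < H

theorem endLow_four (a b u v H : ℝ) : endLow 4 a b u v H = stripSevLow a b u v H := by
  simp only [endLow, endG, stripSevLow, stripSevG]; push_cast; ring

variable {c : EndChart} {a b u v H x₀ x₁ x₂ : ℝ}

theorem chk_at {q : Chart} {e : Ex} {s : ℝ} (h : Chk (c.box q) e) (h0 : InU c.q₀ x₀)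
    (h1 : InU c.q₁ x₁) (h2 : InU c.q₂ x₂)
    (h3 : ∃ t : ℝ, 0 ≤ t ∧ 0 < (q.c : ℝ) + q.d * t ∧ (q.a : ℝ) + q.b * t = s * ((q.c : ℝ) + q.d * t)) :
    0 ≤ e.eval (pt4 x₀ x₁ x₂ s) := by
  refine h.nonneg fun i hi => ?_
  interval_cases i
  · exact sideUp_mem h0
  · exact sideUp_mem h1
  · exact sideUp_mem h2
  · exact h3

/-- The point of the chart, from the checks with the slope `k`. -/
theorem EndChart.point_of {k : ℕ} (hF : c.Flat) (hfit : c.Fits)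
    (hL : Chk (c.box (sideUp (0, 1, 1))) (c.geoL.loWin k))
    (hR : Chk (c.box (side (0, 1, 1))) c.geoR.hiWin)
    (hU : Chk (c.box (side c.q₃)) (c.geo.muUp k c.mu₁))
    (hD : Chk (c.box (side c.q₃)) (c.geo.muLo c.mu₀))
    (hP : TubePlace a b u v) (hl : 0 ≤ endLow k a b u v H) (hX : 0 ≤ stripTop a b u v H)
    (hT : 0 < stripTube a b u v H) (hfl : 0 < allFlow a b u v H) (hdn : 0 < allDen a b u v H)
    (hH : 0 < H) (h0 : InU c.q₀ x₀) (h1 : InU c.q₁ x₁) (h2 : InU c.q₂ x₂)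
    (hI : c.I.eval (pt4 x₀ x₁ x₂ 0) = allStabI a b)
    (hd : c.d.eval (pt4 x₀ x₁ x₂ 0) = b - a) (hw : c.w.eval (pt4 x₀ x₁ x₂ 0) = 1 - u)
    (hden : 0 < c.den.eval (pt4 x₀ x₁ x₂ 0)) :
    ∃ t, c.Point (pt4 x₀ x₁ x₂ t) a b u v H := by
  obtain ⟨⟨hq3, hq0, hq1, hm0, hm1⟩, ht0, ht1, hmu⟩ := hfit
  have hav := hP.av
  have ho0 : 0 < a * v := mul_pos (by linarith [hP.a_gt]) hP.v_pos
  obtain ⟨D, hD'⟩ : ∃ D, D = c.den.eval (pt4 x₀ x₁ x₂ 0) := ⟨_, rfl⟩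
  obtain ⟨n₀, hn₀⟩ : ∃ n, n = c.n₀.eval (pt4 x₀ x₁ x₂ 0) := ⟨_, rfl⟩
  obtain ⟨n₁, hn₁⟩ : ∃ n, n = c.n₁.eval (pt4 x₀ x₁ x₂ 0) := ⟨_, rfl⟩
  rw [← hD'] at hden
  have q0 : (0 : ℝ) < c.t₀.2 := by exact_mod_cast hq0
  have q1 : (0 : ℝ) < c.t₁.2 := by exact_mod_cast hq1
  have eo : ∀ (t : ℤ × ℕ) (s : ℝ), 0 < t.2 →
      (c.oAt t).eval (pt4 x₀ x₁ x₂ s) = (t.2 : ℝ) * (n₀ + n₁ * ((t.1 : ℝ) / t.2)) := by
    intro t s ht
    have : (0 : ℝ) < t.2 := by exact_mod_cast ht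
    simp only [EndChart.oAt, end_add, end_mul, Ex.eval, hF.n₀ x₀ x₁ x₂ s, hF.n₁ x₀ x₁ x₂ s, ← hn₀,
      ← hn₁]
    push_cast; field_simp
  have eD : ∀ (q : ℕ) (s : ℝ), (c.den * num q).eval (pt4 x₀ x₁ x₂ s) = D * q := by
    intro q s
    simp only [end_mul, Ex.eval, hF.den x₀ x₁ x₂ s, ← hD']
    push_cast; rfl
  obtain ⟨oA, hA⟩ : ∃ oA, oA = n₀ + n₁ * ((c.t₀.1 : ℝ) / c.t₀.2) := ⟨_, rfl⟩
  obtain ⟨oB, hB⟩ : ∃ oB, oB = n₀ + n₁ * ((c.t₁.1 : ℝ) / c.t₁.2) := ⟨_, rfl⟩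
  have hA' : oA < a * v * D := by
    by_contra hn
    rw [not_lt] at hn
    have hA0 : 0 < oA := lt_of_lt_of_le (mul_pos ho0 hden) hn
    obtain ⟨s, hs⟩ : ∃ s, s = a * v * D / oA := ⟨_, rfl⟩
    refine left_false (g := c.geoL) (y := pt4 x₀ x₁ x₂ s)
      ⟨(hF.I x₀ x₁ x₂ s).trans hI, (hF.d x₀ x₁ x₂ s).trans hd, (hF.w x₀ x₁ x₂ s).trans hw,
        ?_, ?_⟩ hP (chk_at hL h0 h1 h2 (sideUp_mem ⟨by norm_num, ?_, ?_⟩)) hl hT
    · show 0 < (c.den * num c.t₀.2).eval _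
      rw [eD]; positivity
    · show (c.oAt c.t₀ * var 3).eval _ = a * v * (c.den * num c.t₀.2).eval _
      rw [end_mul, eo _ _ hq0, eD, ← hA]
      show _ * s = _
      rw [hs]; field_simp
    · rw [hs]; norm_num; positivity
    · rw [hs]; norm_num; rw [div_le_one hA0]; exact hn
  have hB' : a * v * D < oB := by
    by_contra hn
    rw [not_lt] at hn
    have hB1 : oB < D := lt_of_le_of_lt hn (mul_lt_of_lt_one_left hden hav)
    obtain ⟨s, hs⟩ : ∃ s, s = (a * v * D - oB) / (D - oB) := ⟨_, rfl⟩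
    refine right_false (g := c.geoR) (y := pt4 x₀ x₁ x₂ s)
      ⟨(hF.I x₀ x₁ x₂ s).trans hI, (hF.d x₀ x₁ x₂ s).trans hd, (hF.w x₀ x₁ x₂ s).trans hw,
        ?_, ?_⟩ hP (chk_at hR h0 h1 h2 (side_mem ⟨by norm_num, ?_, ?_⟩)) hX hfl
    · show 0 < (c.den * num c.t₁.2).eval _
      rw [eD]; positivity
    · show (c.oAt c.t₁ + (c.den * num c.t₁.2 - c.oAt c.t₁) * var 3).eval _ =
        a * v * (c.den * num c.t₁.2).eval _
      rw [end_add, end_mul, end_sub, eo _ _ hq1, eD, ← hB]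
      show _ + _ * s = _
      have : D - oB ≠ 0 := (sub_pos.2 hB1).ne'
      rw [hs]; field_simp; ring
    · rw [hs]; norm_num
      exact div_nonneg (by linarith) (by linarith)
    · rw [hs]; norm_num
      rw [div_lt_one (by linarith)]
      linarith [mul_lt_of_lt_one_left hden hav]
  have hn : n₁ ≠ 0 := by
    rintro rfl
    linarith [hA, hB]
  obtain ⟨t, ht⟩ : ∃ t, t = (a * v * D - n₀) / n₁ := ⟨_, rfl⟩
  have et : n₀ + n₁ * t = a * v * D := by rw [ht]; field_simp; ring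
  have hin : (c.q₃.1 : ℝ) / c.q₃.2.2 < t ∧ t < (c.q₃.2.1 : ℝ) / c.q₃.2.2 := by
    rw [hA, ← et] at hA'
    rw [hB, ← et] at hB'
    rcases lt_or_gt_of_ne hn with hs | hs
    · have g0 : t < (c.t₀.1 : ℝ) / c.t₀.2 := by
        by_contra g; linarith [mul_le_mul_of_nonpos_left (not_lt.1 g) hs.le]
      have g1 : (c.t₁.1 : ℝ) / c.t₁.2 < t := by
        by_contra g; linarith [mul_le_mul_of_nonpos_left (not_lt.1 g) hs.le]
      exact ⟨lt_of_le_of_lt ht1.1 g1, lt_of_lt_of_le g0 ht0.2⟩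
    · have g0 : (c.t₀.1 : ℝ) / c.t₀.2 < t := by
        by_contra g; linarith [mul_le_mul_of_nonneg_left (not_lt.1 g) hs.le]
      have g1 : t < (c.t₁.1 : ℝ) / c.t₁.2 := by
        by_contra g; linarith [mul_le_mul_of_nonneg_left (not_lt.1 g) hs.le]
      exact ⟨lt_of_le_of_lt ht0.1 g0, lt_of_lt_of_le g1 ht1.2⟩
  have hg : GeoAt c.geo (pt4 x₀ x₁ x₂ t) a b u v := by
    refine ⟨(hF.I x₀ x₁ x₂ t).trans hI, (hF.d x₀ x₁ x₂ t).trans hd, (hF.w x₀ x₁ x₂ t).trans hw,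
      ?_, ?_⟩
    · show 0 < c.den.eval _
      rw [hF.den, ← hD']; exact hden
    · show (c.n₀ + c.n₁ * var 3).eval _ = a * v * c.den.eval _
      rw [end_add, end_mul, hF.n₀, hF.n₁, hF.den, ← hn₀, ← hn₁, ← hD']
      exact et
  have hbox : InR c.q₃ t := ⟨hq3, hin.1.le, hin.2⟩
  exact ⟨t, ⟨h0, h1, h2, hin.1, hin.2⟩, hg, pinned_of hg hP hm0 hm1 hmu.1 hmu.2
    (chk_at hU h0 h1 h2 (side_mem hbox)) (chk_at hD h0 h1 h2 (side_mem hbox)) hl hX hH hdn⟩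


/-- **The point of the chart.** -/
theorem EndChart.Cert.point (K : c.Cert) (B : EndBands a b u v H) (h0 : InU c.q₀ x₀)
    (h1 : InU c.q₁ x₁) (h2 : InU c.q₂ x₂)
    (hI : c.I.eval (pt4 x₀ x₁ x₂ 0) = allStabI a b)
    (hd : c.d.eval (pt4 x₀ x₁ x₂ 0) = b - a) (hw : c.w.eval (pt4 x₀ x₁ x₂ 0) = 1 - u)
    (hden : 0 < c.den.eval (pt4 x₀ x₁ x₂ 0)) :
    ∃ t, c.Point (pt4 x₀ x₁ x₂ t) a b u v H :=
  EndChart.point_of K.flat K.fits K.left K.right K.up K.down B.place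
    (le_of_le_of_eq B.low (endLow_two a b u v H).symm) B.top B.tube B.flow B.den B.pos h0 h1 h2 hI hd
    hw hden

/-- **The point of the chart** for `N` between seven and twenty. -/
theorem EndChart.Cert7.point (K : c.Cert7) (B : EndBands7 a b u v H) (h0 : InU c.q₀ x₀)
    (h1 : InU c.q₁ x₁) (h2 : InU c.q₂ x₂)
    (hI : c.I.eval (pt4 x₀ x₁ x₂ 0) = allStabI a b)
    (hd : c.d.eval (pt4 x₀ x₁ x₂ 0) = b - a) (hw : c.w.eval (pt4 x₀ x₁ x₂ 0) = 1 - u)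
    (hden : 0 < c.den.eval (pt4 x₀ x₁ x₂ 0)) :
    ∃ t, c.Point (pt4 x₀ x₁ x₂ t) a b u v H :=
  EndChart.point_of K.flat K.fits K.left K.right K.up K.down B.place
    (le_of_le_of_eq B.low (endLow_four a b u v H).symm) B.top B.tube B.flow B.den B.pos h0 h1 h2 hI hd
    hw hden

end Vale.Agent.P100.Calib.StripEnd
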