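import Vale.Agent.P100.Calib.SlabStripEndPoint
import Vale.Agent.P100.Calib.SlabStripEndChart

/-!
# The checks of a piece of the strip for `u` near one and the signs at a point of its chart
-/

set_option linter.unusedVariables false

namespace Vale.Agent.P100.Calib.StripEnd

open Pack Pack.Ex Band StripMid

local instance endCertAdd : Add Ex := ⟨Ex.add⟩
local instance endCertSub : Sub Ex := ⟨Ex.sub⟩
local instance endCertMul : Mul Ex := ⟨Ex.mul⟩

/-- The ranges of a piece: the first three closed above, the last closed below. -/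
structure EBox where
  (q₀ q₁ q₂ q₃ : ℤ × ℤ × ℕ)

/-- The charts of a piece. -/
def EBox.C (B : EBox) : ℕ → Chart
  | 0 => StripMid.sideUp B.q₀
  | 1 => StripMid.sideUp B.q₁
  | 2 => StripMid.sideUp B.q₂
  | _ => StripMid.side B.q₃

/-- `x` lies in the ranges. -/
structure EBox.Mem (B : EBox) (x : ℕ → ℝ) : Prop where
  h0 : InU B.q₀ (x 0)
  h1 : InU B.q₁ (x 1)
  h2 : InU B.q₂ (x 2)
  h3 : InR B.q₃ (x 3)

/-- What is checked positive. -/
inductive PosF
  | I | d | A | S | U | den | o | olt | pd | e0 | f0 | wd | td | cd | kd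

/-- Its expression. -/
def Piece.posF (P : Piece) : PosF → Ex
  | .I => P.I
  | .d => P.d
  | .A => P.A
  | .S => P.S
  | .U => P.U
  | .den => P.den
  | .o => P.o
  | .olt => P.den - P.o
  | .pd => P.pd
  | .e0 => P.en false
  | .f0 => P.f0
  | .wd => P.wd
  | .td => P.td
  | .cd => P.cd
  | .kd => P.kd

/-- A check of a strict sign: a large multiple minus a power of the first three variables. -/
def strictVar (e : Ex) : Ex := num (2 ^ 80) * e - pow (var 0 * (var 1 * var 2)) 3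

/-- All checks of a piece on its ranges. -/
structure Cert (P : Piece) (B : EBox) : Prop where
  pos : P.Pos2
  low : 0 ≤ B.q₀.1 ∧ 0 ≤ B.q₁.1 ∧ 0 ≤ B.q₂.1
  kn : Chk B.C P.kn
  sgns : ∀ f, Chk B.C (strictVar (P.posF f))
  g1 : ∀ s p l, Chk B.C (P.at ⟨p, l, !s, !s, false⟩ (c1 s))
  g2 : ∀ s p l t, Chk B.C (P.at ⟨p, l, true, true, t⟩ (strict (c2 P.k2 s)))
  g3 : ∀ s p l, Chk B.C (P.at ⟨p, l, true, true, false⟩ (strict (c3 P.θ s)))
  g3' : ∀ p l, Chk B.C (P.at ⟨p, l, false, false, false⟩ (strict (c3 P.θ true)))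
  g4 : ∀ s p l t, Chk B.C (P.at ⟨p, l, true, true, t⟩ (c4 P.θ P.k2 s))
  gMG : ∀ p l t, Chk B.C (P.at ⟨p, l, true, false, t⟩ tplMG)
  v2 : ∀ s, Chk B.C (P.at ⟨false, false, true, true, false⟩ (curve2 P.k2 s))
  v4 : ∀ s, Chk B.C (P.at ⟨false, false, true, true, false⟩ (curve4 P.θ P.k2 s))
  vMG : Chk B.C (P.at ⟨false, false, true, true, false⟩ Piece.curveMG)
  wP : ∀ b hi, Chk B.C (P.winP b hi)
  wE : ∀ b hi, Chk B.C (P.winE b hi)
  wK : ∀ b hi, Chk B.C (P.winK b hi)
  wW : ∀ b hi, Chk B.C (P.winW b hi)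
  wT : ∀ b hi, Chk B.C (P.winT b hi)
  gap : ∀ b t, Chk B.C (P.gap b t)

variable {P : Piece} {B : EBox} {x : ℕ → ℝ}

theorem EBox.Mem.at_pt (h : B.Mem x) : ∀ i < 4, ∃ t : ℝ, 0 ≤ t ∧
    0 < ((B.C i).c : ℝ) + (B.C i).d * t ∧
      ((B.C i).a : ℝ) + (B.C i).b * t = x i * (((B.C i).c : ℝ) + (B.C i).d * t) := fun i hi => by
  interval_cases i
  · exact sideUp_mem h.h0
  · exact sideUp_mem h.h1
  · exact sideUp_mem h.h2
  · exact side_mem h.h3

theorem lower_pos {q : ℤ × ℤ × ℕ} {y : ℝ} (hq : 0 ≤ q.1) (h : InU q y) : 0 < y :=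
  lt_of_le_of_lt (div_nonneg (by exact_mod_cast hq) (Nat.cast_nonneg _)) h.2.1

theorem Cert.place (K : Cert P B) (h : B.Mem x) : Place P x := by
  have hx : 0 < x 0 * (x 1 * x 2) := mul_pos (lower_pos K.low.1 h.h0)
    (mul_pos (lower_pos K.low.2.1 h.h1) (lower_pos K.low.2.2 h.h2))
  have hh : ∀ f, 0 < (P.posF f).eval x := fun f => by
    have := (K.sgns f).nonneg h.at_pt
    simp only [strictVar, ev_sub, Ex.eval] at this
    have := pow_pos hx 3
    refine pos_of_mul_pos_right (lt_of_lt_of_le this ?_) (show (0 : ℝ) ≤ ((2 ^ 80 : ℤ) : ℝ) by norm_num)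
    linarith
  exact ⟨hh .I, hh .d, hh .A, hh .S, hh .U, hh .den, hh .o,
    sub_pos.1 (hh .olt), hh .pd, hh .e0, hh .f0, hh .wd, hh .td, hh .cd, K.kn.nonneg h.at_pt,
    hh .kd⟩

theorem Cert.all (K : Cert P B) (h : B.Mem x) : AllChecks P x :=
  ⟨Checks.ends K.pos (K.place h) ⟨fun s p l => (K.g1 s p l).nonneg h.at_pt, fun s p l t => (K.g2 s p l t).nonneg h.at_pt,
    fun s p l => (K.g3 s p l).nonneg h.at_pt, fun p l => (K.g3' p l).nonneg h.at_pt,
    fun s p l t => (K.g4 s p l t).nonneg h.at_pt, fun p l t => (K.gMG p l t).nonneg h.at_pt,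
    fun s => (K.v2 s).nonneg h.at_pt, fun s => (K.v4 s).nonneg h.at_pt, K.vMG.nonneg h.at_pt⟩,
   ⟨fun b hi => (K.wP b hi).nonneg h.at_pt, fun b hi => (K.wE b hi).nonneg h.at_pt,
    fun b hi => (K.wK b hi).nonneg h.at_pt, fun b hi => (K.wW b hi).nonneg h.at_pt,
    fun b hi => (K.wT b hi).nonneg h.at_pt, fun b t => (K.gap b t).nonneg h.at_pt⟩⟩

/-- A piece lies over a chart. -/
structure Piece.Over (P : Piece) (c : EndChart) : Prop where
  I : ∀ x : ℕ → ℝ, P.I.eval x = c.I.eval x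
  d : ∀ x : ℕ → ℝ, P.d.eval x = c.d.eval x
  w : ∀ x : ℕ → ℝ, P.w.eval x = c.w.eval x
  den : ∀ x : ℕ → ℝ, P.den.eval x = c.den.eval x
  o : ∀ x : ℕ → ℝ, P.o.eval x = (c.n₀ + c.n₁ * var 3).eval x
  mu₀ : P.mu.lo = c.mu₀
  mu₁ : P.mu.hi = c.mu₁

variable {c : EndChart} {n : ℕ} {a b u v t H : ℝ}

/-- **The signs at a point of a chart from all checks at it.** -/
theorem signs_of_all (hP : P.Pos2) (h : Place P x) (K : AllChecks P x) (hc : P.Over c) (hx : c.Point x a b u v H)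
    (hb : Closed.All.ChartBox n (b - a) (a + b))
    (hF : Closed.All.ChartFacts (b - a) (a + b) u v t)
    (hH : Closed.chH (b - a) (a + b) u v t = H)
    (hk : (AllN.kapAll (1 / P.I.eval x) (xa P x) + 1) / P.d.eval x = kap P x) :
    Closed.Strip.ChartSigns (b - a) (a + b) u v t := by
  obtain ⟨-, hg, m, hm0, hm1, hm⟩ := hx
  have eI : P.I.eval x = c.I.eval x := hc.I x
  have ed : P.d.eval x = b - a := (hc.d x).trans hg.hd
  have ho : P.o.eval x = a * v * P.den.eval x := by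
    rw [hc.o, hc.den]; exact hg.ho
  refine signs_end hP h hb hF ⟨?_, ed, (hc.w x).trans hg.hw, ?_⟩ (ed ▸ hk)
    ⟨m, by rw [hc.mu₀]; exact hm0, by rw [hc.mu₁]; exact hm1, ?_⟩ K
  · rw [eI, show c.I.eval x = allStabI a b from hg.hI, allStabI]
  · rw [ho]; ring
  · have eC : chC (b - a) (a + b) u v t = pinC a b u v H := by
      simp only [chC, pinC, allQn, allDen, hH]
      ring
    have e1 := hc.den x
    have e2 := hc.o x
    have e3 : P.A.eval x = c.geo.A.eval x := by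
      simp only [Piece.A, Piece.S, Geo.A, Geo.S, EndChart.geo, ev_sub, ev_mul, ev_num,
        eI, hc.d x]
    have e4 : P.qn.eval x = c.geo.qn.eval x := by
      simp only [Piece.qn, Piece.vd, Piece.vn, Geo.qn, Geo.E, Geo.V, ev_add, ev_mul, ev_num,
        e3, hc.d x, e1, e2]
      simp only [EndChart.geo, ev_add, ev_mul]
    rw [eC, e4, e3, e1, e2, hc.w x]
    exact hm

/-- **The signs at a point of a chart from the checks of a piece over it.** -/
theorem signs_of_cert (K : Cert P B) (hB : B.Mem x) (hc : P.Over c) (hx : c.Point x a b u v H)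
    (hb : Closed.All.ChartBox n (b - a) (a + b))
    (hF : Closed.All.ChartFacts (b - a) (a + b) u v t)
    (hH : Closed.chH (b - a) (a + b) u v t = H)
    (hk : (AllN.kapAll (1 / P.I.eval x) (xa P x) + 1) / P.d.eval x = kap P x) :
    Closed.Strip.ChartSigns (b - a) (a + b) u v t :=
  signs_of_all K.pos (K.place hB) (K.all hB) hc hx hb hF hH hk

/-- `D2 d` in closed form. -/
theorem kap_flat {I d S A k : ℝ} (hI : 0 < I) (hd : 0 < d) (hS : 0 < S) (eS : S = 1 - 2 * I)
    (eA : 2 * A = S - d) :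
    ((d * (1 - I) ≤ S * I → k = 0) ∧
      (S * I ≤ d * (1 - I) → k = (d * (1 - I) - S * I) / (S ^ 2 * d))) →
    (AllN.kapAll (1 / I) A + 1) / d = k := by
  have e1 : 2 * (1 / I * A) * (1 / I - 1) / (1 / I - 2) ^ 2 = 2 * A * (1 - I) / S ^ 2 := by
    rw [eS] at hS ⊢
    field_simp
  have e3 : -(2 * A * (1 - I) / S ^ 2) + 1 = (d * (1 - I) - S * I) / S ^ 2 := by
    field_simp
    rw [eS, show 2 * A = 1 - 2 * I - d by linarith]
    ring
  rintro ⟨h0, h1⟩
  rw [AllN.kapAll, e1, ← max_add_add_right, show (-1 : ℝ) + 1 = 0 by norm_num, e3]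
  rcases le_total (d * (1 - I)) (S * I) with hk | hk
  · rw [max_eq_left (div_nonpos_of_nonpos_of_nonneg (by linarith) (sq_nonneg _)), zero_div, h0 hk]
  · rw [max_eq_right (div_nonneg (by linarith) (sq_nonneg _)), h1 hk, div_div]

end Vale.Agent.P100.Calib.StripEnd
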