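import Vale.Agent.P100.Calib.SlabStripEndDPoint
import Vale.Agent.P100.Calib.SlabStripEndCert

/-!
# The checks of a piece of the strip for `u` near one, `d` large, and the signs at a point
-/

set_option linter.unusedVariables false

namespace Vale.Agent.P100.Calib.StripEndD

open Pack hiding ev_add ev_mul
open Pack.Ex Band StripMid StripEnd

local instance endDCertAdd : Add Ex := ⟨Ex.add⟩
local instance endDCertSub : Sub Ex := ⟨Ex.sub⟩
local instance endDCertMul : Mul Ex := ⟨Ex.mul⟩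

/-- The expression of what is checked positive. -/
def Piece.posF (P : Piece) : StripEnd.PosF → Ex
  | .I => P.I
  | .d => P.d
  | .A => P.A
  | .S => P.S
  | .U => P.U
  | .den => P.den
  | .o => P.o
  | .olt => P.den - P.o
  | .pd => P.pd
  | .e0 => P.en false
  | .f0 => P.f0
  | .wd => P.wd
  | .td => P.td
  | .cd => P.cd
  | .kd => P.kd

/-- All checks of a piece on its ranges. -/
structure Cert (P : Piece) (B : StripEnd.EBox) : Prop where
  pos : P.Pos
  low : 0 ≤ B.q₀.1 ∧ 0 ≤ B.q₁.1 ∧ 0 ≤ B.q₂.1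
  kn : Chk B.C P.kn
  sgns : ∀ f, Chk B.C (strictVar (P.posF f))
  k2n : Chk B.C (strictVar P.k2n)
  k2d : Chk B.C (strictVar P.k2d)
  vs : Chk B.C (strictVar P.vs)
  g1 : ∀ s p l, Chk B.C (P.at ⟨p, l, !s, !s, false⟩ (c1 s))
  g2 : ∀ s p l t, Chk B.C (P.at ⟨p, l, true, true, t⟩ (StripEnd.strict (c2 s)))
  g5 : ∀ s p l t, Chk B.C (P.at ⟨p, l, true, true, t⟩ (StripEnd.strict (c5 s)))
  gMG : ∀ p l t, Chk B.C (P.at ⟨p, l, true, false, t⟩ tplMG)
  v2 : ∀ s, Chk B.C (P.at ⟨false, false, true, true, false⟩ (curve2 s))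
  v5 : ∀ s, Chk B.C (P.at ⟨false, false, true, true, false⟩ (curve5 s))
  vMG : Chk B.C (P.at ⟨false, false, true, true, false⟩ Piece.curveMG)
  wP : ∀ b hi, Chk B.C (P.winP b hi)
  wE : ∀ b hi, Chk B.C (P.winE b hi)
  wK : ∀ b hi, Chk B.C (P.winK b hi)
  wW : ∀ b, Chk B.C (P.winW b)
  wY : ∀ b, Chk B.C (P.winY b)
  wT : ∀ b hi, Chk B.C (P.winT b hi)
  gap : ∀ b t, Chk B.C (P.gap b t)

variable {P : Piece} {B : StripEnd.EBox} {x : ℕ → ℝ}

theorem strictVar_pos {e : Ex} (hx : 0 < x 0 * (x 1 * x 2)) (h : 0 ≤ (strictVar e).eval x) :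
    0 < e.eval x := by
  simp only [strictVar, ev_sub, Ex.eval] at h
  have := pow_pos hx 3
  refine pos_of_mul_pos_right (lt_of_lt_of_le this ?_) (show (0 : ℝ) ≤ ((2 ^ 80 : ℤ) : ℝ) by norm_num)
  linarith

theorem Cert.place (K : Cert P B) (h : B.Mem x)
    (hvo : P.A.eval x * P.vn.eval x = 2 * (P.vs.eval x * P.o.eval x)) : Place P x := by
  have hx : 0 < x 0 * (x 1 * x 2) := mul_pos (lower_pos K.low.1 h.h0)
    (mul_pos (lower_pos K.low.2.1 h.h1) (lower_pos K.low.2.2 h.h2))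
  have hh : ∀ f, 0 < (P.posF f).eval x := fun f =>
    strictVar_pos hx ((K.sgns f).nonneg h.at_pt)
  exact ⟨hh .I, hh .d, hh .A, hh .S, hh .U, hh .den, hh .o,
    sub_pos.1 (hh .olt), hh .pd, hh .e0, hh .f0, hh .wd, hh .td, hh .cd, K.kn.nonneg h.at_pt,
    hh .kd, strictVar_pos hx (K.k2n.nonneg h.at_pt), strictVar_pos hx (K.k2d.nonneg h.at_pt),
    strictVar_pos hx (K.vs.nonneg h.at_pt), hvo⟩

theorem Cert.all (K : Cert P B) (h : B.Mem x) : AllChecks P x :=
  ⟨⟨⟨fun s p l => (K.g1 s p l).nonneg h.at_pt, fun s p l t => (K.g2 s p l t).nonneg h.at_pt,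
    fun p l t => (K.gMG p l t).nonneg h.at_pt, fun s => (K.v2 s).nonneg h.at_pt,
    fun s => (K.v5 s).nonneg h.at_pt, K.vMG.nonneg h.at_pt⟩,
    fun s p l t => (K.g5 s p l t).nonneg h.at_pt⟩,
   ⟨fun b hi => (K.wP b hi).nonneg h.at_pt, fun b hi => (K.wE b hi).nonneg h.at_pt,
    fun b hi => (K.wK b hi).nonneg h.at_pt, fun b => (K.wW b).nonneg h.at_pt,
    fun b => (K.wY b).nonneg h.at_pt,
    fun b hi => (K.wT b hi).nonneg h.at_pt, fun b t => (K.gap b t).nonneg h.at_pt⟩⟩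

/-- A piece lies over a chart. -/
structure Piece.Over (P : Piece) (c : EndChart) : Prop where
  I : ∀ x : ℕ → ℝ, P.I.eval x = c.I.eval x
  d : ∀ x : ℕ → ℝ, P.d.eval x = c.d.eval x
  w : ∀ x : ℕ → ℝ, P.w.eval x = c.w.eval x
  den : ∀ x : ℕ → ℝ, P.den.eval x = c.den.eval x
  o : ∀ x : ℕ → ℝ, P.o.eval x = (c.n₀ + c.n₁ * var 3).eval x
  vo : ∀ x : ℕ → ℝ, P.A.eval x * P.vn.eval x = 2 * (P.vs.eval x * P.o.eval x)
  mu₀ : P.mu.lo = c.mu₀
  mu₁ : P.mu.hi = c.mu₁

/-- The chart `x = (d, I / d, (1 - u) / d, t)`: `D2 d = (1 - I - (I / d) S) / S²`. -/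
theorem kap_dlarge (hI : P.I = var 0 * var 1) (hd : P.d = var 0)
    (hcn : P.cn = num 1 - P.I - var 1 * P.S) (hcd : P.cd = P.S * P.S)
    (h : Place P x) (h0 : 0 < x 0) (h1 : 0 ≤ x 1) (h1' : x 1 ≤ 1) :
    (AllN.kapAll (1 / P.I.eval x) (xa P x) + 1) / P.d.eval x = kap P x := by
  have hI0 := h.I
  have hS := h.S
  have eI : P.I.eval x = x 0 * x 1 := by rw [hI]; rfl
  have ed : P.d.eval x = x 0 := by rw [hd]; rfl
  have hS' : P.S.eval x ≤ 1 - P.I.eval x := by rw [eval_S]; linarith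
  have hflat : P.S.eval x * P.I.eval x ≤ P.d.eval x * (1 - P.I.eval x) := by
    calc P.S.eval x * P.I.eval x = P.d.eval x * (P.S.eval x * x 1) := by rw [eI, ed]; ring
      _ ≤ P.d.eval x * (1 - P.I.eval x) := mul_le_mul_of_nonneg_left
          ((mul_le_of_le_one_right hS.le h1').trans hS') h.d.le
  refine kap_flat hI0 h.d hS eval_S
    (by linarith [eval_A' (P := P) (x := x), eval_S (P := P) (x := x)]) ⟨fun hk => ?_, fun _ => ?_⟩
  all_goals simp only [kap, hcn, hcd, ev_sub, ev_mul, Ex.eval]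
  · have e := le_antisymm hflat hk
    rw [eI, ed] at e
    have : P.S.eval x * x 1 = 1 - x 0 * x 1 := by
      refine mul_left_cancel₀ h0.ne' ?_
      linarith
    rw [eI, mul_comm (x 1), this]
    push_cast
    simp
  · rw [eI, ed]
    push_cast
    field_simp

variable {c : EndChart} {n : ℕ} {a b u v t H : ℝ}

/-- The data of a point of a chart at a piece over it. -/
theorem over_point (h : Place P x) (hc : P.Over c) (hx : c.Point x a b u v H)
    (hH : Closed.chH (b - a) (a + b) u v t = H) :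
    Places P x (b - a) (a + b) u v ∧ P.d.eval x = b - a ∧ P.w.eval x = 1 - u ∧
    ∃ m : ℝ, fr P.mu.lo ≤ m ∧ m ≤ fr P.mu.hi ∧
      StripEnd.chC (b - a) (a + b) u v t * P.qn.eval x =
        P.vs.eval x * (P.den.eval x - P.o.eval x - m * P.o.eval x * P.w.eval x) := by
  obtain ⟨-, hg, m, hm0, hm1, hm⟩ := hx
  have eI : P.I.eval x = c.I.eval x := hc.I x
  have ed : P.d.eval x = b - a := (hc.d x).trans hg.hd
  have ho : P.o.eval x = a * v * P.den.eval x := by
    rw [hc.o, hc.den]; exact hg.ho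
  refine ⟨⟨?_, ed, (hc.w x).trans hg.hw, ?_⟩, ed, (hc.w x).trans hg.hw,
    m, by rw [hc.mu₀]; exact hm0, by rw [hc.mu₁]; exact hm1, ?_⟩
  · rw [eI, show c.I.eval x = allStabI a b from hg.hI, allStabI]
  · rw [ho]; ring
  · have eC : StripEnd.chC (b - a) (a + b) u v t = pinC a b u v H := by
      simp only [StripEnd.chC, pinC, allQn, allDen, hH]
      ring
    have e1 := hc.den x
    have e2 := hc.o x
    have e3 : P.A.eval x = c.geo.A.eval x := by
      simp only [Piece.A, Piece.S, Geo.A, Geo.S, EndChart.geo, ev_sub, ev_mul, ev_num,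
        eI, hc.d x]
    have e4 : P.qn.eval x * P.A.eval x = c.geo.qn.eval x * P.vs.eval x := by
      simp only [Piece.qn, Piece.vd, Geo.qn, Geo.E, Geo.V, ev_add, ev_mul, ev_num]
      simp only [EndChart.geo, ev_add, ev_mul] at e3 ⊢
      rw [← e3, ← e1, ← hc.d x]
      have := hc.vo x
      rw [e2] at this
      simp only [ev_add, ev_mul] at this
      linear_combination P.d.eval x * this
    rw [eC]
    refine mul_right_cancel₀ h.A.ne' ?_
    rw [mul_assoc, e4, ← mul_assoc, hm, e1, e2, hc.w x, ← e3]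
    simp only [EndChart.geo]
    ring

/-- **The signs at a point of a chart from the checks of a piece over it.** -/
theorem signs_of_cert (K : Cert P B) (hB : B.Mem x) (hc : P.Over c) (hx : c.Point x a b u v H)
    (hb : Closed.All.ChartBox n (b - a) (a + b))
    (hF : Closed.All.ChartFacts (b - a) (a + b) u v t)
    (hH : Closed.chH (b - a) (a + b) u v t = H)
    (hk : (AllN.kapAll (1 / P.I.eval x) (xa P x) + 1) / P.d.eval x = kap P x) :
    Closed.Strip.ChartSigns (b - a) (a + b) u v t := by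
  have h := K.place hB (hc.vo x)
  obtain ⟨hp, hd, -, hpin⟩ := over_point h hc hx hH
  exact signs_end K.pos h hb hF hp (hd ▸ hk) hpin (K.all hB)

end Vale.Agent.P100.Calib.StripEndD
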