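import Vale.Agent.P100.Calib.SlabStripEndCData
import Vale.Agent.P100.Calib.SlabStripEndDCert
import Vale.Agent.P100.Calib.SlabStripEndBig

/-!
# The checks of bin 10 of the `C` region for `N` between seven and twenty
-/

namespace Vale.Agent.P100.Calib.StripEndD

open Pack hiding ev_add ev_mul
open Pack.Ex StripMid StripEnd

local instance endCCheck10Add : Add Ex := ⟨Ex.add⟩
local instance endCCheck10Sub : Sub Ex := ⟨Ex.sub⟩
local instance endCCheck10Mul : Mul Ex := ⟨Ex.mul⟩

/-- The checks of bin 10. -/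
theorem pBin10_cert : Cert pBin10 bBin10 := by
  have h_kn : checkBig bBin10.C 59 2 3 0 2
      pBin10.kn = true := by decide +kernel
  have h_k2n : checkBig bBin10.C 180 3 3 3 2
      (strictVar pBin10.k2n) = true := by decide +kernel
  have h_k2d : checkBig bBin10.C 177 3 3 3 0
      (strictVar pBin10.k2d) = true := by decide +kernel
  have h_vs : checkBig bBin10.C 170 3 3 3 0
      (strictVar pBin10.vs) = true := by decide +kernel
  have h_g1 : ∀ s p l : Bool, checkBig bBin10.C 336 11 12 0 5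
      (pBin10.at ⟨p, l, !s, !s, false⟩ (c1 s)) = true := by decide +kernel
  have h_g2 : ∀ s p l t : Bool, checkBig bBin10.C 919 33 34 0 12
      (pBin10.at ⟨p, l, true, true, t⟩ (StripEnd.strict (c2 s))) = true := by decide +kernel
  have h_g5 : ∀ s p l t : Bool, checkBig bBin10.C 869 28 30 0 10
      (pBin10.at ⟨p, l, true, true, t⟩ (StripEnd.strict (c5 s))) = true := by decide +kernel
  have h_gMG : ∀ p l t : Bool, checkBig bBin10.C 747 27 29 0 9
      (pBin10.at ⟨p, l, true, false, t⟩ tplMG) = true := by decide +kernel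
  have h_v2 : ∀ s : Bool, checkBig bBin10.C 214 9 9 0 5
      (pBin10.at ⟨false, false, true, true, false⟩ (curve2 s)) = true := by decide +kernel
  have h_v5 : ∀ s : Bool, checkBig bBin10.C 213 9 9 0 5
      (pBin10.at ⟨false, false, true, true, false⟩ (curve5 s)) = true := by decide +kernel
  have h_vMG : checkBig bBin10.C 185 8 8 0 4
      (pBin10.at ⟨false, false, true, true, false⟩ Piece.curveMG) = true := by decide +kernel
  have h_wP : ∀ b hi : Bool, checkBig bBin10.C 101 3 3 1 1
      (pBin10.winP b hi) = true := by decide +kernel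
  have h_wE : ∀ b hi : Bool, checkBig bBin10.C 351 14 14 2 3
      (pBin10.winE b hi) = true := by decide +kernel
  have h_wK : ∀ b hi : Bool, checkBig bBin10.C 322 14 12 2 3
      (pBin10.winK b hi) = true := by decide +kernel
  have h_wW : ∀ b : Bool, checkBig bBin10.C 272 10 10 2 3
      (pBin10.winW b) = true := by decide +kernel
  have h_wY : ∀ b : Bool, checkBig bBin10.C 557 22 21 3 6
      (pBin10.winY b) = true := by decide +kernel
  have h_wT : ∀ b hi : Bool, checkBig bBin10.C 262 10 9 2 4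
      (pBin10.winT b hi) = true := by decide +kernel
  have h_gap : ∀ b t : Bool, checkBig bBin10.C 696 30 29 3 7
      (pBin10.gap b t) = true := by decide +kernel
  exact {
    pos := ⟨⟨by norm_num [pBin10], by norm_num [pBin10]⟩⟩
    low := by norm_num [bBin10]
    kn := ⟨_, _, _, _, _, checkFour_of_big h_kn⟩
    sgns := fun q => by
      cases q
      · exact ⟨167, 3, 3, 3, 0, by decide +kernel⟩
      · exact ⟨167, 3, 3, 3, 0, by decide +kernel⟩
      · exact ⟨171, 3, 3, 3, 0, by decide +kernel⟩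
      · exact ⟨170, 3, 3, 3, 0, by decide +kernel⟩
      · exact ⟨170, 3, 3, 3, 0, by decide +kernel⟩
      · exact ⟨177, 3, 3, 3, 0, by decide +kernel⟩
      · exact ⟨177, 3, 3, 3, 1, by decide +kernel⟩
      · exact ⟨178, 3, 3, 3, 1, by decide +kernel⟩
      · exact ⟨187, 3, 3, 3, 0, by decide +kernel⟩
      · exact ⟨201, 3, 3, 3, 1, by decide +kernel⟩
      · exact ⟨197, 3, 3, 3, 0, by decide +kernel⟩
      · exact ⟨197, 3, 3, 3, 0, by decide +kernel⟩
      · exact ⟨200, 3, 3, 3, 1, by decide +kernel⟩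
      · exact ⟨171, 3, 3, 3, 0, by decide +kernel⟩
      · exact ⟨177, 3, 3, 3, 0, by decide +kernel⟩
    k2n := ⟨_, _, _, _, _, checkFour_of_big h_k2n⟩
    k2d := ⟨_, _, _, _, _, checkFour_of_big h_k2d⟩
    vs := ⟨_, _, _, _, _, checkFour_of_big h_vs⟩
    g1 := fun s p l => ⟨_, _, _, _, _, checkFour_of_big (h_g1 s p l)⟩
    g2 := fun s p l t => ⟨_, _, _, _, _, checkFour_of_big (h_g2 s p l t)⟩
    g5 := fun s p l t => ⟨_, _, _, _, _, checkFour_of_big (h_g5 s p l t)⟩
    gMG := fun p l t => ⟨_, _, _, _, _, checkFour_of_big (h_gMG p l t)⟩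
    v2 := fun s => ⟨_, _, _, _, _, checkFour_of_big (h_v2 s)⟩
    v5 := fun s => ⟨_, _, _, _, _, checkFour_of_big (h_v5 s)⟩
    vMG := ⟨_, _, _, _, _, checkFour_of_big h_vMG⟩
    wP := fun b hi => ⟨_, _, _, _, _, checkFour_of_big (h_wP b hi)⟩
    wE := fun b hi => ⟨_, _, _, _, _, checkFour_of_big (h_wE b hi)⟩
    wK := fun b hi => ⟨_, _, _, _, _, checkFour_of_big (h_wK b hi)⟩
    wW := fun b => ⟨_, _, _, _, _, checkFour_of_big (h_wW b)⟩
    wY := fun b => ⟨_, _, _, _, _, checkFour_of_big (h_wY b)⟩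
    wT := fun b hi => ⟨_, _, _, _, _, checkFour_of_big (h_wT b hi)⟩
    gap := fun b t => ⟨_, _, _, _, _, checkFour_of_big (h_gap b t)⟩
  }

end Vale.Agent.P100.Calib.StripEndD
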