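import Vale.Agent.P100.Calib.SlabStripEndDExpr
import Vale.Agent.P100.Calib.SlabStripEndCert
import Vale.Agent.P100.Calib.SlabStripEndChart

/-!
# The bins of the strip for `u` near one, `(1 - u) / d` at least one, `N` between seven and twenty

`x = (d, I / d, (1 - u) / d, t)`, with `o` affine in `t`.
-/

namespace Vale.Agent.P100.Calib.StripEndD

open Pack hiding ev_add ev_mul
open Pack.Ex StripMid StripEnd

local instance endCDataAdd : Add Ex := ⟨Ex.add⟩
local instance endCDataSub : Sub Ex := ⟨Ex.sub⟩
local instance endCDataMul : Mul Ex := ⟨Ex.mul⟩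

/-- The chart of bin 0. -/
def cBin0 : EndChart where
  I := var 0 * var 1
  d := var 0
  w := var 0 * var 2
  den := num 100
  n₀ := ((num 1 - num 2 * (var 0 * var 1) - var 0) * var 1) * (num 15 + num (-2) * (var 1) + num 44 * (var 0))
  n₁ := ((num 1 - num 2 * (var 0 * var 1) - var 0) * var 1) * (num 27 + num (-4) * (var 1) + num 131 * (var 0))
  q₀ := (23, 30, 500)
  q₁ := (831, 1090, 1000)
  q₂ := (999, 2086, 1000)
  q₃ := (0, 1, 1)
  t₀ := (0, 1)
  t₁ := (1, 1)
  mu₀ := (154, 100)
  mu₁ := (232, 100)

/-- The piece of bin 0. -/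
def pBin0 : Piece where
  I := var 0 * var 1
  d := var 0
  w := var 0 * var 2
  o := (((num 1 - num 2 * (var 0 * var 1) - var 0) * var 1) * (num 15 + num (-2) * (var 1) + num 44 * (var 0)) + ((num 1 - num 2 * (var 0 * var 1) - var 0) * var 1) * (num 27 + num (-4) * (var 1) + num 131 * (var 0)) * var 3)
  den := num 100
  vn := num 2 * var 1 * ((num 15 + num (-2) * (var 1) + num 44 * (var 0)) + (num 27 + num (-4) * (var 1) + num 131 * (var 0)) * var 3)
  vs := num 1
  mu := ⟨(154, 100), (232, 100)⟩
  pn := fun b => cond b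
    (num 100000 * (num 100 - (((num 1 - num 2 * (var 0 * var 1) - var 0) * var 1) * (num 15 + num (-2) * (var 1) + num 44 * (var 0)) + ((num 1 - num 2 * (var 0 * var 1) - var 0) * var 1) * (num 27 + num (-4) * (var 1) + num 131 * (var 0)) * var 3)) + num (-483952) * ((((num 1 - num 2 * (var 0 * var 1) - var 0) * var 1) * (num 15 + num (-2) * (var 1) + num 44 * (var 0)) + ((num 1 - num 2 * (var 0 * var 1) - var 0) * var 1) * (num 27 + num (-4) * (var 1) + num 131 * (var 0)) * var 3) * var 0))
    (num 100000 * (num 100 - (((num 1 - num 2 * (var 0 * var 1) - var 0) * var 1) * (num 15 + num (-2) * (var 1) + num 44 * (var 0)) + ((num 1 - num 2 * (var 0 * var 1) - var 0) * var 1) * (num 27 + num (-4) * (var 1) + num 131 * (var 0)) * var 3)) + num (-153846) * ((((num 1 - num 2 * (var 0 * var 1) - var 0) * var 1) * (num 15 + num (-2) * (var 1) + num 44 * (var 0)) + ((num 1 - num 2 * (var 0 * var 1) - var 0) * var 1) * (num 27 + num (-4) * (var 1) + num 131 * (var 0)) * var 3) * var 0))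
  pd := num 100000
  en := fun b => cond b
    (num 2018 * (num 1114500 * (var 0) * (var 1) + num 414000 * (var 0) * (var 0) * (var 1) + num 312900 + num 6470772 * (var 0) + num (-402000) * (var 0) * (var 1) * (var 1) + num (-171500) * (var 0) * (var 1) * (var 3) + num 12516 * (var 3)))
    (num 991 * (num 2229000 * (var 0) * (var 1) + num 828000 * (var 0) * (var 0) * (var 1) + num 299700 + num 6197796 * (var 0) + num (-804000) * (var 0) * (var 1) * (var 1) + num (-343000) * (var 0) * (var 1) * (var 3) + num 11988 * (var 3)))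
  kk := fun b => cond b
    (num 2022 * (num 368179 * (var 0) + num 5763618 * (var 0) * (var 0) + num (-61537) * (var 0) * (var 1) + num 13559 * (var 0) * (var 3)))
    (num 991 * (num 352647 * (var 0) + num 5520474 * (var 0) * (var 0) + num (-58941) * (var 0) * (var 1) + num 12987 * (var 0) * (var 3)))
  f0 := num 100000000
  wn := fun b => cond b
    (num 1000 * (num (-800000) * (var 0 * var 1) + (num 8000 * (var 0 * var 1) + num 3996 * var 0) * (((num 1 - num 2 * (var 0 * var 1) - var 0) * var 1) * (num 15 + num (-2) * (var 1) + num 44 * (var 0)) + ((num 1 - num 2 * (var 0 * var 1) - var 0) * var 1) * (num 27 + num (-4) * (var 1) + num 131 * (var 0)) * var 3) + var 0 * var 1 * var 0 * (num (-800000) + (num (-1247000) * (var 1) + num (-235764) + num (-5484000) * (var 1) * (var 0) + num 5361633 * (var 0) + num 445000 * (var 1) * (var 3) + num 2162835 * (var 3)))) + num 1257 * (num 100 * (var 0 * var 1 * var 0) * (num 1000 * (var 1) + num 999)))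
    (num 1000 * (num (-800000) * (var 0 * var 1) + (num 8000 * (var 0 * var 1) + num 3996 * var 0) * (((num 1 - num 2 * (var 0 * var 1) - var 0) * var 1) * (num 15 + num (-2) * (var 1) + num 44 * (var 0)) + ((num 1 - num 2 * (var 0 * var 1) - var 0) * var 1) * (num 27 + num (-4) * (var 1) + num 131 * (var 0)) * var 3) + var 0 * var 1 * var 0 * (num (-800000) + (num (-1247000) * (var 1) + num (-235764) + num (-5484000) * (var 1) * (var 0) + num 5361633 * (var 0) + num 445000 * (var 1) * (var 3) + num 2162835 * (var 3)))) + num (-2677) * (num 100 * (var 0 * var 1 * var 0) * (num 1000 * (var 1) + num 999)))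
  wd := num 100000000
  tn := fun b => cond b
    (num 1712 * (num 104300 + num 18774 * (var 0) + num (-1043) * (var 1) + num (-2086) * (var 3) + num 3129 * (var 1) * (var 3)))
    (num 1093 * (num 99900 + num 17982 * (var 0) + num (-999) * (var 1) + num (-1998) * (var 3) + num 2997 * (var 1) * (var 3)))
  td := (num 1 - num 2 * (var 0 * var 1) + var 0) * (num 1000000 * (num 379 + num (-42) * (var 1) + num (-45) * (var 3) + num (-4) * (var 1) * (var 3) + num (-597) * (var 0)))
  cn := num 1 - var 0 * var 1 - var 1 * (num 1 - num 2 * (var 0 * var 1))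
  cd := (num 1 - num 2 * (var 0 * var 1)) * (num 1 - num 2 * (var 0 * var 1))
  kn := var 0 * var 1 * (num 2592 + num (-2099) * (var 1) + num 1956 * (var 0) + num (-2826) * (var 3) + num 942 * (var 3) * (var 3) + num 3032 * (var 1) * (var 3) + num 1183 * (var 1) * (var 1))
  kd := num 100
  k2n := var 0 * (num 303 + num (-974) * (var 3) + num 242 * (var 1) + num 675 * (var 1) * (var 3) + num 297 * (var 3) * (var 3) + num (-2112) * (var 0))
  k2d := num 100

/-- Its ranges. -/
def bBin0 : EBox :=
  ⟨(23, 30, 500), (831, 1090, 1000), (999, 2086, 1000), (0, 1, 1)⟩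

/-- The chart of bin 1. -/
def cBin1 : EndChart where
  I := var 0 * var 1
  d := var 0
  w := var 0 * var 2
  den := num 100
  n₀ := ((num 1 - num 2 * (var 0 * var 1) - var 0) * var 1) * (num 13 + num (-2) * (var 1) + num 13 * (var 0))
  n₁ := ((num 1 - num 2 * (var 0 * var 1) - var 0) * var 1) * (num 22 + num (-5) * (var 1) + num 59 * (var 0))
  q₀ := (23, 30, 500)
  q₁ := (831, 1090, 1000)
  q₂ := (417, 620, 200)
  q₃ := (0, 1, 1)
  t₀ := (0, 1)
  t₁ := (1, 1)
  mu₀ := (141, 100)
  mu₁ := (237, 100)

/-- The piece of bin 1. -/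
def pBin1 : Piece where
  I := var 0 * var 1
  d := var 0
  w := var 0 * var 2
  o := (((num 1 - num 2 * (var 0 * var 1) - var 0) * var 1) * (num 13 + num (-2) * (var 1) + num 13 * (var 0)) + ((num 1 - num 2 * (var 0 * var 1) - var 0) * var 1) * (num 22 + num (-5) * (var 1) + num 59 * (var 0)) * var 3)
  den := num 100
  vn := num 2 * var 1 * ((num 13 + num (-2) * (var 1) + num 13 * (var 0)) + (num 22 + num (-5) * (var 1) + num 59 * (var 0)) * var 3)
  vs := num 1
  mu := ⟨(141, 100), (237, 100)⟩
  pn := fun b => cond b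
    (num 20000 * (num 100 - (((num 1 - num 2 * (var 0 * var 1) - var 0) * var 1) * (num 13 + num (-2) * (var 1) + num 13 * (var 0)) + ((num 1 - num 2 * (var 0 * var 1) - var 0) * var 1) * (num 22 + num (-5) * (var 1) + num 59 * (var 0)) * var 3)) + num (-146940) * ((((num 1 - num 2 * (var 0 * var 1) - var 0) * var 1) * (num 13 + num (-2) * (var 1) + num 13 * (var 0)) + ((num 1 - num 2 * (var 0 * var 1) - var 0) * var 1) * (num 22 + num (-5) * (var 1) + num 59 * (var 0)) * var 3) * var 0))
    (num 20000 * (num 100 - (((num 1 - num 2 * (var 0 * var 1) - var 0) * var 1) * (num 13 + num (-2) * (var 1) + num 13 * (var 0)) + ((num 1 - num 2 * (var 0 * var 1) - var 0) * var 1) * (num 22 + num (-5) * (var 1) + num 59 * (var 0)) * var 3)) + num (-58797) * ((((num 1 - num 2 * (var 0 * var 1) - var 0) * var 1) * (num 13 + num (-2) * (var 1) + num 13 * (var 0)) + ((num 1 - num 2 * (var 0 * var 1) - var 0) * var 1) * (num 22 + num (-5) * (var 1) + num 59 * (var 0)) * var 3) * var 0))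
  pd := num 20000
  en := fun b => cond b
    (num 20140 * (num 29730 * (var 0) * (var 1) + num (-27240) * (var 0) * (var 0) * (var 1) + num 9393 + num 189317 * (var 0) + num (-13830) * (var 0) * (var 1) * (var 1) + num (-500) * (var 0) * (var 1) * (var 3) + num 155 * (var 3)))
    (num 993 * (num 594600 * (var 0) * (var 1) + num (-544800) * (var 0) * (var 0) * (var 1) + num 126351 + num 2546619 * (var 0) + num (-276600) * (var 0) * (var 1) * (var 1) + num (-10000) * (var 0) * (var 1) * (var 3) + num 2085 * (var 3)))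
  kk := fun b => cond b
    (num 20180 * (num 11253 * (var 0) + num 166625 * (var 0) * (var 0) + num (-1953) * (var 0) * (var 1) + num 248 * (var 0) * (var 3)))
    (num 992 * (num 151371 * (var 0) + num 2241375 * (var 0) * (var 0) + num (-26271) * (var 0) * (var 1) + num 3336 * (var 0) * (var 3)))
  f0 := num 20000000
  wn := fun b => cond b
    (num 1000 * (num (-160000) * (var 0 * var 1) + (num 1600 * (var 0 * var 1) + num 1668 * var 0) * (((num 1 - num 2 * (var 0 * var 1) - var 0) * var 1) * (num 13 + num (-2) * (var 1) + num 13 * (var 0)) + ((num 1 - num 2 * (var 0 * var 1) - var 0) * var 1) * (num 22 + num (-5) * (var 1) + num 59 * (var 0)) * var 3) + var 0 * var 1 * var 0 * (num (-160000) + (num (-300600) * (var 1) + num (-42951) + num (-1292600) * (var 1) * (var 0) + num 17931 * (var 0) + num (-8400) * (var 1) * (var 3) + num 730167 * (var 3)))) + num 1364 * (num 100 * (var 0 * var 1 * var 0) * (num 200 * (var 1) + num 417)))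
    (num 1000 * (num (-160000) * (var 0 * var 1) + (num 1600 * (var 0 * var 1) + num 1668 * var 0) * (((num 1 - num 2 * (var 0 * var 1) - var 0) * var 1) * (num 13 + num (-2) * (var 1) + num 13 * (var 0)) + ((num 1 - num 2 * (var 0 * var 1) - var 0) * var 1) * (num 22 + num (-5) * (var 1) + num 59 * (var 0)) * var 3) + var 0 * var 1 * var 0 * (num (-160000) + (num (-300600) * (var 1) + num (-42951) + num (-1292600) * (var 1) * (var 0) + num 17931 * (var 0) + num (-8400) * (var 1) * (var 3) + num 730167 * (var 3)))) + num (-3088) * (num 100 * (var 0 * var 1 * var 0) * (num 200 * (var 1) + num 417)))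
  wd := num 20000000
  tn := fun b => cond b
    (num 17820 * (num 3100 + num 155 * (var 0) + num (-31) * (var 1) + num (-31) * (var 3) + num 31 * (var 1) * (var 3)))
    (num 1047 * (num 41700 + num 2085 * (var 0) + num (-417) * (var 1) + num (-417) * (var 3) + num 417 * (var 1) * (var 3)))
  td := (num 1 - num 2 * (var 0 * var 1) + var 0) * (num 200000 * (num 490 + num (-47) * (var 1) + num (-41) * (var 3) + num 9 * (var 1) * (var 3) + num (-798) * (var 0)))
  cn := num 1 - var 0 * var 1 - var 1 * (num 1 - num 2 * (var 0 * var 1))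
  cd := (num 1 - num 2 * (var 0 * var 1)) * (num 1 - num 2 * (var 0 * var 1))
  kn := var 0 * var 1 * (num 1237 + num 13 * (var 1) + num 2013 * (var 0) + num (-1207) * (var 3) + num 91 * (var 3) * (var 3) + num 993 * (var 1) * (var 3) + num 152 * (var 1) * (var 1))
  kd := num 100
  k2n := var 0 * (num 1202 + num (-2538) * (var 3) + num (-638) * (var 1) + num 2047 * (var 1) * (var 3) + num 591 * (var 3) * (var 3) + num (-2132) * (var 0))
  k2d := num 100

/-- Its ranges. -/
def bBin1 : EBox :=
  ⟨(23, 30, 500), (831, 1090, 1000), (417, 620, 200), (0, 1, 1)⟩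

/-- The chart of bin 2. -/
def cBin2 : EndChart where
  I := var 0 * var 1
  d := var 0
  w := var 0 * var 2
  den := num 100
  n₀ := ((num 1 - num 2 * (var 0 * var 1) - var 0) * var 1) * (num 1 + num (-2) * (var 1) + num 195 * (var 0))
  n₁ := ((num 1 - num 2 * (var 0 * var 1) - var 0) * var 1) * (num 22 + num (-1) * (var 1) + num (-90) * (var 0))
  q₀ := (46, 53, 1000)
  q₁ := (931, 1090, 1000)
  q₂ := (3099, 4349, 1000)
  q₃ := (0, 1, 1)
  t₀ := (0, 1)
  t₁ := (1, 1)
  mu₀ := (132, 100)
  mu₁ := (238, 100)

/-- The piece of bin 2. -/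
def pBin2 : Piece where
  I := var 0 * var 1
  d := var 0
  w := var 0 * var 2
  o := (((num 1 - num 2 * (var 0 * var 1) - var 0) * var 1) * (num 1 + num (-2) * (var 1) + num 195 * (var 0)) + ((num 1 - num 2 * (var 0 * var 1) - var 0) * var 1) * (num 22 + num (-1) * (var 1) + num (-90) * (var 0)) * var 3)
  den := num 100
  vn := num 2 * var 1 * ((num 1 + num (-2) * (var 1) + num 195 * (var 0)) + (num 22 + num (-1) * (var 1) + num (-90) * (var 0)) * var 3)
  vs := num 1
  mu := ⟨(132, 100), (238, 100)⟩
  pn := fun b => cond b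
    (num 100000 * (num 100 - (((num 1 - num 2 * (var 0 * var 1) - var 0) * var 1) * (num 1 + num (-2) * (var 1) + num 195 * (var 0)) + ((num 1 - num 2 * (var 0 * var 1) - var 0) * var 1) * (num 22 + num (-1) * (var 1) + num (-90) * (var 0)) * var 3)) + num (-1035062) * ((((num 1 - num 2 * (var 0 * var 1) - var 0) * var 1) * (num 1 + num (-2) * (var 1) + num 195 * (var 0)) + ((num 1 - num 2 * (var 0 * var 1) - var 0) * var 1) * (num 22 + num (-1) * (var 1) + num (-90) * (var 0)) * var 3) * var 0))
    (num 100000 * (num 100 - (((num 1 - num 2 * (var 0 * var 1) - var 0) * var 1) * (num 1 + num (-2) * (var 1) + num 195 * (var 0)) + ((num 1 - num 2 * (var 0 * var 1) - var 0) * var 1) * (num 22 + num (-1) * (var 1) + num (-90) * (var 0)) * var 3)) + num (-409068) * ((((num 1 - num 2 * (var 0 * var 1) - var 0) * var 1) * (num 1 + num (-2) * (var 1) + num 195 * (var 0)) + ((num 1 - num 2 * (var 0 * var 1) - var 0) * var 1) * (num 22 + num (-1) * (var 1) + num (-90) * (var 0)) * var 3) * var 0))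
  pd := num 100000
  en := fun b => cond b
    (num 1006 * (num 3936000 * (var 0) * (var 1) + num (-179000) * (var 0) * (var 0) * (var 1) + num 1322096 + num 26224470 * (var 0) + num (-2337000) * (var 0) * (var 1) * (var 1) + num (-41000) * (var 0) * (var 1) * (var 3) + num 17396 * (var 3)))
    (num 995 * (num 3936000 * (var 0) * (var 1) + num (-179000) * (var 0) * (var 0) * (var 1) + num 942096 + num 18686970 * (var 0) + num (-2337000) * (var 0) * (var 1) * (var 1) + num (-41000) * (var 0) * (var 1) * (var 3) + num 12396 * (var 3)))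
  kk := fun b => cond b
    (num 1005 * (num 1596083 * (var 0) + num 23223660 * (var 0) * (var 0) + num (-287034) * (var 0) * (var 1) + num 26094 * (var 0) * (var 3)))
    (num 994 * (num 1137333 * (var 0) + num 16548660 * (var 0) * (var 0) + num (-204534) * (var 0) * (var 1) + num 18594 * (var 0) * (var 3)))
  f0 := num 100000000
  wn := fun b => cond b
    (num 1000 * (num (-800000) * (var 0 * var 1) + (num 8000 * (var 0 * var 1) + num 12396 * var 0) * (((num 1 - num 2 * (var 0 * var 1) - var 0) * var 1) * (num 1 + num (-2) * (var 1) + num 195 * (var 0)) + ((num 1 - num 2 * (var 0 * var 1) - var 0) * var 1) * (num 22 + num (-1) * (var 1) + num (-90) * (var 0)) * var 3) + var 0 * var 1 * var 0 * (num (-800000) + (num (-697000) * (var 1) + num (-3235356) + num (-31318000) * (var 1) * (var 0) + num 52134477 * (var 0) + num (-1389000) * (var 1) * (var 3) + num 6154614 * (var 3)))) + num 1951 * (num 100 * (var 0 * var 1 * var 0) * (num 1000 * (var 1) + num 3099)))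
    (num 1000 * (num (-800000) * (var 0 * var 1) + (num 8000 * (var 0 * var 1) + num 12396 * var 0) * (((num 1 - num 2 * (var 0 * var 1) - var 0) * var 1) * (num 1 + num (-2) * (var 1) + num 195 * (var 0)) + ((num 1 - num 2 * (var 0 * var 1) - var 0) * var 1) * (num 22 + num (-1) * (var 1) + num (-90) * (var 0)) * var 3) + var 0 * var 1 * var 0 * (num (-800000) + (num (-697000) * (var 1) + num (-3235356) + num (-31318000) * (var 1) * (var 0) + num 52134477 * (var 0) + num (-1389000) * (var 1) * (var 3) + num 6154614 * (var 3)))) + num (-2895) * (num 100 * (var 0 * var 1 * var 0) * (num 1000 * (var 1) + num 3099)))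
  wd := num 100000000
  tn := fun b => cond b
    (num 875 * (num 439249 + num 30443 * (var 0) + num (-4349) * (var 1) + num (-8698) * (var 3) + num 8698 * (var 1) * (var 3)))
    (num 1046 * (num 312999 + num 21693 * (var 0) + num (-3099) * (var 1) + num (-6198) * (var 3) + num 6198 * (var 1) * (var 3)))
  td := (num 1 - num 2 * (var 0 * var 1) + var 0) * (num 1000000 * (num 640 + num (-57) * (var 1) + num (-66) * (var 3) + num 39 * (var 1) * (var 3) + num (-1547) * (var 0)))
  cn := num 1 - var 0 * var 1 - var 1 * (num 1 - num 2 * (var 0 * var 1))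
  cd := (num 1 - num 2 * (var 0 * var 1)) * (num 1 - num 2 * (var 0 * var 1))
  kn := var 0 * var 1 * (num 1373 + num (-46) * (var 1) + num (-171) * (var 0) + num (-1056) * (var 3) + num (-1) * (var 3) * (var 3) + num 688 * (var 1) * (var 3) + num 137 * (var 1) * (var 1))
  kd := num 100
  k2n := var 0 * (num 1615 + num (-3409) * (var 3) + num (-776) * (var 1) + num 2157 * (var 1) * (var 3) + num 980 * (var 3) * (var 3) + num (-532) * (var 0))
  k2d := num 100

/-- Its ranges. -/
def bBin2 : EBox :=
  ⟨(46, 53, 1000), (931, 1090, 1000), (3099, 4349, 1000), (0, 1, 1)⟩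

/-- The chart of bin 3. -/
def cBin3 : EndChart where
  I := var 0 * var 1
  d := var 0
  w := var 0 * var 2
  den := num 100
  n₀ := ((num 1 - num 2 * (var 0 * var 1) - var 0) * var 1) * (num 2 + num (-1) * (var 1) + num 155 * (var 0))
  n₁ := ((num 1 - num 2 * (var 0 * var 1) - var 0) * var 1) * (num 18 + num (-1) * (var 1) + num (-23) * (var 0))
  q₀ := (53, 60, 1000)
  q₁ := (821, 1090, 1000)
  q₂ := (3099, 3775, 1000)
  q₃ := (0, 1, 1)
  t₀ := (0, 1)
  t₁ := (1, 1)
  mu₀ := (135, 100)
  mu₁ := (241, 100)

/-- The piece of bin 3. -/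
def pBin3 : Piece where
  I := var 0 * var 1
  d := var 0
  w := var 0 * var 2
  o := (((num 1 - num 2 * (var 0 * var 1) - var 0) * var 1) * (num 2 + num (-1) * (var 1) + num 155 * (var 0)) + ((num 1 - num 2 * (var 0 * var 1) - var 0) * var 1) * (num 18 + num (-1) * (var 1) + num (-23) * (var 0)) * var 3)
  den := num 100
  vn := num 2 * var 1 * ((num 2 + num (-1) * (var 1) + num 155 * (var 0)) + (num 18 + num (-1) * (var 1) + num (-23) * (var 0)) * var 3)
  vs := num 1
  mu := ⟨(135, 100), (241, 100)⟩
  pn := fun b => cond b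
    (num 100000 * (num 100 - (((num 1 - num 2 * (var 0 * var 1) - var 0) * var 1) * (num 2 + num (-1) * (var 1) + num 155 * (var 0)) + ((num 1 - num 2 * (var 0 * var 1) - var 0) * var 1) * (num 18 + num (-1) * (var 1) + num (-23) * (var 0)) * var 3)) + num (-909775) * ((((num 1 - num 2 * (var 0 * var 1) - var 0) * var 1) * (num 2 + num (-1) * (var 1) + num 155 * (var 0)) + ((num 1 - num 2 * (var 0 * var 1) - var 0) * var 1) * (num 18 + num (-1) * (var 1) + num (-23) * (var 0)) * var 3) * var 0))
    (num 100000 * (num 100 - (((num 1 - num 2 * (var 0 * var 1) - var 0) * var 1) * (num 2 + num (-1) * (var 1) + num 155 * (var 0)) + ((num 1 - num 2 * (var 0 * var 1) - var 0) * var 1) * (num 18 + num (-1) * (var 1) + num (-23) * (var 0)) * var 3)) + num (-418365) * ((((num 1 - num 2 * (var 0 * var 1) - var 0) * var 1) * (num 2 + num (-1) * (var 1) + num 155 * (var 0)) + ((num 1 - num 2 * (var 0 * var 1) - var 0) * var 1) * (num 18 + num (-1) * (var 1) + num (-23) * (var 0)) * var 3) * var 0))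
  pd := num 100000
  en := fun b => cond b
    (num 25125 * (num 133720 * (var 0) * (var 1) + num 920 * (var 0) * (var 0) * (var 1) + num 47112 + num 894222 * (var 0) + num (-75520) * (var 0) * (var 1) * (var 1) + num 2400 * (var 0) * (var 1) * (var 3) + num 453 * (var 3)))
    (num 994 * (num 3343000 * (var 0) * (var 1) + num 23000 * (var 0) * (var 0) * (var 1) + num 966888 + num 18352278 * (var 0) + num (-1888000) * (var 0) * (var 1) * (var 1) + num 60000 * (var 0) * (var 1) * (var 3) + num 9297 * (var 3)))
  kk := fun b => cond b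
    (num 25150 * (num 56021 * (var 0) + num 799847 * (var 0) * (var 0) + num (-10268) * (var 0) * (var 1) + num 1057 * (var 0) * (var 3)))
    (num 992 * (num 1149729 * (var 0) + num 16415403 * (var 0) * (var 0) + num (-210732) * (var 0) * (var 1) + num 21693 * (var 0) * (var 3)))
  f0 := num 100000000
  wn := fun b => cond b
    (num 1000 * (num (-800000) * (var 0 * var 1) + (num 8000 * (var 0 * var 1) + num 12396 * var 0) * (((num 1 - num 2 * (var 0 * var 1) - var 0) * var 1) * (num 2 + num (-1) * (var 1) + num 155 * (var 0)) + ((num 1 - num 2 * (var 0 * var 1) - var 0) * var 1) * (num 18 + num (-1) * (var 1) + num (-23) * (var 0)) * var 3) + var 0 * var 1 * var 0 * (num (-800000) + (num (-3423000) * (var 1) + num (-684879) + num 29352000 * (var 1) * (var 0) + num (-4698084) * (var 0) + num 1316000 * (var 1) * (var 3) + num 3442989 * (var 3)))) + num 945 * (num 100 * (var 0 * var 1 * var 0) * (num 1000 * (var 1) + num 3099)))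
    (num 1000 * (num (-800000) * (var 0 * var 1) + (num 8000 * (var 0 * var 1) + num 12396 * var 0) * (((num 1 - num 2 * (var 0 * var 1) - var 0) * var 1) * (num 2 + num (-1) * (var 1) + num 155 * (var 0)) + ((num 1 - num 2 * (var 0 * var 1) - var 0) * var 1) * (num 18 + num (-1) * (var 1) + num (-23) * (var 0)) * var 3) + var 0 * var 1 * var 0 * (num (-800000) + (num (-3423000) * (var 1) + num (-684879) + num 29352000 * (var 1) * (var 0) + num (-4698084) * (var 0) + num 1316000 * (var 1) * (var 3) + num 3442989 * (var 3)))) + num (-3082) * (num 100 * (var 0 * var 1 * var 0) * (num 1000 * (var 1) + num 3099)))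
  wd := num 100000000
  tn := fun b => cond b
    (num 22975 * (num 15100 + num 151 * (var 1) * (var 3)))
    (num 979 * (num 309900 + num 3099 * (var 1) * (var 3)))
  td := (num 1 - num 2 * (var 0 * var 1) + var 0) * (num 1000000 * (num 595 + num (-54) * (var 1) + num (-23) * (var 3) + num (-1225) * (var 0)))
  cn := num 1 - var 0 * var 1 - var 1 * (num 1 - num 2 * (var 0 * var 1))
  cd := (num 1 - num 2 * (var 0 * var 1)) * (num 1 - num 2 * (var 0 * var 1))
  kn := var 0 * var 1 * (num 1249 + num 156 * (var 1) + num (-663) * (var 0) + num (-919) * (var 3) + num (-38) * (var 3) * (var 3) + num 580 * (var 1) * (var 3) + num 59 * (var 1) * (var 1))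
  kd := num 100
  k2n := var 0 * (num 1560 + num (-3587) * (var 3) + num (-977) * (var 1) + num 2620 * (var 1) * (var 3) + num 957 * (var 3) * (var 3) + num (-88) * (var 0))
  k2d := num 100

/-- Its ranges. -/
def bBin3 : EBox :=
  ⟨(53, 60, 1000), (821, 1090, 1000), (3099, 3775, 1000), (0, 1, 1)⟩

/-- The chart of bin 4. -/
def cBin4 : EndChart where
  I := var 0 * var 1
  d := var 0
  w := var 0 * var 2
  den := num 100
  n₀ := ((num 1 - num 2 * (var 0 * var 1) - var 0) * var 1) * (num 19 + num (-4) * (var 1) + num 35 * (var 0))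
  n₁ := ((num 1 - num 2 * (var 0 * var 1) - var 0) * var 1) * (num 26 + num (-2) * (var 1) + num 85 * (var 0))
  q₀ := (12, 15, 200)
  q₁ := (665, 1106, 1000)
  q₂ := (999, 1827, 1000)
  q₃ := (0, 1, 1)
  t₀ := (0, 1)
  t₁ := (1, 1)
  mu₀ := (149, 100)
  mu₁ := (246, 100)

/-- The piece of bin 4. -/
def pBin4 : Piece where
  I := var 0 * var 1
  d := var 0
  w := var 0 * var 2
  o := (((num 1 - num 2 * (var 0 * var 1) - var 0) * var 1) * (num 19 + num (-4) * (var 1) + num 35 * (var 0)) + ((num 1 - num 2 * (var 0 * var 1) - var 0) * var 1) * (num 26 + num (-2) * (var 1) + num 85 * (var 0)) * var 3)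
  den := num 100
  vn := num 2 * var 1 * ((num 19 + num (-4) * (var 1) + num 35 * (var 0)) + (num 26 + num (-2) * (var 1) + num 85 * (var 0)) * var 3)
  vs := num 1
  mu := ⟨(149, 100), (246, 100)⟩
  pn := fun b => cond b
    (num 100000 * (num 100 - (((num 1 - num 2 * (var 0 * var 1) - var 0) * var 1) * (num 19 + num (-4) * (var 1) + num 35 * (var 0)) + ((num 1 - num 2 * (var 0 * var 1) - var 0) * var 1) * (num 26 + num (-2) * (var 1) + num 85 * (var 0)) * var 3)) + num (-449442) * ((((num 1 - num 2 * (var 0 * var 1) - var 0) * var 1) * (num 19 + num (-4) * (var 1) + num 35 * (var 0)) + ((num 1 - num 2 * (var 0 * var 1) - var 0) * var 1) * (num 26 + num (-2) * (var 1) + num 85 * (var 0)) * var 3) * var 0))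
    (num 100000 * (num 100 - (((num 1 - num 2 * (var 0 * var 1) - var 0) * var 1) * (num 19 + num (-4) * (var 1) + num 35 * (var 0)) + ((num 1 - num 2 * (var 0 * var 1) - var 0) * var 1) * (num 26 + num (-2) * (var 1) + num 85 * (var 0)) * var 3)) + num (-148851) * ((((num 1 - num 2 * (var 0 * var 1) - var 0) * var 1) * (num 19 + num (-4) * (var 1) + num 35 * (var 0)) + ((num 1 - num 2 * (var 0 * var 1) - var 0) * var 1) * (num 26 + num (-2) * (var 1) + num 85 * (var 0)) * var 3) * var 0))
  pd := num 100000
  en := fun b => cond b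
    (num 1013 * (num 1910000 * (var 0) * (var 1) + num 1007000 * (var 0) * (var 0) * (var 1) + num 573678 + num 10850553 * (var 0) + num (-507000) * (var 0) * (var 1) * (var 1) + num (-305000) * (var 0) * (var 1) * (var 3) + num 29232 * (var 3)))
    (num 985 * (num 1910000 * (var 0) * (var 1) + num 1007000 * (var 0) * (var 0) * (var 1) + num 313686 + num 5933061 * (var 0) + num (-507000) * (var 0) * (var 1) * (var 1) + num (-305000) * (var 0) * (var 1) * (var 3) + num 15984 * (var 3)))
  kk := fun b => cond b
    (num 1014 * (num 661374 * (var 0) + num 9789066 * (var 0) * (var 0) + num (-107793) * (var 0) * (var 1) + num 31059 * (var 0) * (var 3)))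
    (num 983 * (num 361638 * (var 0) + num 5352642 * (var 0) * (var 0) + num (-58941) * (var 0) * (var 1) + num 16983 * (var 0) * (var 3)))
  f0 := num 100000000
  wn := fun b => cond b
    (num 1000 * (num (-800000) * (var 0 * var 1) + (num 8000 * (var 0 * var 1) + num 3996 * var 0) * (((num 1 - num 2 * (var 0 * var 1) - var 0) * var 1) * (num 19 + num (-4) * (var 1) + num 35 * (var 0)) + ((num 1 - num 2 * (var 0 * var 1) - var 0) * var 1) * (num 26 + num (-2) * (var 1) + num 85 * (var 0)) * var 3) + var 0 * var 1 * var 0 * (num (-800000) + (num (-1212000) * (var 1) + num (-44955) + num (-4199000) * (var 1) * (var 0) + num 1462536 * (var 0) + num 1122000 * (var 1) * (var 3) + num 1625373 * (var 3)))) + num 511 * (num 100 * (var 0 * var 1 * var 0) * (num 1000 * (var 1) + num 999)))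
    (num 1000 * (num (-800000) * (var 0 * var 1) + (num 8000 * (var 0 * var 1) + num 3996 * var 0) * (((num 1 - num 2 * (var 0 * var 1) - var 0) * var 1) * (num 19 + num (-4) * (var 1) + num 35 * (var 0)) + ((num 1 - num 2 * (var 0 * var 1) - var 0) * var 1) * (num 26 + num (-2) * (var 1) + num 85 * (var 0)) * var 3) + var 0 * var 1 * var 0 * (num (-800000) + (num (-1212000) * (var 1) + num (-44955) + num (-4199000) * (var 1) * (var 0) + num 1462536 * (var 0) + num 1122000 * (var 1) * (var 3) + num 1625373 * (var 3)))) + num (-4222) * (num 100 * (var 0 * var 1 * var 0) * (num 1000 * (var 1) + num 999)))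
  wd := num 100000000
  tn := fun b => cond b
    (num 884 * (num 182700 + num 18270 * (var 0) + num (-1827) * (var 3) + num 1827 * (var 1) * (var 3)))
    (num 1019 * (num 99900 + num 9990 * (var 0) + num (-999) * (var 3) + num 999 * (var 1) * (var 3)))
  td := (num 1 - num 2 * (var 0 * var 1) + var 0) * (num 1000000 * (num 356 + num (-41) * (var 1) + num (-23) * (var 3) + num (-22) * (var 1) * (var 3) + num (-434) * (var 0)))
  cn := num 1 - var 0 * var 1 - var 1 * (num 1 - num 2 * (var 0 * var 1))
  cd := (num 1 - num 2 * (var 0 * var 1)) * (num 1 - num 2 * (var 0 * var 1))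
  kn := var 0 * var 1 * (num 1740 + num (-652) * (var 1) + num 1653 * (var 0) + num (-2129) * (var 3) + num 627 * (var 3) * (var 3) + num 2537 * (var 1) * (var 3) + num 587 * (var 1) * (var 1))
  kd := num 100
  k2n := var 0 * (num 574 + num (-1408) * (var 3) + num 73 * (var 1) + num 775 * (var 1) * (var 3) + num 588 * (var 3) * (var 3) + num (-1960) * (var 0))
  k2d := num 100

/-- Its ranges. -/
def bBin4 : EBox :=
  ⟨(12, 15, 200), (665, 1106, 1000), (999, 1827, 1000), (0, 1, 1)⟩

/-- The chart of bin 5. -/
def cBin5 : EndChart where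
  I := var 0 * var 1
  d := var 0
  w := var 0 * var 2
  den := num 100
  n₀ := ((num 1 - num 2 * (var 0 * var 1) - var 0) * var 1) * (num 7 + num (-5) * (var 1) + num 111 * (var 0))
  n₁ := ((num 1 - num 2 * (var 0 * var 1) - var 0) * var 1) * (num 26 + num 5 * (var 0))
  q₀ := (12, 15, 200)
  q₁ := (665, 1106, 1000)
  q₂ := (913, 1667, 500)
  q₃ := (0, 1, 1)
  t₀ := (0, 1)
  t₁ := (1, 1)
  mu₀ := (98, 100)
  mu₁ := (266, 100)

/-- The piece of bin 5. -/
def pBin5 : Piece where
  I := var 0 * var 1
  d := var 0
  w := var 0 * var 2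
  o := (((num 1 - num 2 * (var 0 * var 1) - var 0) * var 1) * (num 7 + num (-5) * (var 1) + num 111 * (var 0)) + ((num 1 - num 2 * (var 0 * var 1) - var 0) * var 1) * (num 26 + num 5 * (var 0)) * var 3)
  den := num 100
  vn := num 2 * var 1 * ((num 7 + num (-5) * (var 1) + num 111 * (var 0)) + (num 26 + num 5 * (var 0)) * var 3)
  vs := num 1
  mu := ⟨(98, 100), (266, 100)⟩
  pn := fun b => cond b
    (num 50000 * (num 100 - (((num 1 - num 2 * (var 0 * var 1) - var 0) * var 1) * (num 7 + num (-5) * (var 1) + num 111 * (var 0)) + ((num 1 - num 2 * (var 0 * var 1) - var 0) * var 1) * (num 26 + num 5 * (var 0)) * var 3)) + num (-443422) * ((((num 1 - num 2 * (var 0 * var 1) - var 0) * var 1) * (num 7 + num (-5) * (var 1) + num 111 * (var 0)) + ((num 1 - num 2 * (var 0 * var 1) - var 0) * var 1) * (num 26 + num 5 * (var 0)) * var 3) * var 0))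
    (num 50000 * (num 100 - (((num 1 - num 2 * (var 0 * var 1) - var 0) * var 1) * (num 7 + num (-5) * (var 1) + num 111 * (var 0)) + ((num 1 - num 2 * (var 0 * var 1) - var 0) * var 1) * (num 26 + num 5 * (var 0)) * var 3)) + num (-89474) * ((((num 1 - num 2 * (var 0 * var 1) - var 0) * var 1) * (num 7 + num (-5) * (var 1) + num 111 * (var 0)) + ((num 1 - num 2 * (var 0 * var 1) - var 0) * var 1) * (num 26 + num 5 * (var 0)) * var 3) * var 0))
  pd := num 50000
  en := fun b => cond b
    (num 1014 * (num 1248500 * (var 0) * (var 1) + num (-245500) * (var 0) * (var 0) * (var 1) + num 531773 + num 9641928 * (var 0) + num (-482500) * (var 0) * (var 1) * (var 1) + num (-65500) * (var 0) * (var 1) * (var 3) + num 16670 * (var 3)))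
    (num 985 * (num 1248500 * (var 0) * (var 1) + num (-245500) * (var 0) * (var 0) * (var 1) + num 291247 + num 5280792 * (var 0) + num (-482500) * (var 0) * (var 1) * (var 1) + num (-65500) * (var 0) * (var 1) * (var 3) + num 9130 * (var 3)))
  kk := fun b => cond b
    (num 1015 * (num 620124 * (var 0) + num 8686737 * (var 0) * (var 0) + num (-110022) * (var 0) * (var 1) + num 21671 * (var 0) * (var 3)))
    (num 981 * (num 339636 * (var 0) + num 4757643 * (var 0) * (var 0) + num (-60258) * (var 0) * (var 1) + num 11869 * (var 0) * (var 3)))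
  f0 := num 50000000
  wn := fun b => cond b
    (num 1000 * (num (-400000) * (var 0 * var 1) + (num 4000 * (var 0 * var 1) + num 3652 * var 0) * (((num 1 - num 2 * (var 0 * var 1) - var 0) * var 1) * (num 7 + num (-5) * (var 1) + num 111 * (var 0)) + ((num 1 - num 2 * (var 0 * var 1) - var 0) * var 1) * (num 26 + num 5 * (var 0)) * var 3) + var 0 * var 1 * var 0 * (num (-400000) + (num (-1032000) * (var 1) + num (-490281) + num (-812500) * (var 1) * (var 0) + num 3424663 * (var 0) + num 301500 * (var 1) * (var 3) + num 1802262 * (var 3)))) + num 1693 * (num 100 * (var 0 * var 1 * var 0) * (num 500 * (var 1) + num 913)))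
    (num 1000 * (num (-400000) * (var 0 * var 1) + (num 4000 * (var 0 * var 1) + num 3652 * var 0) * (((num 1 - num 2 * (var 0 * var 1) - var 0) * var 1) * (num 7 + num (-5) * (var 1) + num 111 * (var 0)) + ((num 1 - num 2 * (var 0 * var 1) - var 0) * var 1) * (num 26 + num 5 * (var 0)) * var 3) + var 0 * var 1 * var 0 * (num (-400000) + (num (-1032000) * (var 1) + num (-490281) + num (-812500) * (var 1) * (var 0) + num 3424663 * (var 0) + num 301500 * (var 1) * (var 3) + num 1802262 * (var 3)))) + num (-5951) * (num 100 * (var 0 * var 1 * var 0) * (num 500 * (var 1) + num 913)))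
  wd := num 50000000
  tn := fun b => cond b
    (num 862 * (num 166700 + num 10002 * (var 0) + num (-1667) * (var 1) + num (-1667) * (var 3) + num 3334 * (var 1) * (var 3)))
    (num 1075 * (num 91300 + num 5478 * (var 0) + num (-913) * (var 1) + num (-913) * (var 3) + num 1826 * (var 1) * (var 3)))
  td := (num 1 - num 2 * (var 0 * var 1) + var 0) * (num 500000 * (num 500 + num (-47) * (var 1) + num (-30) * (var 3) + num (-6) * (var 1) * (var 3) + num (-890) * (var 0)))
  cn := num 1 - var 0 * var 1 - var 1 * (num 1 - num 2 * (var 0 * var 1))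
  cd := (num 1 - num 2 * (var 0 * var 1)) * (num 1 - num 2 * (var 0 * var 1))
  kn := var 0 * var 1 * (num 1303 + num 210 * (var 1) + num 2160 * (var 0) + num (-1127) * (var 3) + num 627 * (var 3) * (var 3) + num 936 * (var 1) * (var 3) + num 57 * (var 1) * (var 1))
  kd := num 100
  k2n := var 0 * (num 1219 + num (-2708) * (var 3) + num 96 * (var 1) + num 717 * (var 1) * (var 3) + num 1476 * (var 3) * (var 3) + num (-2209) * (var 0))
  k2d := num 100

/-- Its ranges. -/
def bBin5 : EBox :=
  ⟨(12, 15, 200), (665, 1106, 1000), (913, 1667, 500), (0, 1, 1)⟩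

/-- The chart of bin 6. -/
def cBin6 : EndChart where
  I := var 0 * var 1
  d := var 0
  w := var 0 * var 2
  den := num 100
  n₀ := ((num 1 - num 2 * (var 0 * var 1) - var 0) * var 1) * (num 21 + num (-4) * (var 1) + num 29 * (var 0))
  n₁ := ((num 1 - num 2 * (var 0 * var 1) - var 0) * var 1) * (num 26 + num (-1) * (var 1) + num 53 * (var 0))
  q₀ := (15, 18, 200)
  q₁ := (277, 567, 500)
  q₂ := (999, 1634, 1000)
  q₃ := (0, 1, 1)
  t₀ := (0, 1)
  t₁ := (1, 1)
  mu₀ := (144, 100)
  mu₁ := (259, 100)

/-- The piece of bin 6. -/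
def pBin6 : Piece where
  I := var 0 * var 1
  d := var 0
  w := var 0 * var 2
  o := (((num 1 - num 2 * (var 0 * var 1) - var 0) * var 1) * (num 21 + num (-4) * (var 1) + num 29 * (var 0)) + ((num 1 - num 2 * (var 0 * var 1) - var 0) * var 1) * (num 26 + num (-1) * (var 1) + num 53 * (var 0)) * var 3)
  den := num 100
  vn := num 2 * var 1 * ((num 21 + num (-4) * (var 1) + num 29 * (var 0)) + (num 26 + num (-1) * (var 1) + num 53 * (var 0)) * var 3)
  vs := num 1
  mu := ⟨(144, 100), (259, 100)⟩
  pn := fun b => cond b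
    (num 100000 * (num 100 - (((num 1 - num 2 * (var 0 * var 1) - var 0) * var 1) * (num 21 + num (-4) * (var 1) + num 29 * (var 0)) + ((num 1 - num 2 * (var 0 * var 1) - var 0) * var 1) * (num 26 + num (-1) * (var 1) + num 53 * (var 0)) * var 3)) + num (-423206) * ((((num 1 - num 2 * (var 0 * var 1) - var 0) * var 1) * (num 21 + num (-4) * (var 1) + num 29 * (var 0)) + ((num 1 - num 2 * (var 0 * var 1) - var 0) * var 1) * (num 26 + num (-1) * (var 1) + num 53 * (var 0)) * var 3) * var 0))
    (num 100000 * (num 100 - (((num 1 - num 2 * (var 0 * var 1) - var 0) * var 1) * (num 21 + num (-4) * (var 1) + num 29 * (var 0)) + ((num 1 - num 2 * (var 0 * var 1) - var 0) * var 1) * (num 26 + num (-1) * (var 1) + num 53 * (var 0)) * var 3)) + num (-143856) * ((((num 1 - num 2 * (var 0 * var 1) - var 0) * var 1) * (num 21 + num (-4) * (var 1) + num 29 * (var 0)) + ((num 1 - num 2 * (var 0 * var 1) - var 0) * var 1) * (num 26 + num (-1) * (var 1) + num 53 * (var 0)) * var 3) * var 0))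
  pd := num 100000
  en := fun b => cond b
    (num 2038 * (num 881000 * (var 0) * (var 1) + num 860000 * (var 0) * (var 0) * (var 1) + num 275329 + num 4542520 * (var 0) + num (-177000) * (var 0) * (var 1) * (var 1) + num (-131500) * (var 0) * (var 1) * (var 3) + num 15523 * (var 3)))
    (num 977 * (num 1762000 * (var 0) * (var 1) + num 1720000 * (var 0) * (var 0) * (var 1) + num 336663 + num 5554440 * (var 0) + num (-354000) * (var 0) * (var 1) * (var 1) + num (-263000) * (var 0) * (var 1) * (var 3) + num 18981 * (var 3)))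
  kk := fun b => cond b
    (num 2040 * (num 305558 * (var 0) + num 4192844 * (var 0) * (var 0) + num (-45752) * (var 0) * (var 1) + num 17157 * (var 0) * (var 3)))
    (num 976 * (num 373626 * (var 0) + num 5126868 * (var 0) * (var 0) + num (-55944) * (var 0) * (var 1) + num 20979 * (var 0) * (var 3)))
  f0 := num 100000000
  wn := fun b => cond b
    (num 1000 * (num (-800000) * (var 0 * var 1) + (num 8000 * (var 0 * var 1) + num 3996 * var 0) * (((num 1 - num 2 * (var 0 * var 1) - var 0) * var 1) * (num 21 + num (-4) * (var 1) + num 29 * (var 0)) + ((num 1 - num 2 * (var 0 * var 1) - var 0) * var 1) * (num 26 + num (-1) * (var 1) + num 53 * (var 0)) * var 3) + var 0 * var 1 * var 0 * (num (-800000) + (num (-956000) * (var 1) + num 46953 + num (-5976000) * (var 1) * (var 0) + num (-24975) * (var 0) + num 1719000 * (var 1) * (var 3) + num 1154844 * (var 3)))) + num 160 * (num 100 * (var 0 * var 1 * var 0) * (num 1000 * (var 1) + num 999)))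
    (num 1000 * (num (-800000) * (var 0 * var 1) + (num 8000 * (var 0 * var 1) + num 3996 * var 0) * (((num 1 - num 2 * (var 0 * var 1) - var 0) * var 1) * (num 21 + num (-4) * (var 1) + num 29 * (var 0)) + ((num 1 - num 2 * (var 0 * var 1) - var 0) * var 1) * (num 26 + num (-1) * (var 1) + num 53 * (var 0)) * var 3) + var 0 * var 1 * var 0 * (num (-800000) + (num (-956000) * (var 1) + num 46953 + num (-5976000) * (var 1) * (var 0) + num (-24975) * (var 0) + num 1719000 * (var 1) * (var 3) + num 1154844 * (var 3)))) + num (-4579) * (num 100 * (var 0 * var 1 * var 0) * (num 1000 * (var 1) + num 999)))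
  wd := num 100000000
  tn := fun b => cond b
    (num 1836 * (num 81700 + num 1634 * (var 0) + num 817 * (var 1) * (var 3)))
    (num 963 * (num 99900 + num 1998 * (var 0) + num 999 * (var 1) * (var 3)))
  td := (num 1 - num 2 * (var 0 * var 1) + var 0) * (num 1000000 * (num 342 + num (-45) * (var 1) + num (-17) * (var 3) + num (-25) * (var 1) * (var 3) + num (-333) * (var 0)))
  cn := num 1 - var 0 * var 1 - var 1 * (num 1 - num 2 * (var 0 * var 1))
  cd := (num 1 - num 2 * (var 0 * var 1)) * (num 1 - num 2 * (var 0 * var 1))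
  kn := var 0 * var 1 * (num 1353 + num 19 * (var 1) + num 1623 * (var 0) + num (-1742) * (var 3) + num 451 * (var 3) * (var 3) + num 2221 * (var 1) * (var 3) + num 301 * (var 1) * (var 1))
  kd := num 100
  k2n := var 0 * (num 784 + num (-1638) * (var 3) + num 2 * (var 1) + num 815 * (var 1) * (var 3) + num 744 * (var 3) * (var 3) + num (-2113) * (var 0))
  k2d := num 100

/-- Its ranges. -/
def bBin6 : EBox :=
  ⟨(15, 18, 200), (277, 567, 500), (999, 1634, 1000), (0, 1, 1)⟩

/-- The chart of bin 7. -/
def cBin7 : EndChart where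
  I := var 0 * var 1
  d := var 0
  w := var 0 * var 2
  den := num 100
  n₀ := ((num 1 - num 2 * (var 0 * var 1) - var 0) * var 1) * (num 9 + num (-4) * (var 1) + num 86 * (var 0))
  n₁ := ((num 1 - num 2 * (var 0 * var 1) - var 0) * var 1) * (num 24 + num 1 * (var 1) + num 30 * (var 0))
  q₀ := (15, 18, 200)
  q₁ := (277, 567, 500)
  q₂ := (1633, 2668, 1000)
  q₃ := (0, 1, 1)
  t₀ := (0, 1)
  t₁ := (1, 1)
  mu₀ := (98, 100)
  mu₁ := (280, 100)

/-- The piece of bin 7. -/
def pBin7 : Piece where
  I := var 0 * var 1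
  d := var 0
  w := var 0 * var 2
  o := (((num 1 - num 2 * (var 0 * var 1) - var 0) * var 1) * (num 9 + num (-4) * (var 1) + num 86 * (var 0)) + ((num 1 - num 2 * (var 0 * var 1) - var 0) * var 1) * (num 24 + num 1 * (var 1) + num 30 * (var 0)) * var 3)
  den := num 100
  vn := num 2 * var 1 * ((num 9 + num (-4) * (var 1) + num 86 * (var 0)) + (num 24 + num 1 * (var 1) + num 30 * (var 0)) * var 3)
  vs := num 1
  mu := ⟨(98, 100), (280, 100)⟩
  pn := fun b => cond b
    (num 100000 * (num 100 - (((num 1 - num 2 * (var 0 * var 1) - var 0) * var 1) * (num 9 + num (-4) * (var 1) + num 86 * (var 0)) + ((num 1 - num 2 * (var 0 * var 1) - var 0) * var 1) * (num 24 + num 1 * (var 1) + num 30 * (var 0)) * var 3)) + num (-747040) * ((((num 1 - num 2 * (var 0 * var 1) - var 0) * var 1) * (num 9 + num (-4) * (var 1) + num 86 * (var 0)) + ((num 1 - num 2 * (var 0 * var 1) - var 0) * var 1) * (num 24 + num 1 * (var 1) + num 30 * (var 0)) * var 3) * var 0))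
    (num 100000 * (num 100 - (((num 1 - num 2 * (var 0 * var 1) - var 0) * var 1) * (num 9 + num (-4) * (var 1) + num 86 * (var 0)) + ((num 1 - num 2 * (var 0 * var 1) - var 0) * var 1) * (num 24 + num 1 * (var 1) + num 30 * (var 0)) * var 3)) + num (-160034) * ((((num 1 - num 2 * (var 0 * var 1) - var 0) * var 1) * (num 9 + num (-4) * (var 1) + num 86 * (var 0)) + ((num 1 - num 2 * (var 0 * var 1) - var 0) * var 1) * (num 24 + num 1 * (var 1) + num 30 * (var 0)) * var 3) * var 0))
  pd := num 100000
  en := fun b => cond b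
    (num 4080 * (num 544000 * (var 0) * (var 1) + num 133500 * (var 0) * (var 0) * (var 1) + num 227447 + num 3633816 * (var 0) + num (-156250) * (var 0) * (var 1) * (var 1) + num (-23250) * (var 0) * (var 1) * (var 3) + num 8004 * (var 3)))
    (num 976 * (num 2176000 * (var 0) * (var 1) + num 534000 * (var 0) * (var 0) * (var 1) + num 556853 + num 8896584 * (var 0) + num (-625000) * (var 0) * (var 1) * (var 1) + num (-93000) * (var 0) * (var 1) * (var 3) + num 19596 * (var 3)))
  kk := fun b => cond b
    (num 4088 * (num 256128 * (var 0) + num 3344338 * (var 0) * (var 0) + num (-42688) * (var 0) * (var 1) + num 11339 * (var 0) * (var 3)))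
    (num 973 * (num 627072 * (var 0) + num 8187862 * (var 0) * (var 0) + num (-104512) * (var 0) * (var 1) + num 27761 * (var 0) * (var 3)))
  f0 := num 100000000
  wn := fun b => cond b
    (num 1000 * (num (-800000) * (var 0 * var 1) + (num 8000 * (var 0 * var 1) + num 6532 * var 0) * (((num 1 - num 2 * (var 0 * var 1) - var 0) * var 1) * (num 9 + num (-4) * (var 1) + num 86 * (var 0)) + ((num 1 - num 2 * (var 0 * var 1) - var 0) * var 1) * (num 24 + num 1 * (var 1) + num 30 * (var 0)) * var 3) + var 0 * var 1 * var 0 * (num (-800000) + (num (-2271000) * (var 1) + num (-369058) + num 2063000 * (var 1) * (var 0) + num 285775 * (var 0) + num 2096000 * (var 1) * (var 3) + num 2206183 * (var 3)))) + num 901 * (num 100 * (var 0 * var 1 * var 0) * (num 1000 * (var 1) + num 1633)))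
    (num 1000 * (num (-800000) * (var 0 * var 1) + (num 8000 * (var 0 * var 1) + num 6532 * var 0) * (((num 1 - num 2 * (var 0 * var 1) - var 0) * var 1) * (num 9 + num (-4) * (var 1) + num 86 * (var 0)) + ((num 1 - num 2 * (var 0 * var 1) - var 0) * var 1) * (num 24 + num 1 * (var 1) + num 30 * (var 0)) * var 3) + var 0 * var 1 * var 0 * (num (-800000) + (num (-2271000) * (var 1) + num (-369058) + num 2063000 * (var 1) * (var 0) + num 285775 * (var 0) + num 2096000 * (var 1) * (var 3) + num 2206183 * (var 3)))) + num (-6296) * (num 100 * (var 0 * var 1 * var 0) * (num 1000 * (var 1) + num 1633)))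
  wd := num 100000000
  tn := fun b => cond b
    (num 3600 * (num 66700 + num (-667) * (var 3) + num 667 * (var 1) * (var 3)))
    (num 990 * (num 163300 + num (-1633) * (var 3) + num 1633 * (var 1) * (var 3)))
  td := (num 1 - num 2 * (var 0 * var 1) + var 0) * (num 1000000 * (num 449 + num (-49) * (var 1) + num (-18) * (var 3) + num (-18) * (var 1) * (var 3) + num (-661) * (var 0)))
  cn := num 1 - var 0 * var 1 - var 1 * (num 1 - num 2 * (var 0 * var 1))
  cd := (num 1 - num 2 * (var 0 * var 1)) * (num 1 - num 2 * (var 0 * var 1))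
  kn := var 0 * var 1 * (num 1374 + num 12 * (var 1) + num 1403 * (var 0) + num (-1341) * (var 3) + num 290 * (var 3) * (var 3) + num 1572 * (var 1) * (var 3) + num 159 * (var 1) * (var 1))
  kd := num 100
  k2n := var 0 * (num 1263 + num (-2481) * (var 3) + num (-402) * (var 1) + num 1381 * (var 1) * (var 3) + num 1025 * (var 3) * (var 3) + num (-2008) * (var 0))
  k2d := num 100

/-- Its ranges. -/
def bBin7 : EBox :=
  ⟨(15, 18, 200), (277, 567, 500), (1633, 2668, 1000), (0, 1, 1)⟩

/-- The chart of bin 8. -/
def cBin8 : EndChart where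
  I := var 0 * var 1
  d := var 0
  w := var 0 * var 2
  den := num 100
  n₀ := ((num 1 - num 2 * (var 0 * var 1) - var 0) * var 1) * (num 20 + num (-3) * (var 1) + num 49 * (var 0))
  n₁ := ((num 1 - num 2 * (var 0 * var 1) - var 0) * var 1) * (num 20 + num 92 * (var 0))
  q₀ := (18, 21, 200)
  q₁ := (237, 584, 500)
  q₂ := (999, 1492, 1000)
  q₃ := (0, 1, 1)
  t₀ := (0, 1)
  t₁ := (1, 1)
  mu₀ := (144, 100)
  mu₁ := (272, 100)

/-- The piece of bin 8. -/
def pBin8 : Piece where
  I := var 0 * var 1
  d := var 0
  w := var 0 * var 2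
  o := (((num 1 - num 2 * (var 0 * var 1) - var 0) * var 1) * (num 20 + num (-3) * (var 1) + num 49 * (var 0)) + ((num 1 - num 2 * (var 0 * var 1) - var 0) * var 1) * (num 20 + num 92 * (var 0)) * var 3)
  den := num 100
  vn := num 2 * var 1 * ((num 20 + num (-3) * (var 1) + num 49 * (var 0)) + (num 20 + num 92 * (var 0)) * var 3)
  vs := num 1
  mu := ⟨(144, 100), (272, 100)⟩
  pn := fun b => cond b
    (num 100000 * (num 100 - (((num 1 - num 2 * (var 0 * var 1) - var 0) * var 1) * (num 20 + num (-3) * (var 1) + num 49 * (var 0)) + ((num 1 - num 2 * (var 0 * var 1) - var 0) * var 1) * (num 20 + num 92 * (var 0)) * var 3)) + num (-405824) * ((((num 1 - num 2 * (var 0 * var 1) - var 0) * var 1) * (num 20 + num (-3) * (var 1) + num 49 * (var 0)) + ((num 1 - num 2 * (var 0 * var 1) - var 0) * var 1) * (num 20 + num 92 * (var 0)) * var 3) * var 0))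
    (num 100000 * (num 100 - (((num 1 - num 2 * (var 0 * var 1) - var 0) * var 1) * (num 20 + num (-3) * (var 1) + num 49 * (var 0)) + ((num 1 - num 2 * (var 0 * var 1) - var 0) * var 1) * (num 20 + num 92 * (var 0)) * var 3)) + num (-143856) * ((((num 1 - num 2 * (var 0 * var 1) - var 0) * var 1) * (num 20 + num (-3) * (var 1) + num 49 * (var 0)) + ((num 1 - num 2 * (var 0 * var 1) - var 0) * var 1) * (num 20 + num 92 * (var 0)) * var 3) * var 0))
  pd := num 100000
  en := fun b => cond b
    (num 4108 * (num 487250 * (var 0) * (var 1) + num 533000 * (var 0) * (var 0) * (var 1) + num 136145 + num 1900062 * (var 0) + num (-106750) * (var 0) * (var 1) * (var 1) + num (-49000) * (var 0) * (var 1) * (var 3) + num 7460 * (var 3)))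
    (num 969 * (num 1949000 * (var 0) * (var 1) + num 2132000 * (var 0) * (var 0) * (var 1) + num 364635 + num 5088906 * (var 0) + num (-427000) * (var 0) * (var 1) * (var 1) + num (-196000) * (var 0) * (var 1) * (var 3) + num 19980 * (var 3)))
  kk := fun b => cond b
    (num 4104 * (num 142859 * (var 0) + num 1844858 * (var 0) * (var 0) + num (-18277) * (var 0) * (var 1) + num 9325 * (var 0) * (var 3)))
    (num 969 * (num 382617 * (var 0) + num 4941054 * (var 0) * (var 0) + num (-48951) * (var 0) * (var 1) + num 24975 * (var 0) * (var 3)))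
  f0 := num 100000000
  wn := fun b => cond b
    (num 1000 * (num (-800000) * (var 0 * var 1) + (num 8000 * (var 0 * var 1) + num 3996 * var 0) * (((num 1 - num 2 * (var 0 * var 1) - var 0) * var 1) * (num 20 + num (-3) * (var 1) + num 49 * (var 0)) + ((num 1 - num 2 * (var 0 * var 1) - var 0) * var 1) * (num 20 + num 92 * (var 0)) * var 3) + var 0 * var 1 * var 0 * (num (-800000) + (num (-792000) * (var 1) + num (-164835) + num (-5964000) * (var 1) * (var 0) + num 2006991 * (var 0) + num 2042000 * (var 1) * (var 3) + num 873126 * (var 3)))) + num 41 * (num 100 * (var 0 * var 1 * var 0) * (num 1000 * (var 1) + num 999)))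
    (num 1000 * (num (-800000) * (var 0 * var 1) + (num 8000 * (var 0 * var 1) + num 3996 * var 0) * (((num 1 - num 2 * (var 0 * var 1) - var 0) * var 1) * (num 20 + num (-3) * (var 1) + num 49 * (var 0)) + ((num 1 - num 2 * (var 0 * var 1) - var 0) * var 1) * (num 20 + num 92 * (var 0)) * var 3) + var 0 * var 1 * var 0 * (num (-800000) + (num (-792000) * (var 1) + num (-164835) + num (-5964000) * (var 1) * (var 0) + num 2006991 * (var 0) + num 2042000 * (var 1) * (var 3) + num 873126 * (var 3)))) + num (-4385) * (num 100 * (var 0 * var 1 * var 0) * (num 1000 * (var 1) + num 999)))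
  wd := num 100000000
  tn := fun b => cond b
    (num 3808 * (num 37300 + num (-746) * (var 0) + num 373 * (var 1) * (var 3)))
    (num 910 * (num 99900 + num (-1998) * (var 0) + num 999 * (var 1) * (var 3)))
  td := (num 1 - num 2 * (var 0 * var 1) + var 0) * (num 1000000 * (num 338 + num (-49) * (var 1) + num (-14) * (var 3) + num (-25) * (var 1) * (var 3) + num (-326) * (var 0)))
  cn := num 1 - var 0 * var 1 - var 1 * (num 1 - num 2 * (var 0 * var 1))
  cd := (num 1 - num 2 * (var 0 * var 1)) * (num 1 - num 2 * (var 0 * var 1))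
  kn := var 0 * var 1 * (num 1276 + num 59 * (var 1) + num 1816 * (var 0) + num (-1710) * (var 3) + num 422 * (var 3) * (var 3) + num 2189 * (var 1) * (var 3) + num 317 * (var 1) * (var 1))
  kd := num 100
  k2n := var 0 * (num 812 + num (-1263) * (var 3) + num (-136) * (var 1) + num 729 * (var 1) * (var 3) + num 424 * (var 3) * (var 3) + num (-1965) * (var 0))
  k2d := num 100

/-- Its ranges. -/
def bBin8 : EBox :=
  ⟨(18, 21, 200), (237, 584, 500), (999, 1492, 1000), (0, 1, 1)⟩

/-- The chart of bin 9. -/
def cBin9 : EndChart where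
  I := var 0 * var 1
  d := var 0
  w := var 0 * var 2
  den := num 100
  n₀ := ((num 1 - num 2 * (var 0 * var 1) - var 0) * var 1) * (num 1 + num (-2) * (var 1) + num 166 * (var 0))
  n₁ := ((num 1 - num 2 * (var 0 * var 1) - var 0) * var 1) * (num 32 + num 1 * (var 1) + num (-49) * (var 0))
  q₀ := (18, 21, 200)
  q₁ := (237, 584, 500)
  q₂ := (1491, 2223, 1000)
  q₃ := (0, 1, 1)
  t₀ := (0, 1)
  t₁ := (1, 1)
  mu₀ := (110, 100)
  mu₁ := (289, 100)

/-- The piece of bin 9. -/
def pBin9 : Piece where
  I := var 0 * var 1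
  d := var 0
  w := var 0 * var 2
  o := (((num 1 - num 2 * (var 0 * var 1) - var 0) * var 1) * (num 1 + num (-2) * (var 1) + num 166 * (var 0)) + ((num 1 - num 2 * (var 0 * var 1) - var 0) * var 1) * (num 32 + num 1 * (var 1) + num (-49) * (var 0)) * var 3)
  den := num 100
  vn := num 2 * var 1 * ((num 1 + num (-2) * (var 1) + num 166 * (var 0)) + (num 32 + num 1 * (var 1) + num (-49) * (var 0)) * var 3)
  vs := num 1
  mu := ⟨(110, 100), (289, 100)⟩
  pn := fun b => cond b
    (num 100000 * (num 100 - (((num 1 - num 2 * (var 0 * var 1) - var 0) * var 1) * (num 1 + num (-2) * (var 1) + num 166 * (var 0)) + ((num 1 - num 2 * (var 0 * var 1) - var 0) * var 1) * (num 32 + num 1 * (var 1) + num (-49) * (var 0)) * var 3)) + num (-642447) * ((((num 1 - num 2 * (var 0 * var 1) - var 0) * var 1) * (num 1 + num (-2) * (var 1) + num 166 * (var 0)) + ((num 1 - num 2 * (var 0 * var 1) - var 0) * var 1) * (num 32 + num 1 * (var 1) + num (-49) * (var 0)) * var 3) * var 0))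
    (num 100000 * (num 100 - (((num 1 - num 2 * (var 0 * var 1) - var 0) * var 1) * (num 1 + num (-2) * (var 1) + num 166 * (var 0)) + ((num 1 - num 2 * (var 0 * var 1) - var 0) * var 1) * (num 32 + num 1 * (var 1) + num (-49) * (var 0)) * var 3)) + num (-164010) * ((((num 1 - num 2 * (var 0 * var 1) - var 0) * var 1) * (num 1 + num (-2) * (var 1) + num 166 * (var 0)) + ((num 1 - num 2 * (var 0 * var 1) - var 0) * var 1) * (num 32 + num 1 * (var 1) + num (-49) * (var 0)) * var 3) * var 0))
  pd := num 100000
  en := fun b => cond b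
    (num 1027 * (num 2335000 * (var 0) * (var 1) + num 1661000 * (var 0) * (var 0) * (var 1) + num 818064 + num 11152791 * (var 0) + num (-660000) * (var 0) * (var 1) * (var 1) + num (-47000) * (var 0) * (var 1) * (var 3) + num 31122 * (var 3)))
    (num 967 * (num 2335000 * (var 0) * (var 1) + num 1661000 * (var 0) * (var 0) * (var 1) + num 548688 + num 7480347 * (var 0) + num (-660000) * (var 0) * (var 1) * (var 1) + num (-47000) * (var 0) * (var 1) * (var 3) + num 20874 * (var 3)))
  kk := fun b => cond b
    (num 1027 * (num 869193 * (var 0) + num 10785996 * (var 0) * (var 0) + num (-126711) * (var 0) * (var 1) + num 48906 * (var 0) * (var 3)))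
    (num 967 * (num 582981 * (var 0) + num 7234332 * (var 0) * (var 0) + num (-84987) * (var 0) * (var 1) + num 32802 * (var 0) * (var 3)))
  f0 := num 100000000
  wn := fun b => cond b
    (num 1000 * (num (-800000) * (var 0 * var 1) + (num 8000 * (var 0 * var 1) + num 5964 * var 0) * (((num 1 - num 2 * (var 0 * var 1) - var 0) * var 1) * (num 1 + num (-2) * (var 1) + num 166 * (var 0)) + ((num 1 - num 2 * (var 0 * var 1) - var 0) * var 1) * (num 32 + num 1 * (var 1) + num (-49) * (var 0)) * var 3) + var 0 * var 1 * var 0 * (num (-800000) + (num (-1975000) * (var 1) + num (-657531) + num 1566000 * (var 1) * (var 0) + num 3415881 * (var 0) + num 2631000 * (var 1) * (var 3) + num 1558095 * (var 3)))) + num 412 * (num 100 * (var 0 * var 1 * var 0) * (num 1000 * (var 1) + num 1491)))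
    (num 1000 * (num (-800000) * (var 0 * var 1) + (num 8000 * (var 0 * var 1) + num 5964 * var 0) * (((num 1 - num 2 * (var 0 * var 1) - var 0) * var 1) * (num 1 + num (-2) * (var 1) + num 166 * (var 0)) + ((num 1 - num 2 * (var 0 * var 1) - var 0) * var 1) * (num 32 + num 1 * (var 1) + num (-49) * (var 0)) * var 3) + var 0 * var 1 * var 0 * (num (-800000) + (num (-1975000) * (var 1) + num (-657531) + num 1566000 * (var 1) * (var 0) + num 3415881 * (var 0) + num 2631000 * (var 1) * (var 3) + num 1558095 * (var 3)))) + num (-5644) * (num 100 * (var 0 * var 1 * var 0) * (num 1000 * (var 1) + num 1491)))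
  wd := num 100000000
  tn := fun b => cond b
    (num 938 * (num 222300 + num (-8892) * (var 0) + num 2223 * (var 1) * (var 3)))
    (num 918 * (num 149100 + num (-5964) * (var 0) + num 1491 * (var 1) * (var 3)))
  td := (num 1 - num 2 * (var 0 * var 1) + var 0) * (num 1000000 * (num 420 + num (-54) * (var 1) + num (-14) * (var 3) + num (-21) * (var 1) * (var 3) + num (-562) * (var 0)))
  cn := num 1 - var 0 * var 1 - var 1 * (num 1 - num 2 * (var 0 * var 1))
  cd := (num 1 - num 2 * (var 0 * var 1)) * (num 1 - num 2 * (var 0 * var 1))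
  kn := var 0 * var 1 * (num 1379 + num (-151) * (var 1) + num 2203 * (var 0) + num (-1509) * (var 3) + num 323 * (var 3) * (var 3) + num 1746 * (var 1) * (var 3) + num 282 * (var 1) * (var 1))
  kd := num 100
  k2n := var 0 * (num 1256 + num (-1931) * (var 3) + num (-502) * (var 1) + num 1250 * (var 1) * (var 3) + num 587 * (var 3) * (var 3) + num (-1942) * (var 0))
  k2d := num 100

/-- Its ranges. -/
def bBin9 : EBox :=
  ⟨(18, 21, 200), (237, 584, 500), (1491, 2223, 1000), (0, 1, 1)⟩

/-- The chart of bin 10. -/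
def cBin10 : EndChart where
  I := var 0 * var 1
  d := var 0
  w := var 0 * var 2
  den := num 100
  n₀ := ((num 1 - num 2 * (var 0 * var 1) - var 0) * var 1) * (num 20 + num (-3) * (var 1) + num 51 * (var 0))
  n₁ := ((num 1 - num 2 * (var 0 * var 1) - var 0) * var 1) * (num 20 + num 2 * (var 1) + num 77 * (var 0))
  q₀ := (21, 25, 200)
  q₁ := (199, 600, 500)
  q₂ := (999, 1381, 1000)
  q₃ := (0, 1, 1)
  t₀ := (0, 1)
  t₁ := (1, 1)
  mu₀ := (131, 100)
  mu₁ := (308, 100)

/-- The piece of bin 10. -/
def pBin10 : Piece where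
  I := var 0 * var 1
  d := var 0
  w := var 0 * var 2
  o := (((num 1 - num 2 * (var 0 * var 1) - var 0) * var 1) * (num 20 + num (-3) * (var 1) + num 51 * (var 0)) + ((num 1 - num 2 * (var 0 * var 1) - var 0) * var 1) * (num 20 + num 2 * (var 1) + num 77 * (var 0)) * var 3)
  den := num 100
  vn := num 2 * var 1 * ((num 20 + num (-3) * (var 1) + num 51 * (var 0)) + (num 20 + num 2 * (var 1) + num 77 * (var 0)) * var 3)
  vs := num 1
  mu := ⟨(131, 100), (308, 100)⟩
  pn := fun b => cond b
    (num 100000 * (num 100 - (((num 1 - num 2 * (var 0 * var 1) - var 0) * var 1) * (num 20 + num (-3) * (var 1) + num 51 * (var 0)) + ((num 1 - num 2 * (var 0 * var 1) - var 0) * var 1) * (num 20 + num 2 * (var 1) + num 77 * (var 0)) * var 3)) + num (-425348) * ((((num 1 - num 2 * (var 0 * var 1) - var 0) * var 1) * (num 20 + num (-3) * (var 1) + num 51 * (var 0)) + ((num 1 - num 2 * (var 0 * var 1) - var 0) * var 1) * (num 20 + num 2 * (var 1) + num 77 * (var 0)) * var 3) * var 0))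
    (num 100000 * (num 100 - (((num 1 - num 2 * (var 0 * var 1) - var 0) * var 1) * (num 20 + num (-3) * (var 1) + num 51 * (var 0)) + ((num 1 - num 2 * (var 0 * var 1) - var 0) * var 1) * (num 20 + num 2 * (var 1) + num 77 * (var 0)) * var 3)) + num (-130869) * ((((num 1 - num 2 * (var 0 * var 1) - var 0) * var 1) * (num 20 + num (-3) * (var 1) + num 51 * (var 0)) + ((num 1 - num 2 * (var 0 * var 1) - var 0) * var 1) * (num 20 + num 2 * (var 1) + num 77 * (var 0)) * var 3) * var 0))
  pd := num 100000
  en := fun b => cond b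
    (num 1039 * (num 2522000 * (var 0) * (var 1) + num 2619000 * (var 0) * (var 0) * (var 1) + num 571734 + num 6028065 * (var 0) + num (-759000) * (var 0) * (var 1) * (var 1) + num (-87000) * (var 0) * (var 1) * (var 3) + num 26239 * (var 3)))
    (num 953 * (num 2522000 * (var 0) * (var 1) + num 2619000 * (var 0) * (var 0) * (var 1) + num 413586 + num 4360635 * (var 0) + num (-759000) * (var 0) * (var 1) * (var 1) + num (-87000) * (var 0) * (var 1) * (var 3) + num 18981 * (var 3)))
  kk := fun b => cond b
    (num 1040 * (num 546876 * (var 0) + num 6449270 * (var 0) * (var 0) + num (-46954) * (var 0) * (var 1) + num 44192 * (var 0) * (var 3)))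
    (num 954 * (num 395604 * (var 0) + num 4665330 * (var 0) * (var 0) + num (-33966) * (var 0) * (var 1) + num 31968 * (var 0) * (var 3)))
  f0 := num 100000000
  wn := fun b => cond b
    (num 1000 * (num (-800000) * (var 0 * var 1) + (num 8000 * (var 0 * var 1) + num 3996 * var 0) * (((num 1 - num 2 * (var 0 * var 1) - var 0) * var 1) * (num 20 + num (-3) * (var 1) + num 51 * (var 0)) + ((num 1 - num 2 * (var 0 * var 1) - var 0) * var 1) * (num 20 + num 2 * (var 1) + num 77 * (var 0)) * var 3) + var 0 * var 1 * var 0 * (num (-800000) + (num (-426000) * (var 1) + num (-287712) + num (-9729000) * (var 1) * (var 0) + num 3059937 * (var 0) + num 2457000 * (var 1) * (var 3) + num 714285 * (var 3)))) + num (-19) * (num 100 * (var 0 * var 1 * var 0) * (num 1000 * (var 1) + num 999)))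
    (num 1000 * (num (-800000) * (var 0 * var 1) + (num 8000 * (var 0 * var 1) + num 3996 * var 0) * (((num 1 - num 2 * (var 0 * var 1) - var 0) * var 1) * (num 20 + num (-3) * (var 1) + num 51 * (var 0)) + ((num 1 - num 2 * (var 0 * var 1) - var 0) * var 1) * (num 20 + num 2 * (var 1) + num 77 * (var 0)) * var 3) + var 0 * var 1 * var 0 * (num (-800000) + (num (-426000) * (var 1) + num (-287712) + num (-9729000) * (var 1) * (var 0) + num 3059937 * (var 0) + num 2457000 * (var 1) * (var 3) + num 714285 * (var 3)))) + num (-5109) * (num 100 * (var 0 * var 1 * var 0) * (num 1000 * (var 1) + num 999)))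
  wd := num 100000000
  tn := fun b => cond b
    (num 978 * (num 139481 + num (-11048) * (var 0) + num 1381 * (var 1) + num 1381 * (var 1) * (var 3)))
    (num 817 * (num 100899 + num (-7992) * (var 0) + num 999 * (var 1) + num 999 * (var 1) * (var 3)))
  td := (num 1 - num 2 * (var 0 * var 1) + var 0) * (num 1000000 * (num 328 + num (-51) * (var 1) + num (-12) * (var 3) + num (-26) * (var 1) * (var 3) + num (-260) * (var 0)))
  cn := num 1 - var 0 * var 1 - var 1 * (num 1 - num 2 * (var 0 * var 1))
  cd := (num 1 - num 2 * (var 0 * var 1)) * (num 1 - num 2 * (var 0 * var 1))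
  kn := var 0 * var 1 * (num 1215 + num 292 * (var 1) + num 1362 * (var 0) + num (-1650) * (var 3) + num 422 * (var 3) * (var 3) + num 2236 * (var 1) * (var 3) + num 199 * (var 1) * (var 1))
  kd := num 100
  k2n := var 0 * (num 1010 + num (-1162) * (var 3) + num (-291) * (var 1) + num 698 * (var 1) * (var 3) + num 340 * (var 3) * (var 3) + num (-2121) * (var 0))
  k2d := num 100

/-- Its ranges. -/
def bBin10 : EBox :=
  ⟨(21, 25, 200), (199, 600, 500), (999, 1381, 1000), (0, 1, 1)⟩

/-- The chart of bin 11. -/
def cBin11 : EndChart where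
  I := var 0 * var 1
  d := var 0
  w := var 0 * var 2
  den := num 100
  n₀ := ((num 1 - num 2 * (var 0 * var 1) - var 0) * var 1) * (num 3 + num (-3) * (var 1) + num 152 * (var 0))
  n₁ := ((num 1 - num 2 * (var 0 * var 1) - var 0) * var 1) * (num 30 + num 2 * (var 1) + num (-17) * (var 0))
  q₀ := (21, 25, 200)
  q₁ := (199, 600, 500)
  q₂ := (690, 953, 500)
  q₃ := (0, 1, 1)
  t₀ := (0, 1)
  t₁ := (1, 1)
  mu₀ := (104, 100)
  mu₁ := (323, 100)

/-- The piece of bin 11. -/
def pBin11 : Piece where
  I := var 0 * var 1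
  d := var 0
  w := var 0 * var 2
  o := (((num 1 - num 2 * (var 0 * var 1) - var 0) * var 1) * (num 3 + num (-3) * (var 1) + num 152 * (var 0)) + ((num 1 - num 2 * (var 0 * var 1) - var 0) * var 1) * (num 30 + num 2 * (var 1) + num (-17) * (var 0)) * var 3)
  den := num 100
  vn := num 2 * var 1 * ((num 3 + num (-3) * (var 1) + num 152 * (var 0)) + (num 30 + num 2 * (var 1) + num (-17) * (var 0)) * var 3)
  vs := num 1
  mu := ⟨(104, 100), (323, 100)⟩
  pn := fun b => cond b
    (num 50000 * (num 100 - (((num 1 - num 2 * (var 0 * var 1) - var 0) * var 1) * (num 3 + num (-3) * (var 1) + num 152 * (var 0)) + ((num 1 - num 2 * (var 0 * var 1) - var 0) * var 1) * (num 30 + num 2 * (var 1) + num (-17) * (var 0)) * var 3)) + num (-307819) * ((((num 1 - num 2 * (var 0 * var 1) - var 0) * var 1) * (num 3 + num (-3) * (var 1) + num 152 * (var 0)) + ((num 1 - num 2 * (var 0 * var 1) - var 0) * var 1) * (num 30 + num 2 * (var 1) + num (-17) * (var 0)) * var 3) * var 0))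
    (num 50000 * (num 100 - (((num 1 - num 2 * (var 0 * var 1) - var 0) * var 1) * (num 3 + num (-3) * (var 1) + num 152 * (var 0)) + ((num 1 - num 2 * (var 0 * var 1) - var 0) * var 1) * (num 30 + num 2 * (var 1) + num (-17) * (var 0)) * var 3)) + num (-71760) * ((((num 1 - num 2 * (var 0 * var 1) - var 0) * var 1) * (num 3 + num (-3) * (var 1) + num 152 * (var 0)) + ((num 1 - num 2 * (var 0 * var 1) - var 0) * var 1) * (num 30 + num 2 * (var 1) + num (-17) * (var 0)) * var 3) * var 0))
  pd := num 50000
  en := fun b => cond b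
    (num 1040 * (num 1493000 * (var 0) * (var 1) + num 1255500 * (var 0) * (var 0) * (var 1) + num 393589 + num 4137926 * (var 0) + num (-520000) * (var 0) * (var 1) * (var 1) + num 28000 * (var 0) * (var 1) * (var 3) + num 12389 * (var 3)))
    (num 9540 * (num 149300 * (var 0) * (var 1) + num 125550 * (var 0) * (var 0) * (var 1) + num 28497 + num 299598 * (var 0) + num (-52000) * (var 0) * (var 1) * (var 1) + num 2800 * (var 0) * (var 1) * (var 3) + num 897 * (var 3)))
  kk := fun b => cond b
    (num 1040 * (num 383106 * (var 0) + num 4399048 * (var 0) * (var 0) + num (-40979) * (var 0) * (var 1) + num 26684 * (var 0) * (var 3)))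
    (num 9530 * (num 27738 * (var 0) + num 318504 * (var 0) * (var 0) + num (-2967) * (var 0) * (var 1) + num 1932 * (var 0) * (var 3)))
  f0 := num 50000000
  wn := fun b => cond b
    (num 1000 * (num (-40000) * (var 0 * var 1) + (num 400 * (var 0 * var 1) + num 276 * var 0) * (((num 1 - num 2 * (var 0 * var 1) - var 0) * var 1) * (num 3 + num (-3) * (var 1) + num 152 * (var 0)) + ((num 1 - num 2 * (var 0 * var 1) - var 0) * var 1) * (num 30 + num 2 * (var 1) + num (-17) * (var 0)) * var 3) + var 0 * var 1 * var 0 * (num (-40000) + (num (-81900) * (var 1) + num (-34362) + num (-162100) * (var 1) * (var 0) + num 249987 * (var 0) + num 151300 * (var 1) * (var 3) + num 60306 * (var 3)))) + num 404 * (num 100 * (var 0 * var 1 * var 0) * (num 50 * (var 1) + num 69)))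
    (num 1000 * (num (-40000) * (var 0 * var 1) + (num 400 * (var 0 * var 1) + num 276 * var 0) * (((num 1 - num 2 * (var 0 * var 1) - var 0) * var 1) * (num 3 + num (-3) * (var 1) + num 152 * (var 0)) + ((num 1 - num 2 * (var 0 * var 1) - var 0) * var 1) * (num 30 + num 2 * (var 1) + num (-17) * (var 0)) * var 3) + var 0 * var 1 * var 0 * (num (-40000) + (num (-81900) * (var 1) + num (-34362) + num (-162100) * (var 1) * (var 0) + num 249987 * (var 0) + num 151300 * (var 1) * (var 3) + num 60306 * (var 3)))) + num (-6796) * (num 100 * (var 0 * var 1 * var 0) * (num 50 * (var 1) + num 69)))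
  wd := num 5000000
  tn := fun b => cond b
    (num 972 * (num 96253 + num (-8577) * (var 0) + num 953 * (var 1) * (var 3)))
    (num 8300 * (num 6969 + num (-621) * (var 0) + num 69 * (var 1) * (var 3)))
  td := (num 1 - num 2 * (var 0 * var 1) + var 0) * (num 500000 * (num 391 + num (-55) * (var 1) + num (-12) * (var 3) + num (-23) * (var 1) * (var 3) + num (-439) * (var 0)))
  cn := num 1 - var 0 * var 1 - var 1 * (num 1 - num 2 * (var 0 * var 1))
  cd := (num 1 - num 2 * (var 0 * var 1)) * (num 1 - num 2 * (var 0 * var 1))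
  kn := var 0 * var 1 * (num 1184 + num 116 * (var 1) + num 2675 * (var 0) + num (-1490) * (var 3) + num 397 * (var 3) * (var 3) + num 1824 * (var 1) * (var 3) + num 173 * (var 1) * (var 1))
  kd := num 100
  k2n := var 0 * (num 1324 + num (-1696) * (var 3) + num (-510) * (var 1) + num 1030 * (var 1) * (var 3) + num 567 * (var 3) * (var 3) + num (-2167) * (var 0))
  k2d := num 100

/-- Its ranges. -/
def bBin11 : EBox :=
  ⟨(21, 25, 200), (199, 600, 500), (690, 953, 500), (0, 1, 1)⟩

/-- The chart of bin 12. -/
def cBin12 : EndChart where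
  I := var 0 * var 1
  d := var 0
  w := var 0 * var 2
  den := num 100
  n₀ := ((num 1 - num 2 * (var 0 * var 1) - var 0) * var 1) * (num 6 + num (-4) * (var 1) + num 132 * (var 0))
  n₁ := ((num 1 - num 2 * (var 0 * var 1) - var 0) * var 1) * (num 37 + num 4 * (var 1) + num (-26) * (var 0))
  q₀ := (5, 6, 40)
  q₁ := (331, 1030, 1000)
  q₂ := (999, 1601, 1000)
  q₃ := (0, 1, 1)
  t₀ := (0, 1)
  t₁ := (1, 1)
  mu₀ := (97, 100)
  mu₁ := (342, 100)

/-- The piece of bin 12. -/
def pBin12 : Piece where
  I := var 0 * var 1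
  d := var 0
  w := var 0 * var 2
  o := (((num 1 - num 2 * (var 0 * var 1) - var 0) * var 1) * (num 6 + num (-4) * (var 1) + num 132 * (var 0)) + ((num 1 - num 2 * (var 0 * var 1) - var 0) * var 1) * (num 37 + num 4 * (var 1) + num (-26) * (var 0)) * var 3)
  den := num 100
  vn := num 2 * var 1 * ((num 6 + num (-4) * (var 1) + num 132 * (var 0)) + (num 37 + num 4 * (var 1) + num (-26) * (var 0)) * var 3)
  vs := num 1
  mu := ⟨(97, 100), (342, 100)⟩
  pn := fun b => cond b
    (num 100000 * (num 100 - (((num 1 - num 2 * (var 0 * var 1) - var 0) * var 1) * (num 6 + num (-4) * (var 1) + num 132 * (var 0)) + ((num 1 - num 2 * (var 0 * var 1) - var 0) * var 1) * (num 37 + num 4 * (var 1) + num (-26) * (var 0)) * var 3)) + num (-547542) * ((((num 1 - num 2 * (var 0 * var 1) - var 0) * var 1) * (num 6 + num (-4) * (var 1) + num 132 * (var 0)) + ((num 1 - num 2 * (var 0 * var 1) - var 0) * var 1) * (num 37 + num 4 * (var 1) + num (-26) * (var 0)) * var 3) * var 0))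
    (num 100000 * (num 100 - (((num 1 - num 2 * (var 0 * var 1) - var 0) * var 1) * (num 6 + num (-4) * (var 1) + num 132 * (var 0)) + ((num 1 - num 2 * (var 0 * var 1) - var 0) * var 1) * (num 37 + num 4 * (var 1) + num (-26) * (var 0)) * var 3)) + num (-96903) * ((((num 1 - num 2 * (var 0 * var 1) - var 0) * var 1) * (num 6 + num (-4) * (var 1) + num 132 * (var 0)) + ((num 1 - num 2 * (var 0 * var 1) - var 0) * var 1) * (num 37 + num 4 * (var 1) + num (-26) * (var 0)) * var 3) * var 0))
  pd := num 100000
  en := fun b => cond b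
    (num 1052 * (num 2227000 * (var 0) * (var 1) + num (-1178000) * (var 0) * (var 0) * (var 1) + num 706041 + num 6740210 * (var 0) + num 57000 * (var 0) * (var 1) * (var 1) + num 13000 * (var 0) * (var 1) * (var 3) + num 33621 * (var 3)))
    (num 932 * (num 2227000 * (var 0) * (var 1) + num (-1178000) * (var 0) * (var 0) * (var 1) + num 440559 + num 4205790 * (var 0) + num 57000 * (var 0) * (var 1) * (var 1) + num 13000 * (var 0) * (var 1) * (var 3) + num 20979 * (var 3)))
  kk := fun b => cond b
    (num 1047 * (num 656410 * (var 0) + num 6733806 * (var 0) * (var 0) + num 32020 * (var 0) * (var 1) + num 60838 * (var 0) * (var 3)))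
    (num 944 * (num 409590 * (var 0) + num 4201794 * (var 0) * (var 0) + num 19980 * (var 0) * (var 1) + num 37962 * (var 0) * (var 3)))
  f0 := num 100000000
  wn := fun b => cond b
    (num 1000 * (num (-800000) * (var 0 * var 1) + (num 8000 * (var 0 * var 1) + num 3996 * var 0) * (((num 1 - num 2 * (var 0 * var 1) - var 0) * var 1) * (num 6 + num (-4) * (var 1) + num 132 * (var 0)) + ((num 1 - num 2 * (var 0 * var 1) - var 0) * var 1) * (num 37 + num 4 * (var 1) + num (-26) * (var 0)) * var 3) + var 0 * var 1 * var 0 * (num (-800000) + (num (-1183000) * (var 1) + num (-435564) + num (-6505000) * (var 1) * (var 0) + num 3072924 * (var 0) + num 2897000 * (var 1) * (var 3) + num 1060938 * (var 3)))) + num 212 * (num 100 * (var 0 * var 1 * var 0) * (num 1000 * (var 1) + num 999)))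
    (num 1000 * (num (-800000) * (var 0 * var 1) + (num 8000 * (var 0 * var 1) + num 3996 * var 0) * (((num 1 - num 2 * (var 0 * var 1) - var 0) * var 1) * (num 6 + num (-4) * (var 1) + num 132 * (var 0)) + ((num 1 - num 2 * (var 0 * var 1) - var 0) * var 1) * (num 37 + num 4 * (var 1) + num (-26) * (var 0)) * var 3) + var 0 * var 1 * var 0 * (num (-800000) + (num (-1183000) * (var 1) + num (-435564) + num (-6505000) * (var 1) * (var 0) + num 3072924 * (var 0) + num 2897000 * (var 1) * (var 3) + num 1060938 * (var 3)))) + num (-7294) * (num 100 * (var 0 * var 1 * var 0) * (num 1000 * (var 1) + num 999)))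
  wd := num 100000000
  tn := fun b => cond b
    (num 983 * (num 163302 + num (-19212) * (var 0) + num 1601 * (var 1) * (var 3)))
    (num 848 * (num 101898 + num (-11988) * (var 0) + num 999 * (var 1) * (var 3)))
  td := (num 1 - num 2 * (var 0 * var 1) + var 0) * (num 1000000 * (num 348 + num (-56) * (var 1) + num (-13) * (var 3) + num (-27) * (var 1) * (var 3) + num (-295) * (var 0)))
  cn := num 1 - var 0 * var 1 - var 1 * (num 1 - num 2 * (var 0 * var 1))
  cd := (num 1 - num 2 * (var 0 * var 1)) * (num 1 - num 2 * (var 0 * var 1))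
  kn := var 0 * var 1 * (num 1055 + num 509 * (var 1) + num 2673 * (var 0) + num (-1744) * (var 3) + num 807 * (var 3) * (var 3) + num 2543 * (var 1) * (var 3) + num (-16) * (var 1) * (var 1))
  kd := num 100
  k2n := var 0 * (num 1504 + num (-1936) * (var 3) + num (-897) * (var 1) + num 1277 * (var 1) * (var 3) + num 686 * (var 3) * (var 3) + num (-1110) * (var 0))
  k2d := num 100

/-- Its ranges. -/
def bBin12 : EBox :=
  ⟨(5, 6, 40), (331, 1030, 1000), (999, 1601, 1000), (0, 1, 1)⟩

/-- The chart of bin 13. -/
def cBin13 : EndChart where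
  I := var 0 * var 1
  d := var 0
  w := var 0 * var 2
  den := num 100
  n₀ := ((num 1 - num 2 * (var 0 * var 1) - var 0) * var 1) * (num 9 + num (-7) * (var 1) + num 123 * (var 0))
  n₁ := ((num 1 - num 2 * (var 0 * var 1) - var 0) * var 1) * (num 32 + num 10 * (var 1) + num (-23) * (var 0))
  q₀ := (75, 86, 500)
  q₁ := (72, 193, 250)
  q₂ := (999, 1334, 1000)
  q₃ := (0, 1, 1)
  t₀ := (0, 1)
  t₁ := (1, 1)
  mu₀ := (108, 100)
  mu₁ := (322, 100)

/-- The piece of bin 13. -/
def pBin13 : Piece where
  I := var 0 * var 1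
  d := var 0
  w := var 0 * var 2
  o := (((num 1 - num 2 * (var 0 * var 1) - var 0) * var 1) * (num 9 + num (-7) * (var 1) + num 123 * (var 0)) + ((num 1 - num 2 * (var 0 * var 1) - var 0) * var 1) * (num 32 + num 10 * (var 1) + num (-23) * (var 0)) * var 3)
  den := num 100
  vn := num 2 * var 1 * ((num 9 + num (-7) * (var 1) + num 123 * (var 0)) + (num 32 + num 10 * (var 1) + num (-23) * (var 0)) * var 3)
  vs := num 1
  mu := ⟨(108, 100), (322, 100)⟩
  pn := fun b => cond b
    (num 100000 * (num 100 - (((num 1 - num 2 * (var 0 * var 1) - var 0) * var 1) * (num 9 + num (-7) * (var 1) + num 123 * (var 0)) + ((num 1 - num 2 * (var 0 * var 1) - var 0) * var 1) * (num 32 + num 10 * (var 1) + num (-23) * (var 0)) * var 3)) + num (-429548) * ((((num 1 - num 2 * (var 0 * var 1) - var 0) * var 1) * (num 9 + num (-7) * (var 1) + num 123 * (var 0)) + ((num 1 - num 2 * (var 0 * var 1) - var 0) * var 1) * (num 32 + num 10 * (var 1) + num (-23) * (var 0)) * var 3) * var 0))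
    (num 100000 * (num 100 - (((num 1 - num 2 * (var 0 * var 1) - var 0) * var 1) * (num 9 + num (-7) * (var 1) + num 123 * (var 0)) + ((num 1 - num 2 * (var 0 * var 1) - var 0) * var 1) * (num 32 + num 10 * (var 1) + num (-23) * (var 0)) * var 3)) + num (-107892) * ((((num 1 - num 2 * (var 0 * var 1) - var 0) * var 1) * (num 9 + num (-7) * (var 1) + num 123 * (var 0)) + ((num 1 - num 2 * (var 0 * var 1) - var 0) * var 1) * (num 32 + num 10 * (var 1) + num (-23) * (var 0)) * var 3) * var 0))
  pd := num 100000
  en := fun b => cond b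
    (num 2086 * (num 1285500 * (var 0) * (var 1) + num (-1276000) * (var 0) * (var 0) * (var 1) + num 338169 + num 2349841 * (var 0) + num 289000 * (var 0) * (var 1) * (var 1) + num 70000 * (var 0) * (var 1) * (var 3) + num 8004 * (var 3)))
    (num 945 * (num 2571000 * (var 0) * (var 1) + num (-2552000) * (var 0) * (var 0) * (var 1) + num 506493 + num 3519477 * (var 0) + num 578000 * (var 0) * (var 1) * (var 1) + num 140000 * (var 0) * (var 1) * (var 3) + num 11988 * (var 3)))
  kk := fun b => cond b
    (num 2074 * (num 294147 * (var 0) + num 2431215 * (var 0) * (var 0) + num 81374 * (var 0) * (var 1) + num 21344 * (var 0) * (var 3)))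
    (num 958 * (num 440559 * (var 0) + num 3641355 * (var 0) * (var 0) + num 121878 * (var 0) * (var 1) + num 31968 * (var 0) * (var 3)))
  f0 := num 100000000
  wn := fun b => cond b
    (num 1000 * (num (-800000) * (var 0 * var 1) + (num 8000 * (var 0 * var 1) + num 3996 * var 0) * (((num 1 - num 2 * (var 0 * var 1) - var 0) * var 1) * (num 9 + num (-7) * (var 1) + num 123 * (var 0)) + ((num 1 - num 2 * (var 0 * var 1) - var 0) * var 1) * (num 32 + num 10 * (var 1) + num (-23) * (var 0)) * var 3) + var 0 * var 1 * var 0 * (num (-800000) + (num (-1564000) * (var 1) + num (-170829) + num (-3486000) * (var 1) * (var 0) + num 1213785 * (var 0) + num 3055000 * (var 1) * (var 3) + num 695304 * (var 3)))) + num 227 * (num 100 * (var 0 * var 1 * var 0) * (num 1000 * (var 1) + num 999)))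
    (num 1000 * (num (-800000) * (var 0 * var 1) + (num 8000 * (var 0 * var 1) + num 3996 * var 0) * (((num 1 - num 2 * (var 0 * var 1) - var 0) * var 1) * (num 9 + num (-7) * (var 1) + num 123 * (var 0)) + ((num 1 - num 2 * (var 0 * var 1) - var 0) * var 1) * (num 32 + num 10 * (var 1) + num (-23) * (var 0)) * var 3) + var 0 * var 1 * var 0 * (num (-800000) + (num (-1564000) * (var 1) + num (-170829) + num (-3486000) * (var 1) * (var 0) + num 1213785 * (var 0) + num 3055000 * (var 1) * (var 3) + num 695304 * (var 3)))) + num (-5693) * (num 100 * (var 0 * var 1 * var 0) * (num 1000 * (var 1) + num 999)))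
  wd := num 100000000
  tn := fun b => cond b
    (num 2088 * (num 68034 + num (-9338) * (var 0) + num 667 * (var 1) * (var 3)))
    (num 905 * (num 101898 + num (-13986) * (var 0) + num 999 * (var 1) * (var 3)))
  td := (num 1 - num 2 * (var 0 * var 1) + var 0) * (num 1000000 * (num 330 + num (-60) * (var 1) + num (-6) * (var 3) + num (-30) * (var 1) * (var 3) + num (-229) * (var 0)))
  cn := num 1 - var 0 * var 1 - var 1 * (num 1 - num 2 * (var 0 * var 1))
  cd := (num 1 - num 2 * (var 0 * var 1)) * (num 1 - num 2 * (var 0 * var 1))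
  kn := var 0 * var 1 * (num 1070 + num 275 * (var 1) + num 1399 * (var 0) + num (-1290) * (var 3) + num 221 * (var 3) * (var 3) + num 2232 * (var 1) * (var 3) + num 407 * (var 1) * (var 1))
  kd := num 100
  k2n := var 0 * (num 1134 + num (-1388) * (var 3) + num (-1149) * (var 1) + num 1307 * (var 1) * (var 3) + num 398 * (var 3) * (var 3) + num 8 * (var 0))
  k2d := num 100

/-- Its ranges. -/
def bBin13 : EBox :=
  ⟨(75, 86, 500), (72, 193, 250), (999, 1334, 1000), (0, 1, 1)⟩

/-- The chart of bin 14. -/
def cBin14 : EndChart where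
  I := var 0 * var 1
  d := var 0
  w := var 0 * var 2
  den := num 100
  n₀ := ((num 1 - num 2 * (var 0 * var 1) - var 0) * var 1) * (num 21 + num (-4) * (var 1) + num 58 * (var 0))
  n₁ := ((num 1 - num 2 * (var 0 * var 1) - var 0) * var 1) * (num 26 + num 7 * (var 1) + num 10 * (var 0))
  q₀ := (43, 50, 250)
  q₁ := (124, 305, 500)
  q₂ := (999, 1164, 1000)
  q₃ := (0, 1, 1)
  t₀ := (0, 1)
  t₁ := (1, 1)
  mu₀ := (126, 100)
  mu₁ := (316, 100)

/-- The piece of bin 14. -/
def pBin14 : Piece where
  I := var 0 * var 1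
  d := var 0
  w := var 0 * var 2
  o := (((num 1 - num 2 * (var 0 * var 1) - var 0) * var 1) * (num 21 + num (-4) * (var 1) + num 58 * (var 0)) + ((num 1 - num 2 * (var 0 * var 1) - var 0) * var 1) * (num 26 + num 7 * (var 1) + num 10 * (var 0)) * var 3)
  den := num 100
  vn := num 2 * var 1 * ((num 21 + num (-4) * (var 1) + num 58 * (var 0)) + (num 26 + num 7 * (var 1) + num 10 * (var 0)) * var 3)
  vs := num 1
  mu := ⟨(126, 100), (316, 100)⟩
  pn := fun b => cond b
    (num 100000 * (num 100 - (((num 1 - num 2 * (var 0 * var 1) - var 0) * var 1) * (num 21 + num (-4) * (var 1) + num 58 * (var 0)) + ((num 1 - num 2 * (var 0 * var 1) - var 0) * var 1) * (num 26 + num 7 * (var 1) + num 10 * (var 0)) * var 3)) + num (-367824) * ((((num 1 - num 2 * (var 0 * var 1) - var 0) * var 1) * (num 21 + num (-4) * (var 1) + num 58 * (var 0)) + ((num 1 - num 2 * (var 0 * var 1) - var 0) * var 1) * (num 26 + num 7 * (var 1) + num 10 * (var 0)) * var 3) * var 0))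
    (num 100000 * (num 100 - (((num 1 - num 2 * (var 0 * var 1) - var 0) * var 1) * (num 21 + num (-4) * (var 1) + num 58 * (var 0)) + ((num 1 - num 2 * (var 0 * var 1) - var 0) * var 1) * (num 26 + num 7 * (var 1) + num 10 * (var 0)) * var 3)) + num (-125874) * ((((num 1 - num 2 * (var 0 * var 1) - var 0) * var 1) * (num 21 + num (-4) * (var 1) + num 58 * (var 0)) + ((num 1 - num 2 * (var 0 * var 1) - var 0) * var 1) * (num 26 + num 7 * (var 1) + num 10 * (var 0)) * var 3) * var 0))
  pd := num 100000
  en := fun b => cond b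
    (num 4136 * (num 967250 * (var 0) * (var 1) + num (-774000) * (var 0) * (var 0) * (var 1) + num 172563 + num 770568 * (var 0) + num (-20000) * (var 0) * (var 1) * (var 1) + num 55000 * (var 0) * (var 1) * (var 3) + num 1455 * (var 3)))
    (num 959 * (num 3869000 * (var 0) * (var 1) + num (-3096000) * (var 0) * (var 0) * (var 1) + num 592407 + num 2645352 * (var 0) + num (-80000) * (var 0) * (var 1) * (var 1) + num 220000 * (var 0) * (var 1) * (var 3) + num 4995 * (var 3)))
  kk := fun b => cond b
    (num 4116 * (num 145209 * (var 0) + num 887841 * (var 0) * (var 0) + num 69258 * (var 0) * (var 1) + num 8148 * (var 0) * (var 3)))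
    (num 965 * (num 498501 * (var 0) + num 3047949 * (var 0) * (var 0) + num 237762 * (var 0) * (var 1) + num 27972 * (var 0) * (var 3)))
  f0 := num 100000000
  wn := fun b => cond b
    (num 1000 * (num (-800000) * (var 0 * var 1) + (num 8000 * (var 0 * var 1) + num 3996 * var 0) * (((num 1 - num 2 * (var 0 * var 1) - var 0) * var 1) * (num 21 + num (-4) * (var 1) + num 58 * (var 0)) + ((num 1 - num 2 * (var 0 * var 1) - var 0) * var 1) * (num 26 + num 7 * (var 1) + num 10 * (var 0)) * var 3) + var 0 * var 1 * var 0 * (num (-800000) + (num (-443000) * (var 1) + num (-51948) + num (-6816000) * (var 1) * (var 0) + num 112887 * (var 0) + num 2617000 * (var 1) * (var 3) + num 694305 * (var 3)))) + num 318 * (num 100 * (var 0 * var 1 * var 0) * (num 1000 * (var 1) + num 999)))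
    (num 1000 * (num (-800000) * (var 0 * var 1) + (num 8000 * (var 0 * var 1) + num 3996 * var 0) * (((num 1 - num 2 * (var 0 * var 1) - var 0) * var 1) * (num 21 + num (-4) * (var 1) + num 58 * (var 0)) + ((num 1 - num 2 * (var 0 * var 1) - var 0) * var 1) * (num 26 + num 7 * (var 1) + num 10 * (var 0)) * var 3) + var 0 * var 1 * var 0 * (num (-800000) + (num (-443000) * (var 1) + num (-51948) + num (-6816000) * (var 1) * (var 0) + num 112887 * (var 0) + num 2617000 * (var 1) * (var 3) + num 694305 * (var 3)))) + num (-4387) * (num 100 * (var 0 * var 1 * var 0) * (num 1000 * (var 1) + num 999)))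
  wd := num 100000000
  tn := fun b => cond b
    (num 4364 * (num 29973 + num (-4656) * (var 0)))
    (num 934 * (num 102897 + num (-15984) * (var 0)))
  td := (num 1 - num 2 * (var 0 * var 1) + var 0) * (num 1000000 * (num 313 + num (-70) * (var 1) + num (-5) * (var 3) + num (-27) * (var 1) * (var 3) + num (-156) * (var 0)))
  cn := num 1 - var 0 * var 1 - var 1 * (num 1 - num 2 * (var 0 * var 1))
  cd := (num 1 - num 2 * (var 0 * var 1)) * (num 1 - num 2 * (var 0 * var 1))
  kn := var 0 * var 1 * (num 830 + num 654 * (var 1) + num 1061 * (var 0) + num (-991) * (var 3) + num 69 * (var 3) * (var 3) + num 1770 * (var 1) * (var 3) + num 493 * (var 1) * (var 1))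
  kd := num 100
  k2n := var 0 * (num 939 + num (-988) * (var 3) + num (-1314) * (var 1) + num 1251 * (var 1) * (var 3) + num 234 * (var 3) * (var 3) + num 73 * (var 0))
  k2d := num 100

/-- Its ranges. -/
def bBin14 : EBox :=
  ⟨(43, 50, 250), (124, 305, 500), (999, 1164, 1000), (0, 1, 1)⟩

end Vale.Agent.P100.Calib.StripEndD
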