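import Vale.Agent.P100.Calib.SlabStripEndCData
import Vale.Agent.P100.Calib.SlabStripEndCBin

/-!
# The pieces of the bins lie over their charts
-/

namespace Vale.Agent.P100.Calib.StripEndD

open Pack hiding ev_add ev_mul
open Pack.Ex StripMid StripEnd

local instance endCOverAdd : Add Ex := ⟨Ex.add⟩
local instance endCOverSub : Sub Ex := ⟨Ex.sub⟩
local instance endCOverMul : Mul Ex := ⟨Ex.mul⟩

/-- The piece of bin 0 over its chart. -/
theorem pBin0_over : pBin0.Over cBin0 :=
  ⟨fun _ => rfl, fun _ => rfl, fun _ => rfl, fun _ => rfl,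
    fun x => by simp only [pBin0, cBin0, ev_add, ev_mul, Ex.eval],
    fun x => by
      simp only [pBin0, Piece.A, Piece.S, ev_add, ev_sub, ev_mul, Ex.eval]; push_cast; ring,
    rfl, rfl⟩

/-- The piece of bin 1 over its chart. -/
theorem pBin1_over : pBin1.Over cBin1 :=
  ⟨fun _ => rfl, fun _ => rfl, fun _ => rfl, fun _ => rfl,
    fun x => by simp only [pBin1, cBin1, ev_add, ev_mul, Ex.eval],
    fun x => by
      simp only [pBin1, Piece.A, Piece.S, ev_add, ev_sub, ev_mul, Ex.eval]; push_cast; ring,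
    rfl, rfl⟩

/-- The piece of bin 2 over its chart. -/
theorem pBin2_over : pBin2.Over cBin2 :=
  ⟨fun _ => rfl, fun _ => rfl, fun _ => rfl, fun _ => rfl,
    fun x => by simp only [pBin2, cBin2, ev_add, ev_mul, Ex.eval],
    fun x => by
      simp only [pBin2, Piece.A, Piece.S, ev_add, ev_sub, ev_mul, Ex.eval]; push_cast; ring,
    rfl, rfl⟩

/-- The piece of bin 3 over its chart. -/
theorem pBin3_over : pBin3.Over cBin3 :=
  ⟨fun _ => rfl, fun _ => rfl, fun _ => rfl, fun _ => rfl,
    fun x => by simp only [pBin3, cBin3, ev_add, ev_mul, Ex.eval],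
    fun x => by
      simp only [pBin3, Piece.A, Piece.S, ev_add, ev_sub, ev_mul, Ex.eval]; push_cast; ring,
    rfl, rfl⟩

/-- The piece of bin 4 over its chart. -/
theorem pBin4_over : pBin4.Over cBin4 :=
  ⟨fun _ => rfl, fun _ => rfl, fun _ => rfl, fun _ => rfl,
    fun x => by simp only [pBin4, cBin4, ev_add, ev_mul, Ex.eval],
    fun x => by
      simp only [pBin4, Piece.A, Piece.S, ev_add, ev_sub, ev_mul, Ex.eval]; push_cast; ring,
    rfl, rfl⟩

/-- The piece of bin 5 over its chart. -/
theorem pBin5_over : pBin5.Over cBin5 :=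
  ⟨fun _ => rfl, fun _ => rfl, fun _ => rfl, fun _ => rfl,
    fun x => by simp only [pBin5, cBin5, ev_add, ev_mul, Ex.eval],
    fun x => by
      simp only [pBin5, Piece.A, Piece.S, ev_add, ev_sub, ev_mul, Ex.eval]; push_cast; ring,
    rfl, rfl⟩

/-- The piece of bin 6 over its chart. -/
theorem pBin6_over : pBin6.Over cBin6 :=
  ⟨fun _ => rfl, fun _ => rfl, fun _ => rfl, fun _ => rfl,
    fun x => by simp only [pBin6, cBin6, ev_add, ev_mul, Ex.eval],
    fun x => by
      simp only [pBin6, Piece.A, Piece.S, ev_add, ev_sub, ev_mul, Ex.eval]; push_cast; ring,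
    rfl, rfl⟩

/-- The piece of bin 7 over its chart. -/
theorem pBin7_over : pBin7.Over cBin7 :=
  ⟨fun _ => rfl, fun _ => rfl, fun _ => rfl, fun _ => rfl,
    fun x => by simp only [pBin7, cBin7, ev_add, ev_mul, Ex.eval],
    fun x => by
      simp only [pBin7, Piece.A, Piece.S, ev_add, ev_sub, ev_mul, Ex.eval]; push_cast; ring,
    rfl, rfl⟩

/-- The piece of bin 8 over its chart. -/
theorem pBin8_over : pBin8.Over cBin8 :=
  ⟨fun _ => rfl, fun _ => rfl, fun _ => rfl, fun _ => rfl,
    fun x => by simp only [pBin8, cBin8, ev_add, ev_mul, Ex.eval],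
    fun x => by
      simp only [pBin8, Piece.A, Piece.S, ev_add, ev_sub, ev_mul, Ex.eval]; push_cast; ring,
    rfl, rfl⟩

/-- The piece of bin 9 over its chart. -/
theorem pBin9_over : pBin9.Over cBin9 :=
  ⟨fun _ => rfl, fun _ => rfl, fun _ => rfl, fun _ => rfl,
    fun x => by simp only [pBin9, cBin9, ev_add, ev_mul, Ex.eval],
    fun x => by
      simp only [pBin9, Piece.A, Piece.S, ev_add, ev_sub, ev_mul, Ex.eval]; push_cast; ring,
    rfl, rfl⟩

/-- The piece of bin 10 over its chart. -/
theorem pBin10_over : pBin10.Over cBin10 :=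
  ⟨fun _ => rfl, fun _ => rfl, fun _ => rfl, fun _ => rfl,
    fun x => by simp only [pBin10, cBin10, ev_add, ev_mul, Ex.eval],
    fun x => by
      simp only [pBin10, Piece.A, Piece.S, ev_add, ev_sub, ev_mul, Ex.eval]; push_cast; ring,
    rfl, rfl⟩

/-- The piece of bin 11 over its chart. -/
theorem pBin11_over : pBin11.Over cBin11 :=
  ⟨fun _ => rfl, fun _ => rfl, fun _ => rfl, fun _ => rfl,
    fun x => by simp only [pBin11, cBin11, ev_add, ev_mul, Ex.eval],
    fun x => by
      simp only [pBin11, Piece.A, Piece.S, ev_add, ev_sub, ev_mul, Ex.eval]; push_cast; ring,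
    rfl, rfl⟩

/-- The piece of bin 12 over its chart. -/
theorem pBin12_over : pBin12.Over cBin12 :=
  ⟨fun _ => rfl, fun _ => rfl, fun _ => rfl, fun _ => rfl,
    fun x => by simp only [pBin12, cBin12, ev_add, ev_mul, Ex.eval],
    fun x => by
      simp only [pBin12, Piece.A, Piece.S, ev_add, ev_sub, ev_mul, Ex.eval]; push_cast; ring,
    rfl, rfl⟩

/-- The piece of bin 13 over its chart. -/
theorem pBin13_over : pBin13.Over cBin13 :=
  ⟨fun _ => rfl, fun _ => rfl, fun _ => rfl, fun _ => rfl,
    fun x => by simp only [pBin13, cBin13, ev_add, ev_mul, Ex.eval],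
    fun x => by
      simp only [pBin13, Piece.A, Piece.S, ev_add, ev_sub, ev_mul, Ex.eval]; push_cast; ring,
    rfl, rfl⟩

/-- The piece of bin 14 over its chart. -/
theorem pBin14_over : pBin14.Over cBin14 :=
  ⟨fun _ => rfl, fun _ => rfl, fun _ => rfl, fun _ => rfl,
    fun x => by simp only [pBin14, cBin14, ev_add, ev_mul, Ex.eval],
    fun x => by
      simp only [pBin14, Piece.A, Piece.S, ev_add, ev_sub, ev_mul, Ex.eval]; push_cast; ring,
    rfl, rfl⟩

end Vale.Agent.P100.Calib.StripEndD
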