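import Vale.Agent.P100.Calib.SlabStripEndCWin
import Vale.Agent.P100.Calib.SlabStripEndCOver
import Vale.Agent.P100.Calib.SlabStripEndCCheck0
import Vale.Agent.P100.Calib.SlabStripEndCCheck1
import Vale.Agent.P100.Calib.SlabStripEndCCheck2
import Vale.Agent.P100.Calib.SlabStripEndCCheck3
import Vale.Agent.P100.Calib.SlabStripEndCCheck4
import Vale.Agent.P100.Calib.SlabStripEndCCheck5
import Vale.Agent.P100.Calib.SlabStripEndCCheck6
import Vale.Agent.P100.Calib.SlabStripEndCCheck7
import Vale.Agent.P100.Calib.SlabStripEndCCheck8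
import Vale.Agent.P100.Calib.SlabStripEndCCheck9
import Vale.Agent.P100.Calib.SlabStripEndCCheck10
import Vale.Agent.P100.Calib.SlabStripEndCCheck11
import Vale.Agent.P100.Calib.SlabStripEndCCheck12
import Vale.Agent.P100.Calib.SlabStripEndCCheck13
import Vale.Agent.P100.Calib.SlabStripEndCCheck14

/-!
# The `C` charts for `N` between seven and twenty
-/

set_option linter.unusedVariables false

namespace Vale.Agent.P100.Calib.StripEndD

open Pack hiding ev_add ev_mul
open Pack.Ex Band StripMid StripEnd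

local instance endCSignsAdd : Add Ex := ⟨Ex.add⟩
local instance endCSignsSub : Sub Ex := ⟨Ex.sub⟩
local instance endCSignsMul : Mul Ex := ⟨Ex.mul⟩

/-- The bin 0. -/
theorem bin0 : Bin cBin0 pBin0 bBin0 :=
  ⟨cBin0_ok, pBin0_cert, pBin0_over, ⟨rfl, rfl, rfl, rfl⟩, rfl, rfl, rfl, rfl, rfl, rfl, rfl, rfl⟩

/-- The bin 1. -/
theorem bin1 : Bin cBin1 pBin1 bBin1 :=
  ⟨cBin1_ok, pBin1_cert, pBin1_over, ⟨rfl, rfl, rfl, rfl⟩, rfl, rfl, rfl, rfl, rfl, rfl, rfl, rfl⟩

/-- The bin 2. -/
theorem bin2 : Bin cBin2 pBin2 bBin2 :=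
  ⟨cBin2_ok, pBin2_cert, pBin2_over, ⟨rfl, rfl, rfl, rfl⟩, rfl, rfl, rfl, rfl, rfl, rfl, rfl, rfl⟩

/-- The bin 3. -/
theorem bin3 : Bin cBin3 pBin3 bBin3 :=
  ⟨cBin3_ok, pBin3_cert, pBin3_over, ⟨rfl, rfl, rfl, rfl⟩, rfl, rfl, rfl, rfl, rfl, rfl, rfl, rfl⟩

/-- The bin 4. -/
theorem bin4 : Bin cBin4 pBin4 bBin4 :=
  ⟨cBin4_ok, pBin4_cert, pBin4_over, ⟨rfl, rfl, rfl, rfl⟩, rfl, rfl, rfl, rfl, rfl, rfl, rfl, rfl⟩

/-- The bin 5. -/
theorem bin5 : Bin cBin5 pBin5 bBin5 :=
  ⟨cBin5_ok, pBin5_cert, pBin5_over, ⟨rfl, rfl, rfl, rfl⟩, rfl, rfl, rfl, rfl, rfl, rfl, rfl, rfl⟩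

/-- The bin 6. -/
theorem bin6 : Bin cBin6 pBin6 bBin6 :=
  ⟨cBin6_ok, pBin6_cert, pBin6_over, ⟨rfl, rfl, rfl, rfl⟩, rfl, rfl, rfl, rfl, rfl, rfl, rfl, rfl⟩

/-- The bin 7. -/
theorem bin7 : Bin cBin7 pBin7 bBin7 :=
  ⟨cBin7_ok, pBin7_cert, pBin7_over, ⟨rfl, rfl, rfl, rfl⟩, rfl, rfl, rfl, rfl, rfl, rfl, rfl, rfl⟩

/-- The bin 8. -/
theorem bin8 : Bin cBin8 pBin8 bBin8 :=
  ⟨cBin8_ok, pBin8_cert, pBin8_over, ⟨rfl, rfl, rfl, rfl⟩, rfl, rfl, rfl, rfl, rfl, rfl, rfl, rfl⟩

/-- The bin 9. -/
theorem bin9 : Bin cBin9 pBin9 bBin9 :=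
  ⟨cBin9_ok, pBin9_cert, pBin9_over, ⟨rfl, rfl, rfl, rfl⟩, rfl, rfl, rfl, rfl, rfl, rfl, rfl, rfl⟩

/-- The bin 10. -/
theorem bin10 : Bin cBin10 pBin10 bBin10 :=
  ⟨cBin10_ok, pBin10_cert, pBin10_over, ⟨rfl, rfl, rfl, rfl⟩, rfl, rfl, rfl, rfl, rfl, rfl, rfl, rfl⟩

/-- The bin 11. -/
theorem bin11 : Bin cBin11 pBin11 bBin11 :=
  ⟨cBin11_ok, pBin11_cert, pBin11_over, ⟨rfl, rfl, rfl, rfl⟩, rfl, rfl, rfl, rfl, rfl, rfl, rfl, rfl⟩

/-- The bin 12. -/
theorem bin12 : Bin cBin12 pBin12 bBin12 :=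
  ⟨cBin12_ok, pBin12_cert, pBin12_over, ⟨rfl, rfl, rfl, rfl⟩, rfl, rfl, rfl, rfl, rfl, rfl, rfl, rfl⟩

/-- The bin 13. -/
theorem bin13 : Bin cBin13 pBin13 bBin13 :=
  ⟨cBin13_ok, pBin13_cert, pBin13_over, ⟨rfl, rfl, rfl, rfl⟩, rfl, rfl, rfl, rfl, rfl, rfl, rfl, rfl⟩

/-- The bin 14. -/
theorem bin14 : Bin cBin14 pBin14 bBin14 :=
  ⟨cBin14_ok, pBin14_cert, pBin14_over, ⟨rfl, rfl, rfl, rfl⟩, rfl, rfl, rfl, rfl, rfl, rfl, rfl, rfl⟩

/-- The signs over the bins. -/
theorem cbins_signs {n : ℕ} {a b u v t H : ℝ} (hb : Closed.All.ChartBox n (b - a) (a + b))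
    (hF : Closed.All.ChartFacts (b - a) (a + b) u v t)
    (hH : Closed.chH (b - a) (a + b) u v t = H) (hB : EndBands7 a b u v H) (hk : DHigh a b)
    (hI0 : 1 / 20 < allStabI a b) (hI1 : allStabI a b ≤ 1 / 7) (hw : 1 - u ≤ 1 / 5)
    (hdw : b - a ≤ 1 - u) : Closed.Strip.ChartSigns (b - a) (a + b) u v t := by
  obtain ⟨hI, hd, -, eS, hcap⟩ := end_facts7 hB
  have hk' : (1 - 2 * allStabI a b) * allStabI a b ≤ (b - a) * (1 - allStabI a b) := eS ▸ hk
  have hlo : 46 / 1000 < b - a := by
    by_contra hc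
    rw [not_lt] at hc
    nlinarith [mul_le_mul_of_nonneg_right hc (show (0 : ℝ) ≤ 1 - allStabI a b by linarith),
      mul_nonneg (sub_nonneg.2 hI0.le) (sub_nonneg.2 hI1)]
  rcases le_or_gt (b - a) (6 / 100) with h0 | h0
  · have hs := si_le (k := 109 / 100) (p := 762 / 10000) hk' h0 hI hI1 (by norm_num) (by norm_num)
      (by norm_num) (by norm_num) (by norm_num)
    rcases le_or_gt (1 - u) ((1043 / 500 : ℝ) * (b - a)) with w0 | w0
    · refine bin0.signs hb hF hH hB hk ⟨by norm_num [cBin0], ?_, ?_⟩ ?_ ?_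
      · norm_num [cBin0]; linarith
      · norm_num [cBin0]; linarith
      · exact inU_div hd (by norm_num [cBin0]) (by norm_num [cBin0]; linarith)
          (by norm_num [cBin0]; linarith)
      · exact inU_div hd (by norm_num [cBin0]) (by norm_num [cBin0]; linarith)
          (by norm_num [cBin0]; linarith)
    rcases le_or_gt (1 - u) ((31 / 10 : ℝ) * (b - a)) with w1 | w1
    · refine bin1.signs hb hF hH hB hk ⟨by norm_num [cBin1], ?_, ?_⟩ ?_ ?_
      · norm_num [cBin1]; linarith
      · norm_num [cBin1]; linarith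
      · exact inU_div hd (by norm_num [cBin1]) (by norm_num [cBin1]; linarith)
          (by norm_num [cBin1]; linarith)
      · exact inU_div hd (by norm_num [cBin1]) (by norm_num [cBin1]; linarith)
          (by norm_num [cBin1]; linarith)
    rcases le_or_gt (b - a) (53 / 1000 : ℝ) with d1 | d1
    · refine bin2.signs hb hF hH hB hk ⟨by norm_num [cBin2], ?_, ?_⟩ ?_ ?_
      · norm_num [cBin2]; linarith
      · norm_num [cBin2]; linarith
      · exact inU_div hd (by norm_num [cBin2]) (by norm_num [cBin2]; linarith)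
          (by norm_num [cBin2]; linarith)
      · exact inU_div hd (by norm_num [cBin2]) (by norm_num [cBin2]; linarith)
          (by norm_num [cBin2]; linarith)
    · refine bin3.signs hb hF hH hB hk ⟨by norm_num [cBin3], ?_, ?_⟩ ?_ ?_
      · norm_num [cBin3]; linarith
      · norm_num [cBin3]; linarith
      · exact inU_div hd (by norm_num [cBin3]) (by norm_num [cBin3]; linarith)
          (by norm_num [cBin3]; linarith)
      · exact inU_div hd (by norm_num [cBin3]) (by norm_num [cBin3]; linarith)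
          (by norm_num [cBin3]; linarith)
  rcases le_or_gt (b - a) (75 / 1000) with h4 | h4
  · have hs := si_le (k := 553 / 500) (p := 874 / 10000) hk' h4 hI hI1 (by norm_num) (by norm_num)
      (by norm_num) (by norm_num) (by norm_num)
    rcases le_or_gt (1 - u) ((1827 / 1000 : ℝ) * (b - a)) with w0 | w0
    · refine bin4.signs hb hF hH hB hk ⟨by norm_num [cBin4], ?_, ?_⟩ ?_ ?_
      · norm_num [cBin4]; linarith
      · norm_num [cBin4]; linarith
      · exact inU_div hd (by norm_num [cBin4]) (by norm_num [cBin4]; linarith)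
          (by norm_num [cBin4]; linarith)
      · exact inU_div hd (by norm_num [cBin4]) (by norm_num [cBin4]; linarith)
          (by norm_num [cBin4]; linarith)
    · refine bin5.signs hb hF hH hB hk ⟨by norm_num [cBin5], ?_, ?_⟩ ?_ ?_
      · norm_num [cBin5]; linarith
      · norm_num [cBin5]; linarith
      · exact inU_div hd (by norm_num [cBin5]) (by norm_num [cBin5]; linarith)
          (by norm_num [cBin5]; linarith)
      · exact inU_div hd (by norm_num [cBin5]) (by norm_num [cBin5]; linarith)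
          (by norm_num [cBin5]; linarith)
  rcases le_or_gt (b - a) (9 / 100) with h6 | h6
  · have hs := si_le (k := 567 / 500) (p := 1056 / 10000) hk' h6 hI hI1 (by norm_num) (by norm_num)
      (by norm_num) (by norm_num) (by norm_num)
    rcases le_or_gt (1 - u) ((817 / 500 : ℝ) * (b - a)) with w0 | w0
    · refine bin6.signs hb hF hH hB hk ⟨by norm_num [cBin6], ?_, ?_⟩ ?_ ?_
      · norm_num [cBin6]; linarith
      · norm_num [cBin6]; linarith
      · exact inU_div hd (by norm_num [cBin6]) (by norm_num [cBin6]; linarith)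
          (by norm_num [cBin6]; linarith)
      · exact inU_div hd (by norm_num [cBin6]) (by norm_num [cBin6]; linarith)
          (by norm_num [cBin6]; linarith)
    · refine bin7.signs hb hF hH hB hk ⟨by norm_num [cBin7], ?_, ?_⟩ ?_ ?_
      · norm_num [cBin7]; linarith
      · norm_num [cBin7]; linarith
      · exact inU_div hd (by norm_num [cBin7]) (by norm_num [cBin7]; linarith)
          (by norm_num [cBin7]; linarith)
      · exact inU_div hd (by norm_num [cBin7]) (by norm_num [cBin7]; linarith)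
          (by norm_num [cBin7]; linarith)
  rcases le_or_gt (b - a) (105 / 1000) with h8 | h8
  · have hs := si_le (k := 146 / 125) (p := 1257 / 10000) hk' h8 hI hI1 (by norm_num) (by norm_num)
      (by norm_num) (by norm_num) (by norm_num)
    rcases le_or_gt (1 - u) ((373 / 250 : ℝ) * (b - a)) with w0 | w0
    · refine bin8.signs hb hF hH hB hk ⟨by norm_num [cBin8], ?_, ?_⟩ ?_ ?_
      · norm_num [cBin8]; linarith
      · norm_num [cBin8]; linarith
      · exact inU_div hd (by norm_num [cBin8]) (by norm_num [cBin8]; linarith)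
          (by norm_num [cBin8]; linarith)
      · exact inU_div hd (by norm_num [cBin8]) (by norm_num [cBin8]; linarith)
          (by norm_num [cBin8]; linarith)
    · refine bin9.signs hb hF hH hB hk ⟨by norm_num [cBin9], ?_, ?_⟩ ?_ ?_
      · norm_num [cBin9]; linarith
      · norm_num [cBin9]; linarith
      · exact inU_div hd (by norm_num [cBin9]) (by norm_num [cBin9]; linarith)
          (by norm_num [cBin9]; linarith)
      · exact inU_div hd (by norm_num [cBin9]) (by norm_num [cBin9]; linarith)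
          (by norm_num [cBin9]; linarith)
  rcases le_or_gt (b - a) (125 / 1000) with h10 | h10
  · have hs : allStabI a b ≤ 6 / 5 * (b - a) := by
      nlinarith [mul_nonneg hI.le (sub_nonneg.2 hI1)]
    rcases le_or_gt (1 - u) ((1381 / 1000 : ℝ) * (b - a)) with w0 | w0
    · refine bin10.signs hb hF hH hB hk ⟨by norm_num [cBin10], ?_, ?_⟩ ?_ ?_
      · norm_num [cBin10]; linarith
      · norm_num [cBin10]; linarith
      · exact inU_div hd (by norm_num [cBin10]) (by norm_num [cBin10]; linarith)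
          (by norm_num [cBin10]; linarith)
      · exact inU_div hd (by norm_num [cBin10]) (by norm_num [cBin10]; linarith)
          (by norm_num [cBin10]; linarith)
    · refine bin11.signs hb hF hH hB hk ⟨by norm_num [cBin11], ?_, ?_⟩ ?_ ?_
      · norm_num [cBin11]; linarith
      · norm_num [cBin11]; linarith
      · exact inU_div hd (by norm_num [cBin11]) (by norm_num [cBin11]; linarith)
          (by norm_num [cBin11]; linarith)
      · exact inU_div hd (by norm_num [cBin11]) (by norm_num [cBin11]; linarith)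
          (by norm_num [cBin11]; linarith)
  rcases le_or_gt (b - a) (15 / 100) with h12 | h12
  · refine bin12.signs hb hF hH hB hk ⟨by norm_num [cBin12], ?_, ?_⟩ ?_ ?_
    · norm_num [cBin12]; linarith
    · norm_num [cBin12]; linarith
    · exact inU_div hd (by norm_num [cBin12]) (by norm_num [cBin12]; linarith)
        (by norm_num [cBin12]; linarith)
    · exact inU_div hd (by norm_num [cBin12]) (by norm_num [cBin12]; linarith)
        (by norm_num [cBin12]; linarith)
  rcases le_or_gt (b - a) (172 / 1000) with h13 | h13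
  · refine bin13.signs hb hF hH hB hk ⟨by norm_num [cBin13], ?_, ?_⟩ ?_ ?_
    · norm_num [cBin13]; linarith
    · norm_num [cBin13]; linarith
    · exact inU_div hd (by norm_num [cBin13]) (by norm_num [cBin13]; linarith)
        (by norm_num [cBin13]; linarith)
    · exact inU_div hd (by norm_num [cBin13]) (by norm_num [cBin13]; linarith)
        (by norm_num [cBin13]; linarith)
  refine bin14.signs hb hF hH hB hk ⟨by norm_num [cBin14], ?_, ?_⟩ ?_ ?_
  · norm_num [cBin14]; linarith
  · norm_num [cBin14]; linarith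
  · exact inU_div hd (by norm_num [cBin14]) (by norm_num [cBin14]; linarith)
      (by norm_num [cBin14]; linarith)
  · exact inU_div hd (by norm_num [cBin14]) (by norm_num [cBin14]; linarith)
      (by norm_num [cBin14]; linarith)

/-- **The `C` charts from seven to twenty.** -/
theorem certsC7 {n : ℕ} : CertsC7 n := by
  constructor
  all_goals
    intro a b u v t H x hb hF hH hB hI0 hI1 hu _ hx hk
    obtain ⟨⟨h0, -, h2, -, -⟩, hg, -⟩ := hx
    have ew : x 0 = 1 - u := hg.hw
    have ed : x 0 * x 2 = b - a := hg.hd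
    have hx2 : x 2 ≤ 1 := by
      refine h2.2.2.trans ?_
      norm_num [sevCBL, sevCBH]
    have hw0 : 0 < 1 - u := (end_facts7 hB).2.2.1
    exact cbins_signs hb hF hH hB hk hI0 hI1 (by linarith)
      (by rw [← ed, ew]; exact mul_le_of_le_one_right hw0.le hx2)

end Vale.Agent.P100.Calib.StripEndD
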