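import Vale.Agent.P100.Calib.SlabStripEndCData

/-!
# The windows of the bins of the `C` region for `N` between seven and twenty
-/

namespace Vale.Agent.P100.Calib.StripEndD

open Pack hiding ev_add ev_mul
open Pack.Ex StripMid StripEnd

local instance endCWinAdd : Add Ex := ⟨Ex.add⟩
local instance endCWinSub : Sub Ex := ⟨Ex.sub⟩
local instance endCWinMul : Mul Ex := ⟨Ex.mul⟩

/-- The windows of bin 0. -/
theorem cBin0_ok : cBin0.Cert7 where
  flat := ⟨fun _ _ _ _ => rfl, fun _ _ _ _ => rfl, fun _ _ _ _ => rfl, fun _ _ _ _ => rfl,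
    fun _ _ _ _ => rfl, fun _ _ _ _ => rfl⟩
  fits := ⟨by norm_num [cBin0], by norm_num [cBin0], by norm_num [cBin0],
    by norm_num [cBin0]⟩
  left := ⟨391, 16, 15, 3, 3, by decide +kernel⟩
  right := ⟨361, 15, 13, 3, 3, by decide +kernel⟩
  up := ⟨428, 17, 16, 3, 4, by decide +kernel⟩
  down := ⟨428, 17, 15, 4, 4, by decide +kernel⟩

/-- The windows of bin 1. -/
theorem cBin1_ok : cBin1.Cert7 where
  flat := ⟨fun _ _ _ _ => rfl, fun _ _ _ _ => rfl, fun _ _ _ _ => rfl, fun _ _ _ _ => rfl,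
    fun _ _ _ _ => rfl, fun _ _ _ _ => rfl⟩
  fits := ⟨by norm_num [cBin1], by norm_num [cBin1], by norm_num [cBin1],
    by norm_num [cBin1]⟩
  left := ⟨385, 16, 15, 3, 3, by decide +kernel⟩
  right := ⟨354, 15, 13, 3, 3, by decide +kernel⟩
  up := ⟨421, 17, 16, 3, 4, by decide +kernel⟩
  down := ⟨418, 17, 15, 4, 4, by decide +kernel⟩

/-- The windows of bin 2. -/
theorem cBin2_ok : cBin2.Cert7 where
  flat := ⟨fun _ _ _ _ => rfl, fun _ _ _ _ => rfl, fun _ _ _ _ => rfl, fun _ _ _ _ => rfl,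
    fun _ _ _ _ => rfl, fun _ _ _ _ => rfl⟩
  fits := ⟨by norm_num [cBin2], by norm_num [cBin2], by norm_num [cBin2],
    by norm_num [cBin2]⟩
  left := ⟨408, 16, 15, 3, 3, by decide +kernel⟩
  right := ⟨376, 15, 13, 3, 3, by decide +kernel⟩
  up := ⟨445, 17, 16, 3, 4, by decide +kernel⟩
  down := ⟨444, 17, 15, 4, 4, by decide +kernel⟩

/-- The windows of bin 3. -/
theorem cBin3_ok : cBin3.Cert7 where
  flat := ⟨fun _ _ _ _ => rfl, fun _ _ _ _ => rfl, fun _ _ _ _ => rfl, fun _ _ _ _ => rfl,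
    fun _ _ _ _ => rfl, fun _ _ _ _ => rfl⟩
  fits := ⟨by norm_num [cBin3], by norm_num [cBin3], by norm_num [cBin3],
    by norm_num [cBin3]⟩
  left := ⟨408, 16, 15, 3, 3, by decide +kernel⟩
  right := ⟨376, 15, 13, 3, 3, by decide +kernel⟩
  up := ⟨445, 17, 16, 3, 4, by decide +kernel⟩
  down := ⟨445, 17, 15, 4, 4, by decide +kernel⟩

/-- The windows of bin 4. -/
theorem cBin4_ok : cBin4.Cert7 where
  flat := ⟨fun _ _ _ _ => rfl, fun _ _ _ _ => rfl, fun _ _ _ _ => rfl, fun _ _ _ _ => rfl,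
    fun _ _ _ _ => rfl, fun _ _ _ _ => rfl⟩
  fits := ⟨by norm_num [cBin4], by norm_num [cBin4], by norm_num [cBin4],
    by norm_num [cBin4]⟩
  left := ⟨371, 16, 15, 3, 3, by decide +kernel⟩
  right := ⟨342, 15, 13, 3, 3, by decide +kernel⟩
  up := ⟨405, 17, 16, 3, 4, by decide +kernel⟩
  down := ⟨405, 17, 15, 4, 4, by decide +kernel⟩

/-- The windows of bin 5. -/
theorem cBin5_ok : cBin5.Cert7 where
  flat := ⟨fun _ _ _ _ => rfl, fun _ _ _ _ => rfl, fun _ _ _ _ => rfl, fun _ _ _ _ => rfl,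
    fun _ _ _ _ => rfl, fun _ _ _ _ => rfl⟩
  fits := ⟨by norm_num [cBin5], by norm_num [cBin5], by norm_num [cBin5],
    by norm_num [cBin5]⟩
  left := ⟨368, 16, 15, 3, 3, by decide +kernel⟩
  right := ⟨339, 15, 13, 3, 3, by decide +kernel⟩
  up := ⟨402, 17, 16, 3, 4, by decide +kernel⟩
  down := ⟨401, 17, 15, 4, 4, by decide +kernel⟩

/-- The windows of bin 6. -/
theorem cBin6_ok : cBin6.Cert7 where
  flat := ⟨fun _ _ _ _ => rfl, fun _ _ _ _ => rfl, fun _ _ _ _ => rfl, fun _ _ _ _ => rfl,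
    fun _ _ _ _ => rfl, fun _ _ _ _ => rfl⟩
  fits := ⟨by norm_num [cBin6], by norm_num [cBin6], by norm_num [cBin6],
    by norm_num [cBin6]⟩
  left := ⟨356, 16, 15, 3, 3, by decide +kernel⟩
  right := ⟨329, 15, 13, 3, 3, by decide +kernel⟩
  up := ⟨390, 17, 16, 3, 4, by decide +kernel⟩
  down := ⟨391, 17, 15, 4, 4, by decide +kernel⟩

/-- The windows of bin 7. -/
theorem cBin7_ok : cBin7.Cert7 where
  flat := ⟨fun _ _ _ _ => rfl, fun _ _ _ _ => rfl, fun _ _ _ _ => rfl, fun _ _ _ _ => rfl,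
    fun _ _ _ _ => rfl, fun _ _ _ _ => rfl⟩
  fits := ⟨by norm_num [cBin7], by norm_num [cBin7], by norm_num [cBin7],
    by norm_num [cBin7]⟩
  left := ⟨356, 16, 15, 3, 3, by decide +kernel⟩
  right := ⟨329, 15, 13, 3, 3, by decide +kernel⟩
  up := ⟨390, 17, 16, 3, 4, by decide +kernel⟩
  down := ⟨391, 17, 15, 4, 4, by decide +kernel⟩

/-- The windows of bin 8. -/
theorem cBin8_ok : cBin8.Cert7 where
  flat := ⟨fun _ _ _ _ => rfl, fun _ _ _ _ => rfl, fun _ _ _ _ => rfl, fun _ _ _ _ => rfl,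
    fun _ _ _ _ => rfl, fun _ _ _ _ => rfl⟩
  fits := ⟨by norm_num [cBin8], by norm_num [cBin8], by norm_num [cBin8],
    by norm_num [cBin8]⟩
  left := ⟨356, 16, 15, 3, 3, by decide +kernel⟩
  right := ⟨329, 15, 13, 3, 3, by decide +kernel⟩
  up := ⟨390, 17, 16, 3, 4, by decide +kernel⟩
  down := ⟨391, 17, 15, 4, 4, by decide +kernel⟩

/-- The windows of bin 9. -/
theorem cBin9_ok : cBin9.Cert7 where
  flat := ⟨fun _ _ _ _ => rfl, fun _ _ _ _ => rfl, fun _ _ _ _ => rfl, fun _ _ _ _ => rfl,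
    fun _ _ _ _ => rfl, fun _ _ _ _ => rfl⟩
  fits := ⟨by norm_num [cBin9], by norm_num [cBin9], by norm_num [cBin9],
    by norm_num [cBin9]⟩
  left := ⟨357, 16, 15, 3, 3, by decide +kernel⟩
  right := ⟨329, 15, 13, 3, 3, by decide +kernel⟩
  up := ⟨390, 17, 16, 3, 4, by decide +kernel⟩
  down := ⟨391, 17, 15, 4, 4, by decide +kernel⟩

/-- The windows of bin 10. -/
theorem cBin10_ok : cBin10.Cert7 where
  flat := ⟨fun _ _ _ _ => rfl, fun _ _ _ _ => rfl, fun _ _ _ _ => rfl, fun _ _ _ _ => rfl,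
    fun _ _ _ _ => rfl, fun _ _ _ _ => rfl⟩
  fits := ⟨by norm_num [cBin10], by norm_num [cBin10], by norm_num [cBin10],
    by norm_num [cBin10]⟩
  left := ⟨357, 16, 15, 3, 3, by decide +kernel⟩
  right := ⟨329, 15, 13, 3, 3, by decide +kernel⟩
  up := ⟨390, 17, 16, 3, 4, by decide +kernel⟩
  down := ⟨391, 17, 15, 4, 4, by decide +kernel⟩

/-- The windows of bin 11. -/
theorem cBin11_ok : cBin11.Cert7 where
  flat := ⟨fun _ _ _ _ => rfl, fun _ _ _ _ => rfl, fun _ _ _ _ => rfl, fun _ _ _ _ => rfl,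
    fun _ _ _ _ => rfl, fun _ _ _ _ => rfl⟩
  fits := ⟨by norm_num [cBin11], by norm_num [cBin11], by norm_num [cBin11],
    by norm_num [cBin11]⟩
  left := ⟨354, 16, 15, 3, 3, by decide +kernel⟩
  right := ⟨326, 15, 13, 3, 3, by decide +kernel⟩
  up := ⟨387, 17, 16, 3, 4, by decide +kernel⟩
  down := ⟨387, 17, 15, 4, 4, by decide +kernel⟩

/-- The windows of bin 12. -/
theorem cBin12_ok : cBin12.Cert7 where
  flat := ⟨fun _ _ _ _ => rfl, fun _ _ _ _ => rfl, fun _ _ _ _ => rfl, fun _ _ _ _ => rfl,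
    fun _ _ _ _ => rfl, fun _ _ _ _ => rfl⟩
  fits := ⟨by norm_num [cBin12], by norm_num [cBin12], by norm_num [cBin12],
    by norm_num [cBin12]⟩
  left := ⟨335, 16, 15, 3, 3, by decide +kernel⟩
  right := ⟨308, 15, 13, 3, 3, by decide +kernel⟩
  up := ⟨367, 17, 16, 3, 4, by decide +kernel⟩
  down := ⟨367, 17, 15, 4, 4, by decide +kernel⟩

/-- The windows of bin 13. -/
theorem cBin13_ok : cBin13.Cert7 where
  flat := ⟨fun _ _ _ _ => rfl, fun _ _ _ _ => rfl, fun _ _ _ _ => rfl, fun _ _ _ _ => rfl,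
    fun _ _ _ _ => rfl, fun _ _ _ _ => rfl⟩
  fits := ⟨by norm_num [cBin13], by norm_num [cBin13], by norm_num [cBin13],
    by norm_num [cBin13]⟩
  left := ⟨363, 16, 15, 3, 3, by decide +kernel⟩
  right := ⟨336, 15, 13, 3, 3, by decide +kernel⟩
  up := ⟨397, 17, 16, 3, 4, by decide +kernel⟩
  down := ⟨399, 17, 15, 4, 4, by decide +kernel⟩

/-- The windows of bin 14. -/
theorem cBin14_ok : cBin14.Cert7 where
  flat := ⟨fun _ _ _ _ => rfl, fun _ _ _ _ => rfl, fun _ _ _ _ => rfl, fun _ _ _ _ => rfl,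
    fun _ _ _ _ => rfl, fun _ _ _ _ => rfl⟩
  fits := ⟨by norm_num [cBin14], by norm_num [cBin14], by norm_num [cBin14],
    by norm_num [cBin14]⟩
  left := ⟨363, 16, 15, 3, 3, by decide +kernel⟩
  right := ⟨334, 15, 13, 3, 3, by decide +kernel⟩
  up := ⟨396, 17, 16, 3, 4, by decide +kernel⟩
  down := ⟨397, 17, 15, 4, 4, by decide +kernel⟩

end Vale.Agent.P100.Calib.StripEndD
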