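import Vale.Agent.P100.Calib.SlabStripEndCertSmall
import Vale.Agent.P100.Calib.SlabStripEndBig

/-!
# The full certificate of a piece with the sharing substitution
-/

set_option linter.unusedVariables false

namespace Vale.Agent.P100.Calib.StripEnd

open Pack hiding ev_add ev_mul
open Pack.Ex Band StripMid

local instance certFAdd : Add Ex := ⟨Ex.add⟩
local instance certFSub : Sub Ex := ⟨Ex.sub⟩
local instance certFMul : Mul Ex := ⟨Ex.mul⟩

/-- All checks of a piece, every end checked, the coefficients shared between the ends. -/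
structure CertF (P : Piece) (B : EBox) : Prop where
  pos : P.Pos2
  low : 0 ≤ B.q₀.1 ∧ 0 ≤ B.q₁.1 ∧ 0 ≤ B.q₂.1
  kn : Chk B.C P.kn
  sgns : ∀ f, Chk B.C (strictVar (P.posF f))
  g1 : ∀ s p l, Chk B.C (P.atC ⟨p, l, !s, !s, false⟩ (c1 s))
  g2 : ∀ s p l t, Chk B.C (P.atC ⟨p, l, true, true, t⟩ (strict (c2 P.k2 s)))
  g3 : ∀ s p l, Chk B.C (P.atC ⟨p, l, true, true, false⟩ (strict (c3 P.θ s)))
  g3x : ∀ p l, Chk B.C (P.atC ⟨p, l, false, false, false⟩ (strict (c3 P.θ true)))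
  g4 : ∀ s p l t, Chk B.C (P.atC ⟨p, l, true, true, t⟩ (c4 P.θ P.k2 s))
  gMG : ∀ p l t, Chk B.C (P.atC ⟨p, l, true, false, t⟩ tplMG)
  v2 : ∀ s, Chk B.C (P.atC ⟨false, false, true, true, false⟩ (curve2 P.k2 s))
  v4 : ∀ s, Chk B.C (P.atC ⟨false, false, true, true, false⟩ (curve4 P.θ P.k2 s))
  vMG : Chk B.C (P.atC ⟨false, false, true, true, false⟩ Piece.curveMG)
  wP : ∀ b hi, Chk B.C (P.winP b hi)
  wE : ∀ b hi, Chk B.C (P.winE b hi)
  wK : ∀ b hi, Chk B.C (P.winK b hi)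
  wW : ∀ b hi, Chk B.C (P.winW b hi)
  wT : ∀ b hi, Chk B.C (P.winT b hi)
  gap : ∀ b t, Chk B.C (P.gap b t)

variable {P : Piece} {B : EBox} {x : ℕ → ℝ}

theorem CertF.place (K : CertF P B) (h : B.Mem x) : Place P x := by
  have hx : 0 < x 0 * (x 1 * x 2) := mul_pos (lower_pos K.low.1 h.h0)
    (mul_pos (lower_pos K.low.2.1 h.h1) (lower_pos K.low.2.2 h.h2))
  have hh : ∀ f, 0 < (P.posF f).eval x := fun f => by
    have := (K.sgns f).nonneg h.at_pt
    simp only [strictVar, ev_sub, Ex.eval] at this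
    have := pow_pos hx 3
    refine pos_of_mul_pos_right (lt_of_lt_of_le this ?_) (show (0 : ℝ) ≤ ((2 ^ 80 : ℤ) : ℝ) by norm_num)
    linarith
  exact ⟨hh .I, hh .d, hh .A, hh .S, hh .U, hh .den, hh .o,
    sub_pos.1 (hh .olt), hh .pd, hh .e0, hh .f0, hh .wd, hh .td, hh .cd, K.kn.nonneg h.at_pt,
    hh .kd⟩

theorem CertF.all (K : CertF P B) (h : B.Mem x) : AllChecks P x :=
  have q : ∀ V {e : Ex}, Chk B.C (P.atC V e) → 0 ≤ (P.at V e).eval x :=
    fun V e hc => at_of_atC (K.place h) V (hc.nonneg h.at_pt)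
  ⟨Checks.ends K.pos (K.place h) ⟨fun s p l => q _ (K.g1 s p l), fun s p l t => q _ (K.g2 s p l t),
    fun s p l => q _ (K.g3 s p l), fun p l => q _ (K.g3x p l),
    fun s p l t => q _ (K.g4 s p l t), fun p l t => q _ (K.gMG p l t),
    fun s => q _ (K.v2 s), fun s => q _ (K.v4 s), q _ K.vMG⟩,
   ⟨fun b hi => (K.wP b hi).nonneg h.at_pt, fun b hi => (K.wE b hi).nonneg h.at_pt,
    fun b hi => (K.wK b hi).nonneg h.at_pt, fun b hi => (K.wW b hi).nonneg h.at_pt,
    fun b hi => (K.wT b hi).nonneg h.at_pt, fun b t => (K.gap b t).nonneg h.at_pt⟩⟩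

/-- **The signs at a point of a chart from a full certificate.** -/
theorem signs_of_certF {c : EndChart} {n : ℕ} {a b u v t H : ℝ} (K : CertF P B) (hB : B.Mem x)
    (hc : P.Over c) (hx : c.Point x a b u v H)
    (hb : Closed.All.ChartBox n (b - a) (a + b))
    (hF : Closed.All.ChartFacts (b - a) (a + b) u v t)
    (hH : Closed.chH (b - a) (a + b) u v t = H)
    (hk : (AllN.kapAll (1 / P.I.eval x) (xa P x) + 1) / P.d.eval x = kap P x) :
    Closed.Strip.ChartSigns (b - a) (a + b) u v t :=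
  signs_of_all K.pos (K.place hB) (K.all hB) hc hx hb hF hH hk

end Vale.Agent.P100.Calib.StripEnd
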