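import Vale.Agent.P100.Calib.SlabStripEndHom

/-!
# Substitution that shares the coefficients

A part of a condition in the first three variables alone gets the substitution `τ`, one for all
ends, so that the kernel evaluates it once for all the ends checked together.
-/

namespace Vale.Agent.P100.Calib.StripEnd

open Pack Pack.Ex StripMid

local instance endSubAdd : Add Ex := ⟨Ex.add⟩
local instance endSubSub : Sub Ex := ⟨Ex.sub⟩
local instance endSubMul : Mul Ex := ⟨Ex.mul⟩

/-- `hsub`, with `τ` on every part in the first three variables alone. -/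
def csub (τ σ : ℕ → Ex) (vn vd : Ex) : Ex → Ex
  | .var i => hsub σ vn vd (.var i)
  | .num z => .num z
  | .add e f => bif (Ex.add e f).ok 3 then hsub τ vn vd (.add e f) else
    (bif e.deg 2 == max (e.deg 2) (f.deg 2) then csub τ σ vn vd e
      else csub τ σ vn vd e * .pow vd (max (e.deg 2) (f.deg 2) - e.deg 2)) +
    (bif f.deg 2 == max (e.deg 2) (f.deg 2) then csub τ σ vn vd f
      else csub τ σ vn vd f * .pow vd (max (e.deg 2) (f.deg 2) - f.deg 2))
  | .sub e f => bif (Ex.sub e f).ok 3 then hsub τ vn vd (.sub e f) else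
    (bif e.deg 2 == max (e.deg 2) (f.deg 2) then csub τ σ vn vd e
      else csub τ σ vn vd e * .pow vd (max (e.deg 2) (f.deg 2) - e.deg 2)) -
    (bif f.deg 2 == max (e.deg 2) (f.deg 2) then csub τ σ vn vd f
      else csub τ σ vn vd f * .pow vd (max (e.deg 2) (f.deg 2) - f.deg 2))
  | .mul e f => bif (Ex.mul e f).ok 3 then hsub τ vn vd (.mul e f) else
    .mul (csub τ σ vn vd e) (csub τ σ vn vd f)
  | .pow e n => .pow (csub τ σ vn vd e) n

variable {x : ℕ → ℝ} {τ σ : ℕ → Ex} {vn vd : Ex}

theorem eval_hsub_low (hv : vd.eval x ≠ 0) (hτ : ∀ i < 3, (τ i).eval x = (σ i).eval x) {e : Ex}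
    (he : e.ok 3 = true) : (hsub τ vn vd e).eval x = (hsub σ vn vd e).eval x := by
  rw [eval_hsub τ vn vd hv, eval_hsub σ vn vd hv]
  congr 1
  refine eval_congr (fun i hi => ?_) e he
  simp only [hvec]
  split
  · rfl
  · exact hτ i hi

/-- `csub` has the values of `hsub`. -/
theorem eval_csub (hv : vd.eval x ≠ 0) (hτ : ∀ i < 3, (τ i).eval x = (σ i).eval x) :
    ∀ e : Ex, (csub τ σ vn vd e).eval x = (hsub σ vn vd e).eval x
  | .var i => rfl
  | .num z => rfl
  | .add e f => by
    cases hok : (Ex.add e f).ok 3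
    · simp only [csub, hsub, hok, cond_false]
      simp only [ev_add, ev_mul, eval_csub hv hτ e, eval_csub hv hτ f,
        Bool.apply_cond (fun q : Ex => q.eval x)]
    · simp only [csub, hok, cond_true]
      exact eval_hsub_low hv hτ hok
  | .sub e f => by
    cases hok : (Ex.sub e f).ok 3
    · simp only [csub, hsub, hok, cond_false]
      simp only [ev_sub, ev_mul, eval_csub hv hτ e, eval_csub hv hτ f,
        Bool.apply_cond (fun q : Ex => q.eval x)]
    · simp only [csub, hok, cond_true]
      exact eval_hsub_low hv hτ hok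
  | .mul e f => by
    cases hok : (Ex.mul e f).ok 3
    · simp only [csub, hsub, hok, cond_false, Ex.eval, eval_csub hv hτ e, eval_csub hv hτ f]
    · simp only [csub, hok, cond_true]
      exact eval_hsub_low hv hτ hok
  | .pow e n => by simp only [csub, hsub, Ex.eval, eval_csub hv hτ e]

/-- A nonnegative condition at an end is one at the quotient of its numerators. -/
theorem csub_nonneg (hv : 0 < vd.eval x) (hτ : ∀ i < 3, (τ i).eval x = (σ i).eval x) {e : Ex}
    (h : 0 ≤ (csub τ σ vn vd e).eval x) : 0 ≤ e.eval (hvec σ vn vd x) :=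
  hsub_nonneg hv (h.trans_eq (eval_csub hv.ne' hτ e))

end Vale.Agent.P100.Calib.StripEnd
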