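import Vale.Agent.P100.Calib.SlabStripEndSmallBlock
import Vale.Agent.P100.Calib.SlabStripEndSub

/-!
# A cheaper certificate of a piece: bounds of the coefficients and fewer ends

For `d ≤ 1/8`, `7/10 < 2 a`: the blocks are replaced by their bounds, and checks of slopes drop the
ends in `e` and `T` at which the conditions are larger.
-/

set_option linter.unusedVariables false

namespace Vale.Agent.P100.Calib.StripEnd

open Pack Pack.Ex StripMid

local instance endCertSAdd : Add Ex := ⟨Ex.add⟩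
local instance endCertSSub : Sub Ex := ⟨Ex.sub⟩
local instance endCertSMul : Mul Ex := ⟨Ex.mul⟩

variable {ρ : ℕ → ℝ}

theorem tplALo_quo (D : Den ρ) : tplALo.eval ρ =
    ρ 4 ^ 2 * ρ 7 ^ 2 * ρ 9 * ρ 12 * ρ 14 ^ 2 * tplALo.eval (quo ρ) := by
  have := D.h4.ne'; have := D.h7.ne'; have := D.h9.ne'; have := D.h12.ne'; have := D.h14.ne'
  simp only [tplALo, Ex.eval, ev_add, ev_sub, ev_mul, coef_quo (e := coA3) rfl, coef_quo (e := coA4) rfl, coef_quo (e := smA0Lo) rfl, coef_quo (e := smA1Lo) rfl, coef_quo (e := smA2Lo) rfl, coef_quo (e := smA5Up) rfl, coef_quo (e := smA6Up) rfl, coef_quo (e := smA7Lo) rfl, coef_quo (e := smA8Lo) rfl, coef_quo (e := smA9Lo) rfl, coef_quo (e := smA10Lo) rfl, coef_quo (e := smA10Up) rfl, coef_quo (e := smA11Up) rfl, coef_quo (e := smA12Lo) rfl]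
  simp only [quo, hatOne]
  field_simp

theorem tplMGLo_quo (D : Den ρ) : tplMGLo.eval ρ =
    ρ 4 ^ 2 * ρ 7 ^ 2 * ρ 9 * ρ 12 * ρ 14 ^ 2 * tplMGLo.eval (quo ρ) := by
  have := D.h4.ne'; have := D.h7.ne'; have := D.h9.ne'; have := D.h12.ne'; have := D.h14.ne'
  simp only [tplMGLo, Ex.eval, ev_add, ev_sub, ev_mul, coef_quo (e := coMG3) rfl, coef_quo (e := coMG4) rfl, coef_quo (e := smMG0Lo) rfl, coef_quo (e := smMG1Lo) rfl, coef_quo (e := smMG2Lo) rfl, coef_quo (e := smMG5Up) rfl, coef_quo (e := smMG6Up) rfl, coef_quo (e := smMG7Lo) rfl, coef_quo (e := smMG8Lo) rfl, coef_quo (e := smMG9Lo) rfl, coef_quo (e := smMG10Lo) rfl, coef_quo (e := smMG10Up) rfl, coef_quo (e := smMG11Up) rfl, coef_quo (e := smMG12Lo) rfl]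
  simp only [quo, hatOne]
  field_simp

theorem tplGLo_quo (D : Den ρ) :
    tplGLo.eval ρ = ρ 4 ^ 2 * ρ 12 ^ 2 * ρ 14 ^ 2 * tplGLo.eval (quo ρ) := by
  have := D.h4.ne'; have := D.h12.ne'; have := D.h14.ne'
  simp only [tplGLo, Ex.eval, ev_add, ev_sub, ev_mul, coef_quo (e := smG0Lo) rfl, coef_quo (e := smG1Lo) rfl, coef_quo (e := smG2Lo) rfl, coef_quo (e := smG3Up) rfl, coef_quo (e := smG4Lo) rfl, coef_quo (e := smG4Up) rfl, coef_quo (e := smG5Lo) rfl, coef_quo (e := smG5Up) rfl, coef_quo (e := smG6Lo) rfl, coef_quo (e := smG6Up) rfl, coef_quo (e := smG7Lo) rfl, coef_quo (e := smG8Lo) rfl, coef_quo (e := smG9Lo) rfl, coef_quo (e := smG9Up) rfl, coef_quo (e := smG10Lo) rfl]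
  simp only [quo, hatOne]
  field_simp

theorem tplTSide_quo (D : Den ρ) (s : Bool) : (tplTSide s).eval ρ =
    ρ 4 ^ 2 * ρ 7 * ρ 12 * ρ 14 * (tplTSide s).eval (quo ρ) := by
  have := D.h4.ne'; have := D.h7.ne'; have := D.h12.ne'; have := D.h14.ne'
  cases s <;>
    simp only [tplTSide, cond_true, cond_false, tplTLo, tplTUp, Ex.eval, ev_add, ev_sub, ev_mul,
      coef_quo (e := smT0Lo) rfl, coef_quo (e := smT0Up) rfl, coef_quo (e := smT1Lo) rfl, coef_quo (e := smT1Up) rfl, coef_quo (e := smT2Lo) rfl, coef_quo (e := smT2Up) rfl, coef_quo (e := smT3Lo) rfl, coef_quo (e := smT3Up) rfl, coef_quo (e := smT4Lo) rfl, coef_quo (e := smT4Up) rfl, coef_quo (e := smT5Lo) rfl, coef_quo (e := smT5Up) rfl, coef_quo (e := smT6Lo) rfl, coef_quo (e := smT6Up) rfl, coef_quo (e := smT7Lo) rfl, coef_quo (e := smT7Up) rfl, coef_quo (e := smT8Lo) rfl, coef_quo (e := smT8Up) rfl, coef_quo (e := smT9Lo) rfl, coef_quo (e := smT9Up) rfl] <;>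
    simp only [quo, hatOne] <;> field_simp

theorem slopeTe_quo (D : Den ρ) (s : Bool) :
    (slopeTe s).eval ρ = ρ 4 * (slopeTe s).eval (quo ρ) := by
  have := D.h4.ne'
  cases s <;>
    simp only [slopeTe, cond_true, cond_false, Ex.eval, ev_add, ev_mul,
      coef_quo (e := smT4Up) rfl, coef_quo (e := smT4Lo) rfl, coef_quo (e := smT8Up) rfl, coef_quo (e := smT8Lo) rfl] <;>
    simp only [quo, hatOne] <;> field_simp

theorem slopeAe_quo (D : Den ρ) :
    slopeAe.eval ρ = ρ 14 * ρ 7 * ρ 4 * slopeAe.eval (quo ρ) := by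
  have := D.h4.ne'; have := D.h7.ne'; have := D.h14.ne'
  simp only [slopeAe, Ex.eval, ev_add, ev_mul, coef_quo (e := smA5Up) rfl, coef_quo (e := smA6Up) rfl, coef_quo (e := smA7Lo) rfl, coef_quo (e := smA11Up) rfl]
  simp only [quo, hatOne]
  field_simp

theorem slopeMe_quo (D : Den ρ) :
    slopeMe.eval ρ = ρ 14 * ρ 7 * ρ 4 * slopeMe.eval (quo ρ) := by
  have := D.h4.ne'; have := D.h7.ne'; have := D.h14.ne'
  simp only [slopeMe, Ex.eval, ev_add, ev_mul, coef_quo (e := smMG5Up) rfl, coef_quo (e := smMG6Up) rfl, coef_quo (e := smMG7Lo) rfl, coef_quo (e := smMG11Up) rfl]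
  simp only [quo, hatOne]
  field_simp

theorem slopeGt_quo (D : Den ρ) :
    slopeGt.eval ρ = ρ 14 * ρ 12 * ρ 4 * slopeGt.eval (quo ρ) := by
  have := D.h4.ne'; have := D.h12.ne'; have := D.h14.ne'
  simp only [slopeGt, Ex.eval, ev_add, ev_sub, ev_mul,
    coef_quo (e := smG3Up) rfl, coef_quo (e := smG4Up) rfl, coef_quo (e := smG5Up) rfl, coef_quo (e := smG9Up) rfl, coef_quo (e := smG6Up) rfl, coef_quo (e := smG6Lo) rfl]
  simp only [quo, hatOne]
  field_simp

theorem slopeTt_quo (D : Den ρ) (s : Bool) :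
    (slopeTt s).eval ρ = ρ 14 * ρ 12 * ρ 4 * (slopeTt s).eval (quo ρ) := by
  have := D.h4.ne'; have := D.h12.ne'; have := D.h14.ne'
  cases s <;>
    simp only [slopeTt, cond_true, cond_false, Ex.eval, ev_add, ev_mul,
      coef_quo (e := smT2Up) rfl, coef_quo (e := smT2Lo) rfl, coef_quo (e := smT3Up) rfl, coef_quo (e := smT3Lo) rfl, coef_quo (e := smT7Up) rfl, coef_quo (e := smT7Lo) rfl] <;>
    simp only [quo, hatOne] <;> field_simp

theorem pos_of_quo {K y : ℝ} (hK : 0 < K) (h : 0 < K * y) : 0 < y := pos_of_mul_pos_right h hK.le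

theorem c2S_quo (D : Den ρ) (k : ℕ × ℕ) (s : Bool) :
    (c2S k s).eval ρ = ρ 4 ^ 2 * ρ 7 * ρ 12 ^ 2 * ρ 14 ^ 2 *
      (k.1 * tplGLo.eval (quo ρ) +
        4 * k.2 * (1 + ρ 1 * ρ 2) * (sgn s * (tplTSide s).eval (quo ρ))) := by
  simp only [c2S, ev_add, ev_mul, ev_num, qEx_quo, Ex.eval, tplGLo_quo D, tplTSide_quo D s]
  cases s <;> simp only [sgn, cond_true, cond_false] <;> push_cast <;> ring

theorem c3S_quo (D : Den ρ) (θ : ℕ × ℕ) (s : Bool) :
    (c3S θ s).eval ρ = ρ 4 ^ 2 * ρ 7 ^ 2 * ρ 9 * ρ 12 * ρ 14 ^ 2 *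
      (2 * ((θ.2 : ℝ) - θ.1) * ρ 16 * tplALo.eval (quo ρ) +
        θ.2 * ρ 15 * (sgn s * tplX.eval (quo ρ))) := by
  simp only [c3S, ev_add, ev_mul, ev_num, ev_pow, eval_signX, Ex.eval, tplALo_quo D,
    tplX_quo D.h4.ne' D.h7.ne' D.h9.ne']
  push_cast
  ring

theorem c4S_quo (D : Den ρ) (θ k : ℕ × ℕ) (s : Bool) :
    (c4S θ k s).eval ρ = ρ 4 ^ 2 * ρ 7 ^ 2 * ρ 9 * ρ 12 * ρ 14 ^ 2 *
      (θ.1 * k.2 * tplALo.eval (quo ρ) + θ.2 * k.1 * (sgn s * (tplTSide s).eval (quo ρ))) := by
  simp only [c4S, ev_add, ev_mul, ev_num, Ex.eval, tplALo_quo D, tplTSide_quo D s]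
  cases s <;> simp only [sgn, cond_true, cond_false] <;> push_cast <;> ring

/-- What is checked nonnegative. -/
inductive NonF
  | dTop | gSign | pn (b : Bool) | tn | enUp | kkUp | wnUp | tnUp

/-- Its expression. -/
def Piece.nonF (P : Piece) : NonF → Ex
  | .dTop => num 1 - num 8 * P.d
  | .gSign => num 3 * P.A + num 2 * P.I - num 2
  | .pn b => P.pn b
  | .tn => P.tn false
  | .enUp => P.en true - P.en false
  | .kkUp => P.kk true - P.kk false
  | .wnUp => P.wn true - P.wn false
  | .tnUp => P.tn true - P.tn false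

/-- The substitution of the coefficients, the same at all ends. -/
def Piece.base (P : Piece) : ℕ → Ex
  | 0 => P.A
  | 1 => P.d
  | _ => num 0

/-- A condition at an end, the coefficients shared between the ends. -/
def Piece.atC (P : Piece) (V : Vtx) (e : Ex) : Ex := csub P.base (sub P V) P.vn P.vd e

theorem quo_atC {P : Piece} {x : ℕ → ℝ} (h : Place P x) (V : Vtx) {e : Ex}
    (hc : 0 ≤ (P.atC V e).eval x) : 0 ≤ e.eval (rho P V x) := by
  refine csub_nonneg h.vd (fun i hi => ?_) hc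
  interval_cases i <;> rfl

theorem at_of_atC {P : Piece} {x : ℕ → ℝ} (h : Place P x) (V : Vtx) {e : Ex}
    (hc : 0 ≤ (P.atC V e).eval x) : 0 ≤ (P.at V e).eval x :=
  hc.trans_eq (eval_csub h.vd.ne' (fun i hi => by interval_cases i <;> rfl) e)

/-- `e` is checked positive at an end: against the positive number of the end, or against a
power of the first three variables after the substitution. -/
def Piece.Strict (P : Piece) (C : ℕ → Chart) (V : Vtx) (e : Ex) : Prop :=
  Chk C (P.atC V (strict e)) ∨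
    Chk C (num (2 ^ 80) * P.atC V e - pow (var 0 * (var 1 * var 2)) 7)

/-- The cheaper certificate with either form of the strict checks. -/
structure CertW (P : Piece) (B : EBox) : Prop where
  pos : P.Pos2
  low : 0 ≤ B.q₀.1 ∧ 0 ≤ B.q₁.1 ∧ 0 ≤ B.q₂.1
  kn : Chk B.C P.kn
  sgns : ∀ f, Chk B.C (strictVar (P.posF f))
  dom : Chk B.C (strictVar (num 10 * P.A - num 7))
  nons : ∀ f, Chk B.C (P.nonF f)
  g1 : ∀ s p l, Chk B.C (P.atC ⟨p, l, !s, !s, false⟩ (c1 s))
  g2 : ∀ s p, P.Strict B.C ⟨p, !s, true, true, false⟩ (c2S P.k2 s)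
  e2 : (∀ p, Chk B.C (P.atC ⟨p, true, true, true, true⟩ cut2e)) ∨
    (∀ s p, P.Strict B.C ⟨p, s, true, true, false⟩ (c2S P.k2 s))
  t2 : ∀ s p, Chk B.C (P.atC ⟨p, true, true, true, true⟩ (cut2t P.k2 s))
  g3 : ∀ s p, P.Strict B.C ⟨p, false, true, true, false⟩ (c3S P.θ s)
  e3 : ∀ s, (∀ p, Chk B.C (P.atC ⟨p, true, true, true, false⟩ (cut3e P.θ s))) ∨
    (∀ p, P.Strict B.C ⟨p, true, true, true, false⟩ (c3S P.θ s))
  k3 : Chk B.C (P.atC ⟨false, false, true, true, false⟩ (cut3k P.θ)) ∨
    (∀ p l, P.Strict B.C ⟨p, l, false, false, false⟩ (c3S P.θ true))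
  g4 : ∀ s p t, Chk B.C (P.atC ⟨p, false, true, true, t⟩ (c4S P.θ P.k2 s))
  e4 : ∀ s, (∀ p, Chk B.C (P.atC ⟨p, true, true, true, false⟩ (cut4e P.θ P.k2 s))) ∨
    (∀ p t, Chk B.C (P.atC ⟨p, true, true, true, t⟩ (c4S P.θ P.k2 s)))
  gMG : ∀ p, Chk B.C (P.atC ⟨p, false, true, false, false⟩ tplMGLo)
  eMG : (∀ p, Chk B.C (P.atC ⟨p, true, true, false, false⟩ cutMe)) ∨
    (∀ p, Chk B.C (P.atC ⟨p, true, true, false, false⟩ tplMGLo))
  v2 : ∀ s, Chk B.C (P.atC ⟨false, false, true, true, false⟩ (curve2 P.k2 s))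
  v4 : ∀ s, Chk B.C (P.atC ⟨false, false, true, true, false⟩ (curve4 P.θ P.k2 s))
  vMG : Chk B.C (P.atC ⟨false, false, true, true, false⟩ Piece.curveMG)
  wP : ∀ b hi, Chk B.C (P.winP b hi)
  wE : ∀ b hi, Chk B.C (P.winE b hi)
  wK : ∀ b hi, Chk B.C (P.winK b hi)
  wW : ∀ b hi, Chk B.C (P.winW b hi)
  wT : ∀ b hi, Chk B.C (P.winT b hi)
  gap : ∀ b t, Chk B.C (P.gap b t)

/-- The cheaper certificate. -/
structure CertS (P : Piece) (B : EBox) : Prop where
  pos : P.Pos2
  low : 0 ≤ B.q₀.1 ∧ 0 ≤ B.q₁.1 ∧ 0 ≤ B.q₂.1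
  kn : Chk B.C P.kn
  sgns : ∀ f, Chk B.C (strictVar (P.posF f))
  dom : Chk B.C (strictVar (num 10 * P.A - num 7))
  nons : ∀ f, Chk B.C (P.nonF f)
  g1 : ∀ s p l, Chk B.C (P.atC ⟨p, l, !s, !s, false⟩ (c1 s))
  g2 : ∀ s p, Chk B.C (P.atC ⟨p, !s, true, true, false⟩ (strict (c2S P.k2 s)))
  e2 : (∀ p, Chk B.C (P.atC ⟨p, true, true, true, true⟩ cut2e)) ∨
    (∀ s p, Chk B.C (P.atC ⟨p, s, true, true, false⟩ (strict (c2S P.k2 s))))
  t2 : ∀ s p, Chk B.C (P.atC ⟨p, true, true, true, true⟩ (cut2t P.k2 s))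
  g3 : ∀ s p, Chk B.C (P.atC ⟨p, false, true, true, false⟩ (strict (c3S P.θ s)))
  e3 : ∀ s, (∀ p, Chk B.C (P.atC ⟨p, true, true, true, false⟩ (cut3e P.θ s))) ∨
    (∀ p, Chk B.C (P.atC ⟨p, true, true, true, false⟩ (strict (c3S P.θ s))))
  k3 : Chk B.C (P.atC ⟨false, false, true, true, false⟩ (cut3k P.θ)) ∨
    (∀ p l, Chk B.C (P.atC ⟨p, l, false, false, false⟩ (strict (c3S P.θ true))))
  g4 : ∀ s p t, Chk B.C (P.atC ⟨p, false, true, true, t⟩ (c4S P.θ P.k2 s))
  e4 : ∀ s, (∀ p, Chk B.C (P.atC ⟨p, true, true, true, false⟩ (cut4e P.θ P.k2 s))) ∨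
    (∀ p t, Chk B.C (P.atC ⟨p, true, true, true, t⟩ (c4S P.θ P.k2 s)))
  gMG : ∀ p, Chk B.C (P.atC ⟨p, false, true, false, false⟩ tplMGLo)
  eMG : (∀ p, Chk B.C (P.atC ⟨p, true, true, false, false⟩ cutMe)) ∨
    (∀ p, Chk B.C (P.atC ⟨p, true, true, false, false⟩ tplMGLo))
  v2 : ∀ s, Chk B.C (P.atC ⟨false, false, true, true, false⟩ (curve2 P.k2 s))
  v4 : ∀ s, Chk B.C (P.atC ⟨false, false, true, true, false⟩ (curve4 P.θ P.k2 s))
  vMG : Chk B.C (P.atC ⟨false, false, true, true, false⟩ Piece.curveMG)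
  wP : ∀ b hi, Chk B.C (P.winP b hi)
  wE : ∀ b hi, Chk B.C (P.winE b hi)
  wK : ∀ b hi, Chk B.C (P.winK b hi)
  wW : ∀ b hi, Chk B.C (P.winW b hi)
  wT : ∀ b hi, Chk B.C (P.winT b hi)
  gap : ∀ b t, Chk B.C (P.gap b t)

/-- A certificate with the strict checks of the ends is one with either form. -/
theorem CertS.weaken {P : Piece} {B : EBox} (K : CertS P B) : CertW P B where
  pos := K.pos
  low := K.low
  kn := K.kn
  sgns := K.sgns
  dom := K.dom
  nons := K.nons
  g1 := K.g1
  g2 := fun s p => Or.inl (K.g2 s p)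
  e2 := K.e2.imp id fun h s p => Or.inl (h s p)
  t2 := K.t2
  g3 := fun s p => Or.inl (K.g3 s p)
  e3 := fun s => (K.e3 s).imp id fun h p => Or.inl (h p)
  k3 := K.k3.imp id fun h p l => Or.inl (h p l)
  g4 := K.g4
  e4 := K.e4
  gMG := K.gMG
  eMG := K.eMG
  v2 := K.v2
  v4 := K.v4
  vMG := K.vMG
  wP := K.wP
  wE := K.wE
  wK := K.wK
  wW := K.wW
  wT := K.wT
  gap := K.gap

variable {P : Piece} {B : EBox} {x : ℕ → ℝ}

theorem strict_at (hp : Place P x) (h : B.Mem x) (hl : 0 ≤ B.q₀.1 ∧ 0 ≤ B.q₁.1 ∧ 0 ≤ B.q₂.1)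
    {V : Vtx} {e : Ex} (hs : P.Strict B.C V e) : 0 < e.eval (rho P V x) := by
  rcases hs with hs | hs
  · exact strict_pos (posEx_rho hp V) (quo_atC hp V (hs.nonneg h.at_pt))
  · have hh := hs.nonneg h.at_pt
    have hx : 0 < x 0 * (x 1 * x 2) := mul_pos (lower_pos hl.1 h.h0)
      (mul_pos (lower_pos hl.2.1 h.h1) (lower_pos hl.2.2 h.h2))
    have h2 : 0 < (P.atC V e).eval x := by
      simp only [ev_sub, ev_mul, Ex.eval] at hh
      have := pow_pos hx 7
      refine pos_of_mul_pos_right (lt_of_lt_of_le this ?_)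
        (show (0 : ℝ) ≤ ((2 ^ 80 : ℤ) : ℝ) by norm_num)
      linarith
    rw [Piece.atC, eval_csub hp.vd.ne' (fun i hi => by interval_cases i <;> rfl) e,
      eval_hsub _ _ _ hp.vd.ne'] at h2
    exact pos_of_mul_pos_right h2 (pow_nonneg hp.vd.le _)

theorem vec_coef {e : Ex} (h : e.ok 3 = true) {a d v p ee k w T c : ℝ} :
    e.eval (vec a d v p ee k w T c) = e.eval (StripMid.base a d v) := by
  rw [vec]; exact coef_base h

theorem coMG10_eq {a d v : ℝ} :
    coMG10.eval (StripMid.base a d v) = coA10.eval (StripMid.base a d v) := by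
  simp only [coMG10, coA10, Ex.eval, StripMid.base, hatOne]

theorem end_1' (hP : P.Pos) (h : Place P x)
    (C : ∀ s p l, 0 ≤ (P.at ⟨p, l, !s, !s, false⟩ (c1 s)).eval x) (s p l : Bool) :
    0 ≤ P.kn.eval x * hM (xa P x) (P.d.eval x) (xv P x) (pE P x p) (eE P x l) (kE P x (!s))
        (StripEnd.wE P x (!s)) (tE P x false) (kap P x) +
      P.kd.eval x * (sgn s * hX (xa P x) (P.d.eval x) (xv P x) (pE P x p) (eE P x l) (kE P x (!s))
        (StripEnd.wE P x (!s)) (tE P x false) (kap P x)) := by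
  obtain ⟨V, hV⟩ : ∃ V, V = (⟨p, l, !s, !s, false⟩ : Vtx) := ⟨_, rfl⟩
  have D := rho_den hP h V
  have hh := quo_at hP h V (by rw [hV]; exact C s p l)
  rw [c1_quo D, quo_rho hP h] at hh
  have := nonneg_of_mul_nonneg_right hh (mul_pos (mul_pos D.h4 D.h7) D.h9)
  subst hV
  simpa [rho, hvec, sub, hM, hX, vAt] using this

theorem CertW.place (K : CertW P B) (h : B.Mem x) : Place P x := by
  have hx : 0 < x 0 * (x 1 * x 2) := mul_pos (lower_pos K.low.1 h.h0)
    (mul_pos (lower_pos K.low.2.1 h.h1) (lower_pos K.low.2.2 h.h2))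
  have hh : ∀ f, 0 < (P.posF f).eval x := fun f => by
    have := (K.sgns f).nonneg h.at_pt
    simp only [strictVar, ev_sub, Ex.eval] at this
    have := pow_pos hx 3
    refine pos_of_mul_pos_right (lt_of_lt_of_le this ?_)
      (show (0 : ℝ) ≤ ((2 ^ 80 : ℤ) : ℝ) by norm_num)
    linarith
  exact ⟨hh .I, hh .d, hh .A, hh .S, hh .U, hh .den, hh .o,
    sub_pos.1 (hh .olt), hh .pd, hh .e0, hh .f0, hh .wd, hh .td, hh .cd, K.kn.nonneg h.at_pt,
    hh .kd⟩

theorem CertW.sign (K : CertW P B) (h : B.Mem x) (hc : 0 ≤ P.cn.eval x) (p l t : Bool) :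
    SmSign (xa P x) (P.d.eval x) (xv P x) (pE P x p) (eE P x l) (tE P x t) (kap P x) := by
  have hp := K.place h
  have hn := fun f => (K.nons f).nonneg h.at_pt
  have hA : P.A.eval x = 2 * xa P x := eval_A
  have hA' := eval_A' (P := P) (x := x)
  have hI := hp.I
  have hdm : 7 / 10 < 2 * xa P x := by
    have hx : 0 < x 0 * (x 1 * x 2) := mul_pos (lower_pos K.low.1 h.h0)
      (mul_pos (lower_pos K.low.2.1 h.h1) (lower_pos K.low.2.2 h.h2))
    have := K.dom.nonneg h.at_pt
    simp only [strictVar, ev_sub, ev_mul, Ex.eval, hA] at this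
    have := pow_pos hx 3
    push_cast at *
    linarith
  have htn : ∀ t, 0 ≤ (P.tn t).eval x := fun t => by
    have h0 := hn .tn
    have h1 := hn .tnUp
    simp only [Piece.nonF, ev_sub] at h0 h1
    cases t <;> linarith
  have hen : ∀ l, 0 < (P.en l).eval x := fun l => by
    have h0 := hp.e0
    have h1 := hn .enUp
    simp only [Piece.nonF, ev_sub] at h1
    cases l <;> linarith
  refine { a_low := hdm, a_high := by linarith [hp.d], d_pos := hp.d, d_high := ?_, v_pos := hp.v,
            v_high := ?_, p_pos := ?_, e_neg := ?_, c_pos := ?_, t_pos := ?_, g_pos := ?_ }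
  · have := hn .dTop
    simp only [Piece.nonF, ev_sub, ev_mul, ev_num] at this
    push_cast at this
    linarith
  · have h2 := hp.av
    have := mul_lt_mul_of_pos_right hdm hp.v
    linarith
  · have := hn (.pn p)
    simp only [Piece.nonF] at this
    have := hp.A; have := hp.S; have := hp.pd; have := hp.qn
    simp only [pE, cT]
    positivity
  · simp only [eE, neg_nonpos]
    exact div_nonneg (hen l).le hp.f0.le
  · exact div_nonneg hc hp.cd.le
  · exact div_nonneg (mul_nonneg hp.B.le (htn t)) hp.td.le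
  · have h1 := hn .gSign
    simp only [Piece.nonF, ev_sub, ev_add, ev_mul, ev_num, hA] at h1
    push_cast at h1
    have e : gHat (xa P x) (P.d.eval x) (tE P x t) - gHat1 (xa P x) (P.d.eval x) (tE P x t) =
        (3 * xa P x + P.I.eval x - 1) * P.I.eval x / (xa P x + P.d.eval x) := by
      have := hp.b.ne'
      simp only [gHat, gHat1, show P.I.eval x = (1 - 2 * xa P x - P.d.eval x) / 2 by linarith]
      field_simp
      ring
    have := div_nonneg (mul_nonneg (show 0 ≤ 3 * xa P x + P.I.eval x - 1 by linarith) hI.le)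
      hp.b.le
    linarith

theorem CertW.ordered (K : CertW P B) (h : B.Mem x) :
    eE P x true ≤ eE P x false ∧ kE P x false ≤ kE P x true ∧ StripEnd.wE P x false ≤ StripEnd.wE P x true ∧
      tE P x false ≤ tE P x true := by
  have hp := K.place h
  have hn := fun f => (K.nons f).nonneg h.at_pt
  have e1 := hn .enUp; have k1 := hn .kkUp; have w1 := hn .wnUp; have t1 := hn .tnUp
  simp only [Piece.nonF, ev_sub] at e1 k1 w1 t1
  refine ⟨?_, ?_, ?_, ?_⟩
  · simp only [eE, neg_le_neg_iff]; exact div_le_div_of_nonneg_right (by linarith) hp.f0.le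
  · simp only [kE, Bool.not_false, Bool.not_true, neg_le_neg_iff]
    exact div_le_div_of_nonneg_right (by linarith) hp.f0.le
  · exact div_le_div_of_nonneg_right (by linarith) hp.wd.le
  · exact div_le_div_of_nonneg_right (mul_le_mul_of_nonneg_left (by linarith) hp.B.le) hp.td.le

set_option maxHeartbeats 1000000 in
theorem CertW.ends (K : CertW P B) (h : B.Mem x) (hc : 0 ≤ P.cn.eval x) : Ends P x := by
  have hp := K.place h
  have hP := K.pos
  obtain ⟨oe, ok, ow, ot⟩ := K.ordered h
  have S := K.sign h hc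
  have q0 : ∀ V {e : Ex}, Chk B.C (P.atC V e) → 0 ≤ e.eval (rho P V x) :=
    fun V e hc => quo_atC hp V (hc.nonneg h.at_pt)
  have e15 : ∀ V, rho P V x 15 = P.kn.eval x := fun V => by simp [rho, hvec, sub]
  have e16 : ∀ V, rho P V x 16 = P.kd.eval x := fun V => by simp [rho, hvec, sub]
  have hθ : (0 : ℝ) < (P.θ.2 : ℝ) - P.θ.1 := sub_pos.2 (by exact_mod_cast hP.θ)
  have hk1 : (0 : ℝ) ≤ P.k2.1 := Nat.cast_nonneg _
  have hk2 : (0 : ℝ) ≤ P.k2.2 := Nat.cast_nonneg _
  have hq := hp.q
  have hd := hp.d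
  have hv := hp.v
  have ha := hp.a
  -- the ends that are checked
  have g2 : ∀ s p l, P.Strict B.C ⟨p, l, true, true, false⟩ (c2S P.k2 s) → 0 < P.k2.1 * hG (xa P x) (P.d.eval x) (xv P x) (pE P x p) (eE P x l)
        (kE P x true) (StripEnd.wE P x true) (tE P x false) (kap P x) +
      4 * sgn s * P.k2.2 * (1 + P.d.eval x * xv P x) *
        hT (xa P x) (P.d.eval x) (xv P x) (pE P x p) (eE P x l) (kE P x true) (StripEnd.wE P x true)
          (tE P x false) (kap P x) := by
    intro s p l hc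
    obtain ⟨V, hV⟩ : ∃ V, V = (⟨p, l, true, true, false⟩ : Vtx) := ⟨_, rfl⟩
    have D := rho_den hP.toPos hp V
    have hh := strict_at hp h K.low (V := V) (by rw [hV]; exact hc)
    rw [c2S_quo D, quo_rho hP.toPos hp, (rho_low hp V).2.1, (rho_low hp V).2.2] at hh
    subst hV
    have h4 := D.h4; have h7 := D.h7; have h12 := D.h12; have h14 := D.h14
    have hh := pos_of_quo (by positivity) hh
    have b1 := mul_le_mul_of_nonneg_left
      (hG_ge (k := kE P x true) (w := StripEnd.wE P x true) (S p l false)) hk1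
    have b2 := mul_le_mul_of_nonneg_left
      (sgn_T_ge (k := kE P x true) (w := StripEnd.wE P x true) (S p l false) s)
      (show (0 : ℝ) ≤ 4 * P.k2.2 * (1 + P.d.eval x * xv P x) by positivity)
    simp only [vAt] at hh
    linarith
  have se : (∀ p, Chk B.C (P.atC ⟨p, true, true, true, true⟩ cut2e)) → ∀ p, coT4.eval (StripMid.base (xa P x) (P.d.eval x) (xv P x)) +
      coT8.eval (StripMid.base (xa P x) (P.d.eval x) (xv P x)) * pE P x p ≤ 0 := by
    intro he2 p
    obtain ⟨V, hV⟩ : ∃ V, V = (⟨p, true, true, true, true⟩ : Vtx) := ⟨_, rfl⟩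
    have D := rho_den hP.toPos hp V
    have hh := q0 V (by rw [hV]; exact he2 p)
    simp only [cut2e, ev_mul, ev_num, slopeTe_quo D, quo_rho hP.toPos hp] at hh
    subst hV
    have h1 := slopeTe_ge (k := kE P x true) (w := StripEnd.wE P x true) (S p true true) true
    simp only [sgn, cond_true, one_mul] at h1
    simp only [vAt] at hh
    push_cast at hh
    exact h1.trans (nonpos_of_mul_nonpos_right (by linarith) D.h4)
  have st : ∀ s p, P.k2.1 * (coG3.eval (StripMid.base (xa P x) (P.d.eval x) (xv P x)) +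
        coG4.eval (StripMid.base (xa P x) (P.d.eval x) (xv P x)) +
        coG5.eval (StripMid.base (xa P x) (P.d.eval x) (xv P x)) * kap P x +
        coG9.eval (StripMid.base (xa P x) (P.d.eval x) (xv P x)) * pE P x p +
        coG6.eval (StripMid.base (xa P x) (P.d.eval x) (xv P x)) *
          (gHat (xa P x) (P.d.eval x) (tE P x false) + gHat (xa P x) (P.d.eval x) (tE P x true))) +
      4 * P.k2.2 * (1 + P.d.eval x * xv P x) *
        (sgn s * (coT2.eval (StripMid.base (xa P x) (P.d.eval x) (xv P x)) +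
          coT3.eval (StripMid.base (xa P x) (P.d.eval x) (xv P x)) +
          coT7.eval (StripMid.base (xa P x) (P.d.eval x) (xv P x)) * pE P x p)) ≤ 0 := by
    intro s p
    obtain ⟨V, hV⟩ : ∃ V, V = (⟨p, true, true, true, true⟩ : Vtx) := ⟨_, rfl⟩
    have D := rho_den hP.toPos hp V
    have hh := q0 V (by rw [hV]; exact K.t2 s p)
    simp only [cut2t, ev_add, ev_mul, ev_num, qEx_quo, slopeGt_quo D, slopeTt_quo D s,
      quo_rho hP.toPos hp, (rho_low hp V).2.1, (rho_low hp V).2.2] at hh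
    subst hV
    have h1 := mul_le_mul_of_nonneg_left
      (slopeGt_ge (k := kE P x true) (w := StripEnd.wE P x true) (S p true true) (S p true false).t_pos ot)
      hk1
    have h2 := mul_le_mul_of_nonneg_left
      (slopeTt_ge (k := kE P x true) (w := StripEnd.wE P x true) (S p true true) s)
      (show (0 : ℝ) ≤ 4 * P.k2.2 * (1 + P.d.eval x * xv P x) by positivity)
    simp only [vAt] at hh
    refine le_trans (add_le_add h1 h2) (nonpos_of_mul_nonpos_right ?_
      (mul_pos (mul_pos D.h14 D.h12) D.h4))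
    cases s <;> simp only [sgn, cond_true, cond_false] at hh ⊢ <;> push_cast at hh ⊢ <;> linarith
  have g3 : ∀ s k p l, P.Strict B.C ⟨p, l, k, k, false⟩ (c3S P.θ s) →
      0 < 2 * ((P.θ.2 : ℝ) - P.θ.1) * P.kd.eval x *
        hA (xa P x) (P.d.eval x) (xv P x) (pE P x p) (eE P x l) (kE P x k) (StripEnd.wE P x k) (tE P x false)
          (kap P x) + P.θ.2 * P.kn.eval x * (sgn s * hX (xa P x) (P.d.eval x) (xv P x) (pE P x p)
            (eE P x l) (kE P x k) (StripEnd.wE P x k) (tE P x false) (kap P x)) := by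
    intro s k p l hc
    obtain ⟨V, hV⟩ : ∃ V, V = (⟨p, l, k, k, false⟩ : Vtx) := ⟨_, rfl⟩
    have D := rho_den hP.toPos hp V
    have hh := strict_at hp h K.low (V := V) (by rw [hV]; exact hc)
    rw [c3S_quo D, quo_rho hP.toPos hp, e15, e16] at hh
    subst hV
    have h4 := D.h4; have h7 := D.h7; have h9 := D.h9; have h12 := D.h12; have h14 := D.h14
    have hh := pos_of_quo (by positivity) hh
    have b1 := mul_le_mul_of_nonneg_left (hA_ge (k := kE P x k) (w := StripEnd.wE P x k) (S p l false))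
      (show (0 : ℝ) ≤ 2 * ((P.θ.2 : ℝ) - P.θ.1) * P.kd.eval x from
        mul_nonneg (mul_nonneg zero_le_two hθ.le) hp.kd.le)
    simp only [vAt, hX] at hh ⊢
    linarith
  have x3 : ∀ s p, 0 < 2 * ((P.θ.2 : ℝ) - P.θ.1) * P.kd.eval x *
        hA (xa P x) (P.d.eval x) (xv P x) (pE P x p) (eE P x true) (kE P x true) (StripEnd.wE P x true)
          (tE P x false) (kap P x) + P.θ.2 * P.kn.eval x * (sgn s * hX (xa P x) (P.d.eval x)
            (xv P x) (pE P x p) (eE P x true) (kE P x true) (StripEnd.wE P x true) (tE P x false)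
              (kap P x)) := by
    intro s p
    rcases K.e3 s with hs | hs
    · obtain ⟨V, hV⟩ : ∃ V, V = (⟨p, true, true, true, false⟩ : Vtx) := ⟨_, rfl⟩
      have D := rho_den hP.toPos hp V
      have hh := q0 V (by rw [hV]; exact hs p)
      simp only [cut3e, ev_add, ev_mul, ev_num, slopeAe_quo D, e15, e16] at hh
      simp only [Ex.eval, e15, e16, ← coef_quo (e := coX2) rfl (rho P V x),
        ← coef_quo (e := coX4) rfl (rho P V x), quo_rho hP.toPos hp] at hh
      subst hV
      have hr : rho P ⟨p, true, true, true, false⟩ x 3 =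
          rho P ⟨p, true, true, true, false⟩ x 4 * pE P x p := by
        have e := congrFun (quo_rho hP.toPos hp ⟨p, true, true, true, false⟩) 3
        simp only [quo, vAt, vec, hatOne] at e
        rw [← e, mul_div_cancel₀ _ D.h4.ne']
      rw [hr] at hh
      simp only [vAt, vec_coef (e := coX2) rfl, vec_coef (e := coX4) rfl] at hh
      have h1 := mul_le_mul_of_nonneg_left
        (slopeAe_ge (k := kE P x true) (w := StripEnd.wE P x true) (S p true false) oe
          (S p false false).e_neg)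
        (show (0 : ℝ) ≤ 2 * ((P.θ.2 : ℝ) - P.θ.1) * P.kd.eval x from
          mul_nonneg (mul_nonneg zero_le_two hθ.le) hp.kd.le)
      have key := g3 s true p false (K.g3 s p)
      rw [hA_e_diff (e₀ := eE P x false), hX_e_diff (e₀ := eE P x false)]
      have hs' : 2 * ((P.θ.2 : ℝ) - P.θ.1) * P.kd.eval x *
            (coA5.eval (StripMid.base (xa P x) (P.d.eval x) (xv P x)) +
              coA6.eval (StripMid.base (xa P x) (P.d.eval x) (xv P x)) * kap P x +
              coA7.eval (StripMid.base (xa P x) (P.d.eval x) (xv P x)) *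
                (eE P x false + eE P x true) +
              coA11.eval (StripMid.base (xa P x) (P.d.eval x) (xv P x)) * pE P x p) +
          P.θ.2 * P.kn.eval x * (sgn s * (coX2.eval (StripMid.base (xa P x) (P.d.eval x) (xv P x)) +
            coX4.eval (StripMid.base (xa P x) (P.d.eval x) (xv P x)) * pE P x p)) ≤ 0 := by
        refine le_trans (add_le_add h1 le_rfl) (nonpos_of_mul_nonpos_right ?_
          (mul_pos (mul_pos D.h14 D.h7) D.h4))
        cases s <;> simp only [sgn, cond_true, cond_false] at hh ⊢ <;> push_cast at hh ⊢ <;>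
          linarith
      have := mul_nonneg_of_nonpos_of_nonpos (sub_nonpos.2 oe) hs'
      linarith
    · exact g3 s true p true (hs p)
  have g3' : ∀ s k p l, (k = true ∨ s = true) → _ := fun s k p l hk => show
      0 < 2 * ((P.θ.2 : ℝ) - P.θ.1) * P.kd.eval x *
        hA (xa P x) (P.d.eval x) (xv P x) (pE P x p) (eE P x l) (kE P x k) (StripEnd.wE P x k) (tE P x false)
          (kap P x) + P.θ.2 * P.kn.eval x * (sgn s * hX (xa P x) (P.d.eval x) (xv P x) (pE P x p)
            (eE P x l) (kE P x k) (StripEnd.wE P x k) (tE P x false) (kap P x)) from by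
    have top : 0 < 2 * ((P.θ.2 : ℝ) - P.θ.1) * P.kd.eval x *
        hA (xa P x) (P.d.eval x) (xv P x) (pE P x p) (eE P x l) (kE P x true) (StripEnd.wE P x true)
          (tE P x false) (kap P x) + P.θ.2 * P.kn.eval x * (sgn s * hX (xa P x) (P.d.eval x)
            (xv P x) (pE P x p) (eE P x l) (kE P x true) (StripEnd.wE P x true) (tE P x false)
              (kap P x)) := by
      cases l
      · exact g3 s true p false (K.g3 s p)
      · exact x3 s p
    cases k
    · obtain rfl : s = true := hk.resolve_left (by simp)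
      rcases K.k3 with hs | hs
      · have D := rho_den hP.toPos hp ⟨false, false, true, true, false⟩
        have hh := q0 _ hs
        simp only [cut3k, ev_sub, ev_mul, ev_num, qEx_quo, Ex.eval, e15, e16,
          (rho_low hp _).2.1, (rho_low hp _).2.2] at hh
        push_cast at hh
        rw [hA_kw (k' := kE P x true) (w' := StripEnd.wE P x true),
          hX_kw (k' := kE P x true) (w' := StripEnd.wE P x true), coef_A_k, coef_A_w, coef_X_k, coef_X_w]
        have := mul_nonneg hh (add_nonneg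
          (mul_nonneg (sub_nonneg.2 ok)
            (show 0 ≤ xv P x ^ 2 * (2 + P.d.eval x * xv P x) * 16 by positivity))
          (mul_nonneg (sub_nonneg.2 ow)
            (show 0 ≤ xv P x * (2 + P.d.eval x * xv P x) * (1 + P.d.eval x + 2 * xa P x) * 8
              by positivity)))
        simp only [sgn, cond_true] at top ⊢
        linarith
      · exact g3 true false p l (hs p l)
    · exact top
  have g4 : ∀ s p l t, Chk B.C (P.atC ⟨p, l, true, true, t⟩ (c4S P.θ P.k2 s)) →
      0 ≤ (P.θ.1 : ℝ) * P.k2.2 * hA (xa P x) (P.d.eval x) (xv P x) (pE P x p) (eE P x l)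
        (kE P x true) (StripEnd.wE P x true) (tE P x t) (kap P x) +
      sgn s * P.θ.2 * P.k2.1 * hT (xa P x) (P.d.eval x) (xv P x) (pE P x p) (eE P x l)
        (kE P x true) (StripEnd.wE P x true) (tE P x t) (kap P x) := by
    intro s p l t hc
    obtain ⟨V, hV⟩ : ∃ V, V = (⟨p, l, true, true, t⟩ : Vtx) := ⟨_, rfl⟩
    have D := rho_den hP.toPos hp V
    have hh := q0 V (by rw [hV]; exact hc)
    rw [c4S_quo D, quo_rho hP.toPos hp] at hh
    subst hV
    have h4 := D.h4; have h7 := D.h7; have h9 := D.h9; have h12 := D.h12; have h14 := D.h14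
    have hh := nonneg_of_mul_nonneg_right hh (by positivity)
    have b1 := mul_le_mul_of_nonneg_left (hA_ge (k := kE P x true) (w := StripEnd.wE P x true) (S p l t))
      (mul_nonneg (Nat.cast_nonneg P.θ.1) hk2)
    have b2 := mul_le_mul_of_nonneg_left
      (sgn_T_ge (k := kE P x true) (w := StripEnd.wE P x true) (S p l t) s)
      (mul_nonneg (Nat.cast_nonneg P.θ.2) hk1)
    simp only [vAt] at hh
    linarith
  have gM : ∀ p l, Chk B.C (P.atC ⟨p, l, true, false, false⟩ tplMGLo) →
      0 ≤ hMG (xa P x) (P.d.eval x) (xv P x) (pE P x p) (eE P x l) (kE P x true) (StripEnd.wE P x false)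
        (tE P x false) (kap P x) := by
    intro p l hc
    obtain ⟨V, hV⟩ : ∃ V, V = (⟨p, l, true, false, false⟩ : Vtx) := ⟨_, rfl⟩
    have D := rho_den hP.toPos hp V
    have hh := q0 V (by rw [hV]; exact hc)
    rw [tplMGLo_quo D, quo_rho hP.toPos hp] at hh
    subst hV
    have h4 := D.h4; have h7 := D.h7; have h9 := D.h9; have h12 := D.h12; have h14 := D.h14
    exact (nonneg_of_mul_nonneg_right hh (by positivity)).trans (hMG_ge (S p l false))
  have e2 : ∀ s p l, 0 < P.k2.1 * hG (xa P x) (P.d.eval x) (xv P x) (pE P x p) (eE P x l)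
        (kE P x true) (StripEnd.wE P x true) (tE P x false) (kap P x) +
      4 * sgn s * P.k2.2 * (1 + P.d.eval x * xv P x) *
        hT (xa P x) (P.d.eval x) (xv P x) (pE P x p) (eE P x l) (kE P x true) (StripEnd.wE P x true)
          (tE P x false) (kap P x) := by
    intro s p l
    rcases K.e2 with he2 | hb
    · have key := g2 s p (!s) (K.g2 s p)
      have := mul_nonneg_of_nonpos_of_nonpos
        (mul_nonpos_of_nonpos_of_nonneg (sub_nonpos.2 oe)
          (show (0 : ℝ) ≤ 4 * P.k2.2 * (1 + P.d.eval x * xv P x) by positivity)) (se he2 p)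
      cases s <;> cases l <;> simp only [Bool.not_true, Bool.not_false] at key ⊢
      · rw [hG_e_indep (e₀ := eE P x true), hT_e_diff (e₀ := eE P x true)]
        simp only [sgn, cond_false] at key ⊢
        linarith
      · exact key
      · exact key
      · rw [hG_e_indep (e₀ := eE P x false), hT_e_diff (e₀ := eE P x false)]
        simp only [sgn, cond_true] at key ⊢
        linarith
    · rcases Bool.eq_or_eq_not l s with hl | hl
      · exact g2 s p l (hl ▸ hb s p)
      · exact g2 s p l (hl ▸ K.g2 s p)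
  refine ⟨end_1' hP.toPos hp (fun s p l => at_of_atC hp _ ((K.g1 s p l).nonneg h.at_pt)), ?_, g3', ?_, ?_,
    curve_of hP hp (fun s => at_of_atC hp _ ((K.v2 s).nonneg h.at_pt))
      (fun s => at_of_atC hp _ ((K.v4 s).nonneg h.at_pt)) (at_of_atC hp _ (K.vMG.nonneg h.at_pt))⟩
  · intro s p l t
    cases t
    · exact e2 s p l
    · rw [hG_T_diff (T₀ := tE P x false), hT_T_diff (T₀ := tE P x false)]
      have := mul_nonneg_of_nonpos_of_nonpos
        (show -((tE P x true - tE P x false) * (1 / 10 / (xa P x + P.d.eval x) ^ 2)) ≤ 0 from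
          neg_nonpos.2 (mul_nonneg (sub_nonneg.2 ot) (by positivity))) (st s p)
      linarith [e2 s p l]
  · intro s p l t
    cases l
    · exact g4 s p false t (K.g4 s p t)
    · rcases K.e4 s with hs | hs
      · obtain ⟨V, hV⟩ : ∃ V, V = (⟨p, true, true, true, false⟩ : Vtx) := ⟨_, rfl⟩
        have D := rho_den hP.toPos hp V
        have hh := q0 V (by rw [hV]; exact hs p)
        simp only [cut4e, ev_add, ev_mul, ev_num, slopeAe_quo D, slopeTe_quo D s, Ex.eval,
          quo_rho hP.toPos hp] at hh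
        subst hV
        have h1 := mul_le_mul_of_nonneg_left
          (slopeAe_ge (k := kE P x true) (w := StripEnd.wE P x true) (S p true false) oe
            (S p false false).e_neg)
          (mul_nonneg (Nat.cast_nonneg P.θ.1) hk2)
        have h2 := mul_le_mul_of_nonneg_left
          (slopeTe_ge (k := kE P x true) (w := StripEnd.wE P x true) (S p true false) s)
          (mul_nonneg (Nat.cast_nonneg P.θ.2) hk1)
        simp only [vAt] at hh
        have hs' := le_trans (add_le_add h1 h2) (nonpos_of_mul_nonpos_right (by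
          cases s <;> simp only [sgn, cond_true, cond_false] at hh ⊢ <;> push_cast at hh ⊢ <;>
            linarith) (mul_pos (mul_pos D.h14 D.h7) D.h4))
        have := mul_nonneg_of_nonpos_of_nonpos (sub_nonpos.2 oe) hs'
        rw [hA_e_diff (e₀ := eE P x false), hT_e_diff (e₀ := eE P x false)]
        linarith [g4 s p false t (K.g4 s p t)]
      · exact g4 s p true t (hs p t)
  · intro p l t
    have m0 : ∀ l, 0 ≤ hMG (xa P x) (P.d.eval x) (xv P x) (pE P x p) (eE P x l) (kE P x true)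
        (StripEnd.wE P x false) (tE P x false) (kap P x) := by
      intro l
      cases l
      · exact gM p false (K.gMG p)
      · rcases K.eMG with hs | hs
        · obtain ⟨V, hV⟩ : ∃ V, V = (⟨p, true, true, false, false⟩ : Vtx) := ⟨_, rfl⟩
          have D := rho_den hP.toPos hp V
          have hh := q0 V (by rw [hV]; exact hs p)
          simp only [cutMe, ev_mul, ev_num, slopeMe_quo D, quo_rho hP.toPos hp] at hh
          subst hV
          simp only [vAt] at hh
          push_cast at hh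
          have hs' := (slopeMe_ge (k := kE P x true) (w := StripEnd.wE P x false) (S p true false) oe
            (S p false false).e_neg).trans (nonpos_of_mul_nonpos_right (by linarith)
              (mul_pos (mul_pos D.h14 D.h7) D.h4))
          have := mul_nonneg_of_nonpos_of_nonpos (sub_nonpos.2 oe) hs'
          rw [hMG_e_diff (e₀ := eE P x false)]
          linarith [gM p false (K.gMG p)]
        · exact gM p true (hs p)
    cases t
    · exact m0 l
    · rw [hMG_T_diff (T₀ := tE P x false)]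
      have hc : coMG10.eval (StripMid.base (xa P x) (P.d.eval x) (xv P x)) ≤ 0 := by
        rw [coMG10_eq]
        exact coA10_le hp.a.le hp.d.le hp.v.le (by linarith [eval_A' (P := P) (x := x), hp.I])
      have := mul_nonpos_of_nonneg_of_nonpos
        (mul_nonneg (mul_nonneg (sub_nonneg.2 ot)
          (show 0 ≤ 1 / 10 / (xa P x + P.d.eval x) ^ 2 by positivity)) (S p l false).p_pos) hc
      linarith [m0 l]

/-- **All checks of a piece from the cheaper certificate.** -/
theorem CertW.all (K : CertW P B) (h : B.Mem x) (hc : 0 ≤ P.cn.eval x) : AllChecks P x :=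
  ⟨K.ends h hc, ⟨fun b hi => (K.wP b hi).nonneg h.at_pt, fun b hi => (K.wE b hi).nonneg h.at_pt,
    fun b hi => (K.wK b hi).nonneg h.at_pt, fun b hi => (K.wW b hi).nonneg h.at_pt,
    fun b hi => (K.wT b hi).nonneg h.at_pt, fun b t => (K.gap b t).nonneg h.at_pt⟩⟩

/-- **The signs at a point of a chart from the cheaper certificate.** -/
theorem signs_of_certW {c : EndChart} {n : ℕ} {a b u v t H : ℝ} (K : CertW P B) (hB : B.Mem x)
    (hcn : 0 ≤ P.cn.eval x) (hc : P.Over c) (hx : c.Point x a b u v H)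
    (hb : Closed.All.ChartBox n (b - a) (a + b))
    (hF : Closed.All.ChartFacts (b - a) (a + b) u v t)
    (hH : Closed.chH (b - a) (a + b) u v t = H)
    (hk : (AllN.kapAll (1 / P.I.eval x) (xa P x) + 1) / P.d.eval x = kap P x) :
    Closed.Strip.ChartSigns (b - a) (a + b) u v t :=
  signs_of_all K.pos (K.place hB) (K.all hB hcn) hc hx hb hF hH hk

theorem CertS.place (K : CertS P B) (h : B.Mem x) : Place P x := K.weaken.place h

theorem CertS.all (K : CertS P B) (h : B.Mem x) (hc : 0 ≤ P.cn.eval x) : AllChecks P x :=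
  K.weaken.all h hc

/-- **The signs at a point of a chart from the cheaper certificate.** -/
theorem signs_of_certS {c : EndChart} {n : ℕ} {a b u v t H : ℝ} (K : CertS P B) (hB : B.Mem x)
    (hcn : 0 ≤ P.cn.eval x) (hc : P.Over c) (hx : c.Point x a b u v H)
    (hb : Closed.All.ChartBox n (b - a) (a + b))
    (hF : Closed.All.ChartFacts (b - a) (a + b) u v t)
    (hH : Closed.chH (b - a) (a + b) u v t = H)
    (hk : (AllN.kapAll (1 / P.I.eval x) (xa P x) + 1) / P.d.eval x = kap P x) :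
    Closed.Strip.ChartSigns (b - a) (a + b) u v t :=
  signs_of_certW K.weaken hB hcn hc hx hb hF hH hk

end Vale.Agent.P100.Calib.StripEnd
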