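import Vale.Agent.P100.Calib.SlabStripEndPieceIF
import Vale.Agent.P100.Calib.SlabStripEndBig

/-!
# The checks of the piece `pcIFh`
-/

namespace Vale.Agent.P100.Calib.StripEnd

open Pack Pack.Ex StripMid

local instance endChkIFhAdd : Add Ex := ⟨Ex.add⟩
local instance endChkIFhSub : Sub Ex := ⟨Ex.sub⟩
local instance endChkIFhMul : Mul Ex := ⟨Ex.mul⟩

/-- **The certificate of `pcIFh`.** -/
theorem certIFh : CertS pcIFh bxIFh := by
  have h_kn : checkBig bxIFh.C 32 1 1 0 1 pcIFh.kn = true := by decide +kernel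
  have h_dom : checkBig bxIFh.C 124 3 3 3 0 (strictVar (num 10 * pcIFh.A - num 7)) = true := by decide +kernel
  have h_g1 : ∀ s p l : Bool, checkBig bxIFh.C 217 9 7 7 6 (pcIFh.atC ⟨p, l, !s, !s, false⟩ (c1 s)) = true := by decide +kernel
  have h_g2 : ∀ s p : Bool, checkBig bxIFh.C 456 20 10 18 10 (pcIFh.atC ⟨p, !s, true, true, false⟩ (strict (c2S pcIFh.k2 s))) = true := by
    intro s
    cases s <;> decide +kernel
  have h_e2 : ∀ p : Bool, checkBig bxIFh.C 153 8 5 7 5 (pcIFh.atC ⟨p, true, true, true, true⟩ cut2e) = true := by decide +kernel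
  have h_t2 : ∀ s p : Bool, checkBig bxIFh.C 257 12 8 11 8 (pcIFh.atC ⟨p, true, true, true, true⟩ (cut2t pcIFh.k2 s)) = true := by decide +kernel
  have h_g3 : ∀ s p : Bool, checkBig bxIFh.C 496 21 10 17 10 (pcIFh.atC ⟨p, false, true, true, false⟩ (strict (c3S pcIFh.θ s))) = true := by
    intro s
    cases s <;> decide +kernel
  have h_e3f : ∀ p : Bool, checkBig bxIFh.C 496 21 10 17 10 (pcIFh.atC ⟨p, true, true, true, false⟩ (strict (c3S pcIFh.θ false))) = true := by decide +kernel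
  have h_e3t : ∀ p : Bool, checkBig bxIFh.C 496 21 10 17 10 (pcIFh.atC ⟨p, true, true, true, false⟩ (strict (c3S pcIFh.θ true))) = true := by decide +kernel
  have h_e4f : ∀ p t : Bool, checkBig bxIFh.C 370 19 8 16 8 (pcIFh.atC ⟨p, true, true, true, t⟩ (c4S pcIFh.θ pcIFh.k2 false)) = true := by decide +kernel
  have h_e4t : ∀ p t : Bool, checkBig bxIFh.C 370 19 8 16 8 (pcIFh.atC ⟨p, true, true, true, t⟩ (c4S pcIFh.θ pcIFh.k2 true)) = true := by decide +kernel
  have h_k3 : checkBig bxIFh.C 73 2 3 1 3 (pcIFh.atC ⟨false, false, true, true, false⟩ (cut3k pcIFh.θ)) = true := by decide +kernel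
  have h_g4 : ∀ s p t : Bool, checkBig bxIFh.C 370 19 8 16 8 (pcIFh.atC ⟨p, false, true, true, t⟩ (c4S pcIFh.θ pcIFh.k2 s)) = true := by
    intro s
    cases s <;> decide +kernel
  have h_gMG : ∀ p : Bool, checkBig bxIFh.C 346 18 8 15 8 (pcIFh.atC ⟨p, false, true, false, false⟩ tplMGLo) = true := by decide +kernel
  have h_eMG : ∀ p : Bool, checkBig bxIFh.C 346 18 8 15 8 (pcIFh.atC ⟨p, true, true, false, false⟩ tplMGLo) = true := by decide +kernel
  have h_v2 : ∀ s : Bool, checkBig bxIFh.C 125 6 4 6 4 (pcIFh.atC ⟨false, false, true, true, false⟩ (curve2 pcIFh.k2 s)) = true := by decide +kernel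
  have h_v4 : ∀ s : Bool, checkBig bxIFh.C 138 7 4 7 4 (pcIFh.atC ⟨false, false, true, true, false⟩ (curve4 pcIFh.θ pcIFh.k2 s)) = true := by decide +kernel
  have h_vMG : checkBig bxIFh.C 115 6 4 6 4 (pcIFh.atC ⟨false, false, true, true, false⟩ Piece.curveMG) = true := by decide +kernel
  have h_wP : ∀ b q : Bool, checkBig bxIFh.C 43 1 2 0 1 (pcIFh.winP b q) = true := by decide +kernel
  have h_wE : ∀ b q : Bool, checkBig bxIFh.C 178 13 4 9 3 (pcIFh.winE b q) = true := by decide +kernel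
  have h_wK : ∀ b q : Bool, checkBig bxIFh.C 160 13 4 8 2 (pcIFh.winK b q) = true := by decide +kernel
  have h_wW : ∀ b q : Bool, checkBig bxIFh.C 138 7 5 4 3 (pcIFh.winW b q) = true := by decide +kernel
  have h_wT : ∀ b q : Bool, checkBig bxIFh.C 129 7 5 5 3 (pcIFh.winT b q) = true := by decide +kernel
  have h_gap : ∀ b q : Bool, checkBig bxIFh.C 332 24 9 19 7 (pcIFh.gap b q) = true := by
    intro b
    cases b <;> decide +kernel
  exact {
    pos := ⟨⟨by decide, by decide, by decide⟩, by decide⟩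
    low := by decide
    kn := ⟨_, _, _, _, _, checkFour_of_big h_kn⟩
    sgns := fun f => by
      cases f
      · exact ⟨114, 3, 3, 3, 0, by decide +kernel⟩
      · exact ⟨114, 3, 3, 3, 0, by decide +kernel⟩
      · exact ⟨120, 3, 3, 3, 0, by decide +kernel⟩
      · exact ⟨120, 3, 3, 3, 0, by decide +kernel⟩
      · exact ⟨119, 3, 3, 3, 0, by decide +kernel⟩
      · exact ⟨129, 3, 3, 3, 0, by decide +kernel⟩
      · exact ⟨131, 3, 3, 3, 1, by decide +kernel⟩
      · exact ⟨132, 3, 3, 3, 1, by decide +kernel⟩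
      · exact ⟨126, 3, 3, 3, 0, by decide +kernel⟩
      · exact ⟨140, 3, 3, 3, 1, by decide +kernel⟩
      · exact ⟨137, 3, 3, 3, 0, by decide +kernel⟩
      · exact ⟨137, 3, 3, 3, 0, by decide +kernel⟩
      · exact ⟨132, 3, 3, 3, 1, by decide +kernel⟩
      · exact ⟨120, 3, 3, 3, 0, by decide +kernel⟩
      · exact ⟨138, 3, 3, 3, 2, by decide +kernel⟩
    dom := ⟨_, _, _, _, _, checkFour_of_big h_dom⟩
    nons := fun f => by
      rcases f with _ | _ | ⟨_ | _⟩ | _ | _ | _ | _ | _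
      · exact ⟨9, 1, 0, 1, 0, by decide +kernel⟩
      · exact ⟨11, 1, 0, 1, 0, by decide +kernel⟩
      · exact ⟨35, 1, 2, 0, 1, by decide +kernel⟩
      · exact ⟨35, 1, 2, 0, 1, by decide +kernel⟩
      · exact ⟨16, 0, 1, 0, 0, by decide +kernel⟩
      · exact ⟨41, 2, 1, 1, 1, by decide +kernel⟩
      · exact ⟨35, 2, 1, 1, 0, by decide +kernel⟩
      · exact ⟨34, 1, 2, 0, 1, by decide +kernel⟩
      · exact ⟨17, 0, 1, 0, 0, by decide +kernel⟩
    g1 := fun s p l => ⟨_, _, _, _, _, checkFour_of_big (h_g1 s p l)⟩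
    g2 := fun s p => ⟨_, _, _, _, _, checkFour_of_big (h_g2 s p)⟩
    e2 := Or.inl (fun p => ⟨_, _, _, _, _, checkFour_of_big (h_e2 p)⟩)
    t2 := fun s p => ⟨_, _, _, _, _, checkFour_of_big (h_t2 s p)⟩
    g3 := fun s p => ⟨_, _, _, _, _, checkFour_of_big (h_g3 s p)⟩
    e3 := fun s => by
      cases s
      · exact Or.inr (fun p => ⟨_, _, _, _, _, checkFour_of_big (h_e3f p)⟩)
      · exact Or.inr (fun p => ⟨_, _, _, _, _, checkFour_of_big (h_e3t p)⟩)
    k3 := Or.inl ⟨_, _, _, _, _, checkFour_of_big h_k3⟩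
    g4 := fun s p t => ⟨_, _, _, _, _, checkFour_of_big (h_g4 s p t)⟩
    e4 := fun s => by
      cases s
      · exact Or.inr (fun p t => ⟨_, _, _, _, _, checkFour_of_big (h_e4f p t)⟩)
      · exact Or.inr (fun p t => ⟨_, _, _, _, _, checkFour_of_big (h_e4t p t)⟩)
    gMG := fun p => ⟨_, _, _, _, _, checkFour_of_big (h_gMG p)⟩
    eMG := Or.inr (fun p => ⟨_, _, _, _, _, checkFour_of_big (h_eMG p)⟩)
    v2 := fun s => ⟨_, _, _, _, _, checkFour_of_big (h_v2 s)⟩
    v4 := fun s => ⟨_, _, _, _, _, checkFour_of_big (h_v4 s)⟩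
    vMG := ⟨_, _, _, _, _, checkFour_of_big h_vMG⟩
    wP := fun b q => ⟨_, _, _, _, _, checkFour_of_big (h_wP b q)⟩
    wE := fun b q => ⟨_, _, _, _, _, checkFour_of_big (h_wE b q)⟩
    wK := fun b q => ⟨_, _, _, _, _, checkFour_of_big (h_wK b q)⟩
    wW := fun b q => ⟨_, _, _, _, _, checkFour_of_big (h_wW b q)⟩
    wT := fun b q => ⟨_, _, _, _, _, checkFour_of_big (h_wT b q)⟩
    gap := fun b q => ⟨_, _, _, _, _, checkFour_of_big (h_gap b q)⟩ }

end Vale.Agent.P100.Calib.StripEnd
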