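import Vale.Agent.P100.Calib.SlabStripEndSignsI
import Vale.Agent.P100.Calib.SlabStripEndChkIFpa
import Vale.Agent.P100.Calib.SlabStripEndChkIFpb
import Vale.Agent.P100.Calib.SlabStripEndChkIFq
import Vale.Agent.P100.Calib.SlabStripEndChkIFg
import Vale.Agent.P100.Calib.SlabStripEndChkIFh
import Vale.Agent.P100.Calib.SlabStripEndChkIGt
import Vale.Agent.P100.Calib.SlabStripEndChkIGu

/-!
# The signs over the charts `IF`, `IG` from twenty on
-/

set_option linter.unusedVariables false

namespace Vale.Agent.P100.Calib.StripEnd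

open Pack Pack.Ex Band StripMid

local instance endSigFAdd : Add Ex := ⟨Ex.add⟩
local instance endSigFSub : Sub Ex := ⟨Ex.sub⟩
local instance endSigFMul : Mul Ex := ⟨Ex.mul⟩

/-- The signs over the chart `IFp`. -/
theorem cIFp_signs (n : ℕ) : CSigns n endIFp DHigh := by
  intro a b u v t H x hb hF hH _ _ _ hx hk
  obtain ⟨h0, h1, h2, h3l, h3u⟩ := hx.1
  norm_num [endIFp] at h3l h3u
  rcases lt_or_ge (x 3) (1 / 2 : ℝ) with g | g
  · refine signs_high certIFpa
        ⟨fun x => by simp only [pcIFpa, endIFp, ev_add, ev_sub, ev_mul, ev_num, Ex.eval] <;> push_cast <;> ring, fun x => by simp only [pcIFpa, endIFp, ev_add, ev_sub, ev_mul, ev_num, Ex.eval] <;> push_cast <;> ring, fun x => by simp only [pcIFpa, endIFp, ev_add, ev_sub, ev_mul, ev_num, Ex.eval] <;> push_cast <;> ring, fun x => by simp only [pcIFpa, endIFp, ev_add, ev_sub, ev_mul, ev_num, Ex.eval] <;> push_cast <;> ring, fun x => by simp only [pcIFpa, endIFp, ev_add, ev_sub, ev_mul, ev_num, Ex.eval] <;> push_cast <;>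 ring, rfl, rfl⟩
        (by simp only [pcIFpa, Piece.S, ev_add, ev_sub, ev_mul, ev_num, ev_pow, Ex.eval] <;> push_cast <;> ring)
        ⟨h0, h1, h2, by norm_num [InR, bxIFpa] <;> constructor <;> linarith⟩ hx hb hF hH hk
  · refine signs_high certIFpb
        ⟨fun x => by simp only [pcIFpb, endIFp, ev_add, ev_sub, ev_mul, ev_num, Ex.eval] <;> push_cast <;> ring, fun x => by simp only [pcIFpb, endIFp, ev_add, ev_sub, ev_mul, ev_num, Ex.eval] <;> push_cast <;> ring, fun x => by simp only [pcIFpb, endIFp, ev_add, ev_sub, ev_mul, ev_num, Ex.eval] <;> push_cast <;> ring, fun x => by simp only [pcIFpb, endIFp, ev_add, ev_sub, ev_mul, ev_num, Ex.eval] <;> push_cast <;> ring, fun x => by simp only [pcIFpb, endIFp, ev_add, ev_sub, ev_mul, ev_num, Ex.eval] <;> push_cast <;> ring, rfl, rfl⟩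
        (by simp only [pcIFpb, Piece.S, ev_add, ev_sub, ev_mul, ev_num, ev_pow, Ex.eval] <;> push_cast <;> ring)
        ⟨h0, h1, h2, by norm_num [InR, bxIFpb] <;> constructor <;> linarith⟩ hx hb hF hH hk

/-- The signs over the chart `IFq`. -/
theorem cIFq_signs (n : ℕ) : CSigns n endIFq DHigh := by
  intro a b u v t H x hb hF hH _ _ _ hx hk
  obtain ⟨h0, h1, h2, h3l, h3u⟩ := hx.1
  norm_num [endIFq] at h3l h3u
  refine signs_high certIFq
        ⟨fun x => by simp only [pcIFq, endIFq, ev_add, ev_sub, ev_mul, ev_num, Ex.eval] <;> push_cast <;> ring, fun x => by simp only [pcIFq, endIFq, ev_add, ev_sub, ev_mul, ev_num, Ex.eval] <;> push_cast <;> ring, fun x => by simp only [pcIFq, endIFq, ev_add, ev_sub, ev_mul, ev_num, Ex.eval] <;> push_cast <;> ring, fun x => by simp only [pcIFq, endIFq, ev_add, ev_sub, ev_mul, ev_num, Ex.eval] <;> push_cast <;> ring, fun x => by simp only [pcIFq, endIFq, ev_add, ev_sub, ev_mul, ev_num, Ex.eval] <;> push_cast <;> ring, rfl, rfl⟩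
        (by simp only [pcIFq, Piece.S, ev_add, ev_sub, ev_mul, ev_num, ev_pow, Ex.eval] <;> push_cast <;> ring)
        ⟨h0, h1, h2, by norm_num [InR, bxIFq] <;> constructor <;> linarith⟩ hx hb hF hH hk

/-- The signs over the chart `IFg`. -/
theorem cIFg_signs (n : ℕ) : CSigns n endIFg DHigh := by
  intro a b u v t H x hb hF hH _ _ _ hx hk
  obtain ⟨h0, h1, h2, h3l, h3u⟩ := hx.1
  norm_num [endIFg] at h3l h3u
  refine signs_high certIFg
        ⟨fun x => by simp only [pcIFg, endIFg, ev_add, ev_sub, ev_mul, ev_num, Ex.eval] <;> push_cast <;> ring, fun x => by simp only [pcIFg, endIFg, ev_add, ev_sub, ev_mul, ev_num, Ex.eval] <;> push_cast <;> ring, fun x => by simp only [pcIFg, endIFg, ev_add, ev_sub, ev_mul, ev_num, Ex.eval] <;> push_cast <;> ring, fun x => by simp only [pcIFg, endIFg, ev_add, ev_sub, ev_mul, ev_num, Ex.eval] <;> push_cast <;> ring, fun x => by simp only [pcIFg, endIFg, ev_add, ev_sub, ev_mul, ev_num, Ex.eval] <;> push_cast <;> ring, rfl, rfl⟩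
        (by simp only [pcIFg, Piece.S, ev_add, ev_sub, ev_mul, ev_num, ev_pow, Ex.eval] <;> push_cast <;> ring)
        ⟨h0, h1, h2, by norm_num [InR, bxIFg] <;> constructor <;> linarith⟩ hx hb hF hH hk

/-- The signs over the chart `IFh`. -/
theorem cIFh_signs (n : ℕ) : CSigns n endIFh DHigh := by
  intro a b u v t H x hb hF hH _ _ _ hx hk
  obtain ⟨h0, h1, h2, h3l, h3u⟩ := hx.1
  norm_num [endIFh] at h3l h3u
  refine signs_high certIFh
        ⟨fun x => by simp only [pcIFh, endIFh, ev_add, ev_sub, ev_mul, ev_num, Ex.eval] <;> push_cast <;> ring, fun x => by simp only [pcIFh, endIFh, ev_add, ev_sub, ev_mul, ev_num, Ex.eval] <;> push_cast <;> ring, fun x => by simp only [pcIFh, endIFh, ev_add, ev_sub, ev_mul, ev_num, Ex.eval] <;> push_cast <;> ring, fun x => by simp only [pcIFh, endIFh, ev_add, ev_sub, ev_mul, ev_num, Ex.eval] <;> push_cast <;> ring, fun x => by simp only [pcIFh, endIFh, ev_add, ev_sub, ev_mul, ev_num, Ex.eval] <;> push_cast <;> ring, rfl, rfl⟩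
        (by simp only [pcIFh, Piece.S, ev_add, ev_sub, ev_mul, ev_num, ev_pow, Ex.eval] <;> push_cast <;> ring)
        ⟨h0, h1, h2, by norm_num [InR, bxIFh] <;> constructor <;> linarith⟩ hx hb hF hH hk

/-- The signs over the chart `IGt`. -/
theorem cIGt_signs (n : ℕ) : CSigns n endIGt DHigh := by
  intro a b u v t H x hb hF hH _ _ _ hx hk
  obtain ⟨h0, h1, h2, h3l, h3u⟩ := hx.1
  norm_num [endIGt] at h3l h3u
  refine signs_high certIGt
        ⟨fun x => by simp only [pcIGt, endIGt, ev_add, ev_sub, ev_mul, ev_num, Ex.eval] <;> push_cast <;> ring, fun x => by simp only [pcIGt, endIGt, ev_add, ev_sub, ev_mul, ev_num, Ex.eval] <;> push_cast <;> ring, fun x => by simp only [pcIGt, endIGt, ev_add, ev_sub, ev_mul, ev_num, Ex.eval] <;> push_cast <;> ring, fun x => by simp only [pcIGt, endIGt, ev_add, ev_sub, ev_mul, ev_num, Ex.eval] <;> push_cast <;> ring, fun x => by simp only [pcIGt, endIGt, ev_add, ev_sub, ev_mul, ev_num, Ex.eval] <;> push_cast <;> ring, rfl, rfl⟩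
        (by simp only [pcIGt, Piece.S, ev_add, ev_sub, ev_mul, ev_num, ev_pow, Ex.eval] <;> push_cast <;> ring)
        ⟨h0, h1, h2, by norm_num [InR, bxIGt] <;> constructor <;> linarith⟩ hx hb hF hH hk

/-- The signs over the chart `IGu`. -/
theorem cIGu_signs (n : ℕ) : CSigns n endIGu DHigh := by
  intro a b u v t H x hb hF hH _ _ _ hx hk
  obtain ⟨h0, h1, h2, h3l, h3u⟩ := hx.1
  norm_num [endIGu] at h3l h3u
  refine signs_high certIGu
        ⟨fun x => by simp only [pcIGu, endIGu, ev_add, ev_sub, ev_mul, ev_num, Ex.eval] <;> push_cast <;> ring, fun x => by simp only [pcIGu, endIGu, ev_add, ev_sub, ev_mul, ev_num, Ex.eval] <;> push_cast <;> ring, fun x => by simp only [pcIGu, endIGu, ev_add, ev_sub, ev_mul, ev_num, Ex.eval] <;> push_cast <;> ring, fun x => by simp only [pcIGu, endIGu, ev_add, ev_sub, ev_mul, ev_num, Ex.eval] <;> push_cast <;> ring, fun x => by simp only [pcIGu, endIGu, ev_add, ev_sub, ev_mul, ev_num, Ex.eval] <;> push_cast <;> ring, rfl, rfl⟩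
        (by simp only [pcIGu, Piece.S, ev_add, ev_sub, ev_mul, ev_num, ev_pow, Ex.eval] <;> push_cast <;> ring)
        ⟨h0, h1, h2, by norm_num [InR, bxIGu] <;> constructor <;> linarith⟩ hx hb hF hH hk

end Vale.Agent.P100.Calib.StripEnd
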