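import Vale.Agent.P100.Calib.SlabStripEndSignsC
import Vale.Agent.P100.Calib.SlabStripEndSignsF

/-!
# The signs over all the `C` charts from twenty on
-/

namespace Vale.Agent.P100.Calib.StripEnd

/-- **The statements for the `C` charts.** -/
theorem certsC (n : ℕ) : CertsC n :=
  ⟨cIFp_signs n, cIFq_signs n, cIFg_signs n, cIFh_signs n, cIGt_signs n, cIGu_signs n,
    signs_CA n, signs_CB n⟩

end Vale.Agent.P100.Calib.StripEnd
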