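import Vale.Agent.P100.Calib.SlabStripEndPieceC
import Vale.Agent.P100.Calib.SlabStripEndCertFull

/-!
# The checks of the piece `C03`
-/

namespace Vale.Agent.P100.Calib.StripEnd

open Pack hiding ev_add ev_mul
open Pack.Ex StripMid

local instance chkC03Add : Add Ex := ⟨Ex.add⟩
local instance chkC03Sub : Sub Ex := ⟨Ex.sub⟩
local instance chkC03Mul : Mul Ex := ⟨Ex.mul⟩

/-- The certificate of the piece `C03`. -/
theorem pcC03_ok : CertW pcC03 bxC03 := by
  have pcC03_g1 : ∀ s p l : Bool, checkFour bxC03.C 360 15 15 7 0 (pcC03.atC ⟨p, l, !s, !s, false⟩ (c1 s)) = true := by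
    decide +kernel
  have pcC03_g2 : ∀ s p : Bool, checkFour bxC03.C 842 35 35 12 0 (num (2 ^ 80) * pcC03.atC ⟨p, !s, true, true, false⟩ (c2S pcC03.k2 s) - pow (var 0 * (var 1 * var 2)) 7) = true := by
    decide +kernel
  have pcC03_g2b : ∀ s p : Bool, checkFour bxC03.C 842 35 35 12 0 (num (2 ^ 80) * pcC03.atC ⟨p, s, true, true, false⟩ (c2S pcC03.k2 s) - pow (var 0 * (var 1 * var 2)) 7) = true := by
    decide +kernel
  have pcC03_t2 : ∀ s p : Bool, checkFour bxC03.C 469 22 22 8 0 (pcC03.atC ⟨p, true, true, true, true⟩ (cut2t pcC03.k2 s)) = true := by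
    decide +kernel
  have pcC03_g3 : ∀ s p : Bool, checkFour bxC03.C 812 33 33 11 0 (num (2 ^ 80) * pcC03.atC ⟨p, false, true, true, false⟩ (c3S pcC03.θ s) - pow (var 0 * (var 1 * var 2)) 7) = true := by
    decide +kernel
  have pcC03_e3af : ∀ p : Bool, checkFour bxC03.C 363 18 17 5 0 (pcC03.atC ⟨p, true, true, true, false⟩ (cut3e pcC03.θ false)) = true := by
    decide +kernel
  have pcC03_e3at : ∀ p : Bool, checkFour bxC03.C 363 18 17 5 0 (pcC03.atC ⟨p, true, true, true, false⟩ (cut3e pcC03.θ true)) = true := by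
    decide +kernel
  have pcC03_k3a : checkFour bxC03.C 76 3 3 2 0 (pcC03.atC ⟨false, false, true, true, false⟩ (cut3k pcC03.θ)) = true := by
    decide +kernel
  have pcC03_g4 : ∀ s p t : Bool, checkFour bxC03.C 711 32 32 10 0 (pcC03.atC ⟨p, false, true, true, t⟩ (c4S pcC03.θ pcC03.k2 s)) = true := by
    decide +kernel
  have pcC03_e4af : ∀ p : Bool, checkFour bxC03.C 340 17 16 4 0 (pcC03.atC ⟨p, true, true, true, false⟩ (cut4e pcC03.θ pcC03.k2 false)) = true := by
    decide +kernel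
  have pcC03_e4at : ∀ p : Bool, checkFour bxC03.C 340 17 16 4 0 (pcC03.atC ⟨p, true, true, true, false⟩ (cut4e pcC03.θ pcC03.k2 true)) = true := by
    decide +kernel
  have pcC03_gMG : ∀ p : Bool, checkFour bxC03.C 686 31 31 10 0 (pcC03.atC ⟨p, false, true, false, false⟩ (tplMGLo)) = true := by
    decide +kernel
  have pcC03_eMG : ∀ p : Bool, checkFour bxC03.C 317 16 15 4 0 (pcC03.atC ⟨p, true, true, false, false⟩ (cutMe)) = true := by
    decide +kernel
  have pcC03_v2 : ∀ s : Bool, checkFour bxC03.C 199 10 9 4 0 (pcC03.atC ⟨false, false, true, true, false⟩ (curve2 pcC03.k2 s)) = true := by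
    decide +kernel
  have pcC03_v4 : ∀ s : Bool, checkFour bxC03.C 212 11 9 4 0 (pcC03.atC ⟨false, false, true, true, false⟩ (curve4 pcC03.θ pcC03.k2 s)) = true := by
    decide +kernel
  have pcC03_vMG : checkFour bxC03.C 187 10 8 4 0 (pcC03.atC ⟨false, false, true, true, false⟩ (Piece.curveMG)) = true := by
    decide +kernel
  have pcC03_wP : ∀ b hi : Bool, checkFour bxC03.C 71 2 2 1 1 (pcC03.winP b hi) = true := by
    decide +kernel
  have pcC03_wE : ∀ b hi : Bool, checkFour bxC03.C 355 17 17 4 2 (pcC03.winE b hi) = true := by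
    decide +kernel
  have pcC03_wK : ∀ b hi : Bool, checkFour bxC03.C 319 16 15 3 2 (pcC03.winK b hi) = true := by
    decide +kernel
  have pcC03_wW : ∀ b hi : Bool, checkFour bxC03.C 267 11 11 5 2 (pcC03.winW b hi) = true := by
    decide +kernel
  have pcC03_wT : ∀ b hi : Bool, checkFour bxC03.C 283 12 11 6 2 (pcC03.winT b hi) = true := by
    decide +kernel
  have pcC03_gap : ∀ b t : Bool, checkBig bxC03.C 711 34 34 11 3 (pcC03.gap b t) = true := by
    decide +kernel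
  exact {
    pos := ⟨⟨⟨by decide, by decide⟩, ⟨by decide, by decide⟩, by decide⟩, by decide⟩
    low := by decide
    kn := ⟨15, 1, 1, 0, 0, by decide +kernel⟩
    sgns := fun f => by
      cases f with
      | I => exact ⟨156, 3, 3, 3, 0, by decide +kernel⟩
      | d => exact ⟨157, 3, 3, 3, 0, by decide +kernel⟩
      | A => exact ⟨162, 3, 3, 3, 0, by decide +kernel⟩
      | S => exact ⟨162, 3, 3, 3, 0, by decide +kernel⟩
      | U => exact ⟨170, 3, 3, 3, 1, by decide +kernel⟩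
      | den => exact ⟨160, 3, 3, 3, 0, by decide +kernel⟩
      | o => exact ⟨156, 3, 3, 3, 0, by decide +kernel⟩
      | olt => exact ⟨160, 3, 3, 3, 0, by decide +kernel⟩
      | pd => exact ⟨175, 3, 3, 3, 0, by decide +kernel⟩
      | e0 => exact ⟨180, 3, 3, 3, 0, by decide +kernel⟩
      | f0 => exact ⟨176, 3, 3, 3, 0, by decide +kernel⟩
      | wd => exact ⟨177, 3, 3, 3, 0, by decide +kernel⟩
      | td => exact ⟨175, 3, 3, 3, 0, by decide +kernel⟩
      | cd => exact ⟨162, 3, 3, 3, 0, by decide +kernel⟩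
      | kd => exact ⟨160, 3, 3, 3, 0, by decide +kernel⟩
    dom := ⟨166, 3, 3, 3, 0, by decide +kernel⟩
    nons := fun f => by
      cases f with
      | dTop => exact ⟨11, 1, 0, 0, 0, by decide +kernel⟩
      | gSign => exact ⟨20, 1, 1, 0, 0, by decide +kernel⟩
      | pn b => cases b
                · exact ⟨55, 2, 2, 1, 0, by decide +kernel⟩
                · exact ⟨55, 2, 2, 1, 0, by decide +kernel⟩
      | tn => exact ⟨67, 2, 2, 2, 0, by decide +kernel⟩
      | enUp => exact ⟨80, 3, 3, 1, 0, by decide +kernel⟩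
      | kkUp => exact ⟨75, 3, 3, 1, 0, by decide +kernel⟩
      | wnUp => exact ⟨56, 2, 2, 1, 0, by decide +kernel⟩
      | tnUp => exact ⟨68, 2, 2, 2, 0, by decide +kernel⟩
    g1 := fun s p l => ⟨360, 15, 15, 7, 0, pcC03_g1 s p l⟩
    g2 := fun s p => Or.inr ⟨842, 35, 35, 12, 0, pcC03_g2 s p⟩
    e2 := Or.inr fun s p => Or.inr ⟨842, 35, 35, 12, 0, pcC03_g2b s p⟩
    t2 := fun s p => ⟨469, 22, 22, 8, 0, pcC03_t2 s p⟩
    g3 := fun s p => Or.inr ⟨812, 33, 33, 11, 0, pcC03_g3 s p⟩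
    e3 := fun s => by
      cases s
      · exact Or.inl (fun p => ⟨363, 18, 17, 5, 0, pcC03_e3af p⟩)
      · exact Or.inl (fun p => ⟨363, 18, 17, 5, 0, pcC03_e3at p⟩)
    k3 := Or.inl ⟨76, 3, 3, 2, 0, pcC03_k3a⟩
    g4 := fun s p t => ⟨711, 32, 32, 10, 0, pcC03_g4 s p t⟩
    e4 := fun s => by
      cases s
      · exact Or.inl (fun p => ⟨340, 17, 16, 4, 0, pcC03_e4af p⟩)
      · exact Or.inl (fun p => ⟨340, 17, 16, 4, 0, pcC03_e4at p⟩)
    gMG := fun p => ⟨686, 31, 31, 10, 0, pcC03_gMG p⟩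
    eMG := Or.inl (fun p => ⟨317, 16, 15, 4, 0, pcC03_eMG p⟩)
    v2 := fun s => ⟨199, 10, 9, 4, 0, pcC03_v2 s⟩
    v4 := fun s => ⟨212, 11, 9, 4, 0, pcC03_v4 s⟩
    vMG := ⟨187, 10, 8, 4, 0, pcC03_vMG⟩
    wP := fun b hi => ⟨71, 2, 2, 1, 1, pcC03_wP b hi⟩
    wE := fun b hi => ⟨355, 17, 17, 4, 2, pcC03_wE b hi⟩
    wK := fun b hi => ⟨319, 16, 15, 3, 2, pcC03_wK b hi⟩
    wW := fun b hi => ⟨267, 11, 11, 5, 2, pcC03_wW b hi⟩
    wT := fun b hi => ⟨283, 12, 11, 6, 2, pcC03_wT b hi⟩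
    gap := fun b t => ⟨711, 34, 34, 11, 3, checkFour_of_big (pcC03_gap b t)⟩ }

end Vale.Agent.P100.Calib.StripEnd
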