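import Vale.Agent.P100.Calib.SlabStripEndPieceC
import Vale.Agent.P100.Calib.SlabStripEndCertFull

/-!
# The checks of the piece `C11`
-/

namespace Vale.Agent.P100.Calib.StripEnd

open Pack hiding ev_add ev_mul
open Pack.Ex StripMid

local instance chkC11Add : Add Ex := ⟨Ex.add⟩
local instance chkC11Sub : Sub Ex := ⟨Ex.sub⟩
local instance chkC11Mul : Mul Ex := ⟨Ex.mul⟩

/-- The certificate of the piece `C11`. -/
theorem pcC11_ok : CertW pcC11 bxC11 := by
  have pcC11_g1 : ∀ s p l : Bool, checkFour bxC11.C 304 15 (cond s (cond p 14 15) (cond p 14 15)) 7 0 (pcC11.atC ⟨p, l, !s, !s, false⟩ (c1 s)) = true := by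
    decide +kernel
  have pcC11_g2 : ∀ s p : Bool, checkFour bxC11.C 723 35 33 12 0 (num (2 ^ 80) * pcC11.atC ⟨p, !s, true, true, false⟩ (c2S pcC11.k2 s) - pow (var 0 * (var 1 * var 2)) 7) = true := by
    decide +kernel
  have pcC11_g2b : ∀ s p : Bool, checkFour bxC11.C 723 35 33 12 0 (num (2 ^ 80) * pcC11.atC ⟨p, s, true, true, false⟩ (c2S pcC11.k2 s) - pow (var 0 * (var 1 * var 2)) 7) = true := by
    decide +kernel
  have pcC11_t2 : ∀ s p : Bool, checkFour bxC11.C 397 22 21 8 0 (pcC11.atC ⟨p, true, true, true, true⟩ (cut2t pcC11.k2 s)) = true := by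
    decide +kernel
  have pcC11_g3 : ∀ s p : Bool, checkFour bxC11.C 701 33 32 11 0 (num (2 ^ 80) * pcC11.atC ⟨p, false, true, true, false⟩ (c3S pcC11.θ s) - pow (var 0 * (var 1 * var 2)) 7) = true := by
    decide +kernel
  have pcC11_e3af : ∀ p : Bool, checkFour bxC11.C 313 18 17 5 0 (pcC11.atC ⟨p, true, true, true, false⟩ (cut3e pcC11.θ false)) = true := by
    decide +kernel
  have pcC11_e3at : ∀ p : Bool, checkFour bxC11.C 313 18 17 5 0 (pcC11.atC ⟨p, true, true, true, false⟩ (cut3e pcC11.θ true)) = true := by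
    decide +kernel
  have pcC11_k3a : checkFour bxC11.C 66 3 3 2 0 (pcC11.atC ⟨false, false, true, true, false⟩ (cut3k pcC11.θ)) = true := by
    decide +kernel
  have pcC11_g4 : ∀ s p t : Bool, checkFour bxC11.C 601 32 31 10 0 (pcC11.atC ⟨p, false, true, true, t⟩ (c4S pcC11.θ pcC11.k2 s)) = true := by
    decide +kernel
  have pcC11_e4af : ∀ p : Bool, checkFour bxC11.C 292 17 16 4 0 (pcC11.atC ⟨p, true, true, true, false⟩ (cut4e pcC11.θ pcC11.k2 false)) = true := by
    decide +kernel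
  have pcC11_e4at : ∀ p : Bool, checkFour bxC11.C 292 17 16 4 0 (pcC11.atC ⟨p, true, true, true, false⟩ (cut4e pcC11.θ pcC11.k2 true)) = true := by
    decide +kernel
  have pcC11_gMG : ∀ p : Bool, checkFour bxC11.C 581 31 30 10 0 (pcC11.atC ⟨p, false, true, false, false⟩ (tplMGLo)) = true := by
    decide +kernel
  have pcC11_eMG : ∀ p : Bool, checkFour bxC11.C 273 16 15 4 0 (pcC11.atC ⟨p, true, true, false, false⟩ (cutMe)) = true := by
    decide +kernel
  have pcC11_v2 : ∀ s : Bool, checkFour bxC11.C 173 10 9 4 0 (pcC11.atC ⟨false, false, true, true, false⟩ (curve2 pcC11.k2 s)) = true := by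
    decide +kernel
  have pcC11_v4 : ∀ s : Bool, checkFour bxC11.C 185 11 9 4 0 (pcC11.atC ⟨false, false, true, true, false⟩ (curve4 pcC11.θ pcC11.k2 s)) = true := by
    decide +kernel
  have pcC11_vMG : checkFour bxC11.C 165 10 8 4 0 (pcC11.atC ⟨false, false, true, true, false⟩ (Piece.curveMG)) = true := by
    decide +kernel
  have pcC11_wP : ∀ b hi : Bool, checkFour bxC11.C 56 2 2 1 1 (pcC11.winP b hi) = true := by
    decide +kernel
  have pcC11_wE : ∀ b hi : Bool, checkFour bxC11.C 300 17 17 4 2 (pcC11.winE b hi) = true := by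
    decide +kernel
  have pcC11_wK : ∀ b hi : Bool, checkFour bxC11.C 273 16 15 3 2 (pcC11.winK b hi) = true := by
    decide +kernel
  have pcC11_wW : ∀ b hi : Bool, checkFour bxC11.C 221 11 11 5 2 (pcC11.winW b hi) = true := by
    decide +kernel
  have pcC11_wT : ∀ b hi : Bool, checkFour bxC11.C 236 12 10 6 2 (pcC11.winT b hi) = true := by
    decide +kernel
  have pcC11_gap : ∀ b t : Bool, checkBig bxC11.C 598 34 33 11 3 (pcC11.gap b t) = true := by
    decide +kernel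
  exact {
    pos := ⟨⟨⟨by decide, by decide⟩, ⟨by decide, by decide⟩, by decide⟩, by decide⟩
    low := by decide
    kn := ⟨13, 1, 1, 0, 0, by decide +kernel⟩
    sgns := fun f => by
      cases f with
      | I => exact ⟨144, 3, 3, 3, 0, by decide +kernel⟩
      | d => exact ⟨146, 3, 3, 3, 0, by decide +kernel⟩
      | A => exact ⟨149, 3, 3, 3, 0, by decide +kernel⟩
      | S => exact ⟨149, 3, 3, 3, 0, by decide +kernel⟩
      | U => exact ⟨153, 3, 3, 3, 1, by decide +kernel⟩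
      | den => exact ⟨147, 3, 3, 3, 0, by decide +kernel⟩
      | o => exact ⟨144, 3, 3, 3, 0, by decide +kernel⟩
      | olt => exact ⟨148, 3, 3, 3, 0, by decide +kernel⟩
      | pd => exact ⟨158, 3, 3, 3, 0, by decide +kernel⟩
      | e0 => exact ⟨166, 3, 3, 3, 0, by decide +kernel⟩
      | f0 => exact ⟨162, 3, 3, 3, 0, by decide +kernel⟩
      | wd => exact ⟨160, 3, 3, 3, 0, by decide +kernel⟩
      | td => exact ⟨161, 3, 3, 3, 0, by decide +kernel⟩
      | cd => exact ⟨149, 3, 3, 3, 0, by decide +kernel⟩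
      | kd => exact ⟨147, 3, 3, 3, 0, by decide +kernel⟩
    dom := ⟨153, 3, 3, 3, 0, by decide +kernel⟩
    nons := fun f => by
      cases f with
      | dTop => exact ⟨13, 1, 0, 0, 0, by decide +kernel⟩
      | gSign => exact ⟨17, 1, 1, 0, 0, by decide +kernel⟩
      | pn b => cases b
                · exact ⟨45, 2, 2, 1, 0, by decide +kernel⟩
                · exact ⟨42, 2, 1, 1, 0, by decide +kernel⟩
      | tn => exact ⟨54, 2, 1, 2, 0, by decide +kernel⟩
      | enUp => exact ⟨69, 3, 3, 1, 0, by decide +kernel⟩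
      | kkUp => exact ⟨66, 3, 3, 1, 0, by decide +kernel⟩
      | wnUp => exact ⟨47, 2, 2, 1, 0, by decide +kernel⟩
      | tnUp => exact ⟨55, 2, 1, 2, 0, by decide +kernel⟩
    g1 := fun s p l => ⟨304, 15, (cond s (cond p 14 15) (cond p 14 15)), 7, 0, pcC11_g1 s p l⟩
    g2 := fun s p => Or.inr ⟨723, 35, 33, 12, 0, pcC11_g2 s p⟩
    e2 := Or.inr fun s p => Or.inr ⟨723, 35, 33, 12, 0, pcC11_g2b s p⟩
    t2 := fun s p => ⟨397, 22, 21, 8, 0, pcC11_t2 s p⟩
    g3 := fun s p => Or.inr ⟨701, 33, 32, 11, 0, pcC11_g3 s p⟩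
    e3 := fun s => by
      cases s
      · exact Or.inl (fun p => ⟨313, 18, 17, 5, 0, pcC11_e3af p⟩)
      · exact Or.inl (fun p => ⟨313, 18, 17, 5, 0, pcC11_e3at p⟩)
    k3 := Or.inl ⟨66, 3, 3, 2, 0, pcC11_k3a⟩
    g4 := fun s p t => ⟨601, 32, 31, 10, 0, pcC11_g4 s p t⟩
    e4 := fun s => by
      cases s
      · exact Or.inl (fun p => ⟨292, 17, 16, 4, 0, pcC11_e4af p⟩)
      · exact Or.inl (fun p => ⟨292, 17, 16, 4, 0, pcC11_e4at p⟩)
    gMG := fun p => ⟨581, 31, 30, 10, 0, pcC11_gMG p⟩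
    eMG := Or.inl (fun p => ⟨273, 16, 15, 4, 0, pcC11_eMG p⟩)
    v2 := fun s => ⟨173, 10, 9, 4, 0, pcC11_v2 s⟩
    v4 := fun s => ⟨185, 11, 9, 4, 0, pcC11_v4 s⟩
    vMG := ⟨165, 10, 8, 4, 0, pcC11_vMG⟩
    wP := fun b hi => ⟨56, 2, 2, 1, 1, pcC11_wP b hi⟩
    wE := fun b hi => ⟨300, 17, 17, 4, 2, pcC11_wE b hi⟩
    wK := fun b hi => ⟨273, 16, 15, 3, 2, pcC11_wK b hi⟩
    wW := fun b hi => ⟨221, 11, 11, 5, 2, pcC11_wW b hi⟩
    wT := fun b hi => ⟨236, 12, 10, 6, 2, pcC11_wT b hi⟩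
    gap := fun b t => ⟨598, 34, 33, 11, 3, checkFour_of_big (pcC11_gap b t)⟩ }

end Vale.Agent.P100.Calib.StripEnd
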