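import Vale.Agent.P100.Calib.SlabStripEndPieceC
import Vale.Agent.P100.Calib.SlabStripEndCertFull

/-!
# The checks of the piece `C12`
-/

namespace Vale.Agent.P100.Calib.StripEnd

open Pack hiding ev_add ev_mul
open Pack.Ex StripMid

local instance chkC12Add : Add Ex := ⟨Ex.add⟩
local instance chkC12Sub : Sub Ex := ⟨Ex.sub⟩
local instance chkC12Mul : Mul Ex := ⟨Ex.mul⟩

/-- The certificate of the piece `C12`. -/
theorem pcC12_ok : CertW pcC12 bxC12 := by
  have pcC12_g1 : ∀ s p l : Bool, checkFour bxC12.C 306 15 (cond s (cond p 14 15) (cond p 14 15)) 7 0 (pcC12.atC ⟨p, l, !s, !s, false⟩ (c1 s)) = true := by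
    decide +kernel
  have pcC12_g2 : ∀ s p : Bool, checkFour bxC12.C 728 35 33 12 0 (num (2 ^ 80) * pcC12.atC ⟨p, !s, true, true, false⟩ (c2S pcC12.k2 s) - pow (var 0 * (var 1 * var 2)) 7) = true := by
    decide +kernel
  have pcC12_g2b : ∀ s p : Bool, checkFour bxC12.C 728 35 33 12 0 (num (2 ^ 80) * pcC12.atC ⟨p, s, true, true, false⟩ (c2S pcC12.k2 s) - pow (var 0 * (var 1 * var 2)) 7) = true := by
    decide +kernel
  have pcC12_t2 : ∀ s p : Bool, checkFour bxC12.C 396 22 21 8 0 (pcC12.atC ⟨p, true, true, true, true⟩ (cut2t pcC12.k2 s)) = true := by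
    decide +kernel
  have pcC12_g3 : ∀ s p : Bool, checkFour bxC12.C 707 33 32 11 0 (num (2 ^ 80) * pcC12.atC ⟨p, false, true, true, false⟩ (c3S pcC12.θ s) - pow (var 0 * (var 1 * var 2)) 7) = true := by
    decide +kernel
  have pcC12_e3bf : ∀ p : Bool, checkFour bxC12.C 707 33 32 11 0 (num (2 ^ 80) * pcC12.atC ⟨p, true, true, true, false⟩ (c3S pcC12.θ false) - pow (var 0 * (var 1 * var 2)) 7) = true := by
    decide +kernel
  have pcC12_e3bt : ∀ p : Bool, checkFour bxC12.C 707 33 32 11 0 (num (2 ^ 80) * pcC12.atC ⟨p, true, true, true, false⟩ (c3S pcC12.θ true) - pow (var 0 * (var 1 * var 2)) 7) = true := by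
    decide +kernel
  have pcC12_k3a : checkFour bxC12.C 64 3 3 2 0 (pcC12.atC ⟨false, false, true, true, false⟩ (cut3k pcC12.θ)) = true := by
    decide +kernel
  have pcC12_g4 : ∀ s p t : Bool, checkFour bxC12.C 607 32 31 10 0 (pcC12.atC ⟨p, false, true, true, t⟩ (c4S pcC12.θ pcC12.k2 s)) = true := by
    decide +kernel
  have pcC12_e4bf : ∀ p t : Bool, checkFour bxC12.C 607 32 31 10 0 (pcC12.atC ⟨p, true, true, true, t⟩ (c4S pcC12.θ pcC12.k2 false)) = true := by
    decide +kernel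
  have pcC12_e4bt : ∀ p t : Bool, checkFour bxC12.C 607 32 31 10 0 (pcC12.atC ⟨p, true, true, true, t⟩ (c4S pcC12.θ pcC12.k2 true)) = true := by
    decide +kernel
  have pcC12_gMG : ∀ p : Bool, checkFour bxC12.C 589 31 30 10 0 (pcC12.atC ⟨p, false, true, false, false⟩ (tplMGLo)) = true := by
    decide +kernel
  have pcC12_eMG : ∀ p : Bool, checkFour bxC12.C 275 16 15 4 0 (pcC12.atC ⟨p, true, true, false, false⟩ (cutMe)) = true := by
    decide +kernel
  have pcC12_v2 : ∀ s : Bool, checkFour bxC12.C 169 10 9 4 0 (pcC12.atC ⟨false, false, true, true, false⟩ (curve2 pcC12.k2 s)) = true := by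
    decide +kernel
  have pcC12_v4 : ∀ s : Bool, checkFour bxC12.C 179 11 9 4 0 (pcC12.atC ⟨false, false, true, true, false⟩ (curve4 pcC12.θ pcC12.k2 s)) = true := by
    decide +kernel
  have pcC12_vMG : checkFour bxC12.C 162 10 8 4 0 (pcC12.atC ⟨false, false, true, true, false⟩ (Piece.curveMG)) = true := by
    decide +kernel
  have pcC12_wP : ∀ b hi : Bool, checkFour bxC12.C 60 2 2 1 1 (pcC12.winP b hi) = true := by
    decide +kernel
  have pcC12_wE : ∀ b hi : Bool, checkFour bxC12.C 305 17 17 4 2 (pcC12.winE b hi) = true := by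
    decide +kernel
  have pcC12_wK : ∀ b hi : Bool, checkFour bxC12.C 278 16 15 3 2 (pcC12.winK b hi) = true := by
    decide +kernel
  have pcC12_wW : ∀ b hi : Bool, checkFour bxC12.C 224 11 11 5 2 (pcC12.winW b hi) = true := by
    decide +kernel
  have pcC12_wT : ∀ b hi : Bool, checkFour bxC12.C 240 12 10 6 2 (pcC12.winT b hi) = true := by
    decide +kernel
  have pcC12_gap : ∀ b t : Bool, checkBig bxC12.C 602 34 33 11 3 (pcC12.gap b t) = true := by
    decide +kernel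
  exact {
    pos := ⟨⟨⟨by decide, by decide⟩, ⟨by decide, by decide⟩, by decide⟩, by decide⟩
    low := by decide
    kn := ⟨13, 1, 1, 0, 0, by decide +kernel⟩
    sgns := fun f => by
      cases f with
      | I => exact ⟨143, 3, 3, 3, 0, by decide +kernel⟩
      | d => exact ⟨145, 3, 3, 3, 0, by decide +kernel⟩
      | A => exact ⟨148, 3, 3, 3, 0, by decide +kernel⟩
      | S => exact ⟨148, 3, 3, 3, 0, by decide +kernel⟩
      | U => exact ⟨154, 3, 3, 3, 1, by decide +kernel⟩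
      | den => exact ⟨146, 3, 3, 3, 0, by decide +kernel⟩
      | o => exact ⟨143, 3, 3, 3, 0, by decide +kernel⟩
      | olt => exact ⟨146, 3, 3, 3, 0, by decide +kernel⟩
      | pd => exact ⟨159, 3, 3, 3, 0, by decide +kernel⟩
      | e0 => exact ⟨167, 3, 3, 3, 0, by decide +kernel⟩
      | f0 => exact ⟨164, 3, 3, 3, 0, by decide +kernel⟩
      | wd => exact ⟨161, 3, 3, 3, 0, by decide +kernel⟩
      | td => exact ⟨162, 3, 3, 3, 0, by decide +kernel⟩
      | cd => exact ⟨148, 3, 3, 3, 0, by decide +kernel⟩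
      | kd => exact ⟨146, 3, 3, 3, 0, by decide +kernel⟩
    dom := ⟨152, 3, 3, 3, 0, by decide +kernel⟩
    nons := fun f => by
      cases f with
      | dTop => exact ⟨13, 1, 0, 0, 0, by decide +kernel⟩
      | gSign => exact ⟨17, 1, 1, 0, 0, by decide +kernel⟩
      | pn b => cases b
                · exact ⟨46, 2, 2, 1, 0, by decide +kernel⟩
                · exact ⟨43, 2, 1, 1, 0, by decide +kernel⟩
      | tn => exact ⟨56, 2, 1, 2, 0, by decide +kernel⟩
      | enUp => exact ⟨71, 3, 3, 1, 0, by decide +kernel⟩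
      | kkUp => exact ⟨68, 3, 3, 1, 0, by decide +kernel⟩
      | wnUp => exact ⟨48, 2, 2, 1, 0, by decide +kernel⟩
      | tnUp => exact ⟨57, 2, 1, 2, 0, by decide +kernel⟩
    g1 := fun s p l => ⟨306, 15, (cond s (cond p 14 15) (cond p 14 15)), 7, 0, pcC12_g1 s p l⟩
    g2 := fun s p => Or.inr ⟨728, 35, 33, 12, 0, pcC12_g2 s p⟩
    e2 := Or.inr fun s p => Or.inr ⟨728, 35, 33, 12, 0, pcC12_g2b s p⟩
    t2 := fun s p => ⟨396, 22, 21, 8, 0, pcC12_t2 s p⟩
    g3 := fun s p => Or.inr ⟨707, 33, 32, 11, 0, pcC12_g3 s p⟩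
    e3 := fun s => by
      cases s
      · exact Or.inr fun p => Or.inr ⟨707, 33, 32, 11, 0, pcC12_e3bf p⟩
      · exact Or.inr fun p => Or.inr ⟨707, 33, 32, 11, 0, pcC12_e3bt p⟩
    k3 := Or.inl ⟨64, 3, 3, 2, 0, pcC12_k3a⟩
    g4 := fun s p t => ⟨607, 32, 31, 10, 0, pcC12_g4 s p t⟩
    e4 := fun s => by
      cases s
      · exact Or.inr (fun p t => ⟨607, 32, 31, 10, 0, pcC12_e4bf p t⟩)
      · exact Or.inr (fun p t => ⟨607, 32, 31, 10, 0, pcC12_e4bt p t⟩)
    gMG := fun p => ⟨589, 31, 30, 10, 0, pcC12_gMG p⟩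
    eMG := Or.inl (fun p => ⟨275, 16, 15, 4, 0, pcC12_eMG p⟩)
    v2 := fun s => ⟨169, 10, 9, 4, 0, pcC12_v2 s⟩
    v4 := fun s => ⟨179, 11, 9, 4, 0, pcC12_v4 s⟩
    vMG := ⟨162, 10, 8, 4, 0, pcC12_vMG⟩
    wP := fun b hi => ⟨60, 2, 2, 1, 1, pcC12_wP b hi⟩
    wE := fun b hi => ⟨305, 17, 17, 4, 2, pcC12_wE b hi⟩
    wK := fun b hi => ⟨278, 16, 15, 3, 2, pcC12_wK b hi⟩
    wW := fun b hi => ⟨224, 11, 11, 5, 2, pcC12_wW b hi⟩
    wT := fun b hi => ⟨240, 12, 10, 6, 2, pcC12_wT b hi⟩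
    gap := fun b t => ⟨602, 34, 33, 11, 3, checkFour_of_big (pcC12_gap b t)⟩ }

end Vale.Agent.P100.Calib.StripEnd
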