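import Vale.Agent.P100.Calib.SlabStripEndPieceC
import Vale.Agent.P100.Calib.SlabStripEndCertFull

/-!
# The checks of the piece `C15`
-/

namespace Vale.Agent.P100.Calib.StripEnd

open Pack hiding ev_add ev_mul
open Pack.Ex StripMid

local instance chkC15Add : Add Ex := ⟨Ex.add⟩
local instance chkC15Sub : Sub Ex := ⟨Ex.sub⟩
local instance chkC15Mul : Mul Ex := ⟨Ex.mul⟩

/-- The certificate of the piece `C15`. -/
theorem pcC15_ok : CertF pcC15 bxC15 := by
  have pcC15_g1 : ∀ s p l : Bool, checkFour bxC15.C 337 15 15 7 0 (pcC15.atC ⟨p, l, !s, !s, false⟩ (c1 s)) = true := by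
    decide +kernel
  have pcC15_g2 : ∀ s p l t : Bool, checkFour bxC15.C 795 35 35 12 0 (pcC15.atC ⟨p, l, true, true, t⟩ (StripEnd.strict (c2 pcC15.k2 s))) = true := by
    decide +kernel
  have pcC15_g3 : ∀ s p l : Bool, checkFour bxC15.C 804 35 35 12 0 (pcC15.atC ⟨p, l, true, true, false⟩ (StripEnd.strict (c3 pcC15.θ s))) = true := by
    decide +kernel
  have pcC15_g3x : ∀ p l : Bool, checkFour bxC15.C 804 35 35 12 0 (pcC15.atC ⟨p, l, false, false, false⟩ (StripEnd.strict (c3 pcC15.θ true))) = true := by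
    decide +kernel
  have pcC15_g4 : ∀ s p l t : Bool, checkFour bxC15.C 702 34 34 11 0 (pcC15.atC ⟨p, l, true, true, t⟩ (c4 pcC15.θ pcC15.k2 s)) = true := by
    decide +kernel
  have pcC15_gMG : ∀ p l t : Bool, checkFour bxC15.C 682 33 33 11 0 (pcC15.atC ⟨p, l, true, false, t⟩ (tplMG)) = true := by
    decide +kernel
  have pcC15_v2 : ∀ s : Bool, checkFour bxC15.C 189 10 9 4 0 (pcC15.atC ⟨false, false, true, true, false⟩ (curve2 pcC15.k2 s)) = true := by
    decide +kernel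
  have pcC15_v4 : ∀ s : Bool, checkFour bxC15.C 199 11 9 4 0 (pcC15.atC ⟨false, false, true, true, false⟩ (curve4 pcC15.θ pcC15.k2 s)) = true := by
    decide +kernel
  have pcC15_vMG : checkFour bxC15.C 181 10 8 4 0 (pcC15.atC ⟨false, false, true, true, false⟩ (Piece.curveMG)) = true := by
    decide +kernel
  have pcC15_wP : ∀ b hi : Bool, checkFour bxC15.C 64 2 2 1 1 (pcC15.winP b hi) = true := by
    decide +kernel
  have pcC15_wE : ∀ b hi : Bool, checkFour bxC15.C 329 17 17 4 2 (pcC15.winE b hi) = true := by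
    decide +kernel
  have pcC15_wK : ∀ b hi : Bool, checkFour bxC15.C 299 16 15 3 2 (pcC15.winK b hi) = true := by
    decide +kernel
  have pcC15_wW : ∀ b hi : Bool, checkFour bxC15.C 246 11 11 5 2 (pcC15.winW b hi) = true := by
    decide +kernel
  have pcC15_wT : ∀ b hi : Bool, checkFour bxC15.C 268 12 11 6 2 (pcC15.winT b hi) = true := by
    decide +kernel
  have pcC15_gap : ∀ b t : Bool, checkBig bxC15.C 661 34 34 11 3 (pcC15.gap b t) = true := by
    decide +kernel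
  exact {
    pos := ⟨⟨⟨by decide, by decide⟩, ⟨by decide, by decide⟩, by decide⟩, by decide⟩
    low := by decide
    kn := ⟨13, 1, 1, 0, 0, by decide +kernel⟩
    sgns := fun f => by
      cases f with
      | I => exact ⟨152, 3, 3, 3, 0, by decide +kernel⟩
      | d => exact ⟨154, 3, 3, 3, 0, by decide +kernel⟩
      | A => exact ⟨157, 3, 3, 3, 0, by decide +kernel⟩
      | S => exact ⟨157, 3, 3, 3, 0, by decide +kernel⟩
      | U => exact ⟨163, 3, 3, 3, 1, by decide +kernel⟩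
      | den => exact ⟨156, 3, 3, 3, 0, by decide +kernel⟩
      | o => exact ⟨152, 3, 3, 3, 0, by decide +kernel⟩
      | olt => exact ⟨156, 3, 3, 3, 0, by decide +kernel⟩
      | pd => exact ⟨168, 3, 3, 3, 0, by decide +kernel⟩
      | e0 => exact ⟨177, 3, 3, 3, 0, by decide +kernel⟩
      | f0 => exact ⟨173, 3, 3, 3, 0, by decide +kernel⟩
      | wd => exact ⟨170, 3, 3, 3, 0, by decide +kernel⟩
      | td => exact ⟨172, 3, 3, 3, 0, by decide +kernel⟩
      | cd => exact ⟨157, 3, 3, 3, 0, by decide +kernel⟩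
      | kd => exact ⟨156, 3, 3, 3, 0, by decide +kernel⟩
    g1 := fun s p l => ⟨337, 15, 15, 7, 0, pcC15_g1 s p l⟩
    g2 := fun s p l t => ⟨795, 35, 35, 12, 0, pcC15_g2 s p l t⟩
    g3 := fun s p l => ⟨804, 35, 35, 12, 0, pcC15_g3 s p l⟩
    g3x := fun p l => ⟨804, 35, 35, 12, 0, pcC15_g3x p l⟩
    g4 := fun s p l t => ⟨702, 34, 34, 11, 0, pcC15_g4 s p l t⟩
    gMG := fun p l t => ⟨682, 33, 33, 11, 0, pcC15_gMG p l t⟩
    v2 := fun s => ⟨189, 10, 9, 4, 0, pcC15_v2 s⟩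
    v4 := fun s => ⟨199, 11, 9, 4, 0, pcC15_v4 s⟩
    vMG := ⟨181, 10, 8, 4, 0, pcC15_vMG⟩
    wP := fun b hi => ⟨64, 2, 2, 1, 1, pcC15_wP b hi⟩
    wE := fun b hi => ⟨329, 17, 17, 4, 2, pcC15_wE b hi⟩
    wK := fun b hi => ⟨299, 16, 15, 3, 2, pcC15_wK b hi⟩
    wW := fun b hi => ⟨246, 11, 11, 5, 2, pcC15_wW b hi⟩
    wT := fun b hi => ⟨268, 12, 11, 6, 2, pcC15_wT b hi⟩
    gap := fun b t => ⟨661, 34, 34, 11, 3, checkFour_of_big (pcC15_gap b t)⟩ }

end Vale.Agent.P100.Calib.StripEnd
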