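import Vale.Agent.P100.Calib.SlabStripEndPieceZ
import Vale.Agent.P100.Calib.SlabStripEndBig

/-!
# The checks of the piece `pcZA`
-/

namespace Vale.Agent.P100.Calib.StripEnd

open Pack Pack.Ex StripMid

local instance endChkZAAdd : Add Ex := ⟨Ex.add⟩
local instance endChkZASub : Sub Ex := ⟨Ex.sub⟩
local instance endChkZAMul : Mul Ex := ⟨Ex.mul⟩

/-- **The certificate of `pcZA`.** -/
theorem certZA : CertS pcZA bxZA := by
  have h_kn : checkBig bxZA.C 10 0 2 1 0 pcZA.kn = true := by decide +kernel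
  have h_dom : checkBig bxZA.C 108 3 3 3 0 (strictVar (num 10 * pcZA.A - num 7)) = true := by decide +kernel
  have h_g1 : ∀ s p l : Bool, checkBig bxZA.C 158 8 16 13 5 (pcZA.atC ⟨p, l, !s, !s, false⟩ (c1 s)) = true := by decide +kernel
  have h_g2 : ∀ s p : Bool, checkBig bxZA.C 355 16 26 23 8 (pcZA.atC ⟨p, !s, true, true, false⟩ (strict (c2S pcZA.k2 s))) = true := by decide +kernel
  have h_e2 : ∀ s p : Bool, checkBig bxZA.C 355 16 26 23 8 (pcZA.atC ⟨p, s, true, true, false⟩ (strict (c2S pcZA.k2 s))) = true := by decide +kernel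
  have h_t2 : ∀ s p : Bool, checkBig bxZA.C 192 10 17 15 7 (pcZA.atC ⟨p, true, true, true, true⟩ (cut2t pcZA.k2 s)) = true := by decide +kernel
  have h_g3 : ∀ s p : Bool, checkBig bxZA.C 379 16 31 26 8 (pcZA.atC ⟨p, false, true, true, false⟩ (strict (c3S pcZA.θ s))) = true := by decide +kernel
  have h_e3f : ∀ p : Bool, checkBig bxZA.C 176 9 18 14 6 (pcZA.atC ⟨p, true, true, true, false⟩ (cut3e pcZA.θ false)) = true := by decide +kernel
  have h_e3t : ∀ p : Bool, checkBig bxZA.C 176 9 18 14 6 (pcZA.atC ⟨p, true, true, true, false⟩ (cut3e pcZA.θ true)) = true := by decide +kernel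
  have h_e4f : ∀ p : Bool, checkBig bxZA.C 166 9 16 13 5 (pcZA.atC ⟨p, true, true, true, false⟩ (cut4e pcZA.θ pcZA.k2 false)) = true := by decide +kernel
  have h_e4t : ∀ p : Bool, checkBig bxZA.C 166 9 16 13 5 (pcZA.atC ⟨p, true, true, true, false⟩ (cut4e pcZA.θ pcZA.k2 true)) = true := by decide +kernel
  have h_k3 : checkBig bxZA.C 51 1 4 3 2 (pcZA.atC ⟨false, false, true, true, false⟩ (cut3k pcZA.θ)) = true := by decide +kernel
  have h_g4 : ∀ s p t : Bool, checkBig bxZA.C 279 15 27 23 7 (pcZA.atC ⟨p, false, true, true, t⟩ (c4S pcZA.θ pcZA.k2 s)) = true := by decide +kernel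
  have h_gMG : ∀ p : Bool, checkBig bxZA.C 253 14 26 22 7 (pcZA.atC ⟨p, false, true, false, false⟩ tplMGLo) = true := by decide +kernel
  have h_eMG : ∀ p : Bool, checkBig bxZA.C 141 8 15 12 5 (pcZA.atC ⟨p, true, true, false, false⟩ cutMe) = true := by decide +kernel
  have h_v2 : ∀ s : Bool, checkBig bxZA.C 103 6 10 9 4 (pcZA.atC ⟨false, false, true, true, false⟩ (curve2 pcZA.k2 s)) = true := by decide +kernel
  have h_v4 : ∀ s : Bool, checkBig bxZA.C 119 7 11 9 4 (pcZA.atC ⟨false, false, true, true, false⟩ (curve4 pcZA.θ pcZA.k2 s)) = true := by decide +kernel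
  have h_vMG : checkBig bxZA.C 93 6 10 8 4 (pcZA.atC ⟨false, false, true, true, false⟩ Piece.curveMG) = true := by decide +kernel
  have h_wP : ∀ b q : Bool, checkBig bxZA.C 32 1 1 1 1 (pcZA.winP b q) = true := by decide +kernel
  have h_wE : ∀ b q : Bool, checkBig bxZA.C 154 13 16 13 3 (pcZA.winE b q) = true := by decide +kernel
  have h_wK : ∀ b q : Bool, checkBig bxZA.C 134 13 15 11 2 (pcZA.winK b q) = true := by decide +kernel
  have h_wW : ∀ b q : Bool, checkBig bxZA.C 106 7 10 8 3 (pcZA.winW b q) = true := by decide +kernel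
  have h_wT : ∀ b q : Bool, checkBig bxZA.C 100 7 8 8 3 (pcZA.winT b q) = true := by decide +kernel
  have h_gap : ∀ b q : Bool, checkBig bxZA.C 268 23 27 24 6 (pcZA.gap b q) = true := by decide +kernel
  exact {
    pos := ⟨⟨by decide, by decide, by decide⟩, by decide⟩
    low := by decide
    kn := ⟨_, _, _, _, _, checkFour_of_big h_kn⟩
    sgns := fun f => by
      cases f
      · exact ⟨97, 3, 3, 3, 0, by decide +kernel⟩
      · exact ⟨96, 3, 3, 3, 0, by decide +kernel⟩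
      · exact ⟨104, 3, 3, 3, 0, by decide +kernel⟩
      · exact ⟨104, 3, 3, 3, 0, by decide +kernel⟩
      · exact ⟨104, 3, 3, 3, 0, by decide +kernel⟩
      · exact ⟨105, 3, 3, 3, 0, by decide +kernel⟩
      · exact ⟨111, 3, 3, 3, 1, by decide +kernel⟩
      · exact ⟨113, 3, 3, 3, 1, by decide +kernel⟩
      · exact ⟨109, 3, 3, 3, 0, by decide +kernel⟩
      · exact ⟨125, 3, 4, 3, 1, by decide +kernel⟩
      · exact ⟨113, 3, 3, 3, 0, by decide +kernel⟩
      · exact ⟨113, 3, 3, 3, 0, by decide +kernel⟩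
      · exact ⟨111, 3, 3, 3, 0, by decide +kernel⟩
      · exact ⟨103, 3, 3, 3, 0, by decide +kernel⟩
      · exact ⟨116, 3, 3, 3, 1, by decide +kernel⟩
    dom := ⟨_, _, _, _, _, checkFour_of_big h_dom⟩
    nons := fun f => by
      rcases f with _ | _ | ⟨_ | _⟩ | _ | _ | _ | _ | _
      · exact ⟨9, 1, 1, 1, 0, by decide +kernel⟩
      · exact ⟨11, 1, 1, 1, 0, by decide +kernel⟩
      · exact ⟨24, 1, 1, 1, 1, by decide +kernel⟩
      · exact ⟨24, 1, 1, 1, 1, by decide +kernel⟩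
      · exact ⟨8, 0, 0, 0, 0, by decide +kernel⟩
      · exact ⟨40, 2, 4, 2, 1, by decide +kernel⟩
      · exact ⟨24, 2, 3, 2, 0, by decide +kernel⟩
      · exact ⟨25, 1, 2, 1, 1, by decide +kernel⟩
      · exact ⟨10, 0, 0, 0, 0, by decide +kernel⟩
    g1 := fun s p l => ⟨_, _, _, _, _, checkFour_of_big (h_g1 s p l)⟩
    g2 := fun s p => ⟨_, _, _, _, _, checkFour_of_big (h_g2 s p)⟩
    e2 := Or.inr (fun s p => ⟨_, _, _, _, _, checkFour_of_big (h_e2 s p)⟩)
    t2 := fun s p => ⟨_, _, _, _, _, checkFour_of_big (h_t2 s p)⟩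
    g3 := fun s p => ⟨_, _, _, _, _, checkFour_of_big (h_g3 s p)⟩
    e3 := fun s => by
      cases s
      · exact Or.inl (fun p => ⟨_, _, _, _, _, checkFour_of_big (h_e3f p)⟩)
      · exact Or.inl (fun p => ⟨_, _, _, _, _, checkFour_of_big (h_e3t p)⟩)
    k3 := Or.inl ⟨_, _, _, _, _, checkFour_of_big h_k3⟩
    g4 := fun s p t => ⟨_, _, _, _, _, checkFour_of_big (h_g4 s p t)⟩
    e4 := fun s => by
      cases s
      · exact Or.inl (fun p => ⟨_, _, _, _, _, checkFour_of_big (h_e4f p)⟩)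
      · exact Or.inl (fun p => ⟨_, _, _, _, _, checkFour_of_big (h_e4t p)⟩)
    gMG := fun p => ⟨_, _, _, _, _, checkFour_of_big (h_gMG p)⟩
    eMG := Or.inl (fun p => ⟨_, _, _, _, _, checkFour_of_big (h_eMG p)⟩)
    v2 := fun s => ⟨_, _, _, _, _, checkFour_of_big (h_v2 s)⟩
    v4 := fun s => ⟨_, _, _, _, _, checkFour_of_big (h_v4 s)⟩
    vMG := ⟨_, _, _, _, _, checkFour_of_big h_vMG⟩
    wP := fun b q => ⟨_, _, _, _, _, checkFour_of_big (h_wP b q)⟩
    wE := fun b q => ⟨_, _, _, _, _, checkFour_of_big (h_wE b q)⟩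
    wK := fun b q => ⟨_, _, _, _, _, checkFour_of_big (h_wK b q)⟩
    wW := fun b q => ⟨_, _, _, _, _, checkFour_of_big (h_wW b q)⟩
    wT := fun b q => ⟨_, _, _, _, _, checkFour_of_big (h_wT b q)⟩
    gap := fun b q => ⟨_, _, _, _, _, checkFour_of_big (h_gap b q)⟩ }

end Vale.Agent.P100.Calib.StripEnd
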