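import Vale.Agent.P100.Calib.SlabStripMidCore

/-!
# The blocks of the strip along one scaled field at a time

Each block is affine, or concave with the curvature shown, along `p` with `b² g W1` following it,
along `e`, `k`, `b² g W1` and along `T`.
-/

set_option linter.unusedVariables false

namespace Vale.Agent.P100.Calib.StripEnd

open Pack StripMid

variable {a d v p p₀ p₁ e e₀ e₁ k k' w w' w₀ w₁ T T₀ T₁ c s : ℝ}

/-- A block. -/
noncomputable def hA (a d v p e k w T c : ℝ) : ℝ := tplA.eval (vec a d v p e k w T c)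

set_option maxRecDepth 4000 in
theorem hA_p : hA a d v (mix s p₀ p₁) e k (mix s w₀ w₁) T c =
    mix s (hA a d v p₀ e k w₀ T c) (hA a d v p₁ e k w₁ T c) - s * (1 - s) * (p₁ - p₀) ^ 2 * coA12.eval (base a d v) := by
  simp only [hA, tplA, coef_base (e := coA0) rfl, coef_base (e := coA1) rfl, coef_base (e := coA2) rfl, coef_base (e := coA3) rfl, coef_base (e := coA4) rfl, coef_base (e := coA5) rfl, coef_base (e := coA6) rfl, coef_base (e := coA7) rfl, coef_base (e := coA8) rfl, coef_base (e := coA9) rfl, coef_base (e := coA10) rfl, coef_base (e := coA11) rfl, coef_base (e := coA12) rfl, Ex.eval, vec, hatOne, mix, gHat, gHat1]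
  push_cast
  ring

set_option maxRecDepth 4000 in
theorem hA_e : hA a d v p (mix s e₀ e₁) k w T c =
    mix s (hA a d v p e₀ k w T c) (hA a d v p e₁ k w T c) - s * (1 - s) * (e₁ - e₀) ^ 2 * coA7.eval (base a d v) := by
  simp only [hA, tplA, coef_base (e := coA0) rfl, coef_base (e := coA1) rfl, coef_base (e := coA2) rfl, coef_base (e := coA3) rfl, coef_base (e := coA4) rfl, coef_base (e := coA5) rfl, coef_base (e := coA6) rfl, coef_base (e := coA7) rfl, coef_base (e := coA8) rfl, coef_base (e := coA9) rfl, coef_base (e := coA10) rfl, coef_base (e := coA11) rfl, coef_base (e := coA12) rfl, Ex.eval, vec, hatOne, mix, gHat, gHat1]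
  push_cast
  ring

set_option maxRecDepth 4000 in
theorem hA_T : hA a d v p e k w (mix s T₀ T₁) c =
    mix s (hA a d v p e k w T₀ c) (hA a d v p e k w T₁ c) := by
  simp only [hA, tplA, coef_base (e := coA0) rfl, coef_base (e := coA1) rfl, coef_base (e := coA2) rfl, coef_base (e := coA3) rfl, coef_base (e := coA4) rfl, coef_base (e := coA5) rfl, coef_base (e := coA6) rfl, coef_base (e := coA7) rfl, coef_base (e := coA8) rfl, coef_base (e := coA9) rfl, coef_base (e := coA10) rfl, coef_base (e := coA11) rfl, coef_base (e := coA12) rfl, Ex.eval, vec, hatOne, mix, gHat, gHat1]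
  push_cast
  ring

set_option maxRecDepth 4000 in
theorem hA_kw : hA a d v p e k w T c = hA a d v p e k' w' T c + (k - k') * coA4.eval (base a d v) + (w - w') * coA3.eval (base a d v) := by
  simp only [hA, tplA, coef_base (e := coA0) rfl, coef_base (e := coA1) rfl, coef_base (e := coA2) rfl, coef_base (e := coA3) rfl, coef_base (e := coA4) rfl, coef_base (e := coA5) rfl, coef_base (e := coA6) rfl, coef_base (e := coA7) rfl, coef_base (e := coA8) rfl, coef_base (e := coA9) rfl, coef_base (e := coA10) rfl, coef_base (e := coA11) rfl, coef_base (e := coA12) rfl, Ex.eval, vec, hatOne, mix, gHat, gHat1]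
  push_cast
  ring

/-- A block. -/
noncomputable def hT (a d v p e k w T c : ℝ) : ℝ := tplT.eval (vec a d v p e k w T c)

set_option maxRecDepth 4000 in
theorem hT_p : hT a d v (mix s p₀ p₁) e k (mix s w₀ w₁) T c =
    mix s (hT a d v p₀ e k w₀ T c) (hT a d v p₁ e k w₁ T c) - s * (1 - s) * (p₁ - p₀) ^ 2 * coT9.eval (base a d v) := by
  simp only [hT, tplT, coef_base (e := coT0) rfl, coef_base (e := coT1) rfl, coef_base (e := coT2) rfl, coef_base (e := coT3) rfl, coef_base (e := coT4) rfl, coef_base (e := coT5) rfl, coef_base (e := coT6) rfl, coef_base (e := coT7) rfl, coef_base (e := coT8) rfl, coef_base (e := coT9) rfl, Ex.eval, vec, hatOne, mix, gHat, gHat1]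
  push_cast
  ring

set_option maxRecDepth 4000 in
theorem hT_e : hT a d v p (mix s e₀ e₁) k w T c =
    mix s (hT a d v p e₀ k w T c) (hT a d v p e₁ k w T c) := by
  simp only [hT, tplT, coef_base (e := coT0) rfl, coef_base (e := coT1) rfl, coef_base (e := coT2) rfl, coef_base (e := coT3) rfl, coef_base (e := coT4) rfl, coef_base (e := coT5) rfl, coef_base (e := coT6) rfl, coef_base (e := coT7) rfl, coef_base (e := coT8) rfl, coef_base (e := coT9) rfl, Ex.eval, vec, hatOne, mix, gHat, gHat1]
  push_cast
  ring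

set_option maxRecDepth 4000 in
theorem hT_T : hT a d v p e k w (mix s T₀ T₁) c =
    mix s (hT a d v p e k w T₀ c) (hT a d v p e k w T₁ c) := by
  simp only [hT, tplT, coef_base (e := coT0) rfl, coef_base (e := coT1) rfl, coef_base (e := coT2) rfl, coef_base (e := coT3) rfl, coef_base (e := coT4) rfl, coef_base (e := coT5) rfl, coef_base (e := coT6) rfl, coef_base (e := coT7) rfl, coef_base (e := coT8) rfl, coef_base (e := coT9) rfl, Ex.eval, vec, hatOne, mix, gHat, gHat1]
  push_cast
  ring

set_option maxRecDepth 4000 in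
theorem hT_kw : hT a d v p e k w T c = hT a d v p e k' w' T c := by
  simp only [hT, tplT, coef_base (e := coT0) rfl, coef_base (e := coT1) rfl, coef_base (e := coT2) rfl, coef_base (e := coT3) rfl, coef_base (e := coT4) rfl, coef_base (e := coT5) rfl, coef_base (e := coT6) rfl, coef_base (e := coT7) rfl, coef_base (e := coT8) rfl, coef_base (e := coT9) rfl, Ex.eval, vec, hatOne, mix, gHat, gHat1]

/-- A block. -/
noncomputable def hG (a d v p e k w T c : ℝ) : ℝ := tplG.eval (vec a d v p e k w T c)

set_option maxRecDepth 4000 in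
theorem hG_p : hG a d v (mix s p₀ p₁) e k (mix s w₀ w₁) T c =
    mix s (hG a d v p₀ e k w₀ T c) (hG a d v p₁ e k w₁ T c) - s * (1 - s) * (p₁ - p₀) ^ 2 * coG10.eval (base a d v) := by
  simp only [hG, tplG, coef_base (e := coG0) rfl, coef_base (e := coG1) rfl, coef_base (e := coG2) rfl, coef_base (e := coG3) rfl, coef_base (e := coG4) rfl, coef_base (e := coG5) rfl, coef_base (e := coG6) rfl, coef_base (e := coG7) rfl, coef_base (e := coG8) rfl, coef_base (e := coG9) rfl, coef_base (e := coG10) rfl, Ex.eval, vec, hatOne, mix, gHat, gHat1]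
  push_cast
  ring

set_option maxRecDepth 4000 in
theorem hG_e : hG a d v p (mix s e₀ e₁) k w T c =
    mix s (hG a d v p e₀ k w T c) (hG a d v p e₁ k w T c) := by
  simp only [hG, tplG, coef_base (e := coG0) rfl, coef_base (e := coG1) rfl, coef_base (e := coG2) rfl, coef_base (e := coG3) rfl, coef_base (e := coG4) rfl, coef_base (e := coG5) rfl, coef_base (e := coG6) rfl, coef_base (e := coG7) rfl, coef_base (e := coG8) rfl, coef_base (e := coG9) rfl, coef_base (e := coG10) rfl, Ex.eval, vec, hatOne, mix, gHat, gHat1]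
  push_cast
  ring

set_option maxRecDepth 4000 in
theorem hG_T : hG a d v p e k w (mix s T₀ T₁) c =
    mix s (hG a d v p e k w T₀ c) (hG a d v p e k w T₁ c) - s * (1 - s) * ((T₁ - T₀) ^ 2 * (1 / 10 / (a + d) ^ 2) ^ 2) * coG6.eval (base a d v) := by
  simp only [hG, tplG, coef_base (e := coG0) rfl, coef_base (e := coG1) rfl, coef_base (e := coG2) rfl, coef_base (e := coG3) rfl, coef_base (e := coG4) rfl, coef_base (e := coG5) rfl, coef_base (e := coG6) rfl, coef_base (e := coG7) rfl, coef_base (e := coG8) rfl, coef_base (e := coG9) rfl, coef_base (e := coG10) rfl, Ex.eval, vec, hatOne, mix, gHat, gHat1]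
  push_cast
  ring

set_option maxRecDepth 4000 in
theorem hG_kw : hG a d v p e k w T c = hG a d v p e k' w' T c := by
  simp only [hG, tplG, coef_base (e := coG0) rfl, coef_base (e := coG1) rfl, coef_base (e := coG2) rfl, coef_base (e := coG3) rfl, coef_base (e := coG4) rfl, coef_base (e := coG5) rfl, coef_base (e := coG6) rfl, coef_base (e := coG7) rfl, coef_base (e := coG8) rfl, coef_base (e := coG9) rfl, coef_base (e := coG10) rfl, Ex.eval, vec, hatOne, mix, gHat, gHat1]

/-- A block. -/
noncomputable def hX (a d v p e k w T c : ℝ) : ℝ := tplX.eval (vec a d v p e k w T c)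

set_option maxRecDepth 4000 in
theorem hX_p : hX a d v (mix s p₀ p₁) e k (mix s w₀ w₁) T c =
    mix s (hX a d v p₀ e k w₀ T c) (hX a d v p₁ e k w₁ T c) := by
  simp only [hX, tplX, coef_base (e := coX0) rfl, coef_base (e := coX1) rfl, coef_base (e := coX2) rfl, coef_base (e := coX3) rfl, coef_base (e := coX4) rfl, Ex.eval, vec, hatOne, mix, gHat, gHat1]
  push_cast
  ring

set_option maxRecDepth 4000 in
theorem hX_e : hX a d v p (mix s e₀ e₁) k w T c =
    mix s (hX a d v p e₀ k w T c) (hX a d v p e₁ k w T c) := by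
  simp only [hX, tplX, coef_base (e := coX0) rfl, coef_base (e := coX1) rfl, coef_base (e := coX2) rfl, coef_base (e := coX3) rfl, coef_base (e := coX4) rfl, Ex.eval, vec, hatOne, mix, gHat, gHat1]
  push_cast
  ring

set_option maxRecDepth 4000 in
theorem hX_T : hX a d v p e k w (mix s T₀ T₁) c =
    mix s (hX a d v p e k w T₀ c) (hX a d v p e k w T₁ c) := by
  simp only [hX, tplX, coef_base (e := coX0) rfl, coef_base (e := coX1) rfl, coef_base (e := coX2) rfl, coef_base (e := coX3) rfl, coef_base (e := coX4) rfl, Ex.eval, vec, hatOne, mix, gHat, gHat1]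
  push_cast
  ring

set_option maxRecDepth 4000 in
theorem hX_kw : hX a d v p e k w T c = hX a d v p e k' w' T c + (k - k') * coX1.eval (base a d v) + (w - w') * coX0.eval (base a d v) := by
  simp only [hX, tplX, coef_base (e := coX0) rfl, coef_base (e := coX1) rfl, coef_base (e := coX2) rfl, coef_base (e := coX3) rfl, coef_base (e := coX4) rfl, Ex.eval, vec, hatOne, mix, gHat, gHat1]
  push_cast
  ring

/-- A block. -/
noncomputable def hM (a d v p e k w T c : ℝ) : ℝ := tplM.eval (vec a d v p e k w T c)

set_option maxRecDepth 4000 in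
theorem hM_p : hM a d v (mix s p₀ p₁) e k (mix s w₀ w₁) T c =
    mix s (hM a d v p₀ e k w₀ T c) (hM a d v p₁ e k w₁ T c) := by
  simp only [hM, tplM, coef_base (e := coM0) rfl, Ex.eval, vec, hatOne, mix, gHat, gHat1]
  push_cast
  ring

set_option maxRecDepth 4000 in
theorem hM_e : hM a d v p (mix s e₀ e₁) k w T c =
    mix s (hM a d v p e₀ k w T c) (hM a d v p e₁ k w T c) := by
  simp only [hM, tplM, coef_base (e := coM0) rfl, Ex.eval, vec, hatOne, mix, gHat, gHat1]
  push_cast
  ring

set_option maxRecDepth 4000 in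
theorem hM_T : hM a d v p e k w (mix s T₀ T₁) c =
    mix s (hM a d v p e k w T₀ c) (hM a d v p e k w T₁ c) := by
  simp only [hM, tplM, coef_base (e := coM0) rfl, Ex.eval, vec, hatOne, mix, gHat, gHat1]
  push_cast
  ring

set_option maxRecDepth 4000 in
theorem hM_kw : hM a d v p e k w T c = hM a d v p e k' w' T c := by
  simp only [hM, tplM, coef_base (e := coM0) rfl, Ex.eval, vec, hatOne, mix, gHat, gHat1]

/-- A block. -/
noncomputable def hMG (a d v p e k w T c : ℝ) : ℝ := tplMG.eval (vec a d v p e k w T c)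

set_option maxRecDepth 4000 in
theorem hMG_p : hMG a d v (mix s p₀ p₁) e k (mix s w₀ w₁) T c =
    mix s (hMG a d v p₀ e k w₀ T c) (hMG a d v p₁ e k w₁ T c) - s * (1 - s) * (p₁ - p₀) ^ 2 * coMG12.eval (base a d v) := by
  simp only [hMG, tplMG, coef_base (e := coMG0) rfl, coef_base (e := coMG1) rfl, coef_base (e := coMG2) rfl, coef_base (e := coMG3) rfl, coef_base (e := coMG4) rfl, coef_base (e := coMG5) rfl, coef_base (e := coMG6) rfl, coef_base (e := coMG7) rfl, coef_base (e := coMG8) rfl, coef_base (e := coMG9) rfl, coef_base (e := coMG10) rfl, coef_base (e := coMG11) rfl, coef_base (e := coMG12) rfl, Ex.eval, vec, hatOne, mix, gHat, gHat1]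
  push_cast
  ring

set_option maxRecDepth 4000 in
theorem hMG_e : hMG a d v p (mix s e₀ e₁) k w T c =
    mix s (hMG a d v p e₀ k w T c) (hMG a d v p e₁ k w T c) - s * (1 - s) * (e₁ - e₀) ^ 2 * coMG7.eval (base a d v) := by
  simp only [hMG, tplMG, coef_base (e := coMG0) rfl, coef_base (e := coMG1) rfl, coef_base (e := coMG2) rfl, coef_base (e := coMG3) rfl, coef_base (e := coMG4) rfl, coef_base (e := coMG5) rfl, coef_base (e := coMG6) rfl, coef_base (e := coMG7) rfl, coef_base (e := coMG8) rfl, coef_base (e := coMG9) rfl, coef_base (e := coMG10) rfl, coef_base (e := coMG11) rfl, coef_base (e := coMG12) rfl, Ex.eval, vec, hatOne, mix, gHat, gHat1]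
  push_cast
  ring

set_option maxRecDepth 4000 in
theorem hMG_T : hMG a d v p e k w (mix s T₀ T₁) c =
    mix s (hMG a d v p e k w T₀ c) (hMG a d v p e k w T₁ c) := by
  simp only [hMG, tplMG, coef_base (e := coMG0) rfl, coef_base (e := coMG1) rfl, coef_base (e := coMG2) rfl, coef_base (e := coMG3) rfl, coef_base (e := coMG4) rfl, coef_base (e := coMG5) rfl, coef_base (e := coMG6) rfl, coef_base (e := coMG7) rfl, coef_base (e := coMG8) rfl, coef_base (e := coMG9) rfl, coef_base (e := coMG10) rfl, coef_base (e := coMG11) rfl, coef_base (e := coMG12) rfl, Ex.eval, vec, hatOne, mix, gHat, gHat1]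
  push_cast
  ring

set_option maxRecDepth 4000 in
theorem hMG_kw : hMG a d v p e k w T c = hMG a d v p e k' w' T c + (k - k') * coMG4.eval (base a d v) + (w - w') * coMG3.eval (base a d v) := by
  simp only [hMG, tplMG, coef_base (e := coMG0) rfl, coef_base (e := coMG1) rfl, coef_base (e := coMG2) rfl, coef_base (e := coMG3) rfl, coef_base (e := coMG4) rfl, coef_base (e := coMG5) rfl, coef_base (e := coMG6) rfl, coef_base (e := coMG7) rfl, coef_base (e := coMG8) rfl, coef_base (e := coMG9) rfl, coef_base (e := coMG10) rfl, coef_base (e := coMG11) rfl, coef_base (e := coMG12) rfl, Ex.eval, vec, hatOne, mix, gHat, gHat1]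
  push_cast
  ring

end Vale.Agent.P100.Calib.StripEnd
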