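import Vale.Agent.P100.Calib.SlabStripEndCBin

/-!
# The signs from a bin for `N` from twenty on

A bin of the coordinates `(d, I / d, (1 - u) / d)` brings its own window of `v`.
-/

set_option linter.unusedVariables false

namespace Vale.Agent.P100.Calib.StripEndD

open Pack hiding ev_add ev_mul
open Pack.Ex Band StripMid StripEnd

local instance endDBinAdd : Add Ex := ⟨Ex.add⟩
local instance endDBinSub : Sub Ex := ⟨Ex.sub⟩
local instance endDBinMul : Mul Ex := ⟨Ex.mul⟩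

/-- A piece and a chart over one bin, both checked. -/
structure DBin (c : EndChart) (P : Piece) (B : StripEnd.EBox) : Prop where
  ok : c.Cert
  cert : Cert P B
  lies : P.Over c
  box : B.q₀ = c.q₀ ∧ B.q₁ = c.q₁ ∧ B.q₂ = c.q₂ ∧ B.q₃ = c.q₃
  cI : c.I = var 0 * var 1
  cd : c.d = var 0
  cw : c.w = var 0 * var 2
  cden : ∃ N : ℤ, 0 < N ∧ c.den = num N
  pI : P.I = var 0 * var 1
  pd : P.d = var 0
  pcn : P.cn = num 1 - P.I - var 1 * P.S
  pcd : P.cd = P.S * P.S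

variable {c : EndChart} {P : Piece} {B : StripEnd.EBox} {n : ℕ} {a b u v t H : ℝ}

/-- The signs over a bin. -/
theorem DBin.signs (K : DBin c P B) (hb : Closed.All.ChartBox n (b - a) (a + b))
    (hF : Closed.All.ChartFacts (b - a) (a + b) u v t)
    (hH : Closed.chH (b - a) (a + b) u v t = H) (hB : EndBands a b u v H) (hk : DHigh a b)
    (h0 : InU c.q₀ (b - a)) (h1 : InU c.q₁ (allStabI a b / (b - a)))
    (h2 : InU c.q₂ ((1 - u) / (b - a))) :
    Closed.Strip.ChartSigns (b - a) (a + b) u v t := by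
  obtain ⟨hI, hd, hw, eS, -⟩ := end_facts hB
  have hn : b - a ≠ 0 := hd.ne'
  obtain ⟨s, hs⟩ := K.ok.point hB h0 h1 h2
    (by rw [K.cI]; simp only [Ex.eval, StripEnd.pt4]; field_simp)
    (by rw [K.cd]; rfl)
    (by rw [K.cw]; simp only [Ex.eval, StripEnd.pt4]; field_simp)
    (by obtain ⟨N, hN, e⟩ := K.cden; rw [e]; simpa [Ex.eval] using hN)
  obtain ⟨e0, e1, e2, e3⟩ := K.box
  have hq : 0 < c.q₃.2.2 := K.ok.fits.den.1
  have hM : B.Mem (StripEnd.pt4 (b - a) (allStabI a b / (b - a)) ((1 - u) / (b - a)) s) :=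
    ⟨e0 ▸ h0, e1 ▸ h1, e2 ▸ h2, e3 ▸ ⟨hq, hs.1.2.2.2.1.le, hs.1.2.2.2.2⟩⟩
  have hP := K.cert.place hM (K.lies.vo _)
  refine signs_of_cert K.cert hM K.lies hs hb hF hH ?_
  refine kap_dflat K.pI K.pd K.pcn K.pcd hP hd ?_
  have eI : P.I.eval (StripEnd.pt4 (b - a) (allStabI a b / (b - a)) ((1 - u) / (b - a)) s) =
      allStabI a b := by
    rw [K.pI]; simp only [Ex.eval, StripEnd.pt4]; field_simp
  have ed : P.d.eval (StripEnd.pt4 (b - a) (allStabI a b / (b - a)) ((1 - u) / (b - a)) s) =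
      b - a := by
    rw [K.pd]; rfl
  rw [eval_S, eI, ed, ← eS]
  exact hk

/-- What a piece over a chart of the coordinates `(d, I / d, (1 - u) / d, t)` gives. -/
structure DHalf (c : EndChart) (P : Piece) (B : StripEnd.EBox) : Prop where
  cert : Cert P B
  lies : P.Over c
  box : B.q₀ = c.q₀ ∧ B.q₁ = c.q₁ ∧ B.q₂ = c.q₂ ∧ 0 < B.q₃.2.2
  pI : P.I = var 0 * var 1
  pd : P.d = var 0
  pcn : P.cn = num 1 - P.I - var 1 * P.S
  pcd : P.cd = P.S * P.S

/-- A chart and two pieces that share its last range, all checked. -/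
structure DBin₂ (c : EndChart) (P Q : Piece) (B C : StripEnd.EBox) : Prop where
  ok : c.Cert
  lo : DHalf c P B
  hi : DHalf c Q C
  ends : (B.q₃.1 : ℝ) / B.q₃.2.2 ≤ (c.q₃.1 : ℝ) / c.q₃.2.2 ∧
    (C.q₃.1 : ℝ) / C.q₃.2.2 ≤ (B.q₃.2.1 : ℝ) / B.q₃.2.2 ∧
    (c.q₃.2.1 : ℝ) / c.q₃.2.2 ≤ (C.q₃.2.1 : ℝ) / C.q₃.2.2
  cI : c.I = var 0 * var 1
  cd : c.d = var 0
  cw : c.w = var 0 * var 2
  cden : ∃ N : ℤ, 0 < N ∧ c.den = num N

variable {Q : Piece} {C : StripEnd.EBox}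

theorem DHalf.signs (K : DHalf c P B) (hb : Closed.All.ChartBox n (b - a) (a + b))
    (hF : Closed.All.ChartFacts (b - a) (a + b) u v t)
    (hH : Closed.chH (b - a) (a + b) u v t = H) (hB : EndBands a b u v H) (hk : DHigh a b)
    {x : ℕ → ℝ} (hx : c.Point x a b u v H) (h3 : InR B.q₃ (x 3)) :
    Closed.Strip.ChartSigns (b - a) (a + b) u v t := by
  obtain ⟨hI, hd, -, eS, -⟩ := end_facts hB
  obtain ⟨e0, e1, e2, -⟩ := K.box
  have hg := hx.2.1
  have eI' : P.I.eval x = allStabI a b := (K.lies.I x).trans hg.hI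
  have ed' : P.d.eval x = b - a := (K.lies.d x).trans hg.hd
  have hM : B.Mem x := ⟨e0 ▸ hx.1.1, e1 ▸ hx.1.2.1, e2 ▸ hx.1.2.2.1, h3⟩
  have hP := K.cert.place hM (K.lies.vo _)
  refine signs_of_cert K.cert hM K.lies hx hb hF hH ?_
  refine kap_dflat K.pI K.pd K.pcn K.pcd hP ?_ ?_
  · have : x 0 = b - a := by rw [← ed', K.pd]; rfl
    rw [this]; exact hd
  · rw [eval_S, eI', ed', ← eS]
    exact hk

/-- The signs over a bin in two pieces. -/
theorem DBin₂.signs (K : DBin₂ c P Q B C) (hb : Closed.All.ChartBox n (b - a) (a + b))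
    (hF : Closed.All.ChartFacts (b - a) (a + b) u v t)
    (hH : Closed.chH (b - a) (a + b) u v t = H) (hB : EndBands a b u v H) (hk : DHigh a b)
    (h0 : InU c.q₀ (b - a)) (h1 : InU c.q₁ (allStabI a b / (b - a)))
    (h2 : InU c.q₂ ((1 - u) / (b - a))) :
    Closed.Strip.ChartSigns (b - a) (a + b) u v t := by
  obtain ⟨hI, hd, hw, eS, -⟩ := end_facts hB
  have hn : b - a ≠ 0 := hd.ne'
  obtain ⟨s, hs⟩ := K.ok.point hB h0 h1 h2
    (by rw [K.cI]; simp only [Ex.eval, StripEnd.pt4]; field_simp)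
    (by rw [K.cd]; rfl)
    (by rw [K.cw]; simp only [Ex.eval, StripEnd.pt4]; field_simp)
    (by obtain ⟨N, hN, e⟩ := K.cden; rw [e]; simpa [Ex.eval] using hN)
  obtain ⟨e0, e1, e2⟩ := K.ends
  by_cases h : (StripEnd.pt4 (b - a) (allStabI a b / (b - a)) ((1 - u) / (b - a)) s) 3 <
      (B.q₃.2.1 : ℝ) / B.q₃.2.2
  · exact K.lo.signs hb hF hH hB hk hs
      ⟨K.lo.box.2.2.2, e0.trans hs.1.2.2.2.1.le, h⟩
  · exact K.hi.signs hb hF hH hB hk hs
      ⟨K.hi.box.2.2.2, e1.trans (not_lt.1 h), hs.1.2.2.2.2.trans_le e2⟩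


/-- The coordinates at a point of a chart. -/
theorem coords {c : EndChart} {x : ℕ → ℝ} {a b u v H : ℝ} (hx : c.Point x a b u v H)
    (hB : EndBands a b u v H) (cI : c.I = var 0 * var 1) (cd : c.d = var 0)
    (cw : c.w = var 0 * var 2) :
    InU c.q₀ (b - a) ∧ InU c.q₁ (allStabI a b / (b - a)) ∧ InU c.q₂ ((1 - u) / (b - a)) := by
  obtain ⟨⟨h0, h1, h2, -, -⟩, hg, -⟩ := hx
  obtain ⟨-, hd, -, -, -⟩ := end_facts hB
  have e0 : x 0 = b - a := by rw [← hg.hd, show c.geo.d = c.d from rfl, cd]; rfl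
  have e1 : x 1 = allStabI a b / (b - a) := by
    rw [eq_div_iff hd.ne', ← hg.hI, show c.geo.I = c.I from rfl, cI, ← e0]
    simp only [Ex.eval]; ring
  have e2 : x 2 = (1 - u) / (b - a) := by
    rw [eq_div_iff hd.ne', ← hg.hw, show c.geo.w = c.w from rfl, cw, ← e0]
    simp only [Ex.eval]; ring
  exact ⟨e0 ▸ h0, e1 ▸ h1, e2 ▸ h2⟩

end Vale.Agent.P100.Calib.StripEndD
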