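import Vale.Agent.P100.Calib.SlabStripEndDShift
import Vale.Agent.P100.Calib.SlabStripEndChart

/-!
# The bins `D00` to `D23` of the strip for `u` near one, `d` large
-/

namespace Vale.Agent.P100.Calib.StripEndD

open Pack hiding ev_add ev_mul
open Pack.Ex StripMid StripEnd

local instance endDDataAAdd : Add Ex := ⟨Ex.add⟩
local instance endDDataASub : Sub Ex := ⟨Ex.sub⟩
local instance endDDataAMul : Mul Ex := ⟨Ex.mul⟩

/-- The chart `D00`. -/
def chD00 : EndChart where
  I := var 0 * var 1
  d := var 0
  w := var 0 * var 2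
  den := num 100
  n₀ := ((num 1 - num 2 * (var 0 * var 1) - var 0) * var 1) * (num 92 + num (-58) * (var 1))
  n₁ := ((num 1 - num 2 * (var 0 * var 1) - var 0) * var 1) * (num 6 + num 78 * (var 1))
  q₀ := (0, 3, 25)
  q₁ := (0, 1, 2)
  q₂ := (15, 24, 500)
  q₃ := (0, 1, 1)
  t₀ := (0, 1)
  t₁ := (1, 1)
  mu₀ := (190, 100)
  mu₁ := (246, 100)

/-- The piece `D00`. -/
def pcD00 : Piece where
  I := var 0 * var 1
  d := var 0
  w := var 0 * var 2
  o := (((num 1 - num 2 * (var 0 * var 1) - var 0) * var 1) * (num 92 + num (-58) * (var 1)) + ((num 1 - num 2 * (var 0 * var 1) - var 0) * var 1) * (num 6 + num 78 * (var 1)) * var 3)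
  den := num 100
  vn := num 2 * var 1 * ((num 92 + num (-58) * (var 1)) + (num 6 + num 78 * (var 1)) * var 3)
  vs := num 1
  mu := ⟨(190, 100), (246, 100)⟩
  pn := fun b => cond b
    (num 50000 * (num 100 - (((num 1 - num 2 * (var 0 * var 1) - var 0) * var 1) * (num 92 + num (-58) * (var 1)) + ((num 1 - num 2 * (var 0 * var 1) - var 0) * var 1) * (num 6 + num 78 * (var 1)) * var 3)) + num (-5904) * ((((num 1 - num 2 * (var 0 * var 1) - var 0) * var 1) * (num 92 + num (-58) * (var 1)) + ((num 1 - num 2 * (var 0 * var 1) - var 0) * var 1) * (num 6 + num 78 * (var 1)) * var 3) * var 0))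
    (num 50000 * (num 100 - (((num 1 - num 2 * (var 0 * var 1) - var 0) * var 1) * (num 92 + num (-58) * (var 1)) + ((num 1 - num 2 * (var 0 * var 1) - var 0) * var 1) * (num 6 + num 78 * (var 1)) * var 3)) + num (-2850) * ((((num 1 - num 2 * (var 0 * var 1) - var 0) * var 1) * (num 92 + num (-58) * (var 1)) + ((num 1 - num 2 * (var 0 * var 1) - var 0) * var 1) * (num 6 + num 78 * (var 1)) * var 3) * var 0))
  pd := num 50000
  en := fun b => cond b
    (num 4480 * (num 218125 * (var 0) * (var 1) + num (-24000) * (var 0) * (var 0) * (var 1) + num 1746 + num 28788 * (var 0) + num (-132250) * (var 0) * (var 1) * (var 1)))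
    (num 4275 * (num 174500 * (var 0) * (var 1) + num (-19200) * (var 0) * (var 0) * (var 1) + num 873 + num 14394 * (var 0) + num (-105800) * (var 0) * (var 1) * (var 1)))
  kk := fun b => cond b
    (num 4368 * (num 1626 * (var 0) + num 31092 * (var 0) * (var 0) + num 618 * (var 0) * (var 1) + num 78 * (var 0) * (var 3)))
    (num 4170 * (num 813 * (var 0) + num 15546 * (var 0) * (var 0) + num 309 * (var 0) * (var 1) + num 39 * (var 0) * (var 3)))
  f0 := num 50000000
  wn := fun b => cond b
    (num 1000 * (num (-80000) * (var 0 * var 1) + (num 800 * (var 0 * var 1) + num 12 * var 0) * (((num 1 - num 2 * (var 0 * var 1) - var 0) * var 1) * (num 92 + num (-58) * (var 1)) + ((num 1 - num 2 * (var 0 * var 1) - var 0) * var 1) * (num 6 + num 78 * (var 1)) * var 3) + var 0 * var 1 * var 0 * (num (-80000) + (num 29900 * (var 1) + num 2541 + num (-317600) * (var 1) * (var 0) + num (-2373) * (var 0) + num 74200 * (var 1) * (var 3) + num (-339) * (var 3)))) + num (-1593) * (num 100 * (var 0 * var 1 * var 0) * (num 100 * (var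 1) + num 3)))
    (num 1000 * (num (-80000) * (var 0 * var 1) + (num 800 * (var 0 * var 1) + num 12 * var 0) * (((num 1 - num 2 * (var 0 * var 1) - var 0) * var 1) * (num 92 + num (-58) * (var 1)) + ((num 1 - num 2 * (var 0 * var 1) - var 0) * var 1) * (num 6 + num 78 * (var 1)) * var 3) + var 0 * var 1 * var 0 * (num (-80000) + (num 29900 * (var 1) + num 2541 + num (-317600) * (var 1) * (var 0) + num (-2373) * (var 0) + num 74200 * (var 1) * (var 3) + num (-339) * (var 3)))) + num (-3185) * (num 100 * (var 0 * var 1 * var 0) * (num 100 * (var 1) + num 3)))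
  wd := num 10000000
  tn := fun b => cond b
    (num 4544 * (num 294 + num (-42) * (var 0) + num 258 * (var 1) + num (-6) * (var 3) + num 258 * (var 1) * (var 3)))
    (num 4655 * (num 147 + num (-21) * (var 0) + num 129 * (var 1) + num (-3) * (var 3) + num 129 * (var 1) * (var 3)))
  td := num 50000000
  cn := num 1 - var 0 * var 1 - var 1 * (num 1 - num 2 * (var 0 * var 1))
  cd := (num 1 - num 2 * (var 0 * var 1)) * (num 1 - num 2 * (var 0 * var 1))
  kn := var 0 * var 1 * (num 6256 + num 12000 * (var 1) + num (-48000) * (var 0))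
  kd := num 100
  k2n := var 0 * (num 1468 + num (-850) * (var 3) + num (-900) * (var 1))
  k2d := num 100

/-- Its ranges. -/
def bxD00 : StripEnd.EBox :=
  ⟨(0, 3, 25), (0, 1, 2), (15, 24, 500), (0, 1, 1)⟩

/-- The chart `D01`. -/
def chD01 : EndChart where
  I := var 0 * var 1
  d := var 0
  w := var 0 * var 2
  den := num 100
  n₀ := ((num 1 - num 2 * (var 0 * var 1) - var 0) * var 1) * (num 85 + num (-54) * (var 1))
  n₁ := ((num 1 - num 2 * (var 0 * var 1) - var 0) * var 1) * (num 11 + num 73 * (var 1))
  q₀ := (0, 3, 25)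
  q₁ := (0, 1, 2)
  q₂ := (48, 101, 1000)
  q₃ := (0, 1, 1)
  t₀ := (0, 1)
  t₁ := (1, 1)
  mu₀ := (190, 100)
  mu₁ := (246, 100)

/-- The piece `D01`. -/
def pcD01 : Piece where
  I := var 0 * var 1
  d := var 0
  w := var 0 * var 2
  o := (((num 1 - num 2 * (var 0 * var 1) - var 0) * var 1) * (num 85 + num (-54) * (var 1)) + ((num 1 - num 2 * (var 0 * var 1) - var 0) * var 1) * (num 11 + num 73 * (var 1)) * var 3)
  den := num 100
  vn := num 2 * var 1 * ((num 85 + num (-54) * (var 1)) + (num 11 + num 73 * (var 1)) * var 3)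
  vs := num 1
  mu := ⟨(190, 100), (246, 100)⟩
  pn := fun b => cond b
    (num 100000 * (num 100 - (((num 1 - num 2 * (var 0 * var 1) - var 0) * var 1) * (num 85 + num (-54) * (var 1)) + ((num 1 - num 2 * (var 0 * var 1) - var 0) * var 1) * (num 11 + num 73 * (var 1)) * var 3)) + num (-24846) * ((((num 1 - num 2 * (var 0 * var 1) - var 0) * var 1) * (num 85 + num (-54) * (var 1)) + ((num 1 - num 2 * (var 0 * var 1) - var 0) * var 1) * (num 11 + num 73 * (var 1)) * var 3) * var 0))
    (num 100000 * (num 100 - (((num 1 - num 2 * (var 0 * var 1) - var 0) * var 1) * (num 85 + num (-54) * (var 1)) + ((num 1 - num 2 * (var 0 * var 1) - var 0) * var 1) * (num 11 + num 73 * (var 1)) * var 3)) + num (-9120) * ((((num 1 - num 2 * (var 0 * var 1) - var 0) * var 1) * (num 85 + num (-54) * (var 1)) + ((num 1 - num 2 * (var 0 * var 1) - var 0) * var 1) * (num 11 + num 73 * (var 1)) * var 3) * var 0))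
  pd := num 100000
  en := fun b => cond b
    (num 1105 * (num 1884000 * (var 0) * (var 1) + num (-632000) * (var 0) * (var 0) * (var 1) + num 29391 + num 487325 * (var 0) + num (-1042000) * (var 0) * (var 1) * (var 1)))
    (num 6976 * (num 235500 * (var 0) * (var 1) + num (-79000) * (var 0) * (var 0) * (var 1) + num 1746 + num 28950 * (var 0) + num (-130250) * (var 0) * (var 1) * (var 1)))
  kk := fun b => cond b
    (num 1093 * (num 27371 * (var 0) + num 522574 * (var 0) * (var 0) + num 10201 * (var 0) * (var 1) + num 1212 * (var 0) * (var 3)))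
    (num 6712 * (num 1626 * (var 0) + num 31044 * (var 0) * (var 0) + num 606 * (var 0) * (var 1) + num 72 * (var 0) * (var 3)))
  f0 := num 100000000
  wn := fun b => cond b
    (num 1000 * (num (-100000) * (var 0 * var 1) + (num 1000 * (var 0 * var 1) + num 24 * var 0) * (((num 1 - num 2 * (var 0 * var 1) - var 0) * var 1) * (num 85 + num (-54) * (var 1)) + ((num 1 - num 2 * (var 0 * var 1) - var 0) * var 1) * (num 11 + num 73 * (var 1)) * var 3) + var 0 * var 1 * var 0 * (num (-100000) + (num 24250 * (var 1) + num 4416 + num (-395375) * (var 1) * (var 0) + num (-4734) * (var 0) + num 110125 * (var 1) * (var 3) + num 24 * (var 3)))) + num (-2815) * (num 100 * (var 0 * var 1 * var 0) * (num 125 * (var 1) + num 6)))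
    (num 1000 * (num (-100000) * (var 0 * var 1) + (num 1000 * (var 0 * var 1) + num 24 * var 0) * (((num 1 - num 2 * (var 0 * var 1) - var 0) * var 1) * (num 85 + num (-54) * (var 1)) + ((num 1 - num 2 * (var 0 * var 1) - var 0) * var 1) * (num 11 + num 73 * (var 1)) * var 3) + var 0 * var 1 * var 0 * (num (-100000) + (num 24250 * (var 1) + num 4416 + num (-395375) * (var 1) * (var 0) + num (-4734) * (var 0) + num 110125 * (var 1) * (var 3) + num 24 * (var 3)))) + num (-3194) * (num 100 * (var 0 * var 1 * var 0) * (num 125 * (var 1) + num 6)))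
  wd := num 12500000
  tn := fun b => cond b
    (num 1093 * (num 4848 + num (-606) * (var 0) + num 3939 * (var 1) + num 4040 * (var 1) * (var 3)))
    (num 7504 * (num 288 + num (-36) * (var 0) + num 234 * (var 1) + num 240 * (var 1) * (var 3)))
  td := num 100000000
  cn := num 1 - var 0 * var 1 - var 1 * (num 1 - num 2 * (var 0 * var 1))
  cd := (num 1 - num 2 * (var 0 * var 1)) * (num 1 - num 2 * (var 0 * var 1))
  kn := var 0 * var 1 * (num 4093 + num 10000 * (var 1) + num (-30000) * (var 0))
  kd := num 100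
  k2n := var 0 * (num 1404 + num (-700) * (var 3) + num (-1100) * (var 1))
  k2d := num 100

/-- Its ranges. -/
def bxD01 : StripEnd.EBox :=
  ⟨(0, 3, 25), (0, 1, 2), (48, 101, 1000), (0, 1, 1)⟩

/-- The chart `D02`. -/
def chD02 : EndChart where
  I := var 0 * var 1
  d := var 0
  w := var 0 * var 2
  den := num 100
  n₀ := ((num 1 - num 2 * (var 0 * var 1) - var 0) * var 1) * (num 73 + num (-45) * (var 1))
  n₁ := ((num 1 - num 2 * (var 0 * var 1) - var 0) * var 1) * (num 20 + num 55 * (var 1))
  q₀ := (0, 3, 25)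
  q₁ := (0, 1, 2)
  q₂ := (101, 212, 1000)
  q₃ := (0, 1, 1)
  t₀ := (0, 1)
  t₁ := (1, 1)
  mu₀ := (185, 100)
  mu₁ := (244, 100)

/-- The piece `D02`. -/
def pcD02 : Piece where
  I := var 0 * var 1
  d := var 0
  w := var 0 * var 2
  o := (((num 1 - num 2 * (var 0 * var 1) - var 0) * var 1) * (num 73 + num (-45) * (var 1)) + ((num 1 - num 2 * (var 0 * var 1) - var 0) * var 1) * (num 20 + num 55 * (var 1)) * var 3)
  den := num 100
  vn := num 2 * var 1 * ((num 73 + num (-45) * (var 1)) + (num 20 + num 55 * (var 1)) * var 3)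
  vs := num 1
  mu := ⟨(185, 100), (244, 100)⟩
  pn := fun b => cond b
    (num 100000 * (num 100 - (((num 1 - num 2 * (var 0 * var 1) - var 0) * var 1) * (num 73 + num (-45) * (var 1)) + ((num 1 - num 2 * (var 0 * var 1) - var 0) * var 1) * (num 20 + num 55 * (var 1)) * var 3)) + num (-51728) * ((((num 1 - num 2 * (var 0 * var 1) - var 0) * var 1) * (num 73 + num (-45) * (var 1)) + ((num 1 - num 2 * (var 0 * var 1) - var 0) * var 1) * (num 20 + num 55 * (var 1)) * var 3) * var 0))
    (num 100000 * (num 100 - (((num 1 - num 2 * (var 0 * var 1) - var 0) * var 1) * (num 73 + num (-45) * (var 1)) + ((num 1 - num 2 * (var 0 * var 1) - var 0) * var 1) * (num 20 + num 55 * (var 1)) * var 3)) + num (-18685) * ((((num 1 - num 2 * (var 0 * var 1) - var 0) * var 1) * (num 73 + num (-45) * (var 1)) + ((num 1 - num 2 * (var 0 * var 1) - var 0) * var 1) * (num 20 + num 55 * (var 1)) * var 3) * var 0))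
  pd := num 100000
  en := fun b => cond b
    (num 4332 * (num 573750 * (var 0) * (var 1) + num (-540750) * (var 0) * (var 0) * (var 1) + num 15423 + num 256043 * (var 0) + num (-273500) * (var 0) * (var 1) * (var 1)))
    (num 905 * (num 2295000 * (var 0) * (var 1) + num (-2163000) * (var 0) * (var 0) * (var 1) + num 29391 + num 487931 * (var 0) + num (-1094000) * (var 0) * (var 1) * (var 1)))
  kk := fun b => cond b
    (num 4364 * (num 14416 * (var 0) + num 273162 * (var 0) * (var 0) + num 5035 * (var 0) * (var 1) + num 689 * (var 0) * (var 3)))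
    (num 842 * (num 27472 * (var 0) + num 520554 * (var 0) * (var 0) + num 9595 * (var 0) * (var 1) + num 1313 * (var 0) * (var 3)))
  f0 := num 100000000
  wn := fun b => cond b
    (num 1000 * (num (-800000) * (var 0 * var 1) + (num 8000 * (var 0 * var 1) + num 404 * var 0) * (((num 1 - num 2 * (var 0 * var 1) - var 0) * var 1) * (num 73 + num (-45) * (var 1)) + ((num 1 - num 2 * (var 0 * var 1) - var 0) * var 1) * (num 20 + num 55 * (var 1)) * var 3) + var 0 * var 1 * var 0 * (num (-800000) + (num 51000 * (var 1) + num 58075 + num (-3078000) * (var 1) * (var 0) + num (-80497) * (var 0) + num 1075000 * (var 1) * (var 3) + num 16463 * (var 3)))) + num (-4948) * (num 100 * (var 0 * var 1 * var 0) * (num 1000 * (var 1) + num 101)))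
    (num 1000 * (num (-800000) * (var 0 * var 1) + (num 8000 * (var 0 * var 1) + num 404 * var 0) * (((num 1 - num 2 * (var 0 * var 1) - var 0) * var 1) * (num 73 + num (-45) * (var 1)) + ((num 1 - num 2 * (var 0 * var 1) - var 0) * var 1) * (num 20 + num 55 * (var 1)) * var 3) + var 0 * var 1 * var 0 * (num (-800000) + (num 51000 * (var 1) + num 58075 + num (-3078000) * (var 1) * (var 0) + num (-80497) * (var 0) + num 1075000 * (var 1) * (var 3) + num 16463 * (var 3)))) + num (-3324) * (num 100 * (var 0 * var 1 * var 0) * (num 1000 * (var 1) + num 101)))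
  wd := num 100000000
  tn := fun b => cond b
    (num 4148 * (num 2385 + num (-212) * (var 0) + num 1590 * (var 1) + num 106 * (var 3) + num 1961 * (var 1) * (var 3)))
    (num 952 * (num 4545 + num (-404) * (var 0) + num 3030 * (var 1) + num 202 * (var 3) + num 3737 * (var 1) * (var 3)))
  td := num 100000000
  cn := num 1 - var 0 * var 1 - var 1 * (num 1 - num 2 * (var 0 * var 1))
  cd := (num 1 - num 2 * (var 0 * var 1)) * (num 1 - num 2 * (var 0 * var 1))
  kn := var 0 * var 1 * (num 2745 + num 7500 * (var 1) + num (-20000) * (var 0))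
  kd := num 100
  k2n := var 0 * (num 1299 + num (-650) * (var 3) + num (-1100) * (var 1))
  k2d := num 100

/-- Its ranges. -/
def bxD02 : StripEnd.EBox :=
  ⟨(0, 3, 25), (0, 1, 2), (101, 212, 1000), (0, 1, 1)⟩

/-- The chart `D03`. -/
def chD03 : EndChart where
  I := var 0 * var 1
  d := var 0
  w := var 0 * var 2
  den := num 100
  n₀ := ((num 1 - num 2 * (var 0 * var 1) - var 0) * var 1) * (num 55 + num (-28) * (var 1))
  n₁ := ((num 1 - num 2 * (var 0 * var 1) - var 0) * var 1) * (num 30 + num 32 * (var 1))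
  q₀ := (0, 3, 25)
  q₁ := (0, 1, 2)
  q₂ := (212, 445, 1000)
  q₃ := (0, 1, 1)
  t₀ := (0, 1)
  t₁ := (1, 1)
  mu₀ := (180, 100)
  mu₁ := (241, 100)

/-- The piece `D03`. -/
def pcD03 : Piece where
  I := var 0 * var 1
  d := var 0
  w := var 0 * var 2
  o := (((num 1 - num 2 * (var 0 * var 1) - var 0) * var 1) * (num 55 + num (-28) * (var 1)) + ((num 1 - num 2 * (var 0 * var 1) - var 0) * var 1) * (num 30 + num 32 * (var 1)) * var 3)
  den := num 100
  vn := num 2 * var 1 * ((num 55 + num (-28) * (var 1)) + (num 30 + num 32 * (var 1)) * var 3)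
  vs := num 1
  mu := ⟨(180, 100), (241, 100)⟩
  pn := fun b => cond b
    (num 100000 * (num 100 - (((num 1 - num 2 * (var 0 * var 1) - var 0) * var 1) * (num 55 + num (-28) * (var 1)) + ((num 1 - num 2 * (var 0 * var 1) - var 0) * var 1) * (num 30 + num 32 * (var 1)) * var 3)) + num (-107245) * ((((num 1 - num 2 * (var 0 * var 1) - var 0) * var 1) * (num 55 + num (-28) * (var 1)) + ((num 1 - num 2 * (var 0 * var 1) - var 0) * var 1) * (num 30 + num 32 * (var 1)) * var 3) * var 0))
    (num 100000 * (num 100 - (((num 1 - num 2 * (var 0 * var 1) - var 0) * var 1) * (num 55 + num (-28) * (var 1)) + ((num 1 - num 2 * (var 0 * var 1) - var 0) * var 1) * (num 30 + num 32 * (var 1)) * var 3)) + num (-38160) * ((((num 1 - num 2 * (var 0 * var 1) - var 0) * var 1) * (num 55 + num (-28) * (var 1)) + ((num 1 - num 2 * (var 0 * var 1) - var 0) * var 1) * (num 30 + num 32 * (var 1)) * var 3) * var 0))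
  pd := num 100000
  en := fun b => cond b
    (num 5360 * (num 632000 * (var 0) * (var 1) + num (-1120200) * (var 0) * (var 0) * (var 1) + num 25899 + num 429870 * (var 0) + num (-259000) * (var 0) * (var 1) * (var 1)))
    (num 3704 * (num 790000 * (var 0) * (var 1) + num (-1400250) * (var 0) * (var 0) * (var 1) + num 15423 + num 255990 * (var 0) + num (-323750) * (var 0) * (var 1) * (var 1)))
  kk := fun b => cond b
    (num 5430 * (num 24475 * (var 0) + num 456125 * (var 0) * (var 0) + num 7832 * (var 0) * (var 1) + num 979 * (var 0) * (var 3)))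
    (num 3392 * (num 14575 * (var 0) + num 271625 * (var 0) * (var 0) + num 4664 * (var 0) * (var 1) + num 583 * (var 0) * (var 3)))
  f0 := num 100000000
  wn := fun b => cond b
    (num 1000 * (num (-200000) * (var 0 * var 1) + (num 2000 * (var 0 * var 1) + num 212 * var 0) * (((num 1 - num 2 * (var 0 * var 1) - var 0) * var 1) * (num 55 + num (-28) * (var 1)) + ((num 1 - num 2 * (var 0 * var 1) - var 0) * var 1) * (num 30 + num 32 * (var 1)) * var 3) + var 0 * var 1 * var 0 * (num (-200000) + (num (-26250) * (var 1) + num 18497 + num (-745750) * (var 1) * (var 0) + num (-42029) * (var 0) + num 320000 * (var 1) * (var 3) + num 17808 * (var 3)))) + num (-6537) * (num 100 * (var 0 * var 1 * var 0) * (num 250 * (var 1) + num 53)))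
    (num 1000 * (num (-200000) * (var 0 * var 1) + (num 2000 * (var 0 * var 1) + num 212 * var 0) * (((num 1 - num 2 * (var 0 * var 1) - var 0) * var 1) * (num 55 + num (-28) * (var 1)) + ((num 1 - num 2 * (var 0 * var 1) - var 0) * var 1) * (num 30 + num 32 * (var 1)) * var 3) + var 0 * var 1 * var 0 * (num (-200000) + (num (-26250) * (var 1) + num 18497 + num (-745750) * (var 1) * (var 0) + num (-42029) * (var 0) + num 320000 * (var 1) * (var 3) + num 17808 * (var 3)))) + num (-3553) * (num 100 * (var 0 * var 1 * var 0) * (num 250 * (var 1) + num 53)))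
  wd := num 25000000
  tn := fun b => cond b
    (num 5145 * (num 3649 + num (-89) * (var 0) + num 1780 * (var 1) + num 445 * (var 3) + num 2670 * (var 1) * (var 3)))
    (num 3796 * (num 2173 + num (-53) * (var 0) + num 1060 * (var 1) + num 265 * (var 3) + num 1590 * (var 1) * (var 3)))
  td := num 100000000
  cn := num 1 - var 0 * var 1 - var 1 * (num 1 - num 2 * (var 0 * var 1))
  cd := (num 1 - num 2 * (var 0 * var 1)) * (num 1 - num 2 * (var 0 * var 1))
  kn := var 0 * var 1 * (num 2189 + num 5500 * (var 1) + num (-12000) * (var 0))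
  kd := num 100
  k2n := var 0 * (num 1495 + num (-750) * (var 3) + num (-1300) * (var 1))
  k2d := num 100

/-- Its ranges. -/
def bxD03 : StripEnd.EBox :=
  ⟨(0, 3, 25), (0, 1, 2), (212, 445, 1000), (0, 1, 1)⟩

/-- The chart `D04`. -/
def chD04 : EndChart where
  I := var 0 * var 1
  d := var 0
  w := var 0 * var 2
  den := num 100
  n₀ := ((num 1 - num 2 * (var 0 * var 1) - var 0) * var 1) * (num 35 + num (-14) * (var 1))
  n₁ := ((num 1 - num 2 * (var 0 * var 1) - var 0) * var 1) * (num 38 + num 12 * (var 1))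
  q₀ := (0, 3, 25)
  q₁ := (0, 1, 2)
  q₂ := (89, 200, 200)
  q₃ := (0, 1, 1)
  t₀ := (0, 1)
  t₁ := (1, 1)
  mu₀ := (149, 100)
  mu₁ := (236, 100)

/-- The piece `D04`. -/
def pcD04 : Piece where
  I := var 0 * var 1
  d := var 0
  w := var 0 * var 2
  o := (((num 1 - num 2 * (var 0 * var 1) - var 0) * var 1) * (num 35 + num (-14) * (var 1)) + ((num 1 - num 2 * (var 0 * var 1) - var 0) * var 1) * (num 38 + num 12 * (var 1)) * var 3)
  den := num 100
  vn := num 2 * var 1 * ((num 35 + num (-14) * (var 1)) + (num 38 + num 12 * (var 1)) * var 3)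
  vs := num 1
  mu := ⟨(149, 100), (236, 100)⟩
  pn := fun b => cond b
    (num 20000 * (num 100 - (((num 1 - num 2 * (var 0 * var 1) - var 0) * var 1) * (num 35 + num (-14) * (var 1)) + ((num 1 - num 2 * (var 0 * var 1) - var 0) * var 1) * (num 38 + num 12 * (var 1)) * var 3)) + num (-47200) * ((((num 1 - num 2 * (var 0 * var 1) - var 0) * var 1) * (num 35 + num (-14) * (var 1)) + ((num 1 - num 2 * (var 0 * var 1) - var 0) * var 1) * (num 38 + num 12 * (var 1)) * var 3) * var 0))
    (num 20000 * (num 100 - (((num 1 - num 2 * (var 0 * var 1) - var 0) * var 1) * (num 35 + num (-14) * (var 1)) + ((num 1 - num 2 * (var 0 * var 1) - var 0) * var 1) * (num 38 + num 12 * (var 1)) * var 3)) + num (-13261) * ((((num 1 - num 2 * (var 0 * var 1) - var 0) * var 1) * (num 35 + num (-14) * (var 1)) + ((num 1 - num 2 * (var 0 * var 1) - var 0) * var 1) * (num 38 + num 12 * (var 1)) * var 3) * var 0))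
  pd := num 20000
  en := fun b => cond b
    (num 215600 * (num 4938 * (var 0) * (var 1) + num (-13257) * (var 0) * (var 0) * (var 1) + num 292 + num 4833 * (var 0) + num (-1804) * (var 0) * (var 1) * (var 1)))
    (num 934 * (num 987600 * (var 0) * (var 1) + num (-2651400) * (var 0) * (var 0) * (var 1) + num 25988 + num 430137 * (var 0) + num (-360800) * (var 0) * (var 1) * (var 1)))
  kk := fun b => cond b
    (num 216400 * (num 278 * (var 0) + num 5083 * (var 0) * (var 0) + num 77 * (var 0) * (var 1) + num 9 * (var 0) * (var 3)))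
    (num 860 * (num 24742 * (var 0) + num 452387 * (var 0) * (var 0) + num 6853 * (var 0) * (var 1) + num 801 * (var 0) * (var 3)))
  f0 := num 20000000
  wn := fun b => cond b
    (num 1000 * (num (-160000) * (var 0 * var 1) + (num 1600 * (var 0 * var 1) + num 356 * var 0) * (((num 1 - num 2 * (var 0 * var 1) - var 0) * var 1) * (num 35 + num (-14) * (var 1)) + ((num 1 - num 2 * (var 0 * var 1) - var 0) * var 1) * (num 38 + num 12 * (var 1)) * var 3) + var 0 * var 1 * var 0 * (num (-160000) + (num (-65200) * (var 1) + num 9434 + num (-559800) * (var 1) * (var 0) + num (-77074) * (var 0) + num 305000 * (var 1) * (var 3) + num 45479 * (var 3)))) + num (-6390) * (num 100 * (var 0 * var 1 * var 0) * (num 200 * (var 1) + num 89)))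
    (num 1000 * (num (-160000) * (var 0 * var 1) + (num 1600 * (var 0 * var 1) + num 356 * var 0) * (((num 1 - num 2 * (var 0 * var 1) - var 0) * var 1) * (num 35 + num (-14) * (var 1)) + ((num 1 - num 2 * (var 0 * var 1) - var 0) * var 1) * (num 38 + num 12 * (var 1)) * var 3) + var 0 * var 1 * var 0 * (num (-160000) + (num (-65200) * (var 1) + num 9434 + num (-559800) * (var 1) * (var 0) + num (-77074) * (var 0) + num 305000 * (var 1) * (var 3) + num 45479 * (var 3)))) + num (-4387) * (num 100 * (var 0 * var 1 * var 0) * (num 200 * (var 1) + num 89)))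
  wd := num 20000000
  tn := fun b => cond b
    (num 210600 * (num 33 + num 1 * (var 0) + num 10 * (var 1) + num 9 * (var 3) + num 24 * (var 1) * (var 3)))
    (num 947 * (num 2937 + num 89 * (var 0) + num 890 * (var 1) + num 801 * (var 3) + num 2136 * (var 1) * (var 3)))
  td := num 20000000
  cn := num 1 - var 0 * var 1 - var 1 * (num 1 - num 2 * (var 0 * var 1))
  cd := (num 1 - num 2 * (var 0 * var 1)) * (num 1 - num 2 * (var 0 * var 1))
  kn := var 0 * var 1 * (num 1448 + num 4000 * (var 1) + num (-4000) * (var 0))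
  kd := num 100
  k2n := var 0 * (num 2165 + num (-1200) * (var 3) + num (-1600) * (var 1))
  k2d := num 100

/-- Its ranges. -/
def bxD04 : StripEnd.EBox :=
  ⟨(0, 3, 25), (0, 1, 2), (89, 200, 200), (0, 1, 1)⟩

/-- The chart `D05`. -/
def chD05 : EndChart where
  I := var 0 * var 1
  d := var 0
  w := var 0 * var 2
  den := num 100
  n₀ := ((num 1 - num 2 * (var 0 * var 1) - var 0) * var 1) * (num 89 + num (-40) * (var 1))
  n₁ := ((num 1 - num 2 * (var 0 * var 1) - var 0) * var 1) * (num 9 + num 70 * (var 1))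
  q₀ := (3, 4, 25)
  q₁ := (0, 417, 1000)
  q₂ := (15, 39, 500)
  q₃ := (0, 1, 1)
  t₀ := (0, 1)
  t₁ := (1, 1)
  mu₀ := (190, 100)
  mu₁ := (256, 100)

/-- The piece `D05`. -/
def pcD05 : Piece where
  I := var 0 * var 1
  d := var 0
  w := var 0 * var 2
  o := (((num 1 - num 2 * (var 0 * var 1) - var 0) * var 1) * (num 89 + num (-40) * (var 1)) + ((num 1 - num 2 * (var 0 * var 1) - var 0) * var 1) * (num 9 + num 70 * (var 1)) * var 3)
  den := num 100
  vn := num 2 * var 1 * ((num 89 + num (-40) * (var 1)) + (num 9 + num 70 * (var 1)) * var 3)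
  vs := num 1
  mu := ⟨(190, 100), (256, 100)⟩
  pn := fun b => cond b
    (num 50000 * (num 100 - (((num 1 - num 2 * (var 0 * var 1) - var 0) * var 1) * (num 89 + num (-40) * (var 1)) + ((num 1 - num 2 * (var 0 * var 1) - var 0) * var 1) * (num 9 + num 70 * (var 1)) * var 3)) + num (-9984) * ((((num 1 - num 2 * (var 0 * var 1) - var 0) * var 1) * (num 89 + num (-40) * (var 1)) + ((num 1 - num 2 * (var 0 * var 1) - var 0) * var 1) * (num 9 + num 70 * (var 1)) * var 3) * var 0))
    (num 50000 * (num 100 - (((num 1 - num 2 * (var 0 * var 1) - var 0) * var 1) * (num 89 + num (-40) * (var 1)) + ((num 1 - num 2 * (var 0 * var 1) - var 0) * var 1) * (num 9 + num 70 * (var 1)) * var 3)) + num (-2850) * ((((num 1 - num 2 * (var 0 * var 1) - var 0) * var 1) * (num 89 + num (-40) * (var 1)) + ((num 1 - num 2 * (var 0 * var 1) - var 0) * var 1) * (num 9 + num 70 * (var 1)) * var 3) * var 0))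
  pd := num 50000
  en := fun b => cond b
    (num 1082 * (num 768500 * (var 0) * (var 1) + num 542000 * (var 0) * (var 0) * (var 1) + num 20943 + num 101751 * (var 0) + num (-387000) * (var 0) * (var 1) * (var 1)))
    (num 4550 * (num 153700 * (var 0) * (var 1) + num 108400 * (var 0) * (var 0) * (var 1) + num 1611 + num 7827 * (var 0) + num (-77400) * (var 0) * (var 1) * (var 1)))
  kk := fun b => cond b
    (num 1037 * (num 17121 * (var 0) + num 126828 * (var 0) * (var 0) + num 16731 * (var 0) * (var 1) + num 312 * (var 0) * (var 3)))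
    (num 4765 * (num 1317 * (var 0) + num 9756 * (var 0) * (var 0) + num 1287 * (var 0) * (var 1) + num 24 * (var 0) * (var 3)))
  f0 := num 50000000
  wn := fun b => cond b
    (num 1000 * (num (-80000) * (var 0 * var 1) + (num 800 * (var 0 * var 1) + num 12 * var 0) * (((num 1 - num 2 * (var 0 * var 1) - var 0) * var 1) * (num 89 + num (-40) * (var 1)) + ((num 1 - num 2 * (var 0 * var 1) - var 0) * var 1) * (num 9 + num 70 * (var 1)) * var 3) + var 0 * var 1 * var 0 * (num (-80000) + (num 33900 * (var 1) + num 2352 + num (-238800) * (var 1) * (var 0) + num (-3057) * (var 0) + num 62000 * (var 1) * (var 3) + num 51 * (var 3)))) + num (-364) * (num 100 * (var 0 * var 1 * var 0) * (num 100 * (var 1) + num 3)))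
    (num 1000 * (num (-80000) * (var 0 * var 1) + (num 800 * (var 0 * var 1) + num 12 * var 0) * (((num 1 - num 2 * (var 0 * var 1) - var 0) * var 1) * (num 89 + num (-40) * (var 1)) + ((num 1 - num 2 * (var 0 * var 1) - var 0) * var 1) * (num 9 + num 70 * (var 1)) * var 3) + var 0 * var 1 * var 0 * (num (-80000) + (num 33900 * (var 1) + num 2352 + num (-238800) * (var 1) * (var 0) + num (-3057) * (var 0) + num 62000 * (var 1) * (var 3) + num 51 * (var 3)))) + num (-3138) * (num 100 * (var 0 * var 1 * var 0) * (num 100 * (var 1) + num 3)))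
  wd := num 10000000
  tn := fun b => cond b
    (num 1054 * (num 1911 + num (-273) * (var 0) + num 1794 * (var 1) + num 39 * (var 3) + num 858 * (var 1) * (var 3)))
    (num 4865 * (num 147 + num (-21) * (var 0) + num 138 * (var 1) + num 3 * (var 3) + num 66 * (var 1) * (var 3)))
  td := num 50000000
  cn := num 1 - var 0 * var 1 - var 1 * (num 1 - num 2 * (var 0 * var 1))
  cd := (num 1 - num 2 * (var 0 * var 1)) * (num 1 - num 2 * (var 0 * var 1))
  kn := var 0 * var 1 * (num 786 + num 4000 * (var 1) + num (-2000) * (var 0))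
  kd := num 100
  k2n := var 0 * (num 1356 + num (-650) * (var 3) + num (-1200) * (var 1))
  k2d := num 100

/-- Its ranges. -/
def bxD05 : StripEnd.EBox :=
  ⟨(3, 4, 25), (0, 417, 1000), (15, 39, 500), (0, 1, 1)⟩

/-- The chart `D06`. -/
def chD06 : EndChart where
  I := var 0 * var 1
  d := var 0
  w := var 0 * var 2
  den := num 100
  n₀ := ((num 1 - num 2 * (var 0 * var 1) - var 0) * var 1) * (num 79 + num (-35) * (var 1))
  n₁ := ((num 1 - num 2 * (var 0 * var 1) - var 0) * var 1) * (num 15 + num 58 * (var 1))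
  q₀ := (3, 4, 25)
  q₁ := (0, 417, 1000)
  q₂ := (39, 82, 500)
  q₃ := (0, 1, 1)
  t₀ := (0, 1)
  t₁ := (1, 1)
  mu₀ := (185, 100)
  mu₁ := (254, 100)

/-- The piece `D06`. -/
def pcD06 : Piece where
  I := var 0 * var 1
  d := var 0
  w := var 0 * var 2
  o := (((num 1 - num 2 * (var 0 * var 1) - var 0) * var 1) * (num 79 + num (-35) * (var 1)) + ((num 1 - num 2 * (var 0 * var 1) - var 0) * var 1) * (num 15 + num 58 * (var 1)) * var 3)
  den := num 100
  vn := num 2 * var 1 * ((num 79 + num (-35) * (var 1)) + (num 15 + num 58 * (var 1)) * var 3)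
  vs := num 1
  mu := ⟨(185, 100), (254, 100)⟩
  pn := fun b => cond b
    (num 50000 * (num 100 - (((num 1 - num 2 * (var 0 * var 1) - var 0) * var 1) * (num 79 + num (-35) * (var 1)) + ((num 1 - num 2 * (var 0 * var 1) - var 0) * var 1) * (num 15 + num 58 * (var 1)) * var 3)) + num (-20828) * ((((num 1 - num 2 * (var 0 * var 1) - var 0) * var 1) * (num 79 + num (-35) * (var 1)) + ((num 1 - num 2 * (var 0 * var 1) - var 0) * var 1) * (num 15 + num 58 * (var 1)) * var 3) * var 0))
    (num 50000 * (num 100 - (((num 1 - num 2 * (var 0 * var 1) - var 0) * var 1) * (num 79 + num (-35) * (var 1)) + ((num 1 - num 2 * (var 0 * var 1) - var 0) * var 1) * (num 15 + num 58 * (var 1)) * var 3)) + num (-7215) * ((((num 1 - num 2 * (var 0 * var 1) - var 0) * var 1) * (num 79 + num (-35) * (var 1)) + ((num 1 - num 2 * (var 0 * var 1) - var 0) * var 1) * (num 15 + num 58 * (var 1)) * var 3) * var 0))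
  pd := num 50000
  en := fun b => cond b
    (num 2138 * (num 414500 * (var 0) * (var 1) + num 452000 * (var 0) * (var 0) * (var 1) + num 21730 + num 108732 * (var 0) + num (-182750) * (var 0) * (var 1) * (var 1)))
    (num 927 * (num 829000 * (var 0) * (var 1) + num 904000 * (var 0) * (var 0) * (var 1) + num 20670 + num 103428 * (var 0) + num (-365500) * (var 0) * (var 1) * (var 1)))
  kk := fun b => cond b
    (num 2072 * (num 18081 * (var 0) + num 132594 * (var 0) * (var 0) + num 16892 * (var 0) * (var 1) + num 328 * (var 0) * (var 3)))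
    (num 954 * (num 17199 * (var 0) + num 126126 * (var 0) * (var 0) + num 16068 * (var 0) * (var 1) + num 312 * (var 0) * (var 3)))
  f0 := num 50000000
  wn := fun b => cond b
    (num 1000 * (num (-400000) * (var 0 * var 1) + (num 4000 * (var 0 * var 1) + num 156 * var 0) * (((num 1 - num 2 * (var 0 * var 1) - var 0) * var 1) * (num 79 + num (-35) * (var 1)) + ((num 1 - num 2 * (var 0 * var 1) - var 0) * var 1) * (num 15 + num 58 * (var 1)) * var 3) + var 0 * var 1 * var 0 * (num (-400000) + (num 113000 * (var 1) + num 25233 + num (-1217000) * (var 1) * (var 0) + num (-36933) * (var 0) + num 399500 * (var 1) * (var 3) + num 4719 * (var 3)))) + num (-919) * (num 100 * (var 0 * var 1 * var 0) * (num 500 * (var 1) + num 39)))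
    (num 1000 * (num (-400000) * (var 0 * var 1) + (num 4000 * (var 0 * var 1) + num 156 * var 0) * (((num 1 - num 2 * (var 0 * var 1) - var 0) * var 1) * (num 79 + num (-35) * (var 1)) + ((num 1 - num 2 * (var 0 * var 1) - var 0) * var 1) * (num 15 + num 58 * (var 1)) * var 3) + var 0 * var 1 * var 0 * (num (-400000) + (num 113000 * (var 1) + num 25233 + num (-1217000) * (var 1) * (var 0) + num (-36933) * (var 0) + num 399500 * (var 1) * (var 3) + num 4719 * (var 3)))) + num (-3134) * (num 100 * (var 0 * var 1 * var 0) * (num 500 * (var 1) + num 39)))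
  wd := num 50000000
  tn := fun b => cond b
    (num 2030 * (num 1927 + num (-205) * (var 0) + num 1599 * (var 1) + num 82 * (var 3) + num 861 * (var 1) * (var 3)))
    (num 975 * (num 1833 + num (-195) * (var 0) + num 1521 * (var 1) + num 78 * (var 3) + num 819 * (var 1) * (var 3)))
  td := num 50000000
  cn := num 1 - var 0 * var 1 - var 1 * (num 1 - num 2 * (var 0 * var 1))
  cd := (num 1 - num 2 * (var 0 * var 1)) * (num 1 - num 2 * (var 0 * var 1))
  kn := var 0 * var 1 * (num 1375 + num 4500 * (var 1) + num (-6000) * (var 0))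
  kd := num 100
  k2n := var 0 * (num 1168 + num (-550) * (var 3) + num (-1200) * (var 1))
  k2d := num 100

/-- Its ranges. -/
def bxD06 : StripEnd.EBox :=
  ⟨(3, 4, 25), (0, 417, 1000), (39, 82, 500), (0, 1, 1)⟩

/-- The chart `D07`. -/
def chD07 : EndChart where
  I := var 0 * var 1
  d := var 0
  w := var 0 * var 2
  den := num 100
  n₀ := ((num 1 - num 2 * (var 0 * var 1) - var 0) * var 1) * (num 59 + num (-24) * (var 1))
  n₁ := ((num 1 - num 2 * (var 0 * var 1) - var 0) * var 1) * (num 30 + num 37 * (var 1))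
  q₀ := (3, 4, 25)
  q₁ := (0, 417, 1000)
  q₂ := (82, 213, 500)
  q₃ := (0, 1, 1)
  t₀ := (0, 1)
  t₁ := (1, 1)
  mu₀ := (175, 100)
  mu₁ := (252, 100)

/-- The piece `D07`. -/
def pcD07 : Piece where
  I := var 0 * var 1
  d := var 0
  w := var 0 * var 2
  o := (((num 1 - num 2 * (var 0 * var 1) - var 0) * var 1) * (num 59 + num (-24) * (var 1)) + ((num 1 - num 2 * (var 0 * var 1) - var 0) * var 1) * (num 30 + num 37 * (var 1)) * var 3)
  den := num 100
  vn := num 2 * var 1 * ((num 59 + num (-24) * (var 1)) + (num 30 + num 37 * (var 1)) * var 3)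
  vs := num 1
  mu := ⟨(175, 100), (252, 100)⟩
  pn := fun b => cond b
    (num 50000 * (num 100 - (((num 1 - num 2 * (var 0 * var 1) - var 0) * var 1) * (num 59 + num (-24) * (var 1)) + ((num 1 - num 2 * (var 0 * var 1) - var 0) * var 1) * (num 30 + num 37 * (var 1)) * var 3)) + num (-53676) * ((((num 1 - num 2 * (var 0 * var 1) - var 0) * var 1) * (num 59 + num (-24) * (var 1)) + ((num 1 - num 2 * (var 0 * var 1) - var 0) * var 1) * (num 30 + num 37 * (var 1)) * var 3) * var 0))
    (num 50000 * (num 100 - (((num 1 - num 2 * (var 0 * var 1) - var 0) * var 1) * (num 59 + num (-24) * (var 1)) + ((num 1 - num 2 * (var 0 * var 1) - var 0) * var 1) * (num 30 + num 37 * (var 1)) * var 3)) + num (-14350) * ((((num 1 - num 2 * (var 0 * var 1) - var 0) * var 1) * (num 59 + num (-24) * (var 1)) + ((num 1 - num 2 * (var 0 * var 1) - var 0) * var 1) * (num 30 + num 37 * (var 1)) * var 3) * var 0))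
  pd := num 50000
  en := fun b => cond b
    (num 1085 * (num 842500 * (var 0) * (var 1) + num 1927000 * (var 0) * (var 0) * (var 1) + num 114168 + num 562320 * (var 0) + num (-214000) * (var 0) * (var 1) * (var 1)))
    (num 1836 * (num 421250 * (var 0) * (var 1) + num 963500 * (var 0) * (var 0) * (var 1) + num 21976 + num 108240 * (var 0) + num (-107000) * (var 0) * (var 1) * (var 1)))
  kk := fun b => cond b
    (num 1034 * (num 94785 * (var 0) + num 681600 * (var 0) * (var 0) + num 81579 * (var 0) * (var 1) + num 2130 * (var 0) * (var 3)))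
    (num 1908 * (num 18245 * (var 0) + num 131200 * (var 0) * (var 0) + num 15703 * (var 0) * (var 1) + num 410 * (var 0) * (var 3)))
  f0 := num 50000000
  wn := fun b => cond b
    (num 1000 * (num (-200000) * (var 0 * var 1) + (num 2000 * (var 0 * var 1) + num 164 * var 0) * (((num 1 - num 2 * (var 0 * var 1) - var 0) * var 1) * (num 59 + num (-24) * (var 1)) + ((num 1 - num 2 * (var 0 * var 1) - var 0) * var 1) * (num 30 + num 37 * (var 1)) * var 3) + var 0 * var 1 * var 0 * (num (-200000) + (num 2250 * (var 1) + num 17138 + num (-574000) * (var 1) * (var 0) + num (-39483) * (var 0) + num 261750 * (var 1) * (var 3) + num 13694 * (var 3)))) + num (-1316) * (num 100 * (var 0 * var 1 * var 0) * (num 250 * (var 1) + num 41)))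
    (num 1000 * (num (-200000) * (var 0 * var 1) + (num 2000 * (var 0 * var 1) + num 164 * var 0) * (((num 1 - num 2 * (var 0 * var 1) - var 0) * var 1) * (num 59 + num (-24) * (var 1)) + ((num 1 - num 2 * (var 0 * var 1) - var 0) * var 1) * (num 30 + num 37 * (var 1)) * var 3) + var 0 * var 1 * var 0 * (num (-200000) + (num 2250 * (var 1) + num 17138 + num (-574000) * (var 1) * (var 0) + num (-39483) * (var 0) + num 261750 * (var 1) * (var 3) + num 13694 * (var 3)))) + num (-4199) * (num 100 * (var 0 * var 1 * var 0) * (num 250 * (var 1) + num 41)))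
  wd := num 25000000
  tn := fun b => cond b
    (num 1006 * (num 9159 + num (-1065) * (var 0) + num 5325 * (var 1) + num 1065 * (var 3) + num 5325 * (var 1) * (var 3)))
    (num 1936 * (num 1763 + num (-205) * (var 0) + num 1025 * (var 1) + num 205 * (var 3) + num 1025 * (var 1) * (var 3)))
  td := num 50000000
  cn := num 1 - var 0 * var 1 - var 1 * (num 1 - num 2 * (var 0 * var 1))
  cd := (num 1 - num 2 * (var 0 * var 1)) * (num 1 - num 2 * (var 0 * var 1))
  kn := var 0 * var 1 * (num 1532 + num 6500 * (var 1) + num (-6000) * (var 0))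
  kd := num 100
  k2n := var 0 * (num 1666 + num (-900) * (var 3) + num (-1600) * (var 1))
  k2d := num 100

/-- Its ranges. -/
def bxD07 : StripEnd.EBox :=
  ⟨(3, 4, 25), (0, 417, 1000), (82, 213, 500), (0, 1, 1)⟩

/-- The chart `D08`. -/
def chD08 : EndChart where
  I := var 0 * var 1
  d := var 0
  w := var 0 * var 2
  den := num 100
  n₀ := ((num 1 - num 2 * (var 0 * var 1) - var 0) * var 1) * (num 43 + num (-12) * (var 1))
  n₁ := ((num 1 - num 2 * (var 0 * var 1) - var 0) * var 1) * (num 32 + num 16 * (var 1))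
  q₀ := (3, 4, 25)
  q₁ := (0, 417, 1000)
  q₂ := (426, 767, 1000)
  q₃ := (0, 1, 1)
  t₀ := (0, 1)
  t₁ := (1, 1)
  mu₀ := (159, 100)
  mu₁ := (247, 100)

/-- The piece `D08`. -/
def pcD08 : Piece where
  I := var 0 * var 1
  d := var 0
  w := var 0 * var 2
  o := (((num 1 - num 2 * (var 0 * var 1) - var 0) * var 1) * (num 43 + num (-12) * (var 1)) + ((num 1 - num 2 * (var 0 * var 1) - var 0) * var 1) * (num 32 + num 16 * (var 1)) * var 3)
  den := num 100
  vn := num 2 * var 1 * ((num 43 + num (-12) * (var 1)) + (num 32 + num 16 * (var 1)) * var 3)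
  vs := num 1
  mu := ⟨(159, 100), (247, 100)⟩
  pn := fun b => cond b
    (num 100000 * (num 100 - (((num 1 - num 2 * (var 0 * var 1) - var 0) * var 1) * (num 43 + num (-12) * (var 1)) + ((num 1 - num 2 * (var 0 * var 1) - var 0) * var 1) * (num 32 + num 16 * (var 1)) * var 3)) + num (-189449) * ((((num 1 - num 2 * (var 0 * var 1) - var 0) * var 1) * (num 43 + num (-12) * (var 1)) + ((num 1 - num 2 * (var 0 * var 1) - var 0) * var 1) * (num 32 + num 16 * (var 1)) * var 3) * var 0))
    (num 100000 * (num 100 - (((num 1 - num 2 * (var 0 * var 1) - var 0) * var 1) * (num 43 + num (-12) * (var 1)) + ((num 1 - num 2 * (var 0 * var 1) - var 0) * var 1) * (num 32 + num 16 * (var 1)) * var 3)) + num (-67734) * ((((num 1 - num 2 * (var 0 * var 1) - var 0) * var 1) * (num 43 + num (-12) * (var 1)) + ((num 1 - num 2 * (var 0 * var 1) - var 0) * var 1) * (num 32 + num 16 * (var 1)) * var 3) * var 0))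
  pd := num 100000
  en := fun b => cond b
    (num 1064 * (num 2644000 * (var 0) * (var 1) + num 5324000 * (var 0) * (var 0) * (var 1) + num 399607 + num 2072434 * (var 0) + num (-967000) * (var 0) * (var 1) * (var 1)))
    (num 1894 * (num 1322000 * (var 0) * (var 1) + num 2662000 * (var 0) * (var 0) * (var 1) + num 110973 + num 575526 * (var 0) + num (-483500) * (var 0) * (var 1) * (var 1)))
  kk := fun b => cond b
    (num 1029 * (num 346684 * (var 0) + num 2422953 * (var 0) * (var 0) + num 265382 * (var 0) * (var 1) + num 6136 * (var 0) * (var 3)))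
    (num 1916 * (num 96276 * (var 0) + num 672867 * (var 0) * (var 0) + num 73698 * (var 0) * (var 1) + num 1704 * (var 0) * (var 3)))
  f0 := num 100000000
  wn := fun b => cond b
    (num 1000 * (num (-400000) * (var 0 * var 1) + (num 4000 * (var 0 * var 1) + num 852 * var 0) * (((num 1 - num 2 * (var 0 * var 1) - var 0) * var 1) * (num 43 + num (-12) * (var 1)) + ((num 1 - num 2 * (var 0 * var 1) - var 0) * var 1) * (num 32 + num 16 * (var 1)) * var 3) + var 0 * var 1 * var 0 * (num (-400000) + (num (-70500) * (var 1) + num 37701 + num (-1384500) * (var 1) * (var 0) + num (-201285) * (var 0) + num 739000 * (var 1) * (var 3) + num 104157 * (var 3)))) + num (-1055) * (num 100 * (var 0 * var 1 * var 0) * (num 500 * (var 1) + num 213)))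
    (num 1000 * (num (-400000) * (var 0 * var 1) + (num 4000 * (var 0 * var 1) + num 852 * var 0) * (((num 1 - num 2 * (var 0 * var 1) - var 0) * var 1) * (num 43 + num (-12) * (var 1)) + ((num 1 - num 2 * (var 0 * var 1) - var 0) * var 1) * (num 32 + num 16 * (var 1)) * var 3) + var 0 * var 1 * var 0 * (num (-400000) + (num (-70500) * (var 1) + num 37701 + num (-1384500) * (var 1) * (var 0) + num (-201285) * (var 0) + num 739000 * (var 1) * (var 3) + num 104157 * (var 3)))) + num (-3276) * (num 100 * (var 0 * var 1 * var 0) * (num 500 * (var 1) + num 213)))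
  wd := num 50000000
  tn := fun b => cond b
    (num 1000 * (num 29146 + num (-767) * (var 0) + num 13039 * (var 1) + num 3835 * (var 3) + num 10738 * (var 1) * (var 3)))
    (num 1954 * (num 8094 + num (-213) * (var 0) + num 3621 * (var 1) + num 1065 * (var 3) + num 2982 * (var 1) * (var 3)))
  td := num 100000000
  cn := num 1 - var 0 * var 1 - var 1 * (num 1 - num 2 * (var 0 * var 1))
  cd := (num 1 - num 2 * (var 0 * var 1)) * (num 1 - num 2 * (var 0 * var 1))
  kn := var 0 * var 1 * (num 719 + num 3000 * (var 1))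
  kd := num 100
  k2n := var 0 * (num 1395 + num (-700) * (var 3) + num (-1500) * (var 1))
  k2d := num 100

/-- Its ranges. -/
def bxD08 : StripEnd.EBox :=
  ⟨(3, 4, 25), (0, 417, 1000), (426, 767, 1000), (0, 1, 1)⟩

/-- The chart `D09`. -/
def chD09 : EndChart where
  I := var 0 * var 1
  d := var 0
  w := var 0 * var 2
  den := num 100
  n₀ := ((num 1 - num 2 * (var 0 * var 1) - var 0) * var 1) * (num 37 + num (-10) * (var 1))
  n₁ := ((num 1 - num 2 * (var 0 * var 1) - var 0) * var 1) * (num 27 + num 8 * (var 1))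
  q₀ := (3, 4, 25)
  q₁ := (0, 417, 1000)
  q₂ := (767, 1000, 1000)
  q₃ := (0, 1, 1)
  t₀ := (0, 1)
  t₁ := (1, 1)
  mu₀ := (151, 100)
  mu₁ := (241, 100)

/-- The piece `D09`. -/
def pcD09 : Piece where
  I := var 0 * var 1
  d := var 0
  w := var 0 * var 2
  o := (((num 1 - num 2 * (var 0 * var 1) - var 0) * var 1) * (num 37 + num (-10) * (var 1)) + ((num 1 - num 2 * (var 0 * var 1) - var 0) * var 1) * (num 27 + num 8 * (var 1)) * var 3)
  den := num 100
  vn := num 2 * var 1 * ((num 37 + num (-10) * (var 1)) + (num 27 + num 8 * (var 1)) * var 3)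
  vs := num 1
  mu := ⟨(151, 100), (241, 100)⟩
  pn := fun b => cond b
    (num 100000 * (num 100 - (((num 1 - num 2 * (var 0 * var 1) - var 0) * var 1) * (num 37 + num (-10) * (var 1)) + ((num 1 - num 2 * (var 0 * var 1) - var 0) * var 1) * (num 27 + num 8 * (var 1)) * var 3)) + num (-241000) * ((((num 1 - num 2 * (var 0 * var 1) - var 0) * var 1) * (num 37 + num (-10) * (var 1)) + ((num 1 - num 2 * (var 0 * var 1) - var 0) * var 1) * (num 27 + num 8 * (var 1)) * var 3) * var 0))
    (num 100000 * (num 100 - (((num 1 - num 2 * (var 0 * var 1) - var 0) * var 1) * (num 37 + num (-10) * (var 1)) + ((num 1 - num 2 * (var 0 * var 1) - var 0) * var 1) * (num 27 + num 8 * (var 1)) * var 3)) + num (-115817) * ((((num 1 - num 2 * (var 0 * var 1) - var 0) * var 1) * (num 37 + num (-10) * (var 1)) + ((num 1 - num 2 * (var 0 * var 1) - var 0) * var 1) * (num 27 + num 8 * (var 1)) * var 3) * var 0))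
  pd := num 100000
  en := fun b => cond b
    (num 1038000 * (num 3997 * (var 0) * (var 1) + num 5209 * (var 0) * (var 0) * (var 1) + num 512 + num 2731 * (var 0) + num (-1983) * (var 0) * (var 1) * (var 1)))
    (num 967 * (num 3997000 * (var 0) * (var 1) + num 5209000 * (var 0) * (var 0) * (var 1) + num 392704 + num 2094677 * (var 0) + num (-1983000) * (var 0) * (var 1) * (var 1)))
  kk := fun b => cond b
    (num 1026000 * (num 457 * (var 0) + num 3134 * (var 0) * (var 0) + num 322 * (var 0) * (var 1) + num 5 * (var 0) * (var 3)))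
    (num 961 * (num 350519 * (var 0) + num 2403778 * (var 0) * (var 0) + num 246974 * (var 0) * (var 1) + num 3835 * (var 0) * (var 3)))
  f0 := num 100000000
  wn := fun b => cond b
    (num 1000 * (num (-800000) * (var 0 * var 1) + (num 8000 * (var 0 * var 1) + num 3068 * var 0) * (((num 1 - num 2 * (var 0 * var 1) - var 0) * var 1) * (num 37 + num (-10) * (var 1)) + ((num 1 - num 2 * (var 0 * var 1) - var 0) * var 1) * (num 27 + num 8 * (var 1)) * var 3) + var 0 * var 1 * var 0 * (num (-800000) + (num (-132000) * (var 1) + num 58292 + num (-3311000) * (var 1) * (var 0) + num (-837564) * (var 0) + num 1700000 * (var 1) * (var 3) + num 440258 * (var 3)))) + num (-670) * (num 100 * (var 0 * var 1 * var 0) * (num 1000 * (var 1) + num 767)))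
    (num 1000 * (num (-800000) * (var 0 * var 1) + (num 8000 * (var 0 * var 1) + num 3068 * var 0) * (((num 1 - num 2 * (var 0 * var 1) - var 0) * var 1) * (num 37 + num (-10) * (var 1)) + ((num 1 - num 2 * (var 0 * var 1) - var 0) * var 1) * (num 27 + num 8 * (var 1)) * var 3) + var 0 * var 1 * var 0 * (num (-800000) + (num (-132000) * (var 1) + num 58292 + num (-3311000) * (var 1) * (var 0) + num (-837564) * (var 0) + num 1700000 * (var 1) * (var 3) + num 440258 * (var 3)))) + num (-2536) * (num 100 * (var 0 * var 1 * var 0) * (num 1000 * (var 1) + num 767)))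
  wd := num 100000000
  tn := fun b => cond b
    (num 981000 * (num 35 + num 7 * (var 0) + num 12 * (var 1) + num 1 * (var 3) + num 8 * (var 1) * (var 3)))
    (num 1011 * (num 26845 + num 5369 * (var 0) + num 9204 * (var 1) + num 767 * (var 3) + num 6136 * (var 1) * (var 3)))
  td := num 100000000
  cn := num 1 - var 0 * var 1 - var 1 * (num 1 - num 2 * (var 0 * var 1))
  cd := (num 1 - num 2 * (var 0 * var 1)) * (num 1 - num 2 * (var 0 * var 1))
  kn := var 0 * var 1 * (num 744 + num 1500 * (var 1))
  kd := num 100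
  k2n := var 0 * (num 1030 + num (-500) * (var 3) + num (-1200) * (var 1))
  k2d := num 100

/-- Its ranges. -/
def bxD09 : StripEnd.EBox :=
  ⟨(3, 4, 25), (0, 417, 1000), (767, 1000, 1000), (0, 1, 1)⟩

/-- The chart `D10`. -/
def chD10 : EndChart where
  I := var 0 * var 1
  d := var 0
  w := var 0 * var 2
  den := num 100
  n₀ := ((num 1 - num 2 * (var 0 * var 1) - var 0) * var 1) * (num 91 + num (-34) * (var 1))
  n₁ := ((num 1 - num 2 * (var 0 * var 1) - var 0) * var 1) * (num 7 + num 73 * (var 1))
  q₀ := (4, 5, 25)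
  q₁ := (0, 313, 1000)
  q₂ := (30, 63, 1000)
  q₃ := (0, 1, 1)
  t₀ := (0, 1)
  t₁ := (1, 1)
  mu₀ := (190, 100)
  mu₁ := (256, 100)

/-- The piece `D10`. -/
def pcD10 : Piece where
  I := var 0 * var 1
  d := var 0
  w := var 0 * var 2
  o := (((num 1 - num 2 * (var 0 * var 1) - var 0) * var 1) * (num 91 + num (-34) * (var 1)) + ((num 1 - num 2 * (var 0 * var 1) - var 0) * var 1) * (num 7 + num 73 * (var 1)) * var 3)
  den := num 100
  vn := num 2 * var 1 * ((num 91 + num (-34) * (var 1)) + (num 7 + num 73 * (var 1)) * var 3)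
  vs := num 1
  mu := ⟨(190, 100), (256, 100)⟩
  pn := fun b => cond b
    (num 100000 * (num 100 - (((num 1 - num 2 * (var 0 * var 1) - var 0) * var 1) * (num 91 + num (-34) * (var 1)) + ((num 1 - num 2 * (var 0 * var 1) - var 0) * var 1) * (num 7 + num 73 * (var 1)) * var 3)) + num (-16128) * ((((num 1 - num 2 * (var 0 * var 1) - var 0) * var 1) * (num 91 + num (-34) * (var 1)) + ((num 1 - num 2 * (var 0 * var 1) - var 0) * var 1) * (num 7 + num 73 * (var 1)) * var 3) * var 0))
    (num 100000 * (num 100 - (((num 1 - num 2 * (var 0 * var 1) - var 0) * var 1) * (num 91 + num (-34) * (var 1)) + ((num 1 - num 2 * (var 0 * var 1) - var 0) * var 1) * (num 7 + num 73 * (var 1)) * var 3)) + num (-5700) * ((((num 1 - num 2 * (var 0 * var 1) - var 0) * var 1) * (num 91 + num (-34) * (var 1)) + ((num 1 - num 2 * (var 0 * var 1) - var 0) * var 1) * (num 7 + num 73 * (var 1)) * var 3) * var 0))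
  pd := num 100000
  en := fun b => cond b
    (num 1053 * (num 1595000 * (var 0) * (var 1) + num 455000 * (var 0) * (var 0) * (var 1) + num 40194 + num 124866 * (var 0) + num (-688000) * (var 0) * (var 1) * (var 1)))
    (num 9440 * (num 159500 * (var 0) * (var 1) + num 45500 * (var 0) * (var 0) * (var 1) + num 1914 + num 5946 * (var 0) + num (-68800) * (var 0) * (var 1) * (var 1)))
  kk := fun b => cond b
    (num 1026 * (num 34146 * (var 0) + num 156492 * (var 0) * (var 0) + num 40194 * (var 0) * (var 1) + num 441 * (var 0) * (var 3)))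
    (num 9640 * (num 1626 * (var 0) + num 7452 * (var 0) * (var 0) + num 1914 * (var 0) * (var 1) + num 21 * (var 0) * (var 3)))
  f0 := num 100000000
  wn := fun b => cond b
    (num 1000 * (num (-80000) * (var 0 * var 1) + (num 800 * (var 0 * var 1) + num 12 * var 0) * (((num 1 - num 2 * (var 0 * var 1) - var 0) * var 1) * (num 91 + num (-34) * (var 1)) + ((num 1 - num 2 * (var 0 * var 1) - var 0) * var 1) * (num 7 + num 73 * (var 1)) * var 3) + var 0 * var 1 * var 0 * (num (-80000) + (num 45300 * (var 1) + num 2361 + num (-259200) * (var 1) * (var 0) + num (-2829) * (var 0) + num 52800 * (var 1) * (var 3) + num 36 * (var 3)))) + num (-241) * (num 100 * (var 0 * var 1 * var 0) * (num 100 * (var 1) + num 3)))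
    (num 1000 * (num (-80000) * (var 0 * var 1) + (num 800 * (var 0 * var 1) + num 12 * var 0) * (((num 1 - num 2 * (var 0 * var 1) - var 0) * var 1) * (num 91 + num (-34) * (var 1)) + ((num 1 - num 2 * (var 0 * var 1) - var 0) * var 1) * (num 7 + num 73 * (var 1)) * var 3) + var 0 * var 1 * var 0 * (num (-80000) + (num 45300 * (var 1) + num 2361 + num (-259200) * (var 1) * (var 0) + num (-2829) * (var 0) + num 52800 * (var 1) * (var 3) + num 36 * (var 3)))) + num (-2472) * (num 100 * (var 0 * var 1 * var 0) * (num 100 * (var 1) + num 3)))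
  wd := num 10000000
  tn := fun b => cond b
    (num 1026 * (num 3087 + num (-252) * (var 0) + num 3024 * (var 1) + num 63 * (var 3) + num 945 * (var 1) * (var 3)))
    (num 9830 * (num 147 + num (-12) * (var 0) + num 144 * (var 1) + num 3 * (var 3) + num 45 * (var 1) * (var 3)))
  td := num 100000000
  cn := num 1 - var 0 * var 1 - var 1 * (num 1 - num 2 * (var 0 * var 1))
  cd := (num 1 - num 2 * (var 0 * var 1)) * (num 1 - num 2 * (var 0 * var 1))
  kn := var 0 * var 1 * (num 780 + num 3000 * (var 1) + num (-2000) * (var 0))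
  kd := num 100
  k2n := var 0 * (num 1116 + num (-550) * (var 3) + num (-1300) * (var 1))
  k2d := num 100

/-- Its ranges. -/
def bxD10 : StripEnd.EBox :=
  ⟨(4, 5, 25), (0, 313, 1000), (30, 63, 1000), (0, 1, 1)⟩

/-- The chart `D11`. -/
def chD11 : EndChart where
  I := var 0 * var 1
  d := var 0
  w := var 0 * var 2
  den := num 100
  n₀ := ((num 1 - num 2 * (var 0 * var 1) - var 0) * var 1) * (num 82 + num (-28) * (var 1))
  n₁ := ((num 1 - num 2 * (var 0 * var 1) - var 0) * var 1) * (num 14 + num 60 * (var 1))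
  q₀ := (4, 5, 25)
  q₁ := (0, 313, 1000)
  q₂ := (63, 132, 1000)
  q₃ := (0, 1, 1)
  t₀ := (0, 1)
  t₁ := (1, 1)
  mu₀ := (185, 100)
  mu₁ := (255, 100)

/-- The piece `D11`. -/
def pcD11 : Piece where
  I := var 0 * var 1
  d := var 0
  w := var 0 * var 2
  o := (((num 1 - num 2 * (var 0 * var 1) - var 0) * var 1) * (num 82 + num (-28) * (var 1)) + ((num 1 - num 2 * (var 0 * var 1) - var 0) * var 1) * (num 14 + num 60 * (var 1)) * var 3)
  den := num 100
  vn := num 2 * var 1 * ((num 82 + num (-28) * (var 1)) + (num 14 + num 60 * (var 1)) * var 3)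
  vs := num 1
  mu := ⟨(185, 100), (255, 100)⟩
  pn := fun b => cond b
    (num 100000 * (num 100 - (((num 1 - num 2 * (var 0 * var 1) - var 0) * var 1) * (num 82 + num (-28) * (var 1)) + ((num 1 - num 2 * (var 0 * var 1) - var 0) * var 1) * (num 14 + num 60 * (var 1)) * var 3)) + num (-33660) * ((((num 1 - num 2 * (var 0 * var 1) - var 0) * var 1) * (num 82 + num (-28) * (var 1)) + ((num 1 - num 2 * (var 0 * var 1) - var 0) * var 1) * (num 14 + num 60 * (var 1)) * var 3) * var 0))
    (num 100000 * (num 100 - (((num 1 - num 2 * (var 0 * var 1) - var 0) * var 1) * (num 82 + num (-28) * (var 1)) + ((num 1 - num 2 * (var 0 * var 1) - var 0) * var 1) * (num 14 + num 60 * (var 1)) * var 3)) + num (-11655) * ((((num 1 - num 2 * (var 0 * var 1) - var 0) * var 1) * (num 82 + num (-28) * (var 1)) + ((num 1 - num 2 * (var 0 * var 1) - var 0) * var 1) * (num 14 + num 60 * (var 1)) * var 3) * var 0))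
  pd := num 100000
  en := fun b => cond b
    (num 4224 * (num 409250 * (var 0) * (var 1) + num 263750 * (var 0) * (var 0) * (var 1) + num 21087 + num 65538 * (var 0) + num (-137500) * (var 0) * (var 1) * (var 1)))
    (num 937 * (num 1637000 * (var 0) * (var 1) + num 1055000 * (var 0) * (var 0) * (var 1) + num 40257 + num 125118 * (var 0) + num (-550000) * (var 0) * (var 1) * (var 1)))
  kk := fun b => cond b
    (num 4104 * (num 17919 * (var 0) + num 81609 * (var 0) * (var 0) + num 20460 * (var 0) * (var 1) + num 264 * (var 0) * (var 3)))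
    (num 964 * (num 34209 * (var 0) + num 155799 * (var 0) * (var 0) + num 39060 * (var 0) * (var 1) + num 504 * (var 0) * (var 3)))
  f0 := num 100000000
  wn := fun b => cond b
    (num 1000 * (num (-800000) * (var 0 * var 1) + (num 8000 * (var 0 * var 1) + num 252 * var 0) * (((num 1 - num 2 * (var 0 * var 1) - var 0) * var 1) * (num 82 + num (-28) * (var 1)) + ((num 1 - num 2 * (var 0 * var 1) - var 0) * var 1) * (num 14 + num 60 * (var 1)) * var 3) + var 0 * var 1 * var 0 * (num (-800000) + (num 347000 * (var 1) + num 42273 + num (-2562000) * (var 1) * (var 0) + num (-57519) * (var 0) + num 688000 * (var 1) * (var 3) + num 7371 * (var 3)))) + num (-833) * (num 100 * (var 0 * var 1 * var 0) * (num 1000 * (var 1) + num 63)))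
    (num 1000 * (num (-800000) * (var 0 * var 1) + (num 8000 * (var 0 * var 1) + num 252 * var 0) * (((num 1 - num 2 * (var 0 * var 1) - var 0) * var 1) * (num 82 + num (-28) * (var 1)) + ((num 1 - num 2 * (var 0 * var 1) - var 0) * var 1) * (num 14 + num 60 * (var 1)) * var 3) + var 0 * var 1 * var 0 * (num (-800000) + (num 347000 * (var 1) + num 42273 + num (-2562000) * (var 1) * (var 0) + num (-57519) * (var 0) + num 688000 * (var 1) * (var 3) + num 7371 * (var 3)))) + num (-2577) * (num 100 * (var 0 * var 1 * var 0) * (num 1000 * (var 1) + num 63)))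
  wd := num 100000000
  tn := fun b => cond b
    (num 4028 * (num 1584 + num (-132) * (var 0) + num 1419 * (var 1) + num 66 * (var 3) + num 495 * (var 1) * (var 3)))
    (num 975 * (num 3024 + num (-252) * (var 0) + num 2709 * (var 1) + num 126 * (var 3) + num 945 * (var 1) * (var 3)))
  td := num 100000000
  cn := num 1 - var 0 * var 1 - var 1 * (num 1 - num 2 * (var 0 * var 1))
  cd := (num 1 - num 2 * (var 0 * var 1)) * (num 1 - num 2 * (var 0 * var 1))
  kn := var 0 * var 1 * (num 424 + num 4000 * (var 1))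
  kd := num 100
  k2n := var 0 * (num 1226 + num (-650) * (var 3) + num (-1500) * (var 1))
  k2d := num 100

/-- Its ranges. -/
def bxD11 : StripEnd.EBox :=
  ⟨(4, 5, 25), (0, 313, 1000), (63, 132, 1000), (0, 1, 1)⟩

/-- The chart `D12`. -/
def chD12 : EndChart where
  I := var 0 * var 1
  d := var 0
  w := var 0 * var 2
  den := num 100
  n₀ := ((num 1 - num 2 * (var 0 * var 1) - var 0) * var 1) * (num 69 + num (-23) * (var 1))
  n₁ := ((num 1 - num 2 * (var 0 * var 1) - var 0) * var 1) * (num 22 + num 48 * (var 1))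
  q₀ := (4, 5, 25)
  q₁ := (0, 313, 1000)
  q₂ := (132, 277, 1000)
  q₃ := (0, 1, 1)
  t₀ := (0, 1)
  t₁ := (1, 1)
  mu₀ := (177, 100)
  mu₁ := (253, 100)

/-- The piece `D12`. -/
def pcD12 : Piece where
  I := var 0 * var 1
  d := var 0
  w := var 0 * var 2
  o := (((num 1 - num 2 * (var 0 * var 1) - var 0) * var 1) * (num 69 + num (-23) * (var 1)) + ((num 1 - num 2 * (var 0 * var 1) - var 0) * var 1) * (num 22 + num 48 * (var 1)) * var 3)
  den := num 100
  vn := num 2 * var 1 * ((num 69 + num (-23) * (var 1)) + (num 22 + num 48 * (var 1)) * var 3)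
  vs := num 1
  mu := ⟨(177, 100), (253, 100)⟩
  pn := fun b => cond b
    (num 100000 * (num 100 - (((num 1 - num 2 * (var 0 * var 1) - var 0) * var 1) * (num 69 + num (-23) * (var 1)) + ((num 1 - num 2 * (var 0 * var 1) - var 0) * var 1) * (num 22 + num 48 * (var 1)) * var 3)) + num (-70081) * ((((num 1 - num 2 * (var 0 * var 1) - var 0) * var 1) * (num 69 + num (-23) * (var 1)) + ((num 1 - num 2 * (var 0 * var 1) - var 0) * var 1) * (num 22 + num 48 * (var 1)) * var 3) * var 0))
    (num 100000 * (num 100 - (((num 1 - num 2 * (var 0 * var 1) - var 0) * var 1) * (num 69 + num (-23) * (var 1)) + ((num 1 - num 2 * (var 0 * var 1) - var 0) * var 1) * (num 22 + num 48 * (var 1)) * var 3)) + num (-23364) * ((((num 1 - num 2 * (var 0 * var 1) - var 0) * var 1) * (num 69 + num (-23) * (var 1)) + ((num 1 - num 2 * (var 0 * var 1) - var 0) * var 1) * (num 22 + num 48 * (var 1)) * var 3) * var 0))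
  pd := num 100000
  en := fun b => cond b
    (num 1062 * (num 1747000 * (var 0) * (var 1) + num 2102000 * (var 0) * (var 0) * (var 1) + num 177003 + num 552338 * (var 0) + num (-337000) * (var 0) * (var 1) * (var 1)))
    (num 3732 * (num 436750 * (var 0) * (var 1) + num 525500 * (var 0) * (var 0) * (var 1) + num 21087 + num 65802 * (var 0) + num (-84250) * (var 0) * (var 1) * (var 1)))
  kk := fun b => cond b
    (num 1026 * (num 151242 * (var 0) + num 679758 * (var 0) * (var 0) + num 163153 * (var 0) * (var 1) + num 2216 * (var 0) * (var 3)))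
    (num 3856 * (num 18018 * (var 0) + num 80982 * (var 0) * (var 0) + num 19437 * (var 0) * (var 1) + num 264 * (var 0) * (var 3)))
  f0 := num 100000000
  wn := fun b => cond b
    (num 1000 * (num (-200000) * (var 0 * var 1) + (num 2000 * (var 0 * var 1) + num 132 * var 0) * (((num 1 - num 2 * (var 0 * var 1) - var 0) * var 1) * (num 69 + num (-23) * (var 1)) + ((num 1 - num 2 * (var 0 * var 1) - var 0) * var 1) * (num 22 + num 48 * (var 1)) * var 3) + var 0 * var 1 * var 0 * (num (-200000) + (num 48250 * (var 1) + num 16962 + num (-613750) * (var 1) * (var 0) + num (-30096) * (var 0) + num 225750 * (var 1) * (var 3) + num 8118 * (var 3)))) + num (-1036) * (num 100 * (var 0 * var 1 * var 0) * (num 250 * (var 1) + num 33)))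
    (num 1000 * (num (-200000) * (var 0 * var 1) + (num 2000 * (var 0 * var 1) + num 132 * var 0) * (((num 1 - num 2 * (var 0 * var 1) - var 0) * var 1) * (num 69 + num (-23) * (var 1)) + ((num 1 - num 2 * (var 0 * var 1) - var 0) * var 1) * (num 22 + num 48 * (var 1)) * var 3) + var 0 * var 1 * var 0 * (num (-200000) + (num 48250 * (var 1) + num 16962 + num (-613750) * (var 1) * (var 0) + num (-30096) * (var 0) + num 225750 * (var 1) * (var 3) + num 8118 * (var 3)))) + num (-3094) * (num 100 * (var 0 * var 1 * var 0) * (num 250 * (var 1) + num 33)))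
  wd := num 25000000
  tn := fun b => cond b
    (num 1019 * (num 12465 + num (-1108) * (var 0) + num 9141 * (var 1) + num 831 * (var 3) + num 4709 * (var 1) * (var 3)))
    (num 3960 * (num 1485 + num (-132) * (var 0) + num 1089 * (var 1) + num 99 * (var 3) + num 561 * (var 1) * (var 3)))
  td := num 100000000
  cn := num 1 - var 0 * var 1 - var 1 * (num 1 - num 2 * (var 0 * var 1))
  cd := (num 1 - num 2 * (var 0 * var 1)) * (num 1 - num 2 * (var 0 * var 1))
  kn := var 0 * var 1 * (num 416 + num 5000 * (var 1))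
  kd := num 100
  k2n := var 0 * (num 1298 + num (-700) * (var 3) + num (-1700) * (var 1))
  k2d := num 100

/-- Its ranges. -/
def bxD12 : StripEnd.EBox :=
  ⟨(4, 5, 25), (0, 313, 1000), (132, 277, 1000), (0, 1, 1)⟩

/-- The chart `D13`. -/
def chD13 : EndChart where
  I := var 0 * var 1
  d := var 0
  w := var 0 * var 2
  den := num 100
  n₀ := ((num 1 - num 2 * (var 0 * var 1) - var 0) * var 1) * (num 55 + num (-16) * (var 1))
  n₁ := ((num 1 - num 2 * (var 0 * var 1) - var 0) * var 1) * (num 28 + num 31 * (var 1))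
  q₀ := (4, 5, 25)
  q₁ := (0, 313, 1000)
  q₂ := (277, 499, 1000)
  q₃ := (0, 1, 1)
  t₀ := (0, 1)
  t₁ := (1, 1)
  mu₀ := (164, 100)
  mu₁ := (252, 100)

/-- The piece `D13`. -/
def pcD13 : Piece where
  I := var 0 * var 1
  d := var 0
  w := var 0 * var 2
  o := (((num 1 - num 2 * (var 0 * var 1) - var 0) * var 1) * (num 55 + num (-16) * (var 1)) + ((num 1 - num 2 * (var 0 * var 1) - var 0) * var 1) * (num 28 + num 31 * (var 1)) * var 3)
  den := num 100
  vn := num 2 * var 1 * ((num 55 + num (-16) * (var 1)) + (num 28 + num 31 * (var 1)) * var 3)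
  vs := num 1
  mu := ⟨(164, 100), (252, 100)⟩
  pn := fun b => cond b
    (num 100000 * (num 100 - (((num 1 - num 2 * (var 0 * var 1) - var 0) * var 1) * (num 55 + num (-16) * (var 1)) + ((num 1 - num 2 * (var 0 * var 1) - var 0) * var 1) * (num 28 + num 31 * (var 1)) * var 3)) + num (-125748) * ((((num 1 - num 2 * (var 0 * var 1) - var 0) * var 1) * (num 55 + num (-16) * (var 1)) + ((num 1 - num 2 * (var 0 * var 1) - var 0) * var 1) * (num 28 + num 31 * (var 1)) * var 3) * var 0))
    (num 100000 * (num 100 - (((num 1 - num 2 * (var 0 * var 1) - var 0) * var 1) * (num 55 + num (-16) * (var 1)) + ((num 1 - num 2 * (var 0 * var 1) - var 0) * var 1) * (num 28 + num 31 * (var 1)) * var 3)) + num (-45428) * ((((num 1 - num 2 * (var 0 * var 1) - var 0) * var 1) * (num 55 + num (-16) * (var 1)) + ((num 1 - num 2 * (var 0 * var 1) - var 0) * var 1) * (num 28 + num 31 * (var 1)) * var 3) * var 0))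
  pd := num 100000
  en := fun b => cond b
    (num 1060 * (num 2233000 * (var 0) * (var 1) + num 3014000 * (var 0) * (var 0) * (var 1) + num 314370 + num 1011473 * (var 0) + num (-416000) * (var 0) * (var 1) * (var 1)))
    (num 945 * (num 2233000 * (var 0) * (var 1) + num 3014000 * (var 0) * (var 0) * (var 1) + num 174510 + num 561479 * (var 0) + num (-416000) * (var 0) * (var 1) * (var 1)))
  kk := fun b => cond b
    (num 1024 * (num 274949 * (var 0) + num 1212071 * (var 0) * (var 0) + num 273452 * (var 0) * (var 1) + num 3992 * (var 0) * (var 3)))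
    (num 965 * (num 152627 * (var 0) + num 672833 * (var 0) * (var 0) + num 151796 * (var 0) * (var 1) + num 2216 * (var 0) * (var 3)))
  f0 := num 100000000
  wn := fun b => cond b
    (num 1000 * (num (-800000) * (var 0 * var 1) + (num 8000 * (var 0 * var 1) + num 1108 * var 0) * (((num 1 - num 2 * (var 0 * var 1) - var 0) * var 1) * (num 55 + num (-16) * (var 1)) + ((num 1 - num 2 * (var 0 * var 1) - var 0) * var 1) * (num 28 + num 31 * (var 1)) * var 3) + var 0 * var 1 * var 0 * (num (-800000) + (num 32000 * (var 1) + num 90302 + num (-2540000) * (var 1) * (var 0) + num (-252070) * (var 0) + num 1242000 * (var 1) * (var 3) + num 108307 * (var 3)))) + num (-738) * (num 100 * (var 0 * var 1 * var 0) * (num 1000 * (var 1) + num 277)))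
    (num 1000 * (num (-800000) * (var 0 * var 1) + (num 8000 * (var 0 * var 1) + num 1108 * var 0) * (((num 1 - num 2 * (var 0 * var 1) - var 0) * var 1) * (num 55 + num (-16) * (var 1)) + ((num 1 - num 2 * (var 0 * var 1) - var 0) * var 1) * (num 28 + num 31 * (var 1)) * var 3) + var 0 * var 1 * var 0 * (num (-800000) + (num 32000 * (var 1) + num 90302 + num (-2540000) * (var 1) * (var 0) + num (-252070) * (var 0) + num 1242000 * (var 1) * (var 3) + num 108307 * (var 3)))) + num (-3055) * (num 100 * (var 0 * var 1 * var 0) * (num 1000 * (var 1) + num 277)))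
  wd := num 100000000
  tn := fun b => cond b
    (num 1002 * (num 20958 + num (-998) * (var 0) + num 11976 * (var 1) + num 1497 * (var 3) + num 7485 * (var 1) * (var 3)))
    (num 994 * (num 11634 + num (-554) * (var 0) + num 6648 * (var 1) + num 831 * (var 3) + num 4155 * (var 1) * (var 3)))
  td := num 100000000
  cn := num 1 - var 0 * var 1 - var 1 * (num 1 - num 2 * (var 0 * var 1))
  cd := (num 1 - num 2 * (var 0 * var 1)) * (num 1 - num 2 * (var 0 * var 1))
  kn := var 0 * var 1 * (num 563 + num 3500 * (var 1))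
  kd := num 100
  k2n := var 0 * (num 1224 + num (-650) * (var 3) + num (-1700) * (var 1))
  k2d := num 100

/-- Its ranges. -/
def bxD13 : StripEnd.EBox :=
  ⟨(4, 5, 25), (0, 313, 1000), (277, 499, 1000), (0, 1, 1)⟩

/-- The chart `D14`. -/
def chD14 : EndChart where
  I := var 0 * var 1
  d := var 0
  w := var 0 * var 2
  den := num 100
  n₀ := ((num 1 - num 2 * (var 0 * var 1) - var 0) * var 1) * (num 43 + num (-10) * (var 1))
  n₁ := ((num 1 - num 2 * (var 0 * var 1) - var 0) * var 1) * (num 31 + num 15 * (var 1))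
  q₀ := (4, 5, 25)
  q₁ := (0, 313, 1000)
  q₂ := (499, 798, 1000)
  q₃ := (0, 1, 1)
  t₀ := (0, 1)
  t₁ := (1, 1)
  mu₀ := (148, 100)
  mu₁ := (249, 100)

/-- The piece `D14`. -/
def pcD14 : Piece where
  I := var 0 * var 1
  d := var 0
  w := var 0 * var 2
  o := (((num 1 - num 2 * (var 0 * var 1) - var 0) * var 1) * (num 43 + num (-10) * (var 1)) + ((num 1 - num 2 * (var 0 * var 1) - var 0) * var 1) * (num 31 + num 15 * (var 1)) * var 3)
  den := num 100
  vn := num 2 * var 1 * ((num 43 + num (-10) * (var 1)) + (num 31 + num 15 * (var 1)) * var 3)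
  vs := num 1
  mu := ⟨(148, 100), (249, 100)⟩
  pn := fun b => cond b
    (num 100000 * (num 100 - (((num 1 - num 2 * (var 0 * var 1) - var 0) * var 1) * (num 43 + num (-10) * (var 1)) + ((num 1 - num 2 * (var 0 * var 1) - var 0) * var 1) * (num 31 + num 15 * (var 1)) * var 3)) + num (-198702) * ((((num 1 - num 2 * (var 0 * var 1) - var 0) * var 1) * (num 43 + num (-10) * (var 1)) + ((num 1 - num 2 * (var 0 * var 1) - var 0) * var 1) * (num 31 + num 15 * (var 1)) * var 3) * var 0))
    (num 100000 * (num 100 - (((num 1 - num 2 * (var 0 * var 1) - var 0) * var 1) * (num 43 + num (-10) * (var 1)) + ((num 1 - num 2 * (var 0 * var 1) - var 0) * var 1) * (num 31 + num 15 * (var 1)) * var 3)) + num (-73852) * ((((num 1 - num 2 * (var 0 * var 1) - var 0) * var 1) * (num 43 + num (-10) * (var 1)) + ((num 1 - num 2 * (var 0 * var 1) - var 0) * var 1) * (num 31 + num 15 * (var 1)) * var 3) * var 0))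
  pd := num 100000
  en := fun b => cond b
    (num 2104 * (num 1520000 * (var 0) * (var 1) + num 1877000 * (var 0) * (var 0) * (var 1) + num 248976 + num 817950 * (var 0) + num (-394000) * (var 0) * (var 1) * (var 1)))
    (num 950 * (num 3040000 * (var 0) * (var 1) + num 3754000 * (var 0) * (var 0) * (var 1) + num 311376 + num 1022950 * (var 0) + num (-788000) * (var 0) * (var 1) * (var 1)))
  kk := fun b => cond b
    (num 2044 * (num 221844 * (var 0) + num 959994 * (var 0) * (var 0) + num 203091 * (var 0) * (var 1) + num 2793 * (var 0) * (var 3)))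
    (num 967 * (num 277444 * (var 0) + num 1200594 * (var 0) * (var 0) + num 253991 * (var 0) * (var 1) + num 3493 * (var 0) * (var 3)))
  f0 := num 100000000
  wn := fun b => cond b
    (num 1000 * (num (-800000) * (var 0 * var 1) + (num 8000 * (var 0 * var 1) + num 1996 * var 0) * (((num 1 - num 2 * (var 0 * var 1) - var 0) * var 1) * (num 43 + num (-10) * (var 1)) + ((num 1 - num 2 * (var 0 * var 1) - var 0) * var 1) * (num 31 + num 15 * (var 1)) * var 3) + var 0 * var 1 * var 0 * (num (-800000) + (num (-107000) * (var 1) + num 80838 + num (-2731000) * (var 1) * (var 0) + num (-494509) * (var 0) + num 1566000 * (var 1) * (var 3) + num 269460 * (var 3)))) + num (-430) * (num 100 * (var 0 * var 1 * var 0) * (num 1000 * (var 1) + num 499)))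
    (num 1000 * (num (-800000) * (var 0 * var 1) + (num 8000 * (var 0 * var 1) + num 1996 * var 0) * (((num 1 - num 2 * (var 0 * var 1) - var 0) * var 1) * (num 43 + num (-10) * (var 1)) + ((num 1 - num 2 * (var 0 * var 1) - var 0) * var 1) * (num 31 + num 15 * (var 1)) * var 3) + var 0 * var 1 * var 0 * (num (-800000) + (num (-107000) * (var 1) + num 80838 + num (-2731000) * (var 1) * (var 0) + num (-494509) * (var 0) + num 1566000 * (var 1) * (var 3) + num 269460 * (var 3)))) + num (-2920) * (num 100 * (var 0 * var 1 * var 0) * (num 1000 * (var 1) + num 499)))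
  wd := num 100000000
  tn := fun b => cond b
    (num 1986 * (num 15162 + num 399 * (var 0) + num 6783 * (var 1) + num 1197 * (var 3) + num 3990 * (var 1) * (var 3)))
    (num 1002 * (num 18962 + num 499 * (var 0) + num 8483 * (var 1) + num 1497 * (var 3) + num 4990 * (var 1) * (var 3)))
  td := num 100000000
  cn := num 1 - var 0 * var 1 - var 1 * (num 1 - num 2 * (var 0 * var 1))
  cd := (num 1 - num 2 * (var 0 * var 1)) * (num 1 - num 2 * (var 0 * var 1))
  kn := var 0 * var 1 * (num 736 + num 2000 * (var 1))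
  kd := num 100
  k2n := var 0 * (num 1232 + num (-650) * (var 3) + num (-1600) * (var 1))
  k2d := num 100

/-- Its ranges. -/
def bxD14 : StripEnd.EBox :=
  ⟨(4, 5, 25), (0, 313, 1000), (499, 798, 1000), (0, 1, 1)⟩

/-- The chart `D15`. -/
def chD15 : EndChart where
  I := var 0 * var 1
  d := var 0
  w := var 0 * var 2
  den := num 100
  n₀ := ((num 1 - num 2 * (var 0 * var 1) - var 0) * var 1) * (num 37 + num (-7) * (var 1))
  n₁ := ((num 1 - num 2 * (var 0 * var 1) - var 0) * var 1) * (num 27 + num 11 * (var 1))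
  q₀ := (4, 5, 25)
  q₁ := (0, 313, 1000)
  q₂ := (399, 500, 500)
  q₃ := (0, 1, 1)
  t₀ := (0, 1)
  t₁ := (1, 1)
  mu₀ := (138, 100)
  mu₁ := (246, 100)

/-- The piece `D15`. -/
def pcD15 : Piece where
  I := var 0 * var 1
  d := var 0
  w := var 0 * var 2
  o := (((num 1 - num 2 * (var 0 * var 1) - var 0) * var 1) * (num 37 + num (-7) * (var 1)) + ((num 1 - num 2 * (var 0 * var 1) - var 0) * var 1) * (num 27 + num 11 * (var 1)) * var 3)
  den := num 100
  vn := num 2 * var 1 * ((num 37 + num (-7) * (var 1)) + (num 27 + num 11 * (var 1)) * var 3)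
  vs := num 1
  mu := ⟨(138, 100), (246, 100)⟩
  pn := fun b => cond b
    (num 50000 * (num 100 - (((num 1 - num 2 * (var 0 * var 1) - var 0) * var 1) * (num 37 + num (-7) * (var 1)) + ((num 1 - num 2 * (var 0 * var 1) - var 0) * var 1) * (num 27 + num 11 * (var 1)) * var 3)) + num (-123000) * ((((num 1 - num 2 * (var 0 * var 1) - var 0) * var 1) * (num 37 + num (-7) * (var 1)) + ((num 1 - num 2 * (var 0 * var 1) - var 0) * var 1) * (num 27 + num 11 * (var 1)) * var 3) * var 0))
    (num 50000 * (num 100 - (((num 1 - num 2 * (var 0 * var 1) - var 0) * var 1) * (num 37 + num (-7) * (var 1)) + ((num 1 - num 2 * (var 0 * var 1) - var 0) * var 1) * (num 27 + num 11 * (var 1)) * var 3)) + num (-55062) * ((((num 1 - num 2 * (var 0 * var 1) - var 0) * var 1) * (num 37 + num (-7) * (var 1)) + ((num 1 - num 2 * (var 0 * var 1) - var 0) * var 1) * (num 27 + num 11 * (var 1)) * var 3) * var 0))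
  pd := num 50000
  en := fun b => cond b
    (num 516000 * (num 4404 * (var 0) * (var 1) + num 2658 * (var 0) * (var 0) * (var 1) + num 617 + num 2076 * (var 0) + num (-1831) * (var 0) * (var 1) * (var 1)))
    (num 968 * (num 2202000 * (var 0) * (var 1) + num 1329000 * (var 0) * (var 0) * (var 1) + num 246183 + num 828324 * (var 0) + num (-915500) * (var 0) * (var 1) * (var 1)))
  kk := fun b => cond b
    (num 510000 * (num 560 * (var 0) + num 2391 * (var 0) * (var 0) + num 482 * (var 0) * (var 1) + num 5 * (var 0) * (var 3)))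
    (num 969 * (num 223440 * (var 0) + num 954009 * (var 0) * (var 0) + num 192318 * (var 0) * (var 1) + num 1995 * (var 0) * (var 3)))
  f0 := num 50000000
  wn := fun b => cond b
    (num 1000 * (num (-400000) * (var 0 * var 1) + (num 4000 * (var 0 * var 1) + num 1596 * var 0) * (((num 1 - num 2 * (var 0 * var 1) - var 0) * var 1) * (num 37 + num (-7) * (var 1)) + ((num 1 - num 2 * (var 0 * var 1) - var 0) * var 1) * (num 27 + num 11 * (var 1)) * var 3) + var 0 * var 1 * var 0 * (num (-400000) + (num 9000 * (var 1) + num 29127 + num (-1841000) * (var 1) * (var 0) + num (-454062) * (var 0) + num 912500 * (var 1) * (var 3) + num 239799 * (var 3)))) + num (-6) * (num 100 * (var 0 * var 1 * var 0) * (num 500 * (var 1) + num 399)))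
    (num 1000 * (num (-400000) * (var 0 * var 1) + (num 4000 * (var 0 * var 1) + num 1596 * var 0) * (((num 1 - num 2 * (var 0 * var 1) - var 0) * var 1) * (num 37 + num (-7) * (var 1)) + ((num 1 - num 2 * (var 0 * var 1) - var 0) * var 1) * (num 27 + num 11 * (var 1)) * var 3) + var 0 * var 1 * var 0 * (num (-400000) + (num 9000 * (var 1) + num 29127 + num (-1841000) * (var 1) * (var 0) + num (-454062) * (var 0) + num 912500 * (var 1) * (var 3) + num 239799 * (var 3)))) + num (-2629) * (num 100 * (var 0 * var 1 * var 0) * (num 500 * (var 1) + num 399)))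
  wd := num 50000000
  tn := fun b => cond b
    (num 490500 * (num 35 + num 8 * (var 0) + num 13 * (var 1) + num 1 * (var 3) + num 7 * (var 1) * (var 3)))
    (num 996 * (num 13965 + num 3192 * (var 0) + num 5187 * (var 1) + num 399 * (var 3) + num 2793 * (var 1) * (var 3)))
  td := num 50000000
  cn := num 1 - var 0 * var 1 - var 1 * (num 1 - num 2 * (var 0 * var 1))
  cd := (num 1 - num 2 * (var 0 * var 1)) * (num 1 - num 2 * (var 0 * var 1))
  kn := var 0 * var 1 * (num 776 + num 1500 * (var 1))
  kd := num 100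
  k2n := var 0 * (num 1043 + num (-500) * (var 3) + num (-1500) * (var 1))
  k2d := num 100

/-- Its ranges. -/
def bxD15 : StripEnd.EBox :=
  ⟨(4, 5, 25), (0, 313, 1000), (399, 500, 500), (0, 1, 1)⟩

/-- The chart `D16`. -/
def chD16 : EndChart where
  I := var 0 * var 1
  d := var 0
  w := var 0 * var 2
  den := num 100
  n₀ := ((num 1 - num 2 * (var 0 * var 1) - var 0) * var 1) * (num 91 + num (-26) * (var 1))
  n₁ := ((num 1 - num 2 * (var 0 * var 1) - var 0) * var 1) * (num 7 + num 74 * (var 1))
  q₀ := (5, 6, 25)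
  q₁ := (0, 1, 4)
  q₂ := (30, 63, 1000)
  q₃ := (0, 1, 1)
  t₀ := (0, 1)
  t₁ := (1, 1)
  mu₀ := (190, 100)
  mu₁ := (258, 100)

/-- The piece `D16`. -/
def pcD16 : Piece where
  I := var 0 * var 1
  d := var 0
  w := var 0 * var 2
  o := (((num 1 - num 2 * (var 0 * var 1) - var 0) * var 1) * (num 91 + num (-26) * (var 1)) + ((num 1 - num 2 * (var 0 * var 1) - var 0) * var 1) * (num 7 + num 74 * (var 1)) * var 3)
  den := num 100
  vn := num 2 * var 1 * ((num 91 + num (-26) * (var 1)) + (num 7 + num 74 * (var 1)) * var 3)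
  vs := num 1
  mu := ⟨(190, 100), (258, 100)⟩
  pn := fun b => cond b
    (num 100000 * (num 100 - (((num 1 - num 2 * (var 0 * var 1) - var 0) * var 1) * (num 91 + num (-26) * (var 1)) + ((num 1 - num 2 * (var 0 * var 1) - var 0) * var 1) * (num 7 + num 74 * (var 1)) * var 3)) + num (-16254) * ((((num 1 - num 2 * (var 0 * var 1) - var 0) * var 1) * (num 91 + num (-26) * (var 1)) + ((num 1 - num 2 * (var 0 * var 1) - var 0) * var 1) * (num 7 + num 74 * (var 1)) * var 3) * var 0))
    (num 100000 * (num 100 - (((num 1 - num 2 * (var 0 * var 1) - var 0) * var 1) * (num 91 + num (-26) * (var 1)) + ((num 1 - num 2 * (var 0 * var 1) - var 0) * var 1) * (num 7 + num 74 * (var 1)) * var 3)) + num (-5700) * ((((num 1 - num 2 * (var 0 * var 1) - var 0) * var 1) * (num 91 + num (-26) * (var 1)) + ((num 1 - num 2 * (var 0 * var 1) - var 0) * var 1) * (num 7 + num 74 * (var 1)) * var 3) * var 0))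
  pd := num 100000
  en := fun b => cond b
    (num 1045 * (num 1646000 * (var 0) * (var 1) + num 30000 * (var 0) * (var 0) * (var 1) + num 46809 + num 92862 * (var 0) + num (-580000) * (var 0) * (var 1) * (var 1)))
    (num 9560 * (num 164600 * (var 0) * (var 1) + num 3000 * (var 0) * (var 0) * (var 1) + num 2229 + num 4422 * (var 0) + num (-58000) * (var 0) * (var 1) * (var 1)))
  kk := fun b => cond b
    (num 1020 * (num 40950 * (var 0) + num 117495 * (var 0) * (var 0) + num 52416 * (var 0) * (var 1) + num 378 * (var 0) * (var 3)))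
    (num 9710 * (num 1950 * (var 0) + num 5595 * (var 0) * (var 0) + num 2496 * (var 0) * (var 1) + num 18 * (var 0) * (var 3)))
  f0 := num 100000000
  wn := fun b => cond b
    (num 1000 * (num (-80000) * (var 0 * var 1) + (num 800 * (var 0 * var 1) + num 12 * var 0) * (((num 1 - num 2 * (var 0 * var 1) - var 0) * var 1) * (num 91 + num (-26) * (var 1)) + ((num 1 - num 2 * (var 0 * var 1) - var 0) * var 1) * (num 7 + num 74 * (var 1)) * var 3) + var 0 * var 1 * var 0 * (num (-80000) + (num 51400 * (var 1) + num 2340 + num (-268500) * (var 1) * (var 0) + num (-2760) * (var 0) + num 48400 * (var 1) * (var 3) + num 66 * (var 3)))) + num (-213) * (num 100 * (var 0 * var 1 * var 0) * (num 100 * (var 1) + num 3)))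
    (num 1000 * (num (-80000) * (var 0 * var 1) + (num 800 * (var 0 * var 1) + num 12 * var 0) * (((num 1 - num 2 * (var 0 * var 1) - var 0) * var 1) * (num 91 + num (-26) * (var 1)) + ((num 1 - num 2 * (var 0 * var 1) - var 0) * var 1) * (num 7 + num 74 * (var 1)) * var 3) + var 0 * var 1 * var 0 * (num (-80000) + (num 51400 * (var 1) + num 2340 + num (-268500) * (var 1) * (var 0) + num (-2760) * (var 0) + num 48400 * (var 1) * (var 3) + num 66 * (var 3)))) + num (-2143) * (num 100 * (var 0 * var 1 * var 0) * (num 100 * (var 1) + num 3)))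
  wd := num 10000000
  tn := fun b => cond b
    (num 1012 * (num 3087 + num (-189) * (var 0) + num 3087 * (var 1) + num 63 * (var 3) + num 693 * (var 1) * (var 3)))
    (num 9870 * (num 147 + num (-9) * (var 0) + num 147 * (var 1) + num 3 * (var 3) + num 33 * (var 1) * (var 3)))
  td := num 100000000
  cn := num 1 - var 0 * var 1 - var 1 * (num 1 - num 2 * (var 0 * var 1))
  cd := (num 1 - num 2 * (var 0 * var 1)) * (num 1 - num 2 * (var 0 * var 1))
  kn := var 0 * var 1 * (num 881 + num 2500 * (var 1) + num (-2000) * (var 0))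
  kd := num 100
  k2n := var 0 * (num 1161 + num (-600) * (var 3) + num (-1600) * (var 1))
  k2d := num 100

/-- Its ranges. -/
def bxD16 : StripEnd.EBox :=
  ⟨(5, 6, 25), (0, 1, 4), (30, 63, 1000), (0, 1, 1)⟩

/-- The chart `D17`. -/
def chD17 : EndChart where
  I := var 0 * var 1
  d := var 0
  w := var 0 * var 2
  den := num 100
  n₀ := ((num 1 - num 2 * (var 0 * var 1) - var 0) * var 1) * (num 83 + num (-25) * (var 1))
  n₁ := ((num 1 - num 2 * (var 0 * var 1) - var 0) * var 1) * (num 14 + num 63 * (var 1))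
  q₀ := (5, 6, 25)
  q₁ := (0, 1, 4)
  q₂ := (63, 132, 1000)
  q₃ := (0, 1, 1)
  t₀ := (0, 1)
  t₁ := (1, 1)
  mu₀ := (185, 100)
  mu₁ := (257, 100)

/-- The piece `D17`. -/
def pcD17 : Piece where
  I := var 0 * var 1
  d := var 0
  w := var 0 * var 2
  o := (((num 1 - num 2 * (var 0 * var 1) - var 0) * var 1) * (num 83 + num (-25) * (var 1)) + ((num 1 - num 2 * (var 0 * var 1) - var 0) * var 1) * (num 14 + num 63 * (var 1)) * var 3)
  den := num 100
  vn := num 2 * var 1 * ((num 83 + num (-25) * (var 1)) + (num 14 + num 63 * (var 1)) * var 3)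
  vs := num 1
  mu := ⟨(185, 100), (257, 100)⟩
  pn := fun b => cond b
    (num 100000 * (num 100 - (((num 1 - num 2 * (var 0 * var 1) - var 0) * var 1) * (num 83 + num (-25) * (var 1)) + ((num 1 - num 2 * (var 0 * var 1) - var 0) * var 1) * (num 14 + num 63 * (var 1)) * var 3)) + num (-33924) * ((((num 1 - num 2 * (var 0 * var 1) - var 0) * var 1) * (num 83 + num (-25) * (var 1)) + ((num 1 - num 2 * (var 0 * var 1) - var 0) * var 1) * (num 14 + num 63 * (var 1)) * var 3) * var 0))
    (num 100000 * (num 100 - (((num 1 - num 2 * (var 0 * var 1) - var 0) * var 1) * (num 83 + num (-25) * (var 1)) + ((num 1 - num 2 * (var 0 * var 1) - var 0) * var 1) * (num 14 + num 63 * (var 1)) * var 3)) + num (-11655) * ((((num 1 - num 2 * (var 0 * var 1) - var 0) * var 1) * (num 83 + num (-25) * (var 1)) + ((num 1 - num 2 * (var 0 * var 1) - var 0) * var 1) * (num 14 + num 63 * (var 1)) * var 3) * var 0))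
  pd := num 100000
  en := fun b => cond b
    (num 4204 * (num 428250 * (var 0) * (var 1) + num 103750 * (var 0) * (var 0) * (var 1) + num 24585 + num 48675 * (var 0) + num (-105250) * (var 0) * (var 1) * (var 1)))
    (num 947 * (num 1713000 * (var 0) * (var 1) + num 415000 * (var 0) * (var 0) * (var 1) + num 46935 + num 92925 * (var 0) + num (-421000) * (var 0) * (var 1) * (var 1)))
  kk := fun b => cond b
    (num 4080 * (num 21516 * (var 0) + num 61281 * (var 0) * (var 0) + num 26664 * (var 0) * (var 1) + num 231 * (var 0) * (var 3)))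
    (num 970 * (num 41076 * (var 0) + num 116991 * (var 0) * (var 0) + num 50904 * (var 0) * (var 1) + num 441 * (var 0) * (var 3)))
  f0 := num 100000000
  wn := fun b => cond b
    (num 1000 * (num (-800000) * (var 0 * var 1) + (num 8000 * (var 0 * var 1) + num 252 * var 0) * (((num 1 - num 2 * (var 0 * var 1) - var 0) * var 1) * (num 83 + num (-25) * (var 1)) + ((num 1 - num 2 * (var 0 * var 1) - var 0) * var 1) * (num 14 + num 63 * (var 1)) * var 3) + var 0 * var 1 * var 0 * (num (-800000) + (num 396000 * (var 1) + num 42777 + num (-2560000) * (var 1) * (var 0) + num (-58023) * (var 0) + num 648000 * (var 1) * (var 3) + num 8442 * (var 3)))) + num (-590) * (num 100 * (var 0 * var 1 * var 0) * (num 1000 * (var 1) + num 63)))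
    (num 1000 * (num (-800000) * (var 0 * var 1) + (num 8000 * (var 0 * var 1) + num 252 * var 0) * (((num 1 - num 2 * (var 0 * var 1) - var 0) * var 1) * (num 83 + num (-25) * (var 1)) + ((num 1 - num 2 * (var 0 * var 1) - var 0) * var 1) * (num 14 + num 63 * (var 1)) * var 3) + var 0 * var 1 * var 0 * (num (-800000) + (num 396000 * (var 1) + num 42777 + num (-2560000) * (var 1) * (var 0) + num (-58023) * (var 0) + num 648000 * (var 1) * (var 3) + num 8442 * (var 3)))) + num (-2474) * (num 100 * (var 0 * var 1 * var 0) * (num 1000 * (var 1) + num 63)))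
  wd := num 100000000
  tn := fun b => cond b
    (num 4032 * (num 1584 + num (-99) * (var 0) + num 1419 * (var 1) + num 66 * (var 3) + num 396 * (var 1) * (var 3)))
    (num 981 * (num 3024 + num (-189) * (var 0) + num 2709 * (var 1) + num 126 * (var 3) + num 756 * (var 1) * (var 3)))
  td := num 100000000
  cn := num 1 - var 0 * var 1 - var 1 * (num 1 - num 2 * (var 0 * var 1))
  cd := (num 1 - num 2 * (var 0 * var 1)) * (num 1 - num 2 * (var 0 * var 1))
  kn := var 0 * var 1 * (num 374 + num 4000 * (var 1))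
  kd := num 100
  k2n := var 0 * (num 1191 + num (-650) * (var 3) + num (-1800) * (var 1))
  k2d := num 100

/-- Its ranges. -/
def bxD17 : StripEnd.EBox :=
  ⟨(5, 6, 25), (0, 1, 4), (63, 132, 1000), (0, 1, 1)⟩

/-- The chart `D18`. -/
def chD18 : EndChart where
  I := var 0 * var 1
  d := var 0
  w := var 0 * var 2
  den := num 100
  n₀ := ((num 1 - num 2 * (var 0 * var 1) - var 0) * var 1) * (num 70 + num (-21) * (var 1))
  n₁ := ((num 1 - num 2 * (var 0 * var 1) - var 0) * var 1) * (num 22 + num 52 * (var 1))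
  q₀ := (5, 6, 25)
  q₁ := (0, 1, 4)
  q₂ := (132, 277, 1000)
  q₃ := (0, 1, 1)
  t₀ := (0, 1)
  t₁ := (1, 1)
  mu₀ := (175, 100)
  mu₁ := (256, 100)

/-- The piece `D18`. -/
def pcD18 : Piece where
  I := var 0 * var 1
  d := var 0
  w := var 0 * var 2
  o := (((num 1 - num 2 * (var 0 * var 1) - var 0) * var 1) * (num 70 + num (-21) * (var 1)) + ((num 1 - num 2 * (var 0 * var 1) - var 0) * var 1) * (num 22 + num 52 * (var 1)) * var 3)
  den := num 100
  vn := num 2 * var 1 * ((num 70 + num (-21) * (var 1)) + (num 22 + num 52 * (var 1)) * var 3)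
  vs := num 1
  mu := ⟨(175, 100), (256, 100)⟩
  pn := fun b => cond b
    (num 100000 * (num 100 - (((num 1 - num 2 * (var 0 * var 1) - var 0) * var 1) * (num 70 + num (-21) * (var 1)) + ((num 1 - num 2 * (var 0 * var 1) - var 0) * var 1) * (num 22 + num 52 * (var 1)) * var 3)) + num (-70912) * ((((num 1 - num 2 * (var 0 * var 1) - var 0) * var 1) * (num 70 + num (-21) * (var 1)) + ((num 1 - num 2 * (var 0 * var 1) - var 0) * var 1) * (num 22 + num 52 * (var 1)) * var 3) * var 0))
    (num 100000 * (num 100 - (((num 1 - num 2 * (var 0 * var 1) - var 0) * var 1) * (num 70 + num (-21) * (var 1)) + ((num 1 - num 2 * (var 0 * var 1) - var 0) * var 1) * (num 22 + num 52 * (var 1)) * var 3)) + num (-23100) * ((((num 1 - num 2 * (var 0 * var 1) - var 0) * var 1) * (num 70 + num (-21) * (var 1)) + ((num 1 - num 2 * (var 0 * var 1) - var 0) * var 1) * (num 22 + num 52 * (var 1)) * var 3) * var 0))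
  pd := num 100000
  en := fun b => cond b
    (num 1063 * (num 1875000 * (var 0) * (var 1) + num 1052000 * (var 0) * (var 0) * (var 1) + num 206365 + num 410237 * (var 0) + num (-171000) * (var 0) * (var 1) * (var 1)))
    (num 3768 * (num 468750 * (var 0) * (var 1) + num 263000 * (var 0) * (var 0) * (var 1) + num 24585 + num 48873 * (var 0) + num (-42750) * (var 0) * (var 1) * (var 1)))
  kk := fun b => cond b
    (num 1019 * (num 181435 * (var 0) + num 510234 * (var 0) * (var 0) + num 213013 * (var 0) * (var 1) + num 2216 * (var 0) * (var 3)))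
    (num 3880 * (num 21615 * (var 0) + num 60786 * (var 0) * (var 0) + num 25377 * (var 0) * (var 1) + num 264 * (var 0) * (var 3)))
  f0 := num 100000000
  wn := fun b => cond b
    (num 1000 * (num (-200000) * (var 0 * var 1) + (num 2000 * (var 0 * var 1) + num 132 * var 0) * (((num 1 - num 2 * (var 0 * var 1) - var 0) * var 1) * (num 70 + num (-21) * (var 1)) + ((num 1 - num 2 * (var 0 * var 1) - var 0) * var 1) * (num 22 + num 52 * (var 1)) * var 3) + var 0 * var 1 * var 0 * (num (-200000) + (num 61000 * (var 1) + num 17193 + num (-628500) * (var 1) * (var 0) + num (-29733) * (var 0) + num 218500 * (var 1) * (var 3) + num 8514 * (var 3)))) + num (-519) * (num 100 * (var 0 * var 1 * var 0) * (num 250 * (var 1) + num 33)))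
    (num 1000 * (num (-200000) * (var 0 * var 1) + (num 2000 * (var 0 * var 1) + num 132 * var 0) * (((num 1 - num 2 * (var 0 * var 1) - var 0) * var 1) * (num 70 + num (-21) * (var 1)) + ((num 1 - num 2 * (var 0 * var 1) - var 0) * var 1) * (num 22 + num 52 * (var 1)) * var 3) + var 0 * var 1 * var 0 * (num (-200000) + (num 61000 * (var 1) + num 17193 + num (-628500) * (var 1) * (var 0) + num (-29733) * (var 0) + num 218500 * (var 1) * (var 3) + num 8514 * (var 3)))) + num (-3008) * (num 100 * (var 0 * var 1 * var 0) * (num 250 * (var 1) + num 33)))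
  wd := num 25000000
  tn := fun b => cond b
    (num 1000 * (num 12742 + num (-831) * (var 0) + num 9418 * (var 1) + num 831 * (var 3) + num 4155 * (var 1) * (var 3)))
    (num 3900 * (num 1518 + num (-99) * (var 0) + num 1122 * (var 1) + num 99 * (var 3) + num 495 * (var 1) * (var 3)))
  td := num 100000000
  cn := num 1 - var 0 * var 1 - var 1 * (num 1 - num 2 * (var 0 * var 1))
  cd := (num 1 - num 2 * (var 0 * var 1)) * (num 1 - num 2 * (var 0 * var 1))
  kn := var 0 * var 1 * (num 467 + num 4000 * (var 1))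
  kd := num 100
  k2n := var 0 * (num 1288 + num (-750) * (var 3) + num (-1900) * (var 1))
  k2d := num 100

/-- Its ranges. -/
def bxD18 : StripEnd.EBox :=
  ⟨(5, 6, 25), (0, 1, 4), (132, 277, 1000), (0, 1, 1)⟩

/-- The chart `D19`. -/
def chD19 : EndChart where
  I := var 0 * var 1
  d := var 0
  w := var 0 * var 2
  den := num 100
  n₀ := ((num 1 - num 2 * (var 0 * var 1) - var 0) * var 1) * (num 59 + num (-16) * (var 1))
  n₁ := ((num 1 - num 2 * (var 0 * var 1) - var 0) * var 1) * (num 26 + num 33 * (var 1))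
  q₀ := (5, 6, 25)
  q₁ := (0, 1, 4)
  q₂ := (277, 443, 1000)
  q₃ := (0, 1, 1)
  t₀ := (0, 1)
  t₁ := (1, 1)
  mu₀ := (161, 100)
  mu₁ := (253, 100)

/-- The piece `D19`. -/
def pcD19 : Piece where
  I := var 0 * var 1
  d := var 0
  w := var 0 * var 2
  o := (((num 1 - num 2 * (var 0 * var 1) - var 0) * var 1) * (num 59 + num (-16) * (var 1)) + ((num 1 - num 2 * (var 0 * var 1) - var 0) * var 1) * (num 26 + num 33 * (var 1)) * var 3)
  den := num 100
  vn := num 2 * var 1 * ((num 59 + num (-16) * (var 1)) + (num 26 + num 33 * (var 1)) * var 3)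
  vs := num 1
  mu := ⟨(161, 100), (253, 100)⟩
  pn := fun b => cond b
    (num 100000 * (num 100 - (((num 1 - num 2 * (var 0 * var 1) - var 0) * var 1) * (num 59 + num (-16) * (var 1)) + ((num 1 - num 2 * (var 0 * var 1) - var 0) * var 1) * (num 26 + num 33 * (var 1)) * var 3)) + num (-112079) * ((((num 1 - num 2 * (var 0 * var 1) - var 0) * var 1) * (num 59 + num (-16) * (var 1)) + ((num 1 - num 2 * (var 0 * var 1) - var 0) * var 1) * (num 26 + num 33 * (var 1)) * var 3) * var 0))
    (num 100000 * (num 100 - (((num 1 - num 2 * (var 0 * var 1) - var 0) * var 1) * (num 59 + num (-16) * (var 1)) + ((num 1 - num 2 * (var 0 * var 1) - var 0) * var 1) * (num 26 + num 33 * (var 1)) * var 3)) + num (-44597) * ((((num 1 - num 2 * (var 0 * var 1) - var 0) * var 1) * (num 59 + num (-16) * (var 1)) + ((num 1 - num 2 * (var 0 * var 1) - var 0) * var 1) * (num 26 + num 33 * (var 1)) * var 3) * var 0))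
  pd := num 100000
  en := fun b => cond b
    (num 1049 * (num 2589000 * (var 0) * (var 1) + num 902000 * (var 0) * (var 0) * (var 1) + num 323390 + num 676904 * (var 0) + num (-502000) * (var 0) * (var 1) * (var 1)))
    (num 956 * (num 2589000 * (var 0) * (var 1) + num 902000 * (var 0) * (var 0) * (var 1) + num 202210 + num 423256 * (var 0) + num (-502000) * (var 0) * (var 1) * (var 1)))
  kk := fun b => cond b
    (num 1019 * (num 291937 * (var 0) + num 808475 * (var 0) * (var 0) + num 319846 * (var 0) * (var 1) + num 3101 * (var 0) * (var 3)))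
    (num 971 * (num 182543 * (var 0) + num 505525 * (var 0) * (var 0) + num 199994 * (var 0) * (var 1) + num 1939 * (var 0) * (var 3)))
  f0 := num 100000000
  wn := fun b => cond b
    (num 1000 * (num (-800000) * (var 0 * var 1) + (num 8000 * (var 0 * var 1) + num 1108 * var 0) * (((num 1 - num 2 * (var 0 * var 1) - var 0) * var 1) * (num 59 + num (-16) * (var 1)) + ((num 1 - num 2 * (var 0 * var 1) - var 0) * var 1) * (num 26 + num 33 * (var 1)) * var 3) + var 0 * var 1 * var 0 * (num (-800000) + (num 148000 * (var 1) + num 100551 + num (-2750000) * (var 1) * (var 0) + num (-250685) * (var 0) + num 1217000 * (var 1) * (var 3) + num 108307 * (var 3)))) + num (-362) * (num 100 * (var 0 * var 1 * var 0) * (num 1000 * (var 1) + num 277)))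
    (num 1000 * (num (-800000) * (var 0 * var 1) + (num 8000 * (var 0 * var 1) + num 1108 * var 0) * (((num 1 - num 2 * (var 0 * var 1) - var 0) * var 1) * (num 59 + num (-16) * (var 1)) + ((num 1 - num 2 * (var 0 * var 1) - var 0) * var 1) * (num 26 + num 33 * (var 1)) * var 3) + var 0 * var 1 * var 0 * (num (-800000) + (num 148000 * (var 1) + num 100551 + num (-2750000) * (var 1) * (var 0) + num (-250685) * (var 0) + num 1217000 * (var 1) * (var 3) + num 108307 * (var 3)))) + num (-2621) * (num 100 * (var 0 * var 1 * var 0) * (num 1000 * (var 1) + num 277)))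
  wd := num 100000000
  tn := fun b => cond b
    (num 996 * (num 19049 + num 11518 * (var 1) + num 886 * (var 3) + num 5316 * (var 1) * (var 3)))
    (num 992 * (num 11911 + num 7202 * (var 1) + num 554 * (var 3) + num 3324 * (var 1) * (var 3)))
  td := num 100000000
  cn := num 1 - var 0 * var 1 - var 1 * (num 1 - num 2 * (var 0 * var 1))
  cd := (num 1 - num 2 * (var 0 * var 1)) * (num 1 - num 2 * (var 0 * var 1))
  kn := var 0 * var 1 * (num 534 + num 3000 * (var 1))
  kd := num 100
  k2n := var 0 * (num 1042 + num (-550) * (var 3) + num (-1700) * (var 1))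
  k2d := num 100

/-- Its ranges. -/
def bxD19 : StripEnd.EBox :=
  ⟨(5, 6, 25), (0, 1, 4), (277, 443, 1000), (0, 1, 1)⟩

/-- The chart `D20`. -/
def chD20 : EndChart where
  I := var 0 * var 1
  d := var 0
  w := var 0 * var 2
  den := num 100
  n₀ := ((num 1 - num 2 * (var 0 * var 1) - var 0) * var 1) * (num 50 + num (-14) * (var 1))
  n₁ := ((num 1 - num 2 * (var 0 * var 1) - var 0) * var 1) * (num 27 + num 27 * (var 1))
  q₀ := (5, 6, 25)
  q₁ := (0, 1, 4)
  q₂ := (443, 642, 1000)
  q₃ := (0, 1, 1)
  t₀ := (0, 1)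
  t₁ := (1, 1)
  mu₀ := (148, 100)
  mu₁ := (252, 100)

/-- The piece `D20`. -/
def pcD20 : Piece where
  I := var 0 * var 1
  d := var 0
  w := var 0 * var 2
  o := (((num 1 - num 2 * (var 0 * var 1) - var 0) * var 1) * (num 50 + num (-14) * (var 1)) + ((num 1 - num 2 * (var 0 * var 1) - var 0) * var 1) * (num 27 + num 27 * (var 1)) * var 3)
  den := num 100
  vn := num 2 * var 1 * ((num 50 + num (-14) * (var 1)) + (num 27 + num 27 * (var 1)) * var 3)
  vs := num 1
  mu := ⟨(148, 100), (252, 100)⟩
  pn := fun b => cond b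
    (num 100000 * (num 100 - (((num 1 - num 2 * (var 0 * var 1) - var 0) * var 1) * (num 50 + num (-14) * (var 1)) + ((num 1 - num 2 * (var 0 * var 1) - var 0) * var 1) * (num 27 + num 27 * (var 1)) * var 3)) + num (-161784) * ((((num 1 - num 2 * (var 0 * var 1) - var 0) * var 1) * (num 50 + num (-14) * (var 1)) + ((num 1 - num 2 * (var 0 * var 1) - var 0) * var 1) * (num 27 + num 27 * (var 1)) * var 3) * var 0))
    (num 100000 * (num 100 - (((num 1 - num 2 * (var 0 * var 1) - var 0) * var 1) * (num 50 + num (-14) * (var 1)) + ((num 1 - num 2 * (var 0 * var 1) - var 0) * var 1) * (num 27 + num 27 * (var 1)) * var 3)) + num (-65564) * ((((num 1 - num 2 * (var 0 * var 1) - var 0) * var 1) * (num 50 + num (-14) * (var 1)) + ((num 1 - num 2 * (var 0 * var 1) - var 0) * var 1) * (num 27 + num 27 * (var 1)) * var 3) * var 0))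
  pd := num 100000
  en := fun b => cond b
    (num 2086 * (num 1659500 * (var 0) * (var 1) + num 398000 * (var 0) * (var 0) * (var 1) + num 232725 + num 495303 * (var 0) + num (-420000) * (var 0) * (var 1) * (var 1)))
    (num 961 * (num 3319000 * (var 0) * (var 1) + num 796000 * (var 0) * (var 0) * (var 1) + num 321175 + num 683549 * (var 0) + num (-840000) * (var 0) * (var 1) * (var 1)))
  kk := fun b => cond b
    (num 2034 * (num 212823 * (var 0) + num 581331 * (var 0) * (var 0) + num 219564 * (var 0) * (var 1) + num 1926 * (var 0) * (var 3)))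
    (num 972 * (num 293709 * (var 0) + num 802273 * (var 0) * (var 0) + num 303012 * (var 0) * (var 1) + num 2658 * (var 0) * (var 3)))
  f0 := num 100000000
  wn := fun b => cond b
    (num 1000 * (num (-800000) * (var 0 * var 1) + (num 8000 * (var 0 * var 1) + num 1772 * var 0) * (((num 1 - num 2 * (var 0 * var 1) - var 0) * var 1) * (num 50 + num (-14) * (var 1)) + ((num 1 - num 2 * (var 0 * var 1) - var 0) * var 1) * (num 27 + num 27 * (var 1)) * var 3) + var 0 * var 1 * var 0 * (num (-800000) + (num 68000 * (var 1) + num 109421 + num (-3072000) * (var 1) * (var 0) + num (-428381) * (var 0) + num 1527000 * (var 1) * (var 3) + num 211311 * (var 3)))) + num (-155) * (num 100 * (var 0 * var 1 * var 0) * (num 1000 * (var 1) + num 443)))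
    (num 1000 * (num (-800000) * (var 0 * var 1) + (num 8000 * (var 0 * var 1) + num 1772 * var 0) * (((num 1 - num 2 * (var 0 * var 1) - var 0) * var 1) * (num 50 + num (-14) * (var 1)) + ((num 1 - num 2 * (var 0 * var 1) - var 0) * var 1) * (num 27 + num 27 * (var 1)) * var 3) + var 0 * var 1 * var 0 * (num (-800000) + (num 68000 * (var 1) + num 109421 + num (-3072000) * (var 1) * (var 0) + num (-428381) * (var 0) + num 1527000 * (var 1) * (var 3) + num 211311 * (var 3)))) + num (-2569) * (num 100 * (var 0 * var 1 * var 0) * (num 1000 * (var 1) + num 443)))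
  wd := num 100000000
  tn := fun b => cond b
    (num 1988 * (num 12840 + num 642 * (var 0) + num 6420 * (var 1) + num 642 * (var 3) + num 3210 * (var 1) * (var 3)))
    (num 993 * (num 17720 + num 886 * (var 0) + num 8860 * (var 1) + num 886 * (var 3) + num 4430 * (var 1) * (var 3)))
  td := num 100000000
  cn := num 1 - var 0 * var 1 - var 1 * (num 1 - num 2 * (var 0 * var 1))
  cd := (num 1 - num 2 * (var 0 * var 1)) * (num 1 - num 2 * (var 0 * var 1))
  kn := var 0 * var 1 * (num 617 + num 2500 * (var 1))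
  kd := num 100
  k2n := var 0 * (num 1032 + num (-550) * (var 3) + num (-1600) * (var 1))
  k2d := num 100

/-- Its ranges. -/
def bxD20 : StripEnd.EBox :=
  ⟨(5, 6, 25), (0, 1, 4), (443, 642, 1000), (0, 1, 1)⟩

/-- The chart `D21`. -/
def chD21 : EndChart where
  I := var 0 * var 1
  d := var 0
  w := var 0 * var 2
  den := num 100
  n₀ := ((num 1 - num 2 * (var 0 * var 1) - var 0) * var 1) * (num 38 + num (-6) * (var 1))
  n₁ := ((num 1 - num 2 * (var 0 * var 1) - var 0) * var 1) * (num 32 + num 15 * (var 1))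
  q₀ := (5, 6, 25)
  q₁ := (0, 1, 4)
  q₂ := (321, 500, 500)
  q₃ := (0, 1, 1)
  t₀ := (0, 1)
  t₁ := (1, 1)
  mu₀ := (123, 100)
  mu₁ := (253, 100)

/-- The piece `D21`. -/
def pcD21 : Piece where
  I := var 0 * var 1
  d := var 0
  w := var 0 * var 2
  o := (((num 1 - num 2 * (var 0 * var 1) - var 0) * var 1) * (num 38 + num (-6) * (var 1)) + ((num 1 - num 2 * (var 0 * var 1) - var 0) * var 1) * (num 32 + num 15 * (var 1)) * var 3)
  den := num 100
  vn := num 2 * var 1 * ((num 38 + num (-6) * (var 1)) + (num 32 + num 15 * (var 1)) * var 3)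
  vs := num 1
  mu := ⟨(123, 100), (253, 100)⟩
  pn := fun b => cond b
    (num 50000 * (num 100 - (((num 1 - num 2 * (var 0 * var 1) - var 0) * var 1) * (num 38 + num (-6) * (var 1)) + ((num 1 - num 2 * (var 0 * var 1) - var 0) * var 1) * (num 32 + num 15 * (var 1)) * var 3)) + num (-126500) * ((((num 1 - num 2 * (var 0 * var 1) - var 0) * var 1) * (num 38 + num (-6) * (var 1)) + ((num 1 - num 2 * (var 0 * var 1) - var 0) * var 1) * (num 32 + num 15 * (var 1)) * var 3) * var 0))
    (num 50000 * (num 100 - (((num 1 - num 2 * (var 0 * var 1) - var 0) * var 1) * (num 38 + num (-6) * (var 1)) + ((num 1 - num 2 * (var 0 * var 1) - var 0) * var 1) * (num 32 + num 15 * (var 1)) * var 3)) + num (-39483) * ((((num 1 - num 2 * (var 0 * var 1) - var 0) * var 1) * (num 38 + num (-6) * (var 1)) + ((num 1 - num 2 * (var 0 * var 1) - var 0) * var 1) * (num 32 + num 15 * (var 1)) * var 3) * var 0))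
  pd := num 50000
  en := fun b => cond b
    (num 529000 * (num 4838 * (var 0) * (var 1) + num (-2809) * (var 0) * (var 0) * (var 1) + num 731 + num 1513 * (var 0) + num (-1254) * (var 0) * (var 1) * (var 1)))
    (num 969 * (num 2419000 * (var 0) * (var 1) + num (-1404500) * (var 0) * (var 0) * (var 1) + num 234651 + num 485673 * (var 0) + num (-627000) * (var 0) * (var 1) * (var 1)))
  kk := fun b => cond b
    (num 508000 * (num 664 * (var 0) + num 1809 * (var 0) * (var 0) + num 641 * (var 0) * (var 1) + num 6 * (var 0) * (var 3)))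
    (num 973 * (num 213144 * (var 0) + num 580689 * (var 0) * (var 0) + num 205761 * (var 0) * (var 1) + num 1926 * (var 0) * (var 3)))
  f0 := num 50000000
  wn := fun b => cond b
    (num 1000 * (num (-400000) * (var 0 * var 1) + (num 4000 * (var 0 * var 1) + num 1284 * var 0) * (((num 1 - num 2 * (var 0 * var 1) - var 0) * var 1) * (num 38 + num (-6) * (var 1)) + ((num 1 - num 2 * (var 0 * var 1) - var 0) * var 1) * (num 32 + num 15 * (var 1)) * var 3) + var 0 * var 1 * var 0 * (num (-400000) + (num 31000 * (var 1) + num 73830 + num (-2127000) * (var 1) * (var 0) + num (-584541) * (var 0) + num 953500 * (var 1) * (var 3) + num 206403 * (var 3)))) + num 458 * (num 100 * (var 0 * var 1 * var 0) * (num 500 * (var 1) + num 321)))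
    (num 1000 * (num (-400000) * (var 0 * var 1) + (num 4000 * (var 0 * var 1) + num 1284 * var 0) * (((num 1 - num 2 * (var 0 * var 1) - var 0) * var 1) * (num 38 + num (-6) * (var 1)) + ((num 1 - num 2 * (var 0 * var 1) - var 0) * var 1) * (num 32 + num 15 * (var 1)) * var 3) + var 0 * var 1 * var 0 * (num (-400000) + (num 31000 * (var 1) + num 73830 + num (-2127000) * (var 1) * (var 0) + num (-584541) * (var 0) + num 953500 * (var 1) * (var 3) + num 206403 * (var 3)))) + num (-2658) * (num 100 * (var 0 * var 1 * var 0) * (num 500 * (var 1) + num 321)))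
  wd := num 50000000
  tn := fun b => cond b
    (num 477500 * (num 32 + num 27 * (var 0) + num 16 * (var 1) + num 2 * (var 3) + num 9 * (var 1) * (var 3)))
    (num 970 * (num 10272 + num 8667 * (var 0) + num 5136 * (var 1) + num 642 * (var 3) + num 2889 * (var 1) * (var 3)))
  td := num 50000000
  cn := num 1 - var 0 * var 1 - var 1 * (num 1 - num 2 * (var 0 * var 1))
  cd := (num 1 - num 2 * (var 0 * var 1)) * (num 1 - num 2 * (var 0 * var 1))
  kn := var 0 * var 1 * (num 814 + num 2000 * (var 1))
  kd := num 100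
  k2n := var 0 * (num 1415 + num (-750) * (var 3) + num (-2200) * (var 1))
  k2d := num 100

/-- Its ranges. -/
def bxD21 : StripEnd.EBox :=
  ⟨(5, 6, 25), (0, 1, 4), (321, 500, 500), (0, 1, 1)⟩

/-- The chart `D22`. -/
def chD22 : EndChart where
  I := var 0 * var 1
  d := var 0
  w := var 0 * var 2
  den := num 100
  n₀ := ((num 1 - num 2 * (var 0 * var 1) - var 0) * var 1) * (num 92 + num (-18) * (var 1))
  n₁ := ((num 1 - num 2 * (var 0 * var 1) - var 0) * var 1) * (num 6 + num 74 * (var 1))
  q₀ := (48, 55, 200)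
  q₁ := (0, 209, 1000)
  q₂ := (15, 27, 500)
  q₃ := (0, 1, 1)
  t₀ := (0, 1)
  t₁ := (1, 1)
  mu₀ := (190, 100)
  mu₁ := (259, 100)

/-- The piece `D22`. -/
def pcD22 : Piece where
  I := var 0 * var 1
  d := var 0
  w := var 0 * var 2
  o := (((num 1 - num 2 * (var 0 * var 1) - var 0) * var 1) * (num 92 + num (-18) * (var 1)) + ((num 1 - num 2 * (var 0 * var 1) - var 0) * var 1) * (num 6 + num 74 * (var 1)) * var 3)
  den := num 100
  vn := num 2 * var 1 * ((num 92 + num (-18) * (var 1)) + (num 6 + num 74 * (var 1)) * var 3)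
  vs := num 1
  mu := ⟨(190, 100), (259, 100)⟩
  pn := fun b => cond b
    (num 50000 * (num 100 - (((num 1 - num 2 * (var 0 * var 1) - var 0) * var 1) * (num 92 + num (-18) * (var 1)) + ((num 1 - num 2 * (var 0 * var 1) - var 0) * var 1) * (num 6 + num 74 * (var 1)) * var 3)) + num (-6993) * ((((num 1 - num 2 * (var 0 * var 1) - var 0) * var 1) * (num 92 + num (-18) * (var 1)) + ((num 1 - num 2 * (var 0 * var 1) - var 0) * var 1) * (num 6 + num 74 * (var 1)) * var 3) * var 0))
    (num 50000 * (num 100 - (((num 1 - num 2 * (var 0 * var 1) - var 0) * var 1) * (num 92 + num (-18) * (var 1)) + ((num 1 - num 2 * (var 0 * var 1) - var 0) * var 1) * (num 6 + num 74 * (var 1)) * var 3)) + num (-2850) * ((((num 1 - num 2 * (var 0 * var 1) - var 0) * var 1) * (num 92 + num (-18) * (var 1)) + ((num 1 - num 2 * (var 0 * var 1) - var 0) * var 1) * (num 6 + num 74 * (var 1)) * var 3) * var 0))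
  pd := num 50000
  en := fun b => cond b
    (num 1032 * (num 838000 * (var 0) * (var 1) + num (-107000) * (var 0) * (var 0) * (var 1) + num 22572 + num 29376 * (var 0) + num (-257500) * (var 0) * (var 1) * (var 1)))
    (num 4825 * (num 167600 * (var 0) * (var 1) + num (-21400) * (var 0) * (var 0) * (var 1) + num 2508 + num 3264 * (var 0) + num (-51500) * (var 0) * (var 1) * (var 1)))
  kk := fun b => cond b
    (num 1014 * (num 20304 * (var 0) + num 37638 * (var 0) * (var 0) + num 27027 * (var 0) * (var 1) + num 135 * (var 0) * (var 3)))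
    (num 4880 * (num 2256 * (var 0) + num 4182 * (var 0) * (var 0) + num 3003 * (var 0) * (var 1) + num 15 * (var 0) * (var 3)))
  f0 := num 50000000
  wn := fun b => cond b
    (num 1000 * (num (-80000) * (var 0 * var 1) + (num 800 * (var 0 * var 1) + num 12 * var 0) * (((num 1 - num 2 * (var 0 * var 1) - var 0) * var 1) * (num 92 + num (-18) * (var 1)) + ((num 1 - num 2 * (var 0 * var 1) - var 0) * var 1) * (num 6 + num 74 * (var 1)) * var 3) + var 0 * var 1 * var 0 * (num (-80000) + (num 56200 * (var 1) + num 2364 + num (-270200) * (var 1) * (var 0) + num (-2730) * (var 0) + num 44100 * (var 1) * (var 3) + num 54 * (var 3)))) + num (-72) * (num 100 * (var 0 * var 1 * var 0) * (num 100 * (var 1) + num 3)))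
    (num 1000 * (num (-80000) * (var 0 * var 1) + (num 800 * (var 0 * var 1) + num 12 * var 0) * (((num 1 - num 2 * (var 0 * var 1) - var 0) * var 1) * (num 92 + num (-18) * (var 1)) + ((num 1 - num 2 * (var 0 * var 1) - var 0) * var 1) * (num 6 + num 74 * (var 1)) * var 3) + var 0 * var 1 * var 0 * (num (-80000) + (num 56200 * (var 1) + num 2364 + num (-270200) * (var 1) * (var 0) + num (-2730) * (var 0) + num 44100 * (var 1) * (var 3) + num 54 * (var 3)))) + num (-1785) * (num 100 * (var 0 * var 1 * var 0) * (num 100 * (var 1) + num 3)))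
  wd := num 10000000
  tn := fun b => cond b
    (num 1013 * (num 1350 + num (-81) * (var 0) + num 1323 * (var 1) + num 216 * (var 1) * (var 3)))
    (num 4905 * (num 150 + num (-9) * (var 0) + num 147 * (var 1) + num 24 * (var 1) * (var 3)))
  td := num 50000000
  cn := num 1 - var 0 * var 1 - var 1 * (num 1 - num 2 * (var 0 * var 1))
  cd := (num 1 - num 2 * (var 0 * var 1)) * (num 1 - num 2 * (var 0 * var 1))
  kn := var 0 * var 1 * (num 295 + num 2500 * (var 1))
  kd := num 100
  k2n := var 0 * (num 1046 + num (-550) * (var 3) + num (-1700) * (var 1))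
  k2d := num 100

/-- Its ranges. -/
def bxD22 : StripEnd.EBox :=
  ⟨(48, 55, 200), (0, 209, 1000), (15, 27, 500), (0, 1, 1)⟩

/-- The chart `D23`. -/
def chD23 : EndChart where
  I := var 0 * var 1
  d := var 0
  w := var 0 * var 2
  den := num 100
  n₀ := ((num 1 - num 2 * (var 0 * var 1) - var 0) * var 1) * (num 87 + num (-18) * (var 1))
  n₁ := ((num 1 - num 2 * (var 0 * var 1) - var 0) * var 1) * (num 10 + num 67 * (var 1))
  q₀ := (48, 55, 200)
  q₁ := (0, 209, 1000)
  q₂ := (54, 97, 1000)
  q₃ := (0, 1, 1)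
  t₀ := (0, 1)
  t₁ := (1, 1)
  mu₀ := (185, 100)
  mu₁ := (259, 100)

/-- The piece `D23`. -/
def pcD23 : Piece where
  I := var 0 * var 1
  d := var 0
  w := var 0 * var 2
  o := (((num 1 - num 2 * (var 0 * var 1) - var 0) * var 1) * (num 87 + num (-18) * (var 1)) + ((num 1 - num 2 * (var 0 * var 1) - var 0) * var 1) * (num 10 + num 67 * (var 1)) * var 3)
  den := num 100
  vn := num 2 * var 1 * ((num 87 + num (-18) * (var 1)) + (num 10 + num 67 * (var 1)) * var 3)
  vs := num 1
  mu := ⟨(185, 100), (259, 100)⟩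
  pn := fun b => cond b
    (num 100000 * (num 100 - (((num 1 - num 2 * (var 0 * var 1) - var 0) * var 1) * (num 87 + num (-18) * (var 1)) + ((num 1 - num 2 * (var 0 * var 1) - var 0) * var 1) * (num 10 + num 67 * (var 1)) * var 3)) + num (-25123) * ((((num 1 - num 2 * (var 0 * var 1) - var 0) * var 1) * (num 87 + num (-18) * (var 1)) + ((num 1 - num 2 * (var 0 * var 1) - var 0) * var 1) * (num 10 + num 67 * (var 1)) * var 3) * var 0))
    (num 100000 * (num 100 - (((num 1 - num 2 * (var 0 * var 1) - var 0) * var 1) * (num 87 + num (-18) * (var 1)) + ((num 1 - num 2 * (var 0 * var 1) - var 0) * var 1) * (num 10 + num 67 * (var 1)) * var 3)) + num (-9990) * ((((num 1 - num 2 * (var 0 * var 1) - var 0) * var 1) * (num 87 + num (-18) * (var 1)) + ((num 1 - num 2 * (var 0 * var 1) - var 0) * var 1) * (num 10 + num 67 * (var 1)) * var 3) * var 0))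
  pd := num 100000
  en := fun b => cond b
    (num 1037 * (num 1722000 * (var 0) * (var 1) + num 43000 * (var 0) * (var 0) * (var 1) + num 81286 + num 105148 * (var 0) + num (-401000) * (var 0) * (var 1) * (var 1)))
    (num 1916 * (num 861000 * (var 0) * (var 1) + num 21500 * (var 0) * (var 0) * (var 1) + num 22626 + num 29268 * (var 0) + num (-200500) * (var 0) * (var 1) * (var 1)))
  kk := fun b => cond b
    (num 1014 * (num 73041 * (var 0) + num 134830 * (var 0) * (var 0) + num 95157 * (var 0) * (var 1) + num 582 * (var 0) * (var 3)))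
    (num 1952 * (num 20331 * (var 0) + num 37530 * (var 0) * (var 0) + num 26487 * (var 0) * (var 1) + num 162 * (var 0) * (var 3)))
  f0 := num 100000000
  wn := fun b => cond b
    (num 1000 * (num (-400000) * (var 0 * var 1) + (num 4000 * (var 0 * var 1) + num 108 * var 0) * (((num 1 - num 2 * (var 0 * var 1) - var 0) * var 1) * (num 87 + num (-18) * (var 1)) + ((num 1 - num 2 * (var 0 * var 1) - var 0) * var 1) * (num 10 + num 67 * (var 1)) * var 3) + var 0 * var 1 * var 0 * (num (-400000) + (num 239500 * (var 1) + num 19440 + num (-1290500) * (var 1) * (var 0) + num (-24786) * (var 0) + num 275500 * (var 1) * (var 3) + num 2457 * (var 3)))) + num (-299) * (num 100 * (var 0 * var 1 * var 0) * (num 500 * (var 1) + num 27)))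
    (num 1000 * (num (-400000) * (var 0 * var 1) + (num 4000 * (var 0 * var 1) + num 108 * var 0) * (((num 1 - num 2 * (var 0 * var 1) - var 0) * var 1) * (num 87 + num (-18) * (var 1)) + ((num 1 - num 2 * (var 0 * var 1) - var 0) * var 1) * (num 10 + num 67 * (var 1)) * var 3) + var 0 * var 1 * var 0 * (num (-400000) + (num 239500 * (var 1) + num 19440 + num (-1290500) * (var 1) * (var 0) + num (-24786) * (var 0) + num 275500 * (var 1) * (var 3) + num 2457 * (var 3)))) + num (-1972) * (num 100 * (var 0 * var 1 * var 0) * (num 500 * (var 1) + num 27)))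
  wd := num 50000000
  tn := fun b => cond b
    (num 1004 * (num 4753 + num (-291) * (var 0) + num 4365 * (var 1) + num 97 * (var 3) + num 873 * (var 1) * (var 3)))
    (num 1974 * (num 1323 + num (-81) * (var 0) + num 1215 * (var 1) + num 27 * (var 3) + num 243 * (var 1) * (var 3)))
  td := num 100000000
  cn := num 1 - var 0 * var 1 - var 1 * (num 1 - num 2 * (var 0 * var 1))
  cd := (num 1 - num 2 * (var 0 * var 1)) * (num 1 - num 2 * (var 0 * var 1))
  kn := var 0 * var 1 * (num 362 + num 3000 * (var 1))
  kd := num 100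
  k2n := var 0 * (num 1019 + num (-550) * (var 3) + num (-1800) * (var 1))
  k2d := num 100

/-- Its ranges. -/
def bxD23 : StripEnd.EBox :=
  ⟨(48, 55, 200), (0, 209, 1000), (54, 97, 1000), (0, 1, 1)⟩

end Vale.Agent.P100.Calib.StripEndD
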