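import Vale.Agent.P100.Calib.SlabStripEndDSide
import Vale.Agent.P100.Calib.SlabStripEndBig
import Vale.Agent.P100.Calib.SlabStripEndDDataA

/-!
# The checks of the bins `D00`, `D01` of the strip for `u` near one, `d` large
-/

namespace Vale.Agent.P100.Calib.StripEndD

open Pack hiding ev_add ev_mul
open Pack.Ex StripMid StripEnd

local instance endDCheck00Add : Add Ex := ⟨Ex.add⟩
local instance endDCheck00Sub : Sub Ex := ⟨Ex.sub⟩
local instance endDCheck00Mul : Mul Ex := ⟨Ex.mul⟩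

/-- The checks of `D00`. -/
theorem certD00 : Cert pcD00 bxD00 := by
  have h_g1 : ∀ s p l : Bool,
      checkFour bxD00.C 177 7 12 0 5
        (pcD00.at ⟨p, l, !s, !s, false⟩ (c1 s)) = true := by
    decide +kernel
  have h_g2 : ∀ s p l t : Bool,
      checkFour bxD00.C 452 20 30 0 10
        (pcD00.at ⟨p, l, true, true, t⟩ (StripEnd.strict (c2 s))) = true := by
    decide +kernel
  have h_g5 : ∀ s p l t : Bool,
      checkFour bxD00.C 471 18 28 0 9
        (pcD00.at ⟨p, l, true, true, t⟩ (StripEnd.strict (c5 s))) = true := by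
    decide +kernel
  have h_gMG : ∀ p l t : Bool,
      checkFour bxD00.C 360 17 27 0 8
        (pcD00.at ⟨p, l, true, false, t⟩ tplMG) = true := by
    decide +kernel
  have h_v2 : ∀ s : Bool,
      checkFour bxD00.C 91 5 9 0 4
        (pcD00.at ⟨false, false, true, true, false⟩ (curve2 s)) = true := by
    decide +kernel
  have h_v5 : ∀ s : Bool,
      checkFour bxD00.C 96 6 9 0 4
        (pcD00.at ⟨false, false, true, true, false⟩ (curve5 s)) = true := by
    decide +kernel
  have h_wP : ∀ b hi : Bool,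
      checkFour bxD00.C 60 2 3 1 1
        (pcD00.winP b hi) = true := by
    decide +kernel
  have h_wE : ∀ b hi : Bool,
      checkFour bxD00.C 177 11 14 2 3
        (pcD00.winE b hi) = true := by
    decide +kernel
  have h_wK : ∀ b hi : Bool,
      checkFour bxD00.C 168 12 12 2 3
        (pcD00.winK b hi) = true := by
    decide +kernel
  have h_wW : ∀ b : Bool,
      checkFour bxD00.C 145 8 10 2 3
        (pcD00.winW b) = true := by
    decide +kernel
  have h_wY : ∀ b : Bool,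
      checkFour bxD00.C 285 17 21 3 6
        (pcD00.winY b) = true := by
    decide +kernel
  have h_wT : ∀ b hi : Bool,
      checkFour bxD00.C 137 7 9 2 4
        (pcD00.winT b hi) = true := by
    decide +kernel
  have h_gap : ∀ b t : Bool,
      checkFour bxD00.C 316 22 27 3 6
        (pcD00.gap b t) = true := by
    decide +kernel
  exact {
    pos := ⟨by norm_num [pcD00], by norm_num [pcD00]⟩
    low := ⟨by norm_num [bxD00], by norm_num [bxD00], by norm_num [bxD00]⟩
    sgns := fun f => by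
      cases f
      case I => exact ⟨128, 3, 3, 3, 0, by decide +kernel⟩
      case d => exact ⟨130, 3, 3, 3, 0, by decide +kernel⟩
      case A => exact ⟨134, 3, 3, 3, 0, by decide +kernel⟩
      case S => exact ⟨134, 3, 3, 3, 0, by decide +kernel⟩
      case U => exact ⟨134, 3, 3, 3, 0, by decide +kernel⟩
      case den => exact ⟨141, 3, 3, 3, 0, by decide +kernel⟩
      case o => exact ⟨140, 3, 3, 3, 1, by decide +kernel⟩
      case olt => exact ⟨142, 3, 3, 3, 1, by decide +kernel⟩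
      case pd => exact ⟨150, 3, 3, 3, 0, by decide +kernel⟩
      case e0 => exact ⟨159, 3, 3, 3, 0, by decide +kernel⟩
      case f0 => exact ⟨160, 3, 3, 3, 0, by decide +kernel⟩
      case wd => exact ⟨158, 3, 3, 3, 0, by decide +kernel⟩
      case td => exact ⟨160, 3, 3, 3, 0, by decide +kernel⟩
      case cd => exact ⟨134, 3, 3, 3, 0, by decide +kernel⟩
      case kd => exact ⟨141, 3, 3, 3, 0, by decide +kernel⟩
    kn := ⟨24, 2, 2, 0, 0, by decide +kernel⟩
    k2n := ⟨142, 3, 3, 3, 1, by decide +kernel⟩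
    k2d := ⟨141, 3, 3, 3, 0, by decide +kernel⟩
    vs := ⟨134, 3, 3, 3, 0, by decide +kernel⟩
    vMG := ⟨80, 5, 8, 0, 4, by decide +kernel⟩
    g1 := fun s p l => ⟨177, 7, 12, 0, 5, h_g1 s p l⟩
    g2 := fun s p l t => ⟨452, 20, 30, 0, 10, h_g2 s p l t⟩
    g5 := fun s p l t => ⟨471, 18, 28, 0, 9, h_g5 s p l t⟩
    gMG := fun p l t => ⟨360, 17, 27, 0, 8, h_gMG p l t⟩
    v2 := fun s => ⟨91, 5, 9, 0, 4, h_v2 s⟩
    v5 := fun s => ⟨96, 6, 9, 0, 4, h_v5 s⟩
    wP := fun b hi => ⟨60, 2, 3, 1, 1, h_wP b hi⟩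
    wE := fun b hi => ⟨177, 11, 14, 2, 3, h_wE b hi⟩
    wK := fun b hi => ⟨168, 12, 12, 2, 3, h_wK b hi⟩
    wW := fun b => ⟨145, 8, 10, 2, 3, h_wW b⟩
    wY := fun b => ⟨285, 17, 21, 3, 6, h_wY b⟩
    wT := fun b hi => ⟨137, 7, 9, 2, 4, h_wT b hi⟩
    gap := fun b t => ⟨316, 22, 27, 3, 6, h_gap b t⟩
  }

/-- The window of `D00`. -/
theorem okD00 : chD00.Cert where
  flat := ⟨fun _ _ _ _ => rfl, fun _ _ _ _ => rfl, fun _ _ _ _ => rfl, fun _ _ _ _ => rfl,
    fun _ _ _ _ => rfl, fun _ _ _ _ => rfl⟩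
  fits := ⟨by norm_num [chD00], by norm_num [chD00], by norm_num [chD00],
    by norm_num [chD00]⟩
  left := ⟨166, 13, 15, 3, 3, by decide +kernel⟩
  right := ⟨159, 12, 13, 3, 3, by decide +kernel⟩
  up := ⟨184, 13, 16, 3, 4, by decide +kernel⟩
  down := ⟨192, 13, 15, 4, 4, by decide +kernel⟩

/-- The bin `D00`. -/
theorem binD00 : SideBin chD00 pcD00 bxD00 :=
  ⟨⟨⟨fun _ => rfl, fun _ => rfl, fun _ => rfl, fun _ => rfl, fun _ => rfl, fun x => by
      simp only [pcD00, Piece.A, Piece.S, ev_add, ev_sub, ev_mul, Ex.eval]; push_cast; ring,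
      rfl, rfl⟩,
      ⟨rfl, rfl, rfl, rfl⟩, rfl, rfl, rfl, rfl, by norm_num [chD00], rfl, rfl, rfl, rfl⟩,
    okD00, certD00⟩

/-- The checks of `D01`. -/
theorem certD01 : Cert pcD01 bxD01 := by
  have h_g1 : ∀ s p l : Bool,
      checkFour bxD01.C 180 7 12 0 5
        (pcD01.at ⟨p, l, !s, !s, false⟩ (c1 s)) = true := by
    decide +kernel
  have h_g2 : ∀ s p l t : Bool,
      checkFour bxD01.C 457 20 30 0 10
        (pcD01.at ⟨p, l, true, true, t⟩ (StripEnd.strict (c2 s))) = true := by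
    decide +kernel
  have h_g5 : ∀ s p l t : Bool,
      checkFour bxD01.C 476 18 28 0 9
        (pcD01.at ⟨p, l, true, true, t⟩ (StripEnd.strict (c5 s))) = true := by
    decide +kernel
  have h_gMG : ∀ p l t : Bool,
      checkFour bxD01.C 365 17 27 0 8
        (pcD01.at ⟨p, l, true, false, t⟩ tplMG) = true := by
    decide +kernel
  have h_v2 : ∀ s : Bool,
      checkFour bxD01.C 90 5 9 0 4
        (pcD01.at ⟨false, false, true, true, false⟩ (curve2 s)) = true := by
    decide +kernel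
  have h_v5 : ∀ s : Bool,
      checkFour bxD01.C 96 6 9 0 4
        (pcD01.at ⟨false, false, true, true, false⟩ (curve5 s)) = true := by
    decide +kernel
  have h_wP : ∀ b hi : Bool,
      checkFour bxD01.C 62 2 3 1 1
        (pcD01.winP b hi) = true := by
    decide +kernel
  have h_wE : ∀ b hi : Bool,
      checkFour bxD01.C 180 11 14 2 3
        (pcD01.winE b hi) = true := by
    decide +kernel
  have h_wK : ∀ b hi : Bool,
      checkFour bxD01.C 171 12 12 2 3
        (pcD01.winK b hi) = true := by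
    decide +kernel
  have h_wW : ∀ b : Bool,
      checkFour bxD01.C 147 8 10 2 3
        (pcD01.winW b) = true := by
    decide +kernel
  have h_wY : ∀ b : Bool,
      checkFour bxD01.C 290 17 21 3 6
        (pcD01.winY b) = true := by
    decide +kernel
  have h_wT : ∀ b hi : Bool,
      checkFour bxD01.C 141 7 9 2 4
        (pcD01.winT b hi) = true := by
    decide +kernel
  have h_gap : ∀ b t : Bool,
      checkFour bxD01.C 320 22 27 3 6
        (pcD01.gap b t) = true := by
    decide +kernel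
  exact {
    pos := ⟨by norm_num [pcD01], by norm_num [pcD01]⟩
    low := ⟨by norm_num [bxD01], by norm_num [bxD01], by norm_num [bxD01]⟩
    sgns := fun f => by
      cases f
      case I => exact ⟨131, 3, 3, 3, 0, by decide +kernel⟩
      case d => exact ⟨133, 3, 3, 3, 0, by decide +kernel⟩
      case A => exact ⟨137, 3, 3, 3, 0, by decide +kernel⟩
      case S => exact ⟨137, 3, 3, 3, 0, by decide +kernel⟩
      case U => exact ⟨137, 3, 3, 3, 0, by decide +kernel⟩
      case den => exact ⟨144, 3, 3, 3, 0, by decide +kernel⟩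
      case o => exact ⟨143, 3, 3, 3, 1, by decide +kernel⟩
      case olt => exact ⟨145, 3, 3, 3, 1, by decide +kernel⟩
      case pd => exact ⟨154, 3, 3, 3, 0, by decide +kernel⟩
      case e0 => exact ⟨163, 3, 3, 3, 0, by decide +kernel⟩
      case f0 => exact ⟨164, 3, 3, 3, 0, by decide +kernel⟩
      case wd => exact ⟨161, 3, 3, 3, 0, by decide +kernel⟩
      case td => exact ⟨164, 3, 3, 3, 0, by decide +kernel⟩
      case cd => exact ⟨137, 3, 3, 3, 0, by decide +kernel⟩
      case kd => exact ⟨144, 3, 3, 3, 0, by decide +kernel⟩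
    kn := ⟨24, 2, 2, 0, 0, by decide +kernel⟩
    k2n := ⟨145, 3, 3, 3, 1, by decide +kernel⟩
    k2d := ⟨144, 3, 3, 3, 0, by decide +kernel⟩
    vs := ⟨137, 3, 3, 3, 0, by decide +kernel⟩
    vMG := ⟨80, 5, 8, 0, 4, by decide +kernel⟩
    g1 := fun s p l => ⟨180, 7, 12, 0, 5, h_g1 s p l⟩
    g2 := fun s p l t => ⟨457, 20, 30, 0, 10, h_g2 s p l t⟩
    g5 := fun s p l t => ⟨476, 18, 28, 0, 9, h_g5 s p l t⟩
    gMG := fun p l t => ⟨365, 17, 27, 0, 8, h_gMG p l t⟩
    v2 := fun s => ⟨90, 5, 9, 0, 4, h_v2 s⟩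
    v5 := fun s => ⟨96, 6, 9, 0, 4, h_v5 s⟩
    wP := fun b hi => ⟨62, 2, 3, 1, 1, h_wP b hi⟩
    wE := fun b hi => ⟨180, 11, 14, 2, 3, h_wE b hi⟩
    wK := fun b hi => ⟨171, 12, 12, 2, 3, h_wK b hi⟩
    wW := fun b => ⟨147, 8, 10, 2, 3, h_wW b⟩
    wY := fun b => ⟨290, 17, 21, 3, 6, h_wY b⟩
    wT := fun b hi => ⟨141, 7, 9, 2, 4, h_wT b hi⟩
    gap := fun b t => ⟨320, 22, 27, 3, 6, h_gap b t⟩
  }

/-- The window of `D01`. -/
theorem okD01 : chD01.Cert where
  flat := ⟨fun _ _ _ _ => rfl, fun _ _ _ _ => rfl, fun _ _ _ _ => rfl, fun _ _ _ _ => rfl,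
    fun _ _ _ _ => rfl, fun _ _ _ _ => rfl⟩
  fits := ⟨by norm_num [chD01], by norm_num [chD01], by norm_num [chD01],
    by norm_num [chD01]⟩
  left := ⟨169, 13, 15, 3, 3, by decide +kernel⟩
  right := ⟨162, 12, 13, 3, 3, by decide +kernel⟩
  up := ⟨187, 13, 16, 3, 4, by decide +kernel⟩
  down := ⟨196, 13, 15, 4, 4, by decide +kernel⟩

/-- The bin `D01`. -/
theorem binD01 : SideBin chD01 pcD01 bxD01 :=
  ⟨⟨⟨fun _ => rfl, fun _ => rfl, fun _ => rfl, fun _ => rfl, fun _ => rfl, fun x => by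
      simp only [pcD01, Piece.A, Piece.S, ev_add, ev_sub, ev_mul, Ex.eval]; push_cast; ring,
      rfl, rfl⟩,
      ⟨rfl, rfl, rfl, rfl⟩, rfl, rfl, rfl, rfl, by norm_num [chD01], rfl, rfl, rfl, rfl⟩,
    okD01, certD01⟩

end Vale.Agent.P100.Calib.StripEndD
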