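import Vale.Agent.P100.Calib.SlabStripEndDSide
import Vale.Agent.P100.Calib.SlabStripEndBig
import Vale.Agent.P100.Calib.SlabStripEndDDataA

/-!
# The checks of the bins `D10`, `D11` of the strip for `u` near one, `d` large
-/

namespace Vale.Agent.P100.Calib.StripEndD

open Pack hiding ev_add ev_mul
open Pack.Ex StripMid StripEnd

local instance endDCheck05Add : Add Ex := ⟨Ex.add⟩
local instance endDCheck05Sub : Sub Ex := ⟨Ex.sub⟩
local instance endDCheck05Mul : Mul Ex := ⟨Ex.mul⟩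

/-- The checks of `D10`. -/
theorem certD10 : Cert pcD10 bxD10 := by
  have h_g1 : ∀ s p l : Bool,
      checkFour bxD10.C 286 7 12 0 5
        (pcD10.at ⟨p, l, !s, !s, false⟩ (c1 s)) = true := by
    decide +kernel
  have h_g2 : ∀ s p l t : Bool,
      checkFour bxD10.C 728 20 30 0 10
        (pcD10.at ⟨p, l, true, true, t⟩ (StripEnd.strict (c2 s))) = true := by
    decide +kernel
  have h_g5 : ∀ s p l t : Bool,
      checkFour bxD10.C 728 18 28 0 9
        (pcD10.at ⟨p, l, true, true, t⟩ (StripEnd.strict (c5 s))) = true := by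
    decide +kernel
  have h_gMG : ∀ p l t : Bool,
      checkFour bxD10.C 607 17 27 0 8
        (pcD10.at ⟨p, l, true, false, t⟩ tplMG) = true := by
    decide +kernel
  have h_v2 : ∀ s : Bool,
      checkFour bxD10.C 173 5 9 0 4
        (pcD10.at ⟨false, false, true, true, false⟩ (curve2 s)) = true := by
    decide +kernel
  have h_v5 : ∀ s : Bool,
      checkFour bxD10.C 177 6 9 0 4
        (pcD10.at ⟨false, false, true, true, false⟩ (curve5 s)) = true := by
    decide +kernel
  have h_wP : ∀ b hi : Bool,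
      checkFour bxD10.C 89 2 3 1 1
        (pcD10.winP b hi) = true := by
    decide +kernel
  have h_wE : ∀ b hi : Bool,
      checkFour bxD10.C 306 11 14 2 3
        (pcD10.winE b hi) = true := by
    decide +kernel
  have h_wK : ∀ b hi : Bool,
      checkFour bxD10.C 281 12 12 2 3
        (pcD10.winK b hi) = true := by
    decide +kernel
  have h_wW : ∀ b : Bool,
      checkFour bxD10.C 237 8 10 2 3
        (pcD10.winW b) = true := by
    decide +kernel
  have h_wY : ∀ b : Bool,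
      checkFour bxD10.C 480 17 21 3 6
        (pcD10.winY b) = true := by
    decide +kernel
  have h_wT : ∀ b hi : Bool,
      checkFour bxD10.C 222 7 9 2 4
        (pcD10.winT b hi) = true := by
    decide +kernel
  have h_gap : ∀ b t : Bool,
      checkFour bxD10.C 563 22 27 3 6
        (pcD10.gap b t) = true := by
    decide +kernel
  exact {
    pos := ⟨by norm_num [pcD10], by norm_num [pcD10]⟩
    low := ⟨by norm_num [bxD10], by norm_num [bxD10], by norm_num [bxD10]⟩
    sgns := fun f => by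
      cases f
      case I => exact ⟨159, 3, 3, 3, 0, by decide +kernel⟩
      case d => exact ⟨162, 3, 3, 3, 0, by decide +kernel⟩
      case A => exact ⟨165, 3, 3, 3, 0, by decide +kernel⟩
      case S => exact ⟨164, 3, 3, 3, 0, by decide +kernel⟩
      case U => exact ⟨164, 3, 3, 3, 0, by decide +kernel⟩
      case den => exact ⟨171, 3, 3, 3, 0, by decide +kernel⟩
      case o => exact ⟨170, 3, 3, 3, 1, by decide +kernel⟩
      case olt => exact ⟨172, 3, 3, 3, 1, by decide +kernel⟩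
      case pd => exact ⟨181, 3, 3, 3, 0, by decide +kernel⟩
      case e0 => exact ⟨190, 3, 3, 3, 0, by decide +kernel⟩
      case f0 => exact ⟨191, 3, 3, 3, 0, by decide +kernel⟩
      case wd => exact ⟨187, 3, 3, 3, 0, by decide +kernel⟩
      case td => exact ⟨191, 3, 3, 3, 0, by decide +kernel⟩
      case cd => exact ⟨164, 3, 3, 3, 0, by decide +kernel⟩
      case kd => exact ⟨171, 3, 3, 3, 0, by decide +kernel⟩
    kn := ⟨40, 2, 2, 0, 0, by decide +kernel⟩
    k2n := ⟨173, 3, 3, 3, 1, by decide +kernel⟩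
    k2d := ⟨171, 3, 3, 3, 0, by decide +kernel⟩
    vs := ⟨164, 3, 3, 3, 0, by decide +kernel⟩
    vMG := ⟨152, 5, 8, 0, 4, by decide +kernel⟩
    g1 := fun s p l => ⟨286, 7, 12, 0, 5, h_g1 s p l⟩
    g2 := fun s p l t => ⟨728, 20, 30, 0, 10, h_g2 s p l t⟩
    g5 := fun s p l t => ⟨728, 18, 28, 0, 9, h_g5 s p l t⟩
    gMG := fun p l t => ⟨607, 17, 27, 0, 8, h_gMG p l t⟩
    v2 := fun s => ⟨173, 5, 9, 0, 4, h_v2 s⟩
    v5 := fun s => ⟨177, 6, 9, 0, 4, h_v5 s⟩
    wP := fun b hi => ⟨89, 2, 3, 1, 1, h_wP b hi⟩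
    wE := fun b hi => ⟨306, 11, 14, 2, 3, h_wE b hi⟩
    wK := fun b hi => ⟨281, 12, 12, 2, 3, h_wK b hi⟩
    wW := fun b => ⟨237, 8, 10, 2, 3, h_wW b⟩
    wY := fun b => ⟨480, 17, 21, 3, 6, h_wY b⟩
    wT := fun b hi => ⟨222, 7, 9, 2, 4, h_wT b hi⟩
    gap := fun b t => ⟨563, 22, 27, 3, 6, h_gap b t⟩
  }

/-- The window of `D10`. -/
theorem okD10 : chD10.Cert where
  flat := ⟨fun _ _ _ _ => rfl, fun _ _ _ _ => rfl, fun _ _ _ _ => rfl, fun _ _ _ _ => rfl,
    fun _ _ _ _ => rfl, fun _ _ _ _ => rfl⟩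
  fits := ⟨by norm_num [chD10], by norm_num [chD10], by norm_num [chD10],
    by norm_num [chD10]⟩
  left := ⟨305, 13, 15, 3, 3, by decide +kernel⟩
  right := ⟨279, 12, 13, 3, 3, by decide +kernel⟩
  up := ⟨332, 13, 16, 3, 4, by decide +kernel⟩
  down := ⟨332, 13, 15, 4, 4, by decide +kernel⟩

/-- The bin `D10`. -/
theorem binD10 : SideBin chD10 pcD10 bxD10 :=
  ⟨⟨⟨fun _ => rfl, fun _ => rfl, fun _ => rfl, fun _ => rfl, fun _ => rfl, fun x => by
      simp only [pcD10, Piece.A, Piece.S, ev_add, ev_sub, ev_mul, Ex.eval]; push_cast; ring,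
      rfl, rfl⟩,
      ⟨rfl, rfl, rfl, rfl⟩, rfl, rfl, rfl, rfl, by norm_num [chD10], rfl, rfl, rfl, rfl⟩,
    okD10, certD10⟩

/-- The checks of `D11`. -/
theorem certD11 : Cert pcD11 bxD11 := by
  have h_g1 : ∀ s p l : Bool,
      checkFour bxD11.C 290 7 12 0 5
        (pcD11.at ⟨p, l, !s, !s, false⟩ (c1 s)) = true := by
    decide +kernel
  have h_g2 : ∀ s p l t : Bool,
      checkFour bxD11.C 728 20 30 0 10
        (pcD11.at ⟨p, l, true, true, t⟩ (StripEnd.strict (c2 s))) = true := by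
    decide +kernel
  have h_g5 : ∀ s p l t : Bool,
      checkFour bxD11.C 731 18 28 0 9
        (pcD11.at ⟨p, l, true, true, t⟩ (StripEnd.strict (c5 s))) = true := by
    decide +kernel
  have h_gMG : ∀ p l t : Bool,
      checkFour bxD11.C 611 17 27 0 8
        (pcD11.at ⟨p, l, true, false, t⟩ tplMG) = true := by
    decide +kernel
  have h_v2 : ∀ s : Bool,
      checkFour bxD11.C 173 5 9 0 4
        (pcD11.at ⟨false, false, true, true, false⟩ (curve2 s)) = true := by
    decide +kernel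
  have h_v5 : ∀ s : Bool,
      checkFour bxD11.C 177 6 9 0 4
        (pcD11.at ⟨false, false, true, true, false⟩ (curve5 s)) = true := by
    decide +kernel
  have h_wP : ∀ b hi : Bool,
      checkFour bxD11.C 89 2 3 1 1
        (pcD11.winP b hi) = true := by
    decide +kernel
  have h_wE : ∀ b hi : Bool,
      checkFour bxD11.C 306 11 14 2 3
        (pcD11.winE b hi) = true := by
    decide +kernel
  have h_wK : ∀ b hi : Bool,
      checkFour bxD11.C 281 12 12 2 3
        (pcD11.winK b hi) = true := by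
    decide +kernel
  have h_wW : ∀ b : Bool,
      checkFour bxD11.C 240 8 10 2 3
        (pcD11.winW b) = true := by
    decide +kernel
  have h_wY : ∀ b : Bool,
      checkFour bxD11.C 483 17 21 3 6
        (pcD11.winY b) = true := by
    decide +kernel
  have h_wT : ∀ b hi : Bool,
      checkFour bxD11.C 222 7 9 2 4
        (pcD11.winT b hi) = true := by
    decide +kernel
  have h_gap : ∀ b t : Bool,
      checkFour bxD11.C 563 22 27 3 6
        (pcD11.gap b t) = true := by
    decide +kernel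
  exact {
    pos := ⟨by norm_num [pcD11], by norm_num [pcD11]⟩
    low := ⟨by norm_num [bxD11], by norm_num [bxD11], by norm_num [bxD11]⟩
    sgns := fun f => by
      cases f
      case I => exact ⟨159, 3, 3, 3, 0, by decide +kernel⟩
      case d => exact ⟨162, 3, 3, 3, 0, by decide +kernel⟩
      case A => exact ⟨165, 3, 3, 3, 0, by decide +kernel⟩
      case S => exact ⟨164, 3, 3, 3, 0, by decide +kernel⟩
      case U => exact ⟨164, 3, 3, 3, 0, by decide +kernel⟩
      case den => exact ⟨171, 3, 3, 3, 0, by decide +kernel⟩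
      case o => exact ⟨169, 3, 3, 3, 1, by decide +kernel⟩
      case olt => exact ⟨172, 3, 3, 3, 1, by decide +kernel⟩
      case pd => exact ⟨181, 3, 3, 3, 0, by decide +kernel⟩
      case e0 => exact ⟨191, 3, 3, 3, 0, by decide +kernel⟩
      case f0 => exact ⟨191, 3, 3, 3, 0, by decide +kernel⟩
      case wd => exact ⟨191, 3, 3, 3, 0, by decide +kernel⟩
      case td => exact ⟨191, 3, 3, 3, 0, by decide +kernel⟩
      case cd => exact ⟨164, 3, 3, 3, 0, by decide +kernel⟩
      case kd => exact ⟨171, 3, 3, 3, 0, by decide +kernel⟩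
    kn := ⟨34, 1, 2, 0, 0, by decide +kernel⟩
    k2n := ⟨174, 3, 3, 3, 1, by decide +kernel⟩
    k2d := ⟨171, 3, 3, 3, 0, by decide +kernel⟩
    vs := ⟨164, 3, 3, 3, 0, by decide +kernel⟩
    vMG := ⟨152, 5, 8, 0, 4, by decide +kernel⟩
    g1 := fun s p l => ⟨290, 7, 12, 0, 5, h_g1 s p l⟩
    g2 := fun s p l t => ⟨728, 20, 30, 0, 10, h_g2 s p l t⟩
    g5 := fun s p l t => ⟨731, 18, 28, 0, 9, h_g5 s p l t⟩
    gMG := fun p l t => ⟨611, 17, 27, 0, 8, h_gMG p l t⟩
    v2 := fun s => ⟨173, 5, 9, 0, 4, h_v2 s⟩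
    v5 := fun s => ⟨177, 6, 9, 0, 4, h_v5 s⟩
    wP := fun b hi => ⟨89, 2, 3, 1, 1, h_wP b hi⟩
    wE := fun b hi => ⟨306, 11, 14, 2, 3, h_wE b hi⟩
    wK := fun b hi => ⟨281, 12, 12, 2, 3, h_wK b hi⟩
    wW := fun b => ⟨240, 8, 10, 2, 3, h_wW b⟩
    wY := fun b => ⟨483, 17, 21, 3, 6, h_wY b⟩
    wT := fun b hi => ⟨222, 7, 9, 2, 4, h_wT b hi⟩
    gap := fun b t => ⟨563, 22, 27, 3, 6, h_gap b t⟩
  }

/-- The window of `D11`. -/
theorem okD11 : chD11.Cert where
  flat := ⟨fun _ _ _ _ => rfl, fun _ _ _ _ => rfl, fun _ _ _ _ => rfl, fun _ _ _ _ => rfl,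
    fun _ _ _ _ => rfl, fun _ _ _ _ => rfl⟩
  fits := ⟨by norm_num [chD11], by norm_num [chD11], by norm_num [chD11],
    by norm_num [chD11]⟩
  left := ⟨305, 13, 15, 3, 3, by decide +kernel⟩
  right := ⟨279, 12, 13, 3, 3, by decide +kernel⟩
  up := ⟨332, 13, 16, 3, 4, by decide +kernel⟩
  down := ⟨332, 13, 15, 4, 4, by decide +kernel⟩

/-- The bin `D11`. -/
theorem binD11 : SideBin chD11 pcD11 bxD11 :=
  ⟨⟨⟨fun _ => rfl, fun _ => rfl, fun _ => rfl, fun _ => rfl, fun _ => rfl, fun x => by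
      simp only [pcD11, Piece.A, Piece.S, ev_add, ev_sub, ev_mul, Ex.eval]; push_cast; ring,
      rfl, rfl⟩,
      ⟨rfl, rfl, rfl, rfl⟩, rfl, rfl, rfl, rfl, by norm_num [chD11], rfl, rfl, rfl, rfl⟩,
    okD11, certD11⟩

end Vale.Agent.P100.Calib.StripEndD
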