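import Vale.Agent.P100.Calib.SlabStripEndDSide
import Vale.Agent.P100.Calib.SlabStripEndBig
import Vale.Agent.P100.Calib.SlabStripEndDDataA

/-!
# The checks of the bins `D18`, `D19` of the strip for `u` near one, `d` large
-/

namespace Vale.Agent.P100.Calib.StripEndD

open Pack hiding ev_add ev_mul
open Pack.Ex StripMid StripEnd

local instance endDCheck09Add : Add Ex := ⟨Ex.add⟩
local instance endDCheck09Sub : Sub Ex := ⟨Ex.sub⟩
local instance endDCheck09Mul : Mul Ex := ⟨Ex.mul⟩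

/-- The checks of `D18`. -/
theorem certD18 : Cert pcD18 bxD18 := by
  have h_g1 : ∀ s p l : Bool,
      checkFour bxD18.C 192 7 12 0 5
        (pcD18.at ⟨p, l, !s, !s, false⟩ (c1 s)) = true := by
    decide +kernel
  have h_g2 : ∀ s p l t : Bool,
      checkFour bxD18.C 489 20 30 0 10
        (pcD18.at ⟨p, l, true, true, t⟩ (StripEnd.strict (c2 s))) = true := by
    decide +kernel
  have h_g5 : ∀ s p l t : Bool,
      checkFour bxD18.C 506 18 28 0 9
        (pcD18.at ⟨p, l, true, true, t⟩ (StripEnd.strict (c5 s))) = true := by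
    decide +kernel
  have h_gMG : ∀ p l t : Bool,
      checkFour bxD18.C 393 17 27 0 8
        (pcD18.at ⟨p, l, true, false, t⟩ tplMG) = true := by
    decide +kernel
  have h_v2 : ∀ s : Bool,
      checkFour bxD18.C 101 5 9 0 4
        (pcD18.at ⟨false, false, true, true, false⟩ (curve2 s)) = true := by
    decide +kernel
  have h_v5 : ∀ s : Bool,
      checkFour bxD18.C 105 6 9 0 4
        (pcD18.at ⟨false, false, true, true, false⟩ (curve5 s)) = true := by
    decide +kernel
  have h_wP : ∀ b hi : Bool,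
      checkFour bxD18.C 65 2 3 1 1
        (pcD18.winP b hi) = true := by
    decide +kernel
  have h_wE : ∀ b hi : Bool,
      checkFour bxD18.C 195 11 14 2 3
        (pcD18.winE b hi) = true := by
    decide +kernel
  have h_wK : ∀ b hi : Bool,
      checkFour bxD18.C 185 12 12 2 3
        (pcD18.winK b hi) = true := by
    decide +kernel
  have h_wW : ∀ b : Bool,
      checkFour bxD18.C 158 8 10 2 3
        (pcD18.winW b) = true := by
    decide +kernel
  have h_wY : ∀ b : Bool,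
      checkFour bxD18.C 314 17 21 3 6
        (pcD18.winY b) = true := by
    decide +kernel
  have h_wT : ∀ b hi : Bool,
      checkFour bxD18.C 150 7 9 2 4
        (pcD18.winT b hi) = true := by
    decide +kernel
  have h_gap : ∀ b t : Bool,
      checkFour bxD18.C 349 22 27 3 6
        (pcD18.gap b t) = true := by
    decide +kernel
  exact {
    pos := ⟨by norm_num [pcD18], by norm_num [pcD18]⟩
    low := ⟨by norm_num [bxD18], by norm_num [bxD18], by norm_num [bxD18]⟩
    sgns := fun f => by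
      cases f
      case I => exact ⟨135, 3, 3, 3, 0, by decide +kernel⟩
      case d => exact ⟨138, 3, 3, 3, 0, by decide +kernel⟩
      case A => exact ⟨141, 3, 3, 3, 0, by decide +kernel⟩
      case S => exact ⟨140, 3, 3, 3, 0, by decide +kernel⟩
      case U => exact ⟨140, 3, 3, 3, 0, by decide +kernel⟩
      case den => exact ⟨147, 3, 3, 3, 0, by decide +kernel⟩
      case o => exact ⟨145, 3, 3, 3, 1, by decide +kernel⟩
      case olt => exact ⟨148, 3, 3, 3, 1, by decide +kernel⟩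
      case pd => exact ⟨157, 3, 3, 3, 0, by decide +kernel⟩
      case e0 => exact ⟨168, 3, 3, 3, 0, by decide +kernel⟩
      case f0 => exact ⟨167, 3, 3, 3, 0, by decide +kernel⟩
      case wd => exact ⟨165, 3, 3, 3, 0, by decide +kernel⟩
      case td => exact ⟨167, 3, 3, 3, 0, by decide +kernel⟩
      case cd => exact ⟨140, 3, 3, 3, 0, by decide +kernel⟩
      case kd => exact ⟨147, 3, 3, 3, 0, by decide +kernel⟩
    kn := ⟨18, 1, 2, 0, 0, by decide +kernel⟩
    k2n := ⟨150, 3, 3, 3, 1, by decide +kernel⟩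
    k2d := ⟨147, 3, 3, 3, 0, by decide +kernel⟩
    vs := ⟨140, 3, 3, 3, 0, by decide +kernel⟩
    vMG := ⟨88, 5, 8, 0, 4, by decide +kernel⟩
    g1 := fun s p l => ⟨192, 7, 12, 0, 5, h_g1 s p l⟩
    g2 := fun s p l t => ⟨489, 20, 30, 0, 10, h_g2 s p l t⟩
    g5 := fun s p l t => ⟨506, 18, 28, 0, 9, h_g5 s p l t⟩
    gMG := fun p l t => ⟨393, 17, 27, 0, 8, h_gMG p l t⟩
    v2 := fun s => ⟨101, 5, 9, 0, 4, h_v2 s⟩
    v5 := fun s => ⟨105, 6, 9, 0, 4, h_v5 s⟩
    wP := fun b hi => ⟨65, 2, 3, 1, 1, h_wP b hi⟩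
    wE := fun b hi => ⟨195, 11, 14, 2, 3, h_wE b hi⟩
    wK := fun b hi => ⟨185, 12, 12, 2, 3, h_wK b hi⟩
    wW := fun b => ⟨158, 8, 10, 2, 3, h_wW b⟩
    wY := fun b => ⟨314, 17, 21, 3, 6, h_wY b⟩
    wT := fun b hi => ⟨150, 7, 9, 2, 4, h_wT b hi⟩
    gap := fun b t => ⟨349, 22, 27, 3, 6, h_gap b t⟩
  }

/-- The window of `D18`. -/
theorem okD18 : chD18.Cert where
  flat := ⟨fun _ _ _ _ => rfl, fun _ _ _ _ => rfl, fun _ _ _ _ => rfl, fun _ _ _ _ => rfl,
    fun _ _ _ _ => rfl, fun _ _ _ _ => rfl⟩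
  fits := ⟨by norm_num [chD18], by norm_num [chD18], by norm_num [chD18],
    by norm_num [chD18]⟩
  left := ⟨187, 13, 15, 3, 3, by decide +kernel⟩
  right := ⟨176, 12, 13, 3, 3, by decide +kernel⟩
  up := ⟨204, 13, 16, 3, 4, by decide +kernel⟩
  down := ⟨212, 13, 15, 4, 4, by decide +kernel⟩

/-- The bin `D18`. -/
theorem binD18 : SideBin chD18 pcD18 bxD18 :=
  ⟨⟨⟨fun _ => rfl, fun _ => rfl, fun _ => rfl, fun _ => rfl, fun _ => rfl, fun x => by
      simp only [pcD18, Piece.A, Piece.S, ev_add, ev_sub, ev_mul, Ex.eval]; push_cast; ring,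
      rfl, rfl⟩,
      ⟨rfl, rfl, rfl, rfl⟩, rfl, rfl, rfl, rfl, by norm_num [chD18], rfl, rfl, rfl, rfl⟩,
    okD18, certD18⟩

/-- The checks of `D19`. -/
theorem certD19 : Cert pcD19 bxD19 := by
  have h_g1 : ∀ s p l : Bool,
      checkFour bxD19.C 195 7 12 0 5
        (pcD19.at ⟨p, l, !s, !s, false⟩ (c1 s)) = true := by
    decide +kernel
  have h_g2 : ∀ s p l t : Bool,
      checkFour bxD19.C 488 20 30 0 10
        (pcD19.at ⟨p, l, true, true, t⟩ (StripEnd.strict (c2 s))) = true := by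
    decide +kernel
  have h_g5 : ∀ s p l t : Bool,
      checkFour bxD19.C 508 18 28 0 9
        (pcD19.at ⟨p, l, true, true, t⟩ (StripEnd.strict (c5 s))) = true := by
    decide +kernel
  have h_gMG : ∀ p l t : Bool,
      checkFour bxD19.C 395 17 27 0 8
        (pcD19.at ⟨p, l, true, false, t⟩ tplMG) = true := by
    decide +kernel
  have h_v2 : ∀ s : Bool,
      checkFour bxD19.C 101 5 9 0 4
        (pcD19.at ⟨false, false, true, true, false⟩ (curve2 s)) = true := by
    decide +kernel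
  have h_v5 : ∀ s : Bool,
      checkFour bxD19.C 105 6 9 0 4
        (pcD19.at ⟨false, false, true, true, false⟩ (curve5 s)) = true := by
    decide +kernel
  have h_wP : ∀ b hi : Bool,
      checkFour bxD19.C 65 2 3 1 1
        (pcD19.winP b hi) = true := by
    decide +kernel
  have h_wE : ∀ b hi : Bool,
      checkFour bxD19.C 195 11 14 2 3
        (pcD19.winE b hi) = true := by
    decide +kernel
  have h_wK : ∀ b hi : Bool,
      checkFour bxD19.C 186 12 12 2 3
        (pcD19.winK b hi) = true := by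
    decide +kernel
  have h_wW : ∀ b : Bool,
      checkFour bxD19.C 160 8 10 2 3
        (pcD19.winW b) = true := by
    decide +kernel
  have h_wY : ∀ b : Bool,
      checkFour bxD19.C 316 17 21 3 6
        (pcD19.winY b) = true := by
    decide +kernel
  have h_wT : ∀ b hi : Bool,
      checkFour bxD19.C 145 6 9 2 4
        (pcD19.winT b hi) = true := by
    decide +kernel
  have h_gap : ∀ b t : Bool,
      checkFour bxD19.C 349 22 27 3 6
        (pcD19.gap b t) = true := by
    decide +kernel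
  exact {
    pos := ⟨by norm_num [pcD19], by norm_num [pcD19]⟩
    low := ⟨by norm_num [bxD19], by norm_num [bxD19], by norm_num [bxD19]⟩
    sgns := fun f => by
      cases f
      case I => exact ⟨135, 3, 3, 3, 0, by decide +kernel⟩
      case d => exact ⟨138, 3, 3, 3, 0, by decide +kernel⟩
      case A => exact ⟨141, 3, 3, 3, 0, by decide +kernel⟩
      case S => exact ⟨140, 3, 3, 3, 0, by decide +kernel⟩
      case U => exact ⟨140, 3, 3, 3, 0, by decide +kernel⟩
      case den => exact ⟨147, 3, 3, 3, 0, by decide +kernel⟩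
      case o => exact ⟨145, 3, 3, 3, 1, by decide +kernel⟩
      case olt => exact ⟨148, 3, 3, 3, 1, by decide +kernel⟩
      case pd => exact ⟨157, 3, 3, 3, 0, by decide +kernel⟩
      case e0 => exact ⟨169, 3, 3, 3, 0, by decide +kernel⟩
      case f0 => exact ⟨167, 3, 3, 3, 0, by decide +kernel⟩
      case wd => exact ⟨167, 3, 3, 3, 0, by decide +kernel⟩
      case td => exact ⟨167, 3, 3, 3, 0, by decide +kernel⟩
      case cd => exact ⟨140, 3, 3, 3, 0, by decide +kernel⟩
      case kd => exact ⟨147, 3, 3, 3, 0, by decide +kernel⟩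
    kn := ⟨18, 1, 2, 0, 0, by decide +kernel⟩
    k2n := ⟨150, 3, 3, 3, 1, by decide +kernel⟩
    k2d := ⟨147, 3, 3, 3, 0, by decide +kernel⟩
    vs := ⟨140, 3, 3, 3, 0, by decide +kernel⟩
    vMG := ⟨88, 5, 8, 0, 4, by decide +kernel⟩
    g1 := fun s p l => ⟨195, 7, 12, 0, 5, h_g1 s p l⟩
    g2 := fun s p l t => ⟨488, 20, 30, 0, 10, h_g2 s p l t⟩
    g5 := fun s p l t => ⟨508, 18, 28, 0, 9, h_g5 s p l t⟩
    gMG := fun p l t => ⟨395, 17, 27, 0, 8, h_gMG p l t⟩
    v2 := fun s => ⟨101, 5, 9, 0, 4, h_v2 s⟩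
    v5 := fun s => ⟨105, 6, 9, 0, 4, h_v5 s⟩
    wP := fun b hi => ⟨65, 2, 3, 1, 1, h_wP b hi⟩
    wE := fun b hi => ⟨195, 11, 14, 2, 3, h_wE b hi⟩
    wK := fun b hi => ⟨186, 12, 12, 2, 3, h_wK b hi⟩
    wW := fun b => ⟨160, 8, 10, 2, 3, h_wW b⟩
    wY := fun b => ⟨316, 17, 21, 3, 6, h_wY b⟩
    wT := fun b hi => ⟨145, 6, 9, 2, 4, h_wT b hi⟩
    gap := fun b t => ⟨349, 22, 27, 3, 6, h_gap b t⟩
  }

/-- The window of `D19`. -/
theorem okD19 : chD19.Cert where
  flat := ⟨fun _ _ _ _ => rfl, fun _ _ _ _ => rfl, fun _ _ _ _ => rfl, fun _ _ _ _ => rfl,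
    fun _ _ _ _ => rfl, fun _ _ _ _ => rfl⟩
  fits := ⟨by norm_num [chD19], by norm_num [chD19], by norm_num [chD19],
    by norm_num [chD19]⟩
  left := ⟨187, 13, 15, 3, 3, by decide +kernel⟩
  right := ⟨176, 12, 13, 3, 3, by decide +kernel⟩
  up := ⟨204, 13, 16, 3, 4, by decide +kernel⟩
  down := ⟨212, 13, 15, 4, 4, by decide +kernel⟩

/-- The bin `D19`. -/
theorem binD19 : SideBin chD19 pcD19 bxD19 :=
  ⟨⟨⟨fun _ => rfl, fun _ => rfl, fun _ => rfl, fun _ => rfl, fun _ => rfl, fun x => by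
      simp only [pcD19, Piece.A, Piece.S, ev_add, ev_sub, ev_mul, Ex.eval]; push_cast; ring,
      rfl, rfl⟩,
      ⟨rfl, rfl, rfl, rfl⟩, rfl, rfl, rfl, rfl, by norm_num [chD19], rfl, rfl, rfl, rfl⟩,
    okD19, certD19⟩

end Vale.Agent.P100.Calib.StripEndD
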