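import Vale.Agent.P100.Calib.SlabStripEndDShift
import Vale.Agent.P100.Calib.SlabStripEndChart

/-!
# The bins `D24` to `D47` of the strip for `u` near one, `d` large
-/

namespace Vale.Agent.P100.Calib.StripEndD

open Pack hiding ev_add ev_mul
open Pack.Ex StripMid StripEnd

local instance endDDataBAdd : Add Ex := ⟨Ex.add⟩
local instance endDDataBSub : Sub Ex := ⟨Ex.sub⟩
local instance endDDataBMul : Mul Ex := ⟨Ex.mul⟩

/-- The chart `D24`. -/
def chD24 : EndChart where
  I := var 0 * var 1
  d := var 0
  w := var 0 * var 2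
  den := num 100
  n₀ := ((num 1 - num 2 * (var 0 * var 1) - var 0) * var 1) * (num 77 + num (-20) * (var 1))
  n₁ := ((num 1 - num 2 * (var 0 * var 1) - var 0) * var 1) * (num 17 + num 64 * (var 1))
  q₀ := (48, 55, 200)
  q₁ := (0, 209, 1000)
  q₂ := (97, 204, 1000)
  q₃ := (0, 1, 1)
  t₀ := (0, 1)
  t₁ := (1, 1)
  mu₀ := (177, 100)
  mu₁ := (258, 100)

/-- The piece `D24`. -/
def pcD24 : Piece where
  I := var 0 * var 1
  d := var 0
  w := var 0 * var 2
  o := (((num 1 - num 2 * (var 0 * var 1) - var 0) * var 1) * (num 77 + num (-20) * (var 1)) + ((num 1 - num 2 * (var 0 * var 1) - var 0) * var 1) * (num 17 + num 64 * (var 1)) * var 3)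
  den := num 100
  vn := num 2 * var 1 * ((num 77 + num (-20) * (var 1)) + (num 17 + num 64 * (var 1)) * var 3)
  vs := num 1
  mu := ⟨(177, 100), (258, 100)⟩
  pn := fun b => cond b
    (num 100000 * (num 100 - (((num 1 - num 2 * (var 0 * var 1) - var 0) * var 1) * (num 77 + num (-20) * (var 1)) + ((num 1 - num 2 * (var 0 * var 1) - var 0) * var 1) * (num 17 + num 64 * (var 1)) * var 3)) + num (-52632) * ((((num 1 - num 2 * (var 0 * var 1) - var 0) * var 1) * (num 77 + num (-20) * (var 1)) + ((num 1 - num 2 * (var 0 * var 1) - var 0) * var 1) * (num 17 + num 64 * (var 1)) * var 3) * var 0))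
    (num 100000 * (num 100 - (((num 1 - num 2 * (var 0 * var 1) - var 0) * var 1) * (num 77 + num (-20) * (var 1)) + ((num 1 - num 2 * (var 0 * var 1) - var 0) * var 1) * (num 17 + num 64 * (var 1)) * var 3)) + num (-17169) * ((((num 1 - num 2 * (var 0 * var 1) - var 0) * var 1) * (num 77 + num (-20) * (var 1)) + ((num 1 - num 2 * (var 0 * var 1) - var 0) * var 1) * (num 17 + num 64 * (var 1)) * var 3) * var 0))
  pd := num 100000
  en := fun b => cond b
    (num 4216 * (num 421750 * (var 0) * (var 1) + num 212500 * (var 0) * (var 0) * (var 1) + num 43401 + num 53601 * (var 0)))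
    (num 943 * (num 1687000 * (var 0) * (var 1) + num 850000 * (var 0) * (var 0) * (var 1) + num 82547 + num 101947 * (var 0)))
  kk := fun b => cond b
    (num 4060 * (num 38505 * (var 0) + num 70380 * (var 0) * (var 0) + num 48246 * (var 0) * (var 1) + num 306 * (var 0) * (var 3)))
    (num 975 * (num 73235 * (var 0) + num 133860 * (var 0) * (var 0) + num 91762 * (var 0) * (var 1) + num 582 * (var 0) * (var 3)))
  f0 := num 100000000
  wn := fun b => cond b
    (num 1000 * (num (-800000) * (var 0 * var 1) + (num 8000 * (var 0 * var 1) + num 388 * var 0) * (((num 1 - num 2 * (var 0 * var 1) - var 0) * var 1) * (num 77 + num (-20) * (var 1)) + ((num 1 - num 2 * (var 0 * var 1) - var 0) * var 1) * (num 17 + num 64 * (var 1)) * var 3) + var 0 * var 1 * var 0 * (num (-800000) + (num 297000 * (var 1) + num 59364 + num (-2303000) * (var 1) * (var 0) + num (-90889) * (var 0) + num 725000 * (var 1) * (var 3) + num 18430 * (var 3)))) + num (-434) * (num 100 * (var 0 * var 1 * var 0) * (num 1000 * (var 1) + num 97)))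
    (num 1000 * (num (-800000) * (var 0 * var 1) + (num 8000 * (var 0 * var 1) + num 388 * var 0) * (((num 1 - num 2 * (var 0 * var 1) - var 0) * var 1) * (num 77 + num (-20) * (var 1)) + ((num 1 - num 2 * (var 0 * var 1) - var 0) * var 1) * (num 17 + num 64 * (var 1)) * var 3) + var 0 * var 1 * var 0 * (num (-800000) + (num 297000 * (var 1) + num 59364 + num (-2303000) * (var 1) * (var 0) + num (-90889) * (var 0) + num 725000 * (var 1) * (var 3) + num 18430 * (var 3)))) + num (-2711) * (num 100 * (var 0 * var 1 * var 0) * (num 1000 * (var 1) + num 97)))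
  wd := num 100000000
  tn := fun b => cond b
    (num 4036 * (num 2397 + num (-153) * (var 0) + num 1938 * (var 1) + num 102 * (var 3) + num 612 * (var 1) * (var 3)))
    (num 989 * (num 4559 + num (-291) * (var 0) + num 3686 * (var 1) + num 194 * (var 3) + num 1164 * (var 1) * (var 3)))
  td := num 100000000
  cn := num 1 - var 0 * var 1 - var 1 * (num 1 - num 2 * (var 0 * var 1))
  cd := (num 1 - num 2 * (var 0 * var 1)) * (num 1 - num 2 * (var 0 * var 1))
  kn := var 0 * var 1 * (num 374 + num 4500 * (var 1))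
  kd := num 100
  k2n := var 0 * (num 1216 + num (-700) * (var 3) + num (-2200) * (var 1))
  k2d := num 100

/-- Its ranges. -/
def bxD24 : StripEnd.EBox :=
  ⟨(48, 55, 200), (0, 209, 1000), (97, 204, 1000), (0, 1, 1)⟩

/-- The chart `D25`. -/
def chD25 : EndChart where
  I := var 0 * var 1
  d := var 0
  w := var 0 * var 2
  den := num 100
  n₀ := ((num 1 - num 2 * (var 0 * var 1) - var 0) * var 1) * (num 64 + num (-13) * (var 1))
  n₁ := ((num 1 - num 2 * (var 0 * var 1) - var 0) * var 1) * (num 24 + num 46 * (var 1))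
  q₀ := (48, 55, 200)
  q₁ := (0, 209, 1000)
  q₂ := (204, 367, 1000)
  q₃ := (0, 1, 1)
  t₀ := (0, 1)
  t₁ := (1, 1)
  mu₀ := (161, 100)
  mu₁ := (257, 100)

/-- The piece `D25`. -/
def pcD25 : Piece where
  I := var 0 * var 1
  d := var 0
  w := var 0 * var 2
  o := (((num 1 - num 2 * (var 0 * var 1) - var 0) * var 1) * (num 64 + num (-13) * (var 1)) + ((num 1 - num 2 * (var 0 * var 1) - var 0) * var 1) * (num 24 + num 46 * (var 1)) * var 3)
  den := num 100
  vn := num 2 * var 1 * ((num 64 + num (-13) * (var 1)) + (num 24 + num 46 * (var 1)) * var 3)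
  vs := num 1
  mu := ⟨(161, 100), (257, 100)⟩
  pn := fun b => cond b
    (num 100000 * (num 100 - (((num 1 - num 2 * (var 0 * var 1) - var 0) * var 1) * (num 64 + num (-13) * (var 1)) + ((num 1 - num 2 * (var 0 * var 1) - var 0) * var 1) * (num 24 + num 46 * (var 1)) * var 3)) + num (-94319) * ((((num 1 - num 2 * (var 0 * var 1) - var 0) * var 1) * (num 64 + num (-13) * (var 1)) + ((num 1 - num 2 * (var 0 * var 1) - var 0) * var 1) * (num 24 + num 46 * (var 1)) * var 3) * var 0))
    (num 100000 * (num 100 - (((num 1 - num 2 * (var 0 * var 1) - var 0) * var 1) * (num 64 + num (-13) * (var 1)) + ((num 1 - num 2 * (var 0 * var 1) - var 0) * var 1) * (num 24 + num 46 * (var 1)) * var 3)) + num (-32844) * ((((num 1 - num 2 * (var 0 * var 1) - var 0) * var 1) * (num 64 + num (-13) * (var 1)) + ((num 1 - num 2 * (var 0 * var 1) - var 0) * var 1) * (num 24 + num 46 * (var 1)) * var 3) * var 0))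
  pd := num 100000
  en := fun b => cond b
    (num 1053 * (num 2066000 * (var 0) * (var 1) + num 1245000 * (var 0) * (var 0) * (var 1) + num 307913 + num 398562 * (var 0) + num 72000 * (var 0) * (var 1) * (var 1)))
    (num 3796 * (num 516500 * (var 0) * (var 1) + num 311250 * (var 0) * (var 0) * (var 1) + num 42789 + num 55386 * (var 0) + num 18000 * (var 0) * (var 1) * (var 1)))
  kk := fun b => cond b
    (num 1014 * (num 278553 * (var 0) + num 501689 * (var 0) * (var 0) + num 328098 * (var 0) * (var 1) + num 2569 * (var 0) * (var 3)))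
    (num 3896 * (num 38709 * (var 0) + num 69717 * (var 0) * (var 0) + num 45594 * (var 0) * (var 1) + num 357 * (var 0) * (var 3)))
  f0 := num 100000000
  wn := fun b => cond b
    (num 1000 * (num (-200000) * (var 0 * var 1) + (num 2000 * (var 0 * var 1) + num 204 * var 0) * (((num 1 - num 2 * (var 0 * var 1) - var 0) * var 1) * (num 64 + num (-13) * (var 1)) + ((num 1 - num 2 * (var 0 * var 1) - var 0) * var 1) * (num 24 + num 46 * (var 1)) * var 3) + var 0 * var 1 * var 0 * (num (-200000) + (num 35000 * (var 1) + num 22389 + num (-569750) * (var 1) * (var 0) + num (-46971) * (var 0) + num 262000 * (var 1) * (var 3) + num 16728 * (var 3)))) + num (-288) * (num 100 * (var 0 * var 1 * var 0) * (num 250 * (var 1) + num 51)))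
    (num 1000 * (num (-200000) * (var 0 * var 1) + (num 2000 * (var 0 * var 1) + num 204 * var 0) * (((num 1 - num 2 * (var 0 * var 1) - var 0) * var 1) * (num 64 + num (-13) * (var 1)) + ((num 1 - num 2 * (var 0 * var 1) - var 0) * var 1) * (num 24 + num 46 * (var 1)) * var 3) + var 0 * var 1 * var 0 * (num (-200000) + (num 35000 * (var 1) + num 22389 + num (-569750) * (var 1) * (var 0) + num (-46971) * (var 0) + num 262000 * (var 1) * (var 3) + num 16728 * (var 3)))) + num (-2799) * (num 100 * (var 0 * var 1 * var 0) * (num 250 * (var 1) + num 51)))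
  wd := num 25000000
  tn := fun b => cond b
    (num 993 * (num 16515 + num (-734) * (var 0) + num 11010 * (var 1) + num 734 * (var 3) + num 4404 * (var 1) * (var 3)))
    (num 3944 * (num 2295 + num (-102) * (var 0) + num 1530 * (var 1) + num 102 * (var 3) + num 612 * (var 1) * (var 3)))
  td := num 100000000
  cn := num 1 - var 0 * var 1 - var 1 * (num 1 - num 2 * (var 0 * var 1))
  cd := (num 1 - num 2 * (var 0 * var 1)) * (num 1 - num 2 * (var 0 * var 1))
  kn := var 0 * var 1 * (num 500 + num 3500 * (var 1))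
  kd := num 100
  k2n := var 0 * (num 1178 + num (-650) * (var 3) + num (-2200) * (var 1))
  k2d := num 100

/-- Its ranges. -/
def bxD25 : StripEnd.EBox :=
  ⟨(48, 55, 200), (0, 209, 1000), (204, 367, 1000), (0, 1, 1)⟩

/-- The chart `D26`. -/
def chD26 : EndChart where
  I := var 0 * var 1
  d := var 0
  w := var 0 * var 2
  den := num 100
  n₀ := ((num 1 - num 2 * (var 0 * var 1) - var 0) * var 1) * (num 55 + num (-10) * (var 1))
  n₁ := ((num 1 - num 2 * (var 0 * var 1) - var 0) * var 1) * (num 27 + num 26 * (var 1))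
  q₀ := (48, 55, 200)
  q₁ := (0, 209, 1000)
  q₂ := (367, 532, 1000)
  q₃ := (0, 1, 1)
  t₀ := (0, 1)
  t₁ := (1, 1)
  mu₀ := (148, 100)
  mu₁ := (255, 100)

/-- The piece `D26`. -/
def pcD26 : Piece where
  I := var 0 * var 1
  d := var 0
  w := var 0 * var 2
  o := (((num 1 - num 2 * (var 0 * var 1) - var 0) * var 1) * (num 55 + num (-10) * (var 1)) + ((num 1 - num 2 * (var 0 * var 1) - var 0) * var 1) * (num 27 + num 26 * (var 1)) * var 3)
  den := num 100
  vn := num 2 * var 1 * ((num 55 + num (-10) * (var 1)) + (num 27 + num 26 * (var 1)) * var 3)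
  vs := num 1
  mu := ⟨(148, 100), (255, 100)⟩
  pn := fun b => cond b
    (num 100000 * (num 100 - (((num 1 - num 2 * (var 0 * var 1) - var 0) * var 1) * (num 55 + num (-10) * (var 1)) + ((num 1 - num 2 * (var 0 * var 1) - var 0) * var 1) * (num 27 + num 26 * (var 1)) * var 3)) + num (-135660) * ((((num 1 - num 2 * (var 0 * var 1) - var 0) * var 1) * (num 55 + num (-10) * (var 1)) + ((num 1 - num 2 * (var 0 * var 1) - var 0) * var 1) * (num 27 + num 26 * (var 1)) * var 3) * var 0))
    (num 100000 * (num 100 - (((num 1 - num 2 * (var 0 * var 1) - var 0) * var 1) * (num 55 + num (-10) * (var 1)) + ((num 1 - num 2 * (var 0 * var 1) - var 0) * var 1) * (num 27 + num 26 * (var 1)) * var 3)) + num (-54316) * ((((num 1 - num 2 * (var 0 * var 1) - var 0) * var 1) * (num 55 + num (-10) * (var 1)) + ((num 1 - num 2 * (var 0 * var 1) - var 0) * var 1) * (num 27 + num 26 * (var 1)) * var 3) * var 0))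
  pd := num 100000
  en := fun b => cond b
    (num 4156 * (num 735000 * (var 0) * (var 1) + num 159500 * (var 0) * (var 0) * (var 1) + num 109725 + num 150157 * (var 0) + num (-102250) * (var 0) * (var 1) * (var 1)))
    (num 960 * (num 2940000 * (var 0) * (var 1) + num 638000 * (var 0) * (var 0) * (var 1) + num 302775 + num 414343 * (var 0) + num (-409000) * (var 0) * (var 1) * (var 1)))
  kk := fun b => cond b
    (num 4052 * (num 101479 * (var 0) + num 180348 * (var 0) * (var 0) + num 112252 * (var 0) * (var 1) + num 798 * (var 0) * (var 3)))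
    (num 975 * (num 280021 * (var 0) + num 497652 * (var 0) * (var 0) + num 309748 * (var 0) * (var 1) + num 2202 * (var 0) * (var 3)))
  f0 := num 100000000
  wn := fun b => cond b
    (num 1000 * (num (-800000) * (var 0 * var 1) + (num 8000 * (var 0 * var 1) + num 1468 * var 0) * (((num 1 - num 2 * (var 0 * var 1) - var 0) * var 1) * (num 55 + num (-10) * (var 1)) + ((num 1 - num 2 * (var 0 * var 1) - var 0) * var 1) * (num 27 + num 26 * (var 1)) * var 3) + var 0 * var 1 * var 0 * (num (-800000) + (num 82000 * (var 1) + num 115238 + num (-2512000) * (var 1) * (var 0) + num (-357091) * (var 0) + num 1355000 * (var 1) * (var 3) + num 168453 * (var 3)))) + num (-9) * (num 100 * (var 0 * var 1 * var 0) * (num 1000 * (var 1) + num 367)))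
    (num 1000 * (num (-800000) * (var 0 * var 1) + (num 8000 * (var 0 * var 1) + num 1468 * var 0) * (((num 1 - num 2 * (var 0 * var 1) - var 0) * var 1) * (num 55 + num (-10) * (var 1)) + ((num 1 - num 2 * (var 0 * var 1) - var 0) * var 1) * (num 27 + num 26 * (var 1)) * var 3) + var 0 * var 1 * var 0 * (num (-800000) + (num 82000 * (var 1) + num 115238 + num (-2512000) * (var 1) * (var 0) + num (-357091) * (var 0) + num 1355000 * (var 1) * (var 3) + num 168453 * (var 3)))) + num (-2479) * (num 100 * (var 0 * var 1 * var 0) * (num 1000 * (var 1) + num 367)))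
  wd := num 100000000
  tn := fun b => cond b
    (num 3972 * (num 5586 + num 133 * (var 0) + num 3059 * (var 1) + num 266 * (var 3) + num 1197 * (var 1) * (var 3)))
    (num 985 * (num 15414 + num 367 * (var 0) + num 8441 * (var 1) + num 734 * (var 3) + num 3303 * (var 1) * (var 3)))
  td := num 100000000
  cn := num 1 - var 0 * var 1 - var 1 * (num 1 - num 2 * (var 0 * var 1))
  cd := (num 1 - num 2 * (var 0 * var 1)) * (num 1 - num 2 * (var 0 * var 1))
  kn := var 0 * var 1 * (num 551 + num 3000 * (var 1))
  kd := num 100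
  k2n := var 0 * (num 1016 + num (-550) * (var 3) + num (-1800) * (var 1))
  k2d := num 100

/-- Its ranges. -/
def bxD26 : StripEnd.EBox :=
  ⟨(48, 55, 200), (0, 209, 1000), (367, 532, 1000), (0, 1, 1)⟩

/-- The chart `D27`. -/
def chD27 : EndChart where
  I := var 0 * var 1
  d := var 0
  w := var 0 * var 2
  den := num 100
  n₀ := ((num 1 - num 2 * (var 0 * var 1) - var 0) * var 1) * (num 44 + num (-9) * (var 1))
  n₁ := ((num 1 - num 2 * (var 0 * var 1) - var 0) * var 1) * (num 31 + num 23 * (var 1))
  q₀ := (48, 55, 200)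
  q₁ := (0, 209, 1000)
  q₂ := (399, 625, 750)
  q₃ := (0, 1, 1)
  t₀ := (0, 1)
  t₁ := (1, 1)
  mu₀ := (126, 100)
  mu₁ := (256, 100)

/-- The piece `D27`. -/
def pcD27 : Piece where
  I := var 0 * var 1
  d := var 0
  w := var 0 * var 2
  o := (((num 1 - num 2 * (var 0 * var 1) - var 0) * var 1) * (num 44 + num (-9) * (var 1)) + ((num 1 - num 2 * (var 0 * var 1) - var 0) * var 1) * (num 31 + num 23 * (var 1)) * var 3)
  den := num 100
  vn := num 2 * var 1 * ((num 44 + num (-9) * (var 1)) + (num 31 + num 23 * (var 1)) * var 3)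
  vs := num 1
  mu := ⟨(126, 100), (256, 100)⟩
  pn := fun b => cond b
    (num 50000 * (num 100 - (((num 1 - num 2 * (var 0 * var 1) - var 0) * var 1) * (num 44 + num (-9) * (var 1)) + ((num 1 - num 2 * (var 0 * var 1) - var 0) * var 1) * (num 31 + num 23 * (var 1)) * var 3)) + num (-106752) * ((((num 1 - num 2 * (var 0 * var 1) - var 0) * var 1) * (num 44 + num (-9) * (var 1)) + ((num 1 - num 2 * (var 0 * var 1) - var 0) * var 1) * (num 31 + num 23 * (var 1)) * var 3) * var 0))
    (num 50000 * (num 100 - (((num 1 - num 2 * (var 0 * var 1) - var 0) * var 1) * (num 44 + num (-9) * (var 1)) + ((num 1 - num 2 * (var 0 * var 1) - var 0) * var 1) * (num 31 + num 23 * (var 1)) * var 3)) + num (-33516) * ((((num 1 - num 2 * (var 0 * var 1) - var 0) * var 1) * (num 44 + num (-9) * (var 1)) + ((num 1 - num 2 * (var 0 * var 1) - var 0) * var 1) * (num 31 + num 23 * (var 1)) * var 3) * var 0))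
  pd := num 50000
  en := fun b => cond b
    (num 1052 * (num 2090000 * (var 0) * (var 1) + num (-879000) * (var 0) * (var 0) * (var 1) + num 346527 + num 459534 * (var 0) + num (-353500) * (var 0) * (var 1) * (var 1)))
    (num 1936 * (num 1045000 * (var 0) * (var 1) + num (-439500) * (var 0) * (var 0) * (var 1) + num 110523 + num 146566 * (var 0) + num (-176750) * (var 0) * (var 1) * (var 1)))
  kk := fun b => cond b
    (num 1013 * (num 318588 * (var 0) + num 564201 * (var 0) * (var 0) + num 332766 * (var 0) * (var 1) + num 2085 * (var 0) * (var 3)))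
    (num 1952 * (num 101612 * (var 0) + num 179949 * (var 0) * (var 0) + num 106134 * (var 0) * (var 1) + num 665 * (var 0) * (var 3)))
  f0 := num 50000000
  wn := fun b => cond b
    (num 1000 * (num (-200000) * (var 0 * var 1) + (num 2000 * (var 0 * var 1) + num 532 * var 0) * (((num 1 - num 2 * (var 0 * var 1) - var 0) * var 1) * (num 44 + num (-9) * (var 1)) + ((num 1 - num 2 * (var 0 * var 1) - var 0) * var 1) * (num 31 + num 23 * (var 1)) * var 3) + var 0 * var 1 * var 0 * (num (-200000) + (num (-15000) * (var 1) + num 39767 + num (-782000) * (var 1) * (var 0) + num (-212002) * (var 0) + num 450250 * (var 1) * (var 3) + num 78603 * (var 3)))) + num 373 * (num 100 * (var 0 * var 1 * var 0) * (num 250 * (var 1) + num 133)))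
    (num 1000 * (num (-200000) * (var 0 * var 1) + (num 2000 * (var 0 * var 1) + num 532 * var 0) * (((num 1 - num 2 * (var 0 * var 1) - var 0) * var 1) * (num 44 + num (-9) * (var 1)) + ((num 1 - num 2 * (var 0 * var 1) - var 0) * var 1) * (num 31 + num 23 * (var 1)) * var 3) + var 0 * var 1 * var 0 * (num (-200000) + (num (-15000) * (var 1) + num 39767 + num (-782000) * (var 1) * (var 0) + num (-212002) * (var 0) + num 450250 * (var 1) * (var 3) + num 78603 * (var 3)))) + num (-2602) * (num 100 * (var 0 * var 1 * var 0) * (num 250 * (var 1) + num 133)))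
  wd := num 25000000
  tn := fun b => cond b
    (num 966 * (num 14595 + num 7506 * (var 0) + num 7506 * (var 1) + num 834 * (var 3) + num 3753 * (var 1) * (var 3)))
    (num 1960 * (num 4655 + num 2394 * (var 0) + num 2394 * (var 1) + num 266 * (var 3) + num 1197 * (var 1) * (var 3)))
  td := num 50000000
  cn := num 1 - var 0 * var 1 - var 1 * (num 1 - num 2 * (var 0 * var 1))
  cd := (num 1 - num 2 * (var 0 * var 1)) * (num 1 - num 2 * (var 0 * var 1))
  kn := var 0 * var 1 * (num 729 + num 2500 * (var 1))
  kd := num 100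
  k2n := var 0 * (num 1304 + num (-700) * (var 3) + num (-2300) * (var 1))
  k2d := num 100

/-- Its ranges. -/
def bxD27 : StripEnd.EBox :=
  ⟨(48, 55, 200), (0, 209, 1000), (399, 625, 750), (0, 1, 1)⟩

/-- The chart `D28`. -/
def chD28 : EndChart where
  I := var 0 * var 1
  d := var 0
  w := var 0 * var 2
  den := num 100
  n₀ := ((num 1 - num 2 * (var 0 * var 1) - var 0) * var 1) * (num 92 + num (-10) * (var 1))
  n₁ := ((num 1 - num 2 * (var 0 * var 1) - var 0) * var 1) * (num 7 + num 66 * (var 1))
  q₀ := (11, 12, 40)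
  q₁ := (0, 91, 500)
  q₂ := (15, 27, 500)
  q₃ := (0, 1, 1)
  t₀ := (0, 1)
  t₁ := (1, 1)
  mu₀ := (185, 100)
  mu₁ := (259, 100)

/-- The piece `D28`. -/
def pcD28 : Piece where
  I := var 0 * var 1
  d := var 0
  w := var 0 * var 2
  o := (((num 1 - num 2 * (var 0 * var 1) - var 0) * var 1) * (num 92 + num (-10) * (var 1)) + ((num 1 - num 2 * (var 0 * var 1) - var 0) * var 1) * (num 7 + num 66 * (var 1)) * var 3)
  den := num 100
  vn := num 2 * var 1 * ((num 92 + num (-10) * (var 1)) + (num 7 + num 66 * (var 1)) * var 3)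
  vs := num 1
  mu := ⟨(185, 100), (259, 100)⟩
  pn := fun b => cond b
    (num 50000 * (num 100 - (((num 1 - num 2 * (var 0 * var 1) - var 0) * var 1) * (num 92 + num (-10) * (var 1)) + ((num 1 - num 2 * (var 0 * var 1) - var 0) * var 1) * (num 7 + num 66 * (var 1)) * var 3)) + num (-6993) * ((((num 1 - num 2 * (var 0 * var 1) - var 0) * var 1) * (num 92 + num (-10) * (var 1)) + ((num 1 - num 2 * (var 0 * var 1) - var 0) * var 1) * (num 7 + num 66 * (var 1)) * var 3) * var 0))
    (num 50000 * (num 100 - (((num 1 - num 2 * (var 0 * var 1) - var 0) * var 1) * (num 92 + num (-10) * (var 1)) + ((num 1 - num 2 * (var 0 * var 1) - var 0) * var 1) * (num 7 + num 66 * (var 1)) * var 3)) + num (-2775) * ((((num 1 - num 2 * (var 0 * var 1) - var 0) * var 1) * (num 92 + num (-10) * (var 1)) + ((num 1 - num 2 * (var 0 * var 1) - var 0) * var 1) * (num 7 + num 66 * (var 1)) * var 3) * var 0))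
  pd := num 50000
  en := fun b => cond b
    (num 1030 * (num 825500 * (var 0) * (var 1) + num (-102500) * (var 0) * (var 0) * (var 1) + num 24786 + num 21492 * (var 0) + num (-220500) * (var 0) * (var 1) * (var 1)))
    (num 4840 * (num 165100 * (var 0) * (var 1) + num (-20500) * (var 0) * (var 0) * (var 1) + num 2754 + num 2388 * (var 0) + num (-44100) * (var 0) * (var 1) * (var 1)))
  kk := fun b => cond b
    (num 1010 * (num 22653 * (var 0) + num 28512 * (var 0) * (var 0) + num 30078 * (var 0) * (var 1) + num 135 * (var 0) * (var 3)))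
    (num 4895 * (num 2517 * (var 0) + num 3168 * (var 0) * (var 0) + num 3342 * (var 0) * (var 1) + num 15 * (var 0) * (var 3)))
  f0 := num 50000000
  wn := fun b => cond b
    (num 1000 * (num (-80000) * (var 0 * var 1) + (num 800 * (var 0 * var 1) + num 12 * var 0) * (((num 1 - num 2 * (var 0 * var 1) - var 0) * var 1) * (num 92 + num (-10) * (var 1)) + ((num 1 - num 2 * (var 0 * var 1) - var 0) * var 1) * (num 7 + num 66 * (var 1)) * var 3) + var 0 * var 1 * var 0 * (num (-80000) + (num 32500 * (var 1) + num 2532 + num (-173400) * (var 1) * (var 0) + num (-3399) * (var 0) + num 41100 * (var 1) * (var 3) + num 132 * (var 3)))) + num (-84) * (num 100 * (var 0 * var 1 * var 0) * (num 100 * (var 1) + num 3)))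
    (num 1000 * (num (-80000) * (var 0 * var 1) + (num 800 * (var 0 * var 1) + num 12 * var 0) * (((num 1 - num 2 * (var 0 * var 1) - var 0) * var 1) * (num 92 + num (-10) * (var 1)) + ((num 1 - num 2 * (var 0 * var 1) - var 0) * var 1) * (num 7 + num 66 * (var 1)) * var 3) + var 0 * var 1 * var 0 * (num (-80000) + (num 32500 * (var 1) + num 2532 + num (-173400) * (var 1) * (var 0) + num (-3399) * (var 0) + num 41100 * (var 1) * (var 3) + num 132 * (var 3)))) + num (-1785) * (num 100 * (var 0 * var 1 * var 0) * (num 100 * (var 1) + num 3)))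
  wd := num 10000000
  tn := fun b => cond b
    (num 1010 * (num 1350 + num (-81) * (var 0) + num 1296 * (var 1) + num 189 * (var 1) * (var 3)))
    (num 4930 * (num 150 + num (-9) * (var 0) + num 144 * (var 1) + num 21 * (var 1) * (var 3)))
  td := num 50000000
  cn := num 1 - var 0 * var 1 - var 1 * (num 1 - num 2 * (var 0 * var 1))
  cd := (num 1 - num 2 * (var 0 * var 1)) * (num 1 - num 2 * (var 0 * var 1))
  kn := var 0 * var 1 * (num 265 + num 2500 * (var 1))
  kd := num 100
  k2n := var 0 * (num 1072 + num (-600) * (var 3) + num (-1900) * (var 1))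
  k2d := num 100

/-- Its ranges. -/
def bxD28 : StripEnd.EBox :=
  ⟨(11, 12, 40), (0, 91, 500), (15, 27, 500), (0, 1, 1)⟩

/-- The chart `D29`. -/
def chD29 : EndChart where
  I := var 0 * var 1
  d := var 0
  w := var 0 * var 2
  den := num 100
  n₀ := ((num 1 - num 2 * (var 0 * var 1) - var 0) * var 1) * (num 86 + num (-14) * (var 1))
  n₁ := ((num 1 - num 2 * (var 0 * var 1) - var 0) * var 1) * (num 11 + num 68 * (var 1))
  q₀ := (11, 12, 40)
  q₁ := (0, 91, 500)
  q₂ := (54, 113, 1000)
  q₃ := (0, 1, 1)
  t₀ := (0, 1)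
  t₁ := (1, 1)
  mu₀ := (185, 100)
  mu₁ := (259, 100)

/-- The piece `D29`. -/
def pcD29 : Piece where
  I := var 0 * var 1
  d := var 0
  w := var 0 * var 2
  o := (((num 1 - num 2 * (var 0 * var 1) - var 0) * var 1) * (num 86 + num (-14) * (var 1)) + ((num 1 - num 2 * (var 0 * var 1) - var 0) * var 1) * (num 11 + num 68 * (var 1)) * var 3)
  den := num 100
  vn := num 2 * var 1 * ((num 86 + num (-14) * (var 1)) + (num 11 + num 68 * (var 1)) * var 3)
  vs := num 1
  mu := ⟨(185, 100), (259, 100)⟩
  pn := fun b => cond b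
    (num 100000 * (num 100 - (((num 1 - num 2 * (var 0 * var 1) - var 0) * var 1) * (num 86 + num (-14) * (var 1)) + ((num 1 - num 2 * (var 0 * var 1) - var 0) * var 1) * (num 11 + num 68 * (var 1)) * var 3)) + num (-29267) * ((((num 1 - num 2 * (var 0 * var 1) - var 0) * var 1) * (num 86 + num (-14) * (var 1)) + ((num 1 - num 2 * (var 0 * var 1) - var 0) * var 1) * (num 11 + num 68 * (var 1)) * var 3) * var 0))
    (num 100000 * (num 100 - (((num 1 - num 2 * (var 0 * var 1) - var 0) * var 1) * (num 86 + num (-14) * (var 1)) + ((num 1 - num 2 * (var 0 * var 1) - var 0) * var 1) * (num 11 + num 68 * (var 1)) * var 3)) + num (-9990) * ((((num 1 - num 2 * (var 0 * var 1) - var 0) * var 1) * (num 86 + num (-14) * (var 1)) + ((num 1 - num 2 * (var 0 * var 1) - var 0) * var 1) * (num 11 + num 68 * (var 1)) * var 3) * var 0))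
  pd := num 100000
  en := fun b => cond b
    (num 1043 * (num 1528000 * (var 0) * (var 1) + num 578000 * (var 0) * (var 0) * (var 1) + num 106785 + num 80908 * (var 0) + num (-165000) * (var 0) * (var 1) * (var 1)))
    (num 1904 * (num 764000 * (var 0) * (var 1) + num 289000 * (var 0) * (var 0) * (var 1) + num 25515 + num 19332 * (var 0) + num (-82500) * (var 0) * (var 1) * (var 1)))
  kk := fun b => cond b
    (num 1012 * (num 94807 * (var 0) + num 118989 * (var 0) * (var 0) + num 123283 * (var 0) * (var 1) + num 452 * (var 0) * (var 3)))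
    (num 1960 * (num 22653 * (var 0) + num 28431 * (var 0) * (var 0) + num 29457 * (var 0) * (var 1) + num 108 * (var 0) * (var 3)))
  f0 := num 100000000
  wn := fun b => cond b
    (num 1000 * (num (-400000) * (var 0 * var 1) + (num 4000 * (var 0 * var 1) + num 108 * var 0) * (((num 1 - num 2 * (var 0 * var 1) - var 0) * var 1) * (num 86 + num (-14) * (var 1)) + ((num 1 - num 2 * (var 0 * var 1) - var 0) * var 1) * (num 11 + num 68 * (var 1)) * var 3) + var 0 * var 1 * var 0 * (num (-400000) + (num 104500 * (var 1) + num 20682 + num (-778500) * (var 1) * (var 0) + num (-29916) * (var 0) + num 258000 * (var 1) * (var 3) + num 2889 * (var 3)))) + num (-281) * (num 100 * (var 0 * var 1 * var 0) * (num 500 * (var 1) + num 27)))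
    (num 1000 * (num (-400000) * (var 0 * var 1) + (num 4000 * (var 0 * var 1) + num 108 * var 0) * (((num 1 - num 2 * (var 0 * var 1) - var 0) * var 1) * (num 86 + num (-14) * (var 1)) + ((num 1 - num 2 * (var 0 * var 1) - var 0) * var 1) * (num 11 + num 68 * (var 1)) * var 3) + var 0 * var 1 * var 0 * (num (-400000) + (num 104500 * (var 1) + num 20682 + num (-778500) * (var 1) * (var 0) + num (-29916) * (var 0) + num 258000 * (var 1) * (var 3) + num 2889 * (var 3)))) + num (-2218) * (num 100 * (var 0 * var 1 * var 0) * (num 500 * (var 1) + num 27)))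
  wd := num 50000000
  tn := fun b => cond b
    (num 1001 * (num 5537 + num (-339) * (var 0) + num 4972 * (var 1) + num 113 * (var 3) + num 904 * (var 1) * (var 3)))
    (num 1980 * (num 1323 + num (-81) * (var 0) + num 1188 * (var 1) + num 27 * (var 3) + num 216 * (var 1) * (var 3)))
  td := num 100000000
  cn := num 1 - var 0 * var 1 - var 1 * (num 1 - num 2 * (var 0 * var 1))
  cd := (num 1 - num 2 * (var 0 * var 1)) * (num 1 - num 2 * (var 0 * var 1))
  kn := var 0 * var 1 * (num 353 + num 3500 * (var 1))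
  kd := num 100
  k2n := var 0 * (num 1149 + num (-650) * (var 3) + num (-2300) * (var 1))
  k2d := num 100

/-- Its ranges. -/
def bxD29 : StripEnd.EBox :=
  ⟨(11, 12, 40), (0, 91, 500), (54, 113, 1000), (0, 1, 1)⟩

/-- The chart `D30`. -/
def chD30 : EndChart where
  I := var 0 * var 1
  d := var 0
  w := var 0 * var 2
  den := num 100
  n₀ := ((num 1 - num 2 * (var 0 * var 1) - var 0) * var 1) * (num 74 + num (-11) * (var 1))
  n₁ := ((num 1 - num 2 * (var 0 * var 1) - var 0) * var 1) * (num 20 + num 54 * (var 1))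
  q₀ := (11, 12, 40)
  q₁ := (0, 91, 500)
  q₂ := (113, 237, 1000)
  q₃ := (0, 1, 1)
  t₀ := (0, 1)
  t₁ := (1, 1)
  mu₀ := (172, 100)
  mu₁ := (258, 100)

/-- The piece `D30`. -/
def pcD30 : Piece where
  I := var 0 * var 1
  d := var 0
  w := var 0 * var 2
  o := (((num 1 - num 2 * (var 0 * var 1) - var 0) * var 1) * (num 74 + num (-11) * (var 1)) + ((num 1 - num 2 * (var 0 * var 1) - var 0) * var 1) * (num 20 + num 54 * (var 1)) * var 3)
  den := num 100
  vn := num 2 * var 1 * ((num 74 + num (-11) * (var 1)) + (num 20 + num 54 * (var 1)) * var 3)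
  vs := num 1
  mu := ⟨(172, 100), (258, 100)⟩
  pn := fun b => cond b
    (num 100000 * (num 100 - (((num 1 - num 2 * (var 0 * var 1) - var 0) * var 1) * (num 74 + num (-11) * (var 1)) + ((num 1 - num 2 * (var 0 * var 1) - var 0) * var 1) * (num 20 + num 54 * (var 1)) * var 3)) + num (-61146) * ((((num 1 - num 2 * (var 0 * var 1) - var 0) * var 1) * (num 74 + num (-11) * (var 1)) + ((num 1 - num 2 * (var 0 * var 1) - var 0) * var 1) * (num 20 + num 54 * (var 1)) * var 3) * var 0))
    (num 100000 * (num 100 - (((num 1 - num 2 * (var 0 * var 1) - var 0) * var 1) * (num 74 + num (-11) * (var 1)) + ((num 1 - num 2 * (var 0 * var 1) - var 0) * var 1) * (num 20 + num 54 * (var 1)) * var 3)) + num (-19436) * ((((num 1 - num 2 * (var 0 * var 1) - var 0) * var 1) * (num 74 + num (-11) * (var 1)) + ((num 1 - num 2 * (var 0 * var 1) - var 0) * var 1) * (num 20 + num 54 * (var 1)) * var 3) * var 0))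
  pd := num 100000
  en := fun b => cond b
    (num 1055 * (num 1414000 * (var 0) * (var 1) + num 1830000 * (var 0) * (var 0) * (var 1) + num 225861 + num 163530 * (var 0) + num 242000 * (var 0) * (var 1) * (var 1)))
    (num 944 * (num 1414000 * (var 0) * (var 1) + num 1830000 * (var 0) * (var 0) * (var 1) + num 107689 + num 77970 * (var 0) + num 242000 * (var 0) * (var 1) * (var 1)))
  kk := fun b => cond b
    (num 1011 * (num 199317 * (var 0) + num 248139 * (var 0) * (var 0) + num 247902 * (var 0) * (var 1) + num 1422 * (var 0) * (var 3)))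
    (num 978 * (num 95033 * (var 0) + num 118311 * (var 0) * (var 0) + num 118198 * (var 0) * (var 1) + num 678 * (var 0) * (var 3)))
  f0 := num 100000000
  wn := fun b => cond b
    (num 1000 * (num (-800000) * (var 0 * var 1) + (num 8000 * (var 0 * var 1) + num 452 * var 0) * (((num 1 - num 2 * (var 0 * var 1) - var 0) * var 1) * (num 74 + num (-11) * (var 1)) + ((num 1 - num 2 * (var 0 * var 1) - var 0) * var 1) * (num 20 + num 54 * (var 1)) * var 3) + var 0 * var 1 * var 0 * (num (-800000) + (num 30000 * (var 1) + num 69495 + num (-1358000) * (var 1) * (var 0) + num (-121814) * (var 0) + num 740000 * (var 1) * (var 3) + num 27007 * (var 3)))) + num (-217) * (num 100 * (var 0 * var 1 * var 0) * (num 1000 * (var 1) + num 113)))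
    (num 1000 * (num (-800000) * (var 0 * var 1) + (num 8000 * (var 0 * var 1) + num 452 * var 0) * (((num 1 - num 2 * (var 0 * var 1) - var 0) * var 1) * (num 74 + num (-11) * (var 1)) + ((num 1 - num 2 * (var 0 * var 1) - var 0) * var 1) * (num 20 + num 54 * (var 1)) * var 3) + var 0 * var 1 * var 0 * (num (-800000) + (num 30000 * (var 1) + num 69495 + num (-1358000) * (var 1) * (var 0) + num (-121814) * (var 0) + num 740000 * (var 1) * (var 3) + num 27007 * (var 3)))) + num (-2765) * (num 100 * (var 0 * var 1 * var 0) * (num 1000 * (var 1) + num 113)))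
  wd := num 100000000
  tn := fun b => cond b
    (num 1009 * (num 11139 + num (-948) * (var 0) + num 8532 * (var 1) + num 474 * (var 3) + num 2370 * (var 1) * (var 3)))
    (num 996 * (num 5311 + num (-452) * (var 0) + num 4068 * (var 1) + num 226 * (var 3) + num 1130 * (var 1) * (var 3)))
  td := num 100000000
  cn := num 1 - var 0 * var 1 - var 1 * (num 1 - num 2 * (var 0 * var 1))
  cd := (num 1 - num 2 * (var 0 * var 1)) * (num 1 - num 2 * (var 0 * var 1))
  kn := var 0 * var 1 * (num 391 + num 4500 * (var 1))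
  kd := num 100
  k2n := var 0 * (num 1295 + num (-800) * (var 3) + num (-2400) * (var 1))
  k2d := num 100

/-- Its ranges. -/
def bxD30 : StripEnd.EBox :=
  ⟨(11, 12, 40), (0, 91, 500), (113, 237, 1000), (0, 1, 1)⟩

/-- The chart `D31`. -/
def chD31 : EndChart where
  I := var 0 * var 1
  d := var 0
  w := var 0 * var 2
  den := num 100
  n₀ := ((num 1 - num 2 * (var 0 * var 1) - var 0) * var 1) * (num 61 + num (-8) * (var 1))
  n₁ := ((num 1 - num 2 * (var 0 * var 1) - var 0) * var 1) * (num 26 + num 41 * (var 1))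
  q₀ := (11, 12, 40)
  q₁ := (0, 91, 500)
  q₂ := (237, 427, 1000)
  q₃ := (0, 1, 1)
  t₀ := (0, 1)
  t₁ := (1, 1)
  mu₀ := (151, 100)
  mu₁ := (257, 100)

/-- The piece `D31`. -/
def pcD31 : Piece where
  I := var 0 * var 1
  d := var 0
  w := var 0 * var 2
  o := (((num 1 - num 2 * (var 0 * var 1) - var 0) * var 1) * (num 61 + num (-8) * (var 1)) + ((num 1 - num 2 * (var 0 * var 1) - var 0) * var 1) * (num 26 + num 41 * (var 1)) * var 3)
  den := num 100
  vn := num 2 * var 1 * ((num 61 + num (-8) * (var 1)) + (num 26 + num 41 * (var 1)) * var 3)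
  vs := num 1
  mu := ⟨(151, 100), (257, 100)⟩
  pn := fun b => cond b
    (num 100000 * (num 100 - (((num 1 - num 2 * (var 0 * var 1) - var 0) * var 1) * (num 61 + num (-8) * (var 1)) + ((num 1 - num 2 * (var 0 * var 1) - var 0) * var 1) * (num 26 + num 41 * (var 1)) * var 3)) + num (-109739) * ((((num 1 - num 2 * (var 0 * var 1) - var 0) * var 1) * (num 61 + num (-8) * (var 1)) + ((num 1 - num 2 * (var 0 * var 1) - var 0) * var 1) * (num 26 + num 41 * (var 1)) * var 3) * var 0))
    (num 100000 * (num 100 - (((num 1 - num 2 * (var 0 * var 1) - var 0) * var 1) * (num 61 + num (-8) * (var 1)) + ((num 1 - num 2 * (var 0 * var 1) - var 0) * var 1) * (num 26 + num 41 * (var 1)) * var 3)) + num (-35787) * ((((num 1 - num 2 * (var 0 * var 1) - var 0) * var 1) * (num 61 + num (-8) * (var 1)) + ((num 1 - num 2 * (var 0 * var 1) - var 0) * var 1) * (num 26 + num 41 * (var 1)) * var 3) * var 0))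
  pd := num 100000
  en := fun b => cond b
    (num 1051 * (num 1737000 * (var 0) * (var 1) + num 2582000 * (var 0) * (var 0) * (var 1) + num 398391 + num 321958 * (var 0) + num 342000 * (var 0) * (var 1) * (var 1)))
    (num 948 * (num 1737000 * (var 0) * (var 1) + num 2582000 * (var 0) * (var 0) * (var 1) + num 221121 + num 178698 * (var 0) + num 342000 * (var 0) * (var 1) * (var 1)))
  kk := fun b => cond b
    (num 1011 * (num 360388 * (var 0) + num 443226 * (var 0) * (var 0) + num 420595 * (var 0) * (var 1) + num 2562 * (var 0) * (var 3)))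
    (num 977 * (num 200028 * (var 0) + num 246006 * (var 0) * (var 0) + num 233445 * (var 0) * (var 1) + num 1422 * (var 0) * (var 3)))
  f0 := num 100000000
  wn := fun b => cond b
    (num 1000 * (num (-800000) * (var 0 * var 1) + (num 8000 * (var 0 * var 1) + num 948 * var 0) * (((num 1 - num 2 * (var 0 * var 1) - var 0) * var 1) * (num 61 + num (-8) * (var 1)) + ((num 1 - num 2 * (var 0 * var 1) - var 0) * var 1) * (num 26 + num 41 * (var 1)) * var 3) + var 0 * var 1 * var 0 * (num (-800000) + (num (-154000) * (var 1) + num 102384 + num (-1327000) * (var 1) * (var 0) + num (-246954) * (var 0) + num 1107000 * (var 1) * (var 3) + num 88638 * (var 3)))) + num (-146) * (num 100 * (var 0 * var 1 * var 0) * (num 1000 * (var 1) + num 237)))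
    (num 1000 * (num (-800000) * (var 0 * var 1) + (num 8000 * (var 0 * var 1) + num 948 * var 0) * (((num 1 - num 2 * (var 0 * var 1) - var 0) * var 1) * (num 61 + num (-8) * (var 1)) + ((num 1 - num 2 * (var 0 * var 1) - var 0) * var 1) * (num 26 + num 41 * (var 1)) * var 3) + var 0 * var 1 * var 0 * (num (-800000) + (num (-154000) * (var 1) + num 102384 + num (-1327000) * (var 1) * (var 0) + num (-246954) * (var 0) + num 1107000 * (var 1) * (var 3) + num 88638 * (var 3)))) + num (-2852) * (num 100 * (var 0 * var 1 * var 0) * (num 1000 * (var 1) + num 237)))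
  wd := num 100000000
  tn := fun b => cond b
    (num 1010 * (num 18788 + num (-1281) * (var 0) + num 11956 * (var 1) + num 1281 * (var 3) + num 4270 * (var 1) * (var 3)))
    (num 987 * (num 10428 + num (-711) * (var 0) + num 6636 * (var 1) + num 711 * (var 3) + num 2370 * (var 1) * (var 3)))
  td := num 100000000
  cn := num 1 - var 0 * var 1 - var 1 * (num 1 - num 2 * (var 0 * var 1))
  cd := (num 1 - num 2 * (var 0 * var 1)) * (num 1 - num 2 * (var 0 * var 1))
  kn := var 0 * var 1 * (num 527 + num 3500 * (var 1))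
  kd := num 100
  k2n := var 0 * (num 1277 + num (-750) * (var 3) + num (-2400) * (var 1))
  k2d := num 100

/-- Its ranges. -/
def bxD31 : StripEnd.EBox :=
  ⟨(11, 12, 40), (0, 91, 500), (237, 427, 1000), (0, 1, 1)⟩

/-- The chart `D32`. -/
def chD32 : EndChart where
  I := var 0 * var 1
  d := var 0
  w := var 0 * var 2
  den := num 100
  n₀ := ((num 1 - num 2 * (var 0 * var 1) - var 0) * var 1) * (num 52 + num (-7) * (var 1))
  n₁ := ((num 1 - num 2 * (var 0 * var 1) - var 0) * var 1) * (num 27 + num 30 * (var 1))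
  q₀ := (11, 12, 40)
  q₁ := (0, 91, 500)
  q₂ := (427, 619, 1000)
  q₃ := (0, 1, 1)
  t₀ := (0, 1)
  t₁ := (1, 1)
  mu₀ := (138, 100)
  mu₁ := (255, 100)

/-- The piece `D32`. -/
def pcD32 : Piece where
  I := var 0 * var 1
  d := var 0
  w := var 0 * var 2
  o := (((num 1 - num 2 * (var 0 * var 1) - var 0) * var 1) * (num 52 + num (-7) * (var 1)) + ((num 1 - num 2 * (var 0 * var 1) - var 0) * var 1) * (num 27 + num 30 * (var 1)) * var 3)
  den := num 100
  vn := num 2 * var 1 * ((num 52 + num (-7) * (var 1)) + (num 27 + num 30 * (var 1)) * var 3)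
  vs := num 1
  mu := ⟨(138, 100), (255, 100)⟩
  pn := fun b => cond b
    (num 100000 * (num 100 - (((num 1 - num 2 * (var 0 * var 1) - var 0) * var 1) * (num 52 + num (-7) * (var 1)) + ((num 1 - num 2 * (var 0 * var 1) - var 0) * var 1) * (num 27 + num 30 * (var 1)) * var 3)) + num (-157845) * ((((num 1 - num 2 * (var 0 * var 1) - var 0) * var 1) * (num 52 + num (-7) * (var 1)) + ((num 1 - num 2 * (var 0 * var 1) - var 0) * var 1) * (num 27 + num 30 * (var 1)) * var 3) * var 0))
    (num 100000 * (num 100 - (((num 1 - num 2 * (var 0 * var 1) - var 0) * var 1) * (num 52 + num (-7) * (var 1)) + ((num 1 - num 2 * (var 0 * var 1) - var 0) * var 1) * (num 27 + num 30 * (var 1)) * var 3)) + num (-58926) * ((((num 1 - num 2 * (var 0 * var 1) - var 0) * var 1) * (num 52 + num (-7) * (var 1)) + ((num 1 - num 2 * (var 0 * var 1) - var 0) * var 1) * (num 27 + num 30 * (var 1)) * var 3) * var 0))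
  pd := num 100000
  en := fun b => cond b
    (num 1038 * (num 2879000 * (var 0) * (var 1) + num 1408000 * (var 0) * (var 0) * (var 1) + num 560195 + num 518722 * (var 0) + num (-276000) * (var 0) * (var 1) * (var 1)))
    (num 962 * (num 2879000 * (var 0) * (var 1) + num 1408000 * (var 0) * (var 0) * (var 1) + num 386435 + num 357826 * (var 0) + num (-276000) * (var 0) * (var 1) * (var 1)))
  kk := fun b => cond b
    (num 1011 * (num 523674 * (var 0) + num 639427 * (var 0) * (var 0) + num 574432 * (var 0) * (var 1) + num 2476 * (var 0) * (var 3)))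
    (num 979 * (num 361242 * (var 0) + num 441091 * (var 0) * (var 0) + num 396256 * (var 0) * (var 1) + num 1708 * (var 0) * (var 3)))
  f0 := num 100000000
  wn := fun b => cond b
    (num 1000 * (num (-800000) * (var 0 * var 1) + (num 8000 * (var 0 * var 1) + num 1708 * var 0) * (((num 1 - num 2 * (var 0 * var 1) - var 0) * var 1) * (num 52 + num (-7) * (var 1)) + ((num 1 - num 2 * (var 0 * var 1) - var 0) * var 1) * (num 27 + num 30 * (var 1)) * var 3) + var 0 * var 1 * var 0 * (num (-800000) + (num (-239000) * (var 1) + num 126392 + num (-1515000) * (var 1) * (var 0) + num (-456463) * (var 0) + num 1504000 * (var 1) * (var 3) + num 207522 * (var 3)))) + num 102 * (num 100 * (var 0 * var 1 * var 0) * (num 1000 * (var 1) + num 427)))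
    (num 1000 * (num (-800000) * (var 0 * var 1) + (num 8000 * (var 0 * var 1) + num 1708 * var 0) * (((num 1 - num 2 * (var 0 * var 1) - var 0) * var 1) * (num 52 + num (-7) * (var 1)) + ((num 1 - num 2 * (var 0 * var 1) - var 0) * var 1) * (num 27 + num 30 * (var 1)) * var 3) + var 0 * var 1 * var 0 * (num (-800000) + (num (-239000) * (var 1) + num 126392 + num (-1515000) * (var 1) * (var 0) + num (-456463) * (var 0) + num 1504000 * (var 1) * (var 3) + num 207522 * (var 3)))) + num (-2546) * (num 100 * (var 0 * var 1 * var 0) * (num 1000 * (var 1) + num 427)))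
  wd := num 100000000
  tn := fun b => cond b
    (num 979 * (num 25998 + num 13618 * (var 1) + num 619 * (var 3) + num 4952 * (var 1) * (var 3)))
    (num 994 * (num 17934 + num 9394 * (var 1) + num 427 * (var 3) + num 3416 * (var 1) * (var 3)))
  td := num 100000000
  cn := num 1 - var 0 * var 1 - var 1 * (num 1 - num 2 * (var 0 * var 1))
  cd := (num 1 - num 2 * (var 0 * var 1)) * (num 1 - num 2 * (var 0 * var 1))
  kn := var 0 * var 1 * (num 633 + num 2500 * (var 1))
  kd := num 100
  k2n := var 0 * (num 1047 + num (-550) * (var 3) + num (-2100) * (var 1))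
  k2d := num 100

/-- Its ranges. -/
def bxD32 : StripEnd.EBox :=
  ⟨(11, 12, 40), (0, 91, 500), (427, 619, 1000), (0, 1, 1)⟩

/-- The chart `D33`. -/
def chD33 : EndChart where
  I := var 0 * var 1
  d := var 0
  w := var 0 * var 2
  den := num 100
  n₀ := ((num 1 - num 2 * (var 0 * var 1) - var 0) * var 1) * (num 48 + num (-7) * (var 1))
  n₁ := ((num 1 - num 2 * (var 0 * var 1) - var 0) * var 1) * (num 25 + num 22 * (var 1))
  q₀ := (11, 12, 40)
  q₁ := (0, 91, 500)
  q₂ := (6809, 8000, 11000)
  q₃ := (0, 1, 1)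
  t₀ := (0, 1)
  t₁ := (1, 1)
  mu₀ := (132, 100)
  mu₁ := (255, 100)

/-- The piece `D33`. -/
def pcD33 : Piece where
  I := var 0 * var 1
  d := var 0
  w := var 0 * var 2
  o := (((num 1 - num 2 * (var 0 * var 1) - var 0) * var 1) * (num 48 + num (-7) * (var 1)) + ((num 1 - num 2 * (var 0 * var 1) - var 0) * var 1) * (num 25 + num 22 * (var 1)) * var 3)
  den := num 100
  vn := num 2 * var 1 * ((num 48 + num (-7) * (var 1)) + (num 25 + num 22 * (var 1)) * var 3)
  vs := num 1
  mu := ⟨(132, 100), (255, 100)⟩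
  pn := fun b => cond b
    (num 100000 * (num 100 - (((num 1 - num 2 * (var 0 * var 1) - var 0) * var 1) * (num 48 + num (-7) * (var 1)) + ((num 1 - num 2 * (var 0 * var 1) - var 0) * var 1) * (num 25 + num 22 * (var 1)) * var 3)) + num (-185640) * ((((num 1 - num 2 * (var 0 * var 1) - var 0) * var 1) * (num 48 + num (-7) * (var 1)) + ((num 1 - num 2 * (var 0 * var 1) - var 0) * var 1) * (num 25 + num 22 * (var 1)) * var 3) * var 0))
    (num 100000 * (num 100 - (((num 1 - num 2 * (var 0 * var 1) - var 0) * var 1) * (num 48 + num (-7) * (var 1)) + ((num 1 - num 2 * (var 0 * var 1) - var 0) * var 1) * (num 25 + num 22 * (var 1)) * var 3)) + num (-81708) * ((((num 1 - num 2 * (var 0 * var 1) - var 0) * var 1) * (num 48 + num (-7) * (var 1)) + ((num 1 - num 2 * (var 0 * var 1) - var 0) * var 1) * (num 25 + num 22 * (var 1)) * var 3) * var 0))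
  pd := num 100000
  en := fun b => cond b
    (num 8200 * (num 630500 * (var 0) * (var 1) + num (-484250) * (var 0) * (var 0) * (var 1) + num 81263 + num 79534 * (var 0) + num (-145875) * (var 0) * (var 1) * (var 1)))
    (num 981 * (num 5044000 * (var 0) * (var 1) + num (-3874000) * (var 0) * (var 0) * (var 1) + num 552767 + num 541006 * (var 0) + num (-1167000) * (var 0) * (var 1) * (var 1)))
  kk := fun b => cond b
    (num 8096 * (num 76986 * (var 0) + num 94276 * (var 0) * (var 0) + num 80717 * (var 0) * (var 1) + num 273 * (var 0) * (var 3)))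
    (num 982 * (num 523674 * (var 0) + num 641284 * (var 0) * (var 0) + num 549053 * (var 0) * (var 1) + num 1857 * (var 0) * (var 3)))
  f0 := num 100000000
  wn := fun b => cond b
    (num 1000 * (num (-800000) * (var 0 * var 1) + (num 8000 * (var 0 * var 1) + num 2476 * var 0) * (((num 1 - num 2 * (var 0 * var 1) - var 0) * var 1) * (num 48 + num (-7) * (var 1)) + ((num 1 - num 2 * (var 0 * var 1) - var 0) * var 1) * (num 25 + num 22 * (var 1)) * var 3) + var 0 * var 1 * var 0 * (num (-800000) + (num 136000 * (var 1) + num 245124 + num (-3033000) * (var 1) * (var 0) + num (-1038682) * (var 0) + num 1698000 * (var 1) * (var 3) + num 324975 * (var 3)))) + num 847 * (num 100 * (var 0 * var 1 * var 0) * (num 1000 * (var 1) + num 619)))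
    (num 1000 * (num (-800000) * (var 0 * var 1) + (num 8000 * (var 0 * var 1) + num 2476 * var 0) * (((num 1 - num 2 * (var 0 * var 1) - var 0) * var 1) * (num 48 + num (-7) * (var 1)) + ((num 1 - num 2 * (var 0 * var 1) - var 0) * var 1) * (num 25 + num 22 * (var 1)) * var 3) + var 0 * var 1 * var 0 * (num (-800000) + (num 136000 * (var 1) + num 245124 + num (-3033000) * (var 1) * (var 0) + num (-1038682) * (var 0) + num 1698000 * (var 1) * (var 3) + num 324975 * (var 3)))) + num (-2188) * (num 100 * (var 0 * var 1 * var 0) * (num 1000 * (var 1) + num 619)))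
  wd := num 100000000
  tn := fun b => cond b
    (num 7992 * (num 3094 + num 1911 * (var 0) + num 1729 * (var 1) + num 546 * (var 1) * (var 3)))
    (num 999 * (num 21046 + num 12999 * (var 0) + num 11761 * (var 1) + num 3714 * (var 1) * (var 3)))
  td := num 100000000
  cn := num 1 - var 0 * var 1 - var 1 * (num 1 - num 2 * (var 0 * var 1))
  cd := (num 1 - num 2 * (var 0 * var 1)) * (num 1 - num 2 * (var 0 * var 1))
  kn := var 0 * var 1 * (num 616 + num 2500 * (var 1))
  kd := num 100
  k2n := var 0 * (num 852 + num (-400) * (var 3) + num (-1800) * (var 1))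
  k2d := num 100

/-- Its ranges. -/
def bxD33 : StripEnd.EBox :=
  ⟨(11, 12, 40), (0, 91, 500), (6809, 8000, 11000), (0, 1, 1)⟩

/-- The chart `D34`. -/
def chD34 : EndChart where
  I := var 0 * var 1
  d := var 0
  w := var 0 * var 2
  den := num 100
  n₀ := ((num 1 - num 2 * (var 0 * var 1) - var 0) * var 1) * (num 93 + num (-10) * (var 1))
  n₁ := ((num 1 - num 2 * (var 0 * var 1) - var 0) * var 1) * (num 6 + num 72 * (var 1))
  q₀ := (15, 17, 50)
  q₁ := (0, 67, 500)
  q₂ := (15, 27, 500)
  q₃ := (0, 1, 1)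
  t₀ := (0, 1)
  t₁ := (1, 1)
  mu₀ := (185, 100)
  mu₁ := (252, 100)

/-- The piece `D34`. -/
def pcD34 : Piece where
  I := var 0 * var 1
  d := var 0
  w := var 0 * var 2
  o := (((num 1 - num 2 * (var 0 * var 1) - var 0) * var 1) * (num 93 + num (-10) * (var 1)) + ((num 1 - num 2 * (var 0 * var 1) - var 0) * var 1) * (num 6 + num 72 * (var 1)) * var 3)
  den := num 100
  vn := num 2 * var 1 * ((num 93 + num (-10) * (var 1)) + (num 6 + num 72 * (var 1)) * var 3)
  vs := num 1
  mu := ⟨(185, 100), (252, 100)⟩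
  pn := fun b => cond b
    (num 50000 * (num 100 - (((num 1 - num 2 * (var 0 * var 1) - var 0) * var 1) * (num 93 + num (-10) * (var 1)) + ((num 1 - num 2 * (var 0 * var 1) - var 0) * var 1) * (num 6 + num 72 * (var 1)) * var 3)) + num (-6804) * ((((num 1 - num 2 * (var 0 * var 1) - var 0) * var 1) * (num 93 + num (-10) * (var 1)) + ((num 1 - num 2 * (var 0 * var 1) - var 0) * var 1) * (num 6 + num 72 * (var 1)) * var 3) * var 0))
    (num 50000 * (num 100 - (((num 1 - num 2 * (var 0 * var 1) - var 0) * var 1) * (num 93 + num (-10) * (var 1)) + ((num 1 - num 2 * (var 0 * var 1) - var 0) * var 1) * (num 6 + num 72 * (var 1)) * var 3)) + num (-2775) * ((((num 1 - num 2 * (var 0 * var 1) - var 0) * var 1) * (num 93 + num (-10) * (var 1)) + ((num 1 - num 2 * (var 0 * var 1) - var 0) * var 1) * (num 6 + num 72 * (var 1)) * var 3) * var 0))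
  pd := num 50000
  en := fun b => cond b
    (num 1023 * (num 807000 * (var 0) * (var 1) + num (-95000) * (var 0) * (var 0) * (var 1) + num 26892 + num 14823 * (var 0) + num (-113000) * (var 0) * (var 1) * (var 1)))
    (num 4830 * (num 161400 * (var 0) * (var 1) + num (-19000) * (var 0) * (var 0) * (var 1) + num 2988 + num 1647 * (var 0) + num (-22600) * (var 0) * (var 1) * (var 1)))
  kk := fun b => cond b
    (num 1011 * (num 25272 * (var 0) + num 19575 * (var 0) * (var 0) + num 32400 * (var 0) * (var 1) + num 54 * (var 0) * (var 3)))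
    (num 4930 * (num 2808 * (var 0) + num 2175 * (var 0) * (var 0) + num 3600 * (var 0) * (var 1) + num 6 * (var 0) * (var 3)))
  f0 := num 50000000
  wn := fun b => cond b
    (num 1000 * (num (-80000) * (var 0 * var 1) + (num 800 * (var 0 * var 1) + num 12 * var 0) * (((num 1 - num 2 * (var 0 * var 1) - var 0) * var 1) * (num 93 + num (-10) * (var 1)) + ((num 1 - num 2 * (var 0 * var 1) - var 0) * var 1) * (num 6 + num 72 * (var 1)) * var 3) + var 0 * var 1 * var 0 * (num (-80000) + (num 29600 * (var 1) + num 2502 + num (-150100) * (var 1) * (var 0) + num (-3255) * (var 0) + num 34100 * (var 1) * (var 3) + num 165 * (var 3)))) + num 67 * (num 100 * (var 0 * var 1 * var 0) * (num 100 * (var 1) + num 3)))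
    (num 1000 * (num (-80000) * (var 0 * var 1) + (num 800 * (var 0 * var 1) + num 12 * var 0) * (((num 1 - num 2 * (var 0 * var 1) - var 0) * var 1) * (num 93 + num (-10) * (var 1)) + ((num 1 - num 2 * (var 0 * var 1) - var 0) * var 1) * (num 6 + num 72 * (var 1)) * var 3) + var 0 * var 1 * var 0 * (num (-80000) + (num 29600 * (var 1) + num 2502 + num (-150100) * (var 1) * (var 0) + num (-3255) * (var 0) + num 34100 * (var 1) * (var 3) + num 165 * (var 3)))) + num (-1857) * (num 100 * (var 0 * var 1 * var 0) * (num 100 * (var 1) + num 3)))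
  wd := num 10000000
  tn := fun b => cond b
    (num 1019 * (num 1323 + num (-27) * (var 0) + num 1269 * (var 1) + num 108 * (var 1) * (var 3)))
    (num 4995 * (num 147 + num (-3) * (var 0) + num 141 * (var 1) + num 12 * (var 1) * (var 3)))
  td := num 50000000
  cn := num 1 - var 0 * var 1 - var 1 * (num 1 - num 2 * (var 0 * var 1))
  cd := (num 1 - num 2 * (var 0 * var 1)) * (num 1 - num 2 * (var 0 * var 1))
  kn := var 0 * var 1 * (num 239 + num 2500 * (var 1))
  kd := num 100
  k2n := var 0 * (num 959 + num (-550) * (var 3) + num (-2300) * (var 1))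
  k2d := num 100

/-- Its ranges. -/
def bxD34 : StripEnd.EBox :=
  ⟨(15, 17, 50), (0, 67, 500), (15, 27, 500), (0, 1, 1)⟩

/-- The chart `D35`. -/
def chD35 : EndChart where
  I := var 0 * var 1
  d := var 0
  w := var 0 * var 2
  den := num 100
  n₀ := ((num 1 - num 2 * (var 0 * var 1) - var 0) * var 1) * (num 88 + num (-10) * (var 1))
  n₁ := ((num 1 - num 2 * (var 0 * var 1) - var 0) * var 1) * (num 10 + num 65 * (var 1))
  q₀ := (15, 17, 50)
  q₁ := (0, 67, 500)
  q₂ := (54, 97, 1000)
  q₃ := (0, 1, 1)
  t₀ := (0, 1)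
  t₁ := (1, 1)
  mu₀ := (185, 100)
  mu₁ := (252, 100)

/-- The piece `D35`. -/
def pcD35 : Piece where
  I := var 0 * var 1
  d := var 0
  w := var 0 * var 2
  o := (((num 1 - num 2 * (var 0 * var 1) - var 0) * var 1) * (num 88 + num (-10) * (var 1)) + ((num 1 - num 2 * (var 0 * var 1) - var 0) * var 1) * (num 10 + num 65 * (var 1)) * var 3)
  den := num 100
  vn := num 2 * var 1 * ((num 88 + num (-10) * (var 1)) + (num 10 + num 65 * (var 1)) * var 3)
  vs := num 1
  mu := ⟨(185, 100), (252, 100)⟩
  pn := fun b => cond b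
    (num 100000 * (num 100 - (((num 1 - num 2 * (var 0 * var 1) - var 0) * var 1) * (num 88 + num (-10) * (var 1)) + ((num 1 - num 2 * (var 0 * var 1) - var 0) * var 1) * (num 10 + num 65 * (var 1)) * var 3)) + num (-24444) * ((((num 1 - num 2 * (var 0 * var 1) - var 0) * var 1) * (num 88 + num (-10) * (var 1)) + ((num 1 - num 2 * (var 0 * var 1) - var 0) * var 1) * (num 10 + num 65 * (var 1)) * var 3) * var 0))
    (num 100000 * (num 100 - (((num 1 - num 2 * (var 0 * var 1) - var 0) * var 1) * (num 88 + num (-10) * (var 1)) + ((num 1 - num 2 * (var 0 * var 1) - var 0) * var 1) * (num 10 + num 65 * (var 1)) * var 3)) + num (-9990) * ((((num 1 - num 2 * (var 0 * var 1) - var 0) * var 1) * (num 88 + num (-10) * (var 1)) + ((num 1 - num 2 * (var 0 * var 1) - var 0) * var 1) * (num 10 + num 65 * (var 1)) * var 3) * var 0))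
  pd := num 100000
  en := fun b => cond b
    (num 1029 * (num 1525000 * (var 0) * (var 1) + num 410000 * (var 0) * (var 0) * (var 1) + num 97485 + num 50537 * (var 0) + num 55000 * (var 0) * (var 1) * (var 1)))
    (num 1912 * (num 762500 * (var 0) * (var 1) + num 205000 * (var 0) * (var 0) * (var 1) + num 27135 + num 14067 * (var 0) + num 27500 * (var 0) * (var 1) * (var 1)))
  kk := fun b => cond b
    (num 1011 * (num 90792 * (var 0) + num 70228 * (var 0) * (var 0) + num 114460 * (var 0) * (var 1) + num 291 * (var 0) * (var 3)))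
    (num 1972 * (num 25272 * (var 0) + num 19548 * (var 0) * (var 0) + num 31860 * (var 0) * (var 1) + num 81 * (var 0) * (var 3)))
  f0 := num 100000000
  wn := fun b => cond b
    (num 1000 * (num (-400000) * (var 0 * var 1) + (num 4000 * (var 0 * var 1) + num 108 * var 0) * (((num 1 - num 2 * (var 0 * var 1) - var 0) * var 1) * (num 88 + num (-10) * (var 1)) + ((num 1 - num 2 * (var 0 * var 1) - var 0) * var 1) * (num 10 + num 65 * (var 1)) * var 3) + var 0 * var 1 * var 0 * (num (-400000) + (num 107500 * (var 1) + num 20655 + num (-701500) * (var 1) * (var 0) + num (-28620) * (var 0) + num 224500 * (var 1) * (var 3) + num 3132 * (var 3)))) + num 129 * (num 100 * (var 0 * var 1 * var 0) * (num 500 * (var 1) + num 27)))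
    (num 1000 * (num (-400000) * (var 0 * var 1) + (num 4000 * (var 0 * var 1) + num 108 * var 0) * (((num 1 - num 2 * (var 0 * var 1) - var 0) * var 1) * (num 88 + num (-10) * (var 1)) + ((num 1 - num 2 * (var 0 * var 1) - var 0) * var 1) * (num 10 + num 65 * (var 1)) * var 3) + var 0 * var 1 * var 0 * (num (-400000) + (num 107500 * (var 1) + num 20655 + num (-701500) * (var 1) * (var 0) + num (-28620) * (var 0) + num 224500 * (var 1) * (var 3) + num 3132 * (var 3)))) + num (-1977) * (num 100 * (var 0 * var 1 * var 0) * (num 500 * (var 1) + num 27)))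
  wd := num 50000000
  tn := fun b => cond b
    (num 996 * (num 4753 + num (-97) * (var 0) + num 4268 * (var 1) + num 97 * (var 3) + num 485 * (var 1) * (var 3)))
    (num 1966 * (num 1323 + num (-27) * (var 0) + num 1188 * (var 1) + num 27 * (var 3) + num 135 * (var 1) * (var 3)))
  td := num 100000000
  cn := num 1 - var 0 * var 1 - var 1 * (num 1 - num 2 * (var 0 * var 1))
  cd := (num 1 - num 2 * (var 0 * var 1)) * (num 1 - num 2 * (var 0 * var 1))
  kn := var 0 * var 1 * (num 259 + num 3500 * (var 1))
  kd := num 100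
  k2n := var 0 * (num 996 + num (-600) * (var 3) + num (-2400) * (var 1))
  k2d := num 100

/-- Its ranges. -/
def bxD35 : StripEnd.EBox :=
  ⟨(15, 17, 50), (0, 67, 500), (54, 97, 1000), (0, 1, 1)⟩

/-- The chart `D36`. -/
def chD36 : EndChart where
  I := var 0 * var 1
  d := var 0
  w := var 0 * var 2
  den := num 100
  n₀ := ((num 1 - num 2 * (var 0 * var 1) - var 0) * var 1) * (num 80 + num (-9) * (var 1))
  n₁ := ((num 1 - num 2 * (var 0 * var 1) - var 0) * var 1) * (num 15 + num 61 * (var 1))
  q₀ := (15, 17, 50)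
  q₁ := (0, 67, 500)
  q₂ := (97, 175, 1000)
  q₃ := (0, 1, 1)
  t₀ := (0, 1)
  t₁ := (1, 1)
  mu₀ := (175, 100)
  mu₁ := (252, 100)

/-- The piece `D36`. -/
def pcD36 : Piece where
  I := var 0 * var 1
  d := var 0
  w := var 0 * var 2
  o := (((num 1 - num 2 * (var 0 * var 1) - var 0) * var 1) * (num 80 + num (-9) * (var 1)) + ((num 1 - num 2 * (var 0 * var 1) - var 0) * var 1) * (num 15 + num 61 * (var 1)) * var 3)
  den := num 100
  vn := num 2 * var 1 * ((num 80 + num (-9) * (var 1)) + (num 15 + num 61 * (var 1)) * var 3)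
  vs := num 1
  mu := ⟨(175, 100), (252, 100)⟩
  pn := fun b => cond b
    (num 100000 * (num 100 - (((num 1 - num 2 * (var 0 * var 1) - var 0) * var 1) * (num 80 + num (-9) * (var 1)) + ((num 1 - num 2 * (var 0 * var 1) - var 0) * var 1) * (num 15 + num 61 * (var 1)) * var 3)) + num (-44100) * ((((num 1 - num 2 * (var 0 * var 1) - var 0) * var 1) * (num 80 + num (-9) * (var 1)) + ((num 1 - num 2 * (var 0 * var 1) - var 0) * var 1) * (num 15 + num 61 * (var 1)) * var 3) * var 0))
    (num 100000 * (num 100 - (((num 1 - num 2 * (var 0 * var 1) - var 0) * var 1) * (num 80 + num (-9) * (var 1)) + ((num 1 - num 2 * (var 0 * var 1) - var 0) * var 1) * (num 15 + num 61 * (var 1)) * var 3)) + num (-16975) * ((((num 1 - num 2 * (var 0 * var 1) - var 0) * var 1) * (num 80 + num (-9) * (var 1)) + ((num 1 - num 2 * (var 0 * var 1) - var 0) * var 1) * (num 15 + num 61 * (var 1)) * var 3) * var 0))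
  pd := num 100000
  en := fun b => cond b
    (num 25875 * (num 54360 * (var 0) * (var 1) + num 59280 * (var 0) * (var 0) * (var 1) + num 7084 + num 3507 * (var 0) + num 20800 * (var 0) * (var 1) * (var 1)))
    (num 948 * (num 1359000 * (var 0) * (var 1) + num 1482000 * (var 0) * (var 0) * (var 1) + num 98164 + num 48597 * (var 0) + num 520000 * (var 0) * (var 1) * (var 1)))
  kk := fun b => cond b
    (num 25275 * (num 6559 * (var 0) + num 5054 * (var 0) * (var 0) + num 8043 * (var 0) * (var 1) + num 21 * (var 0) * (var 3)))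
    (num 985 * (num 90889 * (var 0) + num 70034 * (var 0) * (var 0) + num 111453 * (var 0) * (var 1) + num 291 * (var 0) * (var 3)))
  f0 := num 100000000
  wn := fun b => cond b
    (num 1000 * (num (-800000) * (var 0 * var 1) + (num 8000 * (var 0 * var 1) + num 388 * var 0) * (((num 1 - num 2 * (var 0 * var 1) - var 0) * var 1) * (num 80 + num (-9) * (var 1)) + ((num 1 - num 2 * (var 0 * var 1) - var 0) * var 1) * (num 15 + num 61 * (var 1)) * var 3) + var 0 * var 1 * var 0 * (num (-800000) + (num 160000 * (var 1) + num 64311 + num (-1485000) * (var 1) * (var 0) + num (-99910) * (var 0) + num 608000 * (var 1) * (var 3) + num 18430 * (var 3)))) + num 96 * (num 100 * (var 0 * var 1 * var 0) * (num 1000 * (var 1) + num 97)))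
    (num 1000 * (num (-800000) * (var 0 * var 1) + (num 8000 * (var 0 * var 1) + num 388 * var 0) * (((num 1 - num 2 * (var 0 * var 1) - var 0) * var 1) * (num 80 + num (-9) * (var 1)) + ((num 1 - num 2 * (var 0 * var 1) - var 0) * var 1) * (num 15 + num 61 * (var 1)) * var 3) + var 0 * var 1 * var 0 * (num (-800000) + (num 160000 * (var 1) + num 64311 + num (-1485000) * (var 1) * (var 0) + num (-99910) * (var 0) + num 608000 * (var 1) * (var 3) + num 18430 * (var 3)))) + num (-2224) * (num 100 * (var 0 * var 1 * var 0) * (num 1000 * (var 1) + num 97)))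
  wd := num 100000000
  tn := fun b => cond b
    (num 25350 * (num 329 + num (-7) * (var 0) + num 273 * (var 1) + num 7 * (var 3) + num 49 * (var 1) * (var 3)))
    (num 1004 * (num 4559 + num (-97) * (var 0) + num 3783 * (var 1) + num 97 * (var 3) + num 679 * (var 1) * (var 3)))
  td := num 100000000
  cn := num 1 - var 0 * var 1 - var 1 * (num 1 - num 2 * (var 0 * var 1))
  cd := (num 1 - num 2 * (var 0 * var 1)) * (num 1 - num 2 * (var 0 * var 1))
  kn := var 0 * var 1 * (num 324 + num 4000 * (var 1))
  kd := num 100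
  k2n := var 0 * (num 1070 + num (-700) * (var 3) + num (-2400) * (var 1))
  k2d := num 100

/-- Its ranges. -/
def bxD36 : StripEnd.EBox :=
  ⟨(15, 17, 50), (0, 67, 500), (97, 175, 1000), (0, 1, 1)⟩

/-- The chart `D37`. -/
def chD37 : EndChart where
  I := var 0 * var 1
  d := var 0
  w := var 0 * var 2
  den := num 100
  n₀ := ((num 1 - num 2 * (var 0 * var 1) - var 0) * var 1) * (num 69 + num (-10) * (var 1))
  n₁ := ((num 1 - num 2 * (var 0 * var 1) - var 0) * var 1) * (num 22 + num 52 * (var 1))
  q₀ := (15, 17, 50)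
  q₁ := (0, 67, 500)
  q₂ := (35, 63, 200)
  q₃ := (0, 1, 1)
  t₀ := (0, 1)
  t₁ := (1, 1)
  mu₀ := (159, 100)
  mu₁ := (252, 100)

/-- The piece `D37`. -/
def pcD37 : Piece where
  I := var 0 * var 1
  d := var 0
  w := var 0 * var 2
  o := (((num 1 - num 2 * (var 0 * var 1) - var 0) * var 1) * (num 69 + num (-10) * (var 1)) + ((num 1 - num 2 * (var 0 * var 1) - var 0) * var 1) * (num 22 + num 52 * (var 1)) * var 3)
  den := num 100
  vn := num 2 * var 1 * ((num 69 + num (-10) * (var 1)) + (num 22 + num 52 * (var 1)) * var 3)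
  vs := num 1
  mu := ⟨(159, 100), (252, 100)⟩
  pn := fun b => cond b
    (num 20000 * (num 100 - (((num 1 - num 2 * (var 0 * var 1) - var 0) * var 1) * (num 69 + num (-10) * (var 1)) + ((num 1 - num 2 * (var 0 * var 1) - var 0) * var 1) * (num 22 + num 52 * (var 1)) * var 3)) + num (-15876) * ((((num 1 - num 2 * (var 0 * var 1) - var 0) * var 1) * (num 69 + num (-10) * (var 1)) + ((num 1 - num 2 * (var 0 * var 1) - var 0) * var 1) * (num 22 + num 52 * (var 1)) * var 3) * var 0))
    (num 20000 * (num 100 - (((num 1 - num 2 * (var 0 * var 1) - var 0) * var 1) * (num 69 + num (-10) * (var 1)) + ((num 1 - num 2 * (var 0 * var 1) - var 0) * var 1) * (num 22 + num 52 * (var 1)) * var 3)) + num (-5565) * ((((num 1 - num 2 * (var 0 * var 1) - var 0) * var 1) * (num 69 + num (-10) * (var 1)) + ((num 1 - num 2 * (var 0 * var 1) - var 0) * var 1) * (num 22 + num 52 * (var 1)) * var 3) * var 0))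
  pd := num 20000
  en := fun b => cond b
    (num 1039 * (num 222600 * (var 0) * (var 1) + num 645200 * (var 0) * (var 0) * (var 1) + num 63882 + num 31185 * (var 0) + num 243200 * (var 0) * (var 1) * (var 1)))
    (num 4705 * (num 44520 * (var 0) * (var 1) + num 129040 * (var 0) * (var 0) * (var 1) + num 7098 + num 3465 * (var 0) + num 48640 * (var 0) * (var 1) * (var 1)))
  kk := fun b => cond b
    (num 1011 * (num 59094 * (var 0) + num 45297 * (var 0) * (var 0) + num 69300 * (var 0) * (var 1) + num 189 * (var 0) * (var 3)))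
    (num 4920 * (num 6566 * (var 0) + num 5033 * (var 0) * (var 0) + num 7700 * (var 0) * (var 1) + num 21 * (var 0) * (var 3)))
  f0 := num 20000000
  wn := fun b => cond b
    (num 1000 * (num (-32000) * (var 0 * var 1) + (num 320 * (var 0 * var 1) + num 28 * var 0) * (((num 1 - num 2 * (var 0 * var 1) - var 0) * var 1) * (num 69 + num (-10) * (var 1)) + ((num 1 - num 2 * (var 0 * var 1) - var 0) * var 1) * (num 22 + num 52 * (var 1)) * var 3) + var 0 * var 1 * var 0 * (num (-32000) + (num (-240) * (var 1) + num 3752 + num (-55800) * (var 1) * (var 0) + num (-7364) * (var 0) + num 34880 * (var 1) * (var 3) + num 2149 * (var 3)))) + num 120 * (num 100 * (var 0 * var 1 * var 0) * (num 40 * (var 1) + num 7)))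
    (num 1000 * (num (-32000) * (var 0 * var 1) + (num 320 * (var 0 * var 1) + num 28 * var 0) * (((num 1 - num 2 * (var 0 * var 1) - var 0) * var 1) * (num 69 + num (-10) * (var 1)) + ((num 1 - num 2 * (var 0 * var 1) - var 0) * var 1) * (num 22 + num 52 * (var 1)) * var 3) + var 0 * var 1 * var 0 * (num (-32000) + (num (-240) * (var 1) + num 3752 + num (-55800) * (var 1) * (var 0) + num (-7364) * (var 0) + num 34880 * (var 1) * (var 3) + num 2149 * (var 3)))) + num (-2581) * (num 100 * (var 0 * var 1 * var 0) * (num 40 * (var 1) + num 7)))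
  wd := num 4000000
  tn := fun b => cond b
    (num 1007 * (num 2835 + num 1953 * (var 1) + num 126 * (var 3) + num 630 * (var 1) * (var 3)))
    (num 4960 * (num 315 + num 217 * (var 1) + num 14 * (var 3) + num 70 * (var 1) * (var 3)))
  td := num 20000000
  cn := num 1 - var 0 * var 1 - var 1 * (num 1 - num 2 * (var 0 * var 1))
  cd := (num 1 - num 2 * (var 0 * var 1)) * (num 1 - num 2 * (var 0 * var 1))
  kn := var 0 * var 1 * (num 432 + num 4000 * (var 1))
  kd := num 100
  k2n := var 0 * (num 1175 + num (-750) * (var 3) + num (-2400) * (var 1))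
  k2d := num 100

/-- Its ranges. -/
def bxD37 : StripEnd.EBox :=
  ⟨(15, 17, 50), (0, 67, 500), (35, 63, 200), (0, 1, 1)⟩

/-- The chart `D38`. -/
def chD38 : EndChart where
  I := var 0 * var 1
  d := var 0
  w := var 0 * var 2
  den := num 100
  n₀ := ((num 1 - num 2 * (var 0 * var 1) - var 0) * var 1) * (num 55 + num (-8) * (var 1))
  n₁ := ((num 1 - num 2 * (var 0 * var 1) - var 0) * var 1) * (num 30 + num 37 * (var 1))
  q₀ := (15, 17, 50)
  q₁ := (0, 67, 500)
  q₂ := (315, 567, 1000)
  q₃ := (0, 1, 1)
  t₀ := (0, 1)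
  t₁ := (1, 1)
  mu₀ := (129, 100)
  mu₁ := (254, 100)

/-- The piece `D38`. -/
def pcD38 : Piece where
  I := var 0 * var 1
  d := var 0
  w := var 0 * var 2
  o := (((num 1 - num 2 * (var 0 * var 1) - var 0) * var 1) * (num 55 + num (-8) * (var 1)) + ((num 1 - num 2 * (var 0 * var 1) - var 0) * var 1) * (num 30 + num 37 * (var 1)) * var 3)
  den := num 100
  vn := num 2 * var 1 * ((num 55 + num (-8) * (var 1)) + (num 30 + num 37 * (var 1)) * var 3)
  vs := num 1
  mu := ⟨(129, 100), (254, 100)⟩
  pn := fun b => cond b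
    (num 100000 * (num 100 - (((num 1 - num 2 * (var 0 * var 1) - var 0) * var 1) * (num 55 + num (-8) * (var 1)) + ((num 1 - num 2 * (var 0 * var 1) - var 0) * var 1) * (num 30 + num 37 * (var 1)) * var 3)) + num (-144018) * ((((num 1 - num 2 * (var 0 * var 1) - var 0) * var 1) * (num 55 + num (-8) * (var 1)) + ((num 1 - num 2 * (var 0 * var 1) - var 0) * var 1) * (num 30 + num 37 * (var 1)) * var 3) * var 0))
    (num 100000 * (num 100 - (((num 1 - num 2 * (var 0 * var 1) - var 0) * var 1) * (num 55 + num (-8) * (var 1)) + ((num 1 - num 2 * (var 0 * var 1) - var 0) * var 1) * (num 30 + num 37 * (var 1)) * var 3)) + num (-40635) * ((((num 1 - num 2 * (var 0 * var 1) - var 0) * var 1) * (num 55 + num (-8) * (var 1)) + ((num 1 - num 2 * (var 0 * var 1) - var 0) * var 1) * (num 30 + num 37 * (var 1)) * var 3) * var 0))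
  pd := num 100000
  en := fun b => cond b
    (num 1041 * (num 741000 * (var 0) * (var 1) + num 6050000 * (var 0) * (var 0) * (var 1) + num 574371 + num 282366 * (var 0) + num 2228000 * (var 0) * (var 1) * (var 1)))
    (num 4685 * (num 148200 * (var 0) * (var 1) + num 1210000 * (var 0) * (var 0) * (var 1) + num 63819 + num 31374 * (var 0) + num 445600 * (var 0) * (var 1) * (var 1)))
  kk := fun b => cond b
    (num 1011 * (num 532413 * (var 0) + num 405405 * (var 0) * (var 0) + num 587412 * (var 0) * (var 1) + num 2268 * (var 0) * (var 3)))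
    (num 4915 * (num 59157 * (var 0) + num 45045 * (var 0) * (var 0) + num 65268 * (var 0) * (var 1) + num 252 * (var 0) * (var 3)))
  f0 := num 100000000
  wn := fun b => cond b
    (num 1000 * (num (-160000) * (var 0 * var 1) + (num 1600 * (var 0 * var 1) + num 252 * var 0) * (((num 1 - num 2 * (var 0 * var 1) - var 0) * var 1) * (num 55 + num (-8) * (var 1)) + ((num 1 - num 2 * (var 0 * var 1) - var 0) * var 1) * (num 30 + num 37 * (var 1)) * var 3) + var 0 * var 1 * var 0 * (num (-160000) + (num (-46400) * (var 1) + num 23688 + num (-280400) * (var 1) * (var 0) + num (-71946) * (var 0) + num 252000 * (var 1) * (var 3) + num 30303 * (var 3)))) + num 254 * (num 100 * (var 0 * var 1 * var 0) * (num 200 * (var 1) + num 63)))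
    (num 1000 * (num (-160000) * (var 0 * var 1) + (num 1600 * (var 0 * var 1) + num 252 * var 0) * (((num 1 - num 2 * (var 0 * var 1) - var 0) * var 1) * (num 55 + num (-8) * (var 1)) + ((num 1 - num 2 * (var 0 * var 1) - var 0) * var 1) * (num 30 + num 37 * (var 1)) * var 3) + var 0 * var 1 * var 0 * (num (-160000) + (num (-46400) * (var 1) + num 23688 + num (-280400) * (var 1) * (var 0) + num (-71946) * (var 0) + num 252000 * (var 1) * (var 3) + num 30303 * (var 3)))) + num (-2988) * (num 100 * (var 0 * var 1 * var 0) * (num 200 * (var 1) + num 63)))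
  wd := num 20000000
  tn := fun b => cond b
    (num 996 * (num 23814 + num 567 * (var 0) + num 12474 * (var 1) + num 1701 * (var 3) + num 6237 * (var 1) * (var 3)))
    (num 4920 * (num 2646 + num 63 * (var 0) + num 1386 * (var 1) + num 189 * (var 3) + num 693 * (var 1) * (var 3)))
  td := num 100000000
  cn := num 1 - var 0 * var 1 - var 1 * (num 1 - num 2 * (var 0 * var 1))
  cd := (num 1 - num 2 * (var 0 * var 1)) * (num 1 - num 2 * (var 0 * var 1))
  kn := var 0 * var 1 * (num 610 + num 3500 * (var 1))
  kd := num 100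
  k2n := var 0 * (num 1565 + num (-1100) * (var 3) + num (-2400) * (var 1))
  k2d := num 100

/-- Its ranges. -/
def bxD38 : StripEnd.EBox :=
  ⟨(15, 17, 50), (0, 67, 500), (315, 567, 1000), (0, 1, 1)⟩

/-- The chart `D39`. -/
def chD39 : EndChart where
  I := var 0 * var 1
  d := var 0
  w := var 0 * var 2
  den := num 100
  n₀ := ((num 1 - num 2 * (var 0 * var 1) - var 0) * var 1) * (num 51 + num (-8) * (var 1))
  n₁ := ((num 1 - num 2 * (var 0 * var 1) - var 0) * var 1) * (num 25 + num 28 * (var 1))
  q₀ := (15, 17, 50)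
  q₁ := (0, 67, 500)
  q₂ := (1701, 2000, 3000)
  q₃ := (0, 1, 1)
  t₀ := (0, 1)
  t₁ := (1, 1)
  mu₀ := (127, 100)
  mu₁ := (254, 100)

/-- The piece `D39`. -/
def pcD39 : Piece where
  I := var 0 * var 1
  d := var 0
  w := var 0 * var 2
  o := (((num 1 - num 2 * (var 0 * var 1) - var 0) * var 1) * (num 51 + num (-8) * (var 1)) + ((num 1 - num 2 * (var 0 * var 1) - var 0) * var 1) * (num 25 + num 28 * (var 1)) * var 3)
  den := num 100
  vn := num 2 * var 1 * ((num 51 + num (-8) * (var 1)) + (num 25 + num 28 * (var 1)) * var 3)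
  vs := num 1
  mu := ⟨(127, 100), (254, 100)⟩
  pn := fun b => cond b
    (num 100000 * (num 100 - (((num 1 - num 2 * (var 0 * var 1) - var 0) * var 1) * (num 51 + num (-8) * (var 1)) + ((num 1 - num 2 * (var 0 * var 1) - var 0) * var 1) * (num 25 + num 28 * (var 1)) * var 3)) + num (-169418) * ((((num 1 - num 2 * (var 0 * var 1) - var 0) * var 1) * (num 51 + num (-8) * (var 1)) + ((num 1 - num 2 * (var 0 * var 1) - var 0) * var 1) * (num 25 + num 28 * (var 1)) * var 3) * var 0))
    (num 100000 * (num 100 - (((num 1 - num 2 * (var 0 * var 1) - var 0) * var 1) * (num 51 + num (-8) * (var 1)) + ((num 1 - num 2 * (var 0 * var 1) - var 0) * var 1) * (num 25 + num 28 * (var 1)) * var 3)) + num (-72009) * ((((num 1 - num 2 * (var 0 * var 1) - var 0) * var 1) * (num 51 + num (-8) * (var 1)) + ((num 1 - num 2 * (var 0 * var 1) - var 0) * var 1) * (num 25 + num 28 * (var 1)) * var 3) * var 0))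
  pd := num 100000
  en := fun b => cond b
    (num 1022 * (num 4752000 * (var 0) * (var 1) + num (-3499000) * (var 0) * (var 0) * (var 1) + num 641654 + num 430215 * (var 0) + num (-844000) * (var 0) * (var 1) * (var 1)))
    (num 985 * (num 4752000 * (var 0) * (var 1) + num (-3499000) * (var 0) * (var 0) * (var 1) + num 545454 + num 365715 * (var 0) + num (-844000) * (var 0) * (var 1) * (var 1)))
  kk := fun b => cond b
    (num 1011 * (num 625646 * (var 0) + num 480907 * (var 0) * (var 0) + num 655661 * (var 0) * (var 1) + num 1334 * (var 0) * (var 3)))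
    (num 986 * (num 531846 * (var 0) + num 408807 * (var 0) * (var 0) + num 557361 * (var 0) * (var 1) + num 1134 * (var 0) * (var 3)))
  f0 := num 100000000
  wn := fun b => cond b
    (num 1000 * (num (-800000) * (var 0 * var 1) + (num 8000 * (var 0 * var 1) + num 2268 * var 0) * (((num 1 - num 2 * (var 0 * var 1) - var 0) * var 1) * (num 51 + num (-8) * (var 1)) + ((num 1 - num 2 * (var 0 * var 1) - var 0) * var 1) * (num 25 + num 28 * (var 1)) * var 3) + var 0 * var 1 * var 0 * (num (-800000) + (num 424000 * (var 1) + num 227934 + num (-3678000) * (var 1) * (var 0) + num (-851067) * (var 0) + num 1663000 * (var 1) * (var 3) + num 292005 * (var 3)))) + num 1025 * (num 100 * (var 0 * var 1 * var 0) * (num 1000 * (var 1) + num 567)))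
    (num 1000 * (num (-800000) * (var 0 * var 1) + (num 8000 * (var 0 * var 1) + num 2268 * var 0) * (((num 1 - num 2 * (var 0 * var 1) - var 0) * var 1) * (num 51 + num (-8) * (var 1)) + ((num 1 - num 2 * (var 0 * var 1) - var 0) * var 1) * (num 25 + num 28 * (var 1)) * var 3) + var 0 * var 1 * var 0 * (num (-800000) + (num 424000 * (var 1) + num 227934 + num (-3678000) * (var 1) * (var 0) + num (-851067) * (var 0) + num 1663000 * (var 1) * (var 3) + num 292005 * (var 3)))) + num (-1983) * (num 100 * (var 0 * var 1 * var 0) * (num 1000 * (var 1) + num 567)))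
  wd := num 100000000
  tn := fun b => cond b
    (num 979 * (num 24012 + num 12673 * (var 0) + num 13340 * (var 1) + num 4002 * (var 1) * (var 3)))
    (num 976 * (num 20412 + num 10773 * (var 0) + num 11340 * (var 1) + num 3402 * (var 1) * (var 3)))
  td := num 100000000
  cn := num 1 - var 0 * var 1 - var 1 * (num 1 - num 2 * (var 0 * var 1))
  cd := (num 1 - num 2 * (var 0 * var 1)) * (num 1 - num 2 * (var 0 * var 1))
  kn := var 0 * var 1 * (num 607 + num 2500 * (var 1))
  kd := num 100
  k2n := var 0 * (num 843 + num (-400) * (var 3) + num (-2200) * (var 1))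
  k2d := num 100

/-- Its ranges. -/
def bxD39 : StripEnd.EBox :=
  ⟨(15, 17, 50), (0, 67, 500), (1701, 2000, 3000), (0, 1, 1)⟩

/-- The chart `D40`. -/
def chD40 : EndChart where
  I := var 0 * var 1
  d := var 0
  w := var 0 * var 2
  den := num 100
  n₀ := ((num 1 - num 2 * (var 0 * var 1) - var 0) * var 1) * (num 93 + num 2 * (var 1))
  n₁ := ((num 1 - num 2 * (var 0 * var 1) - var 0) * var 1) * (num 6 + num 59 * (var 1))
  q₀ := (17, 19, 50)
  q₁ := (0, 59, 1000)
  q₂ := (15, 27, 500)
  q₃ := (0, 1, 1)
  t₀ := (0, 1)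
  t₁ := (1, 1)
  mu₀ := (185, 100)
  mu₁ := (230, 100)

/-- The piece `D40`. -/
def pcD40 : Piece where
  I := var 0 * var 1
  d := var 0
  w := var 0 * var 2
  o := (((num 1 - num 2 * (var 0 * var 1) - var 0) * var 1) * (num 93 + num 2 * (var 1)) + ((num 1 - num 2 * (var 0 * var 1) - var 0) * var 1) * (num 6 + num 59 * (var 1)) * var 3)
  den := num 100
  vn := num 2 * var 1 * ((num 93 + num 2 * (var 1)) + (num 6 + num 59 * (var 1)) * var 3)
  vs := num 1
  mu := ⟨(185, 100), (230, 100)⟩
  pn := fun b => cond b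
    (num 50000 * (num 100 - (((num 1 - num 2 * (var 0 * var 1) - var 0) * var 1) * (num 93 + num 2 * (var 1)) + ((num 1 - num 2 * (var 0 * var 1) - var 0) * var 1) * (num 6 + num 59 * (var 1)) * var 3)) + num (-6210) * ((((num 1 - num 2 * (var 0 * var 1) - var 0) * var 1) * (num 93 + num 2 * (var 1)) + ((num 1 - num 2 * (var 0 * var 1) - var 0) * var 1) * (num 6 + num 59 * (var 1)) * var 3) * var 0))
    (num 50000 * (num 100 - (((num 1 - num 2 * (var 0 * var 1) - var 0) * var 1) * (num 93 + num 2 * (var 1)) + ((num 1 - num 2 * (var 0 * var 1) - var 0) * var 1) * (num 6 + num 59 * (var 1)) * var 3)) + num (-2775) * ((((num 1 - num 2 * (var 0 * var 1) - var 0) * var 1) * (num 93 + num 2 * (var 1)) + ((num 1 - num 2 * (var 0 * var 1) - var 0) * var 1) * (num 6 + num 59 * (var 1)) * var 3) * var 0))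
  pd := num 50000
  en := fun b => cond b
    (num 1015 * (num 844000 * (var 0) * (var 1) + num (-245500) * (var 0) * (var 0) * (var 1) + num 28782 + num 9396 * (var 0) + num 11500 * (var 0) * (var 1) * (var 1)))
    (num 4905 * (num 168800 * (var 0) * (var 1) + num (-49100) * (var 0) * (var 0) * (var 1) + num 3198 + num 1044 * (var 0) + num 2300 * (var 0) * (var 1) * (var 1)))
  kk := fun b => cond b
    (num 1004 * (num 27783 * (var 0) + num 12069 * (var 0) * (var 0) + num 35208 * (var 0) * (var 1) + num 27 * (var 0) * (var 3)))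
    (num 4980 * (num 3087 * (var 0) + num 1341 * (var 0) * (var 0) + num 3912 * (var 0) * (var 1) + num 3 * (var 0) * (var 3)))
  f0 := num 50000000
  wn := fun b => cond b
    (num 1000 * (num (-80000) * (var 0 * var 1) + (num 800 * (var 0 * var 1) + num 12 * var 0) * (((num 1 - num 2 * (var 0 * var 1) - var 0) * var 1) * (num 93 + num 2 * (var 1)) + ((num 1 - num 2 * (var 0 * var 1) - var 0) * var 1) * (num 6 + num 59 * (var 1)) * var 3) + var 0 * var 1 * var 0 * (num (-80000) + (num 45800 * (var 1) + num 2379 + num (-182600) * (var 1) * (var 0) + num (-2949) * (var 0) + num 23200 * (var 1) * (var 3) + num 219 * (var 3)))) + num 327 * (num 100 * (var 0 * var 1 * var 0) * (num 100 * (var 1) + num 3)))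
    (num 1000 * (num (-80000) * (var 0 * var 1) + (num 800 * (var 0 * var 1) + num 12 * var 0) * (((num 1 - num 2 * (var 0 * var 1) - var 0) * var 1) * (num 93 + num 2 * (var 1)) + ((num 1 - num 2 * (var 0 * var 1) - var 0) * var 1) * (num 6 + num 59 * (var 1)) * var 3) + var 0 * var 1 * var 0 * (num (-80000) + (num 45800 * (var 1) + num 2379 + num (-182600) * (var 1) * (var 0) + num (-2949) * (var 0) + num 23200 * (var 1) * (var 3) + num 219 * (var 3)))) + num (-992) * (num 100 * (var 0 * var 1 * var 0) * (num 100 * (var 1) + num 3)))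
  wd := num 10000000
  tn := fun b => cond b
    (num 999 * (num 1323 + num 27 * (var 0) + num 1296 * (var 1)))
    (num 4975 * (num 147 + num 3 * (var 0) + num 144 * (var 1)))
  td := num 50000000
  cn := num 1 - var 0 * var 1 - var 1 * (num 1 - num 2 * (var 0 * var 1))
  cd := (num 1 - num 2 * (var 0 * var 1)) * (num 1 - num 2 * (var 0 * var 1))
  kn := var 0 * var 1 * (num 144 + num 3500 * (var 1))
  kd := num 100
  k2n := var 0 * (num 995 + num (-800) * (var 3) + num (-2400) * (var 1))
  k2d := num 100

/-- Its ranges. -/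
def bxD40 : StripEnd.EBox :=
  ⟨(17, 19, 50), (0, 59, 1000), (15, 27, 500), (0, 1, 1)⟩

/-- The chart `D41`. -/
def chD41 : EndChart where
  I := var 0 * var 1
  d := var 0
  w := var 0 * var 2
  den := num 100
  n₀ := ((num 1 - num 2 * (var 0 * var 1) - var 0) * var 1) * (num 88 + num 3 * (var 1))
  n₁ := ((num 1 - num 2 * (var 0 * var 1) - var 0) * var 1) * (num 10 + num 47 * (var 1))
  q₀ := (17, 19, 50)
  q₁ := (0, 59, 1000)
  q₂ := (54, 97, 1000)
  q₃ := (0, 1, 1)
  t₀ := (0, 1)
  t₁ := (1, 1)
  mu₀ := (180, 100)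
  mu₁ := (230, 100)

/-- The piece `D41`. -/
def pcD41 : Piece where
  I := var 0 * var 1
  d := var 0
  w := var 0 * var 2
  o := (((num 1 - num 2 * (var 0 * var 1) - var 0) * var 1) * (num 88 + num 3 * (var 1)) + ((num 1 - num 2 * (var 0 * var 1) - var 0) * var 1) * (num 10 + num 47 * (var 1)) * var 3)
  den := num 100
  vn := num 2 * var 1 * ((num 88 + num 3 * (var 1)) + (num 10 + num 47 * (var 1)) * var 3)
  vs := num 1
  mu := ⟨(180, 100), (230, 100)⟩
  pn := fun b => cond b
    (num 100000 * (num 100 - (((num 1 - num 2 * (var 0 * var 1) - var 0) * var 1) * (num 88 + num 3 * (var 1)) + ((num 1 - num 2 * (var 0 * var 1) - var 0) * var 1) * (num 10 + num 47 * (var 1)) * var 3)) + num (-22310) * ((((num 1 - num 2 * (var 0 * var 1) - var 0) * var 1) * (num 88 + num 3 * (var 1)) + ((num 1 - num 2 * (var 0 * var 1) - var 0) * var 1) * (num 10 + num 47 * (var 1)) * var 3) * var 0))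
    (num 100000 * (num 100 - (((num 1 - num 2 * (var 0 * var 1) - var 0) * var 1) * (num 88 + num 3 * (var 1)) + ((num 1 - num 2 * (var 0 * var 1) - var 0) * var 1) * (num 10 + num 47 * (var 1)) * var 3)) + num (-9720) * ((((num 1 - num 2 * (var 0 * var 1) - var 0) * var 1) * (num 88 + num 3 * (var 1)) + ((num 1 - num 2 * (var 0 * var 1) - var 0) * var 1) * (num 10 + num 47 * (var 1)) * var 3) * var 0))
  pd := num 100000
  en := fun b => cond b
    (num 1018 * (num 1630000 * (var 0) * (var 1) + num (-49000) * (var 0) * (var 0) * (var 1) + num 103790 + num 32592 * (var 0) + num 483000 * (var 0) * (var 1) * (var 1)))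
    (num 1954 * (num 815000 * (var 0) * (var 1) + num (-24500) * (var 0) * (var 0) * (var 1) + num 28890 + num 9072 * (var 0) + num 241500 * (var 0) * (var 1) * (var 1)))
  kk := fun b => cond b
    (num 1004 * (num 99813 * (var 0) + num 43359 * (var 0) * (var 0) + num 124645 * (var 0) * (var 1) + num 97 * (var 0) * (var 3)))
    (num 1990 * (num 27783 * (var 0) + num 12069 * (var 0) * (var 0) + num 34695 * (var 0) * (var 1) + num 27 * (var 0) * (var 3)))
  f0 := num 100000000
  wn := fun b => cond b
    (num 1000 * (num (-400000) * (var 0 * var 1) + (num 4000 * (var 0 * var 1) + num 108 * var 0) * (((num 1 - num 2 * (var 0 * var 1) - var 0) * var 1) * (num 88 + num 3 * (var 1)) + ((num 1 - num 2 * (var 0 * var 1) - var 0) * var 1) * (num 10 + num 47 * (var 1)) * var 3) + var 0 * var 1 * var 0 * (num (-400000) + (num 269500 * (var 1) + num 19926 + num (-1095000) * (var 1) * (var 0) + num (-26703) * (var 0) + num 161000 * (var 1) * (var 3) + num 3483 * (var 3)))) + num 288 * (num 100 * (var 0 * var 1 * var 0) * (num 500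 * (var 1) + num 27)))
    (num 1000 * (num (-400000) * (var 0 * var 1) + (num 4000 * (var 0 * var 1) + num 108 * var 0) * (((num 1 - num 2 * (var 0 * var 1) - var 0) * var 1) * (num 88 + num 3 * (var 1)) + ((num 1 - num 2 * (var 0 * var 1) - var 0) * var 1) * (num 10 + num 47 * (var 1)) * var 3) + var 0 * var 1 * var 0 * (num (-400000) + (num 269500 * (var 1) + num 19926 + num (-1095000) * (var 1) * (var 0) + num (-26703) * (var 0) + num 161000 * (var 1) * (var 3) + num 3483 * (var 3)))) + num (-1090) * (num 100 * (var 0 * var 1 * var 0) * (num 500 * (var 1) + num 27)))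
  wd := num 50000000
  tn := fun b => cond b
    (num 1004 * (num 4656 + num 97 * (var 0) + num 4365 * (var 1) + num 97 * (var 3)))
    (num 1986 * (num 1296 + num 27 * (var 0) + num 1215 * (var 1) + num 27 * (var 3)))
  td := num 100000000
  cn := num 1 - var 0 * var 1 - var 1 * (num 1 - num 2 * (var 0 * var 1))
  cd := (num 1 - num 2 * (var 0 * var 1)) * (num 1 - num 2 * (var 0 * var 1))
  kn := var 0 * var 1 * (num 203 + num 4000 * (var 1))
  kd := num 100
  k2n := var 0 * (num 1038 + num (-800) * (var 3) + num (-2400) * (var 1))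
  k2d := num 100

/-- Its ranges. -/
def bxD41 : StripEnd.EBox :=
  ⟨(17, 19, 50), (0, 59, 1000), (54, 97, 1000), (0, 1, 1)⟩

/-- The chart `D42`. -/
def chD42 : EndChart where
  I := var 0 * var 1
  d := var 0
  w := var 0 * var 2
  den := num 100
  n₀ := ((num 1 - num 2 * (var 0 * var 1) - var 0) * var 1) * (num 80 + num 9 * (var 1))
  n₁ := ((num 1 - num 2 * (var 0 * var 1) - var 0) * var 1) * (num 15 + num 46 * (var 1))
  q₀ := (17, 19, 50)
  q₁ := (0, 59, 1000)
  q₂ := (97, 175, 1000)
  q₃ := (0, 1, 1)
  t₀ := (0, 1)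
  t₁ := (1, 1)
  mu₀ := (169, 100)
  mu₁ := (230, 100)

/-- The piece `D42`. -/
def pcD42 : Piece where
  I := var 0 * var 1
  d := var 0
  w := var 0 * var 2
  o := (((num 1 - num 2 * (var 0 * var 1) - var 0) * var 1) * (num 80 + num 9 * (var 1)) + ((num 1 - num 2 * (var 0 * var 1) - var 0) * var 1) * (num 15 + num 46 * (var 1)) * var 3)
  den := num 100
  vn := num 2 * var 1 * ((num 80 + num 9 * (var 1)) + (num 15 + num 46 * (var 1)) * var 3)
  vs := num 1
  mu := ⟨(169, 100), (230, 100)⟩
  pn := fun b => cond b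
    (num 100000 * (num 100 - (((num 1 - num 2 * (var 0 * var 1) - var 0) * var 1) * (num 80 + num 9 * (var 1)) + ((num 1 - num 2 * (var 0 * var 1) - var 0) * var 1) * (num 15 + num 46 * (var 1)) * var 3)) + num (-40250) * ((((num 1 - num 2 * (var 0 * var 1) - var 0) * var 1) * (num 80 + num 9 * (var 1)) + ((num 1 - num 2 * (var 0 * var 1) - var 0) * var 1) * (num 15 + num 46 * (var 1)) * var 3) * var 0))
    (num 100000 * (num 100 - (((num 1 - num 2 * (var 0 * var 1) - var 0) * var 1) * (num 80 + num 9 * (var 1)) + ((num 1 - num 2 * (var 0 * var 1) - var 0) * var 1) * (num 15 + num 46 * (var 1)) * var 3)) + num (-16393) * ((((num 1 - num 2 * (var 0 * var 1) - var 0) * var 1) * (num 80 + num 9 * (var 1)) + ((num 1 - num 2 * (var 0 * var 1) - var 0) * var 1) * (num 15 + num 46 * (var 1)) * var 3) * var 0))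
  pd := num 100000
  en := fun b => cond b
    (num 25500 * (num 60720 * (var 0) * (var 1) + num 30200 * (var 0) * (var 0) * (var 1) + num 7511 + num 2296 * (var 0) + num 50760 * (var 0) * (var 1) * (var 1)))
    (num 973 * (num 1518000 * (var 0) * (var 1) + num 755000 * (var 0) * (var 0) * (var 1) + num 104081 + num 31816 * (var 0) + num 1269000 * (var 0) * (var 1) * (var 1)))
  kk := fun b => cond b
    (num 25125 * (num 7203 * (var 0) + num 3122 * (var 0) * (var 0) + num 8785 * (var 0) * (var 1) + num 7 * (var 0) * (var 3)))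
    (num 995 * (num 99813 * (var 0) + num 43262 * (var 0) * (var 0) + num 121735 * (var 0) * (var 1) + num 97 * (var 0) * (var 3)))
  f0 := num 100000000
  wn := fun b => cond b
    (num 1000 * (num (-800000) * (var 0 * var 1) + (num 8000 * (var 0 * var 1) + num 388 * var 0) * (((num 1 - num 2 * (var 0 * var 1) - var 0) * var 1) * (num 80 + num 9 * (var 1)) + ((num 1 - num 2 * (var 0 * var 1) - var 0) * var 1) * (num 15 + num 46 * (var 1)) * var 3) + var 0 * var 1 * var 0 * (num (-800000) + (num 890000 * (var 1) + num 63244 + num (-3410000) * (var 1) * (var 0) + num (-97388) * (var 0) + num 473000 * (var 1) * (var 3) + num 19303 * (var 3)))) + num 291 * (num 100 * (var 0 * var 1 * var 0) * (num 1000 * (var 1) + num 97)))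
    (num 1000 * (num (-800000) * (var 0 * var 1) + (num 8000 * (var 0 * var 1) + num 388 * var 0) * (((num 1 - num 2 * (var 0 * var 1) - var 0) * var 1) * (num 80 + num 9 * (var 1)) + ((num 1 - num 2 * (var 0 * var 1) - var 0) * var 1) * (num 15 + num 46 * (var 1)) * var 3) + var 0 * var 1 * var 0 * (num (-800000) + (num 890000 * (var 1) + num 63244 + num (-3410000) * (var 1) * (var 0) + num (-97388) * (var 0) + num 473000 * (var 1) * (var 3) + num 19303 * (var 3)))) + num (-1259) * (num 100 * (var 0 * var 1 * var 0) * (num 1000 * (var 1) + num 97)))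
  wd := num 100000000
  tn := fun b => cond b
    (num 25375 * (num 322 + num 14 * (var 0) + num 280 * (var 1) + num 7 * (var 3) + num 21 * (var 1) * (var 3)))
    (num 1011 * (num 4462 + num 194 * (var 0) + num 3880 * (var 1) + num 97 * (var 3) + num 291 * (var 1) * (var 3)))
  td := num 100000000
  cn := num 1 - var 0 * var 1 - var 1 * (num 1 - num 2 * (var 0 * var 1))
  cd := (num 1 - num 2 * (var 0 * var 1)) * (num 1 - num 2 * (var 0 * var 1))
  kn := var 0 * var 1 * (num 279 + num 4500 * (var 1))
  kd := num 100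
  k2n := var 0 * (num 1120 + num (-850) * (var 3) + num (-2400) * (var 1))
  k2d := num 100

/-- Its ranges. -/
def bxD42 : StripEnd.EBox :=
  ⟨(17, 19, 50), (0, 59, 1000), (97, 175, 1000), (0, 1, 1)⟩

/-- The chart `D43`. -/
def chD43 : EndChart where
  I := var 0 * var 1
  d := var 0
  w := var 0 * var 2
  den := num 100
  n₀ := ((num 1 - num 2 * (var 0 * var 1) - var 0) * var 1) * (num 70 + num (-8) * (var 1))
  n₁ := ((num 1 - num 2 * (var 0 * var 1) - var 0) * var 1) * (num 22 + num 40 * (var 1))
  q₀ := (17, 19, 50)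
  q₁ := (0, 59, 1000)
  q₂ := (35, 63, 200)
  q₃ := (0, 1, 1)
  t₀ := (0, 1)
  t₁ := (1, 1)
  mu₀ := (151, 100)
  mu₁ := (233, 100)

/-- The piece `D43`. -/
def pcD43 : Piece where
  I := var 0 * var 1
  d := var 0
  w := var 0 * var 2
  o := (((num 1 - num 2 * (var 0 * var 1) - var 0) * var 1) * (num 70 + num (-8) * (var 1)) + ((num 1 - num 2 * (var 0 * var 1) - var 0) * var 1) * (num 22 + num 40 * (var 1)) * var 3)
  den := num 100
  vn := num 2 * var 1 * ((num 70 + num (-8) * (var 1)) + (num 22 + num 40 * (var 1)) * var 3)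
  vs := num 1
  mu := ⟨(151, 100), (233, 100)⟩
  pn := fun b => cond b
    (num 20000 * (num 100 - (((num 1 - num 2 * (var 0 * var 1) - var 0) * var 1) * (num 70 + num (-8) * (var 1)) + ((num 1 - num 2 * (var 0 * var 1) - var 0) * var 1) * (num 22 + num 40 * (var 1)) * var 3)) + num (-14679) * ((((num 1 - num 2 * (var 0 * var 1) - var 0) * var 1) * (num 70 + num (-8) * (var 1)) + ((num 1 - num 2 * (var 0 * var 1) - var 0) * var 1) * (num 22 + num 40 * (var 1)) * var 3) * var 0))
    (num 20000 * (num 100 - (((num 1 - num 2 * (var 0 * var 1) - var 0) * var 1) * (num 70 + num (-8) * (var 1)) + ((num 1 - num 2 * (var 0 * var 1) - var 0) * var 1) * (num 22 + num 40 * (var 1)) * var 3)) + num (-5285) * ((((num 1 - num 2 * (var 0 * var 1) - var 0) * var 1) * (num 70 + num (-8) * (var 1)) + ((num 1 - num 2 * (var 0 * var 1) - var 0) * var 1) * (num 22 + num 40 * (var 1)) * var 3) * var 0))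
  pd := num 20000
  en := fun b => cond b
    (num 1021 * (num 268800 * (var 0) * (var 1) + num 419800 * (var 0) * (var 0) * (var 1) + num 67599 + num 20664 * (var 0) + num 499200 * (var 0) * (var 1) * (var 1)))
    (num 4850 * (num 53760 * (var 0) * (var 1) + num 83960 * (var 0) * (var 0) * (var 1) + num 7511 + num 2296 * (var 0) + num 99840 * (var 0) * (var 1) * (var 1)))
  kk := fun b => cond b
    (num 1005 * (num 64827 * (var 0) + num 28098 * (var 0) * (var 0) + num 76104 * (var 0) * (var 1) + num 63 * (var 0) * (var 3)))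
    (num 4970 * (num 7203 * (var 0) + num 3122 * (var 0) * (var 0) + num 8456 * (var 0) * (var 1) + num 7 * (var 0) * (var 3)))
  f0 := num 20000000
  wn := fun b => cond b
    (num 1000 * (num (-32000) * (var 0 * var 1) + (num 320 * (var 0 * var 1) + num 28 * var 0) * (((num 1 - num 2 * (var 0 * var 1) - var 0) * var 1) * (num 70 + num (-8) * (var 1)) + ((num 1 - num 2 * (var 0 * var 1) - var 0) * var 1) * (num 22 + num 40 * (var 1)) * var 3) + var 0 * var 1 * var 0 * (num (-32000) + (num 53120 * (var 1) + num 3906 + num (-209560) * (var 1) * (var 0) + num (-7546) * (var 0) + num 30080 * (var 1) * (var 3) + num 2205 * (var 3)))) + num 376 * (num 100 * (var 0 * var 1 * var 0) * (num 40 * (var 1) + num 7)))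
    (num 1000 * (num (-32000) * (var 0 * var 1) + (num 320 * (var 0 * var 1) + num 28 * var 0) * (((num 1 - num 2 * (var 0 * var 1) - var 0) * var 1) * (num 70 + num (-8) * (var 1)) + ((num 1 - num 2 * (var 0 * var 1) - var 0) * var 1) * (num 22 + num 40 * (var 1)) * var 3) + var 0 * var 1 * var 0 * (num (-32000) + (num 53120 * (var 1) + num 3906 + num (-209560) * (var 1) * (var 0) + num (-7546) * (var 0) + num 30080 * (var 1) * (var 3) + num 2205 * (var 3)))) + num (-1631) * (num 100 * (var 0 * var 1 * var 0) * (num 40 * (var 1) + num 7)))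
  wd := num 4000000
  tn := fun b => cond b
    (num 1001 * (num 2772 + num 252 * (var 0) + num 2016 * (var 1) + num 126 * (var 3) + num 378 * (var 1) * (var 3)))
    (num 4965 * (num 308 + num 28 * (var 0) + num 224 * (var 1) + num 14 * (var 3) + num 42 * (var 1) * (var 3)))
  td := num 20000000
  cn := num 1 - var 0 * var 1 - var 1 * (num 1 - num 2 * (var 0 * var 1))
  cd := (num 1 - num 2 * (var 0 * var 1)) * (num 1 - num 2 * (var 0 * var 1))
  kn := var 0 * var 1 * (num 399 + num 4500 * (var 1))
  kd := num 100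
  k2n := var 0 * (num 1186 + num (-900) * (var 3) + num (-2100) * (var 1))
  k2d := num 100

/-- Its ranges. -/
def bxD43 : StripEnd.EBox :=
  ⟨(17, 19, 50), (0, 59, 1000), (35, 63, 200), (0, 1, 1)⟩

/-- The chart `D44`. -/
def chD44 : EndChart where
  I := var 0 * var 1
  d := var 0
  w := var 0 * var 2
  den := num 100
  n₀ := ((num 1 - num 2 * (var 0 * var 1) - var 0) * var 1) * (num 59 + num (-7) * (var 1))
  n₁ := ((num 1 - num 2 * (var 0 * var 1) - var 0) * var 1) * (num 28 + num 13 * (var 1))
  q₀ := (17, 19, 50)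
  q₁ := (0, 59, 1000)
  q₂ := (315, 504, 1000)
  q₃ := (0, 1, 1)
  t₀ := (0, 1)
  t₁ := (1, 1)
  mu₀ := (130, 100)
  mu₁ := (236, 100)

/-- The piece `D44`. -/
def pcD44 : Piece where
  I := var 0 * var 1
  d := var 0
  w := var 0 * var 2
  o := (((num 1 - num 2 * (var 0 * var 1) - var 0) * var 1) * (num 59 + num (-7) * (var 1)) + ((num 1 - num 2 * (var 0 * var 1) - var 0) * var 1) * (num 28 + num 13 * (var 1)) * var 3)
  den := num 100
  vn := num 2 * var 1 * ((num 59 + num (-7) * (var 1)) + (num 28 + num 13 * (var 1)) * var 3)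
  vs := num 1
  mu := ⟨(130, 100), (236, 100)⟩
  pn := fun b => cond b
    (num 100000 * (num 100 - (((num 1 - num 2 * (var 0 * var 1) - var 0) * var 1) * (num 59 + num (-7) * (var 1)) + ((num 1 - num 2 * (var 0 * var 1) - var 0) * var 1) * (num 28 + num 13 * (var 1)) * var 3)) + num (-118944) * ((((num 1 - num 2 * (var 0 * var 1) - var 0) * var 1) * (num 59 + num (-7) * (var 1)) + ((num 1 - num 2 * (var 0 * var 1) - var 0) * var 1) * (num 28 + num 13 * (var 1)) * var 3) * var 0))
    (num 100000 * (num 100 - (((num 1 - num 2 * (var 0 * var 1) - var 0) * var 1) * (num 59 + num (-7) * (var 1)) + ((num 1 - num 2 * (var 0 * var 1) - var 0) * var 1) * (num 28 + num 13 * (var 1)) * var 3)) + num (-40950) * ((((num 1 - num 2 * (var 0 * var 1) - var 0) * var 1) * (num 59 + num (-7) * (var 1)) + ((num 1 - num 2 * (var 0 * var 1) - var 0) * var 1) * (num 28 + num 13 * (var 1)) * var 3) * var 0))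
  pd := num 100000
  en := fun b => cond b
    (num 8144 * (num 216500 * (var 0) * (var 1) + num 319625 * (var 0) * (var 0) * (var 1) + num 66843 + num 22806 * (var 0) + num 357750 * (var 0) * (var 1) * (var 1)))
    (num 4870 * (num 346400 * (var 0) * (var 1) + num 511400 * (var 0) * (var 0) * (var 1) + num 66843 + num 22806 * (var 0) + num 572400 * (var 0) * (var 1) * (var 1)))
  kk := fun b => cond b
    (num 8048 * (num 64827 * (var 0) + num 28035 * (var 0) * (var 0) + num 72576 * (var 0) * (var 1) + num 63 * (var 0) * (var 3)))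
    (num 4970 * (num 64827 * (var 0) + num 28035 * (var 0) * (var 0) + num 72576 * (var 0) * (var 1) + num 63 * (var 0) * (var 3)))
  f0 := num 100000000
  wn := fun b => cond b
    (num 1000 * (num (-160000) * (var 0 * var 1) + (num 1600 * (var 0 * var 1) + num 252 * var 0) * (((num 1 - num 2 * (var 0 * var 1) - var 0) * var 1) * (num 59 + num (-7) * (var 1)) + ((num 1 - num 2 * (var 0 * var 1) - var 0) * var 1) * (num 28 + num 13 * (var 1)) * var 3) + var 0 * var 1 * var 0 * (num (-160000) + (num 481200 * (var 1) + num 27594 + num (-1797200) * (var 1) * (var 0) + num (-74151) * (var 0) + num 207000 * (var 1) * (var 3) + num 29547 * (var 3)))) + num 534 * (num 100 * (var 0 * var 1 * var 0) * (num 200 * (var 1) + num 63)))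
    (num 1000 * (num (-160000) * (var 0 * var 1) + (num 1600 * (var 0 * var 1) + num 252 * var 0) * (((num 1 - num 2 * (var 0 * var 1) - var 0) * var 1) * (num 59 + num (-7) * (var 1)) + ((num 1 - num 2 * (var 0 * var 1) - var 0) * var 1) * (num 28 + num 13 * (var 1)) * var 3) + var 0 * var 1 * var 0 * (num (-160000) + (num 481200 * (var 1) + num 27594 + num (-1797200) * (var 1) * (var 0) + num (-74151) * (var 0) + num 207000 * (var 1) * (var 3) + num 29547 * (var 3)))) + num (-1793) * (num 100 * (var 0 * var 1 * var 0) * (num 200 * (var 1) + num 63)))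
  wd := num 20000000
  tn := fun b => cond b
    (num 7928 * (num 2583 + num 441 * (var 0) + num 1638 * (var 1) + num 126 * (var 3) + num 315 * (var 1) * (var 3)))
    (num 4960 * (num 2583 + num 441 * (var 0) + num 1638 * (var 1) + num 126 * (var 3) + num 315 * (var 1) * (var 3)))
  td := num 100000000
  cn := num 1 - var 0 * var 1 - var 1 * (num 1 - num 2 * (var 0 * var 1))
  cd := (num 1 - num 2 * (var 0 * var 1)) * (num 1 - num 2 * (var 0 * var 1))
  kn := var 0 * var 1 * (num 546 + num 3500 * (var 1))
  kd := num 100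
  k2n := var 0 * (num 1202 + num (-850) * (var 3) + num (-2400) * (var 1))
  k2d := num 100

/-- Its ranges. -/
def bxD44 : StripEnd.EBox :=
  ⟨(17, 19, 50), (0, 59, 1000), (315, 504, 1000), (0, 1, 1)⟩

/-- The chart `D45`. -/
def chD45 : EndChart where
  I := var 0 * var 1
  d := var 0
  w := var 0 * var 2
  den := num 100
  n₀ := ((num 1 - num 2 * (var 0 * var 1) - var 0) * var 1) * (num 55 + num (-5) * (var 1))
  n₁ := ((num 1 - num 2 * (var 0 * var 1) - var 0) * var 1) * (num 26 + num (-6) * (var 1))
  q₀ := (17, 19, 50)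
  q₁ := (0, 59, 1000)
  q₂ := (1071, 1250, 2125)
  q₃ := (0, 1, 1)
  t₀ := (0, 1)
  t₁ := (1, 1)
  mu₀ := (127, 100)
  mu₁ := (238, 100)

/-- The piece `D45`. -/
def pcD45 : Piece where
  I := var 0 * var 1
  d := var 0
  w := var 0 * var 2
  o := (((num 1 - num 2 * (var 0 * var 1) - var 0) * var 1) * (num 55 + num (-5) * (var 1)) + ((num 1 - num 2 * (var 0 * var 1) - var 0) * var 1) * (num 26 + num (-6) * (var 1)) * var 3)
  den := num 100
  vn := num 2 * var 1 * ((num 55 + num (-5) * (var 1)) + (num 26 + num (-6) * (var 1)) * var 3)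
  vs := num 1
  mu := ⟨(127, 100), (238, 100)⟩
  pn := fun b => cond b
    (num 100000 * (num 100 - (((num 1 - num 2 * (var 0 * var 1) - var 0) * var 1) * (num 55 + num (-5) * (var 1)) + ((num 1 - num 2 * (var 0 * var 1) - var 0) * var 1) * (num 26 + num (-6) * (var 1)) * var 3)) + num (-140182) * ((((num 1 - num 2 * (var 0 * var 1) - var 0) * var 1) * (num 55 + num (-5) * (var 1)) + ((num 1 - num 2 * (var 0 * var 1) - var 0) * var 1) * (num 26 + num (-6) * (var 1)) * var 3) * var 0))
    (num 100000 * (num 100 - (((num 1 - num 2 * (var 0 * var 1) - var 0) * var 1) * (num 55 + num (-5) * (var 1)) + ((num 1 - num 2 * (var 0 * var 1) - var 0) * var 1) * (num 26 + num (-6) * (var 1)) * var 3)) + num (-64008) * ((((num 1 - num 2 * (var 0 * var 1) - var 0) * var 1) * (num 55 + num (-5) * (var 1)) + ((num 1 - num 2 * (var 0 * var 1) - var 0) * var 1) * (num 26 + num (-6) * (var 1)) * var 3) * var 0))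
  pd := num 100000
  en := fun b => cond b
    (num 1011 * (num 3943000 * (var 0) * (var 1) + num (-1767000) * (var 0) * (var 0) * (var 1) + num 610793 + num 249736 * (var 0) + num (-244000) * (var 0) * (var 1) * (var 1)))
    (num 7920 * (num 492875 * (var 0) * (var 1) + num (-220875) * (var 0) * (var 0) * (var 1) + num 65331 + num 26712 * (var 0) + num (-30500) * (var 0) * (var 1) * (var 1)))
  kk := fun b => cond b
    (num 1006 * (num 604903 * (var 0) + num 266228 * (var 0) * (var 0) + num 655557 * (var 0) * (var 1) + num 589 * (var 0) * (var 3)))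
    (num 7952 * (num 64701 * (var 0) + num 28476 * (var 0) * (var 0) + num 70119 * (var 0) * (var 1) + num 63 * (var 0) * (var 3)))
  f0 := num 100000000
  wn := fun b => cond b
    (num 1000 * (num (-100000) * (var 0 * var 1) + (num 1000 * (var 0 * var 1) + num 252 * var 0) * (((num 1 - num 2 * (var 0 * var 1) - var 0) * var 1) * (num 55 + num (-5) * (var 1)) + ((num 1 - num 2 * (var 0 * var 1) - var 0) * var 1) * (num 26 + num (-6) * (var 1)) * var 3) + var 0 * var 1 * var 0 * (num (-100000) + (num 90625 * (var 1) + num 28413 + num (-488500) * (var 1) * (var 0) + num (-89775) * (var 0) + num 135125 * (var 1) * (var 3) + num 32949 * (var 3)))) + num 1046 * (num 100 * (var 0 * var 1 * var 0) * (num 125 * (var 1) + num 63)))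
    (num 1000 * (num (-100000) * (var 0 * var 1) + (num 1000 * (var 0 * var 1) + num 252 * var 0) * (((num 1 - num 2 * (var 0 * var 1) - var 0) * var 1) * (num 55 + num (-5) * (var 1)) + ((num 1 - num 2 * (var 0 * var 1) - var 0) * var 1) * (num 26 + num (-6) * (var 1)) * var 3) + var 0 * var 1 * var 0 * (num (-100000) + (num 90625 * (var 1) + num 28413 + num (-488500) * (var 1) * (var 0) + num (-89775) * (var 0) + num 135125 * (var 1) * (var 3) + num 32949 * (var 3)))) + num (-1467) * (num 100 * (var 0 * var 1 * var 0) * (num 125 * (var 1) + num 63)))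
  wd := num 12500000
  tn := fun b => cond b
    (num 981 * (num 21793 + num 10013 * (var 0) + num 12369 * (var 1) + num 3534 * (var 1) * (var 3)))
    (num 7896 * (num 2331 + num 1071 * (var 0) + num 1323 * (var 1) + num 378 * (var 1) * (var 3)))
  td := num 100000000
  cn := num 1 - var 0 * var 1 - var 1 * (num 1 - num 2 * (var 0 * var 1))
  cd := (num 1 - num 2 * (var 0 * var 1)) * (num 1 - num 2 * (var 0 * var 1))
  kn := var 0 * var 1 * (num 549 + num 3000 * (var 1))
  kd := num 100
  k2n := var 0 * (num 801 + num (-450) * (var 3) + num (-2400) * (var 1))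
  k2d := num 100

/-- Its ranges. -/
def bxD45 : StripEnd.EBox :=
  ⟨(17, 19, 50), (0, 59, 1000), (1071, 1250, 2125), (0, 1, 1)⟩

/-- The chart `D46`. -/
def chD46 : EndChart where
  I := var 0 * var 1
  d := var 0
  w := var 0 * var 2
  den := num 100
  n₀ := ((num 1 - num 2 * (var 0 * var 1) - var 0) * var 1) * (num 75 + num (-35) * (var 1))
  n₁ := ((num 1 - num 2 * (var 0 * var 1) - var 0) * var 1) * (num 24 + num 20 * (var 1))
  q₀ := (0, 1, 20)
  q₁ := (1, 2, 2)
  q₂ := (20, 23, 200)
  q₃ := (0, 1, 1)
  t₀ := (0, 1)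
  t₁ := (1, 1)
  mu₀ := (195, 100)
  mu₁ := (230, 100)

/-- The piece `D46`. -/
def pcD46 : Piece where
  I := var 0 * var 1
  d := var 0
  w := var 0 * var 2
  o := (((num 1 - num 2 * (var 0 * var 1) - var 0) * var 1) * (num 75 + num (-35) * (var 1)) + ((num 1 - num 2 * (var 0 * var 1) - var 0) * var 1) * (num 24 + num 20 * (var 1)) * var 3)
  den := num 100
  vn := num 2 * var 1 * ((num 75 + num (-35) * (var 1)) + (num 24 + num 20 * (var 1)) * var 3)
  vs := num 1
  mu := ⟨(195, 100), (230, 100)⟩
  pn := fun b => cond b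
    (num 20000 * (num 100 - (((num 1 - num 2 * (var 0 * var 1) - var 0) * var 1) * (num 75 + num (-35) * (var 1)) + ((num 1 - num 2 * (var 0 * var 1) - var 0) * var 1) * (num 24 + num 20 * (var 1)) * var 3)) + num (-5290) * ((((num 1 - num 2 * (var 0 * var 1) - var 0) * var 1) * (num 75 + num (-35) * (var 1)) + ((num 1 - num 2 * (var 0 * var 1) - var 0) * var 1) * (num 24 + num 20 * (var 1)) * var 3) * var 0))
    (num 20000 * (num 100 - (((num 1 - num 2 * (var 0 * var 1) - var 0) * var 1) * (num 75 + num (-35) * (var 1)) + ((num 1 - num 2 * (var 0 * var 1) - var 0) * var 1) * (num 24 + num 20 * (var 1)) * var 3)) + num (-3900) * ((((num 1 - num 2 * (var 0 * var 1) - var 0) * var 1) * (num 75 + num (-35) * (var 1)) + ((num 1 - num 2 * (var 0 * var 1) - var 0) * var 1) * (num 24 + num 20 * (var 1)) * var 3) * var 0))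
  pd := num 20000
  en := fun b => cond b
    (num 1129 * (num 235800 * (var 0) * (var 1) + num 178000 * (var 0) * (var 0) * (var 1) + num 6440 + num 170338 * (var 0) + num (-86200) * (var 0) * (var 1) * (var 1)))
    (num 16840 * (num 11790 * (var 0) * (var 1) + num 8900 * (var 0) * (var 0) * (var 1) + num 280 + num 7406 * (var 0) + num (-4310) * (var 0) * (var 1) * (var 1)))
  kk := fun b => cond b
    (num 1016 * (num 6532 * (var 0) + num 148810 * (var 0) * (var 0) + num (-138) * (var 0) * (var 1) + num 138 * (var 0) * (var 3)))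
    (num 19420 * (num 284 * (var 0) + num 6470 * (var 0) * (var 0) + num (-6) * (var 0) * (var 1) + num 6 * (var 0) * (var 3)))
  f0 := num 20000000
  wn := fun b => cond b
    (num 1000 * (num (-8000) * (var 0 * var 1) + (num 80 * (var 0 * var 1) + num 4 * var 0) * (((num 1 - num 2 * (var 0 * var 1) - var 0) * var 1) * (num 75 + num (-35) * (var 1)) + ((num 1 - num 2 * (var 0 * var 1) - var 0) * var 1) * (num 24 + num 20 * (var 1)) * var 3) + var 0 * var 1 * var 0 * (num (-8000) + (num (-3680) * (var 1) + num 2819 + num (-59950) * (var 1) * (var 0) + num 9364 * (var 0) + num 13250 * (var 1) * (var 3) + num (-1885) * (var 3)))) + num (-44) * (num 100 * (var 0 * var 1 * var 0) * (num 10 * (var 1) + num 1)))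
    (num 1000 * (num (-8000) * (var 0 * var 1) + (num 80 * (var 0 * var 1) + num 4 * var 0) * (((num 1 - num 2 * (var 0 * var 1) - var 0) * var 1) * (num 75 + num (-35) * (var 1)) + ((num 1 - num 2 * (var 0 * var 1) - var 0) * var 1) * (num 24 + num 20 * (var 1)) * var 3) + var 0 * var 1 * var 0 * (num (-8000) + (num (-3680) * (var 1) + num 2819 + num (-59950) * (var 1) * (var 0) + num 9364 * (var 0) + num 13250 * (var 1) * (var 3) + num (-1885) * (var 3)))) + num (-990) * (num 100 * (var 0 * var 1 * var 0) * (num 10 * (var 1) + num 1)))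
  wd := num 1000000
  tn := fun b => cond b
    (num 1420 * (num 1472 + num (-2323) * (var 0) + num 184 * (var 1) + num (-1403) * (var 3) + num 3473 * (var 1) * (var 3)))
    (num 17280 * (num 64 + num (-101) * (var 0) + num 8 * (var 1) + num (-61) * (var 3) + num 151 * (var 1) * (var 3)))
  td := num 20000000
  cn := num 1 - var 0 * var 1 - var 1 * (num 1 - num 2 * (var 0 * var 1))
  cd := (num 1 - num 2 * (var 0 * var 1)) * (num 1 - num 2 * (var 0 * var 1))
  kn := var 0 * var 1 * (num 321 + num 12000 * (var 1) + num (-60000) * (var 0))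
  kd := num 100
  k2n := var 0 * (num 1057 + num (-1000) * (var 3) + num 200 * (var 1))
  k2d := num 100

/-- Its ranges. -/
def bxD46 : StripEnd.EBox :=
  ⟨(0, 1, 20), (1, 2, 2), (20, 23, 200), (0, 1, 1)⟩

/-- The chart `D47`. -/
def chD47 : EndChart where
  I := var 0 * var 1
  d := var 0
  w := var 0 * var 2
  den := num 100
  n₀ := ((num 1 - num 2 * (var 0 * var 1) - var 0) * var 1) * (num 74 + num (-35) * (var 1))
  n₁ := ((num 1 - num 2 * (var 0 * var 1) - var 0) * var 1) * (num 23 + num 20 * (var 1))
  q₀ := (0, 1, 20)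
  q₁ := (1, 2, 2)
  q₂ := (115, 132, 1000)
  q₃ := (0, 1, 1)
  t₀ := (0, 1)
  t₁ := (1, 1)
  mu₀ := (195, 100)
  mu₁ := (230, 100)

/-- The piece `D47`. -/
def pcD47 : Piece where
  I := var 0 * var 1
  d := var 0
  w := var 0 * var 2
  o := (((num 1 - num 2 * (var 0 * var 1) - var 0) * var 1) * (num 74 + num (-35) * (var 1)) + ((num 1 - num 2 * (var 0 * var 1) - var 0) * var 1) * (num 23 + num 20 * (var 1)) * var 3)
  den := num 100
  vn := num 2 * var 1 * ((num 74 + num (-35) * (var 1)) + (num 23 + num 20 * (var 1)) * var 3)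
  vs := num 1
  mu := ⟨(195, 100), (230, 100)⟩
  pn := fun b => cond b
    (num 100000 * (num 100 - (((num 1 - num 2 * (var 0 * var 1) - var 0) * var 1) * (num 74 + num (-35) * (var 1)) + ((num 1 - num 2 * (var 0 * var 1) - var 0) * var 1) * (num 23 + num 20 * (var 1)) * var 3)) + num (-30360) * ((((num 1 - num 2 * (var 0 * var 1) - var 0) * var 1) * (num 74 + num (-35) * (var 1)) + ((num 1 - num 2 * (var 0 * var 1) - var 0) * var 1) * (num 23 + num 20 * (var 1)) * var 3) * var 0))
    (num 100000 * (num 100 - (((num 1 - num 2 * (var 0 * var 1) - var 0) * var 1) * (num 74 + num (-35) * (var 1)) + ((num 1 - num 2 * (var 0 * var 1) - var 0) * var 1) * (num 23 + num 20 * (var 1)) * var 3)) + num (-22425) * ((((num 1 - num 2 * (var 0 * var 1) - var 0) * var 1) * (num 74 + num (-35) * (var 1)) + ((num 1 - num 2 * (var 0 * var 1) - var 0) * var 1) * (num 23 + num 20 * (var 1)) * var 3) * var 0))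
  pd := num 100000
  en := fun b => cond b
    (num 4460 * (num 302250 * (var 0) * (var 1) + num 181000 * (var 0) * (var 0) * (var 1) + num 9240 + num 240306 * (var 0) + num (-106250) * (var 0) * (var 1) * (var 1)))
    (num 4310 * (num 241800 * (var 0) * (var 1) + num 144800 * (var 0) * (var 0) * (var 1) + num 6440 + num 167486 * (var 0) + num (-85000) * (var 0) * (var 1) * (var 1)))
  kk := fun b => cond b
    (num 4060 * (num 9372 * (var 0) + num 213147 * (var 0) * (var 0) + num (-198) * (var 0) * (var 1) + num 198 * (var 0) * (var 3)))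
    (num 4855 * (num 6532 * (var 0) + num 148557 * (var 0) * (var 0) + num (-138) * (var 0) * (var 1) + num 138 * (var 0) * (var 3)))
  f0 := num 100000000
  wn := fun b => cond b
    (num 1000 * (num (-160000) * (var 0 * var 1) + (num 1600 * (var 0 * var 1) + num 92 * var 0) * (((num 1 - num 2 * (var 0 * var 1) - var 0) * var 1) * (num 74 + num (-35) * (var 1)) + ((num 1 - num 2 * (var 0 * var 1) - var 0) * var 1) * (num 23 + num 20 * (var 1)) * var 3) + var 0 * var 1 * var 0 * (num (-160000) + (num (-79600) * (var 1) + num 59823 + num (-1208400) * (var 1) * (var 0) + num 187542 * (var 0) + num 270600 * (var 1) * (var 3) + num (-38847) * (var 3)))) + num (-100) * (num 100 * (var 0 * var 1 * var 0) * (num 200 * (var 1) + num 23)))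
    (num 1000 * (num (-160000) * (var 0 * var 1) + (num 1600 * (var 0 * var 1) + num 92 * var 0) * (((num 1 - num 2 * (var 0 * var 1) - var 0) * var 1) * (num 74 + num (-35) * (var 1)) + ((num 1 - num 2 * (var 0 * var 1) - var 0) * var 1) * (num 23 + num 20 * (var 1)) * var 3) + var 0 * var 1 * var 0 * (num (-160000) + (num (-79600) * (var 1) + num 59823 + num (-1208400) * (var 1) * (var 0) + num 187542 * (var 0) + num 270600 * (var 1) * (var 3) + num (-38847) * (var 3)))) + num (-1010) * (num 100 * (var 0 * var 1 * var 0) * (num 200 * (var 1) + num 23)))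
  wd := num 20000000
  tn := fun b => cond b
    (num 5352 * (num 2079 + num (-2904) * (var 0) + num 264 * (var 1) + num (-1749) * (var 3) + num 4422 * (var 1) * (var 3)))
    (num 4370 * (num 1449 + num (-2024) * (var 0) + num 184 * (var 1) + num (-1219) * (var 3) + num 3082 * (var 1) * (var 3)))
  td := num 100000000
  cn := num 1 - var 0 * var 1 - var 1 * (num 1 - num 2 * (var 0 * var 1))
  cd := (num 1 - num 2 * (var 0 * var 1)) * (num 1 - num 2 * (var 0 * var 1))
  kn := var 0 * var 1 * (num (-330) + num 11000 * (var 1) + num (-58000) * (var 0))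
  kd := num 100
  k2n := var 0 * (num 918 + num (-850) * (var 3) + num 200 * (var 1))
  k2d := num 100

/-- Its ranges. -/
def bxD47 : StripEnd.EBox :=
  ⟨(0, 1, 20), (1, 2, 2), (115, 132, 1000), (0, 1, 1)⟩

end Vale.Agent.P100.Calib.StripEndD
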