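import Vale.Agent.P100.Calib.SlabStripEndDSide
import Vale.Agent.P100.Calib.SlabStripEndBig
import Vale.Agent.P100.Calib.SlabStripEndDDataB

/-!
# The checks of the bins `D26`, `D27` of the strip for `u` near one, `d` large
-/

namespace Vale.Agent.P100.Calib.StripEndD

open Pack hiding ev_add ev_mul
open Pack.Ex StripMid StripEnd

local instance endDCheck13Add : Add Ex := ⟨Ex.add⟩
local instance endDCheck13Sub : Sub Ex := ⟨Ex.sub⟩
local instance endDCheck13Mul : Mul Ex := ⟨Ex.mul⟩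

/-- The checks of `D26`. -/
theorem certD26 : Cert pcD26 bxD26 := by
  have h_g1 : ∀ s p l : Bool,
      checkFour bxD26.C 311 7 12 0 5
        (pcD26.at ⟨p, l, !s, !s, false⟩ (c1 s)) = true := by
    decide +kernel
  have h_g2 : ∀ s p l t : Bool,
      checkFour bxD26.C 787 20 30 0 10
        (pcD26.at ⟨p, l, true, true, t⟩ (StripEnd.strict (c2 s))) = true := by
    decide +kernel
  have h_g5 : ∀ s p l t : Bool,
      checkFour bxD26.C 785 18 28 0 9
        (pcD26.at ⟨p, l, true, true, t⟩ (StripEnd.strict (c5 s))) = true := by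
    decide +kernel
  have h_gMG : ∀ p l t : Bool,
      checkFour bxD26.C 661 17 27 0 8
        (pcD26.at ⟨p, l, true, false, t⟩ tplMG) = true := by
    decide +kernel
  have h_v2 : ∀ s : Bool,
      checkFour bxD26.C 188 5 9 0 4
        (pcD26.at ⟨false, false, true, true, false⟩ (curve2 s)) = true := by
    decide +kernel
  have h_v5 : ∀ s : Bool,
      checkFour bxD26.C 195 6 9 0 4
        (pcD26.at ⟨false, false, true, true, false⟩ (curve5 s)) = true := by
    decide +kernel
  have h_wP : ∀ b hi : Bool,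
      checkFour bxD26.C 95 2 3 1 1
        (pcD26.winP b hi) = true := by
    decide +kernel
  have h_wE : ∀ b hi : Bool,
      checkFour bxD26.C 339 11 14 2 3
        (pcD26.winE b hi) = true := by
    decide +kernel
  have h_wK : ∀ b hi : Bool,
      checkFour bxD26.C 318 12 12 2 3
        (pcD26.winK b hi) = true := by
    decide +kernel
  have h_wW : ∀ b : Bool,
      checkFour bxD26.C 264 8 10 2 3
        (pcD26.winW b) = true := by
    decide +kernel
  have h_wY : ∀ b : Bool,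
      checkFour bxD26.C 534 17 21 3 6
        (pcD26.winY b) = true := by
    decide +kernel
  have h_wT : ∀ b hi : Bool,
      checkFour bxD26.C 243 7 9 2 4
        (pcD26.winT b hi) = true := by
    decide +kernel
  have h_gap : ∀ b t : Bool,
      checkFour bxD26.C 630 22 27 3 6
        (pcD26.gap b t) = true := by
    decide +kernel
  exact {
    pos := ⟨by norm_num [pcD26], by norm_num [pcD26]⟩
    low := ⟨by norm_num [bxD26], by norm_num [bxD26], by norm_num [bxD26]⟩
    sgns := fun f => by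
      cases f
      case I => exact ⟨168, 3, 3, 3, 0, by decide +kernel⟩
      case d => exact ⟨171, 3, 3, 3, 0, by decide +kernel⟩
      case A => exact ⟨174, 3, 3, 3, 0, by decide +kernel⟩
      case S => exact ⟨173, 3, 3, 3, 0, by decide +kernel⟩
      case U => exact ⟨173, 3, 3, 3, 0, by decide +kernel⟩
      case den => exact ⟨180, 3, 3, 3, 0, by decide +kernel⟩
      case o => exact ⟨178, 3, 3, 3, 1, by decide +kernel⟩
      case olt => exact ⟨181, 3, 3, 3, 1, by decide +kernel⟩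
      case pd => exact ⟨190, 3, 3, 3, 0, by decide +kernel⟩
      case e0 => exact ⟨202, 3, 3, 3, 0, by decide +kernel⟩
      case f0 => exact ⟨200, 3, 3, 3, 0, by decide +kernel⟩
      case wd => exact ⟨200, 3, 3, 3, 0, by decide +kernel⟩
      case td => exact ⟨200, 3, 3, 3, 0, by decide +kernel⟩
      case cd => exact ⟨173, 3, 3, 3, 0, by decide +kernel⟩
      case kd => exact ⟨180, 3, 3, 3, 0, by decide +kernel⟩
    kn := ⟨37, 1, 2, 0, 0, by decide +kernel⟩
    k2n := ⟨183, 3, 3, 3, 1, by decide +kernel⟩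
    k2d := ⟨180, 3, 3, 3, 0, by decide +kernel⟩
    vs := ⟨173, 3, 3, 3, 0, by decide +kernel⟩
    vMG := ⟨167, 5, 8, 0, 4, by decide +kernel⟩
    g1 := fun s p l => ⟨311, 7, 12, 0, 5, h_g1 s p l⟩
    g2 := fun s p l t => ⟨787, 20, 30, 0, 10, h_g2 s p l t⟩
    g5 := fun s p l t => ⟨785, 18, 28, 0, 9, h_g5 s p l t⟩
    gMG := fun p l t => ⟨661, 17, 27, 0, 8, h_gMG p l t⟩
    v2 := fun s => ⟨188, 5, 9, 0, 4, h_v2 s⟩
    v5 := fun s => ⟨195, 6, 9, 0, 4, h_v5 s⟩
    wP := fun b hi => ⟨95, 2, 3, 1, 1, h_wP b hi⟩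
    wE := fun b hi => ⟨339, 11, 14, 2, 3, h_wE b hi⟩
    wK := fun b hi => ⟨318, 12, 12, 2, 3, h_wK b hi⟩
    wW := fun b => ⟨264, 8, 10, 2, 3, h_wW b⟩
    wY := fun b => ⟨534, 17, 21, 3, 6, h_wY b⟩
    wT := fun b hi => ⟨243, 7, 9, 2, 4, h_wT b hi⟩
    gap := fun b t => ⟨630, 22, 27, 3, 6, h_gap b t⟩
  }

/-- The window of `D26`. -/
theorem okD26 : chD26.Cert where
  flat := ⟨fun _ _ _ _ => rfl, fun _ _ _ _ => rfl, fun _ _ _ _ => rfl, fun _ _ _ _ => rfl,
    fun _ _ _ _ => rfl, fun _ _ _ _ => rfl⟩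
  fits := ⟨by norm_num [chD26], by norm_num [chD26], by norm_num [chD26],
    by norm_num [chD26]⟩
  left := ⟨346, 13, 15, 3, 3, by decide +kernel⟩
  right := ⟨316, 12, 13, 3, 3, by decide +kernel⟩
  up := ⟨371, 13, 16, 3, 4, by decide +kernel⟩
  down := ⟨371, 13, 15, 4, 4, by decide +kernel⟩

/-- The bin `D26`. -/
theorem binD26 : SideBin chD26 pcD26 bxD26 :=
  ⟨⟨⟨fun _ => rfl, fun _ => rfl, fun _ => rfl, fun _ => rfl, fun _ => rfl, fun x => by
      simp only [pcD26, Piece.A, Piece.S, ev_add, ev_sub, ev_mul, Ex.eval]; push_cast; ring,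
      rfl, rfl⟩,
      ⟨rfl, rfl, rfl, rfl⟩, rfl, rfl, rfl, rfl, by norm_num [chD26], rfl, rfl, rfl, rfl⟩,
    okD26, certD26⟩

/-- The checks of `D27`. -/
theorem certD27 : Cert pcD27 bxD27 := by
  have h_g1 : ∀ s p l : Bool,
      checkFour bxD27.C 308 7 12 0 5
        (pcD27.at ⟨p, l, !s, !s, false⟩ (c1 s)) = true := by
    decide +kernel
  have h_g2 : ∀ s p l t : Bool,
      checkFour bxD27.C 783 20 30 0 10
        (pcD27.at ⟨p, l, true, true, t⟩ (StripEnd.strict (c2 s))) = true := by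
    decide +kernel
  have h_g5 : ∀ s p l t : Bool,
      checkFour bxD27.C 778 18 28 0 9
        (pcD27.at ⟨p, l, true, true, t⟩ (StripEnd.strict (c5 s))) = true := by
    decide +kernel
  have h_gMG : ∀ p l t : Bool,
      checkFour bxD27.C 654 17 27 0 8
        (pcD27.at ⟨p, l, true, false, t⟩ tplMG) = true := by
    decide +kernel
  have h_v2 : ∀ s : Bool,
      checkFour bxD27.C 188 5 9 0 4
        (pcD27.at ⟨false, false, true, true, false⟩ (curve2 s)) = true := by
    decide +kernel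
  have h_v5 : ∀ s : Bool,
      checkFour bxD27.C 195 6 9 0 4
        (pcD27.at ⟨false, false, true, true, false⟩ (curve5 s)) = true := by
    decide +kernel
  have h_wP : ∀ b hi : Bool,
      checkFour bxD27.C 93 2 3 1 1
        (pcD27.winP b hi) = true := by
    decide +kernel
  have h_wE : ∀ b hi : Bool,
      checkFour bxD27.C 338 11 14 2 3
        (pcD27.winE b hi) = true := by
    decide +kernel
  have h_wK : ∀ b hi : Bool,
      checkFour bxD27.C 316 12 12 2 3
        (pcD27.winK b hi) = true := by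
    decide +kernel
  have h_wW : ∀ b : Bool,
      checkFour bxD27.C 261 8 10 2 3
        (pcD27.winW b) = true := by
    decide +kernel
  have h_wY : ∀ b : Bool,
      checkFour bxD27.C 530 17 21 3 6
        (pcD27.winY b) = true := by
    decide +kernel
  have h_wT : ∀ b hi : Bool,
      checkFour bxD27.C 241 7 9 2 4
        (pcD27.winT b hi) = true := by
    decide +kernel
  have h_gap : ∀ b t : Bool,
      checkFour bxD27.C 628 22 27 3 6
        (pcD27.gap b t) = true := by
    decide +kernel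
  exact {
    pos := ⟨by norm_num [pcD27], by norm_num [pcD27]⟩
    low := ⟨by norm_num [bxD27], by norm_num [bxD27], by norm_num [bxD27]⟩
    sgns := fun f => by
      cases f
      case I => exact ⟨167, 3, 3, 3, 0, by decide +kernel⟩
      case d => exact ⟨170, 3, 3, 3, 0, by decide +kernel⟩
      case A => exact ⟨172, 3, 3, 3, 0, by decide +kernel⟩
      case S => exact ⟨172, 3, 3, 3, 0, by decide +kernel⟩
      case U => exact ⟨172, 3, 3, 3, 0, by decide +kernel⟩
      case den => exact ⟨179, 3, 3, 3, 0, by decide +kernel⟩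
      case o => exact ⟨176, 3, 3, 3, 1, by decide +kernel⟩
      case olt => exact ⟨180, 3, 3, 3, 1, by decide +kernel⟩
      case pd => exact ⟨188, 3, 3, 3, 0, by decide +kernel⟩
      case e0 => exact ⟨200, 3, 3, 3, 0, by decide +kernel⟩
      case f0 => exact ⟨198, 3, 3, 3, 0, by decide +kernel⟩
      case wd => exact ⟨197, 3, 3, 3, 0, by decide +kernel⟩
      case td => exact ⟨198, 3, 3, 3, 0, by decide +kernel⟩
      case cd => exact ⟨172, 3, 3, 3, 0, by decide +kernel⟩
      case kd => exact ⟨179, 3, 3, 3, 0, by decide +kernel⟩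
    kn := ⟨37, 1, 2, 0, 0, by decide +kernel⟩
    k2n := ⟨182, 3, 3, 3, 1, by decide +kernel⟩
    k2d := ⟨179, 3, 3, 3, 0, by decide +kernel⟩
    vs := ⟨172, 3, 3, 3, 0, by decide +kernel⟩
    vMG := ⟨167, 5, 8, 0, 4, by decide +kernel⟩
    g1 := fun s p l => ⟨308, 7, 12, 0, 5, h_g1 s p l⟩
    g2 := fun s p l t => ⟨783, 20, 30, 0, 10, h_g2 s p l t⟩
    g5 := fun s p l t => ⟨778, 18, 28, 0, 9, h_g5 s p l t⟩
    gMG := fun p l t => ⟨654, 17, 27, 0, 8, h_gMG p l t⟩
    v2 := fun s => ⟨188, 5, 9, 0, 4, h_v2 s⟩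
    v5 := fun s => ⟨195, 6, 9, 0, 4, h_v5 s⟩
    wP := fun b hi => ⟨93, 2, 3, 1, 1, h_wP b hi⟩
    wE := fun b hi => ⟨338, 11, 14, 2, 3, h_wE b hi⟩
    wK := fun b hi => ⟨316, 12, 12, 2, 3, h_wK b hi⟩
    wW := fun b => ⟨261, 8, 10, 2, 3, h_wW b⟩
    wY := fun b => ⟨530, 17, 21, 3, 6, h_wY b⟩
    wT := fun b hi => ⟨241, 7, 9, 2, 4, h_wT b hi⟩
    gap := fun b t => ⟨628, 22, 27, 3, 6, h_gap b t⟩
  }

/-- The window of `D27`. -/
theorem okD27 : chD27.Cert where
  flat := ⟨fun _ _ _ _ => rfl, fun _ _ _ _ => rfl, fun _ _ _ _ => rfl, fun _ _ _ _ => rfl,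
    fun _ _ _ _ => rfl, fun _ _ _ _ => rfl⟩
  fits := ⟨by norm_num [chD27], by norm_num [chD27], by norm_num [chD27],
    by norm_num [chD27]⟩
  left := ⟨345, 13, 15, 3, 3, by decide +kernel⟩
  right := ⟨315, 12, 13, 3, 3, by decide +kernel⟩
  up := ⟨370, 13, 16, 3, 4, by decide +kernel⟩
  down := ⟨369, 13, 15, 4, 4, by decide +kernel⟩

/-- The bin `D27`. -/
theorem binD27 : SideBin chD27 pcD27 bxD27 :=
  ⟨⟨⟨fun _ => rfl, fun _ => rfl, fun _ => rfl, fun _ => rfl, fun _ => rfl, fun x => by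
      simp only [pcD27, Piece.A, Piece.S, ev_add, ev_sub, ev_mul, Ex.eval]; push_cast; ring,
      rfl, rfl⟩,
      ⟨rfl, rfl, rfl, rfl⟩, rfl, rfl, rfl, rfl, by norm_num [chD27], rfl, rfl, rfl, rfl⟩,
    okD27, certD27⟩

end Vale.Agent.P100.Calib.StripEndD
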