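import Vale.Agent.P100.Calib.SlabStripEndDSide
import Vale.Agent.P100.Calib.SlabStripEndBig
import Vale.Agent.P100.Calib.SlabStripEndDDataB

/-!
# The checks of the bins `D28`, `D29` of the strip for `u` near one, `d` large
-/

namespace Vale.Agent.P100.Calib.StripEndD

open Pack hiding ev_add ev_mul
open Pack.Ex StripMid StripEnd

local instance endDCheck14Add : Add Ex := ⟨Ex.add⟩
local instance endDCheck14Sub : Sub Ex := ⟨Ex.sub⟩
local instance endDCheck14Mul : Mul Ex := ⟨Ex.mul⟩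

/-- The checks of `D28`. -/
theorem certD28 : Cert pcD28 bxD28 := by
  have h_g1 : ∀ s p l : Bool,
      checkFour bxD28.C 277 7 12 0 5
        (pcD28.at ⟨p, l, !s, !s, false⟩ (c1 s)) = true := by
    decide +kernel
  have h_g2 : ∀ s p l t : Bool,
      checkFour bxD28.C 706 20 30 0 10
        (pcD28.at ⟨p, l, true, true, t⟩ (StripEnd.strict (c2 s))) = true := by
    decide +kernel
  have h_g5 : ∀ s p l t : Bool,
      checkFour bxD28.C 707 18 28 0 9
        (pcD28.at ⟨p, l, true, true, t⟩ (StripEnd.strict (c5 s))) = true := by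
    decide +kernel
  have h_gMG : ∀ p l t : Bool,
      checkFour bxD28.C 587 17 27 0 8
        (pcD28.at ⟨p, l, true, false, t⟩ tplMG) = true := by
    decide +kernel
  have h_v2 : ∀ s : Bool,
      checkFour bxD28.C 168 5 9 0 4
        (pcD28.at ⟨false, false, true, true, false⟩ (curve2 s)) = true := by
    decide +kernel
  have h_v5 : ∀ s : Bool,
      checkFour bxD28.C 172 6 9 0 4
        (pcD28.at ⟨false, false, true, true, false⟩ (curve5 s)) = true := by
    decide +kernel
  have h_wP : ∀ b hi : Bool,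
      checkFour bxD28.C 85 2 3 1 1
        (pcD28.winP b hi) = true := by
    decide +kernel
  have h_wE : ∀ b hi : Bool,
      checkFour bxD28.C 297 11 14 2 3
        (pcD28.winE b hi) = true := by
    decide +kernel
  have h_wK : ∀ b hi : Bool,
      checkFour bxD28.C 275 12 12 2 3
        (pcD28.winK b hi) = true := by
    decide +kernel
  have h_wW : ∀ b : Bool,
      checkFour bxD28.C 230 8 10 2 3
        (pcD28.winW b) = true := by
    decide +kernel
  have h_wY : ∀ b : Bool,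
      checkFour bxD28.C 467 17 21 3 6
        (pcD28.winY b) = true := by
    decide +kernel
  have h_wT : ∀ b hi : Bool,
      checkFour bxD28.C 214 7 9 2 4
        (pcD28.winT b hi) = true := by
    decide +kernel
  have h_gap : ∀ b t : Bool,
      checkFour bxD28.C 548 22 27 3 6
        (pcD28.gap b t) = true := by
    decide +kernel
  exact {
    pos := ⟨by norm_num [pcD28], by norm_num [pcD28]⟩
    low := ⟨by norm_num [bxD28], by norm_num [bxD28], by norm_num [bxD28]⟩
    sgns := fun f => by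
      cases f
      case I => exact ⟨155, 3, 3, 3, 0, by decide +kernel⟩
      case d => exact ⟨158, 3, 3, 3, 0, by decide +kernel⟩
      case A => exact ⟨161, 3, 3, 3, 0, by decide +kernel⟩
      case S => exact ⟨160, 3, 3, 3, 0, by decide +kernel⟩
      case U => exact ⟨160, 3, 3, 3, 0, by decide +kernel⟩
      case den => exact ⟨167, 3, 3, 3, 0, by decide +kernel⟩
      case o => exact ⟨165, 3, 3, 3, 1, by decide +kernel⟩
      case olt => exact ⟨168, 3, 3, 3, 1, by decide +kernel⟩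
      case pd => exact ⟨176, 3, 3, 3, 0, by decide +kernel⟩
      case e0 => exact ⟨185, 3, 3, 3, 0, by decide +kernel⟩
      case f0 => exact ⟨186, 3, 3, 3, 0, by decide +kernel⟩
      case wd => exact ⟨184, 3, 3, 3, 0, by decide +kernel⟩
      case td => exact ⟨186, 3, 3, 3, 0, by decide +kernel⟩
      case cd => exact ⟨160, 3, 3, 3, 0, by decide +kernel⟩
      case kd => exact ⟨167, 3, 3, 3, 0, by decide +kernel⟩
    kn := ⟨31, 1, 2, 0, 0, by decide +kernel⟩
    k2n := ⟨170, 3, 3, 3, 1, by decide +kernel⟩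
    k2d := ⟨167, 3, 3, 3, 0, by decide +kernel⟩
    vs := ⟨160, 3, 3, 3, 0, by decide +kernel⟩
    vMG := ⟨148, 5, 8, 0, 4, by decide +kernel⟩
    g1 := fun s p l => ⟨277, 7, 12, 0, 5, h_g1 s p l⟩
    g2 := fun s p l t => ⟨706, 20, 30, 0, 10, h_g2 s p l t⟩
    g5 := fun s p l t => ⟨707, 18, 28, 0, 9, h_g5 s p l t⟩
    gMG := fun p l t => ⟨587, 17, 27, 0, 8, h_gMG p l t⟩
    v2 := fun s => ⟨168, 5, 9, 0, 4, h_v2 s⟩
    v5 := fun s => ⟨172, 6, 9, 0, 4, h_v5 s⟩
    wP := fun b hi => ⟨85, 2, 3, 1, 1, h_wP b hi⟩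
    wE := fun b hi => ⟨297, 11, 14, 2, 3, h_wE b hi⟩
    wK := fun b hi => ⟨275, 12, 12, 2, 3, h_wK b hi⟩
    wW := fun b => ⟨230, 8, 10, 2, 3, h_wW b⟩
    wY := fun b => ⟨467, 17, 21, 3, 6, h_wY b⟩
    wT := fun b hi => ⟨214, 7, 9, 2, 4, h_wT b hi⟩
    gap := fun b t => ⟨548, 22, 27, 3, 6, h_gap b t⟩
  }

/-- The window of `D28`. -/
theorem okD28 : chD28.Cert where
  flat := ⟨fun _ _ _ _ => rfl, fun _ _ _ _ => rfl, fun _ _ _ _ => rfl, fun _ _ _ _ => rfl,
    fun _ _ _ _ => rfl, fun _ _ _ _ => rfl⟩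
  fits := ⟨by norm_num [chD28], by norm_num [chD28], by norm_num [chD28],
    by norm_num [chD28]⟩
  left := ⟨297, 13, 15, 3, 3, by decide +kernel⟩
  right := ⟨272, 12, 13, 3, 3, by decide +kernel⟩
  up := ⟨322, 13, 16, 3, 4, by decide +kernel⟩
  down := ⟨322, 13, 15, 4, 4, by decide +kernel⟩

/-- The bin `D28`. -/
theorem binD28 : SideBin chD28 pcD28 bxD28 :=
  ⟨⟨⟨fun _ => rfl, fun _ => rfl, fun _ => rfl, fun _ => rfl, fun _ => rfl, fun x => by
      simp only [pcD28, Piece.A, Piece.S, ev_add, ev_sub, ev_mul, Ex.eval]; push_cast; ring,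
      rfl, rfl⟩,
      ⟨rfl, rfl, rfl, rfl⟩, rfl, rfl, rfl, rfl, by norm_num [chD28], rfl, rfl, rfl, rfl⟩,
    okD28, certD28⟩

/-- The checks of `D29`. -/
theorem certD29 : Cert pcD29 bxD29 := by
  have h_g1 : ∀ s p l : Bool,
      checkFour bxD29.C 281 7 12 0 5
        (pcD29.at ⟨p, l, !s, !s, false⟩ (c1 s)) = true := by
    decide +kernel
  have h_g2 : ∀ s p l t : Bool,
      checkFour bxD29.C 712 20 30 0 10
        (pcD29.at ⟨p, l, true, true, t⟩ (StripEnd.strict (c2 s))) = true := by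
    decide +kernel
  have h_g5 : ∀ s p l t : Bool,
      checkFour bxD29.C 714 18 28 0 9
        (pcD29.at ⟨p, l, true, true, t⟩ (StripEnd.strict (c5 s))) = true := by
    decide +kernel
  have h_gMG : ∀ p l t : Bool,
      checkFour bxD29.C 594 17 27 0 8
        (pcD29.at ⟨p, l, true, false, t⟩ tplMG) = true := by
    decide +kernel
  have h_v2 : ∀ s : Bool,
      checkFour bxD29.C 168 5 9 0 4
        (pcD29.at ⟨false, false, true, true, false⟩ (curve2 s)) = true := by
    decide +kernel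
  have h_v5 : ∀ s : Bool,
      checkFour bxD29.C 172 6 9 0 4
        (pcD29.at ⟨false, false, true, true, false⟩ (curve5 s)) = true := by
    decide +kernel
  have h_wP : ∀ b hi : Bool,
      checkFour bxD29.C 87 2 3 1 1
        (pcD29.winP b hi) = true := by
    decide +kernel
  have h_wE : ∀ b hi : Bool,
      checkFour bxD29.C 300 11 14 2 3
        (pcD29.winE b hi) = true := by
    decide +kernel
  have h_wK : ∀ b hi : Bool,
      checkFour bxD29.C 278 12 12 2 3
        (pcD29.winK b hi) = true := by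
    decide +kernel
  have h_wW : ∀ b : Bool,
      checkFour bxD29.C 234 8 10 2 3
        (pcD29.winW b) = true := by
    decide +kernel
  have h_wY : ∀ b : Bool,
      checkFour bxD29.C 473 17 21 3 6
        (pcD29.winY b) = true := by
    decide +kernel
  have h_wT : ∀ b hi : Bool,
      checkFour bxD29.C 217 7 9 2 4
        (pcD29.winT b hi) = true := by
    decide +kernel
  have h_gap : ∀ b t : Bool,
      checkFour bxD29.C 552 22 27 3 6
        (pcD29.gap b t) = true := by
    decide +kernel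
  exact {
    pos := ⟨by norm_num [pcD29], by norm_num [pcD29]⟩
    low := ⟨by norm_num [bxD29], by norm_num [bxD29], by norm_num [bxD29]⟩
    sgns := fun f => by
      cases f
      case I => exact ⟨158, 3, 3, 3, 0, by decide +kernel⟩
      case d => exact ⟨161, 3, 3, 3, 0, by decide +kernel⟩
      case A => exact ⟨164, 3, 3, 3, 0, by decide +kernel⟩
      case S => exact ⟨163, 3, 3, 3, 0, by decide +kernel⟩
      case U => exact ⟨163, 3, 3, 3, 0, by decide +kernel⟩
      case den => exact ⟨170, 3, 3, 3, 0, by decide +kernel⟩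
      case o => exact ⟨168, 3, 3, 3, 1, by decide +kernel⟩
      case olt => exact ⟨171, 3, 3, 3, 1, by decide +kernel⟩
      case pd => exact ⟨180, 3, 3, 3, 0, by decide +kernel⟩
      case e0 => exact ⟨190, 3, 3, 3, 0, by decide +kernel⟩
      case f0 => exact ⟨190, 3, 3, 3, 0, by decide +kernel⟩
      case wd => exact ⟨189, 3, 3, 3, 0, by decide +kernel⟩
      case td => exact ⟨190, 3, 3, 3, 0, by decide +kernel⟩
      case cd => exact ⟨163, 3, 3, 3, 0, by decide +kernel⟩
      case kd => exact ⟨170, 3, 3, 3, 0, by decide +kernel⟩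
    kn := ⟨32, 1, 2, 0, 0, by decide +kernel⟩
    k2n := ⟨173, 3, 3, 3, 1, by decide +kernel⟩
    k2d := ⟨170, 3, 3, 3, 0, by decide +kernel⟩
    vs := ⟨163, 3, 3, 3, 0, by decide +kernel⟩
    vMG := ⟨148, 5, 8, 0, 4, by decide +kernel⟩
    g1 := fun s p l => ⟨281, 7, 12, 0, 5, h_g1 s p l⟩
    g2 := fun s p l t => ⟨712, 20, 30, 0, 10, h_g2 s p l t⟩
    g5 := fun s p l t => ⟨714, 18, 28, 0, 9, h_g5 s p l t⟩
    gMG := fun p l t => ⟨594, 17, 27, 0, 8, h_gMG p l t⟩
    v2 := fun s => ⟨168, 5, 9, 0, 4, h_v2 s⟩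
    v5 := fun s => ⟨172, 6, 9, 0, 4, h_v5 s⟩
    wP := fun b hi => ⟨87, 2, 3, 1, 1, h_wP b hi⟩
    wE := fun b hi => ⟨300, 11, 14, 2, 3, h_wE b hi⟩
    wK := fun b hi => ⟨278, 12, 12, 2, 3, h_wK b hi⟩
    wW := fun b => ⟨234, 8, 10, 2, 3, h_wW b⟩
    wY := fun b => ⟨473, 17, 21, 3, 6, h_wY b⟩
    wT := fun b hi => ⟨217, 7, 9, 2, 4, h_wT b hi⟩
    gap := fun b t => ⟨552, 22, 27, 3, 6, h_gap b t⟩
  }

/-- The window of `D29`. -/
theorem okD29 : chD29.Cert where
  flat := ⟨fun _ _ _ _ => rfl, fun _ _ _ _ => rfl, fun _ _ _ _ => rfl, fun _ _ _ _ => rfl,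
    fun _ _ _ _ => rfl, fun _ _ _ _ => rfl⟩
  fits := ⟨by norm_num [chD29], by norm_num [chD29], by norm_num [chD29],
    by norm_num [chD29]⟩
  left := ⟨300, 13, 15, 3, 3, by decide +kernel⟩
  right := ⟨275, 12, 13, 3, 3, by decide +kernel⟩
  up := ⟨325, 13, 16, 3, 4, by decide +kernel⟩
  down := ⟨326, 13, 15, 4, 4, by decide +kernel⟩

/-- The bin `D29`. -/
theorem binD29 : SideBin chD29 pcD29 bxD29 :=
  ⟨⟨⟨fun _ => rfl, fun _ => rfl, fun _ => rfl, fun _ => rfl, fun _ => rfl, fun x => by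
      simp only [pcD29, Piece.A, Piece.S, ev_add, ev_sub, ev_mul, Ex.eval]; push_cast; ring,
      rfl, rfl⟩,
      ⟨rfl, rfl, rfl, rfl⟩, rfl, rfl, rfl, rfl, by norm_num [chD29], rfl, rfl, rfl, rfl⟩,
    okD29, certD29⟩

end Vale.Agent.P100.Calib.StripEndD
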