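import Vale.Agent.P100.Calib.SlabStripEndDSide
import Vale.Agent.P100.Calib.SlabStripEndBig
import Vale.Agent.P100.Calib.SlabStripEndDDataB

/-!
# The checks of the bins `D30`, `D31` of the strip for `u` near one, `d` large
-/

namespace Vale.Agent.P100.Calib.StripEndD

open Pack hiding ev_add ev_mul
open Pack.Ex StripMid StripEnd

local instance endDCheck15Add : Add Ex := ⟨Ex.add⟩
local instance endDCheck15Sub : Sub Ex := ⟨Ex.sub⟩
local instance endDCheck15Mul : Mul Ex := ⟨Ex.mul⟩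

/-- The checks of `D30`. -/
theorem certD30 : Cert pcD30 bxD30 := by
  have h_g1 : ∀ s p l : Bool,
      checkFour bxD30.C 282 7 12 0 5
        (pcD30.at ⟨p, l, !s, !s, false⟩ (c1 s)) = true := by
    decide +kernel
  have h_g2 : ∀ s p l t : Bool,
      checkFour bxD30.C 712 20 30 0 10
        (pcD30.at ⟨p, l, true, true, t⟩ (StripEnd.strict (c2 s))) = true := by
    decide +kernel
  have h_g5 : ∀ s p l t : Bool,
      checkFour bxD30.C 715 18 28 0 9
        (pcD30.at ⟨p, l, true, true, t⟩ (StripEnd.strict (c5 s))) = true := by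
    decide +kernel
  have h_gMG : ∀ p l t : Bool,
      checkFour bxD30.C 595 17 27 0 8
        (pcD30.at ⟨p, l, true, false, t⟩ tplMG) = true := by
    decide +kernel
  have h_v2 : ∀ s : Bool,
      checkFour bxD30.C 168 5 9 0 4
        (pcD30.at ⟨false, false, true, true, false⟩ (curve2 s)) = true := by
    decide +kernel
  have h_v5 : ∀ s : Bool,
      checkFour bxD30.C 172 6 9 0 4
        (pcD30.at ⟨false, false, true, true, false⟩ (curve5 s)) = true := by
    decide +kernel
  have h_wP : ∀ b hi : Bool,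
      checkFour bxD30.C 87 2 3 1 1
        (pcD30.winP b hi) = true := by
    decide +kernel
  have h_wE : ∀ b hi : Bool,
      checkFour bxD30.C 300 11 14 2 3
        (pcD30.winE b hi) = true := by
    decide +kernel
  have h_wK : ∀ b hi : Bool,
      checkFour bxD30.C 278 12 12 2 3
        (pcD30.winK b hi) = true := by
    decide +kernel
  have h_wW : ∀ b : Bool,
      checkFour bxD30.C 235 8 10 2 3
        (pcD30.winW b) = true := by
    decide +kernel
  have h_wY : ∀ b : Bool,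
      checkFour bxD30.C 474 17 21 3 6
        (pcD30.winY b) = true := by
    decide +kernel
  have h_wT : ∀ b hi : Bool,
      checkFour bxD30.C 218 7 9 2 4
        (pcD30.winT b hi) = true := by
    decide +kernel
  have h_gap : ∀ b t : Bool,
      checkFour bxD30.C 552 22 27 3 6
        (pcD30.gap b t) = true := by
    decide +kernel
  exact {
    pos := ⟨by norm_num [pcD30], by norm_num [pcD30]⟩
    low := ⟨by norm_num [bxD30], by norm_num [bxD30], by norm_num [bxD30]⟩
    sgns := fun f => by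
      cases f
      case I => exact ⟨158, 3, 3, 3, 0, by decide +kernel⟩
      case d => exact ⟨161, 3, 3, 3, 0, by decide +kernel⟩
      case A => exact ⟨164, 3, 3, 3, 0, by decide +kernel⟩
      case S => exact ⟨163, 3, 3, 3, 0, by decide +kernel⟩
      case U => exact ⟨163, 3, 3, 3, 0, by decide +kernel⟩
      case den => exact ⟨170, 3, 3, 3, 0, by decide +kernel⟩
      case o => exact ⟨168, 3, 3, 3, 1, by decide +kernel⟩
      case olt => exact ⟨171, 3, 3, 3, 1, by decide +kernel⟩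
      case pd => exact ⟨180, 3, 3, 3, 0, by decide +kernel⟩
      case e0 => exact ⟨191, 3, 3, 3, 0, by decide +kernel⟩
      case f0 => exact ⟨190, 3, 3, 3, 0, by decide +kernel⟩
      case wd => exact ⟨190, 3, 3, 3, 0, by decide +kernel⟩
      case td => exact ⟨190, 3, 3, 3, 0, by decide +kernel⟩
      case cd => exact ⟨163, 3, 3, 3, 0, by decide +kernel⟩
      case kd => exact ⟨170, 3, 3, 3, 0, by decide +kernel⟩
    kn := ⟨32, 1, 2, 0, 0, by decide +kernel⟩
    k2n := ⟨173, 3, 3, 3, 1, by decide +kernel⟩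
    k2d := ⟨170, 3, 3, 3, 0, by decide +kernel⟩
    vs := ⟨163, 3, 3, 3, 0, by decide +kernel⟩
    vMG := ⟨148, 5, 8, 0, 4, by decide +kernel⟩
    g1 := fun s p l => ⟨282, 7, 12, 0, 5, h_g1 s p l⟩
    g2 := fun s p l t => ⟨712, 20, 30, 0, 10, h_g2 s p l t⟩
    g5 := fun s p l t => ⟨715, 18, 28, 0, 9, h_g5 s p l t⟩
    gMG := fun p l t => ⟨595, 17, 27, 0, 8, h_gMG p l t⟩
    v2 := fun s => ⟨168, 5, 9, 0, 4, h_v2 s⟩
    v5 := fun s => ⟨172, 6, 9, 0, 4, h_v5 s⟩
    wP := fun b hi => ⟨87, 2, 3, 1, 1, h_wP b hi⟩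
    wE := fun b hi => ⟨300, 11, 14, 2, 3, h_wE b hi⟩
    wK := fun b hi => ⟨278, 12, 12, 2, 3, h_wK b hi⟩
    wW := fun b => ⟨235, 8, 10, 2, 3, h_wW b⟩
    wY := fun b => ⟨474, 17, 21, 3, 6, h_wY b⟩
    wT := fun b hi => ⟨218, 7, 9, 2, 4, h_wT b hi⟩
    gap := fun b t => ⟨552, 22, 27, 3, 6, h_gap b t⟩
  }

/-- The window of `D30`. -/
theorem okD30 : chD30.Cert where
  flat := ⟨fun _ _ _ _ => rfl, fun _ _ _ _ => rfl, fun _ _ _ _ => rfl, fun _ _ _ _ => rfl,
    fun _ _ _ _ => rfl, fun _ _ _ _ => rfl⟩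
  fits := ⟨by norm_num [chD30], by norm_num [chD30], by norm_num [chD30],
    by norm_num [chD30]⟩
  left := ⟨300, 13, 15, 3, 3, by decide +kernel⟩
  right := ⟨275, 12, 13, 3, 3, by decide +kernel⟩
  up := ⟨325, 13, 16, 3, 4, by decide +kernel⟩
  down := ⟨326, 13, 15, 4, 4, by decide +kernel⟩

/-- The bin `D30`. -/
theorem binD30 : SideBin chD30 pcD30 bxD30 :=
  ⟨⟨⟨fun _ => rfl, fun _ => rfl, fun _ => rfl, fun _ => rfl, fun _ => rfl, fun x => by
      simp only [pcD30, Piece.A, Piece.S, ev_add, ev_sub, ev_mul, Ex.eval]; push_cast; ring,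
      rfl, rfl⟩,
      ⟨rfl, rfl, rfl, rfl⟩, rfl, rfl, rfl, rfl, by norm_num [chD30], rfl, rfl, rfl, rfl⟩,
    okD30, certD30⟩

/-- The checks of `D31`. -/
theorem certD31 : Cert pcD31 bxD31 := by
  have h_g1 : ∀ s p l : Bool,
      checkFour bxD31.C 283 7 12 0 5
        (pcD31.at ⟨p, l, !s, !s, false⟩ (c1 s)) = true := by
    decide +kernel
  have h_g2 : ∀ s p l t : Bool,
      checkFour bxD31.C 711 20 30 0 10
        (pcD31.at ⟨p, l, true, true, t⟩ (StripEnd.strict (c2 s))) = true := by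
    decide +kernel
  have h_g5 : ∀ s p l t : Bool,
      checkFour bxD31.C 715 18 28 0 9
        (pcD31.at ⟨p, l, true, true, t⟩ (StripEnd.strict (c5 s))) = true := by
    decide +kernel
  have h_gMG : ∀ p l t : Bool,
      checkFour bxD31.C 595 17 27 0 8
        (pcD31.at ⟨p, l, true, false, t⟩ tplMG) = true := by
    decide +kernel
  have h_v2 : ∀ s : Bool,
      checkFour bxD31.C 168 5 9 0 4
        (pcD31.at ⟨false, false, true, true, false⟩ (curve2 s)) = true := by
    decide +kernel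
  have h_v5 : ∀ s : Bool,
      checkFour bxD31.C 172 6 9 0 4
        (pcD31.at ⟨false, false, true, true, false⟩ (curve5 s)) = true := by
    decide +kernel
  have h_wP : ∀ b hi : Bool,
      checkFour bxD31.C 87 2 3 1 1
        (pcD31.winP b hi) = true := by
    decide +kernel
  have h_wE : ∀ b hi : Bool,
      checkFour bxD31.C 300 11 14 2 3
        (pcD31.winE b hi) = true := by
    decide +kernel
  have h_wK : ∀ b hi : Bool,
      checkFour bxD31.C 278 12 12 2 3
        (pcD31.winK b hi) = true := by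
    decide +kernel
  have h_wW : ∀ b : Bool,
      checkFour bxD31.C 235 8 10 2 3
        (pcD31.winW b) = true := by
    decide +kernel
  have h_wY : ∀ b : Bool,
      checkFour bxD31.C 474 17 21 3 6
        (pcD31.winY b) = true := by
    decide +kernel
  have h_wT : ∀ b hi : Bool,
      checkFour bxD31.C 218 7 9 2 4
        (pcD31.winT b hi) = true := by
    decide +kernel
  have h_gap : ∀ b t : Bool,
      checkFour bxD31.C 552 22 27 3 6
        (pcD31.gap b t) = true := by
    decide +kernel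
  exact {
    pos := ⟨by norm_num [pcD31], by norm_num [pcD31]⟩
    low := ⟨by norm_num [bxD31], by norm_num [bxD31], by norm_num [bxD31]⟩
    sgns := fun f => by
      cases f
      case I => exact ⟨158, 3, 3, 3, 0, by decide +kernel⟩
      case d => exact ⟨161, 3, 3, 3, 0, by decide +kernel⟩
      case A => exact ⟨164, 3, 3, 3, 0, by decide +kernel⟩
      case S => exact ⟨163, 3, 3, 3, 0, by decide +kernel⟩
      case U => exact ⟨163, 3, 3, 3, 0, by decide +kernel⟩
      case den => exact ⟨170, 3, 3, 3, 0, by decide +kernel⟩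
      case o => exact ⟨167, 3, 3, 3, 1, by decide +kernel⟩
      case olt => exact ⟨171, 3, 3, 3, 1, by decide +kernel⟩
      case pd => exact ⟨180, 3, 3, 3, 0, by decide +kernel⟩
      case e0 => exact ⟨192, 3, 3, 3, 0, by decide +kernel⟩
      case f0 => exact ⟨190, 3, 3, 3, 0, by decide +kernel⟩
      case wd => exact ⟨190, 3, 3, 3, 0, by decide +kernel⟩
      case td => exact ⟨190, 3, 3, 3, 0, by decide +kernel⟩
      case cd => exact ⟨163, 3, 3, 3, 0, by decide +kernel⟩
      case kd => exact ⟨170, 3, 3, 3, 0, by decide +kernel⟩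
    kn := ⟨32, 1, 2, 0, 0, by decide +kernel⟩
    k2n := ⟨173, 3, 3, 3, 1, by decide +kernel⟩
    k2d := ⟨170, 3, 3, 3, 0, by decide +kernel⟩
    vs := ⟨163, 3, 3, 3, 0, by decide +kernel⟩
    vMG := ⟨148, 5, 8, 0, 4, by decide +kernel⟩
    g1 := fun s p l => ⟨283, 7, 12, 0, 5, h_g1 s p l⟩
    g2 := fun s p l t => ⟨711, 20, 30, 0, 10, h_g2 s p l t⟩
    g5 := fun s p l t => ⟨715, 18, 28, 0, 9, h_g5 s p l t⟩
    gMG := fun p l t => ⟨595, 17, 27, 0, 8, h_gMG p l t⟩
    v2 := fun s => ⟨168, 5, 9, 0, 4, h_v2 s⟩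
    v5 := fun s => ⟨172, 6, 9, 0, 4, h_v5 s⟩
    wP := fun b hi => ⟨87, 2, 3, 1, 1, h_wP b hi⟩
    wE := fun b hi => ⟨300, 11, 14, 2, 3, h_wE b hi⟩
    wK := fun b hi => ⟨278, 12, 12, 2, 3, h_wK b hi⟩
    wW := fun b => ⟨235, 8, 10, 2, 3, h_wW b⟩
    wY := fun b => ⟨474, 17, 21, 3, 6, h_wY b⟩
    wT := fun b hi => ⟨218, 7, 9, 2, 4, h_wT b hi⟩
    gap := fun b t => ⟨552, 22, 27, 3, 6, h_gap b t⟩
  }

/-- The window of `D31`. -/
theorem okD31 : chD31.Cert where
  flat := ⟨fun _ _ _ _ => rfl, fun _ _ _ _ => rfl, fun _ _ _ _ => rfl, fun _ _ _ _ => rfl,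
    fun _ _ _ _ => rfl, fun _ _ _ _ => rfl⟩
  fits := ⟨by norm_num [chD31], by norm_num [chD31], by norm_num [chD31],
    by norm_num [chD31]⟩
  left := ⟨301, 13, 15, 3, 3, by decide +kernel⟩
  right := ⟨275, 12, 13, 3, 3, by decide +kernel⟩
  up := ⟨325, 13, 16, 3, 4, by decide +kernel⟩
  down := ⟨326, 13, 15, 4, 4, by decide +kernel⟩

/-- The bin `D31`. -/
theorem binD31 : SideBin chD31 pcD31 bxD31 :=
  ⟨⟨⟨fun _ => rfl, fun _ => rfl, fun _ => rfl, fun _ => rfl, fun _ => rfl, fun x => by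
      simp only [pcD31, Piece.A, Piece.S, ev_add, ev_sub, ev_mul, Ex.eval]; push_cast; ring,
      rfl, rfl⟩,
      ⟨rfl, rfl, rfl, rfl⟩, rfl, rfl, rfl, rfl, by norm_num [chD31], rfl, rfl, rfl, rfl⟩,
    okD31, certD31⟩

end Vale.Agent.P100.Calib.StripEndD
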