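import Vale.Agent.P100.Calib.SlabStripEndDSide
import Vale.Agent.P100.Calib.SlabStripEndBig
import Vale.Agent.P100.Calib.SlabStripEndDDataB

/-!
# The checks of the bins `D34`, `D35` of the strip for `u` near one, `d` large
-/

namespace Vale.Agent.P100.Calib.StripEndD

open Pack hiding ev_add ev_mul
open Pack.Ex StripMid StripEnd

local instance endDCheck17Add : Add Ex := ⟨Ex.add⟩
local instance endDCheck17Sub : Sub Ex := ⟨Ex.sub⟩
local instance endDCheck17Mul : Mul Ex := ⟨Ex.mul⟩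

/-- The checks of `D34`. -/
theorem certD34 : Cert pcD34 bxD34 := by
  have h_g1 : ∀ s p l : Bool,
      checkFour bxD34.C 278 7 12 0 5
        (pcD34.at ⟨p, l, !s, !s, false⟩ (c1 s)) = true := by
    decide +kernel
  have h_g2 : ∀ s p l t : Bool,
      checkFour bxD34.C 713 20 30 0 10
        (pcD34.at ⟨p, l, true, true, t⟩ (StripEnd.strict (c2 s))) = true := by
    decide +kernel
  have h_g5 : ∀ s p l t : Bool,
      checkFour bxD34.C 712 18 28 0 9
        (pcD34.at ⟨p, l, true, true, t⟩ (StripEnd.strict (c5 s))) = true := by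
    decide +kernel
  have h_gMG : ∀ p l t : Bool,
      checkFour bxD34.C 592 17 27 0 8
        (pcD34.at ⟨p, l, true, false, t⟩ tplMG) = true := by
    decide +kernel
  have h_v2 : ∀ s : Bool,
      checkFour bxD34.C 169 5 9 0 4
        (pcD34.at ⟨false, false, true, true, false⟩ (curve2 s)) = true := by
    decide +kernel
  have h_v5 : ∀ s : Bool,
      checkFour bxD34.C 174 6 9 0 4
        (pcD34.at ⟨false, false, true, true, false⟩ (curve5 s)) = true := by
    decide +kernel
  have h_wP : ∀ b hi : Bool,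
      checkFour bxD34.C 86 2 3 1 1
        (pcD34.winP b hi) = true := by
    decide +kernel
  have h_wE : ∀ b hi : Bool,
      checkFour bxD34.C 301 11 14 2 3
        (pcD34.winE b hi) = true := by
    decide +kernel
  have h_wK : ∀ b hi : Bool,
      checkFour bxD34.C 279 12 12 2 3
        (pcD34.winK b hi) = true := by
    decide +kernel
  have h_wW : ∀ b : Bool,
      checkFour bxD34.C 232 8 10 2 3
        (pcD34.winW b) = true := by
    decide +kernel
  have h_wY : ∀ b : Bool,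
      checkFour bxD34.C 472 17 21 3 6
        (pcD34.winY b) = true := by
    decide +kernel
  have h_wT : ∀ b hi : Bool,
      checkFour bxD34.C 217 7 9 2 4
        (pcD34.winT b hi) = true := by
    decide +kernel
  have h_gap : ∀ b t : Bool,
      checkFour bxD34.C 556 22 27 3 6
        (pcD34.gap b t) = true := by
    decide +kernel
  exact {
    pos := ⟨by norm_num [pcD34], by norm_num [pcD34]⟩
    low := ⟨by norm_num [bxD34], by norm_num [bxD34], by norm_num [bxD34]⟩
    sgns := fun f => by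
      cases f
      case I => exact ⟨156, 3, 3, 3, 0, by decide +kernel⟩
      case d => exact ⟨160, 3, 3, 3, 0, by decide +kernel⟩
      case A => exact ⟨162, 3, 3, 3, 0, by decide +kernel⟩
      case S => exact ⟨161, 3, 3, 3, 0, by decide +kernel⟩
      case U => exact ⟨161, 3, 3, 3, 0, by decide +kernel⟩
      case den => exact ⟨168, 3, 3, 3, 0, by decide +kernel⟩
      case o => exact ⟨165, 3, 3, 3, 1, by decide +kernel⟩
      case olt => exact ⟨169, 3, 3, 3, 1, by decide +kernel⟩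
      case pd => exact ⟨177, 3, 3, 3, 0, by decide +kernel⟩
      case e0 => exact ⟨186, 3, 3, 3, 0, by decide +kernel⟩
      case f0 => exact ⟨187, 3, 3, 3, 0, by decide +kernel⟩
      case wd => exact ⟨184, 3, 3, 3, 0, by decide +kernel⟩
      case td => exact ⟨187, 3, 3, 3, 0, by decide +kernel⟩
      case cd => exact ⟨161, 3, 3, 3, 0, by decide +kernel⟩
      case kd => exact ⟨168, 3, 3, 3, 0, by decide +kernel⟩
    kn := ⟨31, 1, 2, 0, 0, by decide +kernel⟩
    k2n := ⟨171, 3, 3, 3, 1, by decide +kernel⟩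
    k2d := ⟨168, 3, 3, 3, 0, by decide +kernel⟩
    vs := ⟨161, 3, 3, 3, 0, by decide +kernel⟩
    vMG := ⟨149, 5, 8, 0, 4, by decide +kernel⟩
    g1 := fun s p l => ⟨278, 7, 12, 0, 5, h_g1 s p l⟩
    g2 := fun s p l t => ⟨713, 20, 30, 0, 10, h_g2 s p l t⟩
    g5 := fun s p l t => ⟨712, 18, 28, 0, 9, h_g5 s p l t⟩
    gMG := fun p l t => ⟨592, 17, 27, 0, 8, h_gMG p l t⟩
    v2 := fun s => ⟨169, 5, 9, 0, 4, h_v2 s⟩
    v5 := fun s => ⟨174, 6, 9, 0, 4, h_v5 s⟩
    wP := fun b hi => ⟨86, 2, 3, 1, 1, h_wP b hi⟩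
    wE := fun b hi => ⟨301, 11, 14, 2, 3, h_wE b hi⟩
    wK := fun b hi => ⟨279, 12, 12, 2, 3, h_wK b hi⟩
    wW := fun b => ⟨232, 8, 10, 2, 3, h_wW b⟩
    wY := fun b => ⟨472, 17, 21, 3, 6, h_wY b⟩
    wT := fun b hi => ⟨217, 7, 9, 2, 4, h_wT b hi⟩
    gap := fun b t => ⟨556, 22, 27, 3, 6, h_gap b t⟩
  }

/-- The window of `D34`. -/
theorem okD34 : chD34.Cert where
  flat := ⟨fun _ _ _ _ => rfl, fun _ _ _ _ => rfl, fun _ _ _ _ => rfl, fun _ _ _ _ => rfl,
    fun _ _ _ _ => rfl, fun _ _ _ _ => rfl⟩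
  fits := ⟨by norm_num [chD34], by norm_num [chD34], by norm_num [chD34],
    by norm_num [chD34]⟩
  left := ⟨302, 13, 15, 3, 3, by decide +kernel⟩
  right := ⟨276, 12, 13, 3, 3, by decide +kernel⟩
  up := ⟨326, 13, 16, 3, 4, by decide +kernel⟩
  down := ⟨326, 13, 15, 4, 4, by decide +kernel⟩

/-- The bin `D34`. -/
theorem binD34 : SideBin chD34 pcD34 bxD34 :=
  ⟨⟨⟨fun _ => rfl, fun _ => rfl, fun _ => rfl, fun _ => rfl, fun _ => rfl, fun x => by
      simp only [pcD34, Piece.A, Piece.S, ev_add, ev_sub, ev_mul, Ex.eval]; push_cast; ring,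
      rfl, rfl⟩,
      ⟨rfl, rfl, rfl, rfl⟩, rfl, rfl, rfl, rfl, by norm_num [chD34], rfl, rfl, rfl, rfl⟩,
    okD34, certD34⟩

/-- The checks of `D35`. -/
theorem certD35 : Cert pcD35 bxD35 := by
  have h_g1 : ∀ s p l : Bool,
      checkFour bxD35.C 283 7 12 0 5
        (pcD35.at ⟨p, l, !s, !s, false⟩ (c1 s)) = true := by
    decide +kernel
  have h_g2 : ∀ s p l t : Bool,
      checkFour bxD35.C 718 20 30 0 10
        (pcD35.at ⟨p, l, true, true, t⟩ (StripEnd.strict (c2 s))) = true := by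
    decide +kernel
  have h_g5 : ∀ s p l t : Bool,
      checkFour bxD35.C 720 18 28 0 9
        (pcD35.at ⟨p, l, true, true, t⟩ (StripEnd.strict (c5 s))) = true := by
    decide +kernel
  have h_gMG : ∀ p l t : Bool,
      checkFour bxD35.C 599 17 27 0 8
        (pcD35.at ⟨p, l, true, false, t⟩ tplMG) = true := by
    decide +kernel
  have h_v2 : ∀ s : Bool,
      checkFour bxD35.C 169 5 9 0 4
        (pcD35.at ⟨false, false, true, true, false⟩ (curve2 s)) = true := by
    decide +kernel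
  have h_v5 : ∀ s : Bool,
      checkFour bxD35.C 174 6 9 0 4
        (pcD35.at ⟨false, false, true, true, false⟩ (curve5 s)) = true := by
    decide +kernel
  have h_wP : ∀ b hi : Bool,
      checkFour bxD35.C 88 2 3 1 1
        (pcD35.winP b hi) = true := by
    decide +kernel
  have h_wE : ∀ b hi : Bool,
      checkFour bxD35.C 304 11 14 2 3
        (pcD35.winE b hi) = true := by
    decide +kernel
  have h_wK : ∀ b hi : Bool,
      checkFour bxD35.C 282 12 12 2 3
        (pcD35.winK b hi) = true := by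
    decide +kernel
  have h_wW : ∀ b : Bool,
      checkFour bxD35.C 237 8 10 2 3
        (pcD35.winW b) = true := by
    decide +kernel
  have h_wY : ∀ b : Bool,
      checkFour bxD35.C 479 17 21 3 6
        (pcD35.winY b) = true := by
    decide +kernel
  have h_wT : ∀ b hi : Bool,
      checkFour bxD35.C 220 7 9 2 4
        (pcD35.winT b hi) = true := by
    decide +kernel
  have h_gap : ∀ b t : Bool,
      checkFour bxD35.C 560 22 27 3 6
        (pcD35.gap b t) = true := by
    decide +kernel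
  exact {
    pos := ⟨by norm_num [pcD35], by norm_num [pcD35]⟩
    low := ⟨by norm_num [bxD35], by norm_num [bxD35], by norm_num [bxD35]⟩
    sgns := fun f => by
      cases f
      case I => exact ⟨159, 3, 3, 3, 0, by decide +kernel⟩
      case d => exact ⟨163, 3, 3, 3, 0, by decide +kernel⟩
      case A => exact ⟨165, 3, 3, 3, 0, by decide +kernel⟩
      case S => exact ⟨164, 3, 3, 3, 0, by decide +kernel⟩
      case U => exact ⟨164, 3, 3, 3, 0, by decide +kernel⟩
      case den => exact ⟨171, 3, 3, 3, 0, by decide +kernel⟩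
      case o => exact ⟨168, 3, 3, 3, 1, by decide +kernel⟩
      case olt => exact ⟨172, 3, 3, 3, 1, by decide +kernel⟩
      case pd => exact ⟨181, 3, 3, 3, 0, by decide +kernel⟩
      case e0 => exact ⟨191, 3, 3, 3, 0, by decide +kernel⟩
      case f0 => exact ⟨191, 3, 3, 3, 0, by decide +kernel⟩
      case wd => exact ⟨190, 3, 3, 3, 0, by decide +kernel⟩
      case td => exact ⟨191, 3, 3, 3, 0, by decide +kernel⟩
      case cd => exact ⟨164, 3, 3, 3, 0, by decide +kernel⟩
      case kd => exact ⟨171, 3, 3, 3, 0, by decide +kernel⟩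
    kn := ⟨31, 1, 2, 0, 0, by decide +kernel⟩
    k2n := ⟨174, 3, 3, 3, 1, by decide +kernel⟩
    k2d := ⟨171, 3, 3, 3, 0, by decide +kernel⟩
    vs := ⟨164, 3, 3, 3, 0, by decide +kernel⟩
    vMG := ⟨149, 5, 8, 0, 4, by decide +kernel⟩
    g1 := fun s p l => ⟨283, 7, 12, 0, 5, h_g1 s p l⟩
    g2 := fun s p l t => ⟨718, 20, 30, 0, 10, h_g2 s p l t⟩
    g5 := fun s p l t => ⟨720, 18, 28, 0, 9, h_g5 s p l t⟩
    gMG := fun p l t => ⟨599, 17, 27, 0, 8, h_gMG p l t⟩
    v2 := fun s => ⟨169, 5, 9, 0, 4, h_v2 s⟩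
    v5 := fun s => ⟨174, 6, 9, 0, 4, h_v5 s⟩
    wP := fun b hi => ⟨88, 2, 3, 1, 1, h_wP b hi⟩
    wE := fun b hi => ⟨304, 11, 14, 2, 3, h_wE b hi⟩
    wK := fun b hi => ⟨282, 12, 12, 2, 3, h_wK b hi⟩
    wW := fun b => ⟨237, 8, 10, 2, 3, h_wW b⟩
    wY := fun b => ⟨479, 17, 21, 3, 6, h_wY b⟩
    wT := fun b hi => ⟨220, 7, 9, 2, 4, h_wT b hi⟩
    gap := fun b t => ⟨560, 22, 27, 3, 6, h_gap b t⟩
  }

/-- The window of `D35`. -/
theorem okD35 : chD35.Cert where
  flat := ⟨fun _ _ _ _ => rfl, fun _ _ _ _ => rfl, fun _ _ _ _ => rfl, fun _ _ _ _ => rfl,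
    fun _ _ _ _ => rfl, fun _ _ _ _ => rfl⟩
  fits := ⟨by norm_num [chD35], by norm_num [chD35], by norm_num [chD35],
    by norm_num [chD35]⟩
  left := ⟨305, 13, 15, 3, 3, by decide +kernel⟩
  right := ⟨279, 12, 13, 3, 3, by decide +kernel⟩
  up := ⟨329, 13, 16, 3, 4, by decide +kernel⟩
  down := ⟨330, 13, 15, 4, 4, by decide +kernel⟩

/-- The bin `D35`. -/
theorem binD35 : SideBin chD35 pcD35 bxD35 :=
  ⟨⟨⟨fun _ => rfl, fun _ => rfl, fun _ => rfl, fun _ => rfl, fun _ => rfl, fun x => by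
      simp only [pcD35, Piece.A, Piece.S, ev_add, ev_sub, ev_mul, Ex.eval]; push_cast; ring,
      rfl, rfl⟩,
      ⟨rfl, rfl, rfl, rfl⟩, rfl, rfl, rfl, rfl, by norm_num [chD35], rfl, rfl, rfl, rfl⟩,
    okD35, certD35⟩

end Vale.Agent.P100.Calib.StripEndD
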