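import Vale.Agent.P100.Calib.SlabStripEndDSide
import Vale.Agent.P100.Calib.SlabStripEndBig
import Vale.Agent.P100.Calib.SlabStripEndDDataB

/-!
# The checks of the bins `D38`, `D39` of the strip for `u` near one, `d` large
-/

namespace Vale.Agent.P100.Calib.StripEndD

open Pack hiding ev_add ev_mul
open Pack.Ex StripMid StripEnd

local instance endDCheck19Add : Add Ex := ⟨Ex.add⟩
local instance endDCheck19Sub : Sub Ex := ⟨Ex.sub⟩
local instance endDCheck19Mul : Mul Ex := ⟨Ex.mul⟩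

/-- The checks of `D38`. -/
theorem certD38 : Cert pcD38 bxD38 := by
  have h_g1 : ∀ s p l : Bool,
      checkFour bxD38.C 283 7 12 0 5
        (pcD38.at ⟨p, l, !s, !s, false⟩ (c1 s)) = true := by
    decide +kernel
  have h_g2 : ∀ s p l t : Bool,
      checkFour bxD38.C 718 20 30 0 10
        (pcD38.at ⟨p, l, true, true, t⟩ (StripEnd.strict (c2 s))) = true := by
    decide +kernel
  have h_g5 : ∀ s p l t : Bool,
      checkFour bxD38.C 719 18 28 0 9
        (pcD38.at ⟨p, l, true, true, t⟩ (StripEnd.strict (c5 s))) = true := by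
    decide +kernel
  have h_gMG : ∀ p l t : Bool,
      checkFour bxD38.C 598 17 27 0 8
        (pcD38.at ⟨p, l, true, false, t⟩ tplMG) = true := by
    decide +kernel
  have h_v2 : ∀ s : Bool,
      checkFour bxD38.C 170 5 9 0 4
        (pcD38.at ⟨false, false, true, true, false⟩ (curve2 s)) = true := by
    decide +kernel
  have h_v5 : ∀ s : Bool,
      checkFour bxD38.C 174 6 9 0 4
        (pcD38.at ⟨false, false, true, true, false⟩ (curve5 s)) = true := by
    decide +kernel
  have h_wP : ∀ b hi : Bool,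
      checkFour bxD38.C 88 2 3 1 1
        (pcD38.winP b hi) = true := by
    decide +kernel
  have h_wE : ∀ b hi : Bool,
      checkFour bxD38.C 304 11 14 2 3
        (pcD38.winE b hi) = true := by
    decide +kernel
  have h_wK : ∀ b hi : Bool,
      checkFour bxD38.C 282 12 12 2 3
        (pcD38.winK b hi) = true := by
    decide +kernel
  have h_wW : ∀ b : Bool,
      checkFour bxD38.C 235 8 10 2 3
        (pcD38.winW b) = true := by
    decide +kernel
  have h_wY : ∀ b : Bool,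
      checkFour bxD38.C 477 17 21 3 6
        (pcD38.winY b) = true := by
    decide +kernel
  have h_wT : ∀ b hi : Bool,
      checkFour bxD38.C 220 7 9 2 4
        (pcD38.winT b hi) = true := by
    decide +kernel
  have h_gap : ∀ b t : Bool,
      checkFour bxD38.C 560 22 27 3 6
        (pcD38.gap b t) = true := by
    decide +kernel
  exact {
    pos := ⟨by norm_num [pcD38], by norm_num [pcD38]⟩
    low := ⟨by norm_num [bxD38], by norm_num [bxD38], by norm_num [bxD38]⟩
    sgns := fun f => by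
      cases f
      case I => exact ⟨159, 3, 3, 3, 0, by decide +kernel⟩
      case d => exact ⟨163, 3, 3, 3, 0, by decide +kernel⟩
      case A => exact ⟨165, 3, 3, 3, 0, by decide +kernel⟩
      case S => exact ⟨164, 3, 3, 3, 0, by decide +kernel⟩
      case U => exact ⟨164, 3, 3, 3, 0, by decide +kernel⟩
      case den => exact ⟨171, 3, 3, 3, 0, by decide +kernel⟩
      case o => exact ⟨168, 3, 3, 3, 1, by decide +kernel⟩
      case olt => exact ⟨172, 3, 3, 3, 1, by decide +kernel⟩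
      case pd => exact ⟨181, 3, 3, 3, 0, by decide +kernel⟩
      case e0 => exact ⟨193, 3, 3, 3, 0, by decide +kernel⟩
      case f0 => exact ⟨191, 3, 3, 3, 0, by decide +kernel⟩
      case wd => exact ⟨188, 3, 3, 3, 0, by decide +kernel⟩
      case td => exact ⟨191, 3, 3, 3, 0, by decide +kernel⟩
      case cd => exact ⟨164, 3, 3, 3, 0, by decide +kernel⟩
      case kd => exact ⟨171, 3, 3, 3, 0, by decide +kernel⟩
    kn := ⟨32, 1, 2, 0, 0, by decide +kernel⟩
    k2n := ⟨175, 3, 3, 3, 1, by decide +kernel⟩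
    k2d := ⟨171, 3, 3, 3, 0, by decide +kernel⟩
    vs := ⟨164, 3, 3, 3, 0, by decide +kernel⟩
    vMG := ⟨149, 5, 8, 0, 4, by decide +kernel⟩
    g1 := fun s p l => ⟨283, 7, 12, 0, 5, h_g1 s p l⟩
    g2 := fun s p l t => ⟨718, 20, 30, 0, 10, h_g2 s p l t⟩
    g5 := fun s p l t => ⟨719, 18, 28, 0, 9, h_g5 s p l t⟩
    gMG := fun p l t => ⟨598, 17, 27, 0, 8, h_gMG p l t⟩
    v2 := fun s => ⟨170, 5, 9, 0, 4, h_v2 s⟩
    v5 := fun s => ⟨174, 6, 9, 0, 4, h_v5 s⟩
    wP := fun b hi => ⟨88, 2, 3, 1, 1, h_wP b hi⟩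
    wE := fun b hi => ⟨304, 11, 14, 2, 3, h_wE b hi⟩
    wK := fun b hi => ⟨282, 12, 12, 2, 3, h_wK b hi⟩
    wW := fun b => ⟨235, 8, 10, 2, 3, h_wW b⟩
    wY := fun b => ⟨477, 17, 21, 3, 6, h_wY b⟩
    wT := fun b hi => ⟨220, 7, 9, 2, 4, h_wT b hi⟩
    gap := fun b t => ⟨560, 22, 27, 3, 6, h_gap b t⟩
  }

/-- The window of `D38`. -/
theorem okD38 : chD38.Cert where
  flat := ⟨fun _ _ _ _ => rfl, fun _ _ _ _ => rfl, fun _ _ _ _ => rfl, fun _ _ _ _ => rfl,
    fun _ _ _ _ => rfl, fun _ _ _ _ => rfl⟩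
  fits := ⟨by norm_num [chD38], by norm_num [chD38], by norm_num [chD38],
    by norm_num [chD38]⟩
  left := ⟨305, 13, 15, 3, 3, by decide +kernel⟩
  right := ⟨279, 12, 13, 3, 3, by decide +kernel⟩
  up := ⟨329, 13, 16, 3, 4, by decide +kernel⟩
  down := ⟨330, 13, 15, 4, 4, by decide +kernel⟩

/-- The bin `D38`. -/
theorem binD38 : SideBin chD38 pcD38 bxD38 :=
  ⟨⟨⟨fun _ => rfl, fun _ => rfl, fun _ => rfl, fun _ => rfl, fun _ => rfl, fun x => by
      simp only [pcD38, Piece.A, Piece.S, ev_add, ev_sub, ev_mul, Ex.eval]; push_cast; ring,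
      rfl, rfl⟩,
      ⟨rfl, rfl, rfl, rfl⟩, rfl, rfl, rfl, rfl, by norm_num [chD38], rfl, rfl, rfl, rfl⟩,
    okD38, certD38⟩

/-- The checks of `D39`. -/
theorem certD39 : Cert pcD39 bxD39 := by
  have h_g1 : ∀ s p l : Bool,
      checkFour bxD39.C 285 7 12 0 5
        (pcD39.at ⟨p, l, !s, !s, false⟩ (c1 s)) = true := by
    decide +kernel
  have h_g2 : ∀ s p l t : Bool,
      checkFour bxD39.C 717 20 30 0 10
        (pcD39.at ⟨p, l, true, true, t⟩ (StripEnd.strict (c2 s))) = true := by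
    decide +kernel
  have h_g5 : ∀ s p l t : Bool,
      checkFour bxD39.C 720 18 28 0 9
        (pcD39.at ⟨p, l, true, true, t⟩ (StripEnd.strict (c5 s))) = true := by
    decide +kernel
  have h_gMG : ∀ p l t : Bool,
      checkFour bxD39.C 600 17 27 0 8
        (pcD39.at ⟨p, l, true, false, t⟩ tplMG) = true := by
    decide +kernel
  have h_v2 : ∀ s : Bool,
      checkFour bxD39.C 169 5 9 0 4
        (pcD39.at ⟨false, false, true, true, false⟩ (curve2 s)) = true := by
    decide +kernel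
  have h_v5 : ∀ s : Bool,
      checkFour bxD39.C 174 6 9 0 4
        (pcD39.at ⟨false, false, true, true, false⟩ (curve5 s)) = true := by
    decide +kernel
  have h_wP : ∀ b hi : Bool,
      checkFour bxD39.C 89 2 3 1 1
        (pcD39.winP b hi) = true := by
    decide +kernel
  have h_wE : ∀ b hi : Bool,
      checkFour bxD39.C 307 11 14 2 3
        (pcD39.winE b hi) = true := by
    decide +kernel
  have h_wK : ∀ b hi : Bool,
      checkFour bxD39.C 285 12 12 2 3
        (pcD39.winK b hi) = true := by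
    decide +kernel
  have h_wW : ∀ b : Bool,
      checkFour bxD39.C 241 8 10 2 3
        (pcD39.winW b) = true := by
    decide +kernel
  have h_wY : ∀ b : Bool,
      checkFour bxD39.C 484 17 21 3 6
        (pcD39.winY b) = true := by
    decide +kernel
  have h_wT : ∀ b hi : Bool,
      checkFour bxD39.C 223 7 9 2 4
        (pcD39.winT b hi) = true := by
    decide +kernel
  have h_gap : ∀ b t : Bool,
      checkFour bxD39.C 565 22 27 3 6
        (pcD39.gap b t) = true := by
    decide +kernel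
  exact {
    pos := ⟨by norm_num [pcD39], by norm_num [pcD39]⟩
    low := ⟨by norm_num [bxD39], by norm_num [bxD39], by norm_num [bxD39]⟩
    sgns := fun f => by
      cases f
      case I => exact ⟨163, 3, 3, 3, 0, by decide +kernel⟩
      case d => exact ⟨167, 3, 3, 3, 0, by decide +kernel⟩
      case A => exact ⟨169, 3, 3, 3, 0, by decide +kernel⟩
      case S => exact ⟨169, 3, 3, 3, 0, by decide +kernel⟩
      case U => exact ⟨169, 3, 3, 3, 0, by decide +kernel⟩
      case den => exact ⟨176, 3, 3, 3, 0, by decide +kernel⟩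
      case o => exact ⟨173, 3, 3, 3, 1, by decide +kernel⟩
      case olt => exact ⟨177, 3, 3, 3, 1, by decide +kernel⟩
      case pd => exact ⟨186, 3, 3, 3, 0, by decide +kernel⟩
      case e0 => exact ⟨199, 3, 3, 3, 0, by decide +kernel⟩
      case f0 => exact ⟨196, 3, 3, 3, 0, by decide +kernel⟩
      case wd => exact ⟨196, 3, 3, 3, 0, by decide +kernel⟩
      case td => exact ⟨196, 3, 3, 3, 0, by decide +kernel⟩
      case cd => exact ⟨169, 3, 3, 3, 0, by decide +kernel⟩
      case kd => exact ⟨176, 3, 3, 3, 0, by decide +kernel⟩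
    kn := ⟨32, 1, 2, 0, 0, by decide +kernel⟩
    k2n := ⟨179, 3, 3, 3, 1, by decide +kernel⟩
    k2d := ⟨176, 3, 3, 3, 0, by decide +kernel⟩
    vs := ⟨169, 3, 3, 3, 0, by decide +kernel⟩
    vMG := ⟨149, 5, 8, 0, 4, by decide +kernel⟩
    g1 := fun s p l => ⟨285, 7, 12, 0, 5, h_g1 s p l⟩
    g2 := fun s p l t => ⟨717, 20, 30, 0, 10, h_g2 s p l t⟩
    g5 := fun s p l t => ⟨720, 18, 28, 0, 9, h_g5 s p l t⟩
    gMG := fun p l t => ⟨600, 17, 27, 0, 8, h_gMG p l t⟩
    v2 := fun s => ⟨169, 5, 9, 0, 4, h_v2 s⟩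
    v5 := fun s => ⟨174, 6, 9, 0, 4, h_v5 s⟩
    wP := fun b hi => ⟨89, 2, 3, 1, 1, h_wP b hi⟩
    wE := fun b hi => ⟨307, 11, 14, 2, 3, h_wE b hi⟩
    wK := fun b hi => ⟨285, 12, 12, 2, 3, h_wK b hi⟩
    wW := fun b => ⟨241, 8, 10, 2, 3, h_wW b⟩
    wY := fun b => ⟨484, 17, 21, 3, 6, h_wY b⟩
    wT := fun b hi => ⟨223, 7, 9, 2, 4, h_wT b hi⟩
    gap := fun b t => ⟨565, 22, 27, 3, 6, h_gap b t⟩
  }

/-- The window of `D39`. -/
theorem okD39 : chD39.Cert where
  flat := ⟨fun _ _ _ _ => rfl, fun _ _ _ _ => rfl, fun _ _ _ _ => rfl, fun _ _ _ _ => rfl,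
    fun _ _ _ _ => rfl, fun _ _ _ _ => rfl⟩
  fits := ⟨by norm_num [chD39], by norm_num [chD39], by norm_num [chD39],
    by norm_num [chD39]⟩
  left := ⟨310, 13, 15, 3, 3, by decide +kernel⟩
  right := ⟨284, 12, 13, 3, 3, by decide +kernel⟩
  up := ⟨334, 13, 16, 3, 4, by decide +kernel⟩
  down := ⟨337, 13, 15, 4, 4, by decide +kernel⟩

/-- The bin `D39`. -/
theorem binD39 : SideBin chD39 pcD39 bxD39 :=
  ⟨⟨⟨fun _ => rfl, fun _ => rfl, fun _ => rfl, fun _ => rfl, fun _ => rfl, fun x => by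
      simp only [pcD39, Piece.A, Piece.S, ev_add, ev_sub, ev_mul, Ex.eval]; push_cast; ring,
      rfl, rfl⟩,
      ⟨rfl, rfl, rfl, rfl⟩, rfl, rfl, rfl, rfl, by norm_num [chD39], rfl, rfl, rfl, rfl⟩,
    okD39, certD39⟩

end Vale.Agent.P100.Calib.StripEndD
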