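import Vale.Agent.P100.Calib.SlabStripEndDSide
import Vale.Agent.P100.Calib.SlabStripEndBig
import Vale.Agent.P100.Calib.SlabStripEndDDataB

/-!
# The checks of the bins `D40`, `D41` of the strip for `u` near one, `d` large
-/

namespace Vale.Agent.P100.Calib.StripEndD

open Pack hiding ev_add ev_mul
open Pack.Ex StripMid StripEnd

local instance endDCheck20Add : Add Ex := ⟨Ex.add⟩
local instance endDCheck20Sub : Sub Ex := ⟨Ex.sub⟩
local instance endDCheck20Mul : Mul Ex := ⟨Ex.mul⟩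

/-- The checks of `D40`. -/
theorem certD40 : Cert pcD40 bxD40 := by
  have h_g1 : ∀ s p l : Bool,
      checkFour bxD40.C 290 7 12 0 5
        (pcD40.at ⟨p, l, !s, !s, false⟩ (c1 s)) = true := by
    decide +kernel
  have h_g2 : ∀ s p l t : Bool,
      checkFour bxD40.C 741 20 30 0 9
        (pcD40.at ⟨p, l, true, true, t⟩ (StripEnd.strict (c2 s))) = true := by
    decide +kernel
  have h_g5 : ∀ s p l t : Bool,
      checkFour bxD40.C 739 18 28 0 8
        (pcD40.at ⟨p, l, true, true, t⟩ (StripEnd.strict (c5 s))) = true := by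
    decide +kernel
  have h_gMG : ∀ p l t : Bool,
      checkFour bxD40.C 618 17 27 0 8
        (pcD40.at ⟨p, l, true, false, t⟩ tplMG) = true := by
    decide +kernel
  have h_v2 : ∀ s : Bool,
      checkFour bxD40.C 179 5 9 0 4
        (pcD40.at ⟨false, false, true, true, false⟩ (curve2 s)) = true := by
    decide +kernel
  have h_v5 : ∀ s : Bool,
      checkFour bxD40.C 183 6 9 0 4
        (pcD40.at ⟨false, false, true, true, false⟩ (curve5 s)) = true := by
    decide +kernel
  have h_wP : ∀ b hi : Bool,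
      checkFour bxD40.C 89 2 3 1 1
        (pcD40.winP b hi) = true := by
    decide +kernel
  have h_wE : ∀ b hi : Bool,
      checkFour bxD40.C 315 11 14 2 3
        (pcD40.winE b hi) = true := by
    decide +kernel
  have h_wK : ∀ b hi : Bool,
      checkFour bxD40.C 291 12 12 2 3
        (pcD40.winK b hi) = true := by
    decide +kernel
  have h_wW : ∀ b : Bool,
      checkFour bxD40.C 242 8 10 2 3
        (pcD40.winW b) = true := by
    decide +kernel
  have h_wY : ∀ b : Bool,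
      checkFour bxD40.C 493 17 21 3 6
        (pcD40.winY b) = true := by
    decide +kernel
  have h_wT : ∀ b hi : Bool,
      checkFour bxD40.C 225 7 9 2 3
        (pcD40.winT b hi) = true := by
    decide +kernel
  have h_gap : ∀ b t : Bool,
      checkFour bxD40.C 583 22 27 3 6
        (pcD40.gap b t) = true := by
    decide +kernel
  exact {
    pos := ⟨by norm_num [pcD40], by norm_num [pcD40]⟩
    low := ⟨by norm_num [bxD40], by norm_num [bxD40], by norm_num [bxD40]⟩
    sgns := fun f => by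
      cases f
      case I => exact ⟨158, 3, 3, 3, 0, by decide +kernel⟩
      case d => exact ⟨163, 3, 3, 3, 0, by decide +kernel⟩
      case A => exact ⟨165, 3, 3, 3, 0, by decide +kernel⟩
      case S => exact ⟨164, 3, 3, 3, 0, by decide +kernel⟩
      case U => exact ⟨164, 3, 3, 3, 0, by decide +kernel⟩
      case den => exact ⟨171, 3, 3, 3, 0, by decide +kernel⟩
      case o => exact ⟨167, 3, 3, 3, 1, by decide +kernel⟩
      case olt => exact ⟨172, 3, 3, 3, 1, by decide +kernel⟩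
      case pd => exact ⟨180, 3, 3, 3, 0, by decide +kernel⟩
      case e0 => exact ⟨189, 3, 3, 3, 0, by decide +kernel⟩
      case f0 => exact ⟨190, 3, 3, 3, 0, by decide +kernel⟩
      case wd => exact ⟨187, 3, 3, 3, 0, by decide +kernel⟩
      case td => exact ⟨190, 3, 3, 3, 0, by decide +kernel⟩
      case cd => exact ⟨164, 3, 3, 3, 0, by decide +kernel⟩
      case kd => exact ⟨171, 3, 3, 3, 0, by decide +kernel⟩
    kn := ⟨31, 1, 2, 0, 0, by decide +kernel⟩
    k2n := ⟨174, 3, 3, 3, 1, by decide +kernel⟩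
    k2d := ⟨171, 3, 3, 3, 0, by decide +kernel⟩
    vs := ⟨164, 3, 3, 3, 0, by decide +kernel⟩
    vMG := ⟨157, 5, 8, 0, 4, by decide +kernel⟩
    g1 := fun s p l => ⟨290, 7, 12, 0, 5, h_g1 s p l⟩
    g2 := fun s p l t => ⟨741, 20, 30, 0, 9, h_g2 s p l t⟩
    g5 := fun s p l t => ⟨739, 18, 28, 0, 8, h_g5 s p l t⟩
    gMG := fun p l t => ⟨618, 17, 27, 0, 8, h_gMG p l t⟩
    v2 := fun s => ⟨179, 5, 9, 0, 4, h_v2 s⟩
    v5 := fun s => ⟨183, 6, 9, 0, 4, h_v5 s⟩
    wP := fun b hi => ⟨89, 2, 3, 1, 1, h_wP b hi⟩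
    wE := fun b hi => ⟨315, 11, 14, 2, 3, h_wE b hi⟩
    wK := fun b hi => ⟨291, 12, 12, 2, 3, h_wK b hi⟩
    wW := fun b => ⟨242, 8, 10, 2, 3, h_wW b⟩
    wY := fun b => ⟨493, 17, 21, 3, 6, h_wY b⟩
    wT := fun b hi => ⟨225, 7, 9, 2, 3, h_wT b hi⟩
    gap := fun b t => ⟨583, 22, 27, 3, 6, h_gap b t⟩
  }

/-- The window of `D40`. -/
theorem okD40 : chD40.Cert where
  flat := ⟨fun _ _ _ _ => rfl, fun _ _ _ _ => rfl, fun _ _ _ _ => rfl, fun _ _ _ _ => rfl,
    fun _ _ _ _ => rfl, fun _ _ _ _ => rfl⟩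
  fits := ⟨by norm_num [chD40], by norm_num [chD40], by norm_num [chD40],
    by norm_num [chD40]⟩
  left := ⟨317, 13, 15, 3, 3, by decide +kernel⟩
  right := ⟨289, 12, 13, 3, 3, by decide +kernel⟩
  up := ⟨342, 13, 16, 3, 4, by decide +kernel⟩
  down := ⟨341, 13, 15, 4, 4, by decide +kernel⟩

/-- The bin `D40`. -/
theorem binD40 : SideBin chD40 pcD40 bxD40 :=
  ⟨⟨⟨fun _ => rfl, fun _ => rfl, fun _ => rfl, fun _ => rfl, fun _ => rfl, fun x => by
      simp only [pcD40, Piece.A, Piece.S, ev_add, ev_sub, ev_mul, Ex.eval]; push_cast; ring,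
      rfl, rfl⟩,
      ⟨rfl, rfl, rfl, rfl⟩, rfl, rfl, rfl, rfl, by norm_num [chD40], rfl, rfl, rfl, rfl⟩,
    okD40, certD40⟩

/-- The checks of `D41`. -/
theorem certD41 : Cert pcD41 bxD41 := by
  have h_g1 : ∀ s p l : Bool,
      checkFour bxD41.C 294 7 12 0 5
        (pcD41.at ⟨p, l, !s, !s, false⟩ (c1 s)) = true := by
    decide +kernel
  have h_g2 : ∀ s p l t : Bool,
      checkFour bxD41.C 747 20 30 0 10
        (pcD41.at ⟨p, l, true, true, t⟩ (StripEnd.strict (c2 s))) = true := by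
    decide +kernel
  have h_g5 : ∀ s p l t : Bool,
      checkFour bxD41.C 747 18 28 0 9
        (pcD41.at ⟨p, l, true, true, t⟩ (StripEnd.strict (c5 s))) = true := by
    decide +kernel
  have h_gMG : ∀ p l t : Bool,
      checkFour bxD41.C 625 17 27 0 8
        (pcD41.at ⟨p, l, true, false, t⟩ tplMG) = true := by
    decide +kernel
  have h_v2 : ∀ s : Bool,
      checkFour bxD41.C 179 5 9 0 4
        (pcD41.at ⟨false, false, true, true, false⟩ (curve2 s)) = true := by
    decide +kernel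
  have h_v5 : ∀ s : Bool,
      checkFour bxD41.C 183 6 9 0 4
        (pcD41.at ⟨false, false, true, true, false⟩ (curve5 s)) = true := by
    decide +kernel
  have h_wP : ∀ b hi : Bool,
      checkFour bxD41.C 91 2 3 1 1
        (pcD41.winP b hi) = true := by
    decide +kernel
  have h_wE : ∀ b hi : Bool,
      checkFour bxD41.C 318 11 14 2 3
        (pcD41.winE b hi) = true := by
    decide +kernel
  have h_wK : ∀ b hi : Bool,
      checkFour bxD41.C 294 12 12 2 3
        (pcD41.winK b hi) = true := by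
    decide +kernel
  have h_wW : ∀ b : Bool,
      checkFour bxD41.C 247 8 10 2 3
        (pcD41.winW b) = true := by
    decide +kernel
  have h_wY : ∀ b : Bool,
      checkFour bxD41.C 500 17 21 3 6
        (pcD41.winY b) = true := by
    decide +kernel
  have h_wT : ∀ b hi : Bool,
      checkFour bxD41.C 229 7 9 2 4
        (pcD41.winT b hi) = true := by
    decide +kernel
  have h_gap : ∀ b t : Bool,
      checkFour bxD41.C 587 22 27 3 6
        (pcD41.gap b t) = true := by
    decide +kernel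
  exact {
    pos := ⟨by norm_num [pcD41], by norm_num [pcD41]⟩
    low := ⟨by norm_num [bxD41], by norm_num [bxD41], by norm_num [bxD41]⟩
    sgns := fun f => by
      cases f
      case I => exact ⟨161, 3, 3, 3, 0, by decide +kernel⟩
      case d => exact ⟨166, 3, 3, 3, 0, by decide +kernel⟩
      case A => exact ⟨168, 3, 3, 3, 0, by decide +kernel⟩
      case S => exact ⟨167, 3, 3, 3, 0, by decide +kernel⟩
      case U => exact ⟨167, 3, 3, 3, 0, by decide +kernel⟩
      case den => exact ⟨174, 3, 3, 3, 0, by decide +kernel⟩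
      case o => exact ⟨170, 3, 3, 3, 1, by decide +kernel⟩
      case olt => exact ⟨175, 3, 3, 3, 1, by decide +kernel⟩
      case pd => exact ⟨184, 3, 3, 3, 0, by decide +kernel⟩
      case e0 => exact ⟨193, 3, 3, 3, 0, by decide +kernel⟩
      case f0 => exact ⟨194, 3, 3, 3, 0, by decide +kernel⟩
      case wd => exact ⟨193, 3, 3, 3, 0, by decide +kernel⟩
      case td => exact ⟨194, 3, 3, 3, 0, by decide +kernel⟩
      case cd => exact ⟨167, 3, 3, 3, 0, by decide +kernel⟩
      case kd => exact ⟨174, 3, 3, 3, 0, by decide +kernel⟩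
    kn := ⟨32, 1, 2, 0, 0, by decide +kernel⟩
    k2n := ⟨177, 3, 3, 3, 1, by decide +kernel⟩
    k2d := ⟨174, 3, 3, 3, 0, by decide +kernel⟩
    vs := ⟨167, 3, 3, 3, 0, by decide +kernel⟩
    vMG := ⟨157, 5, 8, 0, 4, by decide +kernel⟩
    g1 := fun s p l => ⟨294, 7, 12, 0, 5, h_g1 s p l⟩
    g2 := fun s p l t => ⟨747, 20, 30, 0, 10, h_g2 s p l t⟩
    g5 := fun s p l t => ⟨747, 18, 28, 0, 9, h_g5 s p l t⟩
    gMG := fun p l t => ⟨625, 17, 27, 0, 8, h_gMG p l t⟩
    v2 := fun s => ⟨179, 5, 9, 0, 4, h_v2 s⟩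
    v5 := fun s => ⟨183, 6, 9, 0, 4, h_v5 s⟩
    wP := fun b hi => ⟨91, 2, 3, 1, 1, h_wP b hi⟩
    wE := fun b hi => ⟨318, 11, 14, 2, 3, h_wE b hi⟩
    wK := fun b hi => ⟨294, 12, 12, 2, 3, h_wK b hi⟩
    wW := fun b => ⟨247, 8, 10, 2, 3, h_wW b⟩
    wY := fun b => ⟨500, 17, 21, 3, 6, h_wY b⟩
    wT := fun b hi => ⟨229, 7, 9, 2, 4, h_wT b hi⟩
    gap := fun b t => ⟨587, 22, 27, 3, 6, h_gap b t⟩
  }

/-- The window of `D41`. -/
theorem okD41 : chD41.Cert where
  flat := ⟨fun _ _ _ _ => rfl, fun _ _ _ _ => rfl, fun _ _ _ _ => rfl, fun _ _ _ _ => rfl,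
    fun _ _ _ _ => rfl, fun _ _ _ _ => rfl⟩
  fits := ⟨by norm_num [chD41], by norm_num [chD41], by norm_num [chD41],
    by norm_num [chD41]⟩
  left := ⟨320, 13, 15, 3, 3, by decide +kernel⟩
  right := ⟨292, 12, 13, 3, 3, by decide +kernel⟩
  up := ⟨345, 13, 16, 3, 4, by decide +kernel⟩
  down := ⟨345, 13, 15, 4, 4, by decide +kernel⟩

/-- The bin `D41`. -/
theorem binD41 : SideBin chD41 pcD41 bxD41 :=
  ⟨⟨⟨fun _ => rfl, fun _ => rfl, fun _ => rfl, fun _ => rfl, fun _ => rfl, fun x => by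
      simp only [pcD41, Piece.A, Piece.S, ev_add, ev_sub, ev_mul, Ex.eval]; push_cast; ring,
      rfl, rfl⟩,
      ⟨rfl, rfl, rfl, rfl⟩, rfl, rfl, rfl, rfl, by norm_num [chD41], rfl, rfl, rfl, rfl⟩,
    okD41, certD41⟩

end Vale.Agent.P100.Calib.StripEndD
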