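import Vale.Agent.P100.Calib.SlabStripEndDSide
import Vale.Agent.P100.Calib.SlabStripEndBig
import Vale.Agent.P100.Calib.SlabStripEndDDataB

/-!
# The checks of the bins `D44`, `D45` of the strip for `u` near one, `d` large
-/

namespace Vale.Agent.P100.Calib.StripEndD

open Pack hiding ev_add ev_mul
open Pack.Ex StripMid StripEnd

local instance endDCheck22Add : Add Ex := ⟨Ex.add⟩
local instance endDCheck22Sub : Sub Ex := ⟨Ex.sub⟩
local instance endDCheck22Mul : Mul Ex := ⟨Ex.mul⟩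

/-- The checks of `D44`. -/
theorem certD44 : Cert pcD44 bxD44 := by
  have h_g1 : ∀ s p l : Bool,
      checkFour bxD44.C 294 7 12 0 5
        (pcD44.at ⟨p, l, !s, !s, false⟩ (c1 s)) = true := by
    decide +kernel
  have h_g2 : ∀ s p l t : Bool,
      checkFour bxD44.C 748 20 30 0 10
        (pcD44.at ⟨p, l, true, true, t⟩ (StripEnd.strict (c2 s))) = true := by
    decide +kernel
  have h_g5 : ∀ s p l t : Bool,
      checkFour bxD44.C 746 18 28 0 9
        (pcD44.at ⟨p, l, true, true, t⟩ (StripEnd.strict (c5 s))) = true := by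
    decide +kernel
  have h_gMG : ∀ p l t : Bool,
      checkFour bxD44.C 624 17 27 0 8
        (pcD44.at ⟨p, l, true, false, t⟩ tplMG) = true := by
    decide +kernel
  have h_v2 : ∀ s : Bool,
      checkFour bxD44.C 179 5 9 0 4
        (pcD44.at ⟨false, false, true, true, false⟩ (curve2 s)) = true := by
    decide +kernel
  have h_v5 : ∀ s : Bool,
      checkFour bxD44.C 183 6 9 0 4
        (pcD44.at ⟨false, false, true, true, false⟩ (curve5 s)) = true := by
    decide +kernel
  have h_wP : ∀ b hi : Bool,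
      checkFour bxD44.C 91 2 3 1 1
        (pcD44.winP b hi) = true := by
    decide +kernel
  have h_wE : ∀ b hi : Bool,
      checkFour bxD44.C 318 11 14 2 3
        (pcD44.winE b hi) = true := by
    decide +kernel
  have h_wK : ∀ b hi : Bool,
      checkFour bxD44.C 294 12 12 2 3
        (pcD44.winK b hi) = true := by
    decide +kernel
  have h_wW : ∀ b : Bool,
      checkFour bxD44.C 245 8 10 2 3
        (pcD44.winW b) = true := by
    decide +kernel
  have h_wY : ∀ b : Bool,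
      checkFour bxD44.C 498 17 21 3 6
        (pcD44.winY b) = true := by
    decide +kernel
  have h_wT : ∀ b hi : Bool,
      checkFour bxD44.C 229 7 9 2 4
        (pcD44.winT b hi) = true := by
    decide +kernel
  have h_gap : ∀ b t : Bool,
      checkFour bxD44.C 587 22 27 3 6
        (pcD44.gap b t) = true := by
    decide +kernel
  exact {
    pos := ⟨by norm_num [pcD44], by norm_num [pcD44]⟩
    low := ⟨by norm_num [bxD44], by norm_num [bxD44], by norm_num [bxD44]⟩
    sgns := fun f => by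
      cases f
      case I => exact ⟨161, 3, 3, 3, 0, by decide +kernel⟩
      case d => exact ⟨166, 3, 3, 3, 0, by decide +kernel⟩
      case A => exact ⟨168, 3, 3, 3, 0, by decide +kernel⟩
      case S => exact ⟨167, 3, 3, 3, 0, by decide +kernel⟩
      case U => exact ⟨167, 3, 3, 3, 0, by decide +kernel⟩
      case den => exact ⟨174, 3, 3, 3, 0, by decide +kernel⟩
      case o => exact ⟨170, 3, 3, 3, 1, by decide +kernel⟩
      case olt => exact ⟨175, 3, 3, 3, 1, by decide +kernel⟩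
      case pd => exact ⟨184, 3, 3, 3, 0, by decide +kernel⟩
      case e0 => exact ⟨196, 3, 3, 3, 0, by decide +kernel⟩
      case f0 => exact ⟨194, 3, 3, 3, 0, by decide +kernel⟩
      case wd => exact ⟨191, 3, 3, 3, 0, by decide +kernel⟩
      case td => exact ⟨194, 3, 3, 3, 0, by decide +kernel⟩
      case cd => exact ⟨167, 3, 3, 3, 0, by decide +kernel⟩
      case kd => exact ⟨174, 3, 3, 3, 0, by decide +kernel⟩
    kn := ⟨33, 1, 2, 0, 0, by decide +kernel⟩
    k2n := ⟨177, 3, 3, 3, 1, by decide +kernel⟩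
    k2d := ⟨174, 3, 3, 3, 0, by decide +kernel⟩
    vs := ⟨167, 3, 3, 3, 0, by decide +kernel⟩
    vMG := ⟨157, 5, 8, 0, 4, by decide +kernel⟩
    g1 := fun s p l => ⟨294, 7, 12, 0, 5, h_g1 s p l⟩
    g2 := fun s p l t => ⟨748, 20, 30, 0, 10, h_g2 s p l t⟩
    g5 := fun s p l t => ⟨746, 18, 28, 0, 9, h_g5 s p l t⟩
    gMG := fun p l t => ⟨624, 17, 27, 0, 8, h_gMG p l t⟩
    v2 := fun s => ⟨179, 5, 9, 0, 4, h_v2 s⟩
    v5 := fun s => ⟨183, 6, 9, 0, 4, h_v5 s⟩
    wP := fun b hi => ⟨91, 2, 3, 1, 1, h_wP b hi⟩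
    wE := fun b hi => ⟨318, 11, 14, 2, 3, h_wE b hi⟩
    wK := fun b hi => ⟨294, 12, 12, 2, 3, h_wK b hi⟩
    wW := fun b => ⟨245, 8, 10, 2, 3, h_wW b⟩
    wY := fun b => ⟨498, 17, 21, 3, 6, h_wY b⟩
    wT := fun b hi => ⟨229, 7, 9, 2, 4, h_wT b hi⟩
    gap := fun b t => ⟨587, 22, 27, 3, 6, h_gap b t⟩
  }

/-- The window of `D44`. -/
theorem okD44 : chD44.Cert where
  flat := ⟨fun _ _ _ _ => rfl, fun _ _ _ _ => rfl, fun _ _ _ _ => rfl, fun _ _ _ _ => rfl,
    fun _ _ _ _ => rfl, fun _ _ _ _ => rfl⟩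
  fits := ⟨by norm_num [chD44], by norm_num [chD44], by norm_num [chD44],
    by norm_num [chD44]⟩
  left := ⟨320, 13, 15, 3, 3, by decide +kernel⟩
  right := ⟨292, 12, 13, 3, 3, by decide +kernel⟩
  up := ⟨345, 13, 16, 3, 4, by decide +kernel⟩
  down := ⟨345, 13, 15, 4, 4, by decide +kernel⟩

/-- The bin `D44`. -/
theorem binD44 : SideBin chD44 pcD44 bxD44 :=
  ⟨⟨⟨fun _ => rfl, fun _ => rfl, fun _ => rfl, fun _ => rfl, fun _ => rfl, fun x => by
      simp only [pcD44, Piece.A, Piece.S, ev_add, ev_sub, ev_mul, Ex.eval]; push_cast; ring,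
      rfl, rfl⟩,
      ⟨rfl, rfl, rfl, rfl⟩, rfl, rfl, rfl, rfl, by norm_num [chD44], rfl, rfl, rfl, rfl⟩,
    okD44, certD44⟩

/-- The checks of `D45`. -/
theorem certD45 : Cert pcD45 bxD45 := by
  have h_g1 : ∀ s p l : Bool,
      checkFour bxD45.C 294 7 12 0 5
        (pcD45.at ⟨p, l, !s, !s, false⟩ (c1 s)) = true := by
    decide +kernel
  have h_g2 : ∀ s p l t : Bool,
      checkFour bxD45.C 747 20 30 0 10
        (pcD45.at ⟨p, l, true, true, t⟩ (StripEnd.strict (c2 s))) = true := by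
    decide +kernel
  have h_g5 : ∀ s p l t : Bool,
      checkFour bxD45.C 745 18 28 0 9
        (pcD45.at ⟨p, l, true, true, t⟩ (StripEnd.strict (c5 s))) = true := by
    decide +kernel
  have h_gMG : ∀ p l t : Bool,
      checkFour bxD45.C 623 17 27 0 8
        (pcD45.at ⟨p, l, true, false, t⟩ tplMG) = true := by
    decide +kernel
  have h_v2 : ∀ s : Bool,
      checkFour bxD45.C 178 5 9 0 4
        (pcD45.at ⟨false, false, true, true, false⟩ (curve2 s)) = true := by
    decide +kernel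
  have h_v5 : ∀ s : Bool,
      checkFour bxD45.C 183 6 9 0 4
        (pcD45.at ⟨false, false, true, true, false⟩ (curve5 s)) = true := by
    decide +kernel
  have h_wP : ∀ b hi : Bool,
      checkFour bxD45.C 92 2 3 1 1
        (pcD45.winP b hi) = true := by
    decide +kernel
  have h_wE : ∀ b hi : Bool,
      checkFour bxD45.C 320 11 14 2 3
        (pcD45.winE b hi) = true := by
    decide +kernel
  have h_wK : ∀ b hi : Bool,
      checkFour bxD45.C 296 12 12 2 3
        (pcD45.winK b hi) = true := by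
    decide +kernel
  have h_wW : ∀ b : Bool,
      checkFour bxD45.C 247 8 10 2 3
        (pcD45.winW b) = true := by
    decide +kernel
  have h_wY : ∀ b : Bool,
      checkFour bxD45.C 501 17 21 3 6
        (pcD45.winY b) = true := by
    decide +kernel
  have h_wT : ∀ b hi : Bool,
      checkFour bxD45.C 231 7 9 2 4
        (pcD45.winT b hi) = true := by
    decide +kernel
  have h_gap : ∀ b t : Bool,
      checkFour bxD45.C 590 22 27 3 6
        (pcD45.gap b t) = true := by
    decide +kernel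
  exact {
    pos := ⟨by norm_num [pcD45], by norm_num [pcD45]⟩
    low := ⟨by norm_num [bxD45], by norm_num [bxD45], by norm_num [bxD45]⟩
    sgns := fun f => by
      cases f
      case I => exact ⟨164, 3, 3, 3, 0, by decide +kernel⟩
      case d => exact ⟨169, 3, 3, 3, 0, by decide +kernel⟩
      case A => exact ⟨171, 3, 3, 3, 0, by decide +kernel⟩
      case S => exact ⟨171, 3, 3, 3, 0, by decide +kernel⟩
      case U => exact ⟨171, 3, 3, 3, 0, by decide +kernel⟩
      case den => exact ⟨177, 3, 3, 3, 0, by decide +kernel⟩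
      case o => exact ⟨173, 3, 3, 3, 1, by decide +kernel⟩
      case olt => exact ⟨178, 3, 3, 3, 1, by decide +kernel⟩
      case pd => exact ⟨187, 3, 3, 3, 0, by decide +kernel⟩
      case e0 => exact ⟨200, 3, 3, 3, 0, by decide +kernel⟩
      case f0 => exact ⟨197, 3, 3, 3, 0, by decide +kernel⟩
      case wd => exact ⟨194, 3, 3, 3, 0, by decide +kernel⟩
      case td => exact ⟨197, 3, 3, 3, 0, by decide +kernel⟩
      case cd => exact ⟨171, 3, 3, 3, 0, by decide +kernel⟩
      case kd => exact ⟨177, 3, 3, 3, 0, by decide +kernel⟩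
    kn := ⟨33, 1, 2, 0, 0, by decide +kernel⟩
    k2n := ⟨180, 3, 3, 3, 1, by decide +kernel⟩
    k2d := ⟨177, 3, 3, 3, 0, by decide +kernel⟩
    vs := ⟨170, 3, 3, 3, 0, by decide +kernel⟩
    vMG := ⟨157, 5, 8, 0, 4, by decide +kernel⟩
    g1 := fun s p l => ⟨294, 7, 12, 0, 5, h_g1 s p l⟩
    g2 := fun s p l t => ⟨747, 20, 30, 0, 10, h_g2 s p l t⟩
    g5 := fun s p l t => ⟨745, 18, 28, 0, 9, h_g5 s p l t⟩
    gMG := fun p l t => ⟨623, 17, 27, 0, 8, h_gMG p l t⟩
    v2 := fun s => ⟨178, 5, 9, 0, 4, h_v2 s⟩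
    v5 := fun s => ⟨183, 6, 9, 0, 4, h_v5 s⟩
    wP := fun b hi => ⟨92, 2, 3, 1, 1, h_wP b hi⟩
    wE := fun b hi => ⟨320, 11, 14, 2, 3, h_wE b hi⟩
    wK := fun b hi => ⟨296, 12, 12, 2, 3, h_wK b hi⟩
    wW := fun b => ⟨247, 8, 10, 2, 3, h_wW b⟩
    wY := fun b => ⟨501, 17, 21, 3, 6, h_wY b⟩
    wT := fun b hi => ⟨231, 7, 9, 2, 4, h_wT b hi⟩
    gap := fun b t => ⟨590, 22, 27, 3, 6, h_gap b t⟩
  }

/-- The window of `D45`. -/
theorem okD45 : chD45.Cert where
  flat := ⟨fun _ _ _ _ => rfl, fun _ _ _ _ => rfl, fun _ _ _ _ => rfl, fun _ _ _ _ => rfl,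
    fun _ _ _ _ => rfl, fun _ _ _ _ => rfl⟩
  fits := ⟨by norm_num [chD45], by norm_num [chD45], by norm_num [chD45],
    by norm_num [chD45]⟩
  left := ⟨324, 13, 15, 3, 3, by decide +kernel⟩
  right := ⟨295, 12, 13, 3, 3, by decide +kernel⟩
  up := ⟨349, 13, 16, 3, 4, by decide +kernel⟩
  down := ⟨350, 13, 15, 4, 4, by decide +kernel⟩

/-- The bin `D45`. -/
theorem binD45 : SideBin chD45 pcD45 bxD45 :=
  ⟨⟨⟨fun _ => rfl, fun _ => rfl, fun _ => rfl, fun _ => rfl, fun _ => rfl, fun x => by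
      simp only [pcD45, Piece.A, Piece.S, ev_add, ev_sub, ev_mul, Ex.eval]; push_cast; ring,
      rfl, rfl⟩,
      ⟨rfl, rfl, rfl, rfl⟩, rfl, rfl, rfl, rfl, by norm_num [chD45], rfl, rfl, rfl, rfl⟩,
    okD45, certD45⟩

end Vale.Agent.P100.Calib.StripEndD
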