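import Vale.Agent.P100.Calib.SlabStripEndDShift
import Vale.Agent.P100.Calib.SlabStripEndChart

/-!
# The bins `D48` to `D71` of the strip for `u` near one, `d` large
-/

namespace Vale.Agent.P100.Calib.StripEndD

open Pack hiding ev_add ev_mul
open Pack.Ex StripMid StripEnd

local instance endDDataCAdd : Add Ex := ⟨Ex.add⟩
local instance endDDataCSub : Sub Ex := ⟨Ex.sub⟩
local instance endDDataCMul : Mul Ex := ⟨Ex.mul⟩

/-- The chart `D48`. -/
def chD48 : EndChart where
  I := var 0 * var 1
  d := var 0
  w := var 0 * var 2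
  den := num 100
  n₀ := ((num 1 - num 2 * (var 0 * var 1) - var 0) * var 1) * (num 71 + num (-34) * (var 1))
  n₁ := ((num 1 - num 2 * (var 0 * var 1) - var 0) * var 1) * (num 24 + num 19 * (var 1))
  q₀ := (0, 1, 20)
  q₁ := (1, 2, 2)
  q₂ := (33, 43, 250)
  q₃ := (0, 1, 1)
  t₀ := (0, 1)
  t₁ := (1, 1)
  mu₀ := (195, 100)
  mu₁ := (230, 100)

/-- The piece `D48`. -/
def pcD48 : Piece where
  I := var 0 * var 1
  d := var 0
  w := var 0 * var 2
  o := (((num 1 - num 2 * (var 0 * var 1) - var 0) * var 1) * (num 71 + num (-34) * (var 1)) + ((num 1 - num 2 * (var 0 * var 1) - var 0) * var 1) * (num 24 + num 19 * (var 1)) * var 3)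
  den := num 100
  vn := num 2 * var 1 * ((num 71 + num (-34) * (var 1)) + (num 24 + num 19 * (var 1)) * var 3)
  vs := num 1
  mu := ⟨(195, 100), (230, 100)⟩
  pn := fun b => cond b
    (num 25000 * (num 100 - (((num 1 - num 2 * (var 0 * var 1) - var 0) * var 1) * (num 71 + num (-34) * (var 1)) + ((num 1 - num 2 * (var 0 * var 1) - var 0) * var 1) * (num 24 + num 19 * (var 1)) * var 3)) + num (-9890) * ((((num 1 - num 2 * (var 0 * var 1) - var 0) * var 1) * (num 71 + num (-34) * (var 1)) + ((num 1 - num 2 * (var 0 * var 1) - var 0) * var 1) * (num 24 + num 19 * (var 1)) * var 3) * var 0))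
    (num 25000 * (num 100 - (((num 1 - num 2 * (var 0 * var 1) - var 0) * var 1) * (num 71 + num (-34) * (var 1)) + ((num 1 - num 2 * (var 0 * var 1) - var 0) * var 1) * (num 24 + num 19 * (var 1)) * var 3)) + num (-6435) * ((((num 1 - num 2 * (var 0 * var 1) - var 0) * var 1) * (num 71 + num (-34) * (var 1)) + ((num 1 - num 2 * (var 0 * var 1) - var 0) * var 1) * (num 24 + num 19 * (var 1)) * var 3) * var 0))
  pd := num 25000
  en := fun b => cond b
    (num 1091 * (num 293000 * (var 0) * (var 1) + num 124000 * (var 0) * (var 0) * (var 1) + num 12040 + num 315061 * (var 0) + num (-90500) * (var 0) * (var 1) * (var 1)))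
    (num 878 * (num 293000 * (var 0) * (var 1) + num 124000 * (var 0) * (var 0) * (var 1) + num 9240 + num 241791 * (var 0) + num (-90500) * (var 0) * (var 1) * (var 1)))
  kk := fun b => cond b
    (num 1017 * (num 12212 * (var 0) + num 277006 * (var 0) * (var 0) + num (-301) * (var 0) * (var 1) + num 258 * (var 0) * (var 3)))
    (num 972 * (num 9372 * (var 0) + num 212586 * (var 0) * (var 0) + num (-231) * (var 0) * (var 1) + num 198 * (var 0) * (var 3)))
  f0 := num 25000000
  wn := fun b => cond b
    (num 1000 * (num (-200000) * (var 0 * var 1) + (num 2000 * (var 0 * var 1) + num 132 * var 0) * (((num 1 - num 2 * (var 0 * var 1) - var 0) * var 1) * (num 71 + num (-34) * (var 1)) + ((num 1 - num 2 * (var 0 * var 1) - var 0) * var 1) * (num 24 + num 19 * (var 1)) * var 3) + var 0 * var 1 * var 0 * (num (-200000) + (num (-103500) * (var 1) + num 68574 + num (-1449750) * (var 1) * (var 0) + num 174999 * (var 0) + num 334500 * (var 1) * (var 3) + num (-31218) * (var 3)))) + num (-114) * (num 100 * (var 0 * var 1 *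 var 0) * (num 250 * (var 1) + num 33)))
    (num 1000 * (num (-200000) * (var 0 * var 1) + (num 2000 * (var 0 * var 1) + num 132 * var 0) * (((num 1 - num 2 * (var 0 * var 1) - var 0) * var 1) * (num 71 + num (-34) * (var 1)) + ((num 1 - num 2 * (var 0 * var 1) - var 0) * var 1) * (num 24 + num 19 * (var 1)) * var 3) + var 0 * var 1 * var 0 * (num (-200000) + (num (-103500) * (var 1) + num 68574 + num (-1449750) * (var 1) * (var 0) + num 174999 * (var 0) + num 334500 * (var 1) * (var 3) + num (-31218) * (var 3)))) + num (-1119) * (num 100 * (var 0 * var 1 * var 0) * (num 250 * (var 1) + num 33)))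
  wd := num 25000000
  tn := fun b => cond b
    (num 1258 * (num 2623 + num (-3225) * (var 0) + num 258 * (var 1) + num (-1935) * (var 3) + num 5031 * (var 1) * (var 3)))
    (num 904 * (num 2013 + num (-2475) * (var 0) + num 198 * (var 1) + num (-1485) * (var 3) + num 3861 * (var 1) * (var 3)))
  td := num 25000000
  cn := num 1 - var 0 * var 1 - var 1 * (num 1 - num 2 * (var 0 * var 1))
  cd := (num 1 - num 2 * (var 0 * var 1)) * (num 1 - num 2 * (var 0 * var 1))
  kn := var 0 * var 1 * (num (-770) + num 12000 * (var 1) + num (-60000) * (var 0))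
  kd := num 100
  k2n := var 0 * (num 830 + num (-750) * (var 3) + num 200 * (var 1))
  k2d := num 100

/-- Its ranges. -/
def bxD48 : StripEnd.EBox :=
  ⟨(0, 1, 20), (1, 2, 2), (33, 43, 250), (0, 1, 1)⟩

/-- The chart `D49`. -/
def chD49 : EndChart where
  I := var 0 * var 1
  d := var 0
  w := var 0 * var 2
  den := num 100
  n₀ := ((num 1 - num 2 * (var 0 * var 1) - var 0) * var 1) * (num 64 + num (-29) * (var 1))
  n₁ := ((num 1 - num 2 * (var 0 * var 1) - var 0) * var 1) * (num 27 + num 14 * (var 1))
  q₀ := (0, 1, 20)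
  q₁ := (1, 2, 2)
  q₂ := (172, 249, 1000)
  q₃ := (0, 1, 1)
  t₀ := (0, 1)
  t₁ := (1, 1)
  mu₀ := (195, 100)
  mu₁ := (230, 100)

/-- The piece `D49`. -/
def pcD49 : Piece where
  I := var 0 * var 1
  d := var 0
  w := var 0 * var 2
  o := (((num 1 - num 2 * (var 0 * var 1) - var 0) * var 1) * (num 64 + num (-29) * (var 1)) + ((num 1 - num 2 * (var 0 * var 1) - var 0) * var 1) * (num 27 + num 14 * (var 1)) * var 3)
  den := num 100
  vn := num 2 * var 1 * ((num 64 + num (-29) * (var 1)) + (num 27 + num 14 * (var 1)) * var 3)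
  vs := num 1
  mu := ⟨(195, 100), (230, 100)⟩
  pn := fun b => cond b
    (num 100000 * (num 100 - (((num 1 - num 2 * (var 0 * var 1) - var 0) * var 1) * (num 64 + num (-29) * (var 1)) + ((num 1 - num 2 * (var 0 * var 1) - var 0) * var 1) * (num 27 + num 14 * (var 1)) * var 3)) + num (-57270) * ((((num 1 - num 2 * (var 0 * var 1) - var 0) * var 1) * (num 64 + num (-29) * (var 1)) + ((num 1 - num 2 * (var 0 * var 1) - var 0) * var 1) * (num 27 + num 14 * (var 1)) * var 3) * var 0))
    (num 100000 * (num 100 - (((num 1 - num 2 * (var 0 * var 1) - var 0) * var 1) * (num 64 + num (-29) * (var 1)) + ((num 1 - num 2 * (var 0 * var 1) - var 0) * var 1) * (num 27 + num 14 * (var 1)) * var 3)) + num (-33540) * ((((num 1 - num 2 * (var 0 * var 1) - var 0) * var 1) * (num 64 + num (-29) * (var 1)) + ((num 1 - num 2 * (var 0 * var 1) - var 0) * var 1) * (num 27 + num 14 * (var 1)) * var 3) * var 0))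
  pd := num 100000
  en := fun b => cond b
    (num 1059 * (num 1174000 * (var 0) * (var 1) + num (-20000) * (var 0) * (var 0) * (var 1) + num 69720 + num 1805001 * (var 0) + num (-293000) * (var 0) * (var 1) * (var 1)))
    (num 3620 * (num 293500 * (var 0) * (var 1) + num (-5000) * (var 0) * (var 0) * (var 1) + num 12040 + num 311707 * (var 0) + num (-73250) * (var 0) * (var 1) * (var 1)))
  kk := fun b => cond b
    (num 1015 * (num 70965 * (var 0) + num 1596588 * (var 0) * (var 0) + num (-1743) * (var 0) * (var 1) + num 1494 * (var 0) * (var 3)))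
    (num 3884 * (num 12255 * (var 0) + num 275716 * (var 0) * (var 0) + num (-301) * (var 0) * (var 1) + num 258 * (var 0) * (var 3)))
  f0 := num 100000000
  wn := fun b => cond b
    (num 1000 * (num (-200000) * (var 0 * var 1) + (num 2000 * (var 0 * var 1) + num 172 * var 0) * (((num 1 - num 2 * (var 0 * var 1) - var 0) * var 1) * (num 64 + num (-29) * (var 1)) + ((num 1 - num 2 * (var 0 * var 1) - var 0) * var 1) * (num 27 + num 14 * (var 1)) * var 3) + var 0 * var 1 * var 0 * (num (-200000) + (num (-102000) * (var 1) + num 59082 + num (-1418250) * (var 1) * (var 0) + num 131666 * (var 0) + num 320750 * (var 1) * (var 3) + num (-3784) * (var 3)))) + num (-254) * (num 100 * (var 0 * var 1 * var 0) * (num 250 * (var 1) + num 43)))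
    (num 1000 * (num (-200000) * (var 0 * var 1) + (num 2000 * (var 0 * var 1) + num 172 * var 0) * (((num 1 - num 2 * (var 0 * var 1) - var 0) * var 1) * (num 64 + num (-29) * (var 1)) + ((num 1 - num 2 * (var 0 * var 1) - var 0) * var 1) * (num 27 + num 14 * (var 1)) * var 3) + var 0 * var 1 * var 0 * (num (-200000) + (num (-102000) * (var 1) + num 59082 + num (-1418250) * (var 1) * (var 0) + num 131666 * (var 0) + num 320750 * (var 1) * (var 3) + num (-3784) * (var 3)))) + num (-1129) * (num 100 * (var 0 * var 1 * var 0) * (num 250 * (var 1) + num 43)))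
  wd := num 25000000
  tn := fun b => cond b
    (num 1144 * (num 13695 + num (-13446) * (var 0) + num 1992 * (var 1) + num (-7719) * (var 3) + num 21912 * (var 1) * (var 3)))
    (num 3772 * (num 2365 + num (-2322) * (var 0) + num 344 * (var 1) + num (-1333) * (var 3) + num 3784 * (var 1) * (var 3)))
  td := num 100000000
  cn := num 1 - var 0 * var 1 - var 1 * (num 1 - num 2 * (var 0 * var 1))
  cd := (num 1 - num 2 * (var 0 * var 1)) * (num 1 - num 2 * (var 0 * var 1))
  kn := var 0 * var 1 * (num 538 + num 9500 * (var 1) + num (-60000) * (var 0))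
  kd := num 100
  k2n := var 0 * (num 638 + num (-550) * (var 3) + num 200 * (var 1))
  k2d := num 100

/-- Its ranges. -/
def bxD49 : StripEnd.EBox :=
  ⟨(0, 1, 20), (1, 2, 2), (172, 249, 1000), (0, 1, 1)⟩

/-- The chart `D50`. -/
def chD50 : EndChart where
  I := var 0 * var 1
  d := var 0
  w := var 0 * var 2
  den := num 100
  n₀ := ((num 1 - num 2 * (var 0 * var 1) - var 0) * var 1) * (num 50 + num (-19) * (var 1))
  n₁ := ((num 1 - num 2 * (var 0 * var 1) - var 0) * var 1) * (num 35 + num 3 * (var 1))
  q₀ := (0, 1, 20)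
  q₁ := (1, 2, 2)
  q₂ := (249, 448, 1000)
  q₃ := (0, 1, 1)
  t₀ := (0, 1)
  t₁ := (1, 1)
  mu₀ := (190, 100)
  mu₁ := (225, 100)

/-- The piece `D50`. -/
def pcD50 : Piece where
  I := var 0 * var 1
  d := var 0
  w := var 0 * var 2
  o := (((num 1 - num 2 * (var 0 * var 1) - var 0) * var 1) * (num 50 + num (-19) * (var 1)) + ((num 1 - num 2 * (var 0 * var 1) - var 0) * var 1) * (num 35 + num 3 * (var 1)) * var 3)
  den := num 100
  vn := num 2 * var 1 * ((num 50 + num (-19) * (var 1)) + (num 35 + num 3 * (var 1)) * var 3)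
  vs := num 1
  mu := ⟨(190, 100), (225, 100)⟩
  pn := fun b => cond b
    (num 100000 * (num 100 - (((num 1 - num 2 * (var 0 * var 1) - var 0) * var 1) * (num 50 + num (-19) * (var 1)) + ((num 1 - num 2 * (var 0 * var 1) - var 0) * var 1) * (num 35 + num 3 * (var 1)) * var 3)) + num (-100800) * ((((num 1 - num 2 * (var 0 * var 1) - var 0) * var 1) * (num 50 + num (-19) * (var 1)) + ((num 1 - num 2 * (var 0 * var 1) - var 0) * var 1) * (num 35 + num 3 * (var 1)) * var 3) * var 0))
    (num 100000 * (num 100 - (((num 1 - num 2 * (var 0 * var 1) - var 0) * var 1) * (num 50 + num (-19) * (var 1)) + ((num 1 - num 2 * (var 0 * var 1) - var 0) * var 1) * (num 35 + num 3 * (var 1)) * var 3)) + num (-47310) * ((((num 1 - num 2 * (var 0 * var 1) - var 0) * var 1) * (num 50 + num (-19) * (var 1)) + ((num 1 - num 2 * (var 0 * var 1) - var 0) * var 1) * (num 35 + num 3 * (var 1)) * var 3) * var 0))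
  pd := num 100000
  en := fun b => cond b
    (num 8216 * (num 152625 * (var 0) * (var 1) + num (-151000) * (var 0) * (var 0) * (var 1) + num 15680 + num 398048 * (var 0) + num (-25000) * (var 0) * (var 1) * (var 1)))
    (num 936 * (num 1221000 * (var 0) * (var 1) + num (-1208000) * (var 0) * (var 0) * (var 1) + num 69720 + num 1769892 * (var 0) + num (-200000) * (var 0) * (var 1) * (var 1)))
  kk := fun b => cond b
    (num 8120 * (num 15960 * (var 0) + num 356104 * (var 0) * (var 0) + num (-448) * (var 0) * (var 1) + num 336 * (var 0) * (var 3)))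
    (num 973 * (num 70965 * (var 0) + num 1583391 * (var 0) * (var 0) + num (-1992) * (var 0) * (var 1) + num 1494 * (var 0) * (var 3)))
  f0 := num 100000000
  wn := fun b => cond b
    (num 1000 * (num (-800000) * (var 0 * var 1) + (num 8000 * (var 0 * var 1) + num 996 * var 0) * (((num 1 - num 2 * (var 0 * var 1) - var 0) * var 1) * (num 50 + num (-19) * (var 1)) + ((num 1 - num 2 * (var 0 * var 1) - var 0) * var 1) * (num 35 + num 3 * (var 1)) * var 3) + var 0 * var 1 * var 0 * (num (-800000) + (num (-426000) * (var 1) + num 168075 + num (-5451000) * (var 1) * (var 0) + num 234807 * (var 0) + num 1119000 * (var 1) * (var 3) + num 218373 * (var 3)))) + num (-327) * (num 100 * (var 0 * var 1 * var 0) * (num 1000 * (var 1) + num 249)))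
    (num 1000 * (num (-800000) * (var 0 * var 1) + (num 8000 * (var 0 * var 1) + num 996 * var 0) * (((num 1 - num 2 * (var 0 * var 1) - var 0) * var 1) * (num 50 + num (-19) * (var 1)) + ((num 1 - num 2 * (var 0 * var 1) - var 0) * var 1) * (num 35 + num 3 * (var 1)) * var 3) + var 0 * var 1 * var 0 * (num (-800000) + (num (-426000) * (var 1) + num 168075 + num (-5451000) * (var 1) * (var 0) + num 234807 * (var 0) + num 1119000 * (var 1) * (var 3) + num 218373 * (var 3)))) + num (-1329) * (num 100 * (var 0 * var 1 * var 0) * (num 1000 * (var 1) + num 249)))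
  wd := num 100000000
  tn := fun b => cond b
    (num 8192 * (num 2632 + num (-1960) * (var 0) + num 504 * (var 1) + num (-672) * (var 3) + num 3080 * (var 1) * (var 3)))
    (num 978 * (num 11703 + num (-8715) * (var 0) + num 2241 * (var 1) + num (-2988) * (var 3) + num 13695 * (var 1) * (var 3)))
  td := num 100000000
  cn := num 1 - var 0 * var 1 - var 1 * (num 1 - num 2 * (var 0 * var 1))
  cd := (num 1 - num 2 * (var 0 * var 1)) * (num 1 - num 2 * (var 0 * var 1))
  kn := var 0 * var 1 * (num 1815 + num 7000 * (var 1) + num (-56000) * (var 0))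
  kd := num 100
  k2n := var 0 * (num 469 + num (-350) * (var 3) + num 200 * (var 1))
  k2d := num 100

/-- Its ranges. -/
def bxD50 : StripEnd.EBox :=
  ⟨(0, 1, 20), (1, 2, 2), (249, 448, 1000), (0, 1, 1)⟩

/-- The chart `D51`. -/
def chD51 : EndChart where
  I := var 0 * var 1
  d := var 0
  w := var 0 * var 2
  den := num 100
  n₀ := ((num 1 - num 2 * (var 0 * var 1) - var 0) * var 1) * (num 32 + num (-10) * (var 1))
  n₁ := ((num 1 - num 2 * (var 0 * var 1) - var 0) * var 1) * (num 42 + num (-5) * (var 1))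
  q₀ := (0, 1, 20)
  q₁ := (1, 2, 2)
  q₂ := (56, 125, 125)
  q₃ := (0, 1, 1)
  t₀ := (0, 1)
  t₁ := (1, 1)
  mu₀ := (176, 100)
  mu₁ := (225, 100)

/-- The piece `D51`. -/
def pcD51 : Piece where
  I := var 0 * var 1
  d := var 0
  w := var 0 * var 2
  o := (((num 1 - num 2 * (var 0 * var 1) - var 0) * var 1) * (num 32 + num (-10) * (var 1)) + ((num 1 - num 2 * (var 0 * var 1) - var 0) * var 1) * (num 42 + num (-5) * (var 1)) * var 3)
  den := num 100
  vn := num 2 * var 1 * ((num 32 + num (-10) * (var 1)) + (num 42 + num (-5) * (var 1)) * var 3)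
  vs := num 1
  mu := ⟨(176, 100), (225, 100)⟩
  pn := fun b => cond b
    (num 12500 * (num 100 - (((num 1 - num 2 * (var 0 * var 1) - var 0) * var 1) * (num 32 + num (-10) * (var 1)) + ((num 1 - num 2 * (var 0 * var 1) - var 0) * var 1) * (num 42 + num (-5) * (var 1)) * var 3)) + num (-28125) * ((((num 1 - num 2 * (var 0 * var 1) - var 0) * var 1) * (num 32 + num (-10) * (var 1)) + ((num 1 - num 2 * (var 0 * var 1) - var 0) * var 1) * (num 42 + num (-5) * (var 1)) * var 3) * var 0))
    (num 12500 * (num 100 - (((num 1 - num 2 * (var 0 * var 1) - var 0) * var 1) * (num 32 + num (-10) * (var 1)) + ((num 1 - num 2 * (var 0 * var 1) - var 0) * var 1) * (num 42 + num (-5) * (var 1)) * var 3)) + num (-9856) * ((((num 1 - num 2 * (var 0 * var 1) - var 0) * var 1) * (num 32 + num (-10) * (var 1)) + ((num 1 - num 2 * (var 0 * var 1) - var 0) * var 1) * (num 42 + num (-5) * (var 1)) * var 3) * var 0))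
  pd := num 12500
  en := fun b => cond b
    (num 126625 * (num 1453 * (var 0) * (var 1) + num (-4498) * (var 0) * (var 0) * (var 1) + num 280 + num 6884 * (var 0) + num (-103) * (var 0) * (var 1) * (var 1)))
    (num 962 * (num 181625 * (var 0) * (var 1) + num (-562250) * (var 0) * (var 0) * (var 1) + num 15680 + num 385504 * (var 0) + num (-12875) * (var 0) * (var 1) * (var 1)))
  kk := fun b => cond b
    (num 126750 * (num 287 * (var 0) + num 6270 * (var 0) * (var 0) + num (-10) * (var 0) * (var 1) + num 6 * (var 0) * (var 3)))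
    (num 972 * (num 16072 * (var 0) + num 351120 * (var 0) * (var 0) + num (-560) * (var 0) * (var 1) + num 336 * (var 0) * (var 3)))
  f0 := num 12500000
  wn := fun b => cond b
    (num 1000 * (num (-100000) * (var 0 * var 1) + (num 1000 * (var 0 * var 1) + num 224 * var 0) * (((num 1 - num 2 * (var 0 * var 1) - var 0) * var 1) * (num 32 + num (-10) * (var 1)) + ((num 1 - num 2 * (var 0 * var 1) - var 0) * var 1) * (num 42 + num (-5) * (var 1)) * var 3) + var 0 * var 1 * var 0 * (num (-100000) + (num (-84375) * (var 1) + num 16128 + num (-698875) * (var 1) * (var 0) + num (-7952) * (var 0) + num 143125 * (var 1) * (var 3) + num 67648 * (var 3)))) + num (-198) * (num 100 * (var 0 * var 1 * var 0) * (num 125 * (var 1) + num 56)))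
    (num 1000 * (num (-100000) * (var 0 * var 1) + (num 1000 * (var 0 * var 1) + num 224 * var 0) * (((num 1 - num 2 * (var 0 * var 1) - var 0) * var 1) * (num 32 + num (-10) * (var 1)) + ((num 1 - num 2 * (var 0 * var 1) - var 0) * var 1) * (num 42 + num (-5) * (var 1)) * var 3) + var 0 * var 1 * var 0 * (num (-100000) + (num (-84375) * (var 1) + num 16128 + num (-698875) * (var 1) * (var 0) + num (-7952) * (var 0) + num 143125 * (var 1) * (var 3) + num 67648 * (var 3)))) + num (-1798) * (num 100 * (var 0 * var 1 * var 0) * (num 125 * (var 1) + num 56)))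
  wd := num 12500000
  tn := fun b => cond b
    (num 131125 * (num 35 + num (-19) * (var 0) + num 5 * (var 1) + num 5 * (var 3) + num 30 * (var 1) * (var 3)))
    (num 975 * (num 1960 + num (-1064) * (var 0) + num 280 * (var 1) + num 280 * (var 3) + num 1680 * (var 1) * (var 3)))
  td := num 12500000
  cn := num 1 - var 0 * var 1 - var 1 * (num 1 - num 2 * (var 0 * var 1))
  cd := (num 1 - num 2 * (var 0 * var 1)) * (num 1 - num 2 * (var 0 * var 1))
  kn := var 0 * var 1 * (num 426 + num 6000 * (var 1) + num (-22000) * (var 0))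
  kd := num 100
  k2n := var 0 * (num 1167 + num (-300) * (var 3) + num (-500) * (var 1))
  k2d := num 100

/-- Its ranges. -/
def bxD51 : StripEnd.EBox :=
  ⟨(0, 1, 20), (1, 2, 2), (56, 125, 125), (0, 1, 1)⟩

/-- The chart `D52`. -/
def chD52 : EndChart where
  I := var 0 * var 1
  d := var 0
  w := var 0 * var 2
  den := num 100
  n₀ := ((num 1 - num 2 * (var 0 * var 1) - var 0) * var 1) * (num 77 + num (-34) * (var 1))
  n₁ := ((num 1 - num 2 * (var 0 * var 1) - var 0) * var 1) * (num 21 + num 24 * (var 1))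
  q₀ := (5, 7, 100)
  q₁ := (1, 2, 2)
  q₂ := (10, 13, 100)
  q₃ := (0, 1, 1)
  t₀ := (0, 1)
  t₁ := (1, 1)
  mu₀ := (200, 100)
  mu₁ := (241, 100)

/-- The piece `D52`. -/
def pcD52 : Piece where
  I := var 0 * var 1
  d := var 0
  w := var 0 * var 2
  o := (((num 1 - num 2 * (var 0 * var 1) - var 0) * var 1) * (num 77 + num (-34) * (var 1)) + ((num 1 - num 2 * (var 0 * var 1) - var 0) * var 1) * (num 21 + num 24 * (var 1)) * var 3)
  den := num 100
  vn := num 2 * var 1 * ((num 77 + num (-34) * (var 1)) + (num 21 + num 24 * (var 1)) * var 3)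
  vs := num 1
  mu := ⟨(200, 100), (241, 100)⟩
  pn := fun b => cond b
    (num 10000 * (num 100 - (((num 1 - num 2 * (var 0 * var 1) - var 0) * var 1) * (num 77 + num (-34) * (var 1)) + ((num 1 - num 2 * (var 0 * var 1) - var 0) * var 1) * (num 21 + num 24 * (var 1)) * var 3)) + num (-3133) * ((((num 1 - num 2 * (var 0 * var 1) - var 0) * var 1) * (num 77 + num (-34) * (var 1)) + ((num 1 - num 2 * (var 0 * var 1) - var 0) * var 1) * (num 21 + num 24 * (var 1)) * var 3) * var 0))
    (num 10000 * (num 100 - (((num 1 - num 2 * (var 0 * var 1) - var 0) * var 1) * (num 77 + num (-34) * (var 1)) + ((num 1 - num 2 * (var 0 * var 1) - var 0) * var 1) * (num 21 + num 24 * (var 1)) * var 3)) + num (-2000) * ((((num 1 - num 2 * (var 0 * var 1) - var 0) * var 1) * (num 77 + num (-34) * (var 1)) + ((num 1 - num 2 * (var 0 * var 1) - var 0) * var 1) * (num 21 + num 24 * (var 1)) * var 3) * var 0))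
  pd := num 10000
  en := fun b => cond b
    (num 1105 * (num 91700 * (var 0) * (var 1) + num 500400 * (var 0) * (var 0) * (var 1) + num 4810 + num 74152 * (var 0) + num (-36800) * (var 0) * (var 1) * (var 1)))
    (num 8210 * (num 9170 * (var 0) * (var 1) + num 50040 * (var 0) * (var 0) * (var 1) + num 370 + num 5704 * (var 0) + num (-3680) * (var 0) * (var 1) * (var 1)))
  kk := fun b => cond b
    (num 1020 * (num 3874 * (var 0) + num 77987 * (var 0) * (var 0) + num 208 * (var 0) * (var 3)))
    (num 9710 * (num 298 * (var 0) + num 5999 * (var 0) * (var 0) + num 16 * (var 0) * (var 3)))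
  f0 := num 10000000
  wn := fun b => cond b
    (num 1000 * (num (-8000) * (var 0 * var 1) + (num 80 * (var 0 * var 1) + num 4 * var 0) * (((num 1 - num 2 * (var 0 * var 1) - var 0) * var 1) * (num 77 + num (-34) * (var 1)) + ((num 1 - num 2 * (var 0 * var 1) - var 0) * var 1) * (num 21 + num 24 * (var 1)) * var 3) + var 0 * var 1 * var 0 * (num (-8000) + (num (-4110) * (var 1) + num 3311 + num (-15650) * (var 1) * (var 0) + num (-14316) * (var 0) + num 12140 * (var 1) * (var 3) + num (-1161) * (var 3)))) + num (-40) * (num 100 * (var 0 * var 1 * var 0) * (num 10 * (var 1) + num 1)))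
    (num 1000 * (num (-8000) * (var 0 * var 1) + (num 80 * (var 0 * var 1) + num 4 * var 0) * (((num 1 - num 2 * (var 0 * var 1) - var 0) * var 1) * (num 77 + num (-34) * (var 1)) + ((num 1 - num 2 * (var 0 * var 1) - var 0) * var 1) * (num 21 + num 24 * (var 1)) * var 3) + var 0 * var 1 * var 0 * (num (-8000) + (num (-4110) * (var 1) + num 3311 + num (-15650) * (var 1) * (var 0) + num (-14316) * (var 0) + num 12140 * (var 1) * (var 3) + num (-1161) * (var 3)))) + num (-1842) * (num 100 * (var 0 * var 1 * var 0) * (num 10 * (var 1) + num 1)))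
  wd := num 1000000
  tn := fun b => cond b
    (num 1181 * (num 806 + num (-767) * (var 0) + num 182 * (var 1) + num (-611) * (var 3) + num 1586 * (var 1) * (var 3)))
    (num 8980 * (num 62 + num (-59) * (var 0) + num 14 * (var 1) + num (-47) * (var 3) + num 122 * (var 1) * (var 3)))
  td := num 10000000
  cn := num 1 - var 0 * var 1 - var 1 * (num 1 - num 2 * (var 0 * var 1))
  cd := (num 1 - num 2 * (var 0 * var 1)) * (num 1 - num 2 * (var 0 * var 1))
  kn := var 0 * var 1 * (num (-1057) + num 12000 * (var 1) + num (-38000) * (var 0))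
  kd := num 100
  k2n := var 0 * (num 568 + num (-550) * (var 3) + num 200 * (var 1))
  k2d := num 100

/-- Its ranges. -/
def bxD52 : StripEnd.EBox :=
  ⟨(5, 7, 100), (1, 2, 2), (10, 13, 100), (0, 1, 1)⟩

/-- The chart `D53`. -/
def chD53 : EndChart where
  I := var 0 * var 1
  d := var 0
  w := var 0 * var 2
  den := num 100
  n₀ := ((num 1 - num 2 * (var 0 * var 1) - var 0) * var 1) * (num 70 + num (-29) * (var 1))
  n₁ := ((num 1 - num 2 * (var 0 * var 1) - var 0) * var 1) * (num 25 + num 18 * (var 1))
  q₀ := (5, 7, 100)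
  q₁ := (1, 2, 2)
  q₂ := (130, 189, 1000)
  q₃ := (0, 1, 1)
  t₀ := (0, 1)
  t₁ := (1, 1)
  mu₀ := (195, 100)
  mu₁ := (241, 100)

/-- The piece `D53`. -/
def pcD53 : Piece where
  I := var 0 * var 1
  d := var 0
  w := var 0 * var 2
  o := (((num 1 - num 2 * (var 0 * var 1) - var 0) * var 1) * (num 70 + num (-29) * (var 1)) + ((num 1 - num 2 * (var 0 * var 1) - var 0) * var 1) * (num 25 + num 18 * (var 1)) * var 3)
  den := num 100
  vn := num 2 * var 1 * ((num 70 + num (-29) * (var 1)) + (num 25 + num 18 * (var 1)) * var 3)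
  vs := num 1
  mu := ⟨(195, 100), (241, 100)⟩
  pn := fun b => cond b
    (num 100000 * (num 100 - (((num 1 - num 2 * (var 0 * var 1) - var 0) * var 1) * (num 70 + num (-29) * (var 1)) + ((num 1 - num 2 * (var 0 * var 1) - var 0) * var 1) * (num 25 + num 18 * (var 1)) * var 3)) + num (-45549) * ((((num 1 - num 2 * (var 0 * var 1) - var 0) * var 1) * (num 70 + num (-29) * (var 1)) + ((num 1 - num 2 * (var 0 * var 1) - var 0) * var 1) * (num 25 + num 18 * (var 1)) * var 3) * var 0))
    (num 100000 * (num 100 - (((num 1 - num 2 * (var 0 * var 1) - var 0) * var 1) * (num 70 + num (-29) * (var 1)) + ((num 1 - num 2 * (var 0 * var 1) - var 0) * var 1) * (num 25 + num 18 * (var 1)) * var 3)) + num (-25350) * ((((num 1 - num 2 * (var 0 * var 1) - var 0) * var 1) * (num 70 + num (-29) * (var 1)) + ((num 1 - num 2 * (var 0 * var 1) - var 0) * var 1) * (num 25 + num 18 * (var 1)) * var 3) * var 0))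
  pd := num 100000
  en := fun b => cond b
    (num 1069 * (num 819000 * (var 0) * (var 1) + num 6171000 * (var 0) * (var 0) * (var 1) + num 69741 + num 1062936 * (var 0) + num (-286000) * (var 0) * (var 1) * (var 1)))
    (num 8570 * (num 81900 * (var 0) * (var 1) + num 617100 * (var 0) * (var 0) * (var 1) + num 4797 + num 73112 * (var 0) + num (-28600) * (var 0) * (var 1) * (var 1)))
  kk := fun b => cond b
    (num 1018 * (num 56700 * (var 0) + num 1126062 * (var 0) * (var 0) + num (-189) * (var 0) * (var 1) + num 3024 * (var 0) * (var 3)))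
    (num 9700 * (num 3900 * (var 0) + num 77454 * (var 0) * (var 0) + num (-13) * (var 0) * (var 1) + num 208 * (var 0) * (var 3)))
  f0 := num 100000000
  wn := fun b => cond b
    (num 1000 * (num (-80000) * (var 0 * var 1) + (num 800 * (var 0 * var 1) + num 52 * var 0) * (((num 1 - num 2 * (var 0 * var 1) - var 0) * var 1) * (num 70 + num (-29) * (var 1)) + ((num 1 - num 2 * (var 0 * var 1) - var 0) * var 1) * (num 25 + num 18 * (var 1)) * var 3) + var 0 * var 1 * var 0 * (num (-80000) + (num (-27000) * (var 1) + num 23309 + num (-397700) * (var 1) * (var 0) + num (-37102) * (var 0) + num 114300 * (var 1) * (var 3) + num (-923) * (var 3)))) + num (-128) * (num 100 * (var 0 * var 1 * var 0) * (num 100 * (var 1) + num 13)))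
    (num 1000 * (num (-80000) * (var 0 * var 1) + (num 800 * (var 0 * var 1) + num 52 * var 0) * (((num 1 - num 2 * (var 0 * var 1) - var 0) * var 1) * (num 70 + num (-29) * (var 1)) + ((num 1 - num 2 * (var 0 * var 1) - var 0) * var 1) * (num 25 + num 18 * (var 1)) * var 3) + var 0 * var 1 * var 0 * (num (-80000) + (num (-27000) * (var 1) + num 23309 + num (-397700) * (var 1) * (var 0) + num (-37102) * (var 0) + num 114300 * (var 1) * (var 3) + num (-923) * (var 3)))) + num (-1677) * (num 100 * (var 0 * var 1 * var 0) * (num 100 * (var 1) + num 13)))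
  wd := num 10000000
  tn := fun b => cond b
    (num 1107 * (num 10962 + num (-9072) * (var 0) + num 2646 * (var 1) + num (-6426) * (var 3) + num 18144 * (var 1) * (var 3)))
    (num 9230 * (num 754 + num (-624) * (var 0) + num 182 * (var 1) + num (-442) * (var 3) + num 1248 * (var 1) * (var 3)))
  td := num 100000000
  cn := num 1 - var 0 * var 1 - var 1 * (num 1 - num 2 * (var 0 * var 1))
  cd := (num 1 - num 2 * (var 0 * var 1)) * (num 1 - num 2 * (var 0 * var 1))
  kn := var 0 * var 1 * (num 534 + num 10500 * (var 1) + num (-48000) * (var 0))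
  kd := num 100
  k2n := var 0 * (num 464 + num (-450) * (var 3) + num 200 * (var 1))
  k2d := num 100

/-- Its ranges. -/
def bxD53 : StripEnd.EBox :=
  ⟨(5, 7, 100), (1, 2, 2), (130, 189, 1000), (0, 1, 1)⟩

/-- The chart `D54`. -/
def chD54 : EndChart where
  I := var 0 * var 1
  d := var 0
  w := var 0 * var 2
  den := num 100
  n₀ := ((num 1 - num 2 * (var 0 * var 1) - var 0) * var 1) * (num 62 + num (-25) * (var 1))
  n₁ := ((num 1 - num 2 * (var 0 * var 1) - var 0) * var 1) * (num 27 + num 14 * (var 1))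
  q₀ := (5, 7, 100)
  q₁ := (1, 2, 2)
  q₂ := (189, 302, 1000)
  q₃ := (0, 1, 1)
  t₀ := (0, 1)
  t₁ := (1, 1)
  mu₀ := (195, 100)
  mu₁ := (239, 100)

/-- The piece `D54`. -/
def pcD54 : Piece where
  I := var 0 * var 1
  d := var 0
  w := var 0 * var 2
  o := (((num 1 - num 2 * (var 0 * var 1) - var 0) * var 1) * (num 62 + num (-25) * (var 1)) + ((num 1 - num 2 * (var 0 * var 1) - var 0) * var 1) * (num 27 + num 14 * (var 1)) * var 3)
  den := num 100
  vn := num 2 * var 1 * ((num 62 + num (-25) * (var 1)) + (num 27 + num 14 * (var 1)) * var 3)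
  vs := num 1
  mu := ⟨(195, 100), (239, 100)⟩
  pn := fun b => cond b
    (num 100000 * (num 100 - (((num 1 - num 2 * (var 0 * var 1) - var 0) * var 1) * (num 62 + num (-25) * (var 1)) + ((num 1 - num 2 * (var 0 * var 1) - var 0) * var 1) * (num 27 + num 14 * (var 1)) * var 3)) + num (-72178) * ((((num 1 - num 2 * (var 0 * var 1) - var 0) * var 1) * (num 62 + num (-25) * (var 1)) + ((num 1 - num 2 * (var 0 * var 1) - var 0) * var 1) * (num 27 + num 14 * (var 1)) * var 3) * var 0))
    (num 100000 * (num 100 - (((num 1 - num 2 * (var 0 * var 1) - var 0) * var 1) * (num 62 + num (-25) * (var 1)) + ((num 1 - num 2 * (var 0 * var 1) - var 0) * var 1) * (num 27 + num 14 * (var 1)) * var 3)) + num (-36855) * ((((num 1 - num 2 * (var 0 * var 1) - var 0) * var 1) * (num 62 + num (-25) * (var 1)) + ((num 1 - num 2 * (var 0 * var 1) - var 0) * var 1) * (num 27 + num 14 * (var 1)) * var 3) * var 0))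
  pd := num 100000
  en := fun b => cond b
    (num 2076 * (num 350000 * (var 0) * (var 1) + num 3906000 * (var 0) * (var 0) * (var 1) + num 54964 + num 841976 * (var 0) + num (-85000) * (var 0) * (var 1) * (var 1)))
    (num 891 * (num 700000 * (var 0) * (var 1) + num 7812000 * (var 0) * (var 0) * (var 1) + num 68796 + num 1053864 * (var 0) + num (-170000) * (var 0) * (var 1) * (var 1)))
  kk := fun b => cond b
    (num 2034 * (num 45753 * (var 0) + num 890145 * (var 0) * (var 0) + num (-453) * (var 0) * (var 1) + num 2265 * (var 0) * (var 3)))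
    (num 970 * (num 57267 * (var 0) + num 1114155 * (var 0) * (var 0) + num (-567) * (var 0) * (var 1) + num 2835 * (var 0) * (var 3)))
  f0 := num 100000000
  wn := fun b => cond b
    (num 1000 * (num (-800000) * (var 0 * var 1) + (num 8000 * (var 0 * var 1) + num 756 * var 0) * (((num 1 - num 2 * (var 0 * var 1) - var 0) * var 1) * (num 62 + num (-25) * (var 1)) + ((num 1 - num 2 * (var 0 * var 1) - var 0) * var 1) * (num 27 + num 14 * (var 1)) * var 3) + var 0 * var 1 * var 0 * (num (-800000) + (num (-157000) * (var 1) + num 162540 + num (-7416000) * (var 1) * (var 0) + num 870723 * (var 0) + num 1133000 * (var 1) * (var 3) + num 91854 * (var 3)))) + num (-201) * (num 100 * (var 0 * var 1 * var 0) * (num 1000 * (var 1) + num 189)))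
    (num 1000 * (num (-800000) * (var 0 * var 1) + (num 8000 * (var 0 * var 1) + num 756 * var 0) * (((num 1 - num 2 * (var 0 * var 1) - var 0) * var 1) * (num 62 + num (-25) * (var 1)) + ((num 1 - num 2 * (var 0 * var 1) - var 0) * var 1) * (num 27 + num 14 * (var 1)) * var 3) + var 0 * var 1 * var 0 * (num (-800000) + (num (-157000) * (var 1) + num 162540 + num (-7416000) * (var 1) * (var 0) + num 870723 * (var 0) + num 1133000 * (var 1) * (var 3) + num 91854 * (var 3)))) + num (-1442) * (num 100 * (var 0 * var 1 * var 0) * (num 1000 * (var 1) + num 189)))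
  wd := num 100000000
  tn := fun b => cond b
    (num 2042 * (num 8003 + num (-5285) * (var 0) + num 1812 * (var 1) + num (-3171) * (var 3) + num 10419 * (var 1) * (var 3)))
    (num 955 * (num 10017 + num (-6615) * (var 0) + num 2268 * (var 1) + num (-3969) * (var 3) + num 13041 * (var 1) * (var 3)))
  td := num 100000000
  cn := num 1 - var 0 * var 1 - var 1 * (num 1 - num 2 * (var 0 * var 1))
  cd := (num 1 - num 2 * (var 0 * var 1)) * (num 1 - num 2 * (var 0 * var 1))
  kn := var 0 * var 1 * (num 64 + num 9000 * (var 1) + num (-30000) * (var 0))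
  kd := num 100
  k2n := var 0 * (num 332 + num (-300) * (var 3) + num 200 * (var 1))
  k2d := num 100

/-- Its ranges. -/
def bxD54 : StripEnd.EBox :=
  ⟨(5, 7, 100), (1, 2, 2), (189, 302, 1000), (0, 1, 1)⟩

/-- The chart `D55`. -/
def chD55 : EndChart where
  I := var 0 * var 1
  d := var 0
  w := var 0 * var 2
  den := num 100
  n₀ := ((num 1 - num 2 * (var 0 * var 1) - var 0) * var 1) * (num 47 + num (-15) * (var 1))
  n₁ := ((num 1 - num 2 * (var 0 * var 1) - var 0) * var 1) * (num 37)
  q₀ := (5, 7, 100)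
  q₁ := (1, 2, 2)
  q₂ := (151, 272, 500)
  q₃ := (0, 1, 1)
  t₀ := (0, 1)
  t₁ := (1, 1)
  mu₀ := (187, 100)
  mu₁ := (236, 100)

/-- The piece `D55`. -/
def pcD55 : Piece where
  I := var 0 * var 1
  d := var 0
  w := var 0 * var 2
  o := (((num 1 - num 2 * (var 0 * var 1) - var 0) * var 1) * (num 47 + num (-15) * (var 1)) + ((num 1 - num 2 * (var 0 * var 1) - var 0) * var 1) * (num 37) * var 3)
  den := num 100
  vn := num 2 * var 1 * ((num 47 + num (-15) * (var 1)) + (num 37) * var 3)
  vs := num 1
  mu := ⟨(187, 100), (236, 100)⟩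
  pn := fun b => cond b
    (num 50000 * (num 100 - (((num 1 - num 2 * (var 0 * var 1) - var 0) * var 1) * (num 47 + num (-15) * (var 1)) + ((num 1 - num 2 * (var 0 * var 1) - var 0) * var 1) * (num 37) * var 3)) + num (-64192) * ((((num 1 - num 2 * (var 0 * var 1) - var 0) * var 1) * (num 47 + num (-15) * (var 1)) + ((num 1 - num 2 * (var 0 * var 1) - var 0) * var 1) * (num 37) * var 3) * var 0))
    (num 50000 * (num 100 - (((num 1 - num 2 * (var 0 * var 1) - var 0) * var 1) * (num 47 + num (-15) * (var 1)) + ((num 1 - num 2 * (var 0 * var 1) - var 0) * var 1) * (num 37) * var 3)) + num (-28237) * ((((num 1 - num 2 * (var 0 * var 1) - var 0) * var 1) * (num 47 + num (-15) * (var 1)) + ((num 1 - num 2 * (var 0 * var 1) - var 0) * var 1) * (num 37) * var 3) * var 0))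
  pd := num 50000
  en := fun b => cond b
    (num 4072 * (num 74375 * (var 0) * (var 1) + num 1216000 * (var 0) * (var 0) * (var 1) + num 24072 + num 378624 * (var 0) + num (-3625) * (var 0) * (var 1) * (var 1)))
    (num 923 * (num 297500 * (var 0) * (var 1) + num 4864000 * (var 0) * (var 0) * (var 1) + num 53454 + num 840768 * (var 0) + num (-14500) * (var 0) * (var 1) * (var 1)))
  kk := fun b => cond b
    (num 4060 * (num 20876 * (var 0) + num 394332 * (var 0) * (var 0) + num (-476) * (var 0) * (var 1) + num 1020 * (var 0) * (var 3)))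
    (num 973 * (num 46357 * (var 0) + num 875649 * (var 0) * (var 0) + num (-1057) * (var 0) * (var 1) + num 2265 * (var 0) * (var 3)))
  f0 := num 50000000
  wn := fun b => cond b
    (num 1000 * (num (-400000) * (var 0 * var 1) + (num 4000 * (var 0 * var 1) + num 604 * var 0) * (((num 1 - num 2 * (var 0 * var 1) - var 0) * var 1) * (num 47 + num (-15) * (var 1)) + ((num 1 - num 2 * (var 0 * var 1) - var 0) * var 1) * (num 37) * var 3) + var 0 * var 1 * var 0 * (num (-400000) + (num 17000 * (var 1) + num 21442 + num (-6484000) * (var 1) * (var 0) + num 1227479 * (var 0) + num 525000 * (var 1) * (var 3) + num 170781 * (var 3)))) + num 318 * (num 100 * (var 0 * var 1 * var 0) * (num 500 * (var 1) + num 151)))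
    (num 1000 * (num (-400000) * (var 0 * var 1) + (num 4000 * (var 0 * var 1) + num 604 * var 0) * (((num 1 - num 2 * (var 0 * var 1) - var 0) * var 1) * (num 47 + num (-15) * (var 1)) + ((num 1 - num 2 * (var 0 * var 1) - var 0) * var 1) * (num 37) * var 3) + var 0 * var 1 * var 0 * (num (-400000) + (num 17000 * (var 1) + num 21442 + num (-6484000) * (var 1) * (var 0) + num 1227479 * (var 0) + num 525000 * (var 1) * (var 3) + num 170781 * (var 3)))) + num (-1506) * (num 100 * (var 0 * var 1 * var 0) * (num 500 * (var 1) + num 151)))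
  wd := num 50000000
  tn := fun b => cond b
    (num 3988 * (num 3060 + num (-1768) * (var 0) + num 748 * (var 1) + num (-340) * (var 3) + num 2652 * (var 1) * (var 3)))
    (num 996 * (num 6795 + num (-3926) * (var 0) + num 1661 * (var 1) + num (-755) * (var 3) + num 5889 * (var 1) * (var 3)))
  td := num 50000000
  cn := num 1 - var 0 * var 1 - var 1 * (num 1 - num 2 * (var 0 * var 1))
  cd := (num 1 - num 2 * (var 0 * var 1)) * (num 1 - num 2 * (var 0 * var 1))
  kn := var 0 * var 1 * (num 693 + num 6500 * (var 1) + num (-22000) * (var 0))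
  kd := num 100
  k2n := var 0 * (num 336 + num (-200) * (var 3) + num 100 * (var 1))
  k2d := num 100

/-- Its ranges. -/
def bxD55 : StripEnd.EBox :=
  ⟨(5, 7, 100), (1, 2, 2), (151, 272, 500), (0, 1, 1)⟩

/-- The chart `D56`. -/
def chD56 : EndChart where
  I := var 0 * var 1
  d := var 0
  w := var 0 * var 2
  den := num 100
  n₀ := ((num 1 - num 2 * (var 0 * var 1) - var 0) * var 1) * (num 34 + num (-9) * (var 1))
  n₁ := ((num 1 - num 2 * (var 0 * var 1) - var 0) * var 1) * (num 34 + num (-1) * (var 1))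
  q₀ := (5, 7, 100)
  q₁ := (1, 2, 2)
  q₂ := (68, 125, 125)
  q₃ := (0, 1, 1)
  t₀ := (0, 1)
  t₁ := (1, 1)
  mu₀ := (176, 100)
  mu₁ := (231, 100)

/-- The piece `D56`. -/
def pcD56 : Piece where
  I := var 0 * var 1
  d := var 0
  w := var 0 * var 2
  o := (((num 1 - num 2 * (var 0 * var 1) - var 0) * var 1) * (num 34 + num (-9) * (var 1)) + ((num 1 - num 2 * (var 0 * var 1) - var 0) * var 1) * (num 34 + num (-1) * (var 1)) * var 3)
  den := num 100
  vn := num 2 * var 1 * ((num 34 + num (-9) * (var 1)) + (num 34 + num (-1) * (var 1)) * var 3)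
  vs := num 1
  mu := ⟨(176, 100), (231, 100)⟩
  pn := fun b => cond b
    (num 12500 * (num 100 - (((num 1 - num 2 * (var 0 * var 1) - var 0) * var 1) * (num 34 + num (-9) * (var 1)) + ((num 1 - num 2 * (var 0 * var 1) - var 0) * var 1) * (num 34 + num (-1) * (var 1)) * var 3)) + num (-28875) * ((((num 1 - num 2 * (var 0 * var 1) - var 0) * var 1) * (num 34 + num (-9) * (var 1)) + ((num 1 - num 2 * (var 0 * var 1) - var 0) * var 1) * (num 34 + num (-1) * (var 1)) * var 3) * var 0))
    (num 12500 * (num 100 - (((num 1 - num 2 * (var 0 * var 1) - var 0) * var 1) * (num 34 + num (-9) * (var 1)) + ((num 1 - num 2 * (var 0 * var 1) - var 0) * var 1) * (num 34 + num (-1) * (var 1)) * var 3)) + num (-11968) * ((((num 1 - num 2 * (var 0 * var 1) - var 0) * var 1) * (num 34 + num (-9) * (var 1)) + ((num 1 - num 2 * (var 0 * var 1) - var 0) * var 1) * (num 34 + num (-1) * (var 1)) * var 3) * var 0))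
  pd := num 12500
  en := fun b => cond b
    (num 126875 * (num 482 * (var 0) * (var 1) + num 12937 * (var 0) * (var 0) * (var 1) + num 346 + num 5511 * (var 0) + num 132 * (var 0) * (var 1) * (var 1)))
    (num 948 * (num 60250 * (var 0) * (var 1) + num 1617125 * (var 0) * (var 0) * (var 1) + num 23528 + num 374748 * (var 0) + num 16500 * (var 0) * (var 1) * (var 1)))
  kk := fun b => cond b
    (num 126500 * (num 313 * (var 0) + num 5680 * (var 0) * (var 0) + num (-11) * (var 0) * (var 1) + num 13 * (var 0) * (var 3)))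
    (num 973 * (num 21284 * (var 0) + num 386240 * (var 0) * (var 0) + num (-748) * (var 0) * (var 1) + num 884 * (var 0) * (var 3)))
  f0 := num 12500000
  wn := fun b => cond b
    (num 1000 * (num (-100000) * (var 0 * var 1) + (num 1000 * (var 0 * var 1) + num 272 * var 0) * (((num 1 - num 2 * (var 0 * var 1) - var 0) * var 1) * (num 34 + num (-9) * (var 1)) + ((num 1 - num 2 * (var 0 * var 1) - var 0) * var 1) * (num 34 + num (-1) * (var 1)) * var 3) + var 0 * var 1 * var 0 * (num (-100000) + (num 47500 * (var 1) + num (-17680) + num (-2930125) * (var 1) * (var 0) + num 702576 * (var 0) + num 137750 * (var 1) * (var 3) + num 71944 * (var 3)))) + num 1215 * (num 100 * (var 0 * var 1 * var 0) * (num 125 * (var 1) + num 68)))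
    (num 1000 * (num (-100000) * (var 0 * var 1) + (num 1000 * (var 0 * var 1) + num 272 * var 0) * (((num 1 - num 2 * (var 0 * var 1) - var 0) * var 1) * (num 34 + num (-9) * (var 1)) + ((num 1 - num 2 * (var 0 * var 1) - var 0) * var 1) * (num 34 + num (-1) * (var 1)) * var 3) + var 0 * var 1 * var 0 * (num (-100000) + (num 47500 * (var 1) + num (-17680) + num (-2930125) * (var 1) * (var 0) + num 702576 * (var 0) + num 137750 * (var 1) * (var 3) + num 71944 * (var 3)))) + num (-2008) * (num 100 * (var 0 * var 1 * var 0) * (num 125 * (var 1) + num 68)))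
  wd := num 12500000
  tn := fun b => cond b
    (num 124000 * (num 37 + num (-15) * (var 0) + num 7 * (var 1) + num 2 * (var 3) + num 21 * (var 1) * (var 3)))
    (num 1008 * (num 2516 + num (-1020) * (var 0) + num 476 * (var 1) + num 136 * (var 3) + num 1428 * (var 1) * (var 3)))
  td := num 12500000
  cn := num 1 - var 0 * var 1 - var 1 * (num 1 - num 2 * (var 0 * var 1))
  cd := (num 1 - num 2 * (var 0 * var 1)) * (num 1 - num 2 * (var 0 * var 1))
  kn := var 0 * var 1 * (num (-294) + num 4500 * (var 1) + num (-2000) * (var 0))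
  kd := num 100
  k2n := var 0 * (num 618 + num (-150) * (var 3) + num (-200) * (var 1))
  k2d := num 100

/-- Its ranges. -/
def bxD56 : StripEnd.EBox :=
  ⟨(5, 7, 100), (1, 2, 2), (68, 125, 125), (0, 1, 1)⟩

/-- The chart `D57`. -/
def chD57 : EndChart where
  I := var 0 * var 1
  d := var 0
  w := var 0 * var 2
  den := num 100
  n₀ := ((num 1 - num 2 * (var 0 * var 1) - var 0) * var 1) * (num 86 + num (-40) * (var 1))
  n₁ := ((num 1 - num 2 * (var 0 * var 1) - var 0) * var 1) * (num 30 + num 29 * (var 1))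
  q₀ := (7, 10, 100)
  q₁ := (100, 143, 200)
  q₂ := (15, 39, 500)
  q₃ := (0, 1, 1)
  t₀ := (0, 1)
  t₁ := (1, 1)
  mu₀ := (204, 100)
  mu₁ := (253, 100)

/-- The piece `D57`. -/
def pcD57 : Piece where
  I := var 0 * var 1
  d := var 0
  w := var 0 * var 2
  o := (((num 1 - num 2 * (var 0 * var 1) - var 0) * var 1) * (num 86 + num (-40) * (var 1)) + ((num 1 - num 2 * (var 0 * var 1) - var 0) * var 1) * (num 30 + num 29 * (var 1)) * var 3)
  den := num 100
  vn := num 2 * var 1 * ((num 86 + num (-40) * (var 1)) + (num 30 + num 29 * (var 1)) * var 3)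
  vs := num 1
  mu := ⟨(204, 100), (253, 100)⟩
  pn := fun b => cond b
    (num 50000 * (num 100 - (((num 1 - num 2 * (var 0 * var 1) - var 0) * var 1) * (num 86 + num (-40) * (var 1)) + ((num 1 - num 2 * (var 0 * var 1) - var 0) * var 1) * (num 30 + num 29 * (var 1)) * var 3)) + num (-9867) * ((((num 1 - num 2 * (var 0 * var 1) - var 0) * var 1) * (num 86 + num (-40) * (var 1)) + ((num 1 - num 2 * (var 0 * var 1) - var 0) * var 1) * (num 30 + num 29 * (var 1)) * var 3) * var 0))
    (num 50000 * (num 100 - (((num 1 - num 2 * (var 0 * var 1) - var 0) * var 1) * (num 86 + num (-40) * (var 1)) + ((num 1 - num 2 * (var 0 * var 1) - var 0) * var 1) * (num 30 + num 29 * (var 1)) * var 3)) + num (-3060) * ((((num 1 - num 2 * (var 0 * var 1) - var 0) * var 1) * (num 86 + num (-40) * (var 1)) + ((num 1 - num 2 * (var 0 * var 1) - var 0) * var 1) * (num 30 + num 29 * (var 1)) * var 3) * var 0))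
  pd := num 50000
  en := fun b => cond b
    (num 1105 * (num 589000 * (var 0) * (var 1) + num 993500 * (var 0) * (var 0) * (var 1) + num 15444 + num 223899 * (var 0) + num (-289500) * (var 0) * (var 1) * (var 1)))
    (num 3935 * (num 117800 * (var 0) * (var 1) + num 198700 * (var 0) * (var 0) * (var 1) + num 1188 + num 17223 * (var 0) + num (-57900) * (var 0) * (var 1) * (var 1)))
  kk := fun b => cond b
    (num 1027 * (num 11661 * (var 0) + num 220194 * (var 0) * (var 0) + num 1716 * (var 0) * (var 1) + num 1092 * (var 0) * (var 3)))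
    (num 4920 * (num 897 * (var 0) + num 16938 * (var 0) * (var 0) + num 132 * (var 0) * (var 1) + num 84 * (var 0) * (var 3)))
  f0 := num 50000000
  wn := fun b => cond b
    (num 1000 * (num (-80000) * (var 0 * var 1) + (num 800 * (var 0 * var 1) + num 12 * var 0) * (((num 1 - num 2 * (var 0 * var 1) - var 0) * var 1) * (num 86 + num (-40) * (var 1)) + ((num 1 - num 2 * (var 0 * var 1) - var 0) * var 1) * (num 30 + num 29 * (var 1)) * var 3) + var 0 * var 1 * var 0 * (num (-80000) + (num (-1100) * (var 1) + num 7257 + num (-224500) * (var 1) * (var 0) + num (-38391) * (var 0) + num 87400 * (var 1) * (var 3) + num 5703 * (var 3)))) + num 388 * (num 100 * (var 0 * var 1 * var 0) * (num 100 * (var 1) + num 3)))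
    (num 1000 * (num (-80000) * (var 0 * var 1) + (num 800 * (var 0 * var 1) + num 12 * var 0) * (((num 1 - num 2 * (var 0 * var 1) - var 0) * var 1) * (num 86 + num (-40) * (var 1)) + ((num 1 - num 2 * (var 0 * var 1) - var 0) * var 1) * (num 30 + num 29 * (var 1)) * var 3) + var 0 * var 1 * var 0 * (num (-80000) + (num (-1100) * (var 1) + num 7257 + num (-224500) * (var 1) * (var 0) + num (-38391) * (var 0) + num 87400 * (var 1) * (var 3) + num 5703 * (var 3)))) + num (-2071) * (num 100 * (var 0 * var 1 * var 0) * (num 100 * (var 1) + num 3)))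
  wd := num 10000000
  tn := fun b => cond b
    (num 1059 * (num 2496 + num (-1950) * (var 0) + num 741 * (var 1) + num (-2106) * (var 3) + num 6162 * (var 1) * (var 3)))
    (num 4615 * (num 192 + num (-150) * (var 0) + num 57 * (var 1) + num (-162) * (var 3) + num 474 * (var 1) * (var 3)))
  td := num 50000000
  cn := num 1 - var 0 * var 1 - var 1 * (num 1 - num 2 * (var 0 * var 1))
  cd := (num 1 - num 2 * (var 0 * var 1)) * (num 1 - num 2 * (var 0 * var 1))
  kn := var 0 * var 1 * (num 2301 + num 12000 * (var 1) + num (-54000) * (var 0))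
  kd := num 100
  k2n := var 0 * (num 241 + num (-100) * (var 3) + num 200 * (var 1))
  k2d := num 100

/-- Its ranges. -/
def bxD57 : StripEnd.EBox :=
  ⟨(7, 10, 100), (100, 143, 200), (15, 39, 500), (0, 1, 1)⟩

/-- The chart `D58`. -/
def chD58 : EndChart where
  I := var 0 * var 1
  d := var 0
  w := var 0 * var 2
  den := num 100
  n₀ := ((num 1 - num 2 * (var 0 * var 1) - var 0) * var 1) * (num 76 + num (-34) * (var 1))
  n₁ := ((num 1 - num 2 * (var 0 * var 1) - var 0) * var 1) * (num 38 + num 13 * (var 1))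
  q₀ := (7, 10, 100)
  q₁ := (100, 143, 200)
  q₂ := (39, 82, 500)
  q₃ := (0, 1, 1)
  t₀ := (0, 1)
  t₁ := (1, 1)
  mu₀ := (200, 100)
  mu₁ := (249, 100)

/-- The piece `D58`. -/
def pcD58 : Piece where
  I := var 0 * var 1
  d := var 0
  w := var 0 * var 2
  o := (((num 1 - num 2 * (var 0 * var 1) - var 0) * var 1) * (num 76 + num (-34) * (var 1)) + ((num 1 - num 2 * (var 0 * var 1) - var 0) * var 1) * (num 38 + num 13 * (var 1)) * var 3)
  den := num 100
  vn := num 2 * var 1 * ((num 76 + num (-34) * (var 1)) + (num 38 + num 13 * (var 1)) * var 3)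
  vs := num 1
  mu := ⟨(200, 100), (249, 100)⟩
  pn := fun b => cond b
    (num 50000 * (num 100 - (((num 1 - num 2 * (var 0 * var 1) - var 0) * var 1) * (num 76 + num (-34) * (var 1)) + ((num 1 - num 2 * (var 0 * var 1) - var 0) * var 1) * (num 38 + num 13 * (var 1)) * var 3)) + num (-20418) * ((((num 1 - num 2 * (var 0 * var 1) - var 0) * var 1) * (num 76 + num (-34) * (var 1)) + ((num 1 - num 2 * (var 0 * var 1) - var 0) * var 1) * (num 38 + num 13 * (var 1)) * var 3) * var 0))
    (num 50000 * (num 100 - (((num 1 - num 2 * (var 0 * var 1) - var 0) * var 1) * (num 76 + num (-34) * (var 1)) + ((num 1 - num 2 * (var 0 * var 1) - var 0) * var 1) * (num 38 + num 13 * (var 1)) * var 3)) + num (-7800) * ((((num 1 - num 2 * (var 0 * var 1) - var 0) * var 1) * (num 76 + num (-34) * (var 1)) + ((num 1 - num 2 * (var 0 * var 1) - var 0) * var 1) * (num 38 + num 13 * (var 1)) * var 3) * var 0))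
  pd := num 50000
  en := fun b => cond b
    (num 2110 * (num 258500 * (var 0) * (var 1) + num 627000 * (var 0) * (var 0) * (var 1) + num 15662 + num 233577 * (var 0) + num (-83500) * (var 0) * (var 1) * (var 1)))
    (num 880 * (num 517000 * (var 0) * (var 1) + num 1254000 * (var 0) * (var 0) * (var 1) + num 14898 + num 222183 * (var 0) + num (-167000) * (var 0) * (var 1) * (var 1)))
  kk := fun b => cond b
    (num 2044 * (num 12505 * (var 0) + num 228288 * (var 0) * (var 0) + num 1517 * (var 0) * (var 1) + num 1107 * (var 0) * (var 3)))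
    (num 985 * (num 11895 * (var 0) + num 217152 * (var 0) * (var 0) + num 1443 * (var 0) * (var 1) + num 1053 * (var 0) * (var 3)))
  f0 := num 50000000
  wn := fun b => cond b
    (num 1000 * (num (-400000) * (var 0 * var 1) + (num 4000 * (var 0 * var 1) + num 156 * var 0) * (((num 1 - num 2 * (var 0 * var 1) - var 0) * var 1) * (num 76 + num (-34) * (var 1)) + ((num 1 - num 2 * (var 0 * var 1) - var 0) * var 1) * (num 38 + num 13 * (var 1)) * var 3) + var 0 * var 1 * var 0 * (num (-400000) + (num (-68500) * (var 1) + num 66222 + num (-1321000) * (var 1) * (var 0) + num (-268710) * (var 0) + num 446500 * (var 1) * (var 3) + num 72657 * (var 3)))) + num 92 * (num 100 * (var 0 * var 1 * var 0) * (num 500 * (var 1) + num 39)))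
    (num 1000 * (num (-400000) * (var 0 * var 1) + (num 4000 * (var 0 * var 1) + num 156 * var 0) * (((num 1 - num 2 * (var 0 * var 1) - var 0) * var 1) * (num 76 + num (-34) * (var 1)) + ((num 1 - num 2 * (var 0 * var 1) - var 0) * var 1) * (num 38 + num 13 * (var 1)) * var 3) + var 0 * var 1 * var 0 * (num (-400000) + (num (-68500) * (var 1) + num 66222 + num (-1321000) * (var 1) * (var 0) + num (-268710) * (var 0) + num 446500 * (var 1) * (var 3) + num 72657 * (var 3)))) + num (-1774) * (num 100 * (var 0 * var 1 * var 0) * (num 500 * (var 1) + num 39)))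
  wd := num 50000000
  tn := fun b => cond b
    (num 2038 * (num 2337 + num (-1271) * (var 0) + num 738 * (var 1) + num (-1189) * (var 3) + num 4223 * (var 1) * (var 3)))
    (num 952 * (num 2223 + num (-1209) * (var 0) + num 702 * (var 1) + num (-1131) * (var 3) + num 4017 * (var 1) * (var 3)))
  td := num 50000000
  cn := num 1 - var 0 * var 1 - var 1 * (num 1 - num 2 * (var 0 * var 1))
  cd := (num 1 - num 2 * (var 0 * var 1)) * (num 1 - num 2 * (var 0 * var 1))
  kn := var 0 * var 1 * (num (-151) + num 11500 * (var 1) + num (-22000) * (var 0))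
  kd := num 100
  k2n := var 0 * (num 272 + num (-100) * (var 3))
  k2d := num 100

/-- Its ranges. -/
def bxD58 : StripEnd.EBox :=
  ⟨(7, 10, 100), (100, 143, 200), (39, 82, 500), (0, 1, 1)⟩

/-- The chart `D59`. -/
def chD59 : EndChart where
  I := var 0 * var 1
  d := var 0
  w := var 0 * var 2
  den := num 100
  n₀ := ((num 1 - num 2 * (var 0 * var 1) - var 0) * var 1) * (num 61 + num (-24) * (var 1))
  n₁ := ((num 1 - num 2 * (var 0 * var 1) - var 0) * var 1) * (num 45 + num (-1) * (var 1))
  q₀ := (7, 10, 100)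
  q₁ := (100, 143, 200)
  q₂ := (41, 86, 250)
  q₃ := (0, 1, 1)
  t₀ := (0, 1)
  t₁ := (1, 1)
  mu₀ := (195, 100)
  mu₁ := (247, 100)

/-- The piece `D59`. -/
def pcD59 : Piece where
  I := var 0 * var 1
  d := var 0
  w := var 0 * var 2
  o := (((num 1 - num 2 * (var 0 * var 1) - var 0) * var 1) * (num 61 + num (-24) * (var 1)) + ((num 1 - num 2 * (var 0 * var 1) - var 0) * var 1) * (num 45 + num (-1) * (var 1)) * var 3)
  den := num 100
  vn := num 2 * var 1 * ((num 61 + num (-24) * (var 1)) + (num 45 + num (-1) * (var 1)) * var 3)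
  vs := num 1
  mu := ⟨(195, 100), (247, 100)⟩
  pn := fun b => cond b
    (num 25000 * (num 100 - (((num 1 - num 2 * (var 0 * var 1) - var 0) * var 1) * (num 61 + num (-24) * (var 1)) + ((num 1 - num 2 * (var 0 * var 1) - var 0) * var 1) * (num 45 + num (-1) * (var 1)) * var 3)) + num (-21242) * ((((num 1 - num 2 * (var 0 * var 1) - var 0) * var 1) * (num 61 + num (-24) * (var 1)) + ((num 1 - num 2 * (var 0 * var 1) - var 0) * var 1) * (num 45 + num (-1) * (var 1)) * var 3) * var 0))
    (num 25000 * (num 100 - (((num 1 - num 2 * (var 0 * var 1) - var 0) * var 1) * (num 61 + num (-24) * (var 1)) + ((num 1 - num 2 * (var 0 * var 1) - var 0) * var 1) * (num 45 + num (-1) * (var 1)) * var 3)) + num (-7995) * ((((num 1 - num 2 * (var 0 * var 1) - var 0) * var 1) * (num 61 + num (-24) * (var 1)) + ((num 1 - num 2 * (var 0 * var 1) - var 0) * var 1) * (num 45 + num (-1) * (var 1)) * var 3) * var 0))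
  pd := num 25000
  en := fun b => cond b
    (num 2052 * (num 110500 * (var 0) * (var 1) + num 414125 * (var 0) * (var 0) * (var 1) + num 16168 + num 237833 * (var 0) + num (-5625) * (var 0) * (var 1) * (var 1)))
    (num 935 * (num 221000 * (var 0) * (var 1) + num 828250 * (var 0) * (var 0) * (var 1) + num 15416 + num 226771 * (var 0) + num (-11250) * (var 0) * (var 1) * (var 1)))
  kk := fun b => cond b
    (num 2038 * (num 13416 * (var 0) + num 234651 * (var 0) * (var 0) + num 1290 * (var 0) * (var 1) + num 1118 * (var 0) * (var 3)))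
    (num 986 * (num 12792 * (var 0) + num 223737 * (var 0) * (var 0) + num 1230 * (var 0) * (var 1) + num 1066 * (var 0) * (var 3)))
  f0 := num 25000000
  wn := fun b => cond b
    (num 1000 * (num (-200000) * (var 0 * var 1) + (num 2000 * (var 0 * var 1) + num 164 * var 0) * (((num 1 - num 2 * (var 0 * var 1) - var 0) * var 1) * (num 61 + num (-24) * (var 1)) + ((num 1 - num 2 * (var 0 * var 1) - var 0) * var 1) * (num 45 + num (-1) * (var 1)) * var 3) + var 0 * var 1 * var 0 * (num (-200000) + (num (-54000) * (var 1) + num 40836 + num (-1158500) * (var 1) * (var 0) + num (-77900) * (var 0) + num 229250 * (var 1) * (var 3) + num 74825 * (var 3)))) + num (-34) * (num 100 * (var 0 * var 1 * var 0) * (num 250 * (var 1) + num 41)))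
    (num 1000 * (num (-200000) * (var 0 * var 1) + (num 2000 * (var 0 * var 1) + num 164 * var 0) * (((num 1 - num 2 * (var 0 * var 1) - var 0) * var 1) * (num 61 + num (-24) * (var 1)) + ((num 1 - num 2 * (var 0 * var 1) - var 0) * var 1) * (num 45 + num (-1) * (var 1)) * var 3) + var 0 * var 1 * var 0 * (num (-200000) + (num (-54000) * (var 1) + num 40836 + num (-1158500) * (var 1) * (var 0) + num (-77900) * (var 0) + num 229250 * (var 1) * (var 3) + num 74825 * (var 3)))) + num (-1207) * (num 100 * (var 0 * var 1 * var 0) * (num 250 * (var 1) + num 41)))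
  wd := num 25000000
  tn := fun b => cond b
    (num 1980 * (num 2107 + num (-473) * (var 0) + num 688 * (var 1) + num (-387) * (var 3) + num 2580 * (var 1) * (var 3)))
    (num 964 * (num 2009 + num (-451) * (var 0) + num 656 * (var 1) + num (-369) * (var 3) + num 2460 * (var 1) * (var 3)))
  td := num 25000000
  cn := num 1 - var 0 * var 1 - var 1 * (num 1 - num 2 * (var 0 * var 1))
  cd := (num 1 - num 2 * (var 0 * var 1)) * (num 1 - num 2 * (var 0 * var 1))
  kn := var 0 * var 1 * (num 776 + num 8500 * (var 1) + num (-16000) * (var 0))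
  kd := num 100
  k2n := var 0 * (num 523 + num (-100) * (var 3) + num (-400) * (var 1))
  k2d := num 100

/-- Its ranges. -/
def bxD59 : StripEnd.EBox :=
  ⟨(7, 10, 100), (100, 143, 200), (41, 86, 250), (0, 1, 1)⟩

/-- The chart `D60`. -/
def chD60 : EndChart where
  I := var 0 * var 1
  d := var 0
  w := var 0 * var 2
  den := num 100
  n₀ := ((num 1 - num 2 * (var 0 * var 1) - var 0) * var 1) * (num 43 + num (-14) * (var 1))
  n₁ := ((num 1 - num 2 * (var 0 * var 1) - var 0) * var 1) * (num 49 + num (-11) * (var 1))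
  q₀ := (7, 10, 100)
  q₁ := (100, 143, 200)
  q₂ := (172, 361, 500)
  q₃ := (0, 1, 1)
  t₀ := (0, 1)
  t₁ := (1, 1)
  mu₀ := (176, 100)
  mu₁ := (242, 100)

/-- The piece `D60`. -/
def pcD60 : Piece where
  I := var 0 * var 1
  d := var 0
  w := var 0 * var 2
  o := (((num 1 - num 2 * (var 0 * var 1) - var 0) * var 1) * (num 43 + num (-14) * (var 1)) + ((num 1 - num 2 * (var 0 * var 1) - var 0) * var 1) * (num 49 + num (-11) * (var 1)) * var 3)
  den := num 100
  vn := num 2 * var 1 * ((num 43 + num (-14) * (var 1)) + (num 49 + num (-11) * (var 1)) * var 3)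
  vs := num 1
  mu := ⟨(176, 100), (242, 100)⟩
  pn := fun b => cond b
    (num 50000 * (num 100 - (((num 1 - num 2 * (var 0 * var 1) - var 0) * var 1) * (num 43 + num (-14) * (var 1)) + ((num 1 - num 2 * (var 0 * var 1) - var 0) * var 1) * (num 49 + num (-11) * (var 1)) * var 3)) + num (-87362) * ((((num 1 - num 2 * (var 0 * var 1) - var 0) * var 1) * (num 43 + num (-14) * (var 1)) + ((num 1 - num 2 * (var 0 * var 1) - var 0) * var 1) * (num 49 + num (-11) * (var 1)) * var 3) * var 0))
    (num 50000 * (num 100 - (((num 1 - num 2 * (var 0 * var 1) - var 0) * var 1) * (num 43 + num (-14) * (var 1)) + ((num 1 - num 2 * (var 0 * var 1) - var 0) * var 1) * (num 49 + num (-11) * (var 1)) * var 3)) + num (-30272) * ((((num 1 - num 2 * (var 0 * var 1) - var 0) * var 1) * (num 43 + num (-14) * (var 1)) + ((num 1 - num 2 * (var 0 * var 1) - var 0) * var 1) * (num 49 + num (-11) * (var 1)) * var 3) * var 0))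
  pd := num 50000
  en := fun b => cond b
    (num 1016 * (num 376000 * (var 0) * (var 1) + num 2192500 * (var 0) * (var 0) * (var 1) + num 133931 + num 1932072 * (var 0) + num 160000 * (var 0) * (var 1) * (var 1)))
    (num 3848 * (num 94000 * (var 0) * (var 1) + num 548125 * (var 0) * (var 0) * (var 1) + num 15953 + num 230136 * (var 0) + num 40000 * (var 0) * (var 1) * (var 1)))
  kk := fun b => cond b
    (num 1014 * (num 116242 * (var 0) + num 1917271 * (var 0) * (var 0) + num 7220 * (var 0) * (var 1) + num 8664 * (var 0) * (var 3)))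
    (num 3940 * (num 13846 * (var 0) + num 228373 * (var 0) * (var 0) + num 860 * (var 0) * (var 1) + num 1032 * (var 0) * (var 3)))
  f0 := num 50000000
  wn := fun b => cond b
    (num 1000 * (num (-100000) * (var 0 * var 1) + (num 1000 * (var 0 * var 1) + num 172 * var 0) * (((num 1 - num 2 * (var 0 * var 1) - var 0) * var 1) * (num 43 + num (-14) * (var 1)) + ((num 1 - num 2 * (var 0 * var 1) - var 0) * var 1) * (num 49 + num (-11) * (var 1)) * var 3) + var 0 * var 1 * var 0 * (num (-100000) + (num (-41250) * (var 1) + num 21500 + num (-1016000) * (var 1) * (var 0) + num 8772 * (var 0) + num 116875 * (var 1) * (var 3) + num 76024 * (var 3)))) + num 218 * (num 100 * (var 0 * var 1 * var 0) * (num 125 * (var 1) + num 43)))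
    (num 1000 * (num (-100000) * (var 0 * var 1) + (num 1000 * (var 0 * var 1) + num 172 * var 0) * (((num 1 - num 2 * (var 0 * var 1) - var 0) * var 1) * (num 43 + num (-14) * (var 1)) + ((num 1 - num 2 * (var 0 * var 1) - var 0) * var 1) * (num 49 + num (-11) * (var 1)) * var 3) + var 0 * var 1 * var 0 * (num (-100000) + (num (-41250) * (var 1) + num 21500 + num (-1016000) * (var 1) * (var 0) + num 8772 * (var 0) + num 116875 * (var 1) * (var 3) + num 76024 * (var 3)))) + num (-1522) * (num 100 * (var 0 * var 1 * var 0) * (num 125 * (var 1) + num 43)))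
  wd := num 12500000
  tn := fun b => cond b
    (num 990 * (num 14079 + num 2166 * (var 0) + num 3971 * (var 1) + num 1444 * (var 3) + num 10830 * (var 1) * (var 3)))
    (num 3908 * (num 1677 + num 258 * (var 0) + num 473 * (var 1) + num 172 * (var 3) + num 1290 * (var 1) * (var 3)))
  td := num 50000000
  cn := num 1 - var 0 * var 1 - var 1 * (num 1 - num 2 * (var 0 * var 1))
  cd := (num 1 - num 2 * (var 0 * var 1)) * (num 1 - num 2 * (var 0 * var 1))
  kn := var 0 * var 1 * (num 201 + num 6000 * (var 1) + num (-4000) * (var 0))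
  kd := num 100
  k2n := var 0 * (num 690 + num (-200) * (var 3) + num (-500) * (var 1))
  k2d := num 100

/-- Its ranges. -/
def bxD60 : StripEnd.EBox :=
  ⟨(7, 10, 100), (100, 143, 200), (172, 361, 500), (0, 1, 1)⟩

/-- The chart `D61`. -/
def chD61 : EndChart where
  I := var 0 * var 1
  d := var 0
  w := var 0 * var 2
  den := num 100
  n₀ := ((num 1 - num 2 * (var 0 * var 1) - var 0) * var 1) * (num 35 + num (-9) * (var 1))
  n₁ := ((num 1 - num 2 * (var 0 * var 1) - var 0) * var 1) * (num 38 + num (-12) * (var 1))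
  q₀ := (7, 10, 100)
  q₁ := (100, 143, 200)
  q₂ := (361, 500, 500)
  q₃ := (0, 1, 1)
  t₀ := (0, 1)
  t₁ := (1, 1)
  mu₀ := (171, 100)
  mu₁ := (236, 100)

/-- The piece `D61`. -/
def pcD61 : Piece where
  I := var 0 * var 1
  d := var 0
  w := var 0 * var 2
  o := (((num 1 - num 2 * (var 0 * var 1) - var 0) * var 1) * (num 35 + num (-9) * (var 1)) + ((num 1 - num 2 * (var 0 * var 1) - var 0) * var 1) * (num 38 + num (-12) * (var 1)) * var 3)
  den := num 100
  vn := num 2 * var 1 * ((num 35 + num (-9) * (var 1)) + (num 38 + num (-12) * (var 1)) * var 3)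
  vs := num 1
  mu := ⟨(171, 100), (236, 100)⟩
  pn := fun b => cond b
    (num 50000 * (num 100 - (((num 1 - num 2 * (var 0 * var 1) - var 0) * var 1) * (num 35 + num (-9) * (var 1)) + ((num 1 - num 2 * (var 0 * var 1) - var 0) * var 1) * (num 38 + num (-12) * (var 1)) * var 3)) + num (-118000) * ((((num 1 - num 2 * (var 0 * var 1) - var 0) * var 1) * (num 35 + num (-9) * (var 1)) + ((num 1 - num 2 * (var 0 * var 1) - var 0) * var 1) * (num 38 + num (-12) * (var 1)) * var 3) * var 0))
    (num 50000 * (num 100 - (((num 1 - num 2 * (var 0 * var 1) - var 0) * var 1) * (num 35 + num (-9) * (var 1)) + ((num 1 - num 2 * (var 0 * var 1) - var 0) * var 1) * (num 38 + num (-12) * (var 1)) * var 3)) + num (-61731) * ((((num 1 - num 2 * (var 0 * var 1) - var 0) * var 1) * (num 35 + num (-9) * (var 1)) + ((num 1 - num 2 * (var 0 * var 1) - var 0) * var 1) * (num 38 + num (-12) * (var 1)) * var 3) * var 0))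
  pd := num 50000
  en := fun b => cond b
    (num 507500 * (num 904 * (var 0) * (var 1) + num 2224 * (var 0) * (var 0) * (var 1) + num 353 + num 5418 * (var 0) + num 726 * (var 0) * (var 1) * (var 1)))
    (num 985 * (num 452000 * (var 0) * (var 1) + num 1112000 * (var 0) * (var 0) * (var 1) + num 127433 + num 1955898 * (var 0) + num 363000 * (var 0) * (var 1) * (var 1)))
  kk := fun b => cond b
    (num 506000 * (num 333 * (var 0) + num 5191 * (var 0) * (var 0) + num 12 * (var 0) * (var 1) + num 15 * (var 0) * (var 3)))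
    (num 987 * (num 120213 * (var 0) + num 1873951 * (var 0) * (var 0) + num 4332 * (var 0) * (var 1) + num 5415 * (var 0) * (var 3)))
  f0 := num 50000000
  wn := fun b => cond b
    (num 1000 * (num (-400000) * (var 0 * var 1) + (num 4000 * (var 0 * var 1) + num 1444 * var 0) * (((num 1 - num 2 * (var 0 * var 1) - var 0) * var 1) * (num 35 + num (-9) * (var 1)) + ((num 1 - num 2 * (var 0 * var 1) - var 0) * var 1) * (num 38 + num (-12) * (var 1)) * var 3) + var 0 * var 1 * var 0 * (num (-400000) + (num 303000 * (var 1) + num (-89167) + num (-11248000) * (var 1) * (var 0) + num 2800638 * (var 0) + num 410000 * (var 1) * (var 3) + num 461719 * (var 3)))) + num 860 * (num 100 * (var 0 * var 1 * var 0) * (num 500 * (var 1) + num 361)))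
    (num 1000 * (num (-400000) * (var 0 * var 1) + (num 4000 * (var 0 * var 1) + num 1444 * var 0) * (((num 1 - num 2 * (var 0 * var 1) - var 0) * var 1) * (num 35 + num (-9) * (var 1)) + ((num 1 - num 2 * (var 0 * var 1) - var 0) * var 1) * (num 38 + num (-12) * (var 1)) * var 3) + var 0 * var 1 * var 0 * (num (-400000) + (num 303000 * (var 1) + num (-89167) + num (-11248000) * (var 1) * (var 0) + num 2800638 * (var 0) + num 410000 * (var 1) * (var 3) + num 461719 * (var 3)))) + num (-1695) * (num 100 * (var 0 * var 1 * var 0) * (num 500 * (var 1) + num 361)))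
  wd := num 50000000
  tn := fun b => cond b
    (num 489500 * (num 34 + num 21 * (var 0) + num 9 * (var 1) + num 2 * (var 3) + num 11 * (var 1) * (var 3)))
    (num 1008 * (num 12274 + num 7581 * (var 0) + num 3249 * (var 1) + num 722 * (var 3) + num 3971 * (var 1) * (var 3)))
  td := num 50000000
  cn := num 1 - var 0 * var 1 - var 1 * (num 1 - num 2 * (var 0 * var 1))
  cd := (num 1 - num 2 * (var 0 * var 1)) * (num 1 - num 2 * (var 0 * var 1))
  kn := var 0 * var 1 * (num 295 + num 2000 * (var 1) + num 2000 * (var 0))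
  kd := num 100
  k2n := var 0 * (num 562 + num (-150) * (var 3) + num (-400) * (var 1))
  k2d := num 100

/-- Its ranges. -/
def bxD61 : StripEnd.EBox :=
  ⟨(7, 10, 100), (100, 143, 200), (361, 500, 500), (0, 1, 1)⟩

/-- The chart `D62`. -/
def chD62 : EndChart where
  I := var 0 * var 1
  d := var 0
  w := var 0 * var 2
  den := num 100
  n₀ := ((num 1 - num 2 * (var 0 * var 1) - var 0) * var 1) * (num 84 + num (-45) * (var 1))
  n₁ := ((num 1 - num 2 * (var 0 * var 1) - var 0) * var 1) * (num 16 + num 50 * (var 1))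
  q₀ := (3, 7, 100)
  q₁ := (5, 7, 10)
  q₂ := (15, 48, 500)
  q₃ := (0, 1, 1)
  t₀ := (0, 1)
  t₁ := (1, 1)
  mu₀ := (195, 100)
  mu₁ := (235, 100)

/-- The piece `D62`. -/
def pcD62 : Piece where
  I := var 0 * var 1
  d := var 0
  w := var 0 * var 2
  o := (((num 1 - num 2 * (var 0 * var 1) - var 0) * var 1) * (num 84 + num (-45) * (var 1)) + ((num 1 - num 2 * (var 0 * var 1) - var 0) * var 1) * (num 16 + num 50 * (var 1)) * var 3)
  den := num 100
  vn := num 2 * var 1 * ((num 84 + num (-45) * (var 1)) + (num 16 + num 50 * (var 1)) * var 3)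
  vs := num 1
  mu := ⟨(195, 100), (235, 100)⟩
  pn := fun b => cond b
    (num 50000 * (num 100 - (((num 1 - num 2 * (var 0 * var 1) - var 0) * var 1) * (num 84 + num (-45) * (var 1)) + ((num 1 - num 2 * (var 0 * var 1) - var 0) * var 1) * (num 16 + num 50 * (var 1)) * var 3)) + num (-11280) * ((((num 1 - num 2 * (var 0 * var 1) - var 0) * var 1) * (num 84 + num (-45) * (var 1)) + ((num 1 - num 2 * (var 0 * var 1) - var 0) * var 1) * (num 16 + num 50 * (var 1)) * var 3) * var 0))
    (num 50000 * (num 100 - (((num 1 - num 2 * (var 0 * var 1) - var 0) * var 1) * (num 84 + num (-45) * (var 1)) + ((num 1 - num 2 * (var 0 * var 1) - var 0) * var 1) * (num 16 + num 50 * (var 1)) * var 3)) + num (-2925) * ((((num 1 - num 2 * (var 0 * var 1) - var 0) * var 1) * (num 84 + num (-45) * (var 1)) + ((num 1 - num 2 * (var 0 * var 1) - var 0) * var 1) * (num 16 + num 50 * (var 1)) * var 3) * var 0))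
  pd := num 50000
  en := fun b => cond b
    (num 4336 * (num 153125 * (var 0) * (var 1) + num 214500 * (var 0) * (var 0) * (var 1) + num 3600 + num 84900 * (var 0) + num (-77375) * (var 0) * (var 1) * (var 1)))
    (num 4000 * (num 122500 * (var 0) * (var 1) + num 171600 * (var 0) * (var 0) * (var 1) + num 900 + num 21225 * (var 0) + num (-61900) * (var 0) * (var 1) * (var 1)))
  kk := fun b => cond b
    (num 4068 * (num 3360 * (var 0) + num 74352 * (var 0) * (var 0) + num 216 * (var 0) * (var 1) + num 168 * (var 0) * (var 3)))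
    (num 4920 * (num 840 * (var 0) + num 18588 * (var 0) * (var 0) + num 54 * (var 0) * (var 1) + num 42 * (var 0) * (var 3)))
  f0 := num 50000000
  wn := fun b => cond b
    (num 1000 * (num (-80000) * (var 0 * var 1) + (num 800 * (var 0 * var 1) + num 12 * var 0) * (((num 1 - num 2 * (var 0 * var 1) - var 0) * var 1) * (num 84 + num (-45) * (var 1)) + ((num 1 - num 2 * (var 0 * var 1) - var 0) * var 1) * (num 16 + num 50 * (var 1)) * var 3) + var 0 * var 1 * var 0 * (num (-80000) + (num 2800 * (var 1) + num 4035 + num (-413300) * (var 1) * (var 0) + num (-3546) * (var 0) + num 87300 * (var 1) * (var 3) + num 4857 * (var 3)))) + num 321 * (num 100 * (var 0 * var 1 * var 0) * (num 100 * (var 1) + num 3)))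
    (num 1000 * (num (-80000) * (var 0 * var 1) + (num 800 * (var 0 * var 1) + num 12 * var 0) * (((num 1 - num 2 * (var 0 * var 1) - var 0) * var 1) * (num 84 + num (-45) * (var 1)) + ((num 1 - num 2 * (var 0 * var 1) - var 0) * var 1) * (num 16 + num 50 * (var 1)) * var 3) + var 0 * var 1 * var 0 * (num (-80000) + (num 2800 * (var 1) + num 4035 + num (-413300) * (var 1) * (var 0) + num (-3546) * (var 0) + num 87300 * (var 1) * (var 3) + num 4857 * (var 3)))) + num (-1420) * (num 100 * (var 0 * var 1 * var 0) * (num 100 * (var 1) + num 3)))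
  wd := num 10000000
  tn := fun b => cond b
    (num 4268 * (num 816 + num (-1032) * (var 0) + num 84 * (var 1) + num (-828) * (var 3) + num 2232 * (var 1) * (var 3)))
    (num 4735 * (num 204 + num (-258) * (var 0) + num 21 * (var 1) + num (-207) * (var 3) + num 558 * (var 1) * (var 3)))
  td := num 50000000
  cn := num 1 - var 0 * var 1 - var 1 * (num 1 - num 2 * (var 0 * var 1))
  cd := (num 1 - num 2 * (var 0 * var 1)) * (num 1 - num 2 * (var 0 * var 1))
  kn := var 0 * var 1 * (num 4554 + num 12000 * (var 1) + num (-60000) * (var 0))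
  kd := num 100
  k2n := var 0 * (num 843 + num (-250) * (var 3) + num (-600) * (var 1))
  k2d := num 100

/-- Its ranges. -/
def bxD62 : StripEnd.EBox :=
  ⟨(3, 7, 100), (5, 7, 10), (15, 48, 500), (0, 1, 1)⟩

/-- The chart `D63`. -/
def chD63 : EndChart where
  I := var 0 * var 1
  d := var 0
  w := var 0 * var 2
  den := num 100
  n₀ := ((num 1 - num 2 * (var 0 * var 1) - var 0) * var 1) * (num 66 + num (-30) * (var 1))
  n₁ := ((num 1 - num 2 * (var 0 * var 1) - var 0) * var 1) * (num 30 + num 24 * (var 1))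
  q₀ := (3, 7, 100)
  q₁ := (5, 7, 10)
  q₂ := (48, 125, 500)
  q₃ := (0, 1, 1)
  t₀ := (0, 1)
  t₁ := (1, 1)
  mu₀ := (195, 100)
  mu₁ := (235, 100)

/-- The piece `D63`. -/
def pcD63 : Piece where
  I := var 0 * var 1
  d := var 0
  w := var 0 * var 2
  o := (((num 1 - num 2 * (var 0 * var 1) - var 0) * var 1) * (num 66 + num (-30) * (var 1)) + ((num 1 - num 2 * (var 0 * var 1) - var 0) * var 1) * (num 30 + num 24 * (var 1)) * var 3)
  den := num 100
  vn := num 2 * var 1 * ((num 66 + num (-30) * (var 1)) + (num 30 + num 24 * (var 1)) * var 3)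
  vs := num 1
  mu := ⟨(195, 100), (235, 100)⟩
  pn := fun b => cond b
    (num 50000 * (num 100 - (((num 1 - num 2 * (var 0 * var 1) - var 0) * var 1) * (num 66 + num (-30) * (var 1)) + ((num 1 - num 2 * (var 0 * var 1) - var 0) * var 1) * (num 30 + num 24 * (var 1)) * var 3)) + num (-29375) * ((((num 1 - num 2 * (var 0 * var 1) - var 0) * var 1) * (num 66 + num (-30) * (var 1)) + ((num 1 - num 2 * (var 0 * var 1) - var 0) * var 1) * (num 30 + num 24 * (var 1)) * var 3) * var 0))
    (num 50000 * (num 100 - (((num 1 - num 2 * (var 0 * var 1) - var 0) * var 1) * (num 66 + num (-30) * (var 1)) + ((num 1 - num 2 * (var 0 * var 1) - var 0) * var 1) * (num 30 + num 24 * (var 1)) * var 3)) + num (-9360) * ((((num 1 - num 2 * (var 0 * var 1) - var 0) * var 1) * (num 66 + num (-30) * (var 1)) + ((num 1 - num 2 * (var 0 * var 1) - var 0) * var 1) * (num 30 + num 24 * (var 1)) * var 3) * var 0))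
  pd := num 50000
  en := fun b => cond b
    (num 129000 * (num 4408 * (var 0) * (var 1) + num 6656 * (var 0) * (var 0) * (var 1) + num 299 + num 6811 * (var 0) + num (-1264) * (var 0) * (var 1) * (var 1)))
    (num 3656 * (num 137750 * (var 0) * (var 1) + num 208000 * (var 0) * (var 0) * (var 1) + num 3588 + num 81732 * (var 0) + num (-39500) * (var 0) * (var 1) * (var 1)))
  kk := fun b => cond b
    (num 126875 * (num 284 * (var 0) + num 6100 * (var 0) * (var 0) + num 13 * (var 0) * (var 1) + num 14 * (var 0) * (var 3)))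
    (num 3940 * (num 3408 * (var 0) + num 73200 * (var 0) * (var 0) + num 156 * (var 0) * (var 1) + num 168 * (var 0) * (var 3)))
  f0 := num 50000000
  wn := fun b => cond b
    (num 1000 * (num (-100000) * (var 0 * var 1) + (num 1000 * (var 0 * var 1) + num 48 * var 0) * (((num 1 - num 2 * (var 0 * var 1) - var 0) * var 1) * (num 66 + num (-30) * (var 1)) + ((num 1 - num 2 * (var 0 * var 1) - var 0) * var 1) * (num 30 + num 24 * (var 1)) * var 3) + var 0 * var 1 * var 0 * (num (-100000) + (num (-20500) * (var 1) + num 10956 + num (-556500) * (var 1) * (var 0) + num (-7920) * (var 0) + num 111875 * (var 1) * (var 3) + num 20484 * (var 3)))) + num 276 * (num 100 * (var 0 * var 1 * var 0) * (num 125 * (var 1) + num 12)))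
    (num 1000 * (num (-100000) * (var 0 * var 1) + (num 1000 * (var 0 * var 1) + num 48 * var 0) * (((num 1 - num 2 * (var 0 * var 1) - var 0) * var 1) * (num 66 + num (-30) * (var 1)) + ((num 1 - num 2 * (var 0 * var 1) - var 0) * var 1) * (num 30 + num 24 * (var 1)) * var 3) + var 0 * var 1 * var 0 * (num (-100000) + (num (-20500) * (var 1) + num 10956 + num (-556500) * (var 1) * (var 0) + num (-7920) * (var 0) + num 111875 * (var 1) * (var 3) + num 20484 * (var 3)))) + num (-1116) * (num 100 * (var 0 * var 1 * var 0) * (num 125 * (var 1) + num 12)))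
  wd := num 12500000
  tn := fun b => cond b
    (num 130875 * (num 55 + num (-55) * (var 0) + num 11 * (var 1) + num (-30) * (var 3) + num 105 * (var 1) * (var 3)))
    (num 3964 * (num 660 + num (-660) * (var 0) + num 132 * (var 1) + num (-360) * (var 3) + num 1260 * (var 1) * (var 3)))
  td := num 50000000
  cn := num 1 - var 0 * var 1 - var 1 * (num 1 - num 2 * (var 0 * var 1))
  cd := (num 1 - num 2 * (var 0 * var 1)) * (num 1 - num 2 * (var 0 * var 1))
  kn := var 0 * var 1 * (num 1733 + num 12000 * (var 1) + num (-48000) * (var 0))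
  kd := num 100
  k2n := var 0 * (num 820 + num (-200) * (var 3) + num (-700) * (var 1))
  k2d := num 100

/-- Its ranges. -/
def bxD63 : StripEnd.EBox :=
  ⟨(3, 7, 100), (5, 7, 10), (48, 125, 500), (0, 1, 1)⟩

/-- The chart `D64`. -/
def chD64 : EndChart where
  I := var 0 * var 1
  d := var 0
  w := var 0 * var 2
  den := num 100
  n₀ := ((num 1 - num 2 * (var 0 * var 1) - var 0) * var 1) * (num 43 + num (-14) * (var 1))
  n₁ := ((num 1 - num 2 * (var 0 * var 1) - var 0) * var 1) * (num 41 + num 3 * (var 1))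
  q₀ := (3, 7, 100)
  q₁ := (5, 7, 10)
  q₂ := (5, 13, 20)
  q₃ := (0, 1, 1)
  t₀ := (0, 1)
  t₁ := (1, 1)
  mu₀ := (184, 100)
  mu₁ := (230, 100)

/-- The piece `D64`. -/
def pcD64 : Piece where
  I := var 0 * var 1
  d := var 0
  w := var 0 * var 2
  o := (((num 1 - num 2 * (var 0 * var 1) - var 0) * var 1) * (num 43 + num (-14) * (var 1)) + ((num 1 - num 2 * (var 0 * var 1) - var 0) * var 1) * (num 41 + num 3 * (var 1)) * var 3)
  den := num 100
  vn := num 2 * var 1 * ((num 43 + num (-14) * (var 1)) + (num 41 + num 3 * (var 1)) * var 3)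
  vs := num 1
  mu := ⟨(184, 100), (230, 100)⟩
  pn := fun b => cond b
    (num 2000 * (num 100 - (((num 1 - num 2 * (var 0 * var 1) - var 0) * var 1) * (num 43 + num (-14) * (var 1)) + ((num 1 - num 2 * (var 0 * var 1) - var 0) * var 1) * (num 41 + num 3 * (var 1)) * var 3)) + num (-2990) * ((((num 1 - num 2 * (var 0 * var 1) - var 0) * var 1) * (num 43 + num (-14) * (var 1)) + ((num 1 - num 2 * (var 0 * var 1) - var 0) * var 1) * (num 41 + num 3 * (var 1)) * var 3) * var 0))
    (num 2000 * (num 100 - (((num 1 - num 2 * (var 0 * var 1) - var 0) * var 1) * (num 43 + num (-14) * (var 1)) + ((num 1 - num 2 * (var 0 * var 1) - var 0) * var 1) * (num 41 + num 3 * (var 1)) * var 3)) + num (-920) * ((((num 1 - num 2 * (var 0 * var 1) - var 0) * var 1) * (num 43 + num (-14) * (var 1)) + ((num 1 - num 2 * (var 0 * var 1) - var 0) * var 1) * (num 41 + num 3 * (var 1)) * var 3) * var 0))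
  pd := num 2000
  en := fun b => cond b
    (num 1014 * (num 20680 * (var 0) * (var 1) + num 28580 * (var 0) * (var 0) * (var 1) + num 3887 + num 84253 * (var 0) + num 1140 * (var 0) * (var 1) * (var 1)))
    (num 4825 * (num 4136 * (var 0) * (var 1) + num 5716 * (var 0) * (var 0) * (var 1) + num 299 + num 6481 * (var 0) + num 228 * (var 0) * (var 1) * (var 1)))
  kk := fun b => cond b
    (num 1012 * (num 3770 * (var 0) + num 77480 * (var 0) * (var 0) + num 91 * (var 0) * (var 1) + num 169 * (var 0) * (var 3)))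
    (num 4925 * (num 290 * (var 0) + num 5960 * (var 0) * (var 0) + num 7 * (var 0) * (var 1) + num 13 * (var 0) * (var 3)))
  f0 := num 2000000
  wn := fun b => cond b
    (num 1000 * (num (-3200) * (var 0 * var 1) + (num 32 * (var 0 * var 1) + num 4 * var 0) * (((num 1 - num 2 * (var 0 * var 1) - var 0) * var 1) * (num 43 + num (-14) * (var 1)) + ((num 1 - num 2 * (var 0 * var 1) - var 0) * var 1) * (num 41 + num 3 * (var 1)) * var 3) + var 0 * var 1 * var 0 * (num (-3200) + (num (-1980) * (var 1) + num 528 + num (-20204) * (var 1) * (var 0) + num (-576) * (var 0) + num 3728 * (var 1) * (var 3) + num 1653 * (var 3)))) + num 453 * (num 100 * (var 0 * var 1 * var 0) * (num 4 * (var 1) + num 1)))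
    (num 1000 * (num (-3200) * (var 0 * var 1) + (num 32 * (var 0 * var 1) + num 4 * var 0) * (((num 1 - num 2 * (var 0 * var 1) - var 0) * var 1) * (num 43 + num (-14) * (var 1)) + ((num 1 - num 2 * (var 0 * var 1) - var 0) * var 1) * (num 41 + num 3 * (var 1)) * var 3) + var 0 * var 1 * var 0 * (num (-3200) + (num (-1980) * (var 1) + num 528 + num (-20204) * (var 1) * (var 0) + num (-576) * (var 0) + num 3728 * (var 1) * (var 3) + num 1653 * (var 3)))) + num (-1273) * (num 100 * (var 0 * var 1 * var 0) * (num 4 * (var 1) + num 1)))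
  wd := num 400000
  tn := fun b => cond b
    (num 1051 * (num 533 + num (-403) * (var 0) + num 117 * (var 1) + num (-39) * (var 3) + num 663 * (var 1) * (var 3)))
    (num 5050 * (num 41 + num (-31) * (var 0) + num 9 * (var 1) + num (-3) * (var 3) + num 51 * (var 1) * (var 3)))
  td := num 2000000
  cn := num 1 - var 0 * var 1 - var 1 * (num 1 - num 2 * (var 0 * var 1))
  cd := (num 1 - num 2 * (var 0 * var 1)) * (num 1 - num 2 * (var 0 * var 1))
  kn := var 0 * var 1 * (num (-739) + num 10000 * (var 1) + num (-12000) * (var 0))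
  kd := num 100
  k2n := var 0 * (num 1138 + num (-300) * (var 3) + num (-1000) * (var 1))
  k2d := num 100

/-- Its ranges. -/
def bxD64 : StripEnd.EBox :=
  ⟨(3, 7, 100), (5, 7, 10), (5, 13, 20), (0, 1, 1)⟩

/-- The chart `D65`. -/
def chD65 : EndChart where
  I := var 0 * var 1
  d := var 0
  w := var 0 * var 2
  den := num 100
  n₀ := ((num 1 - num 2 * (var 0 * var 1) - var 0) * var 1) * (num 34 + num (-10) * (var 1))
  n₁ := ((num 1 - num 2 * (var 0 * var 1) - var 0) * var 1) * (num 28 + num 4 * (var 1))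
  q₀ := (3, 7, 100)
  q₁ := (5, 7, 10)
  q₂ := (13, 20, 20)
  q₃ := (0, 1, 1)
  t₀ := (0, 1)
  t₁ := (1, 1)
  mu₀ := (176, 100)
  mu₁ := (225, 100)

/-- The piece `D65`. -/
def pcD65 : Piece where
  I := var 0 * var 1
  d := var 0
  w := var 0 * var 2
  o := (((num 1 - num 2 * (var 0 * var 1) - var 0) * var 1) * (num 34 + num (-10) * (var 1)) + ((num 1 - num 2 * (var 0 * var 1) - var 0) * var 1) * (num 28 + num 4 * (var 1)) * var 3)
  den := num 100
  vn := num 2 * var 1 * ((num 34 + num (-10) * (var 1)) + (num 28 + num 4 * (var 1)) * var 3)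
  vs := num 1
  mu := ⟨(176, 100), (225, 100)⟩
  pn := fun b => cond b
    (num 2000 * (num 100 - (((num 1 - num 2 * (var 0 * var 1) - var 0) * var 1) * (num 34 + num (-10) * (var 1)) + ((num 1 - num 2 * (var 0 * var 1) - var 0) * var 1) * (num 28 + num 4 * (var 1)) * var 3)) + num (-4500) * ((((num 1 - num 2 * (var 0 * var 1) - var 0) * var 1) * (num 34 + num (-10) * (var 1)) + ((num 1 - num 2 * (var 0 * var 1) - var 0) * var 1) * (num 28 + num 4 * (var 1)) * var 3) * var 0))
    (num 2000 * (num 100 - (((num 1 - num 2 * (var 0 * var 1) - var 0) * var 1) * (num 34 + num (-10) * (var 1)) + ((num 1 - num 2 * (var 0 * var 1) - var 0) * var 1) * (num 28 + num 4 * (var 1)) * var 3)) + num (-2288) * ((((num 1 - num 2 * (var 0 * var 1) - var 0) * var 1) * (num 34 + num (-10) * (var 1)) + ((num 1 - num 2 * (var 0 * var 1) - var 0) * var 1) * (num 28 + num 4 * (var 1)) * var 3) * var 0))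
  pd := num 2000
  en := fun b => cond b
    (num 20200 * (num 1221 * (var 0) * (var 1) + num (-3620) * (var 0) * (var 0) * (var 1) + num 293 + num 6405 * (var 0) + num 580 * (var 0) * (var 1) * (var 1)))
    (num 985 * (num 24420 * (var 0) * (var 1) + num (-72400) * (var 0) * (var 0) * (var 1) + num 3809 + num 83265 * (var 0) + num 11600 * (var 0) * (var 1) * (var 1)))
  kk := fun b => cond b
    (num 20200 * (num 296 * (var 0) + num 5841 * (var 0) * (var 0) + num 2 * (var 0) * (var 1) + num 9 * (var 0) * (var 3)))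
    (num 988 * (num 3848 * (var 0) + num 75933 * (var 0) * (var 0) + num 26 * (var 0) * (var 1) + num 117 * (var 0) * (var 3)))
  f0 := num 2000000
  wn := fun b => cond b
    (num 1000 * (num (-16000) * (var 0 * var 1) + (num 160 * (var 0 * var 1) + num 52 * var 0) * (((num 1 - num 2 * (var 0 * var 1) - var 0) * var 1) * (num 34 + num (-10) * (var 1)) + ((num 1 - num 2 * (var 0 * var 1) - var 0) * var 1) * (num 28 + num 4 * (var 1)) * var 3) + var 0 * var 1 * var 0 * (num (-16000) + (num (-13360) * (var 1) + num 4420 + num (-127020) * (var 1) * (var 0) + num (-2808) * (var 0) + num 21080 * (var 1) * (var 3) + num 12701 * (var 3)))) + num 487 * (num 100 * (var 0 * var 1 * var 0) * (num 20 * (var 1) + num 13)))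
    (num 1000 * (num (-16000) * (var 0 * var 1) + (num 160 * (var 0 * var 1) + num 52 * var 0) * (((num 1 - num 2 * (var 0 * var 1) - var 0) * var 1) * (num 34 + num (-10) * (var 1)) + ((num 1 - num 2 * (var 0 * var 1) - var 0) * var 1) * (num 28 + num 4 * (var 1)) * var 3) + var 0 * var 1 * var 0 * (num (-16000) + (num (-13360) * (var 1) + num 4420 + num (-127020) * (var 1) * (var 0) + num (-2808) * (var 0) + num 21080 * (var 1) * (var 3) + num 12701 * (var 3)))) + num (-1688) * (num 100 * (var 0 * var 1 * var 0) * (num 20 * (var 1) + num 13)))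
  wd := num 2000000
  tn := fun b => cond b
    (num 19800 * (num 35 + num 2 * (var 0) + num 8 * (var 1) + num 18 * (var 1) * (var 3)))
    (num 1019 * (num 455 + num 26 * (var 0) + num 104 * (var 1) + num 234 * (var 1) * (var 3)))
  td := num 2000000
  cn := num 1 - var 0 * var 1 - var 1 * (num 1 - num 2 * (var 0 * var 1))
  cd := (num 1 - num 2 * (var 0 * var 1)) * (num 1 - num 2 * (var 0 * var 1))
  kn := var 0 * var 1 * (num (-77) + num 3000 * (var 1))
  kd := num 100
  k2n := var 0 * (num 811 + num (-250) * (var 3) + num (-600) * (var 1))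
  k2d := num 100

/-- Its ranges. -/
def bxD65 : StripEnd.EBox :=
  ⟨(3, 7, 100), (5, 7, 10), (13, 20, 20), (0, 1, 1)⟩

/-- The chart `D66`. -/
def chD66 : EndChart where
  I := var 0 * var 1
  d := var 0
  w := var 0 * var 2
  den := num 100
  n₀ := ((num 1 - num 2 * (var 0 * var 1) - var 0) * var 1) * (num 97 + num (-24) * (var 1))
  n₁ := ((num 1 - num 2 * (var 0 * var 1) - var 0) * var 1) * (num 3 + num 75 * (var 1))
  q₀ := (9, 10, 40)
  q₁ := (0, 223, 1000)
  q₂ := (10, 21, 1000)
  q₃ := (0, 1, 1)
  t₀ := (0, 1)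
  t₁ := (1, 1)
  mu₀ := (190, 100)
  mu₁ := (255, 100)

/-- The piece `D66`. -/
def pcD66 : Piece where
  I := var 0 * var 1
  d := var 0
  w := var 0 * var 2
  o := (((num 1 - num 2 * (var 0 * var 1) - var 0) * var 1) * (num 97 + num (-24) * (var 1)) + ((num 1 - num 2 * (var 0 * var 1) - var 0) * var 1) * (num 3 + num 75 * (var 1)) * var 3)
  den := num 100
  vn := num 2 * var 1 * ((num 97 + num (-24) * (var 1)) + (num 3 + num 75 * (var 1)) * var 3)
  vs := num 1
  mu := ⟨(190, 100), (255, 100)⟩
  pn := fun b => cond b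
    (num 100000 * (num 100 - (((num 1 - num 2 * (var 0 * var 1) - var 0) * var 1) * (num 97 + num (-24) * (var 1)) + ((num 1 - num 2 * (var 0 * var 1) - var 0) * var 1) * (num 3 + num 75 * (var 1)) * var 3)) + num (-5355) * ((((num 1 - num 2 * (var 0 * var 1) - var 0) * var 1) * (num 97 + num (-24) * (var 1)) + ((num 1 - num 2 * (var 0 * var 1) - var 0) * var 1) * (num 3 + num 75 * (var 1)) * var 3) * var 0))
    (num 100000 * (num 100 - (((num 1 - num 2 * (var 0 * var 1) - var 0) * var 1) * (num 97 + num (-24) * (var 1)) + ((num 1 - num 2 * (var 0 * var 1) - var 0) * var 1) * (num 3 + num 75 * (var 1)) * var 3)) + num (-1900) * ((((num 1 - num 2 * (var 0 * var 1) - var 0) * var 1) * (num 97 + num (-24) * (var 1)) + ((num 1 - num 2 * (var 0 * var 1) - var 0) * var 1) * (num 3 + num 75 * (var 1)) * var 3) * var 0))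
  pd := num 100000
  en := fun b => cond b
    (num 1029 * (num 1609000 * (var 0) * (var 1) + num (-294000) * (var 0) * (var 0) * (var 1) + num 16590 + num 26628 * (var 0) + num (-646000) * (var 0) * (var 1) * (var 1)))
    (num 9710 * (num 160900 * (var 0) * (var 1) + num (-29400) * (var 0) * (var 0) * (var 1) + num 790 + num 1268 * (var 0) + num (-64600) * (var 0) * (var 1) * (var 1)))
  kk := fun b => cond b
    (num 1012 * (num 14679 * (var 0) + num 34272 * (var 0) * (var 0) + num 19656 * (var 0) * (var 1) + num 126 * (var 0) * (var 3)))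
    (num 9770 * (num 699 * (var 0) + num 1632 * (var 0) * (var 0) + num 936 * (var 0) * (var 1) + num 6 * (var 0) * (var 3)))
  f0 := num 100000000
  wn := fun b => cond b
    (num 1000 * (num (-80000) * (var 0 * var 1) + (num 800 * (var 0 * var 1) + num 4 * var 0) * (((num 1 - num 2 * (var 0 * var 1) - var 0) * var 1) * (num 97 + num (-24) * (var 1)) + ((num 1 - num 2 * (var 0 * var 1) - var 0) * var 1) * (num 3 + num 75 * (var 1)) * var 3) + var 0 * var 1 * var 0 * (num (-80000) + (num 55900 * (var 1) + num 895 + num (-240400) * (var 1) * (var 0) + num (-1110) * (var 0) + num 31900 * (var 1) * (var 3) + num (-31) * (var 3)))) + num 671 * (num 100 * (var 0 * var 1 * var 0) * (num 100 * (var 1) + num 1)))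
    (num 1000 * (num (-80000) * (var 0 * var 1) + (num 800 * (var 0 * var 1) + num 4 * var 0) * (((num 1 - num 2 * (var 0 * var 1) - var 0) * var 1) * (num 97 + num (-24) * (var 1)) + ((num 1 - num 2 * (var 0 * var 1) - var 0) * var 1) * (num 3 + num 75 * (var 1)) * var 3) + var 0 * var 1 * var 0 * (num (-80000) + (num 55900 * (var 1) + num 895 + num (-240400) * (var 1) * (var 0) + num (-1110) * (var 0) + num 31900 * (var 1) * (var 3) + num (-31) * (var 3)))) + num (-1947) * (num 100 * (var 0 * var 1 * var 0) * (num 100 * (var 1) + num 1)))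
  wd := num 10000000
  tn := fun b => cond b
    (num 1025 * (num 1050 + num (-84) * (var 0) + num 1071 * (var 1) + num 210 * (var 1) * (var 3)))
    (num 9970 * (num 50 + num (-4) * (var 0) + num 51 * (var 1) + num 10 * (var 1) * (var 3)))
  td := num 100000000
  cn := num 1 - var 0 * var 1 - var 1 * (num 1 - num 2 * (var 0 * var 1))
  cd := (num 1 - num 2 * (var 0 * var 1)) * (num 1 - num 2 * (var 0 * var 1))
  kn := var 0 * var 1 * (num 249 + num 1500 * (var 1))
  kd := num 100
  k2n := var 0 * (num 1074 + num (-600) * (var 3) + num (-1100) * (var 1))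
  k2d := num 100

/-- Its ranges. -/
def bxD66 : StripEnd.EBox :=
  ⟨(9, 10, 40), (0, 223, 1000), (10, 21, 1000), (0, 1, 1)⟩

/-- The chart `D67`. -/
def chD67 : EndChart where
  I := var 0 * var 1
  d := var 0
  w := var 0 * var 2
  den := num 100
  n₀ := ((num 1 - num 2 * (var 0 * var 1) - var 0) * var 1) * (num 95 + num (-20) * (var 1))
  n₁ := ((num 1 - num 2 * (var 0 * var 1) - var 0) * var 1) * (num 4 + num 70 * (var 1))
  q₀ := (9, 10, 40)
  q₁ := (0, 223, 1000)
  q₂ := (21, 30, 1000)
  q₃ := (0, 1, 1)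
  t₀ := (0, 1)
  t₁ := (1, 1)
  mu₀ := (190, 100)
  mu₁ := (255, 100)

/-- The piece `D67`. -/
def pcD67 : Piece where
  I := var 0 * var 1
  d := var 0
  w := var 0 * var 2
  o := (((num 1 - num 2 * (var 0 * var 1) - var 0) * var 1) * (num 95 + num (-20) * (var 1)) + ((num 1 - num 2 * (var 0 * var 1) - var 0) * var 1) * (num 4 + num 70 * (var 1)) * var 3)
  den := num 100
  vn := num 2 * var 1 * ((num 95 + num (-20) * (var 1)) + (num 4 + num 70 * (var 1)) * var 3)
  vs := num 1
  mu := ⟨(190, 100), (255, 100)⟩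
  pn := fun b => cond b
    (num 100000 * (num 100 - (((num 1 - num 2 * (var 0 * var 1) - var 0) * var 1) * (num 95 + num (-20) * (var 1)) + ((num 1 - num 2 * (var 0 * var 1) - var 0) * var 1) * (num 4 + num 70 * (var 1)) * var 3)) + num (-7650) * ((((num 1 - num 2 * (var 0 * var 1) - var 0) * var 1) * (num 95 + num (-20) * (var 1)) + ((num 1 - num 2 * (var 0 * var 1) - var 0) * var 1) * (num 4 + num 70 * (var 1)) * var 3) * var 0))
    (num 100000 * (num 100 - (((num 1 - num 2 * (var 0 * var 1) - var 0) * var 1) * (num 95 + num (-20) * (var 1)) + ((num 1 - num 2 * (var 0 * var 1) - var 0) * var 1) * (num 4 + num 70 * (var 1)) * var 3)) + num (-3990) * ((((num 1 - num 2 * (var 0 * var 1) - var 0) * var 1) * (num 95 + num (-20) * (var 1)) + ((num 1 - num 2 * (var 0 * var 1) - var 0) * var 1) * (num 4 + num 70 * (var 1)) * var 3) * var 0))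
  pd := num 100000
  en := fun b => cond b
    (num 10220 * (num 167100 * (var 0) * (var 1) + num (-33300) * (var 0) * (var 0) * (var 1) + num 2334 + num 3927 * (var 0) + num (-66100) * (var 0) * (var 1) * (var 1)))
    (num 976 * (num 1671000 * (var 0) * (var 1) + num (-333000) * (var 0) * (var 0) * (var 1) + num 16338 + num 27489 * (var 0) + num (-661000) * (var 0) * (var 1) * (var 1)))
  kk := fun b => cond b
    (num 10120 * (num 2097 * (var 0) + num 4893 * (var 0) * (var 0) + num 2799 * (var 0) * (var 1) + num 18 * (var 0) * (var 3)))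
    (num 977 * (num 14679 * (var 0) + num 34251 * (var 0) * (var 0) + num 19593 * (var 0) * (var 1) + num 126 * (var 0) * (var 3)))
  f0 := num 100000000
  wn := fun b => cond b
    (num 1000 * (num (-800000) * (var 0 * var 1) + (num 8000 * (var 0 * var 1) + num 84 * var 0) * (((num 1 - num 2 * (var 0 * var 1) - var 0) * var 1) * (num 95 + num (-20) * (var 1)) + ((num 1 - num 2 * (var 0 * var 1) - var 0) * var 1) * (num 4 + num 70 * (var 1)) * var 3) + var 0 * var 1 * var 0 * (num (-800000) + (num 570000 * (var 1) + num 18102 + num (-2586000) * (var 1) * (var 0) + num (-21651) * (var 0) + num 375000 * (var 1) * (var 3) + num (-672) * (var 3)))) + num 259 * (num 100 * (var 0 * var 1 * var 0) * (num 1000 * (var 1) + num 21)))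
    (num 1000 * (num (-800000) * (var 0 * var 1) + (num 8000 * (var 0 * var 1) + num 84 * var 0) * (((num 1 - num 2 * (var 0 * var 1) - var 0) * var 1) * (num 95 + num (-20) * (var 1)) + ((num 1 - num 2 * (var 0 * var 1) - var 0) * var 1) * (num 4 + num 70 * (var 1)) * var 3) + var 0 * var 1 * var 0 * (num (-800000) + (num 570000 * (var 1) + num 18102 + num (-2586000) * (var 1) * (var 0) + num (-21651) * (var 0) + num 375000 * (var 1) * (var 3) + num (-672) * (var 3)))) + num (-1619) * (num 100 * (var 0 * var 1 * var 0) * (num 1000 * (var 1) + num 21)))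
  wd := num 100000000
  tn := fun b => cond b
    (num 10180 * (num 150 + num (-9) * (var 0) + num 150 * (var 1) + num 30 * (var 1) * (var 3)))
    (num 989 * (num 1050 + num (-63) * (var 0) + num 1050 * (var 1) + num 210 * (var 1) * (var 3)))
  td := num 100000000
  cn := num 1 - var 0 * var 1 - var 1 * (num 1 - num 2 * (var 0 * var 1))
  cd := (num 1 - num 2 * (var 0 * var 1)) * (num 1 - num 2 * (var 0 * var 1))
  kn := var 0 * var 1 * (num 206 + num 2000 * (var 1))
  kd := num 100
  k2n := var 0 * (num 867 + num (-450) * (var 3) + num (-1200) * (var 1))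
  k2d := num 100

/-- Its ranges. -/
def bxD67 : StripEnd.EBox :=
  ⟨(9, 10, 40), (0, 223, 1000), (21, 30, 1000), (0, 1, 1)⟩

/-- The chart `D68`. -/
def chD68 : EndChart where
  I := var 0 * var 1
  d := var 0
  w := var 0 * var 2
  den := num 100
  n₀ := ((num 1 - num 2 * (var 0 * var 1) - var 0) * var 1) * (num 98 + num (-19) * (var 1))
  n₁ := ((num 1 - num 2 * (var 0 * var 1) - var 0) * var 1) * (num 2 + num 76 * (var 1))
  q₀ := (10, 11, 40)
  q₁ := (0, 1, 5)
  q₂ := (5, 7, 500)
  q₃ := (0, 1, 1)
  t₀ := (0, 1)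
  t₁ := (1, 1)
  mu₀ := (190, 100)
  mu₁ := (257, 100)

/-- The piece `D68`. -/
def pcD68 : Piece where
  I := var 0 * var 1
  d := var 0
  w := var 0 * var 2
  o := (((num 1 - num 2 * (var 0 * var 1) - var 0) * var 1) * (num 98 + num (-19) * (var 1)) + ((num 1 - num 2 * (var 0 * var 1) - var 0) * var 1) * (num 2 + num 76 * (var 1)) * var 3)
  den := num 100
  vn := num 2 * var 1 * ((num 98 + num (-19) * (var 1)) + (num 2 + num 76 * (var 1)) * var 3)
  vs := num 1
  mu := ⟨(190, 100), (257, 100)⟩
  pn := fun b => cond b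
    (num 50000 * (num 100 - (((num 1 - num 2 * (var 0 * var 1) - var 0) * var 1) * (num 98 + num (-19) * (var 1)) + ((num 1 - num 2 * (var 0 * var 1) - var 0) * var 1) * (num 2 + num 76 * (var 1)) * var 3)) + num (-1799) * ((((num 1 - num 2 * (var 0 * var 1) - var 0) * var 1) * (num 98 + num (-19) * (var 1)) + ((num 1 - num 2 * (var 0 * var 1) - var 0) * var 1) * (num 2 + num 76 * (var 1)) * var 3) * var 0))
    (num 50000 * (num 100 - (((num 1 - num 2 * (var 0 * var 1) - var 0) * var 1) * (num 98 + num (-19) * (var 1)) + ((num 1 - num 2 * (var 0 * var 1) - var 0) * var 1) * (num 2 + num 76 * (var 1)) * var 3)) + num (-950) * ((((num 1 - num 2 * (var 0 * var 1) - var 0) * var 1) * (num 98 + num (-19) * (var 1)) + ((num 1 - num 2 * (var 0 * var 1) - var 0) * var 1) * (num 2 + num 76 * (var 1)) * var 3) * var 0))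
  pd := num 50000
  en := fun b => cond b
    (num 1016 * (num 826000 * (var 0) * (var 1) + num (-264000) * (var 0) * (var 0) * (var 1) + num 5887 + num 7434 * (var 0) + num (-312500) * (var 0) * (var 1) * (var 1)))
    (num 4905 * (num 165200 * (var 0) * (var 1) + num (-52800) * (var 0) * (var 0) * (var 1) + num 841 + num 1062 * (var 0) + num (-62500) * (var 0) * (var 1) * (var 1)))
  kk := fun b => cond b
    (num 1011 * (num 5369 * (var 0) + num 9359 * (var 0) * (var 0) + num 7280 * (var 0) * (var 1) + num 35 * (var 0) * (var 3)))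
    (num 4895 * (num 767 * (var 0) + num 1337 * (var 0) * (var 0) + num 1040 * (var 0) * (var 1) + num 5 * (var 0) * (var 3)))
  f0 := num 50000000
  wn := fun b => cond b
    (num 1000 * (num (-80000) * (var 0 * var 1) + (num 800 * (var 0 * var 1) + num 4 * var 0) * (((num 1 - num 2 * (var 0 * var 1) - var 0) * var 1) * (num 98 + num (-19) * (var 1)) + ((num 1 - num 2 * (var 0 * var 1) - var 0) * var 1) * (num 2 + num 76 * (var 1)) * var 3) + var 0 * var 1 * var 0 * (num (-80000) + (num 60500 * (var 1) + num 897 + num (-244100) * (var 1) * (var 0) + num (-1097) * (var 0) + num 26600 * (var 1) * (var 3) + num (-17) * (var 3)))) + num 681 * (num 100 * (var 0 * var 1 * var 0) * (num 100 * (var 1) + num 1)))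
    (num 1000 * (num (-80000) * (var 0 * var 1) + (num 800 * (var 0 * var 1) + num 4 * var 0) * (((num 1 - num 2 * (var 0 * var 1) - var 0) * var 1) * (num 98 + num (-19) * (var 1)) + ((num 1 - num 2 * (var 0 * var 1) - var 0) * var 1) * (num 2 + num 76 * (var 1)) * var 3) + var 0 * var 1 * var 0 * (num (-80000) + (num 60500 * (var 1) + num 897 + num (-244100) * (var 1) * (var 0) + num (-1097) * (var 0) + num 26600 * (var 1) * (var 3) + num (-17) * (var 3)))) + num (-1855) * (num 100 * (var 0 * var 1 * var 0) * (num 100 * (var 1) + num 1)))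
  wd := num 10000000
  tn := fun b => cond b
    (num 1002 * (num 357 + num (-21) * (var 0) + num 357 * (var 1) + num 70 * (var 1) * (var 3)))
    (num 4885 * (num 51 + num (-3) * (var 0) + num 51 * (var 1) + num 10 * (var 1) * (var 3)))
  td := num 50000000
  cn := num 1 - var 0 * var 1 - var 1 * (num 1 - num 2 * (var 0 * var 1))
  cd := (num 1 - num 2 * (var 0 * var 1)) * (num 1 - num 2 * (var 0 * var 1))
  kn := var 0 * var 1 * (num 119 + num 1500 * (var 1))
  kd := num 100
  k2n := var 0 * (num 717 + num (-400) * (var 3) + num (-600) * (var 1))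
  k2d := num 100

/-- Its ranges. -/
def bxD68 : StripEnd.EBox :=
  ⟨(10, 11, 40), (0, 1, 5), (5, 7, 500), (0, 1, 1)⟩

/-- The chart `D69`. -/
def chD69 : EndChart where
  I := var 0 * var 1
  d := var 0
  w := var 0 * var 2
  den := num 100
  n₀ := ((num 1 - num 2 * (var 0 * var 1) - var 0) * var 1) * (num 96 + num (-16) * (var 1))
  n₁ := ((num 1 - num 2 * (var 0 * var 1) - var 0) * var 1) * (num 3 + num 75 * (var 1))
  q₀ := (10, 11, 40)
  q₁ := (0, 1, 5)
  q₂ := (14, 25, 1000)
  q₃ := (0, 1, 1)
  t₀ := (0, 1)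
  t₁ := (1, 1)
  mu₀ := (190, 100)
  mu₁ := (257, 100)

/-- The piece `D69`. -/
def pcD69 : Piece where
  I := var 0 * var 1
  d := var 0
  w := var 0 * var 2
  o := (((num 1 - num 2 * (var 0 * var 1) - var 0) * var 1) * (num 96 + num (-16) * (var 1)) + ((num 1 - num 2 * (var 0 * var 1) - var 0) * var 1) * (num 3 + num 75 * (var 1)) * var 3)
  den := num 100
  vn := num 2 * var 1 * ((num 96 + num (-16) * (var 1)) + (num 3 + num 75 * (var 1)) * var 3)
  vs := num 1
  mu := ⟨(190, 100), (257, 100)⟩
  pn := fun b => cond b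
    (num 100000 * (num 100 - (((num 1 - num 2 * (var 0 * var 1) - var 0) * var 1) * (num 96 + num (-16) * (var 1)) + ((num 1 - num 2 * (var 0 * var 1) - var 0) * var 1) * (num 3 + num 75 * (var 1)) * var 3)) + num (-6425) * ((((num 1 - num 2 * (var 0 * var 1) - var 0) * var 1) * (num 96 + num (-16) * (var 1)) + ((num 1 - num 2 * (var 0 * var 1) - var 0) * var 1) * (num 3 + num 75 * (var 1)) * var 3) * var 0))
    (num 100000 * (num 100 - (((num 1 - num 2 * (var 0 * var 1) - var 0) * var 1) * (num 96 + num (-16) * (var 1)) + ((num 1 - num 2 * (var 0 * var 1) - var 0) * var 1) * (num 3 + num 75 * (var 1)) * var 3)) + num (-2660) * ((((num 1 - num 2 * (var 0 * var 1) - var 0) * var 1) * (num 96 + num (-16) * (var 1)) + ((num 1 - num 2 * (var 0 * var 1) - var 0) * var 1) * (num 3 + num 75 * (var 1)) * var 3) * var 0))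
  pd := num 100000
  en := fun b => cond b
    (num 25600 * (num 65320 * (var 0) * (var 1) + num (-14680) * (var 0) * (var 0) * (var 1) + num 850 + num 1031 * (var 0) + num (-23320) * (var 0) * (var 1) * (var 1)))
    (num 1952 * (num 816500 * (var 0) * (var 1) + num (-183500) * (var 0) * (var 0) * (var 1) + num 5950 + num 7217 * (var 0) + num (-291500) * (var 0) * (var 1) * (var 1)))
  kk := fun b => cond b
    (num 25275 * (num 766 * (var 0) + num 1338 * (var 0) * (var 0) + num 1042 * (var 0) * (var 1) + num 4 * (var 0) * (var 3)))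
    (num 1956 * (num 5362 * (var 0) + num 9366 * (var 0) * (var 0) + num 7294 * (var 0) * (var 1) + num 28 * (var 0) * (var 3)))
  f0 := num 100000000
  wn := fun b => cond b
    (num 1000 * (num (-400000) * (var 0 * var 1) + (num 4000 * (var 0 * var 1) + num 28 * var 0) * (((num 1 - num 2 * (var 0 * var 1) - var 0) * var 1) * (num 96 + num (-16) * (var 1)) + ((num 1 - num 2 * (var 0 * var 1) - var 0) * var 1) * (num 3 + num 75 * (var 1)) * var 3) + var 0 * var 1 * var 0 * (num (-400000) + (num 301500 * (var 1) + num 6104 + num (-1312000) * (var 1) * (var 0) + num (-6888) * (var 0) + num 165000 * (var 1) * (var 3) + num (-315) * (var 3)))) + num 471 * (num 100 * (var 0 * var 1 * var 0) * (num 500 * (var 1) + num 7)))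
    (num 1000 * (num (-400000) * (var 0 * var 1) + (num 4000 * (var 0 * var 1) + num 28 * var 0) * (((num 1 - num 2 * (var 0 * var 1) - var 0) * var 1) * (num 96 + num (-16) * (var 1)) + ((num 1 - num 2 * (var 0 * var 1) - var 0) * var 1) * (num 3 + num 75 * (var 1)) * var 3) + var 0 * var 1 * var 0 * (num (-400000) + (num 301500 * (var 1) + num 6104 + num (-1312000) * (var 1) * (var 0) + num (-6888) * (var 0) + num 165000 * (var 1) * (var 3) + num (-315) * (var 3)))) + num (-1591) * (num 100 * (var 0 * var 1 * var 0) * (num 500 * (var 1) + num 7)))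
  wd := num 50000000
  tn := fun b => cond b
    (num 25450 * (num 50 + num (-3) * (var 0) + num 51 * (var 1) + num 8 * (var 1) * (var 3)))
    (num 1980 * (num 350 + num (-21) * (var 0) + num 357 * (var 1) + num 56 * (var 1) * (var 3)))
  td := num 100000000
  cn := num 1 - var 0 * var 1 - var 1 * (num 1 - num 2 * (var 0 * var 1))
  cd := (num 1 - num 2 * (var 0 * var 1)) * (num 1 - num 2 * (var 0 * var 1))
  kn := var 0 * var 1 * (num 236 + num 1500 * (var 1))
  kd := num 100
  k2n := var 0 * (num 1057 + num (-550) * (var 3) + num (-1600) * (var 1))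
  k2d := num 100

/-- Its ranges. -/
def bxD69 : StripEnd.EBox :=
  ⟨(10, 11, 40), (0, 1, 5), (14, 25, 1000), (0, 1, 1)⟩

/-- The chart `D70`. -/
def chD70 : EndChart where
  I := var 0 * var 1
  d := var 0
  w := var 0 * var 2
  den := num 100
  n₀ := ((num 1 - num 2 * (var 0 * var 1) - var 0) * var 1) * (num 95 + num (-15) * (var 1))
  n₁ := ((num 1 - num 2 * (var 0 * var 1) - var 0) * var 1) * (num 4 + num 68 * (var 1))
  q₀ := (10, 11, 40)
  q₁ := (0, 1, 5)
  q₂ := (5, 6, 200)
  q₃ := (0, 1, 1)
  t₀ := (0, 1)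
  t₁ := (1, 1)
  mu₀ := (190, 100)
  mu₁ := (256, 100)

/-- The piece `D70`. -/
def pcD70 : Piece where
  I := var 0 * var 1
  d := var 0
  w := var 0 * var 2
  o := (((num 1 - num 2 * (var 0 * var 1) - var 0) * var 1) * (num 95 + num (-15) * (var 1)) + ((num 1 - num 2 * (var 0 * var 1) - var 0) * var 1) * (num 4 + num 68 * (var 1)) * var 3)
  den := num 100
  vn := num 2 * var 1 * ((num 95 + num (-15) * (var 1)) + (num 4 + num 68 * (var 1)) * var 3)
  vs := num 1
  mu := ⟨(190, 100), (256, 100)⟩
  pn := fun b => cond b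
    (num 20000 * (num 100 - (((num 1 - num 2 * (var 0 * var 1) - var 0) * var 1) * (num 95 + num (-15) * (var 1)) + ((num 1 - num 2 * (var 0 * var 1) - var 0) * var 1) * (num 4 + num 68 * (var 1)) * var 3)) + num (-1536) * ((((num 1 - num 2 * (var 0 * var 1) - var 0) * var 1) * (num 95 + num (-15) * (var 1)) + ((num 1 - num 2 * (var 0 * var 1) - var 0) * var 1) * (num 4 + num 68 * (var 1)) * var 3) * var 0))
    (num 20000 * (num 100 - (((num 1 - num 2 * (var 0 * var 1) - var 0) * var 1) * (num 95 + num (-15) * (var 1)) + ((num 1 - num 2 * (var 0 * var 1) - var 0) * var 1) * (num 4 + num 68 * (var 1)) * var 3)) + num (-950) * ((((num 1 - num 2 * (var 0 * var 1) - var 0) * var 1) * (num 95 + num (-15) * (var 1)) + ((num 1 - num 2 * (var 0 * var 1) - var 0) * var 1) * (num 4 + num 68 * (var 1)) * var 3) * var 0))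
  pd := num 20000
  en := fun b => cond b
    (num 2028 * (num 172100 * (var 0) * (var 1) + num (-52000) * (var 0) * (var 0) * (var 1) + num 2508 + num 3234 * (var 0) + num (-61500) * (var 0) * (var 1) * (var 1)))
    (num 4910 * (num 68840 * (var 0) * (var 1) + num (-20800) * (var 0) * (var 0) * (var 1) + num 836 + num 1078 * (var 0) + num (-24600) * (var 0) * (var 1) * (var 1)))
  kk := fun b => cond b
    (num 2022 * (num 2298 * (var 0) + num 4008 * (var 0) * (var 0) + num 3102 * (var 0) * (var 1) + num 15 * (var 0) * (var 3)))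
    (num 4900 * (num 766 * (var 0) + num 1336 * (var 0) * (var 0) + num 1034 * (var 0) * (var 1) + num 5 * (var 0) * (var 3)))
  f0 := num 20000000
  wn := fun b => cond b
    (num 1000 * (num (-32000) * (var 0 * var 1) + (num 320 * (var 0 * var 1) + num 4 * var 0) * (((num 1 - num 2 * (var 0 * var 1) - var 0) * var 1) * (num 95 + num (-15) * (var 1)) + ((num 1 - num 2 * (var 0 * var 1) - var 0) * var 1) * (num 4 + num 68 * (var 1)) * var 3) + var 0 * var 1 * var 0 * (num (-32000) + (num 24440 * (var 1) + num 845 + num (-106360) * (var 1) * (var 0) + num (-1001) * (var 0) + num 14240 * (var 1) * (var 3) + num (-9) * (var 3)))) + num 225 * (num 100 * (var 0 * var 1 * var 0) * (num 40 * (var 1) + num 1)))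
    (num 1000 * (num (-32000) * (var 0 * var 1) + (num 320 * (var 0 * var 1) + num 4 * var 0) * (((num 1 - num 2 * (var 0 * var 1) - var 0) * var 1) * (num 95 + num (-15) * (var 1)) + ((num 1 - num 2 * (var 0 * var 1) - var 0) * var 1) * (num 4 + num 68 * (var 1)) * var 3) + var 0 * var 1 * var 0 * (num (-32000) + (num 24440 * (var 1) + num 845 + num (-106360) * (var 1) * (var 0) + num (-1001) * (var 0) + num 14240 * (var 1) * (var 3) + num (-9) * (var 3)))) + num (-1487) * (num 100 * (var 0 * var 1 * var 0) * (num 40 * (var 1) + num 1)))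
  wd := num 4000000
  tn := fun b => cond b
    (num 2018 * (num 150 + num (-6) * (var 0) + num 147 * (var 1) + num 30 * (var 1) * (var 3)))
    (num 4930 * (num 50 + num (-2) * (var 0) + num 49 * (var 1) + num 10 * (var 1) * (var 3)))
  td := num 20000000
  cn := num 1 - var 0 * var 1 - var 1 * (num 1 - num 2 * (var 0 * var 1))
  cd := (num 1 - num 2 * (var 0 * var 1)) * (num 1 - num 2 * (var 0 * var 1))
  kn := var 0 * var 1 * (num 161 + num 2000 * (var 1))
  kd := num 100
  k2n := var 0 * (num 742 + num (-400) * (var 3) + num (-1100) * (var 1))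
  k2d := num 100

/-- Its ranges. -/
def bxD70 : StripEnd.EBox :=
  ⟨(10, 11, 40), (0, 1, 5), (5, 6, 200), (0, 1, 1)⟩

/-- The chart `D71`. -/
def chD71 : EndChart where
  I := var 0 * var 1
  d := var 0
  w := var 0 * var 2
  den := num 100
  n₀ := ((num 1 - num 2 * (var 0 * var 1) - var 0) * var 1) * (num 98 + num (-13) * (var 1))
  n₁ := ((num 1 - num 2 * (var 0 * var 1) - var 0) * var 1) * (num 3 + num 69 * (var 1))
  q₀ := (11, 12, 40)
  q₁ := (0, 91, 500)
  q₂ := (5, 7, 500)
  q₃ := (0, 1, 1)
  t₀ := (0, 1)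
  t₁ := (1, 1)
  mu₀ := (190, 100)
  mu₁ := (259, 100)

/-- The piece `D71`. -/
def pcD71 : Piece where
  I := var 0 * var 1
  d := var 0
  w := var 0 * var 2
  o := (((num 1 - num 2 * (var 0 * var 1) - var 0) * var 1) * (num 98 + num (-13) * (var 1)) + ((num 1 - num 2 * (var 0 * var 1) - var 0) * var 1) * (num 3 + num 69 * (var 1)) * var 3)
  den := num 100
  vn := num 2 * var 1 * ((num 98 + num (-13) * (var 1)) + (num 3 + num 69 * (var 1)) * var 3)
  vs := num 1
  mu := ⟨(190, 100), (259, 100)⟩
  pn := fun b => cond b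
    (num 50000 * (num 100 - (((num 1 - num 2 * (var 0 * var 1) - var 0) * var 1) * (num 98 + num (-13) * (var 1)) + ((num 1 - num 2 * (var 0 * var 1) - var 0) * var 1) * (num 3 + num 69 * (var 1)) * var 3)) + num (-1813) * ((((num 1 - num 2 * (var 0 * var 1) - var 0) * var 1) * (num 98 + num (-13) * (var 1)) + ((num 1 - num 2 * (var 0 * var 1) - var 0) * var 1) * (num 3 + num 69 * (var 1)) * var 3) * var 0))
    (num 50000 * (num 100 - (((num 1 - num 2 * (var 0 * var 1) - var 0) * var 1) * (num 98 + num (-13) * (var 1)) + ((num 1 - num 2 * (var 0 * var 1) - var 0) * var 1) * (num 3 + num 69 * (var 1)) * var 3)) + num (-950) * ((((num 1 - num 2 * (var 0 * var 1) - var 0) * var 1) * (num 98 + num (-13) * (var 1)) + ((num 1 - num 2 * (var 0 * var 1) - var 0) * var 1) * (num 3 + num 69 * (var 1)) * var 3) * var 0))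
  pd := num 50000
  en := fun b => cond b
    (num 1014 * (num 838000 * (var 0) * (var 1) + num (-319500) * (var 0) * (var 0) * (var 1) + num 6279 + num 6027 * (var 0) + num (-291500) * (var 0) * (var 1) * (var 1)))
    (num 4920 * (num 167600 * (var 0) * (var 1) + num (-63900) * (var 0) * (var 0) * (var 1) + num 897 + num 861 * (var 0) + num (-58300) * (var 0) * (var 1) * (var 1)))
  kk := fun b => cond b
    (num 1010 * (num 5880 * (var 0) + num 7385 * (var 0) * (var 0) + num 7868 * (var 0) * (var 1) + num 35 * (var 0) * (var 3)))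
    (num 4905 * (num 840 * (var 0) + num 1055 * (var 0) * (var 0) + num 1124 * (var 0) * (var 1) + num 5 * (var 0) * (var 3)))
  f0 := num 50000000
  wn := fun b => cond b
    (num 1000 * (num (-80000) * (var 0 * var 1) + (num 800 * (var 0 * var 1) + num 4 * var 0) * (((num 1 - num 2 * (var 0 * var 1) - var 0) * var 1) * (num 98 + num (-13) * (var 1)) + ((num 1 - num 2 * (var 0 * var 1) - var 0) * var 1) * (num 3 + num 69 * (var 1)) * var 3) + var 0 * var 1 * var 0 * (num (-80000) + (num 36700 * (var 1) + num 954 + num (-149600) * (var 1) * (var 0) + num (-1365) * (var 0) + num 23000 * (var 1) * (var 3) + num 79 * (var 3)))) + num 587 * (num 100 * (var 0 * var 1 * var 0) * (num 100 * (var 1) + num 1)))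
    (num 1000 * (num (-80000) * (var 0 * var 1) + (num 800 * (var 0 * var 1) + num 4 * var 0) * (((num 1 - num 2 * (var 0 * var 1) - var 0) * var 1) * (num 98 + num (-13) * (var 1)) + ((num 1 - num 2 * (var 0 * var 1) - var 0) * var 1) * (num 3 + num 69 * (var 1)) * var 3) + var 0 * var 1 * var 0 * (num (-80000) + (num 36700 * (var 1) + num 954 + num (-149600) * (var 1) * (var 0) + num (-1365) * (var 0) + num 23000 * (var 1) * (var 3) + num 79 * (var 3)))) + num (-2078) * (num 100 * (var 0 * var 1 * var 0) * (num 100 * (var 1) + num 1)))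
  wd := num 10000000
  tn := fun b => cond b
    (num 996 * (num 357 + num (-14) * (var 0) + num 350 * (var 1) + num 70 * (var 1) * (var 3)))
    (num 4855 * (num 51 + num (-2) * (var 0) + num 50 * (var 1) + num 10 * (var 1) * (var 3)))
  td := num 50000000
  cn := num 1 - var 0 * var 1 - var 1 * (num 1 - num 2 * (var 0 * var 1))
  cd := (num 1 - num 2 * (var 0 * var 1)) * (num 1 - num 2 * (var 0 * var 1))
  kn := var 0 * var 1 * (num 163 + num 1000 * (var 1))
  kd := num 100
  k2n := var 0 * (num 735 + num (-350) * (var 3) + num (-1100) * (var 1))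
  k2d := num 100

/-- Its ranges. -/
def bxD71 : StripEnd.EBox :=
  ⟨(11, 12, 40), (0, 91, 500), (5, 7, 500), (0, 1, 1)⟩

end Vale.Agent.P100.Calib.StripEndD
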