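import Vale.Agent.P100.Calib.SlabStripEndDSide
import Vale.Agent.P100.Calib.SlabStripEndBig
import Vale.Agent.P100.Calib.SlabStripEndDDataC

/-!
# The checks of the bins `D48`, `D49` of the strip for `u` near one, `d` large
-/

namespace Vale.Agent.P100.Calib.StripEndD

open Pack hiding ev_add ev_mul
open Pack.Ex StripMid StripEnd

local instance endDCheck24Add : Add Ex := ⟨Ex.add⟩
local instance endDCheck24Sub : Sub Ex := ⟨Ex.sub⟩
local instance endDCheck24Mul : Mul Ex := ⟨Ex.mul⟩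

/-- The checks of `D48`. -/
theorem certD48 : Cert pcD48 bxD48 := by
  have h_g1 : ∀ s p l : Bool,
      checkFour bxD48.C 176 7 12 0 5
        (pcD48.at ⟨p, l, !s, !s, false⟩ (c1 s)) = true := by
    decide +kernel
  have h_g2 : ∀ s p l t : Bool,
      checkFour bxD48.C 442 20 30 0 10
        (pcD48.at ⟨p, l, true, true, t⟩ (StripEnd.strict (c2 s))) = true := by
    decide +kernel
  have h_g5 : ∀ s p l t : Bool,
      checkFour bxD48.C 463 18 28 0 9
        (pcD48.at ⟨p, l, true, true, t⟩ (StripEnd.strict (c5 s))) = true := by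
    decide +kernel
  have h_gMG : ∀ p l t : Bool,
      checkFour bxD48.C 353 17 27 0 8
        (pcD48.at ⟨p, l, true, false, t⟩ tplMG) = true := by
    decide +kernel
  have h_v2 : ∀ s : Bool,
      checkFour bxD48.C 87 5 9 0 4
        (pcD48.at ⟨false, false, true, true, false⟩ (curve2 s)) = true := by
    decide +kernel
  have h_v5 : ∀ s : Bool,
      checkFour bxD48.C 94 6 9 0 4
        (pcD48.at ⟨false, false, true, true, false⟩ (curve5 s)) = true := by
    decide +kernel
  have h_wP : ∀ b hi : Bool,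
      checkFour bxD48.C 58 2 3 1 1
        (pcD48.winP b hi) = true := by
    decide +kernel
  have h_wE : ∀ b hi : Bool,
      checkFour bxD48.C 170 11 14 2 3
        (pcD48.winE b hi) = true := by
    decide +kernel
  have h_wK : ∀ b hi : Bool,
      checkFour bxD48.C 159 12 12 2 3
        (pcD48.winK b hi) = true := by
    decide +kernel
  have h_wW : ∀ b : Bool,
      checkFour bxD48.C 142 8 10 2 3
        (pcD48.winW b) = true := by
    decide +kernel
  have h_wY : ∀ b : Bool,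
      checkFour bxD48.C 277 17 21 3 6
        (pcD48.winY b) = true := by
    decide +kernel
  have h_wT : ∀ b hi : Bool,
      checkFour bxD48.C 132 7 9 2 4
        (pcD48.winT b hi) = true := by
    decide +kernel
  have h_gap : ∀ b t : Bool,
      checkFour bxD48.C 304 22 27 3 6
        (pcD48.gap b t) = true := by
    decide +kernel
  exact {
    pos := ⟨by norm_num [pcD48], by norm_num [pcD48]⟩
    low := ⟨by norm_num [bxD48], by norm_num [bxD48], by norm_num [bxD48]⟩
    sgns := fun f => by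
      cases f
      case I => exact ⟨125, 3, 3, 3, 0, by decide +kernel⟩
      case d => exact ⟨125, 3, 3, 3, 0, by decide +kernel⟩
      case A => exact ⟨130, 3, 3, 3, 0, by decide +kernel⟩
      case S => exact ⟨130, 3, 3, 3, 0, by decide +kernel⟩
      case U => exact ⟨130, 3, 3, 3, 0, by decide +kernel⟩
      case den => exact ⟨137, 3, 3, 3, 0, by decide +kernel⟩
      case o => exact ⟨138, 3, 3, 3, 1, by decide +kernel⟩
      case olt => exact ⟨139, 3, 3, 3, 1, by decide +kernel⟩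
      case pd => exact ⟨145, 3, 3, 3, 0, by decide +kernel⟩
      case e0 => exact ⟨155, 3, 3, 3, 0, by decide +kernel⟩
      case f0 => exact ⟨155, 3, 3, 3, 0, by decide +kernel⟩
      case wd => exact ⟨155, 3, 3, 3, 0, by decide +kernel⟩
      case td => exact ⟨155, 3, 3, 3, 0, by decide +kernel⟩
      case cd => exact ⟨130, 3, 3, 3, 0, by decide +kernel⟩
      case kd => exact ⟨137, 3, 3, 3, 0, by decide +kernel⟩
    kn := ⟨24, 2, 2, 0, 0, by decide +kernel⟩
    k2n := ⟨136, 3, 3, 3, 1, by decide +kernel⟩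
    k2d := ⟨137, 3, 3, 3, 0, by decide +kernel⟩
    vs := ⟨130, 3, 3, 3, 0, by decide +kernel⟩
    vMG := ⟨79, 5, 8, 0, 4, by decide +kernel⟩
    g1 := fun s p l => ⟨176, 7, 12, 0, 5, h_g1 s p l⟩
    g2 := fun s p l t => ⟨442, 20, 30, 0, 10, h_g2 s p l t⟩
    g5 := fun s p l t => ⟨463, 18, 28, 0, 9, h_g5 s p l t⟩
    gMG := fun p l t => ⟨353, 17, 27, 0, 8, h_gMG p l t⟩
    v2 := fun s => ⟨87, 5, 9, 0, 4, h_v2 s⟩
    v5 := fun s => ⟨94, 6, 9, 0, 4, h_v5 s⟩
    wP := fun b hi => ⟨58, 2, 3, 1, 1, h_wP b hi⟩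
    wE := fun b hi => ⟨170, 11, 14, 2, 3, h_wE b hi⟩
    wK := fun b hi => ⟨159, 12, 12, 2, 3, h_wK b hi⟩
    wW := fun b => ⟨142, 8, 10, 2, 3, h_wW b⟩
    wY := fun b => ⟨277, 17, 21, 3, 6, h_wY b⟩
    wT := fun b hi => ⟨132, 7, 9, 2, 4, h_wT b hi⟩
    gap := fun b t => ⟨304, 22, 27, 3, 6, h_gap b t⟩
  }

/-- The window of `D48`. -/
theorem okD48 : chD48.Cert where
  flat := ⟨fun _ _ _ _ => rfl, fun _ _ _ _ => rfl, fun _ _ _ _ => rfl, fun _ _ _ _ => rfl,
    fun _ _ _ _ => rfl, fun _ _ _ _ => rfl⟩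
  fits := ⟨by norm_num [chD48], by norm_num [chD48], by norm_num [chD48],
    by norm_num [chD48]⟩
  left := ⟨158, 13, 15, 3, 3, by decide +kernel⟩
  right := ⟨153, 12, 13, 3, 3, by decide +kernel⟩
  up := ⟨178, 13, 16, 3, 4, by decide +kernel⟩
  down := ⟨185, 13, 15, 4, 4, by decide +kernel⟩

/-- The bin `D48`. -/
theorem binD48 : SideBin chD48 pcD48 bxD48 :=
  ⟨⟨⟨fun _ => rfl, fun _ => rfl, fun _ => rfl, fun _ => rfl, fun _ => rfl, fun x => by
      simp only [pcD48, Piece.A, Piece.S, ev_add, ev_sub, ev_mul, Ex.eval]; push_cast; ring,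
      rfl, rfl⟩,
      ⟨rfl, rfl, rfl, rfl⟩, rfl, rfl, rfl, rfl, by norm_num [chD48], rfl, rfl, rfl, rfl⟩,
    okD48, certD48⟩

/-- The checks of `D49`. -/
theorem certD49 : Cert pcD49 bxD49 := by
  have h_g1 : ∀ s p l : Bool,
      checkFour bxD49.C 180 7 12 0 5
        (pcD49.at ⟨p, l, !s, !s, false⟩ (c1 s)) = true := by
    decide +kernel
  have h_g2 : ∀ s p l t : Bool,
      checkFour bxD49.C 452 20 30 0 10
        (pcD49.at ⟨p, l, true, true, t⟩ (StripEnd.strict (c2 s))) = true := by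
    decide +kernel
  have h_g5 : ∀ s p l t : Bool,
      checkFour bxD49.C 473 18 28 0 9
        (pcD49.at ⟨p, l, true, true, t⟩ (StripEnd.strict (c5 s))) = true := by
    decide +kernel
  have h_gMG : ∀ p l t : Bool,
      checkFour bxD49.C 363 17 27 0 8
        (pcD49.at ⟨p, l, true, false, t⟩ tplMG) = true := by
    decide +kernel
  have h_v2 : ∀ s : Bool,
      checkFour bxD49.C 87 5 9 0 4
        (pcD49.at ⟨false, false, true, true, false⟩ (curve2 s)) = true := by
    decide +kernel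
  have h_v5 : ∀ s : Bool,
      checkFour bxD49.C 94 6 9 0 4
        (pcD49.at ⟨false, false, true, true, false⟩ (curve5 s)) = true := by
    decide +kernel
  have h_wP : ∀ b hi : Bool,
      checkFour bxD49.C 62 2 3 1 1
        (pcD49.winP b hi) = true := by
    decide +kernel
  have h_wE : ∀ b hi : Bool,
      checkFour bxD49.C 176 11 14 2 3
        (pcD49.winE b hi) = true := by
    decide +kernel
  have h_wK : ∀ b hi : Bool,
      checkFour bxD49.C 165 12 12 2 3
        (pcD49.winK b hi) = true := by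
    decide +kernel
  have h_wW : ∀ b : Bool,
      checkFour bxD49.C 146 8 10 2 3
        (pcD49.winW b) = true := by
    decide +kernel
  have h_wY : ∀ b : Bool,
      checkFour bxD49.C 285 17 21 3 6
        (pcD49.winY b) = true := by
    decide +kernel
  have h_wT : ∀ b hi : Bool,
      checkFour bxD49.C 139 7 9 2 4
        (pcD49.winT b hi) = true := by
    decide +kernel
  have h_gap : ∀ b t : Bool,
      checkFour bxD49.C 312 22 27 3 6
        (pcD49.gap b t) = true := by
    decide +kernel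
  exact {
    pos := ⟨by norm_num [pcD49], by norm_num [pcD49]⟩
    low := ⟨by norm_num [bxD49], by norm_num [bxD49], by norm_num [bxD49]⟩
    sgns := fun f => by
      cases f
      case I => exact ⟨131, 3, 3, 3, 0, by decide +kernel⟩
      case d => exact ⟨131, 3, 3, 3, 0, by decide +kernel⟩
      case A => exact ⟨136, 3, 3, 3, 0, by decide +kernel⟩
      case S => exact ⟨136, 3, 3, 3, 0, by decide +kernel⟩
      case U => exact ⟨136, 3, 3, 3, 0, by decide +kernel⟩
      case den => exact ⟨143, 3, 3, 3, 0, by decide +kernel⟩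
      case o => exact ⟨144, 3, 3, 3, 1, by decide +kernel⟩
      case olt => exact ⟨145, 3, 3, 3, 1, by decide +kernel⟩
      case pd => exact ⟨153, 3, 3, 3, 0, by decide +kernel⟩
      case e0 => exact ⟨163, 3, 3, 3, 0, by decide +kernel⟩
      case f0 => exact ⟨163, 3, 3, 3, 0, by decide +kernel⟩
      case wd => exact ⟨161, 3, 3, 3, 0, by decide +kernel⟩
      case td => exact ⟨163, 3, 3, 3, 0, by decide +kernel⟩
      case cd => exact ⟨136, 3, 3, 3, 0, by decide +kernel⟩
      case kd => exact ⟨143, 3, 3, 3, 0, by decide +kernel⟩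
    kn := ⟨24, 2, 2, 0, 0, by decide +kernel⟩
    k2n := ⟨142, 3, 3, 3, 1, by decide +kernel⟩
    k2d := ⟨143, 3, 3, 3, 0, by decide +kernel⟩
    vs := ⟨136, 3, 3, 3, 0, by decide +kernel⟩
    vMG := ⟨79, 5, 8, 0, 4, by decide +kernel⟩
    g1 := fun s p l => ⟨180, 7, 12, 0, 5, h_g1 s p l⟩
    g2 := fun s p l t => ⟨452, 20, 30, 0, 10, h_g2 s p l t⟩
    g5 := fun s p l t => ⟨473, 18, 28, 0, 9, h_g5 s p l t⟩
    gMG := fun p l t => ⟨363, 17, 27, 0, 8, h_gMG p l t⟩
    v2 := fun s => ⟨87, 5, 9, 0, 4, h_v2 s⟩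
    v5 := fun s => ⟨94, 6, 9, 0, 4, h_v5 s⟩
    wP := fun b hi => ⟨62, 2, 3, 1, 1, h_wP b hi⟩
    wE := fun b hi => ⟨176, 11, 14, 2, 3, h_wE b hi⟩
    wK := fun b hi => ⟨165, 12, 12, 2, 3, h_wK b hi⟩
    wW := fun b => ⟨146, 8, 10, 2, 3, h_wW b⟩
    wY := fun b => ⟨285, 17, 21, 3, 6, h_wY b⟩
    wT := fun b hi => ⟨139, 7, 9, 2, 4, h_wT b hi⟩
    gap := fun b t => ⟨312, 22, 27, 3, 6, h_gap b t⟩
  }

/-- The window of `D49`. -/
theorem okD49 : chD49.Cert where
  flat := ⟨fun _ _ _ _ => rfl, fun _ _ _ _ => rfl, fun _ _ _ _ => rfl, fun _ _ _ _ => rfl,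
    fun _ _ _ _ => rfl, fun _ _ _ _ => rfl⟩
  fits := ⟨by norm_num [chD49], by norm_num [chD49], by norm_num [chD49],
    by norm_num [chD49]⟩
  left := ⟨164, 13, 15, 3, 3, by decide +kernel⟩
  right := ⟨159, 12, 13, 3, 3, by decide +kernel⟩
  up := ⟨184, 13, 16, 3, 4, by decide +kernel⟩
  down := ⟨192, 13, 15, 4, 4, by decide +kernel⟩

/-- The bin `D49`. -/
theorem binD49 : SideBin chD49 pcD49 bxD49 :=
  ⟨⟨⟨fun _ => rfl, fun _ => rfl, fun _ => rfl, fun _ => rfl, fun _ => rfl, fun x => by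
      simp only [pcD49, Piece.A, Piece.S, ev_add, ev_sub, ev_mul, Ex.eval]; push_cast; ring,
      rfl, rfl⟩,
      ⟨rfl, rfl, rfl, rfl⟩, rfl, rfl, rfl, rfl, by norm_num [chD49], rfl, rfl, rfl, rfl⟩,
    okD49, certD49⟩

end Vale.Agent.P100.Calib.StripEndD
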