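import Vale.Agent.P100.Calib.SlabStripEndDSide
import Vale.Agent.P100.Calib.SlabStripEndBig
import Vale.Agent.P100.Calib.SlabStripEndDDataC

/-!
# The checks of the bins `D50`, `D51` of the strip for `u` near one, `d` large
-/

namespace Vale.Agent.P100.Calib.StripEndD

open Pack hiding ev_add ev_mul
open Pack.Ex StripMid StripEnd

local instance endDCheck25Add : Add Ex := ⟨Ex.add⟩
local instance endDCheck25Sub : Sub Ex := ⟨Ex.sub⟩
local instance endDCheck25Mul : Mul Ex := ⟨Ex.mul⟩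

/-- The checks of `D50`. -/
theorem certD50 : Cert pcD50 bxD50 := by
  have h_g1 : ∀ s p l : Bool,
      checkFour bxD50.C 182 7 12 0 5
        (pcD50.at ⟨p, l, !s, !s, false⟩ (c1 s)) = true := by
    decide +kernel
  have h_g2 : ∀ s p l t : Bool,
      checkFour bxD50.C 452 20 30 0 10
        (pcD50.at ⟨p, l, true, true, t⟩ (StripEnd.strict (c2 s))) = true := by
    decide +kernel
  have h_g5 : ∀ s p l t : Bool,
      checkFour bxD50.C 475 18 28 0 9
        (pcD50.at ⟨p, l, true, true, t⟩ (StripEnd.strict (c5 s))) = true := by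
    decide +kernel
  have h_gMG : ∀ p l t : Bool,
      checkFour bxD50.C 364 17 27 0 8
        (pcD50.at ⟨p, l, true, false, t⟩ tplMG) = true := by
    decide +kernel
  have h_v2 : ∀ s : Bool,
      checkFour bxD50.C 86 5 9 0 4
        (pcD50.at ⟨false, false, true, true, false⟩ (curve2 s)) = true := by
    decide +kernel
  have h_v5 : ∀ s : Bool,
      checkFour bxD50.C 94 6 9 0 4
        (pcD50.at ⟨false, false, true, true, false⟩ (curve5 s)) = true := by
    decide +kernel
  have h_wP : ∀ b hi : Bool,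
      checkFour bxD50.C 62 2 3 1 1
        (pcD50.winP b hi) = true := by
    decide +kernel
  have h_wE : ∀ b hi : Bool,
      checkFour bxD50.C 176 11 14 2 3
        (pcD50.winE b hi) = true := by
    decide +kernel
  have h_wK : ∀ b hi : Bool,
      checkFour bxD50.C 165 12 12 2 3
        (pcD50.winK b hi) = true := by
    decide +kernel
  have h_wW : ∀ b : Bool,
      checkFour bxD50.C 148 8 10 2 3
        (pcD50.winW b) = true := by
    decide +kernel
  have h_wY : ∀ b : Bool,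
      checkFour bxD50.C 287 17 21 3 6
        (pcD50.winY b) = true := by
    decide +kernel
  have h_wT : ∀ b hi : Bool,
      checkFour bxD50.C 139 7 9 2 4
        (pcD50.winT b hi) = true := by
    decide +kernel
  have h_gap : ∀ b t : Bool,
      checkFour bxD50.C 312 22 27 3 6
        (pcD50.gap b t) = true := by
    decide +kernel
  exact {
    pos := ⟨by norm_num [pcD50], by norm_num [pcD50]⟩
    low := ⟨by norm_num [bxD50], by norm_num [bxD50], by norm_num [bxD50]⟩
    sgns := fun f => by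
      cases f
      case I => exact ⟨131, 3, 3, 3, 0, by decide +kernel⟩
      case d => exact ⟨131, 3, 3, 3, 0, by decide +kernel⟩
      case A => exact ⟨136, 3, 3, 3, 0, by decide +kernel⟩
      case S => exact ⟨136, 3, 3, 3, 0, by decide +kernel⟩
      case U => exact ⟨136, 3, 3, 3, 0, by decide +kernel⟩
      case den => exact ⟨143, 3, 3, 3, 0, by decide +kernel⟩
      case o => exact ⟨143, 3, 3, 3, 1, by decide +kernel⟩
      case olt => exact ⟨145, 3, 3, 3, 1, by decide +kernel⟩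
      case pd => exact ⟨153, 3, 3, 3, 0, by decide +kernel⟩
      case e0 => exact ⟨163, 3, 3, 3, 0, by decide +kernel⟩
      case f0 => exact ⟨163, 3, 3, 3, 0, by decide +kernel⟩
      case wd => exact ⟨163, 3, 3, 3, 0, by decide +kernel⟩
      case td => exact ⟨163, 3, 3, 3, 0, by decide +kernel⟩
      case cd => exact ⟨136, 3, 3, 3, 0, by decide +kernel⟩
      case kd => exact ⟨143, 3, 3, 3, 0, by decide +kernel⟩
    kn := ⟨23, 2, 2, 0, 0, by decide +kernel⟩
    k2n := ⟨142, 3, 3, 3, 1, by decide +kernel⟩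
    k2d := ⟨143, 3, 3, 3, 0, by decide +kernel⟩
    vs := ⟨136, 3, 3, 3, 0, by decide +kernel⟩
    vMG := ⟨79, 5, 8, 0, 4, by decide +kernel⟩
    g1 := fun s p l => ⟨182, 7, 12, 0, 5, h_g1 s p l⟩
    g2 := fun s p l t => ⟨452, 20, 30, 0, 10, h_g2 s p l t⟩
    g5 := fun s p l t => ⟨475, 18, 28, 0, 9, h_g5 s p l t⟩
    gMG := fun p l t => ⟨364, 17, 27, 0, 8, h_gMG p l t⟩
    v2 := fun s => ⟨86, 5, 9, 0, 4, h_v2 s⟩
    v5 := fun s => ⟨94, 6, 9, 0, 4, h_v5 s⟩
    wP := fun b hi => ⟨62, 2, 3, 1, 1, h_wP b hi⟩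
    wE := fun b hi => ⟨176, 11, 14, 2, 3, h_wE b hi⟩
    wK := fun b hi => ⟨165, 12, 12, 2, 3, h_wK b hi⟩
    wW := fun b => ⟨148, 8, 10, 2, 3, h_wW b⟩
    wY := fun b => ⟨287, 17, 21, 3, 6, h_wY b⟩
    wT := fun b hi => ⟨139, 7, 9, 2, 4, h_wT b hi⟩
    gap := fun b t => ⟨312, 22, 27, 3, 6, h_gap b t⟩
  }

/-- The window of `D50`. -/
theorem okD50 : chD50.Cert where
  flat := ⟨fun _ _ _ _ => rfl, fun _ _ _ _ => rfl, fun _ _ _ _ => rfl, fun _ _ _ _ => rfl,
    fun _ _ _ _ => rfl, fun _ _ _ _ => rfl⟩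
  fits := ⟨by norm_num [chD50], by norm_num [chD50], by norm_num [chD50],
    by norm_num [chD50]⟩
  left := ⟨164, 13, 15, 3, 3, by decide +kernel⟩
  right := ⟨158, 12, 13, 3, 3, by decide +kernel⟩
  up := ⟨183, 13, 16, 3, 4, by decide +kernel⟩
  down := ⟨192, 13, 15, 4, 4, by decide +kernel⟩

/-- The bin `D50`. -/
theorem binD50 : SideBin chD50 pcD50 bxD50 :=
  ⟨⟨⟨fun _ => rfl, fun _ => rfl, fun _ => rfl, fun _ => rfl, fun _ => rfl, fun x => by
      simp only [pcD50, Piece.A, Piece.S, ev_add, ev_sub, ev_mul, Ex.eval]; push_cast; ring,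
      rfl, rfl⟩,
      ⟨rfl, rfl, rfl, rfl⟩, rfl, rfl, rfl, rfl, by norm_num [chD50], rfl, rfl, rfl, rfl⟩,
    okD50, certD50⟩

/-- The checks of `D51`. -/
theorem certD51 : Cert pcD51 bxD51 := by
  have h_g1 : ∀ s p l : Bool,
      checkFour bxD51.C 173 7 12 0 5
        (pcD51.at ⟨p, l, !s, !s, false⟩ (c1 s)) = true := by
    decide +kernel
  have h_g2 : ∀ s p l t : Bool,
      checkFour bxD51.C 436 20 30 0 10
        (pcD51.at ⟨p, l, true, true, t⟩ (StripEnd.strict (c2 s))) = true := by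
    decide +kernel
  have h_g5 : ∀ s p l t : Bool,
      checkFour bxD51.C 456 18 28 0 9
        (pcD51.at ⟨p, l, true, true, t⟩ (StripEnd.strict (c5 s))) = true := by
    decide +kernel
  have h_gMG : ∀ p l t : Bool,
      checkFour bxD51.C 346 17 27 0 8
        (pcD51.at ⟨p, l, true, false, t⟩ tplMG) = true := by
    decide +kernel
  have h_v2 : ∀ s : Bool,
      checkFour bxD51.C 87 5 9 0 4
        (pcD51.at ⟨false, false, true, true, false⟩ (curve2 s)) = true := by
    decide +kernel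
  have h_v5 : ∀ s : Bool,
      checkFour bxD51.C 94 6 9 0 4
        (pcD51.at ⟨false, false, true, true, false⟩ (curve5 s)) = true := by
    decide +kernel
  have h_wP : ∀ b hi : Bool,
      checkFour bxD51.C 56 2 3 1 1
        (pcD51.winP b hi) = true := by
    decide +kernel
  have h_wE : ∀ b hi : Bool,
      checkFour bxD51.C 167 11 14 2 3
        (pcD51.winE b hi) = true := by
    decide +kernel
  have h_wK : ∀ b hi : Bool,
      checkFour bxD51.C 156 12 12 2 3
        (pcD51.winK b hi) = true := by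
    decide +kernel
  have h_wW : ∀ b : Bool,
      checkFour bxD51.C 139 8 10 2 3
        (pcD51.winW b) = true := by
    decide +kernel
  have h_wY : ∀ b : Bool,
      checkFour bxD51.C 271 17 21 3 6
        (pcD51.winY b) = true := by
    decide +kernel
  have h_wT : ∀ b hi : Bool,
      checkFour bxD51.C 130 7 9 2 4
        (pcD51.winT b hi) = true := by
    decide +kernel
  have h_gap : ∀ b t : Bool,
      checkFour bxD51.C 300 22 27 3 6
        (pcD51.gap b t) = true := by
    decide +kernel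
  exact {
    pos := ⟨by norm_num [pcD51], by norm_num [pcD51]⟩
    low := ⟨by norm_num [bxD51], by norm_num [bxD51], by norm_num [bxD51]⟩
    sgns := fun f => by
      cases f
      case I => exact ⟨122, 3, 3, 3, 0, by decide +kernel⟩
      case d => exact ⟨122, 3, 3, 3, 0, by decide +kernel⟩
      case A => exact ⟨127, 3, 3, 3, 0, by decide +kernel⟩
      case S => exact ⟨127, 3, 3, 3, 0, by decide +kernel⟩
      case U => exact ⟨127, 3, 3, 3, 0, by decide +kernel⟩
      case den => exact ⟨134, 3, 3, 3, 0, by decide +kernel⟩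
      case o => exact ⟨134, 3, 3, 3, 1, by decide +kernel⟩
      case olt => exact ⟨136, 3, 3, 3, 1, by decide +kernel⟩
      case pd => exact ⟨141, 3, 3, 3, 0, by decide +kernel⟩
      case e0 => exact ⟨152, 3, 3, 3, 0, by decide +kernel⟩
      case f0 => exact ⟨151, 3, 3, 3, 0, by decide +kernel⟩
      case wd => exact ⟨151, 3, 3, 3, 0, by decide +kernel⟩
      case td => exact ⟨151, 3, 3, 3, 0, by decide +kernel⟩
      case cd => exact ⟨127, 3, 3, 3, 0, by decide +kernel⟩
      case kd => exact ⟨134, 3, 3, 3, 0, by decide +kernel⟩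
    kn := ⟨23, 2, 2, 0, 0, by decide +kernel⟩
    k2n := ⟨134, 3, 3, 3, 1, by decide +kernel⟩
    k2d := ⟨134, 3, 3, 3, 0, by decide +kernel⟩
    vs := ⟨127, 3, 3, 3, 0, by decide +kernel⟩
    vMG := ⟨79, 5, 8, 0, 4, by decide +kernel⟩
    g1 := fun s p l => ⟨173, 7, 12, 0, 5, h_g1 s p l⟩
    g2 := fun s p l t => ⟨436, 20, 30, 0, 10, h_g2 s p l t⟩
    g5 := fun s p l t => ⟨456, 18, 28, 0, 9, h_g5 s p l t⟩
    gMG := fun p l t => ⟨346, 17, 27, 0, 8, h_gMG p l t⟩
    v2 := fun s => ⟨87, 5, 9, 0, 4, h_v2 s⟩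
    v5 := fun s => ⟨94, 6, 9, 0, 4, h_v5 s⟩
    wP := fun b hi => ⟨56, 2, 3, 1, 1, h_wP b hi⟩
    wE := fun b hi => ⟨167, 11, 14, 2, 3, h_wE b hi⟩
    wK := fun b hi => ⟨156, 12, 12, 2, 3, h_wK b hi⟩
    wW := fun b => ⟨139, 8, 10, 2, 3, h_wW b⟩
    wY := fun b => ⟨271, 17, 21, 3, 6, h_wY b⟩
    wT := fun b hi => ⟨130, 7, 9, 2, 4, h_wT b hi⟩
    gap := fun b t => ⟨300, 22, 27, 3, 6, h_gap b t⟩
  }

/-- The window of `D51`. -/
theorem okD51 : chD51.Cert where
  flat := ⟨fun _ _ _ _ => rfl, fun _ _ _ _ => rfl, fun _ _ _ _ => rfl, fun _ _ _ _ => rfl,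
    fun _ _ _ _ => rfl, fun _ _ _ _ => rfl⟩
  fits := ⟨by norm_num [chD51], by norm_num [chD51], by norm_num [chD51],
    by norm_num [chD51]⟩
  left := ⟨155, 13, 15, 3, 3, by decide +kernel⟩
  right := ⟨149, 12, 13, 3, 3, by decide +kernel⟩
  up := ⟨174, 13, 16, 3, 4, by decide +kernel⟩
  down := ⟨180, 13, 15, 4, 4, by decide +kernel⟩

/-- The bin `D51`. -/
theorem binD51 : SideBin chD51 pcD51 bxD51 :=
  ⟨⟨⟨fun _ => rfl, fun _ => rfl, fun _ => rfl, fun _ => rfl, fun _ => rfl, fun x => by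
      simp only [pcD51, Piece.A, Piece.S, ev_add, ev_sub, ev_mul, Ex.eval]; push_cast; ring,
      rfl, rfl⟩,
      ⟨rfl, rfl, rfl, rfl⟩, rfl, rfl, rfl, rfl, by norm_num [chD51], rfl, rfl, rfl, rfl⟩,
    okD51, certD51⟩

end Vale.Agent.P100.Calib.StripEndD
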