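import Vale.Agent.P100.Calib.SlabStripEndDSide
import Vale.Agent.P100.Calib.SlabStripEndBig
import Vale.Agent.P100.Calib.SlabStripEndDDataC

/-!
# The checks of the bins `D52`, `D53` of the strip for `u` near one, `d` large
-/

namespace Vale.Agent.P100.Calib.StripEndD

open Pack hiding ev_add ev_mul
open Pack.Ex StripMid StripEnd

local instance endDCheck26Add : Add Ex := ⟨Ex.add⟩
local instance endDCheck26Sub : Sub Ex := ⟨Ex.sub⟩
local instance endDCheck26Mul : Mul Ex := ⟨Ex.mul⟩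

/-- The checks of `D52`. -/
theorem certD52 : Cert pcD52 bxD52 := by
  have h_g1 : ∀ s p l : Bool,
      checkFour bxD52.C 186 7 12 0 5
        (pcD52.at ⟨p, l, !s, !s, false⟩ (c1 s)) = true := by
    decide +kernel
  have h_g2 : ∀ s p l t : Bool,
      checkFour bxD52.C 484 20 30 0 10
        (pcD52.at ⟨p, l, true, true, t⟩ (StripEnd.strict (c2 s))) = true := by
    decide +kernel
  have h_g5 : ∀ s p l t : Bool,
      checkFour bxD52.C 495 18 28 0 9
        (pcD52.at ⟨p, l, true, true, t⟩ (StripEnd.strict (c5 s))) = true := by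
    decide +kernel
  have h_gMG : ∀ p l t : Bool,
      checkFour bxD52.C 382 17 27 0 8
        (pcD52.at ⟨p, l, true, false, t⟩ tplMG) = true := by
    decide +kernel
  have h_v2 : ∀ s : Bool,
      checkFour bxD52.C 100 5 9 0 4
        (pcD52.at ⟨false, false, true, true, false⟩ (curve2 s)) = true := by
    decide +kernel
  have h_v5 : ∀ s : Bool,
      checkFour bxD52.C 108 6 9 0 4
        (pcD52.at ⟨false, false, true, true, false⟩ (curve5 s)) = true := by
    decide +kernel
  have h_wP : ∀ b hi : Bool,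
      checkFour bxD52.C 60 2 3 1 1
        (pcD52.winP b hi) = true := by
    decide +kernel
  have h_wE : ∀ b hi : Bool,
      checkFour bxD52.C 192 11 14 2 3
        (pcD52.winE b hi) = true := by
    decide +kernel
  have h_wK : ∀ b hi : Bool,
      checkFour bxD52.C 185 12 12 2 3
        (pcD52.winK b hi) = true := by
    decide +kernel
  have h_wW : ∀ b : Bool,
      checkFour bxD52.C 154 8 10 2 3
        (pcD52.winW b) = true := by
    decide +kernel
  have h_wY : ∀ b : Bool,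
      checkFour bxD52.C 309 17 21 3 6
        (pcD52.winY b) = true := by
    decide +kernel
  have h_wT : ∀ b hi : Bool,
      checkFour bxD52.C 145 7 9 2 4
        (pcD52.winT b hi) = true := by
    decide +kernel
  have h_gap : ∀ b t : Bool,
      checkFour bxD52.C 352 22 27 3 6
        (pcD52.gap b t) = true := by
    decide +kernel
  exact {
    pos := ⟨by norm_num [pcD52], by norm_num [pcD52]⟩
    low := ⟨by norm_num [bxD52], by norm_num [bxD52], by norm_num [bxD52]⟩
    sgns := fun f => by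
      cases f
      case I => exact ⟨129, 3, 3, 3, 0, by decide +kernel⟩
      case d => exact ⟨129, 3, 3, 3, 0, by decide +kernel⟩
      case A => exact ⟨134, 3, 3, 3, 0, by decide +kernel⟩
      case S => exact ⟨133, 3, 3, 3, 0, by decide +kernel⟩
      case U => exact ⟨133, 3, 3, 3, 0, by decide +kernel⟩
      case den => exact ⟨140, 3, 3, 3, 0, by decide +kernel⟩
      case o => exact ⟨141, 3, 3, 3, 1, by decide +kernel⟩
      case olt => exact ⟨142, 3, 3, 3, 1, by decide +kernel⟩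
      case pd => exact ⟨147, 3, 3, 3, 0, by decide +kernel⟩
      case e0 => exact ⟨157, 3, 3, 3, 0, by decide +kernel⟩
      case f0 => exact ⟨157, 3, 3, 3, 0, by decide +kernel⟩
      case wd => exact ⟨153, 3, 3, 3, 0, by decide +kernel⟩
      case td => exact ⟨157, 3, 3, 3, 0, by decide +kernel⟩
      case cd => exact ⟨134, 3, 3, 3, 0, by decide +kernel⟩
      case kd => exact ⟨140, 3, 3, 3, 0, by decide +kernel⟩
    kn := ⟨30, 2, 2, 0, 0, by decide +kernel⟩
    k2n := ⟨140, 3, 3, 3, 1, by decide +kernel⟩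
    k2d := ⟨140, 3, 3, 3, 0, by decide +kernel⟩
    vs := ⟨133, 3, 3, 3, 0, by decide +kernel⟩
    vMG := ⟨91, 5, 8, 0, 4, by decide +kernel⟩
    g1 := fun s p l => ⟨186, 7, 12, 0, 5, h_g1 s p l⟩
    g2 := fun s p l t => ⟨484, 20, 30, 0, 10, h_g2 s p l t⟩
    g5 := fun s p l t => ⟨495, 18, 28, 0, 9, h_g5 s p l t⟩
    gMG := fun p l t => ⟨382, 17, 27, 0, 8, h_gMG p l t⟩
    v2 := fun s => ⟨100, 5, 9, 0, 4, h_v2 s⟩
    v5 := fun s => ⟨108, 6, 9, 0, 4, h_v5 s⟩
    wP := fun b hi => ⟨60, 2, 3, 1, 1, h_wP b hi⟩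
    wE := fun b hi => ⟨192, 11, 14, 2, 3, h_wE b hi⟩
    wK := fun b hi => ⟨185, 12, 12, 2, 3, h_wK b hi⟩
    wW := fun b => ⟨154, 8, 10, 2, 3, h_wW b⟩
    wY := fun b => ⟨309, 17, 21, 3, 6, h_wY b⟩
    wT := fun b hi => ⟨145, 7, 9, 2, 4, h_wT b hi⟩
    gap := fun b t => ⟨352, 22, 27, 3, 6, h_gap b t⟩
  }

/-- The window of `D52`. -/
theorem okD52 : chD52.Cert where
  flat := ⟨fun _ _ _ _ => rfl, fun _ _ _ _ => rfl, fun _ _ _ _ => rfl, fun _ _ _ _ => rfl,
    fun _ _ _ _ => rfl, fun _ _ _ _ => rfl⟩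
  fits := ⟨by norm_num [chD52], by norm_num [chD52], by norm_num [chD52],
    by norm_num [chD52]⟩
  left := ⟨186, 13, 15, 3, 3, by decide +kernel⟩
  right := ⟨177, 12, 13, 3, 3, by decide +kernel⟩
  up := ⟨205, 13, 16, 3, 4, by decide +kernel⟩
  down := ⟨210, 13, 15, 4, 4, by decide +kernel⟩

/-- The bin `D52`. -/
theorem binD52 : SideBin chD52 pcD52 bxD52 :=
  ⟨⟨⟨fun _ => rfl, fun _ => rfl, fun _ => rfl, fun _ => rfl, fun _ => rfl, fun x => by
      simp only [pcD52, Piece.A, Piece.S, ev_add, ev_sub, ev_mul, Ex.eval]; push_cast; ring,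
      rfl, rfl⟩,
      ⟨rfl, rfl, rfl, rfl⟩, rfl, rfl, rfl, rfl, by norm_num [chD52], rfl, rfl, rfl, rfl⟩,
    okD52, certD52⟩

/-- The checks of `D53`. -/
theorem certD53 : Cert pcD53 bxD53 := by
  have h_g1 : ∀ s p l : Bool,
      checkFour bxD53.C 196 7 12 0 5
        (pcD53.at ⟨p, l, !s, !s, false⟩ (c1 s)) = true := by
    decide +kernel
  have h_g2 : ∀ s p l t : Bool,
      checkFour bxD53.C 500 20 30 0 10
        (pcD53.at ⟨p, l, true, true, t⟩ (StripEnd.strict (c2 s))) = true := by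
    decide +kernel
  have h_g5 : ∀ s p l t : Bool,
      checkFour bxD53.C 515 18 28 0 9
        (pcD53.at ⟨p, l, true, true, t⟩ (StripEnd.strict (c5 s))) = true := by
    decide +kernel
  have h_gMG : ∀ p l t : Bool,
      checkFour bxD53.C 402 17 27 0 8
        (pcD53.at ⟨p, l, true, false, t⟩ tplMG) = true := by
    decide +kernel
  have h_v2 : ∀ s : Bool,
      checkFour bxD53.C 100 5 9 0 4
        (pcD53.at ⟨false, false, true, true, false⟩ (curve2 s)) = true := by
    decide +kernel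
  have h_v5 : ∀ s : Bool,
      checkFour bxD53.C 108 6 9 0 4
        (pcD53.at ⟨false, false, true, true, false⟩ (curve5 s)) = true := by
    decide +kernel
  have h_wP : ∀ b hi : Bool,
      checkFour bxD53.C 67 2 3 1 1
        (pcD53.winP b hi) = true := by
    decide +kernel
  have h_wE : ∀ b hi : Bool,
      checkFour bxD53.C 202 11 14 2 3
        (pcD53.winE b hi) = true := by
    decide +kernel
  have h_wK : ∀ b hi : Bool,
      checkFour bxD53.C 195 12 12 2 3
        (pcD53.winK b hi) = true := by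
    decide +kernel
  have h_wW : ∀ b : Bool,
      checkFour bxD53.C 164 8 10 2 3
        (pcD53.winW b) = true := by
    decide +kernel
  have h_wY : ∀ b : Bool,
      checkFour bxD53.C 325 17 21 3 6
        (pcD53.winY b) = true := by
    decide +kernel
  have h_wT : ∀ b hi : Bool,
      checkFour bxD53.C 155 7 9 2 4
        (pcD53.winT b hi) = true := by
    decide +kernel
  have h_gap : ∀ b t : Bool,
      checkFour bxD53.C 365 22 27 3 6
        (pcD53.gap b t) = true := by
    decide +kernel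
  exact {
    pos := ⟨by norm_num [pcD53], by norm_num [pcD53]⟩
    low := ⟨by norm_num [bxD53], by norm_num [bxD53], by norm_num [bxD53]⟩
    sgns := fun f => by
      cases f
      case I => exact ⟨139, 3, 3, 3, 0, by decide +kernel⟩
      case d => exact ⟨139, 3, 3, 3, 0, by decide +kernel⟩
      case A => exact ⟨144, 3, 3, 3, 0, by decide +kernel⟩
      case S => exact ⟨143, 3, 3, 3, 0, by decide +kernel⟩
      case U => exact ⟨143, 3, 3, 3, 0, by decide +kernel⟩
      case den => exact ⟨150, 3, 3, 3, 0, by decide +kernel⟩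
      case o => exact ⟨151, 3, 3, 3, 1, by decide +kernel⟩
      case olt => exact ⟨152, 3, 3, 3, 1, by decide +kernel⟩
      case pd => exact ⟨160, 3, 3, 3, 0, by decide +kernel⟩
      case e0 => exact ⟨170, 3, 3, 3, 0, by decide +kernel⟩
      case f0 => exact ⟨170, 3, 3, 3, 0, by decide +kernel⟩
      case wd => exact ⟨167, 3, 3, 3, 0, by decide +kernel⟩
      case td => exact ⟨170, 3, 3, 3, 0, by decide +kernel⟩
      case cd => exact ⟨144, 3, 3, 3, 0, by decide +kernel⟩
      case kd => exact ⟨150, 3, 3, 3, 0, by decide +kernel⟩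
    kn := ⟨30, 2, 2, 0, 0, by decide +kernel⟩
    k2n := ⟨150, 3, 3, 3, 1, by decide +kernel⟩
    k2d := ⟨150, 3, 3, 3, 0, by decide +kernel⟩
    vs := ⟨143, 3, 3, 3, 0, by decide +kernel⟩
    vMG := ⟨91, 5, 8, 0, 4, by decide +kernel⟩
    g1 := fun s p l => ⟨196, 7, 12, 0, 5, h_g1 s p l⟩
    g2 := fun s p l t => ⟨500, 20, 30, 0, 10, h_g2 s p l t⟩
    g5 := fun s p l t => ⟨515, 18, 28, 0, 9, h_g5 s p l t⟩
    gMG := fun p l t => ⟨402, 17, 27, 0, 8, h_gMG p l t⟩
    v2 := fun s => ⟨100, 5, 9, 0, 4, h_v2 s⟩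
    v5 := fun s => ⟨108, 6, 9, 0, 4, h_v5 s⟩
    wP := fun b hi => ⟨67, 2, 3, 1, 1, h_wP b hi⟩
    wE := fun b hi => ⟨202, 11, 14, 2, 3, h_wE b hi⟩
    wK := fun b hi => ⟨195, 12, 12, 2, 3, h_wK b hi⟩
    wW := fun b => ⟨164, 8, 10, 2, 3, h_wW b⟩
    wY := fun b => ⟨325, 17, 21, 3, 6, h_wY b⟩
    wT := fun b hi => ⟨155, 7, 9, 2, 4, h_wT b hi⟩
    gap := fun b t => ⟨365, 22, 27, 3, 6, h_gap b t⟩
  }

/-- The window of `D53`. -/
theorem okD53 : chD53.Cert where
  flat := ⟨fun _ _ _ _ => rfl, fun _ _ _ _ => rfl, fun _ _ _ _ => rfl, fun _ _ _ _ => rfl,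
    fun _ _ _ _ => rfl, fun _ _ _ _ => rfl⟩
  fits := ⟨by norm_num [chD53], by norm_num [chD53], by norm_num [chD53],
    by norm_num [chD53]⟩
  left := ⟨196, 13, 15, 3, 3, by decide +kernel⟩
  right := ⟨187, 12, 13, 3, 3, by decide +kernel⟩
  up := ⟨215, 13, 16, 3, 4, by decide +kernel⟩
  down := ⟨223, 13, 15, 4, 4, by decide +kernel⟩

/-- The bin `D53`. -/
theorem binD53 : SideBin chD53 pcD53 bxD53 :=
  ⟨⟨⟨fun _ => rfl, fun _ => rfl, fun _ => rfl, fun _ => rfl, fun _ => rfl, fun x => by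
      simp only [pcD53, Piece.A, Piece.S, ev_add, ev_sub, ev_mul, Ex.eval]; push_cast; ring,
      rfl, rfl⟩,
      ⟨rfl, rfl, rfl, rfl⟩, rfl, rfl, rfl, rfl, by norm_num [chD53], rfl, rfl, rfl, rfl⟩,
    okD53, certD53⟩

end Vale.Agent.P100.Calib.StripEndD
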