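import Vale.Agent.P100.Calib.SlabStripEndDSide
import Vale.Agent.P100.Calib.SlabStripEndBig
import Vale.Agent.P100.Calib.SlabStripEndDDataC

/-!
# The checks of the bins `D54`, `D55` of the strip for `u` near one, `d` large
-/

namespace Vale.Agent.P100.Calib.StripEndD

open Pack hiding ev_add ev_mul
open Pack.Ex StripMid StripEnd

local instance endDCheck27Add : Add Ex := ⟨Ex.add⟩
local instance endDCheck27Sub : Sub Ex := ⟨Ex.sub⟩
local instance endDCheck27Mul : Mul Ex := ⟨Ex.mul⟩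

/-- The checks of `D54`. -/
theorem certD54 : Cert pcD54 bxD54 := by
  have h_g1 : ∀ s p l : Bool,
      checkFour bxD54.C 199 7 12 0 5
        (pcD54.at ⟨p, l, !s, !s, false⟩ (c1 s)) = true := by
    decide +kernel
  have h_g2 : ∀ s p l t : Bool,
      checkFour bxD54.C 500 20 30 0 10
        (pcD54.at ⟨p, l, true, true, t⟩ (StripEnd.strict (c2 s))) = true := by
    decide +kernel
  have h_g5 : ∀ s p l t : Bool,
      checkFour bxD54.C 518 18 28 0 9
        (pcD54.at ⟨p, l, true, true, t⟩ (StripEnd.strict (c5 s))) = true := by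
    decide +kernel
  have h_gMG : ∀ p l t : Bool,
      checkFour bxD54.C 405 17 27 0 8
        (pcD54.at ⟨p, l, true, false, t⟩ tplMG) = true := by
    decide +kernel
  have h_v2 : ∀ s : Bool,
      checkFour bxD54.C 99 5 9 0 4
        (pcD54.at ⟨false, false, true, true, false⟩ (curve2 s)) = true := by
    decide +kernel
  have h_v5 : ∀ s : Bool,
      checkFour bxD54.C 108 6 9 0 4
        (pcD54.at ⟨false, false, true, true, false⟩ (curve5 s)) = true := by
    decide +kernel
  have h_wP : ∀ b hi : Bool,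
      checkFour bxD54.C 67 2 3 1 1
        (pcD54.winP b hi) = true := by
    decide +kernel
  have h_wE : ∀ b hi : Bool,
      checkFour bxD54.C 202 11 14 2 3
        (pcD54.winE b hi) = true := by
    decide +kernel
  have h_wK : ∀ b hi : Bool,
      checkFour bxD54.C 195 12 12 2 3
        (pcD54.winK b hi) = true := by
    decide +kernel
  have h_wW : ∀ b : Bool,
      checkFour bxD54.C 167 8 10 2 3
        (pcD54.winW b) = true := by
    decide +kernel
  have h_wY : ∀ b : Bool,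
      checkFour bxD54.C 329 17 21 3 6
        (pcD54.winY b) = true := by
    decide +kernel
  have h_wT : ∀ b hi : Bool,
      checkFour bxD54.C 155 7 9 2 4
        (pcD54.winT b hi) = true := by
    decide +kernel
  have h_gap : ∀ b t : Bool,
      checkFour bxD54.C 365 22 27 3 6
        (pcD54.gap b t) = true := by
    decide +kernel
  exact {
    pos := ⟨by norm_num [pcD54], by norm_num [pcD54]⟩
    low := ⟨by norm_num [bxD54], by norm_num [bxD54], by norm_num [bxD54]⟩
    sgns := fun f => by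
      cases f
      case I => exact ⟨139, 3, 3, 3, 0, by decide +kernel⟩
      case d => exact ⟨139, 3, 3, 3, 0, by decide +kernel⟩
      case A => exact ⟨144, 3, 3, 3, 0, by decide +kernel⟩
      case S => exact ⟨143, 3, 3, 3, 0, by decide +kernel⟩
      case U => exact ⟨143, 3, 3, 3, 0, by decide +kernel⟩
      case den => exact ⟨150, 3, 3, 3, 0, by decide +kernel⟩
      case o => exact ⟨151, 3, 3, 3, 1, by decide +kernel⟩
      case olt => exact ⟨152, 3, 3, 3, 1, by decide +kernel⟩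
      case pd => exact ⟨160, 3, 3, 3, 0, by decide +kernel⟩
      case e0 => exact ⟨171, 3, 3, 3, 0, by decide +kernel⟩
      case f0 => exact ⟨170, 3, 3, 3, 0, by decide +kernel⟩
      case wd => exact ⟨170, 3, 3, 3, 0, by decide +kernel⟩
      case td => exact ⟨170, 3, 3, 3, 0, by decide +kernel⟩
      case cd => exact ⟨144, 3, 3, 3, 0, by decide +kernel⟩
      case kd => exact ⟨150, 3, 3, 3, 0, by decide +kernel⟩
    kn := ⟨29, 2, 2, 0, 0, by decide +kernel⟩
    k2n := ⟨150, 3, 3, 3, 1, by decide +kernel⟩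
    k2d := ⟨150, 3, 3, 3, 0, by decide +kernel⟩
    vs := ⟨143, 3, 3, 3, 0, by decide +kernel⟩
    vMG := ⟨91, 5, 8, 0, 4, by decide +kernel⟩
    g1 := fun s p l => ⟨199, 7, 12, 0, 5, h_g1 s p l⟩
    g2 := fun s p l t => ⟨500, 20, 30, 0, 10, h_g2 s p l t⟩
    g5 := fun s p l t => ⟨518, 18, 28, 0, 9, h_g5 s p l t⟩
    gMG := fun p l t => ⟨405, 17, 27, 0, 8, h_gMG p l t⟩
    v2 := fun s => ⟨99, 5, 9, 0, 4, h_v2 s⟩
    v5 := fun s => ⟨108, 6, 9, 0, 4, h_v5 s⟩
    wP := fun b hi => ⟨67, 2, 3, 1, 1, h_wP b hi⟩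
    wE := fun b hi => ⟨202, 11, 14, 2, 3, h_wE b hi⟩
    wK := fun b hi => ⟨195, 12, 12, 2, 3, h_wK b hi⟩
    wW := fun b => ⟨167, 8, 10, 2, 3, h_wW b⟩
    wY := fun b => ⟨329, 17, 21, 3, 6, h_wY b⟩
    wT := fun b hi => ⟨155, 7, 9, 2, 4, h_wT b hi⟩
    gap := fun b t => ⟨365, 22, 27, 3, 6, h_gap b t⟩
  }

/-- The window of `D54`. -/
theorem okD54 : chD54.Cert where
  flat := ⟨fun _ _ _ _ => rfl, fun _ _ _ _ => rfl, fun _ _ _ _ => rfl, fun _ _ _ _ => rfl,
    fun _ _ _ _ => rfl, fun _ _ _ _ => rfl⟩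
  fits := ⟨by norm_num [chD54], by norm_num [chD54], by norm_num [chD54],
    by norm_num [chD54]⟩
  left := ⟨196, 13, 15, 3, 3, by decide +kernel⟩
  right := ⟨187, 12, 13, 3, 3, by decide +kernel⟩
  up := ⟨214, 13, 16, 3, 4, by decide +kernel⟩
  down := ⟨223, 13, 15, 4, 4, by decide +kernel⟩

/-- The bin `D54`. -/
theorem binD54 : SideBin chD54 pcD54 bxD54 :=
  ⟨⟨⟨fun _ => rfl, fun _ => rfl, fun _ => rfl, fun _ => rfl, fun _ => rfl, fun x => by
      simp only [pcD54, Piece.A, Piece.S, ev_add, ev_sub, ev_mul, Ex.eval]; push_cast; ring,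
      rfl, rfl⟩,
      ⟨rfl, rfl, rfl, rfl⟩, rfl, rfl, rfl, rfl, by norm_num [chD54], rfl, rfl, rfl, rfl⟩,
    okD54, certD54⟩

/-- The checks of `D55`. -/
theorem certD55 : Cert pcD55 bxD55 := by
  have h_g1 : ∀ s p l : Bool,
      checkFour bxD55.C 195 7 12 0 5
        (pcD55.at ⟨p, l, !s, !s, false⟩ (c1 s)) = true := by
    decide +kernel
  have h_g2 : ∀ s p l t : Bool,
      checkFour bxD55.C 494 20 30 0 10
        (pcD55.at ⟨p, l, true, true, t⟩ (StripEnd.strict (c2 s))) = true := by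
    decide +kernel
  have h_g5 : ∀ s p l t : Bool,
      checkFour bxD55.C 511 18 28 0 9
        (pcD55.at ⟨p, l, true, true, t⟩ (StripEnd.strict (c5 s))) = true := by
    decide +kernel
  have h_gMG : ∀ p l t : Bool,
      checkFour bxD55.C 399 17 27 0 8
        (pcD55.at ⟨p, l, true, false, t⟩ tplMG) = true := by
    decide +kernel
  have h_v2 : ∀ s : Bool,
      checkFour bxD55.C 99 5 9 0 4
        (pcD55.at ⟨false, false, true, true, false⟩ (curve2 s)) = true := by
    decide +kernel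
  have h_v5 : ∀ s : Bool,
      checkFour bxD55.C 108 6 9 0 4
        (pcD55.at ⟨false, false, true, true, false⟩ (curve5 s)) = true := by
    decide +kernel
  have h_wP : ∀ b hi : Bool,
      checkFour bxD55.C 64 2 3 1 1
        (pcD55.winP b hi) = true := by
    decide +kernel
  have h_wE : ∀ b hi : Bool,
      checkFour bxD55.C 199 11 14 2 3
        (pcD55.winE b hi) = true := by
    decide +kernel
  have h_wK : ∀ b hi : Bool,
      checkFour bxD55.C 192 12 12 2 3
        (pcD55.winK b hi) = true := by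
    decide +kernel
  have h_wW : ∀ b : Bool,
      checkFour bxD55.C 164 8 10 2 3
        (pcD55.winW b) = true := by
    decide +kernel
  have h_wY : ∀ b : Bool,
      checkFour bxD55.C 323 17 21 3 6
        (pcD55.winY b) = true := by
    decide +kernel
  have h_wT : ∀ b hi : Bool,
      checkFour bxD55.C 152 7 9 2 4
        (pcD55.winT b hi) = true := by
    decide +kernel
  have h_gap : ∀ b t : Bool,
      checkFour bxD55.C 361 22 27 3 6
        (pcD55.gap b t) = true := by
    decide +kernel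
  exact {
    pos := ⟨by norm_num [pcD55], by norm_num [pcD55]⟩
    low := ⟨by norm_num [bxD55], by norm_num [bxD55], by norm_num [bxD55]⟩
    sgns := fun f => by
      cases f
      case I => exact ⟨136, 3, 3, 3, 0, by decide +kernel⟩
      case d => exact ⟨136, 3, 3, 3, 0, by decide +kernel⟩
      case A => exact ⟨141, 3, 3, 3, 0, by decide +kernel⟩
      case S => exact ⟨140, 3, 3, 3, 0, by decide +kernel⟩
      case U => exact ⟨140, 3, 3, 3, 0, by decide +kernel⟩
      case den => exact ⟨147, 3, 3, 3, 0, by decide +kernel⟩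
      case o => exact ⟨147, 3, 3, 3, 1, by decide +kernel⟩
      case olt => exact ⟨149, 3, 3, 3, 1, by decide +kernel⟩
      case pd => exact ⟨156, 3, 3, 3, 0, by decide +kernel⟩
      case e0 => exact ⟨167, 3, 3, 3, 0, by decide +kernel⟩
      case f0 => exact ⟨166, 3, 3, 3, 0, by decide +kernel⟩
      case wd => exact ⟨166, 3, 3, 3, 0, by decide +kernel⟩
      case td => exact ⟨166, 3, 3, 3, 0, by decide +kernel⟩
      case cd => exact ⟨141, 3, 3, 3, 0, by decide +kernel⟩
      case kd => exact ⟨147, 3, 3, 3, 0, by decide +kernel⟩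
    kn := ⟨29, 2, 2, 0, 0, by decide +kernel⟩
    k2n := ⟨146, 3, 3, 3, 1, by decide +kernel⟩
    k2d := ⟨147, 3, 3, 3, 0, by decide +kernel⟩
    vs := ⟨140, 3, 3, 3, 0, by decide +kernel⟩
    vMG := ⟨90, 5, 8, 0, 4, by decide +kernel⟩
    g1 := fun s p l => ⟨195, 7, 12, 0, 5, h_g1 s p l⟩
    g2 := fun s p l t => ⟨494, 20, 30, 0, 10, h_g2 s p l t⟩
    g5 := fun s p l t => ⟨511, 18, 28, 0, 9, h_g5 s p l t⟩
    gMG := fun p l t => ⟨399, 17, 27, 0, 8, h_gMG p l t⟩
    v2 := fun s => ⟨99, 5, 9, 0, 4, h_v2 s⟩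
    v5 := fun s => ⟨108, 6, 9, 0, 4, h_v5 s⟩
    wP := fun b hi => ⟨64, 2, 3, 1, 1, h_wP b hi⟩
    wE := fun b hi => ⟨199, 11, 14, 2, 3, h_wE b hi⟩
    wK := fun b hi => ⟨192, 12, 12, 2, 3, h_wK b hi⟩
    wW := fun b => ⟨164, 8, 10, 2, 3, h_wW b⟩
    wY := fun b => ⟨323, 17, 21, 3, 6, h_wY b⟩
    wT := fun b hi => ⟨152, 7, 9, 2, 4, h_wT b hi⟩
    gap := fun b t => ⟨361, 22, 27, 3, 6, h_gap b t⟩
  }

/-- The window of `D55`. -/
theorem okD55 : chD55.Cert where
  flat := ⟨fun _ _ _ _ => rfl, fun _ _ _ _ => rfl, fun _ _ _ _ => rfl, fun _ _ _ _ => rfl,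
    fun _ _ _ _ => rfl, fun _ _ _ _ => rfl⟩
  fits := ⟨by norm_num [chD55], by norm_num [chD55], by norm_num [chD55],
    by norm_num [chD55]⟩
  left := ⟨193, 13, 15, 3, 3, by decide +kernel⟩
  right := ⟨184, 12, 13, 3, 3, by decide +kernel⟩
  up := ⟨211, 13, 16, 3, 4, by decide +kernel⟩
  down := ⟨219, 13, 15, 4, 4, by decide +kernel⟩

/-- The bin `D55`. -/
theorem binD55 : SideBin chD55 pcD55 bxD55 :=
  ⟨⟨⟨fun _ => rfl, fun _ => rfl, fun _ => rfl, fun _ => rfl, fun _ => rfl, fun x => by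
      simp only [pcD55, Piece.A, Piece.S, ev_add, ev_sub, ev_mul, Ex.eval]; push_cast; ring,
      rfl, rfl⟩,
      ⟨rfl, rfl, rfl, rfl⟩, rfl, rfl, rfl, rfl, by norm_num [chD55], rfl, rfl, rfl, rfl⟩,
    okD55, certD55⟩

end Vale.Agent.P100.Calib.StripEndD
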