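import Vale.Agent.P100.Calib.SlabStripEndDSide
import Vale.Agent.P100.Calib.SlabStripEndBig
import Vale.Agent.P100.Calib.SlabStripEndDDataC

/-!
# The checks of the bins `D56`, `D57` of the strip for `u` near one, `d` large
-/

namespace Vale.Agent.P100.Calib.StripEndD

open Pack hiding ev_add ev_mul
open Pack.Ex StripMid StripEnd

local instance endDCheck28Add : Add Ex := ⟨Ex.add⟩
local instance endDCheck28Sub : Sub Ex := ⟨Ex.sub⟩
local instance endDCheck28Mul : Mul Ex := ⟨Ex.mul⟩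

/-- The checks of `D56`. -/
theorem certD56 : Cert pcD56 bxD56 := by
  have h_g1 : ∀ s p l : Bool,
      checkFour bxD56.C 189 7 12 0 5
        (pcD56.at ⟨p, l, !s, !s, false⟩ (c1 s)) = true := by
    decide +kernel
  have h_g2 : ∀ s p l t : Bool,
      checkFour bxD56.C 484 20 30 0 10
        (pcD56.at ⟨p, l, true, true, t⟩ (StripEnd.strict (c2 s))) = true := by
    decide +kernel
  have h_g5 : ∀ s p l t : Bool,
      checkFour bxD56.C 499 18 28 0 9
        (pcD56.at ⟨p, l, true, true, t⟩ (StripEnd.strict (c5 s))) = true := by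
    decide +kernel
  have h_gMG : ∀ p l t : Bool,
      checkFour bxD56.C 386 17 27 0 8
        (pcD56.at ⟨p, l, true, false, t⟩ tplMG) = true := by
    decide +kernel
  have h_v2 : ∀ s : Bool,
      checkFour bxD56.C 99 5 9 0 4
        (pcD56.at ⟨false, false, true, true, false⟩ (curve2 s)) = true := by
    decide +kernel
  have h_v5 : ∀ s : Bool,
      checkFour bxD56.C 108 6 9 0 4
        (pcD56.at ⟨false, false, true, true, false⟩ (curve5 s)) = true := by
    decide +kernel
  have h_wP : ∀ b hi : Bool,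
      checkFour bxD56.C 60 2 3 1 1
        (pcD56.winP b hi) = true := by
    decide +kernel
  have h_wE : ∀ b hi : Bool,
      checkFour bxD56.C 193 11 14 2 3
        (pcD56.winE b hi) = true := by
    decide +kernel
  have h_wK : ∀ b hi : Bool,
      checkFour bxD56.C 186 12 12 2 3
        (pcD56.winK b hi) = true := by
    decide +kernel
  have h_wW : ∀ b : Bool,
      checkFour bxD56.C 158 8 10 2 3
        (pcD56.winW b) = true := by
    decide +kernel
  have h_wY : ∀ b : Bool,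
      checkFour bxD56.C 313 17 21 3 6
        (pcD56.winY b) = true := by
    decide +kernel
  have h_wT : ∀ b hi : Bool,
      checkFour bxD56.C 146 7 9 2 4
        (pcD56.winT b hi) = true := by
    decide +kernel
  have h_gap : ∀ b t : Bool,
      checkFour bxD56.C 353 22 27 3 6
        (pcD56.gap b t) = true := by
    decide +kernel
  exact {
    pos := ⟨by norm_num [pcD56], by norm_num [pcD56]⟩
    low := ⟨by norm_num [bxD56], by norm_num [bxD56], by norm_num [bxD56]⟩
    sgns := fun f => by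
      cases f
      case I => exact ⟨130, 3, 3, 3, 0, by decide +kernel⟩
      case d => exact ⟨130, 3, 3, 3, 0, by decide +kernel⟩
      case A => exact ⟨135, 3, 3, 3, 0, by decide +kernel⟩
      case S => exact ⟨134, 3, 3, 3, 0, by decide +kernel⟩
      case U => exact ⟨134, 3, 3, 3, 0, by decide +kernel⟩
      case den => exact ⟨141, 3, 3, 3, 0, by decide +kernel⟩
      case o => exact ⟨141, 3, 3, 3, 1, by decide +kernel⟩
      case olt => exact ⟨143, 3, 3, 3, 1, by decide +kernel⟩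
      case pd => exact ⟨148, 3, 3, 3, 0, by decide +kernel⟩
      case e0 => exact ⟨160, 3, 3, 3, 0, by decide +kernel⟩
      case f0 => exact ⟨158, 3, 3, 3, 0, by decide +kernel⟩
      case wd => exact ⟨158, 3, 3, 3, 0, by decide +kernel⟩
      case td => exact ⟨158, 3, 3, 3, 0, by decide +kernel⟩
      case cd => exact ⟨135, 3, 3, 3, 0, by decide +kernel⟩
      case kd => exact ⟨141, 3, 3, 3, 0, by decide +kernel⟩
    kn := ⟨28, 2, 2, 0, 0, by decide +kernel⟩
    k2n := ⟨141, 3, 3, 3, 1, by decide +kernel⟩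
    k2d := ⟨141, 3, 3, 3, 0, by decide +kernel⟩
    vs := ⟨134, 3, 3, 3, 0, by decide +kernel⟩
    vMG := ⟨90, 5, 8, 0, 4, by decide +kernel⟩
    g1 := fun s p l => ⟨189, 7, 12, 0, 5, h_g1 s p l⟩
    g2 := fun s p l t => ⟨484, 20, 30, 0, 10, h_g2 s p l t⟩
    g5 := fun s p l t => ⟨499, 18, 28, 0, 9, h_g5 s p l t⟩
    gMG := fun p l t => ⟨386, 17, 27, 0, 8, h_gMG p l t⟩
    v2 := fun s => ⟨99, 5, 9, 0, 4, h_v2 s⟩
    v5 := fun s => ⟨108, 6, 9, 0, 4, h_v5 s⟩
    wP := fun b hi => ⟨60, 2, 3, 1, 1, h_wP b hi⟩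
    wE := fun b hi => ⟨193, 11, 14, 2, 3, h_wE b hi⟩
    wK := fun b hi => ⟨186, 12, 12, 2, 3, h_wK b hi⟩
    wW := fun b => ⟨158, 8, 10, 2, 3, h_wW b⟩
    wY := fun b => ⟨313, 17, 21, 3, 6, h_wY b⟩
    wT := fun b hi => ⟨146, 7, 9, 2, 4, h_wT b hi⟩
    gap := fun b t => ⟨353, 22, 27, 3, 6, h_gap b t⟩
  }

/-- The window of `D56`. -/
theorem okD56 : chD56.Cert where
  flat := ⟨fun _ _ _ _ => rfl, fun _ _ _ _ => rfl, fun _ _ _ _ => rfl, fun _ _ _ _ => rfl,
    fun _ _ _ _ => rfl, fun _ _ _ _ => rfl⟩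
  fits := ⟨by norm_num [chD56], by norm_num [chD56], by norm_num [chD56],
    by norm_num [chD56]⟩
  left := ⟨187, 13, 15, 3, 3, by decide +kernel⟩
  right := ⟨178, 12, 13, 3, 3, by decide +kernel⟩
  up := ⟨205, 13, 16, 3, 4, by decide +kernel⟩
  down := ⟨211, 13, 15, 4, 4, by decide +kernel⟩

/-- The bin `D56`. -/
theorem binD56 : SideBin chD56 pcD56 bxD56 :=
  ⟨⟨⟨fun _ => rfl, fun _ => rfl, fun _ => rfl, fun _ => rfl, fun _ => rfl, fun x => by
      simp only [pcD56, Piece.A, Piece.S, ev_add, ev_sub, ev_mul, Ex.eval]; push_cast; ring,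
      rfl, rfl⟩,
      ⟨rfl, rfl, rfl, rfl⟩, rfl, rfl, rfl, rfl, by norm_num [chD56], rfl, rfl, rfl, rfl⟩,
    okD56, certD56⟩

/-- The checks of `D57`. -/
theorem certD57 : Cert pcD57 bxD57 := by
  have h_g1 : ∀ s p l : Bool,
      checkFour bxD57.C 273 7 12 0 5
        (pcD57.at ⟨p, l, !s, !s, false⟩ (c1 s)) = true := by
    decide +kernel
  have h_g2 : ∀ s p l t : Bool,
      checkFour bxD57.C 695 20 30 0 10
        (pcD57.at ⟨p, l, true, true, t⟩ (StripEnd.strict (c2 s))) = true := by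
    decide +kernel
  have h_g5 : ∀ s p l t : Bool,
      checkFour bxD57.C 696 18 28 0 9
        (pcD57.at ⟨p, l, true, true, t⟩ (StripEnd.strict (c5 s))) = true := by
    decide +kernel
  have h_gMG : ∀ p l t : Bool,
      checkFour bxD57.C 577 17 27 0 8
        (pcD57.at ⟨p, l, true, false, t⟩ tplMG) = true := by
    decide +kernel
  have h_v2 : ∀ s : Bool,
      checkFour bxD57.C 159 5 9 0 4
        (pcD57.at ⟨false, false, true, true, false⟩ (curve2 s)) = true := by
    decide +kernel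
  have h_v5 : ∀ s : Bool,
      checkFour bxD57.C 168 6 9 0 4
        (pcD57.at ⟨false, false, true, true, false⟩ (curve5 s)) = true := by
    decide +kernel
  have h_wP : ∀ b hi : Bool,
      checkFour bxD57.C 85 2 3 1 1
        (pcD57.winP b hi) = true := by
    decide +kernel
  have h_wE : ∀ b hi : Bool,
      checkFour bxD57.C 293 11 14 2 3
        (pcD57.winE b hi) = true := by
    decide +kernel
  have h_wK : ∀ b hi : Bool,
      checkFour bxD57.C 273 12 12 2 3
        (pcD57.winK b hi) = true := by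
    decide +kernel
  have h_wW : ∀ b : Bool,
      checkFour bxD57.C 228 8 10 2 3
        (pcD57.winW b) = true := by
    decide +kernel
  have h_wY : ∀ b : Bool,
      checkFour bxD57.C 462 17 21 3 6
        (pcD57.winY b) = true := by
    decide +kernel
  have h_wT : ∀ b hi : Bool,
      checkFour bxD57.C 212 7 9 2 4
        (pcD57.winT b hi) = true := by
    decide +kernel
  have h_gap : ∀ b t : Bool,
      checkFour bxD57.C 541 22 27 3 6
        (pcD57.gap b t) = true := by
    decide +kernel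
  exact {
    pos := ⟨by norm_num [pcD57], by norm_num [pcD57]⟩
    low := ⟨by norm_num [bxD57], by norm_num [bxD57], by norm_num [bxD57]⟩
    sgns := fun f => by
      cases f
      case I => exact ⟨156, 3, 3, 3, 0, by decide +kernel⟩
      case d => exact ⟨157, 3, 3, 3, 0, by decide +kernel⟩
      case A => exact ⟨161, 3, 3, 3, 0, by decide +kernel⟩
      case S => exact ⟨160, 3, 3, 3, 0, by decide +kernel⟩
      case U => exact ⟨160, 3, 3, 3, 0, by decide +kernel⟩
      case den => exact ⟨167, 3, 3, 3, 0, by decide +kernel⟩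
      case o => exact ⟨168, 3, 3, 3, 1, by decide +kernel⟩
      case olt => exact ⟨169, 3, 3, 3, 1, by decide +kernel⟩
      case pd => exact ⟨176, 3, 3, 3, 0, by decide +kernel⟩
      case e0 => exact ⟨186, 3, 3, 3, 0, by decide +kernel⟩
      case f0 => exact ⟨186, 3, 3, 3, 0, by decide +kernel⟩
      case wd => exact ⟨184, 3, 3, 3, 0, by decide +kernel⟩
      case td => exact ⟨186, 3, 3, 3, 0, by decide +kernel⟩
      case cd => exact ⟨161, 3, 3, 3, 0, by decide +kernel⟩
      case kd => exact ⟨167, 3, 3, 3, 0, by decide +kernel⟩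
    kn := ⟨44, 2, 2, 0, 0, by decide +kernel⟩
    k2n := ⟨166, 3, 3, 3, 1, by decide +kernel⟩
    k2d := ⟨167, 3, 3, 3, 0, by decide +kernel⟩
    vs := ⟨160, 3, 3, 3, 0, by decide +kernel⟩
    vMG := ⟨144, 5, 8, 0, 4, by decide +kernel⟩
    g1 := fun s p l => ⟨273, 7, 12, 0, 5, h_g1 s p l⟩
    g2 := fun s p l t => ⟨695, 20, 30, 0, 10, h_g2 s p l t⟩
    g5 := fun s p l t => ⟨696, 18, 28, 0, 9, h_g5 s p l t⟩
    gMG := fun p l t => ⟨577, 17, 27, 0, 8, h_gMG p l t⟩
    v2 := fun s => ⟨159, 5, 9, 0, 4, h_v2 s⟩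
    v5 := fun s => ⟨168, 6, 9, 0, 4, h_v5 s⟩
    wP := fun b hi => ⟨85, 2, 3, 1, 1, h_wP b hi⟩
    wE := fun b hi => ⟨293, 11, 14, 2, 3, h_wE b hi⟩
    wK := fun b hi => ⟨273, 12, 12, 2, 3, h_wK b hi⟩
    wW := fun b => ⟨228, 8, 10, 2, 3, h_wW b⟩
    wY := fun b => ⟨462, 17, 21, 3, 6, h_wY b⟩
    wT := fun b hi => ⟨212, 7, 9, 2, 4, h_wT b hi⟩
    gap := fun b t => ⟨541, 22, 27, 3, 6, h_gap b t⟩
  }

/-- The window of `D57`. -/
theorem okD57 : chD57.Cert where
  flat := ⟨fun _ _ _ _ => rfl, fun _ _ _ _ => rfl, fun _ _ _ _ => rfl, fun _ _ _ _ => rfl,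
    fun _ _ _ _ => rfl, fun _ _ _ _ => rfl⟩
  fits := ⟨by norm_num [chD57], by norm_num [chD57], by norm_num [chD57],
    by norm_num [chD57]⟩
  left := ⟨293, 13, 15, 3, 3, by decide +kernel⟩
  right := ⟨271, 12, 13, 3, 3, by decide +kernel⟩
  up := ⟨318, 13, 16, 3, 4, by decide +kernel⟩
  down := ⟨319, 13, 15, 4, 4, by decide +kernel⟩

/-- The bin `D57`. -/
theorem binD57 : SideBin chD57 pcD57 bxD57 :=
  ⟨⟨⟨fun _ => rfl, fun _ => rfl, fun _ => rfl, fun _ => rfl, fun _ => rfl, fun x => by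
      simp only [pcD57, Piece.A, Piece.S, ev_add, ev_sub, ev_mul, Ex.eval]; push_cast; ring,
      rfl, rfl⟩,
      ⟨rfl, rfl, rfl, rfl⟩, rfl, rfl, rfl, rfl, by norm_num [chD57], rfl, rfl, rfl, rfl⟩,
    okD57, certD57⟩

end Vale.Agent.P100.Calib.StripEndD
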