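import Vale.Agent.P100.Calib.SlabStripEndDSide
import Vale.Agent.P100.Calib.SlabStripEndBig
import Vale.Agent.P100.Calib.SlabStripEndDDataC

/-!
# The checks of the bins `D58`, `D59` of the strip for `u` near one, `d` large
-/

namespace Vale.Agent.P100.Calib.StripEndD

open Pack hiding ev_add ev_mul
open Pack.Ex StripMid StripEnd

local instance endDCheck29Add : Add Ex := ⟨Ex.add⟩
local instance endDCheck29Sub : Sub Ex := ⟨Ex.sub⟩
local instance endDCheck29Mul : Mul Ex := ⟨Ex.mul⟩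

/-- The checks of `D58`. -/
theorem certD58 : Cert pcD58 bxD58 := by
  have h_g1 : ∀ s p l : Bool,
      checkFour bxD58.C 276 7 12 0 5
        (pcD58.at ⟨p, l, !s, !s, false⟩ (c1 s)) = true := by
    decide +kernel
  have h_g2 : ∀ s p l t : Bool,
      checkFour bxD58.C 686 20 29 0 10
        (pcD58.at ⟨p, l, true, true, t⟩ (StripEnd.strict (c2 s))) = true := by
    decide +kernel
  have h_g5 : ∀ s p l t : Bool,
      checkFour bxD58.C 698 18 28 0 9
        (pcD58.at ⟨p, l, true, true, t⟩ (StripEnd.strict (c5 s))) = true := by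
    decide +kernel
  have h_gMG : ∀ p l t : Bool,
      checkFour bxD58.C 579 17 27 0 8
        (pcD58.at ⟨p, l, true, false, t⟩ tplMG) = true := by
    decide +kernel
  have h_v2 : ∀ s : Bool,
      checkFour bxD58.C 159 5 9 0 4
        (pcD58.at ⟨false, false, true, true, false⟩ (curve2 s)) = true := by
    decide +kernel
  have h_v5 : ∀ s : Bool,
      checkFour bxD58.C 168 6 9 0 4
        (pcD58.at ⟨false, false, true, true, false⟩ (curve5 s)) = true := by
    decide +kernel
  have h_wP : ∀ b hi : Bool,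
      checkFour bxD58.C 85 2 3 1 1
        (pcD58.winP b hi) = true := by
    decide +kernel
  have h_wE : ∀ b hi : Bool,
      checkFour bxD58.C 293 11 14 2 3
        (pcD58.winE b hi) = true := by
    decide +kernel
  have h_wK : ∀ b hi : Bool,
      checkFour bxD58.C 273 12 12 2 3
        (pcD58.winK b hi) = true := by
    decide +kernel
  have h_wW : ∀ b : Bool,
      checkFour bxD58.C 231 8 10 2 3
        (pcD58.winW b) = true := by
    decide +kernel
  have h_wY : ∀ b : Bool,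
      checkFour bxD58.C 464 17 21 3 6
        (pcD58.winY b) = true := by
    decide +kernel
  have h_wT : ∀ b hi : Bool,
      checkFour bxD58.C 212 7 9 2 4
        (pcD58.winT b hi) = true := by
    decide +kernel
  have h_gap : ∀ b t : Bool,
      checkFour bxD58.C 541 22 27 3 6
        (pcD58.gap b t) = true := by
    decide +kernel
  exact {
    pos := ⟨by norm_num [pcD58], by norm_num [pcD58]⟩
    low := ⟨by norm_num [bxD58], by norm_num [bxD58], by norm_num [bxD58]⟩
    sgns := fun f => by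
      cases f
      case I => exact ⟨156, 3, 3, 3, 0, by decide +kernel⟩
      case d => exact ⟨157, 3, 3, 3, 0, by decide +kernel⟩
      case A => exact ⟨161, 3, 3, 3, 0, by decide +kernel⟩
      case S => exact ⟨160, 3, 3, 3, 0, by decide +kernel⟩
      case U => exact ⟨160, 3, 3, 3, 0, by decide +kernel⟩
      case den => exact ⟨167, 3, 3, 3, 0, by decide +kernel⟩
      case o => exact ⟨168, 3, 3, 3, 1, by decide +kernel⟩
      case olt => exact ⟨169, 3, 3, 3, 1, by decide +kernel⟩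
      case pd => exact ⟨176, 3, 3, 3, 0, by decide +kernel⟩
      case e0 => exact ⟨186, 3, 3, 3, 0, by decide +kernel⟩
      case f0 => exact ⟨186, 3, 3, 3, 0, by decide +kernel⟩
      case wd => exact ⟨186, 3, 3, 3, 0, by decide +kernel⟩
      case td => exact ⟨186, 3, 3, 3, 0, by decide +kernel⟩
      case cd => exact ⟨161, 3, 3, 3, 0, by decide +kernel⟩
      case kd => exact ⟨167, 3, 3, 3, 0, by decide +kernel⟩
    kn := ⟨43, 2, 2, 0, 0, by decide +kernel⟩
    k2n := ⟨166, 3, 3, 3, 1, by decide +kernel⟩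
    k2d := ⟨167, 3, 3, 3, 0, by decide +kernel⟩
    vs := ⟨160, 3, 3, 3, 0, by decide +kernel⟩
    vMG := ⟨144, 5, 8, 0, 4, by decide +kernel⟩
    g1 := fun s p l => ⟨276, 7, 12, 0, 5, h_g1 s p l⟩
    g2 := fun s p l t => ⟨686, 20, 29, 0, 10, h_g2 s p l t⟩
    g5 := fun s p l t => ⟨698, 18, 28, 0, 9, h_g5 s p l t⟩
    gMG := fun p l t => ⟨579, 17, 27, 0, 8, h_gMG p l t⟩
    v2 := fun s => ⟨159, 5, 9, 0, 4, h_v2 s⟩
    v5 := fun s => ⟨168, 6, 9, 0, 4, h_v5 s⟩
    wP := fun b hi => ⟨85, 2, 3, 1, 1, h_wP b hi⟩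
    wE := fun b hi => ⟨293, 11, 14, 2, 3, h_wE b hi⟩
    wK := fun b hi => ⟨273, 12, 12, 2, 3, h_wK b hi⟩
    wW := fun b => ⟨231, 8, 10, 2, 3, h_wW b⟩
    wY := fun b => ⟨464, 17, 21, 3, 6, h_wY b⟩
    wT := fun b hi => ⟨212, 7, 9, 2, 4, h_wT b hi⟩
    gap := fun b t => ⟨541, 22, 27, 3, 6, h_gap b t⟩
  }

/-- The window of `D58`. -/
theorem okD58 : chD58.Cert where
  flat := ⟨fun _ _ _ _ => rfl, fun _ _ _ _ => rfl, fun _ _ _ _ => rfl, fun _ _ _ _ => rfl,
    fun _ _ _ _ => rfl, fun _ _ _ _ => rfl⟩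
  fits := ⟨by norm_num [chD58], by norm_num [chD58], by norm_num [chD58],
    by norm_num [chD58]⟩
  left := ⟨293, 13, 15, 3, 3, by decide +kernel⟩
  right := ⟨271, 12, 13, 3, 3, by decide +kernel⟩
  up := ⟨318, 13, 16, 3, 4, by decide +kernel⟩
  down := ⟨319, 13, 15, 4, 4, by decide +kernel⟩

/-- The bin `D58`. -/
theorem binD58 : SideBin chD58 pcD58 bxD58 :=
  ⟨⟨⟨fun _ => rfl, fun _ => rfl, fun _ => rfl, fun _ => rfl, fun _ => rfl, fun x => by
      simp only [pcD58, Piece.A, Piece.S, ev_add, ev_sub, ev_mul, Ex.eval]; push_cast; ring,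
      rfl, rfl⟩,
      ⟨rfl, rfl, rfl, rfl⟩, rfl, rfl, rfl, rfl, by norm_num [chD58], rfl, rfl, rfl, rfl⟩,
    okD58, certD58⟩

/-- The checks of `D59`. -/
theorem certD59 : Cert pcD59 bxD59 := by
  have h_g1 : ∀ s p l : Bool,
      checkFour bxD59.C 272 7 12 0 5
        (pcD59.at ⟨p, l, !s, !s, false⟩ (c1 s)) = true := by
    decide +kernel
  have h_g2 : ∀ s p l t : Bool,
      checkFour bxD59.C 689 20 30 0 10
        (pcD59.at ⟨p, l, true, true, t⟩ (StripEnd.strict (c2 s))) = true := by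
    decide +kernel
  have h_g5 : ∀ s p l t : Bool,
      checkFour bxD59.C 692 18 28 0 9
        (pcD59.at ⟨p, l, true, true, t⟩ (StripEnd.strict (c5 s))) = true := by
    decide +kernel
  have h_gMG : ∀ p l t : Bool,
      checkFour bxD59.C 572 17 27 0 8
        (pcD59.at ⟨p, l, true, false, t⟩ tplMG) = true := by
    decide +kernel
  have h_v2 : ∀ s : Bool,
      checkFour bxD59.C 160 5 9 0 4
        (pcD59.at ⟨false, false, true, true, false⟩ (curve2 s)) = true := by
    decide +kernel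
  have h_v5 : ∀ s : Bool,
      checkFour bxD59.C 168 6 9 0 4
        (pcD59.at ⟨false, false, true, true, false⟩ (curve5 s)) = true := by
    decide +kernel
  have h_wP : ∀ b hi : Bool,
      checkFour bxD59.C 82 2 3 1 1
        (pcD59.winP b hi) = true := by
    decide +kernel
  have h_wE : ∀ b hi : Bool,
      checkFour bxD59.C 289 11 14 2 3
        (pcD59.winE b hi) = true := by
    decide +kernel
  have h_wK : ∀ b hi : Bool,
      checkFour bxD59.C 270 12 12 2 3
        (pcD59.winK b hi) = true := by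
    decide +kernel
  have h_wW : ∀ b : Bool,
      checkFour bxD59.C 227 8 10 2 3
        (pcD59.winW b) = true := by
    decide +kernel
  have h_wY : ∀ b : Bool,
      checkFour bxD59.C 459 17 21 3 6
        (pcD59.winY b) = true := by
    decide +kernel
  have h_wT : ∀ b hi : Bool,
      checkFour bxD59.C 209 7 9 2 4
        (pcD59.winT b hi) = true := by
    decide +kernel
  have h_gap : ∀ b t : Bool,
      checkFour bxD59.C 537 22 27 3 6
        (pcD59.gap b t) = true := by
    decide +kernel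
  exact {
    pos := ⟨by norm_num [pcD59], by norm_num [pcD59]⟩
    low := ⟨by norm_num [bxD59], by norm_num [bxD59], by norm_num [bxD59]⟩
    sgns := fun f => by
      cases f
      case I => exact ⟨153, 3, 3, 3, 0, by decide +kernel⟩
      case d => exact ⟨154, 3, 3, 3, 0, by decide +kernel⟩
      case A => exact ⟨158, 3, 3, 3, 0, by decide +kernel⟩
      case S => exact ⟨157, 3, 3, 3, 0, by decide +kernel⟩
      case U => exact ⟨157, 3, 3, 3, 0, by decide +kernel⟩
      case den => exact ⟨164, 3, 3, 3, 0, by decide +kernel⟩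
      case o => exact ⟨164, 3, 3, 3, 1, by decide +kernel⟩
      case olt => exact ⟨166, 3, 3, 3, 1, by decide +kernel⟩
      case pd => exact ⟨172, 3, 3, 3, 0, by decide +kernel⟩
      case e0 => exact ⟨183, 3, 3, 3, 0, by decide +kernel⟩
      case f0 => exact ⟨182, 3, 3, 3, 0, by decide +kernel⟩
      case wd => exact ⟨182, 3, 3, 3, 0, by decide +kernel⟩
      case td => exact ⟨182, 3, 3, 3, 0, by decide +kernel⟩
      case cd => exact ⟨158, 3, 3, 3, 0, by decide +kernel⟩
      case kd => exact ⟨164, 3, 3, 3, 0, by decide +kernel⟩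
    kn := ⟨43, 2, 2, 0, 0, by decide +kernel⟩
    k2n := ⟨164, 3, 3, 3, 1, by decide +kernel⟩
    k2d := ⟨164, 3, 3, 3, 0, by decide +kernel⟩
    vs := ⟨157, 3, 3, 3, 0, by decide +kernel⟩
    vMG := ⟨144, 5, 8, 0, 4, by decide +kernel⟩
    g1 := fun s p l => ⟨272, 7, 12, 0, 5, h_g1 s p l⟩
    g2 := fun s p l t => ⟨689, 20, 30, 0, 10, h_g2 s p l t⟩
    g5 := fun s p l t => ⟨692, 18, 28, 0, 9, h_g5 s p l t⟩
    gMG := fun p l t => ⟨572, 17, 27, 0, 8, h_gMG p l t⟩
    v2 := fun s => ⟨160, 5, 9, 0, 4, h_v2 s⟩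
    v5 := fun s => ⟨168, 6, 9, 0, 4, h_v5 s⟩
    wP := fun b hi => ⟨82, 2, 3, 1, 1, h_wP b hi⟩
    wE := fun b hi => ⟨289, 11, 14, 2, 3, h_wE b hi⟩
    wK := fun b hi => ⟨270, 12, 12, 2, 3, h_wK b hi⟩
    wW := fun b => ⟨227, 8, 10, 2, 3, h_wW b⟩
    wY := fun b => ⟨459, 17, 21, 3, 6, h_wY b⟩
    wT := fun b hi => ⟨209, 7, 9, 2, 4, h_wT b hi⟩
    gap := fun b t => ⟨537, 22, 27, 3, 6, h_gap b t⟩
  }

/-- The window of `D59`. -/
theorem okD59 : chD59.Cert where
  flat := ⟨fun _ _ _ _ => rfl, fun _ _ _ _ => rfl, fun _ _ _ _ => rfl, fun _ _ _ _ => rfl,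
    fun _ _ _ _ => rfl, fun _ _ _ _ => rfl⟩
  fits := ⟨by norm_num [chD59], by norm_num [chD59], by norm_num [chD59],
    by norm_num [chD59]⟩
  left := ⟨290, 13, 15, 3, 3, by decide +kernel⟩
  right := ⟨268, 12, 13, 3, 3, by decide +kernel⟩
  up := ⟨315, 13, 16, 3, 4, by decide +kernel⟩
  down := ⟨315, 13, 15, 4, 4, by decide +kernel⟩

/-- The bin `D59`. -/
theorem binD59 : SideBin chD59 pcD59 bxD59 :=
  ⟨⟨⟨fun _ => rfl, fun _ => rfl, fun _ => rfl, fun _ => rfl, fun _ => rfl, fun x => by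
      simp only [pcD59, Piece.A, Piece.S, ev_add, ev_sub, ev_mul, Ex.eval]; push_cast; ring,
      rfl, rfl⟩,
      ⟨rfl, rfl, rfl, rfl⟩, rfl, rfl, rfl, rfl, by norm_num [chD59], rfl, rfl, rfl, rfl⟩,
    okD59, certD59⟩

end Vale.Agent.P100.Calib.StripEndD
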