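import Vale.Agent.P100.Calib.SlabStripEndDSide
import Vale.Agent.P100.Calib.SlabStripEndBig
import Vale.Agent.P100.Calib.SlabStripEndDDataC

/-!
# The checks of the bins `D62`, `D63` of the strip for `u` near one, `d` large
-/

namespace Vale.Agent.P100.Calib.StripEndD

open Pack hiding ev_add ev_mul
open Pack.Ex StripMid StripEnd

local instance endDCheck31Add : Add Ex := ⟨Ex.add⟩
local instance endDCheck31Sub : Sub Ex := ⟨Ex.sub⟩
local instance endDCheck31Mul : Mul Ex := ⟨Ex.mul⟩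

/-- The checks of `D62`. -/
theorem certD62 : Cert pcD62 bxD62 := by
  have h_g1 : ∀ s p l : Bool,
      checkFour bxD62.C 221 7 12 0 5
        (pcD62.at ⟨p, l, !s, !s, false⟩ (c1 s)) = true := by
    decide +kernel
  have h_g2 : ∀ s p l t : Bool,
      checkFour bxD62.C 564 20 30 0 10
        (pcD62.at ⟨p, l, true, true, t⟩ (StripEnd.strict (c2 s))) = true := by
    decide +kernel
  have h_g5 : ∀ s p l t : Bool,
      checkFour bxD62.C 574 18 28 0 9
        (pcD62.at ⟨p, l, true, true, t⟩ (StripEnd.strict (c5 s))) = true := by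
    decide +kernel
  have h_gMG : ∀ p l t : Bool,
      checkFour bxD62.C 459 17 27 0 8
        (pcD62.at ⟨p, l, true, false, t⟩ tplMG) = true := by
    decide +kernel
  have h_v2 : ∀ s : Bool,
      checkFour bxD62.C 121 5 9 0 4
        (pcD62.at ⟨false, false, true, true, false⟩ (curve2 s)) = true := by
    decide +kernel
  have h_v5 : ∀ s : Bool,
      checkFour bxD62.C 129 6 9 0 4
        (pcD62.at ⟨false, false, true, true, false⟩ (curve5 s)) = true := by
    decide +kernel
  have h_wP : ∀ b hi : Bool,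
      checkFour bxD62.C 72 2 3 1 1
        (pcD62.winP b hi) = true := by
    decide +kernel
  have h_wE : ∀ b hi : Bool,
      checkFour bxD62.C 232 11 14 2 3
        (pcD62.winE b hi) = true := by
    decide +kernel
  have h_wK : ∀ b hi : Bool,
      checkFour bxD62.C 220 12 12 2 3
        (pcD62.winK b hi) = true := by
    decide +kernel
  have h_wW : ∀ b : Bool,
      checkFour bxD62.C 185 8 10 2 3
        (pcD62.winW b) = true := by
    decide +kernel
  have h_wY : ∀ b : Bool,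
      checkFour bxD62.C 369 17 21 3 6
        (pcD62.winY b) = true := by
    decide +kernel
  have h_wT : ∀ b hi : Bool,
      checkFour bxD62.C 173 7 9 2 4
        (pcD62.winT b hi) = true := by
    decide +kernel
  have h_gap : ∀ b t : Bool,
      checkFour bxD62.C 423 22 27 3 6
        (pcD62.gap b t) = true := by
    decide +kernel
  exact {
    pos := ⟨by norm_num [pcD62], by norm_num [pcD62]⟩
    low := ⟨by norm_num [bxD62], by norm_num [bxD62], by norm_num [bxD62]⟩
    sgns := fun f => by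
      cases f
      case I => exact ⟨142, 3, 3, 3, 0, by decide +kernel⟩
      case d => exact ⟨143, 3, 3, 3, 0, by decide +kernel⟩
      case A => exact ⟨147, 3, 3, 3, 0, by decide +kernel⟩
      case S => exact ⟨147, 3, 3, 3, 0, by decide +kernel⟩
      case U => exact ⟨147, 3, 3, 3, 0, by decide +kernel⟩
      case den => exact ⟨154, 3, 3, 3, 0, by decide +kernel⟩
      case o => exact ⟨155, 3, 3, 3, 1, by decide +kernel⟩
      case olt => exact ⟨156, 3, 3, 3, 1, by decide +kernel⟩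
      case pd => exact ⟨163, 3, 3, 3, 0, by decide +kernel⟩
      case e0 => exact ⟨172, 3, 3, 3, 0, by decide +kernel⟩
      case f0 => exact ⟨173, 3, 3, 3, 0, by decide +kernel⟩
      case wd => exact ⟨171, 3, 3, 3, 0, by decide +kernel⟩
      case td => exact ⟨173, 3, 3, 3, 0, by decide +kernel⟩
      case cd => exact ⟨147, 3, 3, 3, 0, by decide +kernel⟩
      case kd => exact ⟨154, 3, 3, 3, 0, by decide +kernel⟩
    kn := ⟨34, 2, 2, 0, 0, by decide +kernel⟩
    k2n := ⟨154, 3, 3, 3, 1, by decide +kernel⟩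
    k2d := ⟨154, 3, 3, 3, 0, by decide +kernel⟩
    vs := ⟨147, 3, 3, 3, 0, by decide +kernel⟩
    vMG := ⟨109, 5, 8, 0, 4, by decide +kernel⟩
    g1 := fun s p l => ⟨221, 7, 12, 0, 5, h_g1 s p l⟩
    g2 := fun s p l t => ⟨564, 20, 30, 0, 10, h_g2 s p l t⟩
    g5 := fun s p l t => ⟨574, 18, 28, 0, 9, h_g5 s p l t⟩
    gMG := fun p l t => ⟨459, 17, 27, 0, 8, h_gMG p l t⟩
    v2 := fun s => ⟨121, 5, 9, 0, 4, h_v2 s⟩
    v5 := fun s => ⟨129, 6, 9, 0, 4, h_v5 s⟩
    wP := fun b hi => ⟨72, 2, 3, 1, 1, h_wP b hi⟩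
    wE := fun b hi => ⟨232, 11, 14, 2, 3, h_wE b hi⟩
    wK := fun b hi => ⟨220, 12, 12, 2, 3, h_wK b hi⟩
    wW := fun b => ⟨185, 8, 10, 2, 3, h_wW b⟩
    wY := fun b => ⟨369, 17, 21, 3, 6, h_wY b⟩
    wT := fun b hi => ⟨173, 7, 9, 2, 4, h_wT b hi⟩
    gap := fun b t => ⟨423, 22, 27, 3, 6, h_gap b t⟩
  }

/-- The window of `D62`. -/
theorem okD62 : chD62.Cert where
  flat := ⟨fun _ _ _ _ => rfl, fun _ _ _ _ => rfl, fun _ _ _ _ => rfl, fun _ _ _ _ => rfl,
    fun _ _ _ _ => rfl, fun _ _ _ _ => rfl⟩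
  fits := ⟨by norm_num [chD62], by norm_num [chD62], by norm_num [chD62],
    by norm_num [chD62]⟩
  left := ⟨227, 13, 15, 3, 3, by decide +kernel⟩
  right := ⟨214, 12, 13, 3, 3, by decide +kernel⟩
  up := ⟨248, 13, 16, 3, 4, by decide +kernel⟩
  down := ⟨254, 13, 15, 4, 4, by decide +kernel⟩

/-- The bin `D62`. -/
theorem binD62 : SideBin chD62 pcD62 bxD62 :=
  ⟨⟨⟨fun _ => rfl, fun _ => rfl, fun _ => rfl, fun _ => rfl, fun _ => rfl, fun x => by
      simp only [pcD62, Piece.A, Piece.S, ev_add, ev_sub, ev_mul, Ex.eval]; push_cast; ring,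
      rfl, rfl⟩,
      ⟨rfl, rfl, rfl, rfl⟩, rfl, rfl, rfl, rfl, by norm_num [chD62], rfl, rfl, rfl, rfl⟩,
    okD62, certD62⟩

/-- The checks of `D63`. -/
theorem certD63 : Cert pcD63 bxD63 := by
  have h_g1 : ∀ s p l : Bool,
      checkFour bxD63.C 221 7 12 0 5
        (pcD63.at ⟨p, l, !s, !s, false⟩ (c1 s)) = true := by
    decide +kernel
  have h_g2 : ∀ s p l t : Bool,
      checkFour bxD63.C 564 20 30 0 10
        (pcD63.at ⟨p, l, true, true, t⟩ (StripEnd.strict (c2 s))) = true := by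
    decide +kernel
  have h_g5 : ∀ s p l t : Bool,
      checkFour bxD63.C 574 18 28 0 9
        (pcD63.at ⟨p, l, true, true, t⟩ (StripEnd.strict (c5 s))) = true := by
    decide +kernel
  have h_gMG : ∀ p l t : Bool,
      checkFour bxD63.C 459 17 27 0 8
        (pcD63.at ⟨p, l, true, false, t⟩ tplMG) = true := by
    decide +kernel
  have h_v2 : ∀ s : Bool,
      checkFour bxD63.C 121 5 9 0 4
        (pcD63.at ⟨false, false, true, true, false⟩ (curve2 s)) = true := by
    decide +kernel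
  have h_v5 : ∀ s : Bool,
      checkFour bxD63.C 129 6 9 0 4
        (pcD63.at ⟨false, false, true, true, false⟩ (curve5 s)) = true := by
    decide +kernel
  have h_wP : ∀ b hi : Bool,
      checkFour bxD63.C 71 2 3 1 1
        (pcD63.winP b hi) = true := by
    decide +kernel
  have h_wE : ∀ b hi : Bool,
      checkFour bxD63.C 231 11 14 2 3
        (pcD63.winE b hi) = true := by
    decide +kernel
  have h_wK : ∀ b hi : Bool,
      checkFour bxD63.C 219 12 12 2 3
        (pcD63.winK b hi) = true := by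
    decide +kernel
  have h_wW : ∀ b : Bool,
      checkFour bxD63.C 185 8 10 2 3
        (pcD63.winW b) = true := by
    decide +kernel
  have h_wY : ∀ b : Bool,
      checkFour bxD63.C 369 17 21 3 6
        (pcD63.winY b) = true := by
    decide +kernel
  have h_wT : ∀ b hi : Bool,
      checkFour bxD63.C 173 7 9 2 4
        (pcD63.winT b hi) = true := by
    decide +kernel
  have h_gap : ∀ b t : Bool,
      checkFour bxD63.C 423 22 27 3 6
        (pcD63.gap b t) = true := by
    decide +kernel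
  exact {
    pos := ⟨by norm_num [pcD63], by norm_num [pcD63]⟩
    low := ⟨by norm_num [bxD63], by norm_num [bxD63], by norm_num [bxD63]⟩
    sgns := fun f => by
      cases f
      case I => exact ⟨142, 3, 3, 3, 0, by decide +kernel⟩
      case d => exact ⟨143, 3, 3, 3, 0, by decide +kernel⟩
      case A => exact ⟨147, 3, 3, 3, 0, by decide +kernel⟩
      case S => exact ⟨147, 3, 3, 3, 0, by decide +kernel⟩
      case U => exact ⟨147, 3, 3, 3, 0, by decide +kernel⟩
      case den => exact ⟨154, 3, 3, 3, 0, by decide +kernel⟩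
      case o => exact ⟨154, 3, 3, 3, 1, by decide +kernel⟩
      case olt => exact ⟨156, 3, 3, 3, 1, by decide +kernel⟩
      case pd => exact ⟨163, 3, 3, 3, 0, by decide +kernel⟩
      case e0 => exact ⟨173, 3, 3, 3, 0, by decide +kernel⟩
      case f0 => exact ⟨173, 3, 3, 3, 0, by decide +kernel⟩
      case wd => exact ⟨171, 3, 3, 3, 0, by decide +kernel⟩
      case td => exact ⟨173, 3, 3, 3, 0, by decide +kernel⟩
      case cd => exact ⟨147, 3, 3, 3, 0, by decide +kernel⟩
      case kd => exact ⟨154, 3, 3, 3, 0, by decide +kernel⟩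
    kn := ⟨34, 2, 2, 0, 0, by decide +kernel⟩
    k2n := ⟨154, 3, 3, 3, 1, by decide +kernel⟩
    k2d := ⟨154, 3, 3, 3, 0, by decide +kernel⟩
    vs := ⟨147, 3, 3, 3, 0, by decide +kernel⟩
    vMG := ⟨109, 5, 8, 0, 4, by decide +kernel⟩
    g1 := fun s p l => ⟨221, 7, 12, 0, 5, h_g1 s p l⟩
    g2 := fun s p l t => ⟨564, 20, 30, 0, 10, h_g2 s p l t⟩
    g5 := fun s p l t => ⟨574, 18, 28, 0, 9, h_g5 s p l t⟩
    gMG := fun p l t => ⟨459, 17, 27, 0, 8, h_gMG p l t⟩
    v2 := fun s => ⟨121, 5, 9, 0, 4, h_v2 s⟩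
    v5 := fun s => ⟨129, 6, 9, 0, 4, h_v5 s⟩
    wP := fun b hi => ⟨71, 2, 3, 1, 1, h_wP b hi⟩
    wE := fun b hi => ⟨231, 11, 14, 2, 3, h_wE b hi⟩
    wK := fun b hi => ⟨219, 12, 12, 2, 3, h_wK b hi⟩
    wW := fun b => ⟨185, 8, 10, 2, 3, h_wW b⟩
    wY := fun b => ⟨369, 17, 21, 3, 6, h_wY b⟩
    wT := fun b hi => ⟨173, 7, 9, 2, 4, h_wT b hi⟩
    gap := fun b t => ⟨423, 22, 27, 3, 6, h_gap b t⟩
  }

/-- The window of `D63`. -/
theorem okD63 : chD63.Cert where
  flat := ⟨fun _ _ _ _ => rfl, fun _ _ _ _ => rfl, fun _ _ _ _ => rfl, fun _ _ _ _ => rfl,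
    fun _ _ _ _ => rfl, fun _ _ _ _ => rfl⟩
  fits := ⟨by norm_num [chD63], by norm_num [chD63], by norm_num [chD63],
    by norm_num [chD63]⟩
  left := ⟨227, 13, 15, 3, 3, by decide +kernel⟩
  right := ⟨214, 12, 13, 3, 3, by decide +kernel⟩
  up := ⟨248, 13, 16, 3, 4, by decide +kernel⟩
  down := ⟨254, 13, 15, 4, 4, by decide +kernel⟩

/-- The bin `D63`. -/
theorem binD63 : SideBin chD63 pcD63 bxD63 :=
  ⟨⟨⟨fun _ => rfl, fun _ => rfl, fun _ => rfl, fun _ => rfl, fun _ => rfl, fun x => by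
      simp only [pcD63, Piece.A, Piece.S, ev_add, ev_sub, ev_mul, Ex.eval]; push_cast; ring,
      rfl, rfl⟩,
      ⟨rfl, rfl, rfl, rfl⟩, rfl, rfl, rfl, rfl, by norm_num [chD63], rfl, rfl, rfl, rfl⟩,
    okD63, certD63⟩

end Vale.Agent.P100.Calib.StripEndD
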