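import Vale.Agent.P100.Calib.SlabStripEndDSide
import Vale.Agent.P100.Calib.SlabStripEndBig
import Vale.Agent.P100.Calib.SlabStripEndDDataC

/-!
# The checks of the bins `D64`, `D65` of the strip for `u` near one, `d` large
-/

namespace Vale.Agent.P100.Calib.StripEndD

open Pack hiding ev_add ev_mul
open Pack.Ex StripMid StripEnd

local instance endDCheck32Add : Add Ex := ⟨Ex.add⟩
local instance endDCheck32Sub : Sub Ex := ⟨Ex.sub⟩
local instance endDCheck32Mul : Mul Ex := ⟨Ex.mul⟩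

/-- The checks of `D64`. -/
theorem certD64 : Cert pcD64 bxD64 := by
  have h_g1 : ∀ s p l : Bool,
      checkFour bxD64.C 206 7 12 0 5
        (pcD64.at ⟨p, l, !s, !s, false⟩ (c1 s)) = true := by
    decide +kernel
  have h_g2 : ∀ s p l t : Bool,
      checkFour bxD64.C 540 20 30 0 10
        (pcD64.at ⟨p, l, true, true, t⟩ (StripEnd.strict (c2 s))) = true := by
    decide +kernel
  have h_g5 : ∀ s p l t : Bool,
      checkFour bxD64.C 545 18 28 0 9
        (pcD64.at ⟨p, l, true, true, t⟩ (StripEnd.strict (c5 s))) = true := by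
    decide +kernel
  have h_gMG : ∀ p l t : Bool,
      checkFour bxD64.C 430 17 27 0 8
        (pcD64.at ⟨p, l, true, false, t⟩ tplMG) = true := by
    decide +kernel
  have h_v2 : ∀ s : Bool,
      checkFour bxD64.C 121 5 9 0 4
        (pcD64.at ⟨false, false, true, true, false⟩ (curve2 s)) = true := by
    decide +kernel
  have h_v5 : ∀ s : Bool,
      checkFour bxD64.C 129 6 9 0 4
        (pcD64.at ⟨false, false, true, true, false⟩ (curve5 s)) = true := by
    decide +kernel
  have h_wP : ∀ b hi : Bool,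
      checkFour bxD64.C 62 2 3 1 1
        (pcD64.winP b hi) = true := by
    decide +kernel
  have h_wE : ∀ b hi : Bool,
      checkFour bxD64.C 217 11 14 2 3
        (pcD64.winE b hi) = true := by
    decide +kernel
  have h_wK : ∀ b hi : Bool,
      checkFour bxD64.C 205 12 12 2 3
        (pcD64.winK b hi) = true := by
    decide +kernel
  have h_wW : ∀ b : Bool,
      checkFour bxD64.C 170 8 10 2 3
        (pcD64.winW b) = true := by
    decide +kernel
  have h_wY : ∀ b : Bool,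
      checkFour bxD64.C 345 17 21 3 6
        (pcD64.winY b) = true := by
    decide +kernel
  have h_wT : ∀ b hi : Bool,
      checkFour bxD64.C 159 7 9 2 4
        (pcD64.winT b hi) = true := by
    decide +kernel
  have h_gap : ∀ b t : Bool,
      checkFour bxD64.C 404 22 27 3 6
        (pcD64.gap b t) = true := by
    decide +kernel
  exact {
    pos := ⟨by norm_num [pcD64], by norm_num [pcD64]⟩
    low := ⟨by norm_num [bxD64], by norm_num [bxD64], by norm_num [bxD64]⟩
    sgns := fun f => by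
      cases f
      case I => exact ⟨128, 3, 3, 3, 0, by decide +kernel⟩
      case d => exact ⟨129, 3, 3, 3, 0, by decide +kernel⟩
      case A => exact ⟨134, 3, 3, 3, 0, by decide +kernel⟩
      case S => exact ⟨133, 3, 3, 3, 0, by decide +kernel⟩
      case U => exact ⟨133, 3, 3, 3, 0, by decide +kernel⟩
      case den => exact ⟨140, 3, 3, 3, 0, by decide +kernel⟩
      case o => exact ⟨140, 3, 3, 3, 1, by decide +kernel⟩
      case olt => exact ⟨142, 3, 3, 3, 1, by decide +kernel⟩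
      case pd => exact ⟨144, 3, 3, 3, 0, by decide +kernel⟩
      case e0 => exact ⟨155, 3, 3, 3, 0, by decide +kernel⟩
      case f0 => exact ⟨154, 3, 3, 3, 0, by decide +kernel⟩
      case wd => exact ⟨152, 3, 3, 3, 0, by decide +kernel⟩
      case td => exact ⟨154, 3, 3, 3, 0, by decide +kernel⟩
      case cd => exact ⟨134, 3, 3, 3, 0, by decide +kernel⟩
      case kd => exact ⟨140, 3, 3, 3, 0, by decide +kernel⟩
    kn := ⟨33, 2, 2, 0, 0, by decide +kernel⟩
    k2n := ⟨141, 3, 3, 3, 1, by decide +kernel⟩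
    k2d := ⟨140, 3, 3, 3, 0, by decide +kernel⟩
    vs := ⟨133, 3, 3, 3, 0, by decide +kernel⟩
    vMG := ⟨109, 5, 8, 0, 4, by decide +kernel⟩
    g1 := fun s p l => ⟨206, 7, 12, 0, 5, h_g1 s p l⟩
    g2 := fun s p l t => ⟨540, 20, 30, 0, 10, h_g2 s p l t⟩
    g5 := fun s p l t => ⟨545, 18, 28, 0, 9, h_g5 s p l t⟩
    gMG := fun p l t => ⟨430, 17, 27, 0, 8, h_gMG p l t⟩
    v2 := fun s => ⟨121, 5, 9, 0, 4, h_v2 s⟩
    v5 := fun s => ⟨129, 6, 9, 0, 4, h_v5 s⟩
    wP := fun b hi => ⟨62, 2, 3, 1, 1, h_wP b hi⟩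
    wE := fun b hi => ⟨217, 11, 14, 2, 3, h_wE b hi⟩
    wK := fun b hi => ⟨205, 12, 12, 2, 3, h_wK b hi⟩
    wW := fun b => ⟨170, 8, 10, 2, 3, h_wW b⟩
    wY := fun b => ⟨345, 17, 21, 3, 6, h_wY b⟩
    wT := fun b hi => ⟨159, 7, 9, 2, 4, h_wT b hi⟩
    gap := fun b t => ⟨404, 22, 27, 3, 6, h_gap b t⟩
  }

/-- The window of `D64`. -/
theorem okD64 : chD64.Cert where
  flat := ⟨fun _ _ _ _ => rfl, fun _ _ _ _ => rfl, fun _ _ _ _ => rfl, fun _ _ _ _ => rfl,
    fun _ _ _ _ => rfl, fun _ _ _ _ => rfl⟩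
  fits := ⟨by norm_num [chD64], by norm_num [chD64], by norm_num [chD64],
    by norm_num [chD64]⟩
  left := ⟨213, 13, 15, 3, 3, by decide +kernel⟩
  right := ⟨200, 12, 13, 3, 3, by decide +kernel⟩
  up := ⟨234, 13, 16, 3, 4, by decide +kernel⟩
  down := ⟨235, 13, 15, 4, 4, by decide +kernel⟩

/-- The bin `D64`. -/
theorem binD64 : SideBin chD64 pcD64 bxD64 :=
  ⟨⟨⟨fun _ => rfl, fun _ => rfl, fun _ => rfl, fun _ => rfl, fun _ => rfl, fun x => by
      simp only [pcD64, Piece.A, Piece.S, ev_add, ev_sub, ev_mul, Ex.eval]; push_cast; ring,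
      rfl, rfl⟩,
      ⟨rfl, rfl, rfl, rfl⟩, rfl, rfl, rfl, rfl, by norm_num [chD64], rfl, rfl, rfl, rfl⟩,
    okD64, certD64⟩

/-- The checks of `D65`. -/
theorem certD65 : Cert pcD65 bxD65 := by
  have h_g1 : ∀ s p l : Bool,
      checkFour bxD65.C 209 7 12 0 5
        (pcD65.at ⟨p, l, !s, !s, false⟩ (c1 s)) = true := by
    decide +kernel
  have h_g2 : ∀ s p l t : Bool,
      checkFour bxD65.C 539 20 30 0 10
        (pcD65.at ⟨p, l, true, true, t⟩ (StripEnd.strict (c2 s))) = true := by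
    decide +kernel
  have h_g5 : ∀ s p l t : Bool,
      checkFour bxD65.C 547 18 28 0 9
        (pcD65.at ⟨p, l, true, true, t⟩ (StripEnd.strict (c5 s))) = true := by
    decide +kernel
  have h_gMG : ∀ p l t : Bool,
      checkFour bxD65.C 432 17 27 0 8
        (pcD65.at ⟨p, l, true, false, t⟩ tplMG) = true := by
    decide +kernel
  have h_v2 : ∀ s : Bool,
      checkFour bxD65.C 120 5 9 0 4
        (pcD65.at ⟨false, false, true, true, false⟩ (curve2 s)) = true := by
    decide +kernel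
  have h_v5 : ∀ s : Bool,
      checkFour bxD65.C 129 6 9 0 4
        (pcD65.at ⟨false, false, true, true, false⟩ (curve5 s)) = true := by
    decide +kernel
  have h_wP : ∀ b hi : Bool,
      checkFour bxD65.C 62 2 3 1 1
        (pcD65.winP b hi) = true := by
    decide +kernel
  have h_wE : ∀ b hi : Bool,
      checkFour bxD65.C 217 11 14 2 3
        (pcD65.winE b hi) = true := by
    decide +kernel
  have h_wK : ∀ b hi : Bool,
      checkFour bxD65.C 205 12 12 2 3
        (pcD65.winK b hi) = true := by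
    decide +kernel
  have h_wW : ∀ b : Bool,
      checkFour bxD65.C 173 8 10 2 3
        (pcD65.winW b) = true := by
    decide +kernel
  have h_wY : ∀ b : Bool,
      checkFour bxD65.C 347 17 21 3 6
        (pcD65.winY b) = true := by
    decide +kernel
  have h_wT : ∀ b hi : Bool,
      checkFour bxD65.C 159 7 9 2 4
        (pcD65.winT b hi) = true := by
    decide +kernel
  have h_gap : ∀ b t : Bool,
      checkFour bxD65.C 404 22 27 3 6
        (pcD65.gap b t) = true := by
    decide +kernel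
  exact {
    pos := ⟨by norm_num [pcD65], by norm_num [pcD65]⟩
    low := ⟨by norm_num [bxD65], by norm_num [bxD65], by norm_num [bxD65]⟩
    sgns := fun f => by
      cases f
      case I => exact ⟨128, 3, 3, 3, 0, by decide +kernel⟩
      case d => exact ⟨129, 3, 3, 3, 0, by decide +kernel⟩
      case A => exact ⟨134, 3, 3, 3, 0, by decide +kernel⟩
      case S => exact ⟨133, 3, 3, 3, 0, by decide +kernel⟩
      case U => exact ⟨133, 3, 3, 3, 0, by decide +kernel⟩
      case den => exact ⟨140, 3, 3, 3, 0, by decide +kernel⟩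
      case o => exact ⟨140, 3, 3, 3, 1, by decide +kernel⟩
      case olt => exact ⟨141, 3, 3, 3, 1, by decide +kernel⟩
      case pd => exact ⟨144, 3, 3, 3, 0, by decide +kernel⟩
      case e0 => exact ⟨156, 3, 3, 3, 0, by decide +kernel⟩
      case f0 => exact ⟨154, 3, 3, 3, 0, by decide +kernel⟩
      case wd => exact ⟨154, 3, 3, 3, 0, by decide +kernel⟩
      case td => exact ⟨154, 3, 3, 3, 0, by decide +kernel⟩
      case cd => exact ⟨134, 3, 3, 3, 0, by decide +kernel⟩
      case kd => exact ⟨140, 3, 3, 3, 0, by decide +kernel⟩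
    kn := ⟨24, 1, 2, 0, 0, by decide +kernel⟩
    k2n := ⟨140, 3, 3, 3, 1, by decide +kernel⟩
    k2d := ⟨140, 3, 3, 3, 0, by decide +kernel⟩
    vs := ⟨133, 3, 3, 3, 0, by decide +kernel⟩
    vMG := ⟨109, 5, 8, 0, 4, by decide +kernel⟩
    g1 := fun s p l => ⟨209, 7, 12, 0, 5, h_g1 s p l⟩
    g2 := fun s p l t => ⟨539, 20, 30, 0, 10, h_g2 s p l t⟩
    g5 := fun s p l t => ⟨547, 18, 28, 0, 9, h_g5 s p l t⟩
    gMG := fun p l t => ⟨432, 17, 27, 0, 8, h_gMG p l t⟩
    v2 := fun s => ⟨120, 5, 9, 0, 4, h_v2 s⟩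
    v5 := fun s => ⟨129, 6, 9, 0, 4, h_v5 s⟩
    wP := fun b hi => ⟨62, 2, 3, 1, 1, h_wP b hi⟩
    wE := fun b hi => ⟨217, 11, 14, 2, 3, h_wE b hi⟩
    wK := fun b hi => ⟨205, 12, 12, 2, 3, h_wK b hi⟩
    wW := fun b => ⟨173, 8, 10, 2, 3, h_wW b⟩
    wY := fun b => ⟨347, 17, 21, 3, 6, h_wY b⟩
    wT := fun b hi => ⟨159, 7, 9, 2, 4, h_wT b hi⟩
    gap := fun b t => ⟨404, 22, 27, 3, 6, h_gap b t⟩
  }

/-- The window of `D65`. -/
theorem okD65 : chD65.Cert where
  flat := ⟨fun _ _ _ _ => rfl, fun _ _ _ _ => rfl, fun _ _ _ _ => rfl, fun _ _ _ _ => rfl,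
    fun _ _ _ _ => rfl, fun _ _ _ _ => rfl⟩
  fits := ⟨by norm_num [chD65], by norm_num [chD65], by norm_num [chD65],
    by norm_num [chD65]⟩
  left := ⟨214, 13, 15, 3, 3, by decide +kernel⟩
  right := ⟨200, 12, 13, 3, 3, by decide +kernel⟩
  up := ⟨234, 13, 16, 3, 4, by decide +kernel⟩
  down := ⟨235, 13, 15, 4, 4, by decide +kernel⟩

/-- The bin `D65`. -/
theorem binD65 : SideBin chD65 pcD65 bxD65 :=
  ⟨⟨⟨fun _ => rfl, fun _ => rfl, fun _ => rfl, fun _ => rfl, fun _ => rfl, fun x => by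
      simp only [pcD65, Piece.A, Piece.S, ev_add, ev_sub, ev_mul, Ex.eval]; push_cast; ring,
      rfl, rfl⟩,
      ⟨rfl, rfl, rfl, rfl⟩, rfl, rfl, rfl, rfl, by norm_num [chD65], rfl, rfl, rfl, rfl⟩,
    okD65, certD65⟩

end Vale.Agent.P100.Calib.StripEndD
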