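import Vale.Agent.P100.Calib.SlabStripEndDSide
import Vale.Agent.P100.Calib.SlabStripEndBig
import Vale.Agent.P100.Calib.SlabStripEndDDataC

/-!
# The checks of the bins `D70`, `D71` of the strip for `u` near one, `d` large
-/

namespace Vale.Agent.P100.Calib.StripEndD

open Pack hiding ev_add ev_mul
open Pack.Ex StripMid StripEnd

local instance endDCheck35Add : Add Ex := ⟨Ex.add⟩
local instance endDCheck35Sub : Sub Ex := ⟨Ex.sub⟩
local instance endDCheck35Mul : Mul Ex := ⟨Ex.mul⟩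

/-- The checks of `D70`. -/
theorem certD70 : Cert pcD70 bxD70 := by
  have h_g1 : ∀ s p l : Bool,
      checkFour bxD70.C 193 7 12 0 5
        (pcD70.at ⟨p, l, !s, !s, false⟩ (c1 s)) = true := by
    decide +kernel
  have h_g2 : ∀ s p l t : Bool,
      checkFour bxD70.C 500 20 30 0 10
        (pcD70.at ⟨p, l, true, true, t⟩ (StripEnd.strict (c2 s))) = true := by
    decide +kernel
  have h_g5 : ∀ s p l t : Bool,
      checkFour bxD70.C 513 18 28 0 9
        (pcD70.at ⟨p, l, true, true, t⟩ (StripEnd.strict (c5 s))) = true := by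
    decide +kernel
  have h_gMG : ∀ p l t : Bool,
      checkFour bxD70.C 399 17 27 0 8
        (pcD70.at ⟨p, l, true, false, t⟩ tplMG) = true := by
    decide +kernel
  have h_v2 : ∀ s : Bool,
      checkFour bxD70.C 107 5 9 0 4
        (pcD70.at ⟨false, false, true, true, false⟩ (curve2 s)) = true := by
    decide +kernel
  have h_v5 : ∀ s : Bool,
      checkFour bxD70.C 112 6 9 0 4
        (pcD70.at ⟨false, false, true, true, false⟩ (curve5 s)) = true := by
    decide +kernel
  have h_wP : ∀ b hi : Bool,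
      checkFour bxD70.C 63 2 3 1 1
        (pcD70.winP b hi) = true := by
    decide +kernel
  have h_wE : ∀ b hi : Bool,
      checkFour bxD70.C 200 11 14 2 3
        (pcD70.winE b hi) = true := by
    decide +kernel
  have h_wK : ∀ b hi : Bool,
      checkFour bxD70.C 191 12 12 2 3
        (pcD70.winK b hi) = true := by
    decide +kernel
  have h_wW : ∀ b : Bool,
      checkFour bxD70.C 160 8 10 2 3
        (pcD70.winW b) = true := by
    decide +kernel
  have h_wY : ∀ b : Bool,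
      checkFour bxD70.C 321 17 21 3 6
        (pcD70.winY b) = true := by
    decide +kernel
  have h_wT : ∀ b hi : Bool,
      checkFour bxD70.C 151 7 9 2 4
        (pcD70.winT b hi) = true := by
    decide +kernel
  have h_gap : ∀ b t : Bool,
      checkFour bxD70.C 363 22 27 3 6
        (pcD70.gap b t) = true := by
    decide +kernel
  exact {
    pos := ⟨by norm_num [pcD70], by norm_num [pcD70]⟩
    low := ⟨by norm_num [bxD70], by norm_num [bxD70], by norm_num [bxD70]⟩
    sgns := fun f => by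
      cases f
      case I => exact ⟨131, 3, 3, 3, 0, by decide +kernel⟩
      case d => exact ⟨134, 3, 3, 3, 0, by decide +kernel⟩
      case A => exact ⟨137, 3, 3, 3, 0, by decide +kernel⟩
      case S => exact ⟨136, 3, 3, 3, 0, by decide +kernel⟩
      case U => exact ⟨136, 3, 3, 3, 0, by decide +kernel⟩
      case den => exact ⟨143, 3, 3, 3, 0, by decide +kernel⟩
      case o => exact ⟨141, 3, 3, 3, 1, by decide +kernel⟩
      case olt => exact ⟨144, 3, 3, 3, 1, by decide +kernel⟩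
      case pd => exact ⟨151, 3, 3, 3, 0, by decide +kernel⟩
      case e0 => exact ⟨160, 3, 3, 3, 0, by decide +kernel⟩
      case f0 => exact ⟨161, 3, 3, 3, 0, by decide +kernel⟩
      case wd => exact ⟨158, 3, 3, 3, 0, by decide +kernel⟩
      case td => exact ⟨161, 3, 3, 3, 0, by decide +kernel⟩
      case cd => exact ⟨137, 3, 3, 3, 0, by decide +kernel⟩
      case kd => exact ⟨143, 3, 3, 3, 0, by decide +kernel⟩
    kn := ⟨18, 1, 2, 0, 0, by decide +kernel⟩
    k2n := ⟨145, 3, 3, 3, 1, by decide +kernel⟩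
    k2d := ⟨143, 3, 3, 3, 0, by decide +kernel⟩
    vs := ⟨136, 3, 3, 3, 0, by decide +kernel⟩
    vMG := ⟨94, 5, 8, 0, 4, by decide +kernel⟩
    g1 := fun s p l => ⟨193, 7, 12, 0, 5, h_g1 s p l⟩
    g2 := fun s p l t => ⟨500, 20, 30, 0, 10, h_g2 s p l t⟩
    g5 := fun s p l t => ⟨513, 18, 28, 0, 9, h_g5 s p l t⟩
    gMG := fun p l t => ⟨399, 17, 27, 0, 8, h_gMG p l t⟩
    v2 := fun s => ⟨107, 5, 9, 0, 4, h_v2 s⟩
    v5 := fun s => ⟨112, 6, 9, 0, 4, h_v5 s⟩
    wP := fun b hi => ⟨63, 2, 3, 1, 1, h_wP b hi⟩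
    wE := fun b hi => ⟨200, 11, 14, 2, 3, h_wE b hi⟩
    wK := fun b hi => ⟨191, 12, 12, 2, 3, h_wK b hi⟩
    wW := fun b => ⟨160, 8, 10, 2, 3, h_wW b⟩
    wY := fun b => ⟨321, 17, 21, 3, 6, h_wY b⟩
    wT := fun b hi => ⟨151, 7, 9, 2, 4, h_wT b hi⟩
    gap := fun b t => ⟨363, 22, 27, 3, 6, h_gap b t⟩
  }

/-- The window of `D70`. -/
theorem okD70 : chD70.Cert where
  flat := ⟨fun _ _ _ _ => rfl, fun _ _ _ _ => rfl, fun _ _ _ _ => rfl, fun _ _ _ _ => rfl,
    fun _ _ _ _ => rfl, fun _ _ _ _ => rfl⟩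
  fits := ⟨by norm_num [chD70], by norm_num [chD70], by norm_num [chD70],
    by norm_num [chD70]⟩
  left := ⟨193, 13, 15, 3, 3, by decide +kernel⟩
  right := ⟨181, 12, 13, 3, 3, by decide +kernel⟩
  up := ⟨212, 13, 16, 3, 4, by decide +kernel⟩
  down := ⟨217, 13, 15, 4, 4, by decide +kernel⟩

/-- The bin `D70`. -/
theorem binD70 : SideBin chD70 pcD70 bxD70 :=
  ⟨⟨⟨fun _ => rfl, fun _ => rfl, fun _ => rfl, fun _ => rfl, fun _ => rfl, fun x => by
      simp only [pcD70, Piece.A, Piece.S, ev_add, ev_sub, ev_mul, Ex.eval]; push_cast; ring,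
      rfl, rfl⟩,
      ⟨rfl, rfl, rfl, rfl⟩, rfl, rfl, rfl, rfl, by norm_num [chD70], rfl, rfl, rfl, rfl⟩,
    okD70, certD70⟩

/-- The checks of `D71`. -/
theorem certD71 : Cert pcD71 bxD71 := by
  have h_g1 : ∀ s p l : Bool,
      checkFour bxD71.C 277 7 12 0 5
        (pcD71.at ⟨p, l, !s, !s, false⟩ (c1 s)) = true := by
    decide +kernel
  have h_g2 : ∀ s p l t : Bool,
      checkFour bxD71.C 706 20 30 0 10
        (pcD71.at ⟨p, l, true, true, t⟩ (StripEnd.strict (c2 s))) = true := by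
    decide +kernel
  have h_g5 : ∀ s p l t : Bool,
      checkFour bxD71.C 707 18 28 0 9
        (pcD71.at ⟨p, l, true, true, t⟩ (StripEnd.strict (c5 s))) = true := by
    decide +kernel
  have h_gMG : ∀ p l t : Bool,
      checkFour bxD71.C 587 17 27 0 8
        (pcD71.at ⟨p, l, true, false, t⟩ tplMG) = true := by
    decide +kernel
  have h_v2 : ∀ s : Bool,
      checkFour bxD71.C 167 5 9 0 4
        (pcD71.at ⟨false, false, true, true, false⟩ (curve2 s)) = true := by
    decide +kernel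
  have h_v5 : ∀ s : Bool,
      checkFour bxD71.C 172 6 9 0 4
        (pcD71.at ⟨false, false, true, true, false⟩ (curve5 s)) = true := by
    decide +kernel
  have h_wP : ∀ b hi : Bool,
      checkFour bxD71.C 85 2 3 1 1
        (pcD71.winP b hi) = true := by
    decide +kernel
  have h_wE : ∀ b hi : Bool,
      checkFour bxD71.C 297 11 14 2 3
        (pcD71.winE b hi) = true := by
    decide +kernel
  have h_wK : ∀ b hi : Bool,
      checkFour bxD71.C 275 12 12 2 3
        (pcD71.winK b hi) = true := by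
    decide +kernel
  have h_wW : ∀ b : Bool,
      checkFour bxD71.C 230 8 10 2 3
        (pcD71.winW b) = true := by
    decide +kernel
  have h_wY : ∀ b : Bool,
      checkFour bxD71.C 467 17 21 3 6
        (pcD71.winY b) = true := by
    decide +kernel
  have h_wT : ∀ b hi : Bool,
      checkFour bxD71.C 214 7 9 2 4
        (pcD71.winT b hi) = true := by
    decide +kernel
  have h_gap : ∀ b t : Bool,
      checkFour bxD71.C 548 22 27 3 6
        (pcD71.gap b t) = true := by
    decide +kernel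
  exact {
    pos := ⟨by norm_num [pcD71], by norm_num [pcD71]⟩
    low := ⟨by norm_num [bxD71], by norm_num [bxD71], by norm_num [bxD71]⟩
    sgns := fun f => by
      cases f
      case I => exact ⟨155, 3, 3, 3, 0, by decide +kernel⟩
      case d => exact ⟨158, 3, 3, 3, 0, by decide +kernel⟩
      case A => exact ⟨161, 3, 3, 3, 0, by decide +kernel⟩
      case S => exact ⟨160, 3, 3, 3, 0, by decide +kernel⟩
      case U => exact ⟨160, 3, 3, 3, 0, by decide +kernel⟩
      case den => exact ⟨167, 3, 3, 3, 0, by decide +kernel⟩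
      case o => exact ⟨165, 3, 3, 3, 1, by decide +kernel⟩
      case olt => exact ⟨168, 3, 3, 3, 1, by decide +kernel⟩
      case pd => exact ⟨176, 3, 3, 3, 0, by decide +kernel⟩
      case e0 => exact ⟨185, 3, 3, 3, 0, by decide +kernel⟩
      case f0 => exact ⟨186, 3, 3, 3, 0, by decide +kernel⟩
      case wd => exact ⟨184, 3, 3, 3, 0, by decide +kernel⟩
      case td => exact ⟨186, 3, 3, 3, 0, by decide +kernel⟩
      case cd => exact ⟨160, 3, 3, 3, 0, by decide +kernel⟩
      case kd => exact ⟨167, 3, 3, 3, 0, by decide +kernel⟩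
    kn := ⟨30, 1, 2, 0, 0, by decide +kernel⟩
    k2n := ⟨169, 3, 3, 3, 1, by decide +kernel⟩
    k2d := ⟨167, 3, 3, 3, 0, by decide +kernel⟩
    vs := ⟨160, 3, 3, 3, 0, by decide +kernel⟩
    vMG := ⟨148, 5, 8, 0, 4, by decide +kernel⟩
    g1 := fun s p l => ⟨277, 7, 12, 0, 5, h_g1 s p l⟩
    g2 := fun s p l t => ⟨706, 20, 30, 0, 10, h_g2 s p l t⟩
    g5 := fun s p l t => ⟨707, 18, 28, 0, 9, h_g5 s p l t⟩
    gMG := fun p l t => ⟨587, 17, 27, 0, 8, h_gMG p l t⟩
    v2 := fun s => ⟨167, 5, 9, 0, 4, h_v2 s⟩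
    v5 := fun s => ⟨172, 6, 9, 0, 4, h_v5 s⟩
    wP := fun b hi => ⟨85, 2, 3, 1, 1, h_wP b hi⟩
    wE := fun b hi => ⟨297, 11, 14, 2, 3, h_wE b hi⟩
    wK := fun b hi => ⟨275, 12, 12, 2, 3, h_wK b hi⟩
    wW := fun b => ⟨230, 8, 10, 2, 3, h_wW b⟩
    wY := fun b => ⟨467, 17, 21, 3, 6, h_wY b⟩
    wT := fun b hi => ⟨214, 7, 9, 2, 4, h_wT b hi⟩
    gap := fun b t => ⟨548, 22, 27, 3, 6, h_gap b t⟩
  }

/-- The window of `D71`. -/
theorem okD71 : chD71.Cert where
  flat := ⟨fun _ _ _ _ => rfl, fun _ _ _ _ => rfl, fun _ _ _ _ => rfl, fun _ _ _ _ => rfl,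
    fun _ _ _ _ => rfl, fun _ _ _ _ => rfl⟩
  fits := ⟨by norm_num [chD71], by norm_num [chD71], by norm_num [chD71],
    by norm_num [chD71]⟩
  left := ⟨297, 13, 15, 3, 3, by decide +kernel⟩
  right := ⟨272, 12, 13, 3, 3, by decide +kernel⟩
  up := ⟨322, 13, 16, 3, 4, by decide +kernel⟩
  down := ⟨322, 13, 15, 4, 4, by decide +kernel⟩

/-- The bin `D71`. -/
theorem binD71 : SideBin chD71 pcD71 bxD71 :=
  ⟨⟨⟨fun _ => rfl, fun _ => rfl, fun _ => rfl, fun _ => rfl, fun _ => rfl, fun x => by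
      simp only [pcD71, Piece.A, Piece.S, ev_add, ev_sub, ev_mul, Ex.eval]; push_cast; ring,
      rfl, rfl⟩,
      ⟨rfl, rfl, rfl, rfl⟩, rfl, rfl, rfl, rfl, by norm_num [chD71], rfl, rfl, rfl, rfl⟩,
    okD71, certD71⟩

end Vale.Agent.P100.Calib.StripEndD
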