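import Vale.Agent.P100.Calib.SlabStripEndDShift
import Vale.Agent.P100.Calib.SlabStripEndChart

/-!
# The bins `D72` to `D95` of the strip for `u` near one, `d` large
-/

namespace Vale.Agent.P100.Calib.StripEndD

open Pack hiding ev_add ev_mul
open Pack.Ex StripMid StripEnd

local instance endDDataDAdd : Add Ex := ⟨Ex.add⟩
local instance endDDataDSub : Sub Ex := ⟨Ex.sub⟩
local instance endDDataDMul : Mul Ex := ⟨Ex.mul⟩

/-- The chart `D72`. -/
def chD72 : EndChart where
  I := var 0 * var 1
  d := var 0
  w := var 0 * var 2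
  den := num 100
  n₀ := ((num 1 - num 2 * (var 0 * var 1) - var 0) * var 1) * (num 97 + num (-14) * (var 1))
  n₁ := ((num 1 - num 2 * (var 0 * var 1) - var 0) * var 1) * (num 3 + num 74 * (var 1))
  q₀ := (11, 12, 40)
  q₁ := (0, 91, 500)
  q₂ := (7, 11, 500)
  q₃ := (0, 1, 1)
  t₀ := (0, 1)
  t₁ := (1, 1)
  mu₀ := (190, 100)
  mu₁ := (259, 100)

/-- The piece `D72`. -/
def pcD72 : Piece where
  I := var 0 * var 1
  d := var 0
  w := var 0 * var 2
  o := (((num 1 - num 2 * (var 0 * var 1) - var 0) * var 1) * (num 97 + num (-14) * (var 1)) + ((num 1 - num 2 * (var 0 * var 1) - var 0) * var 1) * (num 3 + num 74 * (var 1)) * var 3)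
  den := num 100
  vn := num 2 * var 1 * ((num 97 + num (-14) * (var 1)) + (num 3 + num 74 * (var 1)) * var 3)
  vs := num 1
  mu := ⟨(190, 100), (259, 100)⟩
  pn := fun b => cond b
    (num 50000 * (num 100 - (((num 1 - num 2 * (var 0 * var 1) - var 0) * var 1) * (num 97 + num (-14) * (var 1)) + ((num 1 - num 2 * (var 0 * var 1) - var 0) * var 1) * (num 3 + num 74 * (var 1)) * var 3)) + num (-2849) * ((((num 1 - num 2 * (var 0 * var 1) - var 0) * var 1) * (num 97 + num (-14) * (var 1)) + ((num 1 - num 2 * (var 0 * var 1) - var 0) * var 1) * (num 3 + num 74 * (var 1)) * var 3) * var 0))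
    (num 50000 * (num 100 - (((num 1 - num 2 * (var 0 * var 1) - var 0) * var 1) * (num 97 + num (-14) * (var 1)) + ((num 1 - num 2 * (var 0 * var 1) - var 0) * var 1) * (num 3 + num 74 * (var 1)) * var 3)) + num (-1330) * ((((num 1 - num 2 * (var 0 * var 1) - var 0) * var 1) * (num 97 + num (-14) * (var 1)) + ((num 1 - num 2 * (var 0 * var 1) - var 0) * var 1) * (num 3 + num 74 * (var 1)) * var 3) * var 0))
  pd := num 50000
  en := fun b => cond b
    (num 1018 * (num 836500 * (var 0) * (var 1) + num (-277000) * (var 0) * (var 0) * (var 1) + num 9922 + num 9306 * (var 0) + num (-279000) * (var 0) * (var 1) * (var 1)))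
    (num 980 * (num 836500 * (var 0) * (var 1) + num (-277000) * (var 0) * (var 0) * (var 1) + num 6314 + num 5922 * (var 0) + num (-279000) * (var 0) * (var 1) * (var 1)))
  kk := fun b => cond b
    (num 1011 * (num 9229 * (var 0) + num 11616 * (var 0) * (var 0) + num 12375 * (var 0) * (var 1) + num 44 * (var 0) * (var 3)))
    (num 981 * (num 5873 * (var 0) + num 7392 * (var 0) * (var 0) + num 7875 * (var 0) * (var 1) + num 28 * (var 0) * (var 3)))
  f0 := num 50000000
  wn := fun b => cond b
    (num 1000 * (num (-400000) * (var 0 * var 1) + (num 4000 * (var 0 * var 1) + num 28 * var 0) * (((num 1 - num 2 * (var 0 * var 1) - var 0) * var 1) * (num 97 + num (-14) * (var 1)) + ((num 1 - num 2 * (var 0 * var 1) - var 0) * var 1) * (num 3 + num 74 * (var 1)) * var 3) + var 0 * var 1 * var 0 * (num (-400000) + (num 183000 * (var 1) + num 6587 + num (-800000) * (var 1) * (var 0) + num (-8932) * (var 0) + num 141500 * (var 1) * (var 3) + num (-42) * (var 3)))) + num 451 * (num 100 * (var 0 * var 1 * var 0) * (num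 500 * (var 1) + num 7)))
    (num 1000 * (num (-400000) * (var 0 * var 1) + (num 4000 * (var 0 * var 1) + num 28 * var 0) * (((num 1 - num 2 * (var 0 * var 1) - var 0) * var 1) * (num 97 + num (-14) * (var 1)) + ((num 1 - num 2 * (var 0 * var 1) - var 0) * var 1) * (num 3 + num 74 * (var 1)) * var 3) + var 0 * var 1 * var 0 * (num (-400000) + (num 183000 * (var 1) + num 6587 + num (-800000) * (var 1) * (var 0) + num (-8932) * (var 0) + num 141500 * (var 1) * (var 3) + num (-42) * (var 3)))) + num (-1947) * (num 100 * (var 0 * var 1 * var 0) * (num 500 * (var 1) + num 7)))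
  wd := num 50000000
  tn := fun b => cond b
    (num 1018 * (num 550 + num (-33) * (var 0) + num 550 * (var 1) + num 88 * (var 1) * (var 3)))
    (num 994 * (num 350 + num (-21) * (var 0) + num 350 * (var 1) + num 56 * (var 1) * (var 3)))
  td := num 50000000
  cn := num 1 - var 0 * var 1 - var 1 * (num 1 - num 2 * (var 0 * var 1))
  cd := (num 1 - num 2 * (var 0 * var 1)) * (num 1 - num 2 * (var 0 * var 1))
  kn := var 0 * var 1 * (num 173 + num 1500 * (var 1))
  kd := num 100
  k2n := var 0 * (num 803 + num (-450) * (var 3) + num (-1000) * (var 1))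
  k2d := num 100

/-- Its ranges. -/
def bxD72 : StripEnd.EBox :=
  ⟨(11, 12, 40), (0, 91, 500), (7, 11, 500), (0, 1, 1)⟩

/-- The chart `D73`. -/
def chD73 : EndChart where
  I := var 0 * var 1
  d := var 0
  w := var 0 * var 2
  den := num 100
  n₀ := ((num 1 - num 2 * (var 0 * var 1) - var 0) * var 1) * (num 95 + num (-9) * (var 1))
  n₁ := ((num 1 - num 2 * (var 0 * var 1) - var 0) * var 1) * (num 5 + num 64 * (var 1))
  q₀ := (11, 12, 40)
  q₁ := (0, 91, 500)
  q₂ := (11, 15, 500)
  q₃ := (0, 1, 1)
  t₀ := (0, 1)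
  t₁ := (1, 1)
  mu₀ := (190, 100)
  mu₁ := (259, 100)

/-- The piece `D73`. -/
def pcD73 : Piece where
  I := var 0 * var 1
  d := var 0
  w := var 0 * var 2
  o := (((num 1 - num 2 * (var 0 * var 1) - var 0) * var 1) * (num 95 + num (-9) * (var 1)) + ((num 1 - num 2 * (var 0 * var 1) - var 0) * var 1) * (num 5 + num 64 * (var 1)) * var 3)
  den := num 100
  vn := num 2 * var 1 * ((num 95 + num (-9) * (var 1)) + (num 5 + num 64 * (var 1)) * var 3)
  vs := num 1
  mu := ⟨(190, 100), (259, 100)⟩
  pn := fun b => cond b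
    (num 50000 * (num 100 - (((num 1 - num 2 * (var 0 * var 1) - var 0) * var 1) * (num 95 + num (-9) * (var 1)) + ((num 1 - num 2 * (var 0 * var 1) - var 0) * var 1) * (num 5 + num 64 * (var 1)) * var 3)) + num (-3885) * ((((num 1 - num 2 * (var 0 * var 1) - var 0) * var 1) * (num 95 + num (-9) * (var 1)) + ((num 1 - num 2 * (var 0 * var 1) - var 0) * var 1) * (num 5 + num 64 * (var 1)) * var 3) * var 0))
    (num 50000 * (num 100 - (((num 1 - num 2 * (var 0 * var 1) - var 0) * var 1) * (num 95 + num (-9) * (var 1)) + ((num 1 - num 2 * (var 0 * var 1) - var 0) * var 1) * (num 5 + num 64 * (var 1)) * var 3)) + num (-2090) * ((((num 1 - num 2 * (var 0 * var 1) - var 0) * var 1) * (num 95 + num (-9) * (var 1)) + ((num 1 - num 2 * (var 0 * var 1) - var 0) * var 1) * (num 5 + num 64 * (var 1)) * var 3) * var 0))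
  pd := num 50000
  en := fun b => cond b
    (num 5085 * (num 171700 * (var 0) * (var 1) + num (-58000) * (var 0) * (var 0) * (var 1) + num 2691 + num 2580 * (var 0) + num (-55900) * (var 0) * (var 1) * (var 1)))
    (num 982 * (num 858500 * (var 0) * (var 1) + num (-290000) * (var 0) * (var 0) * (var 1) + num 9867 + num 9460 * (var 0) + num (-279500) * (var 0) * (var 1) * (var 1)))
  kk := fun b => cond b
    (num 5050 * (num 2517 * (var 0) + num 3165 * (var 0) * (var 0) + num 3366 * (var 0) * (var 1) + num 15 * (var 0) * (var 3)))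
    (num 981 * (num 9229 * (var 0) + num 11605 * (var 0) * (var 0) + num 12342 * (var 0) * (var 1) + num 55 * (var 0) * (var 3)))
  f0 := num 50000000
  wn := fun b => cond b
    (num 1000 * (num (-400000) * (var 0 * var 1) + (num 4000 * (var 0 * var 1) + num 44 * var 0) * (((num 1 - num 2 * (var 0 * var 1) - var 0) * var 1) * (num 95 + num (-9) * (var 1)) + ((num 1 - num 2 * (var 0 * var 1) - var 0) * var 1) * (num 5 + num 64 * (var 1)) * var 3) + var 0 * var 1 * var 0 * (num (-400000) + (num 185500 * (var 1) + num 9867 + num (-863500) * (var 1) * (var 0) + num (-13167) * (var 0) + num 170500 * (var 1) * (var 3) + num 165 * (var 3)))) + num 228 * (num 100 * (var 0 * var 1 * var 0) * (num 500 * (var 1) + num 11)))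
    (num 1000 * (num (-400000) * (var 0 * var 1) + (num 4000 * (var 0 * var 1) + num 44 * var 0) * (((num 1 - num 2 * (var 0 * var 1) - var 0) * var 1) * (num 95 + num (-9) * (var 1)) + ((num 1 - num 2 * (var 0 * var 1) - var 0) * var 1) * (num 5 + num 64 * (var 1)) * var 3) + var 0 * var 1 * var 0 * (num (-400000) + (num 185500 * (var 1) + num 9867 + num (-863500) * (var 1) * (var 0) + num (-13167) * (var 0) + num 170500 * (var 1) * (var 3) + num 165 * (var 3)))) + num (-1677) * (num 100 * (var 0 * var 1 * var 0) * (num 500 * (var 1) + num 11)))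
  wd := num 50000000
  tn := fun b => cond b
    (num 5055 * (num 150 + num (-6) * (var 0) + num 147 * (var 1) + num 24 * (var 1) * (var 3)))
    (num 987 * (num 550 + num (-22) * (var 0) + num 539 * (var 1) + num 88 * (var 1) * (var 3)))
  td := num 50000000
  cn := num 1 - var 0 * var 1 - var 1 * (num 1 - num 2 * (var 0 * var 1))
  cd := (num 1 - num 2 * (var 0 * var 1)) * (num 1 - num 2 * (var 0 * var 1))
  kn := var 0 * var 1 * (num 225 + num 1500 * (var 1))
  kd := num 100
  k2n := var 0 * (num 872 + num (-500) * (var 3) + num (-1300) * (var 1))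
  k2d := num 100

/-- Its ranges. -/
def bxD73 : StripEnd.EBox :=
  ⟨(11, 12, 40), (0, 91, 500), (11, 15, 500), (0, 1, 1)⟩

/-- The chart `D74`. -/
def chD74 : EndChart where
  I := var 0 * var 1
  d := var 0
  w := var 0 * var 2
  den := num 100
  n₀ := ((num 1 - num 2 * (var 0 * var 1) - var 0) * var 1) * (num 98 + num (-8) * (var 1))
  n₁ := ((num 1 - num 2 * (var 0 * var 1) - var 0) * var 1) * (num 2 + num 76 * (var 1))
  q₀ := (15, 17, 50)
  q₁ := (0, 67, 500)
  q₂ := (5, 7, 500)
  q₃ := (0, 1, 1)
  t₀ := (0, 1)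
  t₁ := (1, 1)
  mu₀ := (190, 100)
  mu₁ := (252, 100)

/-- The piece `D74`. -/
def pcD74 : Piece where
  I := var 0 * var 1
  d := var 0
  w := var 0 * var 2
  o := (((num 1 - num 2 * (var 0 * var 1) - var 0) * var 1) * (num 98 + num (-8) * (var 1)) + ((num 1 - num 2 * (var 0 * var 1) - var 0) * var 1) * (num 2 + num 76 * (var 1)) * var 3)
  den := num 100
  vn := num 2 * var 1 * ((num 98 + num (-8) * (var 1)) + (num 2 + num 76 * (var 1)) * var 3)
  vs := num 1
  mu := ⟨(190, 100), (252, 100)⟩
  pn := fun b => cond b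
    (num 50000 * (num 100 - (((num 1 - num 2 * (var 0 * var 1) - var 0) * var 1) * (num 98 + num (-8) * (var 1)) + ((num 1 - num 2 * (var 0 * var 1) - var 0) * var 1) * (num 2 + num 76 * (var 1)) * var 3)) + num (-1764) * ((((num 1 - num 2 * (var 0 * var 1) - var 0) * var 1) * (num 98 + num (-8) * (var 1)) + ((num 1 - num 2 * (var 0 * var 1) - var 0) * var 1) * (num 2 + num 76 * (var 1)) * var 3) * var 0))
    (num 50000 * (num 100 - (((num 1 - num 2 * (var 0 * var 1) - var 0) * var 1) * (num 98 + num (-8) * (var 1)) + ((num 1 - num 2 * (var 0 * var 1) - var 0) * var 1) * (num 2 + num 76 * (var 1)) * var 3)) + num (-950) * ((((num 1 - num 2 * (var 0 * var 1) - var 0) * var 1) * (num 98 + num (-8) * (var 1)) + ((num 1 - num 2 * (var 0 * var 1) - var 0) * var 1) * (num 2 + num 76 * (var 1)) * var 3) * var 0))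
  pd := num 50000
  en := fun b => cond b
    (num 1010 * (num 852500 * (var 0) * (var 1) + num (-380000) * (var 0) * (var 0) * (var 1) + num 6769 + num 4417 * (var 0) + num (-261500) * (var 0) * (var 1) * (var 1)))
    (num 4940 * (num 170500 * (var 0) * (var 1) + num (-76000) * (var 0) * (var 0) * (var 1) + num 967 + num 631 * (var 0) + num (-52300) * (var 0) * (var 1) * (var 1)))
  kk := fun b => cond b
    (num 1010 * (num 6552 * (var 0) + num 5075 * (var 0) * (var 0) + num 8519 * (var 0) * (var 1) + num 21 * (var 0) * (var 3)))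
    (num 4935 * (num 936 * (var 0) + num 725 * (var 0) * (var 0) + num 1217 * (var 0) * (var 1) + num 3 * (var 0) * (var 3)))
  f0 := num 50000000
  wn := fun b => cond b
    (num 1000 * (num (-80000) * (var 0 * var 1) + (num 800 * (var 0 * var 1) + num 4 * var 0) * (((num 1 - num 2 * (var 0 * var 1) - var 0) * var 1) * (num 98 + num (-8) * (var 1)) + ((num 1 - num 2 * (var 0 * var 1) - var 0) * var 1) * (num 2 + num 76 * (var 1)) * var 3) + var 0 * var 1 * var 0 * (num (-80000) + (num 38200 * (var 1) + num 916 + num (-153800) * (var 1) * (var 0) + num (-1157) * (var 0) + num 20500 * (var 1) * (var 3) + num (-4) * (var 3)))) + num 477 * (num 100 * (var 0 * var 1 * var 0) * (num 100 * (var 1) + num 1)))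
    (num 1000 * (num (-80000) * (var 0 * var 1) + (num 800 * (var 0 * var 1) + num 4 * var 0) * (((num 1 - num 2 * (var 0 * var 1) - var 0) * var 1) * (num 98 + num (-8) * (var 1)) + ((num 1 - num 2 * (var 0 * var 1) - var 0) * var 1) * (num 2 + num 76 * (var 1)) * var 3) + var 0 * var 1 * var 0 * (num (-80000) + (num 38200 * (var 1) + num 916 + num (-153800) * (var 1) * (var 0) + num (-1157) * (var 0) + num 20500 * (var 1) * (var 3) + num (-4) * (var 3)))) + num (-1853) * (num 100 * (var 0 * var 1 * var 0) * (num 100 * (var 1) + num 1)))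
  wd := num 10000000
  tn := fun b => cond b
    (num 1008 * (num 350 + num (-7) * (var 0) + num 350 * (var 1) + num 42 * (var 1) * (var 3)))
    (num 4945 * (num 50 + num (-1) * (var 0) + num 50 * (var 1) + num 6 * (var 1) * (var 3)))
  td := num 50000000
  cn := num 1 - var 0 * var 1 - var 1 * (num 1 - num 2 * (var 0 * var 1))
  cd := (num 1 - num 2 * (var 0 * var 1)) * (num 1 - num 2 * (var 0 * var 1))
  kn := var 0 * var 1 * (num 134 + num 1000 * (var 1))
  kd := num 100
  k2n := var 0 * (num 768 + num (-450) * (var 3) + num (-1100) * (var 1))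
  k2d := num 100

/-- Its ranges. -/
def bxD74 : StripEnd.EBox :=
  ⟨(15, 17, 50), (0, 67, 500), (5, 7, 500), (0, 1, 1)⟩

/-- The chart `D75`. -/
def chD75 : EndChart where
  I := var 0 * var 1
  d := var 0
  w := var 0 * var 2
  den := num 100
  n₀ := ((num 1 - num 2 * (var 0 * var 1) - var 0) * var 1) * (num 97 + num (-8) * (var 1))
  n₁ := ((num 1 - num 2 * (var 0 * var 1) - var 0) * var 1) * (num 3 + num 74 * (var 1))
  q₀ := (15, 17, 50)
  q₁ := (0, 67, 500)
  q₂ := (7, 11, 500)
  q₃ := (0, 1, 1)
  t₀ := (0, 1)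
  t₁ := (1, 1)
  mu₀ := (190, 100)
  mu₁ := (252, 100)

/-- The piece `D75`. -/
def pcD75 : Piece where
  I := var 0 * var 1
  d := var 0
  w := var 0 * var 2
  o := (((num 1 - num 2 * (var 0 * var 1) - var 0) * var 1) * (num 97 + num (-8) * (var 1)) + ((num 1 - num 2 * (var 0 * var 1) - var 0) * var 1) * (num 3 + num 74 * (var 1)) * var 3)
  den := num 100
  vn := num 2 * var 1 * ((num 97 + num (-8) * (var 1)) + (num 3 + num 74 * (var 1)) * var 3)
  vs := num 1
  mu := ⟨(190, 100), (252, 100)⟩
  pn := fun b => cond b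
    (num 50000 * (num 100 - (((num 1 - num 2 * (var 0 * var 1) - var 0) * var 1) * (num 97 + num (-8) * (var 1)) + ((num 1 - num 2 * (var 0 * var 1) - var 0) * var 1) * (num 3 + num 74 * (var 1)) * var 3)) + num (-2772) * ((((num 1 - num 2 * (var 0 * var 1) - var 0) * var 1) * (num 97 + num (-8) * (var 1)) + ((num 1 - num 2 * (var 0 * var 1) - var 0) * var 1) * (num 3 + num 74 * (var 1)) * var 3) * var 0))
    (num 50000 * (num 100 - (((num 1 - num 2 * (var 0 * var 1) - var 0) * var 1) * (num 97 + num (-8) * (var 1)) + ((num 1 - num 2 * (var 0 * var 1) - var 0) * var 1) * (num 3 + num 74 * (var 1)) * var 3)) + num (-1330) * ((((num 1 - num 2 * (var 0 * var 1) - var 0) * var 1) * (num 97 + num (-8) * (var 1)) + ((num 1 - num 2 * (var 0 * var 1) - var 0) * var 1) * (num 3 + num 74 * (var 1)) * var 3) * var 0))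
  pd := num 50000
  en := fun b => cond b
    (num 1013 * (num 847000 * (var 0) * (var 1) + num (-332000) * (var 0) * (var 0) * (var 1) + num 10714 + num 6721 * (var 0) + num (-234500) * (var 0) * (var 1) * (var 1)))
    (num 983 * (num 847000 * (var 0) * (var 1) + num (-332000) * (var 0) * (var 0) * (var 1) + num 6818 + num 4277 * (var 0) + num (-234500) * (var 0) * (var 1) * (var 1)))
  kk := fun b => cond b
    (num 1010 * (num 10296 * (var 0) + num 7975 * (var 0) * (var 0) + num 13354 * (var 0) * (var 1) + num 33 * (var 0) * (var 3)))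
    (num 987 * (num 6552 * (var 0) + num 5075 * (var 0) * (var 0) + num 8498 * (var 0) * (var 1) + num 21 * (var 0) * (var 3)))
  f0 := num 50000000
  wn := fun b => cond b
    (num 1000 * (num (-400000) * (var 0 * var 1) + (num 4000 * (var 0 * var 1) + num 28 * var 0) * (((num 1 - num 2 * (var 0 * var 1) - var 0) * var 1) * (num 97 + num (-8) * (var 1)) + ((num 1 - num 2 * (var 0 * var 1) - var 0) * var 1) * (num 3 + num 74 * (var 1)) * var 3) + var 0 * var 1 * var 0 * (num (-400000) + (num 176500 * (var 1) + num 6314 + num (-749000) * (var 1) * (var 0) + num (-8029) * (var 0) + num 120500 * (var 1) * (var 3) + num 56 * (var 3)))) + num 360 * (num 100 * (var 0 * var 1 * var 0) * (num 500 * (var 1) + num 7)))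
    (num 1000 * (num (-400000) * (var 0 * var 1) + (num 4000 * (var 0 * var 1) + num 28 * var 0) * (((num 1 - num 2 * (var 0 * var 1) - var 0) * var 1) * (num 97 + num (-8) * (var 1)) + ((num 1 - num 2 * (var 0 * var 1) - var 0) * var 1) * (num 3 + num 74 * (var 1)) * var 3) + var 0 * var 1 * var 0 * (num (-400000) + (num 176500 * (var 1) + num 6314 + num (-749000) * (var 1) * (var 0) + num (-8029) * (var 0) + num 120500 * (var 1) * (var 3) + num 56 * (var 3)))) + num (-1822) * (num 100 * (var 0 * var 1 * var 0) * (num 500 * (var 1) + num 7)))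
  wd := num 50000000
  tn := fun b => cond b
    (num 1006 * (num 550 + num (-11) * (var 0) + num 550 * (var 1) + num 55 * (var 1) * (var 3)))
    (num 986 * (num 350 + num (-7) * (var 0) + num 350 * (var 1) + num 35 * (var 1) * (var 3)))
  td := num 50000000
  cn := num 1 - var 0 * var 1 - var 1 * (num 1 - num 2 * (var 0 * var 1))
  cd := (num 1 - num 2 * (var 0 * var 1)) * (num 1 - num 2 * (var 0 * var 1))
  kn := var 0 * var 1 * (num 149 + num 1500 * (var 1))
  kd := num 100
  k2n := var 0 * (num 836 + num (-500) * (var 3) + num (-1300) * (var 1))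
  k2d := num 100

/-- Its ranges. -/
def bxD75 : StripEnd.EBox :=
  ⟨(15, 17, 50), (0, 67, 500), (7, 11, 500), (0, 1, 1)⟩

/-- The chart `D76`. -/
def chD76 : EndChart where
  I := var 0 * var 1
  d := var 0
  w := var 0 * var 2
  den := num 100
  n₀ := ((num 1 - num 2 * (var 0 * var 1) - var 0) * var 1) * (num 96 + num (-9) * (var 1))
  n₁ := ((num 1 - num 2 * (var 0 * var 1) - var 0) * var 1) * (num 4 + num 69 * (var 1))
  q₀ := (15, 17, 50)
  q₁ := (0, 67, 500)
  q₂ := (11, 15, 500)
  q₃ := (0, 1, 1)
  t₀ := (0, 1)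
  t₁ := (1, 1)
  mu₀ := (190, 100)
  mu₁ := (252, 100)

/-- The piece `D76`. -/
def pcD76 : Piece where
  I := var 0 * var 1
  d := var 0
  w := var 0 * var 2
  o := (((num 1 - num 2 * (var 0 * var 1) - var 0) * var 1) * (num 96 + num (-9) * (var 1)) + ((num 1 - num 2 * (var 0 * var 1) - var 0) * var 1) * (num 4 + num 69 * (var 1)) * var 3)
  den := num 100
  vn := num 2 * var 1 * ((num 96 + num (-9) * (var 1)) + (num 4 + num 69 * (var 1)) * var 3)
  vs := num 1
  mu := ⟨(190, 100), (252, 100)⟩
  pn := fun b => cond b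
    (num 50000 * (num 100 - (((num 1 - num 2 * (var 0 * var 1) - var 0) * var 1) * (num 96 + num (-9) * (var 1)) + ((num 1 - num 2 * (var 0 * var 1) - var 0) * var 1) * (num 4 + num 69 * (var 1)) * var 3)) + num (-3780) * ((((num 1 - num 2 * (var 0 * var 1) - var 0) * var 1) * (num 96 + num (-9) * (var 1)) + ((num 1 - num 2 * (var 0 * var 1) - var 0) * var 1) * (num 4 + num 69 * (var 1)) * var 3) * var 0))
    (num 50000 * (num 100 - (((num 1 - num 2 * (var 0 * var 1) - var 0) * var 1) * (num 96 + num (-9) * (var 1)) + ((num 1 - num 2 * (var 0 * var 1) - var 0) * var 1) * (num 4 + num 69 * (var 1)) * var 3)) + num (-2090) * ((((num 1 - num 2 * (var 0 * var 1) - var 0) * var 1) * (num 96 + num (-9) * (var 1)) + ((num 1 - num 2 * (var 0 * var 1) - var 0) * var 1) * (num 4 + num 69 * (var 1)) * var 3) * var 0))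
  pd := num 50000
  en := fun b => cond b
    (num 5060 * (num 173400 * (var 0) * (var 1) + num (-67800) * (var 0) * (var 0) * (var 1) + num 2910 + num 1866 * (var 0) + num (-46700) * (var 0) * (var 1) * (var 1)))
    (num 984 * (num 867000 * (var 0) * (var 1) + num (-339000) * (var 0) * (var 0) * (var 1) + num 10670 + num 6842 * (var 0) + num (-233500) * (var 0) * (var 1) * (var 1)))
  kk := fun b => cond b
    (num 5050 * (num 2808 * (var 0) + num 2172 * (var 0) * (var 0) + num 3621 * (var 0) * (var 1) + num 9 * (var 0) * (var 3)))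
    (num 988 * (num 10296 * (var 0) + num 7964 * (var 0) * (var 0) + num 13277 * (var 0) * (var 1) + num 33 * (var 0) * (var 3)))
  f0 := num 50000000
  wn := fun b => cond b
    (num 1000 * (num (-400000) * (var 0 * var 1) + (num 4000 * (var 0 * var 1) + num 44 * var 0) * (((num 1 - num 2 * (var 0 * var 1) - var 0) * var 1) * (num 96 + num (-9) * (var 1)) + ((num 1 - num 2 * (var 0 * var 1) - var 0) * var 1) * (num 4 + num 69 * (var 1)) * var 3) + var 0 * var 1 * var 0 * (num (-400000) + (num 152000 * (var 1) + num 9746 + num (-682000) * (var 1) * (var 0) + num (-12705) * (var 0) + num 133500 * (var 1) * (var 3) + num 440 * (var 3)))) + num 254 * (num 100 * (var 0 * var 1 * var 0) * (num 500 * (var 1) + num 11)))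
    (num 1000 * (num (-400000) * (var 0 * var 1) + (num 4000 * (var 0 * var 1) + num 44 * var 0) * (((num 1 - num 2 * (var 0 * var 1) - var 0) * var 1) * (num 96 + num (-9) * (var 1)) + ((num 1 - num 2 * (var 0 * var 1) - var 0) * var 1) * (num 4 + num 69 * (var 1)) * var 3) + var 0 * var 1 * var 0 * (num (-400000) + (num 152000 * (var 1) + num 9746 + num (-682000) * (var 1) * (var 0) + num (-12705) * (var 0) + num 133500 * (var 1) * (var 3) + num 440 * (var 3)))) + num (-1812) * (num 100 * (var 0 * var 1 * var 0) * (num 500 * (var 1) + num 11)))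
  wd := num 50000000
  tn := fun b => cond b
    (num 5020 * (num 150 + num (-3) * (var 0) + num 144 * (var 1) + num 18 * (var 1) * (var 3)))
    (num 987 * (num 550 + num (-11) * (var 0) + num 528 * (var 1) + num 66 * (var 1) * (var 3)))
  td := num 50000000
  cn := num 1 - var 0 * var 1 - var 1 * (num 1 - num 2 * (var 0 * var 1))
  cd := (num 1 - num 2 * (var 0 * var 1)) * (num 1 - num 2 * (var 0 * var 1))
  kn := var 0 * var 1 * (num 138 + num 2000 * (var 1))
  kd := num 100
  k2n := var 0 * (num 711 + num (-450) * (var 3) + num (-1100) * (var 1))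
  k2d := num 100

/-- Its ranges. -/
def bxD76 : StripEnd.EBox :=
  ⟨(15, 17, 50), (0, 67, 500), (11, 15, 500), (0, 1, 1)⟩

/-- The chart `D77`. -/
def chD77 : EndChart where
  I := var 0 * var 1
  d := var 0
  w := var 0 * var 2
  den := num 100
  n₀ := ((num 1 - num 2 * (var 0 * var 1) - var 0) * var 1) * (num 98 + num 9 * (var 1))
  n₁ := ((num 1 - num 2 * (var 0 * var 1) - var 0) * var 1) * (num 2 + num 59 * (var 1))
  q₀ := (17, 19, 50)
  q₁ := (0, 59, 1000)
  q₂ := (10, 11, 1000)
  q₃ := (0, 1, 1)
  t₀ := (0, 1)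
  t₁ := (1, 1)
  mu₀ := (190, 100)
  mu₁ := (230, 100)

/-- The piece `D77`. -/
def pcD77 : Piece where
  I := var 0 * var 1
  d := var 0
  w := var 0 * var 2
  o := (((num 1 - num 2 * (var 0 * var 1) - var 0) * var 1) * (num 98 + num 9 * (var 1)) + ((num 1 - num 2 * (var 0 * var 1) - var 0) * var 1) * (num 2 + num 59 * (var 1)) * var 3)
  den := num 100
  vn := num 2 * var 1 * ((num 98 + num 9 * (var 1)) + (num 2 + num 59 * (var 1)) * var 3)
  vs := num 1
  mu := ⟨(190, 100), (230, 100)⟩
  pn := fun b => cond b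
    (num 100000 * (num 100 - (((num 1 - num 2 * (var 0 * var 1) - var 0) * var 1) * (num 98 + num 9 * (var 1)) + ((num 1 - num 2 * (var 0 * var 1) - var 0) * var 1) * (num 2 + num 59 * (var 1)) * var 3)) + num (-2530) * ((((num 1 - num 2 * (var 0 * var 1) - var 0) * var 1) * (num 98 + num 9 * (var 1)) + ((num 1 - num 2 * (var 0 * var 1) - var 0) * var 1) * (num 2 + num 59 * (var 1)) * var 3) * var 0))
    (num 100000 * (num 100 - (((num 1 - num 2 * (var 0 * var 1) - var 0) * var 1) * (num 98 + num 9 * (var 1)) + ((num 1 - num 2 * (var 0 * var 1) - var 0) * var 1) * (num 2 + num 59 * (var 1)) * var 3)) + num (-1900) * ((((num 1 - num 2 * (var 0 * var 1) - var 0) * var 1) * (num 98 + num 9 * (var 1)) + ((num 1 - num 2 * (var 0 * var 1) - var 0) * var 1) * (num 2 + num 59 * (var 1)) * var 3) * var 0))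
  pd := num 100000
  en := fun b => cond b
    (num 1003 * (num 1740000 * (var 0) * (var 1) + num (-887000) * (var 0) * (var 0) * (var 1) + num 11407 + num 4675 * (var 0) + num (-498000) * (var 0) * (var 1) * (var 1)))
    (num 9970 * (num 174000 * (var 0) * (var 1) + num (-88700) * (var 0) * (var 0) * (var 1) + num 1037 + num 425 * (var 0) + num (-49800) * (var 0) * (var 1) * (var 1)))
  kk := fun b => cond b
    (num 1004 * (num 11319 * (var 0) + num 4917 * (var 0) * (var 0) + num 14553 * (var 0) * (var 1) + num 11 * (var 0) * (var 3)))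
    (num 9960 * (num 1029 * (var 0) + num 447 * (var 0) * (var 0) + num 1323 * (var 0) * (var 1) + num 1 * (var 0) * (var 3)))
  f0 := num 100000000
  wn := fun b => cond b
    (num 1000 * (num (-80000) * (var 0 * var 1) + (num 800 * (var 0 * var 1) + num 4 * var 0) * (((num 1 - num 2 * (var 0 * var 1) - var 0) * var 1) * (num 98 + num 9 * (var 1)) + ((num 1 - num 2 * (var 0 * var 1) - var 0) * var 1) * (num 2 + num 59 * (var 1)) * var 3) + var 0 * var 1 * var 0 * (num (-80000) + (num 41400 * (var 1) + num 854 + num (-153400) * (var 1) * (var 0) + num (-992) * (var 0) + num 12800 * (var 1) * (var 3) + num 15 * (var 3)))) + num 347 * (num 100 * (var 0 * var 1 * var 0) * (num 100 * (var 1) + num 1)))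
    (num 1000 * (num (-80000) * (var 0 * var 1) + (num 800 * (var 0 * var 1) + num 4 * var 0) * (((num 1 - num 2 * (var 0 * var 1) - var 0) * var 1) * (num 98 + num 9 * (var 1)) + ((num 1 - num 2 * (var 0 * var 1) - var 0) * var 1) * (num 2 + num 59 * (var 1)) * var 3) + var 0 * var 1 * var 0 * (num (-80000) + (num 41400 * (var 1) + num 854 + num (-153400) * (var 1) * (var 0) + num (-992) * (var 0) + num 12800 * (var 1) * (var 3) + num 15 * (var 3)))) + num (-859) * (num 100 * (var 0 * var 1 * var 0) * (num 100 * (var 1) + num 1)))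
  wd := num 10000000
  tn := fun b => cond b
    (num 998 * (num 550 + num 539 * (var 1) + num 33 * (var 1) * (var 3)))
    (num 9910 * (num 50 + num 49 * (var 1) + num 3 * (var 1) * (var 3)))
  td := num 100000000
  cn := num 1 - var 0 * var 1 - var 1 * (num 1 - num 2 * (var 0 * var 1))
  cd := (num 1 - num 2 * (var 0 * var 1)) * (num 1 - num 2 * (var 0 * var 1))
  kn := var 0 * var 1 * (num 69 + num 1000 * (var 1))
  kd := num 100
  k2n := var 0 * (num 789 + num (-550) * (var 3) + num (-2200) * (var 1))
  k2d := num 100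

/-- Its ranges. -/
def bxD77 : StripEnd.EBox :=
  ⟨(17, 19, 50), (0, 59, 1000), (10, 11, 1000), (0, 1, 1)⟩

/-- The chart `D78`. -/
def chD78 : EndChart where
  I := var 0 * var 1
  d := var 0
  w := var 0 * var 2
  den := num 100
  n₀ := ((num 1 - num 2 * (var 0 * var 1) - var 0) * var 1) * (num 98 + num 3 * (var 1))
  n₁ := ((num 1 - num 2 * (var 0 * var 1) - var 0) * var 1) * (num 2 + num 63 * (var 1))
  q₀ := (17, 19, 50)
  q₁ := (0, 59, 1000)
  q₂ := (11, 14, 1000)
  q₃ := (0, 1, 1)
  t₀ := (0, 1)
  t₁ := (1, 1)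
  mu₀ := (190, 100)
  mu₁ := (230, 100)

/-- The piece `D78`. -/
def pcD78 : Piece where
  I := var 0 * var 1
  d := var 0
  w := var 0 * var 2
  o := (((num 1 - num 2 * (var 0 * var 1) - var 0) * var 1) * (num 98 + num 3 * (var 1)) + ((num 1 - num 2 * (var 0 * var 1) - var 0) * var 1) * (num 2 + num 63 * (var 1)) * var 3)
  den := num 100
  vn := num 2 * var 1 * ((num 98 + num 3 * (var 1)) + (num 2 + num 63 * (var 1)) * var 3)
  vs := num 1
  mu := ⟨(190, 100), (230, 100)⟩
  pn := fun b => cond b
    (num 100000 * (num 100 - (((num 1 - num 2 * (var 0 * var 1) - var 0) * var 1) * (num 98 + num 3 * (var 1)) + ((num 1 - num 2 * (var 0 * var 1) - var 0) * var 1) * (num 2 + num 63 * (var 1)) * var 3)) + num (-3220) * ((((num 1 - num 2 * (var 0 * var 1) - var 0) * var 1) * (num 98 + num 3 * (var 1)) + ((num 1 - num 2 * (var 0 * var 1) - var 0) * var 1) * (num 2 + num 63 * (var 1)) * var 3) * var 0))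
    (num 100000 * (num 100 - (((num 1 - num 2 * (var 0 * var 1) - var 0) * var 1) * (num 98 + num 3 * (var 1)) + ((num 1 - num 2 * (var 0 * var 1) - var 0) * var 1) * (num 2 + num 63 * (var 1)) * var 3)) + num (-2090) * ((((num 1 - num 2 * (var 0 * var 1) - var 0) * var 1) * (num 98 + num 3 * (var 1)) + ((num 1 - num 2 * (var 0 * var 1) - var 0) * var 1) * (num 2 + num 63 * (var 1)) * var 3) * var 0))
  pd := num 100000
  en := fun b => cond b
    (num 2010 * (num 873000 * (var 0) * (var 1) + num (-443500) * (var 0) * (var 0) * (var 1) + num 7280 + num 2926 * (var 0) + num (-238000) * (var 0) * (var 1) * (var 1)))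
    (num 995 * (num 1746000 * (var 0) * (var 1) + num (-887000) * (var 0) * (var 0) * (var 1) + num 11440 + num 4598 * (var 0) + num (-476000) * (var 0) * (var 1) * (var 1)))
  kk := fun b => cond b
    (num 2008 * (num 7203 * (var 0) + num 3129 * (var 0) * (var 0) + num 9247 * (var 0) * (var 1) + num 7 * (var 0) * (var 3)))
    (num 996 * (num 11319 * (var 0) + num 4917 * (var 0) * (var 0) + num 14531 * (var 0) * (var 1) + num 11 * (var 0) * (var 3)))
  f0 := num 100000000
  wn := fun b => cond b
    (num 1000 * (num (-800000) * (var 0 * var 1) + (num 8000 * (var 0 * var 1) + num 44 * var 0) * (((num 1 - num 2 * (var 0 * var 1) - var 0) * var 1) * (num 98 + num 3 * (var 1)) + ((num 1 - num 2 * (var 0 * var 1) - var 0) * var 1) * (num 2 + num 63 * (var 1)) * var 3) + var 0 * var 1 * var 0 * (num (-800000) + (num 359000 * (var 1) + num 9515 + num (-1370000) * (var 1) * (var 0) + num (-11275) * (var 0) + num 128000 * (var 1) * (var 3) + num 220 * (var 3)))) + num 320 * (num 100 * (var 0 * var 1 * var 0) * (num 1000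 * (var 1) + num 11)))
    (num 1000 * (num (-800000) * (var 0 * var 1) + (num 8000 * (var 0 * var 1) + num 44 * var 0) * (((num 1 - num 2 * (var 0 * var 1) - var 0) * var 1) * (num 98 + num 3 * (var 1)) + ((num 1 - num 2 * (var 0 * var 1) - var 0) * var 1) * (num 2 + num 63 * (var 1)) * var 3) + var 0 * var 1 * var 0 * (num (-800000) + (num 359000 * (var 1) + num 9515 + num (-1370000) * (var 1) * (var 0) + num (-11275) * (var 0) + num 128000 * (var 1) * (var 3) + num 220 * (var 3)))) + num (-974) * (num 100 * (var 0 * var 1 * var 0) * (num 1000 * (var 1) + num 11)))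
  wd := num 100000000
  tn := fun b => cond b
    (num 1996 * (num 350 + num 343 * (var 1) + num 14 * (var 1) * (var 3)))
    (num 991 * (num 550 + num 539 * (var 1) + num 22 * (var 1) * (var 3)))
  td := num 100000000
  cn := num 1 - var 0 * var 1 - var 1 * (num 1 - num 2 * (var 0 * var 1))
  cd := (num 1 - num 2 * (var 0 * var 1)) * (num 1 - num 2 * (var 0 * var 1))
  kn := var 0 * var 1 * (num 67 + num 1500 * (var 1))
  kd := num 100
  k2n := var 0 * (num 719 + num (-450) * (var 3) + num (-2400) * (var 1))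
  k2d := num 100

/-- Its ranges. -/
def bxD78 : StripEnd.EBox :=
  ⟨(17, 19, 50), (0, 59, 1000), (11, 14, 1000), (0, 1, 1)⟩

/-- The chart `D79`. -/
def chD79 : EndChart where
  I := var 0 * var 1
  d := var 0
  w := var 0 * var 2
  den := num 100
  n₀ := ((num 1 - num 2 * (var 0 * var 1) - var 0) * var 1) * (num 97 + num 2 * (var 1))
  n₁ := ((num 1 - num 2 * (var 0 * var 1) - var 0) * var 1) * (num 3 + num 61 * (var 1))
  q₀ := (17, 19, 50)
  q₁ := (0, 59, 1000)
  q₂ := (7, 11, 500)
  q₃ := (0, 1, 1)
  t₀ := (0, 1)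
  t₁ := (1, 1)
  mu₀ := (190, 100)
  mu₁ := (230, 100)

/-- The piece `D79`. -/
def pcD79 : Piece where
  I := var 0 * var 1
  d := var 0
  w := var 0 * var 2
  o := (((num 1 - num 2 * (var 0 * var 1) - var 0) * var 1) * (num 97 + num 2 * (var 1)) + ((num 1 - num 2 * (var 0 * var 1) - var 0) * var 1) * (num 3 + num 61 * (var 1)) * var 3)
  den := num 100
  vn := num 2 * var 1 * ((num 97 + num 2 * (var 1)) + (num 3 + num 61 * (var 1)) * var 3)
  vs := num 1
  mu := ⟨(190, 100), (230, 100)⟩
  pn := fun b => cond b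
    (num 50000 * (num 100 - (((num 1 - num 2 * (var 0 * var 1) - var 0) * var 1) * (num 97 + num 2 * (var 1)) + ((num 1 - num 2 * (var 0 * var 1) - var 0) * var 1) * (num 3 + num 61 * (var 1)) * var 3)) + num (-2530) * ((((num 1 - num 2 * (var 0 * var 1) - var 0) * var 1) * (num 97 + num 2 * (var 1)) + ((num 1 - num 2 * (var 0 * var 1) - var 0) * var 1) * (num 3 + num 61 * (var 1)) * var 3) * var 0))
    (num 50000 * (num 100 - (((num 1 - num 2 * (var 0 * var 1) - var 0) * var 1) * (num 97 + num 2 * (var 1)) + ((num 1 - num 2 * (var 0 * var 1) - var 0) * var 1) * (num 3 + num 61 * (var 1)) * var 3)) + num (-1330) * ((((num 1 - num 2 * (var 0 * var 1) - var 0) * var 1) * (num 97 + num 2 * (var 1)) + ((num 1 - num 2 * (var 0 * var 1) - var 0) * var 1) * (num 3 + num 61 * (var 1)) * var 3) * var 0))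
  pd := num 50000
  en := fun b => cond b
    (num 1009 * (num 871000 * (var 0) * (var 1) + num (-416500) * (var 0) * (var 0) * (var 1) + num 11539 + num 4334 * (var 0) + num (-188000) * (var 0) * (var 1) * (var 1)))
    (num 991 * (num 871000 * (var 0) * (var 1) + num (-416500) * (var 0) * (var 0) * (var 1) + num 7343 + num 2758 * (var 0) + num (-188000) * (var 0) * (var 1) * (var 1)))
  kk := fun b => cond b
    (num 1004 * (num 11319 * (var 0) + num 4917 * (var 0) * (var 0) + num 14498 * (var 0) * (var 1) + num 11 * (var 0) * (var 3)))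
    (num 996 * (num 7203 * (var 0) + num 3129 * (var 0) * (var 0) + num 9226 * (var 0) * (var 1) + num 7 * (var 0) * (var 3)))
  f0 := num 50000000
  wn := fun b => cond b
    (num 1000 * (num (-400000) * (var 0 * var 1) + (num 4000 * (var 0 * var 1) + num 28 * var 0) * (((num 1 - num 2 * (var 0 * var 1) - var 0) * var 1) * (num 97 + num 2 * (var 1)) + ((num 1 - num 2 * (var 0 * var 1) - var 0) * var 1) * (num 3 + num 61 * (var 1)) * var 3) + var 0 * var 1 * var 0 * (num (-400000) + (num 183500 * (var 1) + num 5943 + num (-718500) * (var 1) * (var 0) + num (-7084) * (var 0) + num 77500 * (var 1) * (var 3) + num 224 * (var 3)))) + num 333 * (num 100 * (var 0 * var 1 * var 0) * (num 500 * (var 1) + num 7)))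
    (num 1000 * (num (-400000) * (var 0 * var 1) + (num 4000 * (var 0 * var 1) + num 28 * var 0) * (((num 1 - num 2 * (var 0 * var 1) - var 0) * var 1) * (num 97 + num 2 * (var 1)) + ((num 1 - num 2 * (var 0 * var 1) - var 0) * var 1) * (num 3 + num 61 * (var 1)) * var 3) + var 0 * var 1 * var 0 * (num (-400000) + (num 183500 * (var 1) + num 5943 + num (-718500) * (var 1) * (var 0) + num (-7084) * (var 0) + num 77500 * (var 1) * (var 3) + num 224 * (var 3)))) + num (-976) * (num 100 * (var 0 * var 1 * var 0) * (num 500 * (var 1) + num 7)))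
  wd := num 50000000
  tn := fun b => cond b
    (num 997 * (num 550 + num 539 * (var 1)))
    (num 989 * (num 350 + num 343 * (var 1)))
  td := num 50000000
  cn := num 1 - var 0 * var 1 - var 1 * (num 1 - num 2 * (var 0 * var 1))
  cd := (num 1 - num 2 * (var 0 * var 1)) * (num 1 - num 2 * (var 0 * var 1))
  kn := var 0 * var 1 * (num 93 + num 2000 * (var 1))
  kd := num 100
  k2n := var 0 * (num 862 + num (-600) * (var 3) + num (-2400) * (var 1))
  k2d := num 100

/-- Its ranges. -/
def bxD79 : StripEnd.EBox :=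
  ⟨(17, 19, 50), (0, 59, 1000), (7, 11, 500), (0, 1, 1)⟩

/-- The chart `D80`. -/
def chD80 : EndChart where
  I := var 0 * var 1
  d := var 0
  w := var 0 * var 2
  den := num 100
  n₀ := ((num 1 - num 2 * (var 0 * var 1) - var 0) * var 1) * (num 96 + num 1 * (var 1))
  n₁ := ((num 1 - num 2 * (var 0 * var 1) - var 0) * var 1) * (num 3 + num 69 * (var 1))
  q₀ := (17, 19, 50)
  q₁ := (0, 59, 1000)
  q₂ := (11, 15, 500)
  q₃ := (0, 1, 1)
  t₀ := (0, 1)
  t₁ := (1, 1)
  mu₀ := (190, 100)
  mu₁ := (230, 100)

/-- The piece `D80`. -/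
def pcD80 : Piece where
  I := var 0 * var 1
  d := var 0
  w := var 0 * var 2
  o := (((num 1 - num 2 * (var 0 * var 1) - var 0) * var 1) * (num 96 + num 1 * (var 1)) + ((num 1 - num 2 * (var 0 * var 1) - var 0) * var 1) * (num 3 + num 69 * (var 1)) * var 3)
  den := num 100
  vn := num 2 * var 1 * ((num 96 + num 1 * (var 1)) + (num 3 + num 69 * (var 1)) * var 3)
  vs := num 1
  mu := ⟨(190, 100), (230, 100)⟩
  pn := fun b => cond b
    (num 50000 * (num 100 - (((num 1 - num 2 * (var 0 * var 1) - var 0) * var 1) * (num 96 + num 1 * (var 1)) + ((num 1 - num 2 * (var 0 * var 1) - var 0) * var 1) * (num 3 + num 69 * (var 1)) * var 3)) + num (-3450) * ((((num 1 - num 2 * (var 0 * var 1) - var 0) * var 1) * (num 96 + num 1 * (var 1)) + ((num 1 - num 2 * (var 0 * var 1) - var 0) * var 1) * (num 3 + num 69 * (var 1)) * var 3) * var 0))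
    (num 50000 * (num 100 - (((num 1 - num 2 * (var 0 * var 1) - var 0) * var 1) * (num 96 + num 1 * (var 1)) + ((num 1 - num 2 * (var 0 * var 1) - var 0) * var 1) * (num 3 + num 69 * (var 1)) * var 3)) + num (-2090) * ((((num 1 - num 2 * (var 0 * var 1) - var 0) * var 1) * (num 96 + num 1 * (var 1)) + ((num 1 - num 2 * (var 0 * var 1) - var 0) * var 1) * (num 3 + num 69 * (var 1)) * var 3) * var 0))
  pd := num 50000
  en := fun b => cond b
    (num 5040 * (num 177900 * (var 0) * (var 1) + num (-83900) * (var 0) * (var 0) * (var 1) + num 3132 + num 1218 * (var 0) + num (-38300) * (var 0) * (var 1) * (var 1)))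
    (num 991 * (num 889500 * (var 0) * (var 1) + num (-419500) * (var 0) * (var 0) * (var 1) + num 11484 + num 4466 * (var 0) + num (-191500) * (var 0) * (var 1) * (var 1)))
  kk := fun b => cond b
    (num 5020 * (num 3087 * (var 0) + num 1341 * (var 0) * (var 0) + num 3939 * (var 0) * (var 1) + num 3 * (var 0) * (var 3)))
    (num 996 * (num 11319 * (var 0) + num 4917 * (var 0) * (var 0) + num 14443 * (var 0) * (var 1) + num 11 * (var 0) * (var 3)))
  f0 := num 50000000
  wn := fun b => cond b
    (num 1000 * (num (-400000) * (var 0 * var 1) + (num 4000 * (var 0 * var 1) + num 44 * var 0) * (((num 1 - num 2 * (var 0 * var 1) - var 0) * var 1) * (num 96 + num 1 * (var 1)) + ((num 1 - num 2 * (var 0 * var 1) - var 0) * var 1) * (num 3 + num 69 * (var 1)) * var 3) + var 0 * var 1 * var 0 * (num (-400000) + (num 210500 * (var 1) + num 8998 + num (-810000) * (var 1) * (var 0) + num (-10593) * (var 0) + num 90000 * (var 1) * (var 3) + num 396 * (var 3)))) + num 312 * (num 100 * (var 0 * var 1 * var 0) * (num 500 *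 (var 1) + num 11)))
    (num 1000 * (num (-400000) * (var 0 * var 1) + (num 4000 * (var 0 * var 1) + num 44 * var 0) * (((num 1 - num 2 * (var 0 * var 1) - var 0) * var 1) * (num 96 + num 1 * (var 1)) + ((num 1 - num 2 * (var 0 * var 1) - var 0) * var 1) * (num 3 + num 69 * (var 1)) * var 3) + var 0 * var 1 * var 0 * (num (-400000) + (num 210500 * (var 1) + num 8998 + num (-810000) * (var 1) * (var 0) + num (-10593) * (var 0) + num 90000 * (var 1) * (var 3) + num 396 * (var 3)))) + num (-861) * (num 100 * (var 0 * var 1 * var 0) * (num 500 * (var 1) + num 11)))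
  wd := num 50000000
  tn := fun b => cond b
    (num 5060 * (num 147 + num 144 * (var 1) + num 6 * (var 1) * (var 3)))
    (num 1006 * (num 539 + num 528 * (var 1) + num 22 * (var 1) * (var 3)))
  td := num 50000000
  cn := num 1 - var 0 * var 1 - var 1 * (num 1 - num 2 * (var 0 * var 1))
  cd := (num 1 - num 2 * (var 0 * var 1)) * (num 1 - num 2 * (var 0 * var 1))
  kn := var 0 * var 1 * (num 91 + num 2500 * (var 1))
  kd := num 100
  k2n := var 0 * (num 739 + num (-550) * (var 3) + num (-2400) * (var 1))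
  k2d := num 100

/-- Its ranges. -/
def bxD80 : StripEnd.EBox :=
  ⟨(17, 19, 50), (0, 59, 1000), (11, 15, 500), (0, 1, 1)⟩

/-- The chart `D81`. -/
def chD81 : EndChart where
  I := var 0 * var 1
  d := var 0
  w := var 0 * var 2
  den := num 100
  n₀ := ((num 1 - num 2 * (var 0 * var 1) - var 0) * var 1) * (num 100 + num (-67) * (var 1) + num (-167) * (var 2))
  n₁ := ((num 1 - num 2 * (var 0 * var 1) - var 0) * var 1) * (num 78 * (var 1) + num 81 * (var 2))
  q₀ := (0, 1, 20)
  q₁ := (0, 1, 10)
  q₂ := (0, 3, 100)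
  q₃ := (0, 1, 1)
  t₀ := (0, 1)
  t₁ := (1, 1)
  mu₀ := (190, 100)
  mu₁ := (210, 100)

/-- The piece `D81`. -/
def pcD81 : Piece where
  I := var 0 * var 1
  d := var 0
  w := var 0 * var 2
  o := (((num 1 - num 2 * (var 0 * var 1) - var 0) * var 1) * (num 100 + num (-67) * (var 1) + num (-167) * (var 2)) + ((num 1 - num 2 * (var 0 * var 1) - var 0) * var 1) * (num 78 * (var 1) + num 81 * (var 2)) * var 3)
  den := num 100
  vn := num 2 * var 1 * ((num 100 + num (-67) * (var 1) + num (-167) * (var 2)) + (num 78 * (var 1) + num 81 * (var 2)) * var 3)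
  vs := num 1
  mu := ⟨(190, 100), (210, 100)⟩
  pn := fun b => cond b
    (num 100 * (num 100 - (((num 1 - num 2 * (var 0 * var 1) - var 0) * var 1) * (num 100 + num (-67) * (var 1) + num (-167) * (var 2)) + ((num 1 - num 2 * (var 0 * var 1) - var 0) * var 1) * (num 78 * (var 1) + num 81 * (var 2)) * var 3)) + num (-210) * ((((num 1 - num 2 * (var 0 * var 1) - var 0) * var 1) * (num 100 + num (-67) * (var 1) + num (-167) * (var 2)) + ((num 1 - num 2 * (var 0 * var 1) - var 0) * var 1) * (num 78 * (var 1) + num 81 * (var 2)) * var 3) * var 0 * var 2))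
    (num 100 * (num 100 - (((num 1 - num 2 * (var 0 * var 1) - var 0) * var 1) * (num 100 + num (-67) * (var 1) + num (-167) * (var 2)) + ((num 1 - num 2 * (var 0 * var 1) - var 0) * var 1) * (num 78 * (var 1) + num 81 * (var 2)) * var 3)) + num (-190) * ((((num 1 - num 2 * (var 0 * var 1) - var 0) * var 1) * (num 100 + num (-67) * (var 1) + num (-167) * (var 2)) + ((num 1 - num 2 * (var 0 * var 1) - var 0) * var 1) * (num 78 * (var 1) + num 81 * (var 2)) * var 3) * var 0 * var 2))
  pd := num 100
  en := fun b => cond b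
    (num 1023 * (num 1591 * (var 0) * (var 1) + num 148 * (var 0) * (var 0) * (var 1) + num 284 * (var 2) + num 5806 * (var 2) * (var 0) + num (-1386) * (var 0) * (var 1) * (var 1)))
    (num 981 * (num 1591 * (var 0) * (var 1) + num 148 * (var 0) * (var 0) * (var 1) + num 284 * (var 2) + num 5806 * (var 2) * (var 0) + num (-1386) * (var 0) * (var 1) * (var 1)))
  kk := fun b => cond b
    (num 1019 * (num 282 * (var 2) * (var 0) + num 5796 * (var 2) * (var 0) * (var 0) + num 40 * (var 2) * (var 0) * (var 1)))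
    (num 979 * (num 282 * (var 2) * (var 0) + num 5796 * (var 2) * (var 0) * (var 0) + num 40 * (var 2) * (var 0) * (var 1)))
  f0 := num 100000
  wn := fun b => cond b
    (num 1000 * (num (-800) * (var 0 * var 1) + (num 8 * (var 0 * var 1) + num 4 * var 0 * var 2) * (((num 1 - num 2 * (var 0 * var 1) - var 0) * var 1) * (num 100 + num (-67) * (var 1) + num (-167) * (var 2)) + ((num 1 - num 2 * (var 0 * var 1) - var 0) * var 1) * (num 78 * (var 1) + num 81 * (var 2)) * var 3) + var 0 * var 1 * var 0 * (num (-800) + (num 687 * (var 1) + num 767 * (var 2) + num (-2517) * (var 1) * (var 0) + num (-926) * (var 2) * (var 0) + num 142 * (var 1) * (var 3) + num 28 * (var 2) * (var 3)))) + num 1189 * (num 100 * (var 0 * var 1 * var 0) * (num 1 * (var 1) + num 1 * (var 2))))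
    (num 1000 * (num (-800) * (var 0 * var 1) + (num 8 * (var 0 * var 1) + num 4 * var 0 * var 2) * (((num 1 - num 2 * (var 0 * var 1) - var 0) * var 1) * (num 100 + num (-67) * (var 1) + num (-167) * (var 2)) + ((num 1 - num 2 * (var 0 * var 1) - var 0) * var 1) * (num 78 * (var 1) + num 81 * (var 2)) * var 3) + var 0 * var 1 * var 0 * (num (-800) + (num 687 * (var 1) + num 767 * (var 2) + num (-2517) * (var 1) * (var 0) + num (-926) * (var 2) * (var 0) + num 142 * (var 1) * (var 3) + num 28 * (var 2) * (var 3)))) + num (-985) * (num 100 * (var 0 * var 1 * var 0) * (num 1 * (var 1) + num 1 * (var 2))))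
  wd := num 100000
  tn := fun b => cond b
    (num 1004 * (num 50 * (var 2) + num 51 * (var 2) * (var 1) + num 6 * (var 2) * (var 1) * (var 3)))
    (num 978 * (num 50 * (var 2) + num 51 * (var 2) * (var 1) + num 6 * (var 2) * (var 1) * (var 3)))
  td := num 100000
  cn := num 1 - var 0 * var 1 - var 1 * (num 1 - num 2 * (var 0 * var 1))
  cd := (num 1 - num 2 * (var 0 * var 1)) * (num 1 - num 2 * (var 0 * var 1))
  kn := var 0 * var 1 * (num 1689 * (var 1) + num 16433 * (var 2) + num 1180 * (var 1) * (var 1) + num (-24367) * (var 0) * (var 1) + num 211853 * (var 2) * (var 1) + num 632 * (var 1) * (var 3) + num 361 * (var 2) * (var 3) + num (-325505) * (var 2) * (var 0) + num (-10857) * (var 1) * (var 1) * (var 3))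
  kd := num 100 * (num 10 * (var 0) * (var 1) + num 3 * (var 2) + num 55 * (var 1) * (var 2))
  k2n := var 0 * (num 1441 * (var 1) + num 1673 * (var 2) + num (-1216) * (var 1) * (var 3) + num 2869 * (var 0) * (var 1) + num 21291 * (var 1) * (var 2) + num (-863) * (var 2) * (var 3) + num (-20) * (var 1) * (var 1) + num 1092 * (var 0) * (var 2) + num (-4912) * (var 0) * (var 1) * (var 3))
  k2d := num 100 * (num 10 * (var 0) * (var 1) + num 3 * (var 2) + num 55 * (var 1) * (var 2))

/-- Its ranges. -/
def bxD81 : StripEnd.EBox :=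
  ⟨(0, 1, 20), (0, 1, 10), (0, 3, 100), (0, 1, 1)⟩

/-- The chart `D82`. -/
def chD82 : EndChart where
  I := var 0 * var 1
  d := var 0
  w := var 0 * var 2
  den := num 100
  n₀ := ((num 1 - num 2 * (var 0 * var 1) - var 0) * var 1) * (num 98 + num (-58) * (var 1) + num (-125) * (var 2))
  n₁ := ((num 1 - num 2 * (var 0 * var 1) - var 0) * var 1) * (num 3 + num 67 * (var 1) + num 21 * (var 2))
  q₀ := (0, 1, 20)
  q₁ := (2, 5, 20)
  q₂ := (0, 3, 100)
  q₃ := (0, 1, 1)
  t₀ := (0, 1)
  t₁ := (1, 1)
  mu₀ := (190, 100)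
  mu₁ := (221, 100)

/-- The piece `D82`. -/
def pcD82 : Piece where
  I := var 0 * var 1
  d := var 0
  w := var 0 * var 2
  o := (((num 1 - num 2 * (var 0 * var 1) - var 0) * var 1) * (num 98 + num (-58) * (var 1) + num (-125) * (var 2)) + ((num 1 - num 2 * (var 0 * var 1) - var 0) * var 1) * (num 3 + num 67 * (var 1) + num 21 * (var 2)) * var 3)
  den := num 100
  vn := num 2 * var 1 * ((num 98 + num (-58) * (var 1) + num (-125) * (var 2)) + (num 3 + num 67 * (var 1) + num 21 * (var 2)) * var 3)
  vs := num 1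
  mu := ⟨(190, 100), (221, 100)⟩
  pn := fun b => cond b
    (num 100 * (num 100 - (((num 1 - num 2 * (var 0 * var 1) - var 0) * var 1) * (num 98 + num (-58) * (var 1) + num (-125) * (var 2)) + ((num 1 - num 2 * (var 0 * var 1) - var 0) * var 1) * (num 3 + num 67 * (var 1) + num 21 * (var 2)) * var 3)) + num (-221) * ((((num 1 - num 2 * (var 0 * var 1) - var 0) * var 1) * (num 98 + num (-58) * (var 1) + num (-125) * (var 2)) + ((num 1 - num 2 * (var 0 * var 1) - var 0) * var 1) * (num 3 + num 67 * (var 1) + num 21 * (var 2)) * var 3) * var 0 * var 2))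
    (num 100 * (num 100 - (((num 1 - num 2 * (var 0 * var 1) - var 0) * var 1) * (num 98 + num (-58) * (var 1) + num (-125) * (var 2)) + ((num 1 - num 2 * (var 0 * var 1) - var 0) * var 1) * (num 3 + num 67 * (var 1) + num 21 * (var 2)) * var 3)) + num (-190) * ((((num 1 - num 2 * (var 0 * var 1) - var 0) * var 1) * (num 98 + num (-58) * (var 1) + num (-125) * (var 2)) + ((num 1 - num 2 * (var 0 * var 1) - var 0) * var 1) * (num 3 + num 67 * (var 1) + num 21 * (var 2)) * var 3) * var 0 * var 2))
  pd := num 100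
  en := fun b => cond b
    (num 1032 * (num 1563 * (var 0) * (var 1) + num 549 * (var 0) * (var 0) * (var 1) + num 282 * (var 2) + num 6220 * (var 2) * (var 0) + num (-1267) * (var 0) * (var 1) * (var 1)))
    (num 952 * (num 1563 * (var 0) * (var 1) + num 549 * (var 0) * (var 0) * (var 1) + num 282 * (var 2) + num 6220 * (var 2) * (var 0) + num (-1267) * (var 0) * (var 1) * (var 1)))
  kk := fun b => cond b
    (num 1016 * (num 278 * (var 2) * (var 0) + num 6056 * (var 2) * (var 0) * (var 0) + num 33 * (var 2) * (var 0) * (var 1) + num 1 * (var 2) * (var 0) * (var 3)))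
    (num 974 * (num 278 * (var 2) * (var 0) + num 6056 * (var 2) * (var 0) * (var 0) + num 33 * (var 2) * (var 0) * (var 1) + num 1 * (var 2) * (var 0) * (var 3)))
  f0 := num 100000
  wn := fun b => cond b
    (num 1000 * (num (-800) * (var 0 * var 1) + (num 8 * (var 0 * var 1) + num 4 * var 0 * var 2) * (((num 1 - num 2 * (var 0 * var 1) - var 0) * var 1) * (num 98 + num (-58) * (var 1) + num (-125) * (var 2)) + ((num 1 - num 2 * (var 0 * var 1) - var 0) * var 1) * (num 3 + num 67 * (var 1) + num 21 * (var 2)) * var 3) + var 0 * var 1 * var 0 * (num (-800) + (num 527 * (var 1) + num 858 * (var 2) + num (-2824) * (var 1) * (var 0) + num (-1021) * (var 2) * (var 0) + num 341 * (var 1) * (var 3) + num 15 * (var 2) * (var 3)))) + num 998 * (num 100 * (var 0 * var 1 * var 0) * (num 1 * (var 1) + num 1 * (var 2))))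
    (num 1000 * (num (-800) * (var 0 * var 1) + (num 8 * (var 0 * var 1) + num 4 * var 0 * var 2) * (((num 1 - num 2 * (var 0 * var 1) - var 0) * var 1) * (num 98 + num (-58) * (var 1) + num (-125) * (var 2)) + ((num 1 - num 2 * (var 0 * var 1) - var 0) * var 1) * (num 3 + num 67 * (var 1) + num 21 * (var 2)) * var 3) + var 0 * var 1 * var 0 * (num (-800) + (num 527 * (var 1) + num 858 * (var 2) + num (-2824) * (var 1) * (var 0) + num (-1021) * (var 2) * (var 0) + num 341 * (var 1) * (var 3) + num 15 * (var 2) * (var 3)))) + num (-1259) * (num 100 * (var 0 * var 1 * var 0) * (num 1 * (var 1) + num 1 * (var 2))))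
  wd := num 100000
  tn := fun b => cond b
    (num 1030 * (num 49 * (var 2) + num 52 * (var 2) * (var 1) + num (-2) * (var 2) * (var 3) + num 22 * (var 2) * (var 1) * (var 3)))
    (num 988 * (num 49 * (var 2) + num 52 * (var 2) * (var 1) + num (-2) * (var 2) * (var 3) + num 22 * (var 2) * (var 1) * (var 3)))
  td := num 100000
  cn := num 1 - var 0 * var 1 - var 1 * (num 1 - num 2 * (var 0 * var 1))
  cd := (num 1 - num 2 * (var 0 * var 1)) * (num 1 - num 2 * (var 0 * var 1))
  kn := var 0 * var 1 * (num 4273 * (var 1) + num 96317 * (var 2) + num 6958 * (var 1) * (var 1) + num (-87006) * (var 0) * (var 1) + num 894655 * (var 2) * (var 1) + num 4002 * (var 1) * (var 3) + num 12309 * (var 2) * (var 3) + num (-3567891) * (var 2) * (var 0) + num (-21077) * (var 1) * (var 1) * (var 3))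
  kd := num 100 * (num 10 * (var 0) * (var 1) + num 3 * (var 2) + num 55 * (var 1) * (var 2))
  k2n := var 0 * (num 1805 * (var 1) + num 1398 * (var 2) + num (-1393) * (var 1) * (var 3) + num (-2893) * (var 0) * (var 1) + num 11373 * (var 1) * (var 2) + num (-2983) * (var 2) * (var 3) + num (-813) * (var 1) * (var 1) + num 11912 * (var 0) * (var 2) + num 1221 * (var 0) * (var 1) * (var 3))
  k2d := num 100 * (num 10 * (var 0) * (var 1) + num 3 * (var 2) + num 55 * (var 1) * (var 2))

/-- Its ranges. -/
def bxD82 : StripEnd.EBox :=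
  ⟨(0, 1, 20), (2, 5, 20), (0, 3, 100), (0, 1, 1)⟩

/-- The chart `D83`. -/
def chD83 : EndChart where
  I := var 0 * var 1
  d := var 0
  w := var 0 * var 2
  den := num 100
  n₀ := ((num 1 - num 2 * (var 0 * var 1) - var 0) * var 1) * (num 98 + num (-58) * (var 1) + num (-125) * (var 2))
  n₁ := ((num 1 - num 2 * (var 0 * var 1) - var 0) * var 1) * (num 3 + num 67 * (var 1) + num 21 * (var 2))
  q₀ := (0, 1, 20)
  q₁ := (1, 2, 4)
  q₂ := (0, 3, 100)
  q₃ := (0, 1, 1)
  t₀ := (0, 1)
  t₁ := (1, 1)
  mu₀ := (190, 100)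
  mu₁ := (221, 100)

/-- The piece `D83`. -/
def pcD83 : Piece where
  I := var 0 * var 1
  d := var 0
  w := var 0 * var 2
  o := (((num 1 - num 2 * (var 0 * var 1) - var 0) * var 1) * (num 98 + num (-58) * (var 1) + num (-125) * (var 2)) + ((num 1 - num 2 * (var 0 * var 1) - var 0) * var 1) * (num 3 + num 67 * (var 1) + num 21 * (var 2)) * var 3)
  den := num 100
  vn := num 2 * var 1 * ((num 98 + num (-58) * (var 1) + num (-125) * (var 2)) + (num 3 + num 67 * (var 1) + num 21 * (var 2)) * var 3)
  vs := num 1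
  mu := ⟨(190, 100), (221, 100)⟩
  pn := fun b => cond b
    (num 100 * (num 100 - (((num 1 - num 2 * (var 0 * var 1) - var 0) * var 1) * (num 98 + num (-58) * (var 1) + num (-125) * (var 2)) + ((num 1 - num 2 * (var 0 * var 1) - var 0) * var 1) * (num 3 + num 67 * (var 1) + num 21 * (var 2)) * var 3)) + num (-221) * ((((num 1 - num 2 * (var 0 * var 1) - var 0) * var 1) * (num 98 + num (-58) * (var 1) + num (-125) * (var 2)) + ((num 1 - num 2 * (var 0 * var 1) - var 0) * var 1) * (num 3 + num 67 * (var 1) + num 21 * (var 2)) * var 3) * var 0 * var 2))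
    (num 100 * (num 100 - (((num 1 - num 2 * (var 0 * var 1) - var 0) * var 1) * (num 98 + num (-58) * (var 1) + num (-125) * (var 2)) + ((num 1 - num 2 * (var 0 * var 1) - var 0) * var 1) * (num 3 + num 67 * (var 1) + num 21 * (var 2)) * var 3)) + num (-190) * ((((num 1 - num 2 * (var 0 * var 1) - var 0) * var 1) * (num 98 + num (-58) * (var 1) + num (-125) * (var 2)) + ((num 1 - num 2 * (var 0 * var 1) - var 0) * var 1) * (num 3 + num 67 * (var 1) + num 21 * (var 2)) * var 3) * var 0 * var 2))
  pd := num 100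
  en := fun b => cond b
    (num 1138 * (num 1492 * (var 0) * (var 1) + num 1183 * (var 0) * (var 0) * (var 1) + num 282 * (var 2) + num 6838 * (var 2) * (var 0) + num (-1085) * (var 0) * (var 1) * (var 1)))
    (num 796 * (num 1492 * (var 0) * (var 1) + num 1183 * (var 0) * (var 0) * (var 1) + num 282 * (var 2) + num 6838 * (var 2) * (var 0) + num (-1085) * (var 0) * (var 1) * (var 1)))
  kk := fun b => cond b
    (num 1017 * (num 274 * (var 2) * (var 0) + num 6369 * (var 2) * (var 0) * (var 0) + num 21 * (var 2) * (var 0) * (var 1) + num 2 * (var 2) * (var 0) * (var 3)))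
    (num 977 * (num 274 * (var 2) * (var 0) + num 6369 * (var 2) * (var 0) * (var 0) + num 21 * (var 2) * (var 0) * (var 1) + num 2 * (var 2) * (var 0) * (var 3)))
  f0 := num 100000
  wn := fun b => cond b
    (num 1000 * (num (-800) * (var 0 * var 1) + (num 8 * (var 0 * var 1) + num 4 * var 0 * var 2) * (((num 1 - num 2 * (var 0 * var 1) - var 0) * var 1) * (num 98 + num (-58) * (var 1) + num (-125) * (var 2)) + ((num 1 - num 2 * (var 0 * var 1) - var 0) * var 1) * (num 3 + num 67 * (var 1) + num 21 * (var 2)) * var 3) + var 0 * var 1 * var 0 * (num (-800) + (num 342 * (var 1) + num 997 * (var 2) + num (-3199) * (var 1) * (var 0) + num (-1572) * (var 2) * (var 0) + num 549 * (var 1) * (var 3) + num 141 * (var 2) * (var 3)))) + num 1183 * (num 100 * (var 0 * var 1 * var 0) * (num 1 * (var 1) + num 1 * (var 2))))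
    (num 1000 * (num (-800) * (var 0 * var 1) + (num 8 * (var 0 * var 1) + num 4 * var 0 * var 2) * (((num 1 - num 2 * (var 0 * var 1) - var 0) * var 1) * (num 98 + num (-58) * (var 1) + num (-125) * (var 2)) + ((num 1 - num 2 * (var 0 * var 1) - var 0) * var 1) * (num 3 + num 67 * (var 1) + num 21 * (var 2)) * var 3) + var 0 * var 1 * var 0 * (num (-800) + (num 342 * (var 1) + num 997 * (var 2) + num (-3199) * (var 1) * (var 0) + num (-1572) * (var 2) * (var 0) + num 549 * (var 1) * (var 3) + num 141 * (var 2) * (var 3)))) + num (-2044) * (num 100 * (var 0 * var 1 * var 0) * (num 1 * (var 1) + num 1 * (var 2))))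
  wd := num 100000
  tn := fun b => cond b
    (num 1075 * (num 52 * (var 2) + num (-21) * (var 2) * (var 0) + num 45 * (var 2) * (var 1) + num (-17) * (var 2) * (var 3) + num 82 * (var 2) * (var 1) * (var 3)))
    (num 942 * (num 52 * (var 2) + num (-21) * (var 2) * (var 0) + num 45 * (var 2) * (var 1) + num (-17) * (var 2) * (var 3) + num 82 * (var 2) * (var 1) * (var 3)))
  td := num 100000
  cn := num 1 - var 0 * var 1 - var 1 * (num 1 - num 2 * (var 0 * var 1))
  cd := (num 1 - num 2 * (var 0 * var 1)) * (num 1 - num 2 * (var 0 * var 1))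
  kn := var 0 * var 1 * (num 1167 * (var 1) + num (-3036) * (var 2) + num 533 * (var 1) * (var 1) + num (-2501) * (var 0) * (var 1) + num (-1451) * (var 2) * (var 1) + num (-1152) * (var 1) * (var 3) + num 2092 * (var 2) * (var 3) + num 84175 * (var 2) * (var 0) + num 838 * (var 1) * (var 1) * (var 3))
  kd := num 100 * (num 4 * (var 0) * (var 1) + num 1 * (var 2))
  k2n := var 0 * (num 624 * (var 1) + num (-3098) * (var 2) + num (-112) * (var 1) * (var 3) + num 810 * (var 0) * (var 1) + num 8499 * (var 1) * (var 2) + num (-1140) * (var 2) * (var 3) + num (-1017) * (var 1) * (var 1) + num (-6278) * (var 0) * (var 2) + num (-91) * (var 0) * (var 1) * (var 3))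
  k2d := num 100 * (num 4 * (var 0) * (var 1) + num 1 * (var 2))

/-- Its ranges. -/
def bxD83 : StripEnd.EBox :=
  ⟨(0, 1, 20), (1, 2, 4), (0, 3, 100), (0, 1, 1)⟩

/-- The chart `D84`. -/
def chD84 : EndChart where
  I := var 0 * var 1
  d := var 0
  w := var 0 * var 2
  den := num 100
  n₀ := ((num 1 - num 2 * (var 0 * var 1) - var 0) * var 1) * (num 92 + num (-44) * (var 1) + num (-85) * (var 2))
  n₁ := ((num 1 - num 2 * (var 0 * var 1) - var 0) * var 1) * (num 9 + num 54 * (var 1) + num (-75) * (var 2))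
  q₀ := (3, 4, 100)
  q₁ := (5, 7, 10)
  q₂ := (0, 3, 100)
  q₃ := (0, 1, 1)
  t₀ := (0, 1)
  t₁ := (1, 1)
  mu₀ := (195, 100)
  mu₁ := (230, 100)

/-- The piece `D84`. -/
def pcD84 : Piece where
  I := var 0 * var 1
  d := var 0
  w := var 0 * var 2
  o := (((num 1 - num 2 * (var 0 * var 1) - var 0) * var 1) * (num 92 + num (-44) * (var 1) + num (-85) * (var 2)) + ((num 1 - num 2 * (var 0 * var 1) - var 0) * var 1) * (num 9 + num 54 * (var 1) + num (-75) * (var 2)) * var 3)
  den := num 100
  vn := num 2 * var 1 * ((num 92 + num (-44) * (var 1) + num (-85) * (var 2)) + (num 9 + num 54 * (var 1) + num (-75) * (var 2)) * var 3)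
  vs := num 1
  mu := ⟨(195, 100), (230, 100)⟩
  pn := fun b => cond b
    (num 100 * (num 100 - (((num 1 - num 2 * (var 0 * var 1) - var 0) * var 1) * (num 92 + num (-44) * (var 1) + num (-85) * (var 2)) + ((num 1 - num 2 * (var 0 * var 1) - var 0) * var 1) * (num 9 + num 54 * (var 1) + num (-75) * (var 2)) * var 3)) + num (-230) * ((((num 1 - num 2 * (var 0 * var 1) - var 0) * var 1) * (num 92 + num (-44) * (var 1) + num (-85) * (var 2)) + ((num 1 - num 2 * (var 0 * var 1) - var 0) * var 1) * (num 9 + num 54 * (var 1) + num (-75) * (var 2)) * var 3) * var 0 * var 2))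
    (num 100 * (num 100 - (((num 1 - num 2 * (var 0 * var 1) - var 0) * var 1) * (num 92 + num (-44) * (var 1) + num (-85) * (var 2)) + ((num 1 - num 2 * (var 0 * var 1) - var 0) * var 1) * (num 9 + num 54 * (var 1) + num (-75) * (var 2)) * var 3)) + num (-195) * ((((num 1 - num 2 * (var 0 * var 1) - var 0) * var 1) * (num 92 + num (-44) * (var 1) + num (-85) * (var 2)) + ((num 1 - num 2 * (var 0 * var 1) - var 0) * var 1) * (num 9 + num 54 * (var 1) + num (-75) * (var 2)) * var 3) * var 0 * var 2))
  pd := num 100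
  en := fun b => cond b
    (num 1257 * (num 1369 * (var 0) * (var 1) + num 1866 * (var 0) * (var 0) * (var 1) + num 303 * (var 2) + num 7218 * (var 2) * (var 0) + num (-894) * (var 0) * (var 1) * (var 1)))
    (num 619 * (num 1369 * (var 0) * (var 1) + num 1866 * (var 0) * (var 0) * (var 1) + num 303 * (var 2) + num 7218 * (var 2) * (var 0) + num (-894) * (var 0) * (var 1) * (var 1)))
  kk := fun b => cond b
    (num 1011 * (num 279 * (var 2) * (var 0) + num 6442 * (var 2) * (var 0) * (var 0) + num 10 * (var 2) * (var 0) * (var 1) + num 8 * (var 2) * (var 0) * (var 3)))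
    (num 993 * (num 279 * (var 2) * (var 0) + num 6442 * (var 2) * (var 0) * (var 0) + num 10 * (var 2) * (var 0) * (var 1) + num 8 * (var 2) * (var 0) * (var 3)))
  f0 := num 100000
  wn := fun b => cond b
    (num 1000 * (num (-800) * (var 0 * var 1) + (num 8 * (var 0 * var 1) + num 4 * var 0 * var 2) * (((num 1 - num 2 * (var 0 * var 1) - var 0) * var 1) * (num 92 + num (-44) * (var 1) + num (-85) * (var 2)) + ((num 1 - num 2 * (var 0 * var 1) - var 0) * var 1) * (num 9 + num 54 * (var 1) + num (-75) * (var 2)) * var 3) + var 0 * var 1 * var 0 * (num (-800) + (num 191 * (var 1) + num 950 * (var 2) + num (-3343) * (var 1) * (var 0) + num (-10356) * (var 2) * (var 0) + num 734 * (var 1) * (var 3) + num 707 * (var 2) * (var 3)))) + num 487 * (num 100 * (var 0 * var 1 * var 0) * (num 1 * (var 1) + num 1 * (var 2))))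
    (num 1000 * (num (-800) * (var 0 * var 1) + (num 8 * (var 0 * var 1) + num 4 * var 0 * var 2) * (((num 1 - num 2 * (var 0 * var 1) - var 0) * var 1) * (num 92 + num (-44) * (var 1) + num (-85) * (var 2)) + ((num 1 - num 2 * (var 0 * var 1) - var 0) * var 1) * (num 9 + num 54 * (var 1) + num (-75) * (var 2)) * var 3) + var 0 * var 1 * var 0 * (num (-800) + (num 191 * (var 1) + num 950 * (var 2) + num (-3343) * (var 1) * (var 0) + num (-10356) * (var 2) * (var 0) + num 734 * (var 1) * (var 3) + num 707 * (var 2) * (var 3)))) + num (-1153) * (num 100 * (var 0 * var 1 * var 0) * (num 1 * (var 1) + num 1 * (var 2))))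
  wd := num 100000
  tn := fun b => cond b
    (num 1168 * (num 68 * (var 2) + num (-163) * (var 2) * (var 0) + num 23 * (var 2) * (var 1) + num (-101) * (var 2) * (var 3) + num 246 * (var 2) * (var 1) * (var 3)))
    (num 888 * (num 68 * (var 2) + num (-163) * (var 2) * (var 0) + num 23 * (var 2) * (var 1) + num (-101) * (var 2) * (var 3) + num 246 * (var 2) * (var 1) * (var 3)))
  td := num 100000
  cn := num 1 - var 0 * var 1 - var 1 * (num 1 - num 2 * (var 0 * var 1))
  cd := (num 1 - num 2 * (var 0 * var 1)) * (num 1 - num 2 * (var 0 * var 1))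
  kn := var 0 * var 1 * (num 54514 * (var 1) + num (-445505) * (var 2) + num (-604236) * (var 1) * (var 0) + num (-18798) * (var 1) * (var 1) + num 8159661 * (var 2) * (var 0) + num 397863 * (var 2) * (var 3) + num (-7338) * (var 1) * (var 3))
  kd := num 100
  k2n := (num (-10685) * (var 0) + num 2864 * (var 0) * (var 3) + num (-10375) * (var 0) * (var 1) + num 778 * (var 1) + num (-145) * (var 1) * (var 3) + num (-29) * (var 0) * (var 2) + num (-345) * (var 1) * (var 1) + num 251393 * (var 0) * (var 0))
  k2d := num 100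

/-- Its ranges. -/
def bxD84 : StripEnd.EBox :=
  ⟨(3, 4, 100), (5, 7, 10), (0, 3, 100), (0, 1, 1)⟩

/-- The chart `D85`. -/
def chD85 : EndChart where
  I := var 0 * var 1
  d := var 0
  w := var 0 * var 2
  den := num 100
  n₀ := ((num 1 - num 2 * (var 0 * var 1) - var 0) * var 1) * (num 92 + num (-44) * (var 1) + num (-85) * (var 2))
  n₁ := ((num 1 - num 2 * (var 0 * var 1) - var 0) * var 1) * (num 9 + num 54 * (var 1) + num (-75) * (var 2))
  q₀ := (4, 5, 100)
  q₁ := (5, 7, 10)
  q₂ := (0, 3, 100)
  q₃ := (0, 1, 1)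
  t₀ := (0, 1)
  t₁ := (1, 1)
  mu₀ := (195, 100)
  mu₁ := (230, 100)

/-- The piece `D85`. -/
def pcD85 : Piece where
  I := var 0 * var 1
  d := var 0
  w := var 0 * var 2
  o := (((num 1 - num 2 * (var 0 * var 1) - var 0) * var 1) * (num 92 + num (-44) * (var 1) + num (-85) * (var 2)) + ((num 1 - num 2 * (var 0 * var 1) - var 0) * var 1) * (num 9 + num 54 * (var 1) + num (-75) * (var 2)) * var 3)
  den := num 100
  vn := num 2 * var 1 * ((num 92 + num (-44) * (var 1) + num (-85) * (var 2)) + (num 9 + num 54 * (var 1) + num (-75) * (var 2)) * var 3)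
  vs := num 1
  mu := ⟨(195, 100), (230, 100)⟩
  pn := fun b => cond b
    (num 100 * (num 100 - (((num 1 - num 2 * (var 0 * var 1) - var 0) * var 1) * (num 92 + num (-44) * (var 1) + num (-85) * (var 2)) + ((num 1 - num 2 * (var 0 * var 1) - var 0) * var 1) * (num 9 + num 54 * (var 1) + num (-75) * (var 2)) * var 3)) + num (-230) * ((((num 1 - num 2 * (var 0 * var 1) - var 0) * var 1) * (num 92 + num (-44) * (var 1) + num (-85) * (var 2)) + ((num 1 - num 2 * (var 0 * var 1) - var 0) * var 1) * (num 9 + num 54 * (var 1) + num (-75) * (var 2)) * var 3) * var 0 * var 2))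
    (num 100 * (num 100 - (((num 1 - num 2 * (var 0 * var 1) - var 0) * var 1) * (num 92 + num (-44) * (var 1) + num (-85) * (var 2)) + ((num 1 - num 2 * (var 0 * var 1) - var 0) * var 1) * (num 9 + num 54 * (var 1) + num (-75) * (var 2)) * var 3)) + num (-195) * ((((num 1 - num 2 * (var 0 * var 1) - var 0) * var 1) * (num 92 + num (-44) * (var 1) + num (-85) * (var 2)) + ((num 1 - num 2 * (var 0 * var 1) - var 0) * var 1) * (num 9 + num 54 * (var 1) + num (-75) * (var 2)) * var 3) * var 0 * var 2))
  pd := num 100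
  en := fun b => cond b
    (num 1260 * (num 1353 * (var 0) * (var 1) + num 1813 * (var 0) * (var 0) * (var 1) + num 316 * (var 2) + num 6997 * (var 2) * (var 0) + num (-867) * (var 0) * (var 1) * (var 1)))
    (num 648 * (num 1353 * (var 0) * (var 1) + num 1813 * (var 0) * (var 0) * (var 1) + num 316 * (var 2) + num 6997 * (var 2) * (var 0) + num (-867) * (var 0) * (var 1) * (var 1)))
  kk := fun b => cond b
    (num 1012 * (num 278 * (var 2) * (var 0) + num 6306 * (var 2) * (var 0) * (var 0) + num 19 * (var 2) * (var 0) * (var 1) + num 11 * (var 2) * (var 0) * (var 3)))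
    (num 991 * (num 278 * (var 2) * (var 0) + num 6306 * (var 2) * (var 0) * (var 0) + num 19 * (var 2) * (var 0) * (var 1) + num 11 * (var 2) * (var 0) * (var 3)))
  f0 := num 100000
  wn := fun b => cond b
    (num 1000 * (num (-800) * (var 0 * var 1) + (num 8 * (var 0 * var 1) + num 4 * var 0 * var 2) * (((num 1 - num 2 * (var 0 * var 1) - var 0) * var 1) * (num 92 + num (-44) * (var 1) + num (-85) * (var 2)) + ((num 1 - num 2 * (var 0 * var 1) - var 0) * var 1) * (num 9 + num 54 * (var 1) + num (-75) * (var 2)) * var 3) + var 0 * var 1 * var 0 * (num (-800) + (num 190 * (var 1) + num 1046 * (var 2) + num (-3458) * (var 1) * (var 0) + num (-10451) * (var 2) * (var 0) + num 734 * (var 1) * (var 3) + num 722 * (var 2) * (var 3)))) + num 485 * (num 100 * (var 0 * var 1 * var 0) * (num 1 * (var 1) + num 1 * (var 2))))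
    (num 1000 * (num (-800) * (var 0 * var 1) + (num 8 * (var 0 * var 1) + num 4 * var 0 * var 2) * (((num 1 - num 2 * (var 0 * var 1) - var 0) * var 1) * (num 92 + num (-44) * (var 1) + num (-85) * (var 2)) + ((num 1 - num 2 * (var 0 * var 1) - var 0) * var 1) * (num 9 + num 54 * (var 1) + num (-75) * (var 2)) * var 3) + var 0 * var 1 * var 0 * (num (-800) + (num 190 * (var 1) + num 1046 * (var 2) + num (-3458) * (var 1) * (var 0) + num (-10451) * (var 2) * (var 0) + num 734 * (var 1) * (var 3) + num 722 * (var 2) * (var 3)))) + num (-1241) * (num 100 * (var 0 * var 1 * var 0) * (num 1 * (var 1) + num 1 * (var 2))))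
  wd := num 100000
  tn := fun b => cond b
    (num 1142 * (num 71 * (var 2) + num (-164) * (var 2) * (var 0) + num 19 * (var 2) * (var 1) + num (-96) * (var 2) * (var 3) + num 236 * (var 2) * (var 1) * (var 3)))
    (num 893 * (num 71 * (var 2) + num (-164) * (var 2) * (var 0) + num 19 * (var 2) * (var 1) + num (-96) * (var 2) * (var 3) + num 236 * (var 2) * (var 1) * (var 3)))
  td := num 100000
  cn := num 1 - var 0 * var 1 - var 1 * (num 1 - num 2 * (var 0 * var 1))
  cd := (num 1 - num 2 * (var 0 * var 1)) * (num 1 - num 2 * (var 0 * var 1))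
  kn := var 0 * var 1 * (num 39538 * (var 1) + num (-288433) * (var 2) + num (-349879) * (var 1) * (var 0) + num (-12640) * (var 1) * (var 1) + num 4306353 * (var 2) * (var 0) + num 296011 * (var 2) * (var 3) + num (-5200) * (var 1) * (var 3))
  kd := num 100
  k2n := (num (-39025) * (var 0) + num (-1063) * (var 0) * (var 3) + num 12562 * (var 0) * (var 1) + num 3359 * (var 1) + num 76 * (var 1) * (var 3) + num 1455 * (var 0) * (var 2) + num (-3270) * (var 1) * (var 1) + num 331481 * (var 0) * (var 0))
  k2d := num 100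

/-- Its ranges. -/
def bxD85 : StripEnd.EBox :=
  ⟨(4, 5, 100), (5, 7, 10), (0, 3, 100), (0, 1, 1)⟩

/-- The chart `D86`. -/
def chD86 : EndChart where
  I := var 0 * var 1
  d := var 0
  w := var 0 * var 2
  den := num 100
  n₀ := ((num 1 - num 2 * (var 0 * var 1) - var 0) * var 1) * (num 100 + num (-57) * (var 1) + num (-162) * (var 2))
  n₁ := ((num 1 - num 2 * (var 0 * var 1) - var 0) * var 1) * (num 83 * (var 1) + num 82 * (var 2))
  q₀ := (5, 12, 100)
  q₁ := (0, 3, 10)
  q₂ := (0, 3, 100)
  q₃ := (0, 1, 1)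
  t₀ := (0, 1)
  t₁ := (1, 1)
  mu₀ := (190, 100)
  mu₁ := (230, 100)

/-- The piece `D86`. -/
def pcD86 : Piece where
  I := var 0 * var 1
  d := var 0
  w := var 0 * var 2
  o := (((num 1 - num 2 * (var 0 * var 1) - var 0) * var 1) * (num 100 + num (-57) * (var 1) + num (-162) * (var 2)) + ((num 1 - num 2 * (var 0 * var 1) - var 0) * var 1) * (num 83 * (var 1) + num 82 * (var 2)) * var 3)
  den := num 100
  vn := num 2 * var 1 * ((num 100 + num (-57) * (var 1) + num (-162) * (var 2)) + (num 83 * (var 1) + num 82 * (var 2)) * var 3)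
  vs := num 1
  mu := ⟨(190, 100), (230, 100)⟩
  pn := fun b => cond b
    (num 100 * (num 100 - (((num 1 - num 2 * (var 0 * var 1) - var 0) * var 1) * (num 100 + num (-57) * (var 1) + num (-162) * (var 2)) + ((num 1 - num 2 * (var 0 * var 1) - var 0) * var 1) * (num 83 * (var 1) + num 82 * (var 2)) * var 3)) + num (-230) * ((((num 1 - num 2 * (var 0 * var 1) - var 0) * var 1) * (num 100 + num (-57) * (var 1) + num (-162) * (var 2)) + ((num 1 - num 2 * (var 0 * var 1) - var 0) * var 1) * (num 83 * (var 1) + num 82 * (var 2)) * var 3) * var 0 * var 2))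
    (num 100 * (num 100 - (((num 1 - num 2 * (var 0 * var 1) - var 0) * var 1) * (num 100 + num (-57) * (var 1) + num (-162) * (var 2)) + ((num 1 - num 2 * (var 0 * var 1) - var 0) * var 1) * (num 83 * (var 1) + num 82 * (var 2)) * var 3)) + num (-190) * ((((num 1 - num 2 * (var 0 * var 1) - var 0) * var 1) * (num 100 + num (-57) * (var 1) + num (-162) * (var 2)) + ((num 1 - num 2 * (var 0 * var 1) - var 0) * var 1) * (num 83 * (var 1) + num 82 * (var 2)) * var 3) * var 0 * var 2))
  pd := num 100
  en := fun b => cond b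
    (num 1076 * (num 1528 * (var 0) * (var 1) + num 545 * (var 0) * (var 0) * (var 1) + num 385 * (var 2) + num 3961 * (var 2) * (var 0) + num (-1043) * (var 0) * (var 1) * (var 1)))
    (num 924 * (num 1528 * (var 0) * (var 1) + num 545 * (var 0) * (var 0) * (var 1) + num 385 * (var 2) + num 3961 * (var 2) * (var 0) + num (-1043) * (var 0) * (var 1) * (var 1)))
  kk := fun b => cond b
    (num 1033 * (num 333 * (var 2) * (var 0) + num 4423 * (var 2) * (var 0) * (var 0) + num 219 * (var 2) * (var 0) * (var 1) + num 3 * (var 2) * (var 0) * (var 3)))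
    (num 955 * (num 333 * (var 2) * (var 0) + num 4423 * (var 2) * (var 0) * (var 0) + num 219 * (var 2) * (var 0) * (var 1) + num 3 * (var 2) * (var 0) * (var 3)))
  f0 := num 100000
  wn := fun b => cond b
    (num 1000 * (num (-800) * (var 0 * var 1) + (num 8 * (var 0 * var 1) + num 4 * var 0 * var 2) * (((num 1 - num 2 * (var 0 * var 1) - var 0) * var 1) * (num 100 + num (-57) * (var 1) + num (-162) * (var 2)) + ((num 1 - num 2 * (var 0 * var 1) - var 0) * var 1) * (num 83 * (var 1) + num 82 * (var 2)) * var 3) + var 0 * var 1 * var 0 * (num (-800) + (num 578 * (var 1) + num 832 * (var 2) + num (-2999) * (var 1) * (var 0) + num (-920) * (var 2) * (var 0) + num 348 * (var 1) * (var 3) + num (-45) * (var 2) * (var 3)))) + num 2939 * (num 100 * (var 0 * var 1 * var 0) * (num 1 * (var 1) + num 1 * (var 2))))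
    (num 1000 * (num (-800) * (var 0 * var 1) + (num 8 * (var 0 * var 1) + num 4 * var 0 * var 2) * (((num 1 - num 2 * (var 0 * var 1) - var 0) * var 1) * (num 100 + num (-57) * (var 1) + num (-162) * (var 2)) + ((num 1 - num 2 * (var 0 * var 1) - var 0) * var 1) * (num 83 * (var 1) + num 82 * (var 2)) * var 3) + var 0 * var 1 * var 0 * (num (-800) + (num 578 * (var 1) + num 832 * (var 2) + num (-2999) * (var 1) * (var 0) + num (-920) * (var 2) * (var 0) + num 348 * (var 1) * (var 3) + num (-45) * (var 2) * (var 3)))) + num (-2390) * (num 100 * (var 0 * var 1 * var 0) * (num 1 * (var 1) + num 1 * (var 2))))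
  wd := num 100000
  tn := fun b => cond b
    (num 1040 * (num 50 * (var 2) + num (-3) * (var 2) * (var 0) + num 52 * (var 2) * (var 1) + num (-1) * (var 2) * (var 3) + num 21 * (var 2) * (var 1) * (var 3)))
    (num 967 * (num 50 * (var 2) + num (-3) * (var 2) * (var 0) + num 52 * (var 2) * (var 1) + num (-1) * (var 2) * (var 3) + num 21 * (var 2) * (var 1) * (var 3)))
  td := num 100000
  cn := num 1 - var 0 * var 1 - var 1 * (num 1 - num 2 * (var 0 * var 1))
  cd := (num 1 - num 2 * (var 0 * var 1)) * (num 1 - num 2 * (var 0 * var 1))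
  kn := var 0 * var 1 * (num 9390 * (var 1) + num 830 * (var 2) + num (-34509) * (var 1) * (var 0) + num (-45) * (var 1) * (var 1) + num 18881 * (var 2) * (var 0) + num (-1150) * (var 2) * (var 3) + num (-1721) * (var 1) * (var 3))
  kd := num 100
  k2n := (num 3364 * (var 0) + num (-703) * (var 0) * (var 3) + num 2105 * (var 0) * (var 1) + num (-228) * (var 1) + num (-49) * (var 1) * (var 3) + num (-4325) * (var 0) * (var 2) + num (-147) * (var 1) * (var 1) + num (-18892) * (var 0) * (var 0))
  k2d := num 100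

/-- Its ranges. -/
def bxD86 : StripEnd.EBox :=
  ⟨(5, 12, 100), (0, 3, 10), (0, 3, 100), (0, 1, 1)⟩

/-- The chart `D87`. -/
def chD87 : EndChart where
  I := var 0 * var 1
  d := var 0
  w := var 0 * var 2
  den := num 100
  n₀ := ((num 1 - num 2 * (var 0 * var 1) - var 0) * var 1) * (num 97 + num (-49) * (var 1) + num (-111) * (var 2))
  n₁ := ((num 1 - num 2 * (var 0 * var 1) - var 0) * var 1) * (num 3 + num 69 * (var 1) + num (-12) * (var 2))
  q₀ := (5, 9, 100)
  q₁ := (3, 5, 10)
  q₂ := (0, 3, 100)
  q₃ := (0, 1, 1)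
  t₀ := (0, 1)
  t₁ := (1, 1)
  mu₀ := (195, 100)
  mu₁ := (235, 100)

/-- The piece `D87`. -/
def pcD87 : Piece where
  I := var 0 * var 1
  d := var 0
  w := var 0 * var 2
  o := (((num 1 - num 2 * (var 0 * var 1) - var 0) * var 1) * (num 97 + num (-49) * (var 1) + num (-111) * (var 2)) + ((num 1 - num 2 * (var 0 * var 1) - var 0) * var 1) * (num 3 + num 69 * (var 1) + num (-12) * (var 2)) * var 3)
  den := num 100
  vn := num 2 * var 1 * ((num 97 + num (-49) * (var 1) + num (-111) * (var 2)) + (num 3 + num 69 * (var 1) + num (-12) * (var 2)) * var 3)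
  vs := num 1
  mu := ⟨(195, 100), (235, 100)⟩
  pn := fun b => cond b
    (num 100 * (num 100 - (((num 1 - num 2 * (var 0 * var 1) - var 0) * var 1) * (num 97 + num (-49) * (var 1) + num (-111) * (var 2)) + ((num 1 - num 2 * (var 0 * var 1) - var 0) * var 1) * (num 3 + num 69 * (var 1) + num (-12) * (var 2)) * var 3)) + num (-235) * ((((num 1 - num 2 * (var 0 * var 1) - var 0) * var 1) * (num 97 + num (-49) * (var 1) + num (-111) * (var 2)) + ((num 1 - num 2 * (var 0 * var 1) - var 0) * var 1) * (num 3 + num 69 * (var 1) + num (-12) * (var 2)) * var 3) * var 0 * var 2))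
    (num 100 * (num 100 - (((num 1 - num 2 * (var 0 * var 1) - var 0) * var 1) * (num 97 + num (-49) * (var 1) + num (-111) * (var 2)) + ((num 1 - num 2 * (var 0 * var 1) - var 0) * var 1) * (num 3 + num 69 * (var 1) + num (-12) * (var 2)) * var 3)) + num (-195) * ((((num 1 - num 2 * (var 0 * var 1) - var 0) * var 1) * (num 97 + num (-49) * (var 1) + num (-111) * (var 2)) + ((num 1 - num 2 * (var 0 * var 1) - var 0) * var 1) * (num 3 + num 69 * (var 1) + num (-12) * (var 2)) * var 3) * var 0 * var 2))
  pd := num 100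
  en := fun b => cond b
    (num 1117 * (num 1434 * (var 0) * (var 1) + num 1053 * (var 0) * (var 0) * (var 1) + num 340 * (var 2) + num 5852 * (var 2) * (var 0) + num (-928) * (var 0) * (var 1) * (var 1)))
    (num 821 * (num 1434 * (var 0) * (var 1) + num 1053 * (var 0) * (var 0) * (var 1) + num 340 * (var 2) + num 5852 * (var 2) * (var 0) + num (-928) * (var 0) * (var 1) * (var 1)))
  kk := fun b => cond b
    (num 1019 * (num 280 * (var 2) * (var 0) + num 5587 * (var 2) * (var 0) * (var 0) + num 102 * (var 2) * (var 0) * (var 1) + num 10 * (var 2) * (var 0) * (var 3)))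
    (num 984 * (num 280 * (var 2) * (var 0) + num 5587 * (var 2) * (var 0) * (var 0) + num 102 * (var 2) * (var 0) * (var 1) + num 10 * (var 2) * (var 0) * (var 3)))
  f0 := num 100000
  wn := fun b => cond b
    (num 1000 * (num (-800) * (var 0 * var 1) + (num 8 * (var 0 * var 1) + num 4 * var 0 * var 2) * (((num 1 - num 2 * (var 0 * var 1) - var 0) * var 1) * (num 97 + num (-49) * (var 1) + num (-111) * (var 2)) + ((num 1 - num 2 * (var 0 * var 1) - var 0) * var 1) * (num 3 + num 69 * (var 1) + num (-12) * (var 2)) * var 3) + var 0 * var 1 * var 0 * (num (-800) + (num 377 * (var 1) + num 937 * (var 2) + num (-3605) * (var 1) * (var 0) + num (-1774) * (var 2) * (var 0) + num 589 * (var 1) * (var 3) + num 308 * (var 2) * (var 3)))) + num 827 * (num 100 * (var 0 * var 1 * var 0) * (num 1 * (var 1) + num 1 * (var 2))))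
    (num 1000 * (num (-800) * (var 0 * var 1) + (num 8 * (var 0 * var 1) + num 4 * var 0 * var 2) * (((num 1 - num 2 * (var 0 * var 1) - var 0) * var 1) * (num 97 + num (-49) * (var 1) + num (-111) * (var 2)) + ((num 1 - num 2 * (var 0 * var 1) - var 0) * var 1) * (num 3 + num 69 * (var 1) + num (-12) * (var 2)) * var 3) + var 0 * var 1 * var 0 * (num (-800) + (num 377 * (var 1) + num 937 * (var 2) + num (-3605) * (var 1) * (var 0) + num (-1774) * (var 2) * (var 0) + num 589 * (var 1) * (var 3) + num 308 * (var 2) * (var 3)))) + num (-1566) * (num 100 * (var 0 * var 1 * var 0) * (num 1 * (var 1) + num 1 * (var 2))))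
  wd := num 100000
  tn := fun b => cond b
    (num 1070 * (num 54 * (var 2) + num (-33) * (var 2) * (var 0) + num 45 * (var 2) * (var 1) + num (-21) * (var 2) * (var 3) + num 88 * (var 2) * (var 1) * (var 3)))
    (num 948 * (num 54 * (var 2) + num (-33) * (var 2) * (var 0) + num 45 * (var 2) * (var 1) + num (-21) * (var 2) * (var 3) + num 88 * (var 2) * (var 1) * (var 3)))
  td := num 100000
  cn := num 1 - var 0 * var 1 - var 1 * (num 1 - num 2 * (var 0 * var 1))
  cd := (num 1 - num 2 * (var 0 * var 1)) * (num 1 - num 2 * (var 0 * var 1))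
  kn := var 0 * var 1 * (num 25867 * (var 1) + num (-10605) * (var 2) + num (-103412) * (var 1) * (var 0) + num (-18259) * (var 1) * (var 1) + num 11169 * (var 2) * (var 0) + num (-118359) * (var 2) * (var 3) + num 3694 * (var 1) * (var 3))
  kd := num 100
  k2n := (num (-1435) * (var 0) + num (-867) * (var 0) * (var 3) + num 5210 * (var 0) * (var 1) + num 650 * (var 1) + num 67 * (var 1) * (var 3) + num (-5137) * (var 0) * (var 2) + num (-1444) * (var 1) * (var 1) + num 38 * (var 0) * (var 0))
  k2d := num 100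

/-- Its ranges. -/
def bxD87 : StripEnd.EBox :=
  ⟨(5, 9, 100), (3, 5, 10), (0, 3, 100), (0, 1, 1)⟩

/-- The chart `D88`. -/
def chD88 : EndChart where
  I := var 0 * var 1
  d := var 0
  w := var 0 * var 2
  den := num 100
  n₀ := ((num 1 - num 2 * (var 0 * var 1) - var 0) * var 1) * (num 98 + num (-45) * (var 1) + num (-115) * (var 2))
  n₁ := ((num 1 - num 2 * (var 0 * var 1) - var 0) * var 1) * (num 9 + num 59 * (var 1) + num (-39) * (var 2))
  q₀ := (9, 12, 100)
  q₁ := (3, 5, 10)
  q₂ := (0, 3, 100)
  q₃ := (0, 1, 1)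
  t₀ := (0, 1)
  t₁ := (1, 1)
  mu₀ := (200, 100)
  mu₁ := (249, 100)

/-- The piece `D88`. -/
def pcD88 : Piece where
  I := var 0 * var 1
  d := var 0
  w := var 0 * var 2
  o := (((num 1 - num 2 * (var 0 * var 1) - var 0) * var 1) * (num 98 + num (-45) * (var 1) + num (-115) * (var 2)) + ((num 1 - num 2 * (var 0 * var 1) - var 0) * var 1) * (num 9 + num 59 * (var 1) + num (-39) * (var 2)) * var 3)
  den := num 100
  vn := num 2 * var 1 * ((num 98 + num (-45) * (var 1) + num (-115) * (var 2)) + (num 9 + num 59 * (var 1) + num (-39) * (var 2)) * var 3)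
  vs := num 1
  mu := ⟨(200, 100), (249, 100)⟩
  pn := fun b => cond b
    (num 100 * (num 100 - (((num 1 - num 2 * (var 0 * var 1) - var 0) * var 1) * (num 98 + num (-45) * (var 1) + num (-115) * (var 2)) + ((num 1 - num 2 * (var 0 * var 1) - var 0) * var 1) * (num 9 + num 59 * (var 1) + num (-39) * (var 2)) * var 3)) + num (-249) * ((((num 1 - num 2 * (var 0 * var 1) - var 0) * var 1) * (num 98 + num (-45) * (var 1) + num (-115) * (var 2)) + ((num 1 - num 2 * (var 0 * var 1) - var 0) * var 1) * (num 9 + num 59 * (var 1) + num (-39) * (var 2)) * var 3) * var 0 * var 2))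
    (num 100 * (num 100 - (((num 1 - num 2 * (var 0 * var 1) - var 0) * var 1) * (num 98 + num (-45) * (var 1) + num (-115) * (var 2)) + ((num 1 - num 2 * (var 0 * var 1) - var 0) * var 1) * (num 9 + num 59 * (var 1) + num (-39) * (var 2)) * var 3)) + num (-200) * ((((num 1 - num 2 * (var 0 * var 1) - var 0) * var 1) * (num 98 + num (-45) * (var 1) + num (-115) * (var 2)) + ((num 1 - num 2 * (var 0 * var 1) - var 0) * var 1) * (num 9 + num 59 * (var 1) + num (-39) * (var 2)) * var 3) * var 0 * var 2))
  pd := num 100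
  en := fun b => cond b
    (num 1105 * (num 1414 * (var 0) * (var 1) + num 857 * (var 0) * (var 0) * (var 1) + num 468 * (var 2) + num 4525 * (var 2) * (var 0) + num (-839) * (var 0) * (var 1) * (var 1)))
    (num 841 * (num 1414 * (var 0) * (var 1) + num 857 * (var 0) * (var 0) * (var 1) + num 468 * (var 2) + num 4525 * (var 2) * (var 0) + num (-839) * (var 0) * (var 1) * (var 1)))
  kk := fun b => cond b
    (num 1025 * (num 311 * (var 2) * (var 0) + num 4864 * (var 2) * (var 0) * (var 0) + num 186 * (var 2) * (var 0) * (var 1) + num 18 * (var 2) * (var 0) * (var 3)))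
    (num 983 * (num 311 * (var 2) * (var 0) + num 4864 * (var 2) * (var 0) * (var 0) + num 186 * (var 2) * (var 0) * (var 1) + num 18 * (var 2) * (var 0) * (var 3)))
  f0 := num 100000
  wn := fun b => cond b
    (num 1000 * (num (-800) * (var 0 * var 1) + (num 8 * (var 0 * var 1) + num 4 * var 0 * var 2) * (((num 1 - num 2 * (var 0 * var 1) - var 0) * var 1) * (num 98 + num (-45) * (var 1) + num (-115) * (var 2)) + ((num 1 - num 2 * (var 0 * var 1) - var 0) * var 1) * (num 9 + num 59 * (var 1) + num (-39) * (var 2)) * var 3) + var 0 * var 1 * var 0 * (num (-800) + (num 307 * (var 1) + num 2152 * (var 2) + num (-2364) * (var 1) * (var 0) + num (-13371) * (var 2) * (var 0) + num 617 * (var 1) * (var 3) + num 312 * (var 2) * (var 3)))) + num 870 * (num 100 * (var 0 * var 1 * var 0) * (num 1 * (var 1) + num 1 * (var 2))))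
    (num 1000 * (num (-800) * (var 0 * var 1) + (num 8 * (var 0 * var 1) + num 4 * var 0 * var 2) * (((num 1 - num 2 * (var 0 * var 1) - var 0) * var 1) * (num 98 + num (-45) * (var 1) + num (-115) * (var 2)) + ((num 1 - num 2 * (var 0 * var 1) - var 0) * var 1) * (num 9 + num 59 * (var 1) + num (-39) * (var 2)) * var 3) + var 0 * var 1 * var 0 * (num (-800) + (num 307 * (var 1) + num 2152 * (var 2) + num (-2364) * (var 1) * (var 0) + num (-13371) * (var 2) * (var 0) + num 617 * (var 1) * (var 3) + num 312 * (var 2) * (var 3)))) + num (-1916) * (num 100 * (var 0 * var 1 * var 0) * (num 1 * (var 1) + num 1 * (var 2))))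
  wd := num 100000
  tn := fun b => cond b
    (num 1063 * (num 55 * (var 2) + num (-32) * (var 2) * (var 0) + num 46 * (var 2) * (var 1) + num (-19) * (var 2) * (var 3) + num 82 * (var 2) * (var 1) * (var 3)))
    (num 942 * (num 55 * (var 2) + num (-32) * (var 2) * (var 0) + num 46 * (var 2) * (var 1) + num (-19) * (var 2) * (var 3) + num 82 * (var 2) * (var 1) * (var 3)))
  td := num 100000
  cn := num 1 - var 0 * var 1 - var 1 * (num 1 - num 2 * (var 0 * var 1))
  cd := (num 1 - num 2 * (var 0 * var 1)) * (num 1 - num 2 * (var 0 * var 1))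
  kn := var 0 * var 1 * (num 12757 * (var 1) + num 78539 * (var 2) + num (-14133) * (var 1) * (var 0) + num (-10420) * (var 1) * (var 1) + num (-684743) * (var 2) * (var 0) + num 2106 * (var 2) * (var 3) + num 2515 * (var 1) * (var 3))
  kd := num 100
  k2n := (num (-9631) * (var 0) + num (-3348) * (var 0) * (var 3) + num (-1765) * (var 0) * (var 1) + num 3673 * (var 1) + num 1132 * (var 1) * (var 3) + num 294 * (var 0) * (var 2) + num (-4954) * (var 1) * (var 1) + num 47411 * (var 0) * (var 0))
  k2d := num 100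

/-- Its ranges. -/
def bxD88 : StripEnd.EBox :=
  ⟨(9, 12, 100), (3, 5, 10), (0, 3, 100), (0, 1, 1)⟩

/-- The chart `D89`. -/
def chD89 : EndChart where
  I := var 0 * var 1
  d := var 0
  w := var 0 * var 2
  den := num 100
  n₀ := ((num 1 - num 2 * (var 0 * var 1) - var 0) * var 1) * (num 94 + num (-45) * (var 1) + num (-88) * (var 2))
  n₁ := ((num 1 - num 2 * (var 0 * var 1) - var 0) * var 1) * (num 7 + num 60 * (var 1) + num (-76) * (var 2))
  q₀ := (5, 7, 100)
  q₁ := (5, 7, 10)
  q₂ := (0, 3, 100)
  q₃ := (0, 1, 1)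
  t₀ := (0, 1)
  t₁ := (1, 1)
  mu₀ := (200, 100)
  mu₁ := (240, 100)

/-- The piece `D89`. -/
def pcD89 : Piece where
  I := var 0 * var 1
  d := var 0
  w := var 0 * var 2
  o := (((num 1 - num 2 * (var 0 * var 1) - var 0) * var 1) * (num 94 + num (-45) * (var 1) + num (-88) * (var 2)) + ((num 1 - num 2 * (var 0 * var 1) - var 0) * var 1) * (num 7 + num 60 * (var 1) + num (-76) * (var 2)) * var 3)
  den := num 100
  vn := num 2 * var 1 * ((num 94 + num (-45) * (var 1) + num (-88) * (var 2)) + (num 7 + num 60 * (var 1) + num (-76) * (var 2)) * var 3)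
  vs := num 1
  mu := ⟨(200, 100), (240, 100)⟩
  pn := fun b => cond b
    (num 100 * (num 100 - (((num 1 - num 2 * (var 0 * var 1) - var 0) * var 1) * (num 94 + num (-45) * (var 1) + num (-88) * (var 2)) + ((num 1 - num 2 * (var 0 * var 1) - var 0) * var 1) * (num 7 + num 60 * (var 1) + num (-76) * (var 2)) * var 3)) + num (-240) * ((((num 1 - num 2 * (var 0 * var 1) - var 0) * var 1) * (num 94 + num (-45) * (var 1) + num (-88) * (var 2)) + ((num 1 - num 2 * (var 0 * var 1) - var 0) * var 1) * (num 7 + num 60 * (var 1) + num (-76) * (var 2)) * var 3) * var 0 * var 2))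
    (num 100 * (num 100 - (((num 1 - num 2 * (var 0 * var 1) - var 0) * var 1) * (num 94 + num (-45) * (var 1) + num (-88) * (var 2)) + ((num 1 - num 2 * (var 0 * var 1) - var 0) * var 1) * (num 7 + num 60 * (var 1) + num (-76) * (var 2)) * var 3)) + num (-200) * ((((num 1 - num 2 * (var 0 * var 1) - var 0) * var 1) * (num 94 + num (-45) * (var 1) + num (-88) * (var 2)) + ((num 1 - num 2 * (var 0 * var 1) - var 0) * var 1) * (num 7 + num 60 * (var 1) + num (-76) * (var 2)) * var 3) * var 0 * var 2))
  pd := num 100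
  en := fun b => cond b
    (num 1254 * (num 1336 * (var 0) * (var 1) + num 1661 * (var 0) * (var 0) * (var 1) + num 331 * (var 2) + num 6821 * (var 2) * (var 0) + num (-830) * (var 0) * (var 1) * (var 1)))
    (num 632 * (num 1336 * (var 0) * (var 1) + num 1661 * (var 0) * (var 0) * (var 1) + num 331 * (var 2) + num 6821 * (var 2) * (var 0) + num (-830) * (var 0) * (var 1) * (var 1)))
  kk := fun b => cond b
    (num 1018 * (num 277 * (var 2) * (var 0) + num 6110 * (var 2) * (var 0) * (var 0) + num 34 * (var 2) * (var 0) * (var 1) + num 18 * (var 2) * (var 0) * (var 3)))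
    (num 987 * (num 277 * (var 2) * (var 0) + num 6110 * (var 2) * (var 0) * (var 0) + num 34 * (var 2) * (var 0) * (var 1) + num 18 * (var 2) * (var 0) * (var 3)))
  f0 := num 100000
  wn := fun b => cond b
    (num 1000 * (num (-800) * (var 0 * var 1) + (num 8 * (var 0 * var 1) + num 4 * var 0 * var 2) * (((num 1 - num 2 * (var 0 * var 1) - var 0) * var 1) * (num 94 + num (-45) * (var 1) + num (-88) * (var 2)) + ((num 1 - num 2 * (var 0 * var 1) - var 0) * var 1) * (num 7 + num 60 * (var 1) + num (-76) * (var 2)) * var 3) + var 0 * var 1 * var 0 * (num (-800) + (num 233 * (var 1) + num 959 * (var 2) + num (-3929) * (var 1) * (var 0) + num (-5845) * (var 2) * (var 0) + num 761 * (var 1) * (var 3) + num 747 * (var 2) * (var 3)))) + num 530 * (num 100 * (var 0 * var 1 * var 0) * (num 1 * (var 1) + num 1 * (var 2))))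
    (num 1000 * (num (-800) * (var 0 * var 1) + (num 8 * (var 0 * var 1) + num 4 * var 0 * var 2) * (((num 1 - num 2 * (var 0 * var 1) - var 0) * var 1) * (num 94 + num (-45) * (var 1) + num (-88) * (var 2)) + ((num 1 - num 2 * (var 0 * var 1) - var 0) * var 1) * (num 7 + num 60 * (var 1) + num (-76) * (var 2)) * var 3) + var 0 * var 1 * var 0 * (num (-800) + (num 233 * (var 1) + num 959 * (var 2) + num (-3929) * (var 1) * (var 0) + num (-5845) * (var 2) * (var 0) + num 761 * (var 1) * (var 3) + num 747 * (var 2) * (var 3)))) + num (-1402) * (num 100 * (var 0 * var 1 * var 0) * (num 1 * (var 1) + num 1 * (var 2))))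
  wd := num 100000
  tn := fun b => cond b
    (num 1160 * (num 73 * (var 2) + num (-140) * (var 2) * (var 0) + num 19 * (var 2) * (var 1) + num (-95) * (var 2) * (var 3) + num 235 * (var 2) * (var 1) * (var 3)))
    (num 883 * (num 73 * (var 2) + num (-140) * (var 2) * (var 0) + num 19 * (var 2) * (var 1) + num (-95) * (var 2) * (var 3) + num 235 * (var 2) * (var 1) * (var 3)))
  td := num 100000
  cn := num 1 - var 0 * var 1 - var 1 * (num 1 - num 2 * (var 0 * var 1))
  cd := (num 1 - num 2 * (var 0 * var 1)) * (num 1 - num 2 * (var 0 * var 1))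
  kn := var 0 * var 1 * (num 1761 * (var 1) + num 160439 * (var 2) + num 4728 * (var 1) * (var 1) + num (-5757) * (var 0) * (var 1) + num 486006 * (var 2) * (var 1) + num 15061 * (var 1) * (var 3) + num (-110937) * (var 2) * (var 3) + num (-3944493) * (var 2) * (var 0) + num (-22205) * (var 1) * (var 1) * (var 3))
  kd := num 100 * (num 10 * (var 0) * (var 1) + num 3 * (var 2) + num 55 * (var 1) * (var 2))
  k2n := var 0 * (num (-337) * (var 1) + num (-1395) * (var 2) + num (-205) * (var 1) * (var 3) + num 3806 * (var 0) * (var 1) + num 16190 * (var 1) * (var 2) + num (-4571) * (var 2) * (var 3) + num 892 * (var 1) * (var 1) + num (-14013) * (var 0) * (var 2) + num 230 * (var 0) * (var 1) * (var 3))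
  k2d := num 100 * (num 10 * (var 0) * (var 1) + num 3 * (var 2) + num 55 * (var 1) * (var 2))

/-- Its ranges. -/
def bxD89 : StripEnd.EBox :=
  ⟨(5, 7, 100), (5, 7, 10), (0, 3, 100), (0, 1, 1)⟩

/-- The chart `D90`. -/
def chD90 : EndChart where
  I := var 0 * var 1
  d := var 0
  w := var 0 * var 2
  den := num 100
  n₀ := ((num 1 - num 2 * (var 0 * var 1) - var 0) * var 1) * (num 96 + num (-45) * (var 1) + num (-97) * (var 2))
  n₁ := ((num 1 - num 2 * (var 0 * var 1) - var 0) * var 1) * (num 21 + num 45 * (var 1) + num (-117) * (var 2))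
  q₀ := (7, 10, 100)
  q₁ := (7, 10, 14)
  q₂ := (0, 3, 100)
  q₃ := (0, 1, 1)
  t₀ := (0, 1)
  t₁ := (1, 1)
  mu₀ := (200, 100)
  mu₁ := (256, 100)

/-- The piece `D90`. -/
def pcD90 : Piece where
  I := var 0 * var 1
  d := var 0
  w := var 0 * var 2
  o := (((num 1 - num 2 * (var 0 * var 1) - var 0) * var 1) * (num 96 + num (-45) * (var 1) + num (-97) * (var 2)) + ((num 1 - num 2 * (var 0 * var 1) - var 0) * var 1) * (num 21 + num 45 * (var 1) + num (-117) * (var 2)) * var 3)
  den := num 100
  vn := num 2 * var 1 * ((num 96 + num (-45) * (var 1) + num (-97) * (var 2)) + (num 21 + num 45 * (var 1) + num (-117) * (var 2)) * var 3)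
  vs := num 1
  mu := ⟨(200, 100), (256, 100)⟩
  pn := fun b => cond b
    (num 100 * (num 100 - (((num 1 - num 2 * (var 0 * var 1) - var 0) * var 1) * (num 96 + num (-45) * (var 1) + num (-97) * (var 2)) + ((num 1 - num 2 * (var 0 * var 1) - var 0) * var 1) * (num 21 + num 45 * (var 1) + num (-117) * (var 2)) * var 3)) + num (-256) * ((((num 1 - num 2 * (var 0 * var 1) - var 0) * var 1) * (num 96 + num (-45) * (var 1) + num (-97) * (var 2)) + ((num 1 - num 2 * (var 0 * var 1) - var 0) * var 1) * (num 21 + num 45 * (var 1) + num (-117) * (var 2)) * var 3) * var 0 * var 2))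
    (num 100 * (num 100 - (((num 1 - num 2 * (var 0 * var 1) - var 0) * var 1) * (num 96 + num (-45) * (var 1) + num (-97) * (var 2)) + ((num 1 - num 2 * (var 0 * var 1) - var 0) * var 1) * (num 21 + num 45 * (var 1) + num (-117) * (var 2)) * var 3)) + num (-200) * ((((num 1 - num 2 * (var 0 * var 1) - var 0) * var 1) * (num 96 + num (-45) * (var 1) + num (-97) * (var 2)) + ((num 1 - num 2 * (var 0 * var 1) - var 0) * var 1) * (num 21 + num 45 * (var 1) + num (-117) * (var 2)) * var 3) * var 0 * var 2))
  pd := num 100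
  en := fun b => cond b
    (num 1264 * (num 1337 * (var 0) * (var 1) + num 1405 * (var 0) * (var 0) * (var 1) + num 410 * (var 2) + num 5747 * (var 2) * (var 0) + num (-803) * (var 0) * (var 1) * (var 1)))
    (num 610 * (num 1337 * (var 0) * (var 1) + num 1405 * (var 0) * (var 0) * (var 1) + num 410 * (var 2) + num 5747 * (var 2) * (var 0) + num (-803) * (var 0) * (var 1) * (var 1)))
  kk := fun b => cond b
    (num 1032 * (num 294 * (var 2) * (var 0) + num 5708 * (var 2) * (var 0) * (var 0) + num 51 * (var 2) * (var 0) * (var 1) + num 28 * (var 2) * (var 0) * (var 3)))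
    (num 980 * (num 294 * (var 2) * (var 0) + num 5708 * (var 2) * (var 0) * (var 0) + num 51 * (var 2) * (var 0) * (var 1) + num 28 * (var 2) * (var 0) * (var 3)))
  f0 := num 100000
  wn := fun b => cond b
    (num 1000 * (num (-800) * (var 0 * var 1) + (num 8 * (var 0 * var 1) + num 4 * var 0 * var 2) * (((num 1 - num 2 * (var 0 * var 1) - var 0) * var 1) * (num 96 + num (-45) * (var 1) + num (-97) * (var 2)) + ((num 1 - num 2 * (var 0 * var 1) - var 0) * var 1) * (num 21 + num 45 * (var 1) + num (-117) * (var 2)) * var 3) + var 0 * var 1 * var 0 * (num (-800) + (num 175 * (var 1) + num 1273 * (var 2) + num (-2531) * (var 1) * (var 0) + num (-9975) * (var 2) * (var 0) + num 836 * (var 1) * (var 3) + num 779 * (var 2) * (var 3)))) + num 639 * (num 100 * (var 0 * var 1 * var 0) * (num 1 * (var 1) + num 1 * (var 2))))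
    (num 1000 * (num (-800) * (var 0 * var 1) + (num 8 * (var 0 * var 1) + num 4 * var 0 * var 2) * (((num 1 - num 2 * (var 0 * var 1) - var 0) * var 1) * (num 96 + num (-45) * (var 1) + num (-97) * (var 2)) + ((num 1 - num 2 * (var 0 * var 1) - var 0) * var 1) * (num 21 + num 45 * (var 1) + num (-117) * (var 2)) * var 3) + var 0 * var 1 * var 0 * (num (-800) + (num 175 * (var 1) + num 1273 * (var 2) + num (-2531) * (var 1) * (var 0) + num (-9975) * (var 2) * (var 0) + num 836 * (var 1) * (var 3) + num 779 * (var 2) * (var 3)))) + num (-2369) * (num 100 * (var 0 * var 1 * var 0) * (num 1 * (var 1) + num 1 * (var 2))))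
  wd := num 100000
  tn := fun b => cond b
    (num 1204 * (num 68 * (var 2) + num (-61) * (var 2) * (var 0) + num 23 * (var 2) * (var 1) + num (-83) * (var 2) * (var 3) + num 217 * (var 2) * (var 1) * (var 3)))
    (num 846 * (num 68 * (var 2) + num (-61) * (var 2) * (var 0) + num 23 * (var 2) * (var 1) + num (-83) * (var 2) * (var 3) + num 217 * (var 2) * (var 1) * (var 3)))
  td := num 100000
  cn := num 1 - var 0 * var 1 - var 1 * (num 1 - num 2 * (var 0 * var 1))
  cd := (num 1 - num 2 * (var 0 * var 1)) * (num 1 - num 2 * (var 0 * var 1))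
  kn := var 0 * var 1 * (num 28371 * (var 1) + num (-145136) * (var 2) + num (-124837) * (var 1) * (var 0) + num (-13503) * (var 1) * (var 1) + num 1433766 * (var 2) * (var 0) + num (-144169) * (var 2) * (var 3) + num 4491 * (var 1) * (var 3))
  kd := num 100
  k2n := (num 6066 * (var 0) + num 547 * (var 0) * (var 3) + num 40112 * (var 0) * (var 1) + num 836 * (var 1) + num (-118) * (var 1) * (var 3) + num (-16416) * (var 0) * (var 2) + num (-3834) * (var 1) * (var 1) + num (-199591) * (var 0) * (var 0))
  k2d := num 100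

/-- Its ranges. -/
def bxD90 : StripEnd.EBox :=
  ⟨(7, 10, 100), (7, 10, 14), (0, 3, 100), (0, 1, 1)⟩

/-- The chart `D91`. -/
def chD91 : EndChart where
  I := var 0 * var 1
  d := var 0
  w := var 0 * var 2
  den := num 100
  n₀ := ((num 1 - num 2 * (var 0 * var 1) - var 0) * var 1) * (num 98 + num (-40) * (var 1) + num (-115) * (var 2))
  n₁ := ((num 1 - num 2 * (var 0 * var 1) - var 0) * var 1) * (num 10 + num 58 * (var 1) + num (-30) * (var 2))
  q₀ := (3, 4, 25)
  q₁ := (10, 21, 50)
  q₂ := (0, 3, 100)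
  q₃ := (0, 1, 1)
  t₀ := (0, 1)
  t₁ := (1, 1)
  mu₀ := (200, 100)
  mu₁ := (258, 100)

/-- The piece `D91`. -/
def pcD91 : Piece where
  I := var 0 * var 1
  d := var 0
  w := var 0 * var 2
  o := (((num 1 - num 2 * (var 0 * var 1) - var 0) * var 1) * (num 98 + num (-40) * (var 1) + num (-115) * (var 2)) + ((num 1 - num 2 * (var 0 * var 1) - var 0) * var 1) * (num 10 + num 58 * (var 1) + num (-30) * (var 2)) * var 3)
  den := num 100
  vn := num 2 * var 1 * ((num 98 + num (-40) * (var 1) + num (-115) * (var 2)) + (num 10 + num 58 * (var 1) + num (-30) * (var 2)) * var 3)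
  vs := num 1
  mu := ⟨(200, 100), (258, 100)⟩
  pn := fun b => cond b
    (num 100 * (num 100 - (((num 1 - num 2 * (var 0 * var 1) - var 0) * var 1) * (num 98 + num (-40) * (var 1) + num (-115) * (var 2)) + ((num 1 - num 2 * (var 0 * var 1) - var 0) * var 1) * (num 10 + num 58 * (var 1) + num (-30) * (var 2)) * var 3)) + num (-258) * ((((num 1 - num 2 * (var 0 * var 1) - var 0) * var 1) * (num 98 + num (-40) * (var 1) + num (-115) * (var 2)) + ((num 1 - num 2 * (var 0 * var 1) - var 0) * var 1) * (num 10 + num 58 * (var 1) + num (-30) * (var 2)) * var 3) * var 0 * var 2))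
    (num 100 * (num 100 - (((num 1 - num 2 * (var 0 * var 1) - var 0) * var 1) * (num 98 + num (-40) * (var 1) + num (-115) * (var 2)) + ((num 1 - num 2 * (var 0 * var 1) - var 0) * var 1) * (num 10 + num 58 * (var 1) + num (-30) * (var 2)) * var 3)) + num (-200) * ((((num 1 - num 2 * (var 0 * var 1) - var 0) * var 1) * (num 98 + num (-40) * (var 1) + num (-115) * (var 2)) + ((num 1 - num 2 * (var 0 * var 1) - var 0) * var 1) * (num 10 + num 58 * (var 1) + num (-30) * (var 2)) * var 3) * var 0 * var 2))
  pd := num 100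
  en := fun b => cond b
    (num 1079 * (num 1457 * (var 0) * (var 1) + num 364 * (var 0) * (var 0) * (var 1) + num 581 * (var 2) + num 3322 * (var 2) * (var 0) + num (-770) * (var 0) * (var 1) * (var 1)))
    (num 887 * (num 1457 * (var 0) * (var 1) + num 364 * (var 0) * (var 0) * (var 1) + num 581 * (var 2) + num 3322 * (var 2) * (var 0) + num (-770) * (var 0) * (var 1) * (var 1)))
  kk := fun b => cond b
    (num 1032 * (num 383 * (var 2) * (var 0) + num 3833 * (var 2) * (var 0) * (var 0) + num 354 * (var 2) * (var 0) * (var 1) + num 16 * (var 2) * (var 0) * (var 3)))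
    (num 975 * (num 383 * (var 2) * (var 0) + num 3833 * (var 2) * (var 0) * (var 0) + num 354 * (var 2) * (var 0) * (var 1) + num 16 * (var 2) * (var 0) * (var 3)))
  f0 := num 100000
  wn := fun b => cond b
    (num 1000 * (num (-800) * (var 0 * var 1) + (num 8 * (var 0 * var 1) + num 4 * var 0 * var 2) * (((num 1 - num 2 * (var 0 * var 1) - var 0) * var 1) * (num 98 + num (-40) * (var 1) + num (-115) * (var 2)) + ((num 1 - num 2 * (var 0 * var 1) - var 0) * var 1) * (num 10 + num 58 * (var 1) + num (-30) * (var 2)) * var 3) + var 0 * var 1 * var 0 * (num (-800) + (num 404 * (var 1) + num 1725 * (var 2) + num (-2405) * (var 1) * (var 0) + num (-6981) * (var 2) * (var 0) + num 538 * (var 1) * (var 3) + num 239 * (var 2) * (var 3)))) + num 913 * (num 100 * (var 0 * var 1 * var 0) * (num 1 * (var 1) + num 1 * (var 2))))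
    (num 1000 * (num (-800) * (var 0 * var 1) + (num 8 * (var 0 * var 1) + num 4 * var 0 * var 2) * (((num 1 - num 2 * (var 0 * var 1) - var 0) * var 1) * (num 98 + num (-40) * (var 1) + num (-115) * (var 2)) + ((num 1 - num 2 * (var 0 * var 1) - var 0) * var 1) * (num 10 + num 58 * (var 1) + num (-30) * (var 2)) * var 3) + var 0 * var 1 * var 0 * (num (-800) + (num 404 * (var 1) + num 1725 * (var 2) + num (-2405) * (var 1) * (var 0) + num (-6981) * (var 2) * (var 0) + num 538 * (var 1) * (var 3) + num 239 * (var 2) * (var 3)))) + num (-2442) * (num 100 * (var 0 * var 1 * var 0) * (num 1 * (var 1) + num 1 * (var 2))))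
  wd := num 100000
  tn := fun b => cond b
    (num 1062 * (num 52 * (var 2) + num (-15) * (var 2) * (var 0) + num 50 * (var 2) * (var 1) + num (-7) * (var 2) * (var 3) + num 47 * (var 2) * (var 1) * (var 3)))
    (num 957 * (num 52 * (var 2) + num (-15) * (var 2) * (var 0) + num 50 * (var 2) * (var 1) + num (-7) * (var 2) * (var 3) + num 47 * (var 2) * (var 1) * (var 3)))
  td := num 100000
  cn := num 1 - var 0 * var 1 - var 1 * (num 1 - num 2 * (var 0 * var 1))
  cd := (num 1 - num 2 * (var 0 * var 1)) * (num 1 - num 2 * (var 0 * var 1))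
  kn := var 0 * var 1 * (num 9937 * (var 1) + num 42186 * (var 2) + num (-20883) * (var 1) * (var 0) + num (-4464) * (var 1) * (var 1) + num (-235009) * (var 2) * (var 0) + num 11024 * (var 2) * (var 3) + num 927 * (var 1) * (var 3))
  kd := num 100
  k2n := (num (-7356) * (var 0) + num (-825) * (var 0) * (var 3) + num (-28399) * (var 0) * (var 1) + num 5868 * (var 1) + num 364 * (var 1) * (var 3) + num (-1255) * (var 0) * (var 2) + num (-2875) * (var 1) * (var 1) + num 45794 * (var 0) * (var 0))
  k2d := num 100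

/-- Its ranges. -/
def bxD91 : StripEnd.EBox :=
  ⟨(3, 4, 25), (10, 21, 50), (0, 3, 100), (0, 1, 1)⟩

/-- The chart `D92`. -/
def chD92 : EndChart where
  I := var 0 * var 1
  d := var 0
  w := var 0 * var 2
  den := num 100
  n₀ := ((num 1 - num 2 * (var 0 * var 1) - var 0) * var 1) * (num 99 + num (-35) * (var 1) + num (-123) * (var 2))
  n₁ := ((num 1 - num 2 * (var 0 * var 1) - var 0) * var 1) * (num 8 + num 59 * (var 1) + num (-2) * (var 2))
  q₀ := (4, 5, 25)
  q₁ := (5, 8, 25)
  q₂ := (0, 3, 100)
  q₃ := (0, 1, 1)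
  t₀ := (0, 1)
  t₁ := (1, 1)
  mu₀ := (204, 100)
  mu₁ := (259, 100)

/-- The piece `D92`. -/
def pcD92 : Piece where
  I := var 0 * var 1
  d := var 0
  w := var 0 * var 2
  o := (((num 1 - num 2 * (var 0 * var 1) - var 0) * var 1) * (num 99 + num (-35) * (var 1) + num (-123) * (var 2)) + ((num 1 - num 2 * (var 0 * var 1) - var 0) * var 1) * (num 8 + num 59 * (var 1) + num (-2) * (var 2)) * var 3)
  den := num 100
  vn := num 2 * var 1 * ((num 99 + num (-35) * (var 1) + num (-123) * (var 2)) + (num 8 + num 59 * (var 1) + num (-2) * (var 2)) * var 3)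
  vs := num 1
  mu := ⟨(204, 100), (259, 100)⟩
  pn := fun b => cond b
    (num 100 * (num 100 - (((num 1 - num 2 * (var 0 * var 1) - var 0) * var 1) * (num 99 + num (-35) * (var 1) + num (-123) * (var 2)) + ((num 1 - num 2 * (var 0 * var 1) - var 0) * var 1) * (num 8 + num 59 * (var 1) + num (-2) * (var 2)) * var 3)) + num (-259) * ((((num 1 - num 2 * (var 0 * var 1) - var 0) * var 1) * (num 99 + num (-35) * (var 1) + num (-123) * (var 2)) + ((num 1 - num 2 * (var 0 * var 1) - var 0) * var 1) * (num 8 + num 59 * (var 1) + num (-2) * (var 2)) * var 3) * var 0 * var 2))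
    (num 100 * (num 100 - (((num 1 - num 2 * (var 0 * var 1) - var 0) * var 1) * (num 99 + num (-35) * (var 1) + num (-123) * (var 2)) + ((num 1 - num 2 * (var 0 * var 1) - var 0) * var 1) * (num 8 + num 59 * (var 1) + num (-2) * (var 2)) * var 3)) + num (-204) * ((((num 1 - num 2 * (var 0 * var 1) - var 0) * var 1) * (num 99 + num (-35) * (var 1) + num (-123) * (var 2)) + ((num 1 - num 2 * (var 0 * var 1) - var 0) * var 1) * (num 8 + num 59 * (var 1) + num (-2) * (var 2)) * var 3) * var 0 * var 2))
  pd := num 100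
  en := fun b => cond b
    (num 1044 * (num 1474 * (var 0) * (var 1) + num 52 * (var 0) * (var 0) * (var 1) + num 698 * (var 2) + num 2676 * (var 2) * (var 0) + num (-650) * (var 0) * (var 1) * (var 1)))
    (num 940 * (num 1474 * (var 0) * (var 1) + num 52 * (var 0) * (var 0) * (var 1) + num 698 * (var 2) + num 2676 * (var 2) * (var 0) + num (-650) * (var 0) * (var 1) * (var 1)))
  kk := fun b => cond b
    (num 1020 * (num 463 * (var 2) * (var 0) + num 3060 * (var 2) * (var 0) * (var 0) + num 545 * (var 2) * (var 0) * (var 1) + num 16 * (var 2) * (var 0) * (var 3)))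
    (num 982 * (num 463 * (var 2) * (var 0) + num 3060 * (var 2) * (var 0) * (var 0) + num 545 * (var 2) * (var 0) * (var 1) + num 16 * (var 2) * (var 0) * (var 3)))
  f0 := num 100000
  wn := fun b => cond b
    (num 1000 * (num (-800) * (var 0 * var 1) + (num 8 * (var 0 * var 1) + num 4 * var 0 * var 2) * (((num 1 - num 2 * (var 0 * var 1) - var 0) * var 1) * (num 99 + num (-35) * (var 1) + num (-123) * (var 2)) + ((num 1 - num 2 * (var 0 * var 1) - var 0) * var 1) * (num 8 + num 59 * (var 1) + num (-2) * (var 2)) * var 3) + var 0 * var 1 * var 0 * (num (-800) + (num 532 * (var 1) + num 1253 * (var 2) + num (-2934) * (var 1) * (var 0) + num (-3869) * (var 2) * (var 0) + num 464 * (var 1) * (var 3) + num 507 * (var 2) * (var 3)))) + num 491 * (num 100 * (var 0 * var 1 * var 0) * (num 1 * (var 1) + num 1 * (var 2))))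
    (num 1000 * (num (-800) * (var 0 * var 1) + (num 8 * (var 0 * var 1) + num 4 * var 0 * var 2) * (((num 1 - num 2 * (var 0 * var 1) - var 0) * var 1) * (num 99 + num (-35) * (var 1) + num (-123) * (var 2)) + ((num 1 - num 2 * (var 0 * var 1) - var 0) * var 1) * (num 8 + num 59 * (var 1) + num (-2) * (var 2)) * var 3) + var 0 * var 1 * var 0 * (num (-800) + (num 532 * (var 1) + num 1253 * (var 2) + num (-2934) * (var 1) * (var 0) + num (-3869) * (var 2) * (var 0) + num 464 * (var 1) * (var 3) + num 507 * (var 2) * (var 3)))) + num (-1608) * (num 100 * (var 0 * var 1 * var 0) * (num 1 * (var 1) + num 1 * (var 2))))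
  wd := num 100000
  tn := fun b => cond b
    (num 1030 * (num 52 * (var 2) + num (-12) * (var 2) * (var 0) + num 51 * (var 2) * (var 1) + num (-4) * (var 2) * (var 3) + num 34 * (var 2) * (var 1) * (var 3)))
    (num 962 * (num 52 * (var 2) + num (-12) * (var 2) * (var 0) + num 51 * (var 2) * (var 1) + num (-4) * (var 2) * (var 3) + num 34 * (var 2) * (var 1) * (var 3)))
  td := num 100000
  cn := num 1 - var 0 * var 1 - var 1 * (num 1 - num 2 * (var 0 * var 1))
  cd := (num 1 - num 2 * (var 0 * var 1)) * (num 1 - num 2 * (var 0 * var 1))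
  kn := var 0 * var 1 * (num 9576 * (var 1) + num 44911 * (var 2) + num (-19896) * (var 1) * (var 0) + num (-2971) * (var 1) * (var 1) + num (-186956) * (var 2) * (var 0) + num 14269 * (var 2) * (var 3) + num (-35) * (var 1) * (var 3))
  kd := num 100
  k2n := (num (-6935) * (var 0) + num 12 * (var 0) * (var 3) + num (-21350) * (var 0) * (var 1) + num 6623 * (var 1) + num (-200) * (var 1) * (var 3) + num 19583 * (var 0) * (var 2) + num (-4473) * (var 1) * (var 1) + num 30707 * (var 0) * (var 0))
  k2d := num 100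

/-- Its ranges. -/
def bxD92 : StripEnd.EBox :=
  ⟨(4, 5, 25), (5, 8, 25), (0, 3, 100), (0, 1, 1)⟩

/-- The chart `D93`. -/
def chD93 : EndChart where
  I := var 0 * var 1
  d := var 0
  w := var 0 * var 2
  den := num 100
  n₀ := ((num 1 - num 2 * (var 0 * var 1) - var 0) * var 1) * (num 100 + num (-43) * (var 1) + num (-155) * (var 2))
  n₁ := ((num 1 - num 2 * (var 0 * var 1) - var 0) * var 1) * (num 87 * (var 1) + num 83 * (var 2))
  q₀ := (3, 4, 25)
  q₁ := (0, 1, 5)
  q₂ := (0, 3, 100)
  q₃ := (0, 1, 1)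
  t₀ := (0, 1)
  t₁ := (1, 1)
  mu₀ := (190, 100)
  mu₁ := (240, 100)

/-- The piece `D93`. -/
def pcD93 : Piece where
  I := var 0 * var 1
  d := var 0
  w := var 0 * var 2
  o := (((num 1 - num 2 * (var 0 * var 1) - var 0) * var 1) * (num 100 + num (-43) * (var 1) + num (-155) * (var 2)) + ((num 1 - num 2 * (var 0 * var 1) - var 0) * var 1) * (num 87 * (var 1) + num 83 * (var 2)) * var 3)
  den := num 100
  vn := num 2 * var 1 * ((num 100 + num (-43) * (var 1) + num (-155) * (var 2)) + (num 87 * (var 1) + num 83 * (var 2)) * var 3)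
  vs := num 1
  mu := ⟨(190, 100), (240, 100)⟩
  pn := fun b => cond b
    (num 100 * (num 100 - (((num 1 - num 2 * (var 0 * var 1) - var 0) * var 1) * (num 100 + num (-43) * (var 1) + num (-155) * (var 2)) + ((num 1 - num 2 * (var 0 * var 1) - var 0) * var 1) * (num 87 * (var 1) + num 83 * (var 2)) * var 3)) + num (-240) * ((((num 1 - num 2 * (var 0 * var 1) - var 0) * var 1) * (num 100 + num (-43) * (var 1) + num (-155) * (var 2)) + ((num 1 - num 2 * (var 0 * var 1) - var 0) * var 1) * (num 87 * (var 1) + num 83 * (var 2)) * var 3) * var 0 * var 2))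
    (num 100 * (num 100 - (((num 1 - num 2 * (var 0 * var 1) - var 0) * var 1) * (num 100 + num (-43) * (var 1) + num (-155) * (var 2)) + ((num 1 - num 2 * (var 0 * var 1) - var 0) * var 1) * (num 87 * (var 1) + num 83 * (var 2)) * var 3)) + num (-190) * ((((num 1 - num 2 * (var 0 * var 1) - var 0) * var 1) * (num 100 + num (-43) * (var 1) + num (-155) * (var 2)) + ((num 1 - num 2 * (var 0 * var 1) - var 0) * var 1) * (num 87 * (var 1) + num 83 * (var 2)) * var 3) * var 0 * var 2))
  pd := num 100
  en := fun b => cond b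
    (num 1051 * (num 1526 * (var 0) * (var 1) + num 171 * (var 0) * (var 0) * (var 1) + num 546 * (var 2) + num 2620 * (var 2) * (var 0) + num (-829) * (var 0) * (var 1) * (var 1)))
    (num 961 * (num 1526 * (var 0) * (var 1) + num 171 * (var 0) * (var 0) * (var 1) + num 546 * (var 2) + num 2620 * (var 2) * (var 0) + num (-829) * (var 0) * (var 1) * (var 1)))
  kk := fun b => cond b
    (num 1018 * (num 459 * (var 2) * (var 0) + num 3112 * (var 2) * (var 0) * (var 0) + num 490 * (var 2) * (var 0) * (var 1) + num 3 * (var 2) * (var 0) * (var 3)))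
    (num 980 * (num 459 * (var 2) * (var 0) + num 3112 * (var 2) * (var 0) * (var 0) + num 490 * (var 2) * (var 0) * (var 1) + num 3 * (var 2) * (var 0) * (var 3)))
  f0 := num 100000
  wn := fun b => cond b
    (num 1000 * (num (-800) * (var 0 * var 1) + (num 8 * (var 0 * var 1) + num 4 * var 0 * var 2) * (((num 1 - num 2 * (var 0 * var 1) - var 0) * var 1) * (num 100 + num (-43) * (var 1) + num (-155) * (var 2)) + ((num 1 - num 2 * (var 0 * var 1) - var 0) * var 1) * (num 87 * (var 1) + num 83 * (var 2)) * var 3) + var 0 * var 1 * var 0 * (num (-800) + (num 673 * (var 1) + num 823 * (var 2) + num (-2843) * (var 1) * (var 0) + num (-992) * (var 2) * (var 0) + num 270 * (var 1) * (var 3) + num (-9) * (var 2) * (var 3)))) + num 1979 * (num 100 * (var 0 * var 1 * var 0) * (num 1 * (var 1) + num 1 * (var 2))))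
    (num 1000 * (num (-800) * (var 0 * var 1) + (num 8 * (var 0 * var 1) + num 4 * var 0 * var 2) * (((num 1 - num 2 * (var 0 * var 1) - var 0) * var 1) * (num 100 + num (-43) * (var 1) + num (-155) * (var 2)) + ((num 1 - num 2 * (var 0 * var 1) - var 0) * var 1) * (num 87 * (var 1) + num 83 * (var 2)) * var 3) + var 0 * var 1 * var 0 * (num (-800) + (num 673 * (var 1) + num 823 * (var 2) + num (-2843) * (var 1) * (var 0) + num (-992) * (var 2) * (var 0) + num 270 * (var 1) * (var 3) + num (-9) * (var 2) * (var 3)))) + num (-1578) * (num 100 * (var 0 * var 1 * var 0) * (num 1 * (var 1) + num 1 * (var 2))))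
  wd := num 100000
  tn := fun b => cond b
    (num 1019 * (num 50 * (var 2) + num (-3) * (var 2) * (var 0) + num 53 * (var 2) * (var 1) + num 13 * (var 2) * (var 1) * (var 3)))
    (num 975 * (num 50 * (var 2) + num (-3) * (var 2) * (var 0) + num 53 * (var 2) * (var 1) + num 13 * (var 2) * (var 1) * (var 3)))
  td := num 100000
  cn := num 1 - var 0 * var 1 - var 1 * (num 1 - num 2 * (var 0 * var 1))
  cd := (num 1 - num 2 * (var 0 * var 1)) * (num 1 - num 2 * (var 0 * var 1))
  kn := var 0 * var 1 * (num 6111 * (var 1) + num 14256 * (var 2) + num (-11168) * (var 1) * (var 0) + num 81 * (var 1) * (var 1) + num (-17532) * (var 2) * (var 0) + num (-10878) * (var 2) * (var 3) + num 1137 * (var 1) * (var 3))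
  kd := num 100
  k2n := (num 1621 * (var 0) + num 724 * (var 0) * (var 3) + num 1519 * (var 0) * (var 1) + num (-167) * (var 1) + num 239 * (var 1) * (var 3) + num (-7313) * (var 0) * (var 2) + num (-945) * (var 1) * (var 1) + num (-4718) * (var 0) * (var 0))
  k2d := num 100

/-- Its ranges. -/
def bxD93 : StripEnd.EBox :=
  ⟨(3, 4, 25), (0, 1, 5), (0, 3, 100), (0, 1, 1)⟩

/-- The chart `D94`. -/
def chD94 : EndChart where
  I := var 0 * var 1
  d := var 0
  w := var 0 * var 2
  den := num 100
  n₀ := ((num 1 - num 2 * (var 0 * var 1) - var 0) * var 1) * (num 100 + num (-36) * (var 1) + num (-160) * (var 2))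
  n₁ := ((num 1 - num 2 * (var 0 * var 1) - var 0) * var 1) * (num 80 * (var 1) + num 85 * (var 2))
  q₀ := (4, 5, 25)
  q₁ := (0, 1, 5)
  q₂ := (0, 3, 100)
  q₃ := (0, 1, 1)
  t₀ := (0, 1)
  t₁ := (1, 1)
  mu₀ := (190, 100)
  mu₁ := (236, 100)

/-- The piece `D94`. -/
def pcD94 : Piece where
  I := var 0 * var 1
  d := var 0
  w := var 0 * var 2
  o := (((num 1 - num 2 * (var 0 * var 1) - var 0) * var 1) * (num 100 + num (-36) * (var 1) + num (-160) * (var 2)) + ((num 1 - num 2 * (var 0 * var 1) - var 0) * var 1) * (num 80 * (var 1) + num 85 * (var 2)) * var 3)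
  den := num 100
  vn := num 2 * var 1 * ((num 100 + num (-36) * (var 1) + num (-160) * (var 2)) + (num 80 * (var 1) + num 85 * (var 2)) * var 3)
  vs := num 1
  mu := ⟨(190, 100), (236, 100)⟩
  pn := fun b => cond b
    (num 100 * (num 100 - (((num 1 - num 2 * (var 0 * var 1) - var 0) * var 1) * (num 100 + num (-36) * (var 1) + num (-160) * (var 2)) + ((num 1 - num 2 * (var 0 * var 1) - var 0) * var 1) * (num 80 * (var 1) + num 85 * (var 2)) * var 3)) + num (-236) * ((((num 1 - num 2 * (var 0 * var 1) - var 0) * var 1) * (num 100 + num (-36) * (var 1) + num (-160) * (var 2)) + ((num 1 - num 2 * (var 0 * var 1) - var 0) * var 1) * (num 80 * (var 1) + num 85 * (var 2)) * var 3) * var 0 * var 2))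
    (num 100 * (num 100 - (((num 1 - num 2 * (var 0 * var 1) - var 0) * var 1) * (num 100 + num (-36) * (var 1) + num (-160) * (var 2)) + ((num 1 - num 2 * (var 0 * var 1) - var 0) * var 1) * (num 80 * (var 1) + num 85 * (var 2)) * var 3)) + num (-190) * ((((num 1 - num 2 * (var 0 * var 1) - var 0) * var 1) * (num 100 + num (-36) * (var 1) + num (-160) * (var 2)) + ((num 1 - num 2 * (var 0 * var 1) - var 0) * var 1) * (num 80 * (var 1) + num 85 * (var 2)) * var 3) * var 0 * var 2))
  pd := num 100
  en := fun b => cond b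
    (num 1052 * (num 1518 * (var 0) * (var 1) + num 42 * (var 0) * (var 0) * (var 1) + num 669 * (var 2) + num 1899 * (var 2) * (var 0) + num (-687) * (var 0) * (var 1) * (var 1)))
    (num 961 * (num 1518 * (var 0) * (var 1) + num 42 * (var 0) * (var 0) * (var 1) + num 669 * (var 2) + num 1899 * (var 2) * (var 0) + num (-687) * (var 0) * (var 1) * (var 1)))
  kk := fun b => cond b
    (num 1014 * (num 549 * (var 2) * (var 0) + num 2446 * (var 2) * (var 0) * (var 0) + num 680 * (var 2) * (var 0) * (var 1) + num 4 * (var 2) * (var 0) * (var 3)))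
    (num 980 * (num 549 * (var 2) * (var 0) + num 2446 * (var 2) * (var 0) * (var 0) + num 680 * (var 2) * (var 0) * (var 1) + num 4 * (var 2) * (var 0) * (var 3)))
  f0 := num 100000
  wn := fun b => cond b
    (num 1000 * (num (-800) * (var 0 * var 1) + (num 8 * (var 0 * var 1) + num 4 * var 0 * var 2) * (((num 1 - num 2 * (var 0 * var 1) - var 0) * var 1) * (num 100 + num (-36) * (var 1) + num (-160) * (var 2)) + ((num 1 - num 2 * (var 0 * var 1) - var 0) * var 1) * (num 80 * (var 1) + num 85 * (var 2)) * var 3) + var 0 * var 1 * var 0 * (num (-800) + (num 695 * (var 1) + num 831 * (var 2) + num (-2927) * (var 1) * (var 0) + num (-979) * (var 2) * (var 0) + num 257 * (var 1) * (var 3) + num (-11) * (var 2) * (var 3)))) + num 2104 * (num 100 * (var 0 * var 1 * var 0) * (num 1 * (var 1) + num 1 * (var 2))))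
    (num 1000 * (num (-800) * (var 0 * var 1) + (num 8 * (var 0 * var 1) + num 4 * var 0 * var 2) * (((num 1 - num 2 * (var 0 * var 1) - var 0) * var 1) * (num 100 + num (-36) * (var 1) + num (-160) * (var 2)) + ((num 1 - num 2 * (var 0 * var 1) - var 0) * var 1) * (num 80 * (var 1) + num 85 * (var 2)) * var 3) + var 0 * var 1 * var 0 * (num (-800) + (num 695 * (var 1) + num 831 * (var 2) + num (-2927) * (var 1) * (var 0) + num (-979) * (var 2) * (var 0) + num 257 * (var 1) * (var 3) + num (-11) * (var 2) * (var 3)))) + num (-1664) * (num 100 * (var 0 * var 1 * var 0) * (num 1 * (var 1) + num 1 * (var 2))))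
  wd := num 100000
  tn := fun b => cond b
    (num 1022 * (num 50 * (var 2) + num (-4) * (var 2) * (var 0) + num 53 * (var 2) * (var 1) + num 12 * (var 2) * (var 1) * (var 3)))
    (num 980 * (num 50 * (var 2) + num (-4) * (var 2) * (var 0) + num 53 * (var 2) * (var 1) + num 12 * (var 2) * (var 1) * (var 3)))
  td := num 100000
  cn := num 1 - var 0 * var 1 - var 1 * (num 1 - num 2 * (var 0 * var 1))
  cd := (num 1 - num 2 * (var 0 * var 1)) * (num 1 - num 2 * (var 0 * var 1))
  kn := var 0 * var 1 * (num (-615) * (var 1) + num 136 * (var 2) + num 3015 * (var 1) * (var 1) + num 4048 * (var 0) * (var 1) + num 63283 * (var 2) * (var 1) + num (-6) * (var 1) * (var 3) + num (-108) * (var 2) * (var 3) + num 78 * (var 2) * (var 0) + num 1626 * (var 1) * (var 1) * (var 3))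
  kd := num 100 * (num 10 * (var 0) * (var 1) + num 3 * (var 2) + num 55 * (var 1) * (var 2))
  k2n := var 0 * (num 3709 * (var 1) + num (-17982) * (var 2) + num (-2713) * (var 1) * (var 3) + num (-12548) * (var 0) * (var 1) + num 8361 * (var 1) * (var 2) + num (-1022) * (var 2) * (var 3) + num 956 * (var 1) * (var 1) + num 123913 * (var 0) * (var 2) + num 9471 * (var 0) * (var 1) * (var 3))
  k2d := num 100 * (num 10 * (var 0) * (var 1) + num 3 * (var 2) + num 55 * (var 1) * (var 2))

/-- Its ranges. -/
def bxD94 : StripEnd.EBox :=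
  ⟨(4, 5, 25), (0, 1, 5), (0, 3, 100), (0, 1, 1)⟩

/-- The chart `D95`. -/
def chD95 : EndChart where
  I := var 0 * var 1
  d := var 0
  w := var 0 * var 2
  den := num 100
  n₀ := ((num 1 - num 2 * (var 0 * var 1) - var 0) * var 1) * (num 100 + num (-29) * (var 1) + num (-147) * (var 2))
  n₁ := ((num 1 - num 2 * (var 0 * var 1) - var 0) * var 1) * (num 80 * (var 1) + num 77 * (var 2))
  q₀ := (8, 9, 40)
  q₁ := (0, 1, 4)
  q₂ := (0, 3, 100)
  q₃ := (0, 1, 1)
  t₀ := (0, 1)
  t₁ := (1, 1)
  mu₀ := (185, 100)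
  mu₁ := (253, 100)

/-- The piece `D95`. -/
def pcD95 : Piece where
  I := var 0 * var 1
  d := var 0
  w := var 0 * var 2
  o := (((num 1 - num 2 * (var 0 * var 1) - var 0) * var 1) * (num 100 + num (-29) * (var 1) + num (-147) * (var 2)) + ((num 1 - num 2 * (var 0 * var 1) - var 0) * var 1) * (num 80 * (var 1) + num 77 * (var 2)) * var 3)
  den := num 100
  vn := num 2 * var 1 * ((num 100 + num (-29) * (var 1) + num (-147) * (var 2)) + (num 80 * (var 1) + num 77 * (var 2)) * var 3)
  vs := num 1
  mu := ⟨(185, 100), (253, 100)⟩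
  pn := fun b => cond b
    (num 100 * (num 100 - (((num 1 - num 2 * (var 0 * var 1) - var 0) * var 1) * (num 100 + num (-29) * (var 1) + num (-147) * (var 2)) + ((num 1 - num 2 * (var 0 * var 1) - var 0) * var 1) * (num 80 * (var 1) + num 77 * (var 2)) * var 3)) + num (-253) * ((((num 1 - num 2 * (var 0 * var 1) - var 0) * var 1) * (num 100 + num (-29) * (var 1) + num (-147) * (var 2)) + ((num 1 - num 2 * (var 0 * var 1) - var 0) * var 1) * (num 80 * (var 1) + num 77 * (var 2)) * var 3) * var 0 * var 2))
    (num 100 * (num 100 - (((num 1 - num 2 * (var 0 * var 1) - var 0) * var 1) * (num 100 + num (-29) * (var 1) + num (-147) * (var 2)) + ((num 1 - num 2 * (var 0 * var 1) - var 0) * var 1) * (num 80 * (var 1) + num 77 * (var 2)) * var 3)) + num (-185) * ((((num 1 - num 2 * (var 0 * var 1) - var 0) * var 1) * (num 100 + num (-29) * (var 1) + num (-147) * (var 2)) + ((num 1 - num 2 * (var 0 * var 1) - var 0) * var 1) * (num 80 * (var 1) + num 77 * (var 2)) * var 3) * var 0 * var 2))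
  pd := num 100
  en := fun b => cond b
    (num 1059 * (num 1511 * (var 0) * (var 1) + num (-44) * (var 0) * (var 0) * (var 1) + num 782 * (var 2) + num 1363 * (var 2) * (var 0) + num (-576) * (var 0) * (var 1) * (var 1)))
    (num 945 * (num 1511 * (var 0) * (var 1) + num (-44) * (var 0) * (var 0) * (var 1) + num 782 * (var 2) + num 1363 * (var 2) * (var 0) + num (-576) * (var 0) * (var 1) * (var 1)))
  kk := fun b => cond b
    (num 1015 * (num 627 * (var 2) * (var 0) + num 1992 * (var 2) * (var 0) * (var 0) + num 823 * (var 2) * (var 0) * (var 1) + num 5 * (var 2) * (var 0) * (var 3)))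
    (num 972 * (num 627 * (var 2) * (var 0) + num 1992 * (var 2) * (var 0) * (var 0) + num 823 * (var 2) * (var 0) * (var 1) + num 5 * (var 2) * (var 0) * (var 3)))
  f0 := num 100000
  wn := fun b => cond b
    (num 1000 * (num (-800) * (var 0 * var 1) + (num 8 * (var 0 * var 1) + num 4 * var 0 * var 2) * (((num 1 - num 2 * (var 0 * var 1) - var 0) * var 1) * (num 100 + num (-29) * (var 1) + num (-147) * (var 2)) + ((num 1 - num 2 * (var 0 * var 1) - var 0) * var 1) * (num 80 * (var 1) + num 77 * (var 2)) * var 3) + var 0 * var 1 * var 0 * (num (-800) + (num 555 * (var 1) + num 906 * (var 2) + num (-2195) * (var 1) * (var 0) + num (-1271) * (var 2) * (var 0) + num 260 * (var 1) * (var 3) + num (-15) * (var 2) * (var 3)))) + num 2040 * (num 100 * (var 0 * var 1 * var 0) * (num 1 * (var 1) + num 1 * (var 2))))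
    (num 1000 * (num (-800) * (var 0 * var 1) + (num 8 * (var 0 * var 1) + num 4 * var 0 * var 2) * (((num 1 - num 2 * (var 0 * var 1) - var 0) * var 1) * (num 100 + num (-29) * (var 1) + num (-147) * (var 2)) + ((num 1 - num 2 * (var 0 * var 1) - var 0) * var 1) * (num 80 * (var 1) + num 77 * (var 2)) * var 3) + var 0 * var 1 * var 0 * (num (-800) + (num 555 * (var 1) + num 906 * (var 2) + num (-2195) * (var 1) * (var 0) + num (-1271) * (var 2) * (var 0) + num 260 * (var 1) * (var 3) + num (-15) * (var 2) * (var 3)))) + num (-2442) * (num 100 * (var 0 * var 1 * var 0) * (num 1 * (var 1) + num 1 * (var 2))))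
  wd := num 100000
  tn := fun b => cond b
    (num 1025 * (num 51 * (var 2) + num (-6) * (var 2) * (var 0) + num 52 * (var 2) * (var 1) + num 13 * (var 2) * (var 1) * (var 3)))
    (num 969 * (num 51 * (var 2) + num (-6) * (var 2) * (var 0) + num 52 * (var 2) * (var 1) + num 13 * (var 2) * (var 1) * (var 3)))
  td := num 100000
  cn := num 1 - var 0 * var 1 - var 1 * (num 1 - num 2 * (var 0 * var 1))
  cd := (num 1 - num 2 * (var 0 * var 1)) * (num 1 - num 2 * (var 0 * var 1))
  kn := var 0 * var 1 * (num (-693) * (var 1) + num 283 * (var 2) + num 3283 * (var 1) * (var 1) + num 3936 * (var 0) * (var 1) + num 75884 * (var 2) * (var 1) + num (-13) * (var 1) * (var 3) + num (-102) * (var 2) * (var 3) + num (-309) * (var 2) * (var 0) + num 3157 * (var 1) * (var 1) * (var 3))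
  kd := num 100 * (num 10 * (var 0) * (var 1) + num 3 * (var 2) + num 55 * (var 1) * (var 2))
  k2n := var 0 * (num 490 * (var 1) + num 3139 * (var 2) + num 454 * (var 1) * (var 3) + num 2642 * (var 0) * (var 1) + num (-107) * (var 1) * (var 2) + num (-2844) * (var 2) * (var 3) + num (-1653) * (var 1) * (var 1) + num 2151 * (var 0) * (var 2) + num (-2763) * (var 0) * (var 1) * (var 3))
  k2d := num 100 * (num 10 * (var 0) * (var 1) + num 3 * (var 2) + num 55 * (var 1) * (var 2))

/-- Its ranges. -/
def bxD95 : StripEnd.EBox :=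
  ⟨(8, 9, 40), (0, 1, 4), (0, 3, 100), (0, 1, 1)⟩

end Vale.Agent.P100.Calib.StripEndD
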