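import Vale.Agent.P100.Calib.SlabStripEndDSide
import Vale.Agent.P100.Calib.SlabStripEndBigSgn
import Vale.Agent.P100.Calib.SlabStripEndDDataD

/-!
# The checks of the bins `D83` of the strip for `u` near one, `d` large
-/

namespace Vale.Agent.P100.Calib.StripEndD

open Pack hiding ev_add ev_mul
open Pack.Ex StripMid StripEnd

local instance endDCheck43Add : Add Ex := ⟨Ex.add⟩
local instance endDCheck43Sub : Sub Ex := ⟨Ex.sub⟩
local instance endDCheck43Mul : Mul Ex := ⟨Ex.mul⟩

/-- The checks of `D83`. -/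
theorem certD83 : Cert pcD83 bxD83 := by
  have h_g1 : ∀ s p l : Bool,
      checkFour bxD83.C 213 8 13 6 5
        (pcD83.at ⟨p, l, !s, !s, false⟩ (c1 s)) = true := by
    decide +kernel
  have h_g2F : ∀ s l t : Bool,
      checkSgn bxD83.C 513 21 31 10 10
        (pcD83.at ⟨false, l, true, true, t⟩ (StripEnd.strict (c2 s))) = true := by
    decide +kernel
  have h_g2T : ∀ s l t : Bool,
      checkSgn bxD83.C 513 21 31 10 10
        (pcD83.at ⟨true, l, true, true, t⟩ (StripEnd.strict (c2 s))) = true := by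
    decide +kernel
  have h_g2 : ∀ s p l t : Bool,
      checkSgn bxD83.C 513 21 31 10 10
        (pcD83.at ⟨p, l, true, true, t⟩ (StripEnd.strict (c2 s))) = true := by
    intro s p
    cases p
    exacts [h_g2F s, h_g2T s]
  have h_g5F : ∀ s l t : Bool,
      checkSgn bxD83.C 539 21 31 11 9
        (pcD83.at ⟨false, l, true, true, t⟩ (StripEnd.strict (c5 s))) = true := by
    decide +kernel
  have h_g5T : ∀ s l t : Bool,
      checkSgn bxD83.C 539 21 31 11 9
        (pcD83.at ⟨true, l, true, true, t⟩ (StripEnd.strict (c5 s))) = true := by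
    decide +kernel
  have h_g5 : ∀ s p l t : Bool,
      checkSgn bxD83.C 539 21 31 11 9
        (pcD83.at ⟨p, l, true, true, t⟩ (StripEnd.strict (c5 s))) = true := by
    intro s p
    cases p
    exacts [h_g5F s, h_g5T s]
  have h_gMG : ∀ p l t : Bool,
      checkSgn bxD83.C 392 17 27 8 8
        (pcD83.at ⟨p, l, true, false, t⟩ tplMG) = true := by
    decide +kernel
  have h_v2 : ∀ s : Bool,
      checkFour bxD83.C 141 6 10 5 4
        (pcD83.at ⟨false, false, true, true, false⟩ (curve2 s)) = true := by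
    decide +kernel
  have h_v5 : ∀ s : Bool,
      checkFour bxD83.C 145 7 10 5 4
        (pcD83.at ⟨false, false, true, true, false⟩ (curve5 s)) = true := by
    decide +kernel
  have h_wP : ∀ b hi : Bool,
      checkFour bxD83.C 59 2 3 2 1
        (pcD83.winP b hi) = true := by
    decide +kernel
  have h_wE : ∀ b hi : Bool,
      checkFour bxD83.C 189 11 14 4 3
        (pcD83.winE b hi) = true := by
    decide +kernel
  have h_wK : ∀ b hi : Bool,
      checkFour bxD83.C 176 12 12 4 3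
        (pcD83.winK b hi) = true := by
    decide +kernel
  have h_wW : ∀ b : Bool,
      checkFour bxD83.C 164 8 10 5 3
        (pcD83.winW b) = true := by
    decide +kernel
  have h_wY : ∀ b : Bool,
      checkFour bxD83.C 316 17 21 8 6
        (pcD83.winY b) = true := by
    decide +kernel
  have h_wT : ∀ b hi : Bool,
      checkFour bxD83.C 153 7 9 5 4
        (pcD83.winT b hi) = true := by
    decide +kernel
  have h_gap : ∀ b t : Bool,
      checkSgn bxD83.C 357 22 27 8 6
        (pcD83.gap b t) = true := by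
    decide +kernel
  exact {
    pos := ⟨by norm_num [pcD83], by norm_num [pcD83]⟩
    low := ⟨by norm_num [bxD83], by norm_num [bxD83], by norm_num [bxD83]⟩
    sgns := fun f => by
      cases f
      case I => exact ⟨123, 3, 3, 3, 0, by decide +kernel⟩
      case d => exact ⟨124, 3, 3, 3, 0, by decide +kernel⟩
      case A => exact ⟨129, 3, 3, 3, 0, by decide +kernel⟩
      case S => exact ⟨129, 3, 3, 3, 0, by decide +kernel⟩
      case U => exact ⟨129, 3, 3, 3, 0, by decide +kernel⟩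
      case den => exact ⟨136, 3, 3, 3, 0, by decide +kernel⟩
      case o => exact ⟨136, 3, 3, 3, 1, by decide +kernel⟩
      case olt => exact ⟨138, 3, 3, 3, 1, by decide +kernel⟩
      case pd => exact ⟨136, 3, 3, 3, 0, by decide +kernel⟩
      case e0 => exact ⟨144, 3, 3, 3, 0, by decide +kernel⟩
      case f0 => exact ⟨146, 3, 3, 3, 0, by decide +kernel⟩
      case wd => exact ⟨146, 3, 3, 3, 0, by decide +kernel⟩
      case td => exact ⟨146, 3, 3, 3, 0, by decide +kernel⟩
      case cd => exact ⟨129, 3, 3, 3, 0, by decide +kernel⟩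
      case kd => exact ⟨132, 3, 3, 3, 0, by decide +kernel⟩
    kn := ⟨33, 2, 3, 1, 1, by decide +kernel⟩
    k2n := ⟨134, 3, 3, 3, 1, by decide +kernel⟩
    k2d := ⟨132, 3, 3, 3, 0, by decide +kernel⟩
    vs := ⟨129, 3, 3, 3, 0, by decide +kernel⟩
    vMG := ⟨117, 5, 8, 4, 4, by decide +kernel⟩
    g1 := fun s p l => ⟨213, 8, 13, 6, 5, h_g1 s p l⟩
    g2 := fun s p l t => ⟨513, 21, 31, 10, 10, checkFour_of_sgn (h_g2 s p l t)⟩
    g5 := fun s p l t => ⟨539, 21, 31, 11, 9, checkFour_of_sgn (h_g5 s p l t)⟩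
    gMG := fun p l t => ⟨392, 17, 27, 8, 8, checkFour_of_sgn (h_gMG p l t)⟩
    v2 := fun s => ⟨141, 6, 10, 5, 4, h_v2 s⟩
    v5 := fun s => ⟨145, 7, 10, 5, 4, h_v5 s⟩
    wP := fun b hi => ⟨59, 2, 3, 2, 1, h_wP b hi⟩
    wE := fun b hi => ⟨189, 11, 14, 4, 3, h_wE b hi⟩
    wK := fun b hi => ⟨176, 12, 12, 4, 3, h_wK b hi⟩
    wW := fun b => ⟨164, 8, 10, 5, 3, h_wW b⟩
    wY := fun b => ⟨316, 17, 21, 8, 6, h_wY b⟩
    wT := fun b hi => ⟨153, 7, 9, 5, 4, h_wT b hi⟩
    gap := fun b t => ⟨357, 22, 27, 8, 6, checkFour_of_sgn (h_gap b t)⟩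
  }

/-- The window of `D83`. -/
theorem okD83 : chD83.Cert where
  flat := ⟨fun _ _ _ _ => rfl, fun _ _ _ _ => rfl, fun _ _ _ _ => rfl, fun _ _ _ _ => rfl,
    fun _ _ _ _ => rfl, fun _ _ _ _ => rfl⟩
  fits := ⟨by norm_num [chD83], by norm_num [chD83], by norm_num [chD83],
    by norm_num [chD83]⟩
  left := ⟨191, 13, 15, 6, 3, by decide +kernel⟩
  right := ⟨184, 12, 13, 6, 3, by decide +kernel⟩
  up := ⟨212, 13, 16, 6, 4, by decide +kernel⟩
  down := ⟨217, 13, 15, 7, 4, by decide +kernel⟩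

/-- The bin `D83`. -/
theorem binD83 : SideBin chD83 pcD83 bxD83 :=
  ⟨⟨⟨fun _ => rfl, fun _ => rfl, fun _ => rfl, fun _ => rfl, fun _ => rfl, fun x => by
      simp only [pcD83, Piece.A, Piece.S, ev_add, ev_sub, ev_mul, Ex.eval]; push_cast; ring,
      rfl, rfl⟩,
      ⟨rfl, rfl, rfl, rfl⟩, rfl, rfl, rfl, rfl, by norm_num [chD83], rfl, rfl, rfl, rfl⟩,
    okD83, certD83⟩

end Vale.Agent.P100.Calib.StripEndD
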