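import Vale.Agent.P100.Calib.SlabStripEndDSide
import Vale.Agent.P100.Calib.SlabStripEndBigSgn
import Vale.Agent.P100.Calib.SlabStripEndDDataD

/-!
# The checks of the bins `D86` of the strip for `u` near one, `d` large
-/

namespace Vale.Agent.P100.Calib.StripEndD

open Pack hiding ev_add ev_mul
open Pack.Ex StripMid StripEnd

local instance endDCheck46Add : Add Ex := ⟨Ex.add⟩
local instance endDCheck46Sub : Sub Ex := ⟨Ex.sub⟩
local instance endDCheck46Mul : Mul Ex := ⟨Ex.mul⟩

/-- The checks of `D86`. -/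
theorem certD86 : Cert pcD86 bxD86 := by
  have h_g1 : ∀ s p l : Bool,
      checkFour bxD86.C 232 7 12 5 5
        (pcD86.at ⟨p, l, !s, !s, false⟩ (c1 s)) = true := by
    decide +kernel
  have h_g2F : ∀ s l t : Bool,
      checkSgn bxD86.C 606 21 31 10 10
        (pcD86.at ⟨false, l, true, true, t⟩ (StripEnd.strict (c2 s))) = true := by
    decide +kernel
  have h_g2T : ∀ s l t : Bool,
      checkSgn bxD86.C 606 21 31 10 10
        (pcD86.at ⟨true, l, true, true, t⟩ (StripEnd.strict (c2 s))) = true := by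
    decide +kernel
  have h_g2 : ∀ s p l t : Bool,
      checkSgn bxD86.C 606 21 31 10 10
        (pcD86.at ⟨p, l, true, true, t⟩ (StripEnd.strict (c2 s))) = true := by
    intro s p
    cases p
    exacts [h_g2F s, h_g2T s]
  have h_g5F : ∀ s l t : Bool,
      checkSgn bxD86.C 597 19 28 9 9
        (pcD86.at ⟨false, l, true, true, t⟩ (StripEnd.strict (c5 s))) = true := by
    decide +kernel
  have h_g5T : ∀ s l t : Bool,
      checkSgn bxD86.C 597 19 28 9 9
        (pcD86.at ⟨true, l, true, true, t⟩ (StripEnd.strict (c5 s))) = true := by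
    decide +kernel
  have h_g5 : ∀ s p l t : Bool,
      checkSgn bxD86.C 597 19 28 9 9
        (pcD86.at ⟨p, l, true, true, t⟩ (StripEnd.strict (c5 s))) = true := by
    intro s p
    cases p
    exacts [h_g5F s, h_g5T s]
  have h_gMG : ∀ p l t : Bool,
      checkSgn bxD86.C 466 17 27 8 8
        (pcD86.at ⟨p, l, true, false, t⟩ tplMG) = true := by
    decide +kernel
  have h_v2 : ∀ s : Bool,
      checkFour bxD86.C 162 6 9 4 4
        (pcD86.at ⟨false, false, true, true, false⟩ (curve2 s)) = true := by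
    decide +kernel
  have h_v5 : ∀ s : Bool,
      checkFour bxD86.C 159 6 9 4 4
        (pcD86.at ⟨false, false, true, true, false⟩ (curve5 s)) = true := by
    decide +kernel
  have h_wP : ∀ b hi : Bool,
      checkFour bxD86.C 67 2 3 2 1
        (pcD86.winP b hi) = true := by
    decide +kernel
  have h_wE : ∀ b hi : Bool,
      checkFour bxD86.C 233 11 14 4 3
        (pcD86.winE b hi) = true := by
    decide +kernel
  have h_wK : ∀ b hi : Bool,
      checkFour bxD86.C 222 12 12 4 3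
        (pcD86.winK b hi) = true := by
    decide +kernel
  have h_wW : ∀ b : Bool,
      checkFour bxD86.C 196 8 10 5 3
        (pcD86.winW b) = true := by
    decide +kernel
  have h_wY : ∀ b : Bool,
      checkFour bxD86.C 384 17 21 8 6
        (pcD86.winY b) = true := by
    decide +kernel
  have h_wT : ∀ b hi : Bool,
      checkFour bxD86.C 182 7 9 5 4
        (pcD86.winT b hi) = true := by
    decide +kernel
  have h_gap : ∀ b t : Bool,
      checkSgn bxD86.C 445 22 27 8 6
        (pcD86.gap b t) = true := by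
    decide +kernel
  exact {
    pos := ⟨by norm_num [pcD86], by norm_num [pcD86]⟩
    low := ⟨by norm_num [bxD86], by norm_num [bxD86], by norm_num [bxD86]⟩
    sgns := fun f => by
      cases f
      case I => exact ⟨134, 3, 3, 3, 0, by decide +kernel⟩
      case d => exact ⟨137, 3, 3, 3, 0, by decide +kernel⟩
      case A => exact ⟨140, 3, 3, 3, 0, by decide +kernel⟩
      case S => exact ⟨140, 3, 3, 3, 0, by decide +kernel⟩
      case U => exact ⟨140, 3, 3, 3, 0, by decide +kernel⟩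
      case den => exact ⟨147, 3, 3, 3, 0, by decide +kernel⟩
      case o => exact ⟨146, 3, 3, 3, 1, by decide +kernel⟩
      case olt => exact ⟨148, 3, 3, 3, 1, by decide +kernel⟩
      case pd => exact ⟨147, 3, 3, 3, 0, by decide +kernel⟩
      case e0 => exact ⟨155, 3, 3, 3, 0, by decide +kernel⟩
      case f0 => exact ⟨157, 3, 3, 3, 0, by decide +kernel⟩
      case wd => exact ⟨157, 3, 3, 3, 0, by decide +kernel⟩
      case td => exact ⟨157, 3, 3, 3, 0, by decide +kernel⟩
      case cd => exact ⟨140, 3, 3, 3, 0, by decide +kernel⟩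
      case kd => exact ⟨147, 3, 3, 3, 0, by decide +kernel⟩
    kn := ⟨43, 2, 3, 1, 1, by decide +kernel⟩
    k2n := ⟨150, 3, 3, 3, 1, by decide +kernel⟩
    k2d := ⟨147, 3, 3, 3, 0, by decide +kernel⟩
    vs := ⟨140, 3, 3, 3, 0, by decide +kernel⟩
    vMG := ⟨140, 5, 8, 4, 4, by decide +kernel⟩
    g1 := fun s p l => ⟨232, 7, 12, 5, 5, h_g1 s p l⟩
    g2 := fun s p l t => ⟨606, 21, 31, 10, 10, checkFour_of_sgn (h_g2 s p l t)⟩
    g5 := fun s p l t => ⟨597, 19, 28, 9, 9, checkFour_of_sgn (h_g5 s p l t)⟩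
    gMG := fun p l t => ⟨466, 17, 27, 8, 8, checkFour_of_sgn (h_gMG p l t)⟩
    v2 := fun s => ⟨162, 6, 9, 4, 4, h_v2 s⟩
    v5 := fun s => ⟨159, 6, 9, 4, 4, h_v5 s⟩
    wP := fun b hi => ⟨67, 2, 3, 2, 1, h_wP b hi⟩
    wE := fun b hi => ⟨233, 11, 14, 4, 3, h_wE b hi⟩
    wK := fun b hi => ⟨222, 12, 12, 4, 3, h_wK b hi⟩
    wW := fun b => ⟨196, 8, 10, 5, 3, h_wW b⟩
    wY := fun b => ⟨384, 17, 21, 8, 6, h_wY b⟩
    wT := fun b hi => ⟨182, 7, 9, 5, 4, h_wT b hi⟩
    gap := fun b t => ⟨445, 22, 27, 8, 6, checkFour_of_sgn (h_gap b t)⟩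
  }

/-- The window of `D86`. -/
theorem okD86 : chD86.Cert where
  flat := ⟨fun _ _ _ _ => rfl, fun _ _ _ _ => rfl, fun _ _ _ _ => rfl, fun _ _ _ _ => rfl,
    fun _ _ _ _ => rfl, fun _ _ _ _ => rfl⟩
  fits := ⟨by norm_num [chD86], by norm_num [chD86], by norm_num [chD86],
    by norm_num [chD86]⟩
  left := ⟨243, 13, 15, 6, 3, by decide +kernel⟩
  right := ⟨229, 12, 13, 6, 3, by decide +kernel⟩
  up := ⟨264, 13, 16, 6, 4, by decide +kernel⟩
  down := ⟨267, 13, 15, 7, 4, by decide +kernel⟩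

/-- The bin `D86`. -/
theorem binD86 : SideBin chD86 pcD86 bxD86 :=
  ⟨⟨⟨fun _ => rfl, fun _ => rfl, fun _ => rfl, fun _ => rfl, fun _ => rfl, fun x => by
      simp only [pcD86, Piece.A, Piece.S, ev_add, ev_sub, ev_mul, Ex.eval]; push_cast; ring,
      rfl, rfl⟩,
      ⟨rfl, rfl, rfl, rfl⟩, rfl, rfl, rfl, rfl, by norm_num [chD86], rfl, rfl, rfl, rfl⟩,
    okD86, certD86⟩

end Vale.Agent.P100.Calib.StripEndD
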