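import Vale.Agent.P100.Calib.SlabStripEndDSide
import Vale.Agent.P100.Calib.SlabStripEndBigSgn
import Vale.Agent.P100.Calib.SlabStripEndDDataD

/-!
# The checks of the bins `D89` of the strip for `u` near one, `d` large
-/

namespace Vale.Agent.P100.Calib.StripEndD

open Pack hiding ev_add ev_mul
open Pack.Ex StripMid StripEnd

local instance endDCheck49Add : Add Ex := ⟨Ex.add⟩
local instance endDCheck49Sub : Sub Ex := ⟨Ex.sub⟩
local instance endDCheck49Mul : Mul Ex := ⟨Ex.mul⟩

/-- The checks of `D89`. -/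
theorem certD89 : Cert pcD89 bxD89 := by
  have h_g1 : ∀ s p l : Bool,
      checkFour bxD89.C 255 8 13 6 5
        (pcD89.at ⟨p, l, !s, !s, false⟩ (c1 s)) = true := by
    decide +kernel
  have h_g2F : ∀ s l t : Bool,
      checkSgn bxD89.C 608 21 31 10 10
        (pcD89.at ⟨false, l, true, true, t⟩ (StripEnd.strict (c2 s))) = true := by
    decide +kernel
  have h_g2T : ∀ s l t : Bool,
      checkSgn bxD89.C 608 21 31 10 10
        (pcD89.at ⟨true, l, true, true, t⟩ (StripEnd.strict (c2 s))) = true := by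
    decide +kernel
  have h_g2 : ∀ s p l t : Bool,
      checkSgn bxD89.C 608 21 31 10 10
        (pcD89.at ⟨p, l, true, true, t⟩ (StripEnd.strict (c2 s))) = true := by
    intro s p
    cases p
    exacts [h_g2F s, h_g2T s]
  have h_g5FF : ∀ s t : Bool,
      checkSgn bxD89.C 643 21 31 11 9
        (pcD89.at ⟨false, false, true, true, t⟩ (StripEnd.strict (c5 s))) = true := by
    decide +kernel
  have h_g5FT : ∀ s t : Bool,
      checkSgn bxD89.C 643 21 31 11 9
        (pcD89.at ⟨false, true, true, true, t⟩ (StripEnd.strict (c5 s))) = true := by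
    decide +kernel
  have h_g5TF : ∀ s t : Bool,
      checkSgn bxD89.C 643 21 31 11 9
        (pcD89.at ⟨true, false, true, true, t⟩ (StripEnd.strict (c5 s))) = true := by
    decide +kernel
  have h_g5TT : ∀ s t : Bool,
      checkSgn bxD89.C 643 21 31 11 9
        (pcD89.at ⟨true, true, true, true, t⟩ (StripEnd.strict (c5 s))) = true := by
    decide +kernel
  have h_g5 : ∀ s p l t : Bool,
      checkSgn bxD89.C 643 21 31 11 9
        (pcD89.at ⟨p, l, true, true, t⟩ (StripEnd.strict (c5 s))) = true := by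
    intro s p l
    rcases p with _ | _ <;> rcases l with _ | _
    exacts [h_g5FF s, h_g5FT s, h_g5TF s, h_g5TT s]
  have h_gMG : ∀ p l t : Bool,
      checkSgn bxD89.C 469 17 27 8 8
        (pcD89.at ⟨p, l, true, false, t⟩ tplMG) = true := by
    decide +kernel
  have h_v2 : ∀ s : Bool,
      checkFour bxD89.C 171 6 10 5 4
        (pcD89.at ⟨false, false, true, true, false⟩ (curve2 s)) = true := by
    decide +kernel
  have h_v5 : ∀ s : Bool,
      checkFour bxD89.C 179 7 10 5 4
        (pcD89.at ⟨false, false, true, true, false⟩ (curve5 s)) = true := by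
    decide +kernel
  have h_wP : ∀ b hi : Bool,
      checkFour bxD89.C 68 2 3 2 1
        (pcD89.winP b hi) = true := by
    decide +kernel
  have h_wE : ∀ b hi : Bool,
      checkFour bxD89.C 233 11 14 4 3
        (pcD89.winE b hi) = true := by
    decide +kernel
  have h_wK : ∀ b hi : Bool,
      checkFour bxD89.C 222 12 12 4 3
        (pcD89.winK b hi) = true := by
    decide +kernel
  have h_wW : ∀ b : Bool,
      checkFour bxD89.C 197 8 10 5 3
        (pcD89.winW b) = true := by
    decide +kernel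
  have h_wY : ∀ b : Bool,
      checkFour bxD89.C 386 17 21 8 6
        (pcD89.winY b) = true := by
    decide +kernel
  have h_wT : ∀ b hi : Bool,
      checkFour bxD89.C 182 7 9 5 4
        (pcD89.winT b hi) = true := by
    decide +kernel
  have h_gap : ∀ b t : Bool,
      checkSgn bxD89.C 446 22 27 8 6
        (pcD89.gap b t) = true := by
    decide +kernel
  exact {
    pos := ⟨by norm_num [pcD89], by norm_num [pcD89]⟩
    low := ⟨by norm_num [bxD89], by norm_num [bxD89], by norm_num [bxD89]⟩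
    sgns := fun f => by
      cases f
      case I => exact ⟨136, 3, 3, 3, 0, by decide +kernel⟩
      case d => exact ⟨136, 3, 3, 3, 0, by decide +kernel⟩
      case A => exact ⟨141, 3, 3, 3, 0, by decide +kernel⟩
      case S => exact ⟨140, 3, 3, 3, 0, by decide +kernel⟩
      case U => exact ⟨140, 3, 3, 3, 0, by decide +kernel⟩
      case den => exact ⟨147, 3, 3, 3, 0, by decide +kernel⟩
      case o => exact ⟨148, 3, 3, 3, 1, by decide +kernel⟩
      case olt => exact ⟨149, 3, 3, 3, 1, by decide +kernel⟩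
      case pd => exact ⟨147, 3, 3, 3, 0, by decide +kernel⟩
      case e0 => exact ⟨156, 3, 3, 3, 0, by decide +kernel⟩
      case f0 => exact ⟨157, 3, 3, 3, 0, by decide +kernel⟩
      case wd => exact ⟨157, 3, 3, 3, 0, by decide +kernel⟩
      case td => exact ⟨157, 3, 3, 3, 0, by decide +kernel⟩
      case cd => exact ⟨141, 3, 3, 3, 0, by decide +kernel⟩
      case kd => exact ⟨147, 3, 3, 3, 0, by decide +kernel⟩
    kn := ⟨48, 2, 3, 1, 1, by decide +kernel⟩
    k2n := ⟨147, 3, 3, 3, 1, by decide +kernel⟩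
    k2d := ⟨147, 3, 3, 3, 0, by decide +kernel⟩
    vs := ⟨140, 3, 3, 3, 0, by decide +kernel⟩
    vMG := ⟨140, 5, 8, 4, 4, by decide +kernel⟩
    g1 := fun s p l => ⟨255, 8, 13, 6, 5, h_g1 s p l⟩
    g2 := fun s p l t => ⟨608, 21, 31, 10, 10, checkFour_of_sgn (h_g2 s p l t)⟩
    g5 := fun s p l t => ⟨643, 21, 31, 11, 9, checkFour_of_sgn (h_g5 s p l t)⟩
    gMG := fun p l t => ⟨469, 17, 27, 8, 8, checkFour_of_sgn (h_gMG p l t)⟩
    v2 := fun s => ⟨171, 6, 10, 5, 4, h_v2 s⟩
    v5 := fun s => ⟨179, 7, 10, 5, 4, h_v5 s⟩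
    wP := fun b hi => ⟨68, 2, 3, 2, 1, h_wP b hi⟩
    wE := fun b hi => ⟨233, 11, 14, 4, 3, h_wE b hi⟩
    wK := fun b hi => ⟨222, 12, 12, 4, 3, h_wK b hi⟩
    wW := fun b => ⟨197, 8, 10, 5, 3, h_wW b⟩
    wY := fun b => ⟨386, 17, 21, 8, 6, h_wY b⟩
    wT := fun b hi => ⟨182, 7, 9, 5, 4, h_wT b hi⟩
    gap := fun b t => ⟨446, 22, 27, 8, 6, checkFour_of_sgn (h_gap b t)⟩
  }

/-- The window of `D89`. -/
theorem okD89 : chD89.Cert where
  flat := ⟨fun _ _ _ _ => rfl, fun _ _ _ _ => rfl, fun _ _ _ _ => rfl, fun _ _ _ _ => rfl,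
    fun _ _ _ _ => rfl, fun _ _ _ _ => rfl⟩
  fits := ⟨by norm_num [chD89], by norm_num [chD89], by norm_num [chD89],
    by norm_num [chD89]⟩
  left := ⟨244, 13, 15, 6, 3, by decide +kernel⟩
  right := ⟨230, 12, 13, 6, 3, by decide +kernel⟩
  up := ⟨265, 13, 16, 6, 4, by decide +kernel⟩
  down := ⟨268, 13, 15, 7, 4, by decide +kernel⟩

/-- The bin `D89`. -/
theorem binD89 : SideBin chD89 pcD89 bxD89 :=
  ⟨⟨⟨fun _ => rfl, fun _ => rfl, fun _ => rfl, fun _ => rfl, fun _ => rfl, fun x => by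
      simp only [pcD89, Piece.A, Piece.S, ev_add, ev_sub, ev_mul, Ex.eval]; push_cast; ring,
      rfl, rfl⟩,
      ⟨rfl, rfl, rfl, rfl⟩, rfl, rfl, rfl, rfl, by norm_num [chD89], rfl, rfl, rfl, rfl⟩,
    okD89, certD89⟩

end Vale.Agent.P100.Calib.StripEndD
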