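import Vale.Agent.P100.Calib.SlabStripEndDShift
import Vale.Agent.P100.Calib.SlabStripEndChart

/-!
# The bins `D96` to `D105` of the strip for `u` near one, `d` large
-/

namespace Vale.Agent.P100.Calib.StripEndD

open Pack hiding ev_add ev_mul
open Pack.Ex StripMid StripEnd

local instance endDDataEAdd : Add Ex := ⟨Ex.add⟩
local instance endDDataESub : Sub Ex := ⟨Ex.sub⟩
local instance endDDataEMul : Mul Ex := ⟨Ex.mul⟩

/-- The chart `D96`. -/
def chD96 : EndChart where
  I := var 0 * var 1
  d := var 0
  w := var 0 * var 2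
  den := num 100
  n₀ := ((num 1 - num 2 * (var 0 * var 1) - var 0) * var 1) * (num 100 + num (-24) * (var 1) + num (-145) * (var 2))
  n₁ := ((num 1 - num 2 * (var 0 * var 1) - var 0) * var 1) * (num 81 * (var 1) + num 75 * (var 2))
  q₀ := (9, 10, 40)
  q₁ := (0, 2, 9)
  q₂ := (0, 1, 100)
  q₃ := (0, 1, 1)
  t₀ := (0, 1)
  t₁ := (1, 1)
  mu₀ := (190, 100)
  mu₁ := (256, 100)

/-- The piece `D96`. -/
def pcD96 : Piece where
  I := var 0 * var 1
  d := var 0
  w := var 0 * var 2
  o := (((num 1 - num 2 * (var 0 * var 1) - var 0) * var 1) * (num 100 + num (-24) * (var 1) + num (-145) * (var 2)) + ((num 1 - num 2 * (var 0 * var 1) - var 0) * var 1) * (num 81 * (var 1) + num 75 * (var 2)) * var 3)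
  den := num 100
  vn := num 2 * var 1 * ((num 100 + num (-24) * (var 1) + num (-145) * (var 2)) + (num 81 * (var 1) + num 75 * (var 2)) * var 3)
  vs := num 1
  mu := ⟨(190, 100), (256, 100)⟩
  pn := fun b => cond b
    (num 100 * (num 100 - (((num 1 - num 2 * (var 0 * var 1) - var 0) * var 1) * (num 100 + num (-24) * (var 1) + num (-145) * (var 2)) + ((num 1 - num 2 * (var 0 * var 1) - var 0) * var 1) * (num 81 * (var 1) + num 75 * (var 2)) * var 3)) + num (-256) * ((((num 1 - num 2 * (var 0 * var 1) - var 0) * var 1) * (num 100 + num (-24) * (var 1) + num (-145) * (var 2)) + ((num 1 - num 2 * (var 0 * var 1) - var 0) * var 1) * (num 81 * (var 1) + num 75 * (var 2)) * var 3) * var 0 * var 2))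
    (num 100 * (num 100 - (((num 1 - num 2 * (var 0 * var 1) - var 0) * var 1) * (num 100 + num (-24) * (var 1) + num (-145) * (var 2)) + ((num 1 - num 2 * (var 0 * var 1) - var 0) * var 1) * (num 81 * (var 1) + num 75 * (var 2)) * var 3)) + num (-190) * ((((num 1 - num 2 * (var 0 * var 1) - var 0) * var 1) * (num 100 + num (-24) * (var 1) + num (-145) * (var 2)) + ((num 1 - num 2 * (var 0 * var 1) - var 0) * var 1) * (num 81 * (var 1) + num 75 * (var 2)) * var 3) * var 0 * var 2))
  pd := num 100
  en := fun b => cond b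
    (num 1032 * (num 1578 * (var 0) * (var 1) + num (-380) * (var 0) * (var 0) * (var 1) + num 818 * (var 2) + num 1174 * (var 2) * (var 0) + num (-633) * (var 0) * (var 1) * (var 1)))
    (num 966 * (num 1578 * (var 0) * (var 1) + num (-380) * (var 0) * (var 0) * (var 1) + num 818 * (var 2) + num 1174 * (var 2) * (var 0) + num (-633) * (var 0) * (var 1) * (var 1)))
  kk := fun b => cond b
    (num 1013 * (num 694 * (var 2) * (var 0) + num 1659 * (var 2) * (var 0) * (var 0) + num 941 * (var 2) * (var 0) * (var 1) + num 4 * (var 2) * (var 0) * (var 3)))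
    (num 976 * (num 694 * (var 2) * (var 0) + num 1659 * (var 2) * (var 0) * (var 0) + num 941 * (var 2) * (var 0) * (var 1) + num 4 * (var 2) * (var 0) * (var 3)))
  f0 := num 100000
  wn := fun b => cond b
    (num 1000 * (num (-800) * (var 0 * var 1) + (num 8 * (var 0 * var 1) + num 4 * var 0 * var 2) * (((num 1 - num 2 * (var 0 * var 1) - var 0) * var 1) * (num 100 + num (-24) * (var 1) + num (-145) * (var 2)) + ((num 1 - num 2 * (var 0 * var 1) - var 0) * var 1) * (num 81 * (var 1) + num 75 * (var 2)) * var 3) + var 0 * var 1 * var 0 * (num (-800) + (num 553 * (var 1) + num 988 * (var 2) + num (-2107) * (var 1) * (var 0) + num (-1388) * (var 2) * (var 0) + num 218 * (var 1) * (var 3) + num (-64) * (var 2) * (var 3)))) + num 1811 * (num 100 * (var 0 * var 1 * var 0) * (num 1 * (var 1) + num 1 * (var 2))))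
    (num 1000 * (num (-800) * (var 0 * var 1) + (num 8 * (var 0 * var 1) + num 4 * var 0 * var 2) * (((num 1 - num 2 * (var 0 * var 1) - var 0) * var 1) * (num 100 + num (-24) * (var 1) + num (-145) * (var 2)) + ((num 1 - num 2 * (var 0 * var 1) - var 0) * var 1) * (num 81 * (var 1) + num 75 * (var 2)) * var 3) + var 0 * var 1 * var 0 * (num (-800) + (num 553 * (var 1) + num 988 * (var 2) + num (-2107) * (var 1) * (var 0) + num (-1388) * (var 2) * (var 0) + num 218 * (var 1) * (var 3) + num (-64) * (var 2) * (var 3)))) + num (-2258) * (num 100 * (var 0 * var 1 * var 0) * (num 1 * (var 1) + num 1 * (var 2))))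
  wd := num 100000
  tn := fun b => cond b
    (num 1013 * (num 51 * (var 2) + num (-4) * (var 2) * (var 0) + num 53 * (var 2) * (var 1) + num 11 * (var 2) * (var 1) * (var 3)))
    (num 976 * (num 51 * (var 2) + num (-4) * (var 2) * (var 0) + num 53 * (var 2) * (var 1) + num 11 * (var 2) * (var 1) * (var 3)))
  td := num 100000
  cn := num 1 - var 0 * var 1 - var 1 * (num 1 - num 2 * (var 0 * var 1))
  cd := (num 1 - num 2 * (var 0 * var 1)) * (num 1 - num 2 * (var 0 * var 1))
  kn := var 0 * var 1 * (num 46 * (var 1) + num 19 * (var 2) + num (-114) * (var 1) * (var 0) + num 1263 * (var 1) * (var 1) + num 28 * (var 2) * (var 0) + num (-11) * (var 2) * (var 3) + num (-4) * (var 1) * (var 3) + num 14464 * (var 1) * (var 2) + num 1608 * (var 1) * (var 1) * (var 3))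
  kd := num 100 * (var 1 + var 2)
  k2n := var 0 * (num 522 * (var 1) + num 562 * (var 2) + num (-38) * (var 1) * (var 3) + num (-280) * (var 0) * (var 1) + num (-4636) * (var 1) * (var 2) + num (-632) * (var 2) * (var 3) + num (-745) * (var 1) * (var 1) + num 1361 * (var 0) * (var 2))
  k2d := num 100 * (var 1 + var 2)

/-- Its ranges. -/
def bxD96 : StripEnd.EBox :=
  ⟨(9, 10, 40), (0, 2, 9), (0, 1, 100), (0, 1, 1)⟩

/-- Its excess. -/
def shD96 : Shift where
  xn := (num (-820483) + num 7021880 * (var 0) + num (-1539600) * (var 1)) * pow (var 1) 3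
  xd := num 4000
  yn := num 8459 * var 1
  yd := num 1000
  gn := num 845900 * ((num (-820483) + num 7021880 * (var 0) + num (-1539600) * (var 1)) * pow (var 1) 3)
  gd := num 5952000000 * var 0
  hn := (num (-820483) + num 7021880 * (var 0) + num (-1539600) * (var 1)) * pow (var 1) 2
  hd := num 1488000
  ln := num 72 * ((num (-820483) + num 7021880 * (var 0) + num (-1539600) * (var 1)) * pow (var 1) 3)

/-- The chart `D97`. -/
def chD97 : EndChart where
  I := var 0 * var 1
  d := var 0
  w := var 0 * var 2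
  den := num 100
  n₀ := ((num 1 - num 2 * (var 0 * var 1) - var 0) * var 1) * (num 100 + num (-18) * (var 1) + num (-145) * (var 2))
  n₁ := ((num 1 - num 2 * (var 0 * var 1) - var 0) * var 1) * (num 78 * (var 1) + num 75 * (var 2))
  q₀ := (50, 53, 200)
  q₁ := (0, 1, 5)
  q₂ := (0, 1, 100)
  q₃ := (0, 1, 1)
  t₀ := (0, 1)
  t₁ := (1, 1)
  mu₀ := (190, 100)
  mu₁ := (256, 100)

/-- The piece `D97`. -/
def pcD97 : Piece where
  I := var 0 * var 1
  d := var 0
  w := var 0 * var 2
  o := (((num 1 - num 2 * (var 0 * var 1) - var 0) * var 1) * (num 100 + num (-18) * (var 1) + num (-145) * (var 2)) + ((num 1 - num 2 * (var 0 * var 1) - var 0) * var 1) * (num 78 * (var 1) + num 75 * (var 2)) * var 3)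
  den := num 100
  vn := num 2 * var 1 * ((num 100 + num (-18) * (var 1) + num (-145) * (var 2)) + (num 78 * (var 1) + num 75 * (var 2)) * var 3)
  vs := num 1
  mu := ⟨(190, 100), (256, 100)⟩
  pn := fun b => cond b
    (num 100 * (num 100 - (((num 1 - num 2 * (var 0 * var 1) - var 0) * var 1) * (num 100 + num (-18) * (var 1) + num (-145) * (var 2)) + ((num 1 - num 2 * (var 0 * var 1) - var 0) * var 1) * (num 78 * (var 1) + num 75 * (var 2)) * var 3)) + num (-256) * ((((num 1 - num 2 * (var 0 * var 1) - var 0) * var 1) * (num 100 + num (-18) * (var 1) + num (-145) * (var 2)) + ((num 1 - num 2 * (var 0 * var 1) - var 0) * var 1) * (num 78 * (var 1) + num 75 * (var 2)) * var 3) * var 0 * var 2))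
    (num 100 * (num 100 - (((num 1 - num 2 * (var 0 * var 1) - var 0) * var 1) * (num 100 + num (-18) * (var 1) + num (-145) * (var 2)) + ((num 1 - num 2 * (var 0 * var 1) - var 0) * var 1) * (num 78 * (var 1) + num 75 * (var 2)) * var 3)) + num (-190) * ((((num 1 - num 2 * (var 0 * var 1) - var 0) * var 1) * (num 100 + num (-18) * (var 1) + num (-145) * (var 2)) + ((num 1 - num 2 * (var 0 * var 1) - var 0) * var 1) * (num 78 * (var 1) + num 75 * (var 2)) * var 3) * var 0 * var 2))
  pd := num 100
  en := fun b => cond b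
    (num 1026 * (num 1559 * (var 0) * (var 1) + num (-342) * (var 0) * (var 0) * (var 1) + num 894 * (var 2) + num 887 * (var 2) * (var 0) + num (-581) * (var 0) * (var 1) * (var 1)))
    (num 972 * (num 1559 * (var 0) * (var 1) + num (-342) * (var 0) * (var 0) * (var 1) + num 894 * (var 2) + num 887 * (var 2) * (var 0) + num (-581) * (var 0) * (var 1) * (var 1)))
  kk := fun b => cond b
    (num 1009 * (num 750 * (var 2) * (var 0) + num 1410 * (var 2) * (var 0) * (var 0) + num 1032 * (var 2) * (var 0) * (var 1) + num 4 * (var 2) * (var 0) * (var 3)))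
    (num 979 * (num 750 * (var 2) * (var 0) + num 1410 * (var 2) * (var 0) * (var 0) + num 1032 * (var 2) * (var 0) * (var 1) + num 4 * (var 2) * (var 0) * (var 3)))
  f0 := num 100000
  wn := fun b => cond b
    (num 1000 * (num (-800) * (var 0 * var 1) + (num 8 * (var 0 * var 1) + num 4 * var 0 * var 2) * (((num 1 - num 2 * (var 0 * var 1) - var 0) * var 1) * (num 100 + num (-18) * (var 1) + num (-145) * (var 2)) + ((num 1 - num 2 * (var 0 * var 1) - var 0) * var 1) * (num 78 * (var 1) + num 75 * (var 2)) * var 3) + var 0 * var 1 * var 0 * (num (-800) + (num 448 * (var 1) + num 1112 * (var 2) + num (-1671) * (var 1) * (var 0) + num (-1828) * (var 2) * (var 0) + num 194 * (var 1) * (var 3) + num (-64) * (var 2) * (var 3)))) + num 1698 * (num 100 * (var 0 * var 1 * var 0) * (num 1 * (var 1) + num 1 * (var 2))))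
    (num 1000 * (num (-800) * (var 0 * var 1) + (num 8 * (var 0 * var 1) + num 4 * var 0 * var 2) * (((num 1 - num 2 * (var 0 * var 1) - var 0) * var 1) * (num 100 + num (-18) * (var 1) + num (-145) * (var 2)) + ((num 1 - num 2 * (var 0 * var 1) - var 0) * var 1) * (num 78 * (var 1) + num 75 * (var 2)) * var 3) + var 0 * var 1 * var 0 * (num (-800) + (num 448 * (var 1) + num 1112 * (var 2) + num (-1671) * (var 1) * (var 0) + num (-1828) * (var 2) * (var 0) + num 194 * (var 1) * (var 3) + num (-64) * (var 2) * (var 3)))) + num (-1984) * (num 100 * (var 0 * var 1 * var 0) * (num 1 * (var 1) + num 1 * (var 2))))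
  wd := num 100000
  tn := fun b => cond b
    (num 1014 * (num 51 * (var 2) + num (-5) * (var 2) * (var 0) + num 53 * (var 2) * (var 1) + num 9 * (var 2) * (var 1) * (var 3)))
    (num 984 * (num 51 * (var 2) + num (-5) * (var 2) * (var 0) + num 53 * (var 2) * (var 1) + num 9 * (var 2) * (var 1) * (var 3)))
  td := num 100000
  cn := num 1 - var 0 * var 1 - var 1 * (num 1 - num 2 * (var 0 * var 1))
  cd := (num 1 - num 2 * (var 0 * var 1)) * (num 1 - num 2 * (var 0 * var 1))
  kn := var 0 * var 1 * (num 29 * (var 1) + num 10 * (var 2) + num (-75) * (var 1) * (var 0) + num 1045 * (var 1) * (var 1) + num 25 * (var 2) * (var 0) + num (-12) * (var 2) * (var 3) + num (-3) * (var 1) * (var 3) + num 13870 * (var 1) * (var 2) + num 1680 * (var 1) * (var 1) * (var 3))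
  kd := num 100 * (var 1 + var 2)
  k2n := var 0 * (num 403 * (var 1) + num 764 * (var 2) + num (-33) * (var 1) * (var 3) + num (-38) * (var 0) * (var 1) + num (-4504) * (var 1) * (var 2) + num (-666) * (var 2) * (var 3) + num (-643) * (var 1) * (var 1) + num 603 * (var 0) * (var 2))
  k2d := num 100 * (var 1 + var 2)

/-- Its ranges. -/
def bxD97 : StripEnd.EBox :=
  ⟨(50, 53, 200), (0, 1, 5), (0, 1, 100), (0, 1, 1)⟩

/-- Its excess. -/
def shD97 : Shift where
  xn := (num (-85317) + num 677588 * (var 0) + num (-148064) * (var 1)) * pow (var 1) 3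
  xd := num 400
  yn := num 7618 * var 1
  yd := num 1000
  gn := num 761800 * ((num (-85317) + num 677588 * (var 0) + num (-148064) * (var 1)) * pow (var 1) 3)
  gd := num 601600000 * var 0
  hn := (num (-85317) + num 677588 * (var 0) + num (-148064) * (var 1)) * pow (var 1) 2
  hd := num 150400
  ln := num 72 * ((num (-85317) + num 677588 * (var 0) + num (-148064) * (var 1)) * pow (var 1) 3)

/-- The chart `D98`. -/
def chD98 : EndChart where
  I := var 0 * var 1
  d := var 0
  w := var 0 * var 2
  den := num 100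
  n₀ := ((num 1 - num 2 * (var 0 * var 1) - var 0) * var 1) * (num 100 + num (-15) * (var 1) + num (-145) * (var 2))
  n₁ := ((num 1 - num 2 * (var 0 * var 1) - var 0) * var 1) * (num 78 * (var 1) + num 75 * (var 2))
  q₀ := (53, 56, 200)
  q₁ := (0, 10, 53)
  q₂ := (0, 1, 100)
  q₃ := (0, 1, 1)
  t₀ := (0, 1)
  t₁ := (1, 1)
  mu₀ := (190, 100)
  mu₁ := (256, 100)

/-- The piece `D98`. -/
def pcD98 : Piece where
  I := var 0 * var 1
  d := var 0
  w := var 0 * var 2
  o := (((num 1 - num 2 * (var 0 * var 1) - var 0) * var 1) * (num 100 + num (-15) * (var 1) + num (-145) * (var 2)) + ((num 1 - num 2 * (var 0 * var 1) - var 0) * var 1) * (num 78 * (var 1) + num 75 * (var 2)) * var 3)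
  den := num 100
  vn := num 2 * var 1 * ((num 100 + num (-15) * (var 1) + num (-145) * (var 2)) + (num 78 * (var 1) + num 75 * (var 2)) * var 3)
  vs := num 1
  mu := ⟨(190, 100), (256, 100)⟩
  pn := fun b => cond b
    (num 100 * (num 100 - (((num 1 - num 2 * (var 0 * var 1) - var 0) * var 1) * (num 100 + num (-15) * (var 1) + num (-145) * (var 2)) + ((num 1 - num 2 * (var 0 * var 1) - var 0) * var 1) * (num 78 * (var 1) + num 75 * (var 2)) * var 3)) + num (-256) * ((((num 1 - num 2 * (var 0 * var 1) - var 0) * var 1) * (num 100 + num (-15) * (var 1) + num (-145) * (var 2)) + ((num 1 - num 2 * (var 0 * var 1) - var 0) * var 1) * (num 78 * (var 1) + num 75 * (var 2)) * var 3) * var 0 * var 2))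
    (num 100 * (num 100 - (((num 1 - num 2 * (var 0 * var 1) - var 0) * var 1) * (num 100 + num (-15) * (var 1) + num (-145) * (var 2)) + ((num 1 - num 2 * (var 0 * var 1) - var 0) * var 1) * (num 78 * (var 1) + num 75 * (var 2)) * var 3)) + num (-190) * ((((num 1 - num 2 * (var 0 * var 1) - var 0) * var 1) * (num 100 + num (-15) * (var 1) + num (-145) * (var 2)) + ((num 1 - num 2 * (var 0 * var 1) - var 0) * var 1) * (num 78 * (var 1) + num 75 * (var 2)) * var 3) * var 0 * var 2))
  pd := num 100
  en := fun b => cond b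
    (num 1025 * (num 1565 * (var 0) * (var 1) + num (-390) * (var 0) * (var 0) * (var 1) + num 932 * (var 2) + num 756 * (var 2) * (var 0) + num (-548) * (var 0) * (var 1) * (var 1)))
    (num 974 * (num 1565 * (var 0) * (var 1) + num (-390) * (var 0) * (var 0) * (var 1) + num 932 * (var 2) + num 756 * (var 2) * (var 0) + num (-548) * (var 0) * (var 1) * (var 1)))
  kk := fun b => cond b
    (num 1008 * (num 789 * (var 2) * (var 0) + num 1247 * (var 2) * (var 0) * (var 0) + num 1091 * (var 2) * (var 0) * (var 1) + num 4 * (var 2) * (var 0) * (var 3)))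
    (num 981 * (num 789 * (var 2) * (var 0) + num 1247 * (var 2) * (var 0) * (var 0) + num 1091 * (var 2) * (var 0) * (var 1) + num 4 * (var 2) * (var 0) * (var 3)))
  f0 := num 100000
  wn := fun b => cond b
    (num 1000 * (num (-800) * (var 0 * var 1) + (num 8 * (var 0 * var 1) + num 4 * var 0 * var 2) * (((num 1 - num 2 * (var 0 * var 1) - var 0) * var 1) * (num 100 + num (-15) * (var 1) + num (-145) * (var 2)) + ((num 1 - num 2 * (var 0 * var 1) - var 0) * var 1) * (num 78 * (var 1) + num 75 * (var 2)) * var 3) + var 0 * var 1 * var 0 * (num (-800) + (num 427 * (var 1) + num 1136 * (var 2) + num (-1614) * (var 1) * (var 0) + num (-1878) * (var 2) * (var 0) + num 186 * (var 1) * (var 3) + num (-55) * (var 2) * (var 3)))) + num 1648 * (num 100 * (var 0 * var 1 * var 0) * (num 1 * (var 1) + num 1 * (var 2))))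
    (num 1000 * (num (-800) * (var 0 * var 1) + (num 8 * (var 0 * var 1) + num 4 * var 0 * var 2) * (((num 1 - num 2 * (var 0 * var 1) - var 0) * var 1) * (num 100 + num (-15) * (var 1) + num (-145) * (var 2)) + ((num 1 - num 2 * (var 0 * var 1) - var 0) * var 1) * (num 78 * (var 1) + num 75 * (var 2)) * var 3) + var 0 * var 1 * var 0 * (num (-800) + (num 427 * (var 1) + num 1136 * (var 2) + num (-1614) * (var 1) * (var 0) + num (-1878) * (var 2) * (var 0) + num 186 * (var 1) * (var 3) + num (-55) * (var 2) * (var 3)))) + num (-1957) * (num 100 * (var 0 * var 1 * var 0) * (num 1 * (var 1) + num 1 * (var 2))))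
  wd := num 100000
  tn := fun b => cond b
    (num 1014 * (num 51 * (var 2) + num (-5) * (var 2) * (var 0) + num 52 * (var 2) * (var 1) + num 9 * (var 2) * (var 1) * (var 3)))
    (num 986 * (num 51 * (var 2) + num (-5) * (var 2) * (var 0) + num 52 * (var 2) * (var 1) + num 9 * (var 2) * (var 1) * (var 3)))
  td := num 100000
  cn := num 1 - var 0 * var 1 - var 1 * (num 1 - num 2 * (var 0 * var 1))
  cd := (num 1 - num 2 * (var 0 * var 1)) * (num 1 - num 2 * (var 0 * var 1))
  kn := var 0 * var 1 * (num 19 * (var 1) + num 11 * (var 2) + num (-36) * (var 1) * (var 0) + num 961 * (var 1) * (var 1) + num 22 * (var 2) * (var 0) + num (-12) * (var 2) * (var 3) + num (-3) * (var 1) * (var 3) + num 13485 * (var 1) * (var 2) + num 1751 * (var 1) * (var 1) * (var 3))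
  kd := num 100 * (var 1 + var 2)
  k2n := var 0 * (num 349 * (var 1) + num 726 * (var 2) + num (-31) * (var 1) * (var 3) + num 60 * (var 0) * (var 1) + num (-4206) * (var 1) * (var 2) + num (-643) * (var 2) * (var 3) + num (-581) * (var 1) * (var 1) + num 647 * (var 0) * (var 2))
  k2d := num 100 * (var 1 + var 2)

/-- Its ranges. -/
def bxD98 : StripEnd.EBox :=
  ⟨(53, 56, 200), (0, 10, 53), (0, 1, 100), (0, 1, 1)⟩

/-- Its excess. -/
def shD98 : Shift where
  xn := (num (-5141049) + num 40026600 * (var 0) + num (-7854800) * (var 1)) * pow (var 1) 3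
  xd := num 20000
  yn := num 8903 * var 1
  yd := num 1000
  gn := num 890300 * ((num (-5141049) + num 40026600 * (var 0) + num (-7854800) * (var 1)) * pow (var 1) 3)
  gd := num 30400000000 * var 0
  hn := (num (-5141049) + num 40026600 * (var 0) + num (-7854800) * (var 1)) * pow (var 1) 2
  hd := num 7600000
  ln := num 72 * ((num (-5141049) + num 40026600 * (var 0) + num (-7854800) * (var 1)) * pow (var 1) 3)

/-- The chart `D99`. -/
def chD99 : EndChart where
  I := var 0 * var 1
  d := var 0
  w := var 0 * var 2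
  den := num 100
  n₀ := ((num 1 - num 2 * (var 0 * var 1) - var 0) * var 1) * (num 100 + num (-12) * (var 1) + num (-145) * (var 2))
  n₁ := ((num 1 - num 2 * (var 0 * var 1) - var 0) * var 1) * (num 78 * (var 1) + num 80 * (var 2))
  q₀ := (56, 59, 200)
  q₁ := (0, 5, 28)
  q₂ := (0, 1, 100)
  q₃ := (0, 1, 1)
  t₀ := (0, 1)
  t₁ := (1, 1)
  mu₀ := (190, 100)
  mu₁ := (260, 100)

/-- The piece `D99`. -/
def pcD99 : Piece where
  I := var 0 * var 1
  d := var 0
  w := var 0 * var 2
  o := (((num 1 - num 2 * (var 0 * var 1) - var 0) * var 1) * (num 100 + num (-12) * (var 1) + num (-145) * (var 2)) + ((num 1 - num 2 * (var 0 * var 1) - var 0) * var 1) * (num 78 * (var 1) + num 80 * (var 2)) * var 3)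
  den := num 100
  vn := num 2 * var 1 * ((num 100 + num (-12) * (var 1) + num (-145) * (var 2)) + (num 78 * (var 1) + num 80 * (var 2)) * var 3)
  vs := num 1
  mu := ⟨(190, 100), (260, 100)⟩
  pn := fun b => cond b
    (num 100 * (num 100 - (((num 1 - num 2 * (var 0 * var 1) - var 0) * var 1) * (num 100 + num (-12) * (var 1) + num (-145) * (var 2)) + ((num 1 - num 2 * (var 0 * var 1) - var 0) * var 1) * (num 78 * (var 1) + num 80 * (var 2)) * var 3)) + num (-260) * ((((num 1 - num 2 * (var 0 * var 1) - var 0) * var 1) * (num 100 + num (-12) * (var 1) + num (-145) * (var 2)) + ((num 1 - num 2 * (var 0 * var 1) - var 0) * var 1) * (num 78 * (var 1) + num 80 * (var 2)) * var 3) * var 0 * var 2))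
    (num 100 * (num 100 - (((num 1 - num 2 * (var 0 * var 1) - var 0) * var 1) * (num 100 + num (-12) * (var 1) + num (-145) * (var 2)) + ((num 1 - num 2 * (var 0 * var 1) - var 0) * var 1) * (num 78 * (var 1) + num 80 * (var 2)) * var 3)) + num (-190) * ((((num 1 - num 2 * (var 0 * var 1) - var 0) * var 1) * (num 100 + num (-12) * (var 1) + num (-145) * (var 2)) + ((num 1 - num 2 * (var 0 * var 1) - var 0) * var 1) * (num 78 * (var 1) + num 80 * (var 2)) * var 3) * var 0 * var 2))
  pd := num 100
  en := fun b => cond b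
    (num 1024 * (num 1595 * (var 0) * (var 1) + num (-522) * (var 0) * (var 0) * (var 1) + num 963 * (var 2) + num 661 * (var 2) * (var 0) + num (-514) * (var 0) * (var 1) * (var 1)))
    (num 976 * (num 1595 * (var 0) * (var 1) + num (-522) * (var 0) * (var 0) * (var 1) + num 963 * (var 2) + num 661 * (var 2) * (var 0) + num (-514) * (var 0) * (var 1) * (var 1)))
  kk := fun b => cond b
    (num 1009 * (num 830 * (var 2) * (var 0) + num 1089 * (var 2) * (var 0) * (var 0) + num 1145 * (var 2) * (var 0) * (var 1) + num 3 * (var 2) * (var 0) * (var 3)))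
    (num 981 * (num 830 * (var 2) * (var 0) + num 1089 * (var 2) * (var 0) * (var 0) + num 1145 * (var 2) * (var 0) * (var 1) + num 3 * (var 2) * (var 0) * (var 3)))
  f0 := num 100000
  wn := fun b => cond b
    (num 1000 * (num (-800) * (var 0 * var 1) + (num 8 * (var 0 * var 1) + num 4 * var 0 * var 2) * (((num 1 - num 2 * (var 0 * var 1) - var 0) * var 1) * (num 100 + num (-12) * (var 1) + num (-145) * (var 2)) + ((num 1 - num 2 * (var 0 * var 1) - var 0) * var 1) * (num 78 * (var 1) + num 80 * (var 2)) * var 3) + var 0 * var 1 * var 0 * (num (-800) + (num 271 * (var 1) + num 1175 * (var 2) + num (-1070) * (var 1) * (var 0) + num (-1989) * (var 2) * (var 0) + num 171 * (var 1) * (var 3) + num (-42) * (var 2) * (var 3)))) + num 1566 * (num 100 * (var 0 * var 1 * var 0) * (num 1 * (var 1) + num 1 * (var 2))))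
    (num 1000 * (num (-800) * (var 0 * var 1) + (num 8 * (var 0 * var 1) + num 4 * var 0 * var 2) * (((num 1 - num 2 * (var 0 * var 1) - var 0) * var 1) * (num 100 + num (-12) * (var 1) + num (-145) * (var 2)) + ((num 1 - num 2 * (var 0 * var 1) - var 0) * var 1) * (num 78 * (var 1) + num 80 * (var 2)) * var 3) + var 0 * var 1 * var 0 * (num (-800) + (num 271 * (var 1) + num 1175 * (var 2) + num (-1070) * (var 1) * (var 0) + num (-1989) * (var 2) * (var 0) + num 171 * (var 1) * (var 3) + num (-42) * (var 2) * (var 3)))) + num (-2035) * (num 100 * (var 0 * var 1 * var 0) * (num 1 * (var 1) + num 1 * (var 2))))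
  wd := num 100000
  tn := fun b => cond b
    (num 1010 * (num 51 * (var 2) + num (-4) * (var 2) * (var 0) + num 52 * (var 2) * (var 1) + num 8 * (var 2) * (var 1) * (var 3)))
    (num 982 * (num 51 * (var 2) + num (-4) * (var 2) * (var 0) + num 52 * (var 2) * (var 1) + num 8 * (var 2) * (var 1) * (var 3)))
  td := num 100000
  cn := num 1 - var 0 * var 1 - var 1 * (num 1 - num 2 * (var 0 * var 1))
  cd := (num 1 - num 2 * (var 0 * var 1)) * (num 1 - num 2 * (var 0 * var 1))
  kn := var 0 * var 1 * (num 30 * (var 1) + num 11 * (var 2) + num (-71) * (var 1) * (var 0) + num 878 * (var 1) * (var 1) + num 24 * (var 2) * (var 0) + num (-11) * (var 2) * (var 3) + num (-3) * (var 1) * (var 3) + num 13304 * (var 1) * (var 2) + num 1811 * (var 1) * (var 1) * (var 3))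
  kd := num 100 * (var 1 + var 2)
  k2n := var 0 * (num 300 * (var 1) + num 695 * (var 2) + num (-31) * (var 1) * (var 3) + num 146 * (var 0) * (var 1) + num (-3889) * (var 1) * (var 2) + num (-635) * (var 2) * (var 3) + num (-524) * (var 1) * (var 1) + num 642 * (var 0) * (var 2))
  k2d := num 100 * (var 1 + var 2)

/-- Its ranges. -/
def bxD99 : StripEnd.EBox :=
  ⟨(56, 59, 200), (0, 5, 28), (0, 1, 100), (0, 1, 1)⟩

/-- Its excess. -/
def shD99 : Shift where
  xn := (num (-7806725) + num 29916875 * (var 0) + num (-912225) * (var 1)) * pow (var 1) 3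
  xd := num 2500
  yn := num 11090 * var 1
  yd := num 1000
  gn := num 1109000 * ((num (-7806725) + num 29916875 * (var 0) + num (-912225) * (var 1)) * pow (var 1) 3)
  gd := num 3840000000 * var 0
  hn := (num (-7806725) + num 29916875 * (var 0) + num (-912225) * (var 1)) * pow (var 1) 2
  hd := num 960000
  ln := num 72 * ((num (-7806725) + num 29916875 * (var 0) + num (-912225) * (var 1)) * pow (var 1) 3)

/-- The chart `D100`. -/
def chD100 : EndChart where
  I := var 0 * var 1
  d := var 0
  w := var 0 * var 2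
  den := num 100
  n₀ := ((num 1 - num 2 * (var 0 * var 1) - var 0) * var 1) * (num 100 + num (-9) * (var 1) + num (-145) * (var 2))
  n₁ := ((num 1 - num 2 * (var 0 * var 1) - var 0) * var 1) * (num 76 * (var 1) + num 80 * (var 2))
  q₀ := (59, 61, 200)
  q₁ := (0, 10, 69)
  q₂ := (0, 1, 100)
  q₃ := (0, 1, 1)
  t₀ := (0, 1)
  t₁ := (1, 1)
  mu₀ := (190, 100)
  mu₁ := (248, 100)

/-- The piece `D100`. -/
def pcD100 : Piece where
  I := var 0 * var 1
  d := var 0
  w := var 0 * var 2
  o := (((num 1 - num 2 * (var 0 * var 1) - var 0) * var 1) * (num 100 + num (-9) * (var 1) + num (-145) * (var 2)) + ((num 1 - num 2 * (var 0 * var 1) - var 0) * var 1) * (num 76 * (var 1) + num 80 * (var 2)) * var 3)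
  den := num 100
  vn := num 2 * var 1 * ((num 100 + num (-9) * (var 1) + num (-145) * (var 2)) + (num 76 * (var 1) + num 80 * (var 2)) * var 3)
  vs := num 1
  mu := ⟨(190, 100), (248, 100)⟩
  pn := fun b => cond b
    (num 100 * (num 100 - (((num 1 - num 2 * (var 0 * var 1) - var 0) * var 1) * (num 100 + num (-9) * (var 1) + num (-145) * (var 2)) + ((num 1 - num 2 * (var 0 * var 1) - var 0) * var 1) * (num 76 * (var 1) + num 80 * (var 2)) * var 3)) + num (-248) * ((((num 1 - num 2 * (var 0 * var 1) - var 0) * var 1) * (num 100 + num (-9) * (var 1) + num (-145) * (var 2)) + ((num 1 - num 2 * (var 0 * var 1) - var 0) * var 1) * (num 76 * (var 1) + num 80 * (var 2)) * var 3) * var 0 * var 2))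
    (num 100 * (num 100 - (((num 1 - num 2 * (var 0 * var 1) - var 0) * var 1) * (num 100 + num (-9) * (var 1) + num (-145) * (var 2)) + ((num 1 - num 2 * (var 0 * var 1) - var 0) * var 1) * (num 76 * (var 1) + num 80 * (var 2)) * var 3)) + num (-190) * ((((num 1 - num 2 * (var 0 * var 1) - var 0) * var 1) * (num 100 + num (-9) * (var 1) + num (-145) * (var 2)) + ((num 1 - num 2 * (var 0 * var 1) - var 0) * var 1) * (num 76 * (var 1) + num 80 * (var 2)) * var 3) * var 0 * var 2))
  pd := num 100
  en := fun b => cond b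
    (num 1021 * (num 1572 * (var 0) * (var 1) + num (-461) * (var 0) * (var 0) * (var 1) + num 1006 * (var 2) + num 523 * (var 2) * (var 0) + num (-479) * (var 0) * (var 1) * (var 1)))
    (num 980 * (num 1572 * (var 0) * (var 1) + num (-461) * (var 0) * (var 0) * (var 1) + num 1006 * (var 2) + num 523 * (var 2) * (var 0) + num (-479) * (var 0) * (var 1) * (var 1)))
  kk := fun b => cond b
    (num 1005 * (num 871 * (var 2) * (var 0) + num 945 * (var 2) * (var 0) * (var 0) + num 1194 * (var 2) * (var 0) * (var 1) + num 2 * (var 2) * (var 0) * (var 3)))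
    (num 986 * (num 871 * (var 2) * (var 0) + num 945 * (var 2) * (var 0) * (var 0) + num 1194 * (var 2) * (var 0) * (var 1) + num 2 * (var 2) * (var 0) * (var 3)))
  f0 := num 100000
  wn := fun b => cond b
    (num 1000 * (num (-800) * (var 0 * var 1) + (num 8 * (var 0 * var 1) + num 4 * var 0 * var 2) * (((num 1 - num 2 * (var 0 * var 1) - var 0) * var 1) * (num 100 + num (-9) * (var 1) + num (-145) * (var 2)) + ((num 1 - num 2 * (var 0 * var 1) - var 0) * var 1) * (num 76 * (var 1) + num 80 * (var 2)) * var 3) + var 0 * var 1 * var 0 * (num (-800) + (num 247 * (var 1) + num 1160 * (var 2) + num (-979) * (var 1) * (var 0) + num (-1928) * (var 2) * (var 0) + num 144 * (var 1) * (var 3) + num (-26) * (var 2) * (var 3)))) + num 1339 * (num 100 * (var 0 * var 1 * var 0) * (num 1 * (var 1) + num 1 * (var 2))))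
    (num 1000 * (num (-800) * (var 0 * var 1) + (num 8 * (var 0 * var 1) + num 4 * var 0 * var 2) * (((num 1 - num 2 * (var 0 * var 1) - var 0) * var 1) * (num 100 + num (-9) * (var 1) + num (-145) * (var 2)) + ((num 1 - num 2 * (var 0 * var 1) - var 0) * var 1) * (num 76 * (var 1) + num 80 * (var 2)) * var 3) + var 0 * var 1 * var 0 * (num (-800) + (num 247 * (var 1) + num 1160 * (var 2) + num (-979) * (var 1) * (var 0) + num (-1928) * (var 2) * (var 0) + num 144 * (var 1) * (var 3) + num (-26) * (var 2) * (var 3)))) + num (-1604) * (num 100 * (var 0 * var 1 * var 0) * (num 1 * (var 1) + num 1 * (var 2))))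
  wd := num 100000
  tn := fun b => cond b
    (num 1010 * (num 51 * (var 2) + num (-4) * (var 2) * (var 0) + num 51 * (var 2) * (var 1) + num 6 * (var 2) * (var 1) * (var 3)))
    (num 989 * (num 51 * (var 2) + num (-4) * (var 2) * (var 0) + num 51 * (var 2) * (var 1) + num 6 * (var 2) * (var 1) * (var 3)))
  td := num 100000
  cn := num 1 - var 0 * var 1 - var 1 * (num 1 - num 2 * (var 0 * var 1))
  cd := (num 1 - num 2 * (var 0 * var 1)) * (num 1 - num 2 * (var 0 * var 1))
  kn := var 0 * var 1 * (num 23 * (var 1) + num 12 * (var 2) + num (-47) * (var 1) * (var 0) + num 754 * (var 1) * (var 1) + num 21 * (var 2) * (var 0) + num (-12) * (var 2) * (var 3) + num (-2) * (var 1) * (var 3) + num 12919 * (var 1) * (var 2) + num 1739 * (var 1) * (var 1) * (var 3))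
  kd := num 100 * (var 1 + var 2)
  k2n := var 0 * (num 276 * (var 1) + num 401 * (var 2) + num (-56) * (var 1) * (var 3) + num 94 * (var 0) * (var 1) + num (-3430) * (var 1) * (var 2) + num (-548) * (var 2) * (var 3) + num (-421) * (var 1) * (var 1) + num 1299 * (var 0) * (var 2))
  k2d := num 100 * (var 1 + var 2)

/-- Its ranges. -/
def bxD100 : StripEnd.EBox :=
  ⟨(59, 61, 200), (0, 10, 69), (0, 1, 100), (0, 1, 1)⟩

/-- Its excess. -/
def shD100 : Shift where
  xn := (num (-69551362) + num 252103600 * (var 0) + num (-2833800) * (var 1)) * pow (var 1) 3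
  xd := num 20000
  yn := num 10064 * var 1
  yd := num 1000
  gn := num 1006400 * ((num (-69551362) + num 252103600 * (var 0) + num (-2833800) * (var 1)) * pow (var 1) 3)
  gd := num 31040000000 * var 0
  hn := (num (-69551362) + num 252103600 * (var 0) + num (-2833800) * (var 1)) * pow (var 1) 2
  hd := num 7760000
  ln := num 72 * ((num (-69551362) + num 252103600 * (var 0) + num (-2833800) * (var 1)) * pow (var 1) 3)

/-- The chart `D101`. -/
def chD101 : EndChart where
  I := var 0 * var 1
  d := var 0
  w := var 0 * var 2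
  den := num 100
  n₀ := ((num 1 - num 2 * (var 0 * var 1) - var 0) * var 1) * (num 100 + num (-7) * (var 1) + num (-145) * (var 2))
  n₁ := ((num 1 - num 2 * (var 0 * var 1) - var 0) * var 1) * (num 76 * (var 1) + num 80 * (var 2))
  q₀ := (61, 63, 200)
  q₁ := (0, 15, 122)
  q₂ := (0, 1, 100)
  q₃ := (0, 1, 1)
  t₀ := (0, 1)
  t₁ := (1, 1)
  mu₀ := (190, 100)
  mu₁ := (244, 100)

/-- The piece `D101`. -/
def pcD101 : Piece where
  I := var 0 * var 1
  d := var 0
  w := var 0 * var 2
  o := (((num 1 - num 2 * (var 0 * var 1) - var 0) * var 1) * (num 100 + num (-7) * (var 1) + num (-145) * (var 2)) + ((num 1 - num 2 * (var 0 * var 1) - var 0) * var 1) * (num 76 * (var 1) + num 80 * (var 2)) * var 3)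
  den := num 100
  vn := num 2 * var 1 * ((num 100 + num (-7) * (var 1) + num (-145) * (var 2)) + (num 76 * (var 1) + num 80 * (var 2)) * var 3)
  vs := num 1
  mu := ⟨(190, 100), (244, 100)⟩
  pn := fun b => cond b
    (num 100 * (num 100 - (((num 1 - num 2 * (var 0 * var 1) - var 0) * var 1) * (num 100 + num (-7) * (var 1) + num (-145) * (var 2)) + ((num 1 - num 2 * (var 0 * var 1) - var 0) * var 1) * (num 76 * (var 1) + num 80 * (var 2)) * var 3)) + num (-244) * ((((num 1 - num 2 * (var 0 * var 1) - var 0) * var 1) * (num 100 + num (-7) * (var 1) + num (-145) * (var 2)) + ((num 1 - num 2 * (var 0 * var 1) - var 0) * var 1) * (num 76 * (var 1) + num 80 * (var 2)) * var 3) * var 0 * var 2))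
    (num 100 * (num 100 - (((num 1 - num 2 * (var 0 * var 1) - var 0) * var 1) * (num 100 + num (-7) * (var 1) + num (-145) * (var 2)) + ((num 1 - num 2 * (var 0 * var 1) - var 0) * var 1) * (num 76 * (var 1) + num 80 * (var 2)) * var 3)) + num (-190) * ((((num 1 - num 2 * (var 0 * var 1) - var 0) * var 1) * (num 100 + num (-7) * (var 1) + num (-145) * (var 2)) + ((num 1 - num 2 * (var 0 * var 1) - var 0) * var 1) * (num 76 * (var 1) + num 80 * (var 2)) * var 3) * var 0 * var 2))
  pd := num 100
  en := fun b => cond b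
    (num 1019 * (num 1581 * (var 0) * (var 1) + num (-505) * (var 0) * (var 0) * (var 1) + num 1028 * (var 2) + num 459 * (var 2) * (var 0) + num (-447) * (var 0) * (var 1) * (var 1)))
    (num 982 * (num 1581 * (var 0) * (var 1) + num (-505) * (var 0) * (var 0) * (var 1) + num 1028 * (var 2) + num 459 * (var 2) * (var 0) + num (-447) * (var 0) * (var 1) * (var 1)))
  kk := fun b => cond b
    (num 1005 * (num 901 * (var 2) * (var 0) + num 842 * (var 2) * (var 0) * (var 0) + num 1228 * (var 2) * (var 0) * (var 1) + num 1 * (var 2) * (var 0) * (var 3)))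
    (num 989 * (num 901 * (var 2) * (var 0) + num 842 * (var 2) * (var 0) * (var 0) + num 1228 * (var 2) * (var 0) * (var 1) + num 1 * (var 2) * (var 0) * (var 3)))
  f0 := num 100000
  wn := fun b => cond b
    (num 1000 * (num (-800) * (var 0 * var 1) + (num 8 * (var 0 * var 1) + num 4 * var 0 * var 2) * (((num 1 - num 2 * (var 0 * var 1) - var 0) * var 1) * (num 100 + num (-7) * (var 1) + num (-145) * (var 2)) + ((num 1 - num 2 * (var 0 * var 1) - var 0) * var 1) * (num 76 * (var 1) + num 80 * (var 2)) * var 3) + var 0 * var 1 * var 0 * (num (-800) + (num 311 * (var 1) + num 1078 * (var 2) + num (-1182) * (var 1) * (var 0) + num (-1649) * (var 2) * (var 0) + num 127 * (var 1) * (var 3) + num (-16) * (var 2) * (var 3)))) + num 1176 * (num 100 * (var 0 * var 1 * var 0) * (num 1 * (var 1) + num 1 * (var 2))))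
    (num 1000 * (num (-800) * (var 0 * var 1) + (num 8 * (var 0 * var 1) + num 4 * var 0 * var 2) * (((num 1 - num 2 * (var 0 * var 1) - var 0) * var 1) * (num 100 + num (-7) * (var 1) + num (-145) * (var 2)) + ((num 1 - num 2 * (var 0 * var 1) - var 0) * var 1) * (num 76 * (var 1) + num 80 * (var 2)) * var 3) + var 0 * var 1 * var 0 * (num (-800) + (num 311 * (var 1) + num 1078 * (var 2) + num (-1182) * (var 1) * (var 0) + num (-1649) * (var 2) * (var 0) + num 127 * (var 1) * (var 3) + num (-16) * (var 2) * (var 3)))) + num (-1383) * (num 100 * (var 0 * var 1 * var 0) * (num 1 * (var 1) + num 1 * (var 2))))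
  wd := num 100000
  tn := fun b => cond b
    (num 1009 * (num 51 * (var 2) + num (-4) * (var 2) * (var 0) + num 51 * (var 2) * (var 1) + num 5 * (var 2) * (var 1) * (var 3)))
    (num 991 * (num 51 * (var 2) + num (-4) * (var 2) * (var 0) + num 51 * (var 2) * (var 1) + num 5 * (var 2) * (var 1) * (var 3)))
  td := num 100000
  cn := num 1 - var 0 * var 1 - var 1 * (num 1 - num 2 * (var 0 * var 1))
  cd := (num 1 - num 2 * (var 0 * var 1)) * (num 1 - num 2 * (var 0 * var 1))
  kn := var 0 * var 1 * (num 14 * (var 1) + num 14 * (var 2) + num (-19) * (var 1) * (var 0) + num 681 * (var 1) * (var 1) + num 19 * (var 2) * (var 0) + num (-12) * (var 2) * (var 3) + num (-1) * (var 1) * (var 3) + num 12604 * (var 1) * (var 2) + num 1737 * (var 1) * (var 1) * (var 3))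
  kd := num 100 * (var 1 + var 2)
  k2n := var 0 * (num 256 * (var 1) + num 443 * (var 2) + num (-65) * (var 1) * (var 3) + num 116 * (var 0) * (var 1) + num (-3195) * (var 1) * (var 2) + num (-510) * (var 2) * (var 3) + num (-362) * (var 1) * (var 1) + num 1009 * (var 0) * (var 2))
  k2d := num 100 * (var 1 + var 2)

/-- Its ranges. -/
def bxD101 : StripEnd.EBox :=
  ⟨(61, 63, 200), (0, 15, 122), (0, 1, 100), (0, 1, 1)⟩

/-- Its excess. -/
def shD101 : Shift where
  xn := (num (-67402595) + num 241299000 * (var 0) + num (-6447600) * (var 1)) * pow (var 1) 3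
  xd := num 20000
  yn := num 10409 * var 1
  yd := num 1000
  gn := num 1040900 * ((num (-67402595) + num 241299000 * (var 0) + num (-6447600) * (var 1)) * pow (var 1) 3)
  gd := num 31040000000 * var 0
  hn := (num (-67402595) + num 241299000 * (var 0) + num (-6447600) * (var 1)) * pow (var 1) 2
  hd := num 7760000
  ln := num 72 * ((num (-67402595) + num 241299000 * (var 0) + num (-6447600) * (var 1)) * pow (var 1) 3)

/-- The chart `D102`. -/
def chD102 : EndChart where
  I := var 0 * var 1
  d := var 0
  w := var 0 * var 2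
  den := num 100
  n₀ := ((num 1 - num 2 * (var 0 * var 1) - var 0) * var 1) * (num 100 + num (-4) * (var 1) + num (-145) * (var 2))
  n₁ := ((num 1 - num 2 * (var 0 * var 1) - var 0) * var 1) * (num 75 * (var 1) + num 80 * (var 2))
  q₀ := (63, 66, 200)
  q₁ := (0, 3, 29)
  q₂ := (0, 1, 100)
  q₃ := (0, 1, 1)
  t₀ := (0, 1)
  t₁ := (1, 1)
  mu₀ := (190, 100)
  mu₁ := (240, 100)

/-- The piece `D102`. -/
def pcD102 : Piece where
  I := var 0 * var 1
  d := var 0
  w := var 0 * var 2
  o := (((num 1 - num 2 * (var 0 * var 1) - var 0) * var 1) * (num 100 + num (-4) * (var 1) + num (-145) * (var 2)) + ((num 1 - num 2 * (var 0 * var 1) - var 0) * var 1) * (num 75 * (var 1) + num 80 * (var 2)) * var 3)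
  den := num 100
  vn := num 2 * var 1 * ((num 100 + num (-4) * (var 1) + num (-145) * (var 2)) + (num 75 * (var 1) + num 80 * (var 2)) * var 3)
  vs := num 1
  mu := ⟨(190, 100), (240, 100)⟩
  pn := fun b => cond b
    (num 100 * (num 100 - (((num 1 - num 2 * (var 0 * var 1) - var 0) * var 1) * (num 100 + num (-4) * (var 1) + num (-145) * (var 2)) + ((num 1 - num 2 * (var 0 * var 1) - var 0) * var 1) * (num 75 * (var 1) + num 80 * (var 2)) * var 3)) + num (-240) * ((((num 1 - num 2 * (var 0 * var 1) - var 0) * var 1) * (num 100 + num (-4) * (var 1) + num (-145) * (var 2)) + ((num 1 - num 2 * (var 0 * var 1) - var 0) * var 1) * (num 75 * (var 1) + num 80 * (var 2)) * var 3) * var 0 * var 2))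
    (num 100 * (num 100 - (((num 1 - num 2 * (var 0 * var 1) - var 0) * var 1) * (num 100 + num (-4) * (var 1) + num (-145) * (var 2)) + ((num 1 - num 2 * (var 0 * var 1) - var 0) * var 1) * (num 75 * (var 1) + num 80 * (var 2)) * var 3)) + num (-190) * ((((num 1 - num 2 * (var 0 * var 1) - var 0) * var 1) * (num 100 + num (-4) * (var 1) + num (-145) * (var 2)) + ((num 1 - num 2 * (var 0 * var 1) - var 0) * var 1) * (num 75 * (var 1) + num 80 * (var 2)) * var 3) * var 0 * var 2))
  pd := num 100
  en := fun b => cond b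
    (num 1017 * (num 1606 * (var 0) * (var 1) + num (-597) * (var 0) * (var 0) * (var 1) + num 1045 * (var 2) + num 415 * (var 2) * (var 0) + num (-398) * (var 0) * (var 1) * (var 1)))
    (num 982 * (num 1606 * (var 0) * (var 1) + num (-597) * (var 0) * (var 0) * (var 1) + num 1045 * (var 2) + num 415 * (var 2) * (var 0) + num (-398) * (var 0) * (var 1) * (var 1)))
  kk := fun b => cond b
    (num 1004 * (num 938 * (var 2) * (var 0) + num 722 * (var 2) * (var 0) * (var 0) + num 1262 * (var 2) * (var 0) * (var 1) + num 1 * (var 2) * (var 0) * (var 3)))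
    (num 991 * (num 938 * (var 2) * (var 0) + num 722 * (var 2) * (var 0) * (var 0) + num 1262 * (var 2) * (var 0) * (var 1) + num 1 * (var 2) * (var 0) * (var 3)))
  f0 := num 100000
  wn := fun b => cond b
    (num 1000 * (num (-800) * (var 0 * var 1) + (num 8 * (var 0 * var 1) + num 4 * var 0 * var 2) * (((num 1 - num 2 * (var 0 * var 1) - var 0) * var 1) * (num 100 + num (-4) * (var 1) + num (-145) * (var 2)) + ((num 1 - num 2 * (var 0 * var 1) - var 0) * var 1) * (num 75 * (var 1) + num 80 * (var 2)) * var 3) + var 0 * var 1 * var 0 * (num (-800) + (num 287 * (var 1) + num 1029 * (var 2) + num (-1099) * (var 1) * (var 0) + num (-1487) * (var 2) * (var 0) + num 108 * (var 1) * (var 3) + num (-9) * (var 2) * (var 3)))) + num 1032 * (num 100 * (var 0 * var 1 * var 0) * (num 1 * (var 1) + num 1 * (var 2))))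
    (num 1000 * (num (-800) * (var 0 * var 1) + (num 8 * (var 0 * var 1) + num 4 * var 0 * var 2) * (((num 1 - num 2 * (var 0 * var 1) - var 0) * var 1) * (num 100 + num (-4) * (var 1) + num (-145) * (var 2)) + ((num 1 - num 2 * (var 0 * var 1) - var 0) * var 1) * (num 75 * (var 1) + num 80 * (var 2)) * var 3) + var 0 * var 1 * var 0 * (num (-800) + (num 287 * (var 1) + num 1029 * (var 2) + num (-1099) * (var 1) * (var 0) + num (-1487) * (var 2) * (var 0) + num 108 * (var 1) * (var 3) + num (-9) * (var 2) * (var 3)))) + num (-1286) * (num 100 * (var 0 * var 1 * var 0) * (num 1 * (var 1) + num 1 * (var 2))))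
  wd := num 100000
  tn := fun b => cond b
    (num 1003 * (num 51 * (var 2) + num (-3) * (var 2) * (var 0) + num 51 * (var 2) * (var 1) + num 4 * (var 2) * (var 1) * (var 3)))
    (num 987 * (num 51 * (var 2) + num (-3) * (var 2) * (var 0) + num 51 * (var 2) * (var 1) + num 4 * (var 2) * (var 1) * (var 3)))
  td := num 100000
  cn := num 1 - var 0 * var 1 - var 1 * (num 1 - num 2 * (var 0 * var 1))
  cd := (num 1 - num 2 * (var 0 * var 1)) * (num 1 - num 2 * (var 0 * var 1))
  kn := var 0 * var 1 * (num 9 * (var 1) + num 10 * (var 2) + num (-14) * (var 1) * (var 0) + num 583 * (var 1) * (var 1) + num 19 * (var 2) * (var 0) + num (-12) * (var 2) * (var 3) + num (-1) * (var 1) * (var 3) + num 12180 * (var 1) * (var 2) + num 1747 * (var 1) * (var 1) * (var 3))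
  kd := num 100 * (var 1 + var 2)
  k2n := var 0 * (num 218 * (var 1) + num 481 * (var 2) + num (-63) * (var 1) * (var 3) + num 155 * (var 0) * (var 1) + num (-2604) * (var 1) * (var 2) + num (-458) * (var 2) * (var 3) + num (-308) * (var 1) * (var 1) + num 683 * (var 0) * (var 2))
  k2d := num 100 * (var 1 + var 2)

/-- Its ranges. -/
def bxD102 : StripEnd.EBox :=
  ⟨(63, 66, 200), (0, 3, 29), (0, 1, 100), (0, 1, 1)⟩

/-- Its excess. -/
def shD102 : Shift where
  xn := (num (-68045693) + num 237402200 * (var 0) + num (-7936200) * (var 1)) * pow (var 1) 3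
  xd := num 20000
  yn := num 11314 * var 1
  yd := num 1000
  gn := num 1131400 * ((num (-68045693) + num 237402200 * (var 0) + num (-7936200) * (var 1)) * pow (var 1) 3)
  gd := num 31360000000 * var 0
  hn := (num (-68045693) + num 237402200 * (var 0) + num (-7936200) * (var 1)) * pow (var 1) 2
  hd := num 7840000
  ln := num 72 * ((num (-68045693) + num 237402200 * (var 0) + num (-7936200) * (var 1)) * pow (var 1) 3)

/-- The chart `D103`. -/
def chD103 : EndChart where
  I := var 0 * var 1
  d := var 0
  w := var 0 * var 2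
  den := num 100
  n₀ := ((num 1 - num 2 * (var 0 * var 1) - var 0) * var 1) * (num 100 + num (-1) * (var 1) + num (-145) * (var 2))
  n₁ := ((num 1 - num 2 * (var 0 * var 1) - var 0) * var 1) * (num 74 * (var 1) + num 85 * (var 2))
  q₀ := (66, 69, 200)
  q₁ := (0, 5, 66)
  q₂ := (0, 1, 100)
  q₃ := (0, 1, 1)
  t₀ := (0, 1)
  t₁ := (1, 1)
  mu₀ := (190, 100)
  mu₁ := (232, 100)

/-- The piece `D103`. -/
def pcD103 : Piece where
  I := var 0 * var 1
  d := var 0
  w := var 0 * var 2
  o := (((num 1 - num 2 * (var 0 * var 1) - var 0) * var 1) * (num 100 + num (-1) * (var 1) + num (-145) * (var 2)) + ((num 1 - num 2 * (var 0 * var 1) - var 0) * var 1) * (num 74 * (var 1) + num 85 * (var 2)) * var 3)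
  den := num 100
  vn := num 2 * var 1 * ((num 100 + num (-1) * (var 1) + num (-145) * (var 2)) + (num 74 * (var 1) + num 85 * (var 2)) * var 3)
  vs := num 1
  mu := ⟨(190, 100), (232, 100)⟩
  pn := fun b => cond b
    (num 100 * (num 100 - (((num 1 - num 2 * (var 0 * var 1) - var 0) * var 1) * (num 100 + num (-1) * (var 1) + num (-145) * (var 2)) + ((num 1 - num 2 * (var 0 * var 1) - var 0) * var 1) * (num 74 * (var 1) + num 85 * (var 2)) * var 3)) + num (-232) * ((((num 1 - num 2 * (var 0 * var 1) - var 0) * var 1) * (num 100 + num (-1) * (var 1) + num (-145) * (var 2)) + ((num 1 - num 2 * (var 0 * var 1) - var 0) * var 1) * (num 74 * (var 1) + num 85 * (var 2)) * var 3) * var 0 * var 2))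
    (num 100 * (num 100 - (((num 1 - num 2 * (var 0 * var 1) - var 0) * var 1) * (num 100 + num (-1) * (var 1) + num (-145) * (var 2)) + ((num 1 - num 2 * (var 0 * var 1) - var 0) * var 1) * (num 74 * (var 1) + num 85 * (var 2)) * var 3)) + num (-190) * ((((num 1 - num 2 * (var 0 * var 1) - var 0) * var 1) * (num 100 + num (-1) * (var 1) + num (-145) * (var 2)) + ((num 1 - num 2 * (var 0 * var 1) - var 0) * var 1) * (num 74 * (var 1) + num 85 * (var 2)) * var 3) * var 0 * var 2))
  pd := num 100
  en := fun b => cond b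
    (num 1015 * (num 1592 * (var 0) * (var 1) + num (-575) * (var 0) * (var 0) * (var 1) + num 1093 * (var 2) + num 280 * (var 2) * (var 0) + num (-322) * (var 0) * (var 1) * (var 1)))
    (num 984 * (num 1592 * (var 0) * (var 1) + num (-575) * (var 0) * (var 0) * (var 1) + num 1093 * (var 2) + num 280 * (var 2) * (var 0) + num (-322) * (var 0) * (var 1) * (var 1)))
  kk := fun b => cond b
    (num 1002 * (num 979 * (var 2) * (var 0) + num 595 * (var 2) * (var 0) * (var 0) + num 1304 * (var 2) * (var 0) * (var 1) + num 1 * (var 2) * (var 0) * (var 3)))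
    (num 994 * (num 979 * (var 2) * (var 0) + num 595 * (var 2) * (var 0) * (var 0) + num 1304 * (var 2) * (var 0) * (var 1) + num 1 * (var 2) * (var 0) * (var 3)))
  f0 := num 100000
  wn := fun b => cond b
    (num 1000 * (num (-800) * (var 0 * var 1) + (num 8 * (var 0 * var 1) + num 4 * var 0 * var 2) * (((num 1 - num 2 * (var 0 * var 1) - var 0) * var 1) * (num 100 + num (-1) * (var 1) + num (-145) * (var 2)) + ((num 1 - num 2 * (var 0 * var 1) - var 0) * var 1) * (num 74 * (var 1) + num 85 * (var 2)) * var 3) + var 0 * var 1 * var 0 * (num (-800) + (num 335 * (var 1) + num 1004 * (var 2) + num (-1239) * (var 1) * (var 0) + num (-1406) * (var 2) * (var 0) + num 86 * (var 1) * (var 3)))) + num 819 * (num 100 * (var 0 * var 1 * var 0) * (num 1 * (var 1) + num 1 * (var 2))))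
    (num 1000 * (num (-800) * (var 0 * var 1) + (num 8 * (var 0 * var 1) + num 4 * var 0 * var 2) * (((num 1 - num 2 * (var 0 * var 1) - var 0) * var 1) * (num 100 + num (-1) * (var 1) + num (-145) * (var 2)) + ((num 1 - num 2 * (var 0 * var 1) - var 0) * var 1) * (num 74 * (var 1) + num 85 * (var 2)) * var 3) + var 0 * var 1 * var 0 * (num (-800) + (num 335 * (var 1) + num 1004 * (var 2) + num (-1239) * (var 1) * (var 0) + num (-1406) * (var 2) * (var 0) + num 86 * (var 1) * (var 3)))) + num (-967) * (num 100 * (var 0 * var 1 * var 0) * (num 1 * (var 1) + num 1 * (var 2))))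
  wd := num 100000
  tn := fun b => cond b
    (num 996 * (num 51 * (var 2) + num (-2) * (var 2) * (var 0) + num 50 * (var 2) * (var 1) + num 3 * (var 2) * (var 1) * (var 3)))
    (num 985 * (num 51 * (var 2) + num (-2) * (var 2) * (var 0) + num 50 * (var 2) * (var 1) + num 3 * (var 2) * (var 1) * (var 3)))
  td := num 100000
  cn := num 1 - var 0 * var 1 - var 1 * (num 1 - num 2 * (var 0 * var 1))
  cd := (num 1 - num 2 * (var 0 * var 1)) * (num 1 - num 2 * (var 0 * var 1))
  kn := var 0 * var 1 * (num 17 * (var 1) + num 10 * (var 2) + num (-39) * (var 1) * (var 0) + num 520 * (var 1) * (var 1) + num 18 * (var 2) * (var 0) + num (-11) * (var 2) * (var 3) + num 11182 * (var 1) * (var 2) + num 1691 * (var 1) * (var 1) * (var 3))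
  kd := num 100 * (var 1 + var 2)
  k2n := var 0 * (num 193 * (var 1) + num 557 * (var 2) + num (-74) * (var 1) * (var 3) + num 180 * (var 0) * (var 1) + num (-2286) * (var 1) * (var 2) + num (-443) * (var 2) * (var 3) + num (-232) * (var 1) * (var 1) + num 334 * (var 0) * (var 2))
  k2d := num 100 * (var 1 + var 2)

/-- Its ranges. -/
def bxD103 : StripEnd.EBox :=
  ⟨(66, 69, 200), (0, 5, 66), (0, 1, 100), (0, 1, 1)⟩

/-- Its excess. -/
def shD103 : Shift where
  xn := (num (-41143932) + num 136680400 * (var 0) + num (-5462200) * (var 1)) * pow (var 1) 3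
  xd := num 10000
  yn := num 12031 * var 1
  yd := num 1000
  gn := num 1203100 * ((num (-41143932) + num 136680400 * (var 0) + num (-5462200) * (var 1)) * pow (var 1) 3)
  gd := num 15680000000 * var 0
  hn := (num (-41143932) + num 136680400 * (var 0) + num (-5462200) * (var 1)) * pow (var 1) 2
  hd := num 3920000
  ln := num 72 * ((num (-41143932) + num 136680400 * (var 0) + num (-5462200) * (var 1)) * pow (var 1) 3)

/-- The chart `D104`. -/
def chD104 : EndChart where
  I := var 0 * var 1
  d := var 0
  w := var 0 * var 2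
  den := num 100
  n₀ := ((num 1 - num 2 * (var 0 * var 1) - var 0) * var 1) * (num 100 + num 2 * (var 1) + num (-145) * (var 2))
  n₁ := ((num 1 - num 2 * (var 0 * var 1) - var 0) * var 1) * (num 73 * (var 1) + num 85 * (var 2))
  q₀ := (69, 72, 200)
  q₁ := (0, 3, 59)
  q₂ := (0, 1, 100)
  q₃ := (0, 1, 1)
  t₀ := (0, 1)
  t₁ := (1, 1)
  mu₀ := (190, 100)
  mu₁ := (224, 100)

/-- The piece `D104`. -/
def pcD104 : Piece where
  I := var 0 * var 1
  d := var 0
  w := var 0 * var 2
  o := (((num 1 - num 2 * (var 0 * var 1) - var 0) * var 1) * (num 100 + num 2 * (var 1) + num (-145) * (var 2)) + ((num 1 - num 2 * (var 0 * var 1) - var 0) * var 1) * (num 73 * (var 1) + num 85 * (var 2)) * var 3)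
  den := num 100
  vn := num 2 * var 1 * ((num 100 + num 2 * (var 1) + num (-145) * (var 2)) + (num 73 * (var 1) + num 85 * (var 2)) * var 3)
  vs := num 1
  mu := ⟨(190, 100), (224, 100)⟩
  pn := fun b => cond b
    (num 100 * (num 100 - (((num 1 - num 2 * (var 0 * var 1) - var 0) * var 1) * (num 100 + num 2 * (var 1) + num (-145) * (var 2)) + ((num 1 - num 2 * (var 0 * var 1) - var 0) * var 1) * (num 73 * (var 1) + num 85 * (var 2)) * var 3)) + num (-224) * ((((num 1 - num 2 * (var 0 * var 1) - var 0) * var 1) * (num 100 + num 2 * (var 1) + num (-145) * (var 2)) + ((num 1 - num 2 * (var 0 * var 1) - var 0) * var 1) * (num 73 * (var 1) + num 85 * (var 2)) * var 3) * var 0 * var 2))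
    (num 100 * (num 100 - (((num 1 - num 2 * (var 0 * var 1) - var 0) * var 1) * (num 100 + num 2 * (var 1) + num (-145) * (var 2)) + ((num 1 - num 2 * (var 0 * var 1) - var 0) * var 1) * (num 73 * (var 1) + num 85 * (var 2)) * var 3)) + num (-190) * ((((num 1 - num 2 * (var 0 * var 1) - var 0) * var 1) * (num 100 + num 2 * (var 1) + num (-145) * (var 2)) + ((num 1 - num 2 * (var 0 * var 1) - var 0) * var 1) * (num 73 * (var 1) + num 85 * (var 2)) * var 3) * var 0 * var 2))
  pd := num 100
  en := fun b => cond b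
    (num 1013 * (num 1598 * (var 0) * (var 1) + num (-609) * (var 0) * (var 0) * (var 1) + num 1139 * (var 2) + num 156 * (var 2) * (var 0) + num (-212) * (var 0) * (var 1) * (var 1)))
    (num 986 * (num 1598 * (var 0) * (var 1) + num (-609) * (var 0) * (var 0) * (var 1) + num 1139 * (var 2) + num 156 * (var 2) * (var 0) + num (-212) * (var 0) * (var 1) * (var 1)))
  kk := fun b => cond b
    (num 1002 * (num 1017 * (var 2) * (var 0) + num 482 * (var 2) * (var 0) * (var 0) + num 1340 * (var 2) * (var 0) * (var 1)))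
    (num 997 * (num 1017 * (var 2) * (var 0) + num 482 * (var 2) * (var 0) * (var 0) + num 1340 * (var 2) * (var 0) * (var 1)))
  f0 := num 100000
  wn := fun b => cond b
    (num 1000 * (num (-800) * (var 0 * var 1) + (num 8 * (var 0 * var 1) + num 4 * var 0 * var 2) * (((num 1 - num 2 * (var 0 * var 1) - var 0) * var 1) * (num 100 + num 2 * (var 1) + num (-145) * (var 2)) + ((num 1 - num 2 * (var 0 * var 1) - var 0) * var 1) * (num 73 * (var 1) + num 85 * (var 2)) * var 3) + var 0 * var 1 * var 0 * (num (-800) + (num 356 * (var 1) + num 957 * (var 2) + num (-1277) * (var 1) * (var 0) + num (-1268) * (var 2) * (var 0) + num 59 * (var 1) * (var 3) + num 9 * (var 2) * (var 3)))) + num 566 * (num 100 * (var 0 * var 1 * var 0) * (num 1 * (var 1) + num 1 * (var 2))))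
    (num 1000 * (num (-800) * (var 0 * var 1) + (num 8 * (var 0 * var 1) + num 4 * var 0 * var 2) * (((num 1 - num 2 * (var 0 * var 1) - var 0) * var 1) * (num 100 + num 2 * (var 1) + num (-145) * (var 2)) + ((num 1 - num 2 * (var 0 * var 1) - var 0) * var 1) * (num 73 * (var 1) + num 85 * (var 2)) * var 3) + var 0 * var 1 * var 0 * (num (-800) + (num 356 * (var 1) + num 957 * (var 2) + num (-1277) * (var 1) * (var 0) + num (-1268) * (var 2) * (var 0) + num 59 * (var 1) * (var 3) + num 9 * (var 2) * (var 3)))) + num (-723) * (num 100 * (var 0 * var 1 * var 0) * (num 1 * (var 1) + num 1 * (var 2))))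
  wd := num 100000
  tn := fun b => cond b
    (num 1009 * (num 50 * (var 2) + num (-1) * (var 2) * (var 0) + num 49 * (var 2) * (var 1) + num 3 * (var 2) * (var 1) * (var 3)))
    (num 1000 * (num 50 * (var 2) + num (-1) * (var 2) * (var 0) + num 49 * (var 2) * (var 1) + num 3 * (var 2) * (var 1) * (var 3)))
  td := num 100000
  cn := num 1 - var 0 * var 1 - var 1 * (num 1 - num 2 * (var 0 * var 1))
  cd := (num 1 - num 2 * (var 0 * var 1)) * (num 1 - num 2 * (var 0 * var 1))
  kn := var 0 * var 1 * (num 7 * (var 1) + num 11 * (var 2) + num (-12) * (var 1) * (var 0) + num 522 * (var 1) * (var 1) + num 17 * (var 2) * (var 0) + num (-12) * (var 2) * (var 3) + num 1 * (var 1) * (var 3) + num 9981 * (var 1) * (var 2) + num 1587 * (var 1) * (var 1) * (var 3))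
  kd := num 100 * (var 1 + var 2)
  k2n := var 0 * (num 187 * (var 1) + num 579 * (var 2) + num (-86) * (var 1) * (var 3) + num 172 * (var 0) * (var 1) + num (-2420) * (var 1) * (var 2) + num (-428) * (var 2) * (var 3) + num (-92) * (var 1) * (var 1) + num 243 * (var 0) * (var 2))
  k2d := num 100 * (var 1 + var 2)

/-- Its ranges. -/
def bxD104 : StripEnd.EBox :=
  ⟨(69, 72, 200), (0, 3, 59), (0, 1, 100), (0, 1, 1)⟩

/-- Its excess. -/
def shD104 : Shift where
  xn := (num (-10619496) + num 65076800 * (var 0) + num (-9178400) * (var 1)) * pow (var 1) 3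
  xd := num 20000
  yn := num 11906 * var 1
  yd := num 1000
  gn := num 1190600 * ((num (-10619496) + num 65076800 * (var 0) + num (-9178400) * (var 1)) * pow (var 1) 3)
  gd := num 31360000000 * var 0
  hn := (num (-10619496) + num 65076800 * (var 0) + num (-9178400) * (var 1)) * pow (var 1) 2
  hd := num 7840000
  ln := num 84 * ((num (-10619496) + num 65076800 * (var 0) + num (-9178400) * (var 1)) * pow (var 1) 3)

/-- The chart `D105`. -/
def chD105 : EndChart where
  I := var 0 * var 1
  d := var 0
  w := var 0 * var 2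
  den := num 100
  n₀ := ((num 1 - num 2 * (var 0 * var 1) - var 0) * var 1) * (num 100 + num 5 * (var 1) + num (-145) * (var 2))
  n₁ := ((num 1 - num 2 * (var 0 * var 1) - var 0) * var 1) * (num 73 * (var 1) + num 85 * (var 2))
  q₀ := (18, 19, 50)
  q₁ := (0, 1, 36)
  q₂ := (0, 1, 100)
  q₃ := (0, 1, 1)
  t₀ := (0, 1)
  t₁ := (1, 1)
  mu₀ := (190, 100)
  mu₁ := (216, 100)

/-- The piece `D105`. -/
def pcD105 : Piece where
  I := var 0 * var 1
  d := var 0
  w := var 0 * var 2
  o := (((num 1 - num 2 * (var 0 * var 1) - var 0) * var 1) * (num 100 + num 5 * (var 1) + num (-145) * (var 2)) + ((num 1 - num 2 * (var 0 * var 1) - var 0) * var 1) * (num 73 * (var 1) + num 85 * (var 2)) * var 3)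
  den := num 100
  vn := num 2 * var 1 * ((num 100 + num 5 * (var 1) + num (-145) * (var 2)) + (num 73 * (var 1) + num 85 * (var 2)) * var 3)
  vs := num 1
  mu := ⟨(190, 100), (216, 100)⟩
  pn := fun b => cond b
    (num 100 * (num 100 - (((num 1 - num 2 * (var 0 * var 1) - var 0) * var 1) * (num 100 + num 5 * (var 1) + num (-145) * (var 2)) + ((num 1 - num 2 * (var 0 * var 1) - var 0) * var 1) * (num 73 * (var 1) + num 85 * (var 2)) * var 3)) + num (-216) * ((((num 1 - num 2 * (var 0 * var 1) - var 0) * var 1) * (num 100 + num 5 * (var 1) + num (-145) * (var 2)) + ((num 1 - num 2 * (var 0 * var 1) - var 0) * var 1) * (num 73 * (var 1) + num 85 * (var 2)) * var 3) * var 0 * var 2))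
    (num 100 * (num 100 - (((num 1 - num 2 * (var 0 * var 1) - var 0) * var 1) * (num 100 + num 5 * (var 1) + num (-145) * (var 2)) + ((num 1 - num 2 * (var 0 * var 1) - var 0) * var 1) * (num 73 * (var 1) + num 85 * (var 2)) * var 3)) + num (-190) * ((((num 1 - num 2 * (var 0 * var 1) - var 0) * var 1) * (num 100 + num 5 * (var 1) + num (-145) * (var 2)) + ((num 1 - num 2 * (var 0 * var 1) - var 0) * var 1) * (num 73 * (var 1) + num 85 * (var 2)) * var 3) * var 0 * var 2))
  pd := num 100
  en := fun b => cond b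
    (num 1012 * (num 1622 * (var 0) * (var 1) + num (-690) * (var 0) * (var 0) * (var 1) + num 1191 * (var 2) + num 18 * (var 2) * (var 0) + num (-89) * (var 0) * (var 1) * (var 1)))
    (num 990 * (num 1622 * (var 0) * (var 1) + num (-690) * (var 0) * (var 0) * (var 1) + num 1191 * (var 2) + num 18 * (var 2) * (var 0) + num (-89) * (var 0) * (var 1) * (var 1)))
  kk := fun b => cond b
    (num 1002 * (num 1054 * (var 2) * (var 0) + num 379 * (var 2) * (var 0) * (var 0) + num 1370 * (var 2) * (var 0) * (var 1)))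
    (num 998 * (num 1054 * (var 2) * (var 0) + num 379 * (var 2) * (var 0) * (var 0) + num 1370 * (var 2) * (var 0) * (var 1)))
  f0 := num 100000
  wn := fun b => cond b
    (num 1000 * (num (-800) * (var 0 * var 1) + (num 8 * (var 0 * var 1) + num 4 * var 0 * var 2) * (((num 1 - num 2 * (var 0 * var 1) - var 0) * var 1) * (num 100 + num 5 * (var 1) + num (-145) * (var 2)) + ((num 1 - num 2 * (var 0 * var 1) - var 0) * var 1) * (num 73 * (var 1) + num 85 * (var 2)) * var 3) + var 0 * var 1 * var 0 * (num (-800) + (num 353 * (var 1) + num 904 * (var 2) + num (-1255) * (var 1) * (var 0) + num (-1114) * (var 2) * (var 0) + num 37 * (var 1) * (var 3) + num 11 * (var 2) * (var 3)))) + num 348 * (num 100 * (var 0 * var 1 * var 0) * (num 1 * (var 1) + num 1 * (var 2))))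
    (num 1000 * (num (-800) * (var 0 * var 1) + (num 8 * (var 0 * var 1) + num 4 * var 0 * var 2) * (((num 1 - num 2 * (var 0 * var 1) - var 0) * var 1) * (num 100 + num 5 * (var 1) + num (-145) * (var 2)) + ((num 1 - num 2 * (var 0 * var 1) - var 0) * var 1) * (num 73 * (var 1) + num 85 * (var 2)) * var 3) + var 0 * var 1 * var 0 * (num (-800) + (num 353 * (var 1) + num 904 * (var 2) + num (-1255) * (var 1) * (var 0) + num (-1114) * (var 2) * (var 0) + num 37 * (var 1) * (var 3) + num 11 * (var 2) * (var 3)))) + num (-519) * (num 100 * (var 0 * var 1 * var 0) * (num 1 * (var 1) + num 1 * (var 2))))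
  wd := num 100000
  tn := fun b => cond b
    (num 1001 * (num 50 * (var 2) + num 50 * (var 2) * (var 1) + num 2 * (var 2) * (var 1) * (var 3)))
    (num 994 * (num 50 * (var 2) + num 50 * (var 2) * (var 1) + num 2 * (var 2) * (var 1) * (var 3)))
  td := num 100000
  cn := num 1 - var 0 * var 1 - var 1 * (num 1 - num 2 * (var 0 * var 1))
  cd := (num 1 - num 2 * (var 0 * var 1)) * (num 1 - num 2 * (var 0 * var 1))
  kn := var 0 * var 1 * (num 9 * (var 2) + num 1 * (var 1) * (var 0) + num 594 * (var 1) * (var 1) + num 17 * (var 2) * (var 0) + num (-12) * (var 2) * (var 3) + num 1 * (var 1) * (var 3) + num 8615 * (var 1) * (var 2) + num 1440 * (var 1) * (var 1) * (var 3))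
  kd := num 100 * (var 1 + var 2)
  k2n := var 0 * (num 208 * (var 1) + num 563 * (var 2) + num (-94) * (var 1) * (var 3) + num 126 * (var 0) * (var 1) + num (-1952) * (var 1) * (var 2) + num (-403) * (var 2) * (var 3) + num (-39) * (var 1) * (var 1) + num 253 * (var 0) * (var 2))
  k2d := num 100 * (var 1 + var 2)

/-- Its ranges. -/
def bxD105 : StripEnd.EBox :=
  ⟨(18, 19, 50), (0, 1, 36), (0, 1, 100), (0, 1, 1)⟩

/-- Its excess. -/
def shD105 : Shift where
  xn := (num (-9824886) + num 30907600 * (var 0) + num (-1412450) * (var 1)) * pow (var 1) 3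
  xd := num 2500
  yn := num 12882 * var 1
  yd := num 1000
  gn := num 1288200 * ((num (-9824886) + num 30907600 * (var 0) + num (-1412450) * (var 1)) * pow (var 1) 3)
  gd := num 3920000000 * var 0
  hn := (num (-9824886) + num 30907600 * (var 0) + num (-1412450) * (var 1)) * pow (var 1) 2
  hd := num 980000
  ln := num 90 * ((num (-9824886) + num 30907600 * (var 0) + num (-1412450) * (var 1)) * pow (var 1) 3)

end Vale.Agent.P100.Calib.StripEndD
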