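import Vale.Agent.P100.Calib.SlabStripEndDSide
import Vale.Agent.P100.Calib.SlabStripEndBigSgn
import Vale.Agent.P100.Calib.SlabStripEndDCheck46
import Vale.Agent.P100.Calib.SlabStripEndDDataE

/-!
# The checks of the bins `D99` of the strip for `u` near one, `d` large
-/

namespace Vale.Agent.P100.Calib.StripEndD

open Pack hiding ev_add ev_mul
open Pack.Ex StripMid StripEnd

local instance endDCheck59Add : Add Ex := ⟨Ex.add⟩
local instance endDCheck59Sub : Sub Ex := ⟨Ex.sub⟩
local instance endDCheck59Mul : Mul Ex := ⟨Ex.mul⟩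

/-- The checks of `D99`. -/
theorem certD99 : CertS pcD99 shD99 bxD99 := by
  have h_g1 : ∀ s p l : Bool,
      checkFour bxD99.C 267 7 13 6 5
        (pcD99.at ⟨p, l, !s, !s, false⟩ (c1 s)) = true := by
    decide +kernel
  have h_g2FF : ∀ s t : Bool,
      checkSgn bxD99.C 670 21 31 10 10
        (pcD99.at ⟨false, false, true, true, t⟩ (StripEnd.strict (c2 s))) = true := by
    decide +kernel
  have h_g2FT : ∀ s t : Bool,
      checkSgn bxD99.C 670 21 31 10 10
        (pcD99.at ⟨false, true, true, true, t⟩ (StripEnd.strict (c2 s))) = true := by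
    decide +kernel
  have h_g2TF : ∀ s t : Bool,
      checkSgn bxD99.C 670 21 31 10 10
        (pcD99.at ⟨true, false, true, true, t⟩ (StripEnd.strict (c2 s))) = true := by
    decide +kernel
  have h_g2TT : ∀ s t : Bool,
      checkSgn bxD99.C 670 21 31 10 10
        (pcD99.at ⟨true, true, true, true, t⟩ (StripEnd.strict (c2 s))) = true := by
    decide +kernel
  have h_g2 : ∀ s p l t : Bool,
      checkSgn bxD99.C 670 21 31 10 10
        (pcD99.at ⟨p, l, true, true, t⟩ (StripEnd.strict (c2 s))) = true := by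
    intro s p l
    rcases p with _ | _ <;> rcases l with _ | _
    exacts [h_g2FF s, h_g2FT s, h_g2TF s, h_g2TT s]
  have h_gMG : ∀ p l t : Bool,
      checkSgn bxD99.C 523 17 27 8 8
        (pcD99.at ⟨p, l, true, false, t⟩ tplMG) = true := by
    decide +kernel
  have h_v2 : ∀ s : Bool,
      checkFour bxD99.C 190 6 10 5 4
        (pcD99.at ⟨false, false, true, true, false⟩ (curve2 s)) = true := by
    decide +kernel
  have h_v5 : ∀ s : Bool,
      checkFour bxD99.C 189 6 10 5 4
        (pcD99.at ⟨false, false, true, true, false⟩ (curve5 s)) = true := by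
    decide +kernel
  have h_wP : ∀ b hi : Bool,
      checkFour bxD99.C 74 2 3 2 1
        (pcD99.winP b hi) = true := by
    decide +kernel
  have h_wE : ∀ b hi : Bool,
      checkFour bxD99.C 266 11 14 4 3
        (pcD99.winE b hi) = true := by
    decide +kernel
  have h_wK : ∀ b hi : Bool,
      checkFour bxD99.C 254 12 12 4 3
        (pcD99.winK b hi) = true := by
    decide +kernel
  have h_wW : ∀ b : Bool,
      checkFour bxD99.C 219 8 10 5 3
        (pcD99.winW b) = true := by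
    decide +kernel
  have h_wY : ∀ b : Bool,
      checkFour bxD99.C 435 17 21 8 6
        (pcD99.winY b) = true := by
    decide +kernel
  have h_wT : ∀ b hi : Bool,
      checkFour bxD99.C 203 7 9 5 4
        (pcD99.winT b hi) = true := by
    decide +kernel
  have h_g7 : ∀ p l : Bool,
      checkFour bxD99.C 184 5 8 4 2
        (pcD99.atS shD99 ⟨p, l, true, true, false⟩ c7) = true := by
    decide +kernel
  have h_g8 : ∀ p l t : Bool,
      checkSgn bxD99.C 569 20 29 9 9
        (pcD99.atS shD99 ⟨p, l, true, true, t⟩ c8) = true := by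
    decide +kernel
  have h_g9FF : ∀ s t : Bool,
      checkSgn bxD99.C 697 19 31 11 9
        (pcD99.atS shD99 ⟨false, false, true, true, t⟩ (StripEnd.strict (c9 s))) = true := by
    decide +kernel
  have h_g9FT : ∀ s t : Bool,
      checkSgn bxD99.C 697 19 31 11 9
        (pcD99.atS shD99 ⟨false, true, true, true, t⟩ (StripEnd.strict (c9 s))) = true := by
    decide +kernel
  have h_g9TF : ∀ s t : Bool,
      checkSgn bxD99.C 697 19 31 11 9
        (pcD99.atS shD99 ⟨true, false, true, true, t⟩ (StripEnd.strict (c9 s))) = true := by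
    decide +kernel
  have h_g9TT : ∀ s t : Bool,
      checkSgn bxD99.C 697 19 31 11 9
        (pcD99.atS shD99 ⟨true, true, true, true, t⟩ (StripEnd.strict (c9 s))) = true := by
    decide +kernel
  have h_g9 : ∀ s p l t : Bool,
      checkSgn bxD99.C 697 19 31 11 9
        (pcD99.atS shD99 ⟨p, l, true, true, t⟩ (StripEnd.strict (c9 s))) = true := by
    intro s p l
    rcases p with _ | _ <;> rcases l with _ | _
    exacts [h_g9FF s, h_g9FT s, h_g9TF s, h_g9TT s]
  have h_v9 : ∀ s : Bool,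
      checkFour bxD99.C 191 6 10 5 4
        (pcD99.at ⟨false, false, true, true, false⟩ (curve9 s)) = true := by
    decide +kernel
  have h_gapS : ∀ b t : Bool,
      checkSgn bxD99.C 529 22 27 8 6
        (pcD99.gapS shD99 b t) = true := by
    decide +kernel
  exact {
    pos := ⟨by norm_num [pcD99], by norm_num [pcD99]⟩
    low := ⟨by norm_num [bxD99], by norm_num [bxD99], by norm_num [bxD99]⟩
    sgns := fun f => by
      cases f
      case I => exact ⟨143, 3, 3, 3, 0, by decide +kernel⟩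
      case d => exact ⟨146, 3, 3, 3, 0, by decide +kernel⟩
      case A => exact ⟨148, 3, 3, 3, 0, by decide +kernel⟩
      case S => exact ⟨148, 3, 3, 3, 0, by decide +kernel⟩
      case U => exact ⟨148, 3, 3, 3, 0, by decide +kernel⟩
      case den => exact ⟨154, 3, 3, 3, 0, by decide +kernel⟩
      case o => exact ⟨152, 3, 3, 3, 1, by decide +kernel⟩
      case olt => exact ⟨156, 3, 3, 3, 1, by decide +kernel⟩
      case pd => exact ⟨154, 3, 3, 3, 0, by decide +kernel⟩
      case e0 => exact ⟨163, 3, 3, 3, 0, by decide +kernel⟩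
      case f0 => exact ⟨164, 3, 3, 3, 0, by decide +kernel⟩
      case wd => exact ⟨164, 3, 3, 3, 0, by decide +kernel⟩
      case td => exact ⟨164, 3, 3, 3, 0, by decide +kernel⟩
      case cd => exact ⟨148, 3, 3, 3, 0, by decide +kernel⟩
      case kd => exact ⟨151, 3, 3, 3, 0, by decide +kernel⟩
    kn := ⟨44, 2, 3, 1, 1, by decide +kernel⟩
    k2n := ⟨152, 3, 3, 3, 1, by decide +kernel⟩
    k2d := ⟨151, 3, 3, 3, 0, by decide +kernel⟩
    vs := ⟨148, 3, 3, 3, 0, by decide +kernel⟩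
    vMG := ⟨156, 5, 8, 4, 4, by decide +kernel⟩
    xn := ⟨47, 1, 4, 0, 0, by decide +kernel⟩
    xd := ⟨159, 3, 3, 3, 0, by decide +kernel⟩
    yn := ⟨158, 3, 3, 3, 0, by decide +kernel⟩
    yd := ⟨158, 3, 3, 3, 0, by decide +kernel⟩
    gd := ⟨178, 3, 3, 3, 0, by decide +kernel⟩
    hn := ⟨45, 1, 3, 0, 0, by decide +kernel⟩
    hd := ⟨168, 3, 3, 3, 0, by decide +kernel⟩
    s8 := ⟨159, 3, 8, 2, 2, by decide +kernel⟩
    s9 := ⟨172, 5, 10, 4, 2, by decide +kernel⟩
    sg := ⟨82, 1, 5, 1, 1, by decide +kernel⟩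
    g1 := fun s p l => ⟨267, 7, 13, 6, 5, h_g1 s p l⟩
    g2 := fun s p l t => ⟨670, 21, 31, 10, 10, checkFour_of_sgn (h_g2 s p l t)⟩
    gMG := fun p l t => ⟨523, 17, 27, 8, 8, checkFour_of_sgn (h_gMG p l t)⟩
    v2 := fun s => ⟨190, 6, 10, 5, 4, h_v2 s⟩
    v5 := fun s => ⟨189, 6, 10, 5, 4, h_v5 s⟩
    wP := fun b hi => ⟨74, 2, 3, 2, 1, h_wP b hi⟩
    wE := fun b hi => ⟨266, 11, 14, 4, 3, h_wE b hi⟩
    wK := fun b hi => ⟨254, 12, 12, 4, 3, h_wK b hi⟩
    wW := fun b => ⟨219, 8, 10, 5, 3, h_wW b⟩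
    wY := fun b => ⟨435, 17, 21, 8, 6, h_wY b⟩
    wT := fun b hi => ⟨203, 7, 9, 5, 4, h_wT b hi⟩
    g7 := fun p l => ⟨184, 5, 8, 4, 2, h_g7 p l⟩
    g8 := fun p l t => ⟨569, 20, 29, 9, 9, checkFour_of_sgn (h_g8 p l t)⟩
    g9 := fun s p l t => ⟨697, 19, 31, 11, 9, checkFour_of_sgn (h_g9 s p l t)⟩
    v9 := fun s => ⟨191, 6, 10, 5, 4, h_v9 s⟩
    gapS := fun b t => ⟨529, 22, 27, 8, 6, checkFour_of_sgn (h_gapS b t)⟩
  }

/-- The window of `D99`. -/
theorem okD99 : chD99.Cert where
  flat := ⟨fun _ _ _ _ => rfl, fun _ _ _ _ => rfl, fun _ _ _ _ => rfl, fun _ _ _ _ => rfl,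
    fun _ _ _ _ => rfl, fun _ _ _ _ => rfl⟩
  fits := ⟨by norm_num [chD99], by norm_num [chD99], by norm_num [chD99],
    by norm_num [chD99]⟩
  left := ⟨281, 13, 15, 6, 3, by decide +kernel⟩
  right := ⟨262, 12, 13, 6, 3, by decide +kernel⟩
  up := ⟨302, 13, 16, 6, 4, by decide +kernel⟩
  down := ⟨303, 13, 15, 7, 4, by decide +kernel⟩

/-- The bin `D99`. -/
theorem binD99 : SideBinS chD99 pcD99 shD99 bxD99 :=
  ⟨⟨⟨fun _ => rfl, fun _ => rfl, fun _ => rfl, fun _ => rfl, fun _ => rfl, fun x => by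
      simp only [pcD99, Piece.A, Piece.S, ev_add, ev_sub, ev_mul, Ex.eval]; push_cast; ring,
      rfl, rfl⟩,
      ⟨rfl, rfl, rfl, rfl⟩, rfl, rfl, rfl, rfl, by norm_num [chD99], rfl, rfl, rfl, rfl⟩,
    okD99, certD99⟩

end Vale.Agent.P100.Calib.StripEndD
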