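import Vale.Agent.P100.Calib.SlabStripEndDCheck00
import Vale.Agent.P100.Calib.SlabStripEndDCheck01
import Vale.Agent.P100.Calib.SlabStripEndDCheck02
import Vale.Agent.P100.Calib.SlabStripEndDCheck03
import Vale.Agent.P100.Calib.SlabStripEndDCheck04
import Vale.Agent.P100.Calib.SlabStripEndDCheck05
import Vale.Agent.P100.Calib.SlabStripEndDCheck06
import Vale.Agent.P100.Calib.SlabStripEndDCheck07
import Vale.Agent.P100.Calib.SlabStripEndDCheck08
import Vale.Agent.P100.Calib.SlabStripEndDCheck09
import Vale.Agent.P100.Calib.SlabStripEndDCheck10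
import Vale.Agent.P100.Calib.SlabStripEndDCheck11
import Vale.Agent.P100.Calib.SlabStripEndDCheck12
import Vale.Agent.P100.Calib.SlabStripEndDCheck13
import Vale.Agent.P100.Calib.SlabStripEndDCheck14
import Vale.Agent.P100.Calib.SlabStripEndDCheck15
import Vale.Agent.P100.Calib.SlabStripEndDCheck16
import Vale.Agent.P100.Calib.SlabStripEndDCheck17
import Vale.Agent.P100.Calib.SlabStripEndDCheck18
import Vale.Agent.P100.Calib.SlabStripEndDCheck19
import Vale.Agent.P100.Calib.SlabStripEndDCheck20
import Vale.Agent.P100.Calib.SlabStripEndDCheck21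
import Vale.Agent.P100.Calib.SlabStripEndDCheck22
import Vale.Agent.P100.Calib.SlabStripEndDCheck23
import Vale.Agent.P100.Calib.SlabStripEndDCheck24
import Vale.Agent.P100.Calib.SlabStripEndDCheck25
import Vale.Agent.P100.Calib.SlabStripEndDCheck26
import Vale.Agent.P100.Calib.SlabStripEndDCheck27
import Vale.Agent.P100.Calib.SlabStripEndDCheck28
import Vale.Agent.P100.Calib.SlabStripEndDCheck29
import Vale.Agent.P100.Calib.SlabStripEndDCheck30
import Vale.Agent.P100.Calib.SlabStripEndDCheck31
import Vale.Agent.P100.Calib.SlabStripEndDCheck32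
import Vale.Agent.P100.Calib.SlabStripEndDCheck33
import Vale.Agent.P100.Calib.SlabStripEndDCheck34
import Vale.Agent.P100.Calib.SlabStripEndDCheck35
import Vale.Agent.P100.Calib.SlabStripEndDCheck36
import Vale.Agent.P100.Calib.SlabStripEndDCheck37
import Vale.Agent.P100.Calib.SlabStripEndDCheck38
import Vale.Agent.P100.Calib.SlabStripEndDCheck39
import Vale.Agent.P100.Calib.SlabStripEndDCheck40
import Vale.Agent.P100.Calib.SlabStripEndDCheck41
import Vale.Agent.P100.Calib.SlabStripEndDCheck42
import Vale.Agent.P100.Calib.SlabStripEndDCheck43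
import Vale.Agent.P100.Calib.SlabStripEndDCheck44
import Vale.Agent.P100.Calib.SlabStripEndDCheck45
import Vale.Agent.P100.Calib.SlabStripEndDCheck46
import Vale.Agent.P100.Calib.SlabStripEndDCheck47
import Vale.Agent.P100.Calib.SlabStripEndDCheck48
import Vale.Agent.P100.Calib.SlabStripEndDCheck49
import Vale.Agent.P100.Calib.SlabStripEndDCheck50
import Vale.Agent.P100.Calib.SlabStripEndDCheck51
import Vale.Agent.P100.Calib.SlabStripEndDCheck52
import Vale.Agent.P100.Calib.SlabStripEndDCheck53
import Vale.Agent.P100.Calib.SlabStripEndDCheck54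
import Vale.Agent.P100.Calib.SlabStripEndDCheck55
import Vale.Agent.P100.Calib.SlabStripEndDCheck56
import Vale.Agent.P100.Calib.SlabStripEndDCheck57
import Vale.Agent.P100.Calib.SlabStripEndDCheck58
import Vale.Agent.P100.Calib.SlabStripEndDCheck59
import Vale.Agent.P100.Calib.SlabStripEndDCheck60
import Vale.Agent.P100.Calib.SlabStripEndDCheck61
import Vale.Agent.P100.Calib.SlabStripEndDCheck62
import Vale.Agent.P100.Calib.SlabStripEndDCheck63
import Vale.Agent.P100.Calib.SlabStripEndDCheck64
import Vale.Agent.P100.Calib.SlabStripEndDCheck65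

/-!
# The strip for `u` near one, `d` large: the bins cover the charts
-/

set_option linter.unusedVariables false

namespace Vale.Agent.P100.Calib.StripEndD

open Pack hiding ev_add ev_mul
open Pack.Ex Band StripMid StripEnd

variable {n : ℕ} {a b u v t H : ℝ}

/-- `d` in (0, 1/20], `I / d` in (0, 1/10], `w / d` in (0, 3/100]. -/
theorem signs_grp00a (hb : Closed.All.ChartBox n (b - a) (a + b))
    (hF : Closed.All.ChartFacts (b - a) (a + b) u v t)
    (hH : Closed.chH (b - a) (a + b) u v t = H) (hB : EndBands a b u v H)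
    (d0 : (0 : ℝ) < b - a) (d1 : b - a ≤ (1 / 20 : ℝ))
    (s0 : (0 : ℝ) * (b - a) < allStabI a b) (s1 : allStabI a b ≤ (1 / 10 : ℝ) * (b - a))
    (w0 : (0 : ℝ) * (b - a) < 1 - u) (w1 : 1 - u ≤ (3 / 100 : ℝ) * (b - a)) :
    Closed.Strip.ChartSigns (b - a) (a + b) u v t := by
  obtain ⟨hI, hd, hw, eS, hcap⟩ := end_facts hB
  refine binD81.signs hb hF hH hB ⟨by norm_num [chD81], ?_, ?_⟩ ?_ ?_
  · norm_num [chD81]; linarith
  · norm_num [chD81]; linarith
  · exact side_inU hd (by norm_num [chD81]) (by norm_num [chD81]; linarith)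
      (by norm_num [chD81]; linarith)
  · exact side_inU hd (by norm_num [chD81]) (by norm_num [chD81]; linarith)
      (by norm_num [chD81]; linarith)

/-- `d` in (0, 1/20], `I / d` in (1/10, 1/4], `w / d` in (0, 3/100]. -/
theorem signs_grp01a (hb : Closed.All.ChartBox n (b - a) (a + b))
    (hF : Closed.All.ChartFacts (b - a) (a + b) u v t)
    (hH : Closed.chH (b - a) (a + b) u v t = H) (hB : EndBands a b u v H)
    (d0 : (0 : ℝ) < b - a) (d1 : b - a ≤ (1 / 20 : ℝ))
    (s0 : (1 / 10 : ℝ) * (b - a) < allStabI a b) (s1 : allStabI a b ≤ (1 / 4 : ℝ) * (b - a))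
    (w0 : (0 : ℝ) * (b - a) < 1 - u) (w1 : 1 - u ≤ (3 / 100 : ℝ) * (b - a)) :
    Closed.Strip.ChartSigns (b - a) (a + b) u v t := by
  obtain ⟨hI, hd, hw, eS, hcap⟩ := end_facts hB
  refine binD82.signs hb hF hH hB ⟨by norm_num [chD82], ?_, ?_⟩ ?_ ?_
  · norm_num [chD82]; linarith
  · norm_num [chD82]; linarith
  · exact side_inU hd (by norm_num [chD82]) (by norm_num [chD82]; linarith)
      (by norm_num [chD82]; linarith)
  · exact side_inU hd (by norm_num [chD82]) (by norm_num [chD82]; linarith)
      (by norm_num [chD82]; linarith)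

/-- `d` in (0, 1/20], `I / d` in (1/4, 1/2], `w / d` in (0, 3/100]. -/
theorem signs_grp02a (hb : Closed.All.ChartBox n (b - a) (a + b))
    (hF : Closed.All.ChartFacts (b - a) (a + b) u v t)
    (hH : Closed.chH (b - a) (a + b) u v t = H) (hB : EndBands a b u v H)
    (d0 : (0 : ℝ) < b - a) (d1 : b - a ≤ (1 / 20 : ℝ))
    (s0 : (1 / 4 : ℝ) * (b - a) < allStabI a b) (s1 : allStabI a b ≤ (1 / 2 : ℝ) * (b - a))
    (w0 : (0 : ℝ) * (b - a) < 1 - u) (w1 : 1 - u ≤ (3 / 100 : ℝ) * (b - a)) :
    Closed.Strip.ChartSigns (b - a) (a + b) u v t := by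
  obtain ⟨hI, hd, hw, eS, hcap⟩ := end_facts hB
  refine binD83.signs hb hF hH hB ⟨by norm_num [chD83], ?_, ?_⟩ ?_ ?_
  · norm_num [chD83]; linarith
  · norm_num [chD83]; linarith
  · exact side_inU hd (by norm_num [chD83]) (by norm_num [chD83]; linarith)
      (by norm_num [chD83]; linarith)
  · exact side_inU hd (by norm_num [chD83]) (by norm_num [chD83]; linarith)
      (by norm_num [chD83]; linarith)

/-- `d` in (0, 1/20], `I / d` in (1/2, 1], `w / d` in (1/10, 1]. -/
theorem signs_grp03a (hb : Closed.All.ChartBox n (b - a) (a + b))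
    (hF : Closed.All.ChartFacts (b - a) (a + b) u v t)
    (hH : Closed.chH (b - a) (a + b) u v t = H) (hB : EndBands a b u v H)
    (d0 : (0 : ℝ) < b - a) (d1 : b - a ≤ (1 / 20 : ℝ))
    (s0 : (1 / 2 : ℝ) * (b - a) < allStabI a b) (s1 : allStabI a b ≤ (1 : ℝ) * (b - a))
    (w0 : (1 / 10 : ℝ) * (b - a) < 1 - u) (w1 : 1 - u ≤ (1 : ℝ) * (b - a)) :
    Closed.Strip.ChartSigns (b - a) (a + b) u v t := by
  obtain ⟨hI, hd, hw, eS, hcap⟩ := end_facts hB
  rcases le_or_gt (1 - u) ((23 / 200 : ℝ) * (b - a)) with w2 | w2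
  · refine binD46.signs hb hF hH hB ⟨by norm_num [chD46], ?_, ?_⟩ ?_ ?_
    · norm_num [chD46]; linarith
    · norm_num [chD46]; linarith
    · exact side_inU hd (by norm_num [chD46]) (by norm_num [chD46]; linarith)
        (by norm_num [chD46]; linarith)
    · exact side_inU hd (by norm_num [chD46]) (by norm_num [chD46]; linarith)
        (by norm_num [chD46]; linarith)
  rcases le_or_gt (1 - u) ((33 / 250 : ℝ) * (b - a)) with w3 | w3
  · refine binD47.signs hb hF hH hB ⟨by norm_num [chD47], ?_, ?_⟩ ?_ ?_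
    · norm_num [chD47]; linarith
    · norm_num [chD47]; linarith
    · exact side_inU hd (by norm_num [chD47]) (by norm_num [chD47]; linarith)
        (by norm_num [chD47]; linarith)
    · exact side_inU hd (by norm_num [chD47]) (by norm_num [chD47]; linarith)
        (by norm_num [chD47]; linarith)
  rcases le_or_gt (1 - u) ((43 / 250 : ℝ) * (b - a)) with w4 | w4
  · refine binD48.signs hb hF hH hB ⟨by norm_num [chD48], ?_, ?_⟩ ?_ ?_
    · norm_num [chD48]; linarith
    · norm_num [chD48]; linarith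
    · exact side_inU hd (by norm_num [chD48]) (by norm_num [chD48]; linarith)
        (by norm_num [chD48]; linarith)
    · exact side_inU hd (by norm_num [chD48]) (by norm_num [chD48]; linarith)
        (by norm_num [chD48]; linarith)
  rcases le_or_gt (1 - u) ((249 / 1000 : ℝ) * (b - a)) with w5 | w5
  · refine binD49.signs hb hF hH hB ⟨by norm_num [chD49], ?_, ?_⟩ ?_ ?_
    · norm_num [chD49]; linarith
    · norm_num [chD49]; linarith
    · exact side_inU hd (by norm_num [chD49]) (by norm_num [chD49]; linarith)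
        (by norm_num [chD49]; linarith)
    · exact side_inU hd (by norm_num [chD49]) (by norm_num [chD49]; linarith)
        (by norm_num [chD49]; linarith)
  rcases le_or_gt (1 - u) ((56 / 125 : ℝ) * (b - a)) with w6 | w6
  · refine binD50.signs hb hF hH hB ⟨by norm_num [chD50], ?_, ?_⟩ ?_ ?_
    · norm_num [chD50]; linarith
    · norm_num [chD50]; linarith
    · exact side_inU hd (by norm_num [chD50]) (by norm_num [chD50]; linarith)
        (by norm_num [chD50]; linarith)
    · exact side_inU hd (by norm_num [chD50]) (by norm_num [chD50]; linarith)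
        (by norm_num [chD50]; linarith)
  refine binD51.signs hb hF hH hB ⟨by norm_num [chD51], ?_, ?_⟩ ?_ ?_
  · norm_num [chD51]; linarith
  · norm_num [chD51]; linarith
  · exact side_inU hd (by norm_num [chD51]) (by norm_num [chD51]; linarith)
      (by norm_num [chD51]; linarith)
  · exact side_inU hd (by norm_num [chD51]) (by norm_num [chD51]; linarith)
      (by norm_num [chD51]; linarith)

/-- `d` in (0, 3/25], `I / d` in (0, 1/2], `w / d` in (3/100, 1]. -/
theorem signs_grp04a (hb : Closed.All.ChartBox n (b - a) (a + b))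
    (hF : Closed.All.ChartFacts (b - a) (a + b) u v t)
    (hH : Closed.chH (b - a) (a + b) u v t = H) (hB : EndBands a b u v H)
    (d0 : (0 : ℝ) < b - a) (d1 : b - a ≤ (3 / 25 : ℝ))
    (s0 : (0 : ℝ) * (b - a) < allStabI a b) (s1 : allStabI a b ≤ (1 / 2 : ℝ) * (b - a))
    (w0 : (3 / 100 : ℝ) * (b - a) < 1 - u) (w1 : 1 - u ≤ (1 : ℝ) * (b - a)) :
    Closed.Strip.ChartSigns (b - a) (a + b) u v t := by
  obtain ⟨hI, hd, hw, eS, hcap⟩ := end_facts hB
  rcases le_or_gt (1 - u) ((6 / 125 : ℝ) * (b - a)) with w2 | w2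
  · refine binD00.signs hb hF hH hB ⟨by norm_num [chD00], ?_, ?_⟩ ?_ ?_
    · norm_num [chD00]; linarith
    · norm_num [chD00]; linarith
    · exact side_inU hd (by norm_num [chD00]) (by norm_num [chD00]; linarith)
        (by norm_num [chD00]; linarith)
    · exact side_inU hd (by norm_num [chD00]) (by norm_num [chD00]; linarith)
        (by norm_num [chD00]; linarith)
  rcases le_or_gt (1 - u) ((101 / 1000 : ℝ) * (b - a)) with w3 | w3
  · refine binD01.signs hb hF hH hB ⟨by norm_num [chD01], ?_, ?_⟩ ?_ ?_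
    · norm_num [chD01]; linarith
    · norm_num [chD01]; linarith
    · exact side_inU hd (by norm_num [chD01]) (by norm_num [chD01]; linarith)
        (by norm_num [chD01]; linarith)
    · exact side_inU hd (by norm_num [chD01]) (by norm_num [chD01]; linarith)
        (by norm_num [chD01]; linarith)
  rcases le_or_gt (1 - u) ((53 / 250 : ℝ) * (b - a)) with w4 | w4
  · refine binD02.signs hb hF hH hB ⟨by norm_num [chD02], ?_, ?_⟩ ?_ ?_
    · norm_num [chD02]; linarith
    · norm_num [chD02]; linarith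
    · exact side_inU hd (by norm_num [chD02]) (by norm_num [chD02]; linarith)
        (by norm_num [chD02]; linarith)
    · exact side_inU hd (by norm_num [chD02]) (by norm_num [chD02]; linarith)
        (by norm_num [chD02]; linarith)
  rcases le_or_gt (1 - u) ((89 / 200 : ℝ) * (b - a)) with w5 | w5
  · refine binD03.signs hb hF hH hB ⟨by norm_num [chD03], ?_, ?_⟩ ?_ ?_
    · norm_num [chD03]; linarith
    · norm_num [chD03]; linarith
    · exact side_inU hd (by norm_num [chD03]) (by norm_num [chD03]; linarith)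
        (by norm_num [chD03]; linarith)
    · exact side_inU hd (by norm_num [chD03]) (by norm_num [chD03]; linarith)
        (by norm_num [chD03]; linarith)
  refine binD04.signs hb hF hH hB ⟨by norm_num [chD04], ?_, ?_⟩ ?_ ?_
  · norm_num [chD04]; linarith
  · norm_num [chD04]; linarith
  · exact side_inU hd (by norm_num [chD04]) (by norm_num [chD04]; linarith)
      (by norm_num [chD04]; linarith)
  · exact side_inU hd (by norm_num [chD04]) (by norm_num [chD04]; linarith)
      (by norm_num [chD04]; linarith)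

/-- `d` in (3/100, 1/25], `I / d` in (1/2, 7/10], `w / d` in (0, 3/100]. -/
theorem signs_grp05a (hb : Closed.All.ChartBox n (b - a) (a + b))
    (hF : Closed.All.ChartFacts (b - a) (a + b) u v t)
    (hH : Closed.chH (b - a) (a + b) u v t = H) (hB : EndBands a b u v H)
    (d0 : (3 / 100 : ℝ) < b - a) (d1 : b - a ≤ (1 / 25 : ℝ))
    (s0 : (1 / 2 : ℝ) * (b - a) < allStabI a b) (s1 : allStabI a b ≤ (7 / 10 : ℝ) * (b - a))
    (w0 : (0 : ℝ) * (b - a) < 1 - u) (w1 : 1 - u ≤ (3 / 100 : ℝ) * (b - a)) :
    Closed.Strip.ChartSigns (b - a) (a + b) u v t := by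
  obtain ⟨hI, hd, hw, eS, hcap⟩ := end_facts hB
  refine binD84.signs hb hF hH hB ⟨by norm_num [chD84], ?_, ?_⟩ ?_ ?_
  · norm_num [chD84]; linarith
  · norm_num [chD84]; linarith
  · exact side_inU hd (by norm_num [chD84]) (by norm_num [chD84]; linarith)
      (by norm_num [chD84]; linarith)
  · exact side_inU hd (by norm_num [chD84]) (by norm_num [chD84]; linarith)
      (by norm_num [chD84]; linarith)

/-- `d` in (3/100, 7/100], `I / d` in (1/2, 7/10], `w / d` in (3/100, 1]. -/
theorem signs_grp06a (hb : Closed.All.ChartBox n (b - a) (a + b))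
    (hF : Closed.All.ChartFacts (b - a) (a + b) u v t)
    (hH : Closed.chH (b - a) (a + b) u v t = H) (hB : EndBands a b u v H)
    (d0 : (3 / 100 : ℝ) < b - a) (d1 : b - a ≤ (7 / 100 : ℝ))
    (s0 : (1 / 2 : ℝ) * (b - a) < allStabI a b) (s1 : allStabI a b ≤ (7 / 10 : ℝ) * (b - a))
    (w0 : (3 / 100 : ℝ) * (b - a) < 1 - u) (w1 : 1 - u ≤ (1 : ℝ) * (b - a)) :
    Closed.Strip.ChartSigns (b - a) (a + b) u v t := by
  obtain ⟨hI, hd, hw, eS, hcap⟩ := end_facts hB
  rcases le_or_gt (1 - u) ((12 / 125 : ℝ) * (b - a)) with w2 | w2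
  · refine binD62.signs hb hF hH hB ⟨by norm_num [chD62], ?_, ?_⟩ ?_ ?_
    · norm_num [chD62]; linarith
    · norm_num [chD62]; linarith
    · exact side_inU hd (by norm_num [chD62]) (by norm_num [chD62]; linarith)
        (by norm_num [chD62]; linarith)
    · exact side_inU hd (by norm_num [chD62]) (by norm_num [chD62]; linarith)
        (by norm_num [chD62]; linarith)
  rcases le_or_gt (1 - u) ((1 / 4 : ℝ) * (b - a)) with w3 | w3
  · refine binD63.signs hb hF hH hB ⟨by norm_num [chD63], ?_, ?_⟩ ?_ ?_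
    · norm_num [chD63]; linarith
    · norm_num [chD63]; linarith
    · exact side_inU hd (by norm_num [chD63]) (by norm_num [chD63]; linarith)
        (by norm_num [chD63]; linarith)
    · exact side_inU hd (by norm_num [chD63]) (by norm_num [chD63]; linarith)
        (by norm_num [chD63]; linarith)
  rcases le_or_gt (1 - u) ((13 / 20 : ℝ) * (b - a)) with w4 | w4
  · refine binD64.signs hb hF hH hB ⟨by norm_num [chD64], ?_, ?_⟩ ?_ ?_
    · norm_num [chD64]; linarith
    · norm_num [chD64]; linarith
    · exact side_inU hd (by norm_num [chD64]) (by norm_num [chD64]; linarith)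
        (by norm_num [chD64]; linarith)
    · exact side_inU hd (by norm_num [chD64]) (by norm_num [chD64]; linarith)
        (by norm_num [chD64]; linarith)
  refine binD65.signs hb hF hH hB ⟨by norm_num [chD65], ?_, ?_⟩ ?_ ?_
  · norm_num [chD65]; linarith
  · norm_num [chD65]; linarith
  · exact side_inU hd (by norm_num [chD65]) (by norm_num [chD65]; linarith)
      (by norm_num [chD65]; linarith)
  · exact side_inU hd (by norm_num [chD65]) (by norm_num [chD65]; linarith)
      (by norm_num [chD65]; linarith)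

/-- `d` in (1/25, 1/20], `I / d` in (1/2, 7/10], `w / d` in (0, 3/100]. -/
theorem signs_grp07a (hb : Closed.All.ChartBox n (b - a) (a + b))
    (hF : Closed.All.ChartFacts (b - a) (a + b) u v t)
    (hH : Closed.chH (b - a) (a + b) u v t = H) (hB : EndBands a b u v H)
    (d0 : (1 / 25 : ℝ) < b - a) (d1 : b - a ≤ (1 / 20 : ℝ))
    (s0 : (1 / 2 : ℝ) * (b - a) < allStabI a b) (s1 : allStabI a b ≤ (7 / 10 : ℝ) * (b - a))
    (w0 : (0 : ℝ) * (b - a) < 1 - u) (w1 : 1 - u ≤ (3 / 100 : ℝ) * (b - a)) :
    Closed.Strip.ChartSigns (b - a) (a + b) u v t := by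
  obtain ⟨hI, hd, hw, eS, hcap⟩ := end_facts hB
  refine binD85.signs hb hF hH hB ⟨by norm_num [chD85], ?_, ?_⟩ ?_ ?_
  · norm_num [chD85]; linarith
  · norm_num [chD85]; linarith
  · exact side_inU hd (by norm_num [chD85]) (by norm_num [chD85]; linarith)
      (by norm_num [chD85]; linarith)
  · exact side_inU hd (by norm_num [chD85]) (by norm_num [chD85]; linarith)
      (by norm_num [chD85]; linarith)

/-- `d` in (1/20, 7/100], `I / d` in (1/2, 7/10], `w / d` in (0, 3/100]. -/
theorem signs_grp08a (hb : Closed.All.ChartBox n (b - a) (a + b))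
    (hF : Closed.All.ChartFacts (b - a) (a + b) u v t)
    (hH : Closed.chH (b - a) (a + b) u v t = H) (hB : EndBands a b u v H)
    (d0 : (1 / 20 : ℝ) < b - a) (d1 : b - a ≤ (7 / 100 : ℝ))
    (s0 : (1 / 2 : ℝ) * (b - a) < allStabI a b) (s1 : allStabI a b ≤ (7 / 10 : ℝ) * (b - a))
    (w0 : (0 : ℝ) * (b - a) < 1 - u) (w1 : 1 - u ≤ (3 / 100 : ℝ) * (b - a)) :
    Closed.Strip.ChartSigns (b - a) (a + b) u v t := by
  obtain ⟨hI, hd, hw, eS, hcap⟩ := end_facts hB
  refine binD89.signs hb hF hH hB ⟨by norm_num [chD89], ?_, ?_⟩ ?_ ?_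
  · norm_num [chD89]; linarith
  · norm_num [chD89]; linarith
  · exact side_inU hd (by norm_num [chD89]) (by norm_num [chD89]; linarith)
      (by norm_num [chD89]; linarith)
  · exact side_inU hd (by norm_num [chD89]) (by norm_num [chD89]; linarith)
      (by norm_num [chD89]; linarith)

/-- `d` in (1/20, 7/100], `I / d` in (1/2, 1], `w / d` in (1/10, 1]. -/
theorem signs_grp09a (hb : Closed.All.ChartBox n (b - a) (a + b))
    (hF : Closed.All.ChartFacts (b - a) (a + b) u v t)
    (hH : Closed.chH (b - a) (a + b) u v t = H) (hB : EndBands a b u v H)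
    (d0 : (1 / 20 : ℝ) < b - a) (d1 : b - a ≤ (7 / 100 : ℝ))
    (s0 : (1 / 2 : ℝ) * (b - a) < allStabI a b) (s1 : allStabI a b ≤ (1 : ℝ) * (b - a))
    (w0 : (1 / 10 : ℝ) * (b - a) < 1 - u) (w1 : 1 - u ≤ (1 : ℝ) * (b - a)) :
    Closed.Strip.ChartSigns (b - a) (a + b) u v t := by
  obtain ⟨hI, hd, hw, eS, hcap⟩ := end_facts hB
  rcases le_or_gt (1 - u) ((13 / 100 : ℝ) * (b - a)) with w2 | w2
  · refine binD52.signs hb hF hH hB ⟨by norm_num [chD52], ?_, ?_⟩ ?_ ?_
    · norm_num [chD52]; linarith
    · norm_num [chD52]; linarith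
    · exact side_inU hd (by norm_num [chD52]) (by norm_num [chD52]; linarith)
        (by norm_num [chD52]; linarith)
    · exact side_inU hd (by norm_num [chD52]) (by norm_num [chD52]; linarith)
        (by norm_num [chD52]; linarith)
  rcases le_or_gt (1 - u) ((189 / 1000 : ℝ) * (b - a)) with w3 | w3
  · refine binD53.signs hb hF hH hB ⟨by norm_num [chD53], ?_, ?_⟩ ?_ ?_
    · norm_num [chD53]; linarith
    · norm_num [chD53]; linarith
    · exact side_inU hd (by norm_num [chD53]) (by norm_num [chD53]; linarith)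
        (by norm_num [chD53]; linarith)
    · exact side_inU hd (by norm_num [chD53]) (by norm_num [chD53]; linarith)
        (by norm_num [chD53]; linarith)
  rcases le_or_gt (1 - u) ((151 / 500 : ℝ) * (b - a)) with w4 | w4
  · refine binD54.signs hb hF hH hB ⟨by norm_num [chD54], ?_, ?_⟩ ?_ ?_
    · norm_num [chD54]; linarith
    · norm_num [chD54]; linarith
    · exact side_inU hd (by norm_num [chD54]) (by norm_num [chD54]; linarith)
        (by norm_num [chD54]; linarith)
    · exact side_inU hd (by norm_num [chD54]) (by norm_num [chD54]; linarith)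
        (by norm_num [chD54]; linarith)
  rcases le_or_gt (1 - u) ((68 / 125 : ℝ) * (b - a)) with w5 | w5
  · refine binD55.signs hb hF hH hB ⟨by norm_num [chD55], ?_, ?_⟩ ?_ ?_
    · norm_num [chD55]; linarith
    · norm_num [chD55]; linarith
    · exact side_inU hd (by norm_num [chD55]) (by norm_num [chD55]; linarith)
        (by norm_num [chD55]; linarith)
    · exact side_inU hd (by norm_num [chD55]) (by norm_num [chD55]; linarith)
        (by norm_num [chD55]; linarith)
  refine binD56.signs hb hF hH hB ⟨by norm_num [chD56], ?_, ?_⟩ ?_ ?_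
  · norm_num [chD56]; linarith
  · norm_num [chD56]; linarith
  · exact side_inU hd (by norm_num [chD56]) (by norm_num [chD56]; linarith)
      (by norm_num [chD56]; linarith)
  · exact side_inU hd (by norm_num [chD56]) (by norm_num [chD56]; linarith)
      (by norm_num [chD56]; linarith)

/-- `d` in (1/20, 9/100], `I / d` in (3/10, 1/2], `w / d` in (0, 3/100]. -/
theorem signs_grp10a (hb : Closed.All.ChartBox n (b - a) (a + b))
    (hF : Closed.All.ChartFacts (b - a) (a + b) u v t)
    (hH : Closed.chH (b - a) (a + b) u v t = H) (hB : EndBands a b u v H)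
    (d0 : (1 / 20 : ℝ) < b - a) (d1 : b - a ≤ (9 / 100 : ℝ))
    (s0 : (3 / 10 : ℝ) * (b - a) < allStabI a b) (s1 : allStabI a b ≤ (1 / 2 : ℝ) * (b - a))
    (w0 : (0 : ℝ) * (b - a) < 1 - u) (w1 : 1 - u ≤ (3 / 100 : ℝ) * (b - a)) :
    Closed.Strip.ChartSigns (b - a) (a + b) u v t := by
  obtain ⟨hI, hd, hw, eS, hcap⟩ := end_facts hB
  refine binD87.signs hb hF hH hB ⟨by norm_num [chD87], ?_, ?_⟩ ?_ ?_
  · norm_num [chD87]; linarith
  · norm_num [chD87]; linarith
  · exact side_inU hd (by norm_num [chD87]) (by norm_num [chD87]; linarith)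
      (by norm_num [chD87]; linarith)
  · exact side_inU hd (by norm_num [chD87]) (by norm_num [chD87]; linarith)
      (by norm_num [chD87]; linarith)

/-- `d` in (1/20, 3/25], `I / d` in (0, 3/10], `w / d` in (0, 3/100]. -/
theorem signs_grp11a (hb : Closed.All.ChartBox n (b - a) (a + b))
    (hF : Closed.All.ChartFacts (b - a) (a + b) u v t)
    (hH : Closed.chH (b - a) (a + b) u v t = H) (hB : EndBands a b u v H)
    (d0 : (1 / 20 : ℝ) < b - a) (d1 : b - a ≤ (3 / 25 : ℝ))
    (s0 : (0 : ℝ) * (b - a) < allStabI a b) (s1 : allStabI a b ≤ (3 / 10 : ℝ) * (b - a))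
    (w0 : (0 : ℝ) * (b - a) < 1 - u) (w1 : 1 - u ≤ (3 / 100 : ℝ) * (b - a)) :
    Closed.Strip.ChartSigns (b - a) (a + b) u v t := by
  obtain ⟨hI, hd, hw, eS, hcap⟩ := end_facts hB
  refine binD86.signs hb hF hH hB ⟨by norm_num [chD86], ?_, ?_⟩ ?_ ?_
  · norm_num [chD86]; linarith
  · norm_num [chD86]; linarith
  · exact side_inU hd (by norm_num [chD86]) (by norm_num [chD86]; linarith)
      (by norm_num [chD86]; linarith)
  · exact side_inU hd (by norm_num [chD86]) (by norm_num [chD86]; linarith)
      (by norm_num [chD86]; linarith)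

/-- `d` in (7/100, 1/10], `I / d` in (1/2, 5/7], `w / d` in (0, 3/100]. -/
theorem signs_grp12a (hb : Closed.All.ChartBox n (b - a) (a + b))
    (hF : Closed.All.ChartFacts (b - a) (a + b) u v t)
    (hH : Closed.chH (b - a) (a + b) u v t = H) (hB : EndBands a b u v H)
    (d0 : (7 / 100 : ℝ) < b - a) (d1 : b - a ≤ (1 / 10 : ℝ))
    (s0 : (1 / 2 : ℝ) * (b - a) < allStabI a b) (s1 : allStabI a b ≤ (5 / 7 : ℝ) * (b - a))
    (w0 : (0 : ℝ) * (b - a) < 1 - u) (w1 : 1 - u ≤ (3 / 100 : ℝ) * (b - a)) :
    Closed.Strip.ChartSigns (b - a) (a + b) u v t := by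
  obtain ⟨hI, hd, hw, eS, hcap⟩ := end_facts hB
  refine binD90.signs hb hF hH hB ⟨by norm_num [chD90], ?_, ?_⟩ ?_ ?_
  · norm_num [chD90]; linarith
  · norm_num [chD90]; linarith
  · exact side_inU hd (by norm_num [chD90]) (by norm_num [chD90]; linarith)
      (by norm_num [chD90]; linarith)
  · exact side_inU hd (by norm_num [chD90]) (by norm_num [chD90]; linarith)
      (by norm_num [chD90]; linarith)

/-- `d` in (7/100, 1/10], `I / d` in (1/2, 143/200], `w / d` in (3/100, 1]. -/
theorem signs_grp13a (hb : Closed.All.ChartBox n (b - a) (a + b))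
    (hF : Closed.All.ChartFacts (b - a) (a + b) u v t)
    (hH : Closed.chH (b - a) (a + b) u v t = H) (hB : EndBands a b u v H)
    (d0 : (7 / 100 : ℝ) < b - a) (d1 : b - a ≤ (1 / 10 : ℝ))
    (s0 : (1 / 2 : ℝ) * (b - a) < allStabI a b) (s1 : allStabI a b ≤ (143 / 200 : ℝ) * (b - a))
    (w0 : (3 / 100 : ℝ) * (b - a) < 1 - u) (w1 : 1 - u ≤ (1 : ℝ) * (b - a)) :
    Closed.Strip.ChartSigns (b - a) (a + b) u v t := by
  obtain ⟨hI, hd, hw, eS, hcap⟩ := end_facts hB
  rcases le_or_gt (1 - u) ((39 / 500 : ℝ) * (b - a)) with w2 | w2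
  · refine binD57.signs hb hF hH hB ⟨by norm_num [chD57], ?_, ?_⟩ ?_ ?_
    · norm_num [chD57]; linarith
    · norm_num [chD57]; linarith
    · exact side_inU hd (by norm_num [chD57]) (by norm_num [chD57]; linarith)
        (by norm_num [chD57]; linarith)
    · exact side_inU hd (by norm_num [chD57]) (by norm_num [chD57]; linarith)
        (by norm_num [chD57]; linarith)
  rcases le_or_gt (1 - u) ((41 / 250 : ℝ) * (b - a)) with w3 | w3
  · refine binD58.signs hb hF hH hB ⟨by norm_num [chD58], ?_, ?_⟩ ?_ ?_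
    · norm_num [chD58]; linarith
    · norm_num [chD58]; linarith
    · exact side_inU hd (by norm_num [chD58]) (by norm_num [chD58]; linarith)
        (by norm_num [chD58]; linarith)
    · exact side_inU hd (by norm_num [chD58]) (by norm_num [chD58]; linarith)
        (by norm_num [chD58]; linarith)
  rcases le_or_gt (1 - u) ((43 / 125 : ℝ) * (b - a)) with w4 | w4
  · refine binD59.signs hb hF hH hB ⟨by norm_num [chD59], ?_, ?_⟩ ?_ ?_
    · norm_num [chD59]; linarith
    · norm_num [chD59]; linarith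
    · exact side_inU hd (by norm_num [chD59]) (by norm_num [chD59]; linarith)
        (by norm_num [chD59]; linarith)
    · exact side_inU hd (by norm_num [chD59]) (by norm_num [chD59]; linarith)
        (by norm_num [chD59]; linarith)
  rcases le_or_gt (1 - u) ((361 / 500 : ℝ) * (b - a)) with w5 | w5
  · refine binD60.signs hb hF hH hB ⟨by norm_num [chD60], ?_, ?_⟩ ?_ ?_
    · norm_num [chD60]; linarith
    · norm_num [chD60]; linarith
    · exact side_inU hd (by norm_num [chD60]) (by norm_num [chD60]; linarith)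
        (by norm_num [chD60]; linarith)
    · exact side_inU hd (by norm_num [chD60]) (by norm_num [chD60]; linarith)
        (by norm_num [chD60]; linarith)
  refine binD61.signs hb hF hH hB ⟨by norm_num [chD61], ?_, ?_⟩ ?_ ?_
  · norm_num [chD61]; linarith
  · norm_num [chD61]; linarith
  · exact side_inU hd (by norm_num [chD61]) (by norm_num [chD61]; linarith)
      (by norm_num [chD61]; linarith)
  · exact side_inU hd (by norm_num [chD61]) (by norm_num [chD61]; linarith)
      (by norm_num [chD61]; linarith)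

/-- `d` in (9/100, 3/25], `I / d` in (3/10, 1/2], `w / d` in (0, 3/100]. -/
theorem signs_grp14a (hb : Closed.All.ChartBox n (b - a) (a + b))
    (hF : Closed.All.ChartFacts (b - a) (a + b) u v t)
    (hH : Closed.chH (b - a) (a + b) u v t = H) (hB : EndBands a b u v H)
    (d0 : (9 / 100 : ℝ) < b - a) (d1 : b - a ≤ (3 / 25 : ℝ))
    (s0 : (3 / 10 : ℝ) * (b - a) < allStabI a b) (s1 : allStabI a b ≤ (1 / 2 : ℝ) * (b - a))
    (w0 : (0 : ℝ) * (b - a) < 1 - u) (w1 : 1 - u ≤ (3 / 100 : ℝ) * (b - a)) :
    Closed.Strip.ChartSigns (b - a) (a + b) u v t := by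
  obtain ⟨hI, hd, hw, eS, hcap⟩ := end_facts hB
  refine binD88.signs hb hF hH hB ⟨by norm_num [chD88], ?_, ?_⟩ ?_ ?_
  · norm_num [chD88]; linarith
  · norm_num [chD88]; linarith
  · exact side_inU hd (by norm_num [chD88]) (by norm_num [chD88]; linarith)
      (by norm_num [chD88]; linarith)
  · exact side_inU hd (by norm_num [chD88]) (by norm_num [chD88]; linarith)
      (by norm_num [chD88]; linarith)

/-- `d` in (3/25, 4/25], `I / d` in (0, 1/5], `w / d` in (0, 3/100]. -/
theorem signs_grp15a (hb : Closed.All.ChartBox n (b - a) (a + b))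
    (hF : Closed.All.ChartFacts (b - a) (a + b) u v t)
    (hH : Closed.chH (b - a) (a + b) u v t = H) (hB : EndBands a b u v H)
    (d0 : (3 / 25 : ℝ) < b - a) (d1 : b - a ≤ (4 / 25 : ℝ))
    (s0 : (0 : ℝ) * (b - a) < allStabI a b) (s1 : allStabI a b ≤ (1 / 5 : ℝ) * (b - a))
    (w0 : (0 : ℝ) * (b - a) < 1 - u) (w1 : 1 - u ≤ (3 / 100 : ℝ) * (b - a)) :
    Closed.Strip.ChartSigns (b - a) (a + b) u v t := by
  obtain ⟨hI, hd, hw, eS, hcap⟩ := end_facts hB
  refine binD93.signs hb hF hH hB ⟨by norm_num [chD93], ?_, ?_⟩ ?_ ?_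
  · norm_num [chD93]; linarith
  · norm_num [chD93]; linarith
  · exact side_inU hd (by norm_num [chD93]) (by norm_num [chD93]; linarith)
      (by norm_num [chD93]; linarith)
  · exact side_inU hd (by norm_num [chD93]) (by norm_num [chD93]; linarith)
      (by norm_num [chD93]; linarith)

/-- `d` in (3/25, 4/25], `I / d` in (0, 417/1000], `w / d` in (3/100, 1]. -/
theorem signs_grp16a (hb : Closed.All.ChartBox n (b - a) (a + b))
    (hF : Closed.All.ChartFacts (b - a) (a + b) u v t)
    (hH : Closed.chH (b - a) (a + b) u v t = H) (hB : EndBands a b u v H)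
    (d0 : (3 / 25 : ℝ) < b - a) (d1 : b - a ≤ (4 / 25 : ℝ))
    (s0 : (0 : ℝ) * (b - a) < allStabI a b) (s1 : allStabI a b ≤ (417 / 1000 : ℝ) * (b - a))
    (w0 : (3 / 100 : ℝ) * (b - a) < 1 - u) (w1 : 1 - u ≤ (1 : ℝ) * (b - a)) :
    Closed.Strip.ChartSigns (b - a) (a + b) u v t := by
  obtain ⟨hI, hd, hw, eS, hcap⟩ := end_facts hB
  rcases le_or_gt (1 - u) ((39 / 500 : ℝ) * (b - a)) with w2 | w2
  · refine binD05.signs hb hF hH hB ⟨by norm_num [chD05], ?_, ?_⟩ ?_ ?_
    · norm_num [chD05]; linarith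
    · norm_num [chD05]; linarith
    · exact side_inU hd (by norm_num [chD05]) (by norm_num [chD05]; linarith)
        (by norm_num [chD05]; linarith)
    · exact side_inU hd (by norm_num [chD05]) (by norm_num [chD05]; linarith)
        (by norm_num [chD05]; linarith)
  rcases le_or_gt (1 - u) ((41 / 250 : ℝ) * (b - a)) with w3 | w3
  · refine binD06.signs hb hF hH hB ⟨by norm_num [chD06], ?_, ?_⟩ ?_ ?_
    · norm_num [chD06]; linarith
    · norm_num [chD06]; linarith
    · exact side_inU hd (by norm_num [chD06]) (by norm_num [chD06]; linarith)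
        (by norm_num [chD06]; linarith)
    · exact side_inU hd (by norm_num [chD06]) (by norm_num [chD06]; linarith)
        (by norm_num [chD06]; linarith)
  rcases le_or_gt (1 - u) ((213 / 500 : ℝ) * (b - a)) with w4 | w4
  · refine binD07.signs hb hF hH hB ⟨by norm_num [chD07], ?_, ?_⟩ ?_ ?_
    · norm_num [chD07]; linarith
    · norm_num [chD07]; linarith
    · exact side_inU hd (by norm_num [chD07]) (by norm_num [chD07]; linarith)
        (by norm_num [chD07]; linarith)
    · exact side_inU hd (by norm_num [chD07]) (by norm_num [chD07]; linarith)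
        (by norm_num [chD07]; linarith)
  rcases le_or_gt (1 - u) ((767 / 1000 : ℝ) * (b - a)) with w5 | w5
  · refine binD08.signs hb hF hH hB ⟨by norm_num [chD08], ?_, ?_⟩ ?_ ?_
    · norm_num [chD08]; linarith
    · norm_num [chD08]; linarith
    · exact side_inU hd (by norm_num [chD08]) (by norm_num [chD08]; linarith)
        (by norm_num [chD08]; linarith)
    · exact side_inU hd (by norm_num [chD08]) (by norm_num [chD08]; linarith)
        (by norm_num [chD08]; linarith)
  refine binD09.signs hb hF hH hB ⟨by norm_num [chD09], ?_, ?_⟩ ?_ ?_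
  · norm_num [chD09]; linarith
  · norm_num [chD09]; linarith
  · exact side_inU hd (by norm_num [chD09]) (by norm_num [chD09]; linarith)
      (by norm_num [chD09]; linarith)
  · exact side_inU hd (by norm_num [chD09]) (by norm_num [chD09]; linarith)
      (by norm_num [chD09]; linarith)

/-- `d` in (3/25, 4/25], `I / d` in (1/5, 21/50], `w / d` in (0, 3/100]. -/
theorem signs_grp17a (hb : Closed.All.ChartBox n (b - a) (a + b))
    (hF : Closed.All.ChartFacts (b - a) (a + b) u v t)
    (hH : Closed.chH (b - a) (a + b) u v t = H) (hB : EndBands a b u v H)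
    (d0 : (3 / 25 : ℝ) < b - a) (d1 : b - a ≤ (4 / 25 : ℝ))
    (s0 : (1 / 5 : ℝ) * (b - a) < allStabI a b) (s1 : allStabI a b ≤ (21 / 50 : ℝ) * (b - a))
    (w0 : (0 : ℝ) * (b - a) < 1 - u) (w1 : 1 - u ≤ (3 / 100 : ℝ) * (b - a)) :
    Closed.Strip.ChartSigns (b - a) (a + b) u v t := by
  obtain ⟨hI, hd, hw, eS, hcap⟩ := end_facts hB
  refine binD91.signs hb hF hH hB ⟨by norm_num [chD91], ?_, ?_⟩ ?_ ?_
  · norm_num [chD91]; linarith
  · norm_num [chD91]; linarith
  · exact side_inU hd (by norm_num [chD91]) (by norm_num [chD91]; linarith)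
      (by norm_num [chD91]; linarith)
  · exact side_inU hd (by norm_num [chD91]) (by norm_num [chD91]; linarith)
      (by norm_num [chD91]; linarith)

/-- `d` in (4/25, 1/5], `I / d` in (0, 1/5], `w / d` in (0, 3/100]. -/
theorem signs_grp18a (hb : Closed.All.ChartBox n (b - a) (a + b))
    (hF : Closed.All.ChartFacts (b - a) (a + b) u v t)
    (hH : Closed.chH (b - a) (a + b) u v t = H) (hB : EndBands a b u v H)
    (d0 : (4 / 25 : ℝ) < b - a) (d1 : b - a ≤ (1 / 5 : ℝ))
    (s0 : (0 : ℝ) * (b - a) < allStabI a b) (s1 : allStabI a b ≤ (1 / 5 : ℝ) * (b - a))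
    (w0 : (0 : ℝ) * (b - a) < 1 - u) (w1 : 1 - u ≤ (3 / 100 : ℝ) * (b - a)) :
    Closed.Strip.ChartSigns (b - a) (a + b) u v t := by
  obtain ⟨hI, hd, hw, eS, hcap⟩ := end_facts hB
  refine binD94.signs hb hF hH hB ⟨by norm_num [chD94], ?_, ?_⟩ ?_ ?_
  · norm_num [chD94]; linarith
  · norm_num [chD94]; linarith
  · exact side_inU hd (by norm_num [chD94]) (by norm_num [chD94]; linarith)
      (by norm_num [chD94]; linarith)
  · exact side_inU hd (by norm_num [chD94]) (by norm_num [chD94]; linarith)
      (by norm_num [chD94]; linarith)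

/-- `d` in (4/25, 1/5], `I / d` in (0, 313/1000], `w / d` in (3/100, 1]. -/
theorem signs_grp19a (hb : Closed.All.ChartBox n (b - a) (a + b))
    (hF : Closed.All.ChartFacts (b - a) (a + b) u v t)
    (hH : Closed.chH (b - a) (a + b) u v t = H) (hB : EndBands a b u v H)
    (d0 : (4 / 25 : ℝ) < b - a) (d1 : b - a ≤ (1 / 5 : ℝ))
    (s0 : (0 : ℝ) * (b - a) < allStabI a b) (s1 : allStabI a b ≤ (313 / 1000 : ℝ) * (b - a))
    (w0 : (3 / 100 : ℝ) * (b - a) < 1 - u) (w1 : 1 - u ≤ (1 : ℝ) * (b - a)) :
    Closed.Strip.ChartSigns (b - a) (a + b) u v t := by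
  obtain ⟨hI, hd, hw, eS, hcap⟩ := end_facts hB
  rcases le_or_gt (1 - u) ((63 / 1000 : ℝ) * (b - a)) with w2 | w2
  · refine binD10.signs hb hF hH hB ⟨by norm_num [chD10], ?_, ?_⟩ ?_ ?_
    · norm_num [chD10]; linarith
    · norm_num [chD10]; linarith
    · exact side_inU hd (by norm_num [chD10]) (by norm_num [chD10]; linarith)
        (by norm_num [chD10]; linarith)
    · exact side_inU hd (by norm_num [chD10]) (by norm_num [chD10]; linarith)
        (by norm_num [chD10]; linarith)
  rcases le_or_gt (1 - u) ((33 / 250 : ℝ) * (b - a)) with w3 | w3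
  · refine binD11.signs hb hF hH hB ⟨by norm_num [chD11], ?_, ?_⟩ ?_ ?_
    · norm_num [chD11]; linarith
    · norm_num [chD11]; linarith
    · exact side_inU hd (by norm_num [chD11]) (by norm_num [chD11]; linarith)
        (by norm_num [chD11]; linarith)
    · exact side_inU hd (by norm_num [chD11]) (by norm_num [chD11]; linarith)
        (by norm_num [chD11]; linarith)
  rcases le_or_gt (1 - u) ((277 / 1000 : ℝ) * (b - a)) with w4 | w4
  · refine binD12.signs hb hF hH hB ⟨by norm_num [chD12], ?_, ?_⟩ ?_ ?_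
    · norm_num [chD12]; linarith
    · norm_num [chD12]; linarith
    · exact side_inU hd (by norm_num [chD12]) (by norm_num [chD12]; linarith)
        (by norm_num [chD12]; linarith)
    · exact side_inU hd (by norm_num [chD12]) (by norm_num [chD12]; linarith)
        (by norm_num [chD12]; linarith)
  rcases le_or_gt (1 - u) ((499 / 1000 : ℝ) * (b - a)) with w5 | w5
  · refine binD13.signs hb hF hH hB ⟨by norm_num [chD13], ?_, ?_⟩ ?_ ?_
    · norm_num [chD13]; linarith
    · norm_num [chD13]; linarith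
    · exact side_inU hd (by norm_num [chD13]) (by norm_num [chD13]; linarith)
        (by norm_num [chD13]; linarith)
    · exact side_inU hd (by norm_num [chD13]) (by norm_num [chD13]; linarith)
        (by norm_num [chD13]; linarith)
  rcases le_or_gt (1 - u) ((399 / 500 : ℝ) * (b - a)) with w6 | w6
  · refine binD14.signs hb hF hH hB ⟨by norm_num [chD14], ?_, ?_⟩ ?_ ?_
    · norm_num [chD14]; linarith
    · norm_num [chD14]; linarith
    · exact side_inU hd (by norm_num [chD14]) (by norm_num [chD14]; linarith)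
        (by norm_num [chD14]; linarith)
    · exact side_inU hd (by norm_num [chD14]) (by norm_num [chD14]; linarith)
        (by norm_num [chD14]; linarith)
  refine binD15.signs hb hF hH hB ⟨by norm_num [chD15], ?_, ?_⟩ ?_ ?_
  · norm_num [chD15]; linarith
  · norm_num [chD15]; linarith
  · exact side_inU hd (by norm_num [chD15]) (by norm_num [chD15]; linarith)
      (by norm_num [chD15]; linarith)
  · exact side_inU hd (by norm_num [chD15]) (by norm_num [chD15]; linarith)
      (by norm_num [chD15]; linarith)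

/-- `d` in (4/25, 1/5], `I / d` in (1/5, 8/25], `w / d` in (0, 3/100]. -/
theorem signs_grp20a (hb : Closed.All.ChartBox n (b - a) (a + b))
    (hF : Closed.All.ChartFacts (b - a) (a + b) u v t)
    (hH : Closed.chH (b - a) (a + b) u v t = H) (hB : EndBands a b u v H)
    (d0 : (4 / 25 : ℝ) < b - a) (d1 : b - a ≤ (1 / 5 : ℝ))
    (s0 : (1 / 5 : ℝ) * (b - a) < allStabI a b) (s1 : allStabI a b ≤ (8 / 25 : ℝ) * (b - a))
    (w0 : (0 : ℝ) * (b - a) < 1 - u) (w1 : 1 - u ≤ (3 / 100 : ℝ) * (b - a)) :
    Closed.Strip.ChartSigns (b - a) (a + b) u v t := by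
  obtain ⟨hI, hd, hw, eS, hcap⟩ := end_facts hB
  refine binD92.signs hb hF hH hB ⟨by norm_num [chD92], ?_, ?_⟩ ?_ ?_
  · norm_num [chD92]; linarith
  · norm_num [chD92]; linarith
  · exact side_inU hd (by norm_num [chD92]) (by norm_num [chD92]; linarith)
      (by norm_num [chD92]; linarith)
  · exact side_inU hd (by norm_num [chD92]) (by norm_num [chD92]; linarith)
      (by norm_num [chD92]; linarith)

/-- `d` in (1/5, 9/40], `I / d` in (0, 1/4], `w / d` in (0, 3/100]. -/
theorem signs_grp21a (hb : Closed.All.ChartBox n (b - a) (a + b))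
    (hF : Closed.All.ChartFacts (b - a) (a + b) u v t)
    (hH : Closed.chH (b - a) (a + b) u v t = H) (hB : EndBands a b u v H)
    (d0 : (1 / 5 : ℝ) < b - a) (d1 : b - a ≤ (9 / 40 : ℝ))
    (s0 : (0 : ℝ) * (b - a) < allStabI a b) (s1 : allStabI a b ≤ (1 / 4 : ℝ) * (b - a))
    (w0 : (0 : ℝ) * (b - a) < 1 - u) (w1 : 1 - u ≤ (3 / 100 : ℝ) * (b - a)) :
    Closed.Strip.ChartSigns (b - a) (a + b) u v t := by
  obtain ⟨hI, hd, hw, eS, hcap⟩ := end_facts hB
  refine binD95.signs hb hF hH hB ⟨by norm_num [chD95], ?_, ?_⟩ ?_ ?_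
  · norm_num [chD95]; linarith
  · norm_num [chD95]; linarith
  · exact side_inU hd (by norm_num [chD95]) (by norm_num [chD95]; linarith)
      (by norm_num [chD95]; linarith)
  · exact side_inU hd (by norm_num [chD95]) (by norm_num [chD95]; linarith)
      (by norm_num [chD95]; linarith)

/-- `d` in (1/5, 6/25], `I / d` in (0, 1/4], `w / d` in (3/100, 1]. -/
theorem signs_grp22a (hb : Closed.All.ChartBox n (b - a) (a + b))
    (hF : Closed.All.ChartFacts (b - a) (a + b) u v t)
    (hH : Closed.chH (b - a) (a + b) u v t = H) (hB : EndBands a b u v H)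
    (d0 : (1 / 5 : ℝ) < b - a) (d1 : b - a ≤ (6 / 25 : ℝ))
    (s0 : (0 : ℝ) * (b - a) < allStabI a b) (s1 : allStabI a b ≤ (1 / 4 : ℝ) * (b - a))
    (w0 : (3 / 100 : ℝ) * (b - a) < 1 - u) (w1 : 1 - u ≤ (1 : ℝ) * (b - a)) :
    Closed.Strip.ChartSigns (b - a) (a + b) u v t := by
  obtain ⟨hI, hd, hw, eS, hcap⟩ := end_facts hB
  rcases le_or_gt (1 - u) ((63 / 1000 : ℝ) * (b - a)) with w2 | w2
  · refine binD16.signs hb hF hH hB ⟨by norm_num [chD16], ?_, ?_⟩ ?_ ?_
    · norm_num [chD16]; linarith
    · norm_num [chD16]; linarith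
    · exact side_inU hd (by norm_num [chD16]) (by norm_num [chD16]; linarith)
        (by norm_num [chD16]; linarith)
    · exact side_inU hd (by norm_num [chD16]) (by norm_num [chD16]; linarith)
        (by norm_num [chD16]; linarith)
  rcases le_or_gt (1 - u) ((33 / 250 : ℝ) * (b - a)) with w3 | w3
  · refine binD17.signs hb hF hH hB ⟨by norm_num [chD17], ?_, ?_⟩ ?_ ?_
    · norm_num [chD17]; linarith
    · norm_num [chD17]; linarith
    · exact side_inU hd (by norm_num [chD17]) (by norm_num [chD17]; linarith)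
        (by norm_num [chD17]; linarith)
    · exact side_inU hd (by norm_num [chD17]) (by norm_num [chD17]; linarith)
        (by norm_num [chD17]; linarith)
  rcases le_or_gt (1 - u) ((277 / 1000 : ℝ) * (b - a)) with w4 | w4
  · refine binD18.signs hb hF hH hB ⟨by norm_num [chD18], ?_, ?_⟩ ?_ ?_
    · norm_num [chD18]; linarith
    · norm_num [chD18]; linarith
    · exact side_inU hd (by norm_num [chD18]) (by norm_num [chD18]; linarith)
        (by norm_num [chD18]; linarith)
    · exact side_inU hd (by norm_num [chD18]) (by norm_num [chD18]; linarith)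
        (by norm_num [chD18]; linarith)
  rcases le_or_gt (1 - u) ((443 / 1000 : ℝ) * (b - a)) with w5 | w5
  · refine binD19.signs hb hF hH hB ⟨by norm_num [chD19], ?_, ?_⟩ ?_ ?_
    · norm_num [chD19]; linarith
    · norm_num [chD19]; linarith
    · exact side_inU hd (by norm_num [chD19]) (by norm_num [chD19]; linarith)
        (by norm_num [chD19]; linarith)
    · exact side_inU hd (by norm_num [chD19]) (by norm_num [chD19]; linarith)
        (by norm_num [chD19]; linarith)
  rcases le_or_gt (1 - u) ((321 / 500 : ℝ) * (b - a)) with w6 | w6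
  · refine binD20.signs hb hF hH hB ⟨by norm_num [chD20], ?_, ?_⟩ ?_ ?_
    · norm_num [chD20]; linarith
    · norm_num [chD20]; linarith
    · exact side_inU hd (by norm_num [chD20]) (by norm_num [chD20]; linarith)
        (by norm_num [chD20]; linarith)
    · exact side_inU hd (by norm_num [chD20]) (by norm_num [chD20]; linarith)
        (by norm_num [chD20]; linarith)
  refine binD21.signs hb hF hH hB ⟨by norm_num [chD21], ?_, ?_⟩ ?_ ?_
  · norm_num [chD21]; linarith
  · norm_num [chD21]; linarith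
  · exact side_inU hd (by norm_num [chD21]) (by norm_num [chD21]; linarith)
      (by norm_num [chD21]; linarith)
  · exact side_inU hd (by norm_num [chD21]) (by norm_num [chD21]; linarith)
      (by norm_num [chD21]; linarith)

/-- `d` in (9/40, 1/4], `I / d` in (0, 2/9], `w / d` in (0, 1/100]. -/
theorem signs_grp23a (hb : Closed.All.ChartBox n (b - a) (a + b))
    (hF : Closed.All.ChartFacts (b - a) (a + b) u v t)
    (hH : Closed.chH (b - a) (a + b) u v t = H) (hB : EndBands a b u v H)
    (d0 : (9 / 40 : ℝ) < b - a) (d1 : b - a ≤ (1 / 4 : ℝ))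
    (s0 : (0 : ℝ) * (b - a) < allStabI a b) (s1 : allStabI a b ≤ (2 / 9 : ℝ) * (b - a))
    (w0 : (0 : ℝ) * (b - a) < 1 - u) (w1 : 1 - u ≤ (1 / 100 : ℝ) * (b - a)) :
    Closed.Strip.ChartSigns (b - a) (a + b) u v t := by
  obtain ⟨hI, hd, hw, eS, hcap⟩ := end_facts hB
  refine binD96.signs hb hF hH hB ⟨by norm_num [chD96], ?_, ?_⟩ ?_ ?_
  · norm_num [chD96]; linarith
  · norm_num [chD96]; linarith
  · exact side_inU hd (by norm_num [chD96]) (by norm_num [chD96]; linarith)
      (by norm_num [chD96]; linarith)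
  · exact side_inU hd (by norm_num [chD96]) (by norm_num [chD96]; linarith)
      (by norm_num [chD96]; linarith)

/-- `d` in (9/40, 1/4], `I / d` in (0, 223/1000], `w / d` in (1/100, 3/100]. -/
theorem signs_grp24a (hb : Closed.All.ChartBox n (b - a) (a + b))
    (hF : Closed.All.ChartFacts (b - a) (a + b) u v t)
    (hH : Closed.chH (b - a) (a + b) u v t = H) (hB : EndBands a b u v H)
    (d0 : (9 / 40 : ℝ) < b - a) (d1 : b - a ≤ (1 / 4 : ℝ))
    (s0 : (0 : ℝ) * (b - a) < allStabI a b) (s1 : allStabI a b ≤ (223 / 1000 : ℝ) * (b - a))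
    (w0 : (1 / 100 : ℝ) * (b - a) < 1 - u) (w1 : 1 - u ≤ (3 / 100 : ℝ) * (b - a)) :
    Closed.Strip.ChartSigns (b - a) (a + b) u v t := by
  obtain ⟨hI, hd, hw, eS, hcap⟩ := end_facts hB
  rcases le_or_gt (1 - u) ((21 / 1000 : ℝ) * (b - a)) with w2 | w2
  · refine binD66.signs hb hF hH hB ⟨by norm_num [chD66], ?_, ?_⟩ ?_ ?_
    · norm_num [chD66]; linarith
    · norm_num [chD66]; linarith
    · exact side_inU hd (by norm_num [chD66]) (by norm_num [chD66]; linarith)
        (by norm_num [chD66]; linarith)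
    · exact side_inU hd (by norm_num [chD66]) (by norm_num [chD66]; linarith)
        (by norm_num [chD66]; linarith)
  refine binD67.signs hb hF hH hB ⟨by norm_num [chD67], ?_, ?_⟩ ?_ ?_
  · norm_num [chD67]; linarith
  · norm_num [chD67]; linarith
  · exact side_inU hd (by norm_num [chD67]) (by norm_num [chD67]; linarith)
      (by norm_num [chD67]; linarith)
  · exact side_inU hd (by norm_num [chD67]) (by norm_num [chD67]; linarith)
      (by norm_num [chD67]; linarith)

/-- `d` in (6/25, 11/40], `I / d` in (0, 209/1000], `w / d` in (3/100, 5/6]. -/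
theorem signs_grp25a (hb : Closed.All.ChartBox n (b - a) (a + b))
    (hF : Closed.All.ChartFacts (b - a) (a + b) u v t)
    (hH : Closed.chH (b - a) (a + b) u v t = H) (hB : EndBands a b u v H)
    (d0 : (6 / 25 : ℝ) < b - a) (d1 : b - a ≤ (11 / 40 : ℝ))
    (s0 : (0 : ℝ) * (b - a) < allStabI a b) (s1 : allStabI a b ≤ (209 / 1000 : ℝ) * (b - a))
    (w0 : (3 / 100 : ℝ) * (b - a) < 1 - u) (w1 : 1 - u ≤ (5 / 6 : ℝ) * (b - a)) :
    Closed.Strip.ChartSigns (b - a) (a + b) u v t := by
  obtain ⟨hI, hd, hw, eS, hcap⟩ := end_facts hB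
  rcases le_or_gt (1 - u) ((27 / 500 : ℝ) * (b - a)) with w2 | w2
  · refine binD22.signs hb hF hH hB ⟨by norm_num [chD22], ?_, ?_⟩ ?_ ?_
    · norm_num [chD22]; linarith
    · norm_num [chD22]; linarith
    · exact side_inU hd (by norm_num [chD22]) (by norm_num [chD22]; linarith)
        (by norm_num [chD22]; linarith)
    · exact side_inU hd (by norm_num [chD22]) (by norm_num [chD22]; linarith)
        (by norm_num [chD22]; linarith)
  rcases le_or_gt (1 - u) ((97 / 1000 : ℝ) * (b - a)) with w3 | w3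
  · refine binD23.signs hb hF hH hB ⟨by norm_num [chD23], ?_, ?_⟩ ?_ ?_
    · norm_num [chD23]; linarith
    · norm_num [chD23]; linarith
    · exact side_inU hd (by norm_num [chD23]) (by norm_num [chD23]; linarith)
        (by norm_num [chD23]; linarith)
    · exact side_inU hd (by norm_num [chD23]) (by norm_num [chD23]; linarith)
        (by norm_num [chD23]; linarith)
  rcases le_or_gt (1 - u) ((51 / 250 : ℝ) * (b - a)) with w4 | w4
  · refine binD24.signs hb hF hH hB ⟨by norm_num [chD24], ?_, ?_⟩ ?_ ?_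
    · norm_num [chD24]; linarith
    · norm_num [chD24]; linarith
    · exact side_inU hd (by norm_num [chD24]) (by norm_num [chD24]; linarith)
        (by norm_num [chD24]; linarith)
    · exact side_inU hd (by norm_num [chD24]) (by norm_num [chD24]; linarith)
        (by norm_num [chD24]; linarith)
  rcases le_or_gt (1 - u) ((367 / 1000 : ℝ) * (b - a)) with w5 | w5
  · refine binD25.signs hb hF hH hB ⟨by norm_num [chD25], ?_, ?_⟩ ?_ ?_
    · norm_num [chD25]; linarith
    · norm_num [chD25]; linarith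
    · exact side_inU hd (by norm_num [chD25]) (by norm_num [chD25]; linarith)
        (by norm_num [chD25]; linarith)
    · exact side_inU hd (by norm_num [chD25]) (by norm_num [chD25]; linarith)
        (by norm_num [chD25]; linarith)
  rcases le_or_gt (1 - u) ((133 / 250 : ℝ) * (b - a)) with w6 | w6
  · refine binD26.signs hb hF hH hB ⟨by norm_num [chD26], ?_, ?_⟩ ?_ ?_
    · norm_num [chD26]; linarith
    · norm_num [chD26]; linarith
    · exact side_inU hd (by norm_num [chD26]) (by norm_num [chD26]; linarith)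
        (by norm_num [chD26]; linarith)
    · exact side_inU hd (by norm_num [chD26]) (by norm_num [chD26]; linarith)
        (by norm_num [chD26]; linarith)
  refine binD27.signs hb hF hH hB ⟨by norm_num [chD27], ?_, ?_⟩ ?_ ?_
  · norm_num [chD27]; linarith
  · norm_num [chD27]; linarith
  · exact side_inU hd (by norm_num [chD27]) (by norm_num [chD27]; linarith)
      (by norm_num [chD27]; linarith)
  · exact side_inU hd (by norm_num [chD27]) (by norm_num [chD27]; linarith)
      (by norm_num [chD27]; linarith)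

/-- `d` in (1/4, 53/200], `I / d` in (0, 1/5], `w / d` in (0, 1/100]. -/
theorem signs_grp26a (hb : Closed.All.ChartBox n (b - a) (a + b))
    (hF : Closed.All.ChartFacts (b - a) (a + b) u v t)
    (hH : Closed.chH (b - a) (a + b) u v t = H) (hB : EndBands a b u v H)
    (d0 : (1 / 4 : ℝ) < b - a) (d1 : b - a ≤ (53 / 200 : ℝ))
    (s0 : (0 : ℝ) * (b - a) < allStabI a b) (s1 : allStabI a b ≤ (1 / 5 : ℝ) * (b - a))
    (w0 : (0 : ℝ) * (b - a) < 1 - u) (w1 : 1 - u ≤ (1 / 100 : ℝ) * (b - a)) :
    Closed.Strip.ChartSigns (b - a) (a + b) u v t := by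
  obtain ⟨hI, hd, hw, eS, hcap⟩ := end_facts hB
  refine binD97.signs hb hF hH hB ⟨by norm_num [chD97], ?_, ?_⟩ ?_ ?_
  · norm_num [chD97]; linarith
  · norm_num [chD97]; linarith
  · exact side_inU hd (by norm_num [chD97]) (by norm_num [chD97]; linarith)
      (by norm_num [chD97]; linarith)
  · exact side_inU hd (by norm_num [chD97]) (by norm_num [chD97]; linarith)
      (by norm_num [chD97]; linarith)

/-- `d` in (1/4, 11/40], `I / d` in (0, 1/5], `w / d` in (1/100, 3/100]. -/
theorem signs_grp27a (hb : Closed.All.ChartBox n (b - a) (a + b))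
    (hF : Closed.All.ChartFacts (b - a) (a + b) u v t)
    (hH : Closed.chH (b - a) (a + b) u v t = H) (hB : EndBands a b u v H)
    (d0 : (1 / 4 : ℝ) < b - a) (d1 : b - a ≤ (11 / 40 : ℝ))
    (s0 : (0 : ℝ) * (b - a) < allStabI a b) (s1 : allStabI a b ≤ (1 / 5 : ℝ) * (b - a))
    (w0 : (1 / 100 : ℝ) * (b - a) < 1 - u) (w1 : 1 - u ≤ (3 / 100 : ℝ) * (b - a)) :
    Closed.Strip.ChartSigns (b - a) (a + b) u v t := by
  obtain ⟨hI, hd, hw, eS, hcap⟩ := end_facts hB
  rcases le_or_gt (1 - u) ((7 / 500 : ℝ) * (b - a)) with w2 | w2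
  · refine binD68.signs hb hF hH hB ⟨by norm_num [chD68], ?_, ?_⟩ ?_ ?_
    · norm_num [chD68]; linarith
    · norm_num [chD68]; linarith
    · exact side_inU hd (by norm_num [chD68]) (by norm_num [chD68]; linarith)
        (by norm_num [chD68]; linarith)
    · exact side_inU hd (by norm_num [chD68]) (by norm_num [chD68]; linarith)
        (by norm_num [chD68]; linarith)
  rcases le_or_gt (1 - u) ((1 / 40 : ℝ) * (b - a)) with w3 | w3
  · refine binD69.signs hb hF hH hB ⟨by norm_num [chD69], ?_, ?_⟩ ?_ ?_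
    · norm_num [chD69]; linarith
    · norm_num [chD69]; linarith
    · exact side_inU hd (by norm_num [chD69]) (by norm_num [chD69]; linarith)
        (by norm_num [chD69]; linarith)
    · exact side_inU hd (by norm_num [chD69]) (by norm_num [chD69]; linarith)
        (by norm_num [chD69]; linarith)
  refine binD70.signs hb hF hH hB ⟨by norm_num [chD70], ?_, ?_⟩ ?_ ?_
  · norm_num [chD70]; linarith
  · norm_num [chD70]; linarith
  · exact side_inU hd (by norm_num [chD70]) (by norm_num [chD70]; linarith)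
      (by norm_num [chD70]; linarith)
  · exact side_inU hd (by norm_num [chD70]) (by norm_num [chD70]; linarith)
      (by norm_num [chD70]; linarith)

/-- `d` in (53/200, 7/25], `I / d` in (0, 10/53], `w / d` in (0, 1/100]. -/
theorem signs_grp28a (hb : Closed.All.ChartBox n (b - a) (a + b))
    (hF : Closed.All.ChartFacts (b - a) (a + b) u v t)
    (hH : Closed.chH (b - a) (a + b) u v t = H) (hB : EndBands a b u v H)
    (d0 : (53 / 200 : ℝ) < b - a) (d1 : b - a ≤ (7 / 25 : ℝ))
    (s0 : (0 : ℝ) * (b - a) < allStabI a b) (s1 : allStabI a b ≤ (10 / 53 : ℝ) * (b - a))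
    (w0 : (0 : ℝ) * (b - a) < 1 - u) (w1 : 1 - u ≤ (1 / 100 : ℝ) * (b - a)) :
    Closed.Strip.ChartSigns (b - a) (a + b) u v t := by
  obtain ⟨hI, hd, hw, eS, hcap⟩ := end_facts hB
  refine binD98.signs hb hF hH hB ⟨by norm_num [chD98], ?_, ?_⟩ ?_ ?_
  · norm_num [chD98]; linarith
  · norm_num [chD98]; linarith
  · exact side_inU hd (by norm_num [chD98]) (by norm_num [chD98]; linarith)
      (by norm_num [chD98]; linarith)
  · exact side_inU hd (by norm_num [chD98]) (by norm_num [chD98]; linarith)
      (by norm_num [chD98]; linarith)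

/-- `d` in (11/40, 3/10], `I / d` in (0, 91/500], `w / d` in (1/100, 8/11]. -/
theorem signs_grp29a (hb : Closed.All.ChartBox n (b - a) (a + b))
    (hF : Closed.All.ChartFacts (b - a) (a + b) u v t)
    (hH : Closed.chH (b - a) (a + b) u v t = H) (hB : EndBands a b u v H)
    (d0 : (11 / 40 : ℝ) < b - a) (d1 : b - a ≤ (3 / 10 : ℝ))
    (s0 : (0 : ℝ) * (b - a) < allStabI a b) (s1 : allStabI a b ≤ (91 / 500 : ℝ) * (b - a))
    (w0 : (1 / 100 : ℝ) * (b - a) < 1 - u) (w1 : 1 - u ≤ (8 / 11 : ℝ) * (b - a)) :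
    Closed.Strip.ChartSigns (b - a) (a + b) u v t := by
  obtain ⟨hI, hd, hw, eS, hcap⟩ := end_facts hB
  rcases le_or_gt (1 - u) ((7 / 500 : ℝ) * (b - a)) with w2 | w2
  · refine binD71.signs hb hF hH hB ⟨by norm_num [chD71], ?_, ?_⟩ ?_ ?_
    · norm_num [chD71]; linarith
    · norm_num [chD71]; linarith
    · exact side_inU hd (by norm_num [chD71]) (by norm_num [chD71]; linarith)
        (by norm_num [chD71]; linarith)
    · exact side_inU hd (by norm_num [chD71]) (by norm_num [chD71]; linarith)
        (by norm_num [chD71]; linarith)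
  rcases le_or_gt (1 - u) ((11 / 500 : ℝ) * (b - a)) with w3 | w3
  · refine binD72.signs hb hF hH hB ⟨by norm_num [chD72], ?_, ?_⟩ ?_ ?_
    · norm_num [chD72]; linarith
    · norm_num [chD72]; linarith
    · exact side_inU hd (by norm_num [chD72]) (by norm_num [chD72]; linarith)
        (by norm_num [chD72]; linarith)
    · exact side_inU hd (by norm_num [chD72]) (by norm_num [chD72]; linarith)
        (by norm_num [chD72]; linarith)
  rcases le_or_gt (1 - u) ((3 / 100 : ℝ) * (b - a)) with w4 | w4
  · refine binD73.signs hb hF hH hB ⟨by norm_num [chD73], ?_, ?_⟩ ?_ ?_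
    · norm_num [chD73]; linarith
    · norm_num [chD73]; linarith
    · exact side_inU hd (by norm_num [chD73]) (by norm_num [chD73]; linarith)
        (by norm_num [chD73]; linarith)
    · exact side_inU hd (by norm_num [chD73]) (by norm_num [chD73]; linarith)
        (by norm_num [chD73]; linarith)
  rcases le_or_gt (1 - u) ((27 / 500 : ℝ) * (b - a)) with w5 | w5
  · refine binD28.signs hb hF hH hB ⟨by norm_num [chD28], ?_, ?_⟩ ?_ ?_
    · norm_num [chD28]; linarith
    · norm_num [chD28]; linarith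
    · exact side_inU hd (by norm_num [chD28]) (by norm_num [chD28]; linarith)
        (by norm_num [chD28]; linarith)
    · exact side_inU hd (by norm_num [chD28]) (by norm_num [chD28]; linarith)
        (by norm_num [chD28]; linarith)
  rcases le_or_gt (1 - u) ((113 / 1000 : ℝ) * (b - a)) with w6 | w6
  · refine binD29.signs hb hF hH hB ⟨by norm_num [chD29], ?_, ?_⟩ ?_ ?_
    · norm_num [chD29]; linarith
    · norm_num [chD29]; linarith
    · exact side_inU hd (by norm_num [chD29]) (by norm_num [chD29]; linarith)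
        (by norm_num [chD29]; linarith)
    · exact side_inU hd (by norm_num [chD29]) (by norm_num [chD29]; linarith)
        (by norm_num [chD29]; linarith)
  rcases le_or_gt (1 - u) ((237 / 1000 : ℝ) * (b - a)) with w7 | w7
  · refine binD30.signs hb hF hH hB ⟨by norm_num [chD30], ?_, ?_⟩ ?_ ?_
    · norm_num [chD30]; linarith
    · norm_num [chD30]; linarith
    · exact side_inU hd (by norm_num [chD30]) (by norm_num [chD30]; linarith)
        (by norm_num [chD30]; linarith)
    · exact side_inU hd (by norm_num [chD30]) (by norm_num [chD30]; linarith)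
        (by norm_num [chD30]; linarith)
  rcases le_or_gt (1 - u) ((427 / 1000 : ℝ) * (b - a)) with w8 | w8
  · refine binD31.signs hb hF hH hB ⟨by norm_num [chD31], ?_, ?_⟩ ?_ ?_
    · norm_num [chD31]; linarith
    · norm_num [chD31]; linarith
    · exact side_inU hd (by norm_num [chD31]) (by norm_num [chD31]; linarith)
        (by norm_num [chD31]; linarith)
    · exact side_inU hd (by norm_num [chD31]) (by norm_num [chD31]; linarith)
        (by norm_num [chD31]; linarith)
  rcases le_or_gt (1 - u) ((619 / 1000 : ℝ) * (b - a)) with w9 | w9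
  · refine binD32.signs hb hF hH hB ⟨by norm_num [chD32], ?_, ?_⟩ ?_ ?_
    · norm_num [chD32]; linarith
    · norm_num [chD32]; linarith
    · exact side_inU hd (by norm_num [chD32]) (by norm_num [chD32]; linarith)
        (by norm_num [chD32]; linarith)
    · exact side_inU hd (by norm_num [chD32]) (by norm_num [chD32]; linarith)
        (by norm_num [chD32]; linarith)
  refine binD33.signs hb hF hH hB ⟨by norm_num [chD33], ?_, ?_⟩ ?_ ?_
  · norm_num [chD33]; linarith
  · norm_num [chD33]; linarith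
  · exact side_inU hd (by norm_num [chD33]) (by norm_num [chD33]; linarith)
      (by norm_num [chD33]; linarith)
  · exact side_inU hd (by norm_num [chD33]) (by norm_num [chD33]; linarith)
      (by norm_num [chD33]; linarith)

/-- `d` in (7/25, 59/200], `I / d` in (0, 5/28], `w / d` in (0, 1/100]. -/
theorem signs_grp30a (hb : Closed.All.ChartBox n (b - a) (a + b))
    (hF : Closed.All.ChartFacts (b - a) (a + b) u v t)
    (hH : Closed.chH (b - a) (a + b) u v t = H) (hB : EndBands a b u v H)
    (d0 : (7 / 25 : ℝ) < b - a) (d1 : b - a ≤ (59 / 200 : ℝ))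
    (s0 : (0 : ℝ) * (b - a) < allStabI a b) (s1 : allStabI a b ≤ (5 / 28 : ℝ) * (b - a))
    (w0 : (0 : ℝ) * (b - a) < 1 - u) (w1 : 1 - u ≤ (1 / 100 : ℝ) * (b - a)) :
    Closed.Strip.ChartSigns (b - a) (a + b) u v t := by
  obtain ⟨hI, hd, hw, eS, hcap⟩ := end_facts hB
  refine binD99.signs hb hF hH hB ⟨by norm_num [chD99], ?_, ?_⟩ ?_ ?_
  · norm_num [chD99]; linarith
  · norm_num [chD99]; linarith
  · exact side_inU hd (by norm_num [chD99]) (by norm_num [chD99]; linarith)
      (by norm_num [chD99]; linarith)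
  · exact side_inU hd (by norm_num [chD99]) (by norm_num [chD99]; linarith)
      (by norm_num [chD99]; linarith)

/-- `d` in (59/200, 61/200], `I / d` in (0, 10/69], `w / d` in (0, 1/100]. -/
theorem signs_grp31a (hb : Closed.All.ChartBox n (b - a) (a + b))
    (hF : Closed.All.ChartFacts (b - a) (a + b) u v t)
    (hH : Closed.chH (b - a) (a + b) u v t = H) (hB : EndBands a b u v H)
    (d0 : (59 / 200 : ℝ) < b - a) (d1 : b - a ≤ (61 / 200 : ℝ))
    (s0 : (0 : ℝ) * (b - a) < allStabI a b) (s1 : allStabI a b ≤ (10 / 69 : ℝ) * (b - a))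
    (w0 : (0 : ℝ) * (b - a) < 1 - u) (w1 : 1 - u ≤ (1 / 100 : ℝ) * (b - a)) :
    Closed.Strip.ChartSigns (b - a) (a + b) u v t := by
  obtain ⟨hI, hd, hw, eS, hcap⟩ := end_facts hB
  refine binD100.signs hb hF hH hB ⟨by norm_num [chD100], ?_, ?_⟩ ?_ ?_
  · norm_num [chD100]; linarith
  · norm_num [chD100]; linarith
  · exact side_inU hd (by norm_num [chD100]) (by norm_num [chD100]; linarith)
      (by norm_num [chD100]; linarith)
  · exact side_inU hd (by norm_num [chD100]) (by norm_num [chD100]; linarith)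
      (by norm_num [chD100]; linarith)

/-- `d` in (3/10, 17/50], `I / d` in (0, 67/500], `w / d` in (1/100, 2/3]. -/
theorem signs_grp32a (hb : Closed.All.ChartBox n (b - a) (a + b))
    (hF : Closed.All.ChartFacts (b - a) (a + b) u v t)
    (hH : Closed.chH (b - a) (a + b) u v t = H) (hB : EndBands a b u v H)
    (d0 : (3 / 10 : ℝ) < b - a) (d1 : b - a ≤ (17 / 50 : ℝ))
    (s0 : (0 : ℝ) * (b - a) < allStabI a b) (s1 : allStabI a b ≤ (67 / 500 : ℝ) * (b - a))
    (w0 : (1 / 100 : ℝ) * (b - a) < 1 - u) (w1 : 1 - u ≤ (2 / 3 : ℝ) * (b - a)) :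
    Closed.Strip.ChartSigns (b - a) (a + b) u v t := by
  obtain ⟨hI, hd, hw, eS, hcap⟩ := end_facts hB
  rcases le_or_gt (1 - u) ((7 / 500 : ℝ) * (b - a)) with w2 | w2
  · refine binD74.signs hb hF hH hB ⟨by norm_num [chD74], ?_, ?_⟩ ?_ ?_
    · norm_num [chD74]; linarith
    · norm_num [chD74]; linarith
    · exact side_inU hd (by norm_num [chD74]) (by norm_num [chD74]; linarith)
        (by norm_num [chD74]; linarith)
    · exact side_inU hd (by norm_num [chD74]) (by norm_num [chD74]; linarith)
        (by norm_num [chD74]; linarith)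
  rcases le_or_gt (1 - u) ((11 / 500 : ℝ) * (b - a)) with w3 | w3
  · refine binD75.signs hb hF hH hB ⟨by norm_num [chD75], ?_, ?_⟩ ?_ ?_
    · norm_num [chD75]; linarith
    · norm_num [chD75]; linarith
    · exact side_inU hd (by norm_num [chD75]) (by norm_num [chD75]; linarith)
        (by norm_num [chD75]; linarith)
    · exact side_inU hd (by norm_num [chD75]) (by norm_num [chD75]; linarith)
        (by norm_num [chD75]; linarith)
  rcases le_or_gt (1 - u) ((3 / 100 : ℝ) * (b - a)) with w4 | w4
  · refine binD76.signs hb hF hH hB ⟨by norm_num [chD76], ?_, ?_⟩ ?_ ?_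
    · norm_num [chD76]; linarith
    · norm_num [chD76]; linarith
    · exact side_inU hd (by norm_num [chD76]) (by norm_num [chD76]; linarith)
        (by norm_num [chD76]; linarith)
    · exact side_inU hd (by norm_num [chD76]) (by norm_num [chD76]; linarith)
        (by norm_num [chD76]; linarith)
  rcases le_or_gt (1 - u) ((27 / 500 : ℝ) * (b - a)) with w5 | w5
  · refine binD34.signs hb hF hH hB ⟨by norm_num [chD34], ?_, ?_⟩ ?_ ?_
    · norm_num [chD34]; linarith
    · norm_num [chD34]; linarith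
    · exact side_inU hd (by norm_num [chD34]) (by norm_num [chD34]; linarith)
        (by norm_num [chD34]; linarith)
    · exact side_inU hd (by norm_num [chD34]) (by norm_num [chD34]; linarith)
        (by norm_num [chD34]; linarith)
  rcases le_or_gt (1 - u) ((97 / 1000 : ℝ) * (b - a)) with w6 | w6
  · refine binD35.signs hb hF hH hB ⟨by norm_num [chD35], ?_, ?_⟩ ?_ ?_
    · norm_num [chD35]; linarith
    · norm_num [chD35]; linarith
    · exact side_inU hd (by norm_num [chD35]) (by norm_num [chD35]; linarith)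
        (by norm_num [chD35]; linarith)
    · exact side_inU hd (by norm_num [chD35]) (by norm_num [chD35]; linarith)
        (by norm_num [chD35]; linarith)
  rcases le_or_gt (1 - u) ((7 / 40 : ℝ) * (b - a)) with w7 | w7
  · refine binD36.signs hb hF hH hB ⟨by norm_num [chD36], ?_, ?_⟩ ?_ ?_
    · norm_num [chD36]; linarith
    · norm_num [chD36]; linarith
    · exact side_inU hd (by norm_num [chD36]) (by norm_num [chD36]; linarith)
        (by norm_num [chD36]; linarith)
    · exact side_inU hd (by norm_num [chD36]) (by norm_num [chD36]; linarith)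
        (by norm_num [chD36]; linarith)
  rcases le_or_gt (1 - u) ((63 / 200 : ℝ) * (b - a)) with w8 | w8
  · refine binD37.signs hb hF hH hB ⟨by norm_num [chD37], ?_, ?_⟩ ?_ ?_
    · norm_num [chD37]; linarith
    · norm_num [chD37]; linarith
    · exact side_inU hd (by norm_num [chD37]) (by norm_num [chD37]; linarith)
        (by norm_num [chD37]; linarith)
    · exact side_inU hd (by norm_num [chD37]) (by norm_num [chD37]; linarith)
        (by norm_num [chD37]; linarith)
  rcases le_or_gt (1 - u) ((567 / 1000 : ℝ) * (b - a)) with w9 | w9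
  · refine binD38.signs hb hF hH hB ⟨by norm_num [chD38], ?_, ?_⟩ ?_ ?_
    · norm_num [chD38]; linarith
    · norm_num [chD38]; linarith
    · exact side_inU hd (by norm_num [chD38]) (by norm_num [chD38]; linarith)
        (by norm_num [chD38]; linarith)
    · exact side_inU hd (by norm_num [chD38]) (by norm_num [chD38]; linarith)
        (by norm_num [chD38]; linarith)
  refine binD39.signs hb hF hH hB ⟨by norm_num [chD39], ?_, ?_⟩ ?_ ?_
  · norm_num [chD39]; linarith
  · norm_num [chD39]; linarith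
  · exact side_inU hd (by norm_num [chD39]) (by norm_num [chD39]; linarith)
      (by norm_num [chD39]; linarith)
  · exact side_inU hd (by norm_num [chD39]) (by norm_num [chD39]; linarith)
      (by norm_num [chD39]; linarith)

/-- `d` in (61/200, 63/200], `I / d` in (0, 15/122], `w / d` in (0, 1/100]. -/
theorem signs_grp33a (hb : Closed.All.ChartBox n (b - a) (a + b))
    (hF : Closed.All.ChartFacts (b - a) (a + b) u v t)
    (hH : Closed.chH (b - a) (a + b) u v t = H) (hB : EndBands a b u v H)
    (d0 : (61 / 200 : ℝ) < b - a) (d1 : b - a ≤ (63 / 200 : ℝ))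
    (s0 : (0 : ℝ) * (b - a) < allStabI a b) (s1 : allStabI a b ≤ (15 / 122 : ℝ) * (b - a))
    (w0 : (0 : ℝ) * (b - a) < 1 - u) (w1 : 1 - u ≤ (1 / 100 : ℝ) * (b - a)) :
    Closed.Strip.ChartSigns (b - a) (a + b) u v t := by
  obtain ⟨hI, hd, hw, eS, hcap⟩ := end_facts hB
  refine binD101.signs hb hF hH hB ⟨by norm_num [chD101], ?_, ?_⟩ ?_ ?_
  · norm_num [chD101]; linarith
  · norm_num [chD101]; linarith
  · exact side_inU hd (by norm_num [chD101]) (by norm_num [chD101]; linarith)
      (by norm_num [chD101]; linarith)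
  · exact side_inU hd (by norm_num [chD101]) (by norm_num [chD101]; linarith)
      (by norm_num [chD101]; linarith)

/-- `d` in (63/200, 33/100], `I / d` in (0, 3/29], `w / d` in (0, 1/100]. -/
theorem signs_grp34a (hb : Closed.All.ChartBox n (b - a) (a + b))
    (hF : Closed.All.ChartFacts (b - a) (a + b) u v t)
    (hH : Closed.chH (b - a) (a + b) u v t = H) (hB : EndBands a b u v H)
    (d0 : (63 / 200 : ℝ) < b - a) (d1 : b - a ≤ (33 / 100 : ℝ))
    (s0 : (0 : ℝ) * (b - a) < allStabI a b) (s1 : allStabI a b ≤ (3 / 29 : ℝ) * (b - a))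
    (w0 : (0 : ℝ) * (b - a) < 1 - u) (w1 : 1 - u ≤ (1 / 100 : ℝ) * (b - a)) :
    Closed.Strip.ChartSigns (b - a) (a + b) u v t := by
  obtain ⟨hI, hd, hw, eS, hcap⟩ := end_facts hB
  refine binD102.signs hb hF hH hB ⟨by norm_num [chD102], ?_, ?_⟩ ?_ ?_
  · norm_num [chD102]; linarith
  · norm_num [chD102]; linarith
  · exact side_inU hd (by norm_num [chD102]) (by norm_num [chD102]; linarith)
      (by norm_num [chD102]; linarith)
  · exact side_inU hd (by norm_num [chD102]) (by norm_num [chD102]; linarith)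
      (by norm_num [chD102]; linarith)

/-- `d` in (33/100, 69/200], `I / d` in (0, 5/66], `w / d` in (0, 1/100]. -/
theorem signs_grp35a (hb : Closed.All.ChartBox n (b - a) (a + b))
    (hF : Closed.All.ChartFacts (b - a) (a + b) u v t)
    (hH : Closed.chH (b - a) (a + b) u v t = H) (hB : EndBands a b u v H)
    (d0 : (33 / 100 : ℝ) < b - a) (d1 : b - a ≤ (69 / 200 : ℝ))
    (s0 : (0 : ℝ) * (b - a) < allStabI a b) (s1 : allStabI a b ≤ (5 / 66 : ℝ) * (b - a))
    (w0 : (0 : ℝ) * (b - a) < 1 - u) (w1 : 1 - u ≤ (1 / 100 : ℝ) * (b - a)) :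
    Closed.Strip.ChartSigns (b - a) (a + b) u v t := by
  obtain ⟨hI, hd, hw, eS, hcap⟩ := end_facts hB
  refine binD103.signs hb hF hH hB ⟨by norm_num [chD103], ?_, ?_⟩ ?_ ?_
  · norm_num [chD103]; linarith
  · norm_num [chD103]; linarith
  · exact side_inU hd (by norm_num [chD103]) (by norm_num [chD103]; linarith)
      (by norm_num [chD103]; linarith)
  · exact side_inU hd (by norm_num [chD103]) (by norm_num [chD103]; linarith)
      (by norm_num [chD103]; linarith)

/-- `d` in (17/50, 19/50], `I / d` in (0, 59/1000], `w / d` in (1/100, 10/17]. -/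
theorem signs_grp36a (hb : Closed.All.ChartBox n (b - a) (a + b))
    (hF : Closed.All.ChartFacts (b - a) (a + b) u v t)
    (hH : Closed.chH (b - a) (a + b) u v t = H) (hB : EndBands a b u v H)
    (d0 : (17 / 50 : ℝ) < b - a) (d1 : b - a ≤ (19 / 50 : ℝ))
    (s0 : (0 : ℝ) * (b - a) < allStabI a b) (s1 : allStabI a b ≤ (59 / 1000 : ℝ) * (b - a))
    (w0 : (1 / 100 : ℝ) * (b - a) < 1 - u) (w1 : 1 - u ≤ (10 / 17 : ℝ) * (b - a)) :
    Closed.Strip.ChartSigns (b - a) (a + b) u v t := by
  obtain ⟨hI, hd, hw, eS, hcap⟩ := end_facts hB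
  rcases le_or_gt (1 - u) ((11 / 1000 : ℝ) * (b - a)) with w2 | w2
  · refine binD77.signs hb hF hH hB ⟨by norm_num [chD77], ?_, ?_⟩ ?_ ?_
    · norm_num [chD77]; linarith
    · norm_num [chD77]; linarith
    · exact side_inU hd (by norm_num [chD77]) (by norm_num [chD77]; linarith)
        (by norm_num [chD77]; linarith)
    · exact side_inU hd (by norm_num [chD77]) (by norm_num [chD77]; linarith)
        (by norm_num [chD77]; linarith)
  rcases le_or_gt (1 - u) ((7 / 500 : ℝ) * (b - a)) with w3 | w3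
  · refine binD78.signs hb hF hH hB ⟨by norm_num [chD78], ?_, ?_⟩ ?_ ?_
    · norm_num [chD78]; linarith
    · norm_num [chD78]; linarith
    · exact side_inU hd (by norm_num [chD78]) (by norm_num [chD78]; linarith)
        (by norm_num [chD78]; linarith)
    · exact side_inU hd (by norm_num [chD78]) (by norm_num [chD78]; linarith)
        (by norm_num [chD78]; linarith)
  rcases le_or_gt (1 - u) ((11 / 500 : ℝ) * (b - a)) with w4 | w4
  · refine binD79.signs hb hF hH hB ⟨by norm_num [chD79], ?_, ?_⟩ ?_ ?_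
    · norm_num [chD79]; linarith
    · norm_num [chD79]; linarith
    · exact side_inU hd (by norm_num [chD79]) (by norm_num [chD79]; linarith)
        (by norm_num [chD79]; linarith)
    · exact side_inU hd (by norm_num [chD79]) (by norm_num [chD79]; linarith)
        (by norm_num [chD79]; linarith)
  rcases le_or_gt (1 - u) ((3 / 100 : ℝ) * (b - a)) with w5 | w5
  · refine binD80.signs hb hF hH hB ⟨by norm_num [chD80], ?_, ?_⟩ ?_ ?_
    · norm_num [chD80]; linarith
    · norm_num [chD80]; linarith
    · exact side_inU hd (by norm_num [chD80]) (by norm_num [chD80]; linarith)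
        (by norm_num [chD80]; linarith)
    · exact side_inU hd (by norm_num [chD80]) (by norm_num [chD80]; linarith)
        (by norm_num [chD80]; linarith)
  rcases le_or_gt (1 - u) ((27 / 500 : ℝ) * (b - a)) with w6 | w6
  · refine binD40.signs hb hF hH hB ⟨by norm_num [chD40], ?_, ?_⟩ ?_ ?_
    · norm_num [chD40]; linarith
    · norm_num [chD40]; linarith
    · exact side_inU hd (by norm_num [chD40]) (by norm_num [chD40]; linarith)
        (by norm_num [chD40]; linarith)
    · exact side_inU hd (by norm_num [chD40]) (by norm_num [chD40]; linarith)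
        (by norm_num [chD40]; linarith)
  rcases le_or_gt (1 - u) ((97 / 1000 : ℝ) * (b - a)) with w7 | w7
  · refine binD41.signs hb hF hH hB ⟨by norm_num [chD41], ?_, ?_⟩ ?_ ?_
    · norm_num [chD41]; linarith
    · norm_num [chD41]; linarith
    · exact side_inU hd (by norm_num [chD41]) (by norm_num [chD41]; linarith)
        (by norm_num [chD41]; linarith)
    · exact side_inU hd (by norm_num [chD41]) (by norm_num [chD41]; linarith)
        (by norm_num [chD41]; linarith)
  rcases le_or_gt (1 - u) ((7 / 40 : ℝ) * (b - a)) with w8 | w8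
  · refine binD42.signs hb hF hH hB ⟨by norm_num [chD42], ?_, ?_⟩ ?_ ?_
    · norm_num [chD42]; linarith
    · norm_num [chD42]; linarith
    · exact side_inU hd (by norm_num [chD42]) (by norm_num [chD42]; linarith)
        (by norm_num [chD42]; linarith)
    · exact side_inU hd (by norm_num [chD42]) (by norm_num [chD42]; linarith)
        (by norm_num [chD42]; linarith)
  rcases le_or_gt (1 - u) ((63 / 200 : ℝ) * (b - a)) with w9 | w9
  · refine binD43.signs hb hF hH hB ⟨by norm_num [chD43], ?_, ?_⟩ ?_ ?_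
    · norm_num [chD43]; linarith
    · norm_num [chD43]; linarith
    · exact side_inU hd (by norm_num [chD43]) (by norm_num [chD43]; linarith)
        (by norm_num [chD43]; linarith)
    · exact side_inU hd (by norm_num [chD43]) (by norm_num [chD43]; linarith)
        (by norm_num [chD43]; linarith)
  rcases le_or_gt (1 - u) ((63 / 125 : ℝ) * (b - a)) with w10 | w10
  · refine binD44.signs hb hF hH hB ⟨by norm_num [chD44], ?_, ?_⟩ ?_ ?_
    · norm_num [chD44]; linarith
    · norm_num [chD44]; linarith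
    · exact side_inU hd (by norm_num [chD44]) (by norm_num [chD44]; linarith)
        (by norm_num [chD44]; linarith)
    · exact side_inU hd (by norm_num [chD44]) (by norm_num [chD44]; linarith)
        (by norm_num [chD44]; linarith)
  refine binD45.signs hb hF hH hB ⟨by norm_num [chD45], ?_, ?_⟩ ?_ ?_
  · norm_num [chD45]; linarith
  · norm_num [chD45]; linarith
  · exact side_inU hd (by norm_num [chD45]) (by norm_num [chD45]; linarith)
      (by norm_num [chD45]; linarith)
  · exact side_inU hd (by norm_num [chD45]) (by norm_num [chD45]; linarith)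
      (by norm_num [chD45]; linarith)

/-- `d` in (69/200, 9/25], `I / d` in (0, 3/59], `w / d` in (0, 1/100]. -/
theorem signs_grp37a (hb : Closed.All.ChartBox n (b - a) (a + b))
    (hF : Closed.All.ChartFacts (b - a) (a + b) u v t)
    (hH : Closed.chH (b - a) (a + b) u v t = H) (hB : EndBands a b u v H)
    (d0 : (69 / 200 : ℝ) < b - a) (d1 : b - a ≤ (9 / 25 : ℝ))
    (s0 : (0 : ℝ) * (b - a) < allStabI a b) (s1 : allStabI a b ≤ (3 / 59 : ℝ) * (b - a))
    (w0 : (0 : ℝ) * (b - a) < 1 - u) (w1 : 1 - u ≤ (1 / 100 : ℝ) * (b - a)) :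
    Closed.Strip.ChartSigns (b - a) (a + b) u v t := by
  obtain ⟨hI, hd, hw, eS, hcap⟩ := end_facts hB
  refine binD104.signs hb hF hH hB ⟨by norm_num [chD104], ?_, ?_⟩ ?_ ?_
  · norm_num [chD104]; linarith
  · norm_num [chD104]; linarith
  · exact side_inU hd (by norm_num [chD104]) (by norm_num [chD104]; linarith)
      (by norm_num [chD104]; linarith)
  · exact side_inU hd (by norm_num [chD104]) (by norm_num [chD104]; linarith)
      (by norm_num [chD104]; linarith)

/-- `d` in (9/25, 19/50], `I / d` in (0, 1/36], `w / d` in (0, 1/100]. -/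
theorem signs_grp38a (hb : Closed.All.ChartBox n (b - a) (a + b))
    (hF : Closed.All.ChartFacts (b - a) (a + b) u v t)
    (hH : Closed.chH (b - a) (a + b) u v t = H) (hB : EndBands a b u v H)
    (d0 : (9 / 25 : ℝ) < b - a) (d1 : b - a ≤ (19 / 50 : ℝ))
    (s0 : (0 : ℝ) * (b - a) < allStabI a b) (s1 : allStabI a b ≤ (1 / 36 : ℝ) * (b - a))
    (w0 : (0 : ℝ) * (b - a) < 1 - u) (w1 : 1 - u ≤ (1 / 100 : ℝ) * (b - a)) :
    Closed.Strip.ChartSigns (b - a) (a + b) u v t := by
  obtain ⟨hI, hd, hw, eS, hcap⟩ := end_facts hB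
  refine binD105.signs hb hF hH hB ⟨by norm_num [chD105], ?_, ?_⟩ ?_ ?_
  · norm_num [chD105]; linarith
  · norm_num [chD105]; linarith
  · exact side_inU hd (by norm_num [chD105]) (by norm_num [chD105]; linarith)
      (by norm_num [chD105]; linarith)
  · exact side_inU hd (by norm_num [chD105]) (by norm_num [chD105]; linarith)
      (by norm_num [chD105]; linarith)

/-- `d` in (0, 3/100]. -/
theorem signs_seg00 (hb : Closed.All.ChartBox n (b - a) (a + b))
    (hF : Closed.All.ChartFacts (b - a) (a + b) u v t)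
    (hH : Closed.chH (b - a) (a + b) u v t = H) (hB : EndBands a b u v H)
    (hI20 : allStabI a b ≤ 1 / 20) (hu : 4 / 5 < u) (hs : allStabI a b ≤ b - a)
    (hwd : 1 - u ≤ b - a)
    (hc : allStabI a b ≤ 1 / 2 * (b - a) ∨ 7 / 100 < b - a ∨ 1 / 10 * (b - a) < 1 - u ∨
      3 / 100 < b - a ∧ allStabI a b ≤ 7 / 10 * (b - a))
    (l0 : (0 : ℝ) < b - a) (l1 : b - a ≤ (3 / 100 : ℝ)) :
    Closed.Strip.ChartSigns (b - a) (a + b) u v t := by
  obtain ⟨hI, hd, hw, eS, hcap⟩ := end_facts hB
  rcases le_or_gt (allStabI a b) ((1 / 10 : ℝ) * (b - a)) with s10 | s10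
  · rcases le_or_gt (1 - u) ((3 / 100 : ℝ) * (b - a)) with v0 | v0
    · exact signs_grp00a hb hF hH hB (by linarith) (by linarith) (by linarith) (by linarith)
        (by linarith) (by linarith)
    exact signs_grp04a hb hF hH hB (by linarith) (by linarith) (by linarith) (by linarith)
      (by linarith) (by linarith)
  rcases le_or_gt (allStabI a b) ((1 / 4 : ℝ) * (b - a)) with s11 | s11
  · rcases le_or_gt (1 - u) ((3 / 100 : ℝ) * (b - a)) with v0 | v0
    · exact signs_grp01a hb hF hH hB (by linarith) (by linarith) (by linarith) (by linarith)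
        (by linarith) (by linarith)
    exact signs_grp04a hb hF hH hB (by linarith) (by linarith) (by linarith) (by linarith)
      (by linarith) (by linarith)
  rcases le_or_gt (allStabI a b) ((1 / 2 : ℝ) * (b - a)) with s12 | s12
  · rcases le_or_gt (1 - u) ((3 / 100 : ℝ) * (b - a)) with v0 | v0
    · exact signs_grp02a hb hF hH hB (by linarith) (by linarith) (by linarith) (by linarith)
        (by linarith) (by linarith)
    exact signs_grp04a hb hF hH hB (by linarith) (by linarith) (by linarith) (by linarith)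
      (by linarith) (by linarith)
  have wlo : (1 / 10 : ℝ) * (b - a) < 1 - u := by rcases hc with h | h | h | ⟨h, h'⟩ <;> linarith
  exact signs_grp03a hb hF hH hB (by linarith) (by linarith) (by linarith) (by linarith)
    (by linarith) (by linarith)

/-- `d` in (3/100, 1/25]. -/
theorem signs_seg01 (hb : Closed.All.ChartBox n (b - a) (a + b))
    (hF : Closed.All.ChartFacts (b - a) (a + b) u v t)
    (hH : Closed.chH (b - a) (a + b) u v t = H) (hB : EndBands a b u v H)
    (hI20 : allStabI a b ≤ 1 / 20) (hu : 4 / 5 < u) (hs : allStabI a b ≤ b - a)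
    (hwd : 1 - u ≤ b - a)
    (hc : allStabI a b ≤ 1 / 2 * (b - a) ∨ 7 / 100 < b - a ∨ 1 / 10 * (b - a) < 1 - u ∨
      3 / 100 < b - a ∧ allStabI a b ≤ 7 / 10 * (b - a))
    (l0 : (3 / 100 : ℝ) < b - a) (l1 : b - a ≤ (1 / 25 : ℝ)) :
    Closed.Strip.ChartSigns (b - a) (a + b) u v t := by
  obtain ⟨hI, hd, hw, eS, hcap⟩ := end_facts hB
  rcases le_or_gt (allStabI a b) ((1 / 10 : ℝ) * (b - a)) with s10 | s10
  · rcases le_or_gt (1 - u) ((3 / 100 : ℝ) * (b - a)) with v0 | v0
    · exact signs_grp00a hb hF hH hB (by linarith) (by linarith) (by linarith) (by linarith)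
        (by linarith) (by linarith)
    exact signs_grp04a hb hF hH hB (by linarith) (by linarith) (by linarith) (by linarith)
      (by linarith) (by linarith)
  rcases le_or_gt (allStabI a b) ((1 / 4 : ℝ) * (b - a)) with s11 | s11
  · rcases le_or_gt (1 - u) ((3 / 100 : ℝ) * (b - a)) with v0 | v0
    · exact signs_grp01a hb hF hH hB (by linarith) (by linarith) (by linarith) (by linarith)
        (by linarith) (by linarith)
    exact signs_grp04a hb hF hH hB (by linarith) (by linarith) (by linarith) (by linarith)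
      (by linarith) (by linarith)
  rcases le_or_gt (allStabI a b) ((1 / 2 : ℝ) * (b - a)) with s12 | s12
  · rcases le_or_gt (1 - u) ((3 / 100 : ℝ) * (b - a)) with v0 | v0
    · exact signs_grp02a hb hF hH hB (by linarith) (by linarith) (by linarith) (by linarith)
        (by linarith) (by linarith)
    exact signs_grp04a hb hF hH hB (by linarith) (by linarith) (by linarith) (by linarith)
      (by linarith) (by linarith)
  rcases le_or_gt (allStabI a b) ((7 / 10 : ℝ) * (b - a)) with s13 | s13
  · rcases le_or_gt (1 - u) ((3 / 100 : ℝ) * (b - a)) with v0 | v0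
    · exact signs_grp05a hb hF hH hB (by linarith) (by linarith) (by linarith) (by linarith)
        (by linarith) (by linarith)
    exact signs_grp06a hb hF hH hB (by linarith) (by linarith) (by linarith) (by linarith)
      (by linarith) (by linarith)
  have wlo : (1 / 10 : ℝ) * (b - a) < 1 - u := by rcases hc with h | h | h | ⟨h, h'⟩ <;> linarith
  exact signs_grp03a hb hF hH hB (by linarith) (by linarith) (by linarith) (by linarith)
    (by linarith) (by linarith)

/-- `d` in (1/25, 1/20]. -/
theorem signs_seg02 (hb : Closed.All.ChartBox n (b - a) (a + b))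
    (hF : Closed.All.ChartFacts (b - a) (a + b) u v t)
    (hH : Closed.chH (b - a) (a + b) u v t = H) (hB : EndBands a b u v H)
    (hI20 : allStabI a b ≤ 1 / 20) (hu : 4 / 5 < u) (hs : allStabI a b ≤ b - a)
    (hwd : 1 - u ≤ b - a)
    (hc : allStabI a b ≤ 1 / 2 * (b - a) ∨ 7 / 100 < b - a ∨ 1 / 10 * (b - a) < 1 - u ∨
      3 / 100 < b - a ∧ allStabI a b ≤ 7 / 10 * (b - a))
    (l0 : (1 / 25 : ℝ) < b - a) (l1 : b - a ≤ (1 / 20 : ℝ)) :
    Closed.Strip.ChartSigns (b - a) (a + b) u v t := by
  obtain ⟨hI, hd, hw, eS, hcap⟩ := end_facts hB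
  rcases le_or_gt (allStabI a b) ((1 / 10 : ℝ) * (b - a)) with s10 | s10
  · rcases le_or_gt (1 - u) ((3 / 100 : ℝ) * (b - a)) with v0 | v0
    · exact signs_grp00a hb hF hH hB (by linarith) (by linarith) (by linarith) (by linarith)
        (by linarith) (by linarith)
    exact signs_grp04a hb hF hH hB (by linarith) (by linarith) (by linarith) (by linarith)
      (by linarith) (by linarith)
  rcases le_or_gt (allStabI a b) ((1 / 4 : ℝ) * (b - a)) with s11 | s11
  · rcases le_or_gt (1 - u) ((3 / 100 : ℝ) * (b - a)) with v0 | v0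
    · exact signs_grp01a hb hF hH hB (by linarith) (by linarith) (by linarith) (by linarith)
        (by linarith) (by linarith)
    exact signs_grp04a hb hF hH hB (by linarith) (by linarith) (by linarith) (by linarith)
      (by linarith) (by linarith)
  rcases le_or_gt (allStabI a b) ((1 / 2 : ℝ) * (b - a)) with s12 | s12
  · rcases le_or_gt (1 - u) ((3 / 100 : ℝ) * (b - a)) with v0 | v0
    · exact signs_grp02a hb hF hH hB (by linarith) (by linarith) (by linarith) (by linarith)
        (by linarith) (by linarith)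
    exact signs_grp04a hb hF hH hB (by linarith) (by linarith) (by linarith) (by linarith)
      (by linarith) (by linarith)
  rcases le_or_gt (allStabI a b) ((7 / 10 : ℝ) * (b - a)) with s13 | s13
  · rcases le_or_gt (1 - u) ((3 / 100 : ℝ) * (b - a)) with v0 | v0
    · exact signs_grp07a hb hF hH hB (by linarith) (by linarith) (by linarith) (by linarith)
        (by linarith) (by linarith)
    exact signs_grp06a hb hF hH hB (by linarith) (by linarith) (by linarith) (by linarith)
      (by linarith) (by linarith)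
  have wlo : (1 / 10 : ℝ) * (b - a) < 1 - u := by rcases hc with h | h | h | ⟨h, h'⟩ <;> linarith
  exact signs_grp03a hb hF hH hB (by linarith) (by linarith) (by linarith) (by linarith)
    (by linarith) (by linarith)

/-- `d` in (1/20, 7/100]. -/
theorem signs_seg03 (hb : Closed.All.ChartBox n (b - a) (a + b))
    (hF : Closed.All.ChartFacts (b - a) (a + b) u v t)
    (hH : Closed.chH (b - a) (a + b) u v t = H) (hB : EndBands a b u v H)
    (hI20 : allStabI a b ≤ 1 / 20) (hu : 4 / 5 < u) (hs : allStabI a b ≤ b - a)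
    (hwd : 1 - u ≤ b - a)
    (hc : allStabI a b ≤ 1 / 2 * (b - a) ∨ 7 / 100 < b - a ∨ 1 / 10 * (b - a) < 1 - u ∨
      3 / 100 < b - a ∧ allStabI a b ≤ 7 / 10 * (b - a))
    (l0 : (1 / 20 : ℝ) < b - a) (l1 : b - a ≤ (7 / 100 : ℝ)) :
    Closed.Strip.ChartSigns (b - a) (a + b) u v t := by
  obtain ⟨hI, hd, hw, eS, hcap⟩ := end_facts hB
  rcases le_or_gt (allStabI a b) ((3 / 10 : ℝ) * (b - a)) with s10 | s10
  · rcases le_or_gt (1 - u) ((3 / 100 : ℝ) * (b - a)) with v0 | v0
    · exact signs_grp11a hb hF hH hB (by linarith) (by linarith) (by linarith) (by linarith)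
        (by linarith) (by linarith)
    exact signs_grp04a hb hF hH hB (by linarith) (by linarith) (by linarith) (by linarith)
      (by linarith) (by linarith)
  rcases le_or_gt (allStabI a b) ((1 / 2 : ℝ) * (b - a)) with s11 | s11
  · rcases le_or_gt (1 - u) ((3 / 100 : ℝ) * (b - a)) with v0 | v0
    · exact signs_grp10a hb hF hH hB (by linarith) (by linarith) (by linarith) (by linarith)
        (by linarith) (by linarith)
    exact signs_grp04a hb hF hH hB (by linarith) (by linarith) (by linarith) (by linarith)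
      (by linarith) (by linarith)
  rcases le_or_gt (allStabI a b) ((7 / 10 : ℝ) * (b - a)) with s12 | s12
  · rcases le_or_gt (1 - u) ((3 / 100 : ℝ) * (b - a)) with v0 | v0
    · exact signs_grp08a hb hF hH hB (by linarith) (by linarith) (by linarith) (by linarith)
        (by linarith) (by linarith)
    exact signs_grp06a hb hF hH hB (by linarith) (by linarith) (by linarith) (by linarith)
      (by linarith) (by linarith)
  have wlo : (1 / 10 : ℝ) * (b - a) < 1 - u := by rcases hc with h | h | h | ⟨h, h'⟩ <;> linarith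
  exact signs_grp09a hb hF hH hB (by linarith) (by linarith) (by linarith) (by linarith)
    (by linarith) (by linarith)

/-- `d` in (7/100, 9/100]. -/
theorem signs_seg04 (hb : Closed.All.ChartBox n (b - a) (a + b))
    (hF : Closed.All.ChartFacts (b - a) (a + b) u v t)
    (hH : Closed.chH (b - a) (a + b) u v t = H) (hB : EndBands a b u v H)
    (hI20 : allStabI a b ≤ 1 / 20) (hu : 4 / 5 < u) (hs : allStabI a b ≤ b - a)
    (hwd : 1 - u ≤ b - a)
    (hc : allStabI a b ≤ 1 / 2 * (b - a) ∨ 7 / 100 < b - a ∨ 1 / 10 * (b - a) < 1 - u ∨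
      3 / 100 < b - a ∧ allStabI a b ≤ 7 / 10 * (b - a))
    (l0 : (7 / 100 : ℝ) < b - a) (l1 : b - a ≤ (9 / 100 : ℝ)) :
    Closed.Strip.ChartSigns (b - a) (a + b) u v t := by
  obtain ⟨hI, hd, hw, eS, hcap⟩ := end_facts hB
  rcases le_or_gt (allStabI a b) ((3 / 10 : ℝ) * (b - a)) with s10 | s10
  · rcases le_or_gt (1 - u) ((3 / 100 : ℝ) * (b - a)) with v0 | v0
    · exact signs_grp11a hb hF hH hB (by linarith) (by linarith) (by linarith) (by linarith)
        (by linarith) (by linarith)
    exact signs_grp04a hb hF hH hB (by linarith) (by linarith) (by linarith) (by linarith)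
      (by linarith) (by linarith)
  rcases le_or_gt (allStabI a b) ((1 / 2 : ℝ) * (b - a)) with s11 | s11
  · rcases le_or_gt (1 - u) ((3 / 100 : ℝ) * (b - a)) with v0 | v0
    · exact signs_grp10a hb hF hH hB (by linarith) (by linarith) (by linarith) (by linarith)
        (by linarith) (by linarith)
    exact signs_grp04a hb hF hH hB (by linarith) (by linarith) (by linarith) (by linarith)
      (by linarith) (by linarith)
  rcases le_or_gt (1 - u) ((3 / 100 : ℝ) * (b - a)) with v0 | v0
  · exact signs_grp12a hb hF hH hB (by linarith) (by linarith) (by linarith) (by linarith)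
      (by linarith) (by linarith)
  exact signs_grp13a hb hF hH hB (by linarith) (by linarith) (by linarith) (by linarith)
    (by linarith) (by linarith)

/-- `d` in (9/100, 1/10]. -/
theorem signs_seg05 (hb : Closed.All.ChartBox n (b - a) (a + b))
    (hF : Closed.All.ChartFacts (b - a) (a + b) u v t)
    (hH : Closed.chH (b - a) (a + b) u v t = H) (hB : EndBands a b u v H)
    (hI20 : allStabI a b ≤ 1 / 20) (hu : 4 / 5 < u) (hs : allStabI a b ≤ b - a)
    (hwd : 1 - u ≤ b - a)
    (hc : allStabI a b ≤ 1 / 2 * (b - a) ∨ 7 / 100 < b - a ∨ 1 / 10 * (b - a) < 1 - u ∨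
      3 / 100 < b - a ∧ allStabI a b ≤ 7 / 10 * (b - a))
    (l0 : (9 / 100 : ℝ) < b - a) (l1 : b - a ≤ (1 / 10 : ℝ)) :
    Closed.Strip.ChartSigns (b - a) (a + b) u v t := by
  obtain ⟨hI, hd, hw, eS, hcap⟩ := end_facts hB
  rcases le_or_gt (allStabI a b) ((3 / 10 : ℝ) * (b - a)) with s10 | s10
  · rcases le_or_gt (1 - u) ((3 / 100 : ℝ) * (b - a)) with v0 | v0
    · exact signs_grp11a hb hF hH hB (by linarith) (by linarith) (by linarith) (by linarith)
        (by linarith) (by linarith)
    exact signs_grp04a hb hF hH hB (by linarith) (by linarith) (by linarith) (by linarith)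
      (by linarith) (by linarith)
  rcases le_or_gt (allStabI a b) ((1 / 2 : ℝ) * (b - a)) with s11 | s11
  · rcases le_or_gt (1 - u) ((3 / 100 : ℝ) * (b - a)) with v0 | v0
    · exact signs_grp14a hb hF hH hB (by linarith) (by linarith) (by linarith) (by linarith)
        (by linarith) (by linarith)
    exact signs_grp04a hb hF hH hB (by linarith) (by linarith) (by linarith) (by linarith)
      (by linarith) (by linarith)
  rcases le_or_gt (1 - u) ((3 / 100 : ℝ) * (b - a)) with v0 | v0
  · exact signs_grp12a hb hF hH hB (by linarith) (by linarith) (by linarith) (by linarith)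
      (by linarith) (by linarith)
  exact signs_grp13a hb hF hH hB (by linarith) (by linarith) (by linarith) (by linarith)
    (by linarith) (by linarith)

/-- `d` in (1/10, 3/25]. -/
theorem signs_seg06 (hb : Closed.All.ChartBox n (b - a) (a + b))
    (hF : Closed.All.ChartFacts (b - a) (a + b) u v t)
    (hH : Closed.chH (b - a) (a + b) u v t = H) (hB : EndBands a b u v H)
    (hI20 : allStabI a b ≤ 1 / 20) (hu : 4 / 5 < u) (hs : allStabI a b ≤ b - a)
    (hwd : 1 - u ≤ b - a)
    (hc : allStabI a b ≤ 1 / 2 * (b - a) ∨ 7 / 100 < b - a ∨ 1 / 10 * (b - a) < 1 - u ∨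
      3 / 100 < b - a ∧ allStabI a b ≤ 7 / 10 * (b - a))
    (l0 : (1 / 10 : ℝ) < b - a) (l1 : b - a ≤ (3 / 25 : ℝ)) :
    Closed.Strip.ChartSigns (b - a) (a + b) u v t := by
  obtain ⟨hI, hd, hw, eS, hcap⟩ := end_facts hB
  rcases le_or_gt (allStabI a b) ((3 / 10 : ℝ) * (b - a)) with s10 | s10
  · rcases le_or_gt (1 - u) ((3 / 100 : ℝ) * (b - a)) with v0 | v0
    · exact signs_grp11a hb hF hH hB (by linarith) (by linarith) (by linarith) (by linarith)
        (by linarith) (by linarith)
    exact signs_grp04a hb hF hH hB (by linarith) (by linarith) (by linarith) (by linarith)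
      (by linarith) (by linarith)
  rcases le_or_gt (1 - u) ((3 / 100 : ℝ) * (b - a)) with v0 | v0
  · exact signs_grp14a hb hF hH hB (by linarith) (by linarith) (by linarith) (by linarith)
      (by linarith) (by linarith)
  exact signs_grp04a hb hF hH hB (by linarith) (by linarith) (by linarith) (by linarith)
    (by linarith) (by linarith)

/-- `d` in (3/25, 4/25]. -/
theorem signs_seg07 (hb : Closed.All.ChartBox n (b - a) (a + b))
    (hF : Closed.All.ChartFacts (b - a) (a + b) u v t)
    (hH : Closed.chH (b - a) (a + b) u v t = H) (hB : EndBands a b u v H)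
    (hI20 : allStabI a b ≤ 1 / 20) (hu : 4 / 5 < u) (hs : allStabI a b ≤ b - a)
    (hwd : 1 - u ≤ b - a)
    (hc : allStabI a b ≤ 1 / 2 * (b - a) ∨ 7 / 100 < b - a ∨ 1 / 10 * (b - a) < 1 - u ∨
      3 / 100 < b - a ∧ allStabI a b ≤ 7 / 10 * (b - a))
    (l0 : (3 / 25 : ℝ) < b - a) (l1 : b - a ≤ (4 / 25 : ℝ)) :
    Closed.Strip.ChartSigns (b - a) (a + b) u v t := by
  obtain ⟨hI, hd, hw, eS, hcap⟩ := end_facts hB
  rcases le_or_gt (allStabI a b) ((1 / 5 : ℝ) * (b - a)) with s10 | s10
  · rcases le_or_gt (1 - u) ((3 / 100 : ℝ) * (b - a)) with v0 | v0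
    · exact signs_grp15a hb hF hH hB (by linarith) (by linarith) (by linarith) (by linarith)
        (by linarith) (by linarith)
    exact signs_grp16a hb hF hH hB (by linarith) (by linarith) (by linarith) (by linarith)
      (by linarith) (by linarith)
  rcases le_or_gt (1 - u) ((3 / 100 : ℝ) * (b - a)) with v0 | v0
  · exact signs_grp17a hb hF hH hB (by linarith) (by linarith) (by linarith) (by linarith)
      (by linarith) (by linarith)
  exact signs_grp16a hb hF hH hB (by linarith) (by linarith) (by linarith) (by linarith)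
    (by linarith) (by linarith)

/-- `d` in (4/25, 1/5]. -/
theorem signs_seg08 (hb : Closed.All.ChartBox n (b - a) (a + b))
    (hF : Closed.All.ChartFacts (b - a) (a + b) u v t)
    (hH : Closed.chH (b - a) (a + b) u v t = H) (hB : EndBands a b u v H)
    (hI20 : allStabI a b ≤ 1 / 20) (hu : 4 / 5 < u) (hs : allStabI a b ≤ b - a)
    (hwd : 1 - u ≤ b - a)
    (hc : allStabI a b ≤ 1 / 2 * (b - a) ∨ 7 / 100 < b - a ∨ 1 / 10 * (b - a) < 1 - u ∨
      3 / 100 < b - a ∧ allStabI a b ≤ 7 / 10 * (b - a))
    (l0 : (4 / 25 : ℝ) < b - a) (l1 : b - a ≤ (1 / 5 : ℝ)) :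
    Closed.Strip.ChartSigns (b - a) (a + b) u v t := by
  obtain ⟨hI, hd, hw, eS, hcap⟩ := end_facts hB
  rcases le_or_gt (allStabI a b) ((1 / 5 : ℝ) * (b - a)) with s10 | s10
  · rcases le_or_gt (1 - u) ((3 / 100 : ℝ) * (b - a)) with v0 | v0
    · exact signs_grp18a hb hF hH hB (by linarith) (by linarith) (by linarith) (by linarith)
        (by linarith) (by linarith)
    exact signs_grp19a hb hF hH hB (by linarith) (by linarith) (by linarith) (by linarith)
      (by linarith) (by linarith)
  rcases le_or_gt (1 - u) ((3 / 100 : ℝ) * (b - a)) with v0 | v0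
  · exact signs_grp20a hb hF hH hB (by linarith) (by linarith) (by linarith) (by linarith)
      (by linarith) (by linarith)
  exact signs_grp19a hb hF hH hB (by linarith) (by linarith) (by linarith) (by linarith)
    (by linarith) (by linarith)

/-- `d` in (1/5, 9/40]. -/
theorem signs_seg09 (hb : Closed.All.ChartBox n (b - a) (a + b))
    (hF : Closed.All.ChartFacts (b - a) (a + b) u v t)
    (hH : Closed.chH (b - a) (a + b) u v t = H) (hB : EndBands a b u v H)
    (hI20 : allStabI a b ≤ 1 / 20) (hu : 4 / 5 < u) (hs : allStabI a b ≤ b - a)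
    (hwd : 1 - u ≤ b - a)
    (hc : allStabI a b ≤ 1 / 2 * (b - a) ∨ 7 / 100 < b - a ∨ 1 / 10 * (b - a) < 1 - u ∨
      3 / 100 < b - a ∧ allStabI a b ≤ 7 / 10 * (b - a))
    (l0 : (1 / 5 : ℝ) < b - a) (l1 : b - a ≤ (9 / 40 : ℝ)) :
    Closed.Strip.ChartSigns (b - a) (a + b) u v t := by
  obtain ⟨hI, hd, hw, eS, hcap⟩ := end_facts hB
  rcases le_or_gt (1 - u) ((3 / 100 : ℝ) * (b - a)) with v0 | v0
  · exact signs_grp21a hb hF hH hB (by linarith) (by linarith) (by linarith) (by linarith)
      (by linarith) (by linarith)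
  exact signs_grp22a hb hF hH hB (by linarith) (by linarith) (by linarith) (by linarith)
    (by linarith) (by linarith)

/-- `d` in (9/40, 6/25]. -/
theorem signs_seg10 (hb : Closed.All.ChartBox n (b - a) (a + b))
    (hF : Closed.All.ChartFacts (b - a) (a + b) u v t)
    (hH : Closed.chH (b - a) (a + b) u v t = H) (hB : EndBands a b u v H)
    (hI20 : allStabI a b ≤ 1 / 20) (hu : 4 / 5 < u) (hs : allStabI a b ≤ b - a)
    (hwd : 1 - u ≤ b - a)
    (hc : allStabI a b ≤ 1 / 2 * (b - a) ∨ 7 / 100 < b - a ∨ 1 / 10 * (b - a) < 1 - u ∨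
      3 / 100 < b - a ∧ allStabI a b ≤ 7 / 10 * (b - a))
    (l0 : (9 / 40 : ℝ) < b - a) (l1 : b - a ≤ (6 / 25 : ℝ)) :
    Closed.Strip.ChartSigns (b - a) (a + b) u v t := by
  obtain ⟨hI, hd, hw, eS, hcap⟩ := end_facts hB
  rcases le_or_gt (1 - u) ((1 / 100 : ℝ) * (b - a)) with v0 | v0
  · exact signs_grp23a hb hF hH hB (by linarith) (by linarith) (by linarith) (by linarith)
      (by linarith) (by linarith)
  rcases le_or_gt (1 - u) ((3 / 100 : ℝ) * (b - a)) with v1 | v1
  · exact signs_grp24a hb hF hH hB (by linarith) (by linarith) (by linarith) (by linarith)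
      (by linarith) (by linarith)
  exact signs_grp22a hb hF hH hB (by linarith) (by linarith) (by linarith) (by linarith)
    (by linarith) (by linarith)

/-- `d` in (6/25, 1/4]. -/
theorem signs_seg11 (hb : Closed.All.ChartBox n (b - a) (a + b))
    (hF : Closed.All.ChartFacts (b - a) (a + b) u v t)
    (hH : Closed.chH (b - a) (a + b) u v t = H) (hB : EndBands a b u v H)
    (hI20 : allStabI a b ≤ 1 / 20) (hu : 4 / 5 < u) (hs : allStabI a b ≤ b - a)
    (hwd : 1 - u ≤ b - a)
    (hc : allStabI a b ≤ 1 / 2 * (b - a) ∨ 7 / 100 < b - a ∨ 1 / 10 * (b - a) < 1 - u ∨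
      3 / 100 < b - a ∧ allStabI a b ≤ 7 / 10 * (b - a))
    (l0 : (6 / 25 : ℝ) < b - a) (l1 : b - a ≤ (1 / 4 : ℝ)) :
    Closed.Strip.ChartSigns (b - a) (a + b) u v t := by
  obtain ⟨hI, hd, hw, eS, hcap⟩ := end_facts hB
  rcases le_or_gt (1 - u) ((1 / 100 : ℝ) * (b - a)) with v0 | v0
  · exact signs_grp23a hb hF hH hB (by linarith) (by linarith) (by linarith) (by linarith)
      (by linarith) (by linarith)
  rcases le_or_gt (1 - u) ((3 / 100 : ℝ) * (b - a)) with v1 | v1
  · exact signs_grp24a hb hF hH hB (by linarith) (by linarith) (by linarith) (by linarith)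
      (by linarith) (by linarith)
  exact signs_grp25a hb hF hH hB (by linarith) (by linarith) (by linarith) (by linarith)
    (by linarith) (by linarith)

/-- `d` in (1/4, 53/200]. -/
theorem signs_seg12 (hb : Closed.All.ChartBox n (b - a) (a + b))
    (hF : Closed.All.ChartFacts (b - a) (a + b) u v t)
    (hH : Closed.chH (b - a) (a + b) u v t = H) (hB : EndBands a b u v H)
    (hI20 : allStabI a b ≤ 1 / 20) (hu : 4 / 5 < u) (hs : allStabI a b ≤ b - a)
    (hwd : 1 - u ≤ b - a)
    (hc : allStabI a b ≤ 1 / 2 * (b - a) ∨ 7 / 100 < b - a ∨ 1 / 10 * (b - a) < 1 - u ∨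
      3 / 100 < b - a ∧ allStabI a b ≤ 7 / 10 * (b - a))
    (l0 : (1 / 4 : ℝ) < b - a) (l1 : b - a ≤ (53 / 200 : ℝ)) :
    Closed.Strip.ChartSigns (b - a) (a + b) u v t := by
  obtain ⟨hI, hd, hw, eS, hcap⟩ := end_facts hB
  rcases le_or_gt (1 - u) ((1 / 100 : ℝ) * (b - a)) with v0 | v0
  · exact signs_grp26a hb hF hH hB (by linarith) (by linarith) (by linarith) (by linarith)
      (by linarith) (by linarith)
  rcases le_or_gt (1 - u) ((3 / 100 : ℝ) * (b - a)) with v1 | v1
  · exact signs_grp27a hb hF hH hB (by linarith) (by linarith) (by linarith) (by linarith)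
      (by linarith) (by linarith)
  exact signs_grp25a hb hF hH hB (by linarith) (by linarith) (by linarith) (by linarith)
    (by linarith) (by linarith)

/-- `d` in (53/200, 11/40]. -/
theorem signs_seg13 (hb : Closed.All.ChartBox n (b - a) (a + b))
    (hF : Closed.All.ChartFacts (b - a) (a + b) u v t)
    (hH : Closed.chH (b - a) (a + b) u v t = H) (hB : EndBands a b u v H)
    (hI20 : allStabI a b ≤ 1 / 20) (hu : 4 / 5 < u) (hs : allStabI a b ≤ b - a)
    (hwd : 1 - u ≤ b - a)
    (hc : allStabI a b ≤ 1 / 2 * (b - a) ∨ 7 / 100 < b - a ∨ 1 / 10 * (b - a) < 1 - u ∨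
      3 / 100 < b - a ∧ allStabI a b ≤ 7 / 10 * (b - a))
    (l0 : (53 / 200 : ℝ) < b - a) (l1 : b - a ≤ (11 / 40 : ℝ)) :
    Closed.Strip.ChartSigns (b - a) (a + b) u v t := by
  obtain ⟨hI, hd, hw, eS, hcap⟩ := end_facts hB
  rcases le_or_gt (1 - u) ((1 / 100 : ℝ) * (b - a)) with v0 | v0
  · exact signs_grp28a hb hF hH hB (by linarith) (by linarith) (by linarith) (by linarith)
      (by linarith) (by linarith)
  rcases le_or_gt (1 - u) ((3 / 100 : ℝ) * (b - a)) with v1 | v1
  · exact signs_grp27a hb hF hH hB (by linarith) (by linarith) (by linarith) (by linarith)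
      (by linarith) (by linarith)
  exact signs_grp25a hb hF hH hB (by linarith) (by linarith) (by linarith) (by linarith)
    (by linarith) (by linarith)

/-- `d` in (11/40, 7/25]. -/
theorem signs_seg14 (hb : Closed.All.ChartBox n (b - a) (a + b))
    (hF : Closed.All.ChartFacts (b - a) (a + b) u v t)
    (hH : Closed.chH (b - a) (a + b) u v t = H) (hB : EndBands a b u v H)
    (hI20 : allStabI a b ≤ 1 / 20) (hu : 4 / 5 < u) (hs : allStabI a b ≤ b - a)
    (hwd : 1 - u ≤ b - a)
    (hc : allStabI a b ≤ 1 / 2 * (b - a) ∨ 7 / 100 < b - a ∨ 1 / 10 * (b - a) < 1 - u ∨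
      3 / 100 < b - a ∧ allStabI a b ≤ 7 / 10 * (b - a))
    (l0 : (11 / 40 : ℝ) < b - a) (l1 : b - a ≤ (7 / 25 : ℝ)) :
    Closed.Strip.ChartSigns (b - a) (a + b) u v t := by
  obtain ⟨hI, hd, hw, eS, hcap⟩ := end_facts hB
  rcases le_or_gt (1 - u) ((1 / 100 : ℝ) * (b - a)) with v0 | v0
  · exact signs_grp28a hb hF hH hB (by linarith) (by linarith) (by linarith) (by linarith)
      (by linarith) (by linarith)
  exact signs_grp29a hb hF hH hB (by linarith) (by linarith) (by linarith) (by linarith)
    (by linarith) (by linarith)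

/-- `d` in (7/25, 59/200]. -/
theorem signs_seg15 (hb : Closed.All.ChartBox n (b - a) (a + b))
    (hF : Closed.All.ChartFacts (b - a) (a + b) u v t)
    (hH : Closed.chH (b - a) (a + b) u v t = H) (hB : EndBands a b u v H)
    (hI20 : allStabI a b ≤ 1 / 20) (hu : 4 / 5 < u) (hs : allStabI a b ≤ b - a)
    (hwd : 1 - u ≤ b - a)
    (hc : allStabI a b ≤ 1 / 2 * (b - a) ∨ 7 / 100 < b - a ∨ 1 / 10 * (b - a) < 1 - u ∨
      3 / 100 < b - a ∧ allStabI a b ≤ 7 / 10 * (b - a))
    (l0 : (7 / 25 : ℝ) < b - a) (l1 : b - a ≤ (59 / 200 : ℝ)) :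
    Closed.Strip.ChartSigns (b - a) (a + b) u v t := by
  obtain ⟨hI, hd, hw, eS, hcap⟩ := end_facts hB
  rcases le_or_gt (1 - u) ((1 / 100 : ℝ) * (b - a)) with v0 | v0
  · exact signs_grp30a hb hF hH hB (by linarith) (by linarith) (by linarith) (by linarith)
      (by linarith) (by linarith)
  exact signs_grp29a hb hF hH hB (by linarith) (by linarith) (by linarith) (by linarith)
    (by linarith) (by linarith)

/-- `d` in (59/200, 3/10]. -/
theorem signs_seg16 (hb : Closed.All.ChartBox n (b - a) (a + b))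
    (hF : Closed.All.ChartFacts (b - a) (a + b) u v t)
    (hH : Closed.chH (b - a) (a + b) u v t = H) (hB : EndBands a b u v H)
    (hI20 : allStabI a b ≤ 1 / 20) (hu : 4 / 5 < u) (hs : allStabI a b ≤ b - a)
    (hwd : 1 - u ≤ b - a)
    (hc : allStabI a b ≤ 1 / 2 * (b - a) ∨ 7 / 100 < b - a ∨ 1 / 10 * (b - a) < 1 - u ∨
      3 / 100 < b - a ∧ allStabI a b ≤ 7 / 10 * (b - a))
    (l0 : (59 / 200 : ℝ) < b - a) (l1 : b - a ≤ (3 / 10 : ℝ)) :
    Closed.Strip.ChartSigns (b - a) (a + b) u v t := by
  obtain ⟨hI, hd, hw, eS, hcap⟩ := end_facts hB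
  rcases le_or_gt (1 - u) ((1 / 100 : ℝ) * (b - a)) with v0 | v0
  · exact signs_grp31a hb hF hH hB (by linarith) (by linarith) (by linarith) (by linarith)
      (by linarith) (by linarith)
  exact signs_grp29a hb hF hH hB (by linarith) (by linarith) (by linarith) (by linarith)
    (by linarith) (by linarith)

/-- `d` in (3/10, 61/200]. -/
theorem signs_seg17 (hb : Closed.All.ChartBox n (b - a) (a + b))
    (hF : Closed.All.ChartFacts (b - a) (a + b) u v t)
    (hH : Closed.chH (b - a) (a + b) u v t = H) (hB : EndBands a b u v H)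
    (hI20 : allStabI a b ≤ 1 / 20) (hu : 4 / 5 < u) (hs : allStabI a b ≤ b - a)
    (hwd : 1 - u ≤ b - a)
    (hc : allStabI a b ≤ 1 / 2 * (b - a) ∨ 7 / 100 < b - a ∨ 1 / 10 * (b - a) < 1 - u ∨
      3 / 100 < b - a ∧ allStabI a b ≤ 7 / 10 * (b - a))
    (l0 : (3 / 10 : ℝ) < b - a) (l1 : b - a ≤ (61 / 200 : ℝ)) :
    Closed.Strip.ChartSigns (b - a) (a + b) u v t := by
  obtain ⟨hI, hd, hw, eS, hcap⟩ := end_facts hB
  rcases le_or_gt (1 - u) ((1 / 100 : ℝ) * (b - a)) with v0 | v0
  · exact signs_grp31a hb hF hH hB (by linarith) (by linarith) (by linarith) (by linarith)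
      (by linarith) (by linarith)
  exact signs_grp32a hb hF hH hB (by linarith) (by linarith) (by linarith) (by linarith)
    (by linarith) (by linarith)

/-- `d` in (61/200, 63/200]. -/
theorem signs_seg18 (hb : Closed.All.ChartBox n (b - a) (a + b))
    (hF : Closed.All.ChartFacts (b - a) (a + b) u v t)
    (hH : Closed.chH (b - a) (a + b) u v t = H) (hB : EndBands a b u v H)
    (hI20 : allStabI a b ≤ 1 / 20) (hu : 4 / 5 < u) (hs : allStabI a b ≤ b - a)
    (hwd : 1 - u ≤ b - a)
    (hc : allStabI a b ≤ 1 / 2 * (b - a) ∨ 7 / 100 < b - a ∨ 1 / 10 * (b - a) < 1 - u ∨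
      3 / 100 < b - a ∧ allStabI a b ≤ 7 / 10 * (b - a))
    (l0 : (61 / 200 : ℝ) < b - a) (l1 : b - a ≤ (63 / 200 : ℝ)) :
    Closed.Strip.ChartSigns (b - a) (a + b) u v t := by
  obtain ⟨hI, hd, hw, eS, hcap⟩ := end_facts hB
  rcases le_or_gt (1 - u) ((1 / 100 : ℝ) * (b - a)) with v0 | v0
  · exact signs_grp33a hb hF hH hB (by linarith) (by linarith) (by linarith) (by linarith)
      (by linarith) (by linarith)
  exact signs_grp32a hb hF hH hB (by linarith) (by linarith) (by linarith) (by linarith)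
    (by linarith) (by linarith)

/-- `d` in (63/200, 33/100]. -/
theorem signs_seg19 (hb : Closed.All.ChartBox n (b - a) (a + b))
    (hF : Closed.All.ChartFacts (b - a) (a + b) u v t)
    (hH : Closed.chH (b - a) (a + b) u v t = H) (hB : EndBands a b u v H)
    (hI20 : allStabI a b ≤ 1 / 20) (hu : 4 / 5 < u) (hs : allStabI a b ≤ b - a)
    (hwd : 1 - u ≤ b - a)
    (hc : allStabI a b ≤ 1 / 2 * (b - a) ∨ 7 / 100 < b - a ∨ 1 / 10 * (b - a) < 1 - u ∨
      3 / 100 < b - a ∧ allStabI a b ≤ 7 / 10 * (b - a))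
    (l0 : (63 / 200 : ℝ) < b - a) (l1 : b - a ≤ (33 / 100 : ℝ)) :
    Closed.Strip.ChartSigns (b - a) (a + b) u v t := by
  obtain ⟨hI, hd, hw, eS, hcap⟩ := end_facts hB
  rcases le_or_gt (1 - u) ((1 / 100 : ℝ) * (b - a)) with v0 | v0
  · exact signs_grp34a hb hF hH hB (by linarith) (by linarith) (by linarith) (by linarith)
      (by linarith) (by linarith)
  exact signs_grp32a hb hF hH hB (by linarith) (by linarith) (by linarith) (by linarith)
    (by linarith) (by linarith)

/-- `d` in (33/100, 17/50]. -/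
theorem signs_seg20 (hb : Closed.All.ChartBox n (b - a) (a + b))
    (hF : Closed.All.ChartFacts (b - a) (a + b) u v t)
    (hH : Closed.chH (b - a) (a + b) u v t = H) (hB : EndBands a b u v H)
    (hI20 : allStabI a b ≤ 1 / 20) (hu : 4 / 5 < u) (hs : allStabI a b ≤ b - a)
    (hwd : 1 - u ≤ b - a)
    (hc : allStabI a b ≤ 1 / 2 * (b - a) ∨ 7 / 100 < b - a ∨ 1 / 10 * (b - a) < 1 - u ∨
      3 / 100 < b - a ∧ allStabI a b ≤ 7 / 10 * (b - a))
    (l0 : (33 / 100 : ℝ) < b - a) (l1 : b - a ≤ (17 / 50 : ℝ)) :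
    Closed.Strip.ChartSigns (b - a) (a + b) u v t := by
  obtain ⟨hI, hd, hw, eS, hcap⟩ := end_facts hB
  rcases le_or_gt (1 - u) ((1 / 100 : ℝ) * (b - a)) with v0 | v0
  · exact signs_grp35a hb hF hH hB (by linarith) (by linarith) (by linarith) (by linarith)
      (by linarith) (by linarith)
  exact signs_grp32a hb hF hH hB (by linarith) (by linarith) (by linarith) (by linarith)
    (by linarith) (by linarith)

/-- `d` in (17/50, 69/200]. -/
theorem signs_seg21 (hb : Closed.All.ChartBox n (b - a) (a + b))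
    (hF : Closed.All.ChartFacts (b - a) (a + b) u v t)
    (hH : Closed.chH (b - a) (a + b) u v t = H) (hB : EndBands a b u v H)
    (hI20 : allStabI a b ≤ 1 / 20) (hu : 4 / 5 < u) (hs : allStabI a b ≤ b - a)
    (hwd : 1 - u ≤ b - a)
    (hc : allStabI a b ≤ 1 / 2 * (b - a) ∨ 7 / 100 < b - a ∨ 1 / 10 * (b - a) < 1 - u ∨
      3 / 100 < b - a ∧ allStabI a b ≤ 7 / 10 * (b - a))
    (l0 : (17 / 50 : ℝ) < b - a) (l1 : b - a ≤ (69 / 200 : ℝ)) :
    Closed.Strip.ChartSigns (b - a) (a + b) u v t := by
  obtain ⟨hI, hd, hw, eS, hcap⟩ := end_facts hB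
  rcases le_or_gt (1 - u) ((1 / 100 : ℝ) * (b - a)) with v0 | v0
  · exact signs_grp35a hb hF hH hB (by linarith) (by linarith) (by linarith) (by linarith)
      (by linarith) (by linarith)
  exact signs_grp36a hb hF hH hB (by linarith) (by linarith) (by linarith) (by linarith)
    (by linarith) (by linarith)

/-- `d` in (69/200, 9/25]. -/
theorem signs_seg22 (hb : Closed.All.ChartBox n (b - a) (a + b))
    (hF : Closed.All.ChartFacts (b - a) (a + b) u v t)
    (hH : Closed.chH (b - a) (a + b) u v t = H) (hB : EndBands a b u v H)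
    (hI20 : allStabI a b ≤ 1 / 20) (hu : 4 / 5 < u) (hs : allStabI a b ≤ b - a)
    (hwd : 1 - u ≤ b - a)
    (hc : allStabI a b ≤ 1 / 2 * (b - a) ∨ 7 / 100 < b - a ∨ 1 / 10 * (b - a) < 1 - u ∨
      3 / 100 < b - a ∧ allStabI a b ≤ 7 / 10 * (b - a))
    (l0 : (69 / 200 : ℝ) < b - a) (l1 : b - a ≤ (9 / 25 : ℝ)) :
    Closed.Strip.ChartSigns (b - a) (a + b) u v t := by
  obtain ⟨hI, hd, hw, eS, hcap⟩ := end_facts hB
  rcases le_or_gt (1 - u) ((1 / 100 : ℝ) * (b - a)) with v0 | v0
  · exact signs_grp37a hb hF hH hB (by linarith) (by linarith) (by linarith) (by linarith)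
      (by linarith) (by linarith)
  exact signs_grp36a hb hF hH hB (by linarith) (by linarith) (by linarith) (by linarith)
    (by linarith) (by linarith)

/-- `d` in (9/25, 19/50]. -/
theorem signs_seg23 (hb : Closed.All.ChartBox n (b - a) (a + b))
    (hF : Closed.All.ChartFacts (b - a) (a + b) u v t)
    (hH : Closed.chH (b - a) (a + b) u v t = H) (hB : EndBands a b u v H)
    (hI20 : allStabI a b ≤ 1 / 20) (hu : 4 / 5 < u) (hs : allStabI a b ≤ b - a)
    (hwd : 1 - u ≤ b - a)
    (hc : allStabI a b ≤ 1 / 2 * (b - a) ∨ 7 / 100 < b - a ∨ 1 / 10 * (b - a) < 1 - u ∨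
      3 / 100 < b - a ∧ allStabI a b ≤ 7 / 10 * (b - a))
    (l0 : (9 / 25 : ℝ) < b - a) (l1 : b - a ≤ (19 / 50 : ℝ)) :
    Closed.Strip.ChartSigns (b - a) (a + b) u v t := by
  obtain ⟨hI, hd, hw, eS, hcap⟩ := end_facts hB
  rcases le_or_gt (1 - u) ((1 / 100 : ℝ) * (b - a)) with v0 | v0
  · exact signs_grp38a hb hF hH hB (by linarith) (by linarith) (by linarith) (by linarith)
      (by linarith) (by linarith)
  exact signs_grp36a hb hF hH hB (by linarith) (by linarith) (by linarith) (by linarith)
    (by linarith) (by linarith)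

/-- **The signs on the side of the charts `D`.** -/
theorem signs_side (hb : Closed.All.ChartBox n (b - a) (a + b))
    (hF : Closed.All.ChartFacts (b - a) (a + b) u v t)
    (hH : Closed.chH (b - a) (a + b) u v t = H) (hB : EndBands a b u v H)
    (hI20 : allStabI a b ≤ 1 / 20) (hu : 4 / 5 < u) (hs : allStabI a b ≤ b - a)
    (hwd : 1 - u ≤ b - a)
    (hc : allStabI a b ≤ 1 / 2 * (b - a) ∨ 7 / 100 < b - a ∨ 1 / 10 * (b - a) < 1 - u ∨
      3 / 100 < b - a ∧ allStabI a b ≤ 7 / 10 * (b - a)) :
    Closed.Strip.ChartSigns (b - a) (a + b) u v t := by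
  obtain ⟨hI, hd, hw, eS, hcap⟩ := end_facts hB
  rcases le_or_gt (b - a) (3 / 100 : ℝ) with e0 | e0
  · exact signs_seg00 hb hF hH hB hI20 hu hs hwd hc (by linarith) (by linarith)
  rcases le_or_gt (b - a) (1 / 25 : ℝ) with e1 | e1
  · exact signs_seg01 hb hF hH hB hI20 hu hs hwd hc (by linarith) (by linarith)
  rcases le_or_gt (b - a) (1 / 20 : ℝ) with e2 | e2
  · exact signs_seg02 hb hF hH hB hI20 hu hs hwd hc (by linarith) (by linarith)
  rcases le_or_gt (b - a) (7 / 100 : ℝ) with e3 | e3
  · exact signs_seg03 hb hF hH hB hI20 hu hs hwd hc (by linarith) (by linarith)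
  rcases le_or_gt (b - a) (9 / 100 : ℝ) with e4 | e4
  · exact signs_seg04 hb hF hH hB hI20 hu hs hwd hc (by linarith) (by linarith)
  rcases le_or_gt (b - a) (1 / 10 : ℝ) with e5 | e5
  · exact signs_seg05 hb hF hH hB hI20 hu hs hwd hc (by linarith) (by linarith)
  rcases le_or_gt (b - a) (3 / 25 : ℝ) with e6 | e6
  · exact signs_seg06 hb hF hH hB hI20 hu hs hwd hc (by linarith) (by linarith)
  rcases le_or_gt (b - a) (4 / 25 : ℝ) with e7 | e7
  · exact signs_seg07 hb hF hH hB hI20 hu hs hwd hc (by linarith) (by linarith)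
  rcases le_or_gt (b - a) (1 / 5 : ℝ) with e8 | e8
  · exact signs_seg08 hb hF hH hB hI20 hu hs hwd hc (by linarith) (by linarith)
  rcases le_or_gt (b - a) (9 / 40 : ℝ) with e9 | e9
  · exact signs_seg09 hb hF hH hB hI20 hu hs hwd hc (by linarith) (by linarith)
  rcases le_or_gt (b - a) (6 / 25 : ℝ) with e10 | e10
  · exact signs_seg10 hb hF hH hB hI20 hu hs hwd hc (by linarith) (by linarith)
  rcases le_or_gt (b - a) (1 / 4 : ℝ) with e11 | e11
  · exact signs_seg11 hb hF hH hB hI20 hu hs hwd hc (by linarith) (by linarith)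
  rcases le_or_gt (b - a) (53 / 200 : ℝ) with e12 | e12
  · exact signs_seg12 hb hF hH hB hI20 hu hs hwd hc (by linarith) (by linarith)
  rcases le_or_gt (b - a) (11 / 40 : ℝ) with e13 | e13
  · exact signs_seg13 hb hF hH hB hI20 hu hs hwd hc (by linarith) (by linarith)
  rcases le_or_gt (b - a) (7 / 25 : ℝ) with e14 | e14
  · exact signs_seg14 hb hF hH hB hI20 hu hs hwd hc (by linarith) (by linarith)
  rcases le_or_gt (b - a) (59 / 200 : ℝ) with e15 | e15
  · exact signs_seg15 hb hF hH hB hI20 hu hs hwd hc (by linarith) (by linarith)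
  rcases le_or_gt (b - a) (3 / 10 : ℝ) with e16 | e16
  · exact signs_seg16 hb hF hH hB hI20 hu hs hwd hc (by linarith) (by linarith)
  rcases le_or_gt (b - a) (61 / 200 : ℝ) with e17 | e17
  · exact signs_seg17 hb hF hH hB hI20 hu hs hwd hc (by linarith) (by linarith)
  rcases le_or_gt (b - a) (63 / 200 : ℝ) with e18 | e18
  · exact signs_seg18 hb hF hH hB hI20 hu hs hwd hc (by linarith) (by linarith)
  rcases le_or_gt (b - a) (33 / 100 : ℝ) with e19 | e19
  · exact signs_seg19 hb hF hH hB hI20 hu hs hwd hc (by linarith) (by linarith)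
  rcases le_or_gt (b - a) (17 / 50 : ℝ) with e20 | e20
  · exact signs_seg20 hb hF hH hB hI20 hu hs hwd hc (by linarith) (by linarith)
  rcases le_or_gt (b - a) (69 / 200 : ℝ) with e21 | e21
  · exact signs_seg21 hb hF hH hB hI20 hu hs hwd hc (by linarith) (by linarith)
  rcases le_or_gt (b - a) (9 / 25 : ℝ) with e22 | e22
  · exact signs_seg22 hb hF hH hB hI20 hu hs hwd hc (by linarith) (by linarith)
  exact signs_seg23 hb hF hH hB hI20 hu hs hwd hc (by linarith) (by linarith)

end Vale.Agent.P100.Calib.StripEndD
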