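import Vale.Agent.P100.Calib.SlabStripHatExpr

/-!
# The conditions of the strip below 153/200: numerators and substitutions

`gMax P ...` are the five conditions built from the numerators of the blocks. A piece substitutes
into them the numerators of its ends in the variables of a chart: `x₀` places `I` (`d` in the chart
`B`), `x₁` the chart's second variable, `x₂` places `v`, `x₃` is `u`.
-/

namespace Vale.Agent.P100.Calib.StripMid

open Pack Pack.Ex

local instance midExprAdd : Add Ex := ⟨Ex.add⟩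
local instance midExprSub : Sub Ex := ⟨Ex.sub⟩
local instance midExprMul : Mul Ex := ⟨Ex.mul⟩

/-- Substitution. -/
def subst (σ : ℕ → Ex) : Ex → Ex
  | .var i => σ i
  | .num z => .num z
  | .add e f => .add (subst σ e) (subst σ f)
  | .sub e f => .sub (subst σ e) (subst σ f)
  | .mul e f => .mul (subst σ e) (subst σ f)
  | .pow e n => .pow (subst σ e) n

theorem eval_subst {R : Type*} [CommRing R] (σ : ℕ → Ex) (x : ℕ → R) :
    ∀ e : Ex, (subst σ e).eval x = e.eval fun i => (σ i).eval x
  | .var _ => rfl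
  | .num _ => rfl
  | .add e f => by simp [subst, Ex.eval, eval_subst σ x e, eval_subst σ x f]
  | .sub e f => by simp [subst, Ex.eval, eval_subst σ x e, eval_subst σ x f]
  | .mul e f => by simp [subst, Ex.eval, eval_subst σ x e, eval_subst σ x f]
  | .pow e n => by simp [subst, Ex.eval, eval_subst σ x e]

theorem eval_congr {R : Type*} [CommRing R] {m : ℕ} {x y : ℕ → R} (h : ∀ i < m, x i = y i) :
    ∀ e : Ex, e.ok m = true → e.eval x = e.eval y
  | .var i, hi => h i (by simpa [Ex.ok] using hi)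
  | .num _, _ => rfl
  | .add e f, he => by
    simp only [Ex.ok, Bool.and_eq_true] at he
    simp [Ex.eval, eval_congr h e he.1, eval_congr h f he.2]
  | .sub e f, he => by
    simp only [Ex.ok, Bool.and_eq_true] at he
    simp [Ex.eval, eval_congr h e he.1, eval_congr h f he.2]
  | .mul e f, he => by
    simp only [Ex.ok, Bool.and_eq_true] at he
    simp [Ex.eval, eval_congr h e he.1, eval_congr h f he.2]
  | .pow e n, he => by simp [Ex.eval, eval_congr h e (by simpa [Ex.ok] using he)]

/-- `1 + d v`. -/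
def qEx : Ex := num 1 + var 1 * var 2

/-- `16 a² b²`. -/
def abEx : Ex := pow (var 0) 2 * pow (var 0 + num 2 * var 1) 2

/-- `2 I`. -/
def mEx : Ex := num 1 - var 0 - var 1

/-- `4 k TGG - s (1 + d v) TEG`, times `32 q` and denominators, `k = n/q`, `s` a sign. -/
def cond2 (n q s : ℤ) : Ex :=
  num (4 * n) * (var 7 * tplG) - num (8 * s * q) * qEx * (var 12 * (var 14 * tplT))

/-- `S1`: `n I TMM + m a² b² g TME` in integers. -/
def cond1 (n m : ℤ) : Ex :=
  num n * mEx * (var 9 * tplM) + num m * abEx * tplX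

/-- `S3`: `m a² b² (TA + k TEG) + n I g TME` in integers. -/
def cond3 (m c e n : ℤ) : Ex :=
  num m * abEx * (num c * tplA + num e * (var 7 * (var 9 * (var 14 * tplT)))) +
    num n * mEx * (var 4 * (var 7 * (var 12 * (pow (var 14) 2 * tplX))))

/-- Twice `d v I`. -/
def posEx : Ex := var 1 * var 2 * mEx

/-- A strict version: a large multiple minus a positive number. -/
def strict (e : Ex) : Ex := num (2 ^ 64) * e - pow posEx 3

/-- `g TME` is not positive. -/
def condX : Ex := num (-1) * tplX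

/-- The three charts. -/
inductive Kind where
  | A | B | D

/-- The numbers of a piece: a pair is a fraction. -/
structure Piece where
  kind : Kind
  (u₀ u₁ z c₀ c₁ l₀ l₁ r : ℤ × ℕ)
  (t₀ t₁ : ℤ × ℤ × ℕ)
  (w₀ : ℤ)
  (w : ℤ × ℤ × ℤ × ℕ)
  (g₀ g₁ k₁ k₂ k₂' : ℤ × ℕ)

/-- `I`. -/
def kI : Kind → Ex
  | .B => var 1 * var 0
  | _ => var 0

/-- `d`. -/
def kD : Kind → Ex
  | .A => var 1 * var 0
  | .B => var 0
  | .D => var 1

/-- `S`. -/
def kS (K : Kind) : Ex := num 1 - num 2 * kI K

/-- `2 a`. -/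
def kA (K : Kind) : Ex := kS K - kD K

/-- `2 b`. -/
def kB (K : Kind) : Ex := kS K + kD K

/-- `v`, from `Y = v/(2 I) - 1`. -/
def kV (K : Kind) : Ex := num 2 * kI K * (num 1 + var 2)

/-- `80 (b² A)`, `A = 5/2 - 43/20 a²/b²`. -/
def kAb (K : Kind) : Ex := num 50 * pow (kB K) 2 - num 43 * pow (kA K) 2

/-- `80 b² kB`. -/
def kBb (K : Kind) : Ex :=
  num 20 * kI K * (num 2 - num 6 * kI K - pow (kA K) 2) * pow (kB K) 2

/-- `d + 3 I²`. -/
def kDk (K : Kind) : Ex := kD K + num 3 * pow (kI K) 2

/-- An end. -/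
structure Vtx where
  (p l k w t : Bool)

/-- The numerators and denominators at an end. -/
def sub (P : Piece) (V : Vtx) : ℕ → Ex :=
  let K := P.kind
  let L := cond V.l P.l₁ P.l₀
  let T := cond V.t P.t₁ P.t₀
  let r := P.r
  fun i => match i with
  | 0 => kA K
  | 1 => kD K
  | 2 => kV K
  | 3 => num (9 * P.z.2) * (num 4 - num 2 * kA K * kV K) +
      cond V.p (num (4 * P.z.1) * kI K * (num 9 + num 20 * kI K)) (num 0)
  | 4 => num (9 * P.z.2)
  | 5 => num (-L.1 * r.2) * (kAb K + kBb K)
  | 6 => num (-L.1) * cond V.k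
      (num r.1 * kAb K * kD K - num (3 * r.2) * pow (kI K) 2 * kBb K)
      (num r.2 * kAb K * kD K - num (3 * r.1) * pow (kI K) 2 * kBb K)
  | 7 => num (5 * L.2 * r.2) * pow (kB K) 3 * kDk K
  | 8 => kI K * pow (kB K) 2 * cond V.w
      (num P.w.1 + num P.w.2.1 * kI K - num P.w.2.2.1 * kD K)
      (num (-P.w₀ * P.w.2.2.2))
  | 9 => num (4 * P.w.2.2.2)
  | 10 => num (-5 * T.2.2) * (num 2 - num 3 * kA K - num 2 * kI K) * kI K * kB K -
      num 2 * (num T.1 + num T.2.1 * kD K)
  | 11 => num (-2) * (num T.1 + num T.2.1 * kD K)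
  | 12 => num (5 * T.2.2) * pow (kB K) 2
  | 13 => match K with
    | .A => num 0
    | .B => num 1 - kI K - kS K * var 1
    | .D => (num 1 - kI K) * kD K - kS K * kI K
  | _ => match K with
    | .A => num 1
    | .B => pow (kS K) 2
    | .D => kD K * pow (kS K) 2

end Vale.Agent.P100.Calib.StripMid
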