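import Vale.Agent.P100.Calib.SlabStripHat
import Vale.Agent.P100.Calib.SlabStripMidExpr

/-!
# The numerators of the blocks at arbitrary denominators
-/

namespace Vale.Agent.P100.Calib.StripMid

open Pack

/-- The quotients. -/
noncomputable def quo (ρ : ℕ → ℝ) : ℕ → ℝ :=
  hatOne (ρ 0 / 2) (ρ 1) (ρ 2) (ρ 3 / ρ 4) (ρ 5 / ρ 7) (ρ 6 / ρ 7) (ρ 8 / ρ 9) (ρ 10 / ρ 12)
    (ρ 11 / ρ 12) (ρ 13 / ρ 14)

theorem quo_low (ρ : ℕ → ℝ) : ∀ i < 3, quo ρ i = ρ i := by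
  intro i hi
  interval_cases i <;> simp [quo, hatOne]
  ring

theorem coef_quo {e : Ex} (h : e.ok 3 = true) (ρ : ℕ → ℝ) : e.eval (quo ρ) = e.eval ρ :=
  eval_congr (quo_low ρ) e h

theorem tplG_quo {ρ : ℕ → ℝ} (h4 : ρ 4 ≠ 0) (h12 : ρ 12 ≠ 0) (h14 : ρ 14 ≠ 0) :
    tplG.eval ρ = ρ 4 ^ 2 * ρ 12 ^ 2 * ρ 14 ^ 2 * tplG.eval (quo ρ) := by
  simp only [tplG, Ex.eval, coef_quo (e := coG0) rfl, coef_quo (e := coG1) rfl, coef_quo (e := coG2) rfl, coef_quo (e := coG3) rfl, coef_quo (e := coG4) rfl, coef_quo (e := coG5) rfl, coef_quo (e := coG6) rfl, coef_quo (e := coG7) rfl, coef_quo (e := coG8) rfl, coef_quo (e := coG9) rfl, coef_quo (e := coG10) rfl]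
  simp only [quo, hatOne]
  field_simp

theorem tplMG_quo {ρ : ℕ → ℝ} (h4 : ρ 4 ≠ 0) (h7 : ρ 7 ≠ 0) (h9 : ρ 9 ≠ 0) (h12 : ρ 12 ≠ 0) (h14 : ρ 14 ≠ 0) :
    tplMG.eval ρ = ρ 4 ^ 2 * ρ 7 ^ 2 * ρ 9 ^ 1 * ρ 12 ^ 1 * ρ 14 ^ 2 * tplMG.eval (quo ρ) := by
  simp only [tplMG, Ex.eval, coef_quo (e := coMG0) rfl, coef_quo (e := coMG1) rfl, coef_quo (e := coMG2) rfl, coef_quo (e := coMG3) rfl, coef_quo (e := coMG4) rfl, coef_quo (e := coMG5) rfl, coef_quo (e := coMG6) rfl, coef_quo (e := coMG7) rfl, coef_quo (e := coMG8) rfl, coef_quo (e := coMG9) rfl, coef_quo (e := coMG10) rfl, coef_quo (e := coMG11) rfl, coef_quo (e := coMG12) rfl]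
  simp only [quo, hatOne]
  field_simp

theorem tplA_quo {ρ : ℕ → ℝ} (h4 : ρ 4 ≠ 0) (h7 : ρ 7 ≠ 0) (h9 : ρ 9 ≠ 0) (h12 : ρ 12 ≠ 0) (h14 : ρ 14 ≠ 0) :
    tplA.eval ρ = ρ 4 ^ 2 * ρ 7 ^ 2 * ρ 9 ^ 1 * ρ 12 ^ 1 * ρ 14 ^ 2 * tplA.eval (quo ρ) := by
  simp only [tplA, Ex.eval, coef_quo (e := coA0) rfl, coef_quo (e := coA1) rfl, coef_quo (e := coA2) rfl, coef_quo (e := coA3) rfl, coef_quo (e := coA4) rfl, coef_quo (e := coA5) rfl, coef_quo (e := coA6) rfl, coef_quo (e := coA7) rfl, coef_quo (e := coA8) rfl, coef_quo (e := coA9) rfl, coef_quo (e := coA10) rfl, coef_quo (e := coA11) rfl, coef_quo (e := coA12) rfl]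
  simp only [quo, hatOne]
  field_simp

theorem tplT_quo {ρ : ℕ → ℝ} (h4 : ρ 4 ≠ 0) (h7 : ρ 7 ≠ 0) (h12 : ρ 12 ≠ 0) (h14 : ρ 14 ≠ 0) :
    tplT.eval ρ = ρ 4 ^ 2 * ρ 7 ^ 1 * ρ 12 ^ 1 * ρ 14 ^ 1 * tplT.eval (quo ρ) := by
  simp only [tplT, Ex.eval, coef_quo (e := coT0) rfl, coef_quo (e := coT1) rfl, coef_quo (e := coT2) rfl, coef_quo (e := coT3) rfl, coef_quo (e := coT4) rfl, coef_quo (e := coT5) rfl, coef_quo (e := coT6) rfl, coef_quo (e := coT7) rfl, coef_quo (e := coT8) rfl, coef_quo (e := coT9) rfl]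
  simp only [quo, hatOne]
  field_simp

theorem tplX_quo {ρ : ℕ → ℝ} (h4 : ρ 4 ≠ 0) (h7 : ρ 7 ≠ 0) (h9 : ρ 9 ≠ 0) :
    tplX.eval ρ = ρ 4 ^ 1 * ρ 7 ^ 1 * ρ 9 ^ 1 * tplX.eval (quo ρ) := by
  simp only [tplX, Ex.eval, coef_quo (e := coX0) rfl, coef_quo (e := coX1) rfl, coef_quo (e := coX2) rfl, coef_quo (e := coX3) rfl, coef_quo (e := coX4) rfl]
  simp only [quo, hatOne]
  field_simp

theorem tplM_quo {ρ : ℕ → ℝ} (h4 : ρ 4 ≠ 0) (h7 : ρ 7 ≠ 0) :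
    tplM.eval ρ = ρ 4 ^ 1 * ρ 7 ^ 1 * tplM.eval (quo ρ) := by
  simp only [tplM, Ex.eval, coef_quo (e := coM0) rfl]
  simp only [quo, hatOne]
  field_simp

end Vale.Agent.P100.Calib.StripMid
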