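import Vale.Agent.P100.Calib.SlabStripEndBound
import Vale.Agent.P100.Calib.SlabStripMidHom

/-!
# The conditions of the strip for `u` near one at arbitrary denominators
-/

set_option linter.unusedVariables false

namespace Vale.Agent.P100.Calib.StripEnd

open Pack StripMid

local instance endHomAdd : Add Ex := ⟨Ex.add⟩
local instance endHomSub : Sub Ex := ⟨Ex.sub⟩
local instance endHomMul : Mul Ex := ⟨Ex.mul⟩

variable {x : ℕ → ℝ} {ρ : ℕ → ℝ}

theorem ev_add (e f : Ex) : (e + f).eval x = e.eval x + f.eval x := rfl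

theorem ev_sub (e f : Ex) : (e - f).eval x = e.eval x - f.eval x := rfl

theorem ev_mul (e f : Ex) : (e * f).eval x = e.eval x * f.eval x := rfl

theorem ev_pow (e : Ex) (n : ℕ) : (Ex.pow e n).eval x = e.eval x ^ n := rfl

theorem ev_num (z : ℤ) : (Ex.num z).eval x = (z : ℝ) := rfl

/-- The substituted values. -/
noncomputable def hvec (σ : ℕ → Ex) (vn vd : Ex) (x : ℕ → ℝ) : ℕ → ℝ := fun i =>
  if i = 2 then vn.eval x / vd.eval x else (σ i).eval x

theorem scale_left {c y : ℝ} {m M : ℕ} {E : Ex} {vd : Ex} (hm : m ≤ M)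
    (h : E.eval x = c ^ m * y) (hc : c = vd.eval x) :
    (bif m == M then E else E * Ex.pow vd (M - m)).eval x = c ^ M * y := by
  rcases eq_or_ne m M with rfl | hne
  · simp [h]
  · simp only [beq_eq_false_iff_ne.2 hne, cond_false, ev_mul, ev_pow, h, ← hc]
    rw [mul_right_comm, ← pow_add, Nat.add_sub_cancel' hm]

/-- `hsub` clears the denominator of the variable `2`. -/
theorem eval_hsub (σ : ℕ → Ex) (vn vd : Ex) (hv : vd.eval x ≠ 0) : ∀ e : Ex,
    (hsub σ vn vd e).eval x = vd.eval x ^ e.deg 2 * e.eval (hvec σ vn vd x)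
  | .var i => by
    rcases eq_or_ne i 2 with rfl | hi
    · simp [hsub, Ex.deg, Ex.eval, hvec, mul_div_cancel₀ _ hv]
    · simp [hsub, Ex.deg, Ex.eval, hvec, hi, beq_eq_false_iff_ne.2 hi]
  | .num z => by simp [hsub, Ex.deg, Ex.eval]
  | .add e f => by
    simp only [hsub, ev_add, Ex.deg, Ex.eval]
    rw [scale_left (le_max_left _ _) (eval_hsub σ vn vd hv e) rfl,
      scale_left (le_max_right _ _) (eval_hsub σ vn vd hv f) rfl, mul_add]
  | .sub e f => by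
    simp only [hsub, ev_sub, Ex.deg, Ex.eval]
    rw [scale_left (le_max_left _ _) (eval_hsub σ vn vd hv e) rfl,
      scale_left (le_max_right _ _) (eval_hsub σ vn vd hv f) rfl, mul_sub]
  | .mul e f => by
    simp only [hsub, Ex.deg, Ex.eval]
    rw [eval_hsub σ vn vd hv e, eval_hsub σ vn vd hv f, pow_add]
    ring
  | .pow e n => by
    simp only [hsub, Ex.deg, Ex.eval]
    rw [eval_hsub σ vn vd hv e, mul_pow, ← pow_mul, mul_comm n]

/-- A nonnegative condition at an end is one at the quotient of its numerators. -/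
theorem hsub_nonneg {σ : ℕ → Ex} {vn vd : Ex} (hv : 0 < vd.eval x) {e : Ex}
    (h : 0 ≤ (hsub σ vn vd e).eval x) : 0 ≤ e.eval (hvec σ vn vd x) := by
  rw [eval_hsub σ vn vd hv.ne'] at h
  exact nonneg_of_mul_nonneg_right h (pow_pos hv _)

/-- The sign of a condition. -/
noncomputable def sgn (s : Bool) : ℝ := cond s 1 (-1)

theorem cast_sgn (s : Bool) : ((cond s 1 (-1) : ℤ) : ℝ) = sgn s := by cases s <;> simp [sgn]

theorem eval_signX (s : Bool) : (signX s).eval ρ = sgn s * tplX.eval ρ := by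
  show ((cond s 1 (-1) : ℤ) : ℝ) * tplX.eval ρ = _
  rw [cast_sgn]

theorem qEx_quo : qEx.eval ρ = 1 + ρ 1 * ρ 2 := by
  show ((1 : ℤ) : ℝ) + ρ 1 * ρ 2 = _
  norm_num

/-- The denominators of the numerators. -/
structure Den (ρ : ℕ → ℝ) : Prop where
  h4 : 0 < ρ 4
  h7 : 0 < ρ 7
  h9 : 0 < ρ 9
  h12 : 0 < ρ 12
  h14 : 0 < ρ 14

/-- `κ M ± X` at the quotients. -/
theorem c1_quo (D : Den ρ) (s : Bool) : (c1 s).eval ρ = ρ 4 * ρ 7 * ρ 9 *
    (ρ 15 * tplM.eval (quo ρ) + ρ 16 * (sgn s * tplX.eval (quo ρ))) := by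
  simp only [c1, ev_add, ev_mul, eval_signX, Ex.eval,
    tplM_quo D.h4.ne' D.h7.ne', tplX_quo D.h4.ne' D.h7.ne' D.h9.ne']
  ring

/-- `k2 G ± 4 q T` at the quotients. -/
theorem c2_quo (D : Den ρ) (k : ℕ × ℕ) (s : Bool) :
    (c2 k s).eval ρ = ρ 4 ^ 2 * ρ 7 * ρ 12 ^ 2 * ρ 14 ^ 2 *
      (k.1 * tplG.eval (quo ρ) + 4 * sgn s * k.2 * (1 + ρ 1 * ρ 2) * tplT.eval (quo ρ)) := by
  simp only [c2, ev_add, ev_mul, qEx_quo, Ex.eval,
    tplG_quo D.h4.ne' D.h12.ne' D.h14.ne', tplT_quo D.h4.ne' D.h7.ne' D.h12.ne' D.h14.ne']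
  cases s <;> simp only [sgn, cond_true, cond_false] <;> push_cast <;> ring

/-- `2 (1 - θ) A ± κ X` at the quotients. -/
theorem c3_quo (D : Den ρ) (θ : ℕ × ℕ) (s : Bool) :
    (c3 θ s).eval ρ = ρ 4 ^ 2 * ρ 7 ^ 2 * ρ 9 * ρ 12 * ρ 14 ^ 2 *
      (2 * ((θ.2 : ℝ) - θ.1) * ρ 16 * tplA.eval (quo ρ) +
        θ.2 * ρ 15 * (sgn s * tplX.eval (quo ρ))) := by
  simp only [c3, ev_add, ev_mul, ev_pow, eval_signX, Ex.eval,
    tplA_quo D.h4.ne' D.h7.ne' D.h9.ne' D.h12.ne' D.h14.ne', tplX_quo D.h4.ne' D.h7.ne' D.h9.ne']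
  push_cast
  ring

/-- `θ A ± k2 T` at the quotients. -/
theorem c4_quo (D : Den ρ) (θ k : ℕ × ℕ) (s : Bool) :
    (c4 θ k s).eval ρ = ρ 4 ^ 2 * ρ 7 ^ 2 * ρ 9 * ρ 12 * ρ 14 ^ 2 *
      (θ.1 * k.2 * tplA.eval (quo ρ) + sgn s * θ.2 * k.1 * tplT.eval (quo ρ)) := by
  simp only [c4, ev_add, ev_mul, Ex.eval,
    tplA_quo D.h4.ne' D.h7.ne' D.h9.ne' D.h12.ne' D.h14.ne',
    tplT_quo D.h4.ne' D.h7.ne' D.h12.ne' D.h14.ne']
  cases s <;> simp only [sgn, cond_true, cond_false] <;> push_cast <;> ring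

/-- A strict condition is positive where `d v (2 I)` is. -/
theorem strict_pos {e : Ex} (hp : 0 < posEnd.eval ρ) (h : 0 ≤ (strict e).eval ρ) :
    0 < e.eval ρ := by
  simp only [strict, ev_sub, ev_mul, ev_pow, ev_num] at h
  have := pow_pos hp 3
  have h2 : (0 : ℝ) < ((2 ^ 80 : ℤ) : ℝ) := by norm_num
  exact pos_of_mul_pos_right (lt_of_lt_of_le this (by linarith)) h2.le

end Vale.Agent.P100.Calib.StripEnd
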