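import Vale.Agent.P100.Calib.SlabStripMidHom

/-!
# The conditions of the strip below 153/200 from their ends
-/

set_option linter.unusedVariables false

namespace Vale.Agent.P100.Calib.StripMid

open Pack

/-- `G d²/(a b)` from `T`. -/
noncomputable def gHat (a d T : ℝ) : ℝ :=
  (-(1 - 3 * a - (1 - 2 * a - d) / 2) * ((1 - 2 * a - d) / 2) * (a + d) - T / 10) / (a + d) ^ 2

/-- `G1 d²/(a b)` from `T`. -/
noncomputable def gHat1 (a d T : ℝ) : ℝ := -(T / 10) / (a + d) ^ 2

/-- The variables. -/
noncomputable def vec (a d v p e k w T c : ℝ) : ℕ → ℝ :=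
  hatOne a d v p e k w (gHat a d T) (gHat1 a d T) c

/-- The variables of the coefficients. -/
noncomputable def base (a d v : ℝ) : ℕ → ℝ := hatOne a d v 0 0 0 0 0 0 0

theorem coef_base {e : Ex} (h : e.ok 3 = true) {a d v p x k w G G1 c : ℝ} :
    e.eval (hatOne a d v p x k w G G1 c) = e.eval (base a d v) :=
  eval_congr (fun i hi => by interval_cases i <;> simp [base, hatOne]) e h

/-- Between two numbers. -/
def mix (s x y : ℝ) : ℝ := (1 - s) * x + s * y

theorem exists_mix {x y z : ℝ} (h0 : x ≤ z) (h1 : z ≤ y) :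
    ∃ s, 0 ≤ s ∧ s ≤ 1 ∧ z = mix s x y := by
  rcases eq_or_lt_of_le (h0.trans h1) with h | h
  · exact ⟨0, le_rfl, zero_le_one, by unfold mix; linarith⟩
  · refine ⟨(z - x) / (y - x), div_nonneg (sub_nonneg.2 h0) (by linarith), ?_, ?_⟩
    · rw [div_le_one (by linarith)]; linarith
    · unfold mix
      have : y - x ≠ 0 := (sub_pos.2 h).ne'
      field_simp
      ring

theorem secant_nonneg {f0 f1 C D s : ℝ} (h0 : 0 ≤ f0) (h1 : 0 ≤ f1) (hC : C ≤ 0) (hD : 0 ≤ D)
    (hs : 0 ≤ s) (hs1 : s ≤ 1) : 0 ≤ mix s f0 f1 - s * (1 - s) * D * C := by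
  have hm : 0 ≤ mix s f0 f1 :=
    add_nonneg (mul_nonneg (by linarith) h0) (mul_nonneg hs h1)
  have : s * (1 - s) * D * C ≤ 0 :=
    mul_nonpos_of_nonneg_of_nonpos (mul_nonneg (mul_nonneg hs (by linarith)) hD) hC
  linarith

variable {a d v p p₀ p₁ e k k' w w' T T₀ T₁ c s L L₀ L₁ Φ Ψ : ℝ}

theorem eval_mEx (x : ℕ → ℝ) : mEx.eval x = 1 - x 0 - x 1 := by
  show ((1 : ℤ) : ℝ) - x 0 - x 1 = _
  norm_num

theorem eval_cond2 (x : ℕ → ℝ) (n q sg : ℤ) : (cond2 n q sg).eval x =
    4 * n * (x 7 * tplG.eval x) - 8 * sg * q * (1 + x 1 * x 2) * (x 12 * (x 14 * tplT.eval x)) := by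
  show ((4 * n : ℤ) : ℝ) * (x 7 * tplG.eval x) -
    ((8 * sg * q : ℤ) : ℝ) * (((1 : ℤ) : ℝ) + x 1 * x 2) * (x 12 * (x 14 * tplT.eval x)) = _
  push_cast
  ring

theorem coef_X_k : coX1.eval (base a d v) = 16 * v ^ 2 * (2 + d * v) := by
  simp [coX1, Ex.eval, base, hatOne]; ring

theorem coef_X_w : coX0.eval (base a d v) = 8 * v * (2 + d * v) * (1 + d + 2 * a) := by
  simp [coX0, Ex.eval, base, hatOne]; ring

theorem coef_A_k : coA4.eval (base a d v) = -(256 * v ^ 2 * (1 + d * v) * (2 + d * v)) := by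
  simp [coA4, Ex.eval, base, hatOne]; ring

theorem coef_A_w : coA3.eval (base a d v) =
    -(128 * v * (1 + d * v) * (2 + d * v) * (1 + d + 2 * a)) := by
  simp [coA3, Ex.eval, base, hatOne]; ring

theorem coef_MG_k : coMG4.eval (base a d v) = -(256 * v ^ 2 * (1 + d * v) * (2 + d * v)) := by
  simp [coMG4, Ex.eval, base, hatOne]; ring

theorem coef_MG_w : coMG3.eval (base a d v) =
    128 * v * (1 + d * v) * (2 + d * v) * (1 - d - 2 * a) := by
  simp [coMG3, Ex.eval, base, hatOne]; ring

/-- A condition. -/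
noncomputable def FX  (a d v p e k w T c : ℝ) : ℝ := condX.eval (vec a d v p e k w T c)

/-- A condition. -/
noncomputable def FMG  (a d v p e k w T c : ℝ) : ℝ := tplMG.eval (vec a d v p e k w T c)

/-- A condition. -/
noncomputable def F1 (n m : ℤ) (a d v p e k w T c : ℝ) : ℝ := (cond1 n m).eval (vec a d v p e k w T c)

/-- A condition. -/
noncomputable def F2 (n q sg : ℤ) (a d v p e k w T c : ℝ) : ℝ := (cond2 n q sg).eval (vec a d v p e k w T c)

/-- A condition. -/
noncomputable def F3 (m cq eq n : ℤ) (a d v p e k w T c : ℝ) : ℝ := (cond3 m cq eq n).eval (vec a d v p e k w T c)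

set_option maxRecDepth 4000 in
theorem FX_kw :
    FX a d v p e k w T c =
      FX a d v p e k' w' T c + (k' - k) * coX1.eval (base a d v) + (w' - w) * coX0.eval (base a d v) := by
  simp only [FX, condX, tplX, coef_base (e := coX0) rfl, coef_base (e := coX1) rfl, coef_base (e := coX2) rfl, coef_base (e := coX3) rfl, coef_base (e := coX4) rfl,
    Ex.eval, vec, hatOne, mix, gHat, gHat1]
  push_cast
  ring

set_option maxRecDepth 4000 in
theorem FMG_kw :
    FMG a d v p e k w T c =
      FMG a d v p e k' w' T c + (k - k') * coMG4.eval (base a d v) + (w - w') * coMG3.eval (base a d v) := by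
  simp only [FMG, tplMG, coef_base (e := coMG0) rfl, coef_base (e := coMG1) rfl, coef_base (e := coMG2) rfl, coef_base (e := coMG3) rfl, coef_base (e := coMG4) rfl, coef_base (e := coMG5) rfl, coef_base (e := coMG6) rfl, coef_base (e := coMG7) rfl, coef_base (e := coMG8) rfl, coef_base (e := coMG9) rfl, coef_base (e := coMG10) rfl, coef_base (e := coMG11) rfl, coef_base (e := coMG12) rfl,
    Ex.eval, vec, hatOne, mix, gHat, gHat1]
  push_cast
  ring

set_option maxRecDepth 4000 in
theorem F1_kw {n m : ℤ} :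
    F1 n m a d v p e k w T c =
      F1 n m a d v p e k' w' T c + m * (16 * a ^ 2 * (a + d) ^ 2) * ((k - k') * coX1.eval (base a d v) + (w - w') * coX0.eval (base a d v)) := by
  simp only [F1, cond1, abEx, eval_mEx, tplM, tplX, coef_base (e := coM0) rfl, coef_base (e := coX0) rfl, coef_base (e := coX1) rfl, coef_base (e := coX2) rfl, coef_base (e := coX3) rfl, coef_base (e := coX4) rfl,
    Ex.eval, vec, hatOne, mix, gHat, gHat1]
  push_cast
  ring

set_option maxRecDepth 4000 in
theorem F3_kw {m cq eq n : ℤ} :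
    F3 m cq eq n a d v p e k w T c =
      F3 m cq eq n a d v p e k' w' T c +
        (k - k') * (m * (16 * a ^ 2 * (a + d) ^ 2) * (cq * coA4.eval (base a d v)) + n * (1 - 2 * a - d) * coX1.eval (base a d v)) +
        (w - w') * (m * (16 * a ^ 2 * (a + d) ^ 2) * (cq * coA3.eval (base a d v)) + n * (1 - 2 * a - d) * coX0.eval (base a d v)) := by
  simp only [F3, cond3, abEx, eval_mEx, tplA, tplT, tplX, coef_base (e := coA0) rfl, coef_base (e := coA1) rfl, coef_base (e := coA2) rfl, coef_base (e := coA3) rfl, coef_base (e := coA4) rfl, coef_base (e := coA5) rfl, coef_base (e := coA6) rfl, coef_base (e := coA7) rfl, coef_base (e := coA8) rfl, coef_base (e := coA9) rfl, coef_base (e := coA10) rfl, coef_base (e := coA11) rfl, coef_base (e := coA12) rfl, coef_base (e := coT0) rfl, coef_base (e := coT1) rfl, coef_base (e := coT2) rfl, coef_base (e := coT3) rfl, coef_base (e := coT4) rfl, coef_base (e := coT5) rfl, coef_base (e := coT6) rfl, coef_base (e := coT7) rfl, coef_base (e := coT8) rfl,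 coef_base (e := coT9) rfl, coef_base (e := coX0) rfl, coef_base (e := coX1) rfl, coef_base (e := coX2) rfl, coef_base (e := coX3) rfl, coef_base (e := coX4) rfl,
    Ex.eval, vec, hatOne, mix, gHat, gHat1]
  push_cast
  ring

set_option maxRecDepth 4000 in
theorem FX_p :
    FX a d v (mix s p₀ p₁) e k w T c =
      mix s (FX a d v p₀ e k w T c) (FX a d v p₁ e k w T c) -
        s * (1 - s) * (p₁ - p₀) ^ 2 * 0 := by
  simp only [FX, condX, tplX, coef_base (e := coX0) rfl, coef_base (e := coX1) rfl, coef_base (e := coX2) rfl, coef_base (e := coX3) rfl, coef_base (e := coX4) rfl,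
    Ex.eval, vec, hatOne, mix, gHat, gHat1]
  push_cast
  ring

set_option maxRecDepth 4000 in
theorem FX_l :
    FX a d v p (-(mix s L₀ L₁) * Φ) (-(mix s L₀ L₁) * Ψ) w T c =
      mix s (FX a d v p (-(L₀) * Φ) (-(L₀) * Ψ) w T c) (FX a d v p (-(L₁) * Φ) (-(L₁) * Ψ) w T c) -
        s * (1 - s) * ((L₁ - L₀) ^ 2 * Φ ^ 2) * 0 := by
  simp only [FX, condX, tplX, coef_base (e := coX0) rfl, coef_base (e := coX1) rfl, coef_base (e := coX2) rfl, coef_base (e := coX3) rfl, coef_base (e := coX4) rfl,
    Ex.eval, vec, hatOne, mix, gHat, gHat1]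
  push_cast
  ring

set_option maxRecDepth 4000 in
theorem FMG_p :
    FMG a d v (mix s p₀ p₁) e k w T c =
      mix s (FMG a d v p₀ e k w T c) (FMG a d v p₁ e k w T c) -
        s * (1 - s) * (p₁ - p₀) ^ 2 * coMG12.eval (base a d v) := by
  simp only [FMG, tplMG, coef_base (e := coMG0) rfl, coef_base (e := coMG1) rfl, coef_base (e := coMG2) rfl, coef_base (e := coMG3) rfl, coef_base (e := coMG4) rfl, coef_base (e := coMG5) rfl, coef_base (e := coMG6) rfl, coef_base (e := coMG7) rfl, coef_base (e := coMG8) rfl, coef_base (e := coMG9) rfl, coef_base (e := coMG10) rfl, coef_base (e := coMG11) rfl, coef_base (e := coMG12) rfl,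
    Ex.eval, vec, hatOne, mix, gHat, gHat1]
  push_cast
  ring

set_option maxRecDepth 4000 in
theorem FMG_l :
    FMG a d v p (-(mix s L₀ L₁) * Φ) (-(mix s L₀ L₁) * Ψ) w T c =
      mix s (FMG a d v p (-(L₀) * Φ) (-(L₀) * Ψ) w T c) (FMG a d v p (-(L₁) * Φ) (-(L₁) * Ψ) w T c) -
        s * (1 - s) * ((L₁ - L₀) ^ 2 * Φ ^ 2) * coMG7.eval (base a d v) := by
  simp only [FMG, tplMG, coef_base (e := coMG0) rfl, coef_base (e := coMG1) rfl, coef_base (e := coMG2) rfl, coef_base (e := coMG3) rfl, coef_base (e := coMG4) rfl, coef_base (e := coMG5) rfl, coef_base (e := coMG6) rfl, coef_base (e := coMG7) rfl, coef_base (e := coMG8) rfl, coef_base (e := coMG9) rfl, coef_base (e := coMG10) rfl, coef_base (e := coMG11) rfl, coef_base (e := coMG12) rfl,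
    Ex.eval, vec, hatOne, mix, gHat, gHat1]
  push_cast
  ring

set_option maxRecDepth 4000 in
theorem F1_p {n m : ℤ} :
    F1 n m a d v (mix s p₀ p₁) e k w T c =
      mix s (F1 n m a d v p₀ e k w T c) (F1 n m a d v p₁ e k w T c) -
        s * (1 - s) * (p₁ - p₀) ^ 2 * 0 := by
  simp only [F1, cond1, abEx, eval_mEx, tplM, tplX, coef_base (e := coM0) rfl, coef_base (e := coX0) rfl, coef_base (e := coX1) rfl, coef_base (e := coX2) rfl, coef_base (e := coX3) rfl, coef_base (e := coX4) rfl,
    Ex.eval, vec, hatOne, mix, gHat, gHat1]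
  push_cast
  ring

set_option maxRecDepth 4000 in
theorem F1_l {n m : ℤ} :
    F1 n m a d v p (-(mix s L₀ L₁) * Φ) (-(mix s L₀ L₁) * Ψ) w T c =
      mix s (F1 n m a d v p (-(L₀) * Φ) (-(L₀) * Ψ) w T c) (F1 n m a d v p (-(L₁) * Φ) (-(L₁) * Ψ) w T c) -
        s * (1 - s) * ((L₁ - L₀) ^ 2 * Φ ^ 2) * 0 := by
  simp only [F1, cond1, abEx, eval_mEx, tplM, tplX, coef_base (e := coM0) rfl, coef_base (e := coX0) rfl, coef_base (e := coX1) rfl, coef_base (e := coX2) rfl, coef_base (e := coX3) rfl, coef_base (e := coX4) rfl,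
    Ex.eval, vec, hatOne, mix, gHat, gHat1]
  push_cast
  ring

set_option maxRecDepth 4000 in
theorem F2_p {n q sg : ℤ} :
    F2 n q sg a d v (mix s p₀ p₁) e k w T c =
      mix s (F2 n q sg a d v p₀ e k w T c) (F2 n q sg a d v p₁ e k w T c) -
        s * (1 - s) * (p₁ - p₀) ^ 2 * (4 * n * coG10.eval (base a d v) - 8 * sg * q * (1 + d * v) * coT9.eval (base a d v)) := by
  simp only [F2, eval_cond2, tplG, tplT, coef_base (e := coG0) rfl, coef_base (e := coG1) rfl, coef_base (e := coG2) rfl, coef_base (e := coG3) rfl, coef_base (e := coG4) rfl, coef_base (e := coG5) rfl, coef_base (e := coG6) rfl, coef_base (e := coG7) rfl, coef_base (e := coG8) rfl, coef_base (e := coG9) rfl, coef_base (e := coG10) rfl, coef_base (e := coT0) rfl, coef_base (e := coT1) rfl, coef_base (e := coT2) rfl, coef_base (e := coT3) rfl, coef_base (e := coT4) rfl, coef_base (e := coT5) rfl, coef_base (e := coT6) rfl, coef_base (e := coT7) rfl, coef_base (e := coT8) rfl, coef_base (e := coT9) rfl,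
    Ex.eval, vec, hatOne, mix, gHat, gHat1]
  push_cast
  ring

set_option maxRecDepth 4000 in
theorem F2_l {n q sg : ℤ} :
    F2 n q sg a d v p (-(mix s L₀ L₁) * Φ) (-(mix s L₀ L₁) * Ψ) w T c =
      mix s (F2 n q sg a d v p (-(L₀) * Φ) (-(L₀) * Ψ) w T c) (F2 n q sg a d v p (-(L₁) * Φ) (-(L₁) * Ψ) w T c) -
        s * (1 - s) * ((L₁ - L₀) ^ 2 * Φ ^ 2) * 0 := by
  simp only [F2, eval_cond2, tplG, tplT, coef_base (e := coG0) rfl, coef_base (e := coG1) rfl, coef_base (e := coG2) rfl, coef_base (e := coG3) rfl, coef_base (e := coG4) rfl, coef_base (e := coG5) rfl, coef_base (e := coG6) rfl, coef_base (e := coG7) rfl, coef_base (e := coG8) rfl, coef_base (e := coG9) rfl, coef_base (e := coG10) rfl, coef_base (e := coT0) rfl, coef_base (e := coT1) rfl, coef_base (e := coT2) rfl, coef_base (e := coT3) rfl, coef_base (e := coT4) rfl, coef_base (e := coT5) rfl, coef_base (e := coT6) rfl, coef_base (e := coT7) rfl, coef_base (e := coT8) rfl, coef_base (e := coT9) rfl,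
    Ex.eval, vec, hatOne, mix, gHat, gHat1]
  push_cast
  ring

set_option maxRecDepth 4000 in
theorem F3_p {m cq eq n : ℤ} :
    F3 m cq eq n a d v (mix s p₀ p₁) e k w T c =
      mix s (F3 m cq eq n a d v p₀ e k w T c) (F3 m cq eq n a d v p₁ e k w T c) -
        s * (1 - s) * (p₁ - p₀) ^ 2 * (m * (16 * a ^ 2 * (a + d) ^ 2) * (cq * coA12.eval (base a d v) + eq * coT9.eval (base a d v))) := by
  simp only [F3, cond3, abEx, eval_mEx, tplA, tplT, tplX, coef_base (e := coA0) rfl, coef_base (e := coA1) rfl, coef_base (e := coA2) rfl, coef_base (e := coA3) rfl, coef_base (e := coA4) rfl, coef_base (e := coA5) rfl, coef_base (e := coA6) rfl, coef_base (e := coA7) rfl, coef_base (e := coA8) rfl, coef_base (e := coA9) rfl, coef_base (e := coA10) rfl, coef_base (e := coA11) rfl, coef_base (e := coA12) rfl, coef_base (e := coT0) rfl, coef_base (e := coT1) rfl, coef_base (e := coT2) rfl, coef_base (e := coT3) rfl, coef_base (e := coT4) rfl, coef_base (e := coT5) rfl, coef_base (e := coT6) rfl, coef_base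 (e := coT7) rfl, coef_base (e := coT8) rfl, coef_base (e := coT9) rfl, coef_base (e := coX0) rfl, coef_base (e := coX1) rfl, coef_base (e := coX2) rfl, coef_base (e := coX3) rfl, coef_base (e := coX4) rfl,
    Ex.eval, vec, hatOne, mix, gHat, gHat1]
  push_cast
  ring

set_option maxRecDepth 4000 in
theorem F3_l {m cq eq n : ℤ} :
    F3 m cq eq n a d v p (-(mix s L₀ L₁) * Φ) (-(mix s L₀ L₁) * Ψ) w T c =
      mix s (F3 m cq eq n a d v p (-(L₀) * Φ) (-(L₀) * Ψ) w T c) (F3 m cq eq n a d v p (-(L₁) * Φ) (-(L₁) * Ψ) w T c) -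
        s * (1 - s) * ((L₁ - L₀) ^ 2 * Φ ^ 2) * (m * (16 * a ^ 2 * (a + d) ^ 2) * (cq * coA7.eval (base a d v))) := by
  simp only [F3, cond3, abEx, eval_mEx, tplA, tplT, tplX, coef_base (e := coA0) rfl, coef_base (e := coA1) rfl, coef_base (e := coA2) rfl, coef_base (e := coA3) rfl, coef_base (e := coA4) rfl, coef_base (e := coA5) rfl, coef_base (e := coA6) rfl, coef_base (e := coA7) rfl, coef_base (e := coA8) rfl, coef_base (e := coA9) rfl, coef_base (e := coA10) rfl, coef_base (e := coA11) rfl, coef_base (e := coA12) rfl, coef_base (e := coT0) rfl, coef_base (e := coT1) rfl, coef_base (e := coT2) rfl, coef_base (e := coT3) rfl, coef_base (e := coT4) rfl, coef_base (e := coT5) rfl, coef_base (e := coT6) rfl, coef_base (e := coT7) rfl, coef_base (e := coT8) rfl, coef_base (e := coT9) rfl, coef_base (e := coX0) rfl, coef_base (e := coX1) rfl, coef_base (e := coX2) rfl, coef_base (e := coX3) rfl, coef_base (e := coX4) rfl,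
    Ex.eval, vec, hatOne, mix, gHat, gHat1]
  push_cast
  ring

set_option maxRecDepth 4000 in
theorem FMG_t :
    FMG a d v p e k w T c =
      FMG a d v p e k w T₀ c + (T - T₀) * (-(1 / 10) / (a + d) ^ 2) * (p * coMG10.eval (base a d v)) := by
  simp only [FMG, tplMG, coef_base (e := coMG0) rfl, coef_base (e := coMG1) rfl, coef_base (e := coMG2) rfl, coef_base (e := coMG3) rfl, coef_base (e := coMG4) rfl, coef_base (e := coMG5) rfl, coef_base (e := coMG6) rfl, coef_base (e := coMG7) rfl, coef_base (e := coMG8) rfl, coef_base (e := coMG9) rfl, coef_base (e := coMG10) rfl, coef_base (e := coMG11) rfl, coef_base (e := coMG12) rfl,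
    Ex.eval, vec, hatOne, mix, gHat, gHat1]
  push_cast
  ring

set_option maxRecDepth 4000 in
theorem F2_t {n q sg : ℤ} :
    F2 n q sg a d v p e k w (mix s T₀ T₁) c =
      mix s (F2 n q sg a d v p e k w T₀ c) (F2 n q sg a d v p e k w T₁ c) -
        s * (1 - s) * ((T₁ - T₀) ^ 2 * (1 / 10 / (a + d) ^ 2) ^ 2) * (4 * n * coG6.eval (base a d v)) := by
  simp only [F2, eval_cond2, tplG, tplT, coef_base (e := coG0) rfl, coef_base (e := coG1) rfl, coef_base (e := coG2) rfl, coef_base (e := coG3) rfl, coef_base (e := coG4) rfl, coef_base (e := coG5) rfl, coef_base (e := coG6) rfl, coef_base (e := coG7) rfl, coef_base (e := coG8) rfl, coef_base (e := coG9) rfl, coef_base (e := coG10) rfl, coef_base (e := coT0) rfl, coef_base (e := coT1) rfl, coef_base (e := coT2) rfl, coef_base (e := coT3) rfl, coef_base (e := coT4) rfl, coef_base (e := coT5) rfl, coef_base (e := coT6) rfl, coef_base (e := coT7) rfl, coef_base (e := coT8) rfl, coef_base (e := coT9) rfl,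
    Ex.eval, vec, hatOne, mix, gHat, gHat1]
  push_cast
  ring

set_option maxRecDepth 4000 in
theorem F2_e {n q sg : ℤ} :
    F2 n q sg a d v p e k w T c =
      F2 n q sg a d v p k' k w T c + (e - k') * (-(8 * sg * q * (1 + d * v)) * (coT4.eval (base a d v) + coT8.eval (base a d v) * p)) := by
  simp only [F2, eval_cond2, tplG, tplT, coef_base (e := coG0) rfl, coef_base (e := coG1) rfl, coef_base (e := coG2) rfl, coef_base (e := coG3) rfl, coef_base (e := coG4) rfl, coef_base (e := coG5) rfl, coef_base (e := coG6) rfl, coef_base (e := coG7) rfl, coef_base (e := coG8) rfl, coef_base (e := coG9) rfl, coef_base (e := coG10) rfl, coef_base (e := coT0) rfl, coef_base (e := coT1) rfl, coef_base (e := coT2) rfl, coef_base (e := coT3) rfl, coef_base (e := coT4) rfl, coef_base (e := coT5) rfl, coef_base (e := coT6) rfl, coef_base (e := coT7) rfl, coef_base (e := coT8) rfl, coef_base (e := coT9) rfl,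
    Ex.eval, vec, hatOne, mix, gHat, gHat1]
  push_cast
  ring

set_option maxRecDepth 4000 in
theorem F3_t {m cq eq n : ℤ} :
    F3 m cq eq n a d v p e k w T c =
      F3 m cq eq n a d v p e k w T₀ c + (T - T₀) * (-(1 / 10) / (a + d) ^ 2) *
        (m * (16 * a ^ 2 * (a + d) ^ 2) * (cq * coA10.eval (base a d v) * p +
          eq * (coT2.eval (base a d v) + coT3.eval (base a d v) + coT7.eval (base a d v) * p))) := by
  simp only [F3, cond3, abEx, eval_mEx, tplA, tplT, tplX, coef_base (e := coA0) rfl, coef_base (e := coA1) rfl, coef_base (e := coA2) rfl, coef_base (e := coA3) rfl, coef_base (e := coA4) rfl, coef_base (e := coA5) rfl, coef_base (e := coA6) rfl, coef_base (e := coA7) rfl, coef_base (e := coA8) rfl, coef_base (e := coA9) rfl, coef_base (e := coA10) rfl, coef_base (e := coA11) rfl, coef_base (e := coA12) rfl, coef_base (e := coT0) rfl, coef_base (e := coT1) rfl, coef_base (e := coT2) rfl, coef_base (e := coT3) rfl, coef_base (e := coT4) rfl, coef_base (e := coT5) rfl, coef_base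 (e := coT6) rfl, coef_base (e := coT7) rfl, coef_base (e := coT8) rfl, coef_base (e := coT9) rfl, coef_base (e := coX0) rfl, coef_base (e := coX1) rfl, coef_base (e := coX2) rfl, coef_base (e := coX3) rfl, coef_base (e := coX4) rfl,
    Ex.eval, vec, hatOne, mix, gHat, gHat1]
  push_cast
  ring

set_option maxRecDepth 4000 in
theorem FX_T :
    FX a d v p e k w T c =
      FX a d v p e k w T₀ c := by
  simp only [FX, condX, tplX, coef_base (e := coX0) rfl, coef_base (e := coX1) rfl, coef_base (e := coX2) rfl, coef_base (e := coX3) rfl, coef_base (e := coX4) rfl,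
    Ex.eval, vec, hatOne, mix, gHat, gHat1]

set_option maxRecDepth 4000 in
theorem F1_T {n m : ℤ} :
    F1 n m a d v p e k w T c =
      F1 n m a d v p e k w T₀ c := by
  simp only [F1, cond1, abEx, eval_mEx, tplM, tplX, coef_base (e := coM0) rfl, coef_base (e := coX0) rfl, coef_base (e := coX1) rfl, coef_base (e := coX2) rfl, coef_base (e := coX3) rfl, coef_base (e := coX4) rfl,
    Ex.eval, vec, hatOne, mix, gHat, gHat1]

set_option maxRecDepth 4000 in
theorem F2_kw {n q sg : ℤ} :
    F2 n q sg a d v p e k w T c =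
      F2 n q sg a d v p e k' w' T c := by
  simp only [F2, eval_cond2, tplG, tplT, coef_base (e := coG0) rfl, coef_base (e := coG1) rfl, coef_base (e := coG2) rfl, coef_base (e := coG3) rfl, coef_base (e := coG4) rfl, coef_base (e := coG5) rfl, coef_base (e := coG6) rfl, coef_base (e := coG7) rfl, coef_base (e := coG8) rfl, coef_base (e := coG9) rfl, coef_base (e := coG10) rfl, coef_base (e := coT0) rfl, coef_base (e := coT1) rfl, coef_base (e := coT2) rfl, coef_base (e := coT3) rfl, coef_base (e := coT4) rfl, coef_base (e := coT5) rfl, coef_base (e := coT6) rfl, coef_base (e := coT7) rfl, coef_base (e := coT8) rfl, coef_base (e := coT9) rfl,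
    Ex.eval, vec, hatOne, mix, gHat, gHat1]

end Vale.Agent.P100.Calib.StripMid
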