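import Vale.Agent.P100.Calib.SlabStripEndSub
import Vale.Agent.P100.Calib.SlabStripLLGExpr

/-!
# The strip for `u` near one, `d` the large variable: pieces, conditions and windows

As for the other charts of `u` near one, with `v = vn/(vs den)`; the upper end of `ŵ` goes with that
of `k`: it bounds `2 v k + (1 + d + 2 a) ŵ`, the combination through which `A` and `X` see both.
The multipliers are `kn/kd` and `k2n/k2d`.
-/

namespace Vale.Agent.P100.Calib.StripEndD

open Pack Pack.Ex StripMid StripEnd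

local instance endDExprAdd : Add Ex := ⟨Ex.add⟩
local instance endDExprSub : Sub Ex := ⟨Ex.sub⟩
local instance endDExprMul : Mul Ex := ⟨Ex.mul⟩

/-- The data of a piece: `o = o/den`; the ends are `C = vs pn/(pd q)`, `e = -en/f0`, `k = -kk/f0`,
`ŵ = wn/wd`, `T = B tn/td`; `D2 d = cn/cd`; the multipliers are `kn/kd` and `k2n/k2d`. The end `false` of `pn` is
the larger Flow, that of the others the smaller magnitude. -/
structure Piece where
  (I d w o den vn vs : Ex)
  mu : Rng
  pn : Bool → Ex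
  pd : Ex
  en : Bool → Ex
  kk : Bool → Ex
  f0 : Ex
  wn : Bool → Ex
  wd : Ex
  tn : Bool → Ex
  (td cn cd kn kd k2n k2d : Ex)

/-- `S`. -/
def Piece.S (P : Piece) : Ex := num 1 - num 2 * P.I

/-- `2 a`. -/
def Piece.A (P : Piece) : Ex := P.S - P.d

/-- `2 b`. -/
def Piece.B (P : Piece) : Ex := P.S + P.d

/-- The denominator of `v`. -/
def Piece.vd (P : Piece) : Ex := P.vs * P.den

/-- `q` times the denominator of `v`. -/
def Piece.qn (P : Piece) : Ex := P.vd + P.d * P.vn

/-- `C q den`, times the denominator of an end of `μ`. -/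
def Piece.cn' (P : Piece) (b : Bool) : Ex :=
  num (P.mu.pick b).2 * (P.den - P.o) - num (P.mu.pick b).1 * (P.o * P.w)

/-- `g - T/(10 b²)` has the numerator `gn` over `5 B td`. -/
def Piece.gn (P : Piece) (t : Bool) : Ex :=
  num (-5) * (num 2 - num 3 * P.A - num 2 * P.I) * P.I * P.td - num 2 * P.tn t

/-- The numerators and denominators at an end; from `15` on those of the multipliers. -/
def sub (P : Piece) (V : StripEnd.Vtx) : ℕ → Ex := fun i =>
  match i with
  | 0 => P.A
  | 1 => P.d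
  | 2 => num 0
  | 3 => num 4 * P.vs * P.pn V.p
  | 4 => P.S * P.pd * P.qn
  | 5 => num (-1) * P.en V.l
  | 6 => num (-1) * P.kk (!V.k)
  | 7 => P.f0
  | 8 => P.wn V.w
  | 9 => P.wd
  | 10 => P.gn V.t
  | 11 => num (-2) * P.tn V.t
  | 12 => num 5 * P.B * P.td
  | 13 => P.cn
  | 14 => P.cd
  | 15 => P.kn
  | 16 => P.kd
  | 17 => P.k2n
  | _ => P.k2d

/-- The values of the first three variables, the same at all ends. -/
def Piece.base (P : Piece) : ℕ → Ex
  | 0 => P.A
  | 1 => P.d
  | _ => num 0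

/-- A condition at an end. -/
def Piece.at (P : Piece) (V : StripEnd.Vtx) (e : Ex) : Ex :=
  csub P.base (sub P V) P.vn P.vd e

/-- `k2 G ± 4 q T`. -/
def c2 (s : Bool) : Ex :=
  var 17 * (var 7 * tplG) + num (cond s (4 : ℤ) (-4)) * var 18 * qEx * (var 12 * (var 14 * tplT))

/-- `2 A - κ² M ± 2 k2 T`. -/
def c5 (s : Bool) : Ex :=
  var 18 * pow (var 16) 2 * (num 2 * tplA) +
    num (cond s (2 : ℤ) (-2)) * var 17 * pow (var 16) 2 * (var 7 * (var 9 * (var 14 * tplT))) -
    var 18 * pow (var 15) 2 * (var 4 * (var 7 * (var 12 * (pow (var 14) 2 * (var 9 * tplM)))))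

/-- The second derivative of `c2` in `p`, halved and negated. -/
def curve2 (s : Bool) : Ex :=
  num (-1) * (var 17 * coG10 + num (cond s (4 : ℤ) (-4)) * var 18 * qEx * coT9)

/-- The second derivative of `c5` in `p`, up to a positive factor and negated. -/
def curve5 (s : Bool) : Ex :=
  num (-1) * (var 18 * coA12 + num (cond s (1 : ℤ) (-1)) * var 17 * coT9)

namespace Piece

variable (P : Piece)

/-- `u`. -/
def U : Ex := num 1 - P.w

/-- `2 + d v`, times the denominator of `v`. -/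
def pn2 : Ex := num 2 * P.vd + P.d * P.vn

/-- The numerator of `C`. -/
def N (b : Bool) : Ex := P.vs * P.cn' b

/-- The denominator of `C`. -/
def Qd (b : Bool) : Ex := num (P.mu.pick b).2 * P.qn

/-- `20 (2 b)²` times the slope of `E`. -/
def Ab : Ex := num 50 * pow P.B 2 - num 43 * pow P.A 2

/-- `20 I (2 - 6 I - 4 a²) (2 b)²`. -/
def Bb : Ex := num 20 * P.I * (num 2 - num 6 * P.I - pow P.A 2) * pow P.B 2

/-- `d + 3 I²`. -/
def Dk : Ex := P.d + num 3 * pow P.I 2

/-- The numerator of the slope of `K`. -/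
def Kq : Ex := P.Ab * P.d - num 3 * pow P.I 2 * P.Bb

/-- `D1`, times `2 vd Qd`. -/
def Dn (b : Bool) : Ex :=
  P.Qd b * (P.B * P.pn2 - num 2 * P.S * P.U * P.qn) + num 2 * P.U * P.d * P.N b * P.vd

/-- `u C (2 + d v)`, times `2 vd Qd`. -/
def Fn (b : Bool) : Ex := num 2 * P.U * P.N b * P.pn2

/-- `1 - R d W`, scaled, times `2 vd Qd`. -/
def Rn (b : Bool) : Ex := P.Dn b - P.d * P.Fn b

/-- `- g E`, scaled, times `2 vd² Qd`. -/
def Ln (b : Bool) : Ex :=
  P.Dn b * (P.Bb * P.vn * P.Dk + (P.Ab + P.Bb) * P.vd) - P.Kq * P.Fn b * P.vd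

/-- `b² g W1`, scaled, times `4 vd² Qd`. -/
def Wn (b : Bool) : Ex :=
  num 2 * P.U * P.S * P.pn2 * P.N b * (P.A * P.vd - (num 2 - P.A) * P.d * P.vn) -
    num 2 * (num 2 - P.S) * P.B * P.N b * P.pn2 * P.vd +
    P.Dn b * P.S * (num 2 * P.vd + (num 2 - P.A) * P.vn)

/-- The denominator of the exact `e`. -/
def eDen (b : Bool) : Ex := num 5 * P.Qd b * pow P.B 4 * P.pn2 * P.Dk

/-- `± 1`, for the lower or upper end. -/
def side (hi : Bool) : Ex := num (cond hi (-1) 1)

/-- The Flow at an end of `μ` lies between its ends. -/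
def winP (b hi : Bool) : Ex :=
  side hi * (P.cn' b * P.pd - num (P.mu.pick b).2 * P.pn (!hi))

/-- `e` lies between its ends. -/
def winE (b hi : Bool) : Ex :=
  side hi * (num 2 * P.f0 * P.Ln b - P.en hi * (P.eDen b * P.vd))

/-- `k` lies between its ends. -/
def winK (b hi : Bool) : Ex :=
  side hi * (num 2 * P.f0 * (P.Rn b * P.Kq) - P.kk hi * P.eDen b)

/-- `b² g W1` is above its lower end. -/
def winW (b : Bool) : Ex :=
  P.wd * P.Wn b - P.wn false * (pow P.S 2 * P.U * P.pn2 * P.vd * P.Qd b)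

/-- `2 v k + (1 + d + 2 a) b² g W1` is below its upper end. -/
def winY (b : Bool) : Ex :=
  num 2 * P.vn * (num 2 * P.f0 * (P.Rn b * P.Kq) - P.kk false * P.eDen b) *
      ((pow P.S 2 * P.U * P.pn2 * P.vd * P.Qd b) * P.wd) +
    P.vd * P.f0 * P.eDen b * (num 1 + P.d + P.A) *
      (P.wn true * (pow P.S 2 * P.U * P.pn2 * P.vd * P.Qd b) - P.wd * P.Wn b)

/-- `T` lies between its ends. -/
def winT (b hi : Bool) : Ex :=
  side hi * (P.td * (P.Rn b * P.vd) - P.B * P.tn hi * (P.qn * P.Dn b))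

/-- Minus the curvature of `MG` in `p`. -/
def curveMG : Ex := num (-1) * coMG12

/-- The numerators of the ray gap at an end. -/
def gapSub (b t : Bool) : ℕ → Ex := fun i =>
  match i with
  | 0 => P.A
  | 1 => P.d
  | 2 => P.vn
  | 3 => P.vd
  | 4 => P.Dn b * P.vd
  | 5 => P.Fn b * P.vd
  | 6 => num (-1) * P.Ln b
  | 7 => num (-1) * P.Kq * (P.Rn b * P.vd)
  | 8 => num 20 * pow P.B 2 * P.Dk
  | 9 => P.S * P.U
  | 10 => num 2 * P.I
  | 11 => P.gn t
  | 12 => num 5 * P.B * P.td
  | 13 => P.cn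
  | _ => P.cd

/-- The ray gap at an end. -/
def gap (b t : Bool) : Ex := subst (P.gapSub b t) tplL

end Piece

end Vale.Agent.P100.Calib.StripEndD
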