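import Vale.Agent.P100.Calib.SlabStripMidSigns

/-!
# The conditions of a piece below 153/200 inside its window
-/

set_option linter.unusedVariables false

namespace Vale.Agent.P100.Calib.StripMid

open Pack

theorem coef_MG_e_le {a d v : ℝ} (hd : 0 ≤ d) (hv : 0 ≤ v) :
    coMG7.eval (base a d v) ≤ 0 := by
  simp [coMG7, Ex.eval, base, hatOne]
  ring_nf
  nlinarith [pow_nonneg hd 2, pow_nonneg hd 3, pow_nonneg hv 2, pow_nonneg hv 3,
    mul_nonneg (pow_nonneg hd 2) (pow_nonneg hv 2), mul_nonneg (pow_nonneg hd 3) (pow_nonneg hv 3)]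

theorem coef_A_e_le {a d v : ℝ} (ha : 0 ≤ a) (hd : 0 ≤ d) (hv : 0 ≤ v) :
    coA7.eval (base a d v) ≤ 0 := by
  have h2 : 0 ≤ d ^ 2 * v ^ 2 := by positivity
  have h3 : 0 ≤ d ^ 3 * v ^ 3 := by positivity
  have h4 : 0 ≤ d ^ 3 * v ^ 2 := by positivity
  have h5 : 0 ≤ d ^ 4 * v ^ 3 := by positivity
  simp [coA7, Ex.eval, base, hatOne]
  ring_nf
  nlinarith [mul_nonneg ha h2, mul_nonneg ha h3]

theorem coef_G_t_le {a d v : ℝ} (ha : 0 ≤ a) (hd : 0 ≤ d) (hv : 0 ≤ v) :
    coG6.eval (base a d v) ≤ 0 := by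
  have h2 : 0 ≤ v ^ 2 := by positivity
  have h3 : 0 ≤ d * v ^ 2 := by positivity
  have h4 : 0 ≤ d * v ^ 3 := by positivity
  have h5 : 0 ≤ d ^ 2 * v ^ 3 := by positivity
  have h6 : 0 ≤ d ^ 2 * v ^ 4 := by positivity
  have h7 : 0 ≤ d ^ 3 * v ^ 4 := by positivity
  have h8 : 0 ≤ d ^ 3 * v ^ 5 := by positivity
  have h9 : 0 ≤ d ^ 4 * v ^ 5 := by positivity
  simp [coG6, Ex.eval, base, hatOne]
  ring_nf
  nlinarith [mul_nonneg ha h2, mul_nonneg ha h4, mul_nonneg ha h6, mul_nonneg ha h8]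

theorem secant_pos {f0 f1 C D s : ℝ} (h0 : 0 < f0) (h1 : 0 < f1) (hC : C ≤ 0) (hD : 0 ≤ D)
    (hs : 0 ≤ s) (hs1 : s ≤ 1) : 0 < mix s f0 f1 - s * (1 - s) * D * C := by
  have hm : 0 < mix s f0 f1 := by
    unfold mix
    rcases lt_or_eq_of_le hs with hs' | rfl
    · nlinarith [mul_nonneg (show 0 ≤ 1 - s by linarith) h0.le, mul_pos hs' h1]
    · linarith
  have : s * (1 - s) * D * C ≤ 0 :=
    mul_nonpos_of_nonneg_of_nonpos (mul_nonneg (mul_nonneg hs (by linarith)) hD) hC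
  linarith

variable {P : Piece} {x : ℕ → ℝ}

/-- A point of the window. -/
structure Inside (P : Piece) (x : ℕ → ℝ) (p L k w T : ℝ) : Prop where
  p_low : pEnd P x false ≤ p
  p_high : p ≤ pEnd P x true
  l_low : lEnd P false ≤ L
  l_high : L ≤ lEnd P true
  k_low : -L * psi P x false ≤ k
  k_high : k ≤ -L * psi P x true
  w_low : wEnd P x false ≤ w
  w_high : w ≤ wEnd P x true
  t_low : tEnd P x false ≤ T
  t_high : T ≤ tEnd P x true

theorem subst_base (V : Vtx) {e : Ex} (he : e.ok 3 = true) :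
    (subst (sub P V) e).eval x = e.eval (base (xa P x) (xd P x) (xv P x)) := by
  rw [eval_subst]
  refine eval_congr (fun i hi => ?_) e he
  interval_cases i
  · show (kA P.kind).eval x = _
    rw [eval_kA]; simp [base, hatOne]
  · rfl
  · rfl

theorem negEx_ok {e : Ex} (he : e.ok 3 = true) : (negEx e).ok 3 = true := by
  simp [negEx, Ex.ok, he]

theorem eval_negEx (e : Ex) (ρ : ℕ → ℝ) : (negEx e).eval ρ = -e.eval ρ := by
  simp [negEx, Ex.eval]

theorem slopeT_le (hP : P.Pos) (h : Good P x) (C : Checks P x) {p : ℝ}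
    (h0 : pEnd P x false ≤ p) (h1 : p ≤ pEnd P x true) :
    coT4.eval (base (xa P x) (xd P x) (xv P x)) +
      coT8.eval (base (xa P x) (xd P x) (xv P x)) * p ≤ 0 := by
  have key : ∀ b, coT4.eval (base (xa P x) (xd P x) (xv P x)) +
      coT8.eval (base (xa P x) (xd P x) (xv P x)) * pEnd P x b ≤ 0 := by
    intro b
    have he := C.sT b
    obtain ⟨h4, h7, h9, h12, h14⟩ := rho_den hP h ⟨b, false, true, true, false⟩
    have q3 : quo (rho P ⟨b, false, true, true, false⟩ x) 3 = pEnd P x b := by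
      rw [quo_rho hP h]; rfl
    rw [eval_subst] at he
    obtain ⟨V, hV⟩ : ∃ V, V = (⟨b, false, true, true, false⟩ : Vtx) := ⟨_, rfl⟩
    change 0 ≤ ((-1 : ℤ) : ℝ) * (rho P ⟨b, false, true, true, false⟩ x 4 *
      coT4.eval (rho P ⟨b, false, true, true, false⟩ x) + rho P ⟨b, false, true, true, false⟩ x 3 *
      coT8.eval (rho P ⟨b, false, true, true, false⟩ x)) at he
    rw [← coef_quo (e := coT4) rfl, ← coef_quo (e := coT8) rfl, quo_rho hP h, vec,
      coef_base (e := coT4) rfl, coef_base (e := coT8) rfl] at he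
    have e3 : rho P ⟨b, false, true, true, false⟩ x 3 =
        rho P ⟨b, false, true, true, false⟩ x 4 * pEnd P x b := by
      rw [← q3]
      show _ = _ * (rho P _ x 3 / rho P _ x 4)
      rw [mul_div_cancel₀ _ h4.ne']
    rw [e3] at he
    have : 0 ≤ rho P ⟨b, false, true, true, false⟩ x 4 *
        -(coT4.eval (base (xa P x) (xd P x) (xv P x)) +
          coT8.eval (base (xa P x) (xd P x) (xv P x)) * pEnd P x b) := by
      push_cast at he; linarith
    linarith [nonneg_of_mul_nonneg_right this h4]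
  obtain ⟨s, hs0, hs1, rfl⟩ := exists_mix h0 h1
  have := key false
  have := key true
  unfold mix
  nlinarith

theorem mix_nonneg {f g s : ℝ} (hf : 0 ≤ f) (hg : 0 ≤ g) (h0 : 0 ≤ s) (h1 : s ≤ 1) :
    0 ≤ mix s f g :=
  add_nonneg (mul_nonneg (by linarith) hf) (mul_nonneg h0 hg)

theorem phi_nonneg (h : Good P x) (hI : xI P x ≤ 1 / 7) : 0 ≤ phi P x := by
  have hA : (kA P.kind).eval x = 2 * xa P x := eval_kA
  have hb : (kB P.kind).eval x = 2 * (xa P x + xd P x) := eval_kB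
  have e1 : (kAb P.kind).eval x =
      50 * (kB P.kind).eval x ^ 2 - 43 * (kA P.kind).eval x ^ 2 := by
    show ((50 : ℤ) : ℝ) * _ - ((43 : ℤ) : ℝ) * _ = _
    norm_num; rfl
  have e2 : (kBb P.kind).eval x = 20 * xI P x * (2 - 6 * xI P x - (kA P.kind).eval x ^ 2) *
      (kB P.kind).eval x ^ 2 := by
    show ((20 : ℤ) : ℝ) * xI P x * (((2 : ℤ) : ℝ) - ((6 : ℤ) : ℝ) * xI P x - _) * _ = _
    norm_num; rfl
  have hlt : 2 * xa P x + xd P x = 1 - 2 * xI P x := eval_kA'
  have hI0 := h.I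
  have hd0 := h.d
  have ha0 := h.a
  refine div_nonneg ?_ (by have := h.kB; have := h.kDk; positivity)
  rw [e1, e2, hA, hb]
  have hsq : (2 * xa P x) ^ 2 ≤ (2 * (xa P x + xd P x)) ^ 2 := pow_le_pow_left₀ (by linarith) (by linarith) 2
  have : 0 ≤ 2 - 6 * xI P x - (2 * xa P x) ^ 2 := by nlinarith
  have : 0 ≤ 20 * xI P x * (2 - 6 * xI P x - (2 * xa P x) ^ 2) * (2 * (xa P x + xd P x)) ^ 2 := by
    positivity
  linarith [sq_nonneg (2 * (xa P x + xd P x))]

/-- `g TME` is not positive. -/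
theorem inside_X (hP : P.Pos2) (h : Good P x) (C : Checks P x) {p L k w T : ℝ}
    (W : Inside P x p L k w T) :
    0 ≤ condX.eval (vec (xa P x) (xd P x) (xv P x) p (-L * phi P x) k w T (kap P x)) := by
  have hv0 := h.v
  have ha0 := h.a
  have hd0 := h.d
  obtain ⟨sp, hp0, hp1, hp⟩ := exists_mix W.p_low W.p_high
  obtain ⟨sl, hl0, hl1, hl⟩ := exists_mix W.l_low W.l_high
  have hk16 : 0 ≤ coX1.eval (base (xa P x) (xd P x) (xv P x)) := by rw [coef_X_k]; positivity
  have hw16 : 0 ≤ coX0.eval (base (xa P x) (xd P x) (xv P x)) := by rw [coef_X_w]; positivity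
  show 0 ≤ FX _ _ _ p _ k w T _
  rw [FX_kw (k' := -L * psi P x true) (w' := wEnd P x true), FX_T (T₀ := tEnd P x false)]
  refine add_nonneg (add_nonneg ?_ (mul_nonneg (by linarith [W.k_high]) hk16))
    (mul_nonneg (by linarith [W.w_high]) hw16)
  rw [hl, FX_l, hp]
  simp only [FX_p, mul_zero, sub_zero]
  have hh := fun p l => end_X hP.toPos h C p l
  exact mix_nonneg (mix_nonneg (hh false false) (hh true false) hp0 hp1)
    (mix_nonneg (hh false true) (hh true true) hp0 hp1) hl0 hl1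

/-- `TMG` is not negative. -/
theorem inside_MG (hP : P.Pos2) (h : Good P x) (hp' : 0 ≤ pEnd P x false) (C : Checks P x)
    {p L k w T : ℝ} (W : Inside P x p L k w T) :
    0 ≤ tplMG.eval (vec (xa P x) (xd P x) (xv P x) p (-L * phi P x) k w T (kap P x)) := by
  have hI0 := h.I
  have hd0 := h.d
  have hv0 := h.v
  have ha0 := h.a
  have hq : 0 < 1 + xd P x * xv P x := by positivity
  have hD : 0 < 2 + xd P x * xv P x := by positivity
  obtain ⟨sp, hp0, hp1, hp⟩ := exists_mix W.p_low W.p_high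
  obtain ⟨sl, hl0, hl1, hl⟩ := exists_mix W.l_low W.l_high
  show 0 ≤ FMG _ _ _ p _ k w T _
  have hk := coef_MG_k (a := xa P x) (d := xd P x) (v := xv P x)
  have hw := coef_MG_w (a := xa P x) (d := xd P x) (v := xv P x)
  rw [show 1 - xd P x - 2 * xa P x = 2 * xI P x by
    linarith [eval_kA' (P := P) (x := x)]] at hw
  rw [FMG_kw (k' := -L * psi P x true) (w' := wEnd P x false), FMG_t (T₀ := tEnd P x false)]
  refine add_nonneg (add_nonneg (add_nonneg ?_ ?_) ?_) ?_
  · rw [hl, FMG_l, hp]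
    simp only [FMG_p]
    have hh := fun p l => end_MG hP.toPos h C p l
    have hc : coMG12.eval (base (xa P x) (xd P x) (xv P x)) ≤ 0 := by
      have := C.cMG
      rw [subst_base _ (negEx_ok (e := coMG12) rfl), eval_negEx] at this
      linarith
    refine secant_nonneg ?_ ?_ (coef_MG_e_le hd0.le hv0.le) (by positivity) hl0 hl1 <;>
      exact secant_nonneg (hh _ _) (hh _ _) hc (sq_nonneg _) hp0 hp1
  · refine mul_nonneg_of_nonpos_of_nonpos (mul_nonpos_of_nonneg_of_nonpos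
      (by linarith [W.t_low]) ?_) (mul_nonpos_of_nonneg_of_nonpos (hp'.trans W.p_low) ?_)
    · apply div_nonpos_of_nonpos_of_nonneg <;> [norm_num; positivity]
    · simp [coMG10, Ex.eval, base, hatOne]
      ring_nf
      have hM : 0 ≤ 1 - 2 * xa P x - xd P x := by linarith [eval_kA' (P := P) (x := x)]
      have h1 : 0 ≤ xd P x * xv P x ^ 2 := by positivity
      have h2 : 0 ≤ xd P x ^ 2 * xv P x ^ 3 := by positivity
      have h3 : 0 ≤ xd P x ^ 3 * xv P x ^ 4 := by positivity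
      nlinarith [mul_nonneg h1 hM, mul_nonneg h2 hM, mul_nonneg h3 hM]
  · exact mul_nonneg_of_nonpos_of_nonpos (by linarith [W.k_high])
      (by rw [hk]; nlinarith [mul_pos (mul_pos (pow_pos hv0 2) hq) hD])
  · exact mul_nonneg (by linarith [W.w_low]) (by rw [hw]; positivity)

/-- `S1`. -/
theorem inside_one (hP : P.Pos2) (h : Good P x) (C : Checks P x) {p L k w T : ℝ}
    (W : Inside P x p L k w T) :
    0 ≤ P.m1.eval (vec (xa P x) (xd P x) (xv P x) p (-L * phi P x) k w T (kap P x)) := by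
  have hv0 := h.v
  have ha0 := h.a
  have hd0 := h.d
  obtain ⟨sp, hp0, hp1, hp⟩ := exists_mix W.p_low W.p_high
  obtain ⟨sl, hl0, hl1, hl⟩ := exists_mix W.l_low W.l_high
  have hk16 : 0 ≤ coX1.eval (base (xa P x) (xd P x) (xv P x)) := by rw [coef_X_k]; positivity
  have hw16 : 0 ≤ coX0.eval (base (xa P x) (xd P x) (xv P x)) := by rw [coef_X_w]; positivity
  show 0 ≤ F1 (16 * P.k₁.1 * P.g₁.2) (P.g₁.1 * P.k₁.2) _ _ _ p _ k w T _
  rw [F1_kw (k' := -L * psi P x false) (w' := wEnd P x false), F1_T (T₀ := tEnd P x false)]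
  refine add_nonneg ?_ (mul_nonneg (mul_nonneg ?_ (by positivity))
    (add_nonneg (mul_nonneg (by linarith [W.k_low]) hk16)
      (mul_nonneg (by linarith [W.w_low]) hw16)))
  · rw [hl, F1_l, hp]
    simp only [F1_p, mul_zero, sub_zero]
    have hh := fun p l => end_1 hP.toPos h C p l
    exact mix_nonneg (mix_nonneg (hh false false) (hh true false) hp0 hp1)
      (mix_nonneg (hh false true) (hh true true) hp0 hp1) hl0 hl1
  · have := hP.g₁n; have := hP.k₁
    exact_mod_cast (by positivity : (0 : ℤ) ≤ P.g₁.1 * P.k₁.2)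

/-- `S2`. -/
theorem inside_two (hP : P.Pos2) (h : Good P x) (hI : xI P x ≤ 1 / 7) (C : Checks P x)
    {p L k w T : ℝ} (W : Inside P x p L k w T) (s : Bool) :
    0 < (P.m2 s).eval (vec (xa P x) (xd P x) (xv P x) p (-L * phi P x) k w T (kap P x)) := by
  have hd0 := h.d
  have hv0 := h.v
  have ha0 := h.a
  have hq : 0 < 1 + xd P x * xv P x := by positivity
  have hphi := phi_nonneg h hI
  obtain ⟨sp, hp0, hp1, hp⟩ := exists_mix W.p_low W.p_high
  obtain ⟨st, ht0, ht1, ht⟩ := exists_mix W.t_low W.t_high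
  have hsl := slopeT_le hP.toPos h C W.p_low W.p_high
  have hc2 := C.c2 s
  rw [subst_base _ (negEx_ok (by cases s <;> rfl)), eval_negEx] at hc2
  have hG6 := coef_G_t_le ha0.le hd0.le hv0.le
  have hh := fun p t => end_2 hP.toPos h C s p t
  have hn : (0 : ℝ) ≤ P.k₂.1 ∧ (0 : ℝ) ≤ P.k₂'.1 :=
    ⟨by exact_mod_cast hP.k₂n.le, by exact_mod_cast hP.k₂n'.le⟩
  cases s
  · simp only [Piece.m2, cond_false, Piece.curve2] at hh hc2 ⊢
    show 0 < F2 P.k₂'.1 P.k₂'.2 (-1) _ _ _ p _ k w T _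
    rw [F2_e (k' := -lEnd P false * phi P x),
      F2_kw (k' := -lEnd P false * psi P x true) (w' := wEnd P x false)]
    refine add_pos_of_pos_of_nonneg ?_ ?_
    · rw [ht, F2_t, hp]
      simp only [F2_p]
      simp [Ex.eval, qEx, base, hatOne] at hc2
      have hcc : 4 * (P.k₂'.1 : ℝ) * coG10.eval (base (xa P x) (xd P x) (xv P x)) -
          8 * ((-1 : ℤ) : ℝ) * (P.k₂'.2 : ℤ) * (1 + xd P x * xv P x) *
            coT9.eval (base (xa P x) (xd P x) (xv P x)) ≤ 0 := by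
        simp [base, hatOne]; linarith
      refine secant_pos ?_ ?_ (mul_nonpos_of_nonneg_of_nonpos (by linarith [hn.2]) hG6)
        (by positivity) ht0 ht1 <;>
      exact secant_pos (hh _ _) (hh _ _) hcc (sq_nonneg _) hp0 hp1
    · have h1 : 0 ≤ (L - lEnd P false) * phi P x := mul_nonneg (by linarith [W.l_low]) hphi
      have h2 : (0 : ℝ) ≤ (P.k₂'.2 : ℤ) := by exact_mod_cast (Nat.zero_le _)
      refine mul_nonneg_of_nonpos_of_nonpos (by linarith) ?_
      refine mul_nonpos_of_nonneg_of_nonpos ?_ hsl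
      have := mul_nonneg h2 hq.le
      push_cast at this ⊢
      linarith
  · simp only [Piece.m2, cond_true, Piece.curve2] at hh hc2 ⊢
    show 0 < F2 P.k₂.1 P.k₂.2 1 _ _ _ p _ k w T _
    rw [F2_e (k' := -lEnd P true * phi P x),
      F2_kw (k' := -lEnd P true * psi P x true) (w' := wEnd P x false)]
    refine add_pos_of_pos_of_nonneg ?_ ?_
    · rw [ht, F2_t, hp]
      simp only [F2_p]
      simp [Ex.eval, qEx, base, hatOne] at hc2
      have hcc : 4 * (P.k₂.1 : ℝ) * coG10.eval (base (xa P x) (xd P x) (xv P x)) -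
          8 * ((1 : ℤ) : ℝ) * (P.k₂.2 : ℤ) * (1 + xd P x * xv P x) *
            coT9.eval (base (xa P x) (xd P x) (xv P x)) ≤ 0 := by
        simp [base, hatOne]; linarith
      refine secant_pos ?_ ?_ (mul_nonpos_of_nonneg_of_nonpos (by linarith [hn.1]) hG6)
        (by positivity) ht0 ht1 <;>
      exact secant_pos (hh _ _) (hh _ _) hcc (sq_nonneg _) hp0 hp1
    · have h1 : 0 ≤ (lEnd P true - L) * phi P x := mul_nonneg (by linarith [W.l_high]) hphi
      have h2 : (0 : ℝ) ≤ (P.k₂.2 : ℤ) := by exact_mod_cast (Nat.zero_le _)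
      refine mul_nonneg (by linarith) ?_
      refine mul_nonneg_of_nonpos_of_nonpos ?_ hsl
      have := mul_nonneg h2 hq.le
      push_cast at this ⊢
      linarith

/-- `S3`. -/
theorem inside_three (hP : P.Pos2) (h : Good P x) (hlin : fr P.k₁ * xI P x ≤ 4 / 25 * fr P.g₀) (hab' : 1 / 10 ≤ xa P x * (xa P x + xd P x))
    (C : Checks P x)
    {p L k w T : ℝ} (W : Inside P x p L k w T) (s : Bool) :
    0 < (P.m3 s).eval (vec (xa P x) (xd P x) (xv P x) p (-L * phi P x) k w T (kap P x)) := by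
  have hd0 := h.d
  have hv0 := h.v
  have hI0 := h.I
  have ha0 := h.a
  have hq : 0 < 1 + xd P x * xv P x := by positivity
  have hD : 0 < 2 + xd P x * xv P x := by positivity
  obtain ⟨sp, hp0, hp1, hp⟩ := exists_mix W.p_low W.p_high
  obtain ⟨sl, hl0, hl1, hl⟩ := exists_mix W.l_low W.l_high
  obtain ⟨st, ht0, ht1, ht⟩ := exists_mix W.t_low W.t_high
  have hc3 := C.c3 s
  rw [subst_base _ (negEx_ok (by cases s <;> rfl)), eval_negEx] at hc3
  have hA7 := coef_A_e_le ha0.le hd0.le hv0.le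
  have hh := fun p l t => end_3 hP.toPos h C s p l t
  have hab : 1 / 100 ≤ xa P x ^ 2 * (xa P x + xd P x) ^ 2 := by
    have h1 := pow_le_pow_left₀ (by norm_num) hab' 2
    rw [mul_pow] at h1
    linarith
  have hM : 1 - 2 * xa P x - xd P x = 2 * xI P x := by linarith [eval_kA' (P := P) (x := x)]
  have kk : ∀ (q : ℤ × ℕ), 0 < q.2 →
      (P.g₀.1 * P.k₁.2 : ℤ) * (16 * xa P x ^ 2 * (xa P x + xd P x) ^ 2) * ((q.2 : ℤ) *
        (256 * (1 + xd P x * xv P x))) -
      ((8 * P.k₁.1 * P.g₀.2 * q.2 : ℤ) : ℝ) * (2 * xI P x) * 16 ≥ 0 := by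
    intro q hq2
    have e1 : (0 : ℝ) < P.k₁.2 := by exact_mod_cast hP.k₁
    have e2 : (0 : ℝ) < P.g₀.2 := by exact_mod_cast hP.g₀
    have e3 : (0 : ℝ) < q.2 := by exact_mod_cast hq2
    have e4 : (0 : ℝ) < P.g₀.1 := by exact_mod_cast hP.g₀n
    have e5 : (0 : ℝ) < P.k₁.1 := by exact_mod_cast hP.k₁n
    have hl : (P.k₁.1 : ℝ) * P.g₀.2 * xI P x ≤ 4 / 25 * (P.g₀.1 * P.k₁.2) := by
      have := mul_le_mul_of_nonneg_right hlin (mul_pos e1 e2).le
      simp only [fr] at this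
      field_simp at this
      linarith
    have hdv : 0 ≤ xd P x * xv P x := by positivity
    push_cast
    have key : (P.k₁.1 : ℝ) * P.g₀.2 * (256 * xI P x) ≤
        (P.g₀.1 : ℝ) * P.k₁.2 * (4096 * (xa P x ^ 2 * (xa P x + xd P x) ^ 2) *
          (1 + xd P x * xv P x)) := by
      have a2 : (4096 / 100 : ℝ) ≤ 4096 * (xa P x ^ 2 * (xa P x + xd P x) ^ 2) *
          (1 + xd P x * xv P x) := by nlinarith
      have a3 := mul_le_mul_of_nonneg_left a2 (by positivity : (0 : ℝ) ≤ P.g₀.1 * P.k₁.2)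
      nlinarith
    nlinarith [mul_le_mul_of_nonneg_left key e3.le]
  have hkw : ∀ (m cq eq n : ℤ), 0 ≤ (m : ℝ) * (16 * xa P x ^ 2 * (xa P x + xd P x) ^ 2) *
      ((cq : ℝ) * (256 * (1 + xd P x * xv P x))) - (n : ℝ) * (2 * xI P x) * 16 →
      (∀ t, 0 < F3 m cq eq n (xa P x) (xd P x) (xv P x) p (-L * phi P x) (-L * psi P x true)
        (wEnd P x true) (tEnd P x t) (kap P x)) →
      0 < F3 m cq eq n (xa P x) (xd P x) (xv P x) p (-L * phi P x) k w T (kap P x) := by
    intro m cq eq n hK hT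
    rw [F3_kw (k' := -L * psi P x true) (w' := wEnd P x true), coef_A_k, coef_X_k, coef_A_w,
      coef_X_w, hM]
    refine add_pos_of_pos_of_nonneg (add_pos_of_pos_of_nonneg ?_ ?_) ?_
    · have e0 := hT false
      have e1 := hT true
      rw [F3_t (T₀ := tEnd P x false)] at e1
      rw [F3_t (T₀ := tEnd P x false), ht]
      unfold mix
      have e2 := mul_nonneg ht0 e1.le
      rcases lt_or_eq_of_le ht1 with h' | h'
      · have e3 := mul_pos (show 0 < 1 - st by linarith) e0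
        linarith
      · subst h'; linarith
    · refine mul_nonneg_of_nonpos_of_nonpos (by linarith [W.k_high]) ?_
      have := mul_nonneg hK (mul_pos (pow_pos hv0 2) hD).le
      linarith
    · refine mul_nonneg_of_nonpos_of_nonpos (by linarith [W.w_high]) ?_
      have hpd : 0 ≤ xv P x * (2 + xd P x * xv P x) * (1 + xd P x + 2 * xa P x) := by positivity
      have := mul_nonneg hK hpd
      linarith
  cases s
  · simp only [Piece.m3, cond_false, Piece.curve3] at hh hc3 ⊢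
    refine hkw _ _ _ _ (kk P.k₂' hP.k₂') fun t => ?_
    rw [hl, F3_l, hp]
    simp only [F3_p]
    simp [Ex.eval] at hc3
    have hm : (0 : ℝ) ≤ ((P.g₀.1 * P.k₁.2 : ℤ) : ℝ) * (16 * xa P x ^ 2 * (xa P x + xd P x) ^ 2) := by
      have := hP.g₀n
      have : (0 : ℤ) ≤ P.g₀.1 * P.k₁.2 := by positivity
      have : (0 : ℝ) ≤ ((P.g₀.1 * P.k₁.2 : ℤ) : ℝ) := by exact_mod_cast this
      positivity
    refine secant_pos ?_ ?_ (mul_nonpos_of_nonneg_of_nonpos hm
      (mul_nonpos_of_nonneg_of_nonpos (by positivity) hA7)) (by positivity) hl0 hl1 <;>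
    exact secant_pos (hh _ _ _) (hh _ _ _)
      (mul_nonpos_of_nonneg_of_nonpos hm (by push_cast; linarith)) (sq_nonneg _) hp0 hp1
  · simp only [Piece.m3, cond_true, Piece.curve3] at hh hc3 ⊢
    refine hkw _ _ _ _ (kk P.k₂ hP.k₂) fun t => ?_
    rw [hl, F3_l, hp]
    simp only [F3_p]
    simp [Ex.eval] at hc3
    have hm : (0 : ℝ) ≤ ((P.g₀.1 * P.k₁.2 : ℤ) : ℝ) * (16 * xa P x ^ 2 * (xa P x + xd P x) ^ 2) := by
      have := hP.g₀n
      have : (0 : ℤ) ≤ P.g₀.1 * P.k₁.2 := by positivity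
      have : (0 : ℝ) ≤ ((P.g₀.1 * P.k₁.2 : ℤ) : ℝ) := by exact_mod_cast this
      positivity
    refine secant_pos ?_ ?_ (mul_nonpos_of_nonneg_of_nonpos hm
      (mul_nonpos_of_nonneg_of_nonpos (by positivity) hA7)) (by positivity) hl0 hl1 <;>
    exact secant_pos (hh _ _ _) (hh _ _ _)
      (mul_nonpos_of_nonneg_of_nonpos hm (by push_cast; linarith)) (sq_nonneg _) hp0 hp1

end Vale.Agent.P100.Calib.StripMid
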