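import Vale.Agent.P100.Calib.SlabStripEndDEnds
import Vale.Agent.P100.Calib.SlabStripEndCore
import Vale.Agent.P100.Calib.SlabStripMidInside

/-!
# The conditions of a piece inside its window, `d` the large variable
-/

set_option linter.unusedVariables false

namespace Vale.Agent.P100.Calib.StripEndD

open Pack Pack.Ex StripMid StripEnd

local instance endDInAdd : Add Ex := ⟨Ex.add⟩
local instance endDInSub : Sub Ex := ⟨Ex.sub⟩
local instance endDInMul : Mul Ex := ⟨Ex.mul⟩

/-- The checks of the conditions of a piece at a point, but the one that closes the arrow. -/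
structure Checks0 (P : Piece) (x : ℕ → ℝ) : Prop where
  h1 : ∀ s p l, 0 ≤ (P.at ⟨p, l, !s, !s, false⟩ (c1 s)).eval x
  h2 : ∀ s p l t, 0 ≤ (P.at ⟨p, l, true, true, t⟩ (StripEnd.strict (c2 s))).eval x
  hMG : ∀ p l t, 0 ≤ (P.at ⟨p, l, true, false, t⟩ tplMG).eval x
  v2 : ∀ s, 0 ≤ (P.at ⟨false, false, true, true, false⟩ (curve2 s)).eval x
  v5 : ∀ s, 0 ≤ (P.at ⟨false, false, true, true, false⟩ (curve5 s)).eval x
  vMG : 0 ≤ (P.at ⟨false, false, true, true, false⟩ (num (-1) * coMG12)).eval x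

/-- The checks of the conditions of a piece at a point. -/
structure Checks (P : Piece) (x : ℕ → ℝ) : Prop extends Checks0 P x where
  h5 : ∀ s p l t, 0 ≤ (P.at ⟨p, l, true, true, t⟩ (StripEnd.strict (c5 s))).eval x

/-- A point of the window. -/
structure Inside (P : Piece) (x : ℕ → ℝ) (p e k w T : ℝ) : Prop where
  mu : ∃ s, 0 ≤ s ∧ s ≤ 1 ∧ p = mix s (pE P x false) (pE P x true)
  p_pos : 0 ≤ p
  w_low : wE P x false ≤ w
  y_high : 2 * xv P x * (k - kE P x true) +
    (1 + P.d.eval x + 2 * xa P x) * (w - wE P x true) ≤ 0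
  e_low : eE P x true ≤ e
  e_high : e ≤ eE P x false
  k_low : kE P x false ≤ k
  k_high : k ≤ kE P x true
  t_low : tE P x false ≤ T
  t_high : T ≤ tE P x true

section blocks
variable {a d v p e k w T T' c : ℝ}

theorem hX_indep : hX a d v p e k w T c = hX a d v p e k w T' c := by
  simp only [hX, tplX, coef_base (e := coX0) rfl, coef_base (e := coX1) rfl,
    coef_base (e := coX2) rfl, coef_base (e := coX3) rfl, coef_base (e := coX4) rfl, Ex.eval, vec,
    hatOne]

theorem hM_indep : hM a d v p e k w T c = hM a d v p e k w T' c := by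
  simp only [hM, tplM, coef_base (e := coM0) rfl, Ex.eval, vec, hatOne]

theorem hM_eq : hM a d v p e k w T c = -(e * p) := by
  simp only [hM, tplM, coM0, Ex.eval, vec, hatOne]
  push_cast; ring

end blocks

variable {P : Piece} {x : ℕ → ℝ}

theorem quo_at (hP : P.Pos) (h : Place P x) (V : StripEnd.Vtx) {e : Ex}
    (hc : 0 ≤ (P.at V e).eval x) : 0 ≤ e.eval (rho P V x) :=
  csub_nonneg h.vd (fun i hi => by interval_cases i <;> rfl) hc

theorem posEx_rho (h : Place P x) (V : StripEnd.Vtx) : 0 < posEnd.eval (rho P V x) := by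
  obtain ⟨e0, e1, e2⟩ := rho_low h V
  show 0 < rho P V x 1 * rho P V x 2 * mEx.eval (rho P V x) *
    (((2 : ℤ) : ℝ) - rho P V x 0 * rho P V x 2)
  rw [eval_mEx, e0, e1, e2]
  refine mul_pos (mul_pos (mul_pos h.d h.v) ?_) ?_
  · linarith [eval_A' (P := P) (x := x), h.I]
  · push_cast; linarith [h.av]

theorem end_1 (hP : P.Pos) (h : Place P x) (C : Checks0 P x) (s p l : Bool) :
    0 ≤ P.kn.eval x * hM (xa P x) (P.d.eval x) (xv P x) (pE P x p) (eE P x l) (kE P x (!s))
        (wE P x (!s)) (tE P x false) (kap P x) +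
      P.kd.eval x * (sgn s * hX (xa P x) (P.d.eval x) (xv P x) (pE P x p) (eE P x l) (kE P x (!s))
        (wE P x (!s)) (tE P x false) (kap P x)) := by
  obtain ⟨V, hV⟩ : ∃ V, V = (⟨p, l, !s, !s, false⟩ : StripEnd.Vtx) := ⟨_, rfl⟩
  have D := rho_den hP h V
  have hh := quo_at hP h V (by rw [hV]; exact C.h1 s p l)
  rw [c1_quo D, quo_rho hP h] at hh
  have := nonneg_of_mul_nonneg_right hh (mul_pos (mul_pos D.h4 D.h7) D.h9)
  subst hV
  simpa [rho, hvec, sub, hM, hX, vAt] using this

theorem end_2 (hP : P.Pos) (h : Place P x) (C : Checks0 P x) (s p l t : Bool) :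
    0 < P.k2n.eval x * hG (xa P x) (P.d.eval x) (xv P x) (pE P x p) (eE P x l) (kE P x true)
        (wE P x true) (tE P x t) (kap P x) +
      4 * sgn s * P.k2d.eval x * (1 + P.d.eval x * xv P x) *
        hT (xa P x) (P.d.eval x) (xv P x) (pE P x p) (eE P x l) (kE P x true) (wE P x true)
          (tE P x t) (kap P x) := by
  obtain ⟨V, hV⟩ : ∃ V, V = (⟨p, l, true, true, t⟩ : StripEnd.Vtx) := ⟨_, rfl⟩
  have D := rho_den hP h V
  have hh := strict_pos (posEx_rho h V) (quo_at hP h V (by rw [hV]; exact C.h2 s p l t))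
  rw [c2_quo D, quo_rho hP h, (rho_low h V).2.1, (rho_low h V).2.2] at hh
  have h4 := D.h4; have h7 := D.h7; have h12 := D.h12; have h14 := D.h14
  have := pos_of_mul_pos_right hh (by positivity)
  subst hV
  simpa [rho, hvec, sub, hG, vAt, StripEnd.hT] using this

theorem end_5 (hP : P.Pos) (h : Place P x) (C : Checks P x) (s p l t : Bool) :
    0 < 2 * P.k2d.eval x * P.kd.eval x ^ 2 * hA (xa P x) (P.d.eval x) (xv P x) (pE P x p)
        (eE P x l) (kE P x true) (wE P x true) (tE P x t) (kap P x) +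
      2 * sgn s * P.k2n.eval x * P.kd.eval x ^ 2 * StripEnd.hT (xa P x) (P.d.eval x) (xv P x)
        (pE P x p) (eE P x l) (kE P x true) (wE P x true) (tE P x t) (kap P x) -
      P.k2d.eval x * P.kn.eval x ^ 2 * hM (xa P x) (P.d.eval x) (xv P x) (pE P x p) (eE P x l)
        (kE P x true) (wE P x true) (tE P x t) (kap P x) := by
  obtain ⟨V, hV⟩ : ∃ V, V = (⟨p, l, true, true, t⟩ : StripEnd.Vtx) := ⟨_, rfl⟩
  have D := rho_den hP h V
  have hh := strict_pos (posEx_rho h V) (quo_at hP h V (by rw [hV]; exact C.h5 s p l t))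
  rw [c5_quo D, quo_rho hP h] at hh
  have h4 := D.h4; have h7 := D.h7; have h9 := D.h9; have h12 := D.h12; have h14 := D.h14
  have := pos_of_mul_pos_right hh (by positivity)
  subst hV
  simpa [rho, hvec, sub, hA, hM, StripEnd.hT, vAt] using this

theorem end_MG (hP : P.Pos) (h : Place P x) (C : Checks0 P x) (p l t : Bool) :
    0 ≤ hMG (xa P x) (P.d.eval x) (xv P x) (pE P x p) (eE P x l) (kE P x true) (wE P x false)
      (tE P x t) (kap P x) := by
  obtain ⟨V, hV⟩ : ∃ V, V = (⟨p, l, true, false, t⟩ : StripEnd.Vtx) := ⟨_, rfl⟩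
  have D := rho_den hP h V
  have hh := quo_at hP h V (by rw [hV]; exact C.hMG p l t)
  rw [tplMG_quo D.h4.ne' D.h7.ne' D.h9.ne' D.h12.ne' D.h14.ne', quo_rho hP h] at hh
  have h4 := D.h4; have h7 := D.h7; have h9 := D.h9; have h12 := D.h12; have h14 := D.h14
  have := nonneg_of_mul_nonneg_right hh (by positivity)
  subst hV
  exact this

theorem coef_at (h : Place P x) (V : StripEnd.Vtx) {e : Ex} (he : e.ok 3 = true) :
    e.eval (rho P V x) = e.eval (StripMid.base (xa P x) (P.d.eval x) (xv P x)) := by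
  obtain ⟨e0, e1, e2⟩ := rho_low h V
  refine eval_congr (fun i hi => ?_) e he
  interval_cases i <;> simp [StripMid.base, hatOne, e0, e1, e2]

theorem curve_le (hP : P.Pos) (h : Place P x) (C : Checks0 P x) :
    let B := StripMid.base (xa P x) (P.d.eval x) (xv P x)
    (∀ s, P.k2n.eval x * coG10.eval B +
      4 * sgn s * P.k2d.eval x * (1 + P.d.eval x * xv P x) * coT9.eval B ≤ 0) ∧
    (∀ s, P.k2d.eval x * coA12.eval B + sgn s * P.k2n.eval x * coT9.eval B ≤ 0) ∧
    coMG12.eval B ≤ 0 := by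
  intro B
  obtain ⟨e0, e1, e2⟩ := rho_low h ⟨false, false, true, true, false⟩
  have r17 : rho P ⟨false, false, true, true, false⟩ x 17 = P.k2n.eval x := by
    simp [rho, hvec, sub]
  have r18 : rho P ⟨false, false, true, true, false⟩ x 18 = P.k2d.eval x := by
    simp [rho, hvec, sub]
  have g2 : ∀ s, P.k2n.eval x * coG10.eval B +
      4 * sgn s * P.k2d.eval x * (1 + P.d.eval x * xv P x) * coT9.eval B ≤ 0 := by
    intro s
    have := quo_at hP h _ (C.v2 s)
    simp only [curve2, ev_mul, Ex.eval, qEx_quo, e1, e2, r17, r18,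
      coef_at h _ (e := coG10) rfl, coef_at h _ (e := coT9) rfl] at this
    cases s <;> simp only [sgn, cond_true, cond_false] at this ⊢ <;> push_cast at this <;> linarith
  have g5 : ∀ s, P.k2d.eval x * coA12.eval B + sgn s * P.k2n.eval x * coT9.eval B ≤ 0 := by
    intro s
    have := quo_at hP h _ (C.v5 s)
    simp only [curve5, ev_mul, Ex.eval, r17, r18,
      coef_at h _ (e := coA12) rfl, coef_at h _ (e := coT9) rfl] at this
    cases s <;> simp only [sgn, cond_true, cond_false] at this ⊢ <;> push_cast at this <;> linarith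
  refine ⟨g2, g5, ?_⟩
  have := quo_at hP h _ C.vMG
  simp only [ev_mul, ev_num, coef_at h _ (e := coMG12) rfl] at this
  push_cast at this
  linarith

variable {p e k w T : ℝ}

/-- `κ M ± X`. -/
theorem inside_1 (hP : P.Pos) (h : Place P x) (C : Checks0 P x) (W : Inside P x p e k w T)
    (s : Bool) : 0 ≤ P.kn.eval x * hM (xa P x) (P.d.eval x) (xv P x) p e k w T (kap P x) +
      P.kd.eval x * (sgn s * hX (xa P x) (P.d.eval x) (xv P x) p e k w T (kap P x)) := by
  obtain ⟨r, hr0, hr1, hp⟩ := W.mu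
  have hw0 : mix r (wE P x false) (wE P x false) ≤ w := by unfold mix; linarith [W.w_low]
  obtain ⟨q, hq0, hq1, hq⟩ := exists_mix W.e_low W.e_high
  obtain ⟨ws, hws⟩ : ∃ ws, ws = mix r (wE P x (!s)) (wE P x (!s)) := ⟨_, rfl⟩
  rw [hX_indep (T' := tE P x false), hM_indep (T' := tE P x false),
    hM_kw (k' := kE P x (!s)) (w' := ws), hX_kw (k' := kE P x (!s)) (w' := ws), hws, hp, hM_p,
    hX_p, hq]
  simp only [hM_e, hX_e]
  have hh := fun p l => end_1 hP h C s p l
  have X1 : 0 ≤ coX1.eval (StripMid.base (xa P x) (P.d.eval x) (xv P x)) := by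
    rw [coef_X_k]; have := h.d; have := h.v; positivity
  have X0 : 0 ≤ coX0.eval (StripMid.base (xa P x) (P.d.eval x) (xv P x)) := by
    rw [coef_X_w]; have := h.d; have := h.v; have := h.a; positivity
  have hd := h.kd.le
  have key := mix_nonneg (mix_nonneg (hh false true) (hh false false) hq0 hq1)
    (mix_nonneg (hh true true) (hh true false) hq0 hq1) hr0 hr1
  unfold mix at key hws ⊢
  cases s <;> simp only [sgn, cond_true, cond_false, Bool.not_false, Bool.not_true] at *
  · have := mul_nonneg (mul_nonneg (mul_nonneg hd (show (0 : ℝ) ≤ 8 * xv P x from by linarith [h.v]))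
      (show (0 : ℝ) ≤ 2 + P.d.eval x * xv P x from by linarith [mul_pos h.d h.v]))
      (neg_nonneg.2 W.y_high)
    rw [coef_X_k, coef_X_w]
    rw [coef_X_k] at X1
    linarith
  · have := mul_nonneg (mul_nonneg hd X1) (sub_nonneg.2 W.k_low)
    have := mul_nonneg (mul_nonneg hd X0) (sub_nonneg.2 hw0)
    unfold mix at *
    linarith

/-- `k2 G ± 4 q T`. -/
theorem inside_2 (hP : P.Pos) (h : Place P x) (C : Checks0 P x) (W : Inside P x p e k w T)
    (s : Bool) : 0 < P.k2n.eval x * hG (xa P x) (P.d.eval x) (xv P x) p e k w T (kap P x) +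
      4 * sgn s * P.k2d.eval x * (1 + P.d.eval x * xv P x) *
        hT (xa P x) (P.d.eval x) (xv P x) p e k w T (kap P x) := by
  obtain ⟨r, hr0, hr1, hp⟩ := W.mu
  have hw0 : mix r (wE P x false) (wE P x false) ≤ w := by unfold mix; linarith [W.w_low]
  obtain ⟨q, hq0, hq1, hq⟩ := exists_mix W.e_low W.e_high
  obtain ⟨t, ht0, ht1, ht⟩ := exists_mix W.t_low W.t_high
  obtain ⟨g2, -, -⟩ := curve_le hP h C
  have hG6 := coef_G_t_le h.a.le h.d.le h.v.le
  have hk : (0 : ℝ) ≤ P.k2n.eval x := h.k2n.le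
  rw [hG_kw (k' := kE P x true) (w' := mix r (wE P x true) (wE P x true)),
    hT_kw (k' := kE P x true) (w' := mix r (wE P x true) (wE P x true)), hp, hG_p, hT_p,
    hq]
  simp only [hG_e, hT_e]
  rw [ht]
  simp only [hG_T, hT_T]
  have hh : ∀ p l, 0 < P.k2n.eval x * (mix t
      (hG (xa P x) (P.d.eval x) (xv P x) (pE P x p) (eE P x l) (kE P x true) (wE P x true)
        (tE P x false) (kap P x))
      (hG (xa P x) (P.d.eval x) (xv P x) (pE P x p) (eE P x l) (kE P x true) (wE P x true)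
        (tE P x true) (kap P x)) -
      t * (1 - t) * ((tE P x true - tE P x false) ^ 2 *
        (1 / 10 / (xa P x + P.d.eval x) ^ 2) ^ 2) *
        coG6.eval (StripMid.base (xa P x) (P.d.eval x) (xv P x))) +
      4 * sgn s * P.k2d.eval x * (1 + P.d.eval x * xv P x) * mix t
      (hT (xa P x) (P.d.eval x) (xv P x) (pE P x p) (eE P x l) (kE P x true) (wE P x true)
        (tE P x false) (kap P x))
      (hT (xa P x) (P.d.eval x) (xv P x) (pE P x p) (eE P x l) (kE P x true) (wE P x true)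
        (tE P x true) (kap P x)) := by
    intro p l
    have := secant_pos (end_2 hP h C s p l false) (end_2 hP h C s p l true)
      (mul_nonpos_of_nonneg_of_nonpos hk hG6)
      (show (0 : ℝ) ≤ (tE P x true - tE P x false) ^ 2 *
        (1 / 10 / (xa P x + P.d.eval x) ^ 2) ^ 2 by positivity) ht0 ht1
    unfold mix at *
    linarith
  have := secant_pos (secant_pos (hh false true) (hh false false) le_rfl le_rfl hq0 hq1)
    (secant_pos (hh true true) (hh true false) le_rfl le_rfl hq0 hq1) (g2 s)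
    (show (0 : ℝ) ≤ (pE P x true - pE P x false) ^ 2 from sq_nonneg _) hr0 hr1
  unfold mix at *
  linarith

/-- `2 A - κ² M ± 2 k2 T`. -/
theorem inside_5 (hP : P.Pos) (h : Place P x) (C : Checks P x) (W : Inside P x p e k w T)
    (s : Bool) : 0 < 2 * P.k2d.eval x * P.kd.eval x ^ 2 *
        hA (xa P x) (P.d.eval x) (xv P x) p e k w T (kap P x) +
      2 * sgn s * P.k2n.eval x * P.kd.eval x ^ 2 *
        StripEnd.hT (xa P x) (P.d.eval x) (xv P x) p e k w T (kap P x) -
      P.k2d.eval x * P.kn.eval x ^ 2 * hM (xa P x) (P.d.eval x) (xv P x) p e k w T (kap P x) := by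
  obtain ⟨r, hr0, hr1, hp⟩ := W.mu
  obtain ⟨q, hq0, hq1, hq⟩ := exists_mix W.e_low W.e_high
  obtain ⟨t, ht0, ht1, ht⟩ := exists_mix W.t_low W.t_high
  obtain ⟨-, g5, -⟩ := curve_le hP h C.toChecks0
  have hA7 := coef_A_e_le h.a.le h.d.le h.v.le
  have hd := h.d
  have hv := h.v
  have hkd : (0 : ℝ) ≤ 2 * P.k2d.eval x * P.kd.eval x ^ 2 := by have := h.k2d; positivity
  rw [hA_kw (k' := kE P x true) (w' := mix r (wE P x true) (wE P x true)),
    hT_kw (k' := kE P x true) (w' := mix r (wE P x true) (wE P x true)),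
    hM_kw (k' := kE P x true) (w' := mix r (wE P x true) (wE P x true)), coef_A_k, coef_A_w]
  have s1 : 0 ≤ 2 * P.k2d.eval x * P.kd.eval x ^ 2 * (128 * xv P x *
      (1 + P.d.eval x * xv P x) * (2 + P.d.eval x * xv P x) *
      -(2 * xv P x * (k - kE P x true) +
        (1 + P.d.eval x + 2 * xa P x) * (w - wE P x true))) :=
    mul_nonneg hkd (mul_nonneg (by positivity) (neg_nonneg.2 W.y_high))
  rw [hp, hA_p, hT_p, hM_p, hq]
  simp only [hA_e, hT_e, hM_e]
  rw [ht]
  simp only [hA_T, hT_T, hM_T]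
  have hh := fun p l => secant_pos (end_5 hP h C s p l false) (end_5 hP h C s p l true)
    le_rfl le_rfl ht0 ht1
  have he := fun p => secant_pos (hh p true) (hh p false)
    (mul_nonpos_of_nonneg_of_nonpos hkd hA7)
    (show (0 : ℝ) ≤ (eE P x false - eE P x true) ^ 2 from sq_nonneg _) hq0 hq1
  have g : 2 * P.kd.eval x ^ 2 * (P.k2d.eval x * coA12.eval
        (StripMid.base (xa P x) (P.d.eval x) (xv P x)) +
      sgn s * P.k2n.eval x * coT9.eval (StripMid.base (xa P x) (P.d.eval x) (xv P x))) ≤ 0 :=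
    mul_nonpos_of_nonneg_of_nonpos (by positivity) (g5 s)
  have := secant_pos (he false) (he true) g
    (show (0 : ℝ) ≤ (pE P x true - pE P x false) ^ 2 from sq_nonneg _) hr0 hr1
  unfold mix at *
  linarith

/-- `MG`. -/
theorem inside_MG (hP : P.Pos) (h : Place P x) (C : Checks0 P x) (W : Inside P x p e k w T) :
    0 ≤ hMG (xa P x) (P.d.eval x) (xv P x) p e k w T (kap P x) := by
  obtain ⟨r, hr0, hr1, hp⟩ := W.mu
  have hw0 : mix r (wE P x false) (wE P x false) ≤ w := by unfold mix; linarith [W.w_low]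
  obtain ⟨q, hq0, hq1, hq⟩ := exists_mix W.e_low W.e_high
  obtain ⟨t, ht0, ht1, ht⟩ := exists_mix W.t_low W.t_high
  obtain ⟨-, -, g⟩ := curve_le hP h C
  have hM7 := coef_MG_e_le (a := xa P x) h.d.le h.v.le
  have hd := h.d
  have hv := h.v
  have hI := h.I
  rw [hMG_kw (k' := kE P x true) (w' := mix r (wE P x false) (wE P x false)),
    coef_MG_k, coef_MG_w,
    show 1 - P.d.eval x - 2 * xa P x = 2 * P.I.eval x by linarith [eval_A' (P := P) (x := x)]]
  refine add_nonneg (add_nonneg ?_ ?_) ?_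
  · rw [hp, hMG_p, hq]
    simp only [hMG_e]
    rw [ht]
    simp only [hMG_T]
    have hh := fun p l =>
      mix_nonneg (end_MG hP h C p l false) (end_MG hP h C p l true) ht0 ht1
    exact secant_nonneg
      (secant_nonneg (hh false true) (hh false false) hM7 (sq_nonneg _) hq0 hq1)
      (secant_nonneg (hh true true) (hh true false) hM7 (sq_nonneg _) hq0 hq1) g (sq_nonneg _)
      hr0 hr1
  · exact mul_nonneg_of_nonpos_of_nonpos (by linarith [W.k_high])
      (neg_nonpos.2 (by positivity))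
  · exact mul_nonneg (by linarith) (by positivity)

/-- The arrow from the conditions. -/
theorem arrow_end {q A M G T X kn kd k2n k2d : ℝ} (hq : 0 < q) (hM : 0 < M) (hkd : 0 < kd)
    (h2n : 0 < k2n) (h2d : 0 < k2d)
    (h1 : ∀ s, 0 ≤ kn * M + kd * (sgn s * X))
    (h2 : ∀ s, 0 < k2n * G + 4 * sgn s * k2d * q * T)
    (h5 : ∀ s, 0 < 2 * k2d * kd ^ 2 * A + 2 * sgn s * k2n * kd ^ 2 * T - k2d * kn ^ 2 * M) :
    0 < G ∧ 0 < 2 * A * M * G - 8 * q * T ^ 2 * M - X ^ 2 * G := by
  have a1 := h1 false; have b1 := h1 true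
  have a2 := h2 false; have b2 := h2 true
  have a5 := h5 false; have b5 := h5 true
  simp only [sgn, cond_true, cond_false] at a1 b1 a2 b2 a5 b5
  have hG : 0 < G := pos_of_mul_pos_right (show 0 < k2n * G by linarith) h2n.le
  refine ⟨hG, ?_⟩
  have e1 : kd * |X| ≤ kn * M := by
    rcases abs_cases X with ⟨e, -⟩ | ⟨e, -⟩ <;> rw [e] <;> linarith
  have e2 : 4 * k2d * q * |T| ≤ k2n * G := by
    rcases abs_cases T with ⟨e, -⟩ | ⟨e, -⟩ <;> rw [e] <;> linarith
  have e5 : k2d * kn ^ 2 * M + 2 * k2n * kd ^ 2 * |T| < 2 * k2d * kd ^ 2 * A := by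
    rcases abs_cases T with ⟨e, -⟩ | ⟨e, -⟩ <;> rw [e] <;> linarith
  have hX : kd ^ 2 * X ^ 2 ≤ kn ^ 2 * M ^ 2 := by
    rw [← sq_abs X, ← mul_pow, ← mul_pow]
    exact pow_le_pow_left₀ (mul_nonneg hkd.le (abs_nonneg X)) e1 2
  have hT : 4 * k2d * q * T ^ 2 ≤ k2n * G * |T| := by
    rw [← sq_abs T]
    linarith [mul_le_mul_of_nonneg_right e2 (abs_nonneg T)]
  refine pos_of_mul_pos_right ?_ (mul_pos h2d (pow_pos hkd 2)).le
  linarith [mul_lt_mul_of_pos_right e5 (mul_pos hM hG),
    mul_le_mul_of_nonneg_left hX (mul_pos h2d hG).le,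
    mul_le_mul_of_nonneg_left hT (mul_pos (mul_pos (two_pos : (0 : ℝ) < 2) (pow_pos hkd 2)) hM).le]

end Vale.Agent.P100.Calib.StripEndD
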