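import Vale.Agent.P100.Calib.SlabStripHat
import Vale.Agent.P100.Calib.SlabStripLLGExpr

/-!
# The ray gap of the strip in scaled variables
-/

namespace Vale.Agent.P100.Calib.StripMid

open Pack ClosedGen

/-- The variables of the ray gap, all denominators one. -/
noncomputable def llgOne (a d v g q e k R G c : ℝ) : ℕ → ℝ
  | 0 => 2 * a | 1 => d | 2 => v | 3 => 1 | 4 => g | 5 => q | 6 => e | 7 => k | 8 => 1 | 9 => R
  | 10 => 1 | 11 => G | 12 => 1 | 13 => c | _ => 1

variable {a d v g W W1 R E K G G1 c : ℝ}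

set_option maxHeartbeats 1000000 in
theorem llg_eq (hd : d ≠ 0) :
    64 * (g * LLGS a d v g W W1 R (hatNum a d E K G G1 c)) =
      tplL.eval (llgOne a d v g (g * (W * R)) (g * E) (g * K) R G c) := by
  simp only [tplL, coL0, coL1, coL2, coL3, coL4, coL5, coL6, Ex.eval, llgOne, hatNum, LLGS, Closed.LLGc, Closed.LLGv,
    Closed.LLGw, LG_g, LG_kw]
  push_cast
  field_simp
  ring

end Vale.Agent.P100.Calib.StripMid
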