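import Vale.Agent.P100.Calib.SlabStripMidWindow
import Vale.Agent.P100.Calib.SlabStripLLG

/-!
# The ray gap of a piece below 153/200

`gapFun` is a positive multiple of `g LLG`; it is affine in the Flow and in `T`.
-/

set_option linter.unusedVariables false

namespace Vale.Agent.P100.Calib.StripMid

open Pack

/-- The degree in the variables of weight one, if every term has the same. -/
def hdeg (w : ℕ → Bool) : Ex → Option ℕ
  | .var i => some (cond (w i) 1 0)
  | .num _ => some 0
  | .add e f =>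
    match hdeg w e, hdeg w f with
    | some m, some n => cond (m == n) (some m) none
    | _, _ => none
  | .sub e f =>
    match hdeg w e, hdeg w f with
    | some m, some n => cond (m == n) (some m) none
    | _, _ => none
  | .mul e f =>
    match hdeg w e, hdeg w f with
    | some m, some n => some (m + n)
    | _, _ => none
  | .pow e k =>
    match hdeg w e with
    | some m => some (m * k)
    | none => none

theorem eval_scale (w : ℕ → Bool) (s : ℝ) (ρ : ℕ → ℝ) :
    ∀ (e : Ex) (n : ℕ), hdeg w e = some n →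
      e.eval (fun i => cond (w i) (s * ρ i) (ρ i)) = s ^ n * e.eval ρ
  | .var i, n, h => by
    simp only [hdeg, Option.some.injEq] at h
    subst h
    cases hi : w i <;> simp [Ex.eval, hi]
  | .num z, n, h => by
    simp only [hdeg, Option.some.injEq] at h
    subst h
    simp [Ex.eval]
  | .add e f, n, h => by
    simp only [hdeg] at h
    split at h
    · rename_i m k hm hk
      by_cases hmk : m = k
      · subst hmk
        simp only [beq_self_eq_true, cond_true, Option.some.injEq] at h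
        subst h
        simp [Ex.eval, eval_scale w s ρ e _ hm, eval_scale w s ρ f _ hk]
        ring
      · rw [show (m == k) = false from beq_eq_false_iff_ne.mpr hmk] at h
        cases h
    · simp at h
  | .sub e f, n, h => by
    simp only [hdeg] at h
    split at h
    · rename_i m k hm hk
      by_cases hmk : m = k
      · subst hmk
        simp only [beq_self_eq_true, cond_true, Option.some.injEq] at h
        subst h
        simp [Ex.eval, eval_scale w s ρ e _ hm, eval_scale w s ρ f _ hk]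
        ring
      · rw [show (m == k) = false from beq_eq_false_iff_ne.mpr hmk] at h
        cases h
    · simp at h
  | .mul e f, n, h => by
    simp only [hdeg] at h
    split at h
    · rename_i m k hm hk
      simp only [Option.some.injEq] at h
      subst h
      simp [Ex.eval, eval_scale w s ρ e _ hm, eval_scale w s ρ f _ hk, pow_add]
      ring
    · simp at h
  | .pow e k, n, h => by
    simp only [hdeg] at h
    split at h
    · rename_i m hm
      simp only [Option.some.injEq] at h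
      subst h
      simp [Ex.eval, eval_scale w s ρ e _ hm, mul_pow, pow_mul]
    · simp at h

/-- The numerator and denominator of `v`. -/
def wV : ℕ → Bool
  | 2 => true
  | 3 => true
  | _ => false

/-- `g`, `g W R`, `g E`, `g K`. -/
def wG : ℕ → Bool
  | 4 => true
  | 5 => true
  | 6 => true
  | 7 => true
  | _ => false

/-- The variables, the four of the fields arbitrary. -/
noncomputable def gapVec (P : Piece) (x : ℕ → ℝ) (C T : ℝ) : ℕ → ℝ :=
  let a := xa P x
  let d := xd P x
  let v := xv P x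
  let S := (kS P.kind).eval x
  let M := 20 * (kB P.kind).eval x ^ 2 * (kDk P.kind).eval x
  let KB := (kBb P.kind).eval x
  let AB := (kAb P.kind).eval x
  llgOne a d v (M * wD a d v S (x 3) C) (M * (x 3 * C * (2 + d * v)))
    (-wL a d v S (x 3) C KB AB ((kDk P.kind).eval x) (xI P x))
    (-(AB * d - 3 * xI P x ^ 2 * KB) * wR a d v S (x 3) C)
    (S * x 3 / (2 * xI P x)) (gHat a d T) (kap P x)

/-- A positive multiple of `g LLG`. -/
noncomputable def gapFun (P : Piece) (x : ℕ → ℝ) (C T : ℝ) : ℝ := tplL.eval (gapVec P x C T)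

/-- The variables of the coefficients of the gap. -/
noncomputable def llgBase (a d v : ℝ) : ℕ → ℝ := llgOne a d v 0 0 0 0 0 0 0

theorem tplL_eval (ρ : ℕ → ℝ) : tplL.eval ρ =
    ρ 14 * (ρ 12 * (ρ 9 * (ρ 7 * coL0.eval ρ))) +
      (ρ 14 * (ρ 12 * (ρ 10 * (ρ 6 * coL1.eval ρ))) +
        ρ 14 * (ρ 12 * (ρ 9 * (ρ 6 * coL2.eval ρ)))) +
      (ρ 13 * (ρ 12 * (ρ 9 * (ρ 6 * coL3.eval ρ))) +
        ρ 14 * (ρ 12 * (ρ 10 * (ρ 8 * (ρ 5 * coL4.eval ρ)))) +
        (ρ 14 * (ρ 11 * (ρ 10 * (ρ 8 * (ρ 5 * coL5.eval ρ)))) +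
          ρ 14 * (ρ 12 * (ρ 10 * (ρ 8 * (ρ 4 * coL6.eval ρ)))))) := rfl

theorem tplL_lin (a d v g q e k R G c : ℝ) :
    tplL.eval (llgOne a d v g q e k R G c) =
      coL0.eval (llgBase a d v) * (R * k) + coL1.eval (llgBase a d v) * e +
        coL2.eval (llgBase a d v) * (R * e) + coL3.eval (llgBase a d v) * (c * (R * e)) +
        coL4.eval (llgBase a d v) * q + coL5.eval (llgBase a d v) * (G * q) +
        coL6.eval (llgBase a d v) * g := by
  have h : ∀ f : Ex, f.ok 4 = true → f.eval (llgOne a d v g q e k R G c) =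
      f.eval (llgBase a d v) := fun f hf =>
    eval_congr (fun i hi => by interval_cases i <;> rfl) f hf
  rw [tplL_eval, h coL0 rfl, h coL1 rfl, h coL2 rfl, h coL3 rfl, h coL4 rfl, h coL5 rfl,
    h coL6 rfl]
  simp only [llgOne]
  ring

theorem tplL_quo {ρ : ℕ → ℝ} (h3 : ρ 3 = 1) (h10 : ρ 10 ≠ 0) (h12 : ρ 12 ≠ 0) (h14 : ρ 14 ≠ 0) :
    tplL.eval ρ = ρ 10 * ρ 12 * ρ 14 * tplL.eval (llgOne (ρ 0 / 2) (ρ 1) (ρ 2) (ρ 4 * ρ 8)
      (ρ 5 * ρ 8) (ρ 6) (ρ 7) (ρ 9 / ρ 10) (ρ 11 / ρ 12) (ρ 13 / ρ 14)) := by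
  have h : ∀ f : Ex, f.ok 4 = true → f.eval ρ = f.eval (llgBase (ρ 0 / 2) (ρ 1) (ρ 2)) :=
    fun f hf => eval_congr (fun i hi => by
      interval_cases i
      · show ρ 0 = 2 * (ρ 0 / 2); ring
      · rfl
      · rfl
      · exact h3) f hf
  rw [tplL_lin, tplL_eval, h coL0 rfl, h coL1 rfl, h coL2 rfl, h coL3 rfl, h coL4 rfl, h coL5 rfl,
    h coL6 rfl]
  field_simp
  ring

theorem gapFun_C {P : Piece} {x : ℕ → ℝ} (s C₀ C₁ T : ℝ) :
    gapFun P x (mix s C₀ C₁) T = mix s (gapFun P x C₀ T) (gapFun P x C₁ T) := by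
  simp only [gapFun, gapVec, tplL_lin, mix, wD, wL, wR]
  ring

theorem gapFun_T {P : Piece} {x : ℕ → ℝ} (s C T₀ T₁ : ℝ) :
    gapFun P x C (mix s T₀ T₁) = mix s (gapFun P x C T₀) (gapFun P x C T₁) := by
  simp only [gapFun, gapVec, tplL_lin, mix, gHat]
  ring

variable {P : Piece} {x z : ℕ → ℝ}

/-- The variables of the substituted gap without their common factors. -/
noncomputable def gapRed (P : Piece) (x : ℕ → ℝ) (C : ℝ) (G : ℕ → ℝ) : ℕ → ℝ
  | 0 => 2 * xa P x
  | 1 => xd P x
  | 2 => xv P x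
  | 3 => 1
  | 4 => wD (xa P x) (xd P x) (xv P x) ((kS P.kind).eval x) (x 3) C
  | 5 => x 3 * C * (2 + xd P x * xv P x)
  | 6 => -wL (xa P x) (xd P x) (xv P x) ((kS P.kind).eval x) (x 3) C ((kBb P.kind).eval x)
      ((kAb P.kind).eval x) ((kDk P.kind).eval x) (xI P x)
  | 7 => -((kAb P.kind).eval x * xd P x - 3 * xI P x ^ 2 * (kBb P.kind).eval x) *
      wR (xa P x) (xd P x) (xv P x) ((kS P.kind).eval x) (x 3) C
  | i => G i

/-- The gap at an end. -/
theorem gap_end (hP : P.Pos2) (h : Good P x) {e : ℝ} (he : 0 < e) (rect ze t : Bool)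
    (h0 : z 0 = x 0) (h1 : z 1 = x 1) (h3 : z 3 = x 3)
    (hE : (cond rect (Ex.num 1) (uE P.kind)).eval z = e)
    (hV : (cond rect (kV P.kind) (uV P.kind)).eval z = xv P x * e)
    (hg : 0 ≤ (subst (gapSub P rect ze t) tplL).eval z) :
    0 ≤ gapFun P x (cEnd P x ze) (tEnd P x t) := by
  rw [eval_subst] at hg
  obtain ⟨σ, hσ⟩ : ∃ σ, σ = fun i => (gapSub P rect ze t i).eval z := ⟨_, rfl⟩
  rw [← hσ] at hg
  have eI : (kI P.kind).eval z = xI P x := by
    unfold xI; cases P.kind <;> simp [kI, Ex.eval, h0, h1]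
  have eD : (kD P.kind).eval z = xd P x := by
    unfold xd; cases P.kind <;> simp [kD, Ex.eval, h0, h1]
  have hz : (0 : ℝ) < P.z.2 := by exact_mod_cast hP.z
  have hc : ∀ f : Ex, f.ok 2 = true → f.eval z = f.eval x := fun f hf =>
    eval_congr (fun i hi => by interval_cases i <;> assumption) f hf
  have eS : (kS P.kind).eval z = (kS P.kind).eval x := hc _ (by cases P.kind <;> rfl)
  have eA : (kA P.kind).eval z = 2 * xa P x :=
    (hc _ (by cases P.kind <;> rfl)).trans eval_kA
  have eB : (kB P.kind).eval z = 2 * (xa P x + xd P x) :=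
    (hc _ (by cases P.kind <;> rfl)).trans eval_kB
  have eBb : (kBb P.kind).eval z = (kBb P.kind).eval x := hc _ (by cases P.kind <;> rfl)
  have eAb : (kAb P.kind).eval z = (kAb P.kind).eval x := hc _ (by cases P.kind <;> rfl)
  have eK : (kDk P.kind).eval z = (kDk P.kind).eval x := hc _ (by cases P.kind <;> rfl)
  obtain ⟨r, hr⟩ : ∃ r, r = gapRed P x (cEnd P x ze) σ := ⟨_, rfl⟩
  have hs : σ = fun i => cond (wV i) (e * (fun i => cond (wG i) (2 * (P.z.2 : ℝ) * e ^ 2 * r i)
      (r i)) i) ((fun i => cond (wG i) (2 * (P.z.2 : ℝ) * e ^ 2 * r i) (r i)) i) := by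
    funext i
    subst hr
    match i with
    | 0 => subst hσ; simp [gapSub, wV, wG, gapRed, eA]
    | 1 => subst hσ; simp [gapSub, wV, wG, gapRed, eD]
    | 2 => subst hσ; simp [gapSub, wV, wG, gapRed, hV, mul_comm]
    | 3 => subst hσ; simp [gapSub, wV, wG, gapRed, hE]
    | 4 =>
      subst hσ
      cases ze <;> simp only [gapSub, wV, wG, gapRed, cEnd, fr, ex_mul, ex_add, ex_sub, uAK, uKn, Ex.eval, cond_true, cond_false, eS,
        eA, eB, eBb, eAb, eK, hE, hV, eD, eI, h3, wD, wR, wL] <;> push_cast <;> field_simp <;> ring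
    | 5 =>
      subst hσ
      cases ze <;> simp only [gapSub, wV, wG, gapRed, cEnd, fr, ex_mul, ex_add, ex_sub, uAK, uKn, Ex.eval, cond_true, cond_false, eS,
        eA, eB, eBb, eAb, eK, hE, hV, eD, eI, h3, wD, wR, wL] <;> push_cast <;> field_simp <;> ring
    | 6 =>
      subst hσ
      cases ze <;> simp only [gapSub, wV, wG, gapRed, cEnd, fr, ex_mul, ex_add, ex_sub, uAK, uKn, Ex.eval, cond_true, cond_false, eS,
        eA, eB, eBb, eAb, eK, hE, hV, eD, eI, h3, wD, wR, wL] <;> push_cast <;> field_simp <;> ring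
    | 7 =>
      subst hσ
      cases ze <;> simp only [gapSub, wV, wG, gapRed, cEnd, fr, ex_mul, ex_add, ex_sub, uAK, uKn, Ex.eval, cond_true, cond_false, eS,
        eA, eB, eBb, eAb, eK, hE, hV, eD, eI, h3, wD, wR, wL] <;> push_cast <;> field_simp <;> ring
    | k + 8 => simp [wV, wG, gapRed]
  rw [hs, eval_scale wV e _ tplL 4 rfl, eval_scale wG _ r tplL 1 rfl] at hg
  have hg' : 0 ≤ tplL.eval r :=
    nonneg_of_mul_nonneg_right (nonneg_of_mul_nonneg_right hg (by positivity)) (by positivity)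
  have T2 : (0 : ℝ) < (cond t P.t₁ P.t₀).2.2 := by cases t <;> simp [hP.t₀, hP.t₁]
  have hB := h.kB
  have hI := h.I
  have hd := h.d
  have hS := h.S
  have hab : 0 < xa P x + xd P x := by linarith [h.a]
  have q8 : r 8 = 20 * (kB P.kind).eval x ^ 2 * (kDk P.kind).eval x := by
    subst hr hσ; simp [gapRed, gapSub, Ex.eval, ex_mul, eB, eK, eval_kB]
  have q9 : r 9 = (kS P.kind).eval x * x 3 := by
    subst hr hσ; simp [gapRed, gapSub, Ex.eval, ex_mul, eS, h3]
  have q10 : r 10 = 2 * xI P x := by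
    subst hr hσ; simp [gapRed, gapSub, Ex.eval, ex_mul, eI]
  have q12 : r 12 = 5 * ((cond t P.t₁ P.t₀).2.2 : ℝ) * (2 * (xa P x + xd P x)) ^ 2 := by
    subst hr hσ; simp [gapRed, gapSub, Ex.eval, ex_mul, eB]
  have q11 : r 11 / r 12 = gHat (xa P x) (xd P x) (tEnd P x t) := by
    rw [q12]
    subst hr hσ
    simp only [gapRed, gapSub, Ex.eval, ex_mul, ex_add, ex_sub, eA, eI, eB, eD, gHat, tEnd]
    rw [show (1 - 2 * xa P x - xd P x) = 2 * xI P x by linarith [eval_kA' (P := P) (x := x)]]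
    push_cast
    field_simp
    ring
  have q14 : 0 < r 14 ∧ r 13 / r 14 = kap P x := by
    subst hr hσ
    rcases hk : P.kind with _ | _ | _ <;>
      simp only [hk] at eS eI eD hd hS <;>
      simp [gapRed, gapSub, hk, Ex.eval, ex_mul, ex_sub, eS, eI, eD, h1, kap, hS, hd] <;>
      positivity
  rw [tplL_quo (by subst hr; rfl) (by rw [q10]; positivity) (by rw [q12]; positivity) q14.1.ne',
    q8, q9, q10, q11, q14.2] at hg'
  have := nonneg_of_mul_nonneg_right hg' (mul_pos (mul_pos (by positivity)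
    (by rw [q12]; positivity)) q14.1)
  subst hr
  refine this.trans_eq ?_
  show _ = tplL.eval _
  simp only [gapVec, gapRed]
  congr 2 <;> ring

/-- The gap at the four ends gives it inside. -/
theorem gap_nonneg (hg : ∀ ze t, 0 ≤ gapFun P x (cEnd P x ze) (tEnd P x t)) {C T : ℝ}
    (hC : cEnd P x false ≤ C) (hC' : C ≤ cEnd P x true) (hT : tEnd P x false ≤ T)
    (hT' : T ≤ tEnd P x true) : 0 ≤ gapFun P x C T := by
  obtain ⟨s, hs0, hs1, rfl⟩ := exists_mix hC hC'
  obtain ⟨r, hr0, hr1, rfl⟩ := exists_mix hT hT'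
  rw [gapFun_C, gapFun_T, gapFun_T]
  exact mix_nonneg (mix_nonneg (hg false false) (hg false true) hr0 hr1)
    (mix_nonneg (hg true false) (hg true true) hr0 hr1) hs0 hs1

end Vale.Agent.P100.Calib.StripMid
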