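import Vale.Agent.P100.Calib.SlabStripEndDInside
import Vale.Agent.P100.Calib.SlabStripMidGap

/-!
# The window of the models and the ray gap of the strip for `u` near one, `d` the large variable
-/

set_option linter.unusedVariables false

namespace Vale.Agent.P100.Calib.StripEndD

open Pack hiding ev_add ev_mul
open Pack.Ex StripMid StripEnd

local instance endDModAdd : Add Ex := ⟨Ex.add⟩
local instance endDModSub : Sub Ex := ⟨Ex.sub⟩
local instance endDModMul : Mul Ex := ⟨Ex.mul⟩

/-- The checks of the window and of the gap of a piece at a point. -/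
structure Windows (P : Piece) (x : ℕ → ℝ) : Prop where
  p : ∀ b hi, 0 ≤ (P.winP b hi).eval x
  e : ∀ b hi, 0 ≤ (P.winE b hi).eval x
  k : ∀ b hi, 0 ≤ (P.winK b hi).eval x
  w : ∀ b, 0 ≤ (P.winW b).eval x
  y : ∀ b, 0 ≤ (P.winY b).eval x
  t : ∀ b hi, 0 ≤ (P.winT b hi).eval x
  gap : ∀ b t, 0 ≤ (P.gap b t).eval x

variable (P : Piece) (x : ℕ → ℝ)

/-- `D1` at a value of the Flow. -/
noncomputable def fD (C : ℝ) : ℝ :=
  wD (xa P x) (P.d.eval x) (xv P x) (P.S.eval x) (P.U.eval x) C

/-- `1 - R d W`, scaled, at a value of the Flow. -/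
noncomputable def fR (C : ℝ) : ℝ :=
  wR (xa P x) (P.d.eval x) (xv P x) (P.S.eval x) (P.U.eval x) C

/-- `- g E`, scaled, at a value of the Flow. -/
noncomputable def fL (C : ℝ) : ℝ :=
  wL (xa P x) (P.d.eval x) (xv P x) (P.S.eval x) (P.U.eval x) C (P.Bb.eval x) (P.Ab.eval x)
    (P.Dk.eval x) (P.I.eval x)

/-- `b² g W1`, scaled, at a value of the Flow. -/
noncomputable def fN (C : ℝ) : ℝ :=
  wN (xa P x) (P.d.eval x) (xv P x) (P.S.eval x) (P.U.eval x) C

/-- The denominator of `e` and `k`. -/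
noncomputable def fDen : ℝ :=
  20 * (xa P x + P.d.eval x) ^ 4 * (2 + P.d.eval x * xv P x) * P.Dk.eval x

/-- `e` at a value of the Flow. -/
noncomputable def fe (C : ℝ) : ℝ := -(fL P x C / fDen P x)

/-- `k` at a value of the Flow. -/
noncomputable def fk (C : ℝ) : ℝ := -(fR P x C * P.Kq.eval x / fDen P x)

/-- `b² g W1` at a value of the Flow. -/
noncomputable def fw (C : ℝ) : ℝ :=
  4 * fN P x C / (P.S.eval x ^ 2 * P.U.eval x * (2 + P.d.eval x * xv P x))

/-- The excess of `2 v k + (1 + d + 2 a) b² g W1` over its upper end. -/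
noncomputable def fy (C : ℝ) : ℝ :=
  2 * xv P x * (fk P x C - kE P x true) +
    (1 + P.d.eval x + 2 * xa P x) * (fw P x C - wE P x true)

/-- `T` at a value of the Flow. -/
noncomputable def ft (C : ℝ) : ℝ := fR P x C / ((1 + P.d.eval x * xv P x) * fD P x C)

/-- A positive multiple of `g LLG`. -/
noncomputable def eGap (C T : ℝ) : ℝ :=
  tplL.eval (llgOne (xa P x) (P.d.eval x) (xv P x)
    (20 * P.B.eval x ^ 2 * P.Dk.eval x * fD P x C)
    (20 * P.B.eval x ^ 2 * P.Dk.eval x * (P.U.eval x * C * (2 + P.d.eval x * xv P x)))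
    (-fL P x C) (-P.Kq.eval x * fR P x C) (P.S.eval x * P.U.eval x / (2 * P.I.eval x))
    (gHat (xa P x) (P.d.eval x) T) (kap P x))

variable {P : Piece} {x : ℕ → ℝ}

theorem eval_Dk : P.Dk.eval x = P.d.eval x + 3 * P.I.eval x ^ 2 := by
  simp only [Piece.Dk, ev_add, ev_mul, ev_pow, ev_num]; norm_num

theorem eval_Ab : P.Ab.eval x =
    50 * (2 * (xa P x + P.d.eval x)) ^ 2 - 43 * (2 * xa P x) ^ 2 := by
  simp only [Piece.Ab, ev_sub, ev_mul, ev_pow, ev_num, eval_A, eval_B]; norm_num

theorem eval_Bb : P.Bb.eval x = 20 * P.I.eval x *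
    (2 - 6 * P.I.eval x - (2 * xa P x) ^ 2) * (2 * (xa P x + P.d.eval x)) ^ 2 := by
  simp only [Piece.Bb, ev_sub, ev_mul, ev_pow, ev_num, eval_A, eval_B]; norm_num

theorem eval_Kq : P.Kq.eval x =
    P.Ab.eval x * P.d.eval x - 3 * P.I.eval x ^ 2 * P.Bb.eval x := by
  simp only [Piece.Kq, ev_sub, ev_mul, ev_pow, ev_num]; norm_num

theorem Place.Dk (h : Place P x) : 0 < P.Dk.eval x := by
  rw [eval_Dk]; have := h.d; positivity

theorem Place.fDen (h : Place P x) : 0 < fDen P x := by
  have := h.Dk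
  have := h.b
  have := h.d
  have := h.v
  unfold StripEndD.fDen; positivity

theorem eval_pn2 (h : Place P x) :
    P.pn2.eval x = P.vd.eval x * (2 + P.d.eval x * xv P x) := by
  have := h.vd.ne'
  simp only [Piece.pn2, ev_add, ev_mul, ev_num, xv]
  push_cast
  field_simp

theorem eval_vn (h : Place P x) : P.vn.eval x = P.vd.eval x * xv P x := by
  rw [xv, mul_div_cancel₀ _ h.vd.ne']

theorem eval_N (hP : P.Pos) (h : Place P x) (b : Bool) :
    (P.N b).eval x = (P.Qd b).eval x * cE P x b := by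
  rw [cE, mul_div_cancel₀ _ (h.Qd hP b).ne']

theorem eval_U : P.U.eval x = 1 - P.w.eval x := by
  simp only [Piece.U, ev_sub, ev_num]; norm_num

theorem eval_Dn (hP : P.Pos) (h : Place P x) (b : Bool) :
    (P.Dn b).eval x = 2 * P.vd.eval x * (P.Qd b).eval x * fD P x (cE P x b) := by
  simp only [Piece.Dn, ev_add, ev_sub, ev_mul, ev_num, eval_pn2 h, eval_qn h, eval_B,
    eval_N hP h, fD, wD]
  push_cast; ring

theorem eval_Fn (hP : P.Pos) (h : Place P x) (b : Bool) :
    (P.Fn b).eval x = 2 * P.vd.eval x * (P.Qd b).eval x *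
      (P.U.eval x * cE P x b * (2 + P.d.eval x * xv P x)) := by
  simp only [Piece.Fn, ev_mul, ev_num, eval_pn2 h, eval_N hP h]
  push_cast; ring

theorem eval_Rn (hP : P.Pos) (h : Place P x) (b : Bool) :
    (P.Rn b).eval x = 2 * P.vd.eval x * (P.Qd b).eval x * fR P x (cE P x b) := by
  simp only [Piece.Rn, ev_sub, ev_mul, eval_Dn hP h, eval_Fn hP h, fR, fD, wR]
  ring

theorem eval_Ln (hP : P.Pos) (h : Place P x) (b : Bool) :
    (P.Ln b).eval x = 2 * P.vd.eval x ^ 2 * (P.Qd b).eval x * fL P x (cE P x b) := by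
  simp only [Piece.Ln, ev_sub, ev_add, ev_mul, eval_Dn hP h, eval_Fn hP h, eval_vn h, fD, fL, wL,
    eval_Kq]
  ring

theorem eval_Wn (hP : P.Pos) (h : Place P x) (b : Bool) :
    (P.Wn b).eval x = 4 * P.vd.eval x ^ 2 * (P.Qd b).eval x * fN P x (cE P x b) := by
  simp only [Piece.Wn, ev_sub, ev_add, ev_mul, ev_num, eval_Dn hP h, eval_N hP h, eval_pn2 h,
    eval_vn h, eval_A, eval_B, fD, fN, wN]
  push_cast; ring

theorem side_eval (hi : Bool) : (Piece.side hi).eval x = cond hi (-1) 1 := by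
  simp only [Piece.side, ev_num]; cases hi <;> simp

theorem sided {c y : ℝ} (hc : 0 < c) {hi : Bool} (h : 0 ≤ cond hi (-1) 1 * (c * y)) :
    cond hi (y ≤ 0) (0 ≤ y) := by
  cases hi
  · simp only [cond_false, one_mul] at h ⊢
    exact nonneg_of_mul_nonneg_right h hc
  · simp only [cond_true] at h ⊢
    exact nonpos_of_mul_nonpos_right (by linarith) hc

theorem eval_eDen (h : Place P x) (b : Bool) :
    (P.eDen b).eval x = 4 * P.vd.eval x * (P.Qd b).eval x * fDen P x := by
  simp only [Piece.eDen, ev_mul, ev_pow, ev_num, eval_pn2 h, eval_B, StripEndD.fDen]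
  push_cast; ring

theorem y_eq {vd Q f D wd S U P2 v r kk wn R K N : ℝ} (hD : D ≠ 0) (hf : f ≠ 0) (hw : wd ≠ 0)
    (hS : S ≠ 0) (hU : U ≠ 0) (hP : P2 ≠ 0) :
    2 * (vd * v) * (2 * f * (2 * vd * Q * R * K) - kk * (4 * vd * Q * D)) *
        (S ^ 2 * U * (vd * P2) * vd * Q * wd) +
      vd * f * (4 * vd * Q * D) * r *
        (wn * (S ^ 2 * U * (vd * P2) * vd * Q) - wd * (4 * vd ^ 2 * Q * N)) =
    4 * vd ^ 4 * Q ^ 2 * f * D * wd * (S ^ 2 * U * P2) *
      -(2 * v * (-(R * K / D) - -(kk / f)) + r * (4 * N / (S ^ 2 * U * P2) - wn / wd)) := by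
  field_simp
  ring

/-- The window of the four models at a value of the Flow between the ends. -/
theorem models_at (hP : P.Pos) (h : Place P x) (W : Windows P x) {s : ℝ} (h0 : 0 ≤ s)
    (h1 : s ≤ 1) (hD : 0 < fD P x (mix s (cE P x false) (cE P x true))) :
    let C := mix s (cE P x false) (cE P x true)
    (cT P x true ≤ C ∧ C ≤ cT P x false) ∧ (eE P x true ≤ fe P x C ∧ fe P x C ≤ eE P x false) ∧
    (kE P x false ≤ fk P x C ∧ fk P x C ≤ kE P x true) ∧
    (wE P x false ≤ fw P x C ∧ fy P x C ≤ 0) ∧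
    (tE P x false ≤ ft P x C ∧ ft P x C ≤ tE P x true) := by
  intro C
  have hden := h.fDen
  have hf := h.f0
  have hvd := h.vd
  have hS := h.S
  have hU := h.U
  have hq := h.q
  have hP2 : 0 < 2 + P.d.eval x * xv P x := by linarith
  have hqn := h.qn
  have hpd := h.pd
  have hA := h.A
  have hvs := h.vs
  have hp : ∀ hi b, cond hi (cE P x b - cT P x (!hi) ≤ 0) (0 ≤ cE P x b - cT P x (!hi)) := by
    intro hi b
    have hQ := h.Qd hP b
    have hm := pick_pos hP.mu b
    refine sided (c := (P.mu.pick b).2 * P.pd.eval x * P.qn.eval x / P.vs.eval x)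
      (by positivity) ((W.p b hi).trans_eq ?_)
    simp only [Piece.winP, cE, cT, Piece.N, Piece.Qd, ev_mul, ev_sub, ev_num, side_eval]
    push_cast
    field_simp
  have he : ∀ hi b, cond hi
      (fL P x (cE P x b) - (P.en hi).eval x / P.f0.eval x * fDen P x ≤ 0)
      (0 ≤ fL P x (cE P x b) - (P.en hi).eval x / P.f0.eval x * fDen P x) := by
    intro hi b
    have hQ := h.Qd hP b
    refine sided (c := 4 * P.vd.eval x ^ 2 * (P.Qd b).eval x * P.f0.eval x)
      (by positivity) ((W.e b hi).trans_eq ?_)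
    simp only [Piece.winE, Piece.eDen, ev_mul, ev_sub, ev_pow, ev_num, side_eval, eval_Ln hP h,
      eval_pn2 h, eval_B, StripEndD.fDen]
    push_cast
    field_simp
    ring
  have hk : ∀ hi b, cond hi
      (fR P x (cE P x b) * P.Kq.eval x - (P.kk hi).eval x / P.f0.eval x * fDen P x ≤ 0)
      (0 ≤ fR P x (cE P x b) * P.Kq.eval x - (P.kk hi).eval x / P.f0.eval x * fDen P x) := by
    intro hi b
    have hQ := h.Qd hP b
    refine sided (c := 4 * P.vd.eval x * (P.Qd b).eval x * P.f0.eval x)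
      (by positivity) ((W.k b hi).trans_eq ?_)
    simp only [Piece.winK, Piece.eDen, ev_mul, ev_sub, ev_pow, ev_num, side_eval, eval_Rn hP h,
      eval_pn2 h, eval_B, StripEndD.fDen]
    push_cast
    field_simp
    ring
  have hw : ∀ b, 0 ≤ fw P x (cE P x b) - wE P x false := by
    intro b
    have hQ := h.Qd hP b
    have hwd := h.wd
    refine nonneg_of_mul_nonneg_right (a := P.vd.eval x ^ 2 * (P.Qd b).eval x * P.wd.eval x *
      (P.S.eval x ^ 2 * P.U.eval x * (2 + P.d.eval x * xv P x))) ((W.w b).trans_eq ?_)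
      (by positivity)
    simp only [Piece.winW, ev_mul, ev_sub, ev_pow, eval_Wn hP h, eval_pn2 h, fw, wE]
    push_cast
    field_simp
  have hy : ∀ b, 0 ≤ -fy P x (cE P x b) := by
    intro b
    have hQ := h.Qd hP b
    have hwd := h.wd
    refine nonneg_of_mul_nonneg_right (a := 4 * P.vd.eval x ^ 4 * (P.Qd b).eval x ^ 2 *
      P.f0.eval x * fDen P x * P.wd.eval x *
      (P.S.eval x ^ 2 * P.U.eval x * (2 + P.d.eval x * xv P x))) ((W.y b).trans_eq ?_)
      (by positivity)
    simp only [Piece.winY, ev_mul, ev_add, ev_sub, ev_pow, ev_num, eval_Rn hP h, eval_eDen h b,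
      eval_Wn hP h, eval_pn2 h, eval_vn h, eval_A, fy, fk, fw, wE, kE, Bool.not_true]
    push_cast
    exact y_eq hden.ne' hf.ne' hwd.ne' hS.ne' hU.ne' hP2.ne'
  have ht : ∀ hi b, cond hi
      (fR P x (cE P x b) - tE P x hi * ((1 + P.d.eval x * xv P x) * fD P x (cE P x b)) ≤ 0)
      (0 ≤ fR P x (cE P x b) - tE P x hi * ((1 + P.d.eval x * xv P x) * fD P x (cE P x b))) := by
    intro hi b
    have hQ := h.Qd hP b
    have htd := h.td
    refine sided (c := 2 * P.vd.eval x ^ 2 * (P.Qd b).eval x * P.td.eval x)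
      (by positivity) ((W.t b hi).trans_eq ?_)
    simp only [Piece.winT, ev_mul, ev_sub, side_eval, eval_Rn hP h, eval_Dn hP h,
      eval_qn h, tE]
    field_simp
  have eL : fL P x C = mix s (fL P x (cE P x false)) (fL P x (cE P x true)) := by
    simp only [C, fL, wL, wD, mix]; ring
  have eR : fR P x C = mix s (fR P x (cE P x false)) (fR P x (cE P x true)) := by
    simp only [C, fR, wR, wD, mix]; ring
  have eD : fD P x C = mix s (fD P x (cE P x false)) (fD P x (cE P x true)) := by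
    simp only [C, fD, wD, mix]; ring
  have eN : fw P x C = mix s (fw P x (cE P x false)) (fw P x (cE P x true)) := by
    simp only [C, fw, fN, wN, wD, mix]; ring
  have lo := fun (f : Bool → ℝ) (hf : ∀ b, 0 ≤ f b) => mix_nonneg (hf false) (hf true) h0 h1
  have p0 := lo _ (fun b => hp false b)
  have p1 := lo (fun b => -(cE P x b - cT P x false)) fun b => neg_nonneg.2 (hp true b)
  have e0 := lo _ (fun b => he false b)
  have e1 := lo (fun b => -(fL P x (cE P x b) - (P.en true).eval x / P.f0.eval x *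
    fDen P x)) fun b => neg_nonneg.2 (he true b)
  have k0 := lo _ (fun b => hk false b)
  have k1 := lo (fun b => -(fR P x (cE P x b) * P.Kq.eval x - (P.kk true).eval x / P.f0.eval x *
    fDen P x)) fun b => neg_nonneg.2 (hk true b)
  have eY : fy P x C = mix s (fy P x (cE P x false)) (fy P x (cE P x true)) := by
    simp only [C, fy, fk, fR, wR, wD, fw, fN, wN, mix]; ring
  have w0 := lo _ hw
  have w1 := lo _ hy
  have t0 := lo _ (fun b => ht false b)
  have t1 := lo (fun b => -(fR P x (cE P x b) - tE P x true * ((1 + P.d.eval x * xv P x) *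
    fD P x (cE P x b)))) fun b => neg_nonneg.2 (ht true b)
  unfold mix at p0 p1 e0 e1 k0 k1 w0 w1 t0 t1 eL eR eD eN eY
  simp only [eE, kE, fe, fk, ft, Bool.not_true, Bool.not_false, neg_mul] at *
  refine ⟨⟨?_, ?_⟩, ⟨?_, ?_⟩, ⟨?_, ?_⟩, ⟨?_, ?_⟩, ⟨?_, ?_⟩⟩
  · simp only [C, mix] at *; linarith
  · simp only [C, mix] at *; linarith
  · rw [neg_le_neg_iff, div_le_iff₀ hden, eL]; linarith
  · rw [neg_le_neg_iff, le_div_iff₀ hden, eL]; linarith
  · rw [neg_le_neg_iff, div_le_iff₀ hden, eR]; linarith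
  · rw [neg_le_neg_iff, le_div_iff₀ hden, eR]; linarith
  · rw [eN]; linarith
  · rw [eY]; linarith
  · rw [le_div_iff₀ (mul_pos hq hD), eR, eD]; linarith
  · rw [div_le_iff₀ (mul_pos hq hD), eR, eD]; linarith

/-- The value of the gap at an end. -/
theorem eval_gap (hP : P.Pos) (h : Place P x) (b t : Bool) :
    (P.gap b t).eval x = 20 * P.vd.eval x ^ 6 * (P.Qd b).eval x * P.I.eval x * P.B.eval x *
      P.td.eval x * P.cd.eval x * eGap P x (cE P x b) (tE P x t) := by
  rw [Piece.gap, eval_subst]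
  have hvd := h.vd
  have hQ := h.Qd hP b
  have hI := h.I
  have hcd := h.cd
  have hB := h.B
  have hb := h.b
  have htd := h.td
  obtain ⟨σ, hσ⟩ : ∃ σ, σ = fun i => (P.gapSub b t i).eval x := ⟨_, rfl⟩
  rw [← hσ]
  obtain ⟨r, hr⟩ : ∃ r : ℕ → ℝ, r = fun i => match i with
    | 0 => 2 * xa P x
    | 1 => P.d.eval x
    | 2 => xv P x
    | 3 => 1
    | 4 => fD P x (cE P x b)
    | 5 => P.U.eval x * cE P x b * (2 + P.d.eval x * xv P x)
    | 6 => -fL P x (cE P x b)
    | 7 => -P.Kq.eval x * fR P x (cE P x b)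
    | i => σ i := ⟨_, rfl⟩
  obtain ⟨z, hz⟩ : ∃ z, z = 2 * P.vd.eval x ^ 2 * (P.Qd b).eval x := ⟨_, rfl⟩
  have hs : σ = fun i => cond (wV i) (P.vd.eval x * (fun i => cond (wG i) (z * r i) (r i)) i)
      ((fun i => cond (wG i) (z * r i) (r i)) i) := by
    funext i
    subst hr hz
    match i with
    | 0 => subst hσ; simp [Piece.gapSub, wV, wG, eval_A]
    | 1 => subst hσ; simp [Piece.gapSub, wV, wG]
    | 2 => subst hσ; simp [Piece.gapSub, wV, wG, eval_vn h]
    | 3 => subst hσ; simp [Piece.gapSub, wV, wG]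
    | 4 =>
      subst hσ; simp only [Piece.gapSub, wV, wG, cond_true, cond_false, ev_mul, eval_Dn hP h]; ring
    | 5 =>
      subst hσ; simp only [Piece.gapSub, wV, wG, cond_true, cond_false, ev_mul, eval_Fn hP h]; ring
    | 6 =>
      subst hσ
      simp only [Piece.gapSub, wV, wG, cond_true, cond_false, ev_mul, ev_num, eval_Ln hP h]
      push_cast; ring
    | 7 =>
      subst hσ
      simp only [Piece.gapSub, wV, wG, cond_true, cond_false, ev_mul, ev_num, eval_Rn hP h]
      push_cast; ring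
    | k + 8 => simp [wV, wG]
  rw [hs, eval_scale wV _ _ tplL 4 rfl, eval_scale wG _ r tplL 1 rfl]
  have q8 : r 8 = 20 * P.B.eval x ^ 2 * P.Dk.eval x := by
    subst hr hσ; simp [Piece.gapSub, ev_mul, ev_pow, ev_num]
  have q9 : r 9 = P.S.eval x * P.U.eval x := by
    subst hr hσ; simp [Piece.gapSub, ev_mul]
  have q10 : r 10 = 2 * P.I.eval x := by
    subst hr hσ; simp [Piece.gapSub, ev_mul, ev_num]
  have q12 : r 12 = 5 * P.B.eval x * P.td.eval x := by
    subst hr hσ; simp [Piece.gapSub, ev_mul, ev_num]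
  have q11 : r 11 / r 12 = gHat (xa P x) (P.d.eval x) (tE P x t) := by
    rw [q12, eval_B]
    subst hr hσ
    simp only [Piece.gapSub, Piece.gn, ev_mul, ev_sub, ev_num, eval_A, eval_B, gHat, tE]
    rw [show P.I.eval x = (1 - 2 * xa P x - P.d.eval x) / 2 by linarith [eval_A' (P := P) (x := x)]]
    push_cast
    field_simp
    ring
  have q13 : r 14 = P.cd.eval x ∧ r 13 = P.cn.eval x := by
    subst hr hσ; exact ⟨rfl, rfl⟩
  have q12' : 0 < r 12 := by rw [q12]; positivity
  rw [tplL_quo (by subst hr; rfl) (by rw [q10]; positivity) q12'.ne' (by rw [q13.1]; exact hcd.ne'),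
    q8, q9, q10, q11, q12, q13.1, q13.2, hz]
  subst hr
  simp only [eGap, kap]
  ring_nf

/-- The gap at an end. -/
theorem gap_at_end (hP : P.Pos) (h : Place P x) (W : Windows P x) (b t : Bool) :
    0 ≤ eGap P x (cE P x b) (tE P x t) := by
  have := h.Qd hP b; have := h.I; have := h.B; have := h.td; have := h.cd; have := h.vd
  exact nonneg_of_mul_nonneg_right ((W.gap b t).trans_eq (eval_gap hP h b t)) (by positivity)

/-- The gap inside. -/
theorem gap_in (hP : P.Pos) (h : Place P x) (W : Windows P x) {s T : ℝ} (h0 : 0 ≤ s) (h1 : s ≤ 1)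
    (hT : tE P x false ≤ T) (hT' : T ≤ tE P x true) :
    0 ≤ eGap P x (mix s (cE P x false) (cE P x true)) T := by
  obtain ⟨r, hr0, hr1, rfl⟩ := exists_mix hT hT'
  have eC : ∀ T, eGap P x (mix s (cE P x false) (cE P x true)) T =
      mix s (eGap P x (cE P x false) T) (eGap P x (cE P x true) T) := fun T => by
    simp only [eGap, tplL_lin, mix, fD, fL, fR, wD, wL, wR]; ring
  have eT : ∀ C, eGap P x C (mix r (tE P x false) (tE P x true)) =
      mix r (eGap P x C (tE P x false)) (eGap P x C (tE P x true)) := fun C => by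
    simp only [eGap, tplL_lin, mix, gHat]; ring
  have g := gap_at_end hP h W
  rw [eC, eT, eT]
  exact mix_nonneg (mix_nonneg (g false false) (g false true) hr0 hr1)
    (mix_nonneg (g true false) (g true true) hr0 hr1) h0 h1

end Vale.Agent.P100.Calib.StripEndD
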