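import Vale.Agent.P100.Calib.SlabStripMidWindow
import Vale.Agent.P100.Calib.SlabStripNum

/-!
# The algebra of the window of a piece below 153/200

`20 (2 b)² = 80 b²`; `AB`, `KB` and `Dk` are the scaled values of the slope of the strip.
-/

set_option linter.unusedVariables false

namespace Vale.Agent.P100.Calib.StripMid

variable {a d v S u C KB AB Dk I b g W W1 R r L ρ : ℝ}

/-- The upper end of `g K` against that of `g E`. -/
theorem wR_le (hd : 0 ≤ d) (hv : 0 ≤ v) (hu : 0 ≤ u) (hC : 0 ≤ C) (hKB : 0 ≤ KB) (hI : 0 ≤ I)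
    (hD : 0 ≤ wD a d v S u C) (eDk : Dk = d + 3 * I ^ 2) :
    wR a d v S u C * (AB + KB) ≤ wL a d v S u C KB AB Dk I := by
  have key : wL a d v S u C KB AB Dk I - wR a d v S u C * (AB + KB) =
      KB * v * Dk * wD a d v S u C + u * C * (2 + d * v) * KB * (3 * I ^ 2 + d) := by
    rw [wR, wL, eDk]; ring
  have : 0 ≤ Dk := by rw [eDk]; positivity
  have : 0 ≤ KB * v * Dk * wD a d v S u C + u * C * (2 + d * v) * KB * (3 * I ^ 2 + d) := by
    positivity
  linarith

/-- The window of `g K`. -/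
theorem k_window (hd : 0 ≤ d) (hKB : 0 ≤ KB) (hAB : 0 ≤ AB) (h0 : r * L ≤ ρ) (h1 : ρ ≤ L) :
    L * (r * AB * d - 3 * I ^ 2 * KB) ≤ ρ * (AB * d - 3 * I ^ 2 * KB) ∧
      ρ * (AB * d - 3 * I ^ 2 * KB) ≤ L * (AB * d - 3 * r * I ^ 2 * KB) := by
  have e0 := mul_le_mul_of_nonneg_right h0 (mul_nonneg hAB hd)
  have e1 := mul_le_mul_of_nonneg_right h1 (mul_nonneg hAB hd)
  have f0 := mul_le_mul_of_nonneg_right h0 (mul_nonneg (sq_nonneg I) hKB)
  have f1 := mul_le_mul_of_nonneg_right h1 (mul_nonneg (sq_nonneg I) hKB)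
  constructor <;> linarith

/-- The speed in the variables of the window. -/
theorem one_sub_RdW (hb : b = a + d) (hb0 : 0 < b) (hP : 0 < 2 + d * v) (hI : 0 < I) (hS : 0 < S)
    (hD : 0 < wD a d v S u C)
    (hg : g * I = 2 * wD a d v S u C / (b * (2 + d * v)))
    (hW : b * (g * W) = 4 * C / S) (hR : R = S * u / (2 * I)) :
    1 - R * d * W = wR a d v S u C / wD a d v S u C := by
  have e2 : g = 2 * wD a d v S u C / (b * (2 + d * v) * I) := by
    rw [← div_div, eq_div_iff hI.ne', hg]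
  have hg0 : 0 < g := by rw [e2]; positivity
  have e1 : W = 4 * C / (S * b * g) := by
    rw [show S * b * g = S * (b * g) by ring, ← div_div, eq_div_iff (by positivity), ← hW]; ring
  rw [hR, e1, e2, wR]
  field_simp
  ring

/-- `stripK` over common denominators. -/
theorem stripK_eq (hb : b = a + d) (hb0 : 0 < b) (hd : 0 < d) (hI : 0 < I)
    (eKb : KB = 20 * I * (2 - 6 * I - (2 * a) ^ 2) * (2 * b) ^ 2)
    (eAb : AB = 50 * (2 * b) ^ 2 - 43 * (2 * a) ^ 2) (eDk : Dk = d + 3 * I ^ 2) :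
    stripK a d (1 / I) = (AB * d - 3 * I ^ 2 * KB) / (20 * (2 * b) ^ 2 * Dk) := by
  rw [stripK, eKb, eAb, eDk, ← hb, show 3 / (1 / I) ^ 2 = 3 * I ^ 2 by field_simp]
  field_simp
  ring

/-- `g E` and `g K` in the variables of the window. -/
theorem num_EK (hb : b = a + d) (hb0 : 0 < b) (hd : 0 < d) (hI : 0 < I) (hP : 0 < 2 + d * v)
    (hD : 0 < wD a d v S u C)
    (eKb : KB = 20 * I * (2 - 6 * I - (2 * a) ^ 2) * (2 * b) ^ 2)
    (eAb : AB = 50 * (2 * b) ^ 2 - 43 * (2 * a) ^ 2) (eDk : Dk = d + 3 * I ^ 2)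
    (hN : dimAll a d = 1 / I)
    (hg : g * I = 2 * wD a d v S u C / (b * (2 + d * v)))
    (h1 : 1 - R * d * W = wR a d v S u C / wD a d v S u C) :
    g * I * (stripNum a d v W R).E =
        -(2 * wL a d v S u C KB AB Dk I / (b * (2 + d * v) * (20 * (2 * b) ^ 2 * Dk))) ∧
      g * I * (stripNum a d v W R).K =
        -(2 * wR a d v S u C * (AB * d - 3 * I ^ 2 * KB) /
          (b * (2 + d * v) * (20 * (2 * b) ^ 2 * Dk))) := by
  have hDk : 0 < Dk := by rw [eDk]; positivity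
  simp only [stripNum, hN, stripK_eq hb hb0 hd hI eKb eAb eDk, h1]
  constructor
  · rw [hg, wR, wL, eKb, eDk]
    field_simp
    ring
  · rw [hg]
    field_simp

/-- The numbers of the strip as those of the templates. -/
theorem num_hat (hb : b = a + d) (ha : 0 < a) (hb0 : 0 < b) (hd : 0 < d) (hI : 0 < I)
    (hM : 1 - 2 * a - d = 2 * I) {T κ : ℝ} (hq : 1 + d * v ≠ 0)
    (hT : T = (1 - R * d * W) / (1 + d * v))
    (hk : (AllN.kapAll (1 / I) a + 1) / d = κ) :
    stripNum a d v W R = hatNum a d (stripNum a d v W R).E (stripNum a d v W R).K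
      (gHat a d T) (gHat1 a d T) κ := by
  have hN : dimAll a d = 1 / I := by
    rw [dimAll, show 1 - (a + (a + d)) = 2 * I by linarith]; field_simp
  simp only [stripNum, hatNum, hN, gHat, gHat1, ClosedGen.Num.mk.injEq, ← hb, hM, true_and, ← hk,
    hT]
  refine ⟨?_, ?_, ?_, ?_⟩ <;> field_simp <;> ring

end Vale.Agent.P100.Calib.StripMid
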