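import Vale.Agent.P100.Calib.SlabStripEndModels
import Vale.Agent.P100.Calib.SlabStripMidAlg
import Vale.Agent.P100.Calib.SlabStripChart

/-!
# The closed signs of a piece of the strip for `u` near one at a point of the chart

The Flow is pinned between the ends of `μ`; there the exact fields lie in the window of the
models, and the four conditions give the arrow.
-/

set_option linter.unusedVariables false

namespace Vale.Agent.P100.Calib.StripEnd

open Pack StripMid ClosedGen Closed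

/-- `C` in the chart. -/
noncomputable def chC (d S u v t : ℝ) : ℝ :=
  chH d S u v t * ((2 + d * v) * ((S + d) / 2) - S * u * (1 + d * v)) /
    (2 + d * v - d * u * chH d S u v t)

/-- A piece places the point `(d, S, u, v)`. -/
structure Places (P : Piece) (x : ℕ → ℝ) (d S u v : ℝ) : Prop where
  hI : P.I.eval x = (1 - S) / 2
  hd : P.d.eval x = d
  hw : P.w.eval x = 1 - u
  ho : P.o.eval x = (S - d) / 2 * v * P.den.eval x

/-- All checks of a piece at a point. -/
structure AllChecks (P : Piece) (x : ℕ → ℝ) : Prop where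
  rows : Ends P x
  wins : Windows P x

variable {P : Piece} {x : ℕ → ℝ} {d S u v t : ℝ} {n : ℕ}

/-- **The closed signs of a piece at a point of the chart.** -/
theorem signs_end (hP : P.Pos2) (h : Place P x) (hb : All.ChartBox n d S)
    (hF : All.ChartFacts d S u v t) (hx : Places P x d S u v)
    (hk : (AllN.kapAll (1 / P.I.eval x) (xa P x) + 1) / d = kap P x)
    (hpin : ∃ m : ℝ, fr P.mu.lo ≤ m ∧ m ≤ fr P.mu.hi ∧ chC d S u v t * P.qn.eval x =
      P.A.eval x * (P.den.eval x - P.o.eval x - m * P.o.eval x * P.w.eval x))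
    (K : AllChecks P x) : Strip.ChartSigns d S u v t := by
  obtain ⟨a, ha⟩ : ∃ a, a = (S - d) / 2 := ⟨_, rfl⟩
  obtain ⟨b, hbb⟩ : ∃ b, b = a + d := ⟨_, rfl⟩
  have eS : P.S.eval x = S := by rw [eval_S, hx.hI]; ring
  have eA : xa P x = a := by
    have := eval_A' (P := P) (x := x)
    rw [hx.hd, hx.hI] at this
    rw [ha]; linarith
  have eU : P.U.eval x = u := by rw [eval_U, hx.hw]; ring
  have ev : xv P x = v := by
    have := h.A.ne'
    have := h.den.ne'
    simp only [xv, Piece.vn, Piece.vd, ev_mul, ev_num, hx.ho, ← ha]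
    rw [eval_A, eA]
    have : a ≠ 0 := eA ▸ h.a.ne'
    push_cast
    field_simp
  have hd0 : 0 < d := hb.pos
  have ha0 : 0 < a := eA ▸ h.a
  have hv0 : 0 < v := ev ▸ h.v
  have hb0 : 0 < b := by linarith
  have hS0 : 0 < S := eS ▸ h.S
  have hu0 := hF.u_pos
  have hI0 : 0 < (1 - S) / 2 := hx.hI ▸ h.I
  have hq : 0 < 1 + d * v := by positivity
  have hP0 : 0 < 2 + d * v := by positivity
  have hudH : u * (d * chH d S u v t) < 1 := by
    have := mul_pos hd0 hF.H_pos
    have := mul_lt_mul_of_pos_right hF.u_lt this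
    linarith [hF.h_lt]
  obtain ⟨Dn, hDn⟩ : ∃ Dn, Dn = 2 + d * v - d * u * chH d S u v t := ⟨_, rfl⟩
  have hD : 0 < Dn := by rw [hDn]; linarith [mul_pos hd0 hv0]
  obtain ⟨Q, hQ⟩ : ∃ Q, Q = (2 + d * v) * ((S + d) / 2) - S * u * (1 + d * v) := ⟨_, rfl⟩
  have hQ0 : 0 < Q := by
    rw [hQ]
    have h4 : S * u * (1 + d * v) < S * (1 + d * v) :=
      mul_lt_mul_of_pos_right (mul_lt_of_lt_one_right hS0 hF.u_lt) (show 0 < 1 + d * v by linarith)
    linarith [mul_lt_mul_of_pos_left hF.r_lt hd0]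
  obtain ⟨C, hC⟩ : ∃ C, C = chC d S u v t := ⟨_, rfl⟩
  have eC : C = chH d S u v t * Q / Dn := by rw [hC, chC, hQ, hDn]
  have hC0 : 0 < C := by rw [eC]; exact div_pos (mul_pos hF.H_pos hQ0) hD
  -- the Flow between the ends
  obtain ⟨m, hm0, hm1, hm⟩ := hpin
  rw [← hC] at hm
  obtain ⟨s, hs0, hs1, hs⟩ := exists_mix hm0 hm1
  have hCmix : C = mix s (cE P x false) (cE P x true) := by
    have q1 := h.qn.ne'
    have p0 := pick_pos hP.mu false
    have p1 := pick_pos hP.mu true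
    simp only [Rng.pick, cond_true, cond_false] at p0 p1
    rw [eq_div_iff q1 |>.2 hm, hs]
    simp only [cE, Piece.N, Piece.Qd, Piece.cn', Rng.pick, cond_true, cond_false, ev_mul, ev_sub,
      ev_num, mix, fr]
    push_cast
    field_simp
    ring
  have eD : fD P x C = Q * (2 + d * v) / Dn := by
    rw [fD, eA, ev, eS, eU, hx.hd, wD, eC, eq_div_iff hD.ne']
    have : chH d S u v t * Q / Dn * Dn = chH d S u v t * Q := div_mul_cancel₀ _ hD.ne'
    rw [add_mul, mul_assoc (u * d), this, hQ, hDn, ha]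
    ring
  have hfD : 0 < fD P x C := by rw [eD]; positivity
  obtain ⟨g, hg_def⟩ : ∃ g, g = chG d S u v t := ⟨_, rfl⟩
  obtain ⟨W, hW_def⟩ : ∃ W, W = chW d S u v t := ⟨_, rfl⟩
  obtain ⟨W1, hW1_def⟩ : ∃ W1, W1 = chW1 d S u v t := ⟨_, rfl⟩
  obtain ⟨R, hR_def⟩ : ∃ R, R = chR S u := ⟨_, rfl⟩
  have eg : g = 4 * Q / ((1 - S) * b * Dn) := by
    rw [hg_def, chG, ← hQ, ← hDn, hbb, ha]; ring_nf
  have hS1 : 0 < 1 - S := by linarith
  have hg : 0 < g := by rw [eg]; positivity
  have g_eq : g * ((1 - S) / 2) = 2 * wD a d v S u C / (b * (2 + d * v)) := by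
    have : wD a d v S u C = Q * (2 + d * v) / Dn := by
      rw [← eD, fD, eA, ev, eS, eU, hx.hd]
    rw [this, eg]
    field_simp
    ring
  have W_eq : b * (g * W) = 4 * C / S := by
    rw [hW_def, chW, eg, eC]
    field_simp
  have R_eq : R = S * u / (2 * ((1 - S) / 2)) := by rw [hR_def, chR]; ring_nf
  have hDk : 0 < P.Dk.eval x := h.Dk
  have hM' : 1 - 2 * a - d = 2 * ((1 - S) / 2) := by rw [ha]; ring
  have hN : dimAll a d = 1 / ((1 - S) / 2) := by
    rw [dimAll, show 1 - (a + (a + d)) = 2 * ((1 - S) / 2) by linarith]; field_simp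
  have eKb : P.Bb.eval x =
      20 * ((1 - S) / 2) * (2 - 6 * ((1 - S) / 2) - (2 * a) ^ 2) * (2 * b) ^ 2 := by
    rw [eval_Bb, hx.hI, eA, hx.hd, hbb]
  have eAb : P.Ab.eval x = 50 * (2 * b) ^ 2 - 43 * (2 * a) ^ 2 := by
    rw [eval_Ab, eA, hx.hd, hbb]
  have eDk : P.Dk.eval x = d + 3 * ((1 - S) / 2) ^ 2 := by rw [eval_Dk, hx.hI, hx.hd]
  have hDw : 0 < wD a d v S u C := by
    have := hfD
    rwa [fD, eA, ev, eS, eU, hx.hd] at this
  have h1R := one_sub_RdW hbb hb0 hP0 hI0 hS0 hDw g_eq W_eq R_eq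
  obtain ⟨eE, eK⟩ := num_EK hbb hb0 hd0 hI0 hP0 hDw eKb eAb eDk hN g_eq h1R
  obtain ⟨E, hE⟩ : ∃ E, E = (stripNum a d v W R).E := ⟨_, rfl⟩
  obtain ⟨Kf, hKf⟩ : ∃ Kf, Kf = (stripNum a d v W R).K := ⟨_, rfl⟩
  rw [← hE] at eE
  rw [← hKf] at eK
  have eT : ft P x C = (1 - R * d * W) / (1 + d * v) := by
    rw [ft, fR, fD, eA, ev, eS, eU, hx.hd, h1R, div_div, mul_comm (1 + d * v)]
  have hk' : (AllN.kapAll (1 / ((1 - S) / 2)) a + 1) / d = kap P x := by
    rw [← hx.hI, ← eA]; exact hk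
  have eN : stripNum a d v W R = hatNum a d E Kf (gHat a d (ft P x C)) (gHat1 a d (ft P x C))
      (kap P x) := by
    rw [hE, hKf]; exact num_hat hbb ha0 hb0 hd0 hI0 hM' hq.ne' eT hk'
  have eKq : P.Kq.eval x = P.Ab.eval x * d - 3 * ((1 - S) / 2) ^ 2 * P.Bb.eval x := by
    rw [eval_Kq, hx.hd, hx.hI]
  have eW1 : g * W1 * b ^ 2 = fw P x C := by
    have eN' : fN P x C = u * (2 + d * v) * (Q * (S * chH d S u v t * (a - (1 - a) * d * v) -
        (2 - S) * b * t)) / Dn := by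
      rw [fN, eA, ev, eS, eU, hx.hd, wN, eq_div_iff hD.ne']
      have hc : C * Dn = chH d S u v t * Q := by rw [eC]; exact div_mul_cancel₀ _ hD.ne'
      have hd' : wD a d v S u C * Dn = Q * (2 + d * v) := by
        have e' := eD
        rw [fD, eA, ev, eS, eU, hx.hd] at e'
        rw [e', div_mul_cancel₀ _ hD.ne']
      rw [← hbb]
      have hH : chH d S u v t = S * (1 + (1 - a) * v) / (b * (2 - S)) + u * t := by
        rw [chH, hbb, ha]; ring
      have h2S : 2 - S ≠ 0 := by linarith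
      have hb' := hb0.ne'
      calc (u * S * (2 + d * v) * C * (a - (1 - a) * d * v) - (2 - S) * b * C * (2 + d * v) +
            wD a d v S u C * S * (1 + (1 - a) * v)) * Dn
          = u * S * (2 + d * v) * (C * Dn) * (a - (1 - a) * d * v) -
            (2 - S) * b * (C * Dn) * (2 + d * v) +
            (wD a d v S u C * Dn) * S * (1 + (1 - a) * v) := by ring
        _ = _ := by rw [hc, hd', hH]; field_simp; ring
    rw [fw, eN', ev, eS, eU, hx.hd, hW1_def, eg, chW1, ← ha,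
      show (S + d) / 2 = b by rw [hbb, ha]; ring]
    field_simp
  have eV : hatAt a d v g W W1 E Kf (gHat a d (ft P x C)) (gHat1 a d (ft P x C)) (kap P x) =
      vAt P x (4 * C / S) (fe P x C) (fk P x C) (fw P x C) (ft P x C) := by
    have hb4 : b ^ 4 ≠ 0 := pow_ne_zero _ hb0.ne'
    simp only [hatAt, vAt, vec, eA, ev, hx.hd, hM', ← hbb]
    congr 1
    · rw [show g * E * (2 * ((1 - S) / 2)) = g * ((1 - S) / 2) * E * 2 by ring, eE]
      simp only [fe, fL, StripEnd.fDen, eA, ev, eS, eU, hx.hd, hx.hI, ← hbb]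
      field_simp
    · rw [show g * Kf * (2 * ((1 - S) / 2)) = g * ((1 - S) / 2) * Kf * 2 by ring, eK]
      simp only [fk, fR, StripEnd.fDen, eA, ev, eS, eU, hx.hd, eKq, ← hbb]
      field_simp
  have hD' : 0 < fD P x (mix s (cE P x false) (cE P x true)) := hCmix ▸ hfD
  obtain ⟨⟨p0, p1⟩, ⟨e0, e1⟩, ⟨k0, k1⟩, ⟨w0, w1⟩, ⟨t0, t1⟩⟩ := models_at hP.toPos h K.wins hs0 hs1 hD'
  rw [← hCmix] at p0 p1 e0 e1 k0 k1 w0 w1 t0 t1
  obtain ⟨r, hr0, hr1, hr⟩ := exists_mix p0 p1
  have W0 : Inside P x (4 * C / S) (fe P x C) (fk P x C) (fw P x C) (ft P x C) := by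
    refine ⟨⟨1 - r, sub_nonneg.2 hr1, by linarith, ?_⟩, by positivity, w0, w1, e0, e1, k0, k1, t0, t1⟩
    simp only [pE, eS, hr, mix]; ring
  have hMne : 1 - 2 * a - d ≠ 0 := by rw [hM']; positivity
  obtain ⟨T, hT⟩ : ∃ T, T = ft P x C := ⟨_, rfl⟩
  obtain ⟨c, hc⟩ : ∃ c, c = kap P x := ⟨_, rfl⟩
  have tM := hatM_eq (v := v) (g := g) (W := W) (W1 := W1) (R := R) (E := E) (K := Kf)
    (G := gHat a d T) (G1 := gHat1 a d T) (c := c) ha0.ne' (hbb ▸ hb0.ne') hd0.ne' hMne
  have tX := hatX_eq (v := v) (g := g) (W := W) (W1 := W1) (R := R) (E := E) (K := Kf)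
    (G := gHat a d T) (G1 := gHat1 a d T) (c := c) ha0.ne' (hbb ▸ hb0.ne') hd0.ne' hMne
  have tT := hatT_eq (v := v) (g := g) (W := W) (W1 := W1) (R := R) (E := E) (K := Kf)
    (G := gHat a d T) (G1 := gHat1 a d T) (c := c) ha0.ne' (hbb ▸ hb0.ne') hd0.ne' hMne
  have tG := hatG_eq (v := v) (g := g) (W := W) (W1 := W1) (R := R) (E := E) (K := Kf)
    (G := gHat a d T) (G1 := gHat1 a d T) (c := c) ha0.ne' (hbb ▸ hb0.ne') hd0.ne' hMne
  have tMG := hatMG_eq (v := v) (g := g) (W := W) (W1 := W1) (R := R) (E := E) (K := Kf)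
    (G := gHat a d T) (G1 := gHat1 a d T) (c := c) ha0.ne' (hbb ▸ hb0.ne') hd0.ne' hMne
  have tA := hatA_eq (v := v) (g := g) (W := W) (W1 := W1) (R := R) (E := E) (K := Kf)
    (G := gHat a d T) (G1 := gHat1 a d T) (c := c) ha0.ne' (hbb ▸ hb0.ne') hd0.ne' hMne
  rw [hT, hc, ← eN, eV] at tM tX tT tG tMG tA
  simp only [← hbb] at tX tT tG tMG tA
  have c1 := inside_1 hP h K.rows W0
  have c2 := inside_2 hP h K.rows W0
  have c3 := inside_3 hP h K.rows W0
  have c4 := inside_4 hP h K.rows W0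
  have cM := inside_MG hP h K.rows W0
  simp only [hM, hX, hG, StripEnd.hT, hA, hMG] at c1 c2 c3 c4 cM
  rw [show vec (xa P x) (P.d.eval x) (xv P x) (4 * C / S) (fe P x C) (fk P x C) (fw P x C)
    (ft P x C) (kap P x) = vAt P x (4 * C / S) (fe P x C) (fk P x C) (fw P x C) (ft P x C)
    from rfl] at c1 c2 c3 c4 cM
  rw [ev, hx.hd] at c2
  obtain ⟨ρ, hρ⟩ : ∃ ρ, ρ = vAt P x (4 * C / S) (fe P x C) (fk P x C) (fw P x C) (ft P x C) :=
    ⟨_, rfl⟩
  rw [← hρ] at tM tX tT tG tMG tA c1 c2 c3 c4 cM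
  have hm : 0 < tplM.eval ρ := by
    rw [hρ, vAt, ← hM, hM_eq, ← neg_mul]
    refine mul_pos (neg_pos.2 (lt_of_le_of_lt W0.e_high ?_)) (by positivity)
    show -((P.en false).eval x / P.f0.eval x) < 0
    rw [neg_lt_zero]
    exact div_pos h.e0 h.f0
  obtain ⟨hγ, harr⟩ := arrow_end (q := 1 + d * v) hP.k2 hP.θ hq hm h.kd c1 c2 c3 c4
  obtain ⟨nu, hnu⟩ : ∃ nu, nu = stripNum a d v W R := ⟨_, rfl⟩
  rw [← hnu] at tM tX tT tG tMG tA
  have hab : 0 < a ^ 3 * b ^ 3 := by positivity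
  have gG : TGGS a d v g W W1 R nu = a ^ 3 * b ^ 3 * tplG.eval ρ / 32 := by linarith
  have gA : TAS a d v g W W1 R nu = a ^ 3 * b ^ 3 * tplA.eval ρ / 8 := by linarith
  have gT : TEGS a d v g W W1 R nu = a ^ 3 * b ^ 3 * tplT.eval ρ / (4 * d) := by
    rw [eq_div_iff (by positivity)]; linarith
  have gM : TMMS a d v g W W1 R nu = (1 + d * v) * tplM.eval ρ / g ^ 2 := by
    rw [eq_div_iff (pow_ne_zero _ hg.ne')]; linarith
  have gX : TMES a d v g W W1 R nu = a * b * tplX.eval ρ / (8 * g) := by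
    rw [eq_div_iff (by positivity)]; linarith
  have hsig : ClosedGen.Signs a d v g W W1 R nu := by
    refine ⟨by rw [gG]; positivity, by rw [gM]; positivity, ?_, ?_, ?_⟩
    · have ec : nu.c = a * b := by rw [hnu, hbb]; rfl
      have e : TArrowS a d v g W W1 R nu = (1 + d * v) * (a ^ 3 * b ^ 3) ^ 2 / (128 * g ^ 2) *
          (2 * tplA.eval ρ * tplM.eval ρ * tplG.eval ρ -
            8 * (1 + d * v) * tplT.eval ρ ^ 2 * tplM.eval ρ - tplX.eval ρ ^ 2 * tplG.eval ρ) := by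
        simp only [TArrowS, gG, gA, gT, gM, gX, ec]
        field_simp
        ring
      rw [e]
      exact mul_pos (by positivity) harr
    · have := mul_nonneg hab.le cM
      linarith
    · have hgg := gap_in hP.toPos h K.wins hs0 hs1 t0 t1
      rw [← hCmix] at hgg
      have el := llg_eq (a := a) (v := v) (g := g) (W := W) (W1 := W1) (R := R) (E := E)
        (K := Kf) (G := gHat a d (ft P x C)) (G1 := gHat1 a d (ft P x C)) (c := kap P x) hd0.ne'
      rw [← eN, ← hnu] at el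
      have hB : P.B.eval x = 2 * b := by rw [eval_B, eA, hx.hd, hbb]
      have hz : 0 < 20 * (2 * b) ^ 2 * P.Dk.eval x * (b * (2 + d * v) * ((1 - S) / 2) / 2) := by
        positivity
      have e : eGap P x C (ft P x C) =
          20 * (2 * b) ^ 2 * P.Dk.eval x * (b * (2 + d * v) * ((1 - S) / 2) / 2) *
            tplL.eval (llgOne a d v g (g * (W * R)) (g * E) (g * Kf) R (gHat a d (ft P x C))
              (kap P x)) := by
        obtain ⟨M, hMd⟩ : ∃ M, M = 20 * (2 * b) ^ 2 * P.Dk.eval x := ⟨_, rfl⟩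
        have i4 : M * (b * (2 + d * v) * ((1 - S) / 2) / 2) * g = M * fD P x C := by
          rw [fD, eA, ev, eS, eU, hx.hd,
            show M * (b * (2 + d * v) * ((1 - S) / 2) / 2) * g =
              M * (b * (2 + d * v) / 2) * (g * ((1 - S) / 2)) by ring, g_eq]
          field_simp
        have i5 : M * (b * (2 + d * v) * ((1 - S) / 2) / 2) * (g * (W * R)) =
            M * (u * C * (2 + d * v)) := by
          rw [show M * (b * (2 + d * v) * ((1 - S) / 2) / 2) * (g * (W * R)) =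
            M * ((2 + d * v) * ((1 - S) / 2) / 2) * R * (b * (g * W)) by ring, W_eq, R_eq]
          field_simp
          ring
        have i6 : M * (b * (2 + d * v) * ((1 - S) / 2) / 2) * (g * E) = -fL P x C := by
          rw [show M * (b * (2 + d * v) * ((1 - S) / 2) / 2) * (g * E) =
            M * (b * (2 + d * v) / 2) * (g * ((1 - S) / 2) * E) by ring, eE, hMd, fL, eA, ev, eS,
            eU, hx.hd, hx.hI]
          field_simp
        have i7 : M * (b * (2 + d * v) * ((1 - S) / 2) / 2) * (g * Kf) =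
            -P.Kq.eval x * fR P x C := by
          rw [show M * (b * (2 + d * v) * ((1 - S) / 2) / 2) * (g * Kf) =
            M * (b * (2 + d * v) / 2) * (g * ((1 - S) / 2) * Kf) by ring, eK, hMd, fR, eA, ev, eS,
            eU, hx.hd, eKq]
          field_simp
        rw [eGap, eA, ev, eS, eU, hx.hd, hx.hI, hB, ← hMd, ← i4, ← i5, ← i6, ← i7, ← R_eq,
          tplL_lin, tplL_lin]
        ring
      rw [e, ← el] at hgg
      exact nonneg_of_mul_nonneg_right (nonneg_of_mul_nonneg_right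
        (nonneg_of_mul_nonneg_right hgg hz) (by norm_num : (0 : ℝ) < 64)) hg
  rw [hnu, hg_def, hW_def, hW1_def, hR_def, ha] at hsig
  exact Strip.ChartSigns.of_arrow hb hv0 (hg_def ▸ hg) hsig

end Vale.Agent.P100.Calib.StripEnd
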