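import Vale.Agent.P100.Calib.SlabStripEndDCert

/-!
# Pieces whose multiplier is above the `MG` entry

For `d ≥ 9/40` and `I / d`, (1 - u) / d small the arrow with the multiplier equal to the `MG` entry
fails. Here the multiplier is that entry plus `D = xn / xd` in the scale of the blocks: `y = yn / yd`
bounds `D ≤ 4 v d y M`, the bound `G ≥ gn / gd` gives `y D ≤ 8 v d q G`, and the ray gap, at least
`hn / hd` times its coefficient, pays for `D`.
-/

set_option linter.unusedVariables false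

namespace Vale.Agent.P100.Calib.StripEndD

open Pack hiding ev_add ev_mul
open Pack.Ex Band StripMid StripEnd ClosedGen Closed

local instance endDShiftAdd : Add Ex := ⟨Ex.add⟩
local instance endDShiftSub : Sub Ex := ⟨Ex.sub⟩
local instance endDShiftMul : Mul Ex := ⟨Ex.mul⟩

/-- The excess of the multiplier and the fraction that bounds it. -/
structure Shift where
  (xn xd yn yd gn gd hn hd ln : Ex)

/-- The numerators and denominators at an end; from `19` on those of the excess. -/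
def subS (P : Piece) (Z : Shift) (V : StripEnd.Vtx) : ℕ → Ex := fun i =>
  match i with
  | 19 => Z.xn
  | 20 => Z.xd
  | 21 => Z.yn
  | 22 => Z.yd
  | 23 => Z.gn
  | 24 => Z.gd
  | 25 => Z.ln
  | i => sub P V i

/-- A condition at an end. -/
def Piece.atS (P : Piece) (Z : Shift) (V : StripEnd.Vtx) (e : Ex) : Ex :=
  csub P.base (subS P Z V) P.vn P.vd e

/-- The denominator of `A` at the numerators. -/
def denA : Ex :=
  pow (var 4) 2 * (pow (var 7) 2 * (var 9 * (var 12 * pow (var 14) 2)))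

/-- `96 A + L ± 128 k2 T - 64 κ² M`, with `L = ln / xd`. -/
def c9 (s : Bool) : Ex :=
  num 96 * var 18 * pow (var 16) 2 * (var 20 * tplA) +
      var 18 * pow (var 16) 2 * (var 25 * denA) +
      num (cond s (128 : ℤ) (-128)) * var 17 * pow (var 16) 2 * var 20 *
        (var 7 * (var 9 * (var 14 * tplT))) -
    num 64 * var 18 * pow (var 15) 2 * var 20 *
      (var 4 * (var 7 * (var 12 * (pow (var 14) 2 * (var 9 * tplM)))))

/-- `4 v d y M - D`. -/
def c7 : Ex :=
  num 4 * var 21 * var 20 * var 1 * var 2 * tplM - var 22 * var 19 * (var 4 * var 7)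

/-- `G - gn / gd`. -/
def c8 : Ex :=
  var 24 * tplG - var 23 * (pow (var 4) 2 * (pow (var 12) 2 * pow (var 14) 2))

/-- The second derivative of `c9` in `p`, up to a positive factor and negated. -/
def curve9 (s : Bool) : Ex :=
  num (-1) * (num 3 * var 18 * coA12 + num (cond s (4 : ℤ) (-4)) * var 17 * coT9)

/-- The ray gap at an end, less what `D` takes. -/
def Piece.gapS (P : Piece) (Z : Shift) (b t : Bool) : Ex :=
  Z.hd * P.gap b t -
    num 5 * pow P.vd 6 * P.I * P.B * P.td * P.cd * P.A * P.S * P.U * P.eDen b * Z.hn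

/-- `8 v d q gn / gd - y D`, cleared. -/
def Piece.s8 (P : Piece) (Z : Shift) : Ex :=
  num 8 * P.vn * P.d * P.qn * Z.gn * Z.yd * Z.xd - Z.yn * Z.xn * Z.gd * pow P.vd 2

/-- (96 D - L) v d q - 8 κ k2 D, cleared. -/
def Piece.s9 (P : Piece) (Z : Shift) : Ex :=
  (num 96 * Z.xn - Z.ln) * P.vn * P.d * P.qn * P.kd * P.k2d -
    num 8 * P.kn * P.k2n * Z.xn * pow P.vd 2

/-- `2 v hn / hd - D`, cleared. -/
def Piece.sg (P : Piece) (Z : Shift) : Ex :=
  num 2 * P.vn * Z.xd * Z.hn - Z.hd * Z.xn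

/-- The checks of a piece with a shifted multiplier at a point. -/
structure ChecksS (P : Piece) (Z : Shift) (x : ℕ → ℝ) : Prop where
  base : Checks0 P x
  v9 : ∀ s, 0 ≤ (P.at ⟨false, false, true, true, false⟩ (curve9 s)).eval x
  h7 : ∀ p l, 0 ≤ (P.atS Z ⟨p, l, true, true, false⟩ c7).eval x
  h8 : ∀ p l t, 0 ≤ (P.atS Z ⟨p, l, true, true, t⟩ c8).eval x
  h9 : ∀ s p l t, 0 ≤ (P.atS Z ⟨p, l, true, true, t⟩ (StripEnd.strict (c9 s))).eval x
  gap : ∀ b t, 0 ≤ (P.gapS Z b t).eval x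
  s8 : 0 ≤ (P.s8 Z).eval x
  s9 : 0 ≤ (P.s9 Z).eval x
  sg : 0 ≤ (P.sg Z).eval x

/-- The signs of the excess. -/
structure PlaceS (Z : Shift) (x : ℕ → ℝ) : Prop where
  xn : 0 ≤ Z.xn.eval x
  xd : 0 < Z.xd.eval x
  yn : 0 < Z.yn.eval x
  yd : 0 < Z.yd.eval x
  gd : 0 < Z.gd.eval x
  hn : 0 ≤ Z.hn.eval x
  hd : 0 < Z.hd.eval x

/-- The numerators at an end. -/
noncomputable def rhoS (P : Piece) (Z : Shift) (V : StripEnd.Vtx) (x : ℕ → ℝ) : ℕ → ℝ :=
  hvec (subS P Z V) P.vn P.vd x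

variable {P : Piece} {Z : Shift} {x : ℕ → ℝ} {p e k w T : ℝ}

theorem quo_atS (h : Place P x) (V : StripEnd.Vtx) {e : Ex}
    (hc : 0 ≤ (P.atS Z V e).eval x) : 0 ≤ e.eval (rhoS P Z V x) :=
  csub_nonneg h.vd (fun i hi => by interval_cases i <;> rfl) hc

theorem rhoS_low (V : StripEnd.Vtx) {i : ℕ} (hi : i < 19) :
    rhoS P Z V x i = rho P V x i := by
  simp only [rhoS, rho, hvec]
  split
  · rfl
  · interval_cases i <;> rfl

theorem posEx_rhoS (h : Place P x) (V : StripEnd.Vtx) : 0 < posEnd.eval (rhoS P Z V x) := by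
  rw [eval_congr (m := 3) (fun i hi => rhoS_low (P := P) (Z := Z) (x := x) V (by omega)) posEnd rfl]
  exact posEx_rho h V

theorem rhoS_den (hP : P.Pos) (h : Place P x) (V : StripEnd.Vtx) : Den (rhoS P Z V x) := by
  have D := rho_den hP h V
  refine ⟨?_, ?_, ?_, ?_, ?_⟩
  · rw [rhoS_low V (i := 4) (by norm_num)]; exact D.h4
  · rw [rhoS_low V (i := 7) (by norm_num)]; exact D.h7
  · rw [rhoS_low V (i := 9) (by norm_num)]; exact D.h9
  · rw [rhoS_low V (i := 12) (by norm_num)]; exact D.h12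
  · rw [rhoS_low V (i := 14) (by norm_num)]; exact D.h14

theorem quo_rhoS (hP : P.Pos) (h : Place P x) (V : StripEnd.Vtx) : quo (rhoS P Z V x) =
    vAt P x (pE P x V.p) (eE P x V.l) (kE P x V.k) (wE P x V.w) (tE P x V.t) := by
  rw [← quo_rho hP h V]
  unfold quo
  simp (disch := norm_num) only [rhoS_low]

/-- The value of `D`. -/
noncomputable def shD (Z : Shift) (x : ℕ → ℝ) : ℝ := Z.xn.eval x / Z.xd.eval x

/-- The value of `y`. -/
noncomputable def shY (Z : Shift) (x : ℕ → ℝ) : ℝ := Z.yn.eval x / Z.yd.eval x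

theorem eDen_pos (hP : P.Pos) (h : Place P x) (b : Bool) : 0 < (P.eDen b).eval x := by
  rw [eval_eDen h]
  have := h.Qd hP b; have := h.vd; have := h.b; have := h.Dk; have := h.d; have := h.v
  unfold StripEndD.fDen
  positivity

theorem end_7 (hP : P.Pos) (h : Place P x) (hz : PlaceS Z x) (C : ChecksS P Z x) (p l : Bool) :
    0 ≤ 4 * Z.yn.eval x * Z.xd.eval x * P.d.eval x * xv P x *
        StripEnd.hM (xa P x) (P.d.eval x) (xv P x) (pE P x p) (eE P x l) (kE P x true)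
          (wE P x true) (tE P x false) (kap P x) -
      Z.yd.eval x * Z.xn.eval x := by
  obtain ⟨V, hV⟩ : ∃ V, V = (⟨p, l, true, true, false⟩ : StripEnd.Vtx) := ⟨_, rfl⟩
  have D := rhoS_den (Z := Z) hP h V
  have hh := quo_atS h V (by rw [hV]; exact C.h7 p l)
  simp only [c7, ev_sub, ev_mul, Ex.eval, tplM_quo D.h4.ne' D.h7.ne', quo_rhoS hP h] at hh
  have h4 := D.h4; have h7 := D.h7
  refine nonneg_of_mul_nonneg_right (a := rhoS P Z V x 4 * rhoS P Z V x 7)
    (hh.trans_eq ?_) (by positivity)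
  subst hV
  simp only [StripEnd.hM, vAt, rhoS, hvec, subS, sub, xv, reduceIte, Nat.reduceEqDiff]
  push_cast
  ring

theorem end_8 (hP : P.Pos) (h : Place P x) (hz : PlaceS Z x) (C : ChecksS P Z x) (p l t : Bool) :
    0 ≤ Z.gd.eval x * StripEnd.hG (xa P x) (P.d.eval x) (xv P x) (pE P x p) (eE P x l)
        (kE P x true) (wE P x true) (tE P x t) (kap P x) - Z.gn.eval x := by
  obtain ⟨V, hV⟩ : ∃ V, V = (⟨p, l, true, true, t⟩ : StripEnd.Vtx) := ⟨_, rfl⟩
  have D := rhoS_den (Z := Z) hP h V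
  have hh := quo_atS h V (by rw [hV]; exact C.h8 p l t)
  simp only [c8, ev_sub, ev_mul, ev_pow, Ex.eval,
    tplG_quo D.h4.ne' D.h12.ne' D.h14.ne', quo_rhoS hP h] at hh
  have h4 := D.h4; have h12 := D.h12; have h14 := D.h14
  refine nonneg_of_mul_nonneg_right
    (a := rhoS P Z V x 4 ^ 2 * rhoS P Z V x 12 ^ 2 * rhoS P Z V x 14 ^ 2)
    (hh.trans_eq ?_) (by positivity)
  subst hV
  simp only [StripEnd.hG, vAt, rhoS, hvec, subS, sub, xv, reduceIte, Nat.reduceEqDiff]
  push_cast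
  ring

theorem end_9 (hP : P.Pos) (h : Place P x) (C : ChecksS P Z x) (s p l t : Bool) :
    0 < 96 * P.k2d.eval x * P.kd.eval x ^ 2 * (Z.xd.eval x * hA (xa P x) (P.d.eval x) (xv P x)
            (pE P x p) (eE P x l) (kE P x true) (wE P x true) (tE P x t) (kap P x)) +
        P.k2d.eval x * P.kd.eval x ^ 2 * Z.ln.eval x +
        128 * sgn s * P.k2n.eval x * P.kd.eval x ^ 2 * Z.xd.eval x *
          StripEnd.hT (xa P x) (P.d.eval x) (xv P x) (pE P x p) (eE P x l) (kE P x true)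
            (wE P x true) (tE P x t) (kap P x) -
        64 * P.k2d.eval x * P.kn.eval x ^ 2 * Z.xd.eval x *
          StripEnd.hM (xa P x) (P.d.eval x) (xv P x) (pE P x p) (eE P x l) (kE P x true)
            (wE P x true) (tE P x t) (kap P x) := by
  obtain ⟨V, hV⟩ : ∃ V, V = (⟨p, l, true, true, t⟩ : StripEnd.Vtx) := ⟨_, rfl⟩
  have D := rhoS_den (Z := Z) hP h V
  have hh := strict_pos (posEx_rhoS h V) (quo_atS h V (by rw [hV]; exact C.h9 s p l t))
  simp only [c9, denA, ev_add, ev_sub, ev_mul, ev_pow, Ex.eval,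
    tplA_quo D.h4.ne' D.h7.ne' D.h9.ne' D.h12.ne' D.h14.ne',
    tplT_quo D.h4.ne' D.h7.ne' D.h12.ne' D.h14.ne', tplM_quo D.h4.ne' D.h7.ne',
    quo_rhoS hP h] at hh
  have h4 := D.h4; have h7 := D.h7; have h9 := D.h9; have h12 := D.h12; have h14 := D.h14
  refine pos_of_mul_pos_right (a := rhoS P Z V x 4 ^ 2 * (rhoS P Z V x 7 ^ 2 *
    (rhoS P Z V x 9 * (rhoS P Z V x 12 * rhoS P Z V x 14 ^ 2)))) (hh.trans_eq ?_) (by positivity)
  subst hV
  simp only [hA, StripEnd.hT, StripEnd.hM, vAt, rhoS, hvec, subS, sub, xv, reduceIte,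
    Nat.reduceEqDiff]
  cases s <;> simp only [sgn, cond_true, cond_false] <;> push_cast <;> ring

end Vale.Agent.P100.Calib.StripEndD
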