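import Vale.Agent.P100.Calib.SlabStripEndDShiftPoint

/-!
# The checks of a piece with a shifted multiplier and the signs at a point of its chart
-/

set_option linter.unusedVariables false

namespace Vale.Agent.P100.Calib.StripEndD

open Pack hiding ev_add ev_mul
open Pack.Ex Band StripMid StripEnd

local instance endDShiftCertAdd : Add Ex := ⟨Ex.add⟩
local instance endDShiftCertSub : Sub Ex := ⟨Ex.sub⟩
local instance endDShiftCertMul : Mul Ex := ⟨Ex.mul⟩

/-- All checks of a piece with a shifted multiplier on its ranges. -/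
structure CertS (P : Piece) (Z : Shift) (B : StripEnd.EBox) : Prop where
  pos : P.Pos
  low : 0 ≤ B.q₀.1 ∧ 0 ≤ B.q₁.1 ∧ 0 ≤ B.q₂.1
  kn : Chk B.C P.kn
  sgns : ∀ f, Chk B.C (strictVar (P.posF f))
  k2n : Chk B.C (strictVar P.k2n)
  k2d : Chk B.C (strictVar P.k2d)
  vs : Chk B.C (strictVar P.vs)
  xn : Chk B.C Z.xn
  xd : Chk B.C (strictVar Z.xd)
  yn : Chk B.C (strictVar Z.yn)
  yd : Chk B.C (strictVar Z.yd)
  gd : Chk B.C (strictVar Z.gd)
  hn : Chk B.C Z.hn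
  hd : Chk B.C (strictVar Z.hd)
  s8 : Chk B.C (P.s8 Z)
  s9 : Chk B.C (P.s9 Z)
  sg : Chk B.C (P.sg Z)
  g1 : ∀ s p l, Chk B.C (P.at ⟨p, l, !s, !s, false⟩ (c1 s))
  g2 : ∀ s p l t, Chk B.C (P.at ⟨p, l, true, true, t⟩ (StripEnd.strict (c2 s)))
  g7 : ∀ p l, Chk B.C (P.atS Z ⟨p, l, true, true, false⟩ c7)
  g8 : ∀ p l t, Chk B.C (P.atS Z ⟨p, l, true, true, t⟩ c8)
  g9 : ∀ s p l t, Chk B.C (P.atS Z ⟨p, l, true, true, t⟩ (StripEnd.strict (c9 s)))
  gMG : ∀ p l t, Chk B.C (P.at ⟨p, l, true, false, t⟩ tplMG)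
  v2 : ∀ s, Chk B.C (P.at ⟨false, false, true, true, false⟩ (curve2 s))
  v5 : ∀ s, Chk B.C (P.at ⟨false, false, true, true, false⟩ (curve5 s))
  v9 : ∀ s, Chk B.C (P.at ⟨false, false, true, true, false⟩ (curve9 s))
  vMG : Chk B.C (P.at ⟨false, false, true, true, false⟩ Piece.curveMG)
  wP : ∀ b hi, Chk B.C (P.winP b hi)
  wE : ∀ b hi, Chk B.C (P.winE b hi)
  wK : ∀ b hi, Chk B.C (P.winK b hi)
  wW : ∀ b, Chk B.C (P.winW b)
  wY : ∀ b, Chk B.C (P.winY b)
  wT : ∀ b hi, Chk B.C (P.winT b hi)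
  gapS : ∀ b t, Chk B.C (P.gapS Z b t)

variable {P : Piece} {Z : Shift} {B : StripEnd.EBox} {x : ℕ → ℝ}

theorem CertS.place (K : CertS P Z B) (h : B.Mem x)
    (hvo : P.A.eval x * P.vn.eval x = 2 * (P.vs.eval x * P.o.eval x)) :
    Place P x ∧ PlaceS Z x := by
  have hx : 0 < x 0 * (x 1 * x 2) := mul_pos (lower_pos K.low.1 h.h0)
    (mul_pos (lower_pos K.low.2.1 h.h1) (lower_pos K.low.2.2 h.h2))
  have hh : ∀ f, 0 < (P.posF f).eval x := fun f =>
    strictVar_pos hx ((K.sgns f).nonneg h.at_pt)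
  exact ⟨⟨hh .I, hh .d, hh .A, hh .S, hh .U, hh .den, hh .o,
    sub_pos.1 (hh .olt), hh .pd, hh .e0, hh .f0, hh .wd, hh .td, hh .cd, K.kn.nonneg h.at_pt,
    hh .kd, strictVar_pos hx (K.k2n.nonneg h.at_pt), strictVar_pos hx (K.k2d.nonneg h.at_pt),
    strictVar_pos hx (K.vs.nonneg h.at_pt), hvo⟩,
    ⟨K.xn.nonneg h.at_pt, strictVar_pos hx (K.xd.nonneg h.at_pt),
      strictVar_pos hx (K.yn.nonneg h.at_pt), strictVar_pos hx (K.yd.nonneg h.at_pt),
      strictVar_pos hx (K.gd.nonneg h.at_pt), K.hn.nonneg h.at_pt,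
      strictVar_pos hx (K.hd.nonneg h.at_pt)⟩⟩

/-- The plain gap follows from the gap less what the shift takes. -/
theorem gap_of_gapS (hP : P.Pos) (h : Place P x) (hz : PlaceS Z x) {b t : Bool}
    (hg : 0 ≤ (P.gapS Z b t).eval x) : 0 ≤ (P.gap b t).eval x := by
  have hb := eDen_pos hP h b
  simp only [Piece.gapS, ev_sub, ev_mul, ev_pow, ev_num] at hg
  push_cast at hg
  have := h.vd; have := h.I; have := h.B; have := h.td; have := h.cd; have := h.A; have := h.S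
  have := h.U; have := hz.hn
  refine nonneg_of_mul_nonneg_right (a := Z.hd.eval x) ?_ hz.hd
  have : 0 ≤ 5 * P.vd.eval x ^ 6 * P.I.eval x * P.B.eval x * P.td.eval x * P.cd.eval x *
      P.A.eval x * P.S.eval x * P.U.eval x * (P.eDen b).eval x * Z.hn.eval x := by positivity
  linarith

theorem CertS.all (K : CertS P Z B) (hP : P.Pos) (h : B.Mem x) (hp : Place P x)
    (hz : PlaceS Z x) : ChecksS P Z x ∧ Windows P x :=
  ⟨⟨⟨fun s p l => (K.g1 s p l).nonneg h.at_pt, fun s p l t => (K.g2 s p l t).nonneg h.at_pt,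
      fun p l t => (K.gMG p l t).nonneg h.at_pt, fun s => (K.v2 s).nonneg h.at_pt,
      fun s => (K.v5 s).nonneg h.at_pt, K.vMG.nonneg h.at_pt⟩,
    fun s => (K.v9 s).nonneg h.at_pt, fun p l => (K.g7 p l).nonneg h.at_pt,
    fun p l t => (K.g8 p l t).nonneg h.at_pt, fun s p l t => (K.g9 s p l t).nonneg h.at_pt,
    fun b t => (K.gapS b t).nonneg h.at_pt, K.s8.nonneg h.at_pt, K.s9.nonneg h.at_pt,
    K.sg.nonneg h.at_pt⟩,
   ⟨fun b hi => (K.wP b hi).nonneg h.at_pt, fun b hi => (K.wE b hi).nonneg h.at_pt,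
    fun b hi => (K.wK b hi).nonneg h.at_pt, fun b => (K.wW b).nonneg h.at_pt,
    fun b => (K.wY b).nonneg h.at_pt, fun b hi => (K.wT b hi).nonneg h.at_pt,
    fun b t => gap_of_gapS hP hp hz ((K.gapS b t).nonneg h.at_pt)⟩⟩

variable {c : EndChart} {n : ℕ} {a b u v t H : ℝ}

/-- **The signs at a point of a chart from the checks of a shifted piece over it.** -/
theorem signs_of_certS (K : CertS P Z B) (hB : B.Mem x) (hc : P.Over c)
    (hx : c.Point x a b u v H) (hb : Closed.All.ChartBox n (b - a) (a + b))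
    (hF : Closed.All.ChartFacts (b - a) (a + b) u v t)
    (hH : Closed.chH (b - a) (a + b) u v t = H)
    (hk : (AllN.kapAll (1 / P.I.eval x) (xa P x) + 1) / P.d.eval x = kap P x) :
    Closed.Strip.ChartSigns (b - a) (a + b) u v t := by
  obtain ⟨h, hz⟩ := K.place hB (hc.vo x)
  obtain ⟨hC, hW⟩ := K.all K.pos hB h hz
  obtain ⟨hp, hd, hw, hpin⟩ := over_point h hc hx hH
  exact signs_shift K.pos h hz hb hF hp (hd ▸ hk) hpin hW hC

end Vale.Agent.P100.Calib.StripEndD
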