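import Vale.Agent.P100.Calib.SlabStripEndDShift

/-!
# The signs of a piece with a shifted multiplier at a point of its chart
-/

set_option linter.unusedVariables false

namespace Vale.Agent.P100.Calib.StripEndD

open Pack hiding ev_add ev_mul
open Pack.Ex Band StripMid StripEnd ClosedGen Closed

local instance endDShiftPointAdd : Add Ex := ⟨Ex.add⟩
local instance endDShiftPointSub : Sub Ex := ⟨Ex.sub⟩
local instance endDShiftPointMul : Mul Ex := ⟨Ex.mul⟩

variable {P : Piece} {Z : Shift} {x : ℕ → ℝ} {p e k w T : ℝ}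

/-- `D ≤ 4 v d y M`. -/
theorem inside_7 (hP : P.Pos) (h : Place P x) (hz : PlaceS Z x) (C : ChecksS P Z x)
    (W : Inside P x p e k w T) :
    0 ≤ 4 * Z.yn.eval x * Z.xd.eval x * P.d.eval x * xv P x *
        StripEnd.hM (xa P x) (P.d.eval x) (xv P x) p e k w T (kap P x) -
      Z.yd.eval x * Z.xn.eval x := by
  obtain ⟨r, hr0, hr1, hp⟩ := W.mu
  obtain ⟨q, hq0, hq1, hq⟩ := exists_mix W.e_low W.e_high
  rw [hM_indep (T' := tE P x false),
    hM_kw (k' := kE P x true) (w' := mix r (wE P x true) (wE P x true)), hp, hM_p, hq]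
  simp only [hM_e]
  have := mix_nonneg (mix_nonneg (end_7 hP h hz C false true) (end_7 hP h hz C false false) hq0 hq1)
    (mix_nonneg (end_7 hP h hz C true true) (end_7 hP h hz C true false) hq0 hq1) hr0 hr1
  unfold mix at *
  linarith

/-- `G ≥ gn / gd`. -/
theorem inside_8 (hP : P.Pos) (h : Place P x) (hz : PlaceS Z x) (C : ChecksS P Z x)
    (W : Inside P x p e k w T) :
    0 ≤ Z.gd.eval x * StripEnd.hG (xa P x) (P.d.eval x) (xv P x) p e k w T (kap P x) -
      Z.gn.eval x := by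
  obtain ⟨r, hr0, hr1, hp⟩ := W.mu
  obtain ⟨q, hq0, hq1, hq⟩ := exists_mix W.e_low W.e_high
  obtain ⟨t, ht0, ht1, ht⟩ := exists_mix W.t_low W.t_high
  obtain ⟨g2, -, -⟩ := curve_le hP h C.base
  have hf : (0 : ℝ) ≤ Z.gd.eval x := hz.gd.le
  have hG10 : coG10.eval (StripMid.base (xa P x) (P.d.eval x) (xv P x)) ≤ 0 := by
    have a := g2 false
    have b := g2 true
    simp only [sgn, cond_true, cond_false] at a b
    exact nonpos_of_mul_nonpos_right (show P.k2n.eval x * coG10.eval _ ≤ 0 by linarith) h.k2n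
  have hG6 := coef_G_t_le h.a.le h.d.le h.v.le
  rw [hG_kw (k' := kE P x true) (w' := mix r (wE P x true) (wE P x true)), hp, hG_p, hq]
  simp only [hG_e]
  rw [ht]
  simp only [hG_T]
  have hh := fun p l => secant_nonneg (end_8 hP h hz C p l false) (end_8 hP h hz C p l true)
    (mul_nonpos_of_nonneg_of_nonpos hf hG6)
    (show (0 : ℝ) ≤ (tE P x true - tE P x false) ^ 2 *
      (1 / 10 / (xa P x + P.d.eval x) ^ 2) ^ 2 by positivity) ht0 ht1
  have := secant_nonneg (mix_nonneg (hh false true) (hh false false) hq0 hq1)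
    (mix_nonneg (hh true true) (hh true false) hq0 hq1) (mul_nonpos_of_nonneg_of_nonpos hf hG10)
    (sq_nonneg (pE P x true - pE P x false)) hr0 hr1
  unfold mix at *
  linarith

theorem curve9_le (hP : P.Pos) (h : Place P x) (C : ChecksS P Z x) (s : Bool) :
    3 * P.k2d.eval x * coA12.eval (StripMid.base (xa P x) (P.d.eval x) (xv P x)) +
      4 * sgn s * P.k2n.eval x *
        coT9.eval (StripMid.base (xa P x) (P.d.eval x) (xv P x)) ≤ 0 := by
  obtain ⟨V, hV⟩ : ∃ V, V = (⟨false, false, true, true, false⟩ : StripEnd.Vtx) := ⟨_, rfl⟩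
  have hh := quo_at hP h V (by rw [hV]; exact C.v9 s)
  simp only [curve9, ev_add, ev_mul, Ex.eval, coef_at h _ (e := coA12) rfl,
    coef_at h _ (e := coT9) rfl] at hh
  subst hV
  simp only [rho, hvec, sub, reduceIte, Nat.reduceEqDiff] at hh
  cases s <;> simp only [sgn, cond_true, cond_false] at hh ⊢ <;> push_cast at hh <;> linarith

/-- `96 A + L ± 128 k2 T - 64 κ² M`. -/
theorem inside_9 (hP : P.Pos) (h : Place P x) (hz : PlaceS Z x) (C : ChecksS P Z x)
    (W : Inside P x p e k w T) (s : Bool) :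
    0 < 96 * P.k2d.eval x * P.kd.eval x ^ 2 * (Z.xd.eval x *
            hA (xa P x) (P.d.eval x) (xv P x) p e k w T (kap P x)) +
        P.k2d.eval x * P.kd.eval x ^ 2 * Z.ln.eval x +
        128 * sgn s * P.k2n.eval x * P.kd.eval x ^ 2 * Z.xd.eval x *
          StripEnd.hT (xa P x) (P.d.eval x) (xv P x) p e k w T (kap P x) -
        64 * P.k2d.eval x * P.kn.eval x ^ 2 * Z.xd.eval x *
          StripEnd.hM (xa P x) (P.d.eval x) (xv P x) p e k w T (kap P x) := by
  obtain ⟨r, hr0, hr1, hp⟩ := W.mu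
  obtain ⟨q, hq0, hq1, hq⟩ := exists_mix W.e_low W.e_high
  obtain ⟨t, ht0, ht1, ht⟩ := exists_mix W.t_low W.t_high
  have hA7 := coef_A_e_le h.a.le h.d.le h.v.le
  have hd := h.d
  have hv := h.v
  have hf : (0 : ℝ) ≤ Z.xd.eval x * P.kd.eval x ^ 2 := by
    have := hz.xd; positivity
  have hfA : (0 : ℝ) ≤ 96 * P.k2d.eval x * P.kd.eval x ^ 2 * Z.xd.eval x := by
    have := h.k2d; have := hz.xd; positivity
  rw [hA_kw (k' := kE P x true) (w' := mix r (wE P x true) (wE P x true)),
    hT_kw (k' := kE P x true) (w' := mix r (wE P x true) (wE P x true)),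
    hM_kw (k' := kE P x true) (w' := mix r (wE P x true) (wE P x true)), coef_A_k, coef_A_w]
  have s1 : 0 ≤ 96 * P.k2d.eval x * P.kd.eval x ^ 2 * Z.xd.eval x * (128 * xv P x *
      (1 + P.d.eval x * xv P x) * (2 + P.d.eval x * xv P x) *
      -(2 * xv P x * (k - kE P x true) +
        (1 + P.d.eval x + 2 * xa P x) * (w - wE P x true))) :=
    mul_nonneg hfA (mul_nonneg (by positivity) (neg_nonneg.2 W.y_high))
  rw [hp, hA_p, hT_p, hM_p, hq]
  simp only [hA_e, hT_e, hM_e]
  rw [ht]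
  simp only [hA_T, hT_T, hM_T]
  have hh := fun p l => secant_pos (end_9 hP h C s p l false) (end_9 hP h C s p l true)
    le_rfl le_rfl ht0 ht1
  have he := fun p => secant_pos (hh p true) (hh p false)
    (mul_nonpos_of_nonneg_of_nonpos hfA hA7)
    (show (0 : ℝ) ≤ (eE P x false - eE P x true) ^ 2 from sq_nonneg _) hq0 hq1
  have g := mul_nonpos_of_nonneg_of_nonpos
    (mul_nonneg (show (0 : ℝ) ≤ 32 by norm_num) hf) (curve9_le hP h C s)
  have := secant_pos (he false) (he true) g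
    (show (0 : ℝ) ≤ (pE P x true - pE P x false) ^ 2 from sq_nonneg _) hr0 hr1
  unfold mix at *
  linarith

/-- The ray gap inside, less what `D` takes. -/
theorem gapS_in (hP : P.Pos) (h : Place P x) (hz : PlaceS Z x) (C : ChecksS P Z x) {s : ℝ}
    (h0 : 0 ≤ s) (h1 : s ≤ 1) (hT : tE P x false ≤ T) (hT' : T ≤ tE P x true) :
    0 ≤ xv P x * Z.xd.eval x * eGap P x (mix s (cE P x false) (cE P x true)) T -
      xa P x * P.S.eval x * P.U.eval x * fDen P x * Z.xn.eval x := by
  have g : ∀ b t, 0 ≤ xv P x * Z.xd.eval x * eGap P x (cE P x b) (tE P x t) -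
      xa P x * P.S.eval x * P.U.eval x * fDen P x * Z.xn.eval x := by
    intro b t
    have hc := C.gap b t
    have hsg := C.sg
    have hQ := h.Qd hP b
    have := h.I; have := h.B; have := h.td; have := h.cd; have := h.vd
    have := h.A; have := h.S; have := h.U; have := hz.xn; have := h.vn_pos; have := hz.xd
    have hb := eDen_pos hP h b
    simp only [Piece.gapS, Piece.sg, ev_sub, ev_mul, ev_pow, ev_num] at hc hsg
    push_cast at hc hsg
    have hc' : 0 ≤ 5 * P.vd.eval x ^ 6 * P.I.eval x * P.B.eval x * P.td.eval x * P.cd.eval x *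
      P.A.eval x * P.S.eval x * P.U.eval x * (P.eDen b).eval x := by positivity
    have hg : 0 ≤ 2 * (P.gap b t).eval x * P.vn.eval x * Z.xd.eval x -
        5 * P.vd.eval x ^ 6 * P.I.eval x * P.B.eval x * P.td.eval x * P.cd.eval x *
          P.A.eval x * P.S.eval x * P.U.eval x * (P.eDen b).eval x * Z.xn.eval x := by
      refine nonneg_of_mul_nonneg_right (a := Z.hd.eval x) ?_ hz.hd
      linarith [mul_nonneg hc (show 0 ≤ 2 * P.vn.eval x * Z.xd.eval x by positivity),
        mul_nonneg hsg hc']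
    refine nonneg_of_mul_nonneg_right (a := 40 * P.vd.eval x ^ 7 * (P.Qd b).eval x * P.I.eval x *
      P.B.eval x * P.td.eval x * P.cd.eval x) (hg.trans_eq ?_) (by positivity)
    simp only [eval_gap hP h, eval_eDen h, eval_vn h, eval_A]
    push_cast
    ring
  obtain ⟨r, hr0, hr1, rfl⟩ := exists_mix hT hT'
  have eC : ∀ T, eGap P x (mix s (cE P x false) (cE P x true)) T =
      mix s (eGap P x (cE P x false) T) (eGap P x (cE P x true) T) := fun T => by
    simp only [eGap, tplL_lin, mix, fD, fL, fR, wD, wL, wR]; ring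
  have eT : ∀ C, eGap P x C (mix r (tE P x false) (tE P x true)) =
      mix r (eGap P x C (tE P x false)) (eGap P x C (tE P x true)) := fun C => by
    simp only [eGap, tplL_lin, mix, gHat]; ring
  rw [eC, eT, eT]
  have := mix_nonneg (mix_nonneg (g false false) (g false true) hr0 hr1)
    (mix_nonneg (g true false) (g true true) hr0 hr1) h0 h1
  unfold mix at *
  linarith

/-- The determinant with the multiplier `MG + D`. -/
theorem det_shift {v d q A M G T X D y κ k2 : ℝ} (hv : 0 < v) (hd : 0 < d) (hq : 0 < q)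
    (hM : 0 < M) (hG : 0 < G) (hD : 0 ≤ D) (hy : 0 < y) (hκ : 0 ≤ κ) (hk : 0 < k2)
    (hX : |X| ≤ κ * M) (hT : 4 * q * |T| ≤ k2 * G) (h7 : D ≤ 4 * v * d * y * M)
    (h8 : y * D ≤ 8 * v * d * q * G)
    (h9 : 0 < v * d * q * (96 * (A + D) - 128 * k2 * |T| - 64 * κ ^ 2 * M) - 8 * κ * k2 * D) :
    0 < G * (A + D) - 4 * q * T ^ 2 ∧
    0 < 64 * v ^ 2 * d ^ 2 * q * (2 * (A + D) * M * G - 8 * q * M * T ^ 2 - X ^ 2 * G) -
      32 * v * q * d * X * T * D - (A + D) * D ^ 2 := by
  have hb : 0 < 96 * (A + D) - 128 * k2 * |T| - 64 * κ ^ 2 * M := by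
    refine pos_of_mul_pos_right (a := v * d * q) ?_ (by positivity)
    linarith [mul_nonneg (mul_nonneg hκ hk.le) hD]
  have hT0 := abs_nonneg T
  have hkT : 0 ≤ k2 * |T| := mul_nonneg hk.le hT0
  have hA : k2 * |T| < A + D := by linarith [mul_nonneg (sq_nonneg κ) hM.le]
  have hTT : 4 * q * T ^ 2 ≤ k2 * |T| * G := by
    rw [← sq_abs T]
    calc 4 * q * |T| ^ 2 = 4 * q * |T| * |T| := by ring
      _ ≤ k2 * G * |T| := mul_le_mul_of_nonneg_right hT hT0
      _ = _ := by ring
  refine ⟨by linarith [mul_lt_mul_of_pos_right hA hG], ?_⟩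
  have hXX : X ^ 2 ≤ κ ^ 2 * M ^ 2 := by
    rw [← sq_abs X, ← mul_pow]
    exact pow_le_pow_left₀ (abs_nonneg X) hX 2
  have hDD : D ^ 2 ≤ 32 * v ^ 2 * d ^ 2 * q * M * G := by
    refine le_of_mul_le_mul_left (a := y) ?_ hy
    have := mul_le_mul h7 h8 (mul_nonneg hy.le hD) (by positivity)
    linarith
  have hXT : X * T * (4 * q) ≤ κ * M * (k2 * G) := by
    calc X * T * (4 * q) ≤ |X * T * (4 * q)| := le_abs_self _
      _ = |X| * (4 * q * |T|) := by rw [abs_mul, abs_mul, abs_of_pos (by linarith : 0 < 4 * q)]; ring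
      _ ≤ _ := mul_le_mul hX hT (by positivity) (by positivity)
  have hA0 : 0 ≤ A + D := by linarith
  have e1 := mul_le_mul_of_nonneg_left hDD hA0
  have e2 := mul_le_mul_of_nonneg_left hXT (show 0 ≤ 8 * v * d * D by positivity)
  have e3 := mul_le_mul_of_nonneg_left hTT (show 0 ≤ 128 * v ^ 2 * d ^ 2 * q * M by positivity)
  have e4 := mul_le_mul_of_nonneg_left hXX (show 0 ≤ 64 * v ^ 2 * d ^ 2 * q * G by positivity)
  have e5 := mul_pos h9 (mul_pos (mul_pos hv hd) (mul_pos hM hG))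
  linarith

variable {d S u v t : ℝ} {n : ℕ}

/-- **The closed signs of a piece with a shifted multiplier at a point of the chart.** -/
theorem signs_shift (hP : P.Pos) (h : Place P x) (hz : PlaceS Z x) (hb : All.ChartBox n d S)
    (hF : All.ChartFacts d S u v t) (hx : Places P x d S u v)
    (hk : (AllN.kapAll (1 / P.I.eval x) (xa P x) + 1) / d = kap P x)
    (hpin : ∃ m : ℝ, fr P.mu.lo ≤ m ∧ m ≤ fr P.mu.hi ∧ StripEnd.chC d S u v t * P.qn.eval x =
      P.vs.eval x * (P.den.eval x - P.o.eval x - m * P.o.eval x * P.w.eval x))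
    (Kw : Windows P x) (K : ChecksS P Z x) : Strip.ChartSigns d S u v t := by
  obtain ⟨ev, C, F⟩ := point_forms hP h hb hF hx hk hpin Kw
  obtain ⟨ρ, hρ⟩ : ∃ ρ, ρ = rhoC P x C := ⟨_, rfl⟩
  obtain ⟨s, hs0, hs1, hCmix⟩ := F.mem
  have hd : P.d.eval x = d := hx.hd
  have hd0 : 0 < d := hb.pos
  have hv0 : 0 < v := ev ▸ h.v
  have ha0 := h.a
  have hb0 : 0 < xa P x + d := by linarith
  have hq : 0 < 1 + d * v := by positivity
  have hkd := h.kd
  have hk2d := h.k2d
  have hxd := hz.xd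
  have hyd := hz.yd
  have hM : 0 < tplM.eval ρ := hρ ▸ F.hm
  have cM : 0 ≤ tplMG.eval ρ := by rw [hρ]; exact inside_MG hP h K.base F.w0
  have c1 : ∀ s, 0 ≤ P.kn.eval x * tplM.eval ρ + P.kd.eval x * (sgn s * tplX.eval ρ) :=
    fun s => by rw [hρ]; exact inside_1 hP h K.base F.w0 s
  have c2 : ∀ s, 0 < P.k2n.eval x * tplG.eval ρ +
      4 * sgn s * P.k2d.eval x * (1 + d * v) * tplT.eval ρ :=
    fun s => by rw [hρ, ← hd, ← ev]; exact inside_2 hP h K.base F.w0 s
  have hG : 0 < tplG.eval ρ := by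
    have a := c2 false; have b := c2 true
    simp only [sgn, cond_true, cond_false] at a b
    exact pos_of_mul_pos_right (show 0 < P.k2n.eval x * tplG.eval ρ by linarith) h.k2n.le
  have hD : 0 ≤ shD Z x := div_nonneg hz.xn hxd.le
  have h7 : shD Z x ≤ 4 * v * d * shY Z x * tplM.eval ρ := by
    have c : 0 ≤ 4 * Z.yn.eval x * Z.xd.eval x * d * v * tplM.eval ρ -
        Z.yd.eval x * Z.xn.eval x := by
      rw [hρ, ← hd, ← ev]; exact inside_7 hP h hz K F.w0
    rw [shD, shY, div_le_iff₀ hxd]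
    refine le_of_mul_le_mul_left (a := Z.yd.eval x) ?_ hyd
    field_simp
    linarith
  have hq8 := eval_qn h
  have hn8 := eval_vn h
  have hvd := h.vd
  have h8 : shY Z x * shD Z x ≤ 8 * v * d * (1 + d * v) * tplG.eval ρ := by
    have c : 0 ≤ Z.gd.eval x * tplG.eval ρ - Z.gn.eval x := by
      rw [hρ]; exact inside_8 hP h hz K F.w0
    have s8 := K.s8
    simp only [Piece.s8, ev_sub, ev_mul, ev_pow, ev_num, hq8, hn8, hd, ev] at s8
    push_cast at s8
    rw [shD, shY, div_mul_div_comm, div_le_iff₀ (by positivity)]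
    have s8' : 0 ≤ 8 * v * d * (1 + d * v) * Z.gn.eval x * Z.yd.eval x * Z.xd.eval x -
        Z.yn.eval x * Z.xn.eval x * Z.gd.eval x := by
      refine nonneg_of_mul_nonneg_right (a := P.vd.eval x ^ 2) (s8.trans_eq ?_) (by positivity)
      ring
    refine le_of_mul_le_mul_left (a := Z.gd.eval x) ?_ hz.gd
    linarith [mul_nonneg c (show 0 ≤ 8 * v * d * (1 + d * v) * Z.yd.eval x * Z.xd.eval x by
      positivity)]
  have hX : |tplX.eval ρ| ≤ P.kn.eval x / P.kd.eval x * tplM.eval ρ := by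
    have a := c1 false; have b := c1 true
    simp only [sgn, cond_true, cond_false] at a b
    rw [div_mul_eq_mul_div, le_div_iff₀ hkd]
    rcases abs_cases (tplX.eval ρ) with ⟨e, -⟩ | ⟨e, -⟩ <;> rw [e] <;> linarith
  have hT : 4 * (1 + d * v) * |tplT.eval ρ| ≤
      P.k2n.eval x / P.k2d.eval x * tplG.eval ρ := by
    have a := c2 false; have b := c2 true
    simp only [sgn, cond_true, cond_false] at a b
    rw [div_mul_eq_mul_div, le_div_iff₀ hk2d]
    rcases abs_cases (tplT.eval ρ) with ⟨e, -⟩ | ⟨e, -⟩ <;> rw [e] <;> linarith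
  have h9 : 0 < v * d * (1 + d * v) * (96 * (tplA.eval ρ + shD Z x) -
      128 * (P.k2n.eval x / P.k2d.eval x) * |tplT.eval ρ| -
      64 * (P.kn.eval x / P.kd.eval x) ^ 2 * tplM.eval ρ) -
      8 * (P.kn.eval x / P.kd.eval x) * (P.k2n.eval x / P.k2d.eval x) * shD Z x := by
    have c : ∀ s, 0 < 96 * P.k2d.eval x * P.kd.eval x ^ 2 * (Z.xd.eval x * tplA.eval ρ) +
        P.k2d.eval x * P.kd.eval x ^ 2 * Z.ln.eval x +
        128 * sgn s * P.k2n.eval x * P.kd.eval x ^ 2 * Z.xd.eval x * tplT.eval ρ -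
        64 * P.k2d.eval x * P.kn.eval x ^ 2 * Z.xd.eval x * tplM.eval ρ :=
      fun s => by rw [hρ]; exact inside_9 hP h hz K F.w0 s
    have a := c false; have b := c true
    simp only [sgn, cond_true, cond_false] at a b
    have s9 := K.s9
    simp only [Piece.s9, ev_sub, ev_mul, ev_pow, ev_num, hq8, hn8, hd, ev] at s9
    push_cast at s9
    have s9' : 0 ≤ (96 * Z.xn.eval x - Z.ln.eval x) *
          (v * d * (1 + d * v) * P.kd.eval x * P.k2d.eval x) -
        8 * P.kn.eval x * P.k2n.eval x * Z.xn.eval x := by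
      refine nonneg_of_mul_nonneg_right (a := P.vd.eval x ^ 2) (s9.trans_eq ?_) (by positivity)
      ring
    have e9 := mul_nonneg s9' hkd.le
    refine pos_of_mul_pos_right (a := P.k2d.eval x * P.kd.eval x ^ 2 * Z.xd.eval x) ?_
      (by positivity)
    simp only [shD]
    field_simp
    have hvq : 0 < v * d * (1 + d * v) := by positivity
    rcases abs_cases (tplT.eval ρ) with ⟨e, -⟩ | ⟨e, -⟩ <;> rw [e] <;>
      linarith [mul_pos hvq a, mul_pos hvq b]
  obtain ⟨h2, hdet⟩ := det_shift hv0 hd0 hq hM hG hD (div_pos hz.yn hyd)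
    (div_nonneg h.kn hkd.le) (div_pos h.k2n hk2d) hX hT h7 h8 h9
  have ea : (S - d) / 2 = xa P x := by
    have := eval_A' (P := P) (x := x)
    rw [hd, hx.hI] at this
    linarith
  have gG := F.gG
  have gA := F.gA
  have gT := F.gT
  have gM := F.gM
  have gX := F.gX
  have gMG := F.gMG
  rw [← hρ] at gG gA gT gM gX gMG
  have hg := F.hg
  have hab : 0 < (xa P x) ^ 3 * (xa P x + d) ^ 3 := by positivity
  have ec : (stripNum (xa P x) d v (chW d S u v t) (chR S u)).c = xa P x * (xa P x + d) := rfl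
  unfold Strip.ChartSigns
  rw [ea]
  refine ⟨TMGS (xa P x) d v (chG d S u v t) (chW d S u v t) (chW1 d S u v t) (chR S u)
      (stripNum (xa P x) d v (chW d S u v t) (chR S u)) +
    (xa P x) ^ 3 * (xa P x + d) ^ 3 * shD Z x / 8, by rw [gG]; positivity, ?_, ?_, ?_, ?_⟩
  all_goals have eE := gA
  all_goals rw [TAS] at eE
  · rw [← add_assoc, eE, gG, gT]
    refine lt_of_lt_of_eq (mul_pos (show (0 : ℝ) <
      ((xa P x) ^ 3 * (xa P x + d) ^ 3) ^ 2 / 64 by positivity) h2) ?_
    field_simp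
    ring
  · rw [TDetS, ← add_assoc, eE, sub_add_cancel_left, gG, gT, gM, gX, ec]
    refine lt_of_lt_of_eq (mul_pos (show (0 : ℝ) <
      ((xa P x) ^ 3 * (xa P x + d) ^ 3) ^ 3 / 512 by positivity) hdet) ?_
    field_simp
    ring
  · rw [gMG]; positivity
  · have hgg := gapS_in hP h hz K hs0 hs1 F.w0.t_low F.w0.t_high
    rw [← hCmix, F.gap, ev] at hgg
    have hI := h.I
    have hDk := h.Dk
    have hS := h.S
    have eS : P.S.eval x = S := by rw [eval_S, hx.hI]; ring
    have eU : P.U.eval x = u := by rw [eval_U, hx.hw]; ring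
    have eI : P.I.eval x = (1 - S) / 2 := hx.hI
    rw [eS, eU, StripEndD.fDen, hd, ev] at hgg
    rw [add_sub_cancel_left, ec]
    rw [show chR S u = S * u / (1 - S) from rfl] at hgg ⊢
    have h1S : 0 < 1 - S := by linarith
    refine le_of_sub_nonneg (nonneg_of_mul_nonneg_right
      (a := 320 * (xa P x + d) ^ 3 * P.Dk.eval x * (2 + d * v) * P.I.eval x * Z.xd.eval x /
        (xa P x * (xa P x + d)) ^ 2) (hgg.trans_eq ?_)
      (by positivity))
    rw [shD, eI]
    field_simp
    ring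

end Vale.Agent.P100.Calib.StripEndD
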