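import Vale.Agent.P100.Calib.SlabStripEndDShiftCert
import Vale.Agent.P100.Calib.SlabStripEndSigns

/-!
# The signs over a bin with the coordinates (d, I / d, (1 - u) / d), from twenty on

A bin has its own window; a point of a chart is placed again in its bin.
-/

set_option linter.unusedVariables false

namespace Vale.Agent.P100.Calib.StripEndD

open Pack hiding ev_add ev_mul
open Pack.Ex Band StripMid StripEnd

local instance endDSideAdd : Add Ex := ⟨Ex.add⟩
local instance endDSideSub : Sub Ex := ⟨Ex.sub⟩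
local instance endDSideMul : Mul Ex := ⟨Ex.mul⟩

/-- The form of a bin and of the piece over it. -/
structure SideForm (c : EndChart) (P : Piece) (B : StripEnd.EBox) : Prop where
  lies : P.Over c
  box : B.q₀ = c.q₀ ∧ B.q₁ = c.q₁ ∧ B.q₂ = c.q₂ ∧ B.q₃ = c.q₃
  cI : c.I = var 0 * var 1
  cd : c.d = var 0
  cw : c.w = var 0 * var 2
  cden : c.den = num 100
  top : (c.q₁.2.1 : ℝ) ≤ c.q₁.2.2
  pI : P.I = var 0 * var 1
  pd : P.d = var 0
  pcn : P.cn = num 1 - P.I - var 1 * P.S
  pcd : P.cd = P.S * P.S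

/-- A piece and a chart over one bin, both checked. -/
structure SideBin (c : EndChart) (P : Piece) (B : StripEnd.EBox) : Prop where
  form : SideForm c P B
  ok : c.Cert
  cert : Cert P B

/-- A piece with a shifted multiplier and a chart over one bin, both checked. -/
structure SideBinS (c : EndChart) (P : Piece) (Z : Shift) (B : StripEnd.EBox) : Prop where
  form : SideForm c P B
  ok : c.Cert
  cert : CertS P Z B

variable {c : EndChart} {P : Piece} {Z : Shift} {B : StripEnd.EBox} {n : ℕ} {a b u v t H : ℝ}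

/-- The point of a bin. -/
theorem SideForm.point (F : SideForm c P B) (K : c.Cert) (hB : EndBands a b u v H)
    (h0 : InU c.q₀ (b - a)) (h1 : InU c.q₁ (allStabI a b / (b - a)))
    (h2 : InU c.q₂ ((1 - u) / (b - a))) :
    ∃ x : ℕ → ℝ, c.Point x a b u v H ∧ B.Mem x ∧ 0 < x 0 ∧ 0 ≤ x 1 ∧ x 1 ≤ 1 := by
  obtain ⟨hI, hd, hw, eS, -⟩ := end_facts hB
  have hn : b - a ≠ 0 := hd.ne'
  obtain ⟨s, hs⟩ := K.point hB h0 h1 h2
    (by rw [F.cI]; simp only [Ex.eval, StripEnd.pt4]; field_simp)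
    (by rw [F.cd]; rfl)
    (by rw [F.cw]; simp only [Ex.eval, StripEnd.pt4]; field_simp)
    (by rw [F.cden]; simp [Ex.eval])
  obtain ⟨e0, e1, e2, e3⟩ := F.box
  have hq : 0 < c.q₃.2.2 := K.fits.den.1
  have hM : B.Mem (StripEnd.pt4 (b - a) (allStabI a b / (b - a)) ((1 - u) / (b - a)) s) :=
    ⟨e0 ▸ h0, e1 ▸ h1, e2 ▸ h2, e3 ▸ ⟨hq, hs.1.2.2.2.1.le, hs.1.2.2.2.2⟩⟩
  refine ⟨_, hs, hM, hd, (div_pos hI hd).le, h1.2.2.trans ?_⟩
  rw [div_le_one (by exact_mod_cast h1.1)]
  exact F.top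

/-- The signs over a bin. -/
theorem SideBin.signs (K : SideBin c P B) (hb : Closed.All.ChartBox n (b - a) (a + b))
    (hF : Closed.All.ChartFacts (b - a) (a + b) u v t)
    (hH : Closed.chH (b - a) (a + b) u v t = H) (hB : EndBands a b u v H)
    (h0 : InU c.q₀ (b - a)) (h1 : InU c.q₁ (allStabI a b / (b - a)))
    (h2 : InU c.q₂ ((1 - u) / (b - a))) :
    Closed.Strip.ChartSigns (b - a) (a + b) u v t := by
  obtain ⟨x, hx, hM, x0, x1, x1'⟩ := K.form.point K.ok hB h0 h1 h2
  exact signs_of_cert K.cert hM K.form.lies hx hb hF hH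
    (kap_dlarge K.form.pI K.form.pd K.form.pcn K.form.pcd (K.cert.place hM (K.form.lies.vo _))
      x0 x1 x1')

/-- The signs over a bin with a shifted multiplier. -/
theorem SideBinS.signs (K : SideBinS c P Z B) (hb : Closed.All.ChartBox n (b - a) (a + b))
    (hF : Closed.All.ChartFacts (b - a) (a + b) u v t)
    (hH : Closed.chH (b - a) (a + b) u v t = H) (hB : EndBands a b u v H)
    (h0 : InU c.q₀ (b - a)) (h1 : InU c.q₁ (allStabI a b / (b - a)))
    (h2 : InU c.q₂ ((1 - u) / (b - a))) :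
    Closed.Strip.ChartSigns (b - a) (a + b) u v t := by
  obtain ⟨x, hx, hM, x0, x1, x1'⟩ := K.form.point K.ok hB h0 h1 h2
  exact signs_of_certS K.cert hM K.form.lies hx hb hF hH
    (kap_dlarge K.form.pI K.form.pd K.form.pcn K.form.pcd
      (K.cert.place hM (K.form.lies.vo _)).1 x0 x1 x1')

/-- Membership of a quotient in a range. -/
theorem side_inU {q : ℤ × ℤ × ℕ} {y z : ℝ} (hz : 0 < z) (hq : 0 < q.2.2)
    (h1 : (q.1 : ℝ) * z < q.2.2 * y) (h2 : (q.2.2 : ℝ) * y ≤ q.2.1 * z) : InU q (y / z) := by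
  have hq' : (0 : ℝ) < q.2.2 := by exact_mod_cast hq
  refine ⟨hq, ?_, ?_⟩
  · rw [div_lt_div_iff₀ hq' hz]; linarith
  · rw [div_le_div_iff₀ hz hq']; linarith

end Vale.Agent.P100.Calib.StripEndD
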