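import Vale.Agent.P100.Calib.SlabStripEndChart

/-!
# The charts of the strip for `u` near one

`x₀` is `I`, `d` or `w`; in the charts `D00` to `D57` it is `d`, with `x₁ = I / d` and
`x₂ = (1 - u) / d`.
-/

namespace Vale.Agent.P100.Calib.StripEnd

open Pack Pack.Ex

local instance endDataAdd : Add Ex := ⟨Ex.add⟩
local instance endDataSub : Sub Ex := ⟨Ex.sub⟩
local instance endDataMul : Mul Ex := ⟨Ex.mul⟩

/-- The chart `IAt`. -/
def endIAt : EndChart where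
  I := var 0
  d := (var 0 * var 2)
  w := (var 0 * var 1)
  den := num 1000
  n₀ := ((num 1000) + (var 1 * (num (-929))))
  n₁ := ((num (-523)) + (var 1 * (num 484)))
  q₀ := (0, 1, 20)
  q₁ := (0, 1, 20)
  q₂ := (0, 3, 20)
  q₃ := (0, 1, 1)
  t₀ := (1, 1)
  t₁ := (0, 1)
  mu₀ := (179, 100)
  mu₁ := (208, 100)

/-- The chart `IAu`. -/
def endIAu : EndChart where
  I := var 0
  d := (var 0 * var 2)
  w := (var 0 * var 1)
  den := num 1000
  n₀ := ((num 978) + (var 1 * (num (-470))))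
  n₁ := ((num (-555)) + (var 1 * (num 266)))
  q₀ := (0, 1, 20)
  q₁ := (1, 20, 20)
  q₂ := (0, 3, 20)
  q₃ := (0, 1, 1)
  t₀ := (1, 1)
  t₁ := (0, 1)
  mu₀ := (179, 100)
  mu₁ := (208, 100)

/-- The chart `IBt`. -/
def endIBt : EndChart where
  I := var 0
  d := (var 0 * var 2)
  w := (var 0 * var 1)
  den := num 1000
  n₀ := ((num 1000) + (var 1 * (num (-929))))
  n₁ := ((num (-542)) + (var 1 * (num 502)))
  q₀ := (0, 1, 20)
  q₁ := (0, 1, 20)
  q₂ := (3, 10, 20)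
  q₃ := (0, 1, 1)
  t₀ := (1, 1)
  t₁ := (0, 1)
  mu₀ := (178, 100)
  mu₁ := (218, 100)

/-- The chart `IBu`. -/
def endIBu : EndChart where
  I := var 0
  d := (var 0 * var 2)
  w := (var 0 * var 1)
  den := num 1000
  n₀ := ((num 978) + (var 1 * (num (-470))))
  n₁ := ((num (-572)) + (var 1 * (num 274)))
  q₀ := (0, 1, 20)
  q₁ := (1, 20, 20)
  q₂ := (3, 10, 20)
  q₃ := (0, 1, 1)
  t₀ := (1, 1)
  t₁ := (0, 1)
  mu₀ := (178, 100)
  mu₁ := (218, 100)

/-- The chart `ICt`. -/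
def endICt : EndChart where
  I := var 0
  d := (var 0 * var 2)
  w := (var 0 * var 1)
  den := num 1000
  n₀ := ((num 1000) + (var 1 * (num (-929))))
  n₁ := ((num (-560)) + (var 1 * (num 519)))
  q₀ := (0, 1, 20)
  q₁ := (0, 1, 20)
  q₂ := (2, 3, 4)
  q₃ := (0, 1, 1)
  t₀ := (1, 1)
  t₁ := (0, 1)
  mu₀ := (177, 100)
  mu₁ := (227, 100)

/-- The chart `ICu`. -/
def endICu : EndChart where
  I := var 0
  d := (var 0 * var 2)
  w := (var 0 * var 1)
  den := num 1000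
  n₀ := ((num 978) + (var 1 * (num (-470))))
  n₁ := ((num (-588)) + (var 1 * (num 281)))
  q₀ := (0, 1, 20)
  q₁ := (1, 20, 20)
  q₂ := (2, 3, 4)
  q₃ := (0, 1, 1)
  t₀ := (1, 1)
  t₁ := (0, 1)
  mu₀ := (177, 100)
  mu₁ := (227, 100)

/-- The chart `IDp`. -/
def endIDp : EndChart where
  I := var 0
  d := (var 0 * var 2)
  w := (var 0 * var 1)
  den := num 1000
  n₀ := ((num 1000) + (var 1 * (num (-929))))
  n₁ := ((num (-555)) + (var 1 * (num 514)))
  q₀ := (0, 1, 20)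
  q₁ := (0, 1, 20)
  q₂ := (15, 18, 20)
  q₃ := (0, 1, 1)
  t₀ := (1, 1)
  t₁ := (0, 1)
  mu₀ := (176, 100)
  mu₁ := (237, 100)

/-- The chart `IDq`. -/
def endIDq : EndChart where
  I := var 0
  d := (var 0 * var 2)
  w := (var 0 * var 1)
  den := num 1000
  n₀ := ((num 1000) + (var 1 * (num (-929))))
  n₁ := ((num (-560)) + (var 1 * (num 519)))
  q₀ := (0, 1, 20)
  q₁ := (0, 1, 20)
  q₂ := (45, 48, 50)
  q₃ := (0, 1, 1)
  t₀ := (1, 1)
  t₁ := (0, 1)
  mu₀ := (176, 100)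
  mu₁ := (237, 100)

/-- The chart `IDr`. -/
def endIDr : EndChart where
  I := var 0
  d := (var 0 * var 2)
  w := (var 0 * var 1)
  den := num 1000
  n₀ := ((num 1000) + (var 1 * (num (-929))))
  n₁ := ((num (-566)) + (var 1 * (num 524)))
  q₀ := (0, 1, 25)
  q₁ := (0, 1, 20)
  q₂ := (24, 25, 25)
  q₃ := (0, 1, 1)
  t₀ := (1, 1)
  t₁ := (0, 1)
  mu₀ := (176, 100)
  mu₁ := (237, 100)

/-- The chart `IDu`. -/
def endIDu : EndChart where
  I := var 0
  d := (var 0 * var 2)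
  w := (var 0 * var 1)
  den := num 1000
  n₀ := ((num 978) + (var 1 * (num (-470))))
  n₁ := ((num (-609)) + (var 1 * (num 292)))
  q₀ := (0, 1, 20)
  q₁ := (1, 20, 20)
  q₂ := (3, 4, 4)
  q₃ := (0, 1, 1)
  t₀ := (1, 1)
  t₁ := (0, 1)
  mu₀ := (176, 100)
  mu₁ := (237, 100)

/-- The chart `IEp`. -/
def endIEp : EndChart where
  I := var 0
  d := (var 0 * var 2)
  w := (var 0 * var 1)
  den := num 1000
  n₀ := ((num 1000) + (var 1 * (num (-929))))
  n₁ := ((num (-560)) + (var 1 * (num 519)))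
  q₀ := (19, 25, 500)
  q₁ := (0, 1, 20)
  q₂ := (47, 48, 50)
  q₃ := (0, 1, 1)
  t₀ := (1, 1)
  t₁ := (0, 1)
  mu₀ := (176, 100)
  mu₁ := (237, 100)

/-- The chart `IEq`. -/
def endIEq : EndChart where
  I := var 0
  d := (var 0 * var 2)
  w := (var 0 * var 1)
  den := num 1000
  n₀ := ((num 1000) + (var 1 * (num (-929))))
  n₁ := ((num (-566)) + (var 1 * (num 524)))
  q₀ := (0, 1, 20)
  q₁ := (0, 1, 20)
  q₂ := (24, 25, 25)
  q₃ := (0, 1, 1)
  t₀ := (1, 1)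
  t₁ := (0, 1)
  mu₀ := (176, 100)
  mu₁ := (237, 100)

/-- The chart `IEu`. -/
def endIEu : EndChart where
  I := var 0
  d := (var 0 * var 2)
  w := (var 0 * var 1)
  den := num 1000
  n₀ := ((num 978) + (var 1 * (num (-470))))
  n₁ := ((num (-609)) + (var 1 * (num 292)))
  q₀ := (0, 1, 20)
  q₁ := (1, 20, 20)
  q₂ := (47, 50, 50)
  q₃ := (0, 1, 1)
  t₀ := (1, 1)
  t₁ := (0, 1)
  mu₀ := (176, 100)
  mu₁ := (237, 100)

/-- The chart `IFp`. -/
def endIFp : EndChart where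
  I := var 0
  d := (var 0 * var 2)
  w := (var 0 * var 1)
  den := num 1000
  n₀ := ((num 1000) + (var 1 * (num (-929))))
  n₁ := ((num (-601)) + (var 1 * (num 557)))
  q₀ := (0, 1, 20)
  q₁ := (0, 1, 20)
  q₂ := (4, 5, 4)
  q₃ := (0, 1, 1)
  t₀ := (1, 1)
  t₁ := (0, 1)
  mu₀ := (190, 100)
  mu₁ := (248, 100)

/-- The chart `IFq`. -/
def endIFq : EndChart where
  I := var 0
  d := (var 0 * var 2)
  w := (var 0 * var 1)
  den := num 1000
  n₀ := ((num 1000) + (var 1 * (num (-929))))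
  n₁ := ((num (-634)) + (var 1 * (num 588)))
  q₀ := (0, 1, 20)
  q₁ := (0, 1, 20)
  q₂ := (5, 6, 4)
  q₃ := (0, 1, 1)
  t₀ := (1, 1)
  t₁ := (0, 1)
  mu₀ := (190, 100)
  mu₁ := (258, 100)

/-- The chart `IFg`. -/
def endIFg : EndChart where
  I := var 0
  d := (var 0 * var 2)
  w := (var 0 * var 1)
  den := num 1000
  n₀ := ((num 989) + (var 1 * (num (-693))))
  n₁ := ((num (-632)) + (var 1 * (num 442)))
  q₀ := (0, 1, 20)
  q₁ := (1, 7, 20)
  q₂ := (2, 3, 2)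
  q₃ := (0, 1, 1)
  t₀ := (1, 1)
  t₁ := (0, 1)
  mu₀ := (190, 100)
  mu₁ := (256, 100)

/-- The chart `IFh`. -/
def endIFh : EndChart where
  I := var 0
  d := (var 0 * var 2)
  w := (var 0 * var 1)
  den := num 1000
  n₀ := ((num 882) + (var 1 * (num (-387))))
  n₁ := ((num (-561)) + (var 1 * (num 245)))
  q₀ := (0, 1, 20)
  q₁ := (7, 18, 20)
  q₂ := (2, 3, 2)
  q₃ := (0, 1, 1)
  t₀ := (1, 1)
  t₁ := (0, 1)
  mu₀ := (183, 100)
  mu₁ := (245, 100)

/-- The chart `IGt`. -/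
def endIGt : EndChart where
  I := var 0
  d := (var 0 * var 2)
  w := (var 0 * var 1)
  den := num 1000
  n₀ := ((num 1000) + (var 1 * (num (-929))))
  n₁ := ((num (-678)) + (var 1 * (num 628)))
  q₀ := (0, 3, 100)
  q₁ := (0, 1, 20)
  q₂ := (3, 4, 2)
  q₃ := (0, 1, 1)
  t₀ := (1, 1)
  t₁ := (0, 1)
  mu₀ := (190, 100)
  mu₁ := (243, 100)

/-- The chart `IGu`. -/
def endIGu : EndChart where
  I := var 0
  d := (var 0 * var 2)
  w := (var 0 * var 1)
  den := num 1000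
  n₀ := ((num 979) + (var 1 * (num (-495))))
  n₁ := ((num (-675)) + (var 1 * (num 341)))
  q₀ := (0, 3, 100)
  q₁ := (1, 18, 20)
  q₂ := (3, 4, 2)
  q₃ := (0, 1, 1)
  t₀ := (1, 1)
  t₁ := (0, 1)
  mu₀ := (188, 100)
  mu₁ := (241, 100)

/-- The chart `ZA`. -/
def endZA : EndChart where
  I := (var 0 * var 1)
  d := ((var 0 * var 1) * var 2)
  w := var 0
  den := (((num 2 * var 1) + num 2) + (var 1 * var 2))
  n₀ := num 0
  n₁ := (num 2 * var 1)
  q₀ := (0, 1, 20)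
  q₁ := (0, 1, 1)
  q₂ := (0, 1, 1)
  q₃ := (49, 103, 100)
  t₀ := (49, 100)
  t₁ := (103, 100)
  mu₀ := (183, 100)
  mu₁ := (109, 50)

/-- The chart `ZB`. -/
def endZB : EndChart where
  I := var 1
  d := (var 1 * var 2)
  w := var 0
  den := (((num 2 * var 1) + (num 2 * var 0)) + (var 1 * var 2))
  n₀ := num 0
  n₁ := (num 2 * var 1)
  q₀ := (1, 4, 20)
  q₁ := (0, 1, 20)
  q₂ := (0, 1, 1)
  q₃ := (23, 55, 50)
  t₀ := (23, 50)
  t₁ := (11, 10)
  mu₀ := (149, 100)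
  mu₁ := (111, 50)

/-- The chart `CA`. -/
def endCA : EndChart where
  I := ((var 0 * var 1) * var 2)
  d := (var 0 * var 1)
  w := var 0
  den := (((num 2 * (var 1 * var 2)) + num 2) + var 1)
  n₀ := num 0
  n₁ := (num 2 * (var 1 * var 2))
  q₀ := (0, 1, 20)
  q₁ := (0, 1, 1)
  q₂ := (0, 53, 50)
  q₃ := (49, 103, 100)
  t₀ := (49, 100)
  t₁ := (103, 100)
  mu₀ := (46, 25)
  mu₁ := (219, 100)

/-- The chart `CB`. -/
def endCB : EndChart where
  I := var 1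
  d := (var 0 * var 2)
  w := var 0
  den := (((num 2 * var 1) + (num 2 * var 0)) + (var 0 * var 2))
  n₀ := num 0
  n₁ := (num 2 * var 1)
  q₀ := (1, 4, 20)
  q₁ := (0, 1, 20)
  q₂ := (0, 1, 1)
  q₃ := (22, 55, 50)
  t₀ := (11, 25)
  t₁ := (11, 10)
  mu₀ := (71, 50)
  mu₁ := (243, 100)

/-- The chart `D00`. -/
def endD00 : EndChart where
  I := (var 0 * var 1)
  d := var 0
  w := (var 0 * var 2)
  den := num 100
  n₀ := ((((num 1 - (num 2 * (var 0 * var 1))) - var 0) * var 1) * ((num 100 + (num (-67) * var 1)) + (num (-167) * var 2)))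
  n₁ := ((((num 1 - (num 2 * (var 0 * var 1))) - var 0) * var 1) * ((num 0 + (num 78 * var 1)) + (num 81 * var 2)))
  q₀ := (0, 1, 20)
  q₁ := (0, 1, 10)
  q₂ := (0, 1, 10)
  q₃ := (0, 1, 1)
  t₀ := (0, 1)
  t₁ := (1, 1)
  mu₀ := (19, 10)
  mu₁ := (21, 10)

/-- The chart `D01`. -/
def endD01 : EndChart where
  I := (var 0 * var 1)
  d := var 0
  w := (var 0 * var 2)
  den := num 100
  n₀ := ((((num 1 - (num 2 * (var 0 * var 1))) - var 0) * var 1) * ((num 98 + (num (-58) * var 1)) + (num (-125) * var 2)))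
  n₁ := ((((num 1 - (num 2 * (var 0 * var 1))) - var 0) * var 1) * ((num 3 + (num 67 * var 1)) + (num 21 * var 2)))
  q₀ := (0, 1, 20)
  q₁ := (1, 5, 10)
  q₂ := (0, 1, 10)
  q₃ := (0, 1, 1)
  t₀ := (0, 1)
  t₁ := (1, 1)
  mu₀ := (19, 10)
  mu₁ := (221, 100)

/-- The chart `D02`. -/
def endD02 : EndChart where
  I := (var 0 * var 1)
  d := var 0
  w := (var 0 * var 2)
  den := num 100
  n₀ := ((((num 1 - (num 2 * (var 0 * var 1))) - var 0) * var 1) * ((num 89 + (num (-43) * var 1)) + (num (-79) * var 2)))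
  n₁ := ((((num 1 - (num 2 * (var 0 * var 1))) - var 0) * var 1) * ((num 10 + (num 36 * var 1)) + (num 8 * var 2)))
  q₀ := (0, 1, 40)
  q₁ := (0, 1, 2)
  q₂ := (1, 3, 10)
  q₃ := (0, 1, 1)
  t₀ := (0, 1)
  t₁ := (1, 1)
  mu₀ := (19, 10)
  mu₁ := (43, 20)

/-- The chart `D03`. -/
def endD03 : EndChart where
  I := (var 0 * var 1)
  d := var 0
  w := (var 0 * var 2)
  den := num 100
  n₀ := ((((num 1 - (num 2 * (var 0 * var 1))) - var 0) * var 1) * ((num 71 + (num (-25) * var 1)) + (num (-40) * var 2)))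
  n₁ := ((((num 1 - (num 2 * (var 0 * var 1))) - var 0) * var 1) * ((num 21 + (num 13 * var 1)) + (num 0 * var 2)))
  q₀ := (0, 1, 40)
  q₁ := (0, 1, 2)
  q₂ := (3, 10, 10)
  q₃ := (0, 1, 1)
  t₀ := (0, 1)
  t₁ := (1, 1)
  mu₀ := (46, 25)
  mu₁ := (21, 10)

/-- The chart `D04`. -/
def endD04 : EndChart where
  I := (var 0 * var 1)
  d := var 0
  w := (var 0 * var 2)
  den := num 100
  n₀ := ((((num 1 - (num 2 * (var 0 * var 1))) - var 0) * var 1) * ((num 92 + (num (-44) * var 1)) + (num (-89) * var 2)))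
  n₁ := ((((num 1 - (num 2 * (var 0 * var 1))) - var 0) * var 1) * ((num 8 + (num 39 * var 1)) + (num 17 * var 2)))
  q₀ := (1, 2, 40)
  q₁ := (0, 1, 2)
  q₂ := (1, 3, 10)
  q₃ := (0, 1, 1)
  t₀ := (0, 1)
  t₁ := (1, 1)
  mu₀ := (19, 10)
  mu₁ := (221, 100)

/-- The chart `D05`. -/
def endD05 : EndChart where
  I := (var 0 * var 1)
  d := var 0
  w := (var 0 * var 2)
  den := num 100
  n₀ := ((((num 1 - (num 2 * (var 0 * var 1))) - var 0) * var 1) * ((num 72 + (num (-25) * var 1)) + (num (-40) * var 2)))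
  n₁ := ((((num 1 - (num 2 * (var 0 * var 1))) - var 0) * var 1) * ((num 21 + (num 15 * var 1)) + (num 0 * var 2)))
  q₀ := (1, 2, 40)
  q₁ := (0, 1, 2)
  q₂ := (3, 10, 10)
  q₃ := (0, 1, 1)
  t₀ := (0, 1)
  t₁ := (1, 1)
  mu₀ := (17, 10)
  mu₁ := (43, 20)

/-- The chart `D06`. -/
def endD06 : EndChart where
  I := (var 0 * var 1)
  d := var 0
  w := (var 0 * var 2)
  den := num 100
  n₀ := ((((num 1 - (num 2 * (var 0 * var 1))) - var 0) * var 1) * ((num 55 + (num (-15) * var 1)) + (num (-20) * var 2)))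
  n₁ := ((((num 1 - (num 2 * (var 0 * var 1))) - var 0) * var 1) * ((num 29 + (num 5 * var 1)) + (num (-10) * var 2)))
  q₀ := (0, 1, 20)
  q₁ := (1, 2, 2)
  q₂ := (9, 20, 20)
  q₃ := (0, 1, 1)
  t₀ := (0, 1)
  t₁ := (1, 1)
  mu₀ := (44, 25)
  mu₁ := (9, 4)

/-- The chart `D07`. -/
def endD07 : EndChart where
  I := (var 0 * var 1)
  d := var 0
  w := (var 0 * var 2)
  den := num 100
  n₀ := ((((num 1 - (num 2 * (var 0 * var 1))) - var 0) * var 1) * ((num 100 + (num (-57) * var 1)) + (num (-162) * var 2)))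
  n₁ := ((((num 1 - (num 2 * (var 0 * var 1))) - var 0) * var 1) * ((num 0 + (num 83 * var 1)) + (num 82 * var 2)))
  q₀ := (5, 12, 100)
  q₁ := (0, 3, 10)
  q₂ := (0, 1, 10)
  q₃ := (0, 1, 1)
  t₀ := (0, 1)
  t₁ := (1, 1)
  mu₀ := (19, 10)
  mu₁ := (23, 10)

/-- The chart `D08`. -/
def endD08 : EndChart where
  I := (var 0 * var 1)
  d := var 0
  w := (var 0 * var 2)
  den := num 100
  n₀ := ((((num 1 - (num 2 * (var 0 * var 1))) - var 0) * var 1) * ((num 97 + (num (-49) * var 1)) + (num (-111) * var 2)))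
  n₁ := ((((num 1 - (num 2 * (var 0 * var 1))) - var 0) * var 1) * ((num 3 + (num 69 * var 1)) + (num (-12) * var 2)))
  q₀ := (5, 9, 100)
  q₁ := (3, 5, 10)
  q₂ := (0, 1, 10)
  q₃ := (0, 1, 1)
  t₀ := (0, 1)
  t₁ := (1, 1)
  mu₀ := (39, 20)
  mu₁ := (47, 20)

/-- The chart `D09`. -/
def endD09 : EndChart where
  I := (var 0 * var 1)
  d := var 0
  w := (var 0 * var 2)
  den := num 100
  n₀ := ((((num 1 - (num 2 * (var 0 * var 1))) - var 0) * var 1) * ((num 98 + (num (-45) * var 1)) + (num (-115) * var 2)))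
  n₁ := ((((num 1 - (num 2 * (var 0 * var 1))) - var 0) * var 1) * ((num 9 + (num 59 * var 1)) + (num (-39) * var 2)))
  q₀ := (9, 12, 100)
  q₁ := (3, 5, 10)
  q₂ := (0, 1, 10)
  q₃ := (0, 1, 1)
  t₀ := (0, 1)
  t₁ := (1, 1)
  mu₀ := (2, 1)
  mu₁ := (249, 100)

/-- The chart `D10`. -/
def endD10 : EndChart where
  I := (var 0 * var 1)
  d := var 0
  w := (var 0 * var 2)
  den := num 100
  n₀ := ((((num 1 - (num 2 * (var 0 * var 1))) - var 0) * var 1) * ((num 90 + (num (-39) * var 1)) + (num (-80) * var 2)))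
  n₁ := ((((num 1 - (num 2 * (var 0 * var 1))) - var 0) * var 1) * ((num 10 + (num 38 * var 1)) + (num 9 * var 2)))
  q₀ := (5, 7, 100)
  q₁ := (0, 1, 2)
  q₂ := (1, 3, 10)
  q₃ := (0, 1, 1)
  t₀ := (0, 1)
  t₁ := (1, 1)
  mu₀ := (19, 10)
  mu₁ := (9, 4)

/-- The chart `D11`. -/
def endD11 : EndChart where
  I := (var 0 * var 1)
  d := var 0
  w := (var 0 * var 2)
  den := num 100
  n₀ := ((((num 1 - (num 2 * (var 0 * var 1))) - var 0) * var 1) * ((num 72 + (num (-22) * var 1)) + (num (-40) * var 2)))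
  n₁ := ((((num 1 - (num 2 * (var 0 * var 1))) - var 0) * var 1) * ((num 23 + (num 11 * var 1)) + (num 0 * var 2)))
  q₀ := (5, 7, 100)
  q₁ := (0, 1, 2)
  q₂ := (3, 10, 10)
  q₃ := (0, 1, 1)
  t₀ := (0, 1)
  t₁ := (1, 1)
  mu₀ := (81, 50)
  mu₁ := (221, 100)

/-- The chart `D12`. -/
def endD12 : EndChart where
  I := (var 0 * var 1)
  d := var 0
  w := (var 0 * var 2)
  den := num 100
  n₀ := ((((num 1 - (num 2 * (var 0 * var 1))) - var 0) * var 1) * ((num 92 + (num (-38) * var 1)) + (num (-89) * var 2)))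
  n₁ := ((((num 1 - (num 2 * (var 0 * var 1))) - var 0) * var 1) * ((num 8 + (num 41 * var 1)) + (num 19 * var 2)))
  q₀ := (7, 9, 100)
  q₁ := (0, 1, 2)
  q₂ := (1, 3, 10)
  q₃ := (0, 1, 1)
  t₀ := (0, 1)
  t₁ := (1, 1)
  mu₀ := (37, 20)
  mu₁ := (23, 10)

/-- The chart `D13`. -/
def endD13 : EndChart where
  I := (var 0 * var 1)
  d := var 0
  w := (var 0 * var 2)
  den := num 100
  n₀ := ((((num 1 - (num 2 * (var 0 * var 1))) - var 0) * var 1) * ((num 72 + (num (-20) * var 1)) + (num (-40) * var 2)))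
  n₁ := ((((num 1 - (num 2 * (var 0 * var 1))) - var 0) * var 1) * ((num 22 + (num 14 * var 1)) + (num 0 * var 2)))
  q₀ := (7, 9, 100)
  q₁ := (0, 1, 2)
  q₂ := (3, 10, 10)
  q₃ := (0, 1, 1)
  t₀ := (0, 1)
  t₁ := (1, 1)
  mu₀ := (77, 50)
  mu₁ := (57, 25)

/-- The chart `D14`. -/
def endD14 : EndChart where
  I := (var 0 * var 1)
  d := var 0
  w := (var 0 * var 2)
  den := num 100
  n₀ := ((((num 1 - (num 2 * (var 0 * var 1))) - var 0) * var 1) * ((num 90 + (num (-34) * var 1)) + (num (-78) * var 2)))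
  n₁ := ((((num 1 - (num 2 * (var 0 * var 1))) - var 0) * var 1) * ((num 11 + (num 42 * var 1)) + (num 7 * var 2)))
  q₀ := (9, 12, 100)
  q₁ := (0, 1, 2)
  q₂ := (1, 3, 10)
  q₃ := (0, 1, 1)
  t₀ := (0, 1)
  t₁ := (1, 1)
  mu₀ := (37, 20)
  mu₁ := (243, 100)

/-- The chart `D15`. -/
def endD15 : EndChart where
  I := (var 0 * var 1)
  d := var 0
  w := (var 0 * var 2)
  den := num 100
  n₀ := ((((num 1 - (num 2 * (var 0 * var 1))) - var 0) * var 1) * ((num 72 + (num (-19) * var 1)) + (num (-39) * var 2)))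
  n₁ := ((((num 1 - (num 2 * (var 0 * var 1))) - var 0) * var 1) * ((num 24 + (num 14 * var 1)) + (num (-1) * var 2)))
  q₀ := (9, 12, 100)
  q₁ := (0, 1, 2)
  q₂ := (3, 10, 10)
  q₃ := (0, 1, 1)
  t₀ := (0, 1)
  t₁ := (1, 1)
  mu₀ := (143, 100)
  mu₁ := (239, 100)

/-- The chart `D16`. -/
def endD16 : EndChart where
  I := (var 0 * var 1)
  d := var 0
  w := (var 0 * var 2)
  den := num 100
  n₀ := ((((num 1 - (num 2 * (var 0 * var 1))) - var 0) * var 1) * ((num 57 + (num (-15) * var 1)) + (num (-20) * var 2)))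
  n₁ := ((((num 1 - (num 2 * (var 0 * var 1))) - var 0) * var 1) * ((num 29 + (num 5 * var 1)) + (num (-10) * var 2)))
  q₀ := (5, 7, 100)
  q₁ := (1, 2, 2)
  q₂ := (9, 20, 20)
  q₃ := (0, 1, 1)
  t₀ := (0, 1)
  t₁ := (1, 1)
  mu₀ := (17, 10)
  mu₁ := (231, 100)

/-- The chart `D17`. -/
def endD17 : EndChart where
  I := (var 0 * var 1)
  d := var 0
  w := (var 0 * var 2)
  den := num 100
  n₀ := ((((num 1 - (num 2 * (var 0 * var 1))) - var 0) * var 1) * ((num 64 + (num (-15) * var 1)) + (num (-29) * var 2)))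
  n₁ := ((((num 1 - (num 2 * (var 0 * var 1))) - var 0) * var 1) * ((num 36 + (num (-10) * var 1)) + (num (-1) * var 2)))
  q₀ := (7, 10, 100)
  q₁ := (25, 36, 50)
  q₂ := (9, 20, 20)
  q₃ := (0, 1, 1)
  t₀ := (0, 1)
  t₁ := (1, 1)
  mu₀ := (159, 100)
  mu₁ := (239, 100)

/-- The chart `D18`. -/
def endD18 : EndChart where
  I := (var 0 * var 1)
  d := var 0
  w := (var 0 * var 2)
  den := num 100
  n₀ := ((((num 1 - (num 2 * (var 0 * var 1))) - var 0) * var 1) * ((num 100 + (num (-43) * var 1)) + (num (-155) * var 2)))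
  n₁ := ((((num 1 - (num 2 * (var 0 * var 1))) - var 0) * var 1) * ((num 0 + (num 87 * var 1)) + (num 83 * var 2)))
  q₀ := (3, 5, 25)
  q₁ := (0, 1, 5)
  q₂ := (0, 1, 10)
  q₃ := (0, 1, 1)
  t₀ := (0, 1)
  t₁ := (1, 1)
  mu₀ := (19, 10)
  mu₁ := (12, 5)

/-- The chart `D19`. -/
def endD19 : EndChart where
  I := (var 0 * var 1)
  d := var 0
  w := (var 0 * var 2)
  den := num 100
  n₀ := ((((num 1 - (num 2 * (var 0 * var 1))) - var 0) * var 1) * ((num 98 + (num (-40) * var 1)) + (num (-115) * var 2)))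
  n₁ := ((((num 1 - (num 2 * (var 0 * var 1))) - var 0) * var 1) * ((num 10 + (num 58 * var 1)) + (num (-30) * var 2)))
  q₀ := (3, 4, 25)
  q₁ := (10, 21, 50)
  q₂ := (0, 1, 10)
  q₃ := (0, 1, 1)
  t₀ := (0, 1)
  t₁ := (1, 1)
  mu₀ := (2, 1)
  mu₁ := (129, 50)

/-- The chart `D20`. -/
def endD20 : EndChart where
  I := (var 0 * var 1)
  d := var 0
  w := (var 0 * var 2)
  den := num 100
  n₀ := ((((num 1 - (num 2 * (var 0 * var 1))) - var 0) * var 1) * ((num 99 + (num (-35) * var 1)) + (num (-123) * var 2)))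
  n₁ := ((((num 1 - (num 2 * (var 0 * var 1))) - var 0) * var 1) * ((num 8 + (num 59 * var 1)) + (num (-2) * var 2)))
  q₀ := (4, 5, 25)
  q₁ := (5, 8, 25)
  q₂ := (0, 1, 10)
  q₃ := (0, 1, 1)
  t₀ := (0, 1)
  t₁ := (1, 1)
  mu₀ := (51, 25)
  mu₁ := (259, 100)

/-- The chart `D21`. -/
def endD21 : EndChart where
  I := (var 0 * var 1)
  d := var 0
  w := (var 0 * var 2)
  den := num 100
  n₀ := ((((num 1 - (num 2 * (var 0 * var 1))) - var 0) * var 1) * ((num 93 + (num (-33) * var 1)) + (num (-89) * var 2)))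
  n₁ := ((((num 1 - (num 2 * (var 0 * var 1))) - var 0) * var 1) * ((num 6 + (num 52 * var 1)) + (num 29 * var 2)))
  q₀ := (3, 4, 25)
  q₁ := (0, 21, 50)
  q₂ := (1, 3, 10)
  q₃ := (0, 1, 1)
  t₀ := (0, 1)
  t₁ := (1, 1)
  mu₀ := (9, 5)
  mu₁ := (51, 20)

/-- The chart `D22`. -/
def endD22 : EndChart where
  I := (var 0 * var 1)
  d := var 0
  w := (var 0 * var 2)
  den := num 100
  n₀ := ((((num 1 - (num 2 * (var 0 * var 1))) - var 0) * var 1) * ((num 73 + (num (-17) * var 1)) + (num (-40) * var 2)))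
  n₁ := ((((num 1 - (num 2 * (var 0 * var 1))) - var 0) * var 1) * ((num 17 + (num 24 * var 1)) + (num 9 * var 2)))
  q₀ := (3, 4, 25)
  q₁ := (0, 21, 50)
  q₂ := (3, 10, 10)
  q₃ := (0, 1, 1)
  t₀ := (0, 1)
  t₁ := (1, 1)
  mu₀ := (13, 10)
  mu₁ := (247, 100)

/-- The chart `D23`. -/
def endD23 : EndChart where
  I := (var 0 * var 1)
  d := var 0
  w := (var 0 * var 2)
  den := num 100
  n₀ := ((((num 1 - (num 2 * (var 0 * var 1))) - var 0) * var 1) * ((num 94 + (num (-30) * var 1)) + (num (-89) * var 2)))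
  n₁ := ((((num 1 - (num 2 * (var 0 * var 1))) - var 0) * var 1) * ((num 7 + (num 53 * var 1)) + (num 27 * var 2)))
  q₀ := (4, 5, 25)
  q₁ := (0, 8, 25)
  q₂ := (1, 3, 10)
  q₃ := (0, 1, 1)
  t₀ := (0, 1)
  t₁ := (1, 1)
  mu₀ := (177, 100)
  mu₁ := (51, 20)

/-- The chart `D24`. -/
def endD24 : EndChart where
  I := (var 0 * var 1)
  d := var 0
  w := (var 0 * var 2)
  den := num 100
  n₀ := ((((num 1 - (num 2 * (var 0 * var 1))) - var 0) * var 1) * ((num 74 + (num (-15) * var 1)) + (num (-40) * var 2)))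
  n₁ := ((((num 1 - (num 2 * (var 0 * var 1))) - var 0) * var 1) * ((num 17 + (num 29 * var 1)) + (num 9 * var 2)))
  q₀ := (4, 5, 25)
  q₁ := (0, 8, 25)
  q₂ := (3, 10, 10)
  q₃ := (0, 1, 1)
  t₀ := (0, 1)
  t₁ := (1, 1)
  mu₀ := (61, 50)
  mu₁ := (63, 25)

/-- The chart `D25`. -/
def endD25 : EndChart where
  I := (var 0 * var 1)
  d := var 0
  w := (var 0 * var 2)
  den := num 100
  n₀ := ((((num 1 - (num 2 * (var 0 * var 1))) - var 0) * var 1) * ((num 100 + (num (-29) * var 1)) + (num (-147) * var 2)))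
  n₁ := ((((num 1 - (num 2 * (var 0 * var 1))) - var 0) * var 1) * ((num 0 + (num 80 * var 1)) + (num 77 * var 2)))
  q₀ := (8, 9, 40)
  q₁ := (0, 1, 4)
  q₂ := (0, 1, 10)
  q₃ := (0, 1, 1)
  t₀ := (0, 1)
  t₁ := (1, 1)
  mu₀ := (37, 20)
  mu₁ := (253, 100)

/-- The chart `D26`. -/
def endD26 : EndChart where
  I := (var 0 * var 1)
  d := var 0
  w := (var 0 * var 2)
  den := num 100
  n₀ := ((((num 1 - (num 2 * (var 0 * var 1))) - var 0) * var 1) * ((num 99 + (num (-22) * var 1)) + (num (-125) * var 2)))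
  n₁ := ((((num 1 - (num 2 * (var 0 * var 1))) - var 0) * var 1) * ((num 2 + (num 72 * var 1)) + (num 52 * var 2)))
  q₀ := (9, 10, 40)
  q₁ := (0, 23, 100)
  q₂ := (1, 10, 100)
  q₃ := (0, 1, 1)
  t₀ := (0, 1)
  t₁ := (1, 1)
  mu₀ := (37, 20)
  mu₁ := (259, 100)

/-- The chart `D27`. -/
def endD27 : EndChart where
  I := (var 0 * var 1)
  d := var 0
  w := (var 0 * var 2)
  den := num 100
  n₀ := ((((num 1 - (num 2 * (var 0 * var 1))) - var 0) * var 1) * ((num 94 + (num (-23) * var 1)) + (num (-89) * var 2)))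
  n₁ := ((((num 1 - (num 2 * (var 0 * var 1))) - var 0) * var 1) * ((num 7 + (num 51 * var 1)) + (num 26 * var 2)))
  q₀ := (8, 9, 40)
  q₁ := (0, 1, 4)
  q₂ := (1, 3, 10)
  q₃ := (0, 1, 1)
  t₀ := (0, 1)
  t₁ := (1, 1)
  mu₀ := (7, 4)
  mu₁ := (63, 25)

/-- The chart `D28`. -/
def endD28 : EndChart where
  I := (var 0 * var 1)
  d := var 0
  w := (var 0 * var 2)
  den := num 100
  n₀ := ((((num 1 - (num 2 * (var 0 * var 1))) - var 0) * var 1) * ((num 80 + (num (-16) * var 1)) + (num (-49) * var 2)))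
  n₁ := ((((num 1 - (num 2 * (var 0 * var 1))) - var 0) * var 1) * ((num 11 + (num 35 * var 1)) + (num 19 * var 2)))
  q₀ := (8, 9, 40)
  q₁ := (0, 1, 4)
  q₂ := (3, 10, 10)
  q₃ := (0, 1, 1)
  t₀ := (0, 1)
  t₁ := (1, 1)
  mu₀ := (19, 20)
  mu₁ := (51, 20)

/-- The chart `D29`. -/
def endD29 : EndChart where
  I := (var 0 * var 1)
  d := var 0
  w := (var 0 * var 2)
  den := num 100
  n₀ := ((((num 1 - (num 2 * (var 0 * var 1))) - var 0) * var 1) * ((num 95 + (num (-22) * var 1)) + (num (-90) * var 2)))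
  n₁ := ((((num 1 - (num 2 * (var 0 * var 1))) - var 0) * var 1) * ((num 4 + (num 60 * var 1)) + (num 36 * var 2)))
  q₀ := (9, 10, 40)
  q₁ := (0, 23, 100)
  q₂ := (1, 3, 10)
  q₃ := (0, 1, 1)
  t₀ := (0, 1)
  t₁ := (1, 1)
  mu₀ := (43, 25)
  mu₁ := (51, 20)

/-- The chart `D30`. -/
def endD30 : EndChart where
  I := (var 0 * var 1)
  d := var 0
  w := (var 0 * var 2)
  den := num 100
  n₀ := ((((num 1 - (num 2 * (var 0 * var 1))) - var 0) * var 1) * ((num 81 + (num (-13) * var 1)) + (num (-50) * var 2)))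
  n₁ := ((((num 1 - (num 2 * (var 0 * var 1))) - var 0) * var 1) * ((num 11 + (num 36 * var 1)) + (num 19 * var 2)))
  q₀ := (9, 10, 40)
  q₁ := (0, 23, 100)
  q₂ := (30, 89, 100)
  q₃ := (0, 1, 1)
  t₀ := (0, 1)
  t₁ := (1, 1)
  mu₀ := (57, 50)
  mu₁ := (51, 20)

/-- The chart `D31`. -/
def endD31 : EndChart where
  I := (var 0 * var 1)
  d := var 0
  w := (var 0 * var 2)
  den := num 100
  n₀ := ((((num 1 - (num 2 * (var 0 * var 1))) - var 0) * var 1) * ((num 99 + (num (-17) * var 1)) + (num (-124) * var 2)))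
  n₁ := ((((num 1 - (num 2 * (var 0 * var 1))) - var 0) * var 1) * ((num 2 + (num 72 * var 1)) + (num 48 * var 2)))
  q₀ := (10, 11, 40)
  q₁ := (0, 1, 5)
  q₂ := (1, 10, 100)
  q₃ := (0, 1, 1)
  t₀ := (0, 1)
  t₁ := (1, 1)
  mu₀ := (37, 20)
  mu₁ := (259, 100)

/-- The chart `D32`. -/
def endD32 : EndChart where
  I := (var 0 * var 1)
  d := var 0
  w := (var 0 * var 2)
  den := num 100
  n₀ := ((((num 1 - (num 2 * (var 0 * var 1))) - var 0) * var 1) * ((num 99 + (num (-14) * var 1)) + (num (-117) * var 2)))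
  n₁ := ((((num 1 - (num 2 * (var 0 * var 1))) - var 0) * var 1) * ((num 2 + (num 71 * var 1)) + (num 52 * var 2)))
  q₀ := (22, 23, 80)
  q₁ := (0, 191, 1000)
  q₂ := (1, 10, 100)
  q₃ := (0, 1, 1)
  t₀ := (0, 1)
  t₁ := (1, 1)
  mu₀ := (37, 20)
  mu₁ := (129, 50)

/-- The chart `D33`. -/
def endD33 : EndChart where
  I := (var 0 * var 1)
  d := var 0
  w := (var 0 * var 2)
  den := num 100
  n₀ := ((((num 1 - (num 2 * (var 0 * var 1))) - var 0) * var 1) * ((num 99 + (num (-12) * var 1)) + (num (-116) * var 2)))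
  n₁ := ((((num 1 - (num 2 * (var 0 * var 1))) - var 0) * var 1) * ((num 2 + (num 71 * var 1)) + (num 43 * var 2)))
  q₀ := (23, 24, 80)
  q₁ := (0, 161, 1000)
  q₂ := (1, 10, 100)
  q₃ := (0, 1, 1)
  t₀ := (0, 1)
  t₁ := (1, 1)
  mu₀ := (37, 20)
  mu₁ := (63, 25)

/-- The chart `D34`. -/
def endD34 : EndChart where
  I := (var 0 * var 1)
  d := var 0
  w := (var 0 * var 2)
  den := num 100
  n₀ := ((((num 1 - (num 2 * (var 0 * var 1))) - var 0) * var 1) * ((num 95 + (num (-18) * var 1)) + (num (-89) * var 2)))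
  n₁ := ((((num 1 - (num 2 * (var 0 * var 1))) - var 0) * var 1) * ((num 4 + (num 61 * var 1)) + (num 37 * var 2)))
  q₀ := (10, 11, 40)
  q₁ := (0, 1, 5)
  q₂ := (1, 3, 10)
  q₃ := (0, 1, 1)
  t₀ := (0, 1)
  t₁ := (1, 1)
  mu₀ := (17, 10)
  mu₁ := (64, 25)

/-- The chart `D35`. -/
def endD35 : EndChart where
  I := (var 0 * var 1)
  d := var 0
  w := (var 0 * var 2)
  den := num 100
  n₀ := ((((num 1 - (num 2 * (var 0 * var 1))) - var 0) * var 1) * ((num 82 + (num (-14) * var 1)) + (num (-50) * var 2)))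
  n₁ := ((((num 1 - (num 2 * (var 0 * var 1))) - var 0) * var 1) * ((num 17 + (num 24 * var 1)) + (num 10 * var 2)))
  q₀ := (10, 11, 40)
  q₁ := (0, 1, 5)
  q₂ := (3, 8, 10)
  q₃ := (0, 1, 1)
  t₀ := (0, 1)
  t₁ := (1, 1)
  mu₀ := (63, 50)
  mu₁ := (64, 25)

/-- The chart `D36`. -/
def endD36 : EndChart where
  I := (var 0 * var 1)
  d := var 0
  w := (var 0 * var 2)
  den := num 100
  n₀ := ((((num 1 - (num 2 * (var 0 * var 1))) - var 0) * var 1) * ((num 95 + (num (-13) * var 1)) + (num (-89) * var 2)))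
  n₁ := ((((num 1 - (num 2 * (var 0 * var 1))) - var 0) * var 1) * ((num 4 + (num 58 * var 1)) + (num 39 * var 2)))
  q₀ := (22, 23, 80)
  q₁ := (0, 191, 1000)
  q₂ := (1, 3, 10)
  q₃ := (0, 1, 1)
  t₀ := (0, 1)
  t₁ := (1, 1)
  mu₀ := (167, 100)
  mu₁ := (64, 25)

/-- The chart `D37`. -/
def endD37 : EndChart where
  I := (var 0 * var 1)
  d := var 0
  w := (var 0 * var 2)
  den := num 100
  n₀ := ((((num 1 - (num 2 * (var 0 * var 1))) - var 0) * var 1) * ((num 95 + (num (-11) * var 1)) + (num (-88) * var 2)))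
  n₁ := ((((num 1 - (num 2 * (var 0 * var 1))) - var 0) * var 1) * ((num 4 + (num 59 * var 1)) + (num 37 * var 2)))
  q₀ := (23, 24, 80)
  q₁ := (0, 161, 1000)
  q₂ := (1, 3, 10)
  q₃ := (0, 1, 1)
  t₀ := (0, 1)
  t₁ := (1, 1)
  mu₀ := (167, 100)
  mu₁ := (5, 2)

/-- The chart `D38`. -/
def endD38 : EndChart where
  I := (var 0 * var 1)
  d := var 0
  w := (var 0 * var 2)
  den := num 100
  n₀ := ((((num 1 - (num 2 * (var 0 * var 1))) - var 0) * var 1) * ((num 87 + (num (-12) * var 1)) + (num (-60) * var 2)))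
  n₁ := ((((num 1 - (num 2 * (var 0 * var 1))) - var 0) * var 1) * ((num 12 + (num 26 * var 1)) + (num 19 * var 2)))
  q₀ := (22, 23, 80)
  q₁ := (0, 191, 1000)
  q₂ := (30, 73, 100)
  q₃ := (0, 1, 1)
  t₀ := (0, 1)
  t₁ := (1, 1)
  mu₀ := (63, 50)
  mu₁ := (64, 25)

/-- The chart `D39`. -/
def endD39 : EndChart where
  I := (var 0 * var 1)
  d := var 0
  w := (var 0 * var 2)
  den := num 100
  n₀ := ((((num 1 - (num 2 * (var 0 * var 1))) - var 0) * var 1) * ((num 87 + (num (-13) * var 1)) + (num (-59) * var 2)))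
  n₁ := ((((num 1 - (num 2 * (var 0 * var 1))) - var 0) * var 1) * ((num 12 + (num 24 * var 1)) + (num 19 * var 2)))
  q₀ := (23, 24, 80)
  q₁ := (0, 161, 1000)
  q₂ := (3, 7, 10)
  q₃ := (0, 1, 1)
  t₀ := (0, 1)
  t₁ := (1, 1)
  mu₀ := (129, 100)
  mu₁ := (63, 25)

/-- The chart `D40`. -/
def endD40 : EndChart where
  I := (var 0 * var 1)
  d := var 0
  w := (var 0 * var 2)
  den := num 100
  n₀ := ((((num 1 - (num 2 * (var 0 * var 1))) - var 0) * var 1) * ((num 99 + (num (-8) * var 1)) + (num (-118) * var 2)))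
  n₁ := ((((num 1 - (num 2 * (var 0 * var 1))) - var 0) * var 1) * ((num 3 + (num 67 * var 1)) + (num 50 * var 2)))
  q₀ := (15, 17, 50)
  q₁ := (0, 7, 50)
  q₂ := (1, 10, 100)
  q₃ := (0, 1, 1)
  t₀ := (0, 1)
  t₁ := (1, 1)
  mu₀ := (37, 20)
  mu₁ := (51, 20)

/-- The chart `D41`. -/
def endD41 : EndChart where
  I := (var 0 * var 1)
  d := var 0
  w := (var 0 * var 2)
  den := num 100
  n₀ := ((((num 1 - (num 2 * (var 0 * var 1))) - var 0) * var 1) * ((num 99 + (num 2 * var 1)) + (num (-114) * var 2)))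
  n₁ := ((((num 1 - (num 2 * (var 0 * var 1))) - var 0) * var 1) * ((num 2 + (num 60 * var 1)) + (num 49 * var 2)))
  q₀ := (17, 19, 50)
  q₁ := (0, 3, 50)
  q₂ := (1, 10, 100)
  q₃ := (0, 1, 1)
  t₀ := (0, 1)
  t₁ := (1, 1)
  mu₀ := (9, 5)
  mu₁ := (23, 10)

/-- The chart `D42`. -/
def endD42 : EndChart where
  I := (var 0 * var 1)
  d := var 0
  w := (var 0 * var 2)
  den := num 100
  n₀ := ((((num 1 - (num 2 * (var 0 * var 1))) - var 0) * var 1) * ((num 96 + (num (-13) * var 1)) + (num (-90) * var 2)))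
  n₁ := ((((num 1 - (num 2 * (var 0 * var 1))) - var 0) * var 1) * ((num 5 + (num 57 * var 1)) + (num 40 * var 2)))
  q₀ := (15, 17, 50)
  q₁ := (0, 7, 50)
  q₂ := (1, 3, 10)
  q₃ := (0, 1, 1)
  t₀ := (0, 1)
  t₁ := (1, 1)
  mu₀ := (81, 50)
  mu₁ := (51, 20)

/-- The chart `D43`. -/
def endD43 : EndChart where
  I := (var 0 * var 1)
  d := var 0
  w := (var 0 * var 2)
  den := num 100
  n₀ := ((((num 1 - (num 2 * (var 0 * var 1))) - var 0) * var 1) * ((num 87 + (num (-10) * var 1)) + (num (-59) * var 2)))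
  n₁ := ((((num 1 - (num 2 * (var 0 * var 1))) - var 0) * var 1) * ((num 13 + (num 31 * var 1)) + (num 18 * var 2)))
  q₀ := (15, 17, 50)
  q₁ := (0, 7, 50)
  q₂ := (30, 67, 100)
  q₃ := (0, 1, 1)
  t₀ := (0, 1)
  t₁ := (1, 1)
  mu₀ := (6, 5)
  mu₁ := (129, 50)

/-- The chart `D44`. -/
def endD44 : EndChart where
  I := (var 0 * var 1)
  d := var 0
  w := (var 0 * var 2)
  den := num 100
  n₀ := ((((num 1 - (num 2 * (var 0 * var 1))) - var 0) * var 1) * ((num 96 + (num (-5) * var 1)) + (num (-88) * var 2)))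
  n₁ := ((((num 1 - (num 2 * (var 0 * var 1))) - var 0) * var 1) * ((num 6 + (num 32 * var 1)) + (num 36 * var 2)))
  q₀ := (17, 19, 50)
  q₁ := (0, 3, 50)
  q₂ := (1, 3, 10)
  q₃ := (0, 1, 1)
  t₀ := (0, 1)
  t₁ := (1, 1)
  mu₀ := (39, 25)
  mu₁ := (233, 100)

/-- The chart `D45`. -/
def endD45 : EndChart where
  I := (var 0 * var 1)
  d := var 0
  w := (var 0 * var 2)
  den := num 100
  n₀ := ((((num 1 - (num 2 * (var 0 * var 1))) - var 0) * var 1) * ((num 88 + (num (-7) * var 1)) + (num (-59) * var 2)))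
  n₁ := ((((num 1 - (num 2 * (var 0 * var 1))) - var 0) * var 1) * ((num 8 + (num 29 * var 1)) + (num 28 * var 2)))
  q₀ := (17, 19, 50)
  q₁ := (0, 3, 50)
  q₂ := (30, 59, 100)
  q₃ := (0, 1, 1)
  t₀ := (0, 1)
  t₁ := (1, 1)
  mu₀ := (31, 25)
  mu₁ := (119, 50)

/-- The chart `D46`. -/
def endD46 : EndChart where
  I := (var 0 * var 1)
  d := var 0
  w := (var 0 * var 2)
  den := num 100
  n₀ := ((((num 1 - (num 2 * (var 0 * var 1))) - var 0) * var 1) * ((num 100 + (num (-24) * var 1)) + (num (-145) * var 2)))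
  n₁ := ((((num 1 - (num 2 * (var 0 * var 1))) - var 0) * var 1) * ((num 0 + (num 81 * var 1)) + (num 71 * var 2)))
  q₀ := (9, 10, 40)
  q₁ := (0, 223, 1000)
  q₂ := (0, 1, 100)
  q₃ := (0, 1, 1)
  t₀ := (0, 1)
  t₁ := (1, 1)
  mu₀ := (19, 10)
  mu₁ := (51, 20)

/-- The chart `D47`. -/
def endD47 : EndChart where
  I := (var 0 * var 1)
  d := var 0
  w := (var 0 * var 2)
  den := num 100
  n₀ := ((((num 1 - (num 2 * (var 0 * var 1))) - var 0) * var 1) * ((num 100 + (num (-19) * var 1)) + (num (-142) * var 2)))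
  n₁ := ((((num 1 - (num 2 * (var 0 * var 1))) - var 0) * var 1) * ((num 0 + (num 81 * var 1)) + (num 71 * var 2)))
  q₀ := (10, 11, 40)
  q₁ := (0, 1, 5)
  q₂ := (0, 1, 100)
  q₃ := (0, 1, 1)
  t₀ := (0, 1)
  t₁ := (1, 1)
  mu₀ := (19, 10)
  mu₁ := (257, 100)

/-- The chart `D48`. -/
def endD48 : EndChart where
  I := (var 0 * var 1)
  d := var 0
  w := (var 0 * var 2)
  den := num 100
  n₀ := ((((num 1 - (num 2 * (var 0 * var 1))) - var 0) * var 1) * ((num 100 + (num (-13) * var 1)) + (num (-140) * var 2)))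
  n₁ := ((((num 1 - (num 2 * (var 0 * var 1))) - var 0) * var 1) * ((num 0 + (num 78 * var 1)) + (num 70 * var 2)))
  q₀ := (22, 23, 80)
  q₁ := (0, 191, 1000)
  q₂ := (0, 1, 100)
  q₃ := (0, 1, 1)
  t₀ := (0, 1)
  t₁ := (1, 1)
  mu₀ := (19, 10)
  mu₁ := (129, 50)

/-- The chart `D49`. -/
def endD49 : EndChart where
  I := (var 0 * var 1)
  d := var 0
  w := (var 0 * var 2)
  den := num 100
  n₀ := ((((num 1 - (num 2 * (var 0 * var 1))) - var 0) * var 1) * ((num 100 + (num (-11) * var 1)) + (num (-138) * var 2)))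
  n₁ := ((((num 1 - (num 2 * (var 0 * var 1))) - var 0) * var 1) * ((num 0 + (num 78 * var 1)) + (num 69 * var 2)))
  q₀ := (23, 24, 80)
  q₁ := (0, 161, 1000)
  q₂ := (0, 1, 100)
  q₃ := (0, 1, 1)
  t₀ := (0, 1)
  t₁ := (1, 1)
  mu₀ := (19, 10)
  mu₁ := (63, 25)

/-- The chart `D50`. -/
def endD50 : EndChart where
  I := (var 0 * var 1)
  d := var 0
  w := (var 0 * var 2)
  den := num 100
  n₀ := ((((num 1 - (num 2 * (var 0 * var 1))) - var 0) * var 1) * ((num 100 + (num (-8) * var 1)) + (num (-137) * var 2)))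
  n₁ := ((((num 1 - (num 2 * (var 0 * var 1))) - var 0) * var 1) * ((num 0 + (num 83 * var 1)) + (num 72 * var 2)))
  q₀ := (15, 17, 50)
  q₁ := (0, 67, 500)
  q₂ := (0, 1, 100)
  q₃ := (0, 1, 1)
  t₀ := (0, 1)
  t₁ := (1, 1)
  mu₀ := (19, 10)
  mu₁ := (253, 100)

/-- The chart `D51`. -/
def endD51 : EndChart where
  I := (var 0 * var 1)
  d := var 0
  w := (var 0 * var 2)
  den := num 100
  n₀ := ((((num 1 - (num 2 * (var 0 * var 1))) - var 0) * var 1) * ((num 100 + (num 0 * var 1)) + (num (-133) * var 2)))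
  n₁ := ((((num 1 - (num 2 * (var 0 * var 1))) - var 0) * var 1) * ((num 0 + (num 80 * var 1)) + (num 72 * var 2)))
  q₀ := (17, 19, 50)
  q₁ := (0, 59, 1000)
  q₂ := (0, 1, 100)
  q₃ := (0, 1, 1)
  t₀ := (0, 1)
  t₁ := (1, 1)
  mu₀ := (19, 10)
  mu₁ := (23, 10)

/-- The chart `D52`. -/
def endD52 : EndChart where
  I := (var 0 * var 1)
  d := var 0
  w := (var 0 * var 2)
  den := num 100
  n₀ := ((((num 1 - (num 2 * (var 0 * var 1))) - var 0) * var 1) * ((num 92 + (num (-44) * var 1)) + (num (-85) * var 2)))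
  n₁ := ((((num 1 - (num 2 * (var 0 * var 1))) - var 0) * var 1) * ((num 9 + (num 54 * var 1)) + (num (-75) * var 2)))
  q₀ := (3, 5, 100)
  q₁ := (5, 7, 10)
  q₂ := (0, 1, 10)
  q₃ := (0, 1, 1)
  t₀ := (0, 1)
  t₁ := (1, 1)
  mu₀ := (39, 20)
  mu₁ := (23, 10)

/-- The chart `D53`. -/
def endD53 : EndChart where
  I := (var 0 * var 1)
  d := var 0
  w := (var 0 * var 2)
  den := num 100
  n₀ := ((((num 1 - (num 2 * (var 0 * var 1))) - var 0) * var 1) * ((num 94 + (num (-45) * var 1)) + (num (-88) * var 2)))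
  n₁ := ((((num 1 - (num 2 * (var 0 * var 1))) - var 0) * var 1) * ((num 7 + (num 60 * var 1)) + (num (-76) * var 2)))
  q₀ := (5, 7, 100)
  q₁ := (5, 7, 10)
  q₂ := (0, 1, 10)
  q₃ := (0, 1, 1)
  t₀ := (0, 1)
  t₁ := (1, 1)
  mu₀ := (2, 1)
  mu₁ := (12, 5)

/-- The chart `D54`. -/
def endD54 : EndChart where
  I := (var 0 * var 1)
  d := var 0
  w := (var 0 * var 2)
  den := num 100
  n₀ := ((((num 1 - (num 2 * (var 0 * var 1))) - var 0) * var 1) * ((num 96 + (num (-45) * var 1)) + (num (-97) * var 2)))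
  n₁ := ((((num 1 - (num 2 * (var 0 * var 1))) - var 0) * var 1) * ((num 21 + (num 45 * var 1)) + (num (-117) * var 2)))
  q₀ := (7, 10, 100)
  q₁ := (100, 143, 200)
  q₂ := (0, 1, 10)
  q₃ := (0, 1, 1)
  t₀ := (0, 1)
  t₁ := (1, 1)
  mu₀ := (2, 1)
  mu₁ := (64, 25)

/-- The chart `D55`. -/
def endD55 : EndChart where
  I := (var 0 * var 1)
  d := var 0
  w := (var 0 * var 2)
  den := num 100
  n₀ := ((((num 1 - (num 2 * (var 0 * var 1))) - var 0) * var 1) * ((num 74 + (num (-30) * var 1)) + (num (-40) * var 2)))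
  n₁ := ((((num 1 - (num 2 * (var 0 * var 1))) - var 0) * var 1) * ((num 32 + (num 15 * var 1)) + (num (-32) * var 2)))
  q₀ := (0, 1, 20)
  q₁ := (1, 2, 2)
  q₂ := (2, 9, 20)
  q₃ := (0, 1, 1)
  t₀ := (0, 1)
  t₁ := (1, 1)
  mu₀ := (46, 25)
  mu₁ := (23, 10)

/-- The chart `D56`. -/
def endD56 : EndChart where
  I := (var 0 * var 1)
  d := var 0
  w := (var 0 * var 2)
  den := num 100
  n₀ := ((((num 1 - (num 2 * (var 0 * var 1))) - var 0) * var 1) * ((num 79 + (num (-29) * var 1)) + (num (-50) * var 2)))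
  n₁ := ((((num 1 - (num 2 * (var 0 * var 1))) - var 0) * var 1) * ((num 26 + (num 19 * var 1)) + (num (-22) * var 2)))
  q₀ := (5, 7, 100)
  q₁ := (1, 2, 2)
  q₂ := (2, 9, 20)
  q₃ := (0, 1, 1)
  t₀ := (0, 1)
  t₁ := (1, 1)
  mu₀ := (9, 5)
  mu₁ := (241, 100)

/-- The chart `D57`. -/
def endD57 : EndChart where
  I := (var 0 * var 1)
  d := var 0
  w := (var 0 * var 2)
  den := num 100
  n₀ := ((((num 1 - (num 2 * (var 0 * var 1))) - var 0) * var 1) * ((num 83 + (num (-30) * var 1)) + (num (-59) * var 2)))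
  n₁ := ((((num 1 - (num 2 * (var 0 * var 1))) - var 0) * var 1) * ((num 34 + (num 10 * var 1)) + (num (-13) * var 2)))
  q₀ := (7, 10, 100)
  q₁ := (100, 143, 200)
  q₂ := (2, 9, 20)
  q₃ := (0, 1, 1)
  t₀ := (0, 1)
  t₁ := (1, 1)
  mu₀ := (183, 100)
  mu₁ := (249, 100)

end Vale.Agent.P100.Calib.StripEnd
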