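import Vale.Agent.P100.Calib.SlabStripEndData

/-!
# The charts `CA` and `CB` cut along `d / w`, with their sharper windows
-/

namespace Vale.Agent.P100.Calib.StripEnd

open Pack StripMid

/-- A part of the chart `CA`. -/
def endCA1 : EndChart where
  I := endCA.I
  d := endCA.d
  w := endCA.w
  den := endCA.den
  n₀ := endCA.n₀
  n₁ := endCA.n₁
  q₀ := (0, 1, 20)
  q₁ := (0, 5, 12)
  q₂ := (0, 53, 50)
  q₃ := (49, 103, 100)
  t₀ := (49, 100)
  t₁ := (103, 100)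
  mu₀ := (186, 100)
  mu₁ := (206, 100)

/-- A part of the chart `CA`. -/
def endCA2 : EndChart where
  I := endCA.I
  d := endCA.d
  w := endCA.w
  den := endCA.den
  n₀ := endCA.n₀
  n₁ := endCA.n₁
  q₀ := (0, 1, 20)
  q₁ := (25, 36, 60)
  q₂ := (0, 53, 50)
  q₃ := (52, 95, 100)
  t₀ := (52, 100)
  t₁ := (95, 100)
  mu₀ := (186, 100)
  mu₁ := (209, 100)

/-- A part of the chart `CA`. -/
def endCA3 : EndChart where
  I := endCA.I
  d := endCA.d
  w := endCA.w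
  den := endCA.den
  n₀ := endCA.n₀
  n₁ := endCA.n₁
  q₀ := (0, 1, 20)
  q₁ := (3, 5, 5)
  q₂ := (0, 53, 50)
  q₃ := (51, 97, 100)
  t₀ := (51, 100)
  t₁ := (97, 100)
  mu₀ := (186, 100)
  mu₁ := (218, 100)

/-- A part of the chart `CB`. -/
def endCB1 : EndChart where
  I := endCB.I
  d := endCB.d
  w := endCB.w
  den := endCB.den
  n₀ := endCB.n₀
  n₁ := endCB.n₁
  q₀ := (1, 4, 20)
  q₁ := (0, 1, 20)
  q₂ := (0, 5, 12)
  q₃ := (47, 110, 100)
  t₀ := (47, 100)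
  t₁ := (110, 100)
  mu₀ := (150, 100)
  mu₁ := (225, 100)

/-- A part of the chart `CB`. -/
def endCB2 : EndChart where
  I := endCB.I
  d := endCB.d
  w := endCB.w
  den := endCB.den
  n₀ := endCB.n₀
  n₁ := endCB.n₁
  q₀ := (1, 4, 20)
  q₁ := (0, 1, 20)
  q₂ := (25, 36, 60)
  q₃ := (47, 99, 100)
  t₀ := (47, 100)
  t₁ := (99, 100)
  mu₀ := (149, 100)
  mu₁ := (228, 100)

/-- A part of the chart `CB`. -/
def endCB3 : EndChart where
  I := endCB.I
  d := endCB.d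
  w := endCB.w
  den := endCB.den
  n₀ := endCB.n₀
  n₁ := endCB.n₁
  q₀ := (5, 14, 100)
  q₁ := (0, 1, 20)
  q₂ := (3, 5, 5)
  q₃ := (48, 97, 100)
  t₀ := (48, 100)
  t₁ := (97, 100)
  mu₀ := (162, 100)
  mu₁ := (231, 100)

/-- A part of the chart `CB`. -/
def endCB4 : EndChart where
  I := endCB.I
  d := endCB.d
  w := endCB.w
  den := endCB.den
  n₀ := endCB.n₀
  n₁ := endCB.n₁
  q₀ := (5, 12, 60)
  q₁ := (0, 1, 20)
  q₂ := (5, 12, 12)
  q₃ := (44, 96, 100)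
  t₀ := (44, 100)
  t₁ := (96, 100)
  mu₀ := (142, 100)
  mu₁ := (239, 100)

end Vale.Agent.P100.Calib.StripEnd
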