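import Vale.Agent.P100.Calib.SlabStripEndChart

/-!
# The charts of the strip for `u` near one and `N` between seven and twenty

`x₀` is `I`, `d` or `w`.
-/

namespace Vale.Agent.P100.Calib.StripEnd

open Pack Pack.Ex

local instance endSevDataAdd : Add Ex := ⟨Ex.add⟩
local instance endSevDataSub : Sub Ex := ⟨Ex.sub⟩
local instance endSevDataMul : Mul Ex := ⟨Ex.mul⟩

/-- The chart `IAL`. -/
def sevIAL : EndChart where
  I := var 0
  d := (var 0 * var 2)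
  w := (var 0 * var 1)
  den := (num 20 + (num 19 * var 1))
  n₀ := num 20
  n₁ := num (-20)
  q₀ := (1, 2, 20)
  q₁ := (0, 1, 1)
  q₂ := (0, 3, 20)
  q₃ := (0, 11, 20)
  t₀ := (11, 20)
  t₁ := (0, 1)
  mu₀ := (83, 50)
  mu₁ := (113, 50)

/-- The chart `IBL`. -/
def sevIBL : EndChart where
  I := var 0
  d := (var 0 * var 2)
  w := (var 0 * var 1)
  den := (num 40 + (num 39 * var 1))
  n₀ := num 40
  n₁ := num (-40)
  q₀ := (1, 2, 20)
  q₁ := (0, 1, 1)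
  q₂ := (3, 10, 20)
  q₃ := (0, 57, 100)
  t₀ := (57, 100)
  t₁ := (0, 1)
  mu₀ := (41, 25)
  mu₁ := (243, 100)

/-- The chart `ICL`. -/
def sevICL : EndChart where
  I := var 0
  d := (var 0 * var 2)
  w := (var 0 * var 1)
  den := (num 30 + (num 29 * var 1))
  n₀ := num 30
  n₁ := num (-30)
  q₀ := (1, 2, 20)
  q₁ := (0, 1, 1)
  q₂ := (2, 3, 4)
  q₃ := (0, 3, 5)
  t₀ := (3, 5)
  t₁ := (0, 1)
  mu₀ := (33, 20)
  mu₁ := (67, 25)

/-- The chart `IDL`. -/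
def sevIDL : EndChart where
  I := var 0
  d := (var 0 * var 2)
  w := (var 0 * var 1)
  den := (num 40 + (num 39 * var 1))
  n₀ := num 40
  n₁ := num (-40)
  q₀ := (1, 2, 20)
  q₁ := (0, 1, 1)
  q₂ := (375, 474, 500)
  q₃ := (0, 61, 100)
  t₀ := (61, 100)
  t₁ := (0, 1)
  mu₀ := (42, 25)
  mu₁ := (289, 100)

/-- The chart `IEL`. -/
def sevIEL : EndChart where
  I := var 0
  d := (var 0 * var 2)
  w := (var 0 * var 1)
  den := (num 40 + (num 39 * var 1))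
  n₀ := num 40
  n₁ := num (-40)
  q₀ := (1, 2, 20)
  q₁ := (0, 1, 1)
  q₂ := (111, 125, 125)
  q₃ := (0, 123, 200)
  t₀ := (123, 200)
  t₁ := (0, 1)
  mu₀ := (43, 25)
  mu₁ := (59, 20)

/-- The chart `IAH`. -/
def sevIAH : EndChart where
  I := var 0
  d := (var 0 * var 2)
  w := (var 0 * var 1)
  den := (num 14 + (num 13 * var 1))
  n₀ := num 14
  n₁ := num (-14)
  q₀ := (1000, 1267, 10000)
  q₁ := (0, 1, 1)
  q₂ := (0, 3, 20)
  q₃ := (0, 57, 100)
  t₀ := (57, 100)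
  t₁ := (0, 1)
  mu₀ := (39, 25)
  mu₁ := (239, 100)

/-- The chart `IBH`. -/
def sevIBH : EndChart where
  I := var 0
  d := (var 0 * var 2)
  w := (var 0 * var 1)
  den := (num 20 + (num 19 * var 1))
  n₀ := num 20
  n₁ := num (-20)
  q₀ := (1000, 1267, 10000)
  q₁ := (0, 1, 1)
  q₂ := (3, 10, 20)
  q₃ := (0, 61, 100)
  t₀ := (61, 100)
  t₁ := (0, 1)
  mu₀ := (149, 100)
  mu₁ := (261, 100)

/-- The chart `ICH`. -/
def sevICH : EndChart where
  I := var 0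
  d := (var 0 * var 2)
  w := (var 0 * var 1)
  den := (num 30 + (num 29 * var 1))
  n₀ := num 30
  n₁ := num (-30)
  q₀ := (1000, 1267, 10000)
  q₁ := (0, 1, 1)
  q₂ := (2, 3, 4)
  q₃ := (0, 127, 200)
  t₀ := (127, 200)
  t₁ := (0, 1)
  mu₀ := (149, 100)
  mu₁ := (149, 50)

/-- The chart `IDH`. -/
def sevIDH : EndChart where
  I := var 0
  d := (var 0 * var 2)
  w := (var 0 * var 1)
  den := (num 40 + (num 39 * var 1))
  n₀ := num 40
  n₁ := num (-40)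
  q₀ := (1000, 1267, 10000)
  q₁ := (0, 1, 1)
  q₂ := (750, 889, 1000)
  q₃ := (0, 16, 25)
  t₀ := (16, 25)
  t₁ := (0, 1)
  mu₀ := (39, 25)
  mu₁ := (321, 100)

/-- The chart `IEH`. -/
def sevIEH : EndChart where
  I := var 0
  d := (var 0 * var 2)
  w := (var 0 * var 1)
  den := (num 40 + (num 39 * var 1))
  n₀ := num 40
  n₁ := num (-40)
  q₀ := (1000, 1267, 10000)
  q₁ := (0, 1, 1)
  q₂ := (427, 500, 500)
  q₃ := (0, 129, 200)
  t₀ := (129, 200)
  t₁ := (0, 1)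
  mu₀ := (159, 100)
  mu₁ := (341, 100)

/-- The chart `IAG`. -/
def sevIAG : EndChart where
  I := var 0
  d := (var 0 * var 2)
  w := (var 0 * var 1)
  den := (num 14 + (num 13 * var 1))
  n₀ := num 14
  n₁ := num (-14)
  q₀ := (1267, 1429, 10000)
  q₁ := (0, 1, 1)
  q₂ := (0, 3, 20)
  q₃ := (0, 23, 40)
  t₀ := (23, 40)
  t₁ := (0, 1)
  mu₀ := (3, 2)
  mu₁ := (62, 25)

/-- The chart `IBG`. -/
def sevIBG : EndChart where
  I := var 0
  d := (var 0 * var 2)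
  w := (var 0 * var 1)
  den := (num 30 + (num 29 * var 1))
  n₀ := num 30
  n₁ := num (-30)
  q₀ := (1267, 1429, 10000)
  q₁ := (0, 1, 1)
  q₂ := (3, 10, 20)
  q₃ := (0, 61, 100)
  t₀ := (61, 100)
  t₁ := (0, 1)
  mu₀ := (143, 100)
  mu₁ := (273, 100)

/-- The chart `ICG`. -/
def sevICG : EndChart where
  I := var 0
  d := (var 0 * var 2)
  w := (var 0 * var 1)
  den := (num 30 + (num 29 * var 1))
  n₀ := num 30
  n₁ := num (-30)
  q₀ := (1267, 1429, 10000)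
  q₁ := (0, 1, 1)
  q₂ := (5, 7, 10)
  q₃ := (0, 16, 25)
  t₀ := (16, 25)
  t₁ := (0, 1)
  mu₀ := (143, 100)
  mu₁ := (31, 10)

/-- The chart `IDGa`. -/
def sevIDGa : EndChart where
  I := var 0
  d := (var 0 * var 2)
  w := (var 0 * var 1)
  den := (num 40 + (num 39 * var 1))
  n₀ := num 40
  n₁ := num (-40)
  q₀ := (1267, 1350, 10000)
  q₁ := (0, 1, 1)
  q₂ := (700, 857, 1000)
  q₃ := (0, 129, 200)
  t₀ := (129, 200)
  t₁ := (0, 1)
  mu₀ := (151, 100)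
  mu₁ := (329, 100)

/-- The chart `IDGb`. -/
def sevIDGb : EndChart where
  I := var 0
  d := (var 0 * var 2)
  w := (var 0 * var 1)
  den := (num 40 + (num 39 * var 1))
  n₀ := num 40
  n₁ := num (-40)
  q₀ := (1350, 1429, 10000)
  q₁ := (0, 1, 1)
  q₂ := (140, 163, 200)
  q₃ := (0, 129, 200)
  t₀ := (129, 200)
  t₁ := (0, 1)
  mu₀ := (3, 2)
  mu₁ := (167, 50)

/-- The chart `IEGc`. -/
def sevIEGc : EndChart where
  I := var 0
  d := (var 0 * var 2)
  w := (var 0 * var 1)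
  den := (num 40 + (num 39 * var 1))
  n₀ := num 40
  n₁ := num (-40)
  q₀ := (1267, 1310, 10000)
  q₁ := (0, 1, 1)
  q₂ := (21, 25, 25)
  q₃ := (0, 131, 200)
  t₀ := (131, 200)
  t₁ := (0, 1)
  mu₀ := (31, 20)
  mu₁ := (7, 2)

/-- The chart `IEGd`. -/
def sevIEGd : EndChart where
  I := var 0
  d := (var 0 * var 2)
  w := (var 0 * var 1)
  den := (num 40 + (num 39 * var 1))
  n₀ := num 40
  n₁ := num (-40)
  q₀ := (655, 678, 5000)
  q₁ := (0, 1, 1)
  q₂ := (84, 91, 100)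
  q₃ := (0, 131, 200)
  t₀ := (131, 200)
  t₁ := (0, 1)
  mu₀ := (77, 50)
  mu₁ := (17, 5)

/-- The chart `ZBL`. -/
def sevZBL : EndChart where
  I := var 1
  d := (var 1 * var 2)
  w := var 0
  den := (((num 2 * var 1) + (num 2 * var 0)) + (var 1 * var 2))
  n₀ := num 0
  n₁ := (num 2 * var 1)
  q₀ := (1, 4, 20)
  q₁ := (1, 2, 20)
  q₂ := (0, 237, 250)
  q₃ := (41, 110, 100)
  t₀ := (41, 100)
  t₁ := (11, 10)
  mu₀ := (133, 100)
  mu₁ := (263, 100)

/-- The chart `CBL`. -/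
def sevCBL : EndChart where
  I := var 1
  d := (var 0 * var 2)
  w := var 0
  den := (((num 2 * var 1) + (num 2 * var 0)) + (var 0 * var 2))
  n₀ := num 0
  n₁ := (num 2 * var 1)
  q₀ := (1, 4, 20)
  q₁ := (1, 2, 20)
  q₂ := (1, 5, 5)
  q₃ := (41, 111, 100)
  t₀ := (41, 100)
  t₁ := (111, 100)
  mu₀ := (133, 100)
  mu₁ := (291, 100)

/-- The chart `ZBH`. -/
def sevZBH : EndChart where
  I := var 1
  d := (var 1 * var 2)
  w := var 0
  den := (((num 2 * var 1) + (num 2 * var 0)) + (var 1 * var 2))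
  n₀ := num 0
  n₁ := (num 2 * var 1)
  q₀ := (1, 2, 10)
  q₁ := (1000, 1429, 10000)
  q₂ := (0, 889, 1000)
  q₃ := (15, 44, 40)
  t₀ := (3, 8)
  t₁ := (11, 10)
  mu₀ := (59, 50)
  mu₁ := (307, 100)

/-- The chart `CBH`. -/
def sevCBH : EndChart where
  I := var 1
  d := (var 0 * var 2)
  w := var 0
  den := (((num 2 * var 1) + (num 2 * var 0)) + (var 0 * var 2))
  n₀ := num 0
  n₁ := (num 2 * var 1)
  q₀ := (1, 2, 10)
  q₁ := (1000, 1429, 10000)
  q₂ := (2, 5, 5)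
  q₃ := (36, 111, 100)
  t₀ := (9, 25)
  t₁ := (111, 100)
  mu₀ := (113, 100)
  mu₁ := (339, 100)

/-- The chart `Da`. -/
def sevDa : EndChart where
  I := (var 0 * var 1)
  d := var 0
  w := (var 0 * var 2)
  den := (num 100 * (num 1 * ((num 2 * var 1) + (num 1 * ((num 2 * var 2) + num 1)))))
  n₀ := ((var 1 * (num 1 - var 0)) * ((num 100 * num 1) + ((num 30 * var 1) + (num 0 * (num 1 * var 2)))))
  n₁ := ((var 1 * (num 1 - var 0)) * ((num 170 * var 1) + (num 20 * (num 1 * var 2))))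
  q₀ := (5, 9, 100)
  q₁ := (111, 200, 200)
  q₂ := (0, 1, 10)
  q₃ := (-1, 100, 100)
  t₀ := (-1, 100)
  t₁ := (1, 1)
  mu₀ := (201, 100)
  mu₁ := (11, 4)

/-- The chart `Db`. -/
def sevDb : EndChart where
  I := (var 0 * var 1)
  d := var 0
  w := (var 0 * var 2)
  den := (num 100 * (num 1 * ((num 2 * var 1) + (num 1 * ((num 2 * var 2) + num 1)))))
  n₀ := ((var 1 * (num 1 - var 0)) * ((num 100 * num 1) + ((num 8 * var 1) + (num 5 * (num 1 * var 2)))))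
  n₁ := ((var 1 * (num 1 - var 0)) * ((num 192 * var 1) + (num 15 * (num 1 * var 2))))
  q₀ := (5, 9, 100)
  q₁ := (111, 200, 200)
  q₂ := (1, 10, 10)
  q₃ := (-3, 95, 100)
  t₀ := (-3, 100)
  t₁ := (19, 20)
  mu₀ := (7, 4)
  mu₁ := (269, 100)

/-- The chart `Dc`. -/
def sevDc : EndChart where
  I := (var 0 * var 1)
  d := var 0
  w := (var 0 * var 2)
  den := (num 100 * (num 1 * ((num 2 * var 1) + (num 1 * ((num 2 * var 2) + num 1)))))
  n₀ := ((var 1 * (num 1 - var 0)) * ((num 100 * num 1) + ((num 30 * var 1) + (num 0 * (num 1 * var 2)))))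
  n₁ := ((var 1 * (num 1 - var 0)) * ((num 170 * var 1) + (num 20 * (num 1 * var 2))))
  q₀ := (9, 13, 100)
  q₁ := (48, 125, 125)
  q₂ := (0, 1, 10)
  q₃ := (-1, 25, 25)
  t₀ := (-1, 25)
  t₁ := (1, 1)
  mu₀ := (201, 100)
  mu₁ := (33, 10)

/-- The chart `Dd`. -/
def sevDd : EndChart where
  I := (var 0 * var 1)
  d := var 0
  w := (var 0 * var 2)
  den := (num 100 * (num 1 * ((num 2 * var 1) + (num 1 * ((num 2 * var 2) + num 1)))))
  n₀ := ((var 1 * (num 1 - var 0)) * ((num 100 * num 1) + ((num 8 * var 1) + (num 5 * (num 1 * var 2)))))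
  n₁ := ((var 1 * (num 1 - var 0)) * ((num 192 * var 1) + (num 15 * (num 1 * var 2))))
  q₀ := (9, 13, 100)
  q₁ := (48, 125, 125)
  q₂ := (1, 10, 10)
  q₃ := (-6, 95, 100)
  t₀ := (-3, 50)
  t₁ := (19, 20)
  mu₀ := (81, 50)
  mu₁ := (321, 100)

/-- The chart `De`. -/
def sevDe : EndChart where
  I := var 1
  d := var 0
  w := (var 0 * var 2)
  den := (num 100 * (var 0 * ((num 2 * var 1) + (var 0 * ((num 2 * var 2) + num 1)))))
  n₀ := ((var 1 * (num 1 - var 0)) * ((num 100 * var 0) + ((num 30 * var 1) + (num 0 * (var 0 * var 2)))))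
  n₁ := ((var 1 * (num 1 - var 0)) * ((num 170 * var 1) + (num 20 * (var 0 * var 2))))
  q₀ := (13, 16, 100)
  q₁ := (2, 5, 40)
  q₂ := (0, 1, 10)
  q₃ := (-1, 25, 25)
  t₀ := (-1, 25)
  t₁ := (1, 1)
  mu₀ := (51, 25)
  mu₁ := (83, 25)

/-- The chart `Df`. -/
def sevDf : EndChart where
  I := var 1
  d := var 0
  w := (var 0 * var 2)
  den := (num 100 * (var 0 * ((num 2 * var 1) + (var 0 * ((num 2 * var 2) + num 1)))))
  n₀ := ((var 1 * (num 1 - var 0)) * ((num 100 * var 0) + ((num 8 * var 1) + (num 5 * (var 0 * var 2)))))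
  n₁ := ((var 1 * (num 1 - var 0)) * ((num 192 * var 1) + (num 25 * (var 0 * var 2))))
  q₀ := (13, 16, 100)
  q₁ := (2, 5, 40)
  q₂ := (1, 10, 10)
  q₃ := (-3, 55, 50)
  t₀ := (-3, 50)
  t₁ := (11, 10)
  mu₀ := (38, 25)
  mu₁ := (333, 100)

/-- The chart `Dg`. -/
def sevDg : EndChart where
  I := var 1
  d := var 0
  w := (var 0 * var 2)
  den := (num 100 * (var 0 * ((num 2 * var 1) + (var 0 * ((num 2 * var 2) + num 1)))))
  n₀ := ((var 1 * (num 1 - var 0)) * ((num 100 * var 0) + ((num 30 * var 1) + (num 0 * (var 0 * var 2)))))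
  n₁ := ((var 1 * (num 1 - var 0)) * ((num 170 * var 1) + (num 20 * (var 0 * var 2))))
  q₀ := (4, 5, 25)
  q₁ := (5, 11, 100)
  q₂ := (0, 1, 10)
  q₃ := (-3, 102, 100)
  t₀ := (-3, 100)
  t₁ := (51, 50)
  mu₀ := (51, 25)
  mu₁ := (161, 50)

/-- The chart `Dh`. -/
def sevDh : EndChart where
  I := var 1
  d := var 0
  w := (var 0 * var 2)
  den := (num 100 * (var 0 * ((num 2 * var 1) + (var 0 * ((num 2 * var 2) + num 1)))))
  n₀ := ((var 1 * (num 1 - var 0)) * ((num 100 * var 0) + ((num 8 * var 1) + (num 5 * (var 0 * var 2)))))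
  n₁ := ((var 1 * (num 1 - var 0)) * ((num 192 * var 1) + (num 35 * (var 0 * var 2))))
  q₀ := (4, 5, 25)
  q₁ := (5, 11, 100)
  q₂ := (1, 10, 10)
  q₃ := (-3, 55, 50)
  t₀ := (-3, 50)
  t₁ := (11, 10)
  mu₀ := (7, 5)
  mu₁ := (321, 100)

/-- The chart `Di`. -/
def sevDi : EndChart where
  I := var 1
  d := var 0
  w := (var 0 * var 2)
  den := (num 100 * (var 0 * ((num 2 * var 1) + (var 0 * ((num 2 * var 2) + num 1)))))
  n₀ := ((var 1 * (num 1 - var 0)) * ((num 100 * var 0) + ((num 30 * var 1) + (num 0 * (var 0 * var 2)))))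
  n₁ := ((var 1 * (num 1 - var 0)) * ((num 170 * var 1) + (num 40 * (var 0 * var 2))))
  q₀ := (5, 6, 25)
  q₁ := (5, 9, 100)
  q₂ := (0, 1, 10)
  q₃ := (-1, 51, 50)
  t₀ := (-1, 50)
  t₁ := (51, 50)
  mu₀ := (41, 20)
  mu₁ := (151, 50)

/-- The chart `Dj`. -/
def sevDj : EndChart where
  I := var 1
  d := var 0
  w := (var 0 * var 2)
  den := (num 100 * (var 0 * ((num 2 * var 1) + (var 0 * ((num 2 * var 2) + num 1)))))
  n₀ := ((var 1 * (num 1 - var 0)) * ((num 100 * var 0) + ((num 8 * var 1) + (num 5 * (var 0 * var 2)))))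
  n₁ := ((var 1 * (num 1 - var 0)) * ((num 192 * var 1) + (num 55 * (var 0 * var 2))))
  q₀ := (5, 6, 25)
  q₁ := (5, 9, 100)
  q₂ := (1, 10, 10)
  q₃ := (-6, 107, 100)
  t₀ := (-3, 50)
  t₁ := (107, 100)
  mu₀ := (61, 50)
  mu₁ := (31, 10)

/-- The chart `Dk`. -/
def sevDk : EndChart where
  I := var 1
  d := var 0
  w := (var 0 * var 2)
  den := (num 100 * (var 0 * ((num 2 * var 1) + (var 0 * ((num 2 * var 2) + num 1)))))
  n₀ := ((var 1 * (num 1 - var 0)) * ((num 100 * var 0) + ((num 30 * var 1) + (num 0 * (var 0 * var 2)))))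
  n₁ := ((var 1 * (num 1 - var 0)) * ((num 170 * var 1) + (num 40 * (var 0 * var 2))))
  q₀ := (6, 7, 25)
  q₁ := (5, 7, 100)
  q₂ := (0, 1, 10)
  q₃ := (-1, 51, 50)
  t₀ := (-1, 50)
  t₁ := (51, 50)
  mu₀ := (103, 50)
  mu₁ := (281, 100)

/-- The chart `Dl`. -/
def sevDl : EndChart where
  I := var 1
  d := var 0
  w := (var 0 * var 2)
  den := (num 100 * (var 0 * ((num 2 * var 1) + (var 0 * ((num 2 * var 2) + num 1)))))
  n₀ := ((var 1 * (num 1 - var 0)) * ((num 100 * var 0) + ((num 8 * var 1) + (num 5 * (var 0 * var 2)))))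
  n₁ := ((var 1 * (num 1 - var 0)) * ((num 192 * var 1) + (num 55 * (var 0 * var 2))))
  q₀ := (6, 7, 25)
  q₁ := (5, 7, 100)
  q₂ := (5, 42, 50)
  q₃ := (-6, 105, 100)
  t₀ := (-3, 50)
  t₁ := (21, 20)
  mu₀ := (123, 100)
  mu₁ := (283, 100)

end Vale.Agent.P100.Calib.StripEnd
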