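import Vale.Agent.P100.Calib.SlabStripEndHom
import Vale.Agent.P100.Calib.SlabStripMidCore

/-!
# The values at the ends of a piece of the strip for `u` near one
-/

set_option linter.unusedVariables false

namespace Vale.Agent.P100.Calib.StripEnd

open Pack StripMid

local instance endEndsAdd : Add Ex := ⟨Ex.add⟩
local instance endEndsSub : Sub Ex := ⟨Ex.sub⟩
local instance endEndsMul : Mul Ex := ⟨Ex.mul⟩

/-- The value of a fraction. -/
noncomputable def fr (q : ℤ × ℕ) : ℝ := (q.1 : ℝ) / (q.2 : ℝ)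

variable (P : Piece) (x : ℕ → ℝ)

/-- `a`. -/
noncomputable def xa : ℝ := P.A.eval x / 2

/-- `v`. -/
noncomputable def xv : ℝ := P.vn.eval x / P.vd.eval x

/-- `C` at an end of `μ`. -/
noncomputable def cE (b : Bool) : ℝ := (P.N b).eval x / (P.Qd b).eval x

/-- `C` at an end of the piece. -/
noncomputable def cT (b : Bool) : ℝ := P.A.eval x * (P.pn b).eval x / (P.pd.eval x * P.qn.eval x)

/-- `b g W` at an end of the piece. -/
noncomputable def pE (b : Bool) : ℝ := 4 * cT P x b / P.S.eval x

/-- An end of `e`, the upper one for `false`. -/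
noncomputable def eE (b : Bool) : ℝ := -((P.en b).eval x / P.f0.eval x)

/-- An end of `k`, the upper one for `true`. -/
noncomputable def kE (b : Bool) : ℝ := -((P.kk (!b)).eval x / P.f0.eval x)

/-- An end of `b² g W1`. -/
noncomputable def wE (b : Bool) : ℝ := (P.wn b).eval x / P.wd.eval x

/-- An end of `T`. -/
noncomputable def tE (b : Bool) : ℝ := P.B.eval x * (P.tn b).eval x / P.td.eval x

/-- `D2 d`. -/
noncomputable def kap : ℝ := P.cn.eval x / P.cd.eval x

/-- The scaled fields at an end. -/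
noncomputable def vAt (p e k w T : ℝ) : ℕ → ℝ :=
  vec (xa P x) (P.d.eval x) (xv P x) p e k w T (kap P x)

/-- What the constants of a piece satisfy. -/
structure Piece.Pos : Prop where
  mu : 0 < P.mu.lo.2 ∧ 0 < P.mu.hi.2
  k2 : 0 < P.k2.1 ∧ 0 < P.k2.2
  θ : P.θ.1 < P.θ.2

/-- What a point of a piece satisfies. -/
structure Place : Prop where
  I : 0 < P.I.eval x
  d : 0 < P.d.eval x
  A : 0 < P.A.eval x
  S : 0 < P.S.eval x
  U : 0 < P.U.eval x
  den : 0 < P.den.eval x
  o : 0 < P.o.eval x
  o_lt : P.o.eval x < P.den.eval x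
  pd : 0 < P.pd.eval x
  e0 : 0 < (P.en false).eval x
  f0 : 0 < P.f0.eval x
  wd : 0 < P.wd.eval x
  td : 0 < P.td.eval x
  cd : 0 < P.cd.eval x
  kn : 0 ≤ P.kn.eval x
  kd : 0 < P.kd.eval x

variable {P : Piece} {x : ℕ → ℝ}

theorem pick_pos {r : Rng} (h : 0 < r.lo.2 ∧ 0 < r.hi.2) (b : Bool) : (0 : ℝ) < (r.pick b).2 := by
  cases b
  · exact_mod_cast h.1
  · exact_mod_cast h.2

theorem eval_S : P.S.eval x = 1 - 2 * P.I.eval x := by
  simp only [Piece.S, ev_sub, ev_mul, ev_num]; norm_num

theorem eval_A : P.A.eval x = 2 * xa P x := by unfold xa; ring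

theorem eval_A' : 2 * xa P x + P.d.eval x = 1 - 2 * P.I.eval x := by
  have : P.A.eval x = P.S.eval x - P.d.eval x := rfl
  rw [eval_A, eval_S] at this
  linarith

theorem eval_B : P.B.eval x = 2 * (xa P x + P.d.eval x) := by
  have : P.B.eval x = P.S.eval x + P.d.eval x := rfl
  rw [eval_S] at this
  linarith [eval_A' (P := P) (x := x)]

theorem Place.a (h : Place P x) : 0 < xa P x := div_pos h.A two_pos

theorem Place.b (h : Place P x) : 0 < xa P x + P.d.eval x := add_pos h.a h.d

theorem Place.B (h : Place P x) : 0 < P.B.eval x := by rw [eval_B]; linarith [h.b]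

theorem Place.vd (h : Place P x) : 0 < P.vd.eval x := mul_pos h.A h.den

theorem Place.v (h : Place P x) : 0 < xv P x :=
  div_pos (by simp only [Piece.vn, ev_mul, ev_num]; have := h.o; push_cast; linarith) h.vd

theorem Place.qn (h : Place P x) : 0 < P.qn.eval x := by
  have := h.o
  have := h.d
  have := h.vd
  simp only [Piece.qn, Piece.vn, ev_add, ev_mul, ev_num]
  push_cast
  positivity

theorem eval_qn (h : Place P x) : P.qn.eval x = P.vd.eval x * (1 + P.d.eval x * xv P x) := by
  have := h.vd.ne'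
  simp only [Piece.qn, ev_add, ev_mul, xv]
  field_simp

theorem Place.q (h : Place P x) : 0 < 1 + P.d.eval x * xv P x :=
  add_pos one_pos (mul_pos h.d h.v)

theorem Place.Qd (h : Place P x) (hP : P.Pos) (b : Bool) : 0 < (P.Qd b).eval x := by
  simp only [Piece.Qd, ev_mul, ev_num]
  exact mul_pos (by exact_mod_cast pick_pos hP.mu b) h.qn

theorem Place.av (h : Place P x) : 2 * xa P x * xv P x < 2 := by
  rw [← eval_A, xv, show P.A.eval x * (P.vn.eval x / P.vd.eval x) =
    2 * (P.o.eval x / P.den.eval x) by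
      simp only [Piece.vn, Piece.vd, ev_mul, ev_num]
      have := h.A.ne'
      have := h.den.ne'
      push_cast
      field_simp]
  linarith [(div_lt_one h.den).2 h.o_lt]

/-- The numerators at an end. -/
noncomputable def rho (P : Piece) (V : Vtx) (x : ℕ → ℝ) : ℕ → ℝ := hvec (sub P V) P.vn P.vd x

theorem rho_low (h : Place P x) (V : Vtx) :
    rho P V x 0 = 2 * xa P x ∧ rho P V x 1 = P.d.eval x ∧ rho P V x 2 = xv P x := by
  refine ⟨?_, ?_, ?_⟩ <;> simp [rho, hvec, sub, xv, eval_A]

theorem rho_den (hP : P.Pos) (h : Place P x) (V : Vtx) : Den (rho P V x) := by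
  have := h.S
  have := h.qn
  have := h.pd
  have := h.f0
  have := h.wd
  have := h.B
  have := h.td
  have := h.cd
  refine ⟨?_, ?_, ?_, ?_, ?_⟩ <;> simp [rho, hvec, sub, ev_mul, ev_pow, Ex.eval] <;> positivity

theorem quo_rho (hP : P.Pos) (h : Place P x) (V : Vtx) : quo (rho P V x) =
    vAt P x (pE P x V.p) (eE P x V.l) (kE P x V.k) (wE P x V.w) (tE P x V.t) := by
  have hS := h.S.ne'
  have hq := h.qn.ne'
  have hpd := h.pd.ne'
  have hf := h.f0.ne'
  have hwd := h.wd.ne'
  have htd := h.td.ne'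
  have hb := h.b.ne'
  have hA : P.A.eval x = 2 * xa P x := eval_A
  have hB : P.B.eval x = 2 * (xa P x + P.d.eval x) := eval_B
  unfold quo vAt vec
  congr 1
  · simp only [rho, hvec, sub, pE, cT, ev_mul, ev_num, reduceIte, Nat.reduceEqDiff]
    push_cast
    field_simp
  · simp only [rho, hvec, sub, eE, ev_mul, ev_num, reduceIte, Nat.reduceEqDiff]
    push_cast
    field_simp
  · simp only [rho, hvec, sub, kE, ev_mul, ev_num, reduceIte, Nat.reduceEqDiff]
    push_cast
    field_simp
  · simp only [rho, hvec, sub, Piece.gn, tE, gHat, ev_sub, ev_mul, ev_num, hA, hB, reduceIte,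
      Nat.reduceEqDiff]
    rw [show P.I.eval x = (1 - 2 * xa P x - P.d.eval x) / 2 by linarith [eval_A' (P := P) (x := x)]]
    push_cast
    field_simp
    ring
  · simp only [rho, hvec, sub, tE, gHat1, ev_mul, ev_num, hB, reduceIte, Nat.reduceEqDiff]
    push_cast
    field_simp
    ring

end Vale.Agent.P100.Calib.StripEnd
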