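import Vale.Agent.P100.Calib.SlabStripMidExpr

/-!
# The strip for `u` near one: pieces, substitutions and conditions

A piece is a chart of four variables giving `I`, `d`, `w = 1 - u` and `o = a v`, with linear models
of the scaled fields. The Flow is pinned: `C q = K - μ o w`, `K = 1 - o`, `q = 1 + d v`.
-/

namespace Vale.Agent.P100.Calib.StripEnd

open Pack Pack.Ex StripMid

local instance endExprAdd : Add Ex := ⟨Ex.add⟩
local instance endExprSub : Sub Ex := ⟨Ex.sub⟩
local instance endExprMul : Mul Ex := ⟨Ex.mul⟩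

/-- Substitution with a quotient for the variable `2`, cleared of its denominator. -/
def hsub (σ : ℕ → Ex) (vn vd : Ex) : Ex → Ex
  | .var i => bif i == 2 then vn else σ i
  | .num z => .num z
  | .add e f =>
    (bif e.deg 2 == max (e.deg 2) (f.deg 2) then hsub σ vn vd e
      else hsub σ vn vd e * .pow vd (max (e.deg 2) (f.deg 2) - e.deg 2)) +
    (bif f.deg 2 == max (e.deg 2) (f.deg 2) then hsub σ vn vd f
      else hsub σ vn vd f * .pow vd (max (e.deg 2) (f.deg 2) - f.deg 2))
  | .sub e f =>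
    (bif e.deg 2 == max (e.deg 2) (f.deg 2) then hsub σ vn vd e
      else hsub σ vn vd e * .pow vd (max (e.deg 2) (f.deg 2) - e.deg 2)) -
    (bif f.deg 2 == max (e.deg 2) (f.deg 2) then hsub σ vn vd f
      else hsub σ vn vd f * .pow vd (max (e.deg 2) (f.deg 2) - f.deg 2))
  | .mul e f => .mul (hsub σ vn vd e) (hsub σ vn vd f)
  | .pow e n => .pow (hsub σ vn vd e) n

/-- An end of a range, a fraction. -/
structure Rng where
  lo : ℤ × ℕ
  hi : ℤ × ℕ

/-- An end. -/
def Rng.pick (r : Rng) (b : Bool) : ℤ × ℕ := cond b r.hi r.lo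

/-- The data of a piece: `o = o/den`; the ends are `C = A pn/(pd q)`, `e = -en/f0`, `k = -kk/f0`,
`ŵ = wn/wd`, `T = B tn/td`; `D2 d = cn/cd`; the multiplier is `kn/kd`. The end `false` of `pn` is
the larger Flow, that of the others the smaller magnitude. -/
structure Piece where
  (I d w o den : Ex)
  mu : Rng
  pn : Bool → Ex
  pd : Ex
  en : Bool → Ex
  kk : Bool → Ex
  f0 : Ex
  wn : Bool → Ex
  wd : Ex
  tn : Bool → Ex
  (td cn cd kn kd : Ex)
  (k2 θ : ℕ × ℕ)

/-- An end of a piece: of the Flow, `e`, `k`, `ŵ`, `T`; `k` is the upper end of the field `k`, so the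
smaller magnitude. -/
structure Vtx where
  (p l k w t : Bool)

/-- `S`. -/
def Piece.S (P : Piece) : Ex := num 1 - num 2 * P.I

/-- `2 a`. -/
def Piece.A (P : Piece) : Ex := P.S - P.d

/-- `2 b`. -/
def Piece.B (P : Piece) : Ex := P.S + P.d

/-- The numerator of `v`. -/
def Piece.vn (P : Piece) : Ex := num 2 * P.o

/-- The denominator of `v`. -/
def Piece.vd (P : Piece) : Ex := P.A * P.den

/-- `q` times the denominator of `v`. -/
def Piece.qn (P : Piece) : Ex := P.vd + P.d * P.vn

/-- `C q den`, times the denominator of an end of `μ`. -/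
def Piece.cn' (P : Piece) (b : Bool) : Ex :=
  num (P.mu.pick b).2 * (P.den - P.o) - num (P.mu.pick b).1 * (P.o * P.w)

/-- `g - T/(10 b²)` has the numerator `gn` over `5 B td`. -/
def Piece.gn (P : Piece) (t : Bool) : Ex :=
  num (-5) * (num 2 - num 3 * P.A - num 2 * P.I) * P.I * P.td - num 2 * P.tn t

/-- The numerators and denominators at an end; `15` and `16` are those of the multiplier. -/
def sub (P : Piece) (V : Vtx) : ℕ → Ex := fun i =>
  match i with
  | 0 => P.A
  | 1 => P.d
  | 2 => num 0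
  | 3 => num 4 * P.A * P.pn V.p
  | 4 => P.S * P.pd * P.qn
  | 5 => num (-1) * P.en V.l
  | 6 => num (-1) * P.kk (!V.k)
  | 7 => P.f0
  | 8 => P.wn V.w
  | 9 => P.wd
  | 10 => P.gn V.t
  | 11 => num (-2) * P.tn V.t
  | 12 => num 5 * P.B * P.td
  | 13 => P.cn
  | 14 => P.cd
  | 15 => P.kn
  | _ => P.kd

/-- A condition at an end. -/
def Piece.at (P : Piece) (V : Vtx) (e : Ex) : Ex := hsub (sub P V) P.vn P.vd e

/-- `± X`, times its denominators. -/
def signX (s : Bool) : Ex := num (cond s 1 (-1)) * tplX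

/-- `κ M ± X`. -/
def c1 (s : Bool) : Ex := var 15 * (var 9 * tplM) + var 16 * signX s

/-- `k2 G ± 4 q T`. -/
def c2 (k : ℕ × ℕ) (s : Bool) : Ex :=
  num k.1 * (var 7 * tplG) +
    num (cond s (4 : ℤ) (-4) * k.2) * qEx * (var 12 * (var 14 * tplT))

/-- `2 (1 - θ) A ± κ X`. -/
def c3 (θ : ℕ × ℕ) (s : Bool) : Ex :=
  var 16 * (num (2 * ((θ.2 : ℤ) - θ.1)) * tplA) +
    num θ.2 * (var 15 * (var 4 * (var 7 * (var 12 * (pow (var 14) 2 * signX s)))))

/-- `θ A ± k2 T`. -/
def c4 (θ k : ℕ × ℕ) (s : Bool) : Ex :=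
  num (θ.1 * k.2) * tplA +
    num (cond s (1 : ℤ) (-1) * (θ.2 * k.1)) * (var 7 * (var 9 * (var 14 * tplT)))

/-- Positive: `4 d v I (1 - a v)`. -/
def posEnd : Ex := posEx * (num 2 - var 0 * var 2)

/-- Strictly: a large multiple minus a positive number. -/
def strict (e : Ex) : Ex := num (2 ^ 80) * e - pow posEnd 3

/-- The second derivative of `c2` in `p`, halved and negated. -/
def curve2 (k : ℕ × ℕ) (s : Bool) : Ex :=
  num (-1) * (num k.1 * coG10 + num (cond s (4 : ℤ) (-4) * k.2) * qEx * coT9)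

/-- The second derivative of `c4` in `p`, halved and negated. -/
def curve4 (θ k : ℕ × ℕ) (s : Bool) : Ex :=
  num (-1) * (num (θ.1 * k.2) * coA12 + num (cond s (1 : ℤ) (-1) * (θ.2 * k.1)) * coT9)

end Vale.Agent.P100.Calib.StripEnd
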