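import Vale.Agent.P100.Calib.SlabStripEndIZ7P53
import Vale.Agent.P100.Calib.SlabStripEndDCert
import Vale.Agent.P100.Calib.SlabStripEndBig

/-!
# The second condition of the piece 53
-/

namespace Vale.Agent.P100.Calib.StripEndD

open Pack hiding ev_add ev_mul
open Pack.Ex StripMid StripEnd

local instance endIZ7G53Add : Add Ex := ⟨Ex.add⟩
local instance endIZ7G53Sub : Sub Ex := ⟨Ex.sub⟩
local instance endIZ7G53Mul : Mul Ex := ⟨Ex.mul⟩

/-- The second condition at the ends, checked. -/
theorem certIz53_g2 : ∀ s p l t : Bool, checkBig bxIz53.C 503 16 0 14 10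
    (pcIz53.at ⟨p, l, true, true, t⟩ (StripEnd.strict (c2 s))) = true := by decide +kernel

end Vale.Agent.P100.Calib.StripEndD
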