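import Vale.Agent.P100.Calib.SlabStripEndDExpr
import Vale.Agent.P100.Calib.SlabStripEndCert

/-!
# The piece 63 of the strip for `u` near one at small `d / I`
-/

namespace Vale.Agent.P100.Calib.StripEndD

open Pack hiding ev_add ev_mul
open Pack.Ex StripMid StripEnd

local instance endIZ7P63Add : Add Ex := ⟨Ex.add⟩
local instance endIZ7P63Sub : Sub Ex := ⟨Ex.sub⟩
local instance endIZ7P63Mul : Mul Ex := ⟨Ex.mul⟩

/-- The piece `Iz63`. -/
def pcIz63 : Piece where
  I := (var 0)
  d := (var 0) * (var 2)
  w := ((var 0) * (var 1))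
  o := (((num 239) + (num (-538) * (var 1))) + ((num 11) + (num 538 * (var 1))) * (var 3))
  den := ((num 500))
  vn := num 2 * (((num 239) + (num (-538) * (var 1))) + ((num 11) + (num 538 * (var 1))) * (var 3))
  vs := (num 1 - num 2 * (var 0) - (var 0) * (var 2))
  mu := ⟨(117, 50), (137, 50)⟩
  pn := fun b => cond b
    (num 50 * (((num 500)) - (((num 239) + (num (-538) * (var 1))) + ((num 11) + (num 538 * (var 1))) * (var 3))) + num (-137) * ((((num 239) + (num (-538) * (var 1))) + ((num 11) + (num 538 * (var 1))) * (var 3)) * ((var 0) * (var 1))))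
    (num 50 * (((num 500)) - (((num 239) + (num (-538) * (var 1))) + ((num 11) + (num 538 * (var 1))) * (var 3))) + num (-117) * ((((num 239) + (num (-538) * (var 1))) + ((num 11) + (num 538 * (var 1))) * (var 3)) * ((var 0) * (var 1))))
  pd := num 50
  en := fun b => cond b
    (((num 37142) + (num (-1664) * (var 0))) * (num 4 * (var 0) * (((num 500)) - (((num 239) + (num (-538) * (var 1))) + ((num 11) + (num 538 * (var 1))) * (var 3))) * ((var 2) + num 3 * (var 0)) + (var 1) * ((num 500)) * (num 1 + num 20 * ((var 0) * (var 2)))))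
    (((num 36596) + (num (-1664) * (var 0))) * (num 4 * (var 0) * (((num 500)) - (((num 239) + (num (-538) * (var 1))) + ((num 11) + (num 538 * (var 1))) * (var 3))) * ((var 2) + num 3 * (var 0)) + (var 1) * ((num 500)) * (num 1 + num 20 * ((var 0) * (var 2)))))
  kk := fun b => cond b
    (((num 2427) + (num 19798 * (var 2))) * (((var 0) * (var 1)) * (num 4 * ((num 500)) * ((var 2) + num 3 * (var 0)))))
    (((num 1480) + (num 19798 * (var 2))) * (((var 0) * (var 1)) * (num 4 * ((num 500)) * ((var 2) + num 3 * (var 0)))))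
  f0 := num 8000 * ((num 500)) * ((var 2) + num 3 * (var 0))
  wn := fun b => cond b
    (((num (-10981) * ((var 0) * (((num 500)) - (((num 239) + (num (-538) * (var 1))) + ((num 11) + (num 538 * (var 1))) * (var 3))))) + (num 114665 * (((var 0) * (var 1)) * (((num 239) + (num (-538) * (var 1))) + ((num 11) + (num 538 * (var 1))) * (var 3)))) + (num (-50970) * (((var 0) * (var 1)) * ((num 500)))) + (num 547 * ((var 0) * (var 2) * (((num 500)) - (((num 239) + (num (-538) * (var 1))) + ((num 11) + (num 538 * (var 1))) * (var 3)))))))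
    (((num (-11141) * ((var 0) * (((num 500)) - (((num 239) + (num (-538) * (var 1))) + ((num 11) + (num 538 * (var 1))) * (var 3))))) + (num 114665 * (((var 0) * (var 1)) * (((num 239) + (num (-538) * (var 1))) + ((num 11) + (num 538 * (var 1))) * (var 3)))) + (num (-51130) * (((var 0) * (var 1)) * ((num 500)))) + (num 547 * ((var 0) * (var 2) * (((num 500)) - (((num 239) + (num (-538) * (var 1))) + ((num 11) + (num 538 * (var 1))) * (var 3)))))))
  wd := num 1000 * ((num 500))
  tn := fun b => cond b
    (num 9396 * ((var 1) * ((num 500))))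
    (num 9000 * ((var 1) * ((num 500))))
  td := num 8000 * ((var 1) * ((num 500)) + num 2 * (var 2) * (((num 500)) - (((num 239) + (num (-538) * (var 1))) + ((num 11) + (num 538 * (var 1))) * (var 3))))
  cn := num 0
  cd := num 1
  kn := ((num 1035) + (num (-2827) * (var 0)) + (num 481 * (var 1)) + (num (-719) * (var 2)) + (num (-1146) * (var 3)) + (num 4433 * ((var 1) * (var 3))) + (num 1017 * ((var 2) * (var 3))) + (num 2241 * ((var 0) * (var 3))))
  kd := num 16
  k2n := ((num 24) + (num 617 * (var 0)) + (num 716 * (var 1)) + (num 65 * (var 2)) + (num 216 * (var 3)) + (num (-4170) * ((var 1) * (var 3))) + (num 40 * ((var 2) * (var 3))) + (num (-1973) * ((var 0) * (var 3))))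
  k2d := num 64

/-- Its ranges. -/
def bxIz63 : StripEnd.EBox :=
  ⟨(41, 42, 320), (0, 1, 50), (161, 172, 200), (0, 1, 1)⟩

end Vale.Agent.P100.Calib.StripEndD
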