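import Vale.Agent.P100.Calib.SlabStripEndIZ7Lines

/-!
# Windows of the lines of the `I` and `Z` charts for `N` between seven and twenty (1)
-/

namespace Vale.Agent.P100.Calib.StripEndD

open Pack hiding ev_add ev_mul
open Pack.Ex StripMid StripEnd

local instance endIZ7Win1Add : Add Ex := ⟨Ex.add⟩
local instance endIZ7Win1Sub : Sub Ex := ⟨Ex.sub⟩
local instance endIZ7Win1Mul : Mul Ex := ⟨Ex.mul⟩

/-- A window. -/
theorem izM0_right : Chk ((lineChart izM0 (2, 3, 40) (0, 1, 160) (0, 3, 20) (0, 1) (1, 1)).box (side (0, 1, 1))) ((lineChart izM0 (2, 3, 40) (0, 1, 160) (0, 3, 20) (0, 1) (1, 1)).geoR.hiWin) :=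
  ⟨206, 12, 6, 7, 3, by decide +kernel⟩

/-- A window. -/
theorem izM2_right : Chk ((lineChart izM2 (3, 4, 40) (0, 1, 50) (0, 3, 40) (0, 1) (1, 1)).box (side (0, 1, 1))) ((lineChart izM2 (3, 4, 40) (0, 1, 50) (0, 3, 40) (0, 1) (1, 1)).geoR.hiWin) :=
  ⟨203, 12, 6, 7, 3, by decide +kernel⟩

/-- A window. -/
theorem izM4_right : Chk ((lineChart izM4 (10, 11, 80) (0, 1, 50) (0, 3, 40) (0, 1) (1, 1)).box (side (0, 1, 1))) ((lineChart izM4 (10, 11, 80) (0, 1, 50) (0, 3, 40) (0, 1) (1, 1)).geoR.hiWin) :=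
  ⟨216, 12, 6, 7, 3, by decide +kernel⟩

/-- A window. -/
theorem izM6_right : Chk ((lineChart izM6 (1, 2, 20) (2, 15, 100) (0, 3, 20) (0, 1) (1, 1)).box (side (0, 1, 1))) ((lineChart izM6 (1, 2, 20) (2, 15, 100) (0, 3, 20) (0, 1) (1, 1)).geoR.hiWin) :=
  ⟨183, 12, 6, 7, 3, by decide +kernel⟩

/-- A window. -/
theorem izM8_right : Chk ((lineChart izM8 (20, 23, 160) (2, 15, 100) (0, 3, 20) (0, 1) (1, 1)).box (side (0, 1, 1))) ((lineChart izM8 (20, 23, 160) (2, 15, 100) (0, 3, 20) (0, 1) (1, 1)).geoR.hiWin) :=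
  ⟨220, 12, 6, 7, 3, by decide +kernel⟩

/-- A window. -/
theorem izM10_right : Chk ((lineChart izM10 (3, 4, 40) (0, 1, 50) (3, 10, 20) (0, 1) (1, 1)).box (side (0, 1, 1))) ((lineChart izM10 (3, 4, 40) (0, 1, 50) (3, 10, 20) (0, 1) (1, 1)).geoR.hiWin) :=
  ⟨197, 12, 6, 7, 3, by decide +kernel⟩

/-- A window. -/
theorem izM12_right : Chk ((lineChart izM12 (4, 5, 40) (0, 1, 50) (13, 20, 40) (0, 1) (1, 1)).box (side (0, 1, 1))) ((lineChart izM12 (4, 5, 40) (0, 1, 50) (13, 20, 40) (0, 1) (1, 1)).geoR.hiWin) :=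
  ⟨204, 12, 6, 7, 3, by decide +kernel⟩

/-- A window. -/
theorem izM14_right : Chk ((lineChart izM14 (10, 11, 80) (0, 1, 50) (13, 20, 40) (0, 1) (1, 1)).box (side (0, 1, 1))) ((lineChart izM14 (10, 11, 80) (0, 1, 50) (13, 20, 40) (0, 1) (1, 1)).geoR.hiWin) :=
  ⟨216, 12, 6, 7, 3, by decide +kernel⟩

/-- A window. -/
theorem izM16_left1 : Chk ((lineChart izM16 (22, 23, 160) (2, 3, 150) (26, 33, 80) (0, 1) (1, 1)).box (sideUp (0, 1, 1))) ((lineChart izM16 (22, 23, 160) (2, 3, 150) (26, 33, 80) (0, 1) (1, 1)).geoL.loWin 4) :=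
  ⟨259, 13, 6, 8, 3, by decide +kernel⟩

/-- A window. -/
theorem izM18_left : Chk ((lineChart izM18 (16, 23, 160) (2, 5, 100) (12, 19, 80) (0, 1) (1, 1)).box (sideUp (0, 1, 1))) ((lineChart izM18 (16, 23, 160) (2, 5, 100) (12, 19, 80) (0, 1) (1, 1)).geoL.loWin 4) :=
  ⟨248, 13, 6, 8, 3, by decide +kernel⟩

/-- A window. -/
theorem izM20_left : Chk ((lineChart izM20 (16, 23, 160) (1, 3, 20) (12, 19, 80) (0, 1) (1, 1)).box (sideUp (0, 1, 1))) ((lineChart izM20 (16, 23, 160) (1, 3, 20) (12, 19, 80) (0, 1) (1, 1)).geoL.loWin 4) :=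
  ⟨234, 13, 6, 8, 3, by decide +kernel⟩

/-- A window. -/
theorem izM22_left : Chk ((lineChart izM22 (16, 23, 160) (1, 3, 20) (26, 33, 80) (0, 1) (1, 1)).box (sideUp (0, 1, 1))) ((lineChart izM22 (16, 23, 160) (1, 3, 20) (26, 33, 80) (0, 1) (1, 1)).geoL.loWin 4) :=
  ⟨234, 13, 6, 8, 3, by decide +kernel⟩

/-- A window. -/
theorem izM24_exit : Chk ((lineChart izM24 (1, 2, 20) (0, 1, 50) (2, 3, 4) (0, 1) (1, 1)).box (side (0, 1, 1))) (exitEx (lineChart izM24 (1, 2, 20) (0, 1, 50) (2, 3, 4) (0, 1) (1, 1))) :=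
  ⟨37, 1, 2, 1, 0, by decide +kernel⟩

/-- A window. -/
theorem izM26_exit : Chk ((lineChart izM26 (20, 23, 160) (0, 1, 50) (2, 3, 4) (0, 1) (1, 1)).box (side (0, 1, 1))) (exitEx (lineChart izM26 (20, 23, 160) (0, 1, 50) (2, 3, 4) (0, 1) (1, 1))) :=
  ⟨40, 1, 2, 1, 0, by decide +kernel⟩

/-- A window. -/
theorem izM28_exit0 : Chk ((lineChart izM28 (4, 5, 40) (8, 37, 400) (2, 3, 4) (0, 1) (1, 1)).box (side (0, 1, 1))) (exitEx (lineChart izM28 (4, 5, 40) (8, 37, 400) (2, 3, 4) (0, 1) (1, 1))) :=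
  ⟨41, 1, 2, 1, 0, by decide +kernel⟩

/-- A window. -/
theorem izM29_right : Chk ((lineChart izM29 (20, 23, 160) (2, 15, 100) (8, 9, 16) (0, 1) (1, 1)).box (side (0, 1, 1))) ((lineChart izM29 (20, 23, 160) (2, 15, 100) (8, 9, 16) (0, 1) (1, 1)).geoR.hiWin) :=
  ⟨218, 12, 6, 7, 3, by decide +kernel⟩

/-- A window. -/
theorem izM31_left : Chk ((lineChart izM31 (1, 2, 20) (3, 20, 20) (0, 1, 2) (0, 1) (1, 1)).box (sideUp (0, 1, 1))) ((lineChart izM31 (1, 2, 20) (3, 20, 20) (0, 1, 2) (0, 1) (1, 1)).geoL.loWin 4) :=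
  ⟨151, 13, 6, 8, 3, by decide +kernel⟩

/-- A window. -/
theorem izM33_left : Chk ((lineChart izM33 (16, 23, 160) (3, 20, 20) (2, 3, 8) (0, 1) (1, 1)).box (sideUp (0, 1, 1))) ((lineChart izM33 (16, 23, 160) (3, 20, 20) (2, 3, 8) (0, 1) (1, 1)).geoL.loWin 4) :=
  ⟨208, 13, 6, 8, 3, by decide +kernel⟩

/-- A window. -/
theorem izM35_left0 : Chk ((lineChart izM35 (16, 23, 160) (6, 23, 40) (4, 5, 8) (0, 1) (1, 1)).box (sideUp (0, 1, 1))) ((lineChart izM35 (16, 23, 160) (6, 23, 40) (4, 5, 8) (0, 1) (1, 1)).geoL.loWin 4) :=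
  ⟨214, 13, 6, 8, 3, by decide +kernel⟩

/-- A window. -/
theorem izM36_right : Chk ((lineChart izM36 (3, 4, 40) (0, 1, 50) (75, 92, 100) (0, 1) (1, 1)).box (side (0, 1, 1))) ((lineChart izM36 (3, 4, 40) (0, 1, 50) (75, 92, 100) (0, 1) (1, 1)).geoR.hiWin) :=
  ⟨213, 12, 6, 7, 3, by decide +kernel⟩

/-- A window. -/
theorem izM38_right : Chk ((lineChart izM38 (20, 21, 160) (0, 1, 50) (75, 86, 100) (0, 1) (1, 1)).box (side (0, 1, 1))) ((lineChart izM38 (20, 21, 160) (0, 1, 50) (75, 86, 100) (0, 1) (1, 1)).geoR.hiWin) :=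
  ⟨238, 12, 6, 7, 3, by decide +kernel⟩

/-- A window. -/
theorem izM40_right : Chk ((lineChart izM40 (43, 44, 320) (0, 1, 160) (75, 83, 100) (0, 1) (1, 1)).box (side (0, 1, 1))) ((lineChart izM40 (43, 44, 320) (0, 1, 160) (75, 83, 100) (0, 1) (1, 1)).geoR.hiWin) :=
  ⟨260, 12, 6, 7, 3, by decide +kernel⟩

/-- A window. -/
theorem izM42_right : Chk ((lineChart izM42 (2, 3, 40) (1, 50, 50) (15, 19, 20) (0, 1) (1, 1)).box (side (0, 1, 1))) ((lineChart izM42 (2, 3, 40) (1, 50, 50) (15, 19, 20) (0, 1) (1, 1)).geoR.hiWin) :=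
  ⟨190, 12, 6, 7, 3, by decide +kernel⟩

/-- A window. -/
theorem izM44_right : Chk ((lineChart izM44 (1, 2, 20) (1, 2, 1) (0, 1, 2) (0, 1) (1, 1)).box (side (0, 1, 1))) ((lineChart izM44 (1, 2, 20) (1, 2, 1) (0, 1, 2) (0, 1) (1, 1)).geoR.hiWin) :=
  ⟨120, 12, 6, 7, 3, by decide +kernel⟩

/-- A window. -/
theorem izM46_right : Chk ((lineChart izM46 (16, 23, 160) (1, 2, 1) (0, 1, 2) (0, 1) (1, 1)).box (side (0, 1, 1))) ((lineChart izM46 (16, 23, 160) (1, 2, 1) (0, 1, 2) (0, 1) (1, 1)).geoR.hiWin) :=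
  ⟨157, 12, 6, 7, 3, by decide +kernel⟩

/-- A window. -/
theorem izM48_right : Chk ((lineChart izM48 (1, 2, 20) (2, 4, 1) (2, 3, 4) (0, 1) (1, 1)).box (side (0, 1, 1))) ((lineChart izM48 (1, 2, 20) (2, 4, 1) (2, 3, 4) (0, 1) (1, 1)).geoR.hiWin) :=
  ⟨127, 12, 6, 7, 3, by decide +kernel⟩

/-- A window. -/
theorem izM50_left1 : Chk ((lineChart izM50 (1, 2, 20) (2, 4, 1) (15, 19, 20) (0, 1) (1, 1)).box (sideUp (0, 1, 1))) ((lineChart izM50 (1, 2, 20) (2, 4, 1) (15, 19, 20) (0, 1) (1, 1)).geoL.loWin 4) :=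
  ⟨154, 13, 6, 8, 3, by decide +kernel⟩

/-- A window. -/
theorem izM52_exit : Chk ((lineChart izM52 (2, 3, 40) (0, 1, 50) (91, 100, 100) (0, 1) (1, 1)).box (side (0, 1, 1))) (exitEx (lineChart izM52 (2, 3, 40) (0, 1, 50) (91, 100, 100) (0, 1) (1, 1))) :=
  ⟨42, 1, 2, 1, 0, by decide +kernel⟩

/-- A window. -/
theorem izM54_exit : Chk ((lineChart izM54 (4, 5, 40) (0, 3, 1600) (17, 20, 20) (0, 1) (1, 1)).box (side (0, 1, 1))) (exitEx (lineChart izM54 (4, 5, 40) (0, 3, 1600) (17, 20, 20) (0, 1) (1, 1))) :=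
  ⟨50, 1, 2, 1, 0, by decide +kernel⟩

/-- A window. -/
theorem izM56_exit : Chk ((lineChart izM56 (2625, 2672, 20000) (0, 1, 50) (42, 45, 50) (0, 1) (1, 1)).box (side (0, 1, 1))) (exitEx (lineChart izM56 (2625, 2672, 20000) (0, 1, 50) (42, 45, 50) (0, 1) (1, 1))) :=
  ⟨50, 1, 2, 1, 0, by decide +kernel⟩

/-- A window. -/
theorem izM58_exit : Chk ((lineChart izM58 (22, 23, 160) (0, 1, 50) (33, 40, 80) (0, 1) (1, 1)).box (side (0, 1, 1))) (exitEx (lineChart izM58 (22, 23, 160) (0, 1, 50) (33, 40, 80) (0, 1) (1, 1))) :=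
  ⟨44, 1, 2, 1, 0, by decide +kernel⟩

/-- A window. -/
theorem izM60_left : Chk ((lineChart izM60 (20, 23, 160) (2, 15, 100) (9, 10, 16) (0, 1) (1, 1)).box (sideUp (0, 1, 1))) ((lineChart izM60 (20, 23, 160) (2, 15, 100) (9, 10, 16) (0, 1) (1, 1)).geoL.loWin 4) :=
  ⟨230, 13, 6, 8, 3, by decide +kernel⟩

/-- A window. -/
theorem izM62_left : Chk ((lineChart izM62 (22, 23, 160) (0, 1, 50) (3, 6, 40) (0, 1) (1, 1)).box (sideUp (0, 1, 1))) ((lineChart izM62 (22, 23, 160) (0, 1, 50) (3, 6, 40) (0, 1) (1, 1)).geoL.loWin 4) :=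
  ⟨241, 13, 6, 8, 3, by decide +kernel⟩

/-- A window. -/
theorem izM64_left : Chk ((lineChart izM64 (3, 4, 40) (0, 1, 50) (3, 6, 40) (0, 1) (1, 1)).box (sideUp (0, 1, 1))) ((lineChart izM64 (3, 4, 40) (0, 1, 50) (3, 6, 40) (0, 1) (1, 1)).geoL.loWin 4) :=
  ⟨213, 13, 6, 8, 3, by decide +kernel⟩

/-- A window. -/
theorem izM66_left : Chk ((lineChart izM66 (16, 23, 160) (3, 20, 20) (3, 4, 8) (0, 1) (1, 1)).box (sideUp (0, 1, 1))) ((lineChart izM66 (16, 23, 160) (3, 20, 20) (3, 4, 8) (0, 1) (1, 1)).geoL.loWin 4) :=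
  ⟨208, 13, 6, 8, 3, by decide +kernel⟩

/-- A window. -/
theorem izM68_exit : Chk ((lineChart izM68 (2, 3, 40) (0, 1, 160) (15, 19, 20) (0, 1) (1, 1)).box (side (0, 1, 1))) (exitEx (lineChart izM68 (2, 3, 40) (0, 1, 160) (15, 19, 20) (0, 1) (1, 1))) :=
  ⟨43, 1, 2, 1, 0, by decide +kernel⟩

/-- A window. -/
theorem izM70_exit : Chk ((lineChart izM70 (4, 5, 40) (2, 15, 100) (75, 89, 100) (0, 1) (1, 1)).box (side (0, 1, 1))) (exitEx (lineChart izM70 (4, 5, 40) (2, 15, 100) (75, 89, 100) (0, 1) (1, 1))) :=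
  ⟨42, 1, 2, 1, 0, by decide +kernel⟩

/-- A window. -/
theorem izM72_exit : Chk ((lineChart izM72 (43, 44, 320) (5, 16, 800) (75, 83, 100) (0, 1) (1, 1)).box (side (0, 1, 1))) (exitEx (lineChart izM72 (43, 44, 320) (5, 16, 800) (75, 83, 100) (0, 1) (1, 1))) :=
  ⟨53, 1, 2, 1, 0, by decide +kernel⟩

/-- A window. -/
theorem izM74_left : Chk ((lineChart izM74 (3, 4, 40) (1, 50, 50) (15, 19, 20) (0, 1) (1, 1)).box (sideUp (0, 1, 1))) ((lineChart izM74 (3, 4, 40) (1, 50, 50) (15, 19, 20) (0, 1) (1, 1)).geoL.loWin 4) :=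
  ⟨201, 13, 6, 8, 3, by decide +kernel⟩

/-- A window. -/
theorem izM76_left : Chk ((lineChart izM76 (1, 2, 20) (3, 20, 20) (22, 25, 25) (0, 1) (1, 1)).box (sideUp (0, 1, 1))) ((lineChart izM76 (1, 2, 20) (3, 20, 20) (22, 25, 25) (0, 1) (1, 1)).geoL.loWin 4) :=
  ⟨181, 13, 6, 8, 3, by decide +kernel⟩

/-- A window. -/
theorem izM78_exit : Chk ((lineChart izM78 (5, 6, 50) (5, 12, 80) (21, 25, 25) (0, 1) (1, 1)).box (side (0, 1, 1))) (exitEx (lineChart izM78 (5, 6, 50) (5, 12, 80) (21, 25, 25) (0, 1) (1, 1))) :=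
  ⟨40, 1, 2, 1, 0, by decide +kernel⟩

/-- A window. -/
theorem izM80_left : Chk ((lineChart izM80 (20, 27, 200) (3, 8, 20) (21, 25, 25) (0, 1) (1, 1)).box (sideUp (0, 1, 1))) ((lineChart izM80 (20, 27, 200) (3, 8, 20) (21, 25, 25) (0, 1) (1, 1)).geoL.loWin 4) :=
  ⟨225, 13, 6, 8, 3, by decide +kernel⟩

/-- A window. -/
theorem izM82_exit : Chk ((lineChart izM82 (4, 5, 40) (5, 16, 800) (17, 20, 20) (0, 1) (1, 1)).box (side (0, 1, 1))) (exitEx (lineChart izM82 (4, 5, 40) (5, 16, 800) (17, 20, 20) (0, 1) (1, 1))) :=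
  ⟨48, 1, 2, 1, 0, by decide +kernel⟩

/-- A window. -/
theorem izM84_left : Chk ((lineChart izM84 (20, 27, 200) (2, 5, 5) (21, 25, 25) (0, 1) (1, 1)).box (sideUp (0, 1, 1))) ((lineChart izM84 (20, 27, 200) (2, 5, 5) (21, 25, 25) (0, 1) (1, 1)).geoL.loWin 4) :=
  ⟨214, 13, 6, 8, 3, by decide +kernel⟩

/-- A window. -/
theorem izL1_up : Chk ((lineChart izL1 (2, 3, 40) (5, 16, 800) (0, 3, 20) (93, 50) (106, 50)).box (side (0, 1, 1))) ((lineChart izL1 (2, 3, 40) (5, 16, 800) (0, 3, 20) (93, 50) (106, 50)).geo.muUp 4 (106, 50)) :=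
  ⟨263, 13, 7, 9, 4, by decide +kernel⟩

/-- A window. -/
theorem izL3_up : Chk ((lineChart izL3 (4, 5, 40) (0, 1, 50) (0, 3, 20) (96, 50) (109, 50)).box (side (0, 1, 1))) ((lineChart izL3 (4, 5, 40) (0, 1, 50) (0, 3, 20) (96, 50) (109, 50)).geo.muUp 4 (109, 50)) :=
  ⟨236, 13, 7, 9, 4, by decide +kernel⟩

/-- A window. -/
theorem izL5_up : Chk ((lineChart izL5 (22, 23, 160) (0, 1, 50) (0, 3, 40) (96, 50) (108, 50)).box (side (0, 1, 1))) ((lineChart izL5 (22, 23, 160) (0, 1, 50) (0, 3, 40) (96, 50) (108, 50)).geo.muUp 4 (108, 50)) :=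
  ⟨271, 13, 7, 9, 4, by decide +kernel⟩

/-- A window. -/
theorem izL7_up : Chk ((lineChart izL7 (4, 5, 40) (2, 15, 100) (0, 3, 20) (90, 50) (112, 50)).box (side (0, 1, 1))) ((lineChart izL7 (4, 5, 40) (2, 15, 100) (0, 3, 20) (90, 50) (112, 50)).geo.muUp 4 (112, 50)) :=
  ⟨233, 13, 7, 9, 4, by decide +kernel⟩

/-- A window. -/
theorem izL9_up : Chk ((lineChart izL9 (2, 3, 40) (0, 1, 50) (3, 10, 20) (94, 50) (115, 50)).box (side (0, 1, 1))) ((lineChart izL9 (2, 3, 40) (0, 1, 50) (3, 10, 20) (94, 50) (115, 50)).geo.muUp 4 (115, 50)) :=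
  ⟨235, 13, 7, 9, 4, by decide +kernel⟩

/-- A window. -/
theorem izL11_up : Chk ((lineChart izL11 (4, 5, 40) (0, 1, 50) (6, 13, 40) (91, 50) (118, 50)).box (side (0, 1, 1))) ((lineChart izL11 (4, 5, 40) (0, 1, 50) (6, 13, 40) (91, 50) (118, 50)).geo.muUp 4 (118, 50)) :=
  ⟨244, 13, 7, 9, 4, by decide +kernel⟩

/-- A window. -/
theorem izL13_up : Chk ((lineChart izL13 (10, 11, 80) (0, 1, 50) (12, 19, 80) (89, 50) (117, 50)).box (side (0, 1, 1))) ((lineChart izL13 (10, 11, 80) (0, 1, 50) (12, 19, 80) (89, 50) (117, 50)).geo.muUp 4 (117, 50)) :=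
  ⟨267, 13, 7, 9, 4, by decide +kernel⟩

/-- A window. -/
theorem izL15_up : Chk ((lineChart izL15 (22, 23, 160) (0, 1, 50) (12, 19, 80) (91, 50) (118, 50)).box (side (0, 1, 1))) ((lineChart izL15 (22, 23, 160) (0, 1, 50) (12, 19, 80) (91, 50) (118, 50)).geo.muUp 4 (118, 50)) :=
  ⟨280, 13, 7, 9, 4, by decide +kernel⟩

/-- A window. -/
theorem izL17_up : Chk ((lineChart izL17 (1, 2, 20) (2, 15, 100) (3, 10, 20) (92, 50) (121, 50)).box (side (0, 1, 1))) ((lineChart izL17 (1, 2, 20) (2, 15, 100) (3, 10, 20) (92, 50) (121, 50)).geo.muUp 4 (121, 50)) :=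
  ⟨220, 13, 7, 9, 4, by decide +kernel⟩

/-- A window. -/
theorem izL19_up : Chk ((lineChart izL19 (16, 23, 160) (2, 5, 100) (19, 26, 80) (93, 50) (122, 50)).box (side (0, 1, 1))) ((lineChart izL19 (16, 23, 160) (2, 5, 100) (19, 26, 80) (93, 50) (122, 50)).geo.muUp 4 (122, 50)) :=
  ⟨277, 13, 7, 9, 4, by decide +kernel⟩

/-- A window. -/
theorem izL21_up : Chk ((lineChart izL21 (4, 5, 40) (2, 5, 100) (26, 33, 80) (96, 50) (123, 50)).box (side (0, 1, 1))) ((lineChart izL21 (4, 5, 40) (2, 5, 100) (26, 33, 80) (96, 50) (123, 50)).geo.muUp 4 (123, 50)) :=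
  ⟨251, 13, 7, 9, 4, by decide +kernel⟩

/-- A window. -/
theorem izL23_up : Chk ((lineChart izL23 (4, 5, 40) (2, 15, 100) (33, 40, 80) (96, 50) (129, 50)).box (side (0, 1, 1))) ((lineChart izL23 (4, 5, 40) (2, 15, 100) (33, 40, 80) (96, 50) (129, 50)).geo.muUp 4 (129, 50)) :=
  ⟨251, 13, 7, 9, 4, by decide +kernel⟩

/-- A window. -/
theorem izL25_up : Chk ((lineChart izL25 (4, 5, 40) (0, 1, 50) (2, 3, 4) (106, 50) (147, 50)).box (side (0, 1, 1))) ((lineChart izL25 (4, 5, 40) (0, 1, 50) (2, 3, 4) (106, 50) (147, 50)).geo.muUp 4 (147, 50)) :=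
  ⟨215, 13, 7, 9, 4, by decide +kernel⟩

/-- A window. -/
theorem izL27_up : Chk ((lineChart izL27 (4, 5, 40) (5, 16, 800) (2, 3, 4) (101, 50) (131, 50)).box (side (0, 1, 1))) ((lineChart izL27 (4, 5, 40) (5, 16, 800) (2, 3, 4) (101, 50) (131, 50)).geo.muUp 4 (131, 50)) :=
  ⟨243, 13, 7, 9, 4, by decide +kernel⟩

/-- A window. -/
theorem izL29_up : Chk ((lineChart izL29 (20, 23, 160) (0, 1, 50) (2, 3, 4) (110, 50) (155, 50)).box (side (0, 1, 1))) ((lineChart izL29 (20, 23, 160) (0, 1, 50) (2, 3, 4) (110, 50) (155, 50)).geo.muUp 4 (155, 50)) :=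
  ⟨241, 13, 7, 9, 4, by decide +kernel⟩

/-- A window. -/
theorem izL31_up : Chk ((lineChart izL31 (22, 23, 160) (0, 1, 50) (2, 3, 4) (104, 50) (140, 50)).box (side (0, 1, 1))) ((lineChart izL31 (22, 23, 160) (0, 1, 50) (2, 3, 4) (104, 50) (140, 50)).geo.muUp 4 (140, 50)) :=
  ⟨241, 13, 7, 9, 4, by decide +kernel⟩

/-- A window. -/
theorem izL33_up : Chk ((lineChart izL33 (4, 5, 40) (2, 15, 100) (2, 3, 4) (94, 50) (146, 50)).box (side (0, 1, 1))) ((lineChart izL33 (4, 5, 40) (2, 15, 100) (2, 3, 4) (94, 50) (146, 50)).geo.muUp 4 (146, 50)) :=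
  ⟨213, 13, 7, 9, 4, by decide +kernel⟩

/-- A window. -/
theorem izL35_up : Chk ((lineChart izL35 (20, 23, 160) (2, 15, 100) (5, 6, 8) (96, 50) (157, 50)).box (side (0, 1, 1))) ((lineChart izL35 (20, 23, 160) (2, 15, 100) (5, 6, 8) (96, 50) (157, 50)).geo.muUp 4 (157, 50)) :=
  ⟨248, 13, 7, 9, 4, by decide +kernel⟩

/-- A window. -/
theorem izL37_up : Chk ((lineChart izL37 (16, 23, 160) (3, 20, 20) (0, 1, 4) (70, 50) (130, 50)).box (side (0, 1, 1))) ((lineChart izL37 (16, 23, 160) (3, 20, 20) (0, 1, 4) (70, 50) (130, 50)).geo.muUp 4 (130, 50)) :=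
  ⟨222, 13, 7, 9, 4, by decide +kernel⟩

/-- A window. -/
theorem izL39_up : Chk ((lineChart izL39 (1, 2, 20) (3, 20, 20) (2, 3, 4) (80, 50) (128, 50)).box (side (0, 1, 1))) ((lineChart izL39 (1, 2, 20) (3, 20, 20) (2, 3, 4) (80, 50) (128, 50)).geo.muUp 4 (128, 50)) :=
  ⟨183, 13, 7, 9, 4, by decide +kernel⟩

/-- A window. -/
theorem izL42_up : Chk ((lineChart izL42 (3, 4, 40) (0, 1, 50) (75, 92, 100) (119, 50) (143, 50)).box (side (0, 1, 1))) ((lineChart izL42 (3, 4, 40) (0, 1, 50) (75, 92, 100) (119, 50) (143, 50)).geo.muUp 4 (143, 50)) :=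
  ⟨257, 13, 7, 9, 4, by decide +kernel⟩

/-- A window. -/
theorem izL45_up : Chk ((lineChart izL45 (3, 4, 40) (5, 16, 800) (75, 92, 100) (105, 50) (125, 50)).box (side (0, 1, 1))) ((lineChart izL45 (3, 4, 40) (5, 16, 800) (75, 92, 100) (105, 50) (125, 50)).geo.muUp 4 (125, 50)) :=
  ⟨284, 13, 7, 9, 4, by decide +kernel⟩

/-- A window. -/
theorem izL48_up : Chk ((lineChart izL48 (4, 5, 40) (5, 16, 800) (75, 89, 100) (121, 50) (152, 50)).box (side (0, 1, 1))) ((lineChart izL48 (4, 5, 40) (5, 16, 800) (75, 89, 100) (121, 50) (152, 50)).geo.muUp 4 (152, 50)) :=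
  ⟨285, 13, 7, 9, 4, by decide +kernel⟩

/-- A window. -/
theorem izL50_up : Chk ((lineChart izL50 (4, 5, 40) (0, 3, 1600) (75, 89, 100) (112, 50) (141, 50)).box (side (0, 1, 1))) ((lineChart izL50 (4, 5, 40) (0, 3, 1600) (75, 89, 100) (112, 50) (141, 50)).geo.muUp 4 (141, 50)) :=
  ⟨292, 13, 7, 9, 4, by decide +kernel⟩

/-- A window. -/
theorem izL52_up : Chk ((lineChart izL52 (4, 5, 40) (1, 3, 1600) (75, 89, 100) (109, 50) (135, 50)).box (side (0, 1, 1))) ((lineChart izL52 (4, 5, 40) (1, 3, 1600) (75, 89, 100) (109, 50) (135, 50)).geo.muUp 4 (135, 50)) :=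
  ⟨292, 13, 7, 9, 4, by decide +kernel⟩

/-- A window. -/
theorem izL54_up : Chk ((lineChart izL54 (4, 5, 40) (3, 5, 800) (75, 89, 100) (109, 50) (141, 50)).box (side (0, 1, 1))) ((lineChart izL54 (4, 5, 40) (3, 5, 800) (75, 89, 100) (109, 50) (141, 50)).geo.muUp 4 (141, 50)) :=
  ⟨285, 13, 7, 9, 4, by decide +kernel⟩

/-- A window. -/
theorem izL56_up : Chk ((lineChart izL56 (4, 5, 40) (1, 2, 100) (75, 89, 100) (108, 50) (141, 50)).box (side (0, 1, 1))) ((lineChart izL56 (4, 5, 40) (1, 2, 100) (75, 89, 100) (108, 50) (141, 50)).geo.muUp 4 (141, 50)) :=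
  ⟨264, 13, 7, 9, 4, by decide +kernel⟩

/-- A window. -/
theorem izL59_up : Chk ((lineChart izL59 (20, 21, 160) (0, 1, 50) (75, 86, 100) (117, 50) (137, 50)).box (side (0, 1, 1))) ((lineChart izL59 (20, 21, 160) (0, 1, 50) (75, 86, 100) (117, 50) (137, 50)).geo.muUp 4 (137, 50)) :=
  ⟨283, 13, 7, 9, 4, by decide +kernel⟩

/-- A window. -/
theorem izL61_up : Chk ((lineChart izL61 (20, 21, 160) (5, 16, 800) (150, 161, 200) (113, 50) (134, 50)).box (side (0, 1, 1))) ((lineChart izL61 (20, 21, 160) (5, 16, 800) (150, 161, 200) (113, 50) (134, 50)).geo.muUp 4 (134, 50)) :=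
  ⟨320, 13, 7, 9, 4, by decide +kernel⟩

/-- A window. -/
theorem izL63_up : Chk ((lineChart izL63 (41, 42, 320) (0, 1, 50) (161, 172, 200) (117, 50) (137, 50)).box (side (0, 1, 1))) ((lineChart izL63 (41, 42, 320) (0, 1, 50) (161, 172, 200) (117, 50) (137, 50)).geo.muUp 4 (137, 50)) :=
  ⟨305, 13, 7, 9, 4, by decide +kernel⟩

/-- A window. -/
theorem izL66_up : Chk ((lineChart izL66 (42, 43, 320) (0, 1, 50) (15, 17, 20) (119, 50) (138, 50)).box (side (0, 1, 1))) ((lineChart izL66 (42, 43, 320) (0, 1, 50) (15, 17, 20) (119, 50) (138, 50)).geo.muUp 4 (138, 50)) :=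
  ⟨275, 13, 7, 9, 4, by decide +kernel⟩

/-- A window. -/
theorem izL69_up : Chk ((lineChart izL69 (43, 44, 320) (0, 1, 160) (75, 83, 100) (129, 50) (164, 50)).box (side (0, 1, 1))) ((lineChart izL69 (43, 44, 320) (0, 1, 160) (75, 83, 100) (129, 50) (164, 50)).geo.muUp 4 (164, 50)) :=
  ⟨308, 13, 7, 9, 4, by decide +kernel⟩

/-- A window. -/
theorem izL71_up : Chk ((lineChart izL71 (43, 44, 320) (0, 3, 1600) (75, 83, 100) (118, 50) (139, 50)).box (side (0, 1, 1))) ((lineChart izL71 (43, 44, 320) (0, 3, 1600) (75, 83, 100) (118, 50) (139, 50)).geo.muUp 4 (139, 50)) :=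
  ⟨331, 13, 7, 9, 4, by decide +kernel⟩

/-- A window. -/
theorem izL74_up : Chk ((lineChart izL74 (22, 23, 160) (0, 1, 50) (15, 16, 20) (142, 50) (166, 50)).box (side (0, 1, 1))) ((lineChart izL74 (22, 23, 160) (0, 1, 50) (15, 16, 20) (142, 50) (166, 50)).geo.muUp 4 (166, 50)) :=
  ⟨263, 13, 7, 9, 4, by decide +kernel⟩

/-- A window. -/
theorem izL76_up : Chk ((lineChart izL76 (22, 23, 160) (0, 3, 1600) (15, 16, 20) (119, 50) (142, 50)).box (side (0, 1, 1))) ((lineChart izL76 (22, 23, 160) (0, 3, 1600) (15, 16, 20) (119, 50) (142, 50)).geo.muUp 4 (142, 50)) :=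
  ⟨297, 13, 7, 9, 4, by decide +kernel⟩

/-- A window. -/
theorem izL78_up : Chk ((lineChart izL78 (22, 23, 160) (5, 16, 800) (15, 16, 20) (117, 50) (142, 50)).box (side (0, 1, 1))) ((lineChart izL78 (22, 23, 160) (5, 16, 800) (15, 16, 20) (117, 50) (142, 50)).geo.muUp 4 (142, 50)) :=
  ⟨290, 13, 7, 9, 4, by decide +kernel⟩

/-- A window. -/
theorem izL82_up : Chk ((lineChart izL82 (20, 23, 160) (2, 15, 100) (75, 89, 100) (95, 50) (169, 50)).box (side (0, 1, 1))) ((lineChart izL82 (20, 23, 160) (2, 15, 100) (75, 89, 100) (95, 50) (169, 50)).geo.muUp 4 (169, 50)) :=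
  ⟨281, 13, 7, 9, 4, by decide +kernel⟩

/-- A window. -/
theorem izL85_up : Chk ((lineChart izL85 (1, 2, 20) (2, 4, 1) (0, 1, 2) (35, 50) (147, 50)).box (side (0, 1, 1))) ((lineChart izL85 (1, 2, 20) (2, 4, 1) (0, 1, 2) (35, 50) (147, 50)).geo.muUp 4 (147, 50)) :=
  ⟨143, 13, 7, 9, 4, by decide +kernel⟩

/-- A window. -/
theorem izL87_up : Chk ((lineChart izL87 (1, 2, 20) (1, 2, 1) (2, 3, 4) (65, 50) (129, 50)).box (side (0, 1, 1))) ((lineChart izL87 (1, 2, 20) (1, 2, 1) (2, 3, 4) (65, 50) (129, 50)).geo.muUp 4 (129, 50)) :=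
  ⟨152, 13, 7, 9, 4, by decide +kernel⟩

/-- A window. -/
theorem izL89_up : Chk ((lineChart izL89 (16, 23, 160) (1, 2, 1) (2, 3, 4) (39, 50) (163, 50)).box (side (0, 1, 1))) ((lineChart izL89 (16, 23, 160) (1, 2, 1) (2, 3, 4) (39, 50) (163, 50)).geo.muUp 4 (163, 50)) :=
  ⟨192, 13, 7, 9, 4, by decide +kernel⟩

/-- A window. -/
theorem izL91_up : Chk ((lineChart izL91 (16, 23, 160) (1, 2, 1) (75, 89, 100) (41, 50) (165, 50)).box (side (0, 1, 1))) ((lineChart izL91 (16, 23, 160) (1, 2, 1) (75, 89, 100) (41, 50) (165, 50)).geo.muUp 4 (165, 50)) :=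
  ⟨234, 13, 7, 9, 4, by decide +kernel⟩

/-- A window. -/
theorem izL93_up : Chk ((lineChart izL93 (3, 4, 40) (0, 1, 50) (7, 8, 8) (114, 50) (147, 50)).box (side (0, 1, 1))) ((lineChart izL93 (3, 4, 40) (0, 1, 50) (7, 8, 8) (114, 50) (147, 50)).geo.muUp 4 (147, 50)) :=
  ⟨224, 13, 7, 9, 4, by decide +kernel⟩

/-- A window. -/
theorem izL95_up : Chk ((lineChart izL95 (3, 4, 40) (0, 1, 50) (22, 25, 25) (107, 50) (127, 50)).box (side (0, 1, 1))) ((lineChart izL95 (3, 4, 40) (0, 1, 50) (22, 25, 25) (107, 50) (127, 50)).geo.muUp 4 (127, 50)) :=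
  ⟨238, 13, 7, 9, 4, by decide +kernel⟩

/-- A window. -/
theorem izL97_up : Chk ((lineChart izL97 (4, 5, 40) (0, 1, 500) (17, 20, 20) (113, 50) (143, 50)).box (side (0, 1, 1))) ((lineChart izL97 (4, 5, 40) (0, 1, 500) (17, 20, 20) (113, 50) (143, 50)).geo.muUp 4 (143, 50)) :=
  ⟨259, 13, 7, 9, 4, by decide +kernel⟩

/-- A window. -/
theorem izL101_up : Chk ((lineChart izL101 (20, 21, 160) (0, 1, 160) (21, 25, 25) (135, 50) (166, 50)).box (side (0, 1, 1))) ((lineChart izL101 (20, 21, 160) (0, 1, 160) (21, 25, 25) (135, 50) (166, 50)).geo.muUp 4 (166, 50)) :=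
  ⟨277, 13, 7, 9, 4, by decide +kernel⟩

/-- A window. -/
theorem izL103_up : Chk ((lineChart izL103 (20, 21, 160) (0, 1, 500) (21, 25, 25) (120, 50) (144, 50)).box (side (0, 1, 1))) ((lineChart izL103 (20, 21, 160) (0, 1, 500) (21, 25, 25) (120, 50) (144, 50)).geo.muUp 4 (144, 50)) :=
  ⟨288, 13, 7, 9, 4, by decide +kernel⟩

/-- A window. -/
theorem izL105_up : Chk ((lineChart izL105 (102, 105, 800) (0, 1, 500) (21, 22, 25) (120, 50) (137, 50)).box (side (0, 1, 1))) ((lineChart izL105 (102, 105, 800) (0, 1, 500) (21, 22, 25) (120, 50) (137, 50)).geo.muUp 4 (137, 50)) :=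
  ⟨318, 13, 7, 9, 4, by decide +kernel⟩

/-- A window. -/
theorem izL108_up : Chk ((lineChart izL108 (20, 21, 160) (3, 6, 1600) (21, 25, 25) (119, 50) (153, 50)).box (side (0, 1, 1))) ((lineChart izL108 (20, 21, 160) (3, 6, 1600) (21, 25, 25) (119, 50) (153, 50)).geo.muUp 4 (153, 50)) :=
  ⟨300, 13, 7, 9, 4, by decide +kernel⟩

/-- A window. -/
theorem izL111_up : Chk ((lineChart izL111 (105, 108, 800) (0, 1, 50) (42, 45, 50) (146, 50) (168, 50)).box (side (0, 1, 1))) ((lineChart izL111 (105, 108, 800) (0, 1, 50) (42, 45, 50) (146, 50) (168, 50)).geo.muUp 4 (168, 50)) :=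
  ⟨305, 13, 7, 9, 4, by decide +kernel⟩

/-- A window. -/
theorem izL113_up : Chk ((lineChart izL113 (105, 108, 800) (0, 1, 500) (42, 45, 50) (123, 50) (143, 50)).box (side (0, 1, 1))) ((lineChart izL113 (105, 108, 800) (0, 1, 500) (42, 45, 50) (123, 50) (143, 50)).geo.muUp 4 (143, 50)) :=
  ⟨327, 13, 7, 9, 4, by decide +kernel⟩

/-- A window. -/
theorem izL115_up : Chk ((lineChart izL115 (105, 108, 800) (8, 25, 4000) (168, 175, 200) (121, 50) (139, 50)).box (side (0, 1, 1))) ((lineChart izL115 (105, 108, 800) (8, 25, 4000) (168, 175, 200) (121, 50) (139, 50)).geo.muUp 4 (139, 50)) :=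
  ⟨366, 13, 7, 9, 4, by decide +kernel⟩

/-- A window. -/
theorem izL117_up : Chk ((lineChart izL117 (105, 108, 800) (5, 16, 800) (42, 45, 50) (120, 50) (143, 50)).box (side (0, 1, 1))) ((lineChart izL117 (105, 108, 800) (5, 16, 800) (42, 45, 50) (120, 50) (143, 50)).geo.muUp 4 (143, 50)) :=
  ⟨332, 13, 7, 9, 4, by decide +kernel⟩

/-- A window. -/
theorem izL122_up : Chk ((lineChart izL122 (22, 23, 160) (0, 1, 50) (33, 40, 80) (100, 50) (137, 50)).box (side (0, 1, 1))) ((lineChart izL122 (22, 23, 160) (0, 1, 50) (33, 40, 80) (100, 50) (137, 50)).geo.muUp 4 (137, 50)) :=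
  ⟨280, 13, 7, 9, 4, by decide +kernel⟩

/-- A window. -/
theorem izL124_up : Chk ((lineChart izL124 (20, 23, 160) (2, 15, 100) (9, 10, 16) (98, 50) (146, 50)).box (side (0, 1, 1))) ((lineChart izL124 (20, 23, 160) (2, 15, 100) (9, 10, 16) (98, 50) (146, 50)).geo.muUp 4 (146, 50)) :=
  ⟨257, 13, 7, 9, 4, by decide +kernel⟩

/-- A window. -/
theorem izL126_up : Chk ((lineChart izL126 (20, 23, 160) (2, 5, 100) (26, 33, 80) (96, 50) (129, 50)).box (side (0, 1, 1))) ((lineChart izL126 (20, 23, 160) (2, 5, 100) (26, 33, 80) (96, 50) (129, 50)).geo.muUp 4 (129, 50)) :=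
  ⟨278, 13, 7, 9, 4, by decide +kernel⟩

/-- A window. -/
theorem izL128_up : Chk ((lineChart izL128 (10, 11, 80) (0, 1, 50) (3, 6, 40) (88, 50) (114, 50)).box (side (0, 1, 1))) ((lineChart izL128 (10, 11, 80) (0, 1, 50) (3, 6, 40) (88, 50) (114, 50)).geo.muUp 4 (114, 50)) :=
  ⟨258, 13, 7, 9, 4, by decide +kernel⟩

/-- A window. -/
theorem izL130_up : Chk ((lineChart izL130 (16, 23, 160) (1, 3, 20) (19, 26, 80) (91, 50) (122, 50)).box (side (0, 1, 1))) ((lineChart izL130 (16, 23, 160) (1, 3, 20) (19, 26, 80) (91, 50) (122, 50)).geo.muUp 4 (122, 50)) :=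
  ⟨261, 13, 7, 9, 4, by decide +kernel⟩

/-- A window. -/
theorem izL132_up : Chk ((lineChart izL132 (16, 23, 160) (3, 20, 20) (5, 6, 8) (70, 50) (147, 50)).box (side (0, 1, 1))) ((lineChart izL132 (16, 23, 160) (3, 20, 20) (5, 6, 8) (70, 50) (147, 50)).geo.muUp 4 (147, 50)) :=
  ⟨232, 13, 7, 9, 4, by decide +kernel⟩

/-- A window. -/
theorem izL201_up : Chk ((lineChart izL201 (2, 3, 40) (0, 1, 160) (15, 19, 20) (112, 50) (128, 50)).box (side (0, 1, 1))) ((lineChart izL201 (2, 3, 40) (0, 1, 160) (15, 19, 20) (112, 50) (128, 50)).geo.muUp 4 (128, 50)) :=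
  ⟨247, 13, 7, 9, 4, by decide +kernel⟩

/-- A window. -/
theorem izL203_up : Chk ((lineChart izL203 (2, 3, 40) (0, 1, 160) (15, 19, 20) (104, 50) (120, 50)).box (side (0, 1, 1))) ((lineChart izL203 (2, 3, 40) (0, 1, 160) (15, 19, 20) (104, 50) (120, 50)).geo.muUp 4 (120, 50)) :=
  ⟨247, 13, 7, 9, 4, by decide +kernel⟩

/-- A window. -/
theorem izL205_up : Chk ((lineChart izL205 (2, 3, 40) (5, 16, 800) (15, 19, 20) (102, 50) (129, 50)).box (side (0, 1, 1))) ((lineChart izL205 (2, 3, 40) (5, 16, 800) (15, 19, 20) (102, 50) (129, 50)).geo.muUp 4 (129, 50)) :=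
  ⟨263, 13, 7, 9, 4, by decide +kernel⟩

/-- A window. -/
theorem izL207_up : Chk ((lineChart izL207 (3, 4, 40) (0, 1, 160) (75, 92, 100) (107, 50) (131, 50)).box (side (0, 1, 1))) ((lineChart izL207 (3, 4, 40) (0, 1, 160) (75, 92, 100) (107, 50) (131, 50)).geo.muUp 4 (131, 50)) :=
  ⟨268, 13, 7, 9, 4, by decide +kernel⟩

/-- A window. -/
theorem izL209_up : Chk ((lineChart izL209 (3, 4, 40) (5, 16, 800) (75, 92, 100) (107, 50) (131, 50)).box (side (0, 1, 1))) ((lineChart izL209 (3, 4, 40) (5, 16, 800) (75, 92, 100) (107, 50) (131, 50)).geo.muUp 4 (131, 50)) :=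
  ⟨284, 13, 7, 9, 4, by decide +kernel⟩

/-- A window. -/
theorem izL211_up : Chk ((lineChart izL211 (4, 5, 40) (0, 3, 1600) (75, 89, 100) (131, 50) (157, 50)).box (side (0, 1, 1))) ((lineChart izL211 (4, 5, 40) (0, 3, 1600) (75, 89, 100) (131, 50) (157, 50)).geo.muUp 4 (157, 50)) :=
  ⟨292, 13, 7, 9, 4, by decide +kernel⟩

/-- A window. -/
theorem izL213_up : Chk ((lineChart izL213 (4, 5, 40) (0, 1, 160) (75, 89, 100) (131, 50) (156, 50)).box (side (0, 1, 1))) ((lineChart izL213 (4, 5, 40) (0, 1, 160) (75, 89, 100) (131, 50) (156, 50)).geo.muUp 4 (156, 50)) :=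
  ⟨269, 13, 7, 9, 4, by decide +kernel⟩

/-- A window. -/
theorem izL216_up : Chk ((lineChart izL216 (4, 5, 40) (3, 4, 400) (75, 89, 100) (129, 50) (157, 50)).box (side (0, 1, 1))) ((lineChart izL216 (4, 5, 40) (3, 4, 400) (75, 89, 100) (129, 50) (157, 50)).geo.muUp 4 (157, 50)) :=
  ⟨278, 13, 7, 9, 4, by decide +kernel⟩

/-- A window. -/
theorem izL218_up : Chk ((lineChart izL218 (4, 5, 40) (3, 4, 200) (75, 89, 100) (129, 50) (155, 50)).box (side (0, 1, 1))) ((lineChart izL218 (4, 5, 40) (3, 4, 200) (75, 89, 100) (129, 50) (155, 50)).geo.muUp 4 (155, 50)) :=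
  ⟨271, 13, 7, 9, 4, by decide +kernel⟩

/-- A window. -/
theorem izL220_up : Chk ((lineChart izL220 (4, 5, 40) (5, 16, 800) (75, 89, 100) (128, 50) (153, 50)).box (side (0, 1, 1))) ((lineChart izL220 (4, 5, 40) (5, 16, 800) (75, 89, 100) (128, 50) (153, 50)).geo.muUp 4 (153, 50)) :=
  ⟨285, 13, 7, 9, 4, by decide +kernel⟩

/-- A window. -/
theorem izL222_up : Chk ((lineChart izL222 (20, 21, 160) (0, 1, 50) (75, 86, 100) (139, 50) (154, 50)).box (side (0, 1, 1))) ((lineChart izL222 (20, 21, 160) (0, 1, 50) (75, 86, 100) (139, 50) (154, 50)).geo.muUp 4 (154, 50)) :=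
  ⟨283, 13, 7, 9, 4, by decide +kernel⟩

/-- A window. -/
theorem izL224_up : Chk ((lineChart izL224 (20, 21, 160) (0, 1, 50) (75, 86, 100) (134, 50) (150, 50)).box (side (0, 1, 1))) ((lineChart izL224 (20, 21, 160) (0, 1, 50) (75, 86, 100) (134, 50) (150, 50)).geo.muUp 4 (150, 50)) :=
  ⟨283, 13, 7, 9, 4, by decide +kernel⟩

/-- A window. -/
theorem izL226_up : Chk ((lineChart izL226 (20, 21, 160) (0, 1, 50) (75, 86, 100) (125, 50) (144, 50)).box (side (0, 1, 1))) ((lineChart izL226 (20, 21, 160) (0, 1, 50) (75, 86, 100) (125, 50) (144, 50)).geo.muUp 4 (144, 50)) :=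
  ⟨283, 13, 7, 9, 4, by decide +kernel⟩

/-- A window. -/
theorem izL228_up : Chk ((lineChart izL228 (42, 43, 320) (0, 1, 50) (15, 17, 20) (142, 50) (155, 50)).box (side (0, 1, 1))) ((lineChart izL228 (42, 43, 320) (0, 1, 50) (15, 17, 20) (142, 50) (155, 50)).geo.muUp 4 (155, 50)) :=
  ⟨275, 13, 7, 9, 4, by decide +kernel⟩

/-- A window. -/
theorem izL230_up : Chk ((lineChart izL230 (42, 43, 320) (0, 1, 50) (15, 17, 20) (137, 50) (152, 50)).box (side (0, 1, 1))) ((lineChart izL230 (42, 43, 320) (0, 1, 50) (15, 17, 20) (137, 50) (152, 50)).geo.muUp 4 (152, 50)) :=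
  ⟨275, 13, 7, 9, 4, by decide +kernel⟩

/-- A window. -/
theorem izL232_up : Chk ((lineChart izL232 (42, 43, 320) (0, 1, 50) (15, 17, 20) (127, 50) (145, 50)).box (side (0, 1, 1))) ((lineChart izL232 (42, 43, 320) (0, 1, 50) (15, 17, 20) (127, 50) (145, 50)).geo.muUp 4 (145, 50)) :=
  ⟨275, 13, 7, 9, 4, by decide +kernel⟩

/-- A window. -/
theorem izL234_up : Chk ((lineChart izL234 (85, 86, 640) (1, 3, 1600) (15, 17, 20) (117, 50) (138, 50)).box (side (0, 1, 1))) ((lineChart izL234 (85, 86, 640) (1, 3, 1600) (15, 17, 20) (117, 50) (138, 50)).geo.muUp 4 (138, 50)) :=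
  ⟨323, 13, 7, 9, 4, by decide +kernel⟩

/-- A window. -/
theorem izL236_up : Chk ((lineChart izL236 (85, 86, 640) (5, 16, 800) (15, 17, 20) (115, 50) (138, 50)).box (side (0, 1, 1))) ((lineChart izL236 (85, 86, 640) (5, 16, 800) (15, 17, 20) (115, 50) (138, 50)).geo.muUp 4 (138, 50)) :=
  ⟨316, 13, 7, 9, 4, by decide +kernel⟩

/-- A window. -/
theorem izL239_up : Chk ((lineChart izL239 (4, 5, 40) (3, 20, 20) (75, 89, 100) (74, 50) (144, 50)).box (side (0, 1, 1))) ((lineChart izL239 (4, 5, 40) (3, 20, 20) (75, 89, 100) (74, 50) (144, 50)).geo.muUp 4 (144, 50)) :=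
  ⟨238, 13, 7, 9, 4, by decide +kernel⟩

/-- A window. -/
theorem izL241_up : Chk ((lineChart izL241 (9, 10, 80) (10, 11, 1600) (75, 89, 100) (135, 50) (157, 50)).box (side (0, 1, 1))) ((lineChart izL241 (9, 10, 80) (10, 11, 1600) (75, 89, 100) (135, 50) (157, 50)).geo.muUp 4 (157, 50)) :=
  ⟨305, 13, 7, 9, 4, by decide +kernel⟩

/-- A window. -/
theorem izL243_up : Chk ((lineChart izL243 (43, 44, 320) (5, 16, 800) (75, 83, 100) (116, 50) (161, 50)).box (side (0, 1, 1))) ((lineChart izL243 (43, 44, 320) (5, 16, 800) (75, 83, 100) (116, 50) (161, 50)).geo.muUp 4 (161, 50)) :=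
  ⟨324, 13, 7, 9, 4, by decide +kernel⟩

/-- A window. -/
theorem izL245_up : Chk ((lineChart izL245 (20, 23, 160) (2, 5, 5) (75, 89, 100) (68, 50) (151, 50)).box (side (0, 1, 1))) ((lineChart izL245 (20, 23, 160) (2, 5, 5) (75, 89, 100) (68, 50) (151, 50)).geo.muUp 4 (151, 50)) :=
  ⟨251, 13, 7, 9, 4, by decide +kernel⟩

/-- A window. -/
theorem izL247_up : Chk ((lineChart izL247 (6, 7, 80) (3, 20, 20) (15, 19, 20) (84, 50) (131, 50)).box (side (0, 1, 1))) ((lineChart izL247 (6, 7, 80) (3, 20, 20) (15, 19, 20) (84, 50) (131, 50)).geo.muUp 4 (131, 50)) :=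
  ⟨231, 13, 7, 9, 4, by decide +kernel⟩

/-- A window. -/
theorem izL249_up : Chk ((lineChart izL249 (15, 16, 160) (3, 8, 20) (15, 19, 20) (94, 50) (138, 50)).box (side (0, 1, 1))) ((lineChart izL249 (15, 16, 160) (3, 8, 20) (15, 19, 20) (94, 50) (138, 50)).geo.muUp 4 (138, 50)) :=
  ⟨244, 13, 7, 9, 4, by decide +kernel⟩

/-- A window. -/
theorem izL300_up : Chk ((lineChart izL300 (1, 2, 20) (2, 15, 100) (22, 25, 25) (100, 50) (143, 50)).box (side (0, 1, 1))) ((lineChart izL300 (1, 2, 20) (2, 15, 100) (22, 25, 25) (100, 50) (143, 50)).geo.muUp 4 (143, 50)) :=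
  ⟨223, 13, 7, 9, 4, by decide +kernel⟩

/-- A window. -/
theorem izL302_up : Chk ((lineChart izL302 (5, 6, 50) (8, 25, 400) (21, 25, 25) (108, 50) (157, 50)).box (side (0, 1, 1))) ((lineChart izL302 (5, 6, 50) (8, 25, 400) (21, 25, 25) (108, 50) (157, 50)).geo.muUp 4 (157, 50)) :=
  ⟨255, 13, 7, 9, 4, by decide +kernel⟩

/-- A window. -/
theorem izL304_up : Chk ((lineChart izL304 (24, 27, 200) (2, 15, 100) (21, 25, 25) (99, 50) (169, 50)).box (side (0, 1, 1))) ((lineChart izL304 (24, 27, 200) (2, 15, 100) (21, 25, 25) (99, 50) (169, 50)).geo.muUp 4 (169, 50)) :=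
  ⟨267, 13, 7, 9, 4, by decide +kernel⟩

/-- A window. -/
theorem izL310_up : Chk ((lineChart izL310 (4, 5, 40) (3, 10, 1600) (17, 20, 20) (119, 50) (167, 50)).box (side (0, 1, 1))) ((lineChart izL310 (4, 5, 40) (3, 10, 1600) (17, 20, 20) (119, 50) (167, 50)).geo.muUp 4 (167, 50)) :=
  ⟨271, 13, 7, 9, 4, by decide +kernel⟩

/-- A window. -/
theorem izL312_up : Chk ((lineChart izL312 (4, 5, 40) (5, 8, 800) (17, 20, 20) (131, 50) (164, 50)).box (side (0, 1, 1))) ((lineChart izL312 (4, 5, 40) (5, 8, 800) (17, 20, 20) (131, 50) (164, 50)).geo.muUp 4 (164, 50)) :=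
  ⟨264, 13, 7, 9, 4, by decide +kernel⟩

/-- A window. -/
theorem izL314_up : Chk ((lineChart izL314 (4, 5, 40) (5, 16, 800) (17, 20, 20) (122, 50) (157, 50)).box (side (0, 1, 1))) ((lineChart izL314 (4, 5, 40) (5, 16, 800) (17, 20, 20) (122, 50) (157, 50)).geo.muUp 4 (157, 50)) :=
  ⟨264, 13, 7, 9, 4, by decide +kernel⟩

/-- A window. -/
theorem izL316_up : Chk ((lineChart izL316 (20, 21, 160) (5, 8, 800) (21, 25, 25) (143, 50) (169, 50)).box (side (0, 1, 1))) ((lineChart izL316 (20, 21, 160) (5, 8, 800) (21, 25, 25) (143, 50) (169, 50)).geo.muUp 4 (169, 50)) :=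
  ⟨293, 13, 7, 9, 4, by decide +kernel⟩

/-- A window. -/
theorem izL318_up : Chk ((lineChart izL318 (20, 21, 160) (5, 16, 800) (21, 25, 25) (132, 50) (161, 50)).box (side (0, 1, 1))) ((lineChart izL318 (20, 21, 160) (5, 16, 800) (21, 25, 25) (132, 50) (161, 50)).geo.muUp 4 (161, 50)) :=
  ⟨293, 13, 7, 9, 4, by decide +kernel⟩

/-- A window. -/
theorem izL321_up : Chk ((lineChart izL321 (18, 19, 160) (0, 1, 500) (34, 35, 40) (124, 50) (153, 50)).box (side (0, 1, 1))) ((lineChart izL321 (18, 19, 160) (0, 1, 500) (34, 35, 40) (124, 50) (153, 50)).geo.muUp 4 (153, 50)) :=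
  ⟨294, 13, 7, 9, 4, by decide +kernel⟩

/-- A window. -/
theorem izL323_up : Chk ((lineChart izL323 (525, 532, 4000) (0, 1, 500) (168, 175, 200) (122, 50) (138, 50)).box (side (0, 1, 1))) ((lineChart izL323 (525, 532, 4000) (0, 1, 500) (168, 175, 200) (122, 50) (138, 50)).geo.muUp 4 (138, 50)) :=
  ⟨375, 13, 7, 9, 4, by decide +kernel⟩

/-- A window. -/
theorem izL325_up : Chk ((lineChart izL325 (19, 20, 160) (0, 1, 500) (34, 35, 40) (126, 50) (158, 50)).box (side (0, 1, 1))) ((lineChart izL325 (19, 20, 160) (0, 1, 500) (34, 35, 40) (126, 50) (158, 50)).geo.muUp 4 (158, 50)) :=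
  ⟨294, 13, 7, 9, 4, by decide +kernel⟩

/-- A window. -/
theorem izL400_up : Chk ((lineChart izL400 (4, 5, 40) (0, 1, 50) (0, 3, 20) (87, 50) (112, 50)).box (side (0, 1, 1))) ((lineChart izL400 (4, 5, 40) (0, 1, 50) (0, 3, 20) (87, 50) (112, 50)).geo.muUp 4 (112, 50)) :=
  ⟨235, 13, 7, 9, 4, by decide +kernel⟩

/-- A window. -/
theorem izL402_up : Chk ((lineChart izL402 (22, 23, 160) (0, 1, 50) (0, 3, 40) (85, 50) (114, 50)).box (side (0, 1, 1))) ((lineChart izL402 (22, 23, 160) (0, 1, 50) (0, 3, 40) (85, 50) (114, 50)).geo.muUp 4 (114, 50)) :=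
  ⟨271, 13, 7, 9, 4, by decide +kernel⟩

/-- A window. -/
theorem izL404_up : Chk ((lineChart izL404 (4, 5, 40) (0, 1, 50) (33, 40, 80) (98, 50) (129, 50)).box (side (0, 1, 1))) ((lineChart izL404 (4, 5, 40) (0, 1, 50) (33, 40, 80) (98, 50) (129, 50)).geo.muUp 4 (129, 50)) :=
  ⟨254, 13, 7, 9, 4, by decide +kernel⟩

/-- A window. -/
theorem izL406_up : Chk ((lineChart izL406 (22, 23, 160) (0, 1, 50) (5, 6, 8) (138, 50) (160, 50)).box (side (0, 1, 1))) ((lineChart izL406 (22, 23, 160) (0, 1, 50) (5, 6, 8) (138, 50) (160, 50)).geo.muUp 4 (160, 50)) :=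
  ⟨251, 13, 7, 9, 4, by decide +kernel⟩

/-- A window. -/
theorem izL408_up : Chk ((lineChart izL408 (10, 11, 80) (0, 1, 50) (19, 26, 80) (92, 50) (121, 50)).box (side (0, 1, 1))) ((lineChart izL408 (10, 11, 80) (0, 1, 50) (19, 26, 80) (92, 50) (121, 50)).geo.muUp 4 (121, 50)) :=
  ⟨267, 13, 7, 9, 4, by decide +kernel⟩

end Vale.Agent.P100.Calib.StripEndD
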