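import Vale.Agent.P100.Calib.SlabStripEndIZ7Lines

/-!
# Windows of the lines of the `I` and `Z` charts for `N` between seven and twenty (2)
-/

namespace Vale.Agent.P100.Calib.StripEndD

open Pack hiding ev_add ev_mul
open Pack.Ex StripMid StripEnd

local instance endIZ7Win2Add : Add Ex := ⟨Ex.add⟩
local instance endIZ7Win2Sub : Sub Ex := ⟨Ex.sub⟩
local instance endIZ7Win2Mul : Mul Ex := ⟨Ex.mul⟩

/-- A window. -/
theorem izM1_left : Chk ((lineChart izM1 (2, 3, 40) (5, 16, 800) (0, 3, 20) (0, 1) (1, 1)).box (sideUp (0, 1, 1))) ((lineChart izM1 (2, 3, 40) (5, 16, 800) (0, 3, 20) (0, 1) (1, 1)).geoL.loWin 4) :=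
  ⟨229, 13, 6, 8, 3, by decide +kernel⟩

/-- A window. -/
theorem izM3_left : Chk ((lineChart izM3 (4, 5, 40) (0, 1, 50) (0, 3, 20) (0, 1) (1, 1)).box (sideUp (0, 1, 1))) ((lineChart izM3 (4, 5, 40) (0, 1, 50) (0, 3, 20) (0, 1) (1, 1)).geoL.loWin 4) :=
  ⟨206, 13, 6, 8, 3, by decide +kernel⟩

/-- A window. -/
theorem izM5_left : Chk ((lineChart izM5 (22, 23, 160) (0, 1, 50) (0, 3, 40) (0, 1) (1, 1)).box (sideUp (0, 1, 1))) ((lineChart izM5 (22, 23, 160) (0, 1, 50) (0, 3, 40) (0, 1) (1, 1)).geoL.loWin 4) :=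
  ⟨241, 13, 6, 8, 3, by decide +kernel⟩

/-- A window. -/
theorem izM7_left : Chk ((lineChart izM7 (4, 5, 40) (2, 15, 100) (0, 3, 20) (0, 1) (1, 1)).box (sideUp (0, 1, 1))) ((lineChart izM7 (4, 5, 40) (2, 15, 100) (0, 3, 20) (0, 1) (1, 1)).geoL.loWin 4) :=
  ⟨205, 13, 6, 8, 3, by decide +kernel⟩

/-- A window. -/
theorem izM9_left : Chk ((lineChart izM9 (2, 3, 40) (0, 1, 50) (3, 10, 20) (0, 1) (1, 1)).box (sideUp (0, 1, 1))) ((lineChart izM9 (2, 3, 40) (0, 1, 50) (3, 10, 20) (0, 1) (1, 1)).geoL.loWin 4) :=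
  ⟨205, 13, 6, 8, 3, by decide +kernel⟩

/-- A window. -/
theorem izM11_left : Chk ((lineChart izM11 (4, 5, 40) (0, 1, 50) (6, 13, 40) (0, 1) (1, 1)).box (sideUp (0, 1, 1))) ((lineChart izM11 (4, 5, 40) (0, 1, 50) (6, 13, 40) (0, 1) (1, 1)).geoL.loWin 4) :=
  ⟨214, 13, 6, 8, 3, by decide +kernel⟩

/-- A window. -/
theorem izM13_left : Chk ((lineChart izM13 (10, 11, 80) (0, 1, 50) (6, 13, 40) (0, 1) (1, 1)).box (sideUp (0, 1, 1))) ((lineChart izM13 (10, 11, 80) (0, 1, 50) (6, 13, 40) (0, 1) (1, 1)).geoL.loWin 4) :=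
  ⟨228, 13, 6, 8, 3, by decide +kernel⟩

/-- A window. -/
theorem izM15_left : Chk ((lineChart izM15 (22, 23, 160) (0, 1, 50) (12, 19, 80) (0, 1) (1, 1)).box (sideUp (0, 1, 1))) ((lineChart izM15 (22, 23, 160) (0, 1, 50) (12, 19, 80) (0, 1) (1, 1)).geoL.loWin 4) :=
  ⟨249, 13, 6, 8, 3, by decide +kernel⟩

/-- A window. -/
theorem izM16_right : Chk ((lineChart izM16 (22, 23, 160) (0, 1, 50) (26, 33, 80) (0, 1) (1, 1)).box (side (0, 1, 1))) ((lineChart izM16 (22, 23, 160) (0, 1, 50) (26, 33, 80) (0, 1) (1, 1)).geoR.hiWin) :=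
  ⟨235, 12, 6, 7, 3, by decide +kernel⟩

/-- A window. -/
theorem izM18_right : Chk ((lineChart izM18 (16, 23, 160) (2, 5, 100) (12, 19, 80) (0, 1) (1, 1)).box (side (0, 1, 1))) ((lineChart izM18 (16, 23, 160) (2, 5, 100) (12, 19, 80) (0, 1) (1, 1)).geoR.hiWin) :=
  ⟨234, 12, 6, 7, 3, by decide +kernel⟩

/-- A window. -/
theorem izM20_right : Chk ((lineChart izM20 (16, 23, 160) (1, 3, 20) (12, 19, 80) (0, 1) (1, 1)).box (side (0, 1, 1))) ((lineChart izM20 (16, 23, 160) (1, 3, 20) (12, 19, 80) (0, 1) (1, 1)).geoR.hiWin) :=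
  ⟨220, 12, 6, 7, 3, by decide +kernel⟩

/-- A window. -/
theorem izM22_right : Chk ((lineChart izM22 (16, 23, 160) (1, 3, 20) (26, 33, 80) (0, 1) (1, 1)).box (side (0, 1, 1))) ((lineChart izM22 (16, 23, 160) (1, 3, 20) (26, 33, 80) (0, 1) (1, 1)).geoR.hiWin) :=
  ⟨220, 12, 6, 7, 3, by decide +kernel⟩

/-- A window. -/
theorem izM24_right : Chk ((lineChart izM24 (1, 2, 20) (0, 1, 50) (2, 3, 4) (0, 1) (1, 1)).box (side (0, 1, 1))) ((lineChart izM24 (1, 2, 20) (0, 1, 50) (2, 3, 4) (0, 1) (1, 1)).geoR.hiWin) :=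
  ⟨168, 12, 6, 7, 3, by decide +kernel⟩

/-- A window. -/
theorem izM26_right : Chk ((lineChart izM26 (20, 23, 160) (0, 1, 50) (2, 3, 4) (0, 1) (1, 1)).box (side (0, 1, 1))) ((lineChart izM26 (20, 23, 160) (0, 1, 50) (2, 3, 4) (0, 1) (1, 1)).geoR.hiWin) :=
  ⟨205, 12, 6, 7, 3, by decide +kernel⟩

/-- A window. -/
theorem izM28_left1 : Chk ((lineChart izM28 (4, 5, 40) (37, 60, 400) (2, 3, 4) (0, 1) (1, 1)).box (sideUp (0, 1, 1))) ((lineChart izM28 (4, 5, 40) (37, 60, 400) (2, 3, 4) (0, 1) (1, 1)).geoL.loWin 4) :=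
  ⟨199, 13, 6, 8, 3, by decide +kernel⟩

/-- A window. -/
theorem izM30_exit0 : Chk ((lineChart izM30 (20, 23, 160) (4, 17, 200) (5, 6, 8) (0, 1) (1, 1)).box (side (0, 1, 1))) (exitEx (lineChart izM30 (20, 23, 160) (4, 17, 200) (5, 6, 8) (0, 1) (1, 1))) :=
  ⟨42, 1, 2, 1, 0, by decide +kernel⟩

/-- A window. -/
theorem izM31_right : Chk ((lineChart izM31 (1, 2, 20) (3, 20, 20) (0, 1, 2) (0, 1) (1, 1)).box (side (0, 1, 1))) ((lineChart izM31 (1, 2, 20) (3, 20, 20) (0, 1, 2) (0, 1) (1, 1)).geoR.hiWin) :=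
  ⟨146, 12, 6, 7, 3, by decide +kernel⟩

/-- A window. -/
theorem izM33_right : Chk ((lineChart izM33 (16, 23, 160) (3, 20, 20) (2, 3, 8) (0, 1) (1, 1)).box (side (0, 1, 1))) ((lineChart izM33 (16, 23, 160) (3, 20, 20) (2, 3, 8) (0, 1) (1, 1)).geoR.hiWin) :=
  ⟨197, 12, 6, 7, 3, by decide +kernel⟩

/-- A window. -/
theorem izM35_left1 : Chk ((lineChart izM35 (16, 23, 160) (23, 40, 40) (4, 5, 8) (0, 1) (1, 1)).box (sideUp (0, 1, 1))) ((lineChart izM35 (16, 23, 160) (23, 40, 40) (4, 5, 8) (0, 1) (1, 1)).geoL.loWin 4) :=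
  ⟨214, 13, 6, 8, 3, by decide +kernel⟩

/-- A window. -/
theorem izM37_exit : Chk ((lineChart izM37 (4, 5, 40) (0, 1, 50) (75, 89, 100) (0, 1) (1, 1)).box (side (0, 1, 1))) (exitEx (lineChart izM37 (4, 5, 40) (0, 1, 50) (75, 89, 100) (0, 1) (1, 1))) :=
  ⟨42, 1, 2, 1, 0, by decide +kernel⟩

/-- A window. -/
theorem izM39_exit : Chk ((lineChart izM39 (42, 43, 320) (0, 1, 50) (15, 17, 20) (0, 1) (1, 1)).box (side (0, 1, 1))) (exitEx (lineChart izM39 (42, 43, 320) (0, 1, 50) (15, 17, 20) (0, 1) (1, 1))) :=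
  ⟨43, 1, 2, 1, 0, by decide +kernel⟩

/-- A window. -/
theorem izM41_exit : Chk ((lineChart izM41 (22, 23, 160) (0, 1, 50) (15, 16, 20) (0, 1) (1, 1)).box (side (0, 1, 1))) (exitEx (lineChart izM41 (22, 23, 160) (0, 1, 50) (15, 16, 20) (0, 1) (1, 1))) :=
  ⟨42, 1, 2, 1, 0, by decide +kernel⟩

/-- A window. -/
theorem izM43_exit : Chk ((lineChart izM43 (20, 23, 160) (2, 15, 100) (75, 89, 100) (0, 1) (1, 1)).box (side (0, 1, 1))) (exitEx (lineChart izM43 (20, 23, 160) (2, 15, 100) (75, 89, 100) (0, 1) (1, 1))) :=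
  ⟨44, 1, 2, 1, 0, by decide +kernel⟩

/-- A window. -/
theorem izM45_left : Chk ((lineChart izM45 (1, 2, 20) (2, 4, 1) (0, 1, 2) (0, 1) (1, 1)).box (sideUp (0, 1, 1))) ((lineChart izM45 (1, 2, 20) (2, 4, 1) (0, 1, 2) (0, 1) (1, 1)).geoL.loWin 4) :=
  ⟨127, 13, 6, 8, 3, by decide +kernel⟩

/-- A window. -/
theorem izM47_left : Chk ((lineChart izM47 (1, 2, 20) (1, 2, 1) (2, 3, 4) (0, 1) (1, 1)).box (sideUp (0, 1, 1))) ((lineChart izM47 (1, 2, 20) (1, 2, 1) (2, 3, 4) (0, 1) (1, 1)).geoL.loWin 4) :=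
  ⟨134, 13, 6, 8, 3, by decide +kernel⟩

/-- A window. -/
theorem izM49_left : Chk ((lineChart izM49 (16, 23, 160) (1, 2, 1) (2, 3, 4) (0, 1) (1, 1)).box (sideUp (0, 1, 1))) ((lineChart izM49 (16, 23, 160) (1, 2, 1) (2, 3, 4) (0, 1) (1, 1)).geoL.loWin 4) :=
  ⟨175, 13, 6, 8, 3, by decide +kernel⟩

/-- A window. -/
theorem izM50_right : Chk ((lineChart izM50 (1, 2, 20) (1, 4, 1) (15, 19, 20) (0, 1) (1, 1)).box (side (0, 1, 1))) ((lineChart izM50 (1, 2, 20) (1, 4, 1) (15, 19, 20) (0, 1) (1, 1)).geoR.hiWin) :=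
  ⟨144, 12, 6, 7, 3, by decide +kernel⟩

/-- A window. -/
theorem izM52_right : Chk ((lineChart izM52 (2, 3, 40) (0, 1, 50) (91, 100, 100) (0, 1) (1, 1)).box (side (0, 1, 1))) ((lineChart izM52 (2, 3, 40) (0, 1, 50) (91, 100, 100) (0, 1) (1, 1)).geoR.hiWin) :=
  ⟨213, 12, 6, 7, 3, by decide +kernel⟩

/-- A window. -/
theorem izM54_right : Chk ((lineChart izM54 (4, 5, 40) (0, 3, 1600) (17, 20, 20) (0, 1) (1, 1)).box (side (0, 1, 1))) ((lineChart izM54 (4, 5, 40) (0, 3, 1600) (17, 20, 20) (0, 1) (1, 1)).geoR.hiWin) :=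
  ⟨228, 12, 6, 7, 3, by decide +kernel⟩

/-- A window. -/
theorem izM56_right : Chk ((lineChart izM56 (2625, 2672, 20000) (0, 1, 50) (42, 45, 50) (0, 1) (1, 1)).box (side (0, 1, 1))) ((lineChart izM56 (2625, 2672, 20000) (0, 1, 50) (42, 45, 50) (0, 1) (1, 1)).geoR.hiWin) :=
  ⟨315, 12, 6, 7, 3, by decide +kernel⟩

/-- A window. -/
theorem izM58_right : Chk ((lineChart izM58 (22, 23, 160) (0, 1, 50) (33, 40, 80) (0, 1) (1, 1)).box (side (0, 1, 1))) ((lineChart izM58 (22, 23, 160) (0, 1, 50) (33, 40, 80) (0, 1) (1, 1)).geoR.hiWin) :=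
  ⟨235, 12, 6, 7, 3, by decide +kernel⟩

/-- A window. -/
theorem izM60_right : Chk ((lineChart izM60 (20, 23, 160) (2, 15, 100) (9, 10, 16) (0, 1) (1, 1)).box (side (0, 1, 1))) ((lineChart izM60 (20, 23, 160) (2, 15, 100) (9, 10, 16) (0, 1) (1, 1)).geoR.hiWin) :=
  ⟨218, 12, 6, 7, 3, by decide +kernel⟩

/-- A window. -/
theorem izM62_right : Chk ((lineChart izM62 (22, 23, 160) (0, 1, 50) (3, 6, 40) (0, 1) (1, 1)).box (side (0, 1, 1))) ((lineChart izM62 (22, 23, 160) (0, 1, 50) (3, 6, 40) (0, 1) (1, 1)).geoR.hiWin) :=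
  ⟨228, 12, 6, 7, 3, by decide +kernel⟩

/-- A window. -/
theorem izM64_right : Chk ((lineChart izM64 (3, 4, 40) (0, 1, 50) (3, 6, 40) (0, 1) (1, 1)).box (side (0, 1, 1))) ((lineChart izM64 (3, 4, 40) (0, 1, 50) (3, 6, 40) (0, 1) (1, 1)).geoR.hiWin) :=
  ⟨203, 12, 6, 7, 3, by decide +kernel⟩

/-- A window. -/
theorem izM66_right : Chk ((lineChart izM66 (16, 23, 160) (3, 20, 20) (3, 4, 8) (0, 1) (1, 1)).box (side (0, 1, 1))) ((lineChart izM66 (16, 23, 160) (3, 20, 20) (3, 4, 8) (0, 1) (1, 1)).geoR.hiWin) :=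
  ⟨197, 12, 6, 7, 3, by decide +kernel⟩

/-- A window. -/
theorem izM68_right : Chk ((lineChart izM68 (2, 3, 40) (0, 1, 160) (15, 19, 20) (0, 1) (1, 1)).box (side (0, 1, 1))) ((lineChart izM68 (2, 3, 40) (0, 1, 160) (15, 19, 20) (0, 1) (1, 1)).geoR.hiWin) :=
  ⟨207, 12, 6, 7, 3, by decide +kernel⟩

/-- A window. -/
theorem izM70_right : Chk ((lineChart izM70 (4, 5, 40) (2, 15, 100) (75, 89, 100) (0, 1) (1, 1)).box (side (0, 1, 1))) ((lineChart izM70 (4, 5, 40) (2, 15, 100) (75, 89, 100) (0, 1) (1, 1)).geoR.hiWin) :=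
  ⟨213, 12, 6, 7, 3, by decide +kernel⟩

/-- A window. -/
theorem izM72_right : Chk ((lineChart izM72 (43, 44, 320) (5, 16, 800) (75, 83, 100) (0, 1) (1, 1)).box (side (0, 1, 1))) ((lineChart izM72 (43, 44, 320) (5, 16, 800) (75, 83, 100) (0, 1) (1, 1)).geoR.hiWin) :=
  ⟨274, 12, 6, 7, 3, by decide +kernel⟩

/-- A window. -/
theorem izM74_right : Chk ((lineChart izM74 (3, 4, 40) (1, 50, 50) (15, 19, 20) (0, 1) (1, 1)).box (side (0, 1, 1))) ((lineChart izM74 (3, 4, 40) (1, 50, 50) (15, 19, 20) (0, 1) (1, 1)).geoR.hiWin) :=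
  ⟨191, 12, 6, 7, 3, by decide +kernel⟩

/-- A window. -/
theorem izM76_right : Chk ((lineChart izM76 (1, 2, 20) (3, 20, 20) (22, 25, 25) (0, 1) (1, 1)).box (side (0, 1, 1))) ((lineChart izM76 (1, 2, 20) (3, 20, 20) (22, 25, 25) (0, 1) (1, 1)).geoR.hiWin) :=
  ⟨172, 12, 6, 7, 3, by decide +kernel⟩

/-- A window. -/
theorem izM78_right : Chk ((lineChart izM78 (5, 6, 50) (5, 12, 80) (21, 25, 25) (0, 1) (1, 1)).box (side (0, 1, 1))) ((lineChart izM78 (5, 6, 50) (5, 12, 80) (21, 25, 25) (0, 1) (1, 1)).geoR.hiWin) :=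
  ⟨201, 12, 6, 7, 3, by decide +kernel⟩

/-- A window. -/
theorem izM80_right : Chk ((lineChart izM80 (20, 27, 200) (3, 8, 20) (21, 25, 25) (0, 1) (1, 1)).box (side (0, 1, 1))) ((lineChart izM80 (20, 27, 200) (3, 8, 20) (21, 25, 25) (0, 1) (1, 1)).geoR.hiWin) :=
  ⟨213, 12, 6, 7, 3, by decide +kernel⟩

/-- A window. -/
theorem izM82_right : Chk ((lineChart izM82 (4, 5, 40) (5, 16, 800) (17, 20, 20) (0, 1) (1, 1)).box (side (0, 1, 1))) ((lineChart izM82 (4, 5, 40) (5, 16, 800) (17, 20, 20) (0, 1) (1, 1)).geoR.hiWin) :=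
  ⟨222, 12, 6, 7, 3, by decide +kernel⟩

/-- A window. -/
theorem izM84_right : Chk ((lineChart izM84 (20, 27, 200) (2, 5, 5) (21, 25, 25) (0, 1) (1, 1)).box (side (0, 1, 1))) ((lineChart izM84 (20, 27, 200) (2, 5, 5) (21, 25, 25) (0, 1) (1, 1)).geoR.hiWin) :=
  ⟨201, 12, 6, 7, 3, by decide +kernel⟩

/-- A window. -/
theorem izL1_down : Chk ((lineChart izL1 (2, 3, 40) (5, 16, 800) (0, 3, 20) (93, 50) (106, 50)).box (side (0, 1, 1))) ((lineChart izL1 (2, 3, 40) (5, 16, 800) (0, 3, 20) (93, 50) (106, 50)).geo.muLo (93, 50)) :=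
  ⟨273, 13, 8, 9, 4, by decide +kernel⟩

/-- A window. -/
theorem izL3_down : Chk ((lineChart izL3 (4, 5, 40) (0, 1, 50) (0, 3, 20) (96, 50) (109, 50)).box (side (0, 1, 1))) ((lineChart izL3 (4, 5, 40) (0, 1, 50) (0, 3, 20) (96, 50) (109, 50)).geo.muLo (96, 50)) :=
  ⟨242, 13, 8, 9, 4, by decide +kernel⟩

/-- A window. -/
theorem izL5_down : Chk ((lineChart izL5 (22, 23, 160) (0, 1, 50) (0, 3, 40) (96, 50) (108, 50)).box (side (0, 1, 1))) ((lineChart izL5 (22, 23, 160) (0, 1, 50) (0, 3, 40) (96, 50) (108, 50)).geo.muLo (96, 50)) :=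
  ⟨278, 13, 8, 9, 4, by decide +kernel⟩

/-- A window. -/
theorem izL7_down : Chk ((lineChart izL7 (4, 5, 40) (2, 15, 100) (0, 3, 20) (90, 50) (112, 50)).box (side (0, 1, 1))) ((lineChart izL7 (4, 5, 40) (2, 15, 100) (0, 3, 20) (90, 50) (112, 50)).geo.muLo (90, 50)) :=
  ⟨241, 13, 8, 9, 4, by decide +kernel⟩

/-- A window. -/
theorem izL9_down : Chk ((lineChart izL9 (2, 3, 40) (0, 1, 50) (3, 10, 20) (94, 50) (115, 50)).box (side (0, 1, 1))) ((lineChart izL9 (2, 3, 40) (0, 1, 50) (3, 10, 20) (94, 50) (115, 50)).geo.muLo (94, 50)) :=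
  ⟨241, 13, 8, 9, 4, by decide +kernel⟩

/-- A window. -/
theorem izL11_down : Chk ((lineChart izL11 (4, 5, 40) (0, 1, 50) (6, 13, 40) (91, 50) (118, 50)).box (side (0, 1, 1))) ((lineChart izL11 (4, 5, 40) (0, 1, 50) (6, 13, 40) (91, 50) (118, 50)).geo.muLo (91, 50)) :=
  ⟨251, 13, 8, 9, 4, by decide +kernel⟩

/-- A window. -/
theorem izL13_down : Chk ((lineChart izL13 (10, 11, 80) (0, 1, 50) (12, 19, 80) (89, 50) (117, 50)).box (side (0, 1, 1))) ((lineChart izL13 (10, 11, 80) (0, 1, 50) (12, 19, 80) (89, 50) (117, 50)).geo.muLo (89, 50)) :=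
  ⟨273, 13, 8, 9, 4, by decide +kernel⟩

/-- A window. -/
theorem izL15_down : Chk ((lineChart izL15 (22, 23, 160) (0, 1, 50) (12, 19, 80) (91, 50) (118, 50)).box (side (0, 1, 1))) ((lineChart izL15 (22, 23, 160) (0, 1, 50) (12, 19, 80) (91, 50) (118, 50)).geo.muLo (91, 50)) :=
  ⟨286, 13, 8, 9, 4, by decide +kernel⟩

/-- A window. -/
theorem izL17_down : Chk ((lineChart izL17 (1, 2, 20) (2, 15, 100) (3, 10, 20) (92, 50) (121, 50)).box (side (0, 1, 1))) ((lineChart izL17 (1, 2, 20) (2, 15, 100) (3, 10, 20) (92, 50) (121, 50)).geo.muLo (92, 50)) :=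
  ⟨227, 13, 8, 9, 4, by decide +kernel⟩

/-- A window. -/
theorem izL19_down : Chk ((lineChart izL19 (16, 23, 160) (2, 5, 100) (19, 26, 80) (93, 50) (122, 50)).box (side (0, 1, 1))) ((lineChart izL19 (16, 23, 160) (2, 5, 100) (19, 26, 80) (93, 50) (122, 50)).geo.muLo (93, 50)) :=
  ⟨285, 13, 8, 9, 4, by decide +kernel⟩

/-- A window. -/
theorem izL21_down : Chk ((lineChart izL21 (4, 5, 40) (2, 5, 100) (26, 33, 80) (96, 50) (123, 50)).box (side (0, 1, 1))) ((lineChart izL21 (4, 5, 40) (2, 5, 100) (26, 33, 80) (96, 50) (123, 50)).geo.muLo (96, 50)) :=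
  ⟨259, 13, 8, 9, 4, by decide +kernel⟩

/-- A window. -/
theorem izL23_down : Chk ((lineChart izL23 (4, 5, 40) (2, 15, 100) (33, 40, 80) (96, 50) (129, 50)).box (side (0, 1, 1))) ((lineChart izL23 (4, 5, 40) (2, 15, 100) (33, 40, 80) (96, 50) (129, 50)).geo.muLo (96, 50)) :=
  ⟨259, 13, 8, 9, 4, by decide +kernel⟩

/-- A window. -/
theorem izL25_down : Chk ((lineChart izL25 (4, 5, 40) (0, 1, 50) (2, 3, 4) (106, 50) (147, 50)).box (side (0, 1, 1))) ((lineChart izL25 (4, 5, 40) (0, 1, 50) (2, 3, 4) (106, 50) (147, 50)).geo.muLo (106, 50)) :=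
  ⟨222, 13, 8, 9, 4, by decide +kernel⟩

/-- A window. -/
theorem izL27_down : Chk ((lineChart izL27 (4, 5, 40) (5, 16, 800) (2, 3, 4) (101, 50) (131, 50)).box (side (0, 1, 1))) ((lineChart izL27 (4, 5, 40) (5, 16, 800) (2, 3, 4) (101, 50) (131, 50)).geo.muLo (101, 50)) :=
  ⟨253, 13, 8, 9, 4, by decide +kernel⟩

/-- A window. -/
theorem izL29_down : Chk ((lineChart izL29 (20, 23, 160) (0, 1, 50) (2, 3, 4) (110, 50) (155, 50)).box (side (0, 1, 1))) ((lineChart izL29 (20, 23, 160) (0, 1, 50) (2, 3, 4) (110, 50) (155, 50)).geo.muLo (110, 50)) :=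
  ⟨248, 13, 8, 9, 4, by decide +kernel⟩

/-- A window. -/
theorem izL31_down : Chk ((lineChart izL31 (22, 23, 160) (0, 1, 50) (2, 3, 4) (104, 50) (140, 50)).box (side (0, 1, 1))) ((lineChart izL31 (22, 23, 160) (0, 1, 50) (2, 3, 4) (104, 50) (140, 50)).geo.muLo (104, 50)) :=
  ⟨248, 13, 8, 9, 4, by decide +kernel⟩

/-- A window. -/
theorem izL33_down : Chk ((lineChart izL33 (4, 5, 40) (2, 15, 100) (2, 3, 4) (94, 50) (146, 50)).box (side (0, 1, 1))) ((lineChart izL33 (4, 5, 40) (2, 15, 100) (2, 3, 4) (94, 50) (146, 50)).geo.muLo (94, 50)) :=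
  ⟨220, 13, 8, 9, 4, by decide +kernel⟩

/-- A window. -/
theorem izL35_down : Chk ((lineChart izL35 (20, 23, 160) (2, 15, 100) (5, 6, 8) (96, 50) (157, 50)).box (side (0, 1, 1))) ((lineChart izL35 (20, 23, 160) (2, 15, 100) (5, 6, 8) (96, 50) (157, 50)).geo.muLo (96, 50)) :=
  ⟨256, 13, 8, 9, 4, by decide +kernel⟩

/-- A window. -/
theorem izL37_down : Chk ((lineChart izL37 (16, 23, 160) (3, 20, 20) (0, 1, 4) (70, 50) (130, 50)).box (side (0, 1, 1))) ((lineChart izL37 (16, 23, 160) (3, 20, 20) (0, 1, 4) (70, 50) (130, 50)).geo.muLo (70, 50)) :=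
  ⟨228, 13, 8, 9, 4, by decide +kernel⟩

/-- A window. -/
theorem izL39_down : Chk ((lineChart izL39 (1, 2, 20) (3, 20, 20) (2, 3, 4) (80, 50) (128, 50)).box (side (0, 1, 1))) ((lineChart izL39 (1, 2, 20) (3, 20, 20) (2, 3, 4) (80, 50) (128, 50)).geo.muLo (80, 50)) :=
  ⟨188, 13, 8, 9, 4, by decide +kernel⟩

/-- A window. -/
theorem izL42_down : Chk ((lineChart izL42 (3, 4, 40) (0, 1, 50) (75, 92, 100) (119, 50) (143, 50)).box (side (0, 1, 1))) ((lineChart izL42 (3, 4, 40) (0, 1, 50) (75, 92, 100) (119, 50) (143, 50)).geo.muLo (119, 50)) :=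
  ⟨263, 13, 8, 9, 4, by decide +kernel⟩

/-- A window. -/
theorem izL45_down : Chk ((lineChart izL45 (3, 4, 40) (5, 16, 800) (75, 92, 100) (105, 50) (125, 50)).box (side (0, 1, 1))) ((lineChart izL45 (3, 4, 40) (5, 16, 800) (75, 92, 100) (105, 50) (125, 50)).geo.muLo (105, 50)) :=
  ⟨295, 13, 8, 9, 4, by decide +kernel⟩

/-- A window. -/
theorem izL48_down : Chk ((lineChart izL48 (4, 5, 40) (5, 16, 800) (75, 89, 100) (121, 50) (152, 50)).box (side (0, 1, 1))) ((lineChart izL48 (4, 5, 40) (5, 16, 800) (75, 89, 100) (121, 50) (152, 50)).geo.muLo (121, 50)) :=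
  ⟨296, 13, 8, 9, 4, by decide +kernel⟩

/-- A window. -/
theorem izL50_down : Chk ((lineChart izL50 (4, 5, 40) (0, 3, 1600) (75, 89, 100) (112, 50) (141, 50)).box (side (0, 1, 1))) ((lineChart izL50 (4, 5, 40) (0, 3, 1600) (75, 89, 100) (112, 50) (141, 50)).geo.muLo (112, 50)) :=
  ⟨303, 13, 8, 9, 4, by decide +kernel⟩

/-- A window. -/
theorem izL52_down : Chk ((lineChart izL52 (4, 5, 40) (1, 3, 1600) (75, 89, 100) (109, 50) (135, 50)).box (side (0, 1, 1))) ((lineChart izL52 (4, 5, 40) (1, 3, 1600) (75, 89, 100) (109, 50) (135, 50)).geo.muLo (109, 50)) :=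
  ⟨303, 13, 8, 9, 4, by decide +kernel⟩

/-- A window. -/
theorem izL54_down : Chk ((lineChart izL54 (4, 5, 40) (3, 5, 800) (75, 89, 100) (109, 50) (141, 50)).box (side (0, 1, 1))) ((lineChart izL54 (4, 5, 40) (3, 5, 800) (75, 89, 100) (109, 50) (141, 50)).geo.muLo (109, 50)) :=
  ⟨295, 13, 8, 9, 4, by decide +kernel⟩

/-- A window. -/
theorem izL56_down : Chk ((lineChart izL56 (4, 5, 40) (1, 2, 100) (75, 89, 100) (108, 50) (141, 50)).box (side (0, 1, 1))) ((lineChart izL56 (4, 5, 40) (1, 2, 100) (75, 89, 100) (108, 50) (141, 50)).geo.muLo (108, 50)) :=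
  ⟨271, 13, 8, 9, 4, by decide +kernel⟩

/-- A window. -/
theorem izL59_down : Chk ((lineChart izL59 (20, 21, 160) (0, 1, 50) (75, 86, 100) (117, 50) (137, 50)).box (side (0, 1, 1))) ((lineChart izL59 (20, 21, 160) (0, 1, 50) (75, 86, 100) (117, 50) (137, 50)).geo.muLo (117, 50)) :=
  ⟨289, 13, 8, 9, 4, by decide +kernel⟩

/-- A window. -/
theorem izL61_down : Chk ((lineChart izL61 (20, 21, 160) (5, 16, 800) (150, 161, 200) (113, 50) (134, 50)).box (side (0, 1, 1))) ((lineChart izL61 (20, 21, 160) (5, 16, 800) (150, 161, 200) (113, 50) (134, 50)).geo.muLo (113, 50)) :=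
  ⟨330, 13, 8, 9, 4, by decide +kernel⟩

/-- A window. -/
theorem izL63_down : Chk ((lineChart izL63 (41, 42, 320) (0, 1, 50) (161, 172, 200) (117, 50) (137, 50)).box (side (0, 1, 1))) ((lineChart izL63 (41, 42, 320) (0, 1, 50) (161, 172, 200) (117, 50) (137, 50)).geo.muLo (117, 50)) :=
  ⟨311, 13, 8, 9, 4, by decide +kernel⟩

/-- A window. -/
theorem izL66_down : Chk ((lineChart izL66 (42, 43, 320) (0, 1, 50) (15, 17, 20) (119, 50) (138, 50)).box (side (0, 1, 1))) ((lineChart izL66 (42, 43, 320) (0, 1, 50) (15, 17, 20) (119, 50) (138, 50)).geo.muLo (119, 50)) :=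
  ⟨282, 13, 8, 9, 4, by decide +kernel⟩

/-- A window. -/
theorem izL69_down : Chk ((lineChart izL69 (43, 44, 320) (0, 1, 160) (75, 83, 100) (129, 50) (164, 50)).box (side (0, 1, 1))) ((lineChart izL69 (43, 44, 320) (0, 1, 160) (75, 83, 100) (129, 50) (164, 50)).geo.muLo (129, 50)) :=
  ⟨316, 13, 8, 9, 4, by decide +kernel⟩

/-- A window. -/
theorem izL71_down : Chk ((lineChart izL71 (43, 44, 320) (0, 3, 1600) (75, 83, 100) (118, 50) (139, 50)).box (side (0, 1, 1))) ((lineChart izL71 (43, 44, 320) (0, 3, 1600) (75, 83, 100) (118, 50) (139, 50)).geo.muLo (118, 50)) :=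
  ⟨343, 13, 8, 9, 4, by decide +kernel⟩

/-- A window. -/
theorem izL74_down : Chk ((lineChart izL74 (22, 23, 160) (0, 1, 50) (15, 16, 20) (142, 50) (166, 50)).box (side (0, 1, 1))) ((lineChart izL74 (22, 23, 160) (0, 1, 50) (15, 16, 20) (142, 50) (166, 50)).geo.muLo (142, 50)) :=
  ⟨269, 13, 8, 9, 4, by decide +kernel⟩

/-- A window. -/
theorem izL76_down : Chk ((lineChart izL76 (22, 23, 160) (0, 3, 1600) (15, 16, 20) (119, 50) (142, 50)).box (side (0, 1, 1))) ((lineChart izL76 (22, 23, 160) (0, 3, 1600) (15, 16, 20) (119, 50) (142, 50)).geo.muLo (119, 50)) :=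
  ⟨309, 13, 8, 9, 4, by decide +kernel⟩

/-- A window. -/
theorem izL78_down : Chk ((lineChart izL78 (22, 23, 160) (5, 16, 800) (15, 16, 20) (117, 50) (142, 50)).box (side (0, 1, 1))) ((lineChart izL78 (22, 23, 160) (5, 16, 800) (15, 16, 20) (117, 50) (142, 50)).geo.muLo (117, 50)) :=
  ⟨301, 13, 8, 9, 4, by decide +kernel⟩

/-- A window. -/
theorem izL82_down : Chk ((lineChart izL82 (20, 23, 160) (2, 15, 100) (75, 89, 100) (95, 50) (169, 50)).box (side (0, 1, 1))) ((lineChart izL82 (20, 23, 160) (2, 15, 100) (75, 89, 100) (95, 50) (169, 50)).geo.muLo (95, 50)) :=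
  ⟨289, 13, 8, 9, 4, by decide +kernel⟩

/-- A window. -/
theorem izL85_down : Chk ((lineChart izL85 (1, 2, 20) (2, 4, 1) (0, 1, 2) (35, 50) (147, 50)).box (side (0, 1, 1))) ((lineChart izL85 (1, 2, 20) (2, 4, 1) (0, 1, 2) (35, 50) (147, 50)).geo.muLo (35, 50)) :=
  ⟨144, 13, 8, 9, 4, by decide +kernel⟩

/-- A window. -/
theorem izL87_down : Chk ((lineChart izL87 (1, 2, 20) (1, 2, 1) (2, 3, 4) (65, 50) (129, 50)).box (side (0, 1, 1))) ((lineChart izL87 (1, 2, 20) (1, 2, 1) (2, 3, 4) (65, 50) (129, 50)).geo.muLo (65, 50)) :=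
  ⟨153, 13, 8, 9, 4, by decide +kernel⟩

/-- A window. -/
theorem izL89_down : Chk ((lineChart izL89 (16, 23, 160) (1, 2, 1) (2, 3, 4) (39, 50) (163, 50)).box (side (0, 1, 1))) ((lineChart izL89 (16, 23, 160) (1, 2, 1) (2, 3, 4) (39, 50) (163, 50)).geo.muLo (39, 50)) :=
  ⟨193, 13, 8, 9, 4, by decide +kernel⟩

/-- A window. -/
theorem izL91_down : Chk ((lineChart izL91 (16, 23, 160) (1, 2, 1) (75, 89, 100) (41, 50) (165, 50)).box (side (0, 1, 1))) ((lineChart izL91 (16, 23, 160) (1, 2, 1) (75, 89, 100) (41, 50) (165, 50)).geo.muLo (41, 50)) :=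
  ⟨235, 13, 8, 9, 4, by decide +kernel⟩

/-- A window. -/
theorem izL93_down : Chk ((lineChart izL93 (3, 4, 40) (0, 1, 50) (7, 8, 8) (114, 50) (147, 50)).box (side (0, 1, 1))) ((lineChart izL93 (3, 4, 40) (0, 1, 50) (7, 8, 8) (114, 50) (147, 50)).geo.muLo (114, 50)) :=
  ⟨230, 13, 8, 9, 4, by decide +kernel⟩

/-- A window. -/
theorem izL95_down : Chk ((lineChart izL95 (3, 4, 40) (0, 1, 50) (22, 25, 25) (107, 50) (127, 50)).box (side (0, 1, 1))) ((lineChart izL95 (3, 4, 40) (0, 1, 50) (22, 25, 25) (107, 50) (127, 50)).geo.muLo (107, 50)) :=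
  ⟨245, 13, 8, 9, 4, by decide +kernel⟩

/-- A window. -/
theorem izL97_down : Chk ((lineChart izL97 (4, 5, 40) (0, 1, 500) (17, 20, 20) (113, 50) (143, 50)).box (side (0, 1, 1))) ((lineChart izL97 (4, 5, 40) (0, 1, 500) (17, 20, 20) (113, 50) (143, 50)).geo.muLo (113, 50)) :=
  ⟨269, 13, 8, 9, 4, by decide +kernel⟩

/-- A window. -/
theorem izL101_down : Chk ((lineChart izL101 (20, 21, 160) (0, 1, 160) (21, 25, 25) (135, 50) (166, 50)).box (side (0, 1, 1))) ((lineChart izL101 (20, 21, 160) (0, 1, 160) (21, 25, 25) (135, 50) (166, 50)).geo.muLo (135, 50)) :=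
  ⟨285, 13, 8, 9, 4, by decide +kernel⟩

/-- A window. -/
theorem izL103_down : Chk ((lineChart izL103 (20, 21, 160) (0, 1, 500) (21, 25, 25) (120, 50) (144, 50)).box (side (0, 1, 1))) ((lineChart izL103 (20, 21, 160) (0, 1, 500) (21, 25, 25) (120, 50) (144, 50)).geo.muLo (120, 50)) :=
  ⟨298, 13, 8, 9, 4, by decide +kernel⟩

/-- A window. -/
theorem izL105_down : Chk ((lineChart izL105 (102, 105, 800) (0, 1, 500) (21, 22, 25) (120, 50) (137, 50)).box (side (0, 1, 1))) ((lineChart izL105 (102, 105, 800) (0, 1, 500) (21, 22, 25) (120, 50) (137, 50)).geo.muLo (120, 50)) :=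
  ⟨328, 13, 8, 9, 4, by decide +kernel⟩

/-- A window. -/
theorem izL108_down : Chk ((lineChart izL108 (20, 21, 160) (3, 6, 1600) (21, 25, 25) (119, 50) (153, 50)).box (side (0, 1, 1))) ((lineChart izL108 (20, 21, 160) (3, 6, 1600) (21, 25, 25) (119, 50) (153, 50)).geo.muLo (119, 50)) :=
  ⟨312, 13, 8, 9, 4, by decide +kernel⟩

/-- A window. -/
theorem izL111_down : Chk ((lineChart izL111 (105, 108, 800) (0, 1, 50) (42, 45, 50) (146, 50) (168, 50)).box (side (0, 1, 1))) ((lineChart izL111 (105, 108, 800) (0, 1, 50) (42, 45, 50) (146, 50) (168, 50)).geo.muLo (146, 50)) :=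
  ⟨311, 13, 8, 9, 4, by decide +kernel⟩

/-- A window. -/
theorem izL113_down : Chk ((lineChart izL113 (105, 108, 800) (0, 1, 500) (42, 45, 50) (123, 50) (143, 50)).box (side (0, 1, 1))) ((lineChart izL113 (105, 108, 800) (0, 1, 500) (42, 45, 50) (123, 50) (143, 50)).geo.muLo (123, 50)) :=
  ⟨337, 13, 8, 9, 4, by decide +kernel⟩

/-- A window. -/
theorem izL115_down : Chk ((lineChart izL115 (105, 108, 800) (8, 25, 4000) (168, 175, 200) (121, 50) (139, 50)).box (side (0, 1, 1))) ((lineChart izL115 (105, 108, 800) (8, 25, 4000) (168, 175, 200) (121, 50) (139, 50)).geo.muLo (121, 50)) :=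
  ⟨379, 13, 8, 9, 4, by decide +kernel⟩

/-- A window. -/
theorem izL117_down : Chk ((lineChart izL117 (105, 108, 800) (5, 16, 800) (42, 45, 50) (120, 50) (143, 50)).box (side (0, 1, 1))) ((lineChart izL117 (105, 108, 800) (5, 16, 800) (42, 45, 50) (120, 50) (143, 50)).geo.muLo (120, 50)) :=
  ⟨343, 13, 8, 9, 4, by decide +kernel⟩

/-- A window. -/
theorem izL122_down : Chk ((lineChart izL122 (22, 23, 160) (0, 1, 50) (33, 40, 80) (100, 50) (137, 50)).box (side (0, 1, 1))) ((lineChart izL122 (22, 23, 160) (0, 1, 50) (33, 40, 80) (100, 50) (137, 50)).geo.muLo (100, 50)) :=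
  ⟨287, 13, 8, 9, 4, by decide +kernel⟩

/-- A window. -/
theorem izL124_down : Chk ((lineChart izL124 (20, 23, 160) (2, 15, 100) (9, 10, 16) (98, 50) (146, 50)).box (side (0, 1, 1))) ((lineChart izL124 (20, 23, 160) (2, 15, 100) (9, 10, 16) (98, 50) (146, 50)).geo.muLo (98, 50)) :=
  ⟨265, 13, 8, 9, 4, by decide +kernel⟩

/-- A window. -/
theorem izL126_down : Chk ((lineChart izL126 (20, 23, 160) (2, 5, 100) (26, 33, 80) (96, 50) (129, 50)).box (side (0, 1, 1))) ((lineChart izL126 (20, 23, 160) (2, 5, 100) (26, 33, 80) (96, 50) (129, 50)).geo.muLo (96, 50)) :=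
  ⟨285, 13, 8, 9, 4, by decide +kernel⟩

/-- A window. -/
theorem izL128_down : Chk ((lineChart izL128 (10, 11, 80) (0, 1, 50) (3, 6, 40) (88, 50) (114, 50)).box (side (0, 1, 1))) ((lineChart izL128 (10, 11, 80) (0, 1, 50) (3, 6, 40) (88, 50) (114, 50)).geo.muLo (88, 50)) :=
  ⟨264, 13, 8, 9, 4, by decide +kernel⟩

/-- A window. -/
theorem izL130_down : Chk ((lineChart izL130 (16, 23, 160) (1, 3, 20) (19, 26, 80) (91, 50) (122, 50)).box (side (0, 1, 1))) ((lineChart izL130 (16, 23, 160) (1, 3, 20) (19, 26, 80) (91, 50) (122, 50)).geo.muLo (91, 50)) :=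
  ⟨266, 13, 8, 9, 4, by decide +kernel⟩

/-- A window. -/
theorem izL132_down : Chk ((lineChart izL132 (16, 23, 160) (3, 20, 20) (5, 6, 8) (70, 50) (147, 50)).box (side (0, 1, 1))) ((lineChart izL132 (16, 23, 160) (3, 20, 20) (5, 6, 8) (70, 50) (147, 50)).geo.muLo (70, 50)) :=
  ⟨237, 13, 8, 9, 4, by decide +kernel⟩

/-- A window. -/
theorem izL201_down : Chk ((lineChart izL201 (2, 3, 40) (0, 1, 160) (15, 19, 20) (112, 50) (128, 50)).box (side (0, 1, 1))) ((lineChart izL201 (2, 3, 40) (0, 1, 160) (15, 19, 20) (112, 50) (128, 50)).geo.muLo (112, 50)) :=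
  ⟨255, 13, 8, 9, 4, by decide +kernel⟩

/-- A window. -/
theorem izL203_down : Chk ((lineChart izL203 (2, 3, 40) (0, 1, 160) (15, 19, 20) (104, 50) (120, 50)).box (side (0, 1, 1))) ((lineChart izL203 (2, 3, 40) (0, 1, 160) (15, 19, 20) (104, 50) (120, 50)).geo.muLo (104, 50)) :=
  ⟨255, 13, 8, 9, 4, by decide +kernel⟩

/-- A window. -/
theorem izL205_down : Chk ((lineChart izL205 (2, 3, 40) (5, 16, 800) (15, 19, 20) (102, 50) (129, 50)).box (side (0, 1, 1))) ((lineChart izL205 (2, 3, 40) (5, 16, 800) (15, 19, 20) (102, 50) (129, 50)).geo.muLo (102, 50)) :=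
  ⟨274, 13, 8, 9, 4, by decide +kernel⟩

/-- A window. -/
theorem izL207_down : Chk ((lineChart izL207 (3, 4, 40) (0, 1, 160) (75, 92, 100) (107, 50) (131, 50)).box (side (0, 1, 1))) ((lineChart izL207 (3, 4, 40) (0, 1, 160) (75, 92, 100) (107, 50) (131, 50)).geo.muLo (107, 50)) :=
  ⟨276, 13, 8, 9, 4, by decide +kernel⟩

/-- A window. -/
theorem izL209_down : Chk ((lineChart izL209 (3, 4, 40) (5, 16, 800) (75, 92, 100) (107, 50) (131, 50)).box (side (0, 1, 1))) ((lineChart izL209 (3, 4, 40) (5, 16, 800) (75, 92, 100) (107, 50) (131, 50)).geo.muLo (107, 50)) :=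
  ⟨295, 13, 8, 9, 4, by decide +kernel⟩

/-- A window. -/
theorem izL211_down : Chk ((lineChart izL211 (4, 5, 40) (0, 3, 1600) (75, 89, 100) (131, 50) (157, 50)).box (side (0, 1, 1))) ((lineChart izL211 (4, 5, 40) (0, 3, 1600) (75, 89, 100) (131, 50) (157, 50)).geo.muLo (131, 50)) :=
  ⟨304, 13, 8, 9, 4, by decide +kernel⟩

/-- A window. -/
theorem izL213_down : Chk ((lineChart izL213 (4, 5, 40) (0, 1, 160) (75, 89, 100) (131, 50) (156, 50)).box (side (0, 1, 1))) ((lineChart izL213 (4, 5, 40) (0, 1, 160) (75, 89, 100) (131, 50) (156, 50)).geo.muLo (131, 50)) :=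
  ⟨277, 13, 8, 9, 4, by decide +kernel⟩

/-- A window. -/
theorem izL216_down : Chk ((lineChart izL216 (4, 5, 40) (3, 4, 400) (75, 89, 100) (129, 50) (157, 50)).box (side (0, 1, 1))) ((lineChart izL216 (4, 5, 40) (3, 4, 400) (75, 89, 100) (129, 50) (157, 50)).geo.muLo (129, 50)) :=
  ⟨288, 13, 8, 9, 4, by decide +kernel⟩

/-- A window. -/
theorem izL218_down : Chk ((lineChart izL218 (4, 5, 40) (3, 4, 200) (75, 89, 100) (129, 50) (155, 50)).box (side (0, 1, 1))) ((lineChart izL218 (4, 5, 40) (3, 4, 200) (75, 89, 100) (129, 50) (155, 50)).geo.muLo (129, 50)) :=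
  ⟨280, 13, 8, 9, 4, by decide +kernel⟩

/-- A window. -/
theorem izL220_down : Chk ((lineChart izL220 (4, 5, 40) (5, 16, 800) (75, 89, 100) (128, 50) (153, 50)).box (side (0, 1, 1))) ((lineChart izL220 (4, 5, 40) (5, 16, 800) (75, 89, 100) (128, 50) (153, 50)).geo.muLo (128, 50)) :=
  ⟨296, 13, 8, 9, 4, by decide +kernel⟩

/-- A window. -/
theorem izL222_down : Chk ((lineChart izL222 (20, 21, 160) (0, 1, 50) (75, 86, 100) (139, 50) (154, 50)).box (side (0, 1, 1))) ((lineChart izL222 (20, 21, 160) (0, 1, 50) (75, 86, 100) (139, 50) (154, 50)).geo.muLo (139, 50)) :=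
  ⟨290, 13, 8, 9, 4, by decide +kernel⟩

/-- A window. -/
theorem izL224_down : Chk ((lineChart izL224 (20, 21, 160) (0, 1, 50) (75, 86, 100) (134, 50) (150, 50)).box (side (0, 1, 1))) ((lineChart izL224 (20, 21, 160) (0, 1, 50) (75, 86, 100) (134, 50) (150, 50)).geo.muLo (134, 50)) :=
  ⟨290, 13, 8, 9, 4, by decide +kernel⟩

/-- A window. -/
theorem izL226_down : Chk ((lineChart izL226 (20, 21, 160) (0, 1, 50) (75, 86, 100) (125, 50) (144, 50)).box (side (0, 1, 1))) ((lineChart izL226 (20, 21, 160) (0, 1, 50) (75, 86, 100) (125, 50) (144, 50)).geo.muLo (125, 50)) :=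
  ⟨290, 13, 8, 9, 4, by decide +kernel⟩

/-- A window. -/
theorem izL228_down : Chk ((lineChart izL228 (42, 43, 320) (0, 1, 50) (15, 17, 20) (142, 50) (155, 50)).box (side (0, 1, 1))) ((lineChart izL228 (42, 43, 320) (0, 1, 50) (15, 17, 20) (142, 50) (155, 50)).geo.muLo (142, 50)) :=
  ⟨282, 13, 8, 9, 4, by decide +kernel⟩

/-- A window. -/
theorem izL230_down : Chk ((lineChart izL230 (42, 43, 320) (0, 1, 50) (15, 17, 20) (137, 50) (152, 50)).box (side (0, 1, 1))) ((lineChart izL230 (42, 43, 320) (0, 1, 50) (15, 17, 20) (137, 50) (152, 50)).geo.muLo (137, 50)) :=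
  ⟨282, 13, 8, 9, 4, by decide +kernel⟩

/-- A window. -/
theorem izL232_down : Chk ((lineChart izL232 (42, 43, 320) (0, 1, 50) (15, 17, 20) (127, 50) (145, 50)).box (side (0, 1, 1))) ((lineChart izL232 (42, 43, 320) (0, 1, 50) (15, 17, 20) (127, 50) (145, 50)).geo.muLo (127, 50)) :=
  ⟨282, 13, 8, 9, 4, by decide +kernel⟩

/-- A window. -/
theorem izL234_down : Chk ((lineChart izL234 (85, 86, 640) (1, 3, 1600) (15, 17, 20) (117, 50) (138, 50)).box (side (0, 1, 1))) ((lineChart izL234 (85, 86, 640) (1, 3, 1600) (15, 17, 20) (117, 50) (138, 50)).geo.muLo (117, 50)) :=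
  ⟨335, 13, 8, 9, 4, by decide +kernel⟩

/-- A window. -/
theorem izL236_down : Chk ((lineChart izL236 (85, 86, 640) (5, 16, 800) (15, 17, 20) (115, 50) (138, 50)).box (side (0, 1, 1))) ((lineChart izL236 (85, 86, 640) (5, 16, 800) (15, 17, 20) (115, 50) (138, 50)).geo.muLo (115, 50)) :=
  ⟨327, 13, 8, 9, 4, by decide +kernel⟩

/-- A window. -/
theorem izL239_down : Chk ((lineChart izL239 (4, 5, 40) (3, 20, 20) (75, 89, 100) (74, 50) (144, 50)).box (side (0, 1, 1))) ((lineChart izL239 (4, 5, 40) (3, 20, 20) (75, 89, 100) (74, 50) (144, 50)).geo.muLo (74, 50)) :=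
  ⟨244, 13, 8, 9, 4, by decide +kernel⟩

/-- A window. -/
theorem izL241_down : Chk ((lineChart izL241 (9, 10, 80) (10, 11, 1600) (75, 89, 100) (135, 50) (157, 50)).box (side (0, 1, 1))) ((lineChart izL241 (9, 10, 80) (10, 11, 1600) (75, 89, 100) (135, 50) (157, 50)).geo.muLo (135, 50)) :=
  ⟨317, 13, 8, 9, 4, by decide +kernel⟩

/-- A window. -/
theorem izL243_down : Chk ((lineChart izL243 (43, 44, 320) (5, 16, 800) (75, 83, 100) (116, 50) (161, 50)).box (side (0, 1, 1))) ((lineChart izL243 (43, 44, 320) (5, 16, 800) (75, 83, 100) (116, 50) (161, 50)).geo.muLo (116, 50)) :=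
  ⟨335, 13, 8, 9, 4, by decide +kernel⟩

/-- A window. -/
theorem izL245_down : Chk ((lineChart izL245 (20, 23, 160) (2, 5, 5) (75, 89, 100) (68, 50) (151, 50)).box (side (0, 1, 1))) ((lineChart izL245 (20, 23, 160) (2, 5, 5) (75, 89, 100) (68, 50) (151, 50)).geo.muLo (68, 50)) :=
  ⟨254, 13, 8, 9, 4, by decide +kernel⟩

/-- A window. -/
theorem izL247_down : Chk ((lineChart izL247 (6, 7, 80) (3, 20, 20) (15, 19, 20) (84, 50) (131, 50)).box (side (0, 1, 1))) ((lineChart izL247 (6, 7, 80) (3, 20, 20) (15, 19, 20) (84, 50) (131, 50)).geo.muLo (84, 50)) :=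
  ⟨237, 13, 8, 9, 4, by decide +kernel⟩

/-- A window. -/
theorem izL249_down : Chk ((lineChart izL249 (15, 16, 160) (3, 8, 20) (15, 19, 20) (94, 50) (138, 50)).box (side (0, 1, 1))) ((lineChart izL249 (15, 16, 160) (3, 8, 20) (15, 19, 20) (94, 50) (138, 50)).geo.muLo (94, 50)) :=
  ⟨249, 13, 8, 9, 4, by decide +kernel⟩

/-- A window. -/
theorem izL300_down : Chk ((lineChart izL300 (1, 2, 20) (2, 15, 100) (22, 25, 25) (100, 50) (143, 50)).box (side (0, 1, 1))) ((lineChart izL300 (1, 2, 20) (2, 15, 100) (22, 25, 25) (100, 50) (143, 50)).geo.muLo (100, 50)) :=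
  ⟨231, 13, 8, 9, 4, by decide +kernel⟩

/-- A window. -/
theorem izL302_down : Chk ((lineChart izL302 (5, 6, 50) (8, 25, 400) (21, 25, 25) (108, 50) (157, 50)).box (side (0, 1, 1))) ((lineChart izL302 (5, 6, 50) (8, 25, 400) (21, 25, 25) (108, 50) (157, 50)).geo.muLo (108, 50)) :=
  ⟨264, 13, 8, 9, 4, by decide +kernel⟩

/-- A window. -/
theorem izL304_down : Chk ((lineChart izL304 (24, 27, 200) (2, 15, 100) (21, 25, 25) (99, 50) (169, 50)).box (side (0, 1, 1))) ((lineChart izL304 (24, 27, 200) (2, 15, 100) (21, 25, 25) (99, 50) (169, 50)).geo.muLo (99, 50)) :=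
  ⟨275, 13, 8, 9, 4, by decide +kernel⟩

/-- A window. -/
theorem izL310_down : Chk ((lineChart izL310 (4, 5, 40) (3, 10, 1600) (17, 20, 20) (119, 50) (167, 50)).box (side (0, 1, 1))) ((lineChart izL310 (4, 5, 40) (3, 10, 1600) (17, 20, 20) (119, 50) (167, 50)).geo.muLo (119, 50)) :=
  ⟨283, 13, 8, 9, 4, by decide +kernel⟩

/-- A window. -/
theorem izL312_down : Chk ((lineChart izL312 (4, 5, 40) (5, 8, 800) (17, 20, 20) (131, 50) (164, 50)).box (side (0, 1, 1))) ((lineChart izL312 (4, 5, 40) (5, 8, 800) (17, 20, 20) (131, 50) (164, 50)).geo.muLo (131, 50)) :=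
  ⟨275, 13, 8, 9, 4, by decide +kernel⟩

/-- A window. -/
theorem izL314_down : Chk ((lineChart izL314 (4, 5, 40) (5, 16, 800) (17, 20, 20) (122, 50) (157, 50)).box (side (0, 1, 1))) ((lineChart izL314 (4, 5, 40) (5, 16, 800) (17, 20, 20) (122, 50) (157, 50)).geo.muLo (122, 50)) :=
  ⟨275, 13, 8, 9, 4, by decide +kernel⟩

/-- A window. -/
theorem izL316_down : Chk ((lineChart izL316 (20, 21, 160) (5, 8, 800) (21, 25, 25) (143, 50) (169, 50)).box (side (0, 1, 1))) ((lineChart izL316 (20, 21, 160) (5, 8, 800) (21, 25, 25) (143, 50) (169, 50)).geo.muLo (143, 50)) :=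
  ⟨304, 13, 8, 9, 4, by decide +kernel⟩

/-- A window. -/
theorem izL318_down : Chk ((lineChart izL318 (20, 21, 160) (5, 16, 800) (21, 25, 25) (132, 50) (161, 50)).box (side (0, 1, 1))) ((lineChart izL318 (20, 21, 160) (5, 16, 800) (21, 25, 25) (132, 50) (161, 50)).geo.muLo (132, 50)) :=
  ⟨304, 13, 8, 9, 4, by decide +kernel⟩

/-- A window. -/
theorem izL321_down : Chk ((lineChart izL321 (18, 19, 160) (0, 1, 500) (34, 35, 40) (124, 50) (153, 50)).box (side (0, 1, 1))) ((lineChart izL321 (18, 19, 160) (0, 1, 500) (34, 35, 40) (124, 50) (153, 50)).geo.muLo (124, 50)) :=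
  ⟨304, 13, 8, 9, 4, by decide +kernel⟩

/-- A window. -/
theorem izL323_down : Chk ((lineChart izL323 (525, 532, 4000) (0, 1, 500) (168, 175, 200) (122, 50) (138, 50)).box (side (0, 1, 1))) ((lineChart izL323 (525, 532, 4000) (0, 1, 500) (168, 175, 200) (122, 50) (138, 50)).geo.muLo (122, 50)) :=
  ⟨385, 13, 8, 9, 4, by decide +kernel⟩

/-- A window. -/
theorem izL325_down : Chk ((lineChart izL325 (19, 20, 160) (0, 1, 500) (34, 35, 40) (126, 50) (158, 50)).box (side (0, 1, 1))) ((lineChart izL325 (19, 20, 160) (0, 1, 500) (34, 35, 40) (126, 50) (158, 50)).geo.muLo (126, 50)) :=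
  ⟨304, 13, 8, 9, 4, by decide +kernel⟩

/-- A window. -/
theorem izL400_down : Chk ((lineChart izL400 (4, 5, 40) (0, 1, 50) (0, 3, 20) (87, 50) (112, 50)).box (side (0, 1, 1))) ((lineChart izL400 (4, 5, 40) (0, 1, 50) (0, 3, 20) (87, 50) (112, 50)).geo.muLo (87, 50)) :=
  ⟨242, 13, 8, 9, 4, by decide +kernel⟩

/-- A window. -/
theorem izL402_down : Chk ((lineChart izL402 (22, 23, 160) (0, 1, 50) (0, 3, 40) (85, 50) (114, 50)).box (side (0, 1, 1))) ((lineChart izL402 (22, 23, 160) (0, 1, 50) (0, 3, 40) (85, 50) (114, 50)).geo.muLo (85, 50)) :=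
  ⟨277, 13, 8, 9, 4, by decide +kernel⟩

/-- A window. -/
theorem izL404_down : Chk ((lineChart izL404 (4, 5, 40) (0, 1, 50) (33, 40, 80) (98, 50) (129, 50)).box (side (0, 1, 1))) ((lineChart izL404 (4, 5, 40) (0, 1, 50) (33, 40, 80) (98, 50) (129, 50)).geo.muLo (98, 50)) :=
  ⟨260, 13, 8, 9, 4, by decide +kernel⟩

/-- A window. -/
theorem izL406_down : Chk ((lineChart izL406 (22, 23, 160) (0, 1, 50) (5, 6, 8) (138, 50) (160, 50)).box (side (0, 1, 1))) ((lineChart izL406 (22, 23, 160) (0, 1, 50) (5, 6, 8) (138, 50) (160, 50)).geo.muLo (138, 50)) :=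
  ⟨257, 13, 8, 9, 4, by decide +kernel⟩

/-- A window. -/
theorem izL408_down : Chk ((lineChart izL408 (10, 11, 80) (0, 1, 50) (19, 26, 80) (92, 50) (121, 50)).box (side (0, 1, 1))) ((lineChart izL408 (10, 11, 80) (0, 1, 50) (19, 26, 80) (92, 50) (121, 50)).geo.muLo (92, 50)) :=
  ⟨273, 13, 8, 9, 4, by decide +kernel⟩

end Vale.Agent.P100.Calib.StripEndD
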