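import Vale.Agent.P100.Calib.SlabStripEndIZ7Lines

/-!
# Windows of the lines of the `I` and `Z` charts for `N` between seven and twenty (3)
-/

namespace Vale.Agent.P100.Calib.StripEndD

open Pack hiding ev_add ev_mul
open Pack.Ex StripMid StripEnd

local instance endIZ7Win3Add : Add Ex := ⟨Ex.add⟩
local instance endIZ7Win3Sub : Sub Ex := ⟨Ex.sub⟩
local instance endIZ7Win3Mul : Mul Ex := ⟨Ex.mul⟩

/-- A window. -/
theorem izM1_right : Chk ((lineChart izM1 (2, 3, 40) (5, 16, 800) (0, 3, 20) (0, 1) (1, 1)).box (side (0, 1, 1))) ((lineChart izM1 (2, 3, 40) (5, 16, 800) (0, 3, 20) (0, 1) (1, 1)).geoR.hiWin) :=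
  ⟨220, 12, 6, 7, 3, by decide +kernel⟩

/-- A window. -/
theorem izM3_right : Chk ((lineChart izM3 (4, 5, 40) (0, 1, 50) (0, 3, 20) (0, 1) (1, 1)).box (side (0, 1, 1))) ((lineChart izM3 (4, 5, 40) (0, 1, 50) (0, 3, 20) (0, 1) (1, 1)).geoR.hiWin) :=
  ⟨197, 12, 6, 7, 3, by decide +kernel⟩

/-- A window. -/
theorem izM5_right : Chk ((lineChart izM5 (22, 23, 160) (0, 1, 50) (0, 3, 40) (0, 1) (1, 1)).box (side (0, 1, 1))) ((lineChart izM5 (22, 23, 160) (0, 1, 50) (0, 3, 40) (0, 1) (1, 1)).geoR.hiWin) :=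
  ⟨228, 12, 6, 7, 3, by decide +kernel⟩

/-- A window. -/
theorem izM7_right : Chk ((lineChart izM7 (4, 5, 40) (2, 15, 100) (0, 3, 20) (0, 1) (1, 1)).box (side (0, 1, 1))) ((lineChart izM7 (4, 5, 40) (2, 15, 100) (0, 3, 20) (0, 1) (1, 1)).geoR.hiWin) :=
  ⟨196, 12, 6, 7, 3, by decide +kernel⟩

/-- A window. -/
theorem izM9_right : Chk ((lineChart izM9 (2, 3, 40) (0, 1, 50) (3, 10, 20) (0, 1) (1, 1)).box (side (0, 1, 1))) ((lineChart izM9 (2, 3, 40) (0, 1, 50) (3, 10, 20) (0, 1) (1, 1)).geoR.hiWin) :=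
  ⟨196, 12, 6, 7, 3, by decide +kernel⟩

/-- A window. -/
theorem izM11_right : Chk ((lineChart izM11 (4, 5, 40) (0, 1, 50) (6, 13, 40) (0, 1) (1, 1)).box (side (0, 1, 1))) ((lineChart izM11 (4, 5, 40) (0, 1, 50) (6, 13, 40) (0, 1) (1, 1)).geoR.hiWin) :=
  ⟨204, 12, 6, 7, 3, by decide +kernel⟩

/-- A window. -/
theorem izM13_right : Chk ((lineChart izM13 (10, 11, 80) (0, 1, 50) (6, 13, 40) (0, 1) (1, 1)).box (side (0, 1, 1))) ((lineChart izM13 (10, 11, 80) (0, 1, 50) (6, 13, 40) (0, 1) (1, 1)).geoR.hiWin) :=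
  ⟨216, 12, 6, 7, 3, by decide +kernel⟩

/-- A window. -/
theorem izM15_right : Chk ((lineChart izM15 (22, 23, 160) (0, 1, 50) (12, 19, 80) (0, 1) (1, 1)).box (side (0, 1, 1))) ((lineChart izM15 (22, 23, 160) (0, 1, 50) (12, 19, 80) (0, 1) (1, 1)).geoR.hiWin) :=
  ⟨235, 12, 6, 7, 3, by decide +kernel⟩

/-- A window. -/
theorem izM17_left : Chk ((lineChart izM17 (1, 2, 20) (2, 15, 100) (3, 10, 20) (0, 1) (1, 1)).box (sideUp (0, 1, 1))) ((lineChart izM17 (1, 2, 20) (2, 15, 100) (3, 10, 20) (0, 1) (1, 1)).geoL.loWin 4) :=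
  ⟨191, 13, 6, 8, 3, by decide +kernel⟩

/-- A window. -/
theorem izM19_left : Chk ((lineChart izM19 (16, 23, 160) (2, 5, 100) (19, 26, 80) (0, 1) (1, 1)).box (sideUp (0, 1, 1))) ((lineChart izM19 (16, 23, 160) (2, 5, 100) (19, 26, 80) (0, 1) (1, 1)).geoL.loWin 4) :=
  ⟨248, 13, 6, 8, 3, by decide +kernel⟩

/-- A window. -/
theorem izM21_left : Chk ((lineChart izM21 (4, 5, 40) (2, 5, 100) (26, 33, 80) (0, 1) (1, 1)).box (sideUp (0, 1, 1))) ((lineChart izM21 (4, 5, 40) (2, 5, 100) (26, 33, 80) (0, 1) (1, 1)).geoL.loWin 4) :=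
  ⟨222, 13, 6, 8, 3, by decide +kernel⟩

/-- A window. -/
theorem izM23_left : Chk ((lineChart izM23 (4, 5, 40) (2, 15, 100) (33, 40, 80) (0, 1) (1, 1)).box (sideUp (0, 1, 1))) ((lineChart izM23 (4, 5, 40) (2, 15, 100) (33, 40, 80) (0, 1) (1, 1)).geoL.loWin 4) :=
  ⟨222, 13, 6, 8, 3, by decide +kernel⟩

/-- A window. -/
theorem izM25_exit : Chk ((lineChart izM25 (4, 5, 40) (0, 1, 50) (2, 3, 4) (0, 1) (1, 1)).box (side (0, 1, 1))) (exitEx (lineChart izM25 (4, 5, 40) (0, 1, 50) (2, 3, 4) (0, 1) (1, 1))) :=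
  ⟨38, 1, 2, 1, 0, by decide +kernel⟩

/-- A window. -/
theorem izM27_exit : Chk ((lineChart izM27 (1, 2, 20) (2, 15, 100) (2, 3, 4) (0, 1) (1, 1)).box (side (0, 1, 1))) (exitEx (lineChart izM27 (1, 2, 20) (2, 15, 100) (2, 3, 4) (0, 1) (1, 1))) :=
  ⟨36, 1, 2, 1, 0, by decide +kernel⟩

/-- A window. -/
theorem izM28_right : Chk ((lineChart izM28 (4, 5, 40) (2, 15, 100) (2, 3, 4) (0, 1) (1, 1)).box (side (0, 1, 1))) ((lineChart izM28 (4, 5, 40) (2, 15, 100) (2, 3, 4) (0, 1) (1, 1)).geoR.hiWin) :=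
  ⟨180, 12, 6, 7, 3, by decide +kernel⟩

/-- A window. -/
theorem izM30_left1 : Chk ((lineChart izM30 (20, 23, 160) (17, 30, 200) (5, 6, 8) (0, 1) (1, 1)).box (sideUp (0, 1, 1))) ((lineChart izM30 (20, 23, 160) (17, 30, 200) (5, 6, 8) (0, 1) (1, 1)).geoL.loWin 4) :=
  ⟨228, 13, 6, 8, 3, by decide +kernel⟩

/-- A window. -/
theorem izM32_left : Chk ((lineChart izM32 (16, 23, 160) (3, 20, 20) (0, 1, 4) (0, 1) (1, 1)).box (sideUp (0, 1, 1))) ((lineChart izM32 (16, 23, 160) (3, 20, 20) (0, 1, 4) (0, 1) (1, 1)).geoL.loWin 4) :=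
  ⟨200, 13, 6, 8, 3, by decide +kernel⟩

/-- A window. -/
theorem izM34_left : Chk ((lineChart izM34 (1, 2, 20) (3, 20, 20) (2, 3, 4) (0, 1) (1, 1)).box (sideUp (0, 1, 1))) ((lineChart izM34 (1, 2, 20) (3, 20, 20) (2, 3, 4) (0, 1) (1, 1)).geoL.loWin 4) :=
  ⟨160, 13, 6, 8, 3, by decide +kernel⟩

/-- A window. -/
theorem izM35_right : Chk ((lineChart izM35 (16, 23, 160) (3, 20, 20) (4, 5, 8) (0, 1) (1, 1)).box (side (0, 1, 1))) ((lineChart izM35 (16, 23, 160) (3, 20, 20) (4, 5, 8) (0, 1) (1, 1)).geoR.hiWin) :=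
  ⟨197, 12, 6, 7, 3, by decide +kernel⟩

/-- A window. -/
theorem izM37_right : Chk ((lineChart izM37 (4, 5, 40) (0, 1, 50) (75, 89, 100) (0, 1) (1, 1)).box (side (0, 1, 1))) ((lineChart izM37 (4, 5, 40) (0, 1, 50) (75, 89, 100) (0, 1) (1, 1)).geoR.hiWin) :=
  ⟨214, 12, 6, 7, 3, by decide +kernel⟩

/-- A window. -/
theorem izM39_right : Chk ((lineChart izM39 (42, 43, 320) (0, 1, 50) (15, 17, 20) (0, 1) (1, 1)).box (side (0, 1, 1))) ((lineChart izM39 (42, 43, 320) (0, 1, 50) (15, 17, 20) (0, 1) (1, 1)).geoR.hiWin) :=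
  ⟨234, 12, 6, 7, 3, by decide +kernel⟩

/-- A window. -/
theorem izM41_right : Chk ((lineChart izM41 (22, 23, 160) (0, 1, 50) (15, 16, 20) (0, 1) (1, 1)).box (side (0, 1, 1))) ((lineChart izM41 (22, 23, 160) (0, 1, 50) (15, 16, 20) (0, 1) (1, 1)).geoR.hiWin) :=
  ⟨222, 12, 6, 7, 3, by decide +kernel⟩

/-- A window. -/
theorem izM43_right : Chk ((lineChart izM43 (20, 23, 160) (2, 15, 100) (75, 89, 100) (0, 1) (1, 1)).box (side (0, 1, 1))) ((lineChart izM43 (20, 23, 160) (2, 15, 100) (75, 89, 100) (0, 1) (1, 1)).geoR.hiWin) :=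
  ⟨237, 12, 6, 7, 3, by decide +kernel⟩

/-- A window. -/
theorem izM45_right : Chk ((lineChart izM45 (1, 2, 20) (2, 4, 1) (0, 1, 2) (0, 1) (1, 1)).box (side (0, 1, 1))) ((lineChart izM45 (1, 2, 20) (2, 4, 1) (0, 1, 2) (0, 1) (1, 1)).geoR.hiWin) :=
  ⟨120, 12, 6, 7, 3, by decide +kernel⟩

/-- A window. -/
theorem izM47_right : Chk ((lineChart izM47 (1, 2, 20) (1, 2, 1) (2, 3, 4) (0, 1) (1, 1)).box (side (0, 1, 1))) ((lineChart izM47 (1, 2, 20) (1, 2, 1) (2, 3, 4) (0, 1) (1, 1)).geoR.hiWin) :=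
  ⟨128, 12, 6, 7, 3, by decide +kernel⟩

/-- A window. -/
theorem izM49_right : Chk ((lineChart izM49 (16, 23, 160) (1, 2, 1) (2, 3, 4) (0, 1) (1, 1)).box (side (0, 1, 1))) ((lineChart izM49 (16, 23, 160) (1, 2, 1) (2, 3, 4) (0, 1) (1, 1)).geoR.hiWin) :=
  ⟨164, 12, 6, 7, 3, by decide +kernel⟩

/-- A window. -/
theorem izM51_left : Chk ((lineChart izM51 (16, 23, 160) (1, 2, 1) (75, 89, 100) (0, 1) (1, 1)).box (sideUp (0, 1, 1))) ((lineChart izM51 (16, 23, 160) (1, 2, 1) (75, 89, 100) (0, 1) (1, 1)).geoL.loWin 4) :=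
  ⟨212, 13, 6, 8, 3, by decide +kernel⟩

/-- A window. -/
theorem izM53_exit : Chk ((lineChart izM53 (3, 4, 40) (0, 1, 50) (22, 25, 25) (0, 1) (1, 1)).box (side (0, 1, 1))) (exitEx (lineChart izM53 (3, 4, 40) (0, 1, 50) (22, 25, 25) (0, 1) (1, 1))) :=
  ⟨40, 1, 2, 1, 0, by decide +kernel⟩

/-- A window. -/
theorem izM55_exit : Chk ((lineChart izM55 (20, 21, 160) (0, 1, 160) (21, 25, 25) (0, 1) (1, 1)).box (side (0, 1, 1))) (exitEx (lineChart izM55 (20, 21, 160) (0, 1, 160) (21, 25, 25) (0, 1) (1, 1))) :=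
  ⟨46, 1, 2, 1, 0, by decide +kernel⟩

/-- A window. -/
theorem izM57_left : Chk ((lineChart izM57 (22, 23, 160) (0, 1, 50) (19, 26, 80) (0, 1) (1, 1)).box (sideUp (0, 1, 1))) ((lineChart izM57 (22, 23, 160) (0, 1, 50) (19, 26, 80) (0, 1) (1, 1)).geoL.loWin 4) :=
  ⟨249, 13, 6, 8, 3, by decide +kernel⟩

/-- A window. -/
theorem izM59_left : Chk ((lineChart izM59 (20, 23, 160) (2, 15, 100) (33, 40, 80) (0, 1) (1, 1)).box (sideUp (0, 1, 1))) ((lineChart izM59 (20, 23, 160) (2, 15, 100) (33, 40, 80) (0, 1) (1, 1)).geoL.loWin 4) :=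
  ⟨248, 13, 6, 8, 3, by decide +kernel⟩

/-- A window. -/
theorem izM61_left : Chk ((lineChart izM61 (20, 23, 160) (2, 5, 100) (26, 33, 80) (0, 1) (1, 1)).box (sideUp (0, 1, 1))) ((lineChart izM61 (20, 23, 160) (2, 5, 100) (26, 33, 80) (0, 1) (1, 1)).geoL.loWin 4) :=
  ⟨248, 13, 6, 8, 3, by decide +kernel⟩

/-- A window. -/
theorem izM63_left : Chk ((lineChart izM63 (10, 11, 80) (0, 1, 50) (3, 6, 40) (0, 1) (1, 1)).box (sideUp (0, 1, 1))) ((lineChart izM63 (10, 11, 80) (0, 1, 50) (3, 6, 40) (0, 1) (1, 1)).geoL.loWin 4) :=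
  ⟨228, 13, 6, 8, 3, by decide +kernel⟩

/-- A window. -/
theorem izM65_left : Chk ((lineChart izM65 (16, 23, 160) (1, 3, 20) (19, 26, 80) (0, 1) (1, 1)).box (sideUp (0, 1, 1))) ((lineChart izM65 (16, 23, 160) (1, 3, 20) (19, 26, 80) (0, 1) (1, 1)).geoL.loWin 4) :=
  ⟨234, 13, 6, 8, 3, by decide +kernel⟩

/-- A window. -/
theorem izM67_left : Chk ((lineChart izM67 (16, 23, 160) (3, 20, 20) (5, 6, 8) (0, 1) (1, 1)).box (sideUp (0, 1, 1))) ((lineChart izM67 (16, 23, 160) (3, 20, 20) (5, 6, 8) (0, 1) (1, 1)).geoL.loWin 4) :=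
  ⟨208, 13, 6, 8, 3, by decide +kernel⟩

/-- A window. -/
theorem izM69_exit : Chk ((lineChart izM69 (2, 3, 40) (5, 16, 800) (15, 19, 20) (0, 1) (1, 1)).box (side (0, 1, 1))) (exitEx (lineChart izM69 (2, 3, 40) (5, 16, 800) (15, 19, 20) (0, 1) (1, 1))) :=
  ⟨48, 1, 2, 1, 0, by decide +kernel⟩

/-- A window. -/
theorem izM71_left : Chk ((lineChart izM71 (4, 5, 40) (3, 20, 20) (75, 89, 100) (0, 1) (1, 1)).box (sideUp (0, 1, 1))) ((lineChart izM71 (4, 5, 40) (3, 20, 20) (75, 89, 100) (0, 1) (1, 1)).geoL.loWin 4) :=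
  ⟨211, 13, 6, 8, 3, by decide +kernel⟩

/-- A window. -/
theorem izM73_left : Chk ((lineChart izM73 (20, 23, 160) (3, 20, 20) (75, 89, 100) (0, 1) (1, 1)).box (sideUp (0, 1, 1))) ((lineChart izM73 (20, 23, 160) (3, 20, 20) (75, 89, 100) (0, 1) (1, 1)).geoL.loWin 4) :=
  ⟨238, 13, 6, 8, 3, by decide +kernel⟩

/-- A window. -/
theorem izM75_exit : Chk ((lineChart izM75 (1, 2, 20) (2, 15, 100) (22, 25, 25) (0, 1) (1, 1)).box (side (0, 1, 1))) (exitEx (lineChart izM75 (1, 2, 20) (2, 15, 100) (22, 25, 25) (0, 1) (1, 1))) :=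
  ⟨39, 1, 2, 1, 0, by decide +kernel⟩

/-- A window. -/
theorem izM77_exit : Chk ((lineChart izM77 (5, 6, 50) (8, 25, 400) (21, 25, 25) (0, 1) (1, 1)).box (side (0, 1, 1))) (exitEx (lineChart izM77 (5, 6, 50) (8, 25, 400) (21, 25, 25) (0, 1) (1, 1))) :=
  ⟨44, 1, 2, 1, 0, by decide +kernel⟩

/-- A window. -/
theorem izM79_exit : Chk ((lineChart izM79 (24, 27, 200) (2, 15, 100) (21, 25, 25) (0, 1) (1, 1)).box (side (0, 1, 1))) (exitEx (lineChart izM79 (24, 27, 200) (2, 15, 100) (21, 25, 25) (0, 1) (1, 1))) :=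
  ⟨43, 1, 2, 1, 0, by decide +kernel⟩

/-- A window. -/
theorem izM81_exit : Chk ((lineChart izM81 (4, 5, 40) (3, 10, 1600) (17, 20, 20) (0, 1) (1, 1)).box (side (0, 1, 1))) (exitEx (lineChart izM81 (4, 5, 40) (3, 10, 1600) (17, 20, 20) (0, 1) (1, 1))) :=
  ⟨50, 1, 2, 1, 0, by decide +kernel⟩

/-- A window. -/
theorem izM83_exit : Chk ((lineChart izM83 (20, 21, 160) (5, 16, 800) (21, 25, 25) (0, 1) (1, 1)).box (side (0, 1, 1))) (exitEx (lineChart izM83 (20, 21, 160) (5, 16, 800) (21, 25, 25) (0, 1) (1, 1))) :=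
  ⟨50, 1, 2, 1, 0, by decide +kernel⟩

/-- A window. -/
theorem izL0_up : Chk ((lineChart izL0 (2, 3, 40) (0, 1, 160) (0, 3, 20) (92, 50) (106, 50)).box (side (0, 1, 1))) ((lineChart izL0 (2, 3, 40) (0, 1, 160) (0, 3, 20) (92, 50) (106, 50)).geo.muUp 4 (106, 50)) :=
  ⟨246, 13, 7, 9, 4, by decide +kernel⟩

/-- A window. -/
theorem izL2_up : Chk ((lineChart izL2 (3, 4, 40) (0, 1, 50) (0, 3, 40) (88, 50) (108, 50)).box (side (0, 1, 1))) ((lineChart izL2 (3, 4, 40) (0, 1, 50) (0, 3, 40) (88, 50) (108, 50)).geo.muUp 4 (108, 50)) :=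
  ⟨244, 13, 7, 9, 4, by decide +kernel⟩

/-- A window. -/
theorem izL4_up : Chk ((lineChart izL4 (10, 11, 80) (0, 1, 50) (0, 3, 40) (96, 50) (107, 50)).box (side (0, 1, 1))) ((lineChart izL4 (10, 11, 80) (0, 1, 50) (0, 3, 40) (96, 50) (107, 50)).geo.muUp 4 (107, 50)) :=
  ⟨258, 13, 7, 9, 4, by decide +kernel⟩

/-- A window. -/
theorem izL6_up : Chk ((lineChart izL6 (1, 2, 20) (2, 15, 100) (0, 3, 20) (92, 50) (109, 50)).box (side (0, 1, 1))) ((lineChart izL6 (1, 2, 20) (2, 15, 100) (0, 3, 20) (92, 50) (109, 50)).geo.muUp 4 (109, 50)) :=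
  ⟨220, 13, 7, 9, 4, by decide +kernel⟩

/-- A window. -/
theorem izL8_up : Chk ((lineChart izL8 (20, 23, 160) (2, 15, 100) (0, 3, 40) (89, 50) (113, 50)).box (side (0, 1, 1))) ((lineChart izL8 (20, 23, 160) (2, 15, 100) (0, 3, 40) (89, 50) (113, 50)).geo.muUp 4 (113, 50)) :=
  ⟨268, 13, 7, 9, 4, by decide +kernel⟩

/-- A window. -/
theorem izL10_up : Chk ((lineChart izL10 (6, 7, 80) (0, 1, 50) (3, 10, 20) (93, 50) (118, 50)).box (side (0, 1, 1))) ((lineChart izL10 (6, 7, 80) (0, 1, 50) (3, 10, 20) (93, 50) (118, 50)).geo.muUp 4 (118, 50)) :=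
  ⟨248, 13, 7, 9, 4, by decide +kernel⟩

/-- A window. -/
theorem izL12_up : Chk ((lineChart izL12 (4, 5, 40) (0, 1, 50) (26, 33, 80) (96, 50) (124, 50)).box (side (0, 1, 1))) ((lineChart izL12 (4, 5, 40) (0, 1, 50) (26, 33, 80) (96, 50) (124, 50)).geo.muUp 4 (124, 50)) :=
  ⟨254, 13, 7, 9, 4, by decide +kernel⟩

/-- A window. -/
theorem izL14_up : Chk ((lineChart izL14 (10, 11, 80) (0, 1, 50) (26, 33, 80) (96, 50) (127, 50)).box (side (0, 1, 1))) ((lineChart izL14 (10, 11, 80) (0, 1, 50) (26, 33, 80) (96, 50) (127, 50)).geo.muUp 4 (127, 50)) :=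
  ⟨267, 13, 7, 9, 4, by decide +kernel⟩

/-- A window. -/
theorem izL16_up : Chk ((lineChart izL16 (22, 23, 160) (0, 1, 50) (26, 33, 80) (96, 50) (129, 50)).box (side (0, 1, 1))) ((lineChart izL16 (22, 23, 160) (0, 1, 50) (26, 33, 80) (96, 50) (129, 50)).geo.muUp 4 (129, 50)) :=
  ⟨280, 13, 7, 9, 4, by decide +kernel⟩

/-- A window. -/
theorem izL18_up : Chk ((lineChart izL18 (16, 23, 160) (2, 5, 100) (12, 19, 80) (90, 50) (118, 50)).box (side (0, 1, 1))) ((lineChart izL18 (16, 23, 160) (2, 5, 100) (12, 19, 80) (90, 50) (118, 50)).geo.muUp 4 (118, 50)) :=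
  ⟨277, 13, 7, 9, 4, by decide +kernel⟩

/-- A window. -/
theorem izL20_up : Chk ((lineChart izL20 (16, 23, 160) (1, 3, 20) (12, 19, 80) (90, 50) (118, 50)).box (side (0, 1, 1))) ((lineChart izL20 (16, 23, 160) (1, 3, 20) (12, 19, 80) (90, 50) (118, 50)).geo.muUp 4 (118, 50)) :=
  ⟨261, 13, 7, 9, 4, by decide +kernel⟩

/-- A window. -/
theorem izL22_up : Chk ((lineChart izL22 (16, 23, 160) (1, 3, 20) (26, 33, 80) (93, 50) (128, 50)).box (side (0, 1, 1))) ((lineChart izL22 (16, 23, 160) (1, 3, 20) (26, 33, 80) (93, 50) (128, 50)).geo.muUp 4 (128, 50)) :=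
  ⟨261, 13, 7, 9, 4, by decide +kernel⟩

/-- A window. -/
theorem izL24_up : Chk ((lineChart izL24 (1, 2, 20) (0, 1, 50) (2, 3, 4) (99, 50) (134, 50)).box (side (0, 1, 1))) ((lineChart izL24 (1, 2, 20) (0, 1, 50) (2, 3, 4) (99, 50) (134, 50)).geo.muUp 4 (134, 50)) :=
  ⟨201, 13, 7, 9, 4, by decide +kernel⟩

/-- A window. -/
theorem izL26_up : Chk ((lineChart izL26 (4, 5, 40) (0, 1, 160) (2, 3, 4) (101, 50) (131, 50)).box (side (0, 1, 1))) ((lineChart izL26 (4, 5, 40) (0, 1, 160) (2, 3, 4) (101, 50) (131, 50)).geo.muUp 4 (131, 50)) :=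
  ⟨226, 13, 7, 9, 4, by decide +kernel⟩

/-- A window. -/
theorem izL28_up : Chk ((lineChart izL28 (10, 11, 80) (0, 1, 50) (2, 3, 4) (125, 50) (156, 50)).box (side (0, 1, 1))) ((lineChart izL28 (10, 11, 80) (0, 1, 50) (2, 3, 4) (125, 50) (156, 50)).geo.muUp 4 (156, 50)) :=
  ⟨228, 13, 7, 9, 4, by decide +kernel⟩

/-- A window. -/
theorem izL30_up : Chk ((lineChart izL30 (10, 11, 80) (0, 1, 50) (2, 3, 4) (103, 50) (137, 50)).box (side (0, 1, 1))) ((lineChart izL30 (10, 11, 80) (0, 1, 50) (2, 3, 4) (103, 50) (137, 50)).geo.muUp 4 (137, 50)) :=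
  ⟨228, 13, 7, 9, 4, by decide +kernel⟩

/-- A window. -/
theorem izL32_up : Chk ((lineChart izL32 (1, 2, 20) (2, 15, 100) (2, 3, 4) (94, 50) (133, 50)).box (side (0, 1, 1))) ((lineChart izL32 (1, 2, 20) (2, 15, 100) (2, 3, 4) (94, 50) (133, 50)).geo.muUp 4 (133, 50)) :=
  ⟨199, 13, 7, 9, 4, by decide +kernel⟩

/-- A window. -/
theorem izL34_up : Chk ((lineChart izL34 (20, 23, 160) (2, 15, 100) (8, 9, 16) (97, 50) (141, 50)).box (side (0, 1, 1))) ((lineChart izL34 (20, 23, 160) (2, 15, 100) (8, 9, 16) (97, 50) (141, 50)).geo.muUp 4 (141, 50)) :=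
  ⟨257, 13, 7, 9, 4, by decide +kernel⟩

/-- A window. -/
theorem izL36_up : Chk ((lineChart izL36 (1, 2, 20) (3, 20, 20) (0, 1, 2) (80, 50) (119, 50)).box (side (0, 1, 1))) ((lineChart izL36 (1, 2, 20) (3, 20, 20) (0, 1, 2) (80, 50) (119, 50)).geo.muUp 4 (119, 50)) :=
  ⟨174, 13, 7, 9, 4, by decide +kernel⟩

/-- A window. -/
theorem izL38_up : Chk ((lineChart izL38 (16, 23, 160) (3, 20, 20) (2, 3, 8) (70, 50) (133, 50)).box (side (0, 1, 1))) ((lineChart izL38 (16, 23, 160) (3, 20, 20) (2, 3, 8) (70, 50) (133, 50)).geo.muUp 4 (133, 50)) :=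
  ⟨231, 13, 7, 9, 4, by decide +kernel⟩

/-- A window. -/
theorem izL40_up : Chk ((lineChart izL40 (16, 23, 160) (3, 20, 20) (4, 5, 8) (71, 50) (140, 50)).box (side (0, 1, 1))) ((lineChart izL40 (16, 23, 160) (3, 20, 20) (4, 5, 8) (71, 50) (140, 50)).geo.muUp 4 (140, 50)) :=
  ⟨232, 13, 7, 9, 4, by decide +kernel⟩

/-- A window. -/
theorem izL44_up : Chk ((lineChart izL44 (3, 4, 40) (0, 1, 160) (75, 92, 100) (105, 50) (125, 50)).box (side (0, 1, 1))) ((lineChart izL44 (3, 4, 40) (0, 1, 160) (75, 92, 100) (105, 50) (125, 50)).geo.muUp 4 (125, 50)) :=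
  ⟨268, 13, 7, 9, 4, by decide +kernel⟩

/-- A window. -/
theorem izL47_up : Chk ((lineChart izL47 (4, 5, 40) (0, 1, 160) (75, 89, 100) (121, 50) (152, 50)).box (side (0, 1, 1))) ((lineChart izL47 (4, 5, 40) (0, 1, 160) (75, 89, 100) (121, 50) (152, 50)).geo.muUp 4 (152, 50)) :=
  ⟨269, 13, 7, 9, 4, by decide +kernel⟩

/-- A window. -/
theorem izL49_up : Chk ((lineChart izL49 (4, 5, 40) (0, 1, 50) (75, 89, 100) (120, 50) (143, 50)).box (side (0, 1, 1))) ((lineChart izL49 (4, 5, 40) (0, 1, 50) (75, 89, 100) (120, 50) (143, 50)).geo.muUp 4 (143, 50)) :=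
  ⟨257, 13, 7, 9, 4, by decide +kernel⟩

/-- A window. -/
theorem izL51_up : Chk ((lineChart izL51 (4, 5, 40) (0, 1, 1600) (75, 89, 100) (109, 50) (135, 50)).box (side (0, 1, 1))) ((lineChart izL51 (4, 5, 40) (0, 1, 1600) (75, 89, 100) (109, 50) (135, 50)).geo.muUp 4 (135, 50)) :=
  ⟨292, 13, 7, 9, 4, by decide +kernel⟩

/-- A window. -/
theorem izL53_up : Chk ((lineChart izL53 (4, 5, 40) (3, 6, 1600) (75, 89, 100) (109, 50) (141, 50)).box (side (0, 1, 1))) ((lineChart izL53 (4, 5, 40) (3, 6, 1600) (75, 89, 100) (109, 50) (141, 50)).geo.muUp 4 (141, 50)) :=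
  ⟨292, 13, 7, 9, 4, by decide +kernel⟩

/-- A window. -/
theorem izL55_up : Chk ((lineChart izL55 (4, 5, 40) (5, 8, 800) (75, 89, 100) (109, 50) (141, 50)).box (side (0, 1, 1))) ((lineChart izL55 (4, 5, 40) (5, 8, 800) (75, 89, 100) (109, 50) (141, 50)).geo.muUp 4 (141, 50)) :=
  ⟨285, 13, 7, 9, 4, by decide +kernel⟩

/-- A window. -/
theorem izL58_up : Chk ((lineChart izL58 (20, 21, 160) (0, 1, 50) (75, 86, 100) (119, 50) (140, 50)).box (side (0, 1, 1))) ((lineChart izL58 (20, 21, 160) (0, 1, 50) (75, 86, 100) (119, 50) (140, 50)).geo.muUp 4 (140, 50)) :=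
  ⟨283, 13, 7, 9, 4, by decide +kernel⟩

/-- A window. -/
theorem izL60_up : Chk ((lineChart izL60 (20, 21, 160) (0, 1, 160) (150, 161, 200) (115, 50) (134, 50)).box (side (0, 1, 1))) ((lineChart izL60 (20, 21, 160) (0, 1, 160) (150, 161, 200) (115, 50) (134, 50)).geo.muUp 4 (134, 50)) :=
  ⟨303, 13, 7, 9, 4, by decide +kernel⟩

/-- A window. -/
theorem izL62_up : Chk ((lineChart izL62 (40, 41, 320) (0, 1, 50) (161, 172, 200) (116, 50) (135, 50)).box (side (0, 1, 1))) ((lineChart izL62 (40, 41, 320) (0, 1, 50) (161, 172, 200) (116, 50) (135, 50)).geo.muUp 4 (135, 50)) :=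
  ⟨305, 13, 7, 9, 4, by decide +kernel⟩

/-- A window. -/
theorem izL65_up : Chk ((lineChart izL65 (42, 43, 320) (0, 1, 50) (15, 17, 20) (121, 50) (142, 50)).box (side (0, 1, 1))) ((lineChart izL65 (42, 43, 320) (0, 1, 50) (15, 17, 20) (121, 50) (142, 50)).geo.muUp 4 (142, 50)) :=
  ⟨275, 13, 7, 9, 4, by decide +kernel⟩

/-- A window. -/
theorem izL67_up : Chk ((lineChart izL67 (84, 85, 640) (0, 1, 50) (15, 17, 20) (115, 50) (137, 50)).box (side (0, 1, 1))) ((lineChart izL67 (84, 85, 640) (0, 1, 50) (15, 17, 20) (115, 50) (137, 50)).geo.muUp 4 (137, 50)) :=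
  ⟨288, 13, 7, 9, 4, by decide +kernel⟩

/-- A window. -/
theorem izL70_up : Chk ((lineChart izL70 (43, 44, 320) (0, 1, 160) (75, 83, 100) (121, 50) (143, 50)).box (side (0, 1, 1))) ((lineChart izL70 (43, 44, 320) (0, 1, 160) (75, 83, 100) (121, 50) (143, 50)).geo.muUp 4 (143, 50)) :=
  ⟨308, 13, 7, 9, 4, by decide +kernel⟩

/-- A window. -/
theorem izL72_up : Chk ((lineChart izL72 (43, 44, 320) (3, 10, 1600) (75, 83, 100) (117, 50) (139, 50)).box (side (0, 1, 1))) ((lineChart izL72 (43, 44, 320) (3, 10, 1600) (75, 83, 100) (117, 50) (139, 50)).geo.muUp 4 (139, 50)) :=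
  ⟨331, 13, 7, 9, 4, by decide +kernel⟩

/-- A window. -/
theorem izL75_up : Chk ((lineChart izL75 (22, 23, 160) (0, 1, 50) (15, 16, 20) (127, 50) (153, 50)).box (side (0, 1, 1))) ((lineChart izL75 (22, 23, 160) (0, 1, 50) (15, 16, 20) (127, 50) (153, 50)).geo.muUp 4 (153, 50)) :=
  ⟨262, 13, 7, 9, 4, by decide +kernel⟩

/-- A window. -/
theorem izL77_up : Chk ((lineChart izL77 (22, 23, 160) (3, 10, 1600) (15, 16, 20) (118, 50) (142, 50)).box (side (0, 1, 1))) ((lineChart izL77 (22, 23, 160) (3, 10, 1600) (15, 16, 20) (118, 50) (142, 50)).geo.muUp 4 (142, 50)) :=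
  ⟨297, 13, 7, 9, 4, by decide +kernel⟩

/-- A window. -/
theorem izL79_up : Chk ((lineChart izL79 (2, 3, 40) (1, 50, 50) (15, 19, 20) (84, 50) (128, 50)).box (side (0, 1, 1))) ((lineChart izL79 (2, 3, 40) (1, 50, 50) (15, 19, 20) (84, 50) (128, 50)).geo.muUp 4 (128, 50)) :=
  ⟨226, 13, 7, 9, 4, by decide +kernel⟩

/-- A window. -/
theorem izL84_up : Chk ((lineChart izL84 (1, 2, 20) (1, 2, 1) (0, 1, 2) (68, 50) (125, 50)).box (side (0, 1, 1))) ((lineChart izL84 (1, 2, 20) (1, 2, 1) (0, 1, 2) (68, 50) (125, 50)).geo.muUp 4 (125, 50)) :=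
  ⟨143, 13, 7, 9, 4, by decide +kernel⟩

/-- A window. -/
theorem izL86_up : Chk ((lineChart izL86 (16, 23, 160) (1, 2, 1) (0, 1, 2) (46, 50) (154, 50)).box (side (0, 1, 1))) ((lineChart izL86 (16, 23, 160) (1, 2, 1) (0, 1, 2) (46, 50) (154, 50)).geo.muUp 4 (154, 50)) :=
  ⟨183, 13, 7, 9, 4, by decide +kernel⟩

/-- A window. -/
theorem izL88_up : Chk ((lineChart izL88 (1, 2, 20) (2, 4, 1) (2, 3, 4) (29, 50) (152, 50)).box (side (0, 1, 1))) ((lineChart izL88 (1, 2, 20) (2, 4, 1) (2, 3, 4) (29, 50) (152, 50)).geo.muUp 4 (152, 50)) :=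
  ⟨152, 13, 7, 9, 4, by decide +kernel⟩

/-- A window. -/
theorem izL90_up : Chk ((lineChart izL90 (1, 2, 20) (1, 4, 1) (15, 19, 20) (29, 50) (153, 50)).box (side (0, 1, 1))) ((lineChart izL90 (1, 2, 20) (1, 4, 1) (15, 19, 20) (29, 50) (153, 50)).geo.muUp 4 (153, 50)) :=
  ⟨174, 13, 7, 9, 4, by decide +kernel⟩

/-- A window. -/
theorem izL92_up : Chk ((lineChart izL92 (2, 3, 40) (0, 1, 50) (9, 10, 10) (104, 50) (131, 50)).box (side (0, 1, 1))) ((lineChart izL92 (2, 3, 40) (0, 1, 50) (9, 10, 10) (104, 50) (131, 50)).geo.muUp 4 (131, 50)) :=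
  ⟨226, 13, 7, 9, 4, by decide +kernel⟩

/-- A window. -/
theorem izL94_up : Chk ((lineChart izL94 (3, 4, 40) (0, 1, 50) (22, 25, 25) (110, 50) (131, 50)).box (side (0, 1, 1))) ((lineChart izL94 (3, 4, 40) (0, 1, 50) (22, 25, 25) (110, 50) (131, 50)).geo.muUp 4 (131, 50)) :=
  ⟨238, 13, 7, 9, 4, by decide +kernel⟩

/-- A window. -/
theorem izL96_up : Chk ((lineChart izL96 (8, 9, 80) (0, 1, 500) (17, 20, 20) (119, 50) (157, 50)).box (side (0, 1, 1))) ((lineChart izL96 (8, 9, 80) (0, 1, 500) (17, 20, 20) (119, 50) (157, 50)).geo.muUp 4 (157, 50)) :=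
  ⟨272, 13, 7, 9, 4, by decide +kernel⟩

/-- A window. -/
theorem izL100_up : Chk ((lineChart izL100 (20, 21, 160) (0, 1, 160) (21, 25, 25) (147, 50) (175, 50)).box (side (0, 1, 1))) ((lineChart izL100 (20, 21, 160) (0, 1, 160) (21, 25, 25) (147, 50) (175, 50)).geo.muUp 4 (175, 50)) :=
  ⟨277, 13, 7, 9, 4, by decide +kernel⟩

/-- A window. -/
theorem izL102_up : Chk ((lineChart izL102 (20, 21, 160) (0, 1, 500) (21, 25, 25) (123, 50) (153, 50)).box (side (0, 1, 1))) ((lineChart izL102 (20, 21, 160) (0, 1, 500) (21, 25, 25) (123, 50) (153, 50)).geo.muUp 4 (153, 50)) :=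
  ⟨288, 13, 7, 9, 4, by decide +kernel⟩

/-- A window. -/
theorem izL104_up : Chk ((lineChart izL104 (50, 51, 400) (0, 1, 500) (21, 25, 25) (120, 50) (140, 50)).box (side (0, 1, 1))) ((lineChart izL104 (50, 51, 400) (0, 1, 500) (21, 25, 25) (120, 50) (140, 50)).geo.muUp 4 (140, 50)) :=
  ⟨305, 13, 7, 9, 4, by decide +kernel⟩

/-- A window. -/
theorem izL106_up : Chk ((lineChart izL106 (102, 105, 800) (0, 1, 500) (22, 25, 25) (123, 50) (142, 50)).box (side (0, 1, 1))) ((lineChart izL106 (102, 105, 800) (0, 1, 500) (22, 25, 25) (123, 50) (142, 50)).geo.muUp 4 (142, 50)) :=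
  ⟨318, 13, 7, 9, 4, by decide +kernel⟩

/-- A window. -/
theorem izL109_up : Chk ((lineChart izL109 (20, 21, 160) (3, 5, 800) (21, 25, 25) (119, 50) (153, 50)).box (side (0, 1, 1))) ((lineChart izL109 (20, 21, 160) (3, 5, 800) (21, 25, 25) (119, 50) (153, 50)).geo.muUp 4 (153, 50)) :=
  ⟨293, 13, 7, 9, 4, by decide +kernel⟩

/-- A window. -/
theorem izL112_up : Chk ((lineChart izL112 (2625, 2672, 20000) (0, 1, 50) (42, 45, 50) (130, 50) (154, 50)).box (side (0, 1, 1))) ((lineChart izL112 (2625, 2672, 20000) (0, 1, 50) (42, 45, 50) (130, 50) (154, 50)).geo.muUp 4 (154, 50)) :=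
  ⟨365, 13, 7, 9, 4, by decide +kernel⟩

/-- A window. -/
theorem izL114_up : Chk ((lineChart izL114 (105, 108, 800) (3, 10, 1600) (42, 45, 50) (123, 50) (143, 50)).box (side (0, 1, 1))) ((lineChart izL114 (105, 108, 800) (3, 10, 1600) (42, 45, 50) (123, 50) (143, 50)).geo.muUp 4 (143, 50)) :=
  ⟨339, 13, 7, 9, 4, by decide +kernel⟩

/-- A window. -/
theorem izL116_up : Chk ((lineChart izL116 (105, 108, 800) (0, 1, 160) (35, 36, 40) (123, 50) (140, 50)).box (side (0, 1, 1))) ((lineChart izL116 (105, 108, 800) (0, 1, 160) (35, 36, 40) (123, 50) (140, 50)).geo.muUp 4 (140, 50)) :=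
  ⟨313, 13, 7, 9, 4, by decide +kernel⟩

/-- A window. -/
theorem izL121_up : Chk ((lineChart izL121 (22, 23, 160) (0, 1, 50) (19, 26, 80) (94, 50) (123, 50)).box (side (0, 1, 1))) ((lineChart izL121 (22, 23, 160) (0, 1, 50) (19, 26, 80) (94, 50) (123, 50)).geo.muUp 4 (123, 50)) :=
  ⟨280, 13, 7, 9, 4, by decide +kernel⟩

/-- A window. -/
theorem izL123_up : Chk ((lineChart izL123 (20, 23, 160) (2, 15, 100) (33, 40, 80) (95, 50) (136, 50)).box (side (0, 1, 1))) ((lineChart izL123 (20, 23, 160) (2, 15, 100) (33, 40, 80) (95, 50) (136, 50)).geo.muUp 4 (136, 50)) :=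
  ⟨278, 13, 7, 9, 4, by decide +kernel⟩

/-- A window. -/
theorem izL125_up : Chk ((lineChart izL125 (22, 23, 160) (0, 1, 50) (4, 5, 8) (129, 50) (148, 50)).box (side (0, 1, 1))) ((lineChart izL125 (22, 23, 160) (0, 1, 50) (4, 5, 8) (129, 50) (148, 50)).geo.muUp 4 (148, 50)) :=
  ⟨250, 13, 7, 9, 4, by decide +kernel⟩

/-- A window. -/
theorem izL127_up : Chk ((lineChart izL127 (22, 23, 160) (0, 1, 50) (3, 6, 40) (88, 50) (116, 50)).box (side (0, 1, 1))) ((lineChart izL127 (22, 23, 160) (0, 1, 50) (3, 6, 40) (88, 50) (116, 50)).geo.muUp 4 (116, 50)) :=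
  ⟨271, 13, 7, 9, 4, by decide +kernel⟩

/-- A window. -/
theorem izL129_up : Chk ((lineChart izL129 (3, 4, 40) (0, 1, 50) (3, 6, 40) (91, 50) (109, 50)).box (side (0, 1, 1))) ((lineChart izL129 (3, 4, 40) (0, 1, 50) (3, 6, 40) (91, 50) (109, 50)).geo.muUp 4 (109, 50)) :=
  ⟨244, 13, 7, 9, 4, by decide +kernel⟩

/-- A window. -/
theorem izL131_up : Chk ((lineChart izL131 (16, 23, 160) (3, 20, 20) (3, 4, 8) (69, 50) (137, 50)).box (side (0, 1, 1))) ((lineChart izL131 (16, 23, 160) (3, 20, 20) (3, 4, 8) (69, 50) (137, 50)).geo.muUp 4 (137, 50)) :=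
  ⟨231, 13, 7, 9, 4, by decide +kernel⟩

/-- A window. -/
theorem izL200_up : Chk ((lineChart izL200 (2, 3, 40) (0, 1, 160) (15, 19, 20) (112, 50) (130, 50)).box (side (0, 1, 1))) ((lineChart izL200 (2, 3, 40) (0, 1, 160) (15, 19, 20) (112, 50) (130, 50)).geo.muUp 4 (130, 50)) :=
  ⟨247, 13, 7, 9, 4, by decide +kernel⟩

/-- A window. -/
theorem izL202_up : Chk ((lineChart izL202 (2, 3, 40) (0, 1, 160) (15, 19, 20) (106, 50) (127, 50)).box (side (0, 1, 1))) ((lineChart izL202 (2, 3, 40) (0, 1, 160) (15, 19, 20) (106, 50) (127, 50)).geo.muUp 4 (127, 50)) :=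
  ⟨247, 13, 7, 9, 4, by decide +kernel⟩

/-- A window. -/
theorem izL204_up : Chk ((lineChart izL204 (2, 3, 40) (0, 1, 160) (15, 19, 20) (103, 50) (117, 50)).box (side (0, 1, 1))) ((lineChart izL204 (2, 3, 40) (0, 1, 160) (15, 19, 20) (103, 50) (117, 50)).geo.muUp 4 (117, 50)) :=
  ⟨247, 13, 7, 9, 4, by decide +kernel⟩

/-- A window. -/
theorem izL206_up : Chk ((lineChart izL206 (3, 4, 40) (0, 1, 160) (75, 92, 100) (114, 50) (138, 50)).box (side (0, 1, 1))) ((lineChart izL206 (3, 4, 40) (0, 1, 160) (75, 92, 100) (114, 50) (138, 50)).geo.muUp 4 (138, 50)) :=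
  ⟨268, 13, 7, 9, 4, by decide +kernel⟩

/-- A window. -/
theorem izL208_up : Chk ((lineChart izL208 (3, 4, 40) (5, 16, 800) (75, 92, 100) (114, 50) (138, 50)).box (side (0, 1, 1))) ((lineChart izL208 (3, 4, 40) (5, 16, 800) (75, 92, 100) (114, 50) (138, 50)).geo.muUp 4 (138, 50)) :=
  ⟨284, 13, 7, 9, 4, by decide +kernel⟩

/-- A window. -/
theorem izL210_up : Chk ((lineChart izL210 (4, 5, 40) (0, 1, 160) (75, 89, 100) (131, 50) (159, 50)).box (side (0, 1, 1))) ((lineChart izL210 (4, 5, 40) (0, 1, 160) (75, 89, 100) (131, 50) (159, 50)).geo.muUp 4 (159, 50)) :=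
  ⟨269, 13, 7, 9, 4, by decide +kernel⟩

/-- A window. -/
theorem izL212_up : Chk ((lineChart izL212 (4, 5, 40) (3, 10, 1600) (75, 89, 100) (131, 50) (157, 50)).box (side (0, 1, 1))) ((lineChart izL212 (4, 5, 40) (3, 10, 1600) (75, 89, 100) (131, 50) (157, 50)).geo.muUp 4 (157, 50)) :=
  ⟨292, 13, 7, 9, 4, by decide +kernel⟩

/-- A window. -/
theorem izL214_up : Chk ((lineChart izL214 (4, 5, 40) (0, 1, 160) (75, 89, 100) (129, 50) (156, 50)).box (side (0, 1, 1))) ((lineChart izL214 (4, 5, 40) (0, 1, 160) (75, 89, 100) (129, 50) (156, 50)).geo.muUp 4 (156, 50)) :=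
  ⟨269, 13, 7, 9, 4, by decide +kernel⟩

/-- A window. -/
theorem izL217_up : Chk ((lineChart izL217 (4, 5, 40) (2, 3, 200) (75, 89, 100) (129, 50) (156, 50)).box (side (0, 1, 1))) ((lineChart izL217 (4, 5, 40) (2, 3, 200) (75, 89, 100) (129, 50) (156, 50)).geo.muUp 4 (156, 50)) :=
  ⟨271, 13, 7, 9, 4, by decide +kernel⟩

/-- A window. -/
theorem izL219_up : Chk ((lineChart izL219 (4, 5, 40) (0, 1, 160) (75, 89, 100) (128, 50) (153, 50)).box (side (0, 1, 1))) ((lineChart izL219 (4, 5, 40) (0, 1, 160) (75, 89, 100) (128, 50) (153, 50)).geo.muUp 4 (153, 50)) :=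
  ⟨269, 13, 7, 9, 4, by decide +kernel⟩

/-- A window. -/
theorem izL221_up : Chk ((lineChart izL221 (20, 21, 160) (0, 1, 50) (75, 86, 100) (140, 50) (161, 50)).box (side (0, 1, 1))) ((lineChart izL221 (20, 21, 160) (0, 1, 50) (75, 86, 100) (140, 50) (161, 50)).geo.muUp 4 (161, 50)) :=
  ⟨283, 13, 7, 9, 4, by decide +kernel⟩

/-- A window. -/
theorem izL223_up : Chk ((lineChart izL223 (20, 21, 160) (0, 1, 50) (75, 86, 100) (136, 50) (152, 50)).box (side (0, 1, 1))) ((lineChart izL223 (20, 21, 160) (0, 1, 50) (75, 86, 100) (136, 50) (152, 50)).geo.muUp 4 (152, 50)) :=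
  ⟨283, 13, 7, 9, 4, by decide +kernel⟩

/-- A window. -/
theorem izL225_up : Chk ((lineChart izL225 (20, 21, 160) (0, 1, 50) (75, 86, 100) (130, 50) (147, 50)).box (side (0, 1, 1))) ((lineChart izL225 (20, 21, 160) (0, 1, 50) (75, 86, 100) (130, 50) (147, 50)).geo.muUp 4 (147, 50)) :=
  ⟨283, 13, 7, 9, 4, by decide +kernel⟩

/-- A window. -/
theorem izL227_up : Chk ((lineChart izL227 (42, 43, 320) (0, 1, 50) (15, 17, 20) (144, 50) (163, 50)).box (side (0, 1, 1))) ((lineChart izL227 (42, 43, 320) (0, 1, 50) (15, 17, 20) (144, 50) (163, 50)).geo.muUp 4 (163, 50)) :=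
  ⟨275, 13, 7, 9, 4, by decide +kernel⟩

/-- A window. -/
theorem izL229_up : Chk ((lineChart izL229 (42, 43, 320) (0, 1, 50) (15, 17, 20) (140, 50) (154, 50)).box (side (0, 1, 1))) ((lineChart izL229 (42, 43, 320) (0, 1, 50) (15, 17, 20) (140, 50) (154, 50)).geo.muUp 4 (154, 50)) :=
  ⟨275, 13, 7, 9, 4, by decide +kernel⟩

/-- A window. -/
theorem izL231_up : Chk ((lineChart izL231 (42, 43, 320) (0, 1, 50) (15, 17, 20) (133, 50) (149, 50)).box (side (0, 1, 1))) ((lineChart izL231 (42, 43, 320) (0, 1, 50) (15, 17, 20) (133, 50) (149, 50)).geo.muUp 4 (149, 50)) :=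
  ⟨275, 13, 7, 9, 4, by decide +kernel⟩

/-- A window. -/
theorem izL233_up : Chk ((lineChart izL233 (85, 86, 640) (0, 1, 1600) (15, 17, 20) (117, 50) (138, 50)).box (side (0, 1, 1))) ((lineChart izL233 (85, 86, 640) (0, 1, 1600) (15, 17, 20) (117, 50) (138, 50)).geo.muUp 4 (138, 50)) :=
  ⟨323, 13, 7, 9, 4, by decide +kernel⟩

/-- A window. -/
theorem izL235_up : Chk ((lineChart izL235 (85, 86, 640) (3, 10, 1600) (15, 17, 20) (117, 50) (138, 50)).box (side (0, 1, 1))) ((lineChart izL235 (85, 86, 640) (3, 10, 1600) (15, 17, 20) (117, 50) (138, 50)).geo.muUp 4 (138, 50)) :=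
  ⟨323, 13, 7, 9, 4, by decide +kernel⟩

/-- A window. -/
theorem izL238_up : Chk ((lineChart izL238 (4, 5, 40) (2, 15, 100) (75, 89, 100) (97, 50) (154, 50)).box (side (0, 1, 1))) ((lineChart izL238 (4, 5, 40) (2, 15, 100) (75, 89, 100) (97, 50) (154, 50)).geo.muUp 4 (154, 50)) :=
  ⟨255, 13, 7, 9, 4, by decide +kernel⟩

/-- A window. -/
theorem izL240_up : Chk ((lineChart izL240 (8, 9, 80) (5, 6, 800) (75, 89, 100) (129, 50) (148, 50)).box (side (0, 1, 1))) ((lineChart izL240 (8, 9, 80) (5, 6, 800) (75, 89, 100) (129, 50) (148, 50)).geo.muUp 4 (148, 50)) :=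
  ⟨298, 13, 7, 9, 4, by decide +kernel⟩

/-- A window. -/
theorem izL242_up : Chk ((lineChart izL242 (9, 10, 80) (11, 12, 1600) (75, 89, 100) (135, 50) (157, 50)).box (side (0, 1, 1))) ((lineChart izL242 (9, 10, 80) (11, 12, 1600) (75, 89, 100) (135, 50) (157, 50)).geo.muUp 4 (157, 50)) :=
  ⟨305, 13, 7, 9, 4, by decide +kernel⟩

/-- A window. -/
theorem izL244_up : Chk ((lineChart izL244 (20, 23, 160) (3, 8, 20) (75, 89, 100) (90, 50) (155, 50)).box (side (0, 1, 1))) ((lineChart izL244 (20, 23, 160) (3, 8, 20) (75, 89, 100) (90, 50) (155, 50)).geo.muUp 4 (155, 50)) :=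
  ⟨265, 13, 7, 9, 4, by decide +kernel⟩

/-- A window. -/
theorem izL246_up : Chk ((lineChart izL246 (3, 4, 40) (2, 15, 100) (15, 19, 20) (98, 50) (141, 50)).box (side (0, 1, 1))) ((lineChart izL246 (3, 4, 40) (2, 15, 100) (15, 19, 20) (98, 50) (141, 50)).geo.muUp 4 (141, 50)) :=
  ⟨233, 13, 7, 9, 4, by decide +kernel⟩

/-- A window. -/
theorem izL248_up : Chk ((lineChart izL248 (14, 15, 160) (3, 20, 20) (15, 19, 20) (83, 50) (134, 50)).box (side (0, 1, 1))) ((lineChart izL248 (14, 15, 160) (3, 20, 20) (15, 19, 20) (83, 50) (134, 50)).geo.muUp 4 (134, 50)) :=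
  ⟨244, 13, 7, 9, 4, by decide +kernel⟩

/-- A window. -/
theorem izL250_up : Chk ((lineChart izL250 (15, 16, 160) (2, 5, 5) (15, 19, 20) (82, 50) (132, 50)).box (side (0, 1, 1))) ((lineChart izL250 (15, 16, 160) (2, 5, 5) (15, 19, 20) (82, 50) (132, 50)).geo.muUp 4 (132, 50)) :=
  ⟨231, 13, 7, 9, 4, by decide +kernel⟩

/-- A window. -/
theorem izL301_up : Chk ((lineChart izL301 (1, 2, 20) (3, 20, 20) (22, 25, 25) (82, 50) (135, 50)).box (side (0, 1, 1))) ((lineChart izL301 (1, 2, 20) (3, 20, 20) (22, 25, 25) (82, 50) (135, 50)).geo.muUp 4 (135, 50)) :=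
  ⟨207, 13, 7, 9, 4, by decide +kernel⟩

/-- A window. -/
theorem izL303_up : Chk ((lineChart izL303 (5, 6, 50) (5, 12, 80) (21, 25, 25) (100, 50) (151, 50)).box (side (0, 1, 1))) ((lineChart izL303 (5, 6, 50) (5, 12, 80) (21, 25, 25) (100, 50) (151, 50)).geo.muUp 4 (151, 50)) :=
  ⟨239, 13, 7, 9, 4, by decide +kernel⟩

/-- A window. -/
theorem izL305_up : Chk ((lineChart izL305 (20, 27, 200) (3, 8, 20) (21, 25, 25) (92, 50) (156, 50)).box (side (0, 1, 1))) ((lineChart izL305 (20, 27, 200) (3, 8, 20) (21, 25, 25) (92, 50) (156, 50)).geo.muUp 4 (156, 50)) :=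
  ⟨251, 13, 7, 9, 4, by decide +kernel⟩

/-- A window. -/
theorem izL311_up : Chk ((lineChart izL311 (4, 5, 40) (3, 10, 1600) (17, 20, 20) (112, 50) (143, 50)).box (side (0, 1, 1))) ((lineChart izL311 (4, 5, 40) (3, 10, 1600) (17, 20, 20) (112, 50) (143, 50)).geo.muUp 4 (143, 50)) :=
  ⟨271, 13, 7, 9, 4, by decide +kernel⟩

/-- A window. -/
theorem izL313_up : Chk ((lineChart izL313 (4, 5, 40) (1, 2, 100) (17, 20, 20) (131, 50) (163, 50)).box (side (0, 1, 1))) ((lineChart izL313 (4, 5, 40) (1, 2, 100) (17, 20, 20) (131, 50) (163, 50)).geo.muUp 4 (163, 50)) :=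
  ⟨243, 13, 7, 9, 4, by decide +kernel⟩

/-- A window. -/
theorem izL315_up : Chk ((lineChart izL315 (4, 5, 40) (5, 16, 800) (17, 20, 20) (111, 50) (146, 50)).box (side (0, 1, 1))) ((lineChart izL315 (4, 5, 40) (5, 16, 800) (17, 20, 20) (111, 50) (146, 50)).geo.muUp 4 (146, 50)) :=
  ⟨264, 13, 7, 9, 4, by decide +kernel⟩

/-- A window. -/
theorem izL317_up : Chk ((lineChart izL317 (20, 21, 160) (1, 2, 100) (21, 25, 25) (143, 50) (168, 50)).box (side (0, 1, 1))) ((lineChart izL317 (20, 21, 160) (1, 2, 100) (21, 25, 25) (143, 50) (168, 50)).geo.muUp 4 (168, 50)) :=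
  ⟨272, 13, 7, 9, 4, by decide +kernel⟩

/-- A window. -/
theorem izL319_up : Chk ((lineChart izL319 (20, 21, 160) (5, 16, 800) (21, 25, 25) (118, 50) (150, 50)).box (side (0, 1, 1))) ((lineChart izL319 (20, 21, 160) (5, 16, 800) (21, 25, 25) (118, 50) (150, 50)).geo.muUp 4 (150, 50)) :=
  ⟨293, 13, 7, 9, 4, by decide +kernel⟩

/-- A window. -/
theorem izL322_up : Chk ((lineChart izL322 (9, 10, 80) (0, 1, 500) (7, 8, 8) (125, 50) (168, 50)).box (side (0, 1, 1))) ((lineChart izL322 (9, 10, 80) (0, 1, 500) (7, 8, 8) (125, 50) (168, 50)).geo.muUp 4 (168, 50)) :=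
  ⟨261, 13, 7, 9, 4, by decide +kernel⟩

/-- A window. -/
theorem izL324_up : Chk ((lineChart izL324 (133, 135, 1000) (0, 1, 500) (168, 175, 200) (122, 50) (139, 50)).box (side (0, 1, 1))) ((lineChart izL324 (133, 135, 1000) (0, 1, 500) (168, 175, 200) (122, 50) (139, 50)).geo.muUp 4 (139, 50)) :=
  ⟨350, 13, 7, 9, 4, by decide +kernel⟩

/-- A window. -/
theorem izL326_up : Chk ((lineChart izL326 (20, 27, 200) (2, 5, 5) (21, 25, 25) (76, 50) (148, 50)).box (side (0, 1, 1))) ((lineChart izL326 (20, 27, 200) (2, 5, 5) (21, 25, 25) (76, 50) (148, 50)).geo.muUp 4 (148, 50)) :=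
  ⟨237, 13, 7, 9, 4, by decide +kernel⟩

/-- A window. -/
theorem izL401_up : Chk ((lineChart izL401 (10, 11, 80) (0, 1, 50) (0, 3, 40) (86, 50) (113, 50)).box (side (0, 1, 1))) ((lineChart izL401 (10, 11, 80) (0, 1, 50) (0, 3, 40) (86, 50) (113, 50)).geo.muUp 4 (113, 50)) :=
  ⟨258, 13, 7, 9, 4, by decide +kernel⟩

/-- A window. -/
theorem izL403_up : Chk ((lineChart izL403 (40, 43, 320) (2, 15, 100) (3, 6, 40) (90, 50) (114, 50)).box (side (0, 1, 1))) ((lineChart izL403 (40, 43, 320) (2, 15, 100) (3, 6, 40) (90, 50) (114, 50)).geo.muUp 4 (114, 50)) :=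
  ⟨281, 13, 7, 9, 4, by decide +kernel⟩

/-- A window. -/
theorem izL405_up : Chk ((lineChart izL405 (10, 11, 80) (0, 1, 50) (33, 40, 80) (99, 50) (134, 50)).box (side (0, 1, 1))) ((lineChart izL405 (10, 11, 80) (0, 1, 50) (33, 40, 80) (99, 50) (134, 50)).geo.muUp 4 (134, 50)) :=
  ⟨267, 13, 7, 9, 4, by decide +kernel⟩

/-- A window. -/
theorem izL407_up : Chk ((lineChart izL407 (7, 8, 80) (0, 1, 50) (3, 10, 20) (92, 50) (121, 50)).box (side (0, 1, 1))) ((lineChart izL407 (7, 8, 80) (0, 1, 50) (3, 10, 20) (92, 50) (121, 50)).geo.muUp 4 (121, 50)) :=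
  ⟨248, 13, 7, 9, 4, by decide +kernel⟩

/-- A window. -/
theorem izL409_up : Chk ((lineChart izL409 (43, 46, 320) (2, 15, 100) (3, 6, 40) (89, 50) (115, 50)).box (side (0, 1, 1))) ((lineChart izL409 (43, 46, 320) (2, 15, 100) (3, 6, 40) (89, 50) (115, 50)).geo.muUp 4 (115, 50)) :=
  ⟨281, 13, 7, 9, 4, by decide +kernel⟩

end Vale.Agent.P100.Calib.StripEndD
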