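import Vale.Agent.P100.Calib.SlabStripEndIZ7Win0
import Vale.Agent.P100.Calib.SlabStripEndIZ7Win1
import Vale.Agent.P100.Calib.SlabStripEndIZ7Win2
import Vale.Agent.P100.Calib.SlabStripEndIZ7Win3
import Vale.Agent.P100.Calib.SlabStripEndIZ7K32
import Vale.Agent.P100.Calib.SlabStripEndIZ7K33
import Vale.Agent.P100.Calib.SlabStripEndIZ7K34
import Vale.Agent.P100.Calib.SlabStripEndIZ7K35
import Vale.Agent.P100.Calib.SlabStripEndIZ7K36
import Vale.Agent.P100.Calib.SlabStripEndIZ7K37
import Vale.Agent.P100.Calib.SlabStripEndIZ7K38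
import Vale.Agent.P100.Calib.SlabStripEndIZ7K39
import Vale.Agent.P100.Calib.SlabStripEndIZ7K40
import Vale.Agent.P100.Calib.SlabStripEndIZ7K42
import Vale.Agent.P100.Calib.SlabStripEndIZ7K44
import Vale.Agent.P100.Calib.SlabStripEndIZ7K45
import Vale.Agent.P100.Calib.SlabStripEndIZ7K47
import Vale.Agent.P100.Calib.SlabStripEndIZ7K48
import Vale.Agent.P100.Calib.SlabStripEndIZ7K49
import Vale.Agent.P100.Calib.SlabStripEndIZ7K50
import Vale.Agent.P100.Calib.SlabStripEndIZ7K51
import Vale.Agent.P100.Calib.SlabStripEndIZ7K52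
import Vale.Agent.P100.Calib.SlabStripEndIZ7K53
import Vale.Agent.P100.Calib.SlabStripEndIZ7K54
import Vale.Agent.P100.Calib.SlabStripEndIZ7K55
import Vale.Agent.P100.Calib.SlabStripEndIZ7K56
import Vale.Agent.P100.Calib.SlabStripEndIZ7K58
import Vale.Agent.P100.Calib.SlabStripEndIZ7K59
import Vale.Agent.P100.Calib.SlabStripEndIZ7K60
import Vale.Agent.P100.Calib.SlabStripEndIZ7K61
import Vale.Agent.P100.Calib.SlabStripEndIZ7K62
import Vale.Agent.P100.Calib.SlabStripEndIZ7K63
import Vale.Agent.P100.Calib.SlabStripEndIZ7K65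
import Vale.Agent.P100.Calib.SlabStripEndIZ7K66
import Vale.Agent.P100.Calib.SlabStripEndIZ7K67
import Vale.Agent.P100.Calib.SlabStripEndIZ7K69
import Vale.Agent.P100.Calib.SlabStripEndIZ7K70

/-!
# The pieces of the `I` and `Z` charts over their lines (Leaves1)
-/

namespace Vale.Agent.P100.Calib.StripEndD

open Pack hiding ev_add ev_mul
open Pack.Ex StripMid StripEnd

local instance endIZ7Leaves1Add : Add Ex := ⟨Ex.add⟩
local instance endIZ7Leaves1Sub : Sub Ex := ⟨Ex.sub⟩
local instance endIZ7Leaves1Mul : Mul Ex := ⟨Ex.mul⟩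

/-- The piece 32 over its chart. -/
theorem pcIz32_over : pcIz32.Over (wideChart (lineChart izL32 (1, 2, 20) (2, 15, 100) (2, 3, 4) (94, 50) (133, 50))) :=
  ⟨fun _ => rfl, fun _ => rfl, fun _ => rfl,
    fun x => by simp only [pcIz32, wideChart, lineChart, izL32, ev_add, ev_mul, Ex.eval] <;> push_cast <;> ring,
    fun x => by
      simp only [pcIz32, wideChart, lineChart, afEx, izL32, ev_add, ev_mul, Ex.eval] <;> push_cast <;> ring,
    fun x => by
      simp only [pcIz32, Piece.A, Piece.S, ev_add, ev_sub, ev_mul, Ex.eval]; push_cast; ring,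
    rfl, rfl⟩

/-- The piece 32 with its lines. -/
theorem izLeaf32 : Leaf izL32 (1, 2, 20) (2, 15, 100) (2, 3, 4) (94, 50) (133, 50) pcIz32 bxIz32 :=
  ⟨by norm_num, izL32_up, izL32_down, Or.inl certIz32, pcIz32_over, ⟨rfl, rfl, rfl, rfl⟩, rfl, rfl⟩

/-- The piece 33 over its chart. -/
theorem pcIz33_over : pcIz33.Over (wideChart (lineChart izL33 (4, 5, 40) (2, 15, 100) (2, 3, 4) (94, 50) (146, 50))) :=
  ⟨fun _ => rfl, fun _ => rfl, fun _ => rfl,
    fun x => by simp only [pcIz33, wideChart, lineChart, izL33, ev_add, ev_mul, Ex.eval] <;> push_cast <;> ring,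
    fun x => by
      simp only [pcIz33, wideChart, lineChart, afEx, izL33, ev_add, ev_mul, Ex.eval] <;> push_cast <;> ring,
    fun x => by
      simp only [pcIz33, Piece.A, Piece.S, ev_add, ev_sub, ev_mul, Ex.eval]; push_cast; ring,
    rfl, rfl⟩

/-- The piece 33 with its lines. -/
theorem izLeaf33 : Leaf izL33 (4, 5, 40) (2, 15, 100) (2, 3, 4) (94, 50) (146, 50) pcIz33 bxIz33 :=
  ⟨by norm_num, izL33_up, izL33_down, Or.inl certIz33, pcIz33_over, ⟨rfl, rfl, rfl, rfl⟩, rfl, rfl⟩

/-- The piece 34 over its chart. -/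
theorem pcIz34_over : pcIz34.Over (wideChart (lineChart izL34 (20, 23, 160) (2, 15, 100) (8, 9, 16) (97, 50) (141, 50))) :=
  ⟨fun _ => rfl, fun _ => rfl, fun _ => rfl,
    fun x => by simp only [pcIz34, wideChart, lineChart, izL34, ev_add, ev_mul, Ex.eval] <;> push_cast <;> ring,
    fun x => by
      simp only [pcIz34, wideChart, lineChart, afEx, izL34, ev_add, ev_mul, Ex.eval] <;> push_cast <;> ring,
    fun x => by
      simp only [pcIz34, Piece.A, Piece.S, ev_add, ev_sub, ev_mul, Ex.eval]; push_cast; ring,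
    rfl, rfl⟩

/-- The piece 34 with its lines. -/
theorem izLeaf34 : Leaf izL34 (20, 23, 160) (2, 15, 100) (8, 9, 16) (97, 50) (141, 50) pcIz34 bxIz34 :=
  ⟨by norm_num, izL34_up, izL34_down, Or.inl certIz34, pcIz34_over, ⟨rfl, rfl, rfl, rfl⟩, rfl, rfl⟩

/-- The piece 35 over its chart. -/
theorem pcIz35_over : pcIz35.Over (wideChart (lineChart izL35 (20, 23, 160) (2, 15, 100) (5, 6, 8) (96, 50) (157, 50))) :=
  ⟨fun _ => rfl, fun _ => rfl, fun _ => rfl,
    fun x => by simp only [pcIz35, wideChart, lineChart, izL35, ev_add, ev_mul, Ex.eval] <;> push_cast <;> ring,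
    fun x => by
      simp only [pcIz35, wideChart, lineChart, afEx, izL35, ev_add, ev_mul, Ex.eval] <;> push_cast <;> ring,
    fun x => by
      simp only [pcIz35, Piece.A, Piece.S, ev_add, ev_sub, ev_mul, Ex.eval]; push_cast; ring,
    rfl, rfl⟩

/-- The piece 35 with its lines. -/
theorem izLeaf35 : Leaf izL35 (20, 23, 160) (2, 15, 100) (5, 6, 8) (96, 50) (157, 50) pcIz35 bxIz35 :=
  ⟨by norm_num, izL35_up, izL35_down, Or.inl certIz35, pcIz35_over, ⟨rfl, rfl, rfl, rfl⟩, rfl, rfl⟩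

/-- The piece 36 over its chart. -/
theorem pcIz36_over : pcIz36.Over (wideChart (lineChart izL36 (1, 2, 20) (3, 20, 20) (0, 1, 2) (80, 50) (119, 50))) :=
  ⟨fun _ => rfl, fun _ => rfl, fun _ => rfl,
    fun x => by simp only [pcIz36, wideChart, lineChart, izL36, ev_add, ev_mul, Ex.eval] <;> push_cast <;> ring,
    fun x => by
      simp only [pcIz36, wideChart, lineChart, afEx, izL36, ev_add, ev_mul, Ex.eval] <;> push_cast <;> ring,
    fun x => by
      simp only [pcIz36, Piece.A, Piece.S, ev_add, ev_sub, ev_mul, Ex.eval]; push_cast; ring,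
    rfl, rfl⟩

/-- The piece 36 with its lines. -/
theorem izLeaf36 : Leaf izL36 (1, 2, 20) (3, 20, 20) (0, 1, 2) (80, 50) (119, 50) pcIz36 bxIz36 :=
  ⟨by norm_num, izL36_up, izL36_down, Or.inl certIz36, pcIz36_over, ⟨rfl, rfl, rfl, rfl⟩, rfl, rfl⟩

/-- The piece 37 over its chart. -/
theorem pcIz37_over : pcIz37.Over (wideChart (lineChart izL37 (16, 23, 160) (3, 20, 20) (0, 1, 4) (70, 50) (130, 50))) :=
  ⟨fun _ => rfl, fun _ => rfl, fun _ => rfl,
    fun x => by simp only [pcIz37, wideChart, lineChart, izL37, ev_add, ev_mul, Ex.eval] <;> push_cast <;> ring,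
    fun x => by
      simp only [pcIz37, wideChart, lineChart, afEx, izL37, ev_add, ev_mul, Ex.eval] <;> push_cast <;> ring,
    fun x => by
      simp only [pcIz37, Piece.A, Piece.S, ev_add, ev_sub, ev_mul, Ex.eval]; push_cast; ring,
    rfl, rfl⟩

/-- The piece 37 with its lines. -/
theorem izLeaf37 : Leaf izL37 (16, 23, 160) (3, 20, 20) (0, 1, 4) (70, 50) (130, 50) pcIz37 bxIz37 :=
  ⟨by norm_num, izL37_up, izL37_down, Or.inl certIz37, pcIz37_over, ⟨rfl, rfl, rfl, rfl⟩, rfl, rfl⟩

/-- The piece 38 over its chart. -/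
theorem pcIz38_over : pcIz38.Over (wideChart (lineChart izL38 (16, 23, 160) (3, 20, 20) (2, 3, 8) (70, 50) (133, 50))) :=
  ⟨fun _ => rfl, fun _ => rfl, fun _ => rfl,
    fun x => by simp only [pcIz38, wideChart, lineChart, izL38, ev_add, ev_mul, Ex.eval] <;> push_cast <;> ring,
    fun x => by
      simp only [pcIz38, wideChart, lineChart, afEx, izL38, ev_add, ev_mul, Ex.eval] <;> push_cast <;> ring,
    fun x => by
      simp only [pcIz38, Piece.A, Piece.S, ev_add, ev_sub, ev_mul, Ex.eval]; push_cast; ring,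
    rfl, rfl⟩

/-- The piece 38 with its lines. -/
theorem izLeaf38 : Leaf izL38 (16, 23, 160) (3, 20, 20) (2, 3, 8) (70, 50) (133, 50) pcIz38 bxIz38 :=
  ⟨by norm_num, izL38_up, izL38_down, Or.inl certIz38, pcIz38_over, ⟨rfl, rfl, rfl, rfl⟩, rfl, rfl⟩

/-- The piece 39 over its chart. -/
theorem pcIz39_over : pcIz39.Over (wideChart (lineChart izL39 (1, 2, 20) (3, 20, 20) (2, 3, 4) (80, 50) (128, 50))) :=
  ⟨fun _ => rfl, fun _ => rfl, fun _ => rfl,
    fun x => by simp only [pcIz39, wideChart, lineChart, izL39, ev_add, ev_mul, Ex.eval] <;> push_cast <;> ring,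
    fun x => by
      simp only [pcIz39, wideChart, lineChart, afEx, izL39, ev_add, ev_mul, Ex.eval] <;> push_cast <;> ring,
    fun x => by
      simp only [pcIz39, Piece.A, Piece.S, ev_add, ev_sub, ev_mul, Ex.eval]; push_cast; ring,
    rfl, rfl⟩

/-- The piece 39 with its lines. -/
theorem izLeaf39 : Leaf izL39 (1, 2, 20) (3, 20, 20) (2, 3, 4) (80, 50) (128, 50) pcIz39 bxIz39 :=
  ⟨by norm_num, izL39_up, izL39_down, Or.inl certIz39, pcIz39_over, ⟨rfl, rfl, rfl, rfl⟩, rfl, rfl⟩

/-- The piece 40 over its chart. -/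
theorem pcIz40_over : pcIz40.Over (wideChart (lineChart izL40 (16, 23, 160) (3, 20, 20) (4, 5, 8) (71, 50) (140, 50))) :=
  ⟨fun _ => rfl, fun _ => rfl, fun _ => rfl,
    fun x => by simp only [pcIz40, wideChart, lineChart, izL40, ev_add, ev_mul, Ex.eval] <;> push_cast <;> ring,
    fun x => by
      simp only [pcIz40, wideChart, lineChart, afEx, izL40, ev_add, ev_mul, Ex.eval] <;> push_cast <;> ring,
    fun x => by
      simp only [pcIz40, Piece.A, Piece.S, ev_add, ev_sub, ev_mul, Ex.eval]; push_cast; ring,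
    rfl, rfl⟩

/-- The piece 40 with its lines. -/
theorem izLeaf40 : Leaf izL40 (16, 23, 160) (3, 20, 20) (4, 5, 8) (71, 50) (140, 50) pcIz40 bxIz40 :=
  ⟨by norm_num, izL40_up, izL40_down, Or.inl certIz40, pcIz40_over, ⟨rfl, rfl, rfl, rfl⟩, rfl, rfl⟩

/-- The piece 42 over its chart. -/
theorem pcIz42_over : pcIz42.Over (wideChart (lineChart izL42 (3, 4, 40) (0, 1, 50) (75, 92, 100) (119, 50) (143, 50))) :=
  ⟨fun _ => rfl, fun _ => rfl, fun _ => rfl,
    fun x => by simp only [pcIz42, wideChart, lineChart, izL42, ev_add, ev_mul, Ex.eval] <;> push_cast <;> ring,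
    fun x => by
      simp only [pcIz42, wideChart, lineChart, afEx, izL42, ev_add, ev_mul, Ex.eval] <;> push_cast <;> ring,
    fun x => by
      simp only [pcIz42, Piece.A, Piece.S, ev_add, ev_sub, ev_mul, Ex.eval]; push_cast; ring,
    rfl, rfl⟩

/-- The piece 42 with its lines. -/
theorem izLeaf42 : Leaf izL42 (3, 4, 40) (0, 1, 50) (75, 92, 100) (119, 50) (143, 50) pcIz42 bxIz42 :=
  ⟨by norm_num, izL42_up, izL42_down, Or.inl certIz42, pcIz42_over, ⟨rfl, rfl, rfl, rfl⟩, rfl, rfl⟩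

/-- The piece 44 over its chart. -/
theorem pcIz44_over : pcIz44.Over (wideChart (lineChart izL44 (3, 4, 40) (0, 1, 160) (75, 92, 100) (105, 50) (125, 50))) :=
  ⟨fun _ => rfl, fun _ => rfl, fun _ => rfl,
    fun x => by simp only [pcIz44, wideChart, lineChart, izL44, ev_add, ev_mul, Ex.eval] <;> push_cast <;> ring,
    fun x => by
      simp only [pcIz44, wideChart, lineChart, afEx, izL44, ev_add, ev_mul, Ex.eval] <;> push_cast <;> ring,
    fun x => by
      simp only [pcIz44, Piece.A, Piece.S, ev_add, ev_sub, ev_mul, Ex.eval]; push_cast; ring,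
    rfl, rfl⟩

/-- The piece 44 with its lines. -/
theorem izLeaf44 : Leaf izL44 (3, 4, 40) (0, 1, 160) (75, 92, 100) (105, 50) (125, 50) pcIz44 bxIz44 :=
  ⟨by norm_num, izL44_up, izL44_down, Or.inl certIz44, pcIz44_over, ⟨rfl, rfl, rfl, rfl⟩, rfl, rfl⟩

/-- The piece 45 over its chart. -/
theorem pcIz45_over : pcIz45.Over (wideChart (lineChart izL45 (3, 4, 40) (5, 16, 800) (75, 92, 100) (105, 50) (125, 50))) :=
  ⟨fun _ => rfl, fun _ => rfl, fun _ => rfl,
    fun x => by simp only [pcIz45, wideChart, lineChart, izL45, ev_add, ev_mul, Ex.eval] <;> push_cast <;> ring,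
    fun x => by
      simp only [pcIz45, wideChart, lineChart, afEx, izL45, ev_add, ev_mul, Ex.eval] <;> push_cast <;> ring,
    fun x => by
      simp only [pcIz45, Piece.A, Piece.S, ev_add, ev_sub, ev_mul, Ex.eval]; push_cast; ring,
    rfl, rfl⟩

/-- The piece 45 with its lines. -/
theorem izLeaf45 : Leaf izL45 (3, 4, 40) (5, 16, 800) (75, 92, 100) (105, 50) (125, 50) pcIz45 bxIz45 :=
  ⟨by norm_num, izL45_up, izL45_down, Or.inl certIz45, pcIz45_over, ⟨rfl, rfl, rfl, rfl⟩, rfl, rfl⟩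

/-- The piece 47 over its chart. -/
theorem pcIz47_over : pcIz47.Over (wideChart (lineChart izL47 (4, 5, 40) (0, 1, 160) (75, 89, 100) (121, 50) (152, 50))) :=
  ⟨fun _ => rfl, fun _ => rfl, fun _ => rfl,
    fun x => by simp only [pcIz47, wideChart, lineChart, izL47, ev_add, ev_mul, Ex.eval] <;> push_cast <;> ring,
    fun x => by
      simp only [pcIz47, wideChart, lineChart, afEx, izL47, ev_add, ev_mul, Ex.eval] <;> push_cast <;> ring,
    fun x => by
      simp only [pcIz47, Piece.A, Piece.S, ev_add, ev_sub, ev_mul, Ex.eval]; push_cast; ring,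
    rfl, rfl⟩

/-- The piece 47 with its lines. -/
theorem izLeaf47 : Leaf izL47 (4, 5, 40) (0, 1, 160) (75, 89, 100) (121, 50) (152, 50) pcIz47 bxIz47 :=
  ⟨by norm_num, izL47_up, izL47_down, Or.inl certIz47, pcIz47_over, ⟨rfl, rfl, rfl, rfl⟩, rfl, rfl⟩

/-- The piece 48 over its chart. -/
theorem pcIz48_over : pcIz48.Over (wideChart (lineChart izL48 (4, 5, 40) (5, 16, 800) (75, 89, 100) (121, 50) (152, 50))) :=
  ⟨fun _ => rfl, fun _ => rfl, fun _ => rfl,
    fun x => by simp only [pcIz48, wideChart, lineChart, izL48, ev_add, ev_mul, Ex.eval] <;> push_cast <;> ring,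
    fun x => by
      simp only [pcIz48, wideChart, lineChart, afEx, izL48, ev_add, ev_mul, Ex.eval] <;> push_cast <;> ring,
    fun x => by
      simp only [pcIz48, Piece.A, Piece.S, ev_add, ev_sub, ev_mul, Ex.eval]; push_cast; ring,
    rfl, rfl⟩

/-- The piece 48 with its lines. -/
theorem izLeaf48 : Leaf izL48 (4, 5, 40) (5, 16, 800) (75, 89, 100) (121, 50) (152, 50) pcIz48 bxIz48 :=
  ⟨by norm_num, izL48_up, izL48_down, Or.inl certIz48, pcIz48_over, ⟨rfl, rfl, rfl, rfl⟩, rfl, rfl⟩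

/-- The piece 49 over its chart. -/
theorem pcIz49_over : pcIz49.Over (wideChart (lineChart izL49 (4, 5, 40) (0, 1, 50) (75, 89, 100) (120, 50) (143, 50))) :=
  ⟨fun _ => rfl, fun _ => rfl, fun _ => rfl,
    fun x => by simp only [pcIz49, wideChart, lineChart, izL49, ev_add, ev_mul, Ex.eval] <;> push_cast <;> ring,
    fun x => by
      simp only [pcIz49, wideChart, lineChart, afEx, izL49, ev_add, ev_mul, Ex.eval] <;> push_cast <;> ring,
    fun x => by
      simp only [pcIz49, Piece.A, Piece.S, ev_add, ev_sub, ev_mul, Ex.eval]; push_cast; ring,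
    rfl, rfl⟩

/-- The piece 49 with its lines. -/
theorem izLeaf49 : Leaf izL49 (4, 5, 40) (0, 1, 50) (75, 89, 100) (120, 50) (143, 50) pcIz49 bxIz49 :=
  ⟨by norm_num, izL49_up, izL49_down, Or.inl certIz49, pcIz49_over, ⟨rfl, rfl, rfl, rfl⟩, rfl, rfl⟩

/-- The piece 50 over its chart. -/
theorem pcIz50_over : pcIz50.Over (wideChart (lineChart izL50 (4, 5, 40) (0, 3, 1600) (75, 89, 100) (112, 50) (141, 50))) :=
  ⟨fun _ => rfl, fun _ => rfl, fun _ => rfl,
    fun x => by simp only [pcIz50, wideChart, lineChart, izL50, ev_add, ev_mul, Ex.eval] <;> push_cast <;> ring,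
    fun x => by
      simp only [pcIz50, wideChart, lineChart, afEx, izL50, ev_add, ev_mul, Ex.eval] <;> push_cast <;> ring,
    fun x => by
      simp only [pcIz50, Piece.A, Piece.S, ev_add, ev_sub, ev_mul, Ex.eval]; push_cast; ring,
    rfl, rfl⟩

/-- The piece 50 with its lines. -/
theorem izLeaf50 : Leaf izL50 (4, 5, 40) (0, 3, 1600) (75, 89, 100) (112, 50) (141, 50) pcIz50 bxIz50 :=
  ⟨by norm_num, izL50_up, izL50_down, Or.inl certIz50, pcIz50_over, ⟨rfl, rfl, rfl, rfl⟩, rfl, rfl⟩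

/-- The piece 51 over its chart. -/
theorem pcIz51_over : pcIz51.Over (wideChart (lineChart izL51 (4, 5, 40) (0, 1, 1600) (75, 89, 100) (109, 50) (135, 50))) :=
  ⟨fun _ => rfl, fun _ => rfl, fun _ => rfl,
    fun x => by simp only [pcIz51, wideChart, lineChart, izL51, ev_add, ev_mul, Ex.eval] <;> push_cast <;> ring,
    fun x => by
      simp only [pcIz51, wideChart, lineChart, afEx, izL51, ev_add, ev_mul, Ex.eval] <;> push_cast <;> ring,
    fun x => by
      simp only [pcIz51, Piece.A, Piece.S, ev_add, ev_sub, ev_mul, Ex.eval]; push_cast; ring,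
    rfl, rfl⟩

/-- The piece 51 with its lines. -/
theorem izLeaf51 : Leaf izL51 (4, 5, 40) (0, 1, 1600) (75, 89, 100) (109, 50) (135, 50) pcIz51 bxIz51 :=
  ⟨by norm_num, izL51_up, izL51_down, Or.inl certIz51, pcIz51_over, ⟨rfl, rfl, rfl, rfl⟩, rfl, rfl⟩

/-- The piece 52 over its chart. -/
theorem pcIz52_over : pcIz52.Over (wideChart (lineChart izL52 (4, 5, 40) (1, 3, 1600) (75, 89, 100) (109, 50) (135, 50))) :=
  ⟨fun _ => rfl, fun _ => rfl, fun _ => rfl,
    fun x => by simp only [pcIz52, wideChart, lineChart, izL52, ev_add, ev_mul, Ex.eval] <;> push_cast <;> ring,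
    fun x => by
      simp only [pcIz52, wideChart, lineChart, afEx, izL52, ev_add, ev_mul, Ex.eval] <;> push_cast <;> ring,
    fun x => by
      simp only [pcIz52, Piece.A, Piece.S, ev_add, ev_sub, ev_mul, Ex.eval]; push_cast; ring,
    rfl, rfl⟩

/-- The piece 52 with its lines. -/
theorem izLeaf52 : Leaf izL52 (4, 5, 40) (1, 3, 1600) (75, 89, 100) (109, 50) (135, 50) pcIz52 bxIz52 :=
  ⟨by norm_num, izL52_up, izL52_down, Or.inl certIz52, pcIz52_over, ⟨rfl, rfl, rfl, rfl⟩, rfl, rfl⟩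

/-- The piece 53 over its chart. -/
theorem pcIz53_over : pcIz53.Over (wideChart (lineChart izL53 (4, 5, 40) (3, 6, 1600) (75, 89, 100) (109, 50) (141, 50))) :=
  ⟨fun _ => rfl, fun _ => rfl, fun _ => rfl,
    fun x => by simp only [pcIz53, wideChart, lineChart, izL53, ev_add, ev_mul, Ex.eval] <;> push_cast <;> ring,
    fun x => by
      simp only [pcIz53, wideChart, lineChart, afEx, izL53, ev_add, ev_mul, Ex.eval] <;> push_cast <;> ring,
    fun x => by
      simp only [pcIz53, Piece.A, Piece.S, ev_add, ev_sub, ev_mul, Ex.eval]; push_cast; ring,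
    rfl, rfl⟩

/-- The piece 53 with its lines. -/
theorem izLeaf53 : Leaf izL53 (4, 5, 40) (3, 6, 1600) (75, 89, 100) (109, 50) (141, 50) pcIz53 bxIz53 :=
  ⟨by norm_num, izL53_up, izL53_down, Or.inl certIz53, pcIz53_over, ⟨rfl, rfl, rfl, rfl⟩, rfl, rfl⟩

/-- The piece 54 over its chart. -/
theorem pcIz54_over : pcIz54.Over (wideChart (lineChart izL54 (4, 5, 40) (3, 5, 800) (75, 89, 100) (109, 50) (141, 50))) :=
  ⟨fun _ => rfl, fun _ => rfl, fun _ => rfl,
    fun x => by simp only [pcIz54, wideChart, lineChart, izL54, ev_add, ev_mul, Ex.eval] <;> push_cast <;> ring,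
    fun x => by
      simp only [pcIz54, wideChart, lineChart, afEx, izL54, ev_add, ev_mul, Ex.eval] <;> push_cast <;> ring,
    fun x => by
      simp only [pcIz54, Piece.A, Piece.S, ev_add, ev_sub, ev_mul, Ex.eval]; push_cast; ring,
    rfl, rfl⟩

/-- The piece 54 with its lines. -/
theorem izLeaf54 : Leaf izL54 (4, 5, 40) (3, 5, 800) (75, 89, 100) (109, 50) (141, 50) pcIz54 bxIz54 :=
  ⟨by norm_num, izL54_up, izL54_down, Or.inl certIz54, pcIz54_over, ⟨rfl, rfl, rfl, rfl⟩, rfl, rfl⟩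

/-- The piece 55 over its chart. -/
theorem pcIz55_over : pcIz55.Over (wideChart (lineChart izL55 (4, 5, 40) (5, 8, 800) (75, 89, 100) (109, 50) (141, 50))) :=
  ⟨fun _ => rfl, fun _ => rfl, fun _ => rfl,
    fun x => by simp only [pcIz55, wideChart, lineChart, izL55, ev_add, ev_mul, Ex.eval] <;> push_cast <;> ring,
    fun x => by
      simp only [pcIz55, wideChart, lineChart, afEx, izL55, ev_add, ev_mul, Ex.eval] <;> push_cast <;> ring,
    fun x => by
      simp only [pcIz55, Piece.A, Piece.S, ev_add, ev_sub, ev_mul, Ex.eval]; push_cast; ring,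
    rfl, rfl⟩

/-- The piece 55 with its lines. -/
theorem izLeaf55 : Leaf izL55 (4, 5, 40) (5, 8, 800) (75, 89, 100) (109, 50) (141, 50) pcIz55 bxIz55 :=
  ⟨by norm_num, izL55_up, izL55_down, Or.inl certIz55, pcIz55_over, ⟨rfl, rfl, rfl, rfl⟩, rfl, rfl⟩

/-- The piece 56 over its chart. -/
theorem pcIz56_over : pcIz56.Over (wideChart (lineChart izL56 (4, 5, 40) (1, 2, 100) (75, 89, 100) (108, 50) (141, 50))) :=
  ⟨fun _ => rfl, fun _ => rfl, fun _ => rfl,
    fun x => by simp only [pcIz56, wideChart, lineChart, izL56, ev_add, ev_mul, Ex.eval] <;> push_cast <;> ring,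
    fun x => by
      simp only [pcIz56, wideChart, lineChart, afEx, izL56, ev_add, ev_mul, Ex.eval] <;> push_cast <;> ring,
    fun x => by
      simp only [pcIz56, Piece.A, Piece.S, ev_add, ev_sub, ev_mul, Ex.eval]; push_cast; ring,
    rfl, rfl⟩

/-- The piece 56 with its lines. -/
theorem izLeaf56 : Leaf izL56 (4, 5, 40) (1, 2, 100) (75, 89, 100) (108, 50) (141, 50) pcIz56 bxIz56 :=
  ⟨by norm_num, izL56_up, izL56_down, Or.inl certIz56, pcIz56_over, ⟨rfl, rfl, rfl, rfl⟩, rfl, rfl⟩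

/-- The piece 58 over its chart. -/
theorem pcIz58_over : pcIz58.Over (wideChart (lineChart izL58 (20, 21, 160) (0, 1, 50) (75, 86, 100) (119, 50) (140, 50))) :=
  ⟨fun _ => rfl, fun _ => rfl, fun _ => rfl,
    fun x => by simp only [pcIz58, wideChart, lineChart, izL58, ev_add, ev_mul, Ex.eval] <;> push_cast <;> ring,
    fun x => by
      simp only [pcIz58, wideChart, lineChart, afEx, izL58, ev_add, ev_mul, Ex.eval] <;> push_cast <;> ring,
    fun x => by
      simp only [pcIz58, Piece.A, Piece.S, ev_add, ev_sub, ev_mul, Ex.eval]; push_cast; ring,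
    rfl, rfl⟩

/-- The piece 58 with its lines. -/
theorem izLeaf58 : Leaf izL58 (20, 21, 160) (0, 1, 50) (75, 86, 100) (119, 50) (140, 50) pcIz58 bxIz58 :=
  ⟨by norm_num, izL58_up, izL58_down, Or.inl certIz58, pcIz58_over, ⟨rfl, rfl, rfl, rfl⟩, rfl, rfl⟩

/-- The piece 59 over its chart. -/
theorem pcIz59_over : pcIz59.Over (wideChart (lineChart izL59 (20, 21, 160) (0, 1, 50) (75, 86, 100) (117, 50) (137, 50))) :=
  ⟨fun _ => rfl, fun _ => rfl, fun _ => rfl,
    fun x => by simp only [pcIz59, wideChart, lineChart, izL59, ev_add, ev_mul, Ex.eval] <;> push_cast <;> ring,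
    fun x => by
      simp only [pcIz59, wideChart, lineChart, afEx, izL59, ev_add, ev_mul, Ex.eval] <;> push_cast <;> ring,
    fun x => by
      simp only [pcIz59, Piece.A, Piece.S, ev_add, ev_sub, ev_mul, Ex.eval]; push_cast; ring,
    rfl, rfl⟩

/-- The piece 59 with its lines. -/
theorem izLeaf59 : Leaf izL59 (20, 21, 160) (0, 1, 50) (75, 86, 100) (117, 50) (137, 50) pcIz59 bxIz59 :=
  ⟨by norm_num, izL59_up, izL59_down, Or.inl certIz59, pcIz59_over, ⟨rfl, rfl, rfl, rfl⟩, rfl, rfl⟩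

/-- The piece 60 over its chart. -/
theorem pcIz60_over : pcIz60.Over (wideChart (lineChart izL60 (20, 21, 160) (0, 1, 160) (150, 161, 200) (115, 50) (134, 50))) :=
  ⟨fun _ => rfl, fun _ => rfl, fun _ => rfl,
    fun x => by simp only [pcIz60, wideChart, lineChart, izL60, ev_add, ev_mul, Ex.eval] <;> push_cast <;> ring,
    fun x => by
      simp only [pcIz60, wideChart, lineChart, afEx, izL60, ev_add, ev_mul, Ex.eval] <;> push_cast <;> ring,
    fun x => by
      simp only [pcIz60, Piece.A, Piece.S, ev_add, ev_sub, ev_mul, Ex.eval]; push_cast; ring,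
    rfl, rfl⟩

/-- The piece 60 with its lines. -/
theorem izLeaf60 : Leaf izL60 (20, 21, 160) (0, 1, 160) (150, 161, 200) (115, 50) (134, 50) pcIz60 bxIz60 :=
  ⟨by norm_num, izL60_up, izL60_down, Or.inl certIz60, pcIz60_over, ⟨rfl, rfl, rfl, rfl⟩, rfl, rfl⟩

/-- The piece 61 over its chart. -/
theorem pcIz61_over : pcIz61.Over (wideChart (lineChart izL61 (20, 21, 160) (5, 16, 800) (150, 161, 200) (113, 50) (134, 50))) :=
  ⟨fun _ => rfl, fun _ => rfl, fun _ => rfl,
    fun x => by simp only [pcIz61, wideChart, lineChart, izL61, ev_add, ev_mul, Ex.eval] <;> push_cast <;> ring,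
    fun x => by
      simp only [pcIz61, wideChart, lineChart, afEx, izL61, ev_add, ev_mul, Ex.eval] <;> push_cast <;> ring,
    fun x => by
      simp only [pcIz61, Piece.A, Piece.S, ev_add, ev_sub, ev_mul, Ex.eval]; push_cast; ring,
    rfl, rfl⟩

/-- The piece 61 with its lines. -/
theorem izLeaf61 : Leaf izL61 (20, 21, 160) (5, 16, 800) (150, 161, 200) (113, 50) (134, 50) pcIz61 bxIz61 :=
  ⟨by norm_num, izL61_up, izL61_down, Or.inl certIz61, pcIz61_over, ⟨rfl, rfl, rfl, rfl⟩, rfl, rfl⟩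

/-- The piece 62 over its chart. -/
theorem pcIz62_over : pcIz62.Over (wideChart (lineChart izL62 (40, 41, 320) (0, 1, 50) (161, 172, 200) (116, 50) (135, 50))) :=
  ⟨fun _ => rfl, fun _ => rfl, fun _ => rfl,
    fun x => by simp only [pcIz62, wideChart, lineChart, izL62, ev_add, ev_mul, Ex.eval] <;> push_cast <;> ring,
    fun x => by
      simp only [pcIz62, wideChart, lineChart, afEx, izL62, ev_add, ev_mul, Ex.eval] <;> push_cast <;> ring,
    fun x => by
      simp only [pcIz62, Piece.A, Piece.S, ev_add, ev_sub, ev_mul, Ex.eval]; push_cast; ring,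
    rfl, rfl⟩

/-- The piece 62 with its lines. -/
theorem izLeaf62 : Leaf izL62 (40, 41, 320) (0, 1, 50) (161, 172, 200) (116, 50) (135, 50) pcIz62 bxIz62 :=
  ⟨by norm_num, izL62_up, izL62_down, Or.inl certIz62, pcIz62_over, ⟨rfl, rfl, rfl, rfl⟩, rfl, rfl⟩

/-- The piece 63 over its chart. -/
theorem pcIz63_over : pcIz63.Over (wideChart (lineChart izL63 (41, 42, 320) (0, 1, 50) (161, 172, 200) (117, 50) (137, 50))) :=
  ⟨fun _ => rfl, fun _ => rfl, fun _ => rfl,
    fun x => by simp only [pcIz63, wideChart, lineChart, izL63, ev_add, ev_mul, Ex.eval] <;> push_cast <;> ring,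
    fun x => by
      simp only [pcIz63, wideChart, lineChart, afEx, izL63, ev_add, ev_mul, Ex.eval] <;> push_cast <;> ring,
    fun x => by
      simp only [pcIz63, Piece.A, Piece.S, ev_add, ev_sub, ev_mul, Ex.eval]; push_cast; ring,
    rfl, rfl⟩

/-- The piece 63 with its lines. -/
theorem izLeaf63 : Leaf izL63 (41, 42, 320) (0, 1, 50) (161, 172, 200) (117, 50) (137, 50) pcIz63 bxIz63 :=
  ⟨by norm_num, izL63_up, izL63_down, Or.inl certIz63, pcIz63_over, ⟨rfl, rfl, rfl, rfl⟩, rfl, rfl⟩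

/-- The piece 65 over its chart. -/
theorem pcIz65_over : pcIz65.Over (wideChart (lineChart izL65 (42, 43, 320) (0, 1, 50) (15, 17, 20) (121, 50) (142, 50))) :=
  ⟨fun _ => rfl, fun _ => rfl, fun _ => rfl,
    fun x => by simp only [pcIz65, wideChart, lineChart, izL65, ev_add, ev_mul, Ex.eval] <;> push_cast <;> ring,
    fun x => by
      simp only [pcIz65, wideChart, lineChart, afEx, izL65, ev_add, ev_mul, Ex.eval] <;> push_cast <;> ring,
    fun x => by
      simp only [pcIz65, Piece.A, Piece.S, ev_add, ev_sub, ev_mul, Ex.eval]; push_cast; ring,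
    rfl, rfl⟩

/-- The piece 65 with its lines. -/
theorem izLeaf65 : Leaf izL65 (42, 43, 320) (0, 1, 50) (15, 17, 20) (121, 50) (142, 50) pcIz65 bxIz65 :=
  ⟨by norm_num, izL65_up, izL65_down, Or.inl certIz65, pcIz65_over, ⟨rfl, rfl, rfl, rfl⟩, rfl, rfl⟩

/-- The piece 66 over its chart. -/
theorem pcIz66_over : pcIz66.Over (wideChart (lineChart izL66 (42, 43, 320) (0, 1, 50) (15, 17, 20) (119, 50) (138, 50))) :=
  ⟨fun _ => rfl, fun _ => rfl, fun _ => rfl,
    fun x => by simp only [pcIz66, wideChart, lineChart, izL66, ev_add, ev_mul, Ex.eval] <;> push_cast <;> ring,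
    fun x => by
      simp only [pcIz66, wideChart, lineChart, afEx, izL66, ev_add, ev_mul, Ex.eval] <;> push_cast <;> ring,
    fun x => by
      simp only [pcIz66, Piece.A, Piece.S, ev_add, ev_sub, ev_mul, Ex.eval]; push_cast; ring,
    rfl, rfl⟩

/-- The piece 66 with its lines. -/
theorem izLeaf66 : Leaf izL66 (42, 43, 320) (0, 1, 50) (15, 17, 20) (119, 50) (138, 50) pcIz66 bxIz66 :=
  ⟨by norm_num, izL66_up, izL66_down, Or.inl certIz66, pcIz66_over, ⟨rfl, rfl, rfl, rfl⟩, rfl, rfl⟩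

/-- The piece 67 over its chart. -/
theorem pcIz67_over : pcIz67.Over (wideChart (lineChart izL67 (84, 85, 640) (0, 1, 50) (15, 17, 20) (115, 50) (137, 50))) :=
  ⟨fun _ => rfl, fun _ => rfl, fun _ => rfl,
    fun x => by simp only [pcIz67, wideChart, lineChart, izL67, ev_add, ev_mul, Ex.eval] <;> push_cast <;> ring,
    fun x => by
      simp only [pcIz67, wideChart, lineChart, afEx, izL67, ev_add, ev_mul, Ex.eval] <;> push_cast <;> ring,
    fun x => by
      simp only [pcIz67, Piece.A, Piece.S, ev_add, ev_sub, ev_mul, Ex.eval]; push_cast; ring,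
    rfl, rfl⟩

/-- The piece 67 with its lines. -/
theorem izLeaf67 : Leaf izL67 (84, 85, 640) (0, 1, 50) (15, 17, 20) (115, 50) (137, 50) pcIz67 bxIz67 :=
  ⟨by norm_num, izL67_up, izL67_down, Or.inl certIz67, pcIz67_over, ⟨rfl, rfl, rfl, rfl⟩, rfl, rfl⟩

/-- The piece 69 over its chart. -/
theorem pcIz69_over : pcIz69.Over (wideChart (lineChart izL69 (43, 44, 320) (0, 1, 160) (75, 83, 100) (129, 50) (164, 50))) :=
  ⟨fun _ => rfl, fun _ => rfl, fun _ => rfl,
    fun x => by simp only [pcIz69, wideChart, lineChart, izL69, ev_add, ev_mul, Ex.eval] <;> push_cast <;> ring,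
    fun x => by
      simp only [pcIz69, wideChart, lineChart, afEx, izL69, ev_add, ev_mul, Ex.eval] <;> push_cast <;> ring,
    fun x => by
      simp only [pcIz69, Piece.A, Piece.S, ev_add, ev_sub, ev_mul, Ex.eval]; push_cast; ring,
    rfl, rfl⟩

/-- The piece 69 with its lines. -/
theorem izLeaf69 : Leaf izL69 (43, 44, 320) (0, 1, 160) (75, 83, 100) (129, 50) (164, 50) pcIz69 bxIz69 :=
  ⟨by norm_num, izL69_up, izL69_down, Or.inl certIz69, pcIz69_over, ⟨rfl, rfl, rfl, rfl⟩, rfl, rfl⟩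

/-- The piece 70 over its chart. -/
theorem pcIz70_over : pcIz70.Over (wideChart (lineChart izL70 (43, 44, 320) (0, 1, 160) (75, 83, 100) (121, 50) (143, 50))) :=
  ⟨fun _ => rfl, fun _ => rfl, fun _ => rfl,
    fun x => by simp only [pcIz70, wideChart, lineChart, izL70, ev_add, ev_mul, Ex.eval] <;> push_cast <;> ring,
    fun x => by
      simp only [pcIz70, wideChart, lineChart, afEx, izL70, ev_add, ev_mul, Ex.eval] <;> push_cast <;> ring,
    fun x => by
      simp only [pcIz70, Piece.A, Piece.S, ev_add, ev_sub, ev_mul, Ex.eval]; push_cast; ring,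
    rfl, rfl⟩

/-- The piece 70 with its lines. -/
theorem izLeaf70 : Leaf izL70 (43, 44, 320) (0, 1, 160) (75, 83, 100) (121, 50) (143, 50) pcIz70 bxIz70 :=
  ⟨by norm_num, izL70_up, izL70_down, Or.inl certIz70, pcIz70_over, ⟨rfl, rfl, rfl, rfl⟩, rfl, rfl⟩

end Vale.Agent.P100.Calib.StripEndD
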