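import Vale.Agent.P100.Calib.SlabStripEndIZ7LineFacts
import Vale.Agent.P100.Calib.SlabStripEndIZ7Leaves1

/-!
# The signs in the pieces of the `I` and `Z` charts (At1)
-/

set_option linter.unusedVariables false
set_option linter.unusedTactic false
set_option linter.unreachableTactic false
set_option linter.unusedSimpArgs false
set_option linter.unnecessarySeqFocus false

namespace Vale.Agent.P100.Calib.StripEndD

open Pack hiding ev_add ev_mul
open Pack.Ex Band StripMid StripEnd

local instance endIZ7At1Add : Add Ex := ⟨Ex.add⟩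
local instance endIZ7At1Sub : Sub Ex := ⟨Ex.sub⟩
local instance endIZ7At1Mul : Mul Ex := ⟨Ex.mul⟩

/-- The signs in the piece 32. -/
theorem izAt32 {n : ℕ} {a b u v t H I r s : ℝ} (hb : Closed.All.ChartBox n (b - a) (a + b))
    (hF : Closed.All.ChartFacts (b - a) (a + b) u v t)
    (hH : Closed.chH (b - a) (a + b) u v t = H) (hB : EndBands7 a b u v H)
    (hside : DLow a b) (hE : ExitLine a b u v) (hI : IPt a b u I r s) (hI0 : 0 < I)
    (q0l : (1 / 20 : ℝ) < I) (q0u : I ≤ (1 / 10 : ℝ)) (q1l : (1 / 50 : ℝ) < r) (q1u : r ≤ (3 / 20 : ℝ)) (q2l : (1 / 2 : ℝ) < s) (q2u : s ≤ (3 / 4 : ℝ)) :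
    Closed.Strip.ChartSigns (b - a) (a + b) u v t := by
  obtain ⟨hl, hr⟩ := izLine27 hB hE hI0 (⟨hI, (inU_of (by norm_num) (by norm_num; linarith) (by norm_num; linarith)), (inU_of (by norm_num) (by norm_num; linarith) (by norm_num; linarith)), (inU_of (by norm_num) (by norm_num; linarith) (by norm_num; linarith)), by norm_num [Lines.denV, izM27] <;> linarith⟩ : InLines izM27 (1, 2, 20) (2, 15, 100) (2, 3, 4) a b u I r s)
  norm_num [afVal, Lines.denV, izM27] at hl hr
  refine izLeaf32.low rfl rfl hb hF hH hB hside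
    (⟨hI, (inU_of (by norm_num) (by norm_num; linarith) (by norm_num; linarith)), (inU_of (by norm_num) (by norm_num; linarith) (by norm_num; linarith)), (inU_of (by norm_num) (by norm_num; linarith) (by norm_num; linarith)), by norm_num [Lines.denV, izL32] <;> linarith⟩ : InLines izL32 (1, 2, 20) (2, 15, 100) (2, 3, 4) a b u I r s) ?_ ?_
  all_goals norm_num [afVal, Lines.denV, izL32] <;> linarith

/-- The signs in the piece 33. -/
theorem izAt33 {n : ℕ} {a b u v t H I r s : ℝ} (hb : Closed.All.ChartBox n (b - a) (a + b))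
    (hF : Closed.All.ChartFacts (b - a) (a + b) u v t)
    (hH : Closed.chH (b - a) (a + b) u v t = H) (hB : EndBands7 a b u v H)
    (hside : DLow a b) (hE : ExitLine a b u v) (hI : IPt a b u I r s) (hI0 : 0 < I)
    (q0l : (1 / 10 : ℝ) < I) (q0u : I ≤ (1 / 8 : ℝ)) (q1l : (1 / 50 : ℝ) < r) (q1u : r ≤ (3 / 20 : ℝ)) (q2l : (1 / 2 : ℝ) < s) (q2u : s ≤ (3 / 4 : ℝ)) :
    Closed.Strip.ChartSigns (b - a) (a + b) u v t := by
  obtain ⟨hl, hr⟩ := izLine28 hB hE hI0 (⟨hI, (inU_of (by norm_num) (by norm_num; linarith) (by norm_num; linarith)), (inU_of (by norm_num) (by norm_num; linarith) (by norm_num; linarith)), (inU_of (by norm_num) (by norm_num; linarith) (by norm_num; linarith)), by norm_num [Lines.denV, izM28] <;> linarith⟩ : InLines izM28 (4, 5, 40) (2, 15, 100) (2, 3, 4) a b u I r s)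
  norm_num [afVal, Lines.denV, izM28] at hl hr
  refine izLeaf33.low rfl rfl hb hF hH hB hside
    (⟨hI, (inU_of (by norm_num) (by norm_num; linarith) (by norm_num; linarith)), (inU_of (by norm_num) (by norm_num; linarith) (by norm_num; linarith)), (inU_of (by norm_num) (by norm_num; linarith) (by norm_num; linarith)), by norm_num [Lines.denV, izL33] <;> linarith⟩ : InLines izL33 (4, 5, 40) (2, 15, 100) (2, 3, 4) a b u I r s) ?_ ?_
  all_goals norm_num [afVal, Lines.denV, izL33] <;> linarith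

/-- The signs in the piece 34. -/
theorem izAt34 {n : ℕ} {a b u v t H I r s : ℝ} (hb : Closed.All.ChartBox n (b - a) (a + b))
    (hF : Closed.All.ChartFacts (b - a) (a + b) u v t)
    (hH : Closed.chH (b - a) (a + b) u v t = H) (hB : EndBands7 a b u v H)
    (hside : DLow a b) (hE : ExitLine a b u v) (hI : IPt a b u I r s) (hI0 : 0 < I)
    (q0l : (1 / 8 : ℝ) < I) (q0u : I ≤ (23 / 160 : ℝ)) (q1l : (1 / 50 : ℝ) < r) (q1u : r ≤ (3 / 20 : ℝ)) (q2l : (1 / 2 : ℝ) < s) (q2u : s ≤ (9 / 16 : ℝ)) :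
    Closed.Strip.ChartSigns (b - a) (a + b) u v t := by
  obtain ⟨hl, hr⟩ := izLine29 hB hE hI0 (⟨hI, (inU_of (by norm_num) (by norm_num; linarith) (by norm_num; linarith)), (inU_of (by norm_num) (by norm_num; linarith) (by norm_num; linarith)), (inU_of (by norm_num) (by norm_num; linarith) (by norm_num; linarith)), by norm_num [Lines.denV, izM29] <;> linarith⟩ : InLines izM29 (20, 23, 160) (2, 15, 100) (8, 9, 16) a b u I r s)
  norm_num [afVal, Lines.denV, izM29] at hl hr
  refine izLeaf34.low rfl rfl hb hF hH hB hside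
    (⟨hI, (inU_of (by norm_num) (by norm_num; linarith) (by norm_num; linarith)), (inU_of (by norm_num) (by norm_num; linarith) (by norm_num; linarith)), (inU_of (by norm_num) (by norm_num; linarith) (by norm_num; linarith)), by norm_num [Lines.denV, izL34] <;> linarith⟩ : InLines izL34 (20, 23, 160) (2, 15, 100) (8, 9, 16) a b u I r s) ?_ ?_
  all_goals norm_num [afVal, Lines.denV, izL34] <;> linarith

/-- The signs in the piece 35. -/
theorem izAt35 {n : ℕ} {a b u v t H I r s : ℝ} (hb : Closed.All.ChartBox n (b - a) (a + b))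
    (hF : Closed.All.ChartFacts (b - a) (a + b) u v t)
    (hH : Closed.chH (b - a) (a + b) u v t = H) (hB : EndBands7 a b u v H)
    (hside : DLow a b) (hE : ExitLine a b u v) (hI : IPt a b u I r s) (hI0 : 0 < I)
    (q0l : (1 / 8 : ℝ) < I) (q0u : I ≤ (23 / 160 : ℝ)) (q1l : (1 / 50 : ℝ) < r) (q1u : r ≤ (3 / 20 : ℝ)) (q2l : (5 / 8 : ℝ) < s) (q2u : s ≤ (3 / 4 : ℝ)) :
    Closed.Strip.ChartSigns (b - a) (a + b) u v t := by
  obtain ⟨hl, hr⟩ := izLine30 hB hE hI0 (⟨hI, (inU_of (by norm_num) (by norm_num; linarith) (by norm_num; linarith)), (inU_of (by norm_num) (by norm_num; linarith) (by norm_num; linarith)), (inU_of (by norm_num) (by norm_num; linarith) (by norm_num; linarith)), by norm_num [Lines.denV, izM30] <;> linarith⟩ : InLines izM30 (20, 23, 160) (2, 15, 100) (5, 6, 8) a b u I r s)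
  norm_num [afVal, Lines.denV, izM30] at hl hr
  refine izLeaf35.low rfl rfl hb hF hH hB hside
    (⟨hI, (inU_of (by norm_num) (by norm_num; linarith) (by norm_num; linarith)), (inU_of (by norm_num) (by norm_num; linarith) (by norm_num; linarith)), (inU_of (by norm_num) (by norm_num; linarith) (by norm_num; linarith)), by norm_num [Lines.denV, izL35] <;> linarith⟩ : InLines izL35 (20, 23, 160) (2, 15, 100) (5, 6, 8) a b u I r s) ?_ ?_
  all_goals norm_num [afVal, Lines.denV, izL35] <;> linarith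

/-- The signs in the piece 36. -/
theorem izAt36 {n : ℕ} {a b u v t H I r s : ℝ} (hb : Closed.All.ChartBox n (b - a) (a + b))
    (hF : Closed.All.ChartFacts (b - a) (a + b) u v t)
    (hH : Closed.chH (b - a) (a + b) u v t = H) (hB : EndBands7 a b u v H)
    (hside : DLow a b) (hE : ExitLine a b u v) (hI : IPt a b u I r s) (hI0 : 0 < I)
    (q0l : (1 / 20 : ℝ) < I) (q0u : I ≤ (1 / 10 : ℝ)) (q1l : (3 / 20 : ℝ) < r) (q1u : r ≤ (1 : ℝ)) (q2l : (0 : ℝ) < s) (q2u : s ≤ (1 / 2 : ℝ)) :
    Closed.Strip.ChartSigns (b - a) (a + b) u v t := by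
  obtain ⟨hl, hr⟩ := izLine31 hB hE hI0 (⟨hI, (inU_of (by norm_num) (by norm_num; linarith) (by norm_num; linarith)), (inU_of (by norm_num) (by norm_num; linarith) (by norm_num; linarith)), (inU_of (by norm_num) (by norm_num; linarith) (by norm_num; linarith)), by norm_num [Lines.denV, izM31] <;> linarith⟩ : InLines izM31 (1, 2, 20) (3, 20, 20) (0, 1, 2) a b u I r s)
  norm_num [afVal, Lines.denV, izM31] at hl hr
  refine izLeaf36.low rfl rfl hb hF hH hB hside
    (⟨hI, (inU_of (by norm_num) (by norm_num; linarith) (by norm_num; linarith)), (inU_of (by norm_num) (by norm_num; linarith) (by norm_num; linarith)), (inU_of (by norm_num) (by norm_num; linarith) (by norm_num; linarith)), by norm_num [Lines.denV, izL36] <;> linarith⟩ : InLines izL36 (1, 2, 20) (3, 20, 20) (0, 1, 2) a b u I r s) ?_ ?_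
  all_goals norm_num [afVal, Lines.denV, izL36] <;> linarith

/-- The signs in the piece 37. -/
theorem izAt37 {n : ℕ} {a b u v t H I r s : ℝ} (hb : Closed.All.ChartBox n (b - a) (a + b))
    (hF : Closed.All.ChartFacts (b - a) (a + b) u v t)
    (hH : Closed.chH (b - a) (a + b) u v t = H) (hB : EndBands7 a b u v H)
    (hside : DLow a b) (hE : ExitLine a b u v) (hI : IPt a b u I r s) (hI0 : 0 < I)
    (q0l : (1 / 10 : ℝ) < I) (q0u : I ≤ (23 / 160 : ℝ)) (q1l : (3 / 20 : ℝ) < r) (q1u : r ≤ (1 : ℝ)) (q2l : (0 : ℝ) < s) (q2u : s ≤ (1 / 4 : ℝ)) :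
    Closed.Strip.ChartSigns (b - a) (a + b) u v t := by
  obtain ⟨hl, hr⟩ := izLine32 hB hE hI0 (⟨hI, (inU_of (by norm_num) (by norm_num; linarith) (by norm_num; linarith)), (inU_of (by norm_num) (by norm_num; linarith) (by norm_num; linarith)), (inU_of (by norm_num) (by norm_num; linarith) (by norm_num; linarith)), by norm_num [Lines.denV, izM32] <;> linarith⟩ : InLines izM32 (16, 23, 160) (3, 20, 20) (0, 1, 4) a b u I r s)
  norm_num [afVal, Lines.denV, izM32] at hl hr
  refine izLeaf37.low rfl rfl hb hF hH hB hside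
    (⟨hI, (inU_of (by norm_num) (by norm_num; linarith) (by norm_num; linarith)), (inU_of (by norm_num) (by norm_num; linarith) (by norm_num; linarith)), (inU_of (by norm_num) (by norm_num; linarith) (by norm_num; linarith)), by norm_num [Lines.denV, izL37] <;> linarith⟩ : InLines izL37 (16, 23, 160) (3, 20, 20) (0, 1, 4) a b u I r s) ?_ ?_
  all_goals norm_num [afVal, Lines.denV, izL37] <;> linarith

/-- The signs in the piece 38. -/
theorem izAt38 {n : ℕ} {a b u v t H I r s : ℝ} (hb : Closed.All.ChartBox n (b - a) (a + b))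
    (hF : Closed.All.ChartFacts (b - a) (a + b) u v t)
    (hH : Closed.chH (b - a) (a + b) u v t = H) (hB : EndBands7 a b u v H)
    (hside : DLow a b) (hE : ExitLine a b u v) (hI : IPt a b u I r s) (hI0 : 0 < I)
    (q0l : (1 / 10 : ℝ) < I) (q0u : I ≤ (23 / 160 : ℝ)) (q1l : (3 / 20 : ℝ) < r) (q1u : r ≤ (1 : ℝ)) (q2l : (1 / 4 : ℝ) < s) (q2u : s ≤ (3 / 8 : ℝ)) :
    Closed.Strip.ChartSigns (b - a) (a + b) u v t := by
  obtain ⟨hl, hr⟩ := izLine33 hB hE hI0 (⟨hI, (inU_of (by norm_num) (by norm_num; linarith) (by norm_num; linarith)), (inU_of (by norm_num) (by norm_num; linarith) (by norm_num; linarith)), (inU_of (by norm_num) (by norm_num; linarith) (by norm_num; linarith)), by norm_num [Lines.denV, izM33] <;> linarith⟩ : InLines izM33 (16, 23, 160) (3, 20, 20) (2, 3, 8) a b u I r s)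
  norm_num [afVal, Lines.denV, izM33] at hl hr
  refine izLeaf38.low rfl rfl hb hF hH hB hside
    (⟨hI, (inU_of (by norm_num) (by norm_num; linarith) (by norm_num; linarith)), (inU_of (by norm_num) (by norm_num; linarith) (by norm_num; linarith)), (inU_of (by norm_num) (by norm_num; linarith) (by norm_num; linarith)), by norm_num [Lines.denV, izL38] <;> linarith⟩ : InLines izL38 (16, 23, 160) (3, 20, 20) (2, 3, 8) a b u I r s) ?_ ?_
  all_goals norm_num [afVal, Lines.denV, izL38] <;> linarith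

/-- The signs in the piece 39. -/
theorem izAt39 {n : ℕ} {a b u v t H I r s : ℝ} (hb : Closed.All.ChartBox n (b - a) (a + b))
    (hF : Closed.All.ChartFacts (b - a) (a + b) u v t)
    (hH : Closed.chH (b - a) (a + b) u v t = H) (hB : EndBands7 a b u v H)
    (hside : DLow a b) (hE : ExitLine a b u v) (hI : IPt a b u I r s) (hI0 : 0 < I)
    (q0l : (1 / 20 : ℝ) < I) (q0u : I ≤ (1 / 10 : ℝ)) (q1l : (3 / 20 : ℝ) < r) (q1u : r ≤ (1 : ℝ)) (q2l : (1 / 2 : ℝ) < s) (q2u : s ≤ (3 / 4 : ℝ)) :
    Closed.Strip.ChartSigns (b - a) (a + b) u v t := by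
  obtain ⟨hl, hr⟩ := izLine34 hB hE hI0 (⟨hI, (inU_of (by norm_num) (by norm_num; linarith) (by norm_num; linarith)), (inU_of (by norm_num) (by norm_num; linarith) (by norm_num; linarith)), (inU_of (by norm_num) (by norm_num; linarith) (by norm_num; linarith)), by norm_num [Lines.denV, izM34] <;> linarith⟩ : InLines izM34 (1, 2, 20) (3, 20, 20) (2, 3, 4) a b u I r s)
  norm_num [afVal, Lines.denV, izM34] at hl hr
  refine izLeaf39.low rfl rfl hb hF hH hB hside
    (⟨hI, (inU_of (by norm_num) (by norm_num; linarith) (by norm_num; linarith)), (inU_of (by norm_num) (by norm_num; linarith) (by norm_num; linarith)), (inU_of (by norm_num) (by norm_num; linarith) (by norm_num; linarith)), by norm_num [Lines.denV, izL39] <;> linarith⟩ : InLines izL39 (1, 2, 20) (3, 20, 20) (2, 3, 4) a b u I r s) ?_ ?_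
  all_goals norm_num [afVal, Lines.denV, izL39] <;> linarith

/-- The signs in the piece 40. -/
theorem izAt40 {n : ℕ} {a b u v t H I r s : ℝ} (hb : Closed.All.ChartBox n (b - a) (a + b))
    (hF : Closed.All.ChartFacts (b - a) (a + b) u v t)
    (hH : Closed.chH (b - a) (a + b) u v t = H) (hB : EndBands7 a b u v H)
    (hside : DLow a b) (hE : ExitLine a b u v) (hI : IPt a b u I r s) (hI0 : 0 < I)
    (q0l : (1 / 10 : ℝ) < I) (q0u : I ≤ (23 / 160 : ℝ)) (q1l : (3 / 20 : ℝ) < r) (q1u : r ≤ (1 : ℝ)) (q2l : (1 / 2 : ℝ) < s) (q2u : s ≤ (5 / 8 : ℝ)) :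
    Closed.Strip.ChartSigns (b - a) (a + b) u v t := by
  obtain ⟨hl, hr⟩ := izLine35 hB hE hI0 (⟨hI, (inU_of (by norm_num) (by norm_num; linarith) (by norm_num; linarith)), (inU_of (by norm_num) (by norm_num; linarith) (by norm_num; linarith)), (inU_of (by norm_num) (by norm_num; linarith) (by norm_num; linarith)), by norm_num [Lines.denV, izM35] <;> linarith⟩ : InLines izM35 (16, 23, 160) (3, 20, 20) (4, 5, 8) a b u I r s)
  norm_num [afVal, Lines.denV, izM35] at hl hr
  refine izLeaf40.low rfl rfl hb hF hH hB hside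
    (⟨hI, (inU_of (by norm_num) (by norm_num; linarith) (by norm_num; linarith)), (inU_of (by norm_num) (by norm_num; linarith) (by norm_num; linarith)), (inU_of (by norm_num) (by norm_num; linarith) (by norm_num; linarith)), by norm_num [Lines.denV, izL40] <;> linarith⟩ : InLines izL40 (16, 23, 160) (3, 20, 20) (4, 5, 8) a b u I r s) ?_ ?_
  all_goals norm_num [afVal, Lines.denV, izL40] <;> linarith

/-- The signs in the piece 42. -/
theorem izAt42 {n : ℕ} {a b u v t H I r s : ℝ} (hb : Closed.All.ChartBox n (b - a) (a + b))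
    (hF : Closed.All.ChartFacts (b - a) (a + b) u v t)
    (hH : Closed.chH (b - a) (a + b) u v t = H) (hB : EndBands7 a b u v H)
    (hside : DLow a b) (hE : ExitLine a b u v) (hI : IPt a b u I r s) (hI0 : 0 < I)
    (q0l : (3 / 40 : ℝ) < I) (q0u : I ≤ (1 / 10 : ℝ)) (q1l : (0 : ℝ) < r) (q1u : r ≤ (1 / 50 : ℝ)) (q2l : (3 / 4 : ℝ) < s) (q2u : s ≤ (23 / 25 : ℝ)) (ku : (500 : ℝ) * (1 - a * v) ≤ (62 : ℝ)) :
    Closed.Strip.ChartSigns (b - a) (a + b) u v t := by
  obtain ⟨hl, hr⟩ := izLine36 hB hE hI0 (⟨hI, (inU_of (by norm_num) (by norm_num; linarith) (by norm_num; linarith)), (inU_of (by norm_num) (by norm_num; linarith) (by norm_num; linarith)), (inU_of (by norm_num) (by norm_num; linarith) (by norm_num; linarith)), by norm_num [Lines.denV, izM36] <;> linarith⟩ : InLines izM36 (3, 4, 40) (0, 1, 50) (75, 92, 100) a b u I r s)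
  norm_num [afVal, Lines.denV, izM36] at hl hr
  refine izLeaf42.low rfl rfl hb hF hH hB hside
    (⟨hI, (inU_of (by norm_num) (by norm_num; linarith) (by norm_num; linarith)), (inU_of (by norm_num) (by norm_num; linarith) (by norm_num; linarith)), (inU_of (by norm_num) (by norm_num; linarith) (by norm_num; linarith)), by norm_num [Lines.denV, izL42] <;> linarith⟩ : InLines izL42 (3, 4, 40) (0, 1, 50) (75, 92, 100) a b u I r s) ?_ ?_
  all_goals norm_num [afVal, Lines.denV, izL42] <;> linarith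

/-- The signs in the piece 44. -/
theorem izAt44 {n : ℕ} {a b u v t H I r s : ℝ} (hb : Closed.All.ChartBox n (b - a) (a + b))
    (hF : Closed.All.ChartFacts (b - a) (a + b) u v t)
    (hH : Closed.chH (b - a) (a + b) u v t = H) (hB : EndBands7 a b u v H)
    (hside : DLow a b) (hE : ExitLine a b u v) (hI : IPt a b u I r s) (hI0 : 0 < I)
    (q0l : (3 / 40 : ℝ) < I) (q0u : I ≤ (1 / 10 : ℝ)) (q1l : (0 : ℝ) < r) (q1u : r ≤ (1 / 160 : ℝ)) (q2l : (3 / 4 : ℝ) < s) (q2u : s ≤ (23 / 25 : ℝ)) (kl : (248 : ℝ) < (500 : ℝ) * (1 - a * v)) :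
    Closed.Strip.ChartSigns (b - a) (a + b) u v t := by
  obtain ⟨hl, hr⟩ := izLine36 hB hE hI0 (⟨hI, (inU_of (by norm_num) (by norm_num; linarith) (by norm_num; linarith)), (inU_of (by norm_num) (by norm_num; linarith) (by norm_num; linarith)), (inU_of (by norm_num) (by norm_num; linarith) (by norm_num; linarith)), by norm_num [Lines.denV, izM36] <;> linarith⟩ : InLines izM36 (3, 4, 40) (0, 1, 50) (75, 92, 100) a b u I r s)
  norm_num [afVal, Lines.denV, izM36] at hl hr
  refine izLeaf44.low rfl rfl hb hF hH hB hside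
    (⟨hI, (inU_of (by norm_num) (by norm_num; linarith) (by norm_num; linarith)), (inU_of (by norm_num) (by norm_num; linarith) (by norm_num; linarith)), (inU_of (by norm_num) (by norm_num; linarith) (by norm_num; linarith)), by norm_num [Lines.denV, izL44] <;> linarith⟩ : InLines izL44 (3, 4, 40) (0, 1, 160) (75, 92, 100) a b u I r s) ?_ ?_
  all_goals norm_num [afVal, Lines.denV, izL44] <;> linarith

/-- The signs in the piece 45. -/
theorem izAt45 {n : ℕ} {a b u v t H I r s : ℝ} (hb : Closed.All.ChartBox n (b - a) (a + b))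
    (hF : Closed.All.ChartFacts (b - a) (a + b) u v t)
    (hH : Closed.chH (b - a) (a + b) u v t = H) (hB : EndBands7 a b u v H)
    (hside : DLow a b) (hE : ExitLine a b u v) (hI : IPt a b u I r s) (hI0 : 0 < I)
    (q0l : (3 / 40 : ℝ) < I) (q0u : I ≤ (1 / 10 : ℝ)) (q1l : (1 / 160 : ℝ) < r) (q1u : r ≤ (1 / 50 : ℝ)) (q2l : (3 / 4 : ℝ) < s) (q2u : s ≤ (23 / 25 : ℝ)) (kl : (248 : ℝ) < (500 : ℝ) * (1 - a * v)) :
    Closed.Strip.ChartSigns (b - a) (a + b) u v t := by
  obtain ⟨hl, hr⟩ := izLine36 hB hE hI0 (⟨hI, (inU_of (by norm_num) (by norm_num; linarith) (by norm_num; linarith)), (inU_of (by norm_num) (by norm_num; linarith) (by norm_num; linarith)), (inU_of (by norm_num) (by norm_num; linarith) (by norm_num; linarith)), by norm_num [Lines.denV, izM36] <;> linarith⟩ : InLines izM36 (3, 4, 40) (0, 1, 50) (75, 92, 100) a b u I r s)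
  norm_num [afVal, Lines.denV, izM36] at hl hr
  refine izLeaf45.low rfl rfl hb hF hH hB hside
    (⟨hI, (inU_of (by norm_num) (by norm_num; linarith) (by norm_num; linarith)), (inU_of (by norm_num) (by norm_num; linarith) (by norm_num; linarith)), (inU_of (by norm_num) (by norm_num; linarith) (by norm_num; linarith)), by norm_num [Lines.denV, izL45] <;> linarith⟩ : InLines izL45 (3, 4, 40) (5, 16, 800) (75, 92, 100) a b u I r s) ?_ ?_
  all_goals norm_num [afVal, Lines.denV, izL45] <;> linarith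

/-- The signs in the piece 47. -/
theorem izAt47 {n : ℕ} {a b u v t H I r s : ℝ} (hb : Closed.All.ChartBox n (b - a) (a + b))
    (hF : Closed.All.ChartFacts (b - a) (a + b) u v t)
    (hH : Closed.chH (b - a) (a + b) u v t = H) (hB : EndBands7 a b u v H)
    (hside : DLow a b) (hE : ExitLine a b u v) (hI : IPt a b u I r s) (hI0 : 0 < I)
    (q0l : (1 / 10 : ℝ) < I) (q0u : I ≤ (1 / 8 : ℝ)) (q1l : (0 : ℝ) < r) (q1u : r ≤ (1 / 160 : ℝ)) (q2l : (3 / 4 : ℝ) < s) (q2u : s ≤ (89 / 100 : ℝ)) (kl : (68 : ℝ) < (500 : ℝ) * (1 - a * v)) (ku : (500 : ℝ) * (1 - a * v) ≤ (150 : ℝ)) :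
    Closed.Strip.ChartSigns (b - a) (a + b) u v t := by
  obtain ⟨hl, hr⟩ := izLine37 hB hE hI0 (⟨hI, (inU_of (by norm_num) (by norm_num; linarith) (by norm_num; linarith)), (inU_of (by norm_num) (by norm_num; linarith) (by norm_num; linarith)), (inU_of (by norm_num) (by norm_num; linarith) (by norm_num; linarith)), by norm_num [Lines.denV, izM37] <;> linarith⟩ : InLines izM37 (4, 5, 40) (0, 1, 50) (75, 89, 100) a b u I r s)
  norm_num [afVal, Lines.denV, izM37] at hl hr
  refine izLeaf47.low rfl rfl hb hF hH hB hside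
    (⟨hI, (inU_of (by norm_num) (by norm_num; linarith) (by norm_num; linarith)), (inU_of (by norm_num) (by norm_num; linarith) (by norm_num; linarith)), (inU_of (by norm_num) (by norm_num; linarith) (by norm_num; linarith)), by norm_num [Lines.denV, izL47] <;> linarith⟩ : InLines izL47 (4, 5, 40) (0, 1, 160) (75, 89, 100) a b u I r s) ?_ ?_
  all_goals norm_num [afVal, Lines.denV, izL47] <;> linarith

/-- The signs in the piece 48. -/
theorem izAt48 {n : ℕ} {a b u v t H I r s : ℝ} (hb : Closed.All.ChartBox n (b - a) (a + b))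
    (hF : Closed.All.ChartFacts (b - a) (a + b) u v t)
    (hH : Closed.chH (b - a) (a + b) u v t = H) (hB : EndBands7 a b u v H)
    (hside : DLow a b) (hE : ExitLine a b u v) (hI : IPt a b u I r s) (hI0 : 0 < I)
    (q0l : (1 / 10 : ℝ) < I) (q0u : I ≤ (1 / 8 : ℝ)) (q1l : (1 / 160 : ℝ) < r) (q1u : r ≤ (1 / 50 : ℝ)) (q2l : (3 / 4 : ℝ) < s) (q2u : s ≤ (89 / 100 : ℝ)) (kl : (68 : ℝ) < (500 : ℝ) * (1 - a * v)) (ku : (500 : ℝ) * (1 - a * v) ≤ (150 : ℝ)) :
    Closed.Strip.ChartSigns (b - a) (a + b) u v t := by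
  obtain ⟨hl, hr⟩ := izLine37 hB hE hI0 (⟨hI, (inU_of (by norm_num) (by norm_num; linarith) (by norm_num; linarith)), (inU_of (by norm_num) (by norm_num; linarith) (by norm_num; linarith)), (inU_of (by norm_num) (by norm_num; linarith) (by norm_num; linarith)), by norm_num [Lines.denV, izM37] <;> linarith⟩ : InLines izM37 (4, 5, 40) (0, 1, 50) (75, 89, 100) a b u I r s)
  norm_num [afVal, Lines.denV, izM37] at hl hr
  refine izLeaf48.low rfl rfl hb hF hH hB hside
    (⟨hI, (inU_of (by norm_num) (by norm_num; linarith) (by norm_num; linarith)), (inU_of (by norm_num) (by norm_num; linarith) (by norm_num; linarith)), (inU_of (by norm_num) (by norm_num; linarith) (by norm_num; linarith)), by norm_num [Lines.denV, izL48] <;> linarith⟩ : InLines izL48 (4, 5, 40) (5, 16, 800) (75, 89, 100) a b u I r s) ?_ ?_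
  all_goals norm_num [afVal, Lines.denV, izL48] <;> linarith

/-- The signs in the piece 49. -/
theorem izAt49 {n : ℕ} {a b u v t H I r s : ℝ} (hb : Closed.All.ChartBox n (b - a) (a + b))
    (hF : Closed.All.ChartFacts (b - a) (a + b) u v t)
    (hH : Closed.chH (b - a) (a + b) u v t = H) (hB : EndBands7 a b u v H)
    (hside : DLow a b) (hE : ExitLine a b u v) (hI : IPt a b u I r s) (hI0 : 0 < I)
    (q0l : (1 / 10 : ℝ) < I) (q0u : I ≤ (1 / 8 : ℝ)) (q1l : (0 : ℝ) < r) (q1u : r ≤ (1 / 50 : ℝ)) (q2l : (3 / 4 : ℝ) < s) (q2u : s ≤ (89 / 100 : ℝ)) (kl : (150 : ℝ) < (500 : ℝ) * (1 - a * v)) (ku : (500 : ℝ) * (1 - a * v) ≤ (170 : ℝ)) :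
    Closed.Strip.ChartSigns (b - a) (a + b) u v t := by
  obtain ⟨hl, hr⟩ := izLine37 hB hE hI0 (⟨hI, (inU_of (by norm_num) (by norm_num; linarith) (by norm_num; linarith)), (inU_of (by norm_num) (by norm_num; linarith) (by norm_num; linarith)), (inU_of (by norm_num) (by norm_num; linarith) (by norm_num; linarith)), by norm_num [Lines.denV, izM37] <;> linarith⟩ : InLines izM37 (4, 5, 40) (0, 1, 50) (75, 89, 100) a b u I r s)
  norm_num [afVal, Lines.denV, izM37] at hl hr
  refine izLeaf49.low rfl rfl hb hF hH hB hside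
    (⟨hI, (inU_of (by norm_num) (by norm_num; linarith) (by norm_num; linarith)), (inU_of (by norm_num) (by norm_num; linarith) (by norm_num; linarith)), (inU_of (by norm_num) (by norm_num; linarith) (by norm_num; linarith)), by norm_num [Lines.denV, izL49] <;> linarith⟩ : InLines izL49 (4, 5, 40) (0, 1, 50) (75, 89, 100) a b u I r s) ?_ ?_
  all_goals norm_num [afVal, Lines.denV, izL49] <;> linarith

/-- The signs in the piece 50. -/
theorem izAt50 {n : ℕ} {a b u v t H I r s : ℝ} (hb : Closed.All.ChartBox n (b - a) (a + b))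
    (hF : Closed.All.ChartFacts (b - a) (a + b) u v t)
    (hH : Closed.chH (b - a) (a + b) u v t = H) (hB : EndBands7 a b u v H)
    (hside : DLow a b) (hE : ExitLine a b u v) (hI : IPt a b u I r s) (hI0 : 0 < I)
    (q0l : (1 / 10 : ℝ) < I) (q0u : I ≤ (1 / 8 : ℝ)) (q1l : (0 : ℝ) < r) (q1u : r ≤ (3 / 1600 : ℝ)) (q2l : (3 / 4 : ℝ) < s) (q2u : s ≤ (89 / 100 : ℝ)) (kl : (170 : ℝ) < (500 : ℝ) * (1 - a * v)) (ku : (500 : ℝ) * (1 - a * v) ≤ (244 : ℝ)) :
    Closed.Strip.ChartSigns (b - a) (a + b) u v t := by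
  obtain ⟨hl, hr⟩ := izLine37 hB hE hI0 (⟨hI, (inU_of (by norm_num) (by norm_num; linarith) (by norm_num; linarith)), (inU_of (by norm_num) (by norm_num; linarith) (by norm_num; linarith)), (inU_of (by norm_num) (by norm_num; linarith) (by norm_num; linarith)), by norm_num [Lines.denV, izM37] <;> linarith⟩ : InLines izM37 (4, 5, 40) (0, 1, 50) (75, 89, 100) a b u I r s)
  norm_num [afVal, Lines.denV, izM37] at hl hr
  refine izLeaf50.low rfl rfl hb hF hH hB hside
    (⟨hI, (inU_of (by norm_num) (by norm_num; linarith) (by norm_num; linarith)), (inU_of (by norm_num) (by norm_num; linarith) (by norm_num; linarith)), (inU_of (by norm_num) (by norm_num; linarith) (by norm_num; linarith)), by norm_num [Lines.denV, izL50] <;> linarith⟩ : InLines izL50 (4, 5, 40) (0, 3, 1600) (75, 89, 100) a b u I r s) ?_ ?_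
  all_goals norm_num [afVal, Lines.denV, izL50] <;> linarith

/-- The signs in the piece 51. -/
theorem izAt51 {n : ℕ} {a b u v t H I r s : ℝ} (hb : Closed.All.ChartBox n (b - a) (a + b))
    (hF : Closed.All.ChartFacts (b - a) (a + b) u v t)
    (hH : Closed.chH (b - a) (a + b) u v t = H) (hB : EndBands7 a b u v H)
    (hside : DLow a b) (hE : ExitLine a b u v) (hI : IPt a b u I r s) (hI0 : 0 < I)
    (q0l : (1 / 10 : ℝ) < I) (q0u : I ≤ (1 / 8 : ℝ)) (q1l : (0 : ℝ) < r) (q1u : r ≤ (1 / 1600 : ℝ)) (q2l : (3 / 4 : ℝ) < s) (q2u : s ≤ (89 / 100 : ℝ)) (kl : (244 : ℝ) < (500 : ℝ) * (1 - a * v)) :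
    Closed.Strip.ChartSigns (b - a) (a + b) u v t := by
  obtain ⟨hl, hr⟩ := izLine37 hB hE hI0 (⟨hI, (inU_of (by norm_num) (by norm_num; linarith) (by norm_num; linarith)), (inU_of (by norm_num) (by norm_num; linarith) (by norm_num; linarith)), (inU_of (by norm_num) (by norm_num; linarith) (by norm_num; linarith)), by norm_num [Lines.denV, izM37] <;> linarith⟩ : InLines izM37 (4, 5, 40) (0, 1, 50) (75, 89, 100) a b u I r s)
  norm_num [afVal, Lines.denV, izM37] at hl hr
  refine izLeaf51.low rfl rfl hb hF hH hB hside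
    (⟨hI, (inU_of (by norm_num) (by norm_num; linarith) (by norm_num; linarith)), (inU_of (by norm_num) (by norm_num; linarith) (by norm_num; linarith)), (inU_of (by norm_num) (by norm_num; linarith) (by norm_num; linarith)), by norm_num [Lines.denV, izL51] <;> linarith⟩ : InLines izL51 (4, 5, 40) (0, 1, 1600) (75, 89, 100) a b u I r s) ?_ ?_
  all_goals norm_num [afVal, Lines.denV, izL51] <;> linarith

/-- The signs in the piece 52. -/
theorem izAt52 {n : ℕ} {a b u v t H I r s : ℝ} (hb : Closed.All.ChartBox n (b - a) (a + b))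
    (hF : Closed.All.ChartFacts (b - a) (a + b) u v t)
    (hH : Closed.chH (b - a) (a + b) u v t = H) (hB : EndBands7 a b u v H)
    (hside : DLow a b) (hE : ExitLine a b u v) (hI : IPt a b u I r s) (hI0 : 0 < I)
    (q0l : (1 / 10 : ℝ) < I) (q0u : I ≤ (1 / 8 : ℝ)) (q1l : (1 / 1600 : ℝ) < r) (q1u : r ≤ (3 / 1600 : ℝ)) (q2l : (3 / 4 : ℝ) < s) (q2u : s ≤ (89 / 100 : ℝ)) (kl : (244 : ℝ) < (500 : ℝ) * (1 - a * v)) :
    Closed.Strip.ChartSigns (b - a) (a + b) u v t := by
  obtain ⟨hl, hr⟩ := izLine37 hB hE hI0 (⟨hI, (inU_of (by norm_num) (by norm_num; linarith) (by norm_num; linarith)), (inU_of (by norm_num) (by norm_num; linarith) (by norm_num; linarith)), (inU_of (by norm_num) (by norm_num; linarith) (by norm_num; linarith)), by norm_num [Lines.denV, izM37] <;> linarith⟩ : InLines izM37 (4, 5, 40) (0, 1, 50) (75, 89, 100) a b u I r s)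
  norm_num [afVal, Lines.denV, izM37] at hl hr
  refine izLeaf52.low rfl rfl hb hF hH hB hside
    (⟨hI, (inU_of (by norm_num) (by norm_num; linarith) (by norm_num; linarith)), (inU_of (by norm_num) (by norm_num; linarith) (by norm_num; linarith)), (inU_of (by norm_num) (by norm_num; linarith) (by norm_num; linarith)), by norm_num [Lines.denV, izL52] <;> linarith⟩ : InLines izL52 (4, 5, 40) (1, 3, 1600) (75, 89, 100) a b u I r s) ?_ ?_
  all_goals norm_num [afVal, Lines.denV, izL52] <;> linarith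

/-- The signs in the piece 53. -/
theorem izAt53 {n : ℕ} {a b u v t H I r s : ℝ} (hb : Closed.All.ChartBox n (b - a) (a + b))
    (hF : Closed.All.ChartFacts (b - a) (a + b) u v t)
    (hH : Closed.chH (b - a) (a + b) u v t = H) (hB : EndBands7 a b u v H)
    (hside : DLow a b) (hE : ExitLine a b u v) (hI : IPt a b u I r s) (hI0 : 0 < I)
    (q0l : (1 / 10 : ℝ) < I) (q0u : I ≤ (1 / 8 : ℝ)) (q1l : (3 / 1600 : ℝ) < r) (q1u : r ≤ (3 / 800 : ℝ)) (q2l : (3 / 4 : ℝ) < s) (q2u : s ≤ (89 / 100 : ℝ)) (kl : (170 : ℝ) < (500 : ℝ) * (1 - a * v)) :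
    Closed.Strip.ChartSigns (b - a) (a + b) u v t := by
  obtain ⟨hl, hr⟩ := izLine37 hB hE hI0 (⟨hI, (inU_of (by norm_num) (by norm_num; linarith) (by norm_num; linarith)), (inU_of (by norm_num) (by norm_num; linarith) (by norm_num; linarith)), (inU_of (by norm_num) (by norm_num; linarith) (by norm_num; linarith)), by norm_num [Lines.denV, izM37] <;> linarith⟩ : InLines izM37 (4, 5, 40) (0, 1, 50) (75, 89, 100) a b u I r s)
  norm_num [afVal, Lines.denV, izM37] at hl hr
  refine izLeaf53.low rfl rfl hb hF hH hB hside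
    (⟨hI, (inU_of (by norm_num) (by norm_num; linarith) (by norm_num; linarith)), (inU_of (by norm_num) (by norm_num; linarith) (by norm_num; linarith)), (inU_of (by norm_num) (by norm_num; linarith) (by norm_num; linarith)), by norm_num [Lines.denV, izL53] <;> linarith⟩ : InLines izL53 (4, 5, 40) (3, 6, 1600) (75, 89, 100) a b u I r s) ?_ ?_
  all_goals norm_num [afVal, Lines.denV, izL53] <;> linarith

/-- The signs in the piece 54. -/
theorem izAt54 {n : ℕ} {a b u v t H I r s : ℝ} (hb : Closed.All.ChartBox n (b - a) (a + b))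
    (hF : Closed.All.ChartFacts (b - a) (a + b) u v t)
    (hH : Closed.chH (b - a) (a + b) u v t = H) (hB : EndBands7 a b u v H)
    (hside : DLow a b) (hE : ExitLine a b u v) (hI : IPt a b u I r s) (hI0 : 0 < I)
    (q0l : (1 / 10 : ℝ) < I) (q0u : I ≤ (1 / 8 : ℝ)) (q1l : (3 / 800 : ℝ) < r) (q1u : r ≤ (1 / 160 : ℝ)) (q2l : (3 / 4 : ℝ) < s) (q2u : s ≤ (89 / 100 : ℝ)) (kl : (170 : ℝ) < (500 : ℝ) * (1 - a * v)) :
    Closed.Strip.ChartSigns (b - a) (a + b) u v t := by
  obtain ⟨hl, hr⟩ := izLine37 hB hE hI0 (⟨hI, (inU_of (by norm_num) (by norm_num; linarith) (by norm_num; linarith)), (inU_of (by norm_num) (by norm_num; linarith) (by norm_num; linarith)), (inU_of (by norm_num) (by norm_num; linarith) (by norm_num; linarith)), by norm_num [Lines.denV, izM37] <;> linarith⟩ : InLines izM37 (4, 5, 40) (0, 1, 50) (75, 89, 100) a b u I r s)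
  norm_num [afVal, Lines.denV, izM37] at hl hr
  refine izLeaf54.low rfl rfl hb hF hH hB hside
    (⟨hI, (inU_of (by norm_num) (by norm_num; linarith) (by norm_num; linarith)), (inU_of (by norm_num) (by norm_num; linarith) (by norm_num; linarith)), (inU_of (by norm_num) (by norm_num; linarith) (by norm_num; linarith)), by norm_num [Lines.denV, izL54] <;> linarith⟩ : InLines izL54 (4, 5, 40) (3, 5, 800) (75, 89, 100) a b u I r s) ?_ ?_
  all_goals norm_num [afVal, Lines.denV, izL54] <;> linarith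

/-- The signs in the piece 55. -/
theorem izAt55 {n : ℕ} {a b u v t H I r s : ℝ} (hb : Closed.All.ChartBox n (b - a) (a + b))
    (hF : Closed.All.ChartFacts (b - a) (a + b) u v t)
    (hH : Closed.chH (b - a) (a + b) u v t = H) (hB : EndBands7 a b u v H)
    (hside : DLow a b) (hE : ExitLine a b u v) (hI : IPt a b u I r s) (hI0 : 0 < I)
    (q0l : (1 / 10 : ℝ) < I) (q0u : I ≤ (1 / 8 : ℝ)) (q1l : (1 / 160 : ℝ) < r) (q1u : r ≤ (1 / 100 : ℝ)) (q2l : (3 / 4 : ℝ) < s) (q2u : s ≤ (89 / 100 : ℝ)) (kl : (170 : ℝ) < (500 : ℝ) * (1 - a * v)) :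
    Closed.Strip.ChartSigns (b - a) (a + b) u v t := by
  obtain ⟨hl, hr⟩ := izLine37 hB hE hI0 (⟨hI, (inU_of (by norm_num) (by norm_num; linarith) (by norm_num; linarith)), (inU_of (by norm_num) (by norm_num; linarith) (by norm_num; linarith)), (inU_of (by norm_num) (by norm_num; linarith) (by norm_num; linarith)), by norm_num [Lines.denV, izM37] <;> linarith⟩ : InLines izM37 (4, 5, 40) (0, 1, 50) (75, 89, 100) a b u I r s)
  norm_num [afVal, Lines.denV, izM37] at hl hr
  refine izLeaf55.low rfl rfl hb hF hH hB hside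
    (⟨hI, (inU_of (by norm_num) (by norm_num; linarith) (by norm_num; linarith)), (inU_of (by norm_num) (by norm_num; linarith) (by norm_num; linarith)), (inU_of (by norm_num) (by norm_num; linarith) (by norm_num; linarith)), by norm_num [Lines.denV, izL55] <;> linarith⟩ : InLines izL55 (4, 5, 40) (5, 8, 800) (75, 89, 100) a b u I r s) ?_ ?_
  all_goals norm_num [afVal, Lines.denV, izL55] <;> linarith

/-- The signs in the piece 56. -/
theorem izAt56 {n : ℕ} {a b u v t H I r s : ℝ} (hb : Closed.All.ChartBox n (b - a) (a + b))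
    (hF : Closed.All.ChartFacts (b - a) (a + b) u v t)
    (hH : Closed.chH (b - a) (a + b) u v t = H) (hB : EndBands7 a b u v H)
    (hside : DLow a b) (hE : ExitLine a b u v) (hI : IPt a b u I r s) (hI0 : 0 < I)
    (q0l : (1 / 10 : ℝ) < I) (q0u : I ≤ (1 / 8 : ℝ)) (q1l : (1 / 100 : ℝ) < r) (q1u : r ≤ (1 / 50 : ℝ)) (q2l : (3 / 4 : ℝ) < s) (q2u : s ≤ (89 / 100 : ℝ)) (kl : (170 : ℝ) < (500 : ℝ) * (1 - a * v)) :
    Closed.Strip.ChartSigns (b - a) (a + b) u v t := by
  obtain ⟨hl, hr⟩ := izLine37 hB hE hI0 (⟨hI, (inU_of (by norm_num) (by norm_num; linarith) (by norm_num; linarith)), (inU_of (by norm_num) (by norm_num; linarith) (by norm_num; linarith)), (inU_of (by norm_num) (by norm_num; linarith) (by norm_num; linarith)), by norm_num [Lines.denV, izM37] <;> linarith⟩ : InLines izM37 (4, 5, 40) (0, 1, 50) (75, 89, 100) a b u I r s)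
  norm_num [afVal, Lines.denV, izM37] at hl hr
  refine izLeaf56.low rfl rfl hb hF hH hB hside
    (⟨hI, (inU_of (by norm_num) (by norm_num; linarith) (by norm_num; linarith)), (inU_of (by norm_num) (by norm_num; linarith) (by norm_num; linarith)), (inU_of (by norm_num) (by norm_num; linarith) (by norm_num; linarith)), by norm_num [Lines.denV, izL56] <;> linarith⟩ : InLines izL56 (4, 5, 40) (1, 2, 100) (75, 89, 100) a b u I r s) ?_ ?_
  all_goals norm_num [afVal, Lines.denV, izL56] <;> linarith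

/-- The signs in the piece 58. -/
theorem izAt58 {n : ℕ} {a b u v t H I r s : ℝ} (hb : Closed.All.ChartBox n (b - a) (a + b))
    (hF : Closed.All.ChartFacts (b - a) (a + b) u v t)
    (hH : Closed.chH (b - a) (a + b) u v t = H) (hB : EndBands7 a b u v H)
    (hside : DLow a b) (hE : ExitLine a b u v) (hI : IPt a b u I r s) (hI0 : 0 < I)
    (q0l : (1 / 8 : ℝ) < I) (q0u : I ≤ (21 / 160 : ℝ)) (q1l : (0 : ℝ) < r) (q1u : r ≤ (1 / 50 : ℝ)) (q2l : (3 / 4 : ℝ) < s) (q2u : s ≤ (43 / 50 : ℝ)) (kl : (200 : ℝ) < (500 : ℝ) * (1 - a * v)) (ku : (500 : ℝ) * (1 - a * v) ≤ (240 : ℝ)) :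
    Closed.Strip.ChartSigns (b - a) (a + b) u v t := by
  obtain ⟨hl, hr⟩ := izLine38 hB hE hI0 (⟨hI, (inU_of (by norm_num) (by norm_num; linarith) (by norm_num; linarith)), (inU_of (by norm_num) (by norm_num; linarith) (by norm_num; linarith)), (inU_of (by norm_num) (by norm_num; linarith) (by norm_num; linarith)), by norm_num [Lines.denV, izM38] <;> linarith⟩ : InLines izM38 (20, 21, 160) (0, 1, 50) (75, 86, 100) a b u I r s)
  norm_num [afVal, Lines.denV, izM38] at hl hr
  refine izLeaf58.low rfl rfl hb hF hH hB hside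
    (⟨hI, (inU_of (by norm_num) (by norm_num; linarith) (by norm_num; linarith)), (inU_of (by norm_num) (by norm_num; linarith) (by norm_num; linarith)), (inU_of (by norm_num) (by norm_num; linarith) (by norm_num; linarith)), by norm_num [Lines.denV, izL58] <;> linarith⟩ : InLines izL58 (20, 21, 160) (0, 1, 50) (75, 86, 100) a b u I r s) ?_ ?_
  all_goals norm_num [afVal, Lines.denV, izL58] <;> linarith

/-- The signs in the piece 59. -/
theorem izAt59 {n : ℕ} {a b u v t H I r s : ℝ} (hb : Closed.All.ChartBox n (b - a) (a + b))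
    (hF : Closed.All.ChartFacts (b - a) (a + b) u v t)
    (hH : Closed.chH (b - a) (a + b) u v t = H) (hB : EndBands7 a b u v H)
    (hside : DLow a b) (hE : ExitLine a b u v) (hI : IPt a b u I r s) (hI0 : 0 < I)
    (q0l : (1 / 8 : ℝ) < I) (q0u : I ≤ (21 / 160 : ℝ)) (q1l : (0 : ℝ) < r) (q1u : r ≤ (1 / 50 : ℝ)) (q2l : (3 / 4 : ℝ) < s) (q2u : s ≤ (43 / 50 : ℝ)) (kl : (240 : ℝ) < (500 : ℝ) * (1 - a * v)) (ku : (500 : ℝ) * (1 - a * v) ≤ (250 : ℝ)) :
    Closed.Strip.ChartSigns (b - a) (a + b) u v t := by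
  obtain ⟨hl, hr⟩ := izLine38 hB hE hI0 (⟨hI, (inU_of (by norm_num) (by norm_num; linarith) (by norm_num; linarith)), (inU_of (by norm_num) (by norm_num; linarith) (by norm_num; linarith)), (inU_of (by norm_num) (by norm_num; linarith) (by norm_num; linarith)), by norm_num [Lines.denV, izM38] <;> linarith⟩ : InLines izM38 (20, 21, 160) (0, 1, 50) (75, 86, 100) a b u I r s)
  norm_num [afVal, Lines.denV, izM38] at hl hr
  refine izLeaf59.low rfl rfl hb hF hH hB hside
    (⟨hI, (inU_of (by norm_num) (by norm_num; linarith) (by norm_num; linarith)), (inU_of (by norm_num) (by norm_num; linarith) (by norm_num; linarith)), (inU_of (by norm_num) (by norm_num; linarith) (by norm_num; linarith)), by norm_num [Lines.denV, izL59] <;> linarith⟩ : InLines izL59 (20, 21, 160) (0, 1, 50) (75, 86, 100) a b u I r s) ?_ ?_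
  all_goals norm_num [afVal, Lines.denV, izL59] <;> linarith

/-- The signs in the piece 60. -/
theorem izAt60 {n : ℕ} {a b u v t H I r s : ℝ} (hb : Closed.All.ChartBox n (b - a) (a + b))
    (hF : Closed.All.ChartFacts (b - a) (a + b) u v t)
    (hH : Closed.chH (b - a) (a + b) u v t = H) (hB : EndBands7 a b u v H)
    (hside : DLow a b) (hE : ExitLine a b u v) (hI : IPt a b u I r s) (hI0 : 0 < I)
    (q0l : (1 / 8 : ℝ) < I) (q0u : I ≤ (21 / 160 : ℝ)) (q1l : (0 : ℝ) < r) (q1u : r ≤ (1 / 160 : ℝ)) (q2l : (3 / 4 : ℝ) < s) (q2u : s ≤ (161 / 200 : ℝ)) (kl : (250 : ℝ) < (500 : ℝ) * (1 - a * v)) :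
    Closed.Strip.ChartSigns (b - a) (a + b) u v t := by
  obtain ⟨hl, hr⟩ := izLine38 hB hE hI0 (⟨hI, (inU_of (by norm_num) (by norm_num; linarith) (by norm_num; linarith)), (inU_of (by norm_num) (by norm_num; linarith) (by norm_num; linarith)), (inU_of (by norm_num) (by norm_num; linarith) (by norm_num; linarith)), by norm_num [Lines.denV, izM38] <;> linarith⟩ : InLines izM38 (20, 21, 160) (0, 1, 50) (75, 86, 100) a b u I r s)
  norm_num [afVal, Lines.denV, izM38] at hl hr
  refine izLeaf60.low rfl rfl hb hF hH hB hside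
    (⟨hI, (inU_of (by norm_num) (by norm_num; linarith) (by norm_num; linarith)), (inU_of (by norm_num) (by norm_num; linarith) (by norm_num; linarith)), (inU_of (by norm_num) (by norm_num; linarith) (by norm_num; linarith)), by norm_num [Lines.denV, izL60] <;> linarith⟩ : InLines izL60 (20, 21, 160) (0, 1, 160) (150, 161, 200) a b u I r s) ?_ ?_
  all_goals norm_num [afVal, Lines.denV, izL60] <;> linarith

/-- The signs in the piece 61. -/
theorem izAt61 {n : ℕ} {a b u v t H I r s : ℝ} (hb : Closed.All.ChartBox n (b - a) (a + b))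
    (hF : Closed.All.ChartFacts (b - a) (a + b) u v t)
    (hH : Closed.chH (b - a) (a + b) u v t = H) (hB : EndBands7 a b u v H)
    (hside : DLow a b) (hE : ExitLine a b u v) (hI : IPt a b u I r s) (hI0 : 0 < I)
    (q0l : (1 / 8 : ℝ) < I) (q0u : I ≤ (21 / 160 : ℝ)) (q1l : (1 / 160 : ℝ) < r) (q1u : r ≤ (1 / 50 : ℝ)) (q2l : (3 / 4 : ℝ) < s) (q2u : s ≤ (161 / 200 : ℝ)) (kl : (250 : ℝ) < (500 : ℝ) * (1 - a * v)) :
    Closed.Strip.ChartSigns (b - a) (a + b) u v t := by
  obtain ⟨hl, hr⟩ := izLine38 hB hE hI0 (⟨hI, (inU_of (by norm_num) (by norm_num; linarith) (by norm_num; linarith)), (inU_of (by norm_num) (by norm_num; linarith) (by norm_num; linarith)), (inU_of (by norm_num) (by norm_num; linarith) (by norm_num; linarith)), by norm_num [Lines.denV, izM38] <;> linarith⟩ : InLines izM38 (20, 21, 160) (0, 1, 50) (75, 86, 100) a b u I r s)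
  norm_num [afVal, Lines.denV, izM38] at hl hr
  refine izLeaf61.low rfl rfl hb hF hH hB hside
    (⟨hI, (inU_of (by norm_num) (by norm_num; linarith) (by norm_num; linarith)), (inU_of (by norm_num) (by norm_num; linarith) (by norm_num; linarith)), (inU_of (by norm_num) (by norm_num; linarith) (by norm_num; linarith)), by norm_num [Lines.denV, izL61] <;> linarith⟩ : InLines izL61 (20, 21, 160) (5, 16, 800) (150, 161, 200) a b u I r s) ?_ ?_
  all_goals norm_num [afVal, Lines.denV, izL61] <;> linarith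

/-- The signs in the piece 62. -/
theorem izAt62 {n : ℕ} {a b u v t H I r s : ℝ} (hb : Closed.All.ChartBox n (b - a) (a + b))
    (hF : Closed.All.ChartFacts (b - a) (a + b) u v t)
    (hH : Closed.chH (b - a) (a + b) u v t = H) (hB : EndBands7 a b u v H)
    (hside : DLow a b) (hE : ExitLine a b u v) (hI : IPt a b u I r s) (hI0 : 0 < I)
    (q0l : (1 / 8 : ℝ) < I) (q0u : I ≤ (41 / 320 : ℝ)) (q1l : (0 : ℝ) < r) (q1u : r ≤ (1 / 50 : ℝ)) (q2l : (161 / 200 : ℝ) < s) (q2u : s ≤ (43 / 50 : ℝ)) (kl : (250 : ℝ) < (500 : ℝ) * (1 - a * v)) :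
    Closed.Strip.ChartSigns (b - a) (a + b) u v t := by
  obtain ⟨hl, hr⟩ := izLine38 hB hE hI0 (⟨hI, (inU_of (by norm_num) (by norm_num; linarith) (by norm_num; linarith)), (inU_of (by norm_num) (by norm_num; linarith) (by norm_num; linarith)), (inU_of (by norm_num) (by norm_num; linarith) (by norm_num; linarith)), by norm_num [Lines.denV, izM38] <;> linarith⟩ : InLines izM38 (20, 21, 160) (0, 1, 50) (75, 86, 100) a b u I r s)
  norm_num [afVal, Lines.denV, izM38] at hl hr
  refine izLeaf62.low rfl rfl hb hF hH hB hside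
    (⟨hI, (inU_of (by norm_num) (by norm_num; linarith) (by norm_num; linarith)), (inU_of (by norm_num) (by norm_num; linarith) (by norm_num; linarith)), (inU_of (by norm_num) (by norm_num; linarith) (by norm_num; linarith)), by norm_num [Lines.denV, izL62] <;> linarith⟩ : InLines izL62 (40, 41, 320) (0, 1, 50) (161, 172, 200) a b u I r s) ?_ ?_
  all_goals norm_num [afVal, Lines.denV, izL62] <;> linarith

/-- The signs in the piece 63. -/
theorem izAt63 {n : ℕ} {a b u v t H I r s : ℝ} (hb : Closed.All.ChartBox n (b - a) (a + b))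
    (hF : Closed.All.ChartFacts (b - a) (a + b) u v t)
    (hH : Closed.chH (b - a) (a + b) u v t = H) (hB : EndBands7 a b u v H)
    (hside : DLow a b) (hE : ExitLine a b u v) (hI : IPt a b u I r s) (hI0 : 0 < I)
    (q0l : (41 / 320 : ℝ) < I) (q0u : I ≤ (21 / 160 : ℝ)) (q1l : (0 : ℝ) < r) (q1u : r ≤ (1 / 50 : ℝ)) (q2l : (161 / 200 : ℝ) < s) (q2u : s ≤ (43 / 50 : ℝ)) (kl : (250 : ℝ) < (500 : ℝ) * (1 - a * v)) :
    Closed.Strip.ChartSigns (b - a) (a + b) u v t := by
  obtain ⟨hl, hr⟩ := izLine38 hB hE hI0 (⟨hI, (inU_of (by norm_num) (by norm_num; linarith) (by norm_num; linarith)), (inU_of (by norm_num) (by norm_num; linarith) (by norm_num; linarith)), (inU_of (by norm_num) (by norm_num; linarith) (by norm_num; linarith)), by norm_num [Lines.denV, izM38] <;> linarith⟩ : InLines izM38 (20, 21, 160) (0, 1, 50) (75, 86, 100) a b u I r s)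
  norm_num [afVal, Lines.denV, izM38] at hl hr
  refine izLeaf63.low rfl rfl hb hF hH hB hside
    (⟨hI, (inU_of (by norm_num) (by norm_num; linarith) (by norm_num; linarith)), (inU_of (by norm_num) (by norm_num; linarith) (by norm_num; linarith)), (inU_of (by norm_num) (by norm_num; linarith) (by norm_num; linarith)), by norm_num [Lines.denV, izL63] <;> linarith⟩ : InLines izL63 (41, 42, 320) (0, 1, 50) (161, 172, 200) a b u I r s) ?_ ?_
  all_goals norm_num [afVal, Lines.denV, izL63] <;> linarith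

/-- The signs in the piece 65. -/
theorem izAt65 {n : ℕ} {a b u v t H I r s : ℝ} (hb : Closed.All.ChartBox n (b - a) (a + b))
    (hF : Closed.All.ChartFacts (b - a) (a + b) u v t)
    (hH : Closed.chH (b - a) (a + b) u v t = H) (hB : EndBands7 a b u v H)
    (hside : DLow a b) (hE : ExitLine a b u v) (hI : IPt a b u I r s) (hI0 : 0 < I)
    (q0l : (21 / 160 : ℝ) < I) (q0u : I ≤ (43 / 320 : ℝ)) (q1l : (0 : ℝ) < r) (q1u : r ≤ (1 / 50 : ℝ)) (q2l : (3 / 4 : ℝ) < s) (q2u : s ≤ (17 / 20 : ℝ)) (kl : (200 : ℝ) < (500 : ℝ) * (1 - a * v)) (ku : (500 : ℝ) * (1 - a * v) ≤ (240 : ℝ)) :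
    Closed.Strip.ChartSigns (b - a) (a + b) u v t := by
  obtain ⟨hl, hr⟩ := izLine39 hB hE hI0 (⟨hI, (inU_of (by norm_num) (by norm_num; linarith) (by norm_num; linarith)), (inU_of (by norm_num) (by norm_num; linarith) (by norm_num; linarith)), (inU_of (by norm_num) (by norm_num; linarith) (by norm_num; linarith)), by norm_num [Lines.denV, izM39] <;> linarith⟩ : InLines izM39 (42, 43, 320) (0, 1, 50) (15, 17, 20) a b u I r s)
  norm_num [afVal, Lines.denV, izM39] at hl hr
  refine izLeaf65.low rfl rfl hb hF hH hB hside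
    (⟨hI, (inU_of (by norm_num) (by norm_num; linarith) (by norm_num; linarith)), (inU_of (by norm_num) (by norm_num; linarith) (by norm_num; linarith)), (inU_of (by norm_num) (by norm_num; linarith) (by norm_num; linarith)), by norm_num [Lines.denV, izL65] <;> linarith⟩ : InLines izL65 (42, 43, 320) (0, 1, 50) (15, 17, 20) a b u I r s) ?_ ?_
  all_goals norm_num [afVal, Lines.denV, izL65] <;> linarith

/-- The signs in the piece 66. -/
theorem izAt66 {n : ℕ} {a b u v t H I r s : ℝ} (hb : Closed.All.ChartBox n (b - a) (a + b))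
    (hF : Closed.All.ChartFacts (b - a) (a + b) u v t)
    (hH : Closed.chH (b - a) (a + b) u v t = H) (hB : EndBands7 a b u v H)
    (hside : DLow a b) (hE : ExitLine a b u v) (hI : IPt a b u I r s) (hI0 : 0 < I)
    (q0l : (21 / 160 : ℝ) < I) (q0u : I ≤ (43 / 320 : ℝ)) (q1l : (0 : ℝ) < r) (q1u : r ≤ (1 / 50 : ℝ)) (q2l : (3 / 4 : ℝ) < s) (q2u : s ≤ (17 / 20 : ℝ)) (kl : (240 : ℝ) < (500 : ℝ) * (1 - a * v)) (ku : (500 : ℝ) * (1 - a * v) ≤ (250 : ℝ)) :
    Closed.Strip.ChartSigns (b - a) (a + b) u v t := by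
  obtain ⟨hl, hr⟩ := izLine39 hB hE hI0 (⟨hI, (inU_of (by norm_num) (by norm_num; linarith) (by norm_num; linarith)), (inU_of (by norm_num) (by norm_num; linarith) (by norm_num; linarith)), (inU_of (by norm_num) (by norm_num; linarith) (by norm_num; linarith)), by norm_num [Lines.denV, izM39] <;> linarith⟩ : InLines izM39 (42, 43, 320) (0, 1, 50) (15, 17, 20) a b u I r s)
  norm_num [afVal, Lines.denV, izM39] at hl hr
  refine izLeaf66.low rfl rfl hb hF hH hB hside
    (⟨hI, (inU_of (by norm_num) (by norm_num; linarith) (by norm_num; linarith)), (inU_of (by norm_num) (by norm_num; linarith) (by norm_num; linarith)), (inU_of (by norm_num) (by norm_num; linarith) (by norm_num; linarith)), by norm_num [Lines.denV, izL66] <;> linarith⟩ : InLines izL66 (42, 43, 320) (0, 1, 50) (15, 17, 20) a b u I r s) ?_ ?_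
  all_goals norm_num [afVal, Lines.denV, izL66] <;> linarith

/-- The signs in the piece 67. -/
theorem izAt67 {n : ℕ} {a b u v t H I r s : ℝ} (hb : Closed.All.ChartBox n (b - a) (a + b))
    (hF : Closed.All.ChartFacts (b - a) (a + b) u v t)
    (hH : Closed.chH (b - a) (a + b) u v t = H) (hB : EndBands7 a b u v H)
    (hside : DLow a b) (hE : ExitLine a b u v) (hI : IPt a b u I r s) (hI0 : 0 < I)
    (q0l : (21 / 160 : ℝ) < I) (q0u : I ≤ (17 / 128 : ℝ)) (q1l : (0 : ℝ) < r) (q1u : r ≤ (1 / 50 : ℝ)) (q2l : (3 / 4 : ℝ) < s) (q2u : s ≤ (17 / 20 : ℝ)) (kl : (250 : ℝ) < (500 : ℝ) * (1 - a * v)) :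
    Closed.Strip.ChartSigns (b - a) (a + b) u v t := by
  obtain ⟨hl, hr⟩ := izLine39 hB hE hI0 (⟨hI, (inU_of (by norm_num) (by norm_num; linarith) (by norm_num; linarith)), (inU_of (by norm_num) (by norm_num; linarith) (by norm_num; linarith)), (inU_of (by norm_num) (by norm_num; linarith) (by norm_num; linarith)), by norm_num [Lines.denV, izM39] <;> linarith⟩ : InLines izM39 (42, 43, 320) (0, 1, 50) (15, 17, 20) a b u I r s)
  norm_num [afVal, Lines.denV, izM39] at hl hr
  refine izLeaf67.low rfl rfl hb hF hH hB hside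
    (⟨hI, (inU_of (by norm_num) (by norm_num; linarith) (by norm_num; linarith)), (inU_of (by norm_num) (by norm_num; linarith) (by norm_num; linarith)), (inU_of (by norm_num) (by norm_num; linarith) (by norm_num; linarith)), by norm_num [Lines.denV, izL67] <;> linarith⟩ : InLines izL67 (84, 85, 640) (0, 1, 50) (15, 17, 20) a b u I r s) ?_ ?_
  all_goals norm_num [afVal, Lines.denV, izL67] <;> linarith

/-- The signs in the piece 69. -/
theorem izAt69 {n : ℕ} {a b u v t H I r s : ℝ} (hb : Closed.All.ChartBox n (b - a) (a + b))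
    (hF : Closed.All.ChartFacts (b - a) (a + b) u v t)
    (hH : Closed.chH (b - a) (a + b) u v t = H) (hB : EndBands7 a b u v H)
    (hside : DLow a b) (hE : ExitLine a b u v) (hI : IPt a b u I r s) (hI0 : 0 < I)
    (q0l : (43 / 320 : ℝ) < I) (q0u : I ≤ (11 / 80 : ℝ)) (q1l : (0 : ℝ) < r) (q1u : r ≤ (1 / 160 : ℝ)) (q2l : (3 / 4 : ℝ) < s) (q2u : s ≤ (83 / 100 : ℝ)) (ku : (500 : ℝ) * (1 - a * v) ≤ (194 : ℝ)) :
    Closed.Strip.ChartSigns (b - a) (a + b) u v t := by
  obtain ⟨hl, hr⟩ := izLine40 hB hE hI0 (⟨hI, (inU_of (by norm_num) (by norm_num; linarith) (by norm_num; linarith)), (inU_of (by norm_num) (by norm_num; linarith) (by norm_num; linarith)), (inU_of (by norm_num) (by norm_num; linarith) (by norm_num; linarith)), by norm_num [Lines.denV, izM40] <;> linarith⟩ : InLines izM40 (43, 44, 320) (0, 1, 160) (75, 83, 100) a b u I r s)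
  norm_num [afVal, Lines.denV, izM40] at hl hr
  refine izLeaf69.low rfl rfl hb hF hH hB hside
    (⟨hI, (inU_of (by norm_num) (by norm_num; linarith) (by norm_num; linarith)), (inU_of (by norm_num) (by norm_num; linarith) (by norm_num; linarith)), (inU_of (by norm_num) (by norm_num; linarith) (by norm_num; linarith)), by norm_num [Lines.denV, izL69] <;> linarith⟩ : InLines izL69 (43, 44, 320) (0, 1, 160) (75, 83, 100) a b u I r s) ?_ ?_
  all_goals norm_num [afVal, Lines.denV, izL69] <;> linarith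

/-- The signs in the piece 70. -/
theorem izAt70 {n : ℕ} {a b u v t H I r s : ℝ} (hb : Closed.All.ChartBox n (b - a) (a + b))
    (hF : Closed.All.ChartFacts (b - a) (a + b) u v t)
    (hH : Closed.chH (b - a) (a + b) u v t = H) (hB : EndBands7 a b u v H)
    (hside : DLow a b) (hE : ExitLine a b u v) (hI : IPt a b u I r s) (hI0 : 0 < I)
    (q0l : (43 / 320 : ℝ) < I) (q0u : I ≤ (11 / 80 : ℝ)) (q1l : (0 : ℝ) < r) (q1u : r ≤ (1 / 160 : ℝ)) (q2l : (3 / 4 : ℝ) < s) (q2u : s ≤ (83 / 100 : ℝ)) (kl : (194 : ℝ) < (500 : ℝ) * (1 - a * v)) (ku : (500 : ℝ) * (1 - a * v) ≤ (243 : ℝ)) :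
    Closed.Strip.ChartSigns (b - a) (a + b) u v t := by
  obtain ⟨hl, hr⟩ := izLine40 hB hE hI0 (⟨hI, (inU_of (by norm_num) (by norm_num; linarith) (by norm_num; linarith)), (inU_of (by norm_num) (by norm_num; linarith) (by norm_num; linarith)), (inU_of (by norm_num) (by norm_num; linarith) (by norm_num; linarith)), by norm_num [Lines.denV, izM40] <;> linarith⟩ : InLines izM40 (43, 44, 320) (0, 1, 160) (75, 83, 100) a b u I r s)
  norm_num [afVal, Lines.denV, izM40] at hl hr
  refine izLeaf70.low rfl rfl hb hF hH hB hside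
    (⟨hI, (inU_of (by norm_num) (by norm_num; linarith) (by norm_num; linarith)), (inU_of (by norm_num) (by norm_num; linarith) (by norm_num; linarith)), (inU_of (by norm_num) (by norm_num; linarith) (by norm_num; linarith)), by norm_num [Lines.denV, izL70] <;> linarith⟩ : InLines izL70 (43, 44, 320) (0, 1, 160) (75, 83, 100) a b u I r s) ?_ ?_
  all_goals norm_num [afVal, Lines.denV, izL70] <;> linarith

end Vale.Agent.P100.Calib.StripEndD
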