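import Vale.Agent.P100.Calib.SlabStripEndIZ7H106

/-!
# A piece of the `I` and `Z` charts for `N` between seven and twenty: 106, the certificate
-/

namespace Vale.Agent.P100.Calib.StripEndD

open Pack hiding ev_add ev_mul
open Pack.Ex StripMid StripEnd

local instance endIZ7K106Add : Add Ex := ⟨Ex.add⟩
local instance endIZ7K106Sub : Sub Ex := ⟨Ex.sub⟩
local instance endIZ7K106Mul : Mul Ex := ⟨Ex.mul⟩

/-- **The certificate of `pcIz106`.** -/
theorem certIz106 : Cert pcIz106 bxIz106 := by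
  have h_kn : checkBig bxIz106.C 29 1 0 1 0
      pcIz106.kn = true := by decide +kernel
  have h_k2n : checkBig bxIz106.C 172 3 3 3 0
      (strictVar pcIz106.k2n) = true := by decide +kernel
  have h_k2d : checkBig bxIz106.C 169 3 3 3 0
      (strictVar pcIz106.k2d) = true := by decide +kernel
  have h_vs : checkBig bxIz106.C 161 3 3 3 0
      (strictVar pcIz106.vs) = true := by decide +kernel
  have h_g1 : ∀ s p l : Bool, checkBig bxIz106.C 294 9 5 7 4
      (pcIz106.at ⟨p, l, !s, !s, false⟩ (c1 s)) = true := by decide +kernel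
  have h_g2 := certIz106_g2
  have h_g5 := certIz106_g5
  have h_gMG : ∀ p l t : Bool, checkSgn bxIz106.C 607 21 9 16 9
      (pcIz106.at ⟨p, l, true, false, t⟩ tplMG) = true := by decide +kernel
  have h_v2 : ∀ s : Bool, checkBig bxIz106.C 198 6 4 6 4
      (pcIz106.at ⟨false, false, true, true, false⟩ (curve2 s)) = true := by decide +kernel
  have h_v5 : ∀ s : Bool, checkBig bxIz106.C 212 7 4 7 4
      (pcIz106.at ⟨false, false, true, true, false⟩ (curve5 s)) = true := by decide +kernel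
  have h_vMG : checkBig bxIz106.C 185 6 4 6 4
      (pcIz106.at ⟨false, false, true, true, false⟩ Piece.curveMG) = true := by decide +kernel
  have h_wP : ∀ b q : Bool, checkBig bxIz106.C 55 1 2 0 1
      (pcIz106.winP b q) = true := by decide +kernel
  have h_wE : ∀ b q : Bool, checkBig bxIz106.C 301 13 4 9 3
      (pcIz106.winE b q) = true := by decide +kernel
  have h_wK : ∀ b q : Bool, checkBig bxIz106.C 288 13 4 9 2
      (pcIz106.winK b q) = true := by decide +kernel
  have h_wT : ∀ b q : Bool, checkBig bxIz106.C 217 7 5 5 3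
      (pcIz106.winT b q) = true := by decide +kernel
  have h_wW : ∀ b : Bool, checkBig bxIz106.C 211 7 5 4 3
      (pcIz106.winW b) = true := by decide +kernel
  have h_wY : ∀ b : Bool, checkBig bxIz106.C 488 19 8 14 5
      (pcIz106.winY b) = true := by decide +kernel
  have h_gap : ∀ b q : Bool, checkSgn bxIz106.C 581 24 9 19 7
      (pcIz106.gap b q) = true := by decide +kernel
  exact {
    pos := ⟨⟨by decide, by decide⟩⟩
    low := by decide
    sgns := fun f => by
      cases f
      · exact ⟨157, 3, 3, 3, 0, by decide +kernel⟩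
      · exact ⟨157, 3, 3, 3, 0, by decide +kernel⟩
      · exact ⟨161, 3, 3, 3, 0, by decide +kernel⟩
      · exact ⟨161, 3, 3, 3, 0, by decide +kernel⟩
      · exact ⟨160, 3, 3, 3, 0, by decide +kernel⟩
      · exact ⟨169, 3, 3, 3, 0, by decide +kernel⟩
      · exact ⟨169, 3, 3, 3, 1, by decide +kernel⟩
      · exact ⟨171, 3, 3, 3, 1, by decide +kernel⟩
      · exact ⟨166, 3, 3, 3, 0, by decide +kernel⟩
      · exact ⟨186, 3, 3, 3, 1, by decide +kernel⟩
      · exact ⟨183, 3, 3, 3, 0, by decide +kernel⟩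
      · exact ⟨179, 3, 3, 3, 0, by decide +kernel⟩
      · exact ⟨185, 3, 3, 3, 1, by decide +kernel⟩
      · exact ⟨161, 3, 3, 3, 0, by decide +kernel⟩
      · exact ⟨167, 3, 3, 3, 0, by decide +kernel⟩
    kn := ⟨_, _, _, _, _, checkFour_of_big h_kn⟩
    k2n := ⟨_, _, _, _, _, checkFour_of_big h_k2n⟩
    k2d := ⟨_, _, _, _, _, checkFour_of_big h_k2d⟩
    vs := ⟨_, _, _, _, _, checkFour_of_big h_vs⟩
    g1 := fun s p l => ⟨_, _, _, _, _, checkFour_of_big (h_g1 s p l)⟩
    g2 := fun s p l t => ⟨_, _, _, _, _, checkFour_of_sgn (h_g2 s p l t)⟩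
    g5 := fun s p l t => ⟨_, _, _, _, _, checkFour_of_sgn (h_g5 s p l t)⟩
    gMG := fun p l t => ⟨_, _, _, _, _, checkFour_of_sgn (h_gMG p l t)⟩
    v2 := fun s => ⟨_, _, _, _, _, checkFour_of_big (h_v2 s)⟩
    v5 := fun s => ⟨_, _, _, _, _, checkFour_of_big (h_v5 s)⟩
    vMG := ⟨_, _, _, _, _, checkFour_of_big h_vMG⟩
    wP := fun b q => ⟨_, _, _, _, _, checkFour_of_big (h_wP b q)⟩
    wE := fun b q => ⟨_, _, _, _, _, checkFour_of_big (h_wE b q)⟩
    wK := fun b q => ⟨_, _, _, _, _, checkFour_of_big (h_wK b q)⟩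
    wT := fun b q => ⟨_, _, _, _, _, checkFour_of_big (h_wT b q)⟩
    wW := fun b => ⟨_, _, _, _, _, checkFour_of_big (h_wW b)⟩
    wY := fun b => ⟨_, _, _, _, _, checkFour_of_big (h_wY b)⟩
    gap := fun b q => ⟨_, _, _, _, _, checkFour_of_sgn (h_gap b q)⟩ }

end Vale.Agent.P100.Calib.StripEndD
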