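import Vale.Agent.P100.Calib.SlabStripEndDExpr
import Vale.Agent.P100.Calib.SlabStripEndCert

/-!
# The piece 79 of the strip for `u` near one at small `d / I`
-/

namespace Vale.Agent.P100.Calib.StripEndD

open Pack hiding ev_add ev_mul
open Pack.Ex StripMid StripEnd

local instance endIZ7P79Add : Add Ex := ⟨Ex.add⟩
local instance endIZ7P79Sub : Sub Ex := ⟨Ex.sub⟩
local instance endIZ7P79Mul : Mul Ex := ⟨Ex.mul⟩

/-- The piece `Iz79`. -/
def pcIz79 : Piece where
  I := (var 0)
  d := (var 0) * (var 2)
  w := ((var 0) * (var 1))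
  o := (((num 35) + (num (-17) * (var 1))) + ((num 59) + (num (-36) * (var 1))) * (var 3))
  den := ((num 100))
  vn := num 2 * (((num 35) + (num (-17) * (var 1))) + ((num 59) + (num (-36) * (var 1))) * (var 3))
  vs := (num 1 - num 2 * (var 0) - (var 0) * (var 2))
  mu := ⟨(84, 50), (128, 50)⟩
  pn := fun b => cond b
    (num 50 * (((num 100)) - (((num 35) + (num (-17) * (var 1))) + ((num 59) + (num (-36) * (var 1))) * (var 3))) + num (-128) * ((((num 35) + (num (-17) * (var 1))) + ((num 59) + (num (-36) * (var 1))) * (var 3)) * ((var 0) * (var 1))))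
    (num 50 * (((num 100)) - (((num 35) + (num (-17) * (var 1))) + ((num 59) + (num (-36) * (var 1))) * (var 3))) + num (-84) * ((((num 35) + (num (-17) * (var 1))) + ((num 59) + (num (-36) * (var 1))) * (var 3)) * ((var 0) * (var 1))))
  pd := num 50
  en := fun b => cond b
    (((num 28751) + (num 97600 * (var 0))) * (num 4 * (var 0) * (((num 100)) - (((num 35) + (num (-17) * (var 1))) + ((num 59) + (num (-36) * (var 1))) * (var 3))) * ((var 2) + num 3 * (var 0)) + (var 1) * ((num 100)) * (num 1 + num 20 * ((var 0) * (var 2)))))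
    (((num 23095) + (num 97600 * (var 0))) * (num 4 * (var 0) * (((num 100)) - (((num 35) + (num (-17) * (var 1))) + ((num 59) + (num (-36) * (var 1))) * (var 3))) * ((var 2) + num 3 * (var 0)) + (var 1) * ((num 100)) * (num 1 + num 20 * ((var 0) * (var 2)))))
  kk := fun b => cond b
    (((num 6100) + (num 10040 * (var 2))) * (((var 0) * (var 1)) * (num 4 * ((num 100)) * ((var 2) + num 3 * (var 0)))))
    (((num 1493) + (num 10040 * (var 2))) * (((var 0) * (var 1)) * (num 4 * ((num 100)) * ((var 2) + num 3 * (var 0)))))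
  f0 := num 8000 * ((num 100)) * ((var 2) + num 3 * (var 0))
  wn := fun b => cond b
    (((num (-9307) * ((var 0) * (((num 100)) - (((num 35) + (num (-17) * (var 1))) + ((num 59) + (num (-36) * (var 1))) * (var 3))))) + (num 8539 * (((var 0) * (var 1)) * (((num 35) + (num (-17) * (var 1))) + ((num 59) + (num (-36) * (var 1))) * (var 3)))) + (num (-669) * (((var 0) * (var 1)) * ((num 100)))) + (num 699 * ((var 0) * (var 2) * (((num 100)) - (((num 35) + (num (-17) * (var 1))) + ((num 59) + (num (-36) * (var 1))) * (var 3)))))))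
    (((num (-10279) * ((var 0) * (((num 100)) - (((num 35) + (num (-17) * (var 1))) + ((num 59) + (num (-36) * (var 1))) * (var 3))))) + (num 8539 * (((var 0) * (var 1)) * (((num 35) + (num (-17) * (var 1))) + ((num 59) + (num (-36) * (var 1))) * (var 3)))) + (num (-1641) * (((var 0) * (var 1)) * ((num 100)))) + (num 699 * ((var 0) * (var 2) * (((num 100)) - (((num 35) + (num (-17) * (var 1))) + ((num 59) + (num (-36) * (var 1))) * (var 3)))))))
  wd := num 1000 * ((num 100))
  tn := fun b => cond b
    (num 9677 * ((var 1) * ((num 100))))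
    (num 8106 * ((var 1) * ((num 100))))
  td := num 8000 * ((var 1) * ((num 100)) + num 2 * (var 2) * (((num 100)) - (((num 35) + (num (-17) * (var 1))) + ((num 59) + (num (-36) * (var 1))) * (var 3))))
  cn := num 0
  cd := num 1
  kn := ((num 100)) * ((num 898) + (num (-137) * (var 0)) + (num (-175) * (var 1)) + (num (-398) * (var 2)) + (num (-560) * (var 3)) + (num 59 * ((var 1) * (var 3))) + (num 520 * ((var 2) * (var 3))) + (num 5257 * ((var 0) * (var 3))))
  kd := num 256 * (((num 100)) - (((num 35) + (num (-17) * (var 1))) + ((num 59) + (num (-36) * (var 1))) * (var 3)))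
  k2n := ((num (-384)) + (num 4278 * (var 0)) + (num 552 * (var 2)))
  k2d := num 256

/-- Its ranges. -/
def bxIz79 : StripEnd.EBox :=
  ⟨(2, 3, 40), (1, 50, 50), (15, 19, 20), (0, 1, 1)⟩

end Vale.Agent.P100.Calib.StripEndD
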