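import Vale.Agent.P100.Calib.SlabStripEndDExpr
import Vale.Agent.P100.Calib.SlabStripEndCert

/-!
# The piece 82 of the strip for `u` near one at small `d / I`
-/

namespace Vale.Agent.P100.Calib.StripEndD

open Pack hiding ev_add ev_mul
open Pack.Ex StripMid StripEnd

local instance endIZ7P82Add : Add Ex := ⟨Ex.add⟩
local instance endIZ7P82Sub : Sub Ex := ⟨Ex.sub⟩
local instance endIZ7P82Mul : Mul Ex := ⟨Ex.mul⟩

/-- The piece `Iz82`. -/
def pcIz82 : Piece where
  I := (var 0)
  d := (var 0) * (var 2)
  w := ((var 0) * (var 1))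
  o := (((num 47) + (num (-118) * (var 1))) + ((num 46) + (num (-46) * (var 1))) * (var 3))
  den := ((num 100))
  vn := num 2 * (((num 47) + (num (-118) * (var 1))) + ((num 46) + (num (-46) * (var 1))) * (var 3))
  vs := (num 1 - num 2 * (var 0) - (var 0) * (var 2))
  mu := ⟨(95, 50), (169, 50)⟩
  pn := fun b => cond b
    (num 50 * (((num 100)) - (((num 47) + (num (-118) * (var 1))) + ((num 46) + (num (-46) * (var 1))) * (var 3))) + num (-169) * ((((num 47) + (num (-118) * (var 1))) + ((num 46) + (num (-46) * (var 1))) * (var 3)) * ((var 0) * (var 1))))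
    (num 50 * (((num 100)) - (((num 47) + (num (-118) * (var 1))) + ((num 46) + (num (-46) * (var 1))) * (var 3))) + num (-95) * ((((num 47) + (num (-118) * (var 1))) + ((num 46) + (num (-46) * (var 1))) * (var 3)) * ((var 0) * (var 1))))
  pd := num 50
  en := fun b => cond b
    (((num 35091) + (num 51056 * (var 0))) * (num 4 * (var 0) * (((num 100)) - (((num 47) + (num (-118) * (var 1))) + ((num 46) + (num (-46) * (var 1))) * (var 3))) * ((var 2) + num 3 * (var 0)) + (var 1) * ((num 100)) * (num 1 + num 20 * ((var 0) * (var 2)))))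
    (((num 28081) + (num 51056 * (var 0))) * (num 4 * (var 0) * (((num 100)) - (((num 47) + (num (-118) * (var 1))) + ((num 46) + (num (-46) * (var 1))) * (var 3))) * ((var 2) + num 3 * (var 0)) + (var 1) * ((num 100)) * (num 1 + num 20 * ((var 0) * (var 2)))))
  kk := fun b => cond b
    (((num 5418) + (num 22178 * (var 2))) * (((var 0) * (var 1)) * (num 4 * ((num 100)) * ((var 2) + num 3 * (var 0)))))
    (((num (-2199)) + (num 22178 * (var 2))) * (((var 0) * (var 1)) * (num 4 * ((num 100)) * ((var 2) + num 3 * (var 0)))))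
  f0 := num 8000 * ((num 100)) * ((var 2) + num 3 * (var 0))
  wn := fun b => cond b
    (((num (-11601) * ((var 0) * (((num 100)) - (((num 47) + (num (-118) * (var 1))) + ((num 46) + (num (-46) * (var 1))) * (var 3))))) + (num 27370 * (((var 0) * (var 1)) * (((num 47) + (num (-118) * (var 1))) + ((num 46) + (num (-46) * (var 1))) * (var 3)))) + (num (-9368) * (((var 0) * (var 1)) * ((num 100)))) + (num 1942 * ((var 0) * (var 2) * (((num 100)) - (((num 47) + (num (-118) * (var 1))) + ((num 46) + (num (-46) * (var 1))) * (var 3)))))))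
    (((num (-12791) * ((var 0) * (((num 100)) - (((num 47) + (num (-118) * (var 1))) + ((num 46) + (num (-46) * (var 1))) * (var 3))))) + (num 27370 * (((var 0) * (var 1)) * (((num 47) + (num (-118) * (var 1))) + ((num 46) + (num (-46) * (var 1))) * (var 3)))) + (num (-10558) * (((var 0) * (var 1)) * ((num 100)))) + (num 1942 * ((var 0) * (var 2) * (((num 100)) - (((num 47) + (num (-118) * (var 1))) + ((num 46) + (num (-46) * (var 1))) * (var 3)))))))
  wd := num 1000 * ((num 100))
  tn := fun b => cond b
    (num 11442 * ((var 1) * ((num 100))))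
    (num 8595 * ((var 1) * ((num 100))))
  td := num 8000 * ((var 1) * ((num 100)) + num 2 * (var 2) * (((num 100)) - (((num 47) + (num (-118) * (var 1))) + ((num 46) + (num (-46) * (var 1))) * (var 3))))
  cn := num 0
  cd := num 1
  kn := ((num 100)) * ((num 378) + (num (-471) * (var 0)) + (num 664 * (var 1)) + (num (-202) * (var 2)) + (num (-717) * (var 3)) + (num (-1299) * ((var 1) * (var 3))) + (num 548 * ((var 2) * (var 3))) + (num 4184 * ((var 0) * (var 3))))
  kd := num 64 * (((num 100)) - (((num 47) + (num (-118) * (var 1))) + ((num 46) + (num (-46) * (var 1))) * (var 3)))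
  k2n := ((num (-237)) + (num 2793 * (var 0)) + (num (-1758) * (var 1)) + (num 400 * (var 2)) + (num (-1071) * (var 3)) + (num 1839 * ((var 1) * (var 3))) + (num (-292) * ((var 2) * (var 3))) + (num 7346 * ((var 0) * (var 3))))
  k2d := num 256

/-- Its ranges. -/
def bxIz82 : StripEnd.EBox :=
  ⟨(20, 23, 160), (2, 15, 100), (75, 89, 100), (0, 1, 1)⟩

end Vale.Agent.P100.Calib.StripEndD
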