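import Vale.Agent.P100.Calib.SlabStripEndIZ7G85

/-!
# A piece of the `I` and `Z` charts for `N` between seven and twenty: 85, the certificate
-/

namespace Vale.Agent.P100.Calib.StripEndD

open Pack hiding ev_add ev_mul
open Pack.Ex StripMid StripEnd

local instance endIZ7K85Add : Add Ex := ⟨Ex.add⟩
local instance endIZ7K85Sub : Sub Ex := ⟨Ex.sub⟩
local instance endIZ7K85Mul : Mul Ex := ⟨Ex.mul⟩

/-- The condition `g5` at the ends, checked. -/
theorem certIz85_g5 : ∀ s p l t : Bool, checkSgn bxIz85.C 430 18 9 24 9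
    (pcIz85.at ⟨p, l, true, true, t⟩ (StripEnd.strict (c5 s))) = true := by
  decide +kernel

/-- **The certificate of `pcIz85`.** -/
theorem certIz85 : Cert pcIz85 bxIz85 := by
  have h_kn : checkBig bxIz85.C 22 1 1 1 1
      pcIz85.kn = true := by decide +kernel
  have h_k2n : checkBig bxIz85.C 115 3 3 3 0
      (strictVar pcIz85.k2n) = true := by decide +kernel
  have h_k2d : checkBig bxIz85.C 113 3 3 3 0
      (strictVar pcIz85.k2d) = true := by decide +kernel
  have h_vs : checkBig bxIz85.C 107 3 3 3 0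
      (strictVar pcIz85.vs) = true := by decide +kernel
  have h_g1 : ∀ s p l : Bool, checkBig bxIz85.C 170 9 5 11 4
      (pcIz85.at ⟨p, l, !s, !s, false⟩ (c1 s)) = true := by decide +kernel
  have h_g2 := certIz85_g2
  have h_g5 := certIz85_g5
  have h_gMG : ∀ p l t : Bool, checkSgn bxIz85.C 315 17 9 23 9
      (pcIz85.at ⟨p, l, true, false, t⟩ tplMG) = true := by decide +kernel
  have h_v2 : ∀ s : Bool, checkBig bxIz85.C 101 6 4 9 4
      (pcIz85.at ⟨false, false, true, true, false⟩ (curve2 s)) = true := by decide +kernel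
  have h_v5 : ∀ s : Bool, checkBig bxIz85.C 106 7 4 10 4
      (pcIz85.at ⟨false, false, true, true, false⟩ (curve5 s)) = true := by decide +kernel
  have h_vMG : checkBig bxIz85.C 91 6 4 9 4
      (pcIz85.at ⟨false, false, true, true, false⟩ Piece.curveMG) = true := by decide +kernel
  have h_wP : ∀ b q : Bool, checkBig bxIz85.C 32 1 2 1 1
      (pcIz85.winP b q) = true := by decide +kernel
  have h_wE : ∀ b q : Bool, checkBig bxIz85.C 157 13 4 12 3
      (pcIz85.winE b q) = true := by decide +kernel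
  have h_wK : ∀ b q : Bool, checkBig bxIz85.C 141 13 4 11 2
      (pcIz85.winK b q) = true := by decide +kernel
  have h_wT : ∀ b q : Bool, checkBig bxIz85.C 114 7 5 8 3
      (pcIz85.winT b q) = true := by decide +kernel
  have h_wW : ∀ b : Bool, checkBig bxIz85.C 110 7 5 7 3
      (pcIz85.winW b) = true := by decide +kernel
  have h_wY : ∀ b : Bool, checkBig bxIz85.C 249 19 8 19 5
      (pcIz85.winY b) = true := by decide +kernel
  have h_gap : ∀ b q : Bool, checkSgn bxIz85.C 287 23 9 25 7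
      (pcIz85.gap b q) = true := by decide +kernel
  exact {
    pos := ⟨⟨by decide, by decide⟩⟩
    low := by decide
    sgns := fun f => by
      cases f
      · exact ⟨103, 3, 3, 3, 0, by decide +kernel⟩
      · exact ⟨101, 3, 3, 3, 0, by decide +kernel⟩
      · exact ⟨107, 3, 3, 3, 0, by decide +kernel⟩
      · exact ⟨107, 3, 3, 3, 0, by decide +kernel⟩
      · exact ⟨107, 3, 3, 3, 0, by decide +kernel⟩
      · exact ⟨113, 3, 3, 3, 0, by decide +kernel⟩
      · exact ⟨113, 3, 3, 3, 1, by decide +kernel⟩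
      · exact ⟨115, 3, 3, 3, 1, by decide +kernel⟩
      · exact ⟨112, 3, 3, 3, 0, by decide +kernel⟩
      · exact ⟨131, 3, 3, 3, 1, by decide +kernel⟩
      · exact ⟨125, 3, 3, 3, 0, by decide +kernel⟩
      · exact ⟨123, 3, 3, 3, 0, by decide +kernel⟩
      · exact ⟨129, 3, 3, 3, 1, by decide +kernel⟩
      · exact ⟨106, 3, 3, 3, 0, by decide +kernel⟩
      · exact ⟨115, 3, 3, 3, 0, by decide +kernel⟩
    kn := ⟨_, _, _, _, _, checkFour_of_big h_kn⟩
    k2n := ⟨_, _, _, _, _, checkFour_of_big h_k2n⟩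
    k2d := ⟨_, _, _, _, _, checkFour_of_big h_k2d⟩
    vs := ⟨_, _, _, _, _, checkFour_of_big h_vs⟩
    g1 := fun s p l => ⟨_, _, _, _, _, checkFour_of_big (h_g1 s p l)⟩
    g2 := fun s p l t => ⟨_, _, _, _, _, checkFour_of_sgn (h_g2 s p l t)⟩
    g5 := fun s p l t => ⟨_, _, _, _, _, checkFour_of_sgn (h_g5 s p l t)⟩
    gMG := fun p l t => ⟨_, _, _, _, _, checkFour_of_sgn (h_gMG p l t)⟩
    v2 := fun s => ⟨_, _, _, _, _, checkFour_of_big (h_v2 s)⟩
    v5 := fun s => ⟨_, _, _, _, _, checkFour_of_big (h_v5 s)⟩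
    vMG := ⟨_, _, _, _, _, checkFour_of_big h_vMG⟩
    wP := fun b q => ⟨_, _, _, _, _, checkFour_of_big (h_wP b q)⟩
    wE := fun b q => ⟨_, _, _, _, _, checkFour_of_big (h_wE b q)⟩
    wK := fun b q => ⟨_, _, _, _, _, checkFour_of_big (h_wK b q)⟩
    wT := fun b q => ⟨_, _, _, _, _, checkFour_of_big (h_wT b q)⟩
    wW := fun b => ⟨_, _, _, _, _, checkFour_of_big (h_wW b)⟩
    wY := fun b => ⟨_, _, _, _, _, checkFour_of_big (h_wY b)⟩
    gap := fun b q => ⟨_, _, _, _, _, checkFour_of_sgn (h_gap b q)⟩ }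

end Vale.Agent.P100.Calib.StripEndD
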