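import Vale.Agent.P100.Calib.SlabStripEndDCert
import Vale.Agent.P100.Calib.SlabStripEndBig

/-!
# A piece of the `I` and `Z` charts for `N` between seven and twenty: 101
-/

namespace Vale.Agent.P100.Calib.StripEndD

open Pack hiding ev_add ev_mul
open Pack.Ex StripMid StripEnd

local instance endIZ7P101Add : Add Ex := ⟨Ex.add⟩
local instance endIZ7P101Sub : Sub Ex := ⟨Ex.sub⟩
local instance endIZ7P101Mul : Mul Ex := ⟨Ex.mul⟩

/-- The piece `Iz101`. -/
def pcIz101 : Piece where
  I := (var 0)
  d := (var 0) * (var 2)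
  w := ((var 0) * (var 1))
  o := (((num 335)) + ((num 99)) * (var 3))
  den := ((num 500))
  vn := num 2 * (((num 335)) + ((num 99)) * (var 3))
  vs := (num 1 - num 2 * (var 0) - (var 0) * (var 2))
  mu := ⟨(135, 50), (166, 50)⟩
  pn := fun b => cond b
    (num 8000 * (((num 500)) - (((num 335)) + ((num 99)) * (var 3))) + num (-166) * ((((num 335)) + ((num 99)) * (var 3)) * (var 0)))
    (num 8000 * (((num 500)) - (((num 335)) + ((num 99)) * (var 3))) + num 0 * ((((num 335)) + ((num 99)) * (var 3)) * (var 0)))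
  pd := num 8000
  en := fun b => cond b
    (((num 36084 * ((var 0) * (((num 500)) - (((num 335)) + ((num 99)) * (var 3)))))) + ((num 500)) * (var 0) * ((num 2445) + (num (-794) * (var 2)) + (num (-2612) * (var 0))))
    (((num 36084 * ((var 0) * (((num 500)) - (((num 335)) + ((num 99)) * (var 3)))))) + ((num 500)) * (var 0) * ((num 1020) + (num (-794) * (var 2)) + (num (-2612) * (var 0))))
  kk := fun b => cond b
    (((num 500)) * (var 0) * ((num 123) + (num 42 * (var 2))) + ((num (-10) * ((var 0) * (((num 500)) - (((num 335)) + ((num 99)) * (var 3)))))))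
    (((num 500)) * (var 0) * ((num (-45)) + (num 42 * (var 2))) + ((num (-10) * ((var 0) * (((num 500)) - (((num 335)) + ((num 99)) * (var 3)))))))
  f0 := num 2000 * ((num 500))
  wn := fun b => cond b
    (((num (-11565) * ((var 0) * (((num 500)) - (((num 335)) + ((num 99)) * (var 3))))) + (num 1386 * ((var 0) * (var 2) * (((num 500)) - (((num 335)) + ((num 99)) * (var 3)))))) + ((num 500)) * (var 0) * ((num 425) + (num (-2139) * (var 0))))
    (((num (-11565) * ((var 0) * (((num 500)) - (((num 335)) + ((num 99)) * (var 3))))) + (num 1386 * ((var 0) * (var 2) * (((num 500)) - (((num 335)) + ((num 99)) * (var 3)))))) + ((num 500)) * (var 0) * ((num 358) + (num (-2139) * (var 0))))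
  wd := num 1000 * ((num 500))
  tn := fun b => cond b
    (((num 500)) * ((num 372) + (num (-56) * (var 2)) + (num 104 * (var 0))) + ((num (-272) * (((num 500)) - (((num 335)) + ((num 99)) * (var 3))))))
    (((num 500)) * ((num 59) + (num (-56) * (var 2)) + (num 104 * (var 0))) + ((num (-272) * (((num 500)) - (((num 335)) + ((num 99)) * (var 3))))))
  td := num 8000 * ((num 500))
  cn := (num 1 - (var 0)) * (var 2) - (num 1 - num 2 * (var 0))
  cd := (num 1 - num 2 * (var 0)) * (num 1 - num 2 * (var 0)) * (var 2)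
  kn := ((num (-683)) + (num 6566 * (var 0)) + (num (-12) * (var 2)) + (num (-3063) * (var 3)) + (num 4339 * ((var 2) * (var 3))))
  kd := num 32
  k2n := ((num (-1553)) + (num 4297 * (var 0)) + (num 6846 * (var 2)))
  k2d := num 2048

/-- Its ranges. -/
def bxIz101 : StripEnd.EBox :=
  ⟨(20, 21, 160), (0, 1, 160), (21, 25, 25), (0, 1, 1)⟩
/-- **The certificate of `pcIz101`.** -/
theorem certIz101 : Cert pcIz101 bxIz101 := by
  have h_kn : checkBig bxIz101.C 29 1 0 1 1
      pcIz101.kn = true := by decide +kernel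
  have h_k2n : checkBig bxIz101.C 161 3 3 3 0
      (strictVar pcIz101.k2n) = true := by decide +kernel
  have h_k2d : checkBig bxIz101.C 159 3 3 3 0
      (strictVar pcIz101.k2d) = true := by decide +kernel
  have h_vs : checkBig bxIz101.C 149 3 3 3 0
      (strictVar pcIz101.vs) = true := by decide +kernel
  have h_g1 : ∀ s p l : Bool, checkBig bxIz101.C 215 8 0 6 5
      (pcIz101.at ⟨p, l, !s, !s, false⟩ (c1 s)) = true := by decide +kernel
  have h_g2 : ∀ s p l t : Bool, checkBig bxIz101.C 549 20 0 16 9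
      (pcIz101.at ⟨p, l, true, true, t⟩ (StripEnd.strict (c2 s))) = true := by decide +kernel
  have h_g5 : ∀ s p l t : Bool, checkBig bxIz101.C 568 20 0 15 8
      (pcIz101.at ⟨p, l, true, true, t⟩ (StripEnd.strict (c5 s))) = true := by decide +kernel
  have h_gMG : ∀ p l t : Bool, checkBig bxIz101.C 443 19 0 13 8
      (pcIz101.at ⟨p, l, true, false, t⟩ tplMG) = true := by decide +kernel
  have h_v2 : ∀ s : Bool, checkBig bxIz101.C 146 6 0 6 4
      (pcIz101.at ⟨false, false, true, true, false⟩ (curve2 s)) = true := by decide +kernel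
  have h_v5 : ∀ s : Bool, checkBig bxIz101.C 158 7 0 7 4
      (pcIz101.at ⟨false, false, true, true, false⟩ (curve5 s)) = true := by decide +kernel
  have h_vMG : checkBig bxIz101.C 131 6 0 6 4
      (pcIz101.at ⟨false, false, true, true, false⟩ Piece.curveMG) = true := by decide +kernel
  have h_wP : ∀ b q : Bool, checkBig bxIz101.C 49 1 1 0 1
      (pcIz101.winP b q) = true := by decide +kernel
  have h_wE : ∀ b q : Bool, checkBig bxIz101.C 237 12 2 9 3
      (pcIz101.winE b q) = true := by decide +kernel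
  have h_wK : ∀ b q : Bool, checkBig bxIz101.C 219 12 2 8 3
      (pcIz101.winK b q) = true := by decide +kernel
  have h_wT : ∀ b q : Bool, checkBig bxIz101.C 182 8 2 6 4
      (pcIz101.winT b q) = true := by decide +kernel
  have h_wW : ∀ b : Bool, checkBig bxIz101.C 170 8 2 4 3
      (pcIz101.winW b) = true := by decide +kernel
  have h_wY : ∀ b : Bool, checkBig bxIz101.C 375 18 3 13 6
      (pcIz101.winY b) = true := by decide +kernel
  have h_gap : ∀ b q : Bool, checkBig bxIz101.C 452 24 3 18 6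
      (pcIz101.gap b q) = true := by decide +kernel
  exact {
    pos := ⟨⟨by decide, by decide⟩⟩
    low := by decide
    sgns := fun f => by
      cases f
      · exact ⟨145, 3, 3, 3, 0, by decide +kernel⟩
      · exact ⟨145, 3, 3, 3, 0, by decide +kernel⟩
      · exact ⟨149, 3, 3, 3, 0, by decide +kernel⟩
      · exact ⟨149, 3, 3, 3, 0, by decide +kernel⟩
      · exact ⟨148, 3, 3, 3, 0, by decide +kernel⟩
      · exact ⟨157, 3, 3, 3, 0, by decide +kernel⟩
      · exact ⟨158, 3, 3, 3, 1, by decide +kernel⟩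
      · exact ⟨159, 3, 3, 3, 1, by decide +kernel⟩
      · exact ⟨161, 3, 3, 3, 0, by decide +kernel⟩
      · exact ⟨171, 3, 3, 3, 1, by decide +kernel⟩
      · exact ⟨168, 3, 3, 3, 0, by decide +kernel⟩
      · exact ⟨167, 3, 3, 3, 0, by decide +kernel⟩
      · exact ⟨170, 3, 3, 3, 0, by decide +kernel⟩
      · exact ⟨149, 3, 3, 3, 0, by decide +kernel⟩
      · exact ⟨153, 3, 3, 3, 0, by decide +kernel⟩
    kn := ⟨_, _, _, _, _, checkFour_of_big h_kn⟩
    k2n := ⟨_, _, _, _, _, checkFour_of_big h_k2n⟩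
    k2d := ⟨_, _, _, _, _, checkFour_of_big h_k2d⟩
    vs := ⟨_, _, _, _, _, checkFour_of_big h_vs⟩
    g1 := fun s p l => ⟨_, _, _, _, _, checkFour_of_big (h_g1 s p l)⟩
    g2 := fun s p l t => ⟨_, _, _, _, _, checkFour_of_big (h_g2 s p l t)⟩
    g5 := fun s p l t => ⟨_, _, _, _, _, checkFour_of_big (h_g5 s p l t)⟩
    gMG := fun p l t => ⟨_, _, _, _, _, checkFour_of_big (h_gMG p l t)⟩
    v2 := fun s => ⟨_, _, _, _, _, checkFour_of_big (h_v2 s)⟩
    v5 := fun s => ⟨_, _, _, _, _, checkFour_of_big (h_v5 s)⟩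
    vMG := ⟨_, _, _, _, _, checkFour_of_big h_vMG⟩
    wP := fun b q => ⟨_, _, _, _, _, checkFour_of_big (h_wP b q)⟩
    wE := fun b q => ⟨_, _, _, _, _, checkFour_of_big (h_wE b q)⟩
    wK := fun b q => ⟨_, _, _, _, _, checkFour_of_big (h_wK b q)⟩
    wT := fun b q => ⟨_, _, _, _, _, checkFour_of_big (h_wT b q)⟩
    wW := fun b => ⟨_, _, _, _, _, checkFour_of_big (h_wW b)⟩
    wY := fun b => ⟨_, _, _, _, _, checkFour_of_big (h_wY b)⟩
    gap := fun b q => ⟨_, _, _, _, _, checkFour_of_big (h_gap b q)⟩ }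

end Vale.Agent.P100.Calib.StripEndD
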