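import Vale.Agent.P100.Calib.SlabStripEndIZ7Win0
import Vale.Agent.P100.Calib.SlabStripEndIZ7Win1
import Vale.Agent.P100.Calib.SlabStripEndIZ7Win2
import Vale.Agent.P100.Calib.SlabStripEndIZ7Win3
import Vale.Agent.P100.Calib.SlabStripEndIZ7K71
import Vale.Agent.P100.Calib.SlabStripEndIZ7K72
import Vale.Agent.P100.Calib.SlabStripEndIZ7K74
import Vale.Agent.P100.Calib.SlabStripEndIZ7K75
import Vale.Agent.P100.Calib.SlabStripEndIZ7K76
import Vale.Agent.P100.Calib.SlabStripEndIZ7K77
import Vale.Agent.P100.Calib.SlabStripEndIZ7K78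
import Vale.Agent.P100.Calib.SlabStripEndIZ7K79
import Vale.Agent.P100.Calib.SlabStripEndIZ7K82
import Vale.Agent.P100.Calib.SlabStripEndIZ7K84
import Vale.Agent.P100.Calib.SlabStripEndIZ7K85
import Vale.Agent.P100.Calib.SlabStripEndIZ7K86
import Vale.Agent.P100.Calib.SlabStripEndIZ7K87
import Vale.Agent.P100.Calib.SlabStripEndIZ7K88
import Vale.Agent.P100.Calib.SlabStripEndIZ7K89
import Vale.Agent.P100.Calib.SlabStripEndIZ7K90
import Vale.Agent.P100.Calib.SlabStripEndIZ7K91
import Vale.Agent.P100.Calib.SlabStripEndIZ7K92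
import Vale.Agent.P100.Calib.SlabStripEndIZ7K93
import Vale.Agent.P100.Calib.SlabStripEndIZ7P94
import Vale.Agent.P100.Calib.SlabStripEndIZ7P95
import Vale.Agent.P100.Calib.SlabStripEndIZ7K96
import Vale.Agent.P100.Calib.SlabStripEndIZ7P97
import Vale.Agent.P100.Calib.SlabStripEndIZ7K100
import Vale.Agent.P100.Calib.SlabStripEndIZ7P101
import Vale.Agent.P100.Calib.SlabStripEndIZ7P102
import Vale.Agent.P100.Calib.SlabStripEndIZ7P103
import Vale.Agent.P100.Calib.SlabStripEndIZ7K104
import Vale.Agent.P100.Calib.SlabStripEndIZ7K105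
import Vale.Agent.P100.Calib.SlabStripEndIZ7K106
import Vale.Agent.P100.Calib.SlabStripEndIZ7P108
import Vale.Agent.P100.Calib.SlabStripEndIZ7P109
import Vale.Agent.P100.Calib.SlabStripEndIZ7K111

/-!
# The pieces of the `I` and `Z` charts over their lines (Leaves2)
-/

namespace Vale.Agent.P100.Calib.StripEndD

open Pack hiding ev_add ev_mul
open Pack.Ex StripMid StripEnd

local instance endIZ7Leaves2Add : Add Ex := ⟨Ex.add⟩
local instance endIZ7Leaves2Sub : Sub Ex := ⟨Ex.sub⟩
local instance endIZ7Leaves2Mul : Mul Ex := ⟨Ex.mul⟩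

/-- The piece 71 over its chart. -/
theorem pcIz71_over : pcIz71.Over (wideChart (lineChart izL71 (43, 44, 320) (0, 3, 1600) (75, 83, 100) (118, 50) (139, 50))) :=
  ⟨fun _ => rfl, fun _ => rfl, fun _ => rfl,
    fun x => by simp only [pcIz71, wideChart, lineChart, izL71, ev_add, ev_mul, Ex.eval] <;> push_cast <;> ring,
    fun x => by
      simp only [pcIz71, wideChart, lineChart, afEx, izL71, ev_add, ev_mul, Ex.eval] <;> push_cast <;> ring,
    fun x => by
      simp only [pcIz71, Piece.A, Piece.S, ev_add, ev_sub, ev_mul, Ex.eval]; push_cast; ring,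
    rfl, rfl⟩

/-- The piece 71 with its lines. -/
theorem izLeaf71 : Leaf izL71 (43, 44, 320) (0, 3, 1600) (75, 83, 100) (118, 50) (139, 50) pcIz71 bxIz71 :=
  ⟨by norm_num, izL71_up, izL71_down, Or.inl certIz71, pcIz71_over, ⟨rfl, rfl, rfl, rfl⟩, rfl, rfl⟩

/-- The piece 72 over its chart. -/
theorem pcIz72_over : pcIz72.Over (wideChart (lineChart izL72 (43, 44, 320) (3, 10, 1600) (75, 83, 100) (117, 50) (139, 50))) :=
  ⟨fun _ => rfl, fun _ => rfl, fun _ => rfl,
    fun x => by simp only [pcIz72, wideChart, lineChart, izL72, ev_add, ev_mul, Ex.eval] <;> push_cast <;> ring,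
    fun x => by
      simp only [pcIz72, wideChart, lineChart, afEx, izL72, ev_add, ev_mul, Ex.eval] <;> push_cast <;> ring,
    fun x => by
      simp only [pcIz72, Piece.A, Piece.S, ev_add, ev_sub, ev_mul, Ex.eval]; push_cast; ring,
    rfl, rfl⟩

/-- The piece 72 with its lines. -/
theorem izLeaf72 : Leaf izL72 (43, 44, 320) (3, 10, 1600) (75, 83, 100) (117, 50) (139, 50) pcIz72 bxIz72 :=
  ⟨by norm_num, izL72_up, izL72_down, Or.inl certIz72, pcIz72_over, ⟨rfl, rfl, rfl, rfl⟩, rfl, rfl⟩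

/-- The piece 74 over its chart. -/
theorem pcIz74_over : pcIz74.Over (wideChart (lineChart izL74 (22, 23, 160) (0, 1, 50) (15, 16, 20) (142, 50) (166, 50))) :=
  ⟨fun _ => rfl, fun _ => rfl, fun _ => rfl,
    fun x => by simp only [pcIz74, wideChart, lineChart, izL74, ev_add, ev_mul, Ex.eval] <;> push_cast <;> ring,
    fun x => by
      simp only [pcIz74, wideChart, lineChart, afEx, izL74, ev_add, ev_mul, Ex.eval] <;> push_cast <;> ring,
    fun x => by
      simp only [pcIz74, Piece.A, Piece.S, ev_add, ev_sub, ev_mul, Ex.eval]; push_cast; ring,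
    rfl, rfl⟩

/-- The piece 74 with its lines. -/
theorem izLeaf74 : Leaf izL74 (22, 23, 160) (0, 1, 50) (15, 16, 20) (142, 50) (166, 50) pcIz74 bxIz74 :=
  ⟨by norm_num, izL74_up, izL74_down, Or.inl certIz74, pcIz74_over, ⟨rfl, rfl, rfl, rfl⟩, rfl, rfl⟩

/-- The piece 75 over its chart. -/
theorem pcIz75_over : pcIz75.Over (wideChart (lineChart izL75 (22, 23, 160) (0, 1, 50) (15, 16, 20) (127, 50) (153, 50))) :=
  ⟨fun _ => rfl, fun _ => rfl, fun _ => rfl,
    fun x => by simp only [pcIz75, wideChart, lineChart, izL75, ev_add, ev_mul, Ex.eval] <;> push_cast <;> ring,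
    fun x => by
      simp only [pcIz75, wideChart, lineChart, afEx, izL75, ev_add, ev_mul, Ex.eval] <;> push_cast <;> ring,
    fun x => by
      simp only [pcIz75, Piece.A, Piece.S, ev_add, ev_sub, ev_mul, Ex.eval]; push_cast; ring,
    rfl, rfl⟩

/-- The piece 75 with its lines. -/
theorem izLeaf75 : Leaf izL75 (22, 23, 160) (0, 1, 50) (15, 16, 20) (127, 50) (153, 50) pcIz75 bxIz75 :=
  ⟨by norm_num, izL75_up, izL75_down, Or.inl certIz75, pcIz75_over, ⟨rfl, rfl, rfl, rfl⟩, rfl, rfl⟩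

/-- The piece 76 over its chart. -/
theorem pcIz76_over : pcIz76.Over (wideChart (lineChart izL76 (22, 23, 160) (0, 3, 1600) (15, 16, 20) (119, 50) (142, 50))) :=
  ⟨fun _ => rfl, fun _ => rfl, fun _ => rfl,
    fun x => by simp only [pcIz76, wideChart, lineChart, izL76, ev_add, ev_mul, Ex.eval] <;> push_cast <;> ring,
    fun x => by
      simp only [pcIz76, wideChart, lineChart, afEx, izL76, ev_add, ev_mul, Ex.eval] <;> push_cast <;> ring,
    fun x => by
      simp only [pcIz76, Piece.A, Piece.S, ev_add, ev_sub, ev_mul, Ex.eval]; push_cast; ring,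
    rfl, rfl⟩

/-- The piece 76 with its lines. -/
theorem izLeaf76 : Leaf izL76 (22, 23, 160) (0, 3, 1600) (15, 16, 20) (119, 50) (142, 50) pcIz76 bxIz76 :=
  ⟨by norm_num, izL76_up, izL76_down, Or.inl certIz76, pcIz76_over, ⟨rfl, rfl, rfl, rfl⟩, rfl, rfl⟩

/-- The piece 77 over its chart. -/
theorem pcIz77_over : pcIz77.Over (wideChart (lineChart izL77 (22, 23, 160) (3, 10, 1600) (15, 16, 20) (118, 50) (142, 50))) :=
  ⟨fun _ => rfl, fun _ => rfl, fun _ => rfl,
    fun x => by simp only [pcIz77, wideChart, lineChart, izL77, ev_add, ev_mul, Ex.eval] <;> push_cast <;> ring,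
    fun x => by
      simp only [pcIz77, wideChart, lineChart, afEx, izL77, ev_add, ev_mul, Ex.eval] <;> push_cast <;> ring,
    fun x => by
      simp only [pcIz77, Piece.A, Piece.S, ev_add, ev_sub, ev_mul, Ex.eval]; push_cast; ring,
    rfl, rfl⟩

/-- The piece 77 with its lines. -/
theorem izLeaf77 : Leaf izL77 (22, 23, 160) (3, 10, 1600) (15, 16, 20) (118, 50) (142, 50) pcIz77 bxIz77 :=
  ⟨by norm_num, izL77_up, izL77_down, Or.inl certIz77, pcIz77_over, ⟨rfl, rfl, rfl, rfl⟩, rfl, rfl⟩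

/-- The piece 78 over its chart. -/
theorem pcIz78_over : pcIz78.Over (wideChart (lineChart izL78 (22, 23, 160) (5, 16, 800) (15, 16, 20) (117, 50) (142, 50))) :=
  ⟨fun _ => rfl, fun _ => rfl, fun _ => rfl,
    fun x => by simp only [pcIz78, wideChart, lineChart, izL78, ev_add, ev_mul, Ex.eval] <;> push_cast <;> ring,
    fun x => by
      simp only [pcIz78, wideChart, lineChart, afEx, izL78, ev_add, ev_mul, Ex.eval] <;> push_cast <;> ring,
    fun x => by
      simp only [pcIz78, Piece.A, Piece.S, ev_add, ev_sub, ev_mul, Ex.eval]; push_cast; ring,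
    rfl, rfl⟩

/-- The piece 78 with its lines. -/
theorem izLeaf78 : Leaf izL78 (22, 23, 160) (5, 16, 800) (15, 16, 20) (117, 50) (142, 50) pcIz78 bxIz78 :=
  ⟨by norm_num, izL78_up, izL78_down, Or.inl certIz78, pcIz78_over, ⟨rfl, rfl, rfl, rfl⟩, rfl, rfl⟩

/-- The piece 79 over its chart. -/
theorem pcIz79_over : pcIz79.Over (wideChart (lineChart izL79 (2, 3, 40) (1, 50, 50) (15, 19, 20) (84, 50) (128, 50))) :=
  ⟨fun _ => rfl, fun _ => rfl, fun _ => rfl,
    fun x => by simp only [pcIz79, wideChart, lineChart, izL79, ev_add, ev_mul, Ex.eval] <;> push_cast <;> ring,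
    fun x => by
      simp only [pcIz79, wideChart, lineChart, afEx, izL79, ev_add, ev_mul, Ex.eval] <;> push_cast <;> ring,
    fun x => by
      simp only [pcIz79, Piece.A, Piece.S, ev_add, ev_sub, ev_mul, Ex.eval]; push_cast; ring,
    rfl, rfl⟩

/-- The piece 79 with its lines. -/
theorem izLeaf79 : Leaf izL79 (2, 3, 40) (1, 50, 50) (15, 19, 20) (84, 50) (128, 50) pcIz79 bxIz79 :=
  ⟨by norm_num, izL79_up, izL79_down, Or.inl certIz79, pcIz79_over, ⟨rfl, rfl, rfl, rfl⟩, rfl, rfl⟩

/-- The piece 82 over its chart. -/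
theorem pcIz82_over : pcIz82.Over (wideChart (lineChart izL82 (20, 23, 160) (2, 15, 100) (75, 89, 100) (95, 50) (169, 50))) :=
  ⟨fun _ => rfl, fun _ => rfl, fun _ => rfl,
    fun x => by simp only [pcIz82, wideChart, lineChart, izL82, ev_add, ev_mul, Ex.eval] <;> push_cast <;> ring,
    fun x => by
      simp only [pcIz82, wideChart, lineChart, afEx, izL82, ev_add, ev_mul, Ex.eval] <;> push_cast <;> ring,
    fun x => by
      simp only [pcIz82, Piece.A, Piece.S, ev_add, ev_sub, ev_mul, Ex.eval]; push_cast; ring,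
    rfl, rfl⟩

/-- The piece 82 with its lines. -/
theorem izLeaf82 : Leaf izL82 (20, 23, 160) (2, 15, 100) (75, 89, 100) (95, 50) (169, 50) pcIz82 bxIz82 :=
  ⟨by norm_num, izL82_up, izL82_down, Or.inl certIz82, pcIz82_over, ⟨rfl, rfl, rfl, rfl⟩, rfl, rfl⟩

/-- The piece 84 over its chart. -/
theorem pcIz84_over : pcIz84.Over (wideChart (lineChart izL84 (1, 2, 20) (1, 2, 1) (0, 1, 2) (68, 50) (125, 50))) :=
  ⟨fun _ => rfl, fun _ => rfl, fun _ => rfl,
    fun x => by simp only [pcIz84, wideChart, lineChart, izL84, ev_add, ev_mul, Ex.eval] <;> push_cast <;> ring,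
    fun x => by
      simp only [pcIz84, wideChart, lineChart, afEx, izL84, ev_add, ev_mul, Ex.eval] <;> push_cast <;> ring,
    fun x => by
      simp only [pcIz84, Piece.A, Piece.S, ev_add, ev_sub, ev_mul, Ex.eval]; push_cast; ring,
    rfl, rfl⟩

/-- The piece 84 with its lines. -/
theorem izLeaf84 : Leaf izL84 (1, 2, 20) (1, 2, 1) (0, 1, 2) (68, 50) (125, 50) pcIz84 bxIz84 :=
  ⟨by norm_num, izL84_up, izL84_down, Or.inl certIz84, pcIz84_over, ⟨rfl, rfl, rfl, rfl⟩, rfl, rfl⟩

/-- The piece 85 over its chart. -/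
theorem pcIz85_over : pcIz85.Over (wideChart (lineChart izL85 (1, 2, 20) (2, 4, 1) (0, 1, 2) (35, 50) (147, 50))) :=
  ⟨fun _ => rfl, fun _ => rfl, fun _ => rfl,
    fun x => by simp only [pcIz85, wideChart, lineChart, izL85, ev_add, ev_mul, Ex.eval] <;> push_cast <;> ring,
    fun x => by
      simp only [pcIz85, wideChart, lineChart, afEx, izL85, ev_add, ev_mul, Ex.eval] <;> push_cast <;> ring,
    fun x => by
      simp only [pcIz85, Piece.A, Piece.S, ev_add, ev_sub, ev_mul, Ex.eval]; push_cast; ring,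
    rfl, rfl⟩

/-- The piece 85 with its lines. -/
theorem izLeaf85 : Leaf izL85 (1, 2, 20) (2, 4, 1) (0, 1, 2) (35, 50) (147, 50) pcIz85 bxIz85 :=
  ⟨by norm_num, izL85_up, izL85_down, Or.inl certIz85, pcIz85_over, ⟨rfl, rfl, rfl, rfl⟩, rfl, rfl⟩

/-- The piece 86 over its chart. -/
theorem pcIz86_over : pcIz86.Over (wideChart (lineChart izL86 (16, 23, 160) (1, 2, 1) (0, 1, 2) (46, 50) (154, 50))) :=
  ⟨fun _ => rfl, fun _ => rfl, fun _ => rfl,
    fun x => by simp only [pcIz86, wideChart, lineChart, izL86, ev_add, ev_mul, Ex.eval] <;> push_cast <;> ring,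
    fun x => by
      simp only [pcIz86, wideChart, lineChart, afEx, izL86, ev_add, ev_mul, Ex.eval] <;> push_cast <;> ring,
    fun x => by
      simp only [pcIz86, Piece.A, Piece.S, ev_add, ev_sub, ev_mul, Ex.eval]; push_cast; ring,
    rfl, rfl⟩

/-- The piece 86 with its lines. -/
theorem izLeaf86 : Leaf izL86 (16, 23, 160) (1, 2, 1) (0, 1, 2) (46, 50) (154, 50) pcIz86 bxIz86 :=
  ⟨by norm_num, izL86_up, izL86_down, Or.inl certIz86, pcIz86_over, ⟨rfl, rfl, rfl, rfl⟩, rfl, rfl⟩

/-- The piece 87 over its chart. -/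
theorem pcIz87_over : pcIz87.Over (wideChart (lineChart izL87 (1, 2, 20) (1, 2, 1) (2, 3, 4) (65, 50) (129, 50))) :=
  ⟨fun _ => rfl, fun _ => rfl, fun _ => rfl,
    fun x => by simp only [pcIz87, wideChart, lineChart, izL87, ev_add, ev_mul, Ex.eval] <;> push_cast <;> ring,
    fun x => by
      simp only [pcIz87, wideChart, lineChart, afEx, izL87, ev_add, ev_mul, Ex.eval] <;> push_cast <;> ring,
    fun x => by
      simp only [pcIz87, Piece.A, Piece.S, ev_add, ev_sub, ev_mul, Ex.eval]; push_cast; ring,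
    rfl, rfl⟩

/-- The piece 87 with its lines. -/
theorem izLeaf87 : Leaf izL87 (1, 2, 20) (1, 2, 1) (2, 3, 4) (65, 50) (129, 50) pcIz87 bxIz87 :=
  ⟨by norm_num, izL87_up, izL87_down, Or.inl certIz87, pcIz87_over, ⟨rfl, rfl, rfl, rfl⟩, rfl, rfl⟩

/-- The piece 88 over its chart. -/
theorem pcIz88_over : pcIz88.Over (wideChart (lineChart izL88 (1, 2, 20) (2, 4, 1) (2, 3, 4) (29, 50) (152, 50))) :=
  ⟨fun _ => rfl, fun _ => rfl, fun _ => rfl,
    fun x => by simp only [pcIz88, wideChart, lineChart, izL88, ev_add, ev_mul, Ex.eval] <;> push_cast <;> ring,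
    fun x => by
      simp only [pcIz88, wideChart, lineChart, afEx, izL88, ev_add, ev_mul, Ex.eval] <;> push_cast <;> ring,
    fun x => by
      simp only [pcIz88, Piece.A, Piece.S, ev_add, ev_sub, ev_mul, Ex.eval]; push_cast; ring,
    rfl, rfl⟩

/-- The piece 88 with its lines. -/
theorem izLeaf88 : Leaf izL88 (1, 2, 20) (2, 4, 1) (2, 3, 4) (29, 50) (152, 50) pcIz88 bxIz88 :=
  ⟨by norm_num, izL88_up, izL88_down, Or.inl certIz88, pcIz88_over, ⟨rfl, rfl, rfl, rfl⟩, rfl, rfl⟩

/-- The piece 89 over its chart. -/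
theorem pcIz89_over : pcIz89.Over (wideChart (lineChart izL89 (16, 23, 160) (1, 2, 1) (2, 3, 4) (39, 50) (163, 50))) :=
  ⟨fun _ => rfl, fun _ => rfl, fun _ => rfl,
    fun x => by simp only [pcIz89, wideChart, lineChart, izL89, ev_add, ev_mul, Ex.eval] <;> push_cast <;> ring,
    fun x => by
      simp only [pcIz89, wideChart, lineChart, afEx, izL89, ev_add, ev_mul, Ex.eval] <;> push_cast <;> ring,
    fun x => by
      simp only [pcIz89, Piece.A, Piece.S, ev_add, ev_sub, ev_mul, Ex.eval]; push_cast; ring,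
    rfl, rfl⟩

/-- The piece 89 with its lines. -/
theorem izLeaf89 : Leaf izL89 (16, 23, 160) (1, 2, 1) (2, 3, 4) (39, 50) (163, 50) pcIz89 bxIz89 :=
  ⟨by norm_num, izL89_up, izL89_down, Or.inl certIz89, pcIz89_over, ⟨rfl, rfl, rfl, rfl⟩, rfl, rfl⟩

/-- The piece 90 over its chart. -/
theorem pcIz90_over : pcIz90.Over (wideChart (lineChart izL90 (1, 2, 20) (1, 4, 1) (15, 19, 20) (29, 50) (153, 50))) :=
  ⟨fun _ => rfl, fun _ => rfl, fun _ => rfl,
    fun x => by simp only [pcIz90, wideChart, lineChart, izL90, ev_add, ev_mul, Ex.eval] <;> push_cast <;> ring,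
    fun x => by
      simp only [pcIz90, wideChart, lineChart, afEx, izL90, ev_add, ev_mul, Ex.eval] <;> push_cast <;> ring,
    fun x => by
      simp only [pcIz90, Piece.A, Piece.S, ev_add, ev_sub, ev_mul, Ex.eval]; push_cast; ring,
    rfl, rfl⟩

/-- The piece 90 with its lines. -/
theorem izLeaf90 : Leaf izL90 (1, 2, 20) (1, 4, 1) (15, 19, 20) (29, 50) (153, 50) pcIz90 bxIz90 :=
  ⟨by norm_num, izL90_up, izL90_down, Or.inl certIz90, pcIz90_over, ⟨rfl, rfl, rfl, rfl⟩, rfl, rfl⟩

/-- The piece 91 over its chart. -/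
theorem pcIz91_over : pcIz91.Over (wideChart (lineChart izL91 (16, 23, 160) (1, 2, 1) (75, 89, 100) (41, 50) (165, 50))) :=
  ⟨fun _ => rfl, fun _ => rfl, fun _ => rfl,
    fun x => by simp only [pcIz91, wideChart, lineChart, izL91, ev_add, ev_mul, Ex.eval] <;> push_cast <;> ring,
    fun x => by
      simp only [pcIz91, wideChart, lineChart, afEx, izL91, ev_add, ev_mul, Ex.eval] <;> push_cast <;> ring,
    fun x => by
      simp only [pcIz91, Piece.A, Piece.S, ev_add, ev_sub, ev_mul, Ex.eval]; push_cast; ring,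
    rfl, rfl⟩

/-- The piece 91 with its lines. -/
theorem izLeaf91 : Leaf izL91 (16, 23, 160) (1, 2, 1) (75, 89, 100) (41, 50) (165, 50) pcIz91 bxIz91 :=
  ⟨by norm_num, izL91_up, izL91_down, Or.inl certIz91, pcIz91_over, ⟨rfl, rfl, rfl, rfl⟩, rfl, rfl⟩

/-- The piece 92 over its chart. -/
theorem pcIz92_over : pcIz92.Over (wideChart (lineChart izL92 (2, 3, 40) (0, 1, 50) (9, 10, 10) (104, 50) (131, 50))) :=
  ⟨fun _ => rfl, fun _ => rfl, fun _ => rfl,
    fun x => by simp only [pcIz92, wideChart, lineChart, izL92, ev_add, ev_mul, Ex.eval] <;> push_cast <;> ring,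
    fun x => by
      simp only [pcIz92, wideChart, lineChart, afEx, izL92, ev_add, ev_mul, Ex.eval] <;> push_cast <;> ring,
    fun x => by
      simp only [pcIz92, Piece.A, Piece.S, ev_add, ev_sub, ev_mul, Ex.eval]; push_cast; ring,
    rfl, rfl⟩

/-- The piece 92 with its lines. -/
theorem izLeaf92 : Leaf izL92 (2, 3, 40) (0, 1, 50) (9, 10, 10) (104, 50) (131, 50) pcIz92 bxIz92 :=
  ⟨by norm_num, izL92_up, izL92_down, Or.inl certIz92, pcIz92_over, ⟨rfl, rfl, rfl, rfl⟩, rfl, rfl⟩

/-- The piece 93 over its chart. -/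
theorem pcIz93_over : pcIz93.Over (wideChart (lineChart izL93 (3, 4, 40) (0, 1, 50) (7, 8, 8) (114, 50) (147, 50))) :=
  ⟨fun _ => rfl, fun _ => rfl, fun _ => rfl,
    fun x => by simp only [pcIz93, wideChart, lineChart, izL93, ev_add, ev_mul, Ex.eval] <;> push_cast <;> ring,
    fun x => by
      simp only [pcIz93, wideChart, lineChart, afEx, izL93, ev_add, ev_mul, Ex.eval] <;> push_cast <;> ring,
    fun x => by
      simp only [pcIz93, Piece.A, Piece.S, ev_add, ev_sub, ev_mul, Ex.eval]; push_cast; ring,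
    rfl, rfl⟩

/-- The piece 93 with its lines. -/
theorem izLeaf93 : Leaf izL93 (3, 4, 40) (0, 1, 50) (7, 8, 8) (114, 50) (147, 50) pcIz93 bxIz93 :=
  ⟨by norm_num, izL93_up, izL93_down, Or.inl certIz93, pcIz93_over, ⟨rfl, rfl, rfl, rfl⟩, rfl, rfl⟩

/-- The piece 94 over its chart. -/
theorem pcIz94_over : pcIz94.Over (wideChart (lineChart izL94 (3, 4, 40) (0, 1, 50) (22, 25, 25) (110, 50) (131, 50))) :=
  ⟨fun _ => rfl, fun _ => rfl, fun _ => rfl,
    fun x => by simp only [pcIz94, wideChart, lineChart, izL94, ev_add, ev_mul, Ex.eval] <;> push_cast <;> ring,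
    fun x => by
      simp only [pcIz94, wideChart, lineChart, afEx, izL94, ev_add, ev_mul, Ex.eval] <;> push_cast <;> ring,
    fun x => by
      simp only [pcIz94, Piece.A, Piece.S, ev_add, ev_sub, ev_mul, Ex.eval]; push_cast; ring,
    rfl, rfl⟩

/-- The piece 94 with its lines. -/
theorem izLeaf94 : Leaf izL94 (3, 4, 40) (0, 1, 50) (22, 25, 25) (110, 50) (131, 50) pcIz94 bxIz94 :=
  ⟨by norm_num, izL94_up, izL94_down, Or.inl certIz94, pcIz94_over, ⟨rfl, rfl, rfl, rfl⟩, rfl, rfl⟩

/-- The piece 95 over its chart. -/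
theorem pcIz95_over : pcIz95.Over (wideChart (lineChart izL95 (3, 4, 40) (0, 1, 50) (22, 25, 25) (107, 50) (127, 50))) :=
  ⟨fun _ => rfl, fun _ => rfl, fun _ => rfl,
    fun x => by simp only [pcIz95, wideChart, lineChart, izL95, ev_add, ev_mul, Ex.eval] <;> push_cast <;> ring,
    fun x => by
      simp only [pcIz95, wideChart, lineChart, afEx, izL95, ev_add, ev_mul, Ex.eval] <;> push_cast <;> ring,
    fun x => by
      simp only [pcIz95, Piece.A, Piece.S, ev_add, ev_sub, ev_mul, Ex.eval]; push_cast; ring,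
    rfl, rfl⟩

/-- The piece 95 with its lines. -/
theorem izLeaf95 : Leaf izL95 (3, 4, 40) (0, 1, 50) (22, 25, 25) (107, 50) (127, 50) pcIz95 bxIz95 :=
  ⟨by norm_num, izL95_up, izL95_down, Or.inl certIz95, pcIz95_over, ⟨rfl, rfl, rfl, rfl⟩, rfl, rfl⟩

/-- The piece 96 over its chart. -/
theorem pcIz96_over : pcIz96.Over (wideChart (lineChart izL96 (8, 9, 80) (0, 1, 500) (17, 20, 20) (119, 50) (157, 50))) :=
  ⟨fun _ => rfl, fun _ => rfl, fun _ => rfl,
    fun x => by simp only [pcIz96, wideChart, lineChart, izL96, ev_add, ev_mul, Ex.eval] <;> push_cast <;> ring,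
    fun x => by
      simp only [pcIz96, wideChart, lineChart, afEx, izL96, ev_add, ev_mul, Ex.eval] <;> push_cast <;> ring,
    fun x => by
      simp only [pcIz96, Piece.A, Piece.S, ev_add, ev_sub, ev_mul, Ex.eval]; push_cast; ring,
    rfl, rfl⟩

/-- The piece 96 with its lines. -/
theorem izLeaf96 : Leaf izL96 (8, 9, 80) (0, 1, 500) (17, 20, 20) (119, 50) (157, 50) pcIz96 bxIz96 :=
  ⟨by norm_num, izL96_up, izL96_down, Or.inl certIz96, pcIz96_over, ⟨rfl, rfl, rfl, rfl⟩, rfl, rfl⟩

/-- The piece 97 over its chart. -/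
theorem pcIz97_over : pcIz97.Over (wideChart (lineChart izL97 (4, 5, 40) (0, 1, 500) (17, 20, 20) (113, 50) (143, 50))) :=
  ⟨fun _ => rfl, fun _ => rfl, fun _ => rfl,
    fun x => by simp only [pcIz97, wideChart, lineChart, izL97, ev_add, ev_mul, Ex.eval] <;> push_cast <;> ring,
    fun x => by
      simp only [pcIz97, wideChart, lineChart, afEx, izL97, ev_add, ev_mul, Ex.eval] <;> push_cast <;> ring,
    fun x => by
      simp only [pcIz97, Piece.A, Piece.S, ev_add, ev_sub, ev_mul, Ex.eval]; push_cast; ring,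
    rfl, rfl⟩

/-- The piece 97 with its lines. -/
theorem izLeaf97 : Leaf izL97 (4, 5, 40) (0, 1, 500) (17, 20, 20) (113, 50) (143, 50) pcIz97 bxIz97 :=
  ⟨by norm_num, izL97_up, izL97_down, Or.inl certIz97, pcIz97_over, ⟨rfl, rfl, rfl, rfl⟩, rfl, rfl⟩

/-- The piece 100 over its chart. -/
theorem pcIz100_over : pcIz100.Over (wideChart (lineChart izL100 (20, 21, 160) (0, 1, 160) (21, 25, 25) (147, 50) (175, 50))) :=
  ⟨fun _ => rfl, fun _ => rfl, fun _ => rfl,
    fun x => by simp only [pcIz100, wideChart, lineChart, izL100, ev_add, ev_mul, Ex.eval] <;> push_cast <;> ring,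
    fun x => by
      simp only [pcIz100, wideChart, lineChart, afEx, izL100, ev_add, ev_mul, Ex.eval] <;> push_cast <;> ring,
    fun x => by
      simp only [pcIz100, Piece.A, Piece.S, ev_add, ev_sub, ev_mul, Ex.eval]; push_cast; ring,
    rfl, rfl⟩

/-- The piece 100 with its lines. -/
theorem izLeaf100 : Leaf izL100 (20, 21, 160) (0, 1, 160) (21, 25, 25) (147, 50) (175, 50) pcIz100 bxIz100 :=
  ⟨by norm_num, izL100_up, izL100_down, Or.inl certIz100, pcIz100_over, ⟨rfl, rfl, rfl, rfl⟩, rfl, rfl⟩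

/-- The piece 101 over its chart. -/
theorem pcIz101_over : pcIz101.Over (wideChart (lineChart izL101 (20, 21, 160) (0, 1, 160) (21, 25, 25) (135, 50) (166, 50))) :=
  ⟨fun _ => rfl, fun _ => rfl, fun _ => rfl,
    fun x => by simp only [pcIz101, wideChart, lineChart, izL101, ev_add, ev_mul, Ex.eval] <;> push_cast <;> ring,
    fun x => by
      simp only [pcIz101, wideChart, lineChart, afEx, izL101, ev_add, ev_mul, Ex.eval] <;> push_cast <;> ring,
    fun x => by
      simp only [pcIz101, Piece.A, Piece.S, ev_add, ev_sub, ev_mul, Ex.eval]; push_cast; ring,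
    rfl, rfl⟩

/-- The piece 101 with its lines. -/
theorem izLeaf101 : Leaf izL101 (20, 21, 160) (0, 1, 160) (21, 25, 25) (135, 50) (166, 50) pcIz101 bxIz101 :=
  ⟨by norm_num, izL101_up, izL101_down, Or.inl certIz101, pcIz101_over, ⟨rfl, rfl, rfl, rfl⟩, rfl, rfl⟩

/-- The piece 102 over its chart. -/
theorem pcIz102_over : pcIz102.Over (wideChart (lineChart izL102 (20, 21, 160) (0, 1, 500) (21, 25, 25) (123, 50) (153, 50))) :=
  ⟨fun _ => rfl, fun _ => rfl, fun _ => rfl,
    fun x => by simp only [pcIz102, wideChart, lineChart, izL102, ev_add, ev_mul, Ex.eval] <;> push_cast <;> ring,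
    fun x => by
      simp only [pcIz102, wideChart, lineChart, afEx, izL102, ev_add, ev_mul, Ex.eval] <;> push_cast <;> ring,
    fun x => by
      simp only [pcIz102, Piece.A, Piece.S, ev_add, ev_sub, ev_mul, Ex.eval]; push_cast; ring,
    rfl, rfl⟩

/-- The piece 102 with its lines. -/
theorem izLeaf102 : Leaf izL102 (20, 21, 160) (0, 1, 500) (21, 25, 25) (123, 50) (153, 50) pcIz102 bxIz102 :=
  ⟨by norm_num, izL102_up, izL102_down, Or.inl certIz102, pcIz102_over, ⟨rfl, rfl, rfl, rfl⟩, rfl, rfl⟩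

/-- The piece 103 over its chart. -/
theorem pcIz103_over : pcIz103.Over (wideChart (lineChart izL103 (20, 21, 160) (0, 1, 500) (21, 25, 25) (120, 50) (144, 50))) :=
  ⟨fun _ => rfl, fun _ => rfl, fun _ => rfl,
    fun x => by simp only [pcIz103, wideChart, lineChart, izL103, ev_add, ev_mul, Ex.eval] <;> push_cast <;> ring,
    fun x => by
      simp only [pcIz103, wideChart, lineChart, afEx, izL103, ev_add, ev_mul, Ex.eval] <;> push_cast <;> ring,
    fun x => by
      simp only [pcIz103, Piece.A, Piece.S, ev_add, ev_sub, ev_mul, Ex.eval]; push_cast; ring,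
    rfl, rfl⟩

/-- The piece 103 with its lines. -/
theorem izLeaf103 : Leaf izL103 (20, 21, 160) (0, 1, 500) (21, 25, 25) (120, 50) (144, 50) pcIz103 bxIz103 :=
  ⟨by norm_num, izL103_up, izL103_down, Or.inl certIz103, pcIz103_over, ⟨rfl, rfl, rfl, rfl⟩, rfl, rfl⟩

/-- The piece 104 over its chart. -/
theorem pcIz104_over : pcIz104.Over (wideChart (lineChart izL104 (50, 51, 400) (0, 1, 500) (21, 25, 25) (120, 50) (140, 50))) :=
  ⟨fun _ => rfl, fun _ => rfl, fun _ => rfl,
    fun x => by simp only [pcIz104, wideChart, lineChart, izL104, ev_add, ev_mul, Ex.eval] <;> push_cast <;> ring,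
    fun x => by
      simp only [pcIz104, wideChart, lineChart, afEx, izL104, ev_add, ev_mul, Ex.eval] <;> push_cast <;> ring,
    fun x => by
      simp only [pcIz104, Piece.A, Piece.S, ev_add, ev_sub, ev_mul, Ex.eval]; push_cast; ring,
    rfl, rfl⟩

/-- The piece 104 with its lines. -/
theorem izLeaf104 : Leaf izL104 (50, 51, 400) (0, 1, 500) (21, 25, 25) (120, 50) (140, 50) pcIz104 bxIz104 :=
  ⟨by norm_num, izL104_up, izL104_down, Or.inl certIz104, pcIz104_over, ⟨rfl, rfl, rfl, rfl⟩, rfl, rfl⟩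

/-- The piece 105 over its chart. -/
theorem pcIz105_over : pcIz105.Over (wideChart (lineChart izL105 (102, 105, 800) (0, 1, 500) (21, 22, 25) (120, 50) (137, 50))) :=
  ⟨fun _ => rfl, fun _ => rfl, fun _ => rfl,
    fun x => by simp only [pcIz105, wideChart, lineChart, izL105, ev_add, ev_mul, Ex.eval] <;> push_cast <;> ring,
    fun x => by
      simp only [pcIz105, wideChart, lineChart, afEx, izL105, ev_add, ev_mul, Ex.eval] <;> push_cast <;> ring,
    fun x => by
      simp only [pcIz105, Piece.A, Piece.S, ev_add, ev_sub, ev_mul, Ex.eval]; push_cast; ring,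
    rfl, rfl⟩

/-- The piece 105 with its lines. -/
theorem izLeaf105 : Leaf izL105 (102, 105, 800) (0, 1, 500) (21, 22, 25) (120, 50) (137, 50) pcIz105 bxIz105 :=
  ⟨by norm_num, izL105_up, izL105_down, Or.inl certIz105, pcIz105_over, ⟨rfl, rfl, rfl, rfl⟩, rfl, rfl⟩

/-- The piece 106 over its chart. -/
theorem pcIz106_over : pcIz106.Over (wideChart (lineChart izL106 (102, 105, 800) (0, 1, 500) (22, 25, 25) (123, 50) (142, 50))) :=
  ⟨fun _ => rfl, fun _ => rfl, fun _ => rfl,
    fun x => by simp only [pcIz106, wideChart, lineChart, izL106, ev_add, ev_mul, Ex.eval] <;> push_cast <;> ring,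
    fun x => by
      simp only [pcIz106, wideChart, lineChart, afEx, izL106, ev_add, ev_mul, Ex.eval] <;> push_cast <;> ring,
    fun x => by
      simp only [pcIz106, Piece.A, Piece.S, ev_add, ev_sub, ev_mul, Ex.eval]; push_cast; ring,
    rfl, rfl⟩

/-- The piece 106 with its lines. -/
theorem izLeaf106 : Leaf izL106 (102, 105, 800) (0, 1, 500) (22, 25, 25) (123, 50) (142, 50) pcIz106 bxIz106 :=
  ⟨by norm_num, izL106_up, izL106_down, Or.inl certIz106, pcIz106_over, ⟨rfl, rfl, rfl, rfl⟩, rfl, rfl⟩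

/-- The piece 108 over its chart. -/
theorem pcIz108_over : pcIz108.Over (wideChart (lineChart izL108 (20, 21, 160) (3, 6, 1600) (21, 25, 25) (119, 50) (153, 50))) :=
  ⟨fun _ => rfl, fun _ => rfl, fun _ => rfl,
    fun x => by simp only [pcIz108, wideChart, lineChart, izL108, ev_add, ev_mul, Ex.eval] <;> push_cast <;> ring,
    fun x => by
      simp only [pcIz108, wideChart, lineChart, afEx, izL108, ev_add, ev_mul, Ex.eval] <;> push_cast <;> ring,
    fun x => by
      simp only [pcIz108, Piece.A, Piece.S, ev_add, ev_sub, ev_mul, Ex.eval]; push_cast; ring,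
    rfl, rfl⟩

/-- The piece 108 with its lines. -/
theorem izLeaf108 : Leaf izL108 (20, 21, 160) (3, 6, 1600) (21, 25, 25) (119, 50) (153, 50) pcIz108 bxIz108 :=
  ⟨by norm_num, izL108_up, izL108_down, Or.inl certIz108, pcIz108_over, ⟨rfl, rfl, rfl, rfl⟩, rfl, rfl⟩

/-- The piece 109 over its chart. -/
theorem pcIz109_over : pcIz109.Over (wideChart (lineChart izL109 (20, 21, 160) (3, 5, 800) (21, 25, 25) (119, 50) (153, 50))) :=
  ⟨fun _ => rfl, fun _ => rfl, fun _ => rfl,
    fun x => by simp only [pcIz109, wideChart, lineChart, izL109, ev_add, ev_mul, Ex.eval] <;> push_cast <;> ring,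
    fun x => by
      simp only [pcIz109, wideChart, lineChart, afEx, izL109, ev_add, ev_mul, Ex.eval] <;> push_cast <;> ring,
    fun x => by
      simp only [pcIz109, Piece.A, Piece.S, ev_add, ev_sub, ev_mul, Ex.eval]; push_cast; ring,
    rfl, rfl⟩

/-- The piece 109 with its lines. -/
theorem izLeaf109 : Leaf izL109 (20, 21, 160) (3, 5, 800) (21, 25, 25) (119, 50) (153, 50) pcIz109 bxIz109 :=
  ⟨by norm_num, izL109_up, izL109_down, Or.inl certIz109, pcIz109_over, ⟨rfl, rfl, rfl, rfl⟩, rfl, rfl⟩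

/-- The piece 111 over its chart. -/
theorem pcIz111_over : pcIz111.Over (wideChart (lineChart izL111 (105, 108, 800) (0, 1, 50) (42, 45, 50) (146, 50) (168, 50))) :=
  ⟨fun _ => rfl, fun _ => rfl, fun _ => rfl,
    fun x => by simp only [pcIz111, wideChart, lineChart, izL111, ev_add, ev_mul, Ex.eval] <;> push_cast <;> ring,
    fun x => by
      simp only [pcIz111, wideChart, lineChart, afEx, izL111, ev_add, ev_mul, Ex.eval] <;> push_cast <;> ring,
    fun x => by
      simp only [pcIz111, Piece.A, Piece.S, ev_add, ev_sub, ev_mul, Ex.eval]; push_cast; ring,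
    rfl, rfl⟩

/-- The piece 111 with its lines. -/
theorem izLeaf111 : Leaf izL111 (105, 108, 800) (0, 1, 50) (42, 45, 50) (146, 50) (168, 50) pcIz111 bxIz111 :=
  ⟨by norm_num, izL111_up, izL111_down, Or.inl certIz111, pcIz111_over, ⟨rfl, rfl, rfl, rfl⟩, rfl, rfl⟩

end Vale.Agent.P100.Calib.StripEndD
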