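import Vale.Agent.P100.Calib.SlabStripEndIZ7LineFacts
import Vale.Agent.P100.Calib.SlabStripEndIZ7Leaves2

/-!
# The signs in the pieces of the `I` and `Z` charts (At2)
-/

set_option linter.unusedVariables false
set_option linter.unusedTactic false
set_option linter.unreachableTactic false
set_option linter.unusedSimpArgs false
set_option linter.unnecessarySeqFocus false

namespace Vale.Agent.P100.Calib.StripEndD

open Pack hiding ev_add ev_mul
open Pack.Ex Band StripMid StripEnd

local instance endIZ7At2Add : Add Ex := ⟨Ex.add⟩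
local instance endIZ7At2Sub : Sub Ex := ⟨Ex.sub⟩
local instance endIZ7At2Mul : Mul Ex := ⟨Ex.mul⟩

/-- The signs in the piece 71. -/
theorem izAt71 {n : ℕ} {a b u v t H I r s : ℝ} (hb : Closed.All.ChartBox n (b - a) (a + b))
    (hF : Closed.All.ChartFacts (b - a) (a + b) u v t)
    (hH : Closed.chH (b - a) (a + b) u v t = H) (hB : EndBands7 a b u v H)
    (hside : DLow a b) (hE : ExitLine a b u v) (hI : IPt a b u I r s) (hI0 : 0 < I)
    (q0l : (43 / 320 : ℝ) < I) (q0u : I ≤ (11 / 80 : ℝ)) (q1l : (0 : ℝ) < r) (q1u : r ≤ (3 / 1600 : ℝ)) (q2l : (3 / 4 : ℝ) < s) (q2u : s ≤ (83 / 100 : ℝ)) (kl : (243 : ℝ) < (500 : ℝ) * (1 - a * v)) :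
    Closed.Strip.ChartSigns (b - a) (a + b) u v t := by
  obtain ⟨hl, hr⟩ := izLine40 hB hE hI0 (⟨hI, (inU_of (by norm_num) (by norm_num; linarith) (by norm_num; linarith)), (inU_of (by norm_num) (by norm_num; linarith) (by norm_num; linarith)), (inU_of (by norm_num) (by norm_num; linarith) (by norm_num; linarith)), by norm_num [Lines.denV, izM40] <;> linarith⟩ : InLines izM40 (43, 44, 320) (0, 1, 160) (75, 83, 100) a b u I r s)
  norm_num [afVal, Lines.denV, izM40] at hl hr
  refine izLeaf71.low rfl rfl hb hF hH hB hside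
    (⟨hI, (inU_of (by norm_num) (by norm_num; linarith) (by norm_num; linarith)), (inU_of (by norm_num) (by norm_num; linarith) (by norm_num; linarith)), (inU_of (by norm_num) (by norm_num; linarith) (by norm_num; linarith)), by norm_num [Lines.denV, izL71] <;> linarith⟩ : InLines izL71 (43, 44, 320) (0, 3, 1600) (75, 83, 100) a b u I r s) ?_ ?_
  all_goals norm_num [afVal, Lines.denV, izL71] <;> linarith

/-- The signs in the piece 72. -/
theorem izAt72 {n : ℕ} {a b u v t H I r s : ℝ} (hb : Closed.All.ChartBox n (b - a) (a + b))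
    (hF : Closed.All.ChartFacts (b - a) (a + b) u v t)
    (hH : Closed.chH (b - a) (a + b) u v t = H) (hB : EndBands7 a b u v H)
    (hside : DLow a b) (hE : ExitLine a b u v) (hI : IPt a b u I r s) (hI0 : 0 < I)
    (q0l : (43 / 320 : ℝ) < I) (q0u : I ≤ (11 / 80 : ℝ)) (q1l : (3 / 1600 : ℝ) < r) (q1u : r ≤ (1 / 160 : ℝ)) (q2l : (3 / 4 : ℝ) < s) (q2u : s ≤ (83 / 100 : ℝ)) (kl : (243 : ℝ) < (500 : ℝ) * (1 - a * v)) :
    Closed.Strip.ChartSigns (b - a) (a + b) u v t := by
  obtain ⟨hl, hr⟩ := izLine40 hB hE hI0 (⟨hI, (inU_of (by norm_num) (by norm_num; linarith) (by norm_num; linarith)), (inU_of (by norm_num) (by norm_num; linarith) (by norm_num; linarith)), (inU_of (by norm_num) (by norm_num; linarith) (by norm_num; linarith)), by norm_num [Lines.denV, izM40] <;> linarith⟩ : InLines izM40 (43, 44, 320) (0, 1, 160) (75, 83, 100) a b u I r s)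
  norm_num [afVal, Lines.denV, izM40] at hl hr
  refine izLeaf72.low rfl rfl hb hF hH hB hside
    (⟨hI, (inU_of (by norm_num) (by norm_num; linarith) (by norm_num; linarith)), (inU_of (by norm_num) (by norm_num; linarith) (by norm_num; linarith)), (inU_of (by norm_num) (by norm_num; linarith) (by norm_num; linarith)), by norm_num [Lines.denV, izL72] <;> linarith⟩ : InLines izL72 (43, 44, 320) (3, 10, 1600) (75, 83, 100) a b u I r s) ?_ ?_
  all_goals norm_num [afVal, Lines.denV, izL72] <;> linarith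

/-- The signs in the piece 74. -/
theorem izAt74 {n : ℕ} {a b u v t H I r s : ℝ} (hb : Closed.All.ChartBox n (b - a) (a + b))
    (hF : Closed.All.ChartFacts (b - a) (a + b) u v t)
    (hH : Closed.chH (b - a) (a + b) u v t = H) (hB : EndBands7 a b u v H)
    (hside : DLow a b) (hE : ExitLine a b u v) (hI : IPt a b u I r s) (hI0 : 0 < I)
    (q0l : (11 / 80 : ℝ) < I) (q0u : I ≤ (23 / 160 : ℝ)) (q1l : (0 : ℝ) < r) (q1u : r ≤ (1 / 50 : ℝ)) (q2l : (3 / 4 : ℝ) < s) (q2u : s ≤ (4 / 5 : ℝ)) (ku : (500 : ℝ) * (1 - a * v) ≤ (109 : ℝ)) :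
    Closed.Strip.ChartSigns (b - a) (a + b) u v t := by
  obtain ⟨hl, hr⟩ := izLine41 hB hE hI0 (⟨hI, (inU_of (by norm_num) (by norm_num; linarith) (by norm_num; linarith)), (inU_of (by norm_num) (by norm_num; linarith) (by norm_num; linarith)), (inU_of (by norm_num) (by norm_num; linarith) (by norm_num; linarith)), by norm_num [Lines.denV, izM41] <;> linarith⟩ : InLines izM41 (22, 23, 160) (0, 1, 50) (15, 16, 20) a b u I r s)
  norm_num [afVal, Lines.denV, izM41] at hl hr
  refine izLeaf74.low rfl rfl hb hF hH hB hside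
    (⟨hI, (inU_of (by norm_num) (by norm_num; linarith) (by norm_num; linarith)), (inU_of (by norm_num) (by norm_num; linarith) (by norm_num; linarith)), (inU_of (by norm_num) (by norm_num; linarith) (by norm_num; linarith)), by norm_num [Lines.denV, izL74] <;> linarith⟩ : InLines izL74 (22, 23, 160) (0, 1, 50) (15, 16, 20) a b u I r s) ?_ ?_
  all_goals norm_num [afVal, Lines.denV, izL74] <;> linarith

/-- The signs in the piece 75. -/
theorem izAt75 {n : ℕ} {a b u v t H I r s : ℝ} (hb : Closed.All.ChartBox n (b - a) (a + b))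
    (hF : Closed.All.ChartFacts (b - a) (a + b) u v t)
    (hH : Closed.chH (b - a) (a + b) u v t = H) (hB : EndBands7 a b u v H)
    (hside : DLow a b) (hE : ExitLine a b u v) (hI : IPt a b u I r s) (hI0 : 0 < I)
    (q0l : (11 / 80 : ℝ) < I) (q0u : I ≤ (23 / 160 : ℝ)) (q1l : (0 : ℝ) < r) (q1u : r ≤ (1 / 50 : ℝ)) (q2l : (3 / 4 : ℝ) < s) (q2u : s ≤ (4 / 5 : ℝ)) (kl : (109 : ℝ) < (500 : ℝ) * (1 - a * v)) (ku : (500 : ℝ) * (1 - a * v) ≤ (218 : ℝ)) :
    Closed.Strip.ChartSigns (b - a) (a + b) u v t := by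
  obtain ⟨hl, hr⟩ := izLine41 hB hE hI0 (⟨hI, (inU_of (by norm_num) (by norm_num; linarith) (by norm_num; linarith)), (inU_of (by norm_num) (by norm_num; linarith) (by norm_num; linarith)), (inU_of (by norm_num) (by norm_num; linarith) (by norm_num; linarith)), by norm_num [Lines.denV, izM41] <;> linarith⟩ : InLines izM41 (22, 23, 160) (0, 1, 50) (15, 16, 20) a b u I r s)
  norm_num [afVal, Lines.denV, izM41] at hl hr
  refine izLeaf75.low rfl rfl hb hF hH hB hside
    (⟨hI, (inU_of (by norm_num) (by norm_num; linarith) (by norm_num; linarith)), (inU_of (by norm_num) (by norm_num; linarith) (by norm_num; linarith)), (inU_of (by norm_num) (by norm_num; linarith) (by norm_num; linarith)), by norm_num [Lines.denV, izL75] <;> linarith⟩ : InLines izL75 (22, 23, 160) (0, 1, 50) (15, 16, 20) a b u I r s) ?_ ?_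
  all_goals norm_num [afVal, Lines.denV, izL75] <;> linarith

/-- The signs in the piece 76. -/
theorem izAt76 {n : ℕ} {a b u v t H I r s : ℝ} (hb : Closed.All.ChartBox n (b - a) (a + b))
    (hF : Closed.All.ChartFacts (b - a) (a + b) u v t)
    (hH : Closed.chH (b - a) (a + b) u v t = H) (hB : EndBands7 a b u v H)
    (hside : DLow a b) (hE : ExitLine a b u v) (hI : IPt a b u I r s) (hI0 : 0 < I)
    (q0l : (11 / 80 : ℝ) < I) (q0u : I ≤ (23 / 160 : ℝ)) (q1l : (0 : ℝ) < r) (q1u : r ≤ (3 / 1600 : ℝ)) (q2l : (3 / 4 : ℝ) < s) (q2u : s ≤ (4 / 5 : ℝ)) (kl : (218 : ℝ) < (500 : ℝ) * (1 - a * v)) :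
    Closed.Strip.ChartSigns (b - a) (a + b) u v t := by
  obtain ⟨hl, hr⟩ := izLine41 hB hE hI0 (⟨hI, (inU_of (by norm_num) (by norm_num; linarith) (by norm_num; linarith)), (inU_of (by norm_num) (by norm_num; linarith) (by norm_num; linarith)), (inU_of (by norm_num) (by norm_num; linarith) (by norm_num; linarith)), by norm_num [Lines.denV, izM41] <;> linarith⟩ : InLines izM41 (22, 23, 160) (0, 1, 50) (15, 16, 20) a b u I r s)
  norm_num [afVal, Lines.denV, izM41] at hl hr
  refine izLeaf76.low rfl rfl hb hF hH hB hside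
    (⟨hI, (inU_of (by norm_num) (by norm_num; linarith) (by norm_num; linarith)), (inU_of (by norm_num) (by norm_num; linarith) (by norm_num; linarith)), (inU_of (by norm_num) (by norm_num; linarith) (by norm_num; linarith)), by norm_num [Lines.denV, izL76] <;> linarith⟩ : InLines izL76 (22, 23, 160) (0, 3, 1600) (15, 16, 20) a b u I r s) ?_ ?_
  all_goals norm_num [afVal, Lines.denV, izL76] <;> linarith

/-- The signs in the piece 77. -/
theorem izAt77 {n : ℕ} {a b u v t H I r s : ℝ} (hb : Closed.All.ChartBox n (b - a) (a + b))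
    (hF : Closed.All.ChartFacts (b - a) (a + b) u v t)
    (hH : Closed.chH (b - a) (a + b) u v t = H) (hB : EndBands7 a b u v H)
    (hside : DLow a b) (hE : ExitLine a b u v) (hI : IPt a b u I r s) (hI0 : 0 < I)
    (q0l : (11 / 80 : ℝ) < I) (q0u : I ≤ (23 / 160 : ℝ)) (q1l : (3 / 1600 : ℝ) < r) (q1u : r ≤ (1 / 160 : ℝ)) (q2l : (3 / 4 : ℝ) < s) (q2u : s ≤ (4 / 5 : ℝ)) (kl : (218 : ℝ) < (500 : ℝ) * (1 - a * v)) :
    Closed.Strip.ChartSigns (b - a) (a + b) u v t := by
  obtain ⟨hl, hr⟩ := izLine41 hB hE hI0 (⟨hI, (inU_of (by norm_num) (by norm_num; linarith) (by norm_num; linarith)), (inU_of (by norm_num) (by norm_num; linarith) (by norm_num; linarith)), (inU_of (by norm_num) (by norm_num; linarith) (by norm_num; linarith)), by norm_num [Lines.denV, izM41] <;> linarith⟩ : InLines izM41 (22, 23, 160) (0, 1, 50) (15, 16, 20) a b u I r s)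
  norm_num [afVal, Lines.denV, izM41] at hl hr
  refine izLeaf77.low rfl rfl hb hF hH hB hside
    (⟨hI, (inU_of (by norm_num) (by norm_num; linarith) (by norm_num; linarith)), (inU_of (by norm_num) (by norm_num; linarith) (by norm_num; linarith)), (inU_of (by norm_num) (by norm_num; linarith) (by norm_num; linarith)), by norm_num [Lines.denV, izL77] <;> linarith⟩ : InLines izL77 (22, 23, 160) (3, 10, 1600) (15, 16, 20) a b u I r s) ?_ ?_
  all_goals norm_num [afVal, Lines.denV, izL77] <;> linarith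

/-- The signs in the piece 78. -/
theorem izAt78 {n : ℕ} {a b u v t H I r s : ℝ} (hb : Closed.All.ChartBox n (b - a) (a + b))
    (hF : Closed.All.ChartFacts (b - a) (a + b) u v t)
    (hH : Closed.chH (b - a) (a + b) u v t = H) (hB : EndBands7 a b u v H)
    (hside : DLow a b) (hE : ExitLine a b u v) (hI : IPt a b u I r s) (hI0 : 0 < I)
    (q0l : (11 / 80 : ℝ) < I) (q0u : I ≤ (23 / 160 : ℝ)) (q1l : (1 / 160 : ℝ) < r) (q1u : r ≤ (1 / 50 : ℝ)) (q2l : (3 / 4 : ℝ) < s) (q2u : s ≤ (4 / 5 : ℝ)) (kl : (218 : ℝ) < (500 : ℝ) * (1 - a * v)) :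
    Closed.Strip.ChartSigns (b - a) (a + b) u v t := by
  obtain ⟨hl, hr⟩ := izLine41 hB hE hI0 (⟨hI, (inU_of (by norm_num) (by norm_num; linarith) (by norm_num; linarith)), (inU_of (by norm_num) (by norm_num; linarith) (by norm_num; linarith)), (inU_of (by norm_num) (by norm_num; linarith) (by norm_num; linarith)), by norm_num [Lines.denV, izM41] <;> linarith⟩ : InLines izM41 (22, 23, 160) (0, 1, 50) (15, 16, 20) a b u I r s)
  norm_num [afVal, Lines.denV, izM41] at hl hr
  refine izLeaf78.low rfl rfl hb hF hH hB hside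
    (⟨hI, (inU_of (by norm_num) (by norm_num; linarith) (by norm_num; linarith)), (inU_of (by norm_num) (by norm_num; linarith) (by norm_num; linarith)), (inU_of (by norm_num) (by norm_num; linarith) (by norm_num; linarith)), by norm_num [Lines.denV, izL78] <;> linarith⟩ : InLines izL78 (22, 23, 160) (5, 16, 800) (15, 16, 20) a b u I r s) ?_ ?_
  all_goals norm_num [afVal, Lines.denV, izL78] <;> linarith

/-- The signs in the piece 79. -/
theorem izAt79 {n : ℕ} {a b u v t H I r s : ℝ} (hb : Closed.All.ChartBox n (b - a) (a + b))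
    (hF : Closed.All.ChartFacts (b - a) (a + b) u v t)
    (hH : Closed.chH (b - a) (a + b) u v t = H) (hB : EndBands7 a b u v H)
    (hside : DLow a b) (hE : ExitLine a b u v) (hI : IPt a b u I r s) (hI0 : 0 < I)
    (q0l : (1 / 20 : ℝ) < I) (q0u : I ≤ (3 / 40 : ℝ)) (q1l : (1 / 50 : ℝ) < r) (q1u : r ≤ (1 : ℝ)) (q2l : (3 / 4 : ℝ) < s) (q2u : s ≤ (19 / 20 : ℝ)) :
    Closed.Strip.ChartSigns (b - a) (a + b) u v t := by
  obtain ⟨hl, hr⟩ := izLine42 hB hE hI0 (⟨hI, (inU_of (by norm_num) (by norm_num; linarith) (by norm_num; linarith)), (inU_of (by norm_num) (by norm_num; linarith) (by norm_num; linarith)), (inU_of (by norm_num) (by norm_num; linarith) (by norm_num; linarith)), by norm_num [Lines.denV, izM42] <;> linarith⟩ : InLines izM42 (2, 3, 40) (1, 50, 50) (15, 19, 20) a b u I r s)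
  norm_num [afVal, Lines.denV, izM42] at hl hr
  refine izLeaf79.low rfl rfl hb hF hH hB hside
    (⟨hI, (inU_of (by norm_num) (by norm_num; linarith) (by norm_num; linarith)), (inU_of (by norm_num) (by norm_num; linarith) (by norm_num; linarith)), (inU_of (by norm_num) (by norm_num; linarith) (by norm_num; linarith)), by norm_num [Lines.denV, izL79] <;> linarith⟩ : InLines izL79 (2, 3, 40) (1, 50, 50) (15, 19, 20) a b u I r s) ?_ ?_
  all_goals norm_num [afVal, Lines.denV, izL79] <;> linarith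

/-- The signs in the piece 82. -/
theorem izAt82 {n : ℕ} {a b u v t H I r s : ℝ} (hb : Closed.All.ChartBox n (b - a) (a + b))
    (hF : Closed.All.ChartFacts (b - a) (a + b) u v t)
    (hH : Closed.chH (b - a) (a + b) u v t = H) (hB : EndBands7 a b u v H)
    (hside : DLow a b) (hE : ExitLine a b u v) (hI : IPt a b u I r s) (hI0 : 0 < I)
    (q0l : (1 / 8 : ℝ) < I) (q0u : I ≤ (23 / 160 : ℝ)) (q1l : (1 / 50 : ℝ) < r) (q1u : r ≤ (3 / 20 : ℝ)) (q2l : (3 / 4 : ℝ) < s) (q2u : s ≤ (89 / 100 : ℝ)) :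
    Closed.Strip.ChartSigns (b - a) (a + b) u v t := by
  obtain ⟨hl, hr⟩ := izLine43 hB hE hI0 (⟨hI, (inU_of (by norm_num) (by norm_num; linarith) (by norm_num; linarith)), (inU_of (by norm_num) (by norm_num; linarith) (by norm_num; linarith)), (inU_of (by norm_num) (by norm_num; linarith) (by norm_num; linarith)), by norm_num [Lines.denV, izM43] <;> linarith⟩ : InLines izM43 (20, 23, 160) (2, 15, 100) (75, 89, 100) a b u I r s)
  norm_num [afVal, Lines.denV, izM43] at hl hr
  refine izLeaf82.low rfl rfl hb hF hH hB hside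
    (⟨hI, (inU_of (by norm_num) (by norm_num; linarith) (by norm_num; linarith)), (inU_of (by norm_num) (by norm_num; linarith) (by norm_num; linarith)), (inU_of (by norm_num) (by norm_num; linarith) (by norm_num; linarith)), by norm_num [Lines.denV, izL82] <;> linarith⟩ : InLines izL82 (20, 23, 160) (2, 15, 100) (75, 89, 100) a b u I r s) ?_ ?_
  all_goals norm_num [afVal, Lines.denV, izL82] <;> linarith

/-- The signs in the piece 84. -/
theorem izAt84 {n : ℕ} {a b u v t H I r s : ℝ} (hb : Closed.All.ChartBox n (b - a) (a + b))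
    (hF : Closed.All.ChartFacts (b - a) (a + b) u v t)
    (hH : Closed.chH (b - a) (a + b) u v t = H) (hB : EndBands7 a b u v H)
    (hside : DLow a b) (hE : ExitLine a b u v) (hI : IPt a b u I r s) (hI0 : 0 < I)
    (q0l : (1 / 20 : ℝ) < I) (q0u : I ≤ (1 / 10 : ℝ)) (q1l : (1 : ℝ) < r) (q1u : r ≤ (2 : ℝ)) (q2l : (0 : ℝ) < s) (q2u : s ≤ (1 / 2 : ℝ)) :
    Closed.Strip.ChartSigns (b - a) (a + b) u v t := by
  obtain ⟨hl, hr⟩ := izLine44 hB hE hI0 (⟨hI, (inU_of (by norm_num) (by norm_num; linarith) (by norm_num; linarith)), (inU_of (by norm_num) (by norm_num; linarith) (by norm_num; linarith)), (inU_of (by norm_num) (by norm_num; linarith) (by norm_num; linarith)), by norm_num [Lines.denV, izM44] <;> linarith⟩ : InLines izM44 (1, 2, 20) (1, 2, 1) (0, 1, 2) a b u I r s)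
  norm_num [afVal, Lines.denV, izM44] at hl hr
  refine izLeaf84.low rfl rfl hb hF hH hB hside
    (⟨hI, (inU_of (by norm_num) (by norm_num; linarith) (by norm_num; linarith)), (inU_of (by norm_num) (by norm_num; linarith) (by norm_num; linarith)), (inU_of (by norm_num) (by norm_num; linarith) (by norm_num; linarith)), by norm_num [Lines.denV, izL84] <;> linarith⟩ : InLines izL84 (1, 2, 20) (1, 2, 1) (0, 1, 2) a b u I r s) ?_ ?_
  all_goals norm_num [afVal, Lines.denV, izL84] <;> linarith

/-- The signs in the piece 85. -/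
theorem izAt85 {n : ℕ} {a b u v t H I r s : ℝ} (hb : Closed.All.ChartBox n (b - a) (a + b))
    (hF : Closed.All.ChartFacts (b - a) (a + b) u v t)
    (hH : Closed.chH (b - a) (a + b) u v t = H) (hB : EndBands7 a b u v H)
    (hside : DLow a b) (hE : ExitLine a b u v) (hI : IPt a b u I r s) (hI0 : 0 < I)
    (q0l : (1 / 20 : ℝ) < I) (q0u : I ≤ (1 / 10 : ℝ)) (q1l : (2 : ℝ) < r) (q1u : r ≤ (4 : ℝ)) (q2l : (0 : ℝ) < s) (q2u : s ≤ (1 / 2 : ℝ)) :
    Closed.Strip.ChartSigns (b - a) (a + b) u v t := by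
  obtain ⟨hl, hr⟩ := izLine45 hB hE hI0 (⟨hI, (inU_of (by norm_num) (by norm_num; linarith) (by norm_num; linarith)), (inU_of (by norm_num) (by norm_num; linarith) (by norm_num; linarith)), (inU_of (by norm_num) (by norm_num; linarith) (by norm_num; linarith)), by norm_num [Lines.denV, izM45] <;> linarith⟩ : InLines izM45 (1, 2, 20) (2, 4, 1) (0, 1, 2) a b u I r s)
  norm_num [afVal, Lines.denV, izM45] at hl hr
  refine izLeaf85.low rfl rfl hb hF hH hB hside
    (⟨hI, (inU_of (by norm_num) (by norm_num; linarith) (by norm_num; linarith)), (inU_of (by norm_num) (by norm_num; linarith) (by norm_num; linarith)), (inU_of (by norm_num) (by norm_num; linarith) (by norm_num; linarith)), by norm_num [Lines.denV, izL85] <;> linarith⟩ : InLines izL85 (1, 2, 20) (2, 4, 1) (0, 1, 2) a b u I r s) ?_ ?_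
  all_goals norm_num [afVal, Lines.denV, izL85] <;> linarith

/-- The signs in the piece 86. -/
theorem izAt86 {n : ℕ} {a b u v t H I r s : ℝ} (hb : Closed.All.ChartBox n (b - a) (a + b))
    (hF : Closed.All.ChartFacts (b - a) (a + b) u v t)
    (hH : Closed.chH (b - a) (a + b) u v t = H) (hB : EndBands7 a b u v H)
    (hside : DLow a b) (hE : ExitLine a b u v) (hI : IPt a b u I r s) (hI0 : 0 < I)
    (q0l : (1 / 10 : ℝ) < I) (q0u : I ≤ (23 / 160 : ℝ)) (q1l : (1 : ℝ) < r) (q1u : r ≤ (2 : ℝ)) (q2l : (0 : ℝ) < s) (q2u : s ≤ (1 / 2 : ℝ)) :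
    Closed.Strip.ChartSigns (b - a) (a + b) u v t := by
  obtain ⟨hl, hr⟩ := izLine46 hB hE hI0 (⟨hI, (inU_of (by norm_num) (by norm_num; linarith) (by norm_num; linarith)), (inU_of (by norm_num) (by norm_num; linarith) (by norm_num; linarith)), (inU_of (by norm_num) (by norm_num; linarith) (by norm_num; linarith)), by norm_num [Lines.denV, izM46] <;> linarith⟩ : InLines izM46 (16, 23, 160) (1, 2, 1) (0, 1, 2) a b u I r s)
  norm_num [afVal, Lines.denV, izM46] at hl hr
  refine izLeaf86.low rfl rfl hb hF hH hB hside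
    (⟨hI, (inU_of (by norm_num) (by norm_num; linarith) (by norm_num; linarith)), (inU_of (by norm_num) (by norm_num; linarith) (by norm_num; linarith)), (inU_of (by norm_num) (by norm_num; linarith) (by norm_num; linarith)), by norm_num [Lines.denV, izL86] <;> linarith⟩ : InLines izL86 (16, 23, 160) (1, 2, 1) (0, 1, 2) a b u I r s) ?_ ?_
  all_goals norm_num [afVal, Lines.denV, izL86] <;> linarith

/-- The signs in the piece 87. -/
theorem izAt87 {n : ℕ} {a b u v t H I r s : ℝ} (hb : Closed.All.ChartBox n (b - a) (a + b))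
    (hF : Closed.All.ChartFacts (b - a) (a + b) u v t)
    (hH : Closed.chH (b - a) (a + b) u v t = H) (hB : EndBands7 a b u v H)
    (hside : DLow a b) (hE : ExitLine a b u v) (hI : IPt a b u I r s) (hI0 : 0 < I)
    (q0l : (1 / 20 : ℝ) < I) (q0u : I ≤ (1 / 10 : ℝ)) (q1l : (1 : ℝ) < r) (q1u : r ≤ (2 : ℝ)) (q2l : (1 / 2 : ℝ) < s) (q2u : s ≤ (3 / 4 : ℝ)) :
    Closed.Strip.ChartSigns (b - a) (a + b) u v t := by
  obtain ⟨hl, hr⟩ := izLine47 hB hE hI0 (⟨hI, (inU_of (by norm_num) (by norm_num; linarith) (by norm_num; linarith)), (inU_of (by norm_num) (by norm_num; linarith) (by norm_num; linarith)), (inU_of (by norm_num) (by norm_num; linarith) (by norm_num; linarith)), by norm_num [Lines.denV, izM47] <;> linarith⟩ : InLines izM47 (1, 2, 20) (1, 2, 1) (2, 3, 4) a b u I r s)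
  norm_num [afVal, Lines.denV, izM47] at hl hr
  refine izLeaf87.low rfl rfl hb hF hH hB hside
    (⟨hI, (inU_of (by norm_num) (by norm_num; linarith) (by norm_num; linarith)), (inU_of (by norm_num) (by norm_num; linarith) (by norm_num; linarith)), (inU_of (by norm_num) (by norm_num; linarith) (by norm_num; linarith)), by norm_num [Lines.denV, izL87] <;> linarith⟩ : InLines izL87 (1, 2, 20) (1, 2, 1) (2, 3, 4) a b u I r s) ?_ ?_
  all_goals norm_num [afVal, Lines.denV, izL87] <;> linarith

/-- The signs in the piece 88. -/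
theorem izAt88 {n : ℕ} {a b u v t H I r s : ℝ} (hb : Closed.All.ChartBox n (b - a) (a + b))
    (hF : Closed.All.ChartFacts (b - a) (a + b) u v t)
    (hH : Closed.chH (b - a) (a + b) u v t = H) (hB : EndBands7 a b u v H)
    (hside : DLow a b) (hE : ExitLine a b u v) (hI : IPt a b u I r s) (hI0 : 0 < I)
    (q0l : (1 / 20 : ℝ) < I) (q0u : I ≤ (1 / 10 : ℝ)) (q1l : (2 : ℝ) < r) (q1u : r ≤ (4 : ℝ)) (q2l : (1 / 2 : ℝ) < s) (q2u : s ≤ (3 / 4 : ℝ)) :
    Closed.Strip.ChartSigns (b - a) (a + b) u v t := by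
  obtain ⟨hl, hr⟩ := izLine48 hB hE hI0 (⟨hI, (inU_of (by norm_num) (by norm_num; linarith) (by norm_num; linarith)), (inU_of (by norm_num) (by norm_num; linarith) (by norm_num; linarith)), (inU_of (by norm_num) (by norm_num; linarith) (by norm_num; linarith)), by norm_num [Lines.denV, izM48] <;> linarith⟩ : InLines izM48 (1, 2, 20) (2, 4, 1) (2, 3, 4) a b u I r s)
  norm_num [afVal, Lines.denV, izM48] at hl hr
  refine izLeaf88.low rfl rfl hb hF hH hB hside
    (⟨hI, (inU_of (by norm_num) (by norm_num; linarith) (by norm_num; linarith)), (inU_of (by norm_num) (by norm_num; linarith) (by norm_num; linarith)), (inU_of (by norm_num) (by norm_num; linarith) (by norm_num; linarith)), by norm_num [Lines.denV, izL88] <;> linarith⟩ : InLines izL88 (1, 2, 20) (2, 4, 1) (2, 3, 4) a b u I r s) ?_ ?_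
  all_goals norm_num [afVal, Lines.denV, izL88] <;> linarith

/-- The signs in the piece 89. -/
theorem izAt89 {n : ℕ} {a b u v t H I r s : ℝ} (hb : Closed.All.ChartBox n (b - a) (a + b))
    (hF : Closed.All.ChartFacts (b - a) (a + b) u v t)
    (hH : Closed.chH (b - a) (a + b) u v t = H) (hB : EndBands7 a b u v H)
    (hside : DLow a b) (hE : ExitLine a b u v) (hI : IPt a b u I r s) (hI0 : 0 < I)
    (q0l : (1 / 10 : ℝ) < I) (q0u : I ≤ (23 / 160 : ℝ)) (q1l : (1 : ℝ) < r) (q1u : r ≤ (2 : ℝ)) (q2l : (1 / 2 : ℝ) < s) (q2u : s ≤ (3 / 4 : ℝ)) :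
    Closed.Strip.ChartSigns (b - a) (a + b) u v t := by
  obtain ⟨hl, hr⟩ := izLine49 hB hE hI0 (⟨hI, (inU_of (by norm_num) (by norm_num; linarith) (by norm_num; linarith)), (inU_of (by norm_num) (by norm_num; linarith) (by norm_num; linarith)), (inU_of (by norm_num) (by norm_num; linarith) (by norm_num; linarith)), by norm_num [Lines.denV, izM49] <;> linarith⟩ : InLines izM49 (16, 23, 160) (1, 2, 1) (2, 3, 4) a b u I r s)
  norm_num [afVal, Lines.denV, izM49] at hl hr
  refine izLeaf89.low rfl rfl hb hF hH hB hside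
    (⟨hI, (inU_of (by norm_num) (by norm_num; linarith) (by norm_num; linarith)), (inU_of (by norm_num) (by norm_num; linarith) (by norm_num; linarith)), (inU_of (by norm_num) (by norm_num; linarith) (by norm_num; linarith)), by norm_num [Lines.denV, izL89] <;> linarith⟩ : InLines izL89 (16, 23, 160) (1, 2, 1) (2, 3, 4) a b u I r s) ?_ ?_
  all_goals norm_num [afVal, Lines.denV, izL89] <;> linarith

/-- The signs in the piece 90. -/
theorem izAt90 {n : ℕ} {a b u v t H I r s : ℝ} (hb : Closed.All.ChartBox n (b - a) (a + b))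
    (hF : Closed.All.ChartFacts (b - a) (a + b) u v t)
    (hH : Closed.chH (b - a) (a + b) u v t = H) (hB : EndBands7 a b u v H)
    (hside : DLow a b) (hE : ExitLine a b u v) (hI : IPt a b u I r s) (hI0 : 0 < I)
    (q0l : (1 / 20 : ℝ) < I) (q0u : I ≤ (1 / 10 : ℝ)) (q1l : (1 : ℝ) < r) (q1u : r ≤ (4 : ℝ)) (q2l : (3 / 4 : ℝ) < s) (q2u : s ≤ (19 / 20 : ℝ)) :
    Closed.Strip.ChartSigns (b - a) (a + b) u v t := by
  obtain ⟨hl, hr⟩ := izLine50 hB hE hI0 (⟨hI, (inU_of (by norm_num) (by norm_num; linarith) (by norm_num; linarith)), (inU_of (by norm_num) (by norm_num; linarith) (by norm_num; linarith)), (inU_of (by norm_num) (by norm_num; linarith) (by norm_num; linarith)), by norm_num [Lines.denV, izM50] <;> linarith⟩ : InLines izM50 (1, 2, 20) (1, 4, 1) (15, 19, 20) a b u I r s)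
  norm_num [afVal, Lines.denV, izM50] at hl hr
  refine izLeaf90.low rfl rfl hb hF hH hB hside
    (⟨hI, (inU_of (by norm_num) (by norm_num; linarith) (by norm_num; linarith)), (inU_of (by norm_num) (by norm_num; linarith) (by norm_num; linarith)), (inU_of (by norm_num) (by norm_num; linarith) (by norm_num; linarith)), by norm_num [Lines.denV, izL90] <;> linarith⟩ : InLines izL90 (1, 2, 20) (1, 4, 1) (15, 19, 20) a b u I r s) ?_ ?_
  all_goals norm_num [afVal, Lines.denV, izL90] <;> linarith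

/-- The signs in the piece 91. -/
theorem izAt91 {n : ℕ} {a b u v t H I r s : ℝ} (hb : Closed.All.ChartBox n (b - a) (a + b))
    (hF : Closed.All.ChartFacts (b - a) (a + b) u v t)
    (hH : Closed.chH (b - a) (a + b) u v t = H) (hB : EndBands7 a b u v H)
    (hside : DLow a b) (hE : ExitLine a b u v) (hI : IPt a b u I r s) (hI0 : 0 < I)
    (q0l : (1 / 10 : ℝ) < I) (q0u : I ≤ (23 / 160 : ℝ)) (q1l : (1 : ℝ) < r) (q1u : r ≤ (2 : ℝ)) (q2l : (3 / 4 : ℝ) < s) (q2u : s ≤ (89 / 100 : ℝ)) :
    Closed.Strip.ChartSigns (b - a) (a + b) u v t := by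
  obtain ⟨hl, hr⟩ := izLine51 hB hE hI0 (⟨hI, (inU_of (by norm_num) (by norm_num; linarith) (by norm_num; linarith)), (inU_of (by norm_num) (by norm_num; linarith) (by norm_num; linarith)), (inU_of (by norm_num) (by norm_num; linarith) (by norm_num; linarith)), by norm_num [Lines.denV, izM51] <;> linarith⟩ : InLines izM51 (16, 23, 160) (1, 2, 1) (75, 89, 100) a b u I r s)
  norm_num [afVal, Lines.denV, izM51] at hl hr
  refine izLeaf91.low rfl rfl hb hF hH hB hside
    (⟨hI, (inU_of (by norm_num) (by norm_num; linarith) (by norm_num; linarith)), (inU_of (by norm_num) (by norm_num; linarith) (by norm_num; linarith)), (inU_of (by norm_num) (by norm_num; linarith) (by norm_num; linarith)), by norm_num [Lines.denV, izL91] <;> linarith⟩ : InLines izL91 (16, 23, 160) (1, 2, 1) (75, 89, 100) a b u I r s) ?_ ?_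
  all_goals norm_num [afVal, Lines.denV, izL91] <;> linarith

/-- The signs in the piece 92. -/
theorem izAt92 {n : ℕ} {a b u v t H I r s : ℝ} (hb : Closed.All.ChartBox n (b - a) (a + b))
    (hF : Closed.All.ChartFacts (b - a) (a + b) u v t)
    (hH : Closed.chH (b - a) (a + b) u v t = H) (hB : EndBands7 a b u v H)
    (hside : DHigh a b) (hE : ExitLine a b u v) (hI : IPt a b u I r s) (hI0 : 0 < I)
    (q0l : (1 / 20 : ℝ) < I) (q0u : I ≤ (3 / 40 : ℝ)) (q1l : (0 : ℝ) < r) (q1u : r ≤ (1 / 50 : ℝ)) (q2l : (91 / 100 : ℝ) < s) (q2u : s ≤ (1 : ℝ)) :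
    Closed.Strip.ChartSigns (b - a) (a + b) u v t := by
  obtain ⟨hl, hr⟩ := izLine52 hB hE hI0 (⟨hI, (inU_of (by norm_num) (by norm_num; linarith) (by norm_num; linarith)), (inU_of (by norm_num) (by norm_num; linarith) (by norm_num; linarith)), (inU_of (by norm_num) (by norm_num; linarith) (by norm_num; linarith)), by norm_num [Lines.denV, izM52] <;> linarith⟩ : InLines izM52 (2, 3, 40) (0, 1, 50) (91, 100, 100) a b u I r s)
  norm_num [afVal, Lines.denV, izM52] at hl hr
  refine izLeaf92.high rfl rfl hb hF hH hB hside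
    (⟨hI, (inU_of (by norm_num) (by norm_num; linarith) (by norm_num; linarith)), (inU_of (by norm_num) (by norm_num; linarith) (by norm_num; linarith)), (inU_of (by norm_num) (by norm_num; linarith) (by norm_num; linarith)), by norm_num [Lines.denV, izL92] <;> linarith⟩ : InLines izL92 (2, 3, 40) (0, 1, 50) (9, 10, 10) a b u I r s) ?_ ?_
  all_goals norm_num [afVal, Lines.denV, izL92] <;> linarith

/-- The signs in the piece 93. -/
theorem izAt93 {n : ℕ} {a b u v t H I r s : ℝ} (hb : Closed.All.ChartBox n (b - a) (a + b))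
    (hF : Closed.All.ChartFacts (b - a) (a + b) u v t)
    (hH : Closed.chH (b - a) (a + b) u v t = H) (hB : EndBands7 a b u v H)
    (hside : DHigh a b) (hE : ExitLine a b u v) (hI : IPt a b u I r s) (hI0 : 0 < I)
    (q0l : (3 / 40 : ℝ) < I) (q0u : I ≤ (1 / 10 : ℝ)) (q1l : (0 : ℝ) < r) (q1u : r ≤ (1 / 50 : ℝ)) (q2l : (22 / 25 : ℝ) < s) (q2u : s ≤ (1 : ℝ)) (ku : (500 : ℝ) * (1 - a * v) ≤ (198 : ℝ)) :
    Closed.Strip.ChartSigns (b - a) (a + b) u v t := by
  obtain ⟨hl, hr⟩ := izLine53 hB hE hI0 (⟨hI, (inU_of (by norm_num) (by norm_num; linarith) (by norm_num; linarith)), (inU_of (by norm_num) (by norm_num; linarith) (by norm_num; linarith)), (inU_of (by norm_num) (by norm_num; linarith) (by norm_num; linarith)), by norm_num [Lines.denV, izM53] <;> linarith⟩ : InLines izM53 (3, 4, 40) (0, 1, 50) (22, 25, 25) a b u I r s)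
  norm_num [afVal, Lines.denV, izM53] at hl hr
  refine izLeaf93.high rfl rfl hb hF hH hB hside
    (⟨hI, (inU_of (by norm_num) (by norm_num; linarith) (by norm_num; linarith)), (inU_of (by norm_num) (by norm_num; linarith) (by norm_num; linarith)), (inU_of (by norm_num) (by norm_num; linarith) (by norm_num; linarith)), by norm_num [Lines.denV, izL93] <;> linarith⟩ : InLines izL93 (3, 4, 40) (0, 1, 50) (7, 8, 8) a b u I r s) ?_ ?_
  all_goals norm_num [afVal, Lines.denV, izL93] <;> linarith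

/-- The signs in the piece 94. -/
theorem izAt94 {n : ℕ} {a b u v t H I r s : ℝ} (hb : Closed.All.ChartBox n (b - a) (a + b))
    (hF : Closed.All.ChartFacts (b - a) (a + b) u v t)
    (hH : Closed.chH (b - a) (a + b) u v t = H) (hB : EndBands7 a b u v H)
    (hside : DHigh a b) (hE : ExitLine a b u v) (hI : IPt a b u I r s) (hI0 : 0 < I)
    (q0l : (3 / 40 : ℝ) < I) (q0u : I ≤ (1 / 10 : ℝ)) (q1l : (0 : ℝ) < r) (q1u : r ≤ (1 / 50 : ℝ)) (q2l : (22 / 25 : ℝ) < s) (q2u : s ≤ (1 : ℝ)) (kl : (198 : ℝ) < (500 : ℝ) * (1 - a * v)) (ku : (500 : ℝ) * (1 - a * v) ≤ (248 : ℝ)) :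
    Closed.Strip.ChartSigns (b - a) (a + b) u v t := by
  obtain ⟨hl, hr⟩ := izLine53 hB hE hI0 (⟨hI, (inU_of (by norm_num) (by norm_num; linarith) (by norm_num; linarith)), (inU_of (by norm_num) (by norm_num; linarith) (by norm_num; linarith)), (inU_of (by norm_num) (by norm_num; linarith) (by norm_num; linarith)), by norm_num [Lines.denV, izM53] <;> linarith⟩ : InLines izM53 (3, 4, 40) (0, 1, 50) (22, 25, 25) a b u I r s)
  norm_num [afVal, Lines.denV, izM53] at hl hr
  refine izLeaf94.high rfl rfl hb hF hH hB hside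
    (⟨hI, (inU_of (by norm_num) (by norm_num; linarith) (by norm_num; linarith)), (inU_of (by norm_num) (by norm_num; linarith) (by norm_num; linarith)), (inU_of (by norm_num) (by norm_num; linarith) (by norm_num; linarith)), by norm_num [Lines.denV, izL94] <;> linarith⟩ : InLines izL94 (3, 4, 40) (0, 1, 50) (22, 25, 25) a b u I r s) ?_ ?_
  all_goals norm_num [afVal, Lines.denV, izL94] <;> linarith

/-- The signs in the piece 95. -/
theorem izAt95 {n : ℕ} {a b u v t H I r s : ℝ} (hb : Closed.All.ChartBox n (b - a) (a + b))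
    (hF : Closed.All.ChartFacts (b - a) (a + b) u v t)
    (hH : Closed.chH (b - a) (a + b) u v t = H) (hB : EndBands7 a b u v H)
    (hside : DHigh a b) (hE : ExitLine a b u v) (hI : IPt a b u I r s) (hI0 : 0 < I)
    (q0l : (3 / 40 : ℝ) < I) (q0u : I ≤ (1 / 10 : ℝ)) (q1l : (0 : ℝ) < r) (q1u : r ≤ (1 / 50 : ℝ)) (q2l : (22 / 25 : ℝ) < s) (q2u : s ≤ (1 : ℝ)) (kl : (248 : ℝ) < (500 : ℝ) * (1 - a * v)) :
    Closed.Strip.ChartSigns (b - a) (a + b) u v t := by
  obtain ⟨hl, hr⟩ := izLine53 hB hE hI0 (⟨hI, (inU_of (by norm_num) (by norm_num; linarith) (by norm_num; linarith)), (inU_of (by norm_num) (by norm_num; linarith) (by norm_num; linarith)), (inU_of (by norm_num) (by norm_num; linarith) (by norm_num; linarith)), by norm_num [Lines.denV, izM53] <;> linarith⟩ : InLines izM53 (3, 4, 40) (0, 1, 50) (22, 25, 25) a b u I r s)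
  norm_num [afVal, Lines.denV, izM53] at hl hr
  refine izLeaf95.high rfl rfl hb hF hH hB hside
    (⟨hI, (inU_of (by norm_num) (by norm_num; linarith) (by norm_num; linarith)), (inU_of (by norm_num) (by norm_num; linarith) (by norm_num; linarith)), (inU_of (by norm_num) (by norm_num; linarith) (by norm_num; linarith)), by norm_num [Lines.denV, izL95] <;> linarith⟩ : InLines izL95 (3, 4, 40) (0, 1, 50) (22, 25, 25) a b u I r s) ?_ ?_
  all_goals norm_num [afVal, Lines.denV, izL95] <;> linarith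

/-- The signs in the piece 96. -/
theorem izAt96 {n : ℕ} {a b u v t H I r s : ℝ} (hb : Closed.All.ChartBox n (b - a) (a + b))
    (hF : Closed.All.ChartFacts (b - a) (a + b) u v t)
    (hH : Closed.chH (b - a) (a + b) u v t = H) (hB : EndBands7 a b u v H)
    (hside : DHigh a b) (hE : ExitLine a b u v) (hI : IPt a b u I r s) (hI0 : 0 < I)
    (q0l : (1 / 10 : ℝ) < I) (q0u : I ≤ (9 / 80 : ℝ)) (q1l : (0 : ℝ) < r) (q1u : r ≤ (3 / 1600 : ℝ)) (q2l : (17 / 20 : ℝ) < s) (q2u : s ≤ (1 : ℝ)) (ku : (500 : ℝ) * (1 - a * v) ≤ (210 : ℝ)) :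
    Closed.Strip.ChartSigns (b - a) (a + b) u v t := by
  obtain ⟨hl, hr⟩ := izLine54 hB hE hI0 (⟨hI, (inU_of (by norm_num) (by norm_num; linarith) (by norm_num; linarith)), (inU_of (by norm_num) (by norm_num; linarith) (by norm_num; linarith)), (inU_of (by norm_num) (by norm_num; linarith) (by norm_num; linarith)), by norm_num [Lines.denV, izM54] <;> linarith⟩ : InLines izM54 (4, 5, 40) (0, 3, 1600) (17, 20, 20) a b u I r s)
  norm_num [afVal, Lines.denV, izM54] at hl hr
  refine izLeaf96.high rfl rfl hb hF hH hB hside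
    (⟨hI, (inU_of (by norm_num) (by norm_num; linarith) (by norm_num; linarith)), (inU_of (by norm_num) (by norm_num; linarith) (by norm_num; linarith)), (inU_of (by norm_num) (by norm_num; linarith) (by norm_num; linarith)), by norm_num [Lines.denV, izL96] <;> linarith⟩ : InLines izL96 (8, 9, 80) (0, 1, 500) (17, 20, 20) a b u I r s) ?_ ?_
  all_goals norm_num [afVal, Lines.denV, izL96] <;> linarith

/-- The signs in the piece 97. -/
theorem izAt97 {n : ℕ} {a b u v t H I r s : ℝ} (hb : Closed.All.ChartBox n (b - a) (a + b))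
    (hF : Closed.All.ChartFacts (b - a) (a + b) u v t)
    (hH : Closed.chH (b - a) (a + b) u v t = H) (hB : EndBands7 a b u v H)
    (hside : DHigh a b) (hE : ExitLine a b u v) (hI : IPt a b u I r s) (hI0 : 0 < I)
    (q0l : (1 / 10 : ℝ) < I) (q0u : I ≤ (1 / 8 : ℝ)) (q1l : (0 : ℝ) < r) (q1u : r ≤ (3 / 1600 : ℝ)) (q2l : (17 / 20 : ℝ) < s) (q2u : s ≤ (1 : ℝ)) (kl : (210 : ℝ) < (500 : ℝ) * (1 - a * v)) :
    Closed.Strip.ChartSigns (b - a) (a + b) u v t := by
  obtain ⟨hl, hr⟩ := izLine54 hB hE hI0 (⟨hI, (inU_of (by norm_num) (by norm_num; linarith) (by norm_num; linarith)), (inU_of (by norm_num) (by norm_num; linarith) (by norm_num; linarith)), (inU_of (by norm_num) (by norm_num; linarith) (by norm_num; linarith)), by norm_num [Lines.denV, izM54] <;> linarith⟩ : InLines izM54 (4, 5, 40) (0, 3, 1600) (17, 20, 20) a b u I r s)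
  norm_num [afVal, Lines.denV, izM54] at hl hr
  refine izLeaf97.high rfl rfl hb hF hH hB hside
    (⟨hI, (inU_of (by norm_num) (by norm_num; linarith) (by norm_num; linarith)), (inU_of (by norm_num) (by norm_num; linarith) (by norm_num; linarith)), (inU_of (by norm_num) (by norm_num; linarith) (by norm_num; linarith)), by norm_num [Lines.denV, izL97] <;> linarith⟩ : InLines izL97 (4, 5, 40) (0, 1, 500) (17, 20, 20) a b u I r s) ?_ ?_
  all_goals norm_num [afVal, Lines.denV, izL97] <;> linarith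

/-- The signs in the piece 100. -/
theorem izAt100 {n : ℕ} {a b u v t H I r s : ℝ} (hb : Closed.All.ChartBox n (b - a) (a + b))
    (hF : Closed.All.ChartFacts (b - a) (a + b) u v t)
    (hH : Closed.chH (b - a) (a + b) u v t = H) (hB : EndBands7 a b u v H)
    (hside : DHigh a b) (hE : ExitLine a b u v) (hI : IPt a b u I r s) (hI0 : 0 < I)
    (q0l : (1 / 8 : ℝ) < I) (q0u : I ≤ (21 / 160 : ℝ)) (q1l : (0 : ℝ) < r) (q1u : r ≤ (1 / 160 : ℝ)) (q2l : (21 / 25 : ℝ) < s) (q2u : s ≤ (1 : ℝ)) (ku : (500 : ℝ) * (1 - a * v) ≤ (66 : ℝ)) :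
    Closed.Strip.ChartSigns (b - a) (a + b) u v t := by
  obtain ⟨hl, hr⟩ := izLine55 hB hE hI0 (⟨hI, (inU_of (by norm_num) (by norm_num; linarith) (by norm_num; linarith)), (inU_of (by norm_num) (by norm_num; linarith) (by norm_num; linarith)), (inU_of (by norm_num) (by norm_num; linarith) (by norm_num; linarith)), by norm_num [Lines.denV, izM55] <;> linarith⟩ : InLines izM55 (20, 21, 160) (0, 1, 160) (21, 25, 25) a b u I r s)
  norm_num [afVal, Lines.denV, izM55] at hl hr
  refine izLeaf100.high rfl rfl hb hF hH hB hside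
    (⟨hI, (inU_of (by norm_num) (by norm_num; linarith) (by norm_num; linarith)), (inU_of (by norm_num) (by norm_num; linarith) (by norm_num; linarith)), (inU_of (by norm_num) (by norm_num; linarith) (by norm_num; linarith)), by norm_num [Lines.denV, izL100] <;> linarith⟩ : InLines izL100 (20, 21, 160) (0, 1, 160) (21, 25, 25) a b u I r s) ?_ ?_
  all_goals norm_num [afVal, Lines.denV, izL100] <;> linarith

/-- The signs in the piece 101. -/
theorem izAt101 {n : ℕ} {a b u v t H I r s : ℝ} (hb : Closed.All.ChartBox n (b - a) (a + b))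
    (hF : Closed.All.ChartFacts (b - a) (a + b) u v t)
    (hH : Closed.chH (b - a) (a + b) u v t = H) (hB : EndBands7 a b u v H)
    (hside : DHigh a b) (hE : ExitLine a b u v) (hI : IPt a b u I r s) (hI0 : 0 < I)
    (q0l : (1 / 8 : ℝ) < I) (q0u : I ≤ (21 / 160 : ℝ)) (q1l : (0 : ℝ) < r) (q1u : r ≤ (1 / 160 : ℝ)) (q2l : (21 / 25 : ℝ) < s) (q2u : s ≤ (1 : ℝ)) (kl : (66 : ℝ) < (500 : ℝ) * (1 - a * v)) (ku : (500 : ℝ) * (1 - a * v) ≤ (165 : ℝ)) :
    Closed.Strip.ChartSigns (b - a) (a + b) u v t := by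
  obtain ⟨hl, hr⟩ := izLine55 hB hE hI0 (⟨hI, (inU_of (by norm_num) (by norm_num; linarith) (by norm_num; linarith)), (inU_of (by norm_num) (by norm_num; linarith) (by norm_num; linarith)), (inU_of (by norm_num) (by norm_num; linarith) (by norm_num; linarith)), by norm_num [Lines.denV, izM55] <;> linarith⟩ : InLines izM55 (20, 21, 160) (0, 1, 160) (21, 25, 25) a b u I r s)
  norm_num [afVal, Lines.denV, izM55] at hl hr
  refine izLeaf101.high rfl rfl hb hF hH hB hside
    (⟨hI, (inU_of (by norm_num) (by norm_num; linarith) (by norm_num; linarith)), (inU_of (by norm_num) (by norm_num; linarith) (by norm_num; linarith)), (inU_of (by norm_num) (by norm_num; linarith) (by norm_num; linarith)), by norm_num [Lines.denV, izL101] <;> linarith⟩ : InLines izL101 (20, 21, 160) (0, 1, 160) (21, 25, 25) a b u I r s) ?_ ?_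
  all_goals norm_num [afVal, Lines.denV, izL101] <;> linarith

/-- The signs in the piece 102. -/
theorem izAt102 {n : ℕ} {a b u v t H I r s : ℝ} (hb : Closed.All.ChartBox n (b - a) (a + b))
    (hF : Closed.All.ChartFacts (b - a) (a + b) u v t)
    (hH : Closed.chH (b - a) (a + b) u v t = H) (hB : EndBands7 a b u v H)
    (hside : DHigh a b) (hE : ExitLine a b u v) (hI : IPt a b u I r s) (hI0 : 0 < I)
    (q0l : (1 / 8 : ℝ) < I) (q0u : I ≤ (21 / 160 : ℝ)) (q1l : (0 : ℝ) < r) (q1u : r ≤ (1 / 500 : ℝ)) (q2l : (21 / 25 : ℝ) < s) (q2u : s ≤ (1 : ℝ)) (kl : (165 : ℝ) < (500 : ℝ) * (1 - a * v)) (ku : (500 : ℝ) * (1 - a * v) ≤ (243 : ℝ)) :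
    Closed.Strip.ChartSigns (b - a) (a + b) u v t := by
  obtain ⟨hl, hr⟩ := izLine55 hB hE hI0 (⟨hI, (inU_of (by norm_num) (by norm_num; linarith) (by norm_num; linarith)), (inU_of (by norm_num) (by norm_num; linarith) (by norm_num; linarith)), (inU_of (by norm_num) (by norm_num; linarith) (by norm_num; linarith)), by norm_num [Lines.denV, izM55] <;> linarith⟩ : InLines izM55 (20, 21, 160) (0, 1, 160) (21, 25, 25) a b u I r s)
  norm_num [afVal, Lines.denV, izM55] at hl hr
  refine izLeaf102.high rfl rfl hb hF hH hB hside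
    (⟨hI, (inU_of (by norm_num) (by norm_num; linarith) (by norm_num; linarith)), (inU_of (by norm_num) (by norm_num; linarith) (by norm_num; linarith)), (inU_of (by norm_num) (by norm_num; linarith) (by norm_num; linarith)), by norm_num [Lines.denV, izL102] <;> linarith⟩ : InLines izL102 (20, 21, 160) (0, 1, 500) (21, 25, 25) a b u I r s) ?_ ?_
  all_goals norm_num [afVal, Lines.denV, izL102] <;> linarith

/-- The signs in the piece 103. -/
theorem izAt103 {n : ℕ} {a b u v t H I r s : ℝ} (hb : Closed.All.ChartBox n (b - a) (a + b))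
    (hF : Closed.All.ChartFacts (b - a) (a + b) u v t)
    (hH : Closed.chH (b - a) (a + b) u v t = H) (hB : EndBands7 a b u v H)
    (hside : DHigh a b) (hE : ExitLine a b u v) (hI : IPt a b u I r s) (hI0 : 0 < I)
    (q0l : (1 / 8 : ℝ) < I) (q0u : I ≤ (21 / 160 : ℝ)) (q1l : (0 : ℝ) < r) (q1u : r ≤ (1 / 500 : ℝ)) (q2l : (21 / 25 : ℝ) < s) (q2u : s ≤ (1 : ℝ)) (kl : (243 : ℝ) < (500 : ℝ) * (1 - a * v)) (ku : (500 : ℝ) * (1 - a * v) ≤ (258 : ℝ)) :
    Closed.Strip.ChartSigns (b - a) (a + b) u v t := by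
  obtain ⟨hl, hr⟩ := izLine55 hB hE hI0 (⟨hI, (inU_of (by norm_num) (by norm_num; linarith) (by norm_num; linarith)), (inU_of (by norm_num) (by norm_num; linarith) (by norm_num; linarith)), (inU_of (by norm_num) (by norm_num; linarith) (by norm_num; linarith)), by norm_num [Lines.denV, izM55] <;> linarith⟩ : InLines izM55 (20, 21, 160) (0, 1, 160) (21, 25, 25) a b u I r s)
  norm_num [afVal, Lines.denV, izM55] at hl hr
  refine izLeaf103.high rfl rfl hb hF hH hB hside
    (⟨hI, (inU_of (by norm_num) (by norm_num; linarith) (by norm_num; linarith)), (inU_of (by norm_num) (by norm_num; linarith) (by norm_num; linarith)), (inU_of (by norm_num) (by norm_num; linarith) (by norm_num; linarith)), by norm_num [Lines.denV, izL103] <;> linarith⟩ : InLines izL103 (20, 21, 160) (0, 1, 500) (21, 25, 25) a b u I r s) ?_ ?_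
  all_goals norm_num [afVal, Lines.denV, izL103] <;> linarith

/-- The signs in the piece 104. -/
theorem izAt104 {n : ℕ} {a b u v t H I r s : ℝ} (hb : Closed.All.ChartBox n (b - a) (a + b))
    (hF : Closed.All.ChartFacts (b - a) (a + b) u v t)
    (hH : Closed.chH (b - a) (a + b) u v t = H) (hB : EndBands7 a b u v H)
    (hside : DHigh a b) (hE : ExitLine a b u v) (hI : IPt a b u I r s) (hI0 : 0 < I)
    (q0l : (1 / 8 : ℝ) < I) (q0u : I ≤ (51 / 400 : ℝ)) (q1l : (0 : ℝ) < r) (q1u : r ≤ (1 / 500 : ℝ)) (q2l : (21 / 25 : ℝ) < s) (q2u : s ≤ (1 : ℝ)) (kl : (258 : ℝ) < (500 : ℝ) * (1 - a * v)) :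
    Closed.Strip.ChartSigns (b - a) (a + b) u v t := by
  obtain ⟨hl, hr⟩ := izLine55 hB hE hI0 (⟨hI, (inU_of (by norm_num) (by norm_num; linarith) (by norm_num; linarith)), (inU_of (by norm_num) (by norm_num; linarith) (by norm_num; linarith)), (inU_of (by norm_num) (by norm_num; linarith) (by norm_num; linarith)), by norm_num [Lines.denV, izM55] <;> linarith⟩ : InLines izM55 (20, 21, 160) (0, 1, 160) (21, 25, 25) a b u I r s)
  norm_num [afVal, Lines.denV, izM55] at hl hr
  refine izLeaf104.high rfl rfl hb hF hH hB hside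
    (⟨hI, (inU_of (by norm_num) (by norm_num; linarith) (by norm_num; linarith)), (inU_of (by norm_num) (by norm_num; linarith) (by norm_num; linarith)), (inU_of (by norm_num) (by norm_num; linarith) (by norm_num; linarith)), by norm_num [Lines.denV, izL104] <;> linarith⟩ : InLines izL104 (50, 51, 400) (0, 1, 500) (21, 25, 25) a b u I r s) ?_ ?_
  all_goals norm_num [afVal, Lines.denV, izL104] <;> linarith

/-- The signs in the piece 105. -/
theorem izAt105 {n : ℕ} {a b u v t H I r s : ℝ} (hb : Closed.All.ChartBox n (b - a) (a + b))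
    (hF : Closed.All.ChartFacts (b - a) (a + b) u v t)
    (hH : Closed.chH (b - a) (a + b) u v t = H) (hB : EndBands7 a b u v H)
    (hside : DHigh a b) (hE : ExitLine a b u v) (hI : IPt a b u I r s) (hI0 : 0 < I)
    (q0l : (51 / 400 : ℝ) < I) (q0u : I ≤ (21 / 160 : ℝ)) (q1l : (0 : ℝ) < r) (q1u : r ≤ (1 / 500 : ℝ)) (q2l : (21 / 25 : ℝ) < s) (q2u : s ≤ (22 / 25 : ℝ)) (kl : (258 : ℝ) < (500 : ℝ) * (1 - a * v)) :
    Closed.Strip.ChartSigns (b - a) (a + b) u v t := by
  obtain ⟨hl, hr⟩ := izLine55 hB hE hI0 (⟨hI, (inU_of (by norm_num) (by norm_num; linarith) (by norm_num; linarith)), (inU_of (by norm_num) (by norm_num; linarith) (by norm_num; linarith)), (inU_of (by norm_num) (by norm_num; linarith) (by norm_num; linarith)), by norm_num [Lines.denV, izM55] <;> linarith⟩ : InLines izM55 (20, 21, 160) (0, 1, 160) (21, 25, 25) a b u I r s)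
  norm_num [afVal, Lines.denV, izM55] at hl hr
  refine izLeaf105.high rfl rfl hb hF hH hB hside
    (⟨hI, (inU_of (by norm_num) (by norm_num; linarith) (by norm_num; linarith)), (inU_of (by norm_num) (by norm_num; linarith) (by norm_num; linarith)), (inU_of (by norm_num) (by norm_num; linarith) (by norm_num; linarith)), by norm_num [Lines.denV, izL105] <;> linarith⟩ : InLines izL105 (102, 105, 800) (0, 1, 500) (21, 22, 25) a b u I r s) ?_ ?_
  all_goals norm_num [afVal, Lines.denV, izL105] <;> linarith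

/-- The signs in the piece 106. -/
theorem izAt106 {n : ℕ} {a b u v t H I r s : ℝ} (hb : Closed.All.ChartBox n (b - a) (a + b))
    (hF : Closed.All.ChartFacts (b - a) (a + b) u v t)
    (hH : Closed.chH (b - a) (a + b) u v t = H) (hB : EndBands7 a b u v H)
    (hside : DHigh a b) (hE : ExitLine a b u v) (hI : IPt a b u I r s) (hI0 : 0 < I)
    (q0l : (51 / 400 : ℝ) < I) (q0u : I ≤ (21 / 160 : ℝ)) (q1l : (0 : ℝ) < r) (q1u : r ≤ (1 / 500 : ℝ)) (q2l : (22 / 25 : ℝ) < s) (q2u : s ≤ (1 : ℝ)) (kl : (258 : ℝ) < (500 : ℝ) * (1 - a * v)) :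
    Closed.Strip.ChartSigns (b - a) (a + b) u v t := by
  obtain ⟨hl, hr⟩ := izLine55 hB hE hI0 (⟨hI, (inU_of (by norm_num) (by norm_num; linarith) (by norm_num; linarith)), (inU_of (by norm_num) (by norm_num; linarith) (by norm_num; linarith)), (inU_of (by norm_num) (by norm_num; linarith) (by norm_num; linarith)), by norm_num [Lines.denV, izM55] <;> linarith⟩ : InLines izM55 (20, 21, 160) (0, 1, 160) (21, 25, 25) a b u I r s)
  norm_num [afVal, Lines.denV, izM55] at hl hr
  refine izLeaf106.high rfl rfl hb hF hH hB hside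
    (⟨hI, (inU_of (by norm_num) (by norm_num; linarith) (by norm_num; linarith)), (inU_of (by norm_num) (by norm_num; linarith) (by norm_num; linarith)), (inU_of (by norm_num) (by norm_num; linarith) (by norm_num; linarith)), by norm_num [Lines.denV, izL106] <;> linarith⟩ : InLines izL106 (102, 105, 800) (0, 1, 500) (22, 25, 25) a b u I r s) ?_ ?_
  all_goals norm_num [afVal, Lines.denV, izL106] <;> linarith

/-- The signs in the piece 108. -/
theorem izAt108 {n : ℕ} {a b u v t H I r s : ℝ} (hb : Closed.All.ChartBox n (b - a) (a + b))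
    (hF : Closed.All.ChartFacts (b - a) (a + b) u v t)
    (hH : Closed.chH (b - a) (a + b) u v t = H) (hB : EndBands7 a b u v H)
    (hside : DHigh a b) (hE : ExitLine a b u v) (hI : IPt a b u I r s) (hI0 : 0 < I)
    (q0l : (1 / 8 : ℝ) < I) (q0u : I ≤ (21 / 160 : ℝ)) (q1l : (3 / 1600 : ℝ) < r) (q1u : r ≤ (3 / 800 : ℝ)) (q2l : (21 / 25 : ℝ) < s) (q2u : s ≤ (1 : ℝ)) (kl : (165 : ℝ) < (500 : ℝ) * (1 - a * v)) :
    Closed.Strip.ChartSigns (b - a) (a + b) u v t := by
  obtain ⟨hl, hr⟩ := izLine55 hB hE hI0 (⟨hI, (inU_of (by norm_num) (by norm_num; linarith) (by norm_num; linarith)), (inU_of (by norm_num) (by norm_num; linarith) (by norm_num; linarith)), (inU_of (by norm_num) (by norm_num; linarith) (by norm_num; linarith)), by norm_num [Lines.denV, izM55] <;> linarith⟩ : InLines izM55 (20, 21, 160) (0, 1, 160) (21, 25, 25) a b u I r s)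
  norm_num [afVal, Lines.denV, izM55] at hl hr
  refine izLeaf108.high rfl rfl hb hF hH hB hside
    (⟨hI, (inU_of (by norm_num) (by norm_num; linarith) (by norm_num; linarith)), (inU_of (by norm_num) (by norm_num; linarith) (by norm_num; linarith)), (inU_of (by norm_num) (by norm_num; linarith) (by norm_num; linarith)), by norm_num [Lines.denV, izL108] <;> linarith⟩ : InLines izL108 (20, 21, 160) (3, 6, 1600) (21, 25, 25) a b u I r s) ?_ ?_
  all_goals norm_num [afVal, Lines.denV, izL108] <;> linarith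

/-- The signs in the piece 109. -/
theorem izAt109 {n : ℕ} {a b u v t H I r s : ℝ} (hb : Closed.All.ChartBox n (b - a) (a + b))
    (hF : Closed.All.ChartFacts (b - a) (a + b) u v t)
    (hH : Closed.chH (b - a) (a + b) u v t = H) (hB : EndBands7 a b u v H)
    (hside : DHigh a b) (hE : ExitLine a b u v) (hI : IPt a b u I r s) (hI0 : 0 < I)
    (q0l : (1 / 8 : ℝ) < I) (q0u : I ≤ (21 / 160 : ℝ)) (q1l : (3 / 800 : ℝ) < r) (q1u : r ≤ (1 / 160 : ℝ)) (q2l : (21 / 25 : ℝ) < s) (q2u : s ≤ (1 : ℝ)) (kl : (165 : ℝ) < (500 : ℝ) * (1 - a * v)) :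
    Closed.Strip.ChartSigns (b - a) (a + b) u v t := by
  obtain ⟨hl, hr⟩ := izLine55 hB hE hI0 (⟨hI, (inU_of (by norm_num) (by norm_num; linarith) (by norm_num; linarith)), (inU_of (by norm_num) (by norm_num; linarith) (by norm_num; linarith)), (inU_of (by norm_num) (by norm_num; linarith) (by norm_num; linarith)), by norm_num [Lines.denV, izM55] <;> linarith⟩ : InLines izM55 (20, 21, 160) (0, 1, 160) (21, 25, 25) a b u I r s)
  norm_num [afVal, Lines.denV, izM55] at hl hr
  refine izLeaf109.high rfl rfl hb hF hH hB hside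
    (⟨hI, (inU_of (by norm_num) (by norm_num; linarith) (by norm_num; linarith)), (inU_of (by norm_num) (by norm_num; linarith) (by norm_num; linarith)), (inU_of (by norm_num) (by norm_num; linarith) (by norm_num; linarith)), by norm_num [Lines.denV, izL109] <;> linarith⟩ : InLines izL109 (20, 21, 160) (3, 5, 800) (21, 25, 25) a b u I r s) ?_ ?_
  all_goals norm_num [afVal, Lines.denV, izL109] <;> linarith

/-- The signs in the piece 111. -/
theorem izAt111 {n : ℕ} {a b u v t H I r s : ℝ} (hb : Closed.All.ChartBox n (b - a) (a + b))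
    (hF : Closed.All.ChartFacts (b - a) (a + b) u v t)
    (hH : Closed.chH (b - a) (a + b) u v t = H) (hB : EndBands7 a b u v H)
    (hside : DHigh a b) (hE : ExitLine a b u v) (hI : IPt a b u I r s) (hI0 : 0 < I)
    (q0l : (21 / 160 : ℝ) < I) (q0u : I ≤ (167 / 1250 : ℝ)) (q1l : (0 : ℝ) < r) (q1u : r ≤ (1 / 50 : ℝ)) (q2l : (21 / 25 : ℝ) < s) (q2u : s ≤ (9 / 10 : ℝ)) (ku : (500 : ℝ) * (1 - a * v) ≤ (109 : ℝ)) :
    Closed.Strip.ChartSigns (b - a) (a + b) u v t := by
  obtain ⟨hl, hr⟩ := izLine56 hB hE hI0 (⟨hI, (inU_of (by norm_num) (by norm_num; linarith) (by norm_num; linarith)), (inU_of (by norm_num) (by norm_num; linarith) (by norm_num; linarith)), (inU_of (by norm_num) (by norm_num; linarith) (by norm_num; linarith)), by norm_num [Lines.denV, izM56] <;> linarith⟩ : InLines izM56 (2625, 2672, 20000) (0, 1, 50) (42, 45, 50) a b u I r s)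
  norm_num [afVal, Lines.denV, izM56] at hl hr
  refine izLeaf111.high rfl rfl hb hF hH hB hside
    (⟨hI, (inU_of (by norm_num) (by norm_num; linarith) (by norm_num; linarith)), (inU_of (by norm_num) (by norm_num; linarith) (by norm_num; linarith)), (inU_of (by norm_num) (by norm_num; linarith) (by norm_num; linarith)), by norm_num [Lines.denV, izL111] <;> linarith⟩ : InLines izL111 (105, 108, 800) (0, 1, 50) (42, 45, 50) a b u I r s) ?_ ?_
  all_goals norm_num [afVal, Lines.denV, izL111] <;> linarith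

end Vale.Agent.P100.Calib.StripEndD
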