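import Vale.Agent.P100.Calib.SlabStripEndDExpr
import Vale.Agent.P100.Calib.SlabStripEndCert

/-!
# The piece 200 of the strip for `u` near one at small `d / I`
-/

namespace Vale.Agent.P100.Calib.StripEndD

open Pack hiding ev_add ev_mul
open Pack.Ex StripMid StripEnd

local instance endIZ7P200Add : Add Ex := ⟨Ex.add⟩
local instance endIZ7P200Sub : Sub Ex := ⟨Ex.sub⟩
local instance endIZ7P200Mul : Mul Ex := ⟨Ex.mul⟩

/-- The piece `Iz200`. -/
def pcIz200 : Piece where
  I := (var 0)
  d := (var 0) * (var 2)
  w := ((var 0) * (var 1))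
  o := (((num 462)) + ((num 38) + (num (-2266) * (var 1))) * (var 3))
  den := ((num 500))
  vn := num 2 * (((num 462)) + ((num 38) + (num (-2266) * (var 1))) * (var 3))
  vs := (num 1 - num 2 * (var 0) - (var 0) * (var 2))
  mu := ⟨(112, 50), (130, 50)⟩
  pn := fun b => cond b
    (num 50 * (((num 500)) - (((num 462)) + ((num 38) + (num (-2266) * (var 1))) * (var 3))) + num (-130) * ((((num 462)) + ((num 38) + (num (-2266) * (var 1))) * (var 3)) * ((var 0) * (var 1))))
    (num 50 * (((num 500)) - (((num 462)) + ((num 38) + (num (-2266) * (var 1))) * (var 3))) + num (-112) * ((((num 462)) + ((num 38) + (num (-2266) * (var 1))) * (var 3)) * ((var 0) * (var 1))))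
  pd := num 50
  en := fun b => cond b
    (((num 31093) + (num 75534 * (var 0))) * (num 4 * (var 0) * (((num 500)) - (((num 462)) + ((num 38) + (num (-2266) * (var 1))) * (var 3))) * ((var 2) + num 3 * (var 0)) + (var 1) * ((num 500)) * (num 1 + num 20 * ((var 0) * (var 2)))))
    (((num 28091) + (num 75534 * (var 0))) * (num 4 * (var 0) * (((num 500)) - (((num 462)) + ((num 38) + (num (-2266) * (var 1))) * (var 3))) * ((var 2) + num 3 * (var 0)) + (var 1) * ((num 500)) * (num 1 + num 20 * ((var 0) * (var 2)))))
  kk := fun b => cond b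
    (((num 5134) + (num 11250 * (var 2))) * (((var 0) * (var 1)) * (num 4 * ((num 500)) * ((var 2) + num 3 * (var 0)))))
    (((num 1284) + (num 11250 * (var 2))) * (((var 0) * (var 1)) * (num 4 * ((num 500)) * ((var 2) + num 3 * (var 0)))))
  f0 := num 8000 * ((num 500)) * ((var 2) + num 3 * (var 0))
  wn := fun b => cond b
    (((num (-9055) * ((var 0) * (((num 500)) - (((num 462)) + ((num 38) + (num (-2266) * (var 1))) * (var 3))))) + (num 15442 * (((var 0) * (var 1)) * (((num 462)) + ((num 38) + (num (-2266) * (var 1))) * (var 3)))) + (num (-7892) * (((var 0) * (var 1)) * ((num 500)))) + (num 739 * ((var 0) * (var 2) * (((num 500)) - (((num 462)) + ((num 38) + (num (-2266) * (var 1))) * (var 3)))))))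
    (((num (-9437) * ((var 0) * (((num 500)) - (((num 462)) + ((num 38) + (num (-2266) * (var 1))) * (var 3))))) + (num 15442 * (((var 0) * (var 1)) * (((num 462)) + ((num 38) + (num (-2266) * (var 1))) * (var 3)))) + (num (-8274) * (((var 0) * (var 1)) * ((num 500)))) + (num 739 * ((var 0) * (var 2) * (((num 500)) - (((num 462)) + ((num 38) + (num (-2266) * (var 1))) * (var 3)))))))
  wd := num 1000 * ((num 500))
  tn := fun b => cond b
    (num 9579 * ((var 1) * ((num 500))))
    (num 8611 * ((var 1) * ((num 500))))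
  td := num 8000 * ((var 1) * ((num 500)) + num 2 * (var 2) * (((num 500)) - (((num 462)) + ((num 38) + (num (-2266) * (var 1))) * (var 3))))
  cn := num 0
  cd := num 1
  kn := ((num 500)) * ((num (-78)) + (num 186 * (var 0)) + (num (-5094) * (var 1)) + (num 219 * (var 2)) + (num 109 * (var 3)) + (num 2342 * ((var 1) * (var 3))) + (num (-178) * ((var 2) * (var 3))) + (num 301 * ((var 0) * (var 3))))
  kd := num 32 * (((num 500)) - (((num 462)) + ((num 38) + (num (-2266) * (var 1))) * (var 3)))
  k2n := ((num (-1275)) + (num 7270 * (var 0)) + (num 1593 * (var 2)))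
  k2d := num 1024

/-- Its ranges. -/
def bxIz200 : StripEnd.EBox :=
  ⟨(2, 3, 40), (0, 1, 160), (15, 19, 20), (0, 1, 1)⟩

end Vale.Agent.P100.Calib.StripEndD
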