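import Vale.Agent.P100.Calib.SlabStripEndBigSgn
import Vale.Agent.P100.Calib.SlabStripEndIZ7P205
import Vale.Agent.P100.Calib.SlabStripEndDCert
import Vale.Agent.P100.Calib.SlabStripEndBig

/-!
# The second condition of the piece 205
-/

namespace Vale.Agent.P100.Calib.StripEndD

open Pack hiding ev_add ev_mul
open Pack.Ex StripMid StripEnd

local instance endIZ7G205Add : Add Ex := ⟨Ex.add⟩
local instance endIZ7G205Sub : Sub Ex := ⟨Ex.sub⟩
local instance endIZ7G205Mul : Mul Ex := ⟨Ex.mul⟩

/-- The second condition at the ends, checked. -/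
theorem certIz205_g2 : ∀ s p l t : Bool, checkSgn bxIz205.C 581 17 10 17 10
    (pcIz205.at ⟨p, l, true, true, t⟩ (StripEnd.strict (c2 s))) = true := by
  have hf : ∀ s l t : Bool, checkSgn bxIz205.C 581 17 10 17 10
    (pcIz205.at ⟨false, l, true, true, t⟩ (StripEnd.strict (c2 s))) = true := by decide +kernel
  have ht : ∀ s l t : Bool, checkSgn bxIz205.C 581 17 10 17 10
    (pcIz205.at ⟨true, l, true, true, t⟩ (StripEnd.strict (c2 s))) = true := by decide +kernel
  intro s p l
  rcases p with _ | _
  exacts [hf s l, ht s l]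

end Vale.Agent.P100.Calib.StripEndD
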