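import Vale.Agent.P100.Calib.SlabStripEndDCert
import Vale.Agent.P100.Calib.SlabStripEndBig

/-!
# A piece of the `I` and `Z` charts for `N` between seven and twenty: 114
-/

namespace Vale.Agent.P100.Calib.StripEndD

open Pack hiding ev_add ev_mul
open Pack.Ex StripMid StripEnd

local instance endIZ7P114Add : Add Ex := ⟨Ex.add⟩
local instance endIZ7P114Sub : Sub Ex := ⟨Ex.sub⟩
local instance endIZ7P114Mul : Mul Ex := ⟨Ex.mul⟩

/-- The piece `Iz114`. -/
def pcIz114 : Piece where
  I := (var 0)
  d := (var 0) * (var 2)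
  w := ((var 0) * (var 1))
  o := (((num 245)) + ((num 37)) * (var 3))
  den := ((num 500))
  vn := num 2 * (((num 245)) + ((num 37)) * (var 3))
  vs := (num 1 - num 2 * (var 0) - (var 0) * (var 2))
  mu := ⟨(123, 50), (143, 50)⟩
  pn := fun b => cond b
    (num 80000 * (((num 500)) - (((num 245)) + ((num 37)) * (var 3))) + num (-1430) * ((((num 245)) + ((num 37)) * (var 3)) * (var 0)))
    (num 80000 * (((num 500)) - (((num 245)) + ((num 37)) * (var 3))) + num (-369) * ((((num 245)) + ((num 37)) * (var 3)) * (var 0)))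
  pd := num 80000
  en := fun b => cond b
    (((num 36142 * ((var 0) * (((num 500)) - (((num 245)) + ((num 37)) * (var 3)))))) + ((num 500)) * (var 0) * ((num 3983) + (num (-2020) * (var 2)) + (num (-6980) * (var 0))))
    (((num 36142 * ((var 0) * (((num 500)) - (((num 245)) + ((num 37)) * (var 3)))))) + ((num 500)) * (var 0) * ((num 3093) + (num (-2020) * (var 2)) + (num (-6980) * (var 0))))
  kk := fun b => cond b
    (((num 500)) * (var 0) * ((num 75) + (num 76 * (var 2))) + ((num (-18) * ((var 0) * (((num 500)) - (((num 245)) + ((num 37)) * (var 3)))))))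
    (((num 500)) * (var 0) * ((num (-26)) + (num 76 * (var 2))) + ((num (-18) * ((var 0) * (((num 500)) - (((num 245)) + ((num 37)) * (var 3)))))))
  f0 := num 2000 * ((num 500))
  wn := fun b => cond b
    (((num (-12816) * ((var 0) * (((num 500)) - (((num 245)) + ((num 37)) * (var 3))))) + (num 789 * ((var 0) * (var 2) * (((num 500)) - (((num 245)) + ((num 37)) * (var 3)))))) + ((num 500)) * (var 0) * ((num 2059) + (num (-9743) * (var 0))))
    (((num (-12816) * ((var 0) * (((num 500)) - (((num 245)) + ((num 37)) * (var 3))))) + (num 789 * ((var 0) * (var 2) * (((num 500)) - (((num 245)) + ((num 37)) * (var 3)))))) + ((num 500)) * (var 0) * ((num 2046) + (num (-9743) * (var 0))))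
  wd := num 1000 * ((num 500))
  tn := fun b => cond b
    (((num 500)) * ((num 165) + (num (-48) * (var 2)) + (num 48 * (var 0))) + ((num (-104) * (((num 500)) - (((num 245)) + ((num 37)) * (var 3))))))
    (((num 500)) * ((num 99) + (num (-48) * (var 2)) + (num 48 * (var 0))) + ((num (-104) * (((num 500)) - (((num 245)) + ((num 37)) * (var 3))))))
  td := num 8000 * ((num 500))
  cn := (num 1 - (var 0)) * (var 2) - (num 1 - num 2 * (var 0))
  cd := (num 1 - num 2 * (var 0)) * (num 1 - num 2 * (var 0)) * (var 2)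
  kn := ((num (-5117)) + (num (-4193) * (var 0)) + (num 7962 * (var 2)))
  kd := num 256
  k2n := ((num 7212) + (num 857 * (var 0)) + (num (-5770) * (var 2)))
  k2d := num 1024

/-- Its ranges. -/
def bxIz114 : StripEnd.EBox :=
  ⟨(105, 108, 800), (3, 10, 1600), (42, 45, 50), (0, 1, 1)⟩
/-- **The certificate of `pcIz114`.** -/
theorem certIz114 : Cert pcIz114 bxIz114 := by
  have h_kn : checkBig bxIz114.C 32 1 0 1 0
      pcIz114.kn = true := by decide +kernel
  have h_k2n : checkBig bxIz114.C 182 3 3 3 0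
      (strictVar pcIz114.k2n) = true := by decide +kernel
  have h_k2d : checkBig bxIz114.C 178 3 3 3 0
      (strictVar pcIz114.k2d) = true := by decide +kernel
  have h_vs : checkBig bxIz114.C 169 3 3 3 0
      (strictVar pcIz114.vs) = true := by decide +kernel
  have h_g1 : ∀ s p l : Bool, checkBig bxIz114.C 244 8 0 6 5
      (pcIz114.at ⟨p, l, !s, !s, false⟩ (c1 s)) = true := by decide +kernel
  have h_g2 : ∀ s p l t : Bool, checkBig bxIz114.C 618 20 0 16 9
      (pcIz114.at ⟨p, l, true, true, t⟩ (StripEnd.strict (c2 s))) = true := by decide +kernel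
  have h_g5 : ∀ s p l t : Bool, checkBig bxIz114.C 641 20 0 15 8
      (pcIz114.at ⟨p, l, true, true, t⟩ (StripEnd.strict (c5 s))) = true := by decide +kernel
  have h_gMG : ∀ p l t : Bool, checkBig bxIz114.C 506 19 0 13 8
      (pcIz114.at ⟨p, l, true, false, t⟩ tplMG) = true := by decide +kernel
  have h_v2 : ∀ s : Bool, checkBig bxIz114.C 166 6 0 6 4
      (pcIz114.at ⟨false, false, true, true, false⟩ (curve2 s)) = true := by decide +kernel
  have h_v5 : ∀ s : Bool, checkBig bxIz114.C 180 7 0 7 4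
      (pcIz114.at ⟨false, false, true, true, false⟩ (curve5 s)) = true := by decide +kernel
  have h_vMG : checkBig bxIz114.C 151 6 0 6 4
      (pcIz114.at ⟨false, false, true, true, false⟩ Piece.curveMG) = true := by decide +kernel
  have h_wP : ∀ b q : Bool, checkBig bxIz114.C 57 1 1 0 1
      (pcIz114.winP b q) = true := by decide +kernel
  have h_wE : ∀ b q : Bool, checkBig bxIz114.C 281 12 2 9 3
      (pcIz114.winE b q) = true := by decide +kernel
  have h_wK : ∀ b q : Bool, checkBig bxIz114.C 261 12 2 8 3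
      (pcIz114.winK b q) = true := by decide +kernel
  have h_wT : ∀ b q : Bool, checkBig bxIz114.C 213 8 2 6 4
      (pcIz114.winT b q) = true := by decide +kernel
  have h_wW : ∀ b : Bool, checkBig bxIz114.C 199 8 2 4 3
      (pcIz114.winW b) = true := by decide +kernel
  have h_wY : ∀ b : Bool, checkBig bxIz114.C 439 18 3 13 6
      (pcIz114.winY b) = true := by decide +kernel
  have h_gap : ∀ b q : Bool, checkBig bxIz114.C 536 24 3 18 6
      (pcIz114.gap b q) = true := by decide +kernel
  exact {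
    pos := ⟨⟨by decide, by decide⟩⟩
    low := by decide
    sgns := fun f => by
      cases f
      · exact ⟨165, 3, 3, 3, 0, by decide +kernel⟩
      · exact ⟨165, 3, 3, 3, 0, by decide +kernel⟩
      · exact ⟨169, 3, 3, 3, 0, by decide +kernel⟩
      · exact ⟨169, 3, 3, 3, 0, by decide +kernel⟩
      · exact ⟨168, 3, 3, 3, 0, by decide +kernel⟩
      · exact ⟨177, 3, 3, 3, 0, by decide +kernel⟩
      · exact ⟨177, 3, 3, 3, 1, by decide +kernel⟩
      · exact ⟨179, 3, 3, 3, 1, by decide +kernel⟩
      · exact ⟨185, 3, 3, 3, 0, by decide +kernel⟩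
      · exact ⟨191, 3, 3, 3, 1, by decide +kernel⟩
      · exact ⟨188, 3, 3, 3, 0, by decide +kernel⟩
      · exact ⟨187, 3, 3, 3, 0, by decide +kernel⟩
      · exact ⟨190, 3, 3, 3, 0, by decide +kernel⟩
      · exact ⟨169, 3, 3, 3, 0, by decide +kernel⟩
      · exact ⟨176, 3, 3, 3, 0, by decide +kernel⟩
    kn := ⟨_, _, _, _, _, checkFour_of_big h_kn⟩
    k2n := ⟨_, _, _, _, _, checkFour_of_big h_k2n⟩
    k2d := ⟨_, _, _, _, _, checkFour_of_big h_k2d⟩
    vs := ⟨_, _, _, _, _, checkFour_of_big h_vs⟩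
    g1 := fun s p l => ⟨_, _, _, _, _, checkFour_of_big (h_g1 s p l)⟩
    g2 := fun s p l t => ⟨_, _, _, _, _, checkFour_of_big (h_g2 s p l t)⟩
    g5 := fun s p l t => ⟨_, _, _, _, _, checkFour_of_big (h_g5 s p l t)⟩
    gMG := fun p l t => ⟨_, _, _, _, _, checkFour_of_big (h_gMG p l t)⟩
    v2 := fun s => ⟨_, _, _, _, _, checkFour_of_big (h_v2 s)⟩
    v5 := fun s => ⟨_, _, _, _, _, checkFour_of_big (h_v5 s)⟩
    vMG := ⟨_, _, _, _, _, checkFour_of_big h_vMG⟩
    wP := fun b q => ⟨_, _, _, _, _, checkFour_of_big (h_wP b q)⟩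
    wE := fun b q => ⟨_, _, _, _, _, checkFour_of_big (h_wE b q)⟩
    wK := fun b q => ⟨_, _, _, _, _, checkFour_of_big (h_wK b q)⟩
    wT := fun b q => ⟨_, _, _, _, _, checkFour_of_big (h_wT b q)⟩
    wW := fun b => ⟨_, _, _, _, _, checkFour_of_big (h_wW b)⟩
    wY := fun b => ⟨_, _, _, _, _, checkFour_of_big (h_wY b)⟩
    gap := fun b q => ⟨_, _, _, _, _, checkFour_of_big (h_gap b q)⟩ }

end Vale.Agent.P100.Calib.StripEndD
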