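import Vale.Agent.P100.Calib.SlabStripEndIZ7Win0
import Vale.Agent.P100.Calib.SlabStripEndIZ7Win1
import Vale.Agent.P100.Calib.SlabStripEndIZ7Win2
import Vale.Agent.P100.Calib.SlabStripEndIZ7Win3
import Vale.Agent.P100.Calib.SlabStripEndIZ7K112
import Vale.Agent.P100.Calib.SlabStripEndIZ7P113
import Vale.Agent.P100.Calib.SlabStripEndIZ7P114
import Vale.Agent.P100.Calib.SlabStripEndIZ7K115
import Vale.Agent.P100.Calib.SlabStripEndIZ7K116
import Vale.Agent.P100.Calib.SlabStripEndIZ7P117
import Vale.Agent.P100.Calib.SlabStripEndIZ7K121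
import Vale.Agent.P100.Calib.SlabStripEndIZ7K122
import Vale.Agent.P100.Calib.SlabStripEndIZ7K123
import Vale.Agent.P100.Calib.SlabStripEndIZ7K124
import Vale.Agent.P100.Calib.SlabStripEndIZ7K125
import Vale.Agent.P100.Calib.SlabStripEndIZ7K126
import Vale.Agent.P100.Calib.SlabStripEndIZ7K127
import Vale.Agent.P100.Calib.SlabStripEndIZ7K128
import Vale.Agent.P100.Calib.SlabStripEndIZ7K129
import Vale.Agent.P100.Calib.SlabStripEndIZ7K130
import Vale.Agent.P100.Calib.SlabStripEndIZ7K131
import Vale.Agent.P100.Calib.SlabStripEndIZ7K132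
import Vale.Agent.P100.Calib.SlabStripEndIZ7K200
import Vale.Agent.P100.Calib.SlabStripEndIZ7K201
import Vale.Agent.P100.Calib.SlabStripEndIZ7K202
import Vale.Agent.P100.Calib.SlabStripEndIZ7K203
import Vale.Agent.P100.Calib.SlabStripEndIZ7K204
import Vale.Agent.P100.Calib.SlabStripEndIZ7K205
import Vale.Agent.P100.Calib.SlabStripEndIZ7K206
import Vale.Agent.P100.Calib.SlabStripEndIZ7K207
import Vale.Agent.P100.Calib.SlabStripEndIZ7K208
import Vale.Agent.P100.Calib.SlabStripEndIZ7K209
import Vale.Agent.P100.Calib.SlabStripEndIZ7K210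
import Vale.Agent.P100.Calib.SlabStripEndIZ7K211
import Vale.Agent.P100.Calib.SlabStripEndIZ7K212
import Vale.Agent.P100.Calib.SlabStripEndIZ7K213
import Vale.Agent.P100.Calib.SlabStripEndIZ7K214

/-!
# The pieces of the `I` and `Z` charts over their lines (Leaves3)
-/

namespace Vale.Agent.P100.Calib.StripEndD

open Pack hiding ev_add ev_mul
open Pack.Ex StripMid StripEnd

local instance endIZ7Leaves3Add : Add Ex := ⟨Ex.add⟩
local instance endIZ7Leaves3Sub : Sub Ex := ⟨Ex.sub⟩
local instance endIZ7Leaves3Mul : Mul Ex := ⟨Ex.mul⟩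

/-- The piece 112 over its chart. -/
theorem pcIz112_over : pcIz112.Over (wideChart (lineChart izL112 (2625, 2672, 20000) (0, 1, 50) (42, 45, 50) (130, 50) (154, 50))) :=
  ⟨fun _ => rfl, fun _ => rfl, fun _ => rfl,
    fun x => by simp only [pcIz112, wideChart, lineChart, izL112, ev_add, ev_mul, Ex.eval] <;> push_cast <;> ring,
    fun x => by
      simp only [pcIz112, wideChart, lineChart, afEx, izL112, ev_add, ev_mul, Ex.eval] <;> push_cast <;> ring,
    fun x => by
      simp only [pcIz112, Piece.A, Piece.S, ev_add, ev_sub, ev_mul, Ex.eval]; push_cast; ring,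
    rfl, rfl⟩

/-- The piece 112 with its lines. -/
theorem izLeaf112 : Leaf izL112 (2625, 2672, 20000) (0, 1, 50) (42, 45, 50) (130, 50) (154, 50) pcIz112 bxIz112 :=
  ⟨by norm_num, izL112_up, izL112_down, Or.inl certIz112, pcIz112_over, ⟨rfl, rfl, rfl, rfl⟩, rfl, rfl⟩

/-- The piece 113 over its chart. -/
theorem pcIz113_over : pcIz113.Over (wideChart (lineChart izL113 (105, 108, 800) (0, 1, 500) (42, 45, 50) (123, 50) (143, 50))) :=
  ⟨fun _ => rfl, fun _ => rfl, fun _ => rfl,
    fun x => by simp only [pcIz113, wideChart, lineChart, izL113, ev_add, ev_mul, Ex.eval] <;> push_cast <;> ring,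
    fun x => by
      simp only [pcIz113, wideChart, lineChart, afEx, izL113, ev_add, ev_mul, Ex.eval] <;> push_cast <;> ring,
    fun x => by
      simp only [pcIz113, Piece.A, Piece.S, ev_add, ev_sub, ev_mul, Ex.eval]; push_cast; ring,
    rfl, rfl⟩

/-- The piece 113 with its lines. -/
theorem izLeaf113 : Leaf izL113 (105, 108, 800) (0, 1, 500) (42, 45, 50) (123, 50) (143, 50) pcIz113 bxIz113 :=
  ⟨by norm_num, izL113_up, izL113_down, Or.inl certIz113, pcIz113_over, ⟨rfl, rfl, rfl, rfl⟩, rfl, rfl⟩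

/-- The piece 114 over its chart. -/
theorem pcIz114_over : pcIz114.Over (wideChart (lineChart izL114 (105, 108, 800) (3, 10, 1600) (42, 45, 50) (123, 50) (143, 50))) :=
  ⟨fun _ => rfl, fun _ => rfl, fun _ => rfl,
    fun x => by simp only [pcIz114, wideChart, lineChart, izL114, ev_add, ev_mul, Ex.eval] <;> push_cast <;> ring,
    fun x => by
      simp only [pcIz114, wideChart, lineChart, afEx, izL114, ev_add, ev_mul, Ex.eval] <;> push_cast <;> ring,
    fun x => by
      simp only [pcIz114, Piece.A, Piece.S, ev_add, ev_sub, ev_mul, Ex.eval]; push_cast; ring,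
    rfl, rfl⟩

/-- The piece 114 with its lines. -/
theorem izLeaf114 : Leaf izL114 (105, 108, 800) (3, 10, 1600) (42, 45, 50) (123, 50) (143, 50) pcIz114 bxIz114 :=
  ⟨by norm_num, izL114_up, izL114_down, Or.inl certIz114, pcIz114_over, ⟨rfl, rfl, rfl, rfl⟩, rfl, rfl⟩

/-- The piece 115 over its chart. -/
theorem pcIz115_over : pcIz115.Over (wideChart (lineChart izL115 (105, 108, 800) (8, 25, 4000) (168, 175, 200) (121, 50) (139, 50))) :=
  ⟨fun _ => rfl, fun _ => rfl, fun _ => rfl,
    fun x => by simp only [pcIz115, wideChart, lineChart, izL115, ev_add, ev_mul, Ex.eval] <;> push_cast <;> ring,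
    fun x => by
      simp only [pcIz115, wideChart, lineChart, afEx, izL115, ev_add, ev_mul, Ex.eval] <;> push_cast <;> ring,
    fun x => by
      simp only [pcIz115, Piece.A, Piece.S, ev_add, ev_sub, ev_mul, Ex.eval]; push_cast; ring,
    rfl, rfl⟩

/-- The piece 115 with its lines. -/
theorem izLeaf115 : Leaf izL115 (105, 108, 800) (8, 25, 4000) (168, 175, 200) (121, 50) (139, 50) pcIz115 bxIz115 :=
  ⟨by norm_num, izL115_up, izL115_down, Or.inl certIz115, pcIz115_over, ⟨rfl, rfl, rfl, rfl⟩, rfl, rfl⟩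

/-- The piece 116 over its chart. -/
theorem pcIz116_over : pcIz116.Over (wideChart (lineChart izL116 (105, 108, 800) (0, 1, 160) (35, 36, 40) (123, 50) (140, 50))) :=
  ⟨fun _ => rfl, fun _ => rfl, fun _ => rfl,
    fun x => by simp only [pcIz116, wideChart, lineChart, izL116, ev_add, ev_mul, Ex.eval] <;> push_cast <;> ring,
    fun x => by
      simp only [pcIz116, wideChart, lineChart, afEx, izL116, ev_add, ev_mul, Ex.eval] <;> push_cast <;> ring,
    fun x => by
      simp only [pcIz116, Piece.A, Piece.S, ev_add, ev_sub, ev_mul, Ex.eval]; push_cast; ring,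
    rfl, rfl⟩

/-- The piece 116 with its lines. -/
theorem izLeaf116 : Leaf izL116 (105, 108, 800) (0, 1, 160) (35, 36, 40) (123, 50) (140, 50) pcIz116 bxIz116 :=
  ⟨by norm_num, izL116_up, izL116_down, Or.inl certIz116, pcIz116_over, ⟨rfl, rfl, rfl, rfl⟩, rfl, rfl⟩

/-- The piece 117 over its chart. -/
theorem pcIz117_over : pcIz117.Over (wideChart (lineChart izL117 (105, 108, 800) (5, 16, 800) (42, 45, 50) (120, 50) (143, 50))) :=
  ⟨fun _ => rfl, fun _ => rfl, fun _ => rfl,
    fun x => by simp only [pcIz117, wideChart, lineChart, izL117, ev_add, ev_mul, Ex.eval] <;> push_cast <;> ring,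
    fun x => by
      simp only [pcIz117, wideChart, lineChart, afEx, izL117, ev_add, ev_mul, Ex.eval] <;> push_cast <;> ring,
    fun x => by
      simp only [pcIz117, Piece.A, Piece.S, ev_add, ev_sub, ev_mul, Ex.eval]; push_cast; ring,
    rfl, rfl⟩

/-- The piece 117 with its lines. -/
theorem izLeaf117 : Leaf izL117 (105, 108, 800) (5, 16, 800) (42, 45, 50) (120, 50) (143, 50) pcIz117 bxIz117 :=
  ⟨by norm_num, izL117_up, izL117_down, Or.inl certIz117, pcIz117_over, ⟨rfl, rfl, rfl, rfl⟩, rfl, rfl⟩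

/-- The piece 121 over its chart. -/
theorem pcIz121_over : pcIz121.Over (wideChart (lineChart izL121 (22, 23, 160) (0, 1, 50) (19, 26, 80) (94, 50) (123, 50))) :=
  ⟨fun _ => rfl, fun _ => rfl, fun _ => rfl,
    fun x => by simp only [pcIz121, wideChart, lineChart, izL121, ev_add, ev_mul, Ex.eval] <;> push_cast <;> ring,
    fun x => by
      simp only [pcIz121, wideChart, lineChart, afEx, izL121, ev_add, ev_mul, Ex.eval] <;> push_cast <;> ring,
    fun x => by
      simp only [pcIz121, Piece.A, Piece.S, ev_add, ev_sub, ev_mul, Ex.eval]; push_cast; ring,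
    rfl, rfl⟩

/-- The piece 121 with its lines. -/
theorem izLeaf121 : Leaf izL121 (22, 23, 160) (0, 1, 50) (19, 26, 80) (94, 50) (123, 50) pcIz121 bxIz121 :=
  ⟨by norm_num, izL121_up, izL121_down, Or.inr certIz121, pcIz121_over, ⟨rfl, rfl, rfl, rfl⟩, rfl, rfl⟩

/-- The piece 122 over its chart. -/
theorem pcIz122_over : pcIz122.Over (wideChart (lineChart izL122 (22, 23, 160) (0, 1, 50) (33, 40, 80) (100, 50) (137, 50))) :=
  ⟨fun _ => rfl, fun _ => rfl, fun _ => rfl,
    fun x => by simp only [pcIz122, wideChart, lineChart, izL122, ev_add, ev_mul, Ex.eval] <;> push_cast <;> ring,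
    fun x => by
      simp only [pcIz122, wideChart, lineChart, afEx, izL122, ev_add, ev_mul, Ex.eval] <;> push_cast <;> ring,
    fun x => by
      simp only [pcIz122, Piece.A, Piece.S, ev_add, ev_sub, ev_mul, Ex.eval]; push_cast; ring,
    rfl, rfl⟩

/-- The piece 122 with its lines. -/
theorem izLeaf122 : Leaf izL122 (22, 23, 160) (0, 1, 50) (33, 40, 80) (100, 50) (137, 50) pcIz122 bxIz122 :=
  ⟨by norm_num, izL122_up, izL122_down, Or.inr certIz122, pcIz122_over, ⟨rfl, rfl, rfl, rfl⟩, rfl, rfl⟩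

/-- The piece 123 over its chart. -/
theorem pcIz123_over : pcIz123.Over (wideChart (lineChart izL123 (20, 23, 160) (2, 15, 100) (33, 40, 80) (95, 50) (136, 50))) :=
  ⟨fun _ => rfl, fun _ => rfl, fun _ => rfl,
    fun x => by simp only [pcIz123, wideChart, lineChart, izL123, ev_add, ev_mul, Ex.eval] <;> push_cast <;> ring,
    fun x => by
      simp only [pcIz123, wideChart, lineChart, afEx, izL123, ev_add, ev_mul, Ex.eval] <;> push_cast <;> ring,
    fun x => by
      simp only [pcIz123, Piece.A, Piece.S, ev_add, ev_sub, ev_mul, Ex.eval]; push_cast; ring,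
    rfl, rfl⟩

/-- The piece 123 with its lines. -/
theorem izLeaf123 : Leaf izL123 (20, 23, 160) (2, 15, 100) (33, 40, 80) (95, 50) (136, 50) pcIz123 bxIz123 :=
  ⟨by norm_num, izL123_up, izL123_down, Or.inl certIz123, pcIz123_over, ⟨rfl, rfl, rfl, rfl⟩, rfl, rfl⟩

/-- The piece 124 over its chart. -/
theorem pcIz124_over : pcIz124.Over (wideChart (lineChart izL124 (20, 23, 160) (2, 15, 100) (9, 10, 16) (98, 50) (146, 50))) :=
  ⟨fun _ => rfl, fun _ => rfl, fun _ => rfl,
    fun x => by simp only [pcIz124, wideChart, lineChart, izL124, ev_add, ev_mul, Ex.eval] <;> push_cast <;> ring,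
    fun x => by
      simp only [pcIz124, wideChart, lineChart, afEx, izL124, ev_add, ev_mul, Ex.eval] <;> push_cast <;> ring,
    fun x => by
      simp only [pcIz124, Piece.A, Piece.S, ev_add, ev_sub, ev_mul, Ex.eval]; push_cast; ring,
    rfl, rfl⟩

/-- The piece 124 with its lines. -/
theorem izLeaf124 : Leaf izL124 (20, 23, 160) (2, 15, 100) (9, 10, 16) (98, 50) (146, 50) pcIz124 bxIz124 :=
  ⟨by norm_num, izL124_up, izL124_down, Or.inl certIz124, pcIz124_over, ⟨rfl, rfl, rfl, rfl⟩, rfl, rfl⟩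

/-- The piece 125 over its chart. -/
theorem pcIz125_over : pcIz125.Over (wideChart (lineChart izL125 (22, 23, 160) (0, 1, 50) (4, 5, 8) (129, 50) (148, 50))) :=
  ⟨fun _ => rfl, fun _ => rfl, fun _ => rfl,
    fun x => by simp only [pcIz125, wideChart, lineChart, izL125, ev_add, ev_mul, Ex.eval] <;> push_cast <;> ring,
    fun x => by
      simp only [pcIz125, wideChart, lineChart, afEx, izL125, ev_add, ev_mul, Ex.eval] <;> push_cast <;> ring,
    fun x => by
      simp only [pcIz125, Piece.A, Piece.S, ev_add, ev_sub, ev_mul, Ex.eval]; push_cast; ring,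
    rfl, rfl⟩

/-- The piece 125 with its lines. -/
theorem izLeaf125 : Leaf izL125 (22, 23, 160) (0, 1, 50) (4, 5, 8) (129, 50) (148, 50) pcIz125 bxIz125 :=
  ⟨by norm_num, izL125_up, izL125_down, Or.inr certIz125, pcIz125_over, ⟨rfl, rfl, rfl, rfl⟩, rfl, rfl⟩

/-- The piece 126 over its chart. -/
theorem pcIz126_over : pcIz126.Over (wideChart (lineChart izL126 (20, 23, 160) (2, 5, 100) (26, 33, 80) (96, 50) (129, 50))) :=
  ⟨fun _ => rfl, fun _ => rfl, fun _ => rfl,
    fun x => by simp only [pcIz126, wideChart, lineChart, izL126, ev_add, ev_mul, Ex.eval] <;> push_cast <;> ring,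
    fun x => by
      simp only [pcIz126, wideChart, lineChart, afEx, izL126, ev_add, ev_mul, Ex.eval] <;> push_cast <;> ring,
    fun x => by
      simp only [pcIz126, Piece.A, Piece.S, ev_add, ev_sub, ev_mul, Ex.eval]; push_cast; ring,
    rfl, rfl⟩

/-- The piece 126 with its lines. -/
theorem izLeaf126 : Leaf izL126 (20, 23, 160) (2, 5, 100) (26, 33, 80) (96, 50) (129, 50) pcIz126 bxIz126 :=
  ⟨by norm_num, izL126_up, izL126_down, Or.inl certIz126, pcIz126_over, ⟨rfl, rfl, rfl, rfl⟩, rfl, rfl⟩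

/-- The piece 127 over its chart. -/
theorem pcIz127_over : pcIz127.Over (wideChart (lineChart izL127 (22, 23, 160) (0, 1, 50) (3, 6, 40) (88, 50) (116, 50))) :=
  ⟨fun _ => rfl, fun _ => rfl, fun _ => rfl,
    fun x => by simp only [pcIz127, wideChart, lineChart, izL127, ev_add, ev_mul, Ex.eval] <;> push_cast <;> ring,
    fun x => by
      simp only [pcIz127, wideChart, lineChart, afEx, izL127, ev_add, ev_mul, Ex.eval] <;> push_cast <;> ring,
    fun x => by
      simp only [pcIz127, Piece.A, Piece.S, ev_add, ev_sub, ev_mul, Ex.eval]; push_cast; ring,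
    rfl, rfl⟩

/-- The piece 127 with its lines. -/
theorem izLeaf127 : Leaf izL127 (22, 23, 160) (0, 1, 50) (3, 6, 40) (88, 50) (116, 50) pcIz127 bxIz127 :=
  ⟨by norm_num, izL127_up, izL127_down, Or.inr certIz127, pcIz127_over, ⟨rfl, rfl, rfl, rfl⟩, rfl, rfl⟩

/-- The piece 128 over its chart. -/
theorem pcIz128_over : pcIz128.Over (wideChart (lineChart izL128 (10, 11, 80) (0, 1, 50) (3, 6, 40) (88, 50) (114, 50))) :=
  ⟨fun _ => rfl, fun _ => rfl, fun _ => rfl,
    fun x => by simp only [pcIz128, wideChart, lineChart, izL128, ev_add, ev_mul, Ex.eval] <;> push_cast <;> ring,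
    fun x => by
      simp only [pcIz128, wideChart, lineChart, afEx, izL128, ev_add, ev_mul, Ex.eval] <;> push_cast <;> ring,
    fun x => by
      simp only [pcIz128, Piece.A, Piece.S, ev_add, ev_sub, ev_mul, Ex.eval]; push_cast; ring,
    rfl, rfl⟩

/-- The piece 128 with its lines. -/
theorem izLeaf128 : Leaf izL128 (10, 11, 80) (0, 1, 50) (3, 6, 40) (88, 50) (114, 50) pcIz128 bxIz128 :=
  ⟨by norm_num, izL128_up, izL128_down, Or.inr certIz128, pcIz128_over, ⟨rfl, rfl, rfl, rfl⟩, rfl, rfl⟩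

/-- The piece 129 over its chart. -/
theorem pcIz129_over : pcIz129.Over (wideChart (lineChart izL129 (3, 4, 40) (0, 1, 50) (3, 6, 40) (91, 50) (109, 50))) :=
  ⟨fun _ => rfl, fun _ => rfl, fun _ => rfl,
    fun x => by simp only [pcIz129, wideChart, lineChart, izL129, ev_add, ev_mul, Ex.eval] <;> push_cast <;> ring,
    fun x => by
      simp only [pcIz129, wideChart, lineChart, afEx, izL129, ev_add, ev_mul, Ex.eval] <;> push_cast <;> ring,
    fun x => by
      simp only [pcIz129, Piece.A, Piece.S, ev_add, ev_sub, ev_mul, Ex.eval]; push_cast; ring,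
    rfl, rfl⟩

/-- The piece 129 with its lines. -/
theorem izLeaf129 : Leaf izL129 (3, 4, 40) (0, 1, 50) (3, 6, 40) (91, 50) (109, 50) pcIz129 bxIz129 :=
  ⟨by norm_num, izL129_up, izL129_down, Or.inr certIz129, pcIz129_over, ⟨rfl, rfl, rfl, rfl⟩, rfl, rfl⟩

/-- The piece 130 over its chart. -/
theorem pcIz130_over : pcIz130.Over (wideChart (lineChart izL130 (16, 23, 160) (1, 3, 20) (19, 26, 80) (91, 50) (122, 50))) :=
  ⟨fun _ => rfl, fun _ => rfl, fun _ => rfl,
    fun x => by simp only [pcIz130, wideChart, lineChart, izL130, ev_add, ev_mul, Ex.eval] <;> push_cast <;> ring,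
    fun x => by
      simp only [pcIz130, wideChart, lineChart, afEx, izL130, ev_add, ev_mul, Ex.eval] <;> push_cast <;> ring,
    fun x => by
      simp only [pcIz130, Piece.A, Piece.S, ev_add, ev_sub, ev_mul, Ex.eval]; push_cast; ring,
    rfl, rfl⟩

/-- The piece 130 with its lines. -/
theorem izLeaf130 : Leaf izL130 (16, 23, 160) (1, 3, 20) (19, 26, 80) (91, 50) (122, 50) pcIz130 bxIz130 :=
  ⟨by norm_num, izL130_up, izL130_down, Or.inl certIz130, pcIz130_over, ⟨rfl, rfl, rfl, rfl⟩, rfl, rfl⟩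

/-- The piece 131 over its chart. -/
theorem pcIz131_over : pcIz131.Over (wideChart (lineChart izL131 (16, 23, 160) (3, 20, 20) (3, 4, 8) (69, 50) (137, 50))) :=
  ⟨fun _ => rfl, fun _ => rfl, fun _ => rfl,
    fun x => by simp only [pcIz131, wideChart, lineChart, izL131, ev_add, ev_mul, Ex.eval] <;> push_cast <;> ring,
    fun x => by
      simp only [pcIz131, wideChart, lineChart, afEx, izL131, ev_add, ev_mul, Ex.eval] <;> push_cast <;> ring,
    fun x => by
      simp only [pcIz131, Piece.A, Piece.S, ev_add, ev_sub, ev_mul, Ex.eval]; push_cast; ring,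
    rfl, rfl⟩

/-- The piece 131 with its lines. -/
theorem izLeaf131 : Leaf izL131 (16, 23, 160) (3, 20, 20) (3, 4, 8) (69, 50) (137, 50) pcIz131 bxIz131 :=
  ⟨by norm_num, izL131_up, izL131_down, Or.inl certIz131, pcIz131_over, ⟨rfl, rfl, rfl, rfl⟩, rfl, rfl⟩

/-- The piece 132 over its chart. -/
theorem pcIz132_over : pcIz132.Over (wideChart (lineChart izL132 (16, 23, 160) (3, 20, 20) (5, 6, 8) (70, 50) (147, 50))) :=
  ⟨fun _ => rfl, fun _ => rfl, fun _ => rfl,
    fun x => by simp only [pcIz132, wideChart, lineChart, izL132, ev_add, ev_mul, Ex.eval] <;> push_cast <;> ring,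
    fun x => by
      simp only [pcIz132, wideChart, lineChart, afEx, izL132, ev_add, ev_mul, Ex.eval] <;> push_cast <;> ring,
    fun x => by
      simp only [pcIz132, Piece.A, Piece.S, ev_add, ev_sub, ev_mul, Ex.eval]; push_cast; ring,
    rfl, rfl⟩

/-- The piece 132 with its lines. -/
theorem izLeaf132 : Leaf izL132 (16, 23, 160) (3, 20, 20) (5, 6, 8) (70, 50) (147, 50) pcIz132 bxIz132 :=
  ⟨by norm_num, izL132_up, izL132_down, Or.inl certIz132, pcIz132_over, ⟨rfl, rfl, rfl, rfl⟩, rfl, rfl⟩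

/-- The piece 200 over its chart. -/
theorem pcIz200_over : pcIz200.Over (wideChart (lineChart izL200 (2, 3, 40) (0, 1, 160) (15, 19, 20) (112, 50) (130, 50))) :=
  ⟨fun _ => rfl, fun _ => rfl, fun _ => rfl,
    fun x => by simp only [pcIz200, wideChart, lineChart, izL200, ev_add, ev_mul, Ex.eval] <;> push_cast <;> ring,
    fun x => by
      simp only [pcIz200, wideChart, lineChart, afEx, izL200, ev_add, ev_mul, Ex.eval] <;> push_cast <;> ring,
    fun x => by
      simp only [pcIz200, Piece.A, Piece.S, ev_add, ev_sub, ev_mul, Ex.eval]; push_cast; ring,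
    rfl, rfl⟩

/-- The piece 200 with its lines. -/
theorem izLeaf200 : Leaf izL200 (2, 3, 40) (0, 1, 160) (15, 19, 20) (112, 50) (130, 50) pcIz200 bxIz200 :=
  ⟨by norm_num, izL200_up, izL200_down, Or.inl certIz200, pcIz200_over, ⟨rfl, rfl, rfl, rfl⟩, rfl, rfl⟩

/-- The piece 201 over its chart. -/
theorem pcIz201_over : pcIz201.Over (wideChart (lineChart izL201 (2, 3, 40) (0, 1, 160) (15, 19, 20) (112, 50) (128, 50))) :=
  ⟨fun _ => rfl, fun _ => rfl, fun _ => rfl,
    fun x => by simp only [pcIz201, wideChart, lineChart, izL201, ev_add, ev_mul, Ex.eval] <;> push_cast <;> ring,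
    fun x => by
      simp only [pcIz201, wideChart, lineChart, afEx, izL201, ev_add, ev_mul, Ex.eval] <;> push_cast <;> ring,
    fun x => by
      simp only [pcIz201, Piece.A, Piece.S, ev_add, ev_sub, ev_mul, Ex.eval]; push_cast; ring,
    rfl, rfl⟩

/-- The piece 201 with its lines. -/
theorem izLeaf201 : Leaf izL201 (2, 3, 40) (0, 1, 160) (15, 19, 20) (112, 50) (128, 50) pcIz201 bxIz201 :=
  ⟨by norm_num, izL201_up, izL201_down, Or.inl certIz201, pcIz201_over, ⟨rfl, rfl, rfl, rfl⟩, rfl, rfl⟩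

/-- The piece 202 over its chart. -/
theorem pcIz202_over : pcIz202.Over (wideChart (lineChart izL202 (2, 3, 40) (0, 1, 160) (15, 19, 20) (106, 50) (127, 50))) :=
  ⟨fun _ => rfl, fun _ => rfl, fun _ => rfl,
    fun x => by simp only [pcIz202, wideChart, lineChart, izL202, ev_add, ev_mul, Ex.eval] <;> push_cast <;> ring,
    fun x => by
      simp only [pcIz202, wideChart, lineChart, afEx, izL202, ev_add, ev_mul, Ex.eval] <;> push_cast <;> ring,
    fun x => by
      simp only [pcIz202, Piece.A, Piece.S, ev_add, ev_sub, ev_mul, Ex.eval]; push_cast; ring,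
    rfl, rfl⟩

/-- The piece 202 with its lines. -/
theorem izLeaf202 : Leaf izL202 (2, 3, 40) (0, 1, 160) (15, 19, 20) (106, 50) (127, 50) pcIz202 bxIz202 :=
  ⟨by norm_num, izL202_up, izL202_down, Or.inl certIz202, pcIz202_over, ⟨rfl, rfl, rfl, rfl⟩, rfl, rfl⟩

/-- The piece 203 over its chart. -/
theorem pcIz203_over : pcIz203.Over (wideChart (lineChart izL203 (2, 3, 40) (0, 1, 160) (15, 19, 20) (104, 50) (120, 50))) :=
  ⟨fun _ => rfl, fun _ => rfl, fun _ => rfl,
    fun x => by simp only [pcIz203, wideChart, lineChart, izL203, ev_add, ev_mul, Ex.eval] <;> push_cast <;> ring,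
    fun x => by
      simp only [pcIz203, wideChart, lineChart, afEx, izL203, ev_add, ev_mul, Ex.eval] <;> push_cast <;> ring,
    fun x => by
      simp only [pcIz203, Piece.A, Piece.S, ev_add, ev_sub, ev_mul, Ex.eval]; push_cast; ring,
    rfl, rfl⟩

/-- The piece 203 with its lines. -/
theorem izLeaf203 : Leaf izL203 (2, 3, 40) (0, 1, 160) (15, 19, 20) (104, 50) (120, 50) pcIz203 bxIz203 :=
  ⟨by norm_num, izL203_up, izL203_down, Or.inl certIz203, pcIz203_over, ⟨rfl, rfl, rfl, rfl⟩, rfl, rfl⟩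

/-- The piece 204 over its chart. -/
theorem pcIz204_over : pcIz204.Over (wideChart (lineChart izL204 (2, 3, 40) (0, 1, 160) (15, 19, 20) (103, 50) (117, 50))) :=
  ⟨fun _ => rfl, fun _ => rfl, fun _ => rfl,
    fun x => by simp only [pcIz204, wideChart, lineChart, izL204, ev_add, ev_mul, Ex.eval] <;> push_cast <;> ring,
    fun x => by
      simp only [pcIz204, wideChart, lineChart, afEx, izL204, ev_add, ev_mul, Ex.eval] <;> push_cast <;> ring,
    fun x => by
      simp only [pcIz204, Piece.A, Piece.S, ev_add, ev_sub, ev_mul, Ex.eval]; push_cast; ring,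
    rfl, rfl⟩

/-- The piece 204 with its lines. -/
theorem izLeaf204 : Leaf izL204 (2, 3, 40) (0, 1, 160) (15, 19, 20) (103, 50) (117, 50) pcIz204 bxIz204 :=
  ⟨by norm_num, izL204_up, izL204_down, Or.inl certIz204, pcIz204_over, ⟨rfl, rfl, rfl, rfl⟩, rfl, rfl⟩

/-- The piece 205 over its chart. -/
theorem pcIz205_over : pcIz205.Over (wideChart (lineChart izL205 (2, 3, 40) (5, 16, 800) (15, 19, 20) (102, 50) (129, 50))) :=
  ⟨fun _ => rfl, fun _ => rfl, fun _ => rfl,
    fun x => by simp only [pcIz205, wideChart, lineChart, izL205, ev_add, ev_mul, Ex.eval] <;> push_cast <;> ring,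
    fun x => by
      simp only [pcIz205, wideChart, lineChart, afEx, izL205, ev_add, ev_mul, Ex.eval] <;> push_cast <;> ring,
    fun x => by
      simp only [pcIz205, Piece.A, Piece.S, ev_add, ev_sub, ev_mul, Ex.eval]; push_cast; ring,
    rfl, rfl⟩

/-- The piece 205 with its lines. -/
theorem izLeaf205 : Leaf izL205 (2, 3, 40) (5, 16, 800) (15, 19, 20) (102, 50) (129, 50) pcIz205 bxIz205 :=
  ⟨by norm_num, izL205_up, izL205_down, Or.inl certIz205, pcIz205_over, ⟨rfl, rfl, rfl, rfl⟩, rfl, rfl⟩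

/-- The piece 206 over its chart. -/
theorem pcIz206_over : pcIz206.Over (wideChart (lineChart izL206 (3, 4, 40) (0, 1, 160) (75, 92, 100) (114, 50) (138, 50))) :=
  ⟨fun _ => rfl, fun _ => rfl, fun _ => rfl,
    fun x => by simp only [pcIz206, wideChart, lineChart, izL206, ev_add, ev_mul, Ex.eval] <;> push_cast <;> ring,
    fun x => by
      simp only [pcIz206, wideChart, lineChart, afEx, izL206, ev_add, ev_mul, Ex.eval] <;> push_cast <;> ring,
    fun x => by
      simp only [pcIz206, Piece.A, Piece.S, ev_add, ev_sub, ev_mul, Ex.eval]; push_cast; ring,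
    rfl, rfl⟩

/-- The piece 206 with its lines. -/
theorem izLeaf206 : Leaf izL206 (3, 4, 40) (0, 1, 160) (75, 92, 100) (114, 50) (138, 50) pcIz206 bxIz206 :=
  ⟨by norm_num, izL206_up, izL206_down, Or.inl certIz206, pcIz206_over, ⟨rfl, rfl, rfl, rfl⟩, rfl, rfl⟩

/-- The piece 207 over its chart. -/
theorem pcIz207_over : pcIz207.Over (wideChart (lineChart izL207 (3, 4, 40) (0, 1, 160) (75, 92, 100) (107, 50) (131, 50))) :=
  ⟨fun _ => rfl, fun _ => rfl, fun _ => rfl,
    fun x => by simp only [pcIz207, wideChart, lineChart, izL207, ev_add, ev_mul, Ex.eval] <;> push_cast <;> ring,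
    fun x => by
      simp only [pcIz207, wideChart, lineChart, afEx, izL207, ev_add, ev_mul, Ex.eval] <;> push_cast <;> ring,
    fun x => by
      simp only [pcIz207, Piece.A, Piece.S, ev_add, ev_sub, ev_mul, Ex.eval]; push_cast; ring,
    rfl, rfl⟩

/-- The piece 207 with its lines. -/
theorem izLeaf207 : Leaf izL207 (3, 4, 40) (0, 1, 160) (75, 92, 100) (107, 50) (131, 50) pcIz207 bxIz207 :=
  ⟨by norm_num, izL207_up, izL207_down, Or.inl certIz207, pcIz207_over, ⟨rfl, rfl, rfl, rfl⟩, rfl, rfl⟩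

/-- The piece 208 over its chart. -/
theorem pcIz208_over : pcIz208.Over (wideChart (lineChart izL208 (3, 4, 40) (5, 16, 800) (75, 92, 100) (114, 50) (138, 50))) :=
  ⟨fun _ => rfl, fun _ => rfl, fun _ => rfl,
    fun x => by simp only [pcIz208, wideChart, lineChart, izL208, ev_add, ev_mul, Ex.eval] <;> push_cast <;> ring,
    fun x => by
      simp only [pcIz208, wideChart, lineChart, afEx, izL208, ev_add, ev_mul, Ex.eval] <;> push_cast <;> ring,
    fun x => by
      simp only [pcIz208, Piece.A, Piece.S, ev_add, ev_sub, ev_mul, Ex.eval]; push_cast; ring,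
    rfl, rfl⟩

/-- The piece 208 with its lines. -/
theorem izLeaf208 : Leaf izL208 (3, 4, 40) (5, 16, 800) (75, 92, 100) (114, 50) (138, 50) pcIz208 bxIz208 :=
  ⟨by norm_num, izL208_up, izL208_down, Or.inl certIz208, pcIz208_over, ⟨rfl, rfl, rfl, rfl⟩, rfl, rfl⟩

/-- The piece 209 over its chart. -/
theorem pcIz209_over : pcIz209.Over (wideChart (lineChart izL209 (3, 4, 40) (5, 16, 800) (75, 92, 100) (107, 50) (131, 50))) :=
  ⟨fun _ => rfl, fun _ => rfl, fun _ => rfl,
    fun x => by simp only [pcIz209, wideChart, lineChart, izL209, ev_add, ev_mul, Ex.eval] <;> push_cast <;> ring,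
    fun x => by
      simp only [pcIz209, wideChart, lineChart, afEx, izL209, ev_add, ev_mul, Ex.eval] <;> push_cast <;> ring,
    fun x => by
      simp only [pcIz209, Piece.A, Piece.S, ev_add, ev_sub, ev_mul, Ex.eval]; push_cast; ring,
    rfl, rfl⟩

/-- The piece 209 with its lines. -/
theorem izLeaf209 : Leaf izL209 (3, 4, 40) (5, 16, 800) (75, 92, 100) (107, 50) (131, 50) pcIz209 bxIz209 :=
  ⟨by norm_num, izL209_up, izL209_down, Or.inl certIz209, pcIz209_over, ⟨rfl, rfl, rfl, rfl⟩, rfl, rfl⟩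

/-- The piece 210 over its chart. -/
theorem pcIz210_over : pcIz210.Over (wideChart (lineChart izL210 (4, 5, 40) (0, 1, 160) (75, 89, 100) (131, 50) (159, 50))) :=
  ⟨fun _ => rfl, fun _ => rfl, fun _ => rfl,
    fun x => by simp only [pcIz210, wideChart, lineChart, izL210, ev_add, ev_mul, Ex.eval] <;> push_cast <;> ring,
    fun x => by
      simp only [pcIz210, wideChart, lineChart, afEx, izL210, ev_add, ev_mul, Ex.eval] <;> push_cast <;> ring,
    fun x => by
      simp only [pcIz210, Piece.A, Piece.S, ev_add, ev_sub, ev_mul, Ex.eval]; push_cast; ring,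
    rfl, rfl⟩

/-- The piece 210 with its lines. -/
theorem izLeaf210 : Leaf izL210 (4, 5, 40) (0, 1, 160) (75, 89, 100) (131, 50) (159, 50) pcIz210 bxIz210 :=
  ⟨by norm_num, izL210_up, izL210_down, Or.inl certIz210, pcIz210_over, ⟨rfl, rfl, rfl, rfl⟩, rfl, rfl⟩

/-- The piece 211 over its chart. -/
theorem pcIz211_over : pcIz211.Over (wideChart (lineChart izL211 (4, 5, 40) (0, 3, 1600) (75, 89, 100) (131, 50) (157, 50))) :=
  ⟨fun _ => rfl, fun _ => rfl, fun _ => rfl,
    fun x => by simp only [pcIz211, wideChart, lineChart, izL211, ev_add, ev_mul, Ex.eval] <;> push_cast <;> ring,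
    fun x => by
      simp only [pcIz211, wideChart, lineChart, afEx, izL211, ev_add, ev_mul, Ex.eval] <;> push_cast <;> ring,
    fun x => by
      simp only [pcIz211, Piece.A, Piece.S, ev_add, ev_sub, ev_mul, Ex.eval]; push_cast; ring,
    rfl, rfl⟩

/-- The piece 211 with its lines. -/
theorem izLeaf211 : Leaf izL211 (4, 5, 40) (0, 3, 1600) (75, 89, 100) (131, 50) (157, 50) pcIz211 bxIz211 :=
  ⟨by norm_num, izL211_up, izL211_down, Or.inl certIz211, pcIz211_over, ⟨rfl, rfl, rfl, rfl⟩, rfl, rfl⟩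

/-- The piece 212 over its chart. -/
theorem pcIz212_over : pcIz212.Over (wideChart (lineChart izL212 (4, 5, 40) (3, 10, 1600) (75, 89, 100) (131, 50) (157, 50))) :=
  ⟨fun _ => rfl, fun _ => rfl, fun _ => rfl,
    fun x => by simp only [pcIz212, wideChart, lineChart, izL212, ev_add, ev_mul, Ex.eval] <;> push_cast <;> ring,
    fun x => by
      simp only [pcIz212, wideChart, lineChart, afEx, izL212, ev_add, ev_mul, Ex.eval] <;> push_cast <;> ring,
    fun x => by
      simp only [pcIz212, Piece.A, Piece.S, ev_add, ev_sub, ev_mul, Ex.eval]; push_cast; ring,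
    rfl, rfl⟩

/-- The piece 212 with its lines. -/
theorem izLeaf212 : Leaf izL212 (4, 5, 40) (3, 10, 1600) (75, 89, 100) (131, 50) (157, 50) pcIz212 bxIz212 :=
  ⟨by norm_num, izL212_up, izL212_down, Or.inl certIz212, pcIz212_over, ⟨rfl, rfl, rfl, rfl⟩, rfl, rfl⟩

/-- The piece 213 over its chart. -/
theorem pcIz213_over : pcIz213.Over (wideChart (lineChart izL213 (4, 5, 40) (0, 1, 160) (75, 89, 100) (131, 50) (156, 50))) :=
  ⟨fun _ => rfl, fun _ => rfl, fun _ => rfl,
    fun x => by simp only [pcIz213, wideChart, lineChart, izL213, ev_add, ev_mul, Ex.eval] <;> push_cast <;> ring,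
    fun x => by
      simp only [pcIz213, wideChart, lineChart, afEx, izL213, ev_add, ev_mul, Ex.eval] <;> push_cast <;> ring,
    fun x => by
      simp only [pcIz213, Piece.A, Piece.S, ev_add, ev_sub, ev_mul, Ex.eval]; push_cast; ring,
    rfl, rfl⟩

/-- The piece 213 with its lines. -/
theorem izLeaf213 : Leaf izL213 (4, 5, 40) (0, 1, 160) (75, 89, 100) (131, 50) (156, 50) pcIz213 bxIz213 :=
  ⟨by norm_num, izL213_up, izL213_down, Or.inl certIz213, pcIz213_over, ⟨rfl, rfl, rfl, rfl⟩, rfl, rfl⟩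

/-- The piece 214 over its chart. -/
theorem pcIz214_over : pcIz214.Over (wideChart (lineChart izL214 (4, 5, 40) (0, 1, 160) (75, 89, 100) (129, 50) (156, 50))) :=
  ⟨fun _ => rfl, fun _ => rfl, fun _ => rfl,
    fun x => by simp only [pcIz214, wideChart, lineChart, izL214, ev_add, ev_mul, Ex.eval] <;> push_cast <;> ring,
    fun x => by
      simp only [pcIz214, wideChart, lineChart, afEx, izL214, ev_add, ev_mul, Ex.eval] <;> push_cast <;> ring,
    fun x => by
      simp only [pcIz214, Piece.A, Piece.S, ev_add, ev_sub, ev_mul, Ex.eval]; push_cast; ring,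
    rfl, rfl⟩

/-- The piece 214 with its lines. -/
theorem izLeaf214 : Leaf izL214 (4, 5, 40) (0, 1, 160) (75, 89, 100) (129, 50) (156, 50) pcIz214 bxIz214 :=
  ⟨by norm_num, izL214_up, izL214_down, Or.inl certIz214, pcIz214_over, ⟨rfl, rfl, rfl, rfl⟩, rfl, rfl⟩

end Vale.Agent.P100.Calib.StripEndD
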