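import Vale.Agent.P100.Calib.SlabStripEndIZ7LineFacts
import Vale.Agent.P100.Calib.SlabStripEndIZ7Leaves3

/-!
# The signs in the pieces of the `I` and `Z` charts (At3)
-/

set_option linter.unusedVariables false
set_option linter.unusedTactic false
set_option linter.unreachableTactic false
set_option linter.unusedSimpArgs false
set_option linter.unnecessarySeqFocus false

namespace Vale.Agent.P100.Calib.StripEndD

open Pack hiding ev_add ev_mul
open Pack.Ex Band StripMid StripEnd

local instance endIZ7At3Add : Add Ex := ⟨Ex.add⟩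
local instance endIZ7At3Sub : Sub Ex := ⟨Ex.sub⟩
local instance endIZ7At3Mul : Mul Ex := ⟨Ex.mul⟩

/-- The signs in the piece 112. -/
theorem izAt112 {n : ℕ} {a b u v t H I r s : ℝ} (hb : Closed.All.ChartBox n (b - a) (a + b))
    (hF : Closed.All.ChartFacts (b - a) (a + b) u v t)
    (hH : Closed.chH (b - a) (a + b) u v t = H) (hB : EndBands7 a b u v H)
    (hside : DHigh a b) (hE : ExitLine a b u v) (hI : IPt a b u I r s) (hI0 : 0 < I)
    (q0l : (21 / 160 : ℝ) < I) (q0u : I ≤ (167 / 1250 : ℝ)) (q1l : (0 : ℝ) < r) (q1u : r ≤ (1 / 50 : ℝ)) (q2l : (21 / 25 : ℝ) < s) (q2u : s ≤ (9 / 10 : ℝ)) (kl : (109 : ℝ) < (500 : ℝ) * (1 - a * v)) (ku : (500 : ℝ) * (1 - a * v) ≤ (218 : ℝ)) :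
    Closed.Strip.ChartSigns (b - a) (a + b) u v t := by
  obtain ⟨hl, hr⟩ := izLine56 hB hE hI0 (⟨hI, (inU_of (by norm_num) (by norm_num; linarith) (by norm_num; linarith)), (inU_of (by norm_num) (by norm_num; linarith) (by norm_num; linarith)), (inU_of (by norm_num) (by norm_num; linarith) (by norm_num; linarith)), by norm_num [Lines.denV, izM56] <;> linarith⟩ : InLines izM56 (2625, 2672, 20000) (0, 1, 50) (42, 45, 50) a b u I r s)
  norm_num [afVal, Lines.denV, izM56] at hl hr
  refine izLeaf112.high rfl rfl hb hF hH hB hside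
    (⟨hI, (inU_of (by norm_num) (by norm_num; linarith) (by norm_num; linarith)), (inU_of (by norm_num) (by norm_num; linarith) (by norm_num; linarith)), (inU_of (by norm_num) (by norm_num; linarith) (by norm_num; linarith)), by norm_num [Lines.denV, izL112] <;> linarith⟩ : InLines izL112 (2625, 2672, 20000) (0, 1, 50) (42, 45, 50) a b u I r s) ?_ ?_
  all_goals norm_num [afVal, Lines.denV, izL112] <;> linarith

/-- The signs in the piece 113. -/
theorem izAt113 {n : ℕ} {a b u v t H I r s : ℝ} (hb : Closed.All.ChartBox n (b - a) (a + b))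
    (hF : Closed.All.ChartFacts (b - a) (a + b) u v t)
    (hH : Closed.chH (b - a) (a + b) u v t = H) (hB : EndBands7 a b u v H)
    (hside : DHigh a b) (hE : ExitLine a b u v) (hI : IPt a b u I r s) (hI0 : 0 < I)
    (q0l : (21 / 160 : ℝ) < I) (q0u : I ≤ (167 / 1250 : ℝ)) (q1l : (0 : ℝ) < r) (q1u : r ≤ (1 / 500 : ℝ)) (q2l : (21 / 25 : ℝ) < s) (q2u : s ≤ (9 / 10 : ℝ)) (kl : (218 : ℝ) < (500 : ℝ) * (1 - a * v)) (ku : (500 : ℝ) * (1 - a * v) ≤ (255 : ℝ)) :
    Closed.Strip.ChartSigns (b - a) (a + b) u v t := by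
  obtain ⟨hl, hr⟩ := izLine56 hB hE hI0 (⟨hI, (inU_of (by norm_num) (by norm_num; linarith) (by norm_num; linarith)), (inU_of (by norm_num) (by norm_num; linarith) (by norm_num; linarith)), (inU_of (by norm_num) (by norm_num; linarith) (by norm_num; linarith)), by norm_num [Lines.denV, izM56] <;> linarith⟩ : InLines izM56 (2625, 2672, 20000) (0, 1, 50) (42, 45, 50) a b u I r s)
  norm_num [afVal, Lines.denV, izM56] at hl hr
  refine izLeaf113.high rfl rfl hb hF hH hB hside
    (⟨hI, (inU_of (by norm_num) (by norm_num; linarith) (by norm_num; linarith)), (inU_of (by norm_num) (by norm_num; linarith) (by norm_num; linarith)), (inU_of (by norm_num) (by norm_num; linarith) (by norm_num; linarith)), by norm_num [Lines.denV, izL113] <;> linarith⟩ : InLines izL113 (105, 108, 800) (0, 1, 500) (42, 45, 50) a b u I r s) ?_ ?_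
  all_goals norm_num [afVal, Lines.denV, izL113] <;> linarith

/-- The signs in the piece 114. -/
theorem izAt114 {n : ℕ} {a b u v t H I r s : ℝ} (hb : Closed.All.ChartBox n (b - a) (a + b))
    (hF : Closed.All.ChartFacts (b - a) (a + b) u v t)
    (hH : Closed.chH (b - a) (a + b) u v t = H) (hB : EndBands7 a b u v H)
    (hside : DHigh a b) (hE : ExitLine a b u v) (hI : IPt a b u I r s) (hI0 : 0 < I)
    (q0l : (21 / 160 : ℝ) < I) (q0u : I ≤ (167 / 1250 : ℝ)) (q1l : (3 / 1600 : ℝ) < r) (q1u : r ≤ (1 / 160 : ℝ)) (q2l : (21 / 25 : ℝ) < s) (q2u : s ≤ (9 / 10 : ℝ)) (kl : (218 : ℝ) < (500 : ℝ) * (1 - a * v)) (ku : (500 : ℝ) * (1 - a * v) ≤ (255 : ℝ)) :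
    Closed.Strip.ChartSigns (b - a) (a + b) u v t := by
  obtain ⟨hl, hr⟩ := izLine56 hB hE hI0 (⟨hI, (inU_of (by norm_num) (by norm_num; linarith) (by norm_num; linarith)), (inU_of (by norm_num) (by norm_num; linarith) (by norm_num; linarith)), (inU_of (by norm_num) (by norm_num; linarith) (by norm_num; linarith)), by norm_num [Lines.denV, izM56] <;> linarith⟩ : InLines izM56 (2625, 2672, 20000) (0, 1, 50) (42, 45, 50) a b u I r s)
  norm_num [afVal, Lines.denV, izM56] at hl hr
  refine izLeaf114.high rfl rfl hb hF hH hB hside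
    (⟨hI, (inU_of (by norm_num) (by norm_num; linarith) (by norm_num; linarith)), (inU_of (by norm_num) (by norm_num; linarith) (by norm_num; linarith)), (inU_of (by norm_num) (by norm_num; linarith) (by norm_num; linarith)), by norm_num [Lines.denV, izL114] <;> linarith⟩ : InLines izL114 (105, 108, 800) (3, 10, 1600) (42, 45, 50) a b u I r s) ?_ ?_
  all_goals norm_num [afVal, Lines.denV, izL114] <;> linarith

/-- The signs in the piece 115. -/
theorem izAt115 {n : ℕ} {a b u v t H I r s : ℝ} (hb : Closed.All.ChartBox n (b - a) (a + b))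
    (hF : Closed.All.ChartFacts (b - a) (a + b) u v t)
    (hH : Closed.chH (b - a) (a + b) u v t = H) (hB : EndBands7 a b u v H)
    (hside : DHigh a b) (hE : ExitLine a b u v) (hI : IPt a b u I r s) (hI0 : 0 < I)
    (q0l : (21 / 160 : ℝ) < I) (q0u : I ≤ (167 / 1250 : ℝ)) (q1l : (1 / 500 : ℝ) < r) (q1u : r ≤ (1 / 160 : ℝ)) (q2l : (21 / 25 : ℝ) < s) (q2u : s ≤ (7 / 8 : ℝ)) (kl : (255 : ℝ) < (500 : ℝ) * (1 - a * v)) :
    Closed.Strip.ChartSigns (b - a) (a + b) u v t := by
  obtain ⟨hl, hr⟩ := izLine56 hB hE hI0 (⟨hI, (inU_of (by norm_num) (by norm_num; linarith) (by norm_num; linarith)), (inU_of (by norm_num) (by norm_num; linarith) (by norm_num; linarith)), (inU_of (by norm_num) (by norm_num; linarith) (by norm_num; linarith)), by norm_num [Lines.denV, izM56] <;> linarith⟩ : InLines izM56 (2625, 2672, 20000) (0, 1, 50) (42, 45, 50) a b u I r s)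
  norm_num [afVal, Lines.denV, izM56] at hl hr
  refine izLeaf115.high rfl rfl hb hF hH hB hside
    (⟨hI, (inU_of (by norm_num) (by norm_num; linarith) (by norm_num; linarith)), (inU_of (by norm_num) (by norm_num; linarith) (by norm_num; linarith)), (inU_of (by norm_num) (by norm_num; linarith) (by norm_num; linarith)), by norm_num [Lines.denV, izL115] <;> linarith⟩ : InLines izL115 (105, 108, 800) (8, 25, 4000) (168, 175, 200) a b u I r s) ?_ ?_
  all_goals norm_num [afVal, Lines.denV, izL115] <;> linarith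

/-- The signs in the piece 116. -/
theorem izAt116 {n : ℕ} {a b u v t H I r s : ℝ} (hb : Closed.All.ChartBox n (b - a) (a + b))
    (hF : Closed.All.ChartFacts (b - a) (a + b) u v t)
    (hH : Closed.chH (b - a) (a + b) u v t = H) (hB : EndBands7 a b u v H)
    (hside : DHigh a b) (hE : ExitLine a b u v) (hI : IPt a b u I r s) (hI0 : 0 < I)
    (q0l : (21 / 160 : ℝ) < I) (q0u : I ≤ (167 / 1250 : ℝ)) (q1l : (0 : ℝ) < r) (q1u : r ≤ (1 / 160 : ℝ)) (q2l : (7 / 8 : ℝ) < s) (q2u : s ≤ (9 / 10 : ℝ)) (kl : (255 : ℝ) < (500 : ℝ) * (1 - a * v)) :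
    Closed.Strip.ChartSigns (b - a) (a + b) u v t := by
  obtain ⟨hl, hr⟩ := izLine56 hB hE hI0 (⟨hI, (inU_of (by norm_num) (by norm_num; linarith) (by norm_num; linarith)), (inU_of (by norm_num) (by norm_num; linarith) (by norm_num; linarith)), (inU_of (by norm_num) (by norm_num; linarith) (by norm_num; linarith)), by norm_num [Lines.denV, izM56] <;> linarith⟩ : InLines izM56 (2625, 2672, 20000) (0, 1, 50) (42, 45, 50) a b u I r s)
  norm_num [afVal, Lines.denV, izM56] at hl hr
  refine izLeaf116.high rfl rfl hb hF hH hB hside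
    (⟨hI, (inU_of (by norm_num) (by norm_num; linarith) (by norm_num; linarith)), (inU_of (by norm_num) (by norm_num; linarith) (by norm_num; linarith)), (inU_of (by norm_num) (by norm_num; linarith) (by norm_num; linarith)), by norm_num [Lines.denV, izL116] <;> linarith⟩ : InLines izL116 (105, 108, 800) (0, 1, 160) (35, 36, 40) a b u I r s) ?_ ?_
  all_goals norm_num [afVal, Lines.denV, izL116] <;> linarith

/-- The signs in the piece 117. -/
theorem izAt117 {n : ℕ} {a b u v t H I r s : ℝ} (hb : Closed.All.ChartBox n (b - a) (a + b))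
    (hF : Closed.All.ChartFacts (b - a) (a + b) u v t)
    (hH : Closed.chH (b - a) (a + b) u v t = H) (hB : EndBands7 a b u v H)
    (hside : DHigh a b) (hE : ExitLine a b u v) (hI : IPt a b u I r s) (hI0 : 0 < I)
    (q0l : (21 / 160 : ℝ) < I) (q0u : I ≤ (167 / 1250 : ℝ)) (q1l : (1 / 160 : ℝ) < r) (q1u : r ≤ (1 / 50 : ℝ)) (q2l : (21 / 25 : ℝ) < s) (q2u : s ≤ (9 / 10 : ℝ)) (kl : (218 : ℝ) < (500 : ℝ) * (1 - a * v)) :
    Closed.Strip.ChartSigns (b - a) (a + b) u v t := by
  obtain ⟨hl, hr⟩ := izLine56 hB hE hI0 (⟨hI, (inU_of (by norm_num) (by norm_num; linarith) (by norm_num; linarith)), (inU_of (by norm_num) (by norm_num; linarith) (by norm_num; linarith)), (inU_of (by norm_num) (by norm_num; linarith) (by norm_num; linarith)), by norm_num [Lines.denV, izM56] <;> linarith⟩ : InLines izM56 (2625, 2672, 20000) (0, 1, 50) (42, 45, 50) a b u I r s)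
  norm_num [afVal, Lines.denV, izM56] at hl hr
  refine izLeaf117.high rfl rfl hb hF hH hB hside
    (⟨hI, (inU_of (by norm_num) (by norm_num; linarith) (by norm_num; linarith)), (inU_of (by norm_num) (by norm_num; linarith) (by norm_num; linarith)), (inU_of (by norm_num) (by norm_num; linarith) (by norm_num; linarith)), by norm_num [Lines.denV, izL117] <;> linarith⟩ : InLines izL117 (105, 108, 800) (5, 16, 800) (42, 45, 50) a b u I r s) ?_ ?_
  all_goals norm_num [afVal, Lines.denV, izL117] <;> linarith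

/-- The signs in the piece 121. -/
theorem izAt121 {n : ℕ} {a b u v t H I r s : ℝ} (hb : Closed.All.ChartBox n (b - a) (a + b))
    (hF : Closed.All.ChartFacts (b - a) (a + b) u v t)
    (hH : Closed.chH (b - a) (a + b) u v t = H) (hB : EndBands7 a b u v H)
    (hside : DLow a b) (hE : ExitLine a b u v) (hI : IPt a b u I r s) (hI0 : 0 < I)
    (q0l : (11 / 80 : ℝ) < I) (q0u : I ≤ (23 / 160 : ℝ)) (q1l : (0 : ℝ) < r) (q1u : r ≤ (1 / 50 : ℝ)) (q2l : (19 / 80 : ℝ) < s) (q2u : s ≤ (13 / 40 : ℝ)) :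
    Closed.Strip.ChartSigns (b - a) (a + b) u v t := by
  obtain ⟨hl, hr⟩ := izLine57 hB hE hI0 (⟨hI, (inU_of (by norm_num) (by norm_num; linarith) (by norm_num; linarith)), (inU_of (by norm_num) (by norm_num; linarith) (by norm_num; linarith)), (inU_of (by norm_num) (by norm_num; linarith) (by norm_num; linarith)), by norm_num [Lines.denV, izM57] <;> linarith⟩ : InLines izM57 (22, 23, 160) (0, 1, 50) (19, 26, 80) a b u I r s)
  norm_num [afVal, Lines.denV, izM57] at hl hr
  refine izLeaf121.low rfl rfl hb hF hH hB hside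
    (⟨hI, (inU_of (by norm_num) (by norm_num; linarith) (by norm_num; linarith)), (inU_of (by norm_num) (by norm_num; linarith) (by norm_num; linarith)), (inU_of (by norm_num) (by norm_num; linarith) (by norm_num; linarith)), by norm_num [Lines.denV, izL121] <;> linarith⟩ : InLines izL121 (22, 23, 160) (0, 1, 50) (19, 26, 80) a b u I r s) ?_ ?_
  all_goals norm_num [afVal, Lines.denV, izL121] <;> linarith

/-- The signs in the piece 122. -/
theorem izAt122 {n : ℕ} {a b u v t H I r s : ℝ} (hb : Closed.All.ChartBox n (b - a) (a + b))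
    (hF : Closed.All.ChartFacts (b - a) (a + b) u v t)
    (hH : Closed.chH (b - a) (a + b) u v t = H) (hB : EndBands7 a b u v H)
    (hside : DLow a b) (hE : ExitLine a b u v) (hI : IPt a b u I r s) (hI0 : 0 < I)
    (q0l : (11 / 80 : ℝ) < I) (q0u : I ≤ (23 / 160 : ℝ)) (q1l : (0 : ℝ) < r) (q1u : r ≤ (1 / 50 : ℝ)) (q2l : (33 / 80 : ℝ) < s) (q2u : s ≤ (1 / 2 : ℝ)) :
    Closed.Strip.ChartSigns (b - a) (a + b) u v t := by
  obtain ⟨hl, hr⟩ := izLine58 hB hE hI0 (⟨hI, (inU_of (by norm_num) (by norm_num; linarith) (by norm_num; linarith)), (inU_of (by norm_num) (by norm_num; linarith) (by norm_num; linarith)), (inU_of (by norm_num) (by norm_num; linarith) (by norm_num; linarith)), by norm_num [Lines.denV, izM58] <;> linarith⟩ : InLines izM58 (22, 23, 160) (0, 1, 50) (33, 40, 80) a b u I r s)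
  norm_num [afVal, Lines.denV, izM58] at hl hr
  refine izLeaf122.low rfl rfl hb hF hH hB hside
    (⟨hI, (inU_of (by norm_num) (by norm_num; linarith) (by norm_num; linarith)), (inU_of (by norm_num) (by norm_num; linarith) (by norm_num; linarith)), (inU_of (by norm_num) (by norm_num; linarith) (by norm_num; linarith)), by norm_num [Lines.denV, izL122] <;> linarith⟩ : InLines izL122 (22, 23, 160) (0, 1, 50) (33, 40, 80) a b u I r s) ?_ ?_
  all_goals norm_num [afVal, Lines.denV, izL122] <;> linarith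

/-- The signs in the piece 123. -/
theorem izAt123 {n : ℕ} {a b u v t H I r s : ℝ} (hb : Closed.All.ChartBox n (b - a) (a + b))
    (hF : Closed.All.ChartFacts (b - a) (a + b) u v t)
    (hH : Closed.chH (b - a) (a + b) u v t = H) (hB : EndBands7 a b u v H)
    (hside : DLow a b) (hE : ExitLine a b u v) (hI : IPt a b u I r s) (hI0 : 0 < I)
    (q0l : (1 / 8 : ℝ) < I) (q0u : I ≤ (23 / 160 : ℝ)) (q1l : (1 / 50 : ℝ) < r) (q1u : r ≤ (3 / 20 : ℝ)) (q2l : (33 / 80 : ℝ) < s) (q2u : s ≤ (1 / 2 : ℝ)) :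
    Closed.Strip.ChartSigns (b - a) (a + b) u v t := by
  obtain ⟨hl, hr⟩ := izLine59 hB hE hI0 (⟨hI, (inU_of (by norm_num) (by norm_num; linarith) (by norm_num; linarith)), (inU_of (by norm_num) (by norm_num; linarith) (by norm_num; linarith)), (inU_of (by norm_num) (by norm_num; linarith) (by norm_num; linarith)), by norm_num [Lines.denV, izM59] <;> linarith⟩ : InLines izM59 (20, 23, 160) (2, 15, 100) (33, 40, 80) a b u I r s)
  norm_num [afVal, Lines.denV, izM59] at hl hr
  refine izLeaf123.low rfl rfl hb hF hH hB hside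
    (⟨hI, (inU_of (by norm_num) (by norm_num; linarith) (by norm_num; linarith)), (inU_of (by norm_num) (by norm_num; linarith) (by norm_num; linarith)), (inU_of (by norm_num) (by norm_num; linarith) (by norm_num; linarith)), by norm_num [Lines.denV, izL123] <;> linarith⟩ : InLines izL123 (20, 23, 160) (2, 15, 100) (33, 40, 80) a b u I r s) ?_ ?_
  all_goals norm_num [afVal, Lines.denV, izL123] <;> linarith

/-- The signs in the piece 124. -/
theorem izAt124 {n : ℕ} {a b u v t H I r s : ℝ} (hb : Closed.All.ChartBox n (b - a) (a + b))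
    (hF : Closed.All.ChartFacts (b - a) (a + b) u v t)
    (hH : Closed.chH (b - a) (a + b) u v t = H) (hB : EndBands7 a b u v H)
    (hside : DLow a b) (hE : ExitLine a b u v) (hI : IPt a b u I r s) (hI0 : 0 < I)
    (q0l : (1 / 8 : ℝ) < I) (q0u : I ≤ (23 / 160 : ℝ)) (q1l : (1 / 50 : ℝ) < r) (q1u : r ≤ (3 / 20 : ℝ)) (q2l : (9 / 16 : ℝ) < s) (q2u : s ≤ (5 / 8 : ℝ)) :
    Closed.Strip.ChartSigns (b - a) (a + b) u v t := by
  obtain ⟨hl, hr⟩ := izLine60 hB hE hI0 (⟨hI, (inU_of (by norm_num) (by norm_num; linarith) (by norm_num; linarith)), (inU_of (by norm_num) (by norm_num; linarith) (by norm_num; linarith)), (inU_of (by norm_num) (by norm_num; linarith) (by norm_num; linarith)), by norm_num [Lines.denV, izM60] <;> linarith⟩ : InLines izM60 (20, 23, 160) (2, 15, 100) (9, 10, 16) a b u I r s)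
  norm_num [afVal, Lines.denV, izM60] at hl hr
  refine izLeaf124.low rfl rfl hb hF hH hB hside
    (⟨hI, (inU_of (by norm_num) (by norm_num; linarith) (by norm_num; linarith)), (inU_of (by norm_num) (by norm_num; linarith) (by norm_num; linarith)), (inU_of (by norm_num) (by norm_num; linarith) (by norm_num; linarith)), by norm_num [Lines.denV, izL124] <;> linarith⟩ : InLines izL124 (20, 23, 160) (2, 15, 100) (9, 10, 16) a b u I r s) ?_ ?_
  all_goals norm_num [afVal, Lines.denV, izL124] <;> linarith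

/-- The signs in the piece 125. -/
theorem izAt125 {n : ℕ} {a b u v t H I r s : ℝ} (hb : Closed.All.ChartBox n (b - a) (a + b))
    (hF : Closed.All.ChartFacts (b - a) (a + b) u v t)
    (hH : Closed.chH (b - a) (a + b) u v t = H) (hB : EndBands7 a b u v H)
    (hside : DLow a b) (hE : ExitLine a b u v) (hI : IPt a b u I r s) (hI0 : 0 < I)
    (q0l : (11 / 80 : ℝ) < I) (q0u : I ≤ (23 / 160 : ℝ)) (q1l : (0 : ℝ) < r) (q1u : r ≤ (1 / 50 : ℝ)) (q2l : (1 / 2 : ℝ) < s) (q2u : s ≤ (5 / 8 : ℝ)) (ku : (500 : ℝ) * (1 - a * v) ≤ (54 : ℝ)) :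
    Closed.Strip.ChartSigns (b - a) (a + b) u v t := by
  obtain ⟨hl, hr⟩ := izLine26 hB hE hI0 (⟨hI, (inU_of (by norm_num) (by norm_num; linarith) (by norm_num; linarith)), (inU_of (by norm_num) (by norm_num; linarith) (by norm_num; linarith)), (inU_of (by norm_num) (by norm_num; linarith) (by norm_num; linarith)), by norm_num [Lines.denV, izM26] <;> linarith⟩ : InLines izM26 (20, 23, 160) (0, 1, 50) (2, 3, 4) a b u I r s)
  norm_num [afVal, Lines.denV, izM26] at hl hr
  refine izLeaf125.low rfl rfl hb hF hH hB hside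
    (⟨hI, (inU_of (by norm_num) (by norm_num; linarith) (by norm_num; linarith)), (inU_of (by norm_num) (by norm_num; linarith) (by norm_num; linarith)), (inU_of (by norm_num) (by norm_num; linarith) (by norm_num; linarith)), by norm_num [Lines.denV, izL125] <;> linarith⟩ : InLines izL125 (22, 23, 160) (0, 1, 50) (4, 5, 8) a b u I r s) ?_ ?_
  all_goals norm_num [afVal, Lines.denV, izL125] <;> linarith

/-- The signs in the piece 126. -/
theorem izAt126 {n : ℕ} {a b u v t H I r s : ℝ} (hb : Closed.All.ChartBox n (b - a) (a + b))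
    (hF : Closed.All.ChartFacts (b - a) (a + b) u v t)
    (hH : Closed.chH (b - a) (a + b) u v t = H) (hB : EndBands7 a b u v H)
    (hside : DLow a b) (hE : ExitLine a b u v) (hI : IPt a b u I r s) (hI0 : 0 < I)
    (q0l : (1 / 8 : ℝ) < I) (q0u : I ≤ (23 / 160 : ℝ)) (q1l : (1 / 50 : ℝ) < r) (q1u : r ≤ (1 / 20 : ℝ)) (q2l : (13 / 40 : ℝ) < s) (q2u : s ≤ (33 / 80 : ℝ)) :
    Closed.Strip.ChartSigns (b - a) (a + b) u v t := by
  obtain ⟨hl, hr⟩ := izLine61 hB hE hI0 (⟨hI, (inU_of (by norm_num) (by norm_num; linarith) (by norm_num; linarith)), (inU_of (by norm_num) (by norm_num; linarith) (by norm_num; linarith)), (inU_of (by norm_num) (by norm_num; linarith) (by norm_num; linarith)), by norm_num [Lines.denV, izM61] <;> linarith⟩ : InLines izM61 (20, 23, 160) (2, 5, 100) (26, 33, 80) a b u I r s)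
  norm_num [afVal, Lines.denV, izM61] at hl hr
  refine izLeaf126.low rfl rfl hb hF hH hB hside
    (⟨hI, (inU_of (by norm_num) (by norm_num; linarith) (by norm_num; linarith)), (inU_of (by norm_num) (by norm_num; linarith) (by norm_num; linarith)), (inU_of (by norm_num) (by norm_num; linarith) (by norm_num; linarith)), by norm_num [Lines.denV, izL126] <;> linarith⟩ : InLines izL126 (20, 23, 160) (2, 5, 100) (26, 33, 80) a b u I r s) ?_ ?_
  all_goals norm_num [afVal, Lines.denV, izL126] <;> linarith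

/-- The signs in the piece 127. -/
theorem izAt127 {n : ℕ} {a b u v t H I r s : ℝ} (hb : Closed.All.ChartBox n (b - a) (a + b))
    (hF : Closed.All.ChartFacts (b - a) (a + b) u v t)
    (hH : Closed.chH (b - a) (a + b) u v t = H) (hB : EndBands7 a b u v H)
    (hside : DLow a b) (hE : ExitLine a b u v) (hI : IPt a b u I r s) (hI0 : 0 < I)
    (q0l : (11 / 80 : ℝ) < I) (q0u : I ≤ (23 / 160 : ℝ)) (q1l : (0 : ℝ) < r) (q1u : r ≤ (1 / 50 : ℝ)) (q2l : (3 / 40 : ℝ) < s) (q2u : s ≤ (3 / 20 : ℝ)) :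
    Closed.Strip.ChartSigns (b - a) (a + b) u v t := by
  obtain ⟨hl, hr⟩ := izLine62 hB hE hI0 (⟨hI, (inU_of (by norm_num) (by norm_num; linarith) (by norm_num; linarith)), (inU_of (by norm_num) (by norm_num; linarith) (by norm_num; linarith)), (inU_of (by norm_num) (by norm_num; linarith) (by norm_num; linarith)), by norm_num [Lines.denV, izM62] <;> linarith⟩ : InLines izM62 (22, 23, 160) (0, 1, 50) (3, 6, 40) a b u I r s)
  norm_num [afVal, Lines.denV, izM62] at hl hr
  refine izLeaf127.low rfl rfl hb hF hH hB hside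
    (⟨hI, (inU_of (by norm_num) (by norm_num; linarith) (by norm_num; linarith)), (inU_of (by norm_num) (by norm_num; linarith) (by norm_num; linarith)), (inU_of (by norm_num) (by norm_num; linarith) (by norm_num; linarith)), by norm_num [Lines.denV, izL127] <;> linarith⟩ : InLines izL127 (22, 23, 160) (0, 1, 50) (3, 6, 40) a b u I r s) ?_ ?_
  all_goals norm_num [afVal, Lines.denV, izL127] <;> linarith

/-- The signs in the piece 128. -/
theorem izAt128 {n : ℕ} {a b u v t H I r s : ℝ} (hb : Closed.All.ChartBox n (b - a) (a + b))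
    (hF : Closed.All.ChartFacts (b - a) (a + b) u v t)
    (hH : Closed.chH (b - a) (a + b) u v t = H) (hB : EndBands7 a b u v H)
    (hside : DLow a b) (hE : ExitLine a b u v) (hI : IPt a b u I r s) (hI0 : 0 < I)
    (q0l : (1 / 8 : ℝ) < I) (q0u : I ≤ (11 / 80 : ℝ)) (q1l : (0 : ℝ) < r) (q1u : r ≤ (1 / 50 : ℝ)) (q2l : (3 / 40 : ℝ) < s) (q2u : s ≤ (3 / 20 : ℝ)) :
    Closed.Strip.ChartSigns (b - a) (a + b) u v t := by
  obtain ⟨hl, hr⟩ := izLine63 hB hE hI0 (⟨hI, (inU_of (by norm_num) (by norm_num; linarith) (by norm_num; linarith)), (inU_of (by norm_num) (by norm_num; linarith) (by norm_num; linarith)), (inU_of (by norm_num) (by norm_num; linarith) (by norm_num; linarith)), by norm_num [Lines.denV, izM63] <;> linarith⟩ : InLines izM63 (10, 11, 80) (0, 1, 50) (3, 6, 40) a b u I r s)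
  norm_num [afVal, Lines.denV, izM63] at hl hr
  refine izLeaf128.low rfl rfl hb hF hH hB hside
    (⟨hI, (inU_of (by norm_num) (by norm_num; linarith) (by norm_num; linarith)), (inU_of (by norm_num) (by norm_num; linarith) (by norm_num; linarith)), (inU_of (by norm_num) (by norm_num; linarith) (by norm_num; linarith)), by norm_num [Lines.denV, izL128] <;> linarith⟩ : InLines izL128 (10, 11, 80) (0, 1, 50) (3, 6, 40) a b u I r s) ?_ ?_
  all_goals norm_num [afVal, Lines.denV, izL128] <;> linarith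

/-- The signs in the piece 129. -/
theorem izAt129 {n : ℕ} {a b u v t H I r s : ℝ} (hb : Closed.All.ChartBox n (b - a) (a + b))
    (hF : Closed.All.ChartFacts (b - a) (a + b) u v t)
    (hH : Closed.chH (b - a) (a + b) u v t = H) (hB : EndBands7 a b u v H)
    (hside : DLow a b) (hE : ExitLine a b u v) (hI : IPt a b u I r s) (hI0 : 0 < I)
    (q0l : (3 / 40 : ℝ) < I) (q0u : I ≤ (1 / 10 : ℝ)) (q1l : (0 : ℝ) < r) (q1u : r ≤ (1 / 50 : ℝ)) (q2l : (3 / 40 : ℝ) < s) (q2u : s ≤ (3 / 20 : ℝ)) :
    Closed.Strip.ChartSigns (b - a) (a + b) u v t := by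
  obtain ⟨hl, hr⟩ := izLine64 hB hE hI0 (⟨hI, (inU_of (by norm_num) (by norm_num; linarith) (by norm_num; linarith)), (inU_of (by norm_num) (by norm_num; linarith) (by norm_num; linarith)), (inU_of (by norm_num) (by norm_num; linarith) (by norm_num; linarith)), by norm_num [Lines.denV, izM64] <;> linarith⟩ : InLines izM64 (3, 4, 40) (0, 1, 50) (3, 6, 40) a b u I r s)
  norm_num [afVal, Lines.denV, izM64] at hl hr
  refine izLeaf129.low rfl rfl hb hF hH hB hside
    (⟨hI, (inU_of (by norm_num) (by norm_num; linarith) (by norm_num; linarith)), (inU_of (by norm_num) (by norm_num; linarith) (by norm_num; linarith)), (inU_of (by norm_num) (by norm_num; linarith) (by norm_num; linarith)), by norm_num [Lines.denV, izL129] <;> linarith⟩ : InLines izL129 (3, 4, 40) (0, 1, 50) (3, 6, 40) a b u I r s) ?_ ?_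
  all_goals norm_num [afVal, Lines.denV, izL129] <;> linarith

/-- The signs in the piece 130. -/
theorem izAt130 {n : ℕ} {a b u v t H I r s : ℝ} (hb : Closed.All.ChartBox n (b - a) (a + b))
    (hF : Closed.All.ChartFacts (b - a) (a + b) u v t)
    (hH : Closed.chH (b - a) (a + b) u v t = H) (hB : EndBands7 a b u v H)
    (hside : DLow a b) (hE : ExitLine a b u v) (hI : IPt a b u I r s) (hI0 : 0 < I)
    (q0l : (1 / 10 : ℝ) < I) (q0u : I ≤ (23 / 160 : ℝ)) (q1l : (1 / 20 : ℝ) < r) (q1u : r ≤ (3 / 20 : ℝ)) (q2l : (19 / 80 : ℝ) < s) (q2u : s ≤ (13 / 40 : ℝ)) :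
    Closed.Strip.ChartSigns (b - a) (a + b) u v t := by
  obtain ⟨hl, hr⟩ := izLine65 hB hE hI0 (⟨hI, (inU_of (by norm_num) (by norm_num; linarith) (by norm_num; linarith)), (inU_of (by norm_num) (by norm_num; linarith) (by norm_num; linarith)), (inU_of (by norm_num) (by norm_num; linarith) (by norm_num; linarith)), by norm_num [Lines.denV, izM65] <;> linarith⟩ : InLines izM65 (16, 23, 160) (1, 3, 20) (19, 26, 80) a b u I r s)
  norm_num [afVal, Lines.denV, izM65] at hl hr
  refine izLeaf130.low rfl rfl hb hF hH hB hside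
    (⟨hI, (inU_of (by norm_num) (by norm_num; linarith) (by norm_num; linarith)), (inU_of (by norm_num) (by norm_num; linarith) (by norm_num; linarith)), (inU_of (by norm_num) (by norm_num; linarith) (by norm_num; linarith)), by norm_num [Lines.denV, izL130] <;> linarith⟩ : InLines izL130 (16, 23, 160) (1, 3, 20) (19, 26, 80) a b u I r s) ?_ ?_
  all_goals norm_num [afVal, Lines.denV, izL130] <;> linarith

/-- The signs in the piece 131. -/
theorem izAt131 {n : ℕ} {a b u v t H I r s : ℝ} (hb : Closed.All.ChartBox n (b - a) (a + b))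
    (hF : Closed.All.ChartFacts (b - a) (a + b) u v t)
    (hH : Closed.chH (b - a) (a + b) u v t = H) (hB : EndBands7 a b u v H)
    (hside : DLow a b) (hE : ExitLine a b u v) (hI : IPt a b u I r s) (hI0 : 0 < I)
    (q0l : (1 / 10 : ℝ) < I) (q0u : I ≤ (23 / 160 : ℝ)) (q1l : (3 / 20 : ℝ) < r) (q1u : r ≤ (1 : ℝ)) (q2l : (3 / 8 : ℝ) < s) (q2u : s ≤ (1 / 2 : ℝ)) :
    Closed.Strip.ChartSigns (b - a) (a + b) u v t := by
  obtain ⟨hl, hr⟩ := izLine66 hB hE hI0 (⟨hI, (inU_of (by norm_num) (by norm_num; linarith) (by norm_num; linarith)), (inU_of (by norm_num) (by norm_num; linarith) (by norm_num; linarith)), (inU_of (by norm_num) (by norm_num; linarith) (by norm_num; linarith)), by norm_num [Lines.denV, izM66] <;> linarith⟩ : InLines izM66 (16, 23, 160) (3, 20, 20) (3, 4, 8) a b u I r s)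
  norm_num [afVal, Lines.denV, izM66] at hl hr
  refine izLeaf131.low rfl rfl hb hF hH hB hside
    (⟨hI, (inU_of (by norm_num) (by norm_num; linarith) (by norm_num; linarith)), (inU_of (by norm_num) (by norm_num; linarith) (by norm_num; linarith)), (inU_of (by norm_num) (by norm_num; linarith) (by norm_num; linarith)), by norm_num [Lines.denV, izL131] <;> linarith⟩ : InLines izL131 (16, 23, 160) (3, 20, 20) (3, 4, 8) a b u I r s) ?_ ?_
  all_goals norm_num [afVal, Lines.denV, izL131] <;> linarith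

/-- The signs in the piece 132. -/
theorem izAt132 {n : ℕ} {a b u v t H I r s : ℝ} (hb : Closed.All.ChartBox n (b - a) (a + b))
    (hF : Closed.All.ChartFacts (b - a) (a + b) u v t)
    (hH : Closed.chH (b - a) (a + b) u v t = H) (hB : EndBands7 a b u v H)
    (hside : DLow a b) (hE : ExitLine a b u v) (hI : IPt a b u I r s) (hI0 : 0 < I)
    (q0l : (1 / 10 : ℝ) < I) (q0u : I ≤ (23 / 160 : ℝ)) (q1l : (3 / 20 : ℝ) < r) (q1u : r ≤ (1 : ℝ)) (q2l : (5 / 8 : ℝ) < s) (q2u : s ≤ (3 / 4 : ℝ)) :
    Closed.Strip.ChartSigns (b - a) (a + b) u v t := by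
  obtain ⟨hl, hr⟩ := izLine67 hB hE hI0 (⟨hI, (inU_of (by norm_num) (by norm_num; linarith) (by norm_num; linarith)), (inU_of (by norm_num) (by norm_num; linarith) (by norm_num; linarith)), (inU_of (by norm_num) (by norm_num; linarith) (by norm_num; linarith)), by norm_num [Lines.denV, izM67] <;> linarith⟩ : InLines izM67 (16, 23, 160) (3, 20, 20) (5, 6, 8) a b u I r s)
  norm_num [afVal, Lines.denV, izM67] at hl hr
  refine izLeaf132.low rfl rfl hb hF hH hB hside
    (⟨hI, (inU_of (by norm_num) (by norm_num; linarith) (by norm_num; linarith)), (inU_of (by norm_num) (by norm_num; linarith) (by norm_num; linarith)), (inU_of (by norm_num) (by norm_num; linarith) (by norm_num; linarith)), by norm_num [Lines.denV, izL132] <;> linarith⟩ : InLines izL132 (16, 23, 160) (3, 20, 20) (5, 6, 8) a b u I r s) ?_ ?_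
  all_goals norm_num [afVal, Lines.denV, izL132] <;> linarith

/-- The signs in the piece 200. -/
theorem izAt200 {n : ℕ} {a b u v t H I r s : ℝ} (hb : Closed.All.ChartBox n (b - a) (a + b))
    (hF : Closed.All.ChartFacts (b - a) (a + b) u v t)
    (hH : Closed.chH (b - a) (a + b) u v t = H) (hB : EndBands7 a b u v H)
    (hside : DLow a b) (hE : ExitLine a b u v) (hI : IPt a b u I r s) (hI0 : 0 < I)
    (q0l : (1 / 20 : ℝ) < I) (q0u : I ≤ (3 / 40 : ℝ)) (q1l : (0 : ℝ) < r) (q1u : r ≤ (1 / 160 : ℝ)) (q2l : (3 / 4 : ℝ) < s) (q2u : s ≤ (19 / 20 : ℝ)) (ku : (500 : ℝ) * (1 - a * v) ≤ (38 : ℝ)) :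
    Closed.Strip.ChartSigns (b - a) (a + b) u v t := by
  obtain ⟨hl, hr⟩ := izLine68 hB hE hI0 (⟨hI, (inU_of (by norm_num) (by norm_num; linarith) (by norm_num; linarith)), (inU_of (by norm_num) (by norm_num; linarith) (by norm_num; linarith)), (inU_of (by norm_num) (by norm_num; linarith) (by norm_num; linarith)), by norm_num [Lines.denV, izM68] <;> linarith⟩ : InLines izM68 (2, 3, 40) (0, 1, 160) (15, 19, 20) a b u I r s)
  norm_num [afVal, Lines.denV, izM68] at hl hr
  refine izLeaf200.low rfl rfl hb hF hH hB hside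
    (⟨hI, (inU_of (by norm_num) (by norm_num; linarith) (by norm_num; linarith)), (inU_of (by norm_num) (by norm_num; linarith) (by norm_num; linarith)), (inU_of (by norm_num) (by norm_num; linarith) (by norm_num; linarith)), by norm_num [Lines.denV, izL200] <;> linarith⟩ : InLines izL200 (2, 3, 40) (0, 1, 160) (15, 19, 20) a b u I r s) ?_ ?_
  all_goals norm_num [afVal, Lines.denV, izL200] <;> linarith

/-- The signs in the piece 201. -/
theorem izAt201 {n : ℕ} {a b u v t H I r s : ℝ} (hb : Closed.All.ChartBox n (b - a) (a + b))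
    (hF : Closed.All.ChartFacts (b - a) (a + b) u v t)
    (hH : Closed.chH (b - a) (a + b) u v t = H) (hB : EndBands7 a b u v H)
    (hside : DLow a b) (hE : ExitLine a b u v) (hI : IPt a b u I r s) (hI0 : 0 < I)
    (q0l : (1 / 20 : ℝ) < I) (q0u : I ≤ (3 / 40 : ℝ)) (q1l : (0 : ℝ) < r) (q1u : r ≤ (1 / 160 : ℝ)) (q2l : (3 / 4 : ℝ) < s) (q2u : s ≤ (19 / 20 : ℝ)) (kl : (38 : ℝ) < (500 : ℝ) * (1 - a * v)) (ku : (500 : ℝ) * (1 - a * v) ≤ (48 : ℝ)) :
    Closed.Strip.ChartSigns (b - a) (a + b) u v t := by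
  obtain ⟨hl, hr⟩ := izLine68 hB hE hI0 (⟨hI, (inU_of (by norm_num) (by norm_num; linarith) (by norm_num; linarith)), (inU_of (by norm_num) (by norm_num; linarith) (by norm_num; linarith)), (inU_of (by norm_num) (by norm_num; linarith) (by norm_num; linarith)), by norm_num [Lines.denV, izM68] <;> linarith⟩ : InLines izM68 (2, 3, 40) (0, 1, 160) (15, 19, 20) a b u I r s)
  norm_num [afVal, Lines.denV, izM68] at hl hr
  refine izLeaf201.low rfl rfl hb hF hH hB hside
    (⟨hI, (inU_of (by norm_num) (by norm_num; linarith) (by norm_num; linarith)), (inU_of (by norm_num) (by norm_num; linarith) (by norm_num; linarith)), (inU_of (by norm_num) (by norm_num; linarith) (by norm_num; linarith)), by norm_num [Lines.denV, izL201] <;> linarith⟩ : InLines izL201 (2, 3, 40) (0, 1, 160) (15, 19, 20) a b u I r s) ?_ ?_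
  all_goals norm_num [afVal, Lines.denV, izL201] <;> linarith

/-- The signs in the piece 202. -/
theorem izAt202 {n : ℕ} {a b u v t H I r s : ℝ} (hb : Closed.All.ChartBox n (b - a) (a + b))
    (hF : Closed.All.ChartFacts (b - a) (a + b) u v t)
    (hH : Closed.chH (b - a) (a + b) u v t = H) (hB : EndBands7 a b u v H)
    (hside : DLow a b) (hE : ExitLine a b u v) (hI : IPt a b u I r s) (hI0 : 0 < I)
    (q0l : (1 / 20 : ℝ) < I) (q0u : I ≤ (3 / 40 : ℝ)) (q1l : (0 : ℝ) < r) (q1u : r ≤ (1 / 160 : ℝ)) (q2l : (3 / 4 : ℝ) < s) (q2u : s ≤ (19 / 20 : ℝ)) (kl : (48 : ℝ) < (500 : ℝ) * (1 - a * v)) (ku : (500 : ℝ) * (1 - a * v) ≤ (194 : ℝ)) :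
    Closed.Strip.ChartSigns (b - a) (a + b) u v t := by
  obtain ⟨hl, hr⟩ := izLine68 hB hE hI0 (⟨hI, (inU_of (by norm_num) (by norm_num; linarith) (by norm_num; linarith)), (inU_of (by norm_num) (by norm_num; linarith) (by norm_num; linarith)), (inU_of (by norm_num) (by norm_num; linarith) (by norm_num; linarith)), by norm_num [Lines.denV, izM68] <;> linarith⟩ : InLines izM68 (2, 3, 40) (0, 1, 160) (15, 19, 20) a b u I r s)
  norm_num [afVal, Lines.denV, izM68] at hl hr
  refine izLeaf202.low rfl rfl hb hF hH hB hside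
    (⟨hI, (inU_of (by norm_num) (by norm_num; linarith) (by norm_num; linarith)), (inU_of (by norm_num) (by norm_num; linarith) (by norm_num; linarith)), (inU_of (by norm_num) (by norm_num; linarith) (by norm_num; linarith)), by norm_num [Lines.denV, izL202] <;> linarith⟩ : InLines izL202 (2, 3, 40) (0, 1, 160) (15, 19, 20) a b u I r s) ?_ ?_
  all_goals norm_num [afVal, Lines.denV, izL202] <;> linarith

/-- The signs in the piece 203. -/
theorem izAt203 {n : ℕ} {a b u v t H I r s : ℝ} (hb : Closed.All.ChartBox n (b - a) (a + b))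
    (hF : Closed.All.ChartFacts (b - a) (a + b) u v t)
    (hH : Closed.chH (b - a) (a + b) u v t = H) (hB : EndBands7 a b u v H)
    (hside : DLow a b) (hE : ExitLine a b u v) (hI : IPt a b u I r s) (hI0 : 0 < I)
    (q0l : (1 / 20 : ℝ) < I) (q0u : I ≤ (3 / 40 : ℝ)) (q1l : (0 : ℝ) < r) (q1u : r ≤ (1 / 160 : ℝ)) (q2l : (3 / 4 : ℝ) < s) (q2u : s ≤ (19 / 20 : ℝ)) (kl : (194 : ℝ) < (500 : ℝ) * (1 - a * v)) (ku : (500 : ℝ) * (1 - a * v) ≤ (242 : ℝ)) :
    Closed.Strip.ChartSigns (b - a) (a + b) u v t := by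
  obtain ⟨hl, hr⟩ := izLine68 hB hE hI0 (⟨hI, (inU_of (by norm_num) (by norm_num; linarith) (by norm_num; linarith)), (inU_of (by norm_num) (by norm_num; linarith) (by norm_num; linarith)), (inU_of (by norm_num) (by norm_num; linarith) (by norm_num; linarith)), by norm_num [Lines.denV, izM68] <;> linarith⟩ : InLines izM68 (2, 3, 40) (0, 1, 160) (15, 19, 20) a b u I r s)
  norm_num [afVal, Lines.denV, izM68] at hl hr
  refine izLeaf203.low rfl rfl hb hF hH hB hside
    (⟨hI, (inU_of (by norm_num) (by norm_num; linarith) (by norm_num; linarith)), (inU_of (by norm_num) (by norm_num; linarith) (by norm_num; linarith)), (inU_of (by norm_num) (by norm_num; linarith) (by norm_num; linarith)), by norm_num [Lines.denV, izL203] <;> linarith⟩ : InLines izL203 (2, 3, 40) (0, 1, 160) (15, 19, 20) a b u I r s) ?_ ?_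
  all_goals norm_num [afVal, Lines.denV, izL203] <;> linarith

/-- The signs in the piece 204. -/
theorem izAt204 {n : ℕ} {a b u v t H I r s : ℝ} (hb : Closed.All.ChartBox n (b - a) (a + b))
    (hF : Closed.All.ChartFacts (b - a) (a + b) u v t)
    (hH : Closed.chH (b - a) (a + b) u v t = H) (hB : EndBands7 a b u v H)
    (hside : DLow a b) (hE : ExitLine a b u v) (hI : IPt a b u I r s) (hI0 : 0 < I)
    (q0l : (1 / 20 : ℝ) < I) (q0u : I ≤ (3 / 40 : ℝ)) (q1l : (0 : ℝ) < r) (q1u : r ≤ (1 / 160 : ℝ)) (q2l : (3 / 4 : ℝ) < s) (q2u : s ≤ (19 / 20 : ℝ)) (kl : (242 : ℝ) < (500 : ℝ) * (1 - a * v)) :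
    Closed.Strip.ChartSigns (b - a) (a + b) u v t := by
  obtain ⟨hl, hr⟩ := izLine68 hB hE hI0 (⟨hI, (inU_of (by norm_num) (by norm_num; linarith) (by norm_num; linarith)), (inU_of (by norm_num) (by norm_num; linarith) (by norm_num; linarith)), (inU_of (by norm_num) (by norm_num; linarith) (by norm_num; linarith)), by norm_num [Lines.denV, izM68] <;> linarith⟩ : InLines izM68 (2, 3, 40) (0, 1, 160) (15, 19, 20) a b u I r s)
  norm_num [afVal, Lines.denV, izM68] at hl hr
  refine izLeaf204.low rfl rfl hb hF hH hB hside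
    (⟨hI, (inU_of (by norm_num) (by norm_num; linarith) (by norm_num; linarith)), (inU_of (by norm_num) (by norm_num; linarith) (by norm_num; linarith)), (inU_of (by norm_num) (by norm_num; linarith) (by norm_num; linarith)), by norm_num [Lines.denV, izL204] <;> linarith⟩ : InLines izL204 (2, 3, 40) (0, 1, 160) (15, 19, 20) a b u I r s) ?_ ?_
  all_goals norm_num [afVal, Lines.denV, izL204] <;> linarith

/-- The signs in the piece 205. -/
theorem izAt205 {n : ℕ} {a b u v t H I r s : ℝ} (hb : Closed.All.ChartBox n (b - a) (a + b))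
    (hF : Closed.All.ChartFacts (b - a) (a + b) u v t)
    (hH : Closed.chH (b - a) (a + b) u v t = H) (hB : EndBands7 a b u v H)
    (hside : DLow a b) (hE : ExitLine a b u v) (hI : IPt a b u I r s) (hI0 : 0 < I)
    (q0l : (1 / 20 : ℝ) < I) (q0u : I ≤ (3 / 40 : ℝ)) (q1l : (1 / 160 : ℝ) < r) (q1u : r ≤ (1 / 50 : ℝ)) (q2l : (3 / 4 : ℝ) < s) (q2u : s ≤ (19 / 20 : ℝ)) :
    Closed.Strip.ChartSigns (b - a) (a + b) u v t := by
  obtain ⟨hl, hr⟩ := izLine69 hB hE hI0 (⟨hI, (inU_of (by norm_num) (by norm_num; linarith) (by norm_num; linarith)), (inU_of (by norm_num) (by norm_num; linarith) (by norm_num; linarith)), (inU_of (by norm_num) (by norm_num; linarith) (by norm_num; linarith)), by norm_num [Lines.denV, izM69] <;> linarith⟩ : InLines izM69 (2, 3, 40) (5, 16, 800) (15, 19, 20) a b u I r s)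
  norm_num [afVal, Lines.denV, izM69] at hl hr
  refine izLeaf205.low rfl rfl hb hF hH hB hside
    (⟨hI, (inU_of (by norm_num) (by norm_num; linarith) (by norm_num; linarith)), (inU_of (by norm_num) (by norm_num; linarith) (by norm_num; linarith)), (inU_of (by norm_num) (by norm_num; linarith) (by norm_num; linarith)), by norm_num [Lines.denV, izL205] <;> linarith⟩ : InLines izL205 (2, 3, 40) (5, 16, 800) (15, 19, 20) a b u I r s) ?_ ?_
  all_goals norm_num [afVal, Lines.denV, izL205] <;> linarith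

/-- The signs in the piece 206. -/
theorem izAt206 {n : ℕ} {a b u v t H I r s : ℝ} (hb : Closed.All.ChartBox n (b - a) (a + b))
    (hF : Closed.All.ChartFacts (b - a) (a + b) u v t)
    (hH : Closed.chH (b - a) (a + b) u v t = H) (hB : EndBands7 a b u v H)
    (hside : DLow a b) (hE : ExitLine a b u v) (hI : IPt a b u I r s) (hI0 : 0 < I)
    (q0l : (3 / 40 : ℝ) < I) (q0u : I ≤ (1 / 10 : ℝ)) (q1l : (0 : ℝ) < r) (q1u : r ≤ (1 / 160 : ℝ)) (q2l : (3 / 4 : ℝ) < s) (q2u : s ≤ (23 / 25 : ℝ)) (kl : (62 : ℝ) < (500 : ℝ) * (1 - a * v)) (ku : (500 : ℝ) * (1 - a * v) ≤ (155 : ℝ)) :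
    Closed.Strip.ChartSigns (b - a) (a + b) u v t := by
  obtain ⟨hl, hr⟩ := izLine36 hB hE hI0 (⟨hI, (inU_of (by norm_num) (by norm_num; linarith) (by norm_num; linarith)), (inU_of (by norm_num) (by norm_num; linarith) (by norm_num; linarith)), (inU_of (by norm_num) (by norm_num; linarith) (by norm_num; linarith)), by norm_num [Lines.denV, izM36] <;> linarith⟩ : InLines izM36 (3, 4, 40) (0, 1, 50) (75, 92, 100) a b u I r s)
  norm_num [afVal, Lines.denV, izM36] at hl hr
  refine izLeaf206.low rfl rfl hb hF hH hB hside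
    (⟨hI, (inU_of (by norm_num) (by norm_num; linarith) (by norm_num; linarith)), (inU_of (by norm_num) (by norm_num; linarith) (by norm_num; linarith)), (inU_of (by norm_num) (by norm_num; linarith) (by norm_num; linarith)), by norm_num [Lines.denV, izL206] <;> linarith⟩ : InLines izL206 (3, 4, 40) (0, 1, 160) (75, 92, 100) a b u I r s) ?_ ?_
  all_goals norm_num [afVal, Lines.denV, izL206] <;> linarith

/-- The signs in the piece 207. -/
theorem izAt207 {n : ℕ} {a b u v t H I r s : ℝ} (hb : Closed.All.ChartBox n (b - a) (a + b))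
    (hF : Closed.All.ChartFacts (b - a) (a + b) u v t)
    (hH : Closed.chH (b - a) (a + b) u v t = H) (hB : EndBands7 a b u v H)
    (hside : DLow a b) (hE : ExitLine a b u v) (hI : IPt a b u I r s) (hI0 : 0 < I)
    (q0l : (3 / 40 : ℝ) < I) (q0u : I ≤ (1 / 10 : ℝ)) (q1l : (0 : ℝ) < r) (q1u : r ≤ (1 / 160 : ℝ)) (q2l : (3 / 4 : ℝ) < s) (q2u : s ≤ (23 / 25 : ℝ)) (kl : (155 : ℝ) < (500 : ℝ) * (1 - a * v)) (ku : (500 : ℝ) * (1 - a * v) ≤ (248 : ℝ)) :
    Closed.Strip.ChartSigns (b - a) (a + b) u v t := by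
  obtain ⟨hl, hr⟩ := izLine36 hB hE hI0 (⟨hI, (inU_of (by norm_num) (by norm_num; linarith) (by norm_num; linarith)), (inU_of (by norm_num) (by norm_num; linarith) (by norm_num; linarith)), (inU_of (by norm_num) (by norm_num; linarith) (by norm_num; linarith)), by norm_num [Lines.denV, izM36] <;> linarith⟩ : InLines izM36 (3, 4, 40) (0, 1, 50) (75, 92, 100) a b u I r s)
  norm_num [afVal, Lines.denV, izM36] at hl hr
  refine izLeaf207.low rfl rfl hb hF hH hB hside
    (⟨hI, (inU_of (by norm_num) (by norm_num; linarith) (by norm_num; linarith)), (inU_of (by norm_num) (by norm_num; linarith) (by norm_num; linarith)), (inU_of (by norm_num) (by norm_num; linarith) (by norm_num; linarith)), by norm_num [Lines.denV, izL207] <;> linarith⟩ : InLines izL207 (3, 4, 40) (0, 1, 160) (75, 92, 100) a b u I r s) ?_ ?_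
  all_goals norm_num [afVal, Lines.denV, izL207] <;> linarith

/-- The signs in the piece 208. -/
theorem izAt208 {n : ℕ} {a b u v t H I r s : ℝ} (hb : Closed.All.ChartBox n (b - a) (a + b))
    (hF : Closed.All.ChartFacts (b - a) (a + b) u v t)
    (hH : Closed.chH (b - a) (a + b) u v t = H) (hB : EndBands7 a b u v H)
    (hside : DLow a b) (hE : ExitLine a b u v) (hI : IPt a b u I r s) (hI0 : 0 < I)
    (q0l : (3 / 40 : ℝ) < I) (q0u : I ≤ (1 / 10 : ℝ)) (q1l : (1 / 160 : ℝ) < r) (q1u : r ≤ (1 / 50 : ℝ)) (q2l : (3 / 4 : ℝ) < s) (q2u : s ≤ (23 / 25 : ℝ)) (kl : (62 : ℝ) < (500 : ℝ) * (1 - a * v)) (ku : (500 : ℝ) * (1 - a * v) ≤ (155 : ℝ)) :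
    Closed.Strip.ChartSigns (b - a) (a + b) u v t := by
  obtain ⟨hl, hr⟩ := izLine36 hB hE hI0 (⟨hI, (inU_of (by norm_num) (by norm_num; linarith) (by norm_num; linarith)), (inU_of (by norm_num) (by norm_num; linarith) (by norm_num; linarith)), (inU_of (by norm_num) (by norm_num; linarith) (by norm_num; linarith)), by norm_num [Lines.denV, izM36] <;> linarith⟩ : InLines izM36 (3, 4, 40) (0, 1, 50) (75, 92, 100) a b u I r s)
  norm_num [afVal, Lines.denV, izM36] at hl hr
  refine izLeaf208.low rfl rfl hb hF hH hB hside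
    (⟨hI, (inU_of (by norm_num) (by norm_num; linarith) (by norm_num; linarith)), (inU_of (by norm_num) (by norm_num; linarith) (by norm_num; linarith)), (inU_of (by norm_num) (by norm_num; linarith) (by norm_num; linarith)), by norm_num [Lines.denV, izL208] <;> linarith⟩ : InLines izL208 (3, 4, 40) (5, 16, 800) (75, 92, 100) a b u I r s) ?_ ?_
  all_goals norm_num [afVal, Lines.denV, izL208] <;> linarith

/-- The signs in the piece 209. -/
theorem izAt209 {n : ℕ} {a b u v t H I r s : ℝ} (hb : Closed.All.ChartBox n (b - a) (a + b))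
    (hF : Closed.All.ChartFacts (b - a) (a + b) u v t)
    (hH : Closed.chH (b - a) (a + b) u v t = H) (hB : EndBands7 a b u v H)
    (hside : DLow a b) (hE : ExitLine a b u v) (hI : IPt a b u I r s) (hI0 : 0 < I)
    (q0l : (3 / 40 : ℝ) < I) (q0u : I ≤ (1 / 10 : ℝ)) (q1l : (1 / 160 : ℝ) < r) (q1u : r ≤ (1 / 50 : ℝ)) (q2l : (3 / 4 : ℝ) < s) (q2u : s ≤ (23 / 25 : ℝ)) (kl : (155 : ℝ) < (500 : ℝ) * (1 - a * v)) (ku : (500 : ℝ) * (1 - a * v) ≤ (248 : ℝ)) :
    Closed.Strip.ChartSigns (b - a) (a + b) u v t := by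
  obtain ⟨hl, hr⟩ := izLine36 hB hE hI0 (⟨hI, (inU_of (by norm_num) (by norm_num; linarith) (by norm_num; linarith)), (inU_of (by norm_num) (by norm_num; linarith) (by norm_num; linarith)), (inU_of (by norm_num) (by norm_num; linarith) (by norm_num; linarith)), by norm_num [Lines.denV, izM36] <;> linarith⟩ : InLines izM36 (3, 4, 40) (0, 1, 50) (75, 92, 100) a b u I r s)
  norm_num [afVal, Lines.denV, izM36] at hl hr
  refine izLeaf209.low rfl rfl hb hF hH hB hside
    (⟨hI, (inU_of (by norm_num) (by norm_num; linarith) (by norm_num; linarith)), (inU_of (by norm_num) (by norm_num; linarith) (by norm_num; linarith)), (inU_of (by norm_num) (by norm_num; linarith) (by norm_num; linarith)), by norm_num [Lines.denV, izL209] <;> linarith⟩ : InLines izL209 (3, 4, 40) (5, 16, 800) (75, 92, 100) a b u I r s) ?_ ?_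
  all_goals norm_num [afVal, Lines.denV, izL209] <;> linarith

/-- The signs in the piece 210. -/
theorem izAt210 {n : ℕ} {a b u v t H I r s : ℝ} (hb : Closed.All.ChartBox n (b - a) (a + b))
    (hF : Closed.All.ChartFacts (b - a) (a + b) u v t)
    (hH : Closed.chH (b - a) (a + b) u v t = H) (hB : EndBands7 a b u v H)
    (hside : DLow a b) (hE : ExitLine a b u v) (hI : IPt a b u I r s) (hI0 : 0 < I)
    (q0l : (1 / 10 : ℝ) < I) (q0u : I ≤ (1 / 8 : ℝ)) (q1l : (0 : ℝ) < r) (q1u : r ≤ (1 / 160 : ℝ)) (q2l : (3 / 4 : ℝ) < s) (q2u : s ≤ (89 / 100 : ℝ)) (ku : (500 : ℝ) * (1 - a * v) ≤ (18 : ℝ)) :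
    Closed.Strip.ChartSigns (b - a) (a + b) u v t := by
  obtain ⟨hl, hr⟩ := izLine37 hB hE hI0 (⟨hI, (inU_of (by norm_num) (by norm_num; linarith) (by norm_num; linarith)), (inU_of (by norm_num) (by norm_num; linarith) (by norm_num; linarith)), (inU_of (by norm_num) (by norm_num; linarith) (by norm_num; linarith)), by norm_num [Lines.denV, izM37] <;> linarith⟩ : InLines izM37 (4, 5, 40) (0, 1, 50) (75, 89, 100) a b u I r s)
  norm_num [afVal, Lines.denV, izM37] at hl hr
  refine izLeaf210.low rfl rfl hb hF hH hB hside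
    (⟨hI, (inU_of (by norm_num) (by norm_num; linarith) (by norm_num; linarith)), (inU_of (by norm_num) (by norm_num; linarith) (by norm_num; linarith)), (inU_of (by norm_num) (by norm_num; linarith) (by norm_num; linarith)), by norm_num [Lines.denV, izL210] <;> linarith⟩ : InLines izL210 (4, 5, 40) (0, 1, 160) (75, 89, 100) a b u I r s) ?_ ?_
  all_goals norm_num [afVal, Lines.denV, izL210] <;> linarith

/-- The signs in the piece 211. -/
theorem izAt211 {n : ℕ} {a b u v t H I r s : ℝ} (hb : Closed.All.ChartBox n (b - a) (a + b))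
    (hF : Closed.All.ChartFacts (b - a) (a + b) u v t)
    (hH : Closed.chH (b - a) (a + b) u v t = H) (hB : EndBands7 a b u v H)
    (hside : DLow a b) (hE : ExitLine a b u v) (hI : IPt a b u I r s) (hI0 : 0 < I)
    (q0l : (1 / 10 : ℝ) < I) (q0u : I ≤ (1 / 8 : ℝ)) (q1l : (0 : ℝ) < r) (q1u : r ≤ (3 / 1600 : ℝ)) (q2l : (3 / 4 : ℝ) < s) (q2u : s ≤ (89 / 100 : ℝ)) (kl : (18 : ℝ) < (500 : ℝ) * (1 - a * v)) (ku : (500 : ℝ) * (1 - a * v) ≤ (22 : ℝ)) :
    Closed.Strip.ChartSigns (b - a) (a + b) u v t := by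
  obtain ⟨hl, hr⟩ := izLine37 hB hE hI0 (⟨hI, (inU_of (by norm_num) (by norm_num; linarith) (by norm_num; linarith)), (inU_of (by norm_num) (by norm_num; linarith) (by norm_num; linarith)), (inU_of (by norm_num) (by norm_num; linarith) (by norm_num; linarith)), by norm_num [Lines.denV, izM37] <;> linarith⟩ : InLines izM37 (4, 5, 40) (0, 1, 50) (75, 89, 100) a b u I r s)
  norm_num [afVal, Lines.denV, izM37] at hl hr
  refine izLeaf211.low rfl rfl hb hF hH hB hside
    (⟨hI, (inU_of (by norm_num) (by norm_num; linarith) (by norm_num; linarith)), (inU_of (by norm_num) (by norm_num; linarith) (by norm_num; linarith)), (inU_of (by norm_num) (by norm_num; linarith) (by norm_num; linarith)), by norm_num [Lines.denV, izL211] <;> linarith⟩ : InLines izL211 (4, 5, 40) (0, 3, 1600) (75, 89, 100) a b u I r s) ?_ ?_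
  all_goals norm_num [afVal, Lines.denV, izL211] <;> linarith

/-- The signs in the piece 212. -/
theorem izAt212 {n : ℕ} {a b u v t H I r s : ℝ} (hb : Closed.All.ChartBox n (b - a) (a + b))
    (hF : Closed.All.ChartFacts (b - a) (a + b) u v t)
    (hH : Closed.chH (b - a) (a + b) u v t = H) (hB : EndBands7 a b u v H)
    (hside : DLow a b) (hE : ExitLine a b u v) (hI : IPt a b u I r s) (hI0 : 0 < I)
    (q0l : (1 / 10 : ℝ) < I) (q0u : I ≤ (1 / 8 : ℝ)) (q1l : (3 / 1600 : ℝ) < r) (q1u : r ≤ (1 / 160 : ℝ)) (q2l : (3 / 4 : ℝ) < s) (q2u : s ≤ (89 / 100 : ℝ)) (kl : (18 : ℝ) < (500 : ℝ) * (1 - a * v)) (ku : (500 : ℝ) * (1 - a * v) ≤ (22 : ℝ)) :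
    Closed.Strip.ChartSigns (b - a) (a + b) u v t := by
  obtain ⟨hl, hr⟩ := izLine37 hB hE hI0 (⟨hI, (inU_of (by norm_num) (by norm_num; linarith) (by norm_num; linarith)), (inU_of (by norm_num) (by norm_num; linarith) (by norm_num; linarith)), (inU_of (by norm_num) (by norm_num; linarith) (by norm_num; linarith)), by norm_num [Lines.denV, izM37] <;> linarith⟩ : InLines izM37 (4, 5, 40) (0, 1, 50) (75, 89, 100) a b u I r s)
  norm_num [afVal, Lines.denV, izM37] at hl hr
  refine izLeaf212.low rfl rfl hb hF hH hB hside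
    (⟨hI, (inU_of (by norm_num) (by norm_num; linarith) (by norm_num; linarith)), (inU_of (by norm_num) (by norm_num; linarith) (by norm_num; linarith)), (inU_of (by norm_num) (by norm_num; linarith) (by norm_num; linarith)), by norm_num [Lines.denV, izL212] <;> linarith⟩ : InLines izL212 (4, 5, 40) (3, 10, 1600) (75, 89, 100) a b u I r s) ?_ ?_
  all_goals norm_num [afVal, Lines.denV, izL212] <;> linarith

/-- The signs in the piece 213. -/
theorem izAt213 {n : ℕ} {a b u v t H I r s : ℝ} (hb : Closed.All.ChartBox n (b - a) (a + b))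
    (hF : Closed.All.ChartFacts (b - a) (a + b) u v t)
    (hH : Closed.chH (b - a) (a + b) u v t = H) (hB : EndBands7 a b u v H)
    (hside : DLow a b) (hE : ExitLine a b u v) (hI : IPt a b u I r s) (hI0 : 0 < I)
    (q0l : (1 / 10 : ℝ) < I) (q0u : I ≤ (1 / 8 : ℝ)) (q1l : (0 : ℝ) < r) (q1u : r ≤ (1 / 160 : ℝ)) (q2l : (3 / 4 : ℝ) < s) (q2u : s ≤ (89 / 100 : ℝ)) (kl : (22 : ℝ) < (500 : ℝ) * (1 - a * v)) (ku : (500 : ℝ) * (1 - a * v) ≤ (27 : ℝ)) :
    Closed.Strip.ChartSigns (b - a) (a + b) u v t := by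
  obtain ⟨hl, hr⟩ := izLine37 hB hE hI0 (⟨hI, (inU_of (by norm_num) (by norm_num; linarith) (by norm_num; linarith)), (inU_of (by norm_num) (by norm_num; linarith) (by norm_num; linarith)), (inU_of (by norm_num) (by norm_num; linarith) (by norm_num; linarith)), by norm_num [Lines.denV, izM37] <;> linarith⟩ : InLines izM37 (4, 5, 40) (0, 1, 50) (75, 89, 100) a b u I r s)
  norm_num [afVal, Lines.denV, izM37] at hl hr
  refine izLeaf213.low rfl rfl hb hF hH hB hside
    (⟨hI, (inU_of (by norm_num) (by norm_num; linarith) (by norm_num; linarith)), (inU_of (by norm_num) (by norm_num; linarith) (by norm_num; linarith)), (inU_of (by norm_num) (by norm_num; linarith) (by norm_num; linarith)), by norm_num [Lines.denV, izL213] <;> linarith⟩ : InLines izL213 (4, 5, 40) (0, 1, 160) (75, 89, 100) a b u I r s) ?_ ?_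
  all_goals norm_num [afVal, Lines.denV, izL213] <;> linarith

/-- The signs in the piece 214. -/
theorem izAt214 {n : ℕ} {a b u v t H I r s : ℝ} (hb : Closed.All.ChartBox n (b - a) (a + b))
    (hF : Closed.All.ChartFacts (b - a) (a + b) u v t)
    (hH : Closed.chH (b - a) (a + b) u v t = H) (hB : EndBands7 a b u v H)
    (hside : DLow a b) (hE : ExitLine a b u v) (hI : IPt a b u I r s) (hI0 : 0 < I)
    (q0l : (1 / 10 : ℝ) < I) (q0u : I ≤ (1 / 8 : ℝ)) (q1l : (0 : ℝ) < r) (q1u : r ≤ (1 / 160 : ℝ)) (q2l : (3 / 4 : ℝ) < s) (q2u : s ≤ (89 / 100 : ℝ)) (kl : (27 : ℝ) < (500 : ℝ) * (1 - a * v)) (ku : (500 : ℝ) * (1 - a * v) ≤ (54 : ℝ)) :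
    Closed.Strip.ChartSigns (b - a) (a + b) u v t := by
  obtain ⟨hl, hr⟩ := izLine37 hB hE hI0 (⟨hI, (inU_of (by norm_num) (by norm_num; linarith) (by norm_num; linarith)), (inU_of (by norm_num) (by norm_num; linarith) (by norm_num; linarith)), (inU_of (by norm_num) (by norm_num; linarith) (by norm_num; linarith)), by norm_num [Lines.denV, izM37] <;> linarith⟩ : InLines izM37 (4, 5, 40) (0, 1, 50) (75, 89, 100) a b u I r s)
  norm_num [afVal, Lines.denV, izM37] at hl hr
  refine izLeaf214.low rfl rfl hb hF hH hB hside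
    (⟨hI, (inU_of (by norm_num) (by norm_num; linarith) (by norm_num; linarith)), (inU_of (by norm_num) (by norm_num; linarith) (by norm_num; linarith)), (inU_of (by norm_num) (by norm_num; linarith) (by norm_num; linarith)), by norm_num [Lines.denV, izL214] <;> linarith⟩ : InLines izL214 (4, 5, 40) (0, 1, 160) (75, 89, 100) a b u I r s) ?_ ?_
  all_goals norm_num [afVal, Lines.denV, izL214] <;> linarith

end Vale.Agent.P100.Calib.StripEndD
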