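import Vale.Agent.P100.Calib.SlabStripEndDExpr
import Vale.Agent.P100.Calib.SlabStripEndCert

/-!
# The piece 221 of the strip for `u` near one at small `d / I`
-/

namespace Vale.Agent.P100.Calib.StripEndD

open Pack hiding ev_add ev_mul
open Pack.Ex StripMid StripEnd

local instance endIZ7P221Add : Add Ex := ⟨Ex.add⟩
local instance endIZ7P221Sub : Sub Ex := ⟨Ex.sub⟩
local instance endIZ7P221Mul : Mul Ex := ⟨Ex.mul⟩

/-- The piece `Iz221`. -/
def pcIz221 : Piece where
  I := (var 0)
  d := (var 0) * (var 2)
  w := ((var 0) * (var 1))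
  o := (((num 434)) + ((num 66) + (num (-2666) * (var 1))) * (var 3))
  den := ((num 500))
  vn := num 2 * (((num 434)) + ((num 66) + (num (-2666) * (var 1))) * (var 3))
  vs := (num 1 - num 2 * (var 0) - (var 0) * (var 2))
  mu := ⟨(140, 50), (161, 50)⟩
  pn := fun b => cond b
    (num 50 * (((num 500)) - (((num 434)) + ((num 66) + (num (-2666) * (var 1))) * (var 3))) + num (-161) * ((((num 434)) + ((num 66) + (num (-2666) * (var 1))) * (var 3)) * ((var 0) * (var 1))))
    (num 50 * (((num 500)) - (((num 434)) + ((num 66) + (num (-2666) * (var 1))) * (var 3))) + num (-140) * ((((num 434)) + ((num 66) + (num (-2666) * (var 1))) * (var 3)) * ((var 0) * (var 1))))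
  pd := num 50
  en := fun b => cond b
    (((num 36365) + (num 33260 * (var 0))) * (num 4 * (var 0) * (((num 500)) - (((num 434)) + ((num 66) + (num (-2666) * (var 1))) * (var 3))) * ((var 2) + num 3 * (var 0)) + (var 1) * ((num 500)) * (num 1 + num 20 * ((var 0) * (var 2)))))
    (((num 31938) + (num 33260 * (var 0))) * (num 4 * (var 0) * (((num 500)) - (((num 434)) + ((num 66) + (num (-2666) * (var 1))) * (var 3))) * ((var 2) + num 3 * (var 0)) + (var 1) * ((num 500)) * (num 1 + num 20 * ((var 0) * (var 2)))))
  kk := fun b => cond b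
    (((num 1678) + (num 24480 * (var 2))) * (((var 0) * (var 1)) * (num 4 * ((num 500)) * ((var 2) + num 3 * (var 0)))))
    (((num (-589)) + (num 24480 * (var 2))) * (((var 0) * (var 1)) * (num 4 * ((num 500)) * ((var 2) + num 3 * (var 0)))))
  f0 := num 8000 * ((num 500)) * ((var 2) + num 3 * (var 0))
  wn := fun b => cond b
    (((num (-10883) * ((var 0) * (((num 500)) - (((num 434)) + ((num 66) + (num (-2666) * (var 1))) * (var 3))))) + (num 29107 * (((var 0) * (var 1)) * (((num 434)) + ((num 66) + (num (-2666) * (var 1))) * (var 3)))) + (num (-15083) * (((var 0) * (var 1)) * ((num 500)))) + (num 2094 * ((var 0) * (var 2) * (((num 500)) - (((num 434)) + ((num 66) + (num (-2666) * (var 1))) * (var 3)))))))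
    (((num (-11333) * ((var 0) * (((num 500)) - (((num 434)) + ((num 66) + (num (-2666) * (var 1))) * (var 3))))) + (num 29107 * (((var 0) * (var 1)) * (((num 434)) + ((num 66) + (num (-2666) * (var 1))) * (var 3)))) + (num (-15533) * (((var 0) * (var 1)) * ((num 500)))) + (num 2094 * ((var 0) * (var 2) * (((num 500)) - (((num 434)) + ((num 66) + (num (-2666) * (var 1))) * (var 3)))))))
  wd := num 1000 * ((num 500))
  tn := fun b => cond b
    (num 11089 * ((var 1) * ((num 500))))
    (num 9891 * ((var 1) * ((num 500))))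
  td := num 8000 * ((var 1) * ((num 500)) + num 2 * (var 2) * (((num 500)) - (((num 434)) + ((num 66) + (num (-2666) * (var 1))) * (var 3))))
  cn := num 0
  cd := num 1
  kn := ((num 500)) * ((num (-908)) + (num 7746 * (var 0)) + (num (-279) * (var 1)) + (num 77 * (var 2)) + (num 853 * (var 3)) + (num (-1563) * ((var 1) * (var 3))) + (num 41 * ((var 2) * (var 3))) + (num (-6667) * ((var 0) * (var 3))))
  kd := num 32 * (((num 500)) - (((num 434)) + ((num 66) + (num (-2666) * (var 1))) * (var 3)))
  k2n := ((num (-678)) + (num 4496 * (var 0)) + (num 551 * (var 2)))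
  k2d := num 256

/-- Its ranges. -/
def bxIz221 : StripEnd.EBox :=
  ⟨(20, 21, 160), (0, 1, 50), (75, 86, 100), (0, 1, 1)⟩

end Vale.Agent.P100.Calib.StripEndD
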