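import Vale.Agent.P100.Calib.SlabStripEndIZ7P234
import Vale.Agent.P100.Calib.SlabStripEndDCert
import Vale.Agent.P100.Calib.SlabStripEndBig
import Vale.Agent.P100.Calib.SlabStripEndIZ7G234

/-!
# The checks of the piece 234
-/

namespace Vale.Agent.P100.Calib.StripEndD

open Pack hiding ev_add ev_mul
open Pack.Ex StripMid StripEnd

local instance endIZ7K234Add : Add Ex := ⟨Ex.add⟩
local instance endIZ7K234Sub : Sub Ex := ⟨Ex.sub⟩
local instance endIZ7K234Mul : Mul Ex := ⟨Ex.mul⟩

/-- **The certificate of `pcIz234`.** -/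
theorem certIz234 : Cert pcIz234 bxIz234 := by
  have h_kn : checkBig bxIz234.C 32 1 0 1 1
      pcIz234.kn = true := by decide +kernel
  have h_k2n : checkBig bxIz234.C 185 3 3 3 1
      (strictVar pcIz234.k2n) = true := by decide +kernel
  have h_k2d : checkBig bxIz234.C 184 3 3 3 1
      (strictVar pcIz234.k2d) = true := by decide +kernel
  have h_vs : checkBig bxIz234.C 164 3 3 3 0
      (strictVar pcIz234.vs) = true := by decide +kernel
  have h_g1 : ∀ s p l : Bool, checkBig bxIz234.C 233 8 0 6 5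
      (pcIz234.at ⟨p, l, !s, !s, false⟩ (c1 s)) = true := by decide +kernel
  have h_g2 := certIz234_g2
  have h_g5 : ∀ s p l t : Bool, checkBig bxIz234.C 569 16 0 13 9
      (pcIz234.at ⟨p, l, true, true, t⟩ (StripEnd.strict (c5 s))) = true := by decide +kernel
  have h_gMG : ∀ p l t : Bool, checkBig bxIz234.C 430 15 0 11 8
      (pcIz234.at ⟨p, l, true, false, t⟩ tplMG) = true := by decide +kernel
  have h_v2 : ∀ s : Bool, checkBig bxIz234.C 164 6 0 6 5
      (pcIz234.at ⟨false, false, true, true, false⟩ (curve2 s)) = true := by decide +kernel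
  have h_v5 : ∀ s : Bool, checkBig bxIz234.C 179 7 0 7 5
      (pcIz234.at ⟨false, false, true, true, false⟩ (curve5 s)) = true := by decide +kernel
  have h_vMG : checkBig bxIz234.C 141 6 0 6 4
      (pcIz234.at ⟨false, false, true, true, false⟩ Piece.curveMG) = true := by decide +kernel
  have h_wP : ∀ b q : Bool, checkBig bxIz234.C 57 1 1 0 1
      (pcIz234.winP b q) = true := by decide +kernel
  have h_wE : ∀ b q : Bool, checkBig bxIz234.C 265 12 2 9 3
      (pcIz234.winE b q) = true := by decide +kernel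
  have h_wK : ∀ b q : Bool, checkBig bxIz234.C 247 12 2 8 3
      (pcIz234.winK b q) = true := by decide +kernel
  have h_wT : ∀ b q : Bool, checkBig bxIz234.C 202 8 2 6 4
      (pcIz234.winT b q) = true := by decide +kernel
  have h_wW : ∀ b : Bool, checkBig bxIz234.C 191 8 2 4 3
      (pcIz234.winW b) = true := by decide +kernel
  have h_wY : ∀ b : Bool, checkBig bxIz234.C 416 18 3 13 6
      (pcIz234.winY b) = true := by decide +kernel
  have h_gap : ∀ b q : Bool, checkBig bxIz234.C 488 23 3 17 6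
      (pcIz234.gap b q) = true := by decide +kernel
  exact {
    pos := ⟨⟨by decide, by decide⟩⟩
    low := by decide
    sgns := fun f => by
      cases f
      · exact ⟨160, 3, 3, 3, 0, by decide +kernel⟩
      · exact ⟨160, 3, 3, 3, 0, by decide +kernel⟩
      · exact ⟨164, 3, 3, 3, 0, by decide +kernel⟩
      · exact ⟨164, 3, 3, 3, 0, by decide +kernel⟩
      · exact ⟨163, 3, 3, 3, 0, by decide +kernel⟩
      · exact ⟨172, 3, 3, 3, 0, by decide +kernel⟩
      · exact ⟨172, 3, 3, 3, 1, by decide +kernel⟩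
      · exact ⟨174, 3, 3, 3, 1, by decide +kernel⟩
      · exact ⟨180, 3, 3, 3, 0, by decide +kernel⟩
      · exact ⟨186, 3, 3, 3, 1, by decide +kernel⟩
      · exact ⟨183, 3, 3, 3, 0, by decide +kernel⟩
      · exact ⟨182, 3, 3, 3, 0, by decide +kernel⟩
      · exact ⟨185, 3, 3, 3, 0, by decide +kernel⟩
      · exact ⟨163, 3, 3, 3, 0, by decide +kernel⟩
      · exact ⟨170, 3, 3, 3, 0, by decide +kernel⟩
    kn := ⟨_, _, _, _, _, checkFour_of_big h_kn⟩
    k2n := ⟨_, _, _, _, _, checkFour_of_big h_k2n⟩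
    k2d := ⟨_, _, _, _, _, checkFour_of_big h_k2d⟩
    vs := ⟨_, _, _, _, _, checkFour_of_big h_vs⟩
    g1 := fun s p l => ⟨_, _, _, _, _, checkFour_of_big (h_g1 s p l)⟩
    g2 := fun s p l t => ⟨_, _, _, _, _, checkFour_of_big (h_g2 s p l t)⟩
    g5 := fun s p l t => ⟨_, _, _, _, _, checkFour_of_big (h_g5 s p l t)⟩
    gMG := fun p l t => ⟨_, _, _, _, _, checkFour_of_big (h_gMG p l t)⟩
    v2 := fun s => ⟨_, _, _, _, _, checkFour_of_big (h_v2 s)⟩
    v5 := fun s => ⟨_, _, _, _, _, checkFour_of_big (h_v5 s)⟩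
    vMG := ⟨_, _, _, _, _, checkFour_of_big h_vMG⟩
    wP := fun b q => ⟨_, _, _, _, _, checkFour_of_big (h_wP b q)⟩
    wE := fun b q => ⟨_, _, _, _, _, checkFour_of_big (h_wE b q)⟩
    wK := fun b q => ⟨_, _, _, _, _, checkFour_of_big (h_wK b q)⟩
    wT := fun b q => ⟨_, _, _, _, _, checkFour_of_big (h_wT b q)⟩
    wW := fun b => ⟨_, _, _, _, _, checkFour_of_big (h_wW b)⟩
    wY := fun b => ⟨_, _, _, _, _, checkFour_of_big (h_wY b)⟩
    gap := fun b q => ⟨_, _, _, _, _, checkFour_of_big (h_gap b q)⟩ }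

end Vale.Agent.P100.Calib.StripEndD
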