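import Vale.Agent.P100.Calib.SlabStripEndDExpr
import Vale.Agent.P100.Calib.SlabStripEndCert

/-!
# The piece 238 of the strip for `u` near one at small `d / I`
-/

namespace Vale.Agent.P100.Calib.StripEndD

open Pack hiding ev_add ev_mul
open Pack.Ex StripMid StripEnd

local instance endIZ7P238Add : Add Ex := ⟨Ex.add⟩
local instance endIZ7P238Sub : Sub Ex := ⟨Ex.sub⟩
local instance endIZ7P238Mul : Mul Ex := ⟨Ex.mul⟩

/-- The piece `Iz238`. -/
def pcIz238 : Piece where
  I := (var 0)
  d := (var 0) * (var 2)
  w := ((var 0) * (var 1))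
  o := (((num 47) + (num (-103) * (var 1))) + ((num 47) + (num (-57) * (var 1))) * (var 3))
  den := ((num 100))
  vn := num 2 * (((num 47) + (num (-103) * (var 1))) + ((num 47) + (num (-57) * (var 1))) * (var 3))
  vs := (num 1 - num 2 * (var 0) - (var 0) * (var 2))
  mu := ⟨(97, 50), (154, 50)⟩
  pn := fun b => cond b
    (num 50 * (((num 100)) - (((num 47) + (num (-103) * (var 1))) + ((num 47) + (num (-57) * (var 1))) * (var 3))) + num (-154) * ((((num 47) + (num (-103) * (var 1))) + ((num 47) + (num (-57) * (var 1))) * (var 3)) * ((var 0) * (var 1))))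
    (num 50 * (((num 100)) - (((num 47) + (num (-103) * (var 1))) + ((num 47) + (num (-57) * (var 1))) * (var 3))) + num (-97) * ((((num 47) + (num (-103) * (var 1))) + ((num 47) + (num (-57) * (var 1))) * (var 3)) * ((var 0) * (var 1))))
  pd := num 50
  en := fun b => cond b
    (((num 32163) + (num 66108 * (var 0))) * (num 4 * (var 0) * (((num 100)) - (((num 47) + (num (-103) * (var 1))) + ((num 47) + (num (-57) * (var 1))) * (var 3))) * ((var 2) + num 3 * (var 0)) + (var 1) * ((num 100)) * (num 1 + num 20 * ((var 0) * (var 2)))))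
    (((num 26823) + (num 66108 * (var 0))) * (num 4 * (var 0) * (((num 100)) - (((num 47) + (num (-103) * (var 1))) + ((num 47) + (num (-57) * (var 1))) * (var 3))) * ((var 2) + num 3 * (var 0)) + (var 1) * ((num 100)) * (num 1 + num 20 * ((var 0) * (var 2)))))
  kk := fun b => cond b
    (((num 5146) + (num 18872 * (var 2))) * (((var 0) * (var 1)) * (num 4 * ((num 100)) * ((var 2) + num 3 * (var 0)))))
    (((num (-1332)) + (num 18872 * (var 2))) * (((var 0) * (var 1)) * (num 4 * ((num 100)) * ((var 2) + num 3 * (var 0)))))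
  f0 := num 8000 * ((num 100)) * ((var 2) + num 3 * (var 0))
  wn := fun b => cond b
    (((num (-10745) * ((var 0) * (((num 100)) - (((num 47) + (num (-103) * (var 1))) + ((num 47) + (num (-57) * (var 1))) * (var 3))))) + (num 21162 * (((var 0) * (var 1)) * (((num 47) + (num (-103) * (var 1))) + ((num 47) + (num (-57) * (var 1))) * (var 3)))) + (num (-6845) * (((var 0) * (var 1)) * ((num 100)))) + (num 1427 * ((var 0) * (var 2) * (((num 100)) - (((num 47) + (num (-103) * (var 1))) + ((num 47) + (num (-57) * (var 1))) * (var 3)))))))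
    (((num (-11811) * ((var 0) * (((num 100)) - (((num 47) + (num (-103) * (var 1))) + ((num 47) + (num (-57) * (var 1))) * (var 3))))) + (num 21162 * (((var 0) * (var 1)) * (((num 47) + (num (-103) * (var 1))) + ((num 47) + (num (-57) * (var 1))) * (var 3)))) + (num (-7911) * (((var 0) * (var 1)) * ((num 100)))) + (num 1427 * ((var 0) * (var 2) * (((num 100)) - (((num 47) + (num (-103) * (var 1))) + ((num 47) + (num (-57) * (var 1))) * (var 3)))))))
  wd := num 1000 * ((num 100))
  tn := fun b => cond b
    (num 10731 * ((var 1) * ((num 100))))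
    (num 8554 * ((var 1) * ((num 100))))
  td := num 8000 * ((var 1) * ((num 100)) + num 2 * (var 2) * (((num 100)) - (((num 47) + (num (-103) * (var 1))) + ((num 47) + (num (-57) * (var 1))) * (var 3))))
  cn := num 0
  cd := num 1
  kn := ((num 100)) * ((num 411) + (num (-518) * (var 0)) + (num 519 * (var 1)) + (num (-13) * (var 2)) + (num (-651) * (var 3)) + (num (-1522) * ((var 1) * (var 3))) + (num 391 * ((var 2) * (var 3))) + (num 6024 * ((var 0) * (var 3))))
  kd := num 128 * (((num 100)) - (((num 47) + (num (-103) * (var 1))) + ((num 47) + (num (-57) * (var 1))) * (var 3)))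
  k2n := ((num (-795)) + (num 5128 * (var 0)) + (num 1159 * (var 2)))
  k2d := num 512

/-- Its ranges. -/
def bxIz238 : StripEnd.EBox :=
  ⟨(4, 5, 40), (2, 15, 100), (75, 89, 100), (0, 1, 1)⟩

end Vale.Agent.P100.Calib.StripEndD
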