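import Vale.Agent.P100.Calib.SlabStripEndIZ7P240
import Vale.Agent.P100.Calib.SlabStripEndDCert
import Vale.Agent.P100.Calib.SlabStripEndBig
import Vale.Agent.P100.Calib.SlabStripEndIZ7G240

/-!
# The checks of the piece 240
-/

namespace Vale.Agent.P100.Calib.StripEndD

open Pack hiding ev_add ev_mul
open Pack.Ex StripMid StripEnd

local instance endIZ7K240Add : Add Ex := ⟨Ex.add⟩
local instance endIZ7K240Sub : Sub Ex := ⟨Ex.sub⟩
local instance endIZ7K240Mul : Mul Ex := ⟨Ex.mul⟩

/-- **The certificate of `pcIz240`.** -/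
theorem certIz240 : Cert pcIz240 bxIz240 := by
  have h_kn : checkBig bxIz240.C 29 1 0 1 1
      pcIz240.kn = true := by decide +kernel
  have h_k2n : checkBig bxIz240.C 171 3 3 3 1
      (strictVar pcIz240.k2n) = true := by decide +kernel
  have h_k2d : checkBig bxIz240.C 164 3 3 3 0
      (strictVar pcIz240.k2d) = true := by decide +kernel
  have h_vs : checkBig bxIz240.C 159 3 3 3 0
      (strictVar pcIz240.vs) = true := by decide +kernel
  have h_g1 : ∀ s p l : Bool, checkBig bxIz240.C 220 8 0 6 5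
      (pcIz240.at ⟨p, l, !s, !s, false⟩ (c1 s)) = true := by decide +kernel
  have h_g2 := certIz240_g2
  have h_g5 : ∀ s p l t : Bool, checkBig bxIz240.C 532 16 0 13 9
      (pcIz240.at ⟨p, l, true, true, t⟩ (StripEnd.strict (c5 s))) = true := by decide +kernel
  have h_gMG : ∀ p l t : Bool, checkBig bxIz240.C 409 15 0 11 8
      (pcIz240.at ⟨p, l, true, false, t⟩ tplMG) = true := by decide +kernel
  have h_v2 : ∀ s : Bool, checkBig bxIz240.C 150 6 0 6 4
      (pcIz240.at ⟨false, false, true, true, false⟩ (curve2 s)) = true := by decide +kernel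
  have h_v5 : ∀ s : Bool, checkBig bxIz240.C 161 7 0 7 4
      (pcIz240.at ⟨false, false, true, true, false⟩ (curve5 s)) = true := by decide +kernel
  have h_vMG : checkBig bxIz240.C 137 6 0 6 4
      (pcIz240.at ⟨false, false, true, true, false⟩ Piece.curveMG) = true := by decide +kernel
  have h_wP : ∀ b q : Bool, checkBig bxIz240.C 52 1 1 0 1
      (pcIz240.winP b q) = true := by decide +kernel
  have h_wE : ∀ b q : Bool, checkBig bxIz240.C 247 12 2 9 3
      (pcIz240.winE b q) = true := by decide +kernel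
  have h_wK : ∀ b q : Bool, checkBig bxIz240.C 227 12 2 8 3
      (pcIz240.winK b q) = true := by decide +kernel
  have h_wT : ∀ b q : Bool, checkBig bxIz240.C 192 8 2 6 4
      (pcIz240.winT b q) = true := by decide +kernel
  have h_wW : ∀ b : Bool, checkBig bxIz240.C 174 8 2 4 3
      (pcIz240.winW b) = true := by decide +kernel
  have h_wY : ∀ b : Bool, checkBig bxIz240.C 388 18 3 13 6
      (pcIz240.winY b) = true := by decide +kernel
  have h_gap : ∀ b q : Bool, checkBig bxIz240.C 454 23 3 17 6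
      (pcIz240.gap b q) = true := by decide +kernel
  exact {
    pos := ⟨⟨by decide, by decide⟩⟩
    low := by decide
    sgns := fun f => by
      cases f
      · exact ⟨155, 3, 3, 3, 0, by decide +kernel⟩
      · exact ⟨155, 3, 3, 3, 0, by decide +kernel⟩
      · exact ⟨159, 3, 3, 3, 0, by decide +kernel⟩
      · exact ⟨159, 3, 3, 3, 0, by decide +kernel⟩
      · exact ⟨158, 3, 3, 3, 0, by decide +kernel⟩
      · exact ⟨167, 3, 3, 3, 0, by decide +kernel⟩
      · exact ⟨168, 3, 3, 3, 1, by decide +kernel⟩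
      · exact ⟨169, 3, 3, 3, 1, by decide +kernel⟩
      · exact ⟨174, 3, 3, 3, 0, by decide +kernel⟩
      · exact ⟨181, 3, 3, 3, 1, by decide +kernel⟩
      · exact ⟨178, 3, 3, 3, 0, by decide +kernel⟩
      · exact ⟨177, 3, 3, 3, 0, by decide +kernel⟩
      · exact ⟨180, 3, 3, 3, 0, by decide +kernel⟩
      · exact ⟨158, 3, 3, 3, 0, by decide +kernel⟩
      · exact ⟨162, 3, 3, 3, 0, by decide +kernel⟩
    kn := ⟨_, _, _, _, _, checkFour_of_big h_kn⟩
    k2n := ⟨_, _, _, _, _, checkFour_of_big h_k2n⟩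
    k2d := ⟨_, _, _, _, _, checkFour_of_big h_k2d⟩
    vs := ⟨_, _, _, _, _, checkFour_of_big h_vs⟩
    g1 := fun s p l => ⟨_, _, _, _, _, checkFour_of_big (h_g1 s p l)⟩
    g2 := fun s p l t => ⟨_, _, _, _, _, checkFour_of_big (h_g2 s p l t)⟩
    g5 := fun s p l t => ⟨_, _, _, _, _, checkFour_of_big (h_g5 s p l t)⟩
    gMG := fun p l t => ⟨_, _, _, _, _, checkFour_of_big (h_gMG p l t)⟩
    v2 := fun s => ⟨_, _, _, _, _, checkFour_of_big (h_v2 s)⟩
    v5 := fun s => ⟨_, _, _, _, _, checkFour_of_big (h_v5 s)⟩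
    vMG := ⟨_, _, _, _, _, checkFour_of_big h_vMG⟩
    wP := fun b q => ⟨_, _, _, _, _, checkFour_of_big (h_wP b q)⟩
    wE := fun b q => ⟨_, _, _, _, _, checkFour_of_big (h_wE b q)⟩
    wK := fun b q => ⟨_, _, _, _, _, checkFour_of_big (h_wK b q)⟩
    wT := fun b q => ⟨_, _, _, _, _, checkFour_of_big (h_wT b q)⟩
    wW := fun b => ⟨_, _, _, _, _, checkFour_of_big (h_wW b)⟩
    wY := fun b => ⟨_, _, _, _, _, checkFour_of_big (h_wY b)⟩
    gap := fun b q => ⟨_, _, _, _, _, checkFour_of_big (h_gap b q)⟩ }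

end Vale.Agent.P100.Calib.StripEndD
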