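import Vale.Agent.P100.Calib.SlabStripEndDExpr
import Vale.Agent.P100.Calib.SlabStripEndCert

/-!
# The piece 243 of the strip for `u` near one at small `d / I`
-/

namespace Vale.Agent.P100.Calib.StripEndD

open Pack hiding ev_add ev_mul
open Pack.Ex StripMid StripEnd

local instance endIZ7P243Add : Add Ex := ⟨Ex.add⟩
local instance endIZ7P243Sub : Sub Ex := ⟨Ex.sub⟩
local instance endIZ7P243Mul : Mul Ex := ⟨Ex.mul⟩

/-- The piece `Iz243`. -/
def pcIz243 : Piece where
  I := (var 0)
  d := (var 0) * (var 2)
  w := ((var 0) * (var 1))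
  o := (((num 239) + (num (-564) * (var 1))) + ((num 250) + (num (-1717) * (var 1))) * (var 3))
  den := ((num 500))
  vn := num 2 * (((num 239) + (num (-564) * (var 1))) + ((num 250) + (num (-1717) * (var 1))) * (var 3))
  vs := (num 1 - num 2 * (var 0) - (var 0) * (var 2))
  mu := ⟨(116, 50), (161, 50)⟩
  pn := fun b => cond b
    (num 50 * (((num 500)) - (((num 239) + (num (-564) * (var 1))) + ((num 250) + (num (-1717) * (var 1))) * (var 3))) + num (-161) * ((((num 239) + (num (-564) * (var 1))) + ((num 250) + (num (-1717) * (var 1))) * (var 3)) * ((var 0) * (var 1))))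
    (num 50 * (((num 500)) - (((num 239) + (num (-564) * (var 1))) + ((num 250) + (num (-1717) * (var 1))) * (var 3))) + num (-116) * ((((num 239) + (num (-564) * (var 1))) + ((num 250) + (num (-1717) * (var 1))) * (var 3)) * ((var 0) * (var 1))))
  pd := num 50
  en := fun b => cond b
    (((num 36952) + (num 25468 * (var 0))) * (num 4 * (var 0) * (((num 500)) - (((num 239) + (num (-564) * (var 1))) + ((num 250) + (num (-1717) * (var 1))) * (var 3))) * ((var 2) + num 3 * (var 0)) + (var 1) * ((num 500)) * (num 1 + num 20 * ((var 0) * (var 2)))))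
    (((num 32939) + (num 25468 * (var 0))) * (num 4 * (var 0) * (((num 500)) - (((num 239) + (num (-564) * (var 1))) + ((num 250) + (num (-1717) * (var 1))) * (var 3))) * ((var 2) + num 3 * (var 0)) + (var 1) * ((num 500)) * (num 1 + num 20 * ((var 0) * (var 2)))))
  kk := fun b => cond b
    (((num 2575) + (num 24104 * (var 2))) * (((var 0) * (var 1)) * (num 4 * ((num 500)) * ((var 2) + num 3 * (var 0)))))
    (((num (-1555)) + (num 24104 * (var 2))) * (((var 0) * (var 1)) * (num 4 * ((num 500)) * ((var 2) + num 3 * (var 0)))))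
  f0 := num 8000 * ((num 500)) * ((var 2) + num 3 * (var 0))
  wn := fun b => cond b
    (((num (-11217) * ((var 0) * (((num 500)) - (((num 239) + (num (-564) * (var 1))) + ((num 250) + (num (-1717) * (var 1))) * (var 3))))) + (num 50942 * (((var 0) * (var 1)) * (((num 239) + (num (-564) * (var 1))) + ((num 250) + (num (-1717) * (var 1))) * (var 3)))) + (num (-29670) * (((var 0) * (var 1)) * ((num 500)))) + (num 1826 * ((var 0) * (var 2) * (((num 500)) - (((num 239) + (num (-564) * (var 1))) + ((num 250) + (num (-1717) * (var 1))) * (var 3)))))))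
    (((num (-12339) * ((var 0) * (((num 500)) - (((num 239) + (num (-564) * (var 1))) + ((num 250) + (num (-1717) * (var 1))) * (var 3))))) + (num 50942 * (((var 0) * (var 1)) * (((num 239) + (num (-564) * (var 1))) + ((num 250) + (num (-1717) * (var 1))) * (var 3)))) + (num (-30792) * (((var 0) * (var 1)) * ((num 500)))) + (num 1826 * ((var 0) * (var 2) * (((num 500)) - (((num 239) + (num (-564) * (var 1))) + ((num 250) + (num (-1717) * (var 1))) * (var 3)))))))
  wd := num 1000 * ((num 500))
  tn := fun b => cond b
    (num 11004 * ((var 1) * ((num 500))))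
    (num 8950 * ((var 1) * ((num 500))))
  td := num 8000 * ((var 1) * ((num 500)) + num 2 * (var 2) * (((num 500)) - (((num 239) + (num (-564) * (var 1))) + ((num 250) + (num (-1717) * (var 1))) * (var 3))))
  cn := num 0
  cd := num 1
  kn := ((num 500)) * ((num 239) + (num (-562) * (var 0)) + (num 4279 * (var 1)) + (num (-148) * (var 2)) + (num (-301) * (var 3)) + (num 6578 * ((var 1) * (var 3))) + (num 60 * ((var 2) * (var 3))) + (num 1725 * ((var 0) * (var 3))))
  kd := num 32 * (((num 500)) - (((num 239) + (num (-564) * (var 1))) + ((num 250) + (num (-1717) * (var 1))) * (var 3)))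
  k2n := ((num 233) + (num (-791) * (var 0)) + (num (-4762) * (var 1)) + (num 537 * (var 2)) + (num (-376) * (var 3)) + (num 4808 * ((var 1) * (var 3))) + (num (-376) * ((var 2) * (var 3))) + (num 1301 * ((var 0) * (var 3))))
  k2d := num 256

/-- Its ranges. -/
def bxIz243 : StripEnd.EBox :=
  ⟨(43, 44, 320), (5, 16, 800), (75, 83, 100), (0, 1, 1)⟩

end Vale.Agent.P100.Calib.StripEndD
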