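import Vale.Agent.P100.Calib.SlabStripEndDExpr
import Vale.Agent.P100.Calib.SlabStripEndCert

/-!
# The piece 244 of the strip for `u` near one at small `d / I`
-/

namespace Vale.Agent.P100.Calib.StripEndD

open Pack hiding ev_add ev_mul
open Pack.Ex StripMid StripEnd

local instance endIZ7P244Add : Add Ex := ⟨Ex.add⟩
local instance endIZ7P244Sub : Sub Ex := ⟨Ex.sub⟩
local instance endIZ7P244Mul : Mul Ex := ⟨Ex.mul⟩

/-- The piece `Iz244`. -/
def pcIz244 : Piece where
  I := (var 0)
  d := (var 0) * (var 2)
  w := ((var 0) * (var 1))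
  o := (((num 31) + (num (-15) * (var 1))) + ((num 43) + (num (-21) * (var 1))) * (var 3))
  den := ((num 100))
  vn := num 2 * (((num 31) + (num (-15) * (var 1))) + ((num 43) + (num (-21) * (var 1))) * (var 3))
  vs := (num 1 - num 2 * (var 0) - (var 0) * (var 2))
  mu := ⟨(90, 50), (155, 50)⟩
  pn := fun b => cond b
    (num 50 * (((num 100)) - (((num 31) + (num (-15) * (var 1))) + ((num 43) + (num (-21) * (var 1))) * (var 3))) + num (-155) * ((((num 31) + (num (-15) * (var 1))) + ((num 43) + (num (-21) * (var 1))) * (var 3)) * ((var 0) * (var 1))))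
    (num 50 * (((num 100)) - (((num 31) + (num (-15) * (var 1))) + ((num 43) + (num (-21) * (var 1))) * (var 3))) + num (-90) * ((((num 31) + (num (-15) * (var 1))) + ((num 43) + (num (-21) * (var 1))) * (var 3)) * ((var 0) * (var 1))))
  pd := num 50
  en := fun b => cond b
    (((num 31555) + (num 67426 * (var 0))) * (num 4 * (var 0) * (((num 100)) - (((num 31) + (num (-15) * (var 1))) + ((num 43) + (num (-21) * (var 1))) * (var 3))) * ((var 2) + num 3 * (var 0)) + (var 1) * ((num 100)) * (num 1 + num 20 * ((var 0) * (var 2)))))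
    (((num 25397) + (num 67426 * (var 0))) * (num 4 * (var 0) * (((num 100)) - (((num 31) + (num (-15) * (var 1))) + ((num 43) + (num (-21) * (var 1))) * (var 3))) * ((var 2) + num 3 * (var 0)) + (var 1) * ((num 100)) * (num 1 + num 20 * ((var 0) * (var 2)))))
  kk := fun b => cond b
    (((num 4791) + (num 20550 * (var 2))) * (((var 0) * (var 1)) * (num 4 * ((num 100)) * ((var 2) + num 3 * (var 0)))))
    (((num (-880)) + (num 20550 * (var 2))) * (((var 0) * (var 1)) * (num 4 * ((num 100)) * ((var 2) + num 3 * (var 0)))))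
  f0 := num 8000 * ((num 100)) * ((var 2) + num 3 * (var 0))
  wn := fun b => cond b
    (((num (-12379) * ((var 0) * (((num 100)) - (((num 31) + (num (-15) * (var 1))) + ((num 43) + (num (-21) * (var 1))) * (var 3))))) + (num 20670 * (((var 0) * (var 1)) * (((num 31) + (num (-15) * (var 1))) + ((num 43) + (num (-21) * (var 1))) * (var 3)))) + (num (-3941) * (((var 0) * (var 1)) * ((num 100)))) + (num 2104 * ((var 0) * (var 2) * (((num 100)) - (((num 31) + (num (-15) * (var 1))) + ((num 43) + (num (-21) * (var 1))) * (var 3)))))))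
    (((num (-13359) * ((var 0) * (((num 100)) - (((num 31) + (num (-15) * (var 1))) + ((num 43) + (num (-21) * (var 1))) * (var 3))))) + (num 20670 * (((var 0) * (var 1)) * (((num 31) + (num (-15) * (var 1))) + ((num 43) + (num (-21) * (var 1))) * (var 3)))) + (num (-4921) * (((var 0) * (var 1)) * ((num 100)))) + (num 2104 * ((var 0) * (var 2) * (((num 100)) - (((num 31) + (num (-15) * (var 1))) + ((num 43) + (num (-21) * (var 1))) * (var 3)))))))
  wd := num 1000 * ((num 100))
  tn := fun b => cond b
    (num 10861 * ((var 1) * ((num 100))))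
    (num 8664 * ((var 1) * ((num 100))))
  td := num 8000 * ((var 1) * ((num 100)) + num 2 * (var 2) * (((num 100)) - (((num 31) + (num (-15) * (var 1))) + ((num 43) + (num (-21) * (var 1))) * (var 3))))
  cn := num 0
  cd := num 1
  kn := ((num 100) + (num 489 * (var 0)) + (num (-4) * (var 1)) + (num (-47) * (var 2)) + (num (-461) * (var 3)) + (num (-367) * ((var 1) * (var 3))) + (num 417 * ((var 2) * (var 3))) + (num 4021 * ((var 0) * (var 3))))
  kd := num 32
  k2n := ((num (-1606)) + (num 6214 * (var 0)) + (num 2083 * (var 2)))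
  k2d := num 1024

/-- Its ranges. -/
def bxIz244 : StripEnd.EBox :=
  ⟨(20, 23, 160), (3, 8, 20), (75, 89, 100), (0, 1, 1)⟩

end Vale.Agent.P100.Calib.StripEndD
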