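import Vale.Agent.P100.Calib.SlabStripEndDExpr
import Vale.Agent.P100.Calib.SlabStripEndCert

/-!
# The piece 246 of the strip for `u` near one at small `d / I`
-/

namespace Vale.Agent.P100.Calib.StripEndD

open Pack hiding ev_add ev_mul
open Pack.Ex StripMid StripEnd

local instance endIZ7P246Add : Add Ex := ⟨Ex.add⟩
local instance endIZ7P246Sub : Sub Ex := ⟨Ex.sub⟩
local instance endIZ7P246Mul : Mul Ex := ⟨Ex.mul⟩

/-- The piece `Iz246`. -/
def pcIz246 : Piece where
  I := (var 0)
  d := (var 0) * (var 2)
  w := ((var 0) * (var 1))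
  o := (((num 37) + (num (-9) * (var 1))) + ((num 57) + (num (-25) * (var 1))) * (var 3))
  den := ((num 100) + (num 50 * (var 1)))
  vn := num 2 * (((num 37) + (num (-9) * (var 1))) + ((num 57) + (num (-25) * (var 1))) * (var 3))
  vs := (num 1 - num 2 * (var 0) - (var 0) * (var 2))
  mu := ⟨(98, 50), (141, 50)⟩
  pn := fun b => cond b
    (num 50 * (((num 100) + (num 50 * (var 1))) - (((num 37) + (num (-9) * (var 1))) + ((num 57) + (num (-25) * (var 1))) * (var 3))) + num (-141) * ((((num 37) + (num (-9) * (var 1))) + ((num 57) + (num (-25) * (var 1))) * (var 3)) * ((var 0) * (var 1))))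
    (num 50 * (((num 100) + (num 50 * (var 1))) - (((num 37) + (num (-9) * (var 1))) + ((num 57) + (num (-25) * (var 1))) * (var 3))) + num (-98) * ((((num 37) + (num (-9) * (var 1))) + ((num 57) + (num (-25) * (var 1))) * (var 3)) * ((var 0) * (var 1))))
  pd := num 50
  en := fun b => cond b
    (((num 29473) + (num 83306 * (var 0))) * (num 4 * (var 0) * (((num 100) + (num 50 * (var 1))) - (((num 37) + (num (-9) * (var 1))) + ((num 57) + (num (-25) * (var 1))) * (var 3))) * ((var 2) + num 3 * (var 0)) + (var 1) * ((num 100) + (num 50 * (var 1))) * (num 1 + num 20 * ((var 0) * (var 2)))))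
    (((num 25622) + (num 83306 * (var 0))) * (num 4 * (var 0) * (((num 100) + (num 50 * (var 1))) - (((num 37) + (num (-9) * (var 1))) + ((num 57) + (num (-25) * (var 1))) * (var 3))) * ((var 2) + num 3 * (var 0)) + (var 1) * ((num 100) + (num 50 * (var 1))) * (num 1 + num 20 * ((var 0) * (var 2)))))
  kk := fun b => cond b
    (((num 5382) + (num 14708 * (var 2))) * (((var 0) * (var 1)) * (num 4 * ((num 100) + (num 50 * (var 1))) * ((var 2) + num 3 * (var 0)))))
    (((num (-142)) + (num 14708 * (var 2))) * (((var 0) * (var 1)) * (num 4 * ((num 100) + (num 50 * (var 1))) * ((var 2) + num 3 * (var 0)))))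
  f0 := num 8000 * ((num 100) + (num 50 * (var 1))) * ((var 2) + num 3 * (var 0))
  wn := fun b => cond b
    (((num (-9954) * ((var 0) * (((num 100) + (num 50 * (var 1))) - (((num 37) + (num (-9) * (var 1))) + ((num 57) + (num (-25) * (var 1))) * (var 3))))) + (num 15276 * (((var 0) * (var 1)) * (((num 37) + (num (-9) * (var 1))) + ((num 57) + (num (-25) * (var 1))) * (var 3)))) + (num (-4611) * (((var 0) * (var 1)) * ((num 100) + (num 50 * (var 1))))) + (num 1042 * ((var 0) * (var 2) * (((num 100) + (num 50 * (var 1))) - (((num 37) + (num (-9) * (var 1))) + ((num 57) + (num (-25) * (var 1))) * (var 3)))))))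
    (((num (-11139) * ((var 0) * (((num 100) + (num 50 * (var 1))) - (((num 37) + (num (-9) * (var 1))) + ((num 57) + (num (-25) * (var 1))) * (var 3))))) + (num 15276 * (((var 0) * (var 1)) * (((num 37) + (num (-9) * (var 1))) + ((num 57) + (num (-25) * (var 1))) * (var 3)))) + (num (-5796) * (((var 0) * (var 1)) * ((num 100) + (num 50 * (var 1))))) + (num 1042 * ((var 0) * (var 2) * (((num 100) + (num 50 * (var 1))) - (((num 37) + (num (-9) * (var 1))) + ((num 57) + (num (-25) * (var 1))) * (var 3)))))))
  wd := num 1000 * ((num 100) + (num 50 * (var 1)))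
  tn := fun b => cond b
    (num 10243 * ((var 1) * ((num 100) + (num 50 * (var 1)))))
    (num 8324 * ((var 1) * ((num 100) + (num 50 * (var 1)))))
  td := num 8000 * ((var 1) * ((num 100) + (num 50 * (var 1))) + num 2 * (var 2) * (((num 100) + (num 50 * (var 1))) - (((num 37) + (num (-9) * (var 1))) + ((num 57) + (num (-25) * (var 1))) * (var 3))))
  cn := num 0
  cd := num 1
  kn := ((num 100) + (num 50 * (var 1))) * ((num 1011) + (num (-720) * (var 0)) + (num 2027 * (var 1)) + (num (-507) * (var 2)) + (num (-148) * (var 3)) + (num (-2652) * ((var 1) * (var 3))) + (num 195 * ((var 2) * (var 3))) + (num 7287 * ((var 0) * (var 3))))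
  kd := num 256 * (((num 100) + (num 50 * (var 1))) - (((num 37) + (num (-9) * (var 1))) + ((num 57) + (num (-25) * (var 1))) * (var 3)))
  k2n := ((num 529) + (num (-7177) * (var 0)) + (num 4418 * (var 2)))
  k2d := num 2048

/-- Its ranges. -/
def bxIz246 : StripEnd.EBox :=
  ⟨(3, 4, 40), (2, 15, 100), (15, 19, 20), (0, 1, 1)⟩

end Vale.Agent.P100.Calib.StripEndD
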