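import Vale.Agent.P100.Calib.SlabStripEndDExpr
import Vale.Agent.P100.Calib.SlabStripEndCert

/-!
# The piece 247 of the strip for `u` near one at small `d / I`
-/

namespace Vale.Agent.P100.Calib.StripEndD

open Pack hiding ev_add ev_mul
open Pack.Ex StripMid StripEnd

local instance endIZ7P247Add : Add Ex := ⟨Ex.add⟩
local instance endIZ7P247Sub : Sub Ex := ⟨Ex.sub⟩
local instance endIZ7P247Mul : Mul Ex := ⟨Ex.mul⟩

/-- The piece `Iz247`. -/
def pcIz247 : Piece where
  I := (var 0)
  d := (var 0) * (var 2)
  w := ((var 0) * (var 1))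
  o := (((num 37) + (num (-9) * (var 1))) + ((num 57) + (num (-25) * (var 1))) * (var 3))
  den := ((num 100) + (num 50 * (var 1)))
  vn := num 2 * (((num 37) + (num (-9) * (var 1))) + ((num 57) + (num (-25) * (var 1))) * (var 3))
  vs := (num 1 - num 2 * (var 0) - (var 0) * (var 2))
  mu := ⟨(84, 50), (131, 50)⟩
  pn := fun b => cond b
    (num 50 * (((num 100) + (num 50 * (var 1))) - (((num 37) + (num (-9) * (var 1))) + ((num 57) + (num (-25) * (var 1))) * (var 3))) + num (-131) * ((((num 37) + (num (-9) * (var 1))) + ((num 57) + (num (-25) * (var 1))) * (var 3)) * ((var 0) * (var 1))))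
    (num 50 * (((num 100) + (num 50 * (var 1))) - (((num 37) + (num (-9) * (var 1))) + ((num 57) + (num (-25) * (var 1))) * (var 3))) + num (-84) * ((((num 37) + (num (-9) * (var 1))) + ((num 57) + (num (-25) * (var 1))) * (var 3)) * ((var 0) * (var 1))))
  pd := num 50
  en := fun b => cond b
    (((num 28023) + (num 88898 * (var 0))) * (num 4 * (var 0) * (((num 100) + (num 50 * (var 1))) - (((num 37) + (num (-9) * (var 1))) + ((num 57) + (num (-25) * (var 1))) * (var 3))) * ((var 2) + num 3 * (var 0)) + (var 1) * ((num 100) + (num 50 * (var 1))) * (num 1 + num 20 * ((var 0) * (var 2)))))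
    (((num 23408) + (num 88898 * (var 0))) * (num 4 * (var 0) * (((num 100) + (num 50 * (var 1))) - (((num 37) + (num (-9) * (var 1))) + ((num 57) + (num (-25) * (var 1))) * (var 3))) * ((var 2) + num 3 * (var 0)) + (var 1) * ((num 100) + (num 50 * (var 1))) * (num 1 + num 20 * ((var 0) * (var 2)))))
  kk := fun b => cond b
    (((num 4989) + (num 12688 * (var 2))) * (((var 0) * (var 1)) * (num 4 * ((num 100) + (num 50 * (var 1))) * ((var 2) + num 3 * (var 0)))))
    (((num 1468) + (num 12688 * (var 2))) * (((var 0) * (var 1)) * (num 4 * ((num 100) + (num 50 * (var 1))) * ((var 2) + num 3 * (var 0)))))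
  f0 := num 8000 * ((num 100) + (num 50 * (var 1))) * ((var 2) + num 3 * (var 0))
  wn := fun b => cond b
    (((num (-10517) * ((var 0) * (((num 100) + (num 50 * (var 1))) - (((num 37) + (num (-9) * (var 1))) + ((num 57) + (num (-25) * (var 1))) * (var 3))))) + (num 10351 * (((var 0) * (var 1)) * (((num 37) + (num (-9) * (var 1))) + ((num 57) + (num (-25) * (var 1))) * (var 3)))) + (num (-903) * (((var 0) * (var 1)) * ((num 100) + (num 50 * (var 1))))) + (num 1140 * ((var 0) * (var 2) * (((num 100) + (num 50 * (var 1))) - (((num 37) + (num (-9) * (var 1))) + ((num 57) + (num (-25) * (var 1))) * (var 3)))))))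
    (((num (-11109) * ((var 0) * (((num 100) + (num 50 * (var 1))) - (((num 37) + (num (-9) * (var 1))) + ((num 57) + (num (-25) * (var 1))) * (var 3))))) + (num 10351 * (((var 0) * (var 1)) * (((num 37) + (num (-9) * (var 1))) + ((num 57) + (num (-25) * (var 1))) * (var 3)))) + (num (-1495) * (((var 0) * (var 1)) * ((num 100) + (num 50 * (var 1))))) + (num 1140 * ((var 0) * (var 2) * (((num 100) + (num 50 * (var 1))) - (((num 37) + (num (-9) * (var 1))) + ((num 57) + (num (-25) * (var 1))) * (var 3)))))))
  wd := num 1000 * ((num 100) + (num 50 * (var 1)))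
  tn := fun b => cond b
    (num 9822 * ((var 1) * ((num 100) + (num 50 * (var 1)))))
    (num 8403 * ((var 1) * ((num 100) + (num 50 * (var 1)))))
  td := num 8000 * ((var 1) * ((num 100) + (num 50 * (var 1))) + num 2 * (var 2) * (((num 100) + (num 50 * (var 1))) - (((num 37) + (num (-9) * (var 1))) + ((num 57) + (num (-25) * (var 1))) * (var 3))))
  cn := num 0
  cd := num 1
  kn := ((num 263) + (num 2154 * (var 0)) + (num (-136) * (var 1)) + (num (-114) * (var 2)) + (num 1003 * (var 3)) + (num (-1981) * ((var 1) * (var 3))) + (num 602 * ((var 2) * (var 3))) + (num 7351 * ((var 0) * (var 3))))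
  kd := num 128
  k2n := ((num (-546)) + (num 4348 * (var 0)) + (num 587 * (var 2)))
  k2d := num 512

/-- Its ranges. -/
def bxIz247 : StripEnd.EBox :=
  ⟨(6, 7, 80), (3, 20, 20), (15, 19, 20), (0, 1, 1)⟩

end Vale.Agent.P100.Calib.StripEndD
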