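import Vale.Agent.P100.Calib.SlabStripEndDExpr
import Vale.Agent.P100.Calib.SlabStripEndCert

/-!
# The piece 249 of the strip for `u` near one at small `d / I`
-/

namespace Vale.Agent.P100.Calib.StripEndD

open Pack hiding ev_add ev_mul
open Pack.Ex StripMid StripEnd

local instance endIZ7P249Add : Add Ex := ⟨Ex.add⟩
local instance endIZ7P249Sub : Sub Ex := ⟨Ex.sub⟩
local instance endIZ7P249Mul : Mul Ex := ⟨Ex.mul⟩

/-- The piece `Iz249`. -/
def pcIz249 : Piece where
  I := (var 0)
  d := (var 0) * (var 2)
  w := ((var 0) * (var 1))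
  o := (((num 37) + (num (-9) * (var 1))) + ((num 57) + (num (-25) * (var 1))) * (var 3))
  den := ((num 100) + (num 50 * (var 1)))
  vn := num 2 * (((num 37) + (num (-9) * (var 1))) + ((num 57) + (num (-25) * (var 1))) * (var 3))
  vs := (num 1 - num 2 * (var 0) - (var 0) * (var 2))
  mu := ⟨(94, 50), (138, 50)⟩
  pn := fun b => cond b
    (num 50 * (((num 100) + (num 50 * (var 1))) - (((num 37) + (num (-9) * (var 1))) + ((num 57) + (num (-25) * (var 1))) * (var 3))) + num (-138) * ((((num 37) + (num (-9) * (var 1))) + ((num 57) + (num (-25) * (var 1))) * (var 3)) * ((var 0) * (var 1))))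
    (num 50 * (((num 100) + (num 50 * (var 1))) - (((num 37) + (num (-9) * (var 1))) + ((num 57) + (num (-25) * (var 1))) * (var 3))) + num (-94) * ((((num 37) + (num (-9) * (var 1))) + ((num 57) + (num (-25) * (var 1))) * (var 3)) * ((var 0) * (var 1))))
  pd := num 50
  en := fun b => cond b
    (((num 28619) + (num 88346 * (var 0))) * (num 4 * (var 0) * (((num 100) + (num 50 * (var 1))) - (((num 37) + (num (-9) * (var 1))) + ((num 57) + (num (-25) * (var 1))) * (var 3))) * ((var 2) + num 3 * (var 0)) + (var 1) * ((num 100) + (num 50 * (var 1))) * (num 1 + num 20 * ((var 0) * (var 2)))))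
    (((num 24072) + (num 88346 * (var 0))) * (num 4 * (var 0) * (((num 100) + (num 50 * (var 1))) - (((num 37) + (num (-9) * (var 1))) + ((num 57) + (num (-25) * (var 1))) * (var 3))) * ((var 2) + num 3 * (var 0)) + (var 1) * ((num 100) + (num 50 * (var 1))) * (num 1 + num 20 * ((var 0) * (var 2)))))
  kk := fun b => cond b
    (((num 4035) + (num 15580 * (var 2))) * (((var 0) * (var 1)) * (num 4 * ((num 100) + (num 50 * (var 1))) * ((var 2) + num 3 * (var 0)))))
    (((num 783) + (num 15580 * (var 2))) * (((var 0) * (var 1)) * (num 4 * ((num 100) + (num 50 * (var 1))) * ((var 2) + num 3 * (var 0)))))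
  f0 := num 8000 * ((num 100) + (num 50 * (var 1))) * ((var 2) + num 3 * (var 0))
  wn := fun b => cond b
    (((num (-11236) * ((var 0) * (((num 100) + (num 50 * (var 1))) - (((num 37) + (num (-9) * (var 1))) + ((num 57) + (num (-25) * (var 1))) * (var 3))))) + (num 12753 * (((var 0) * (var 1)) * (((num 37) + (num (-9) * (var 1))) + ((num 57) + (num (-25) * (var 1))) * (var 3)))) + (num (-1849) * (((var 0) * (var 1)) * ((num 100) + (num 50 * (var 1))))) + (num 1600 * ((var 0) * (var 2) * (((num 100) + (num 50 * (var 1))) - (((num 37) + (num (-9) * (var 1))) + ((num 57) + (num (-25) * (var 1))) * (var 3)))))))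
    (((num (-11753) * ((var 0) * (((num 100) + (num 50 * (var 1))) - (((num 37) + (num (-9) * (var 1))) + ((num 57) + (num (-25) * (var 1))) * (var 3))))) + (num 12753 * (((var 0) * (var 1)) * (((num 37) + (num (-9) * (var 1))) + ((num 57) + (num (-25) * (var 1))) * (var 3)))) + (num (-2366) * (((var 0) * (var 1)) * ((num 100) + (num 50 * (var 1))))) + (num 1600 * ((var 0) * (var 2) * (((num 100) + (num 50 * (var 1))) - (((num 37) + (num (-9) * (var 1))) + ((num 57) + (num (-25) * (var 1))) * (var 3)))))))
  wd := num 1000 * ((num 100) + (num 50 * (var 1)))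
  tn := fun b => cond b
    (num 10173 * ((var 1) * ((num 100) + (num 50 * (var 1)))))
    (num 8560 * ((var 1) * ((num 100) + (num 50 * (var 1)))))
  td := num 8000 * ((var 1) * ((num 100) + (num 50 * (var 1))) + num 2 * (var 2) * (((num 100) + (num 50 * (var 1))) - (((num 37) + (num (-9) * (var 1))) + ((num 57) + (num (-25) * (var 1))) * (var 3))))
  cn := num 0
  cd := num 1
  kn := ((num 100) + (num 50 * (var 1))) * ((num 205) + (num 1364 * (var 0)) + (num 352 * (var 1)) + (num (-126) * (var 2)) + (num (-592) * (var 3)) + (num (-887) * ((var 1) * (var 3))) + (num 536 * ((var 2) * (var 3))) + (num 5240 * ((var 0) * (var 3))))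
  kd := num 128 * (((num 100) + (num 50 * (var 1))) - (((num 37) + (num (-9) * (var 1))) + ((num 57) + (num (-25) * (var 1))) * (var 3)))
  k2n := ((num (-1339)) + (num 6525 * (var 0)) + (num 1813 * (var 2)))
  k2d := num 1024

/-- Its ranges. -/
def bxIz249 : StripEnd.EBox :=
  ⟨(15, 16, 160), (3, 8, 20), (15, 19, 20), (0, 1, 1)⟩

end Vale.Agent.P100.Calib.StripEndD
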