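import Vale.Agent.P100.Calib.SlabStripEndIZ7Win0
import Vale.Agent.P100.Calib.SlabStripEndIZ7Win1
import Vale.Agent.P100.Calib.SlabStripEndIZ7Win2
import Vale.Agent.P100.Calib.SlabStripEndIZ7Win3
import Vale.Agent.P100.Calib.SlabStripEndIZ7K216
import Vale.Agent.P100.Calib.SlabStripEndIZ7K217
import Vale.Agent.P100.Calib.SlabStripEndIZ7K218
import Vale.Agent.P100.Calib.SlabStripEndIZ7K219
import Vale.Agent.P100.Calib.SlabStripEndIZ7K220
import Vale.Agent.P100.Calib.SlabStripEndIZ7K221
import Vale.Agent.P100.Calib.SlabStripEndIZ7K222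
import Vale.Agent.P100.Calib.SlabStripEndIZ7K223
import Vale.Agent.P100.Calib.SlabStripEndIZ7K224
import Vale.Agent.P100.Calib.SlabStripEndIZ7K225
import Vale.Agent.P100.Calib.SlabStripEndIZ7K226
import Vale.Agent.P100.Calib.SlabStripEndIZ7K227
import Vale.Agent.P100.Calib.SlabStripEndIZ7K228
import Vale.Agent.P100.Calib.SlabStripEndIZ7K229
import Vale.Agent.P100.Calib.SlabStripEndIZ7K230
import Vale.Agent.P100.Calib.SlabStripEndIZ7K231
import Vale.Agent.P100.Calib.SlabStripEndIZ7K232
import Vale.Agent.P100.Calib.SlabStripEndIZ7K233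
import Vale.Agent.P100.Calib.SlabStripEndIZ7K234
import Vale.Agent.P100.Calib.SlabStripEndIZ7K235
import Vale.Agent.P100.Calib.SlabStripEndIZ7K236
import Vale.Agent.P100.Calib.SlabStripEndIZ7K238
import Vale.Agent.P100.Calib.SlabStripEndIZ7K239
import Vale.Agent.P100.Calib.SlabStripEndIZ7K240
import Vale.Agent.P100.Calib.SlabStripEndIZ7K241
import Vale.Agent.P100.Calib.SlabStripEndIZ7K242
import Vale.Agent.P100.Calib.SlabStripEndIZ7K243
import Vale.Agent.P100.Calib.SlabStripEndIZ7K244
import Vale.Agent.P100.Calib.SlabStripEndIZ7K245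
import Vale.Agent.P100.Calib.SlabStripEndIZ7K246
import Vale.Agent.P100.Calib.SlabStripEndIZ7K247
import Vale.Agent.P100.Calib.SlabStripEndIZ7K248
import Vale.Agent.P100.Calib.SlabStripEndIZ7K249

/-!
# The pieces of the `I` and `Z` charts over their lines (Leaves4)
-/

namespace Vale.Agent.P100.Calib.StripEndD

open Pack hiding ev_add ev_mul
open Pack.Ex StripMid StripEnd

local instance endIZ7Leaves4Add : Add Ex := ⟨Ex.add⟩
local instance endIZ7Leaves4Sub : Sub Ex := ⟨Ex.sub⟩
local instance endIZ7Leaves4Mul : Mul Ex := ⟨Ex.mul⟩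

/-- The piece 216 over its chart. -/
theorem pcIz216_over : pcIz216.Over (wideChart (lineChart izL216 (4, 5, 40) (3, 4, 400) (75, 89, 100) (129, 50) (157, 50))) :=
  ⟨fun _ => rfl, fun _ => rfl, fun _ => rfl,
    fun x => by simp only [pcIz216, wideChart, lineChart, izL216, ev_add, ev_mul, Ex.eval] <;> push_cast <;> ring,
    fun x => by
      simp only [pcIz216, wideChart, lineChart, afEx, izL216, ev_add, ev_mul, Ex.eval] <;> push_cast <;> ring,
    fun x => by
      simp only [pcIz216, Piece.A, Piece.S, ev_add, ev_sub, ev_mul, Ex.eval]; push_cast; ring,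
    rfl, rfl⟩

/-- The piece 216 with its lines. -/
theorem izLeaf216 : Leaf izL216 (4, 5, 40) (3, 4, 400) (75, 89, 100) (129, 50) (157, 50) pcIz216 bxIz216 :=
  ⟨by norm_num, izL216_up, izL216_down, Or.inl certIz216, pcIz216_over, ⟨rfl, rfl, rfl, rfl⟩, rfl, rfl⟩

/-- The piece 217 over its chart. -/
theorem pcIz217_over : pcIz217.Over (wideChart (lineChart izL217 (4, 5, 40) (2, 3, 200) (75, 89, 100) (129, 50) (156, 50))) :=
  ⟨fun _ => rfl, fun _ => rfl, fun _ => rfl,
    fun x => by simp only [pcIz217, wideChart, lineChart, izL217, ev_add, ev_mul, Ex.eval] <;> push_cast <;> ring,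
    fun x => by
      simp only [pcIz217, wideChart, lineChart, afEx, izL217, ev_add, ev_mul, Ex.eval] <;> push_cast <;> ring,
    fun x => by
      simp only [pcIz217, Piece.A, Piece.S, ev_add, ev_sub, ev_mul, Ex.eval]; push_cast; ring,
    rfl, rfl⟩

/-- The piece 217 with its lines. -/
theorem izLeaf217 : Leaf izL217 (4, 5, 40) (2, 3, 200) (75, 89, 100) (129, 50) (156, 50) pcIz217 bxIz217 :=
  ⟨by norm_num, izL217_up, izL217_down, Or.inl certIz217, pcIz217_over, ⟨rfl, rfl, rfl, rfl⟩, rfl, rfl⟩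

/-- The piece 218 over its chart. -/
theorem pcIz218_over : pcIz218.Over (wideChart (lineChart izL218 (4, 5, 40) (3, 4, 200) (75, 89, 100) (129, 50) (155, 50))) :=
  ⟨fun _ => rfl, fun _ => rfl, fun _ => rfl,
    fun x => by simp only [pcIz218, wideChart, lineChart, izL218, ev_add, ev_mul, Ex.eval] <;> push_cast <;> ring,
    fun x => by
      simp only [pcIz218, wideChart, lineChart, afEx, izL218, ev_add, ev_mul, Ex.eval] <;> push_cast <;> ring,
    fun x => by
      simp only [pcIz218, Piece.A, Piece.S, ev_add, ev_sub, ev_mul, Ex.eval]; push_cast; ring,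
    rfl, rfl⟩

/-- The piece 218 with its lines. -/
theorem izLeaf218 : Leaf izL218 (4, 5, 40) (3, 4, 200) (75, 89, 100) (129, 50) (155, 50) pcIz218 bxIz218 :=
  ⟨by norm_num, izL218_up, izL218_down, Or.inl certIz218, pcIz218_over, ⟨rfl, rfl, rfl, rfl⟩, rfl, rfl⟩

/-- The piece 219 over its chart. -/
theorem pcIz219_over : pcIz219.Over (wideChart (lineChart izL219 (4, 5, 40) (0, 1, 160) (75, 89, 100) (128, 50) (153, 50))) :=
  ⟨fun _ => rfl, fun _ => rfl, fun _ => rfl,
    fun x => by simp only [pcIz219, wideChart, lineChart, izL219, ev_add, ev_mul, Ex.eval] <;> push_cast <;> ring,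
    fun x => by
      simp only [pcIz219, wideChart, lineChart, afEx, izL219, ev_add, ev_mul, Ex.eval] <;> push_cast <;> ring,
    fun x => by
      simp only [pcIz219, Piece.A, Piece.S, ev_add, ev_sub, ev_mul, Ex.eval]; push_cast; ring,
    rfl, rfl⟩

/-- The piece 219 with its lines. -/
theorem izLeaf219 : Leaf izL219 (4, 5, 40) (0, 1, 160) (75, 89, 100) (128, 50) (153, 50) pcIz219 bxIz219 :=
  ⟨by norm_num, izL219_up, izL219_down, Or.inl certIz219, pcIz219_over, ⟨rfl, rfl, rfl, rfl⟩, rfl, rfl⟩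

/-- The piece 220 over its chart. -/
theorem pcIz220_over : pcIz220.Over (wideChart (lineChart izL220 (4, 5, 40) (5, 16, 800) (75, 89, 100) (128, 50) (153, 50))) :=
  ⟨fun _ => rfl, fun _ => rfl, fun _ => rfl,
    fun x => by simp only [pcIz220, wideChart, lineChart, izL220, ev_add, ev_mul, Ex.eval] <;> push_cast <;> ring,
    fun x => by
      simp only [pcIz220, wideChart, lineChart, afEx, izL220, ev_add, ev_mul, Ex.eval] <;> push_cast <;> ring,
    fun x => by
      simp only [pcIz220, Piece.A, Piece.S, ev_add, ev_sub, ev_mul, Ex.eval]; push_cast; ring,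
    rfl, rfl⟩

/-- The piece 220 with its lines. -/
theorem izLeaf220 : Leaf izL220 (4, 5, 40) (5, 16, 800) (75, 89, 100) (128, 50) (153, 50) pcIz220 bxIz220 :=
  ⟨by norm_num, izL220_up, izL220_down, Or.inl certIz220, pcIz220_over, ⟨rfl, rfl, rfl, rfl⟩, rfl, rfl⟩

/-- The piece 221 over its chart. -/
theorem pcIz221_over : pcIz221.Over (wideChart (lineChart izL221 (20, 21, 160) (0, 1, 50) (75, 86, 100) (140, 50) (161, 50))) :=
  ⟨fun _ => rfl, fun _ => rfl, fun _ => rfl,
    fun x => by simp only [pcIz221, wideChart, lineChart, izL221, ev_add, ev_mul, Ex.eval] <;> push_cast <;> ring,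
    fun x => by
      simp only [pcIz221, wideChart, lineChart, afEx, izL221, ev_add, ev_mul, Ex.eval] <;> push_cast <;> ring,
    fun x => by
      simp only [pcIz221, Piece.A, Piece.S, ev_add, ev_sub, ev_mul, Ex.eval]; push_cast; ring,
    rfl, rfl⟩

/-- The piece 221 with its lines. -/
theorem izLeaf221 : Leaf izL221 (20, 21, 160) (0, 1, 50) (75, 86, 100) (140, 50) (161, 50) pcIz221 bxIz221 :=
  ⟨by norm_num, izL221_up, izL221_down, Or.inl certIz221, pcIz221_over, ⟨rfl, rfl, rfl, rfl⟩, rfl, rfl⟩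

/-- The piece 222 over its chart. -/
theorem pcIz222_over : pcIz222.Over (wideChart (lineChart izL222 (20, 21, 160) (0, 1, 50) (75, 86, 100) (139, 50) (154, 50))) :=
  ⟨fun _ => rfl, fun _ => rfl, fun _ => rfl,
    fun x => by simp only [pcIz222, wideChart, lineChart, izL222, ev_add, ev_mul, Ex.eval] <;> push_cast <;> ring,
    fun x => by
      simp only [pcIz222, wideChart, lineChart, afEx, izL222, ev_add, ev_mul, Ex.eval] <;> push_cast <;> ring,
    fun x => by
      simp only [pcIz222, Piece.A, Piece.S, ev_add, ev_sub, ev_mul, Ex.eval]; push_cast; ring,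
    rfl, rfl⟩

/-- The piece 222 with its lines. -/
theorem izLeaf222 : Leaf izL222 (20, 21, 160) (0, 1, 50) (75, 86, 100) (139, 50) (154, 50) pcIz222 bxIz222 :=
  ⟨by norm_num, izL222_up, izL222_down, Or.inl certIz222, pcIz222_over, ⟨rfl, rfl, rfl, rfl⟩, rfl, rfl⟩

/-- The piece 223 over its chart. -/
theorem pcIz223_over : pcIz223.Over (wideChart (lineChart izL223 (20, 21, 160) (0, 1, 50) (75, 86, 100) (136, 50) (152, 50))) :=
  ⟨fun _ => rfl, fun _ => rfl, fun _ => rfl,
    fun x => by simp only [pcIz223, wideChart, lineChart, izL223, ev_add, ev_mul, Ex.eval] <;> push_cast <;> ring,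
    fun x => by
      simp only [pcIz223, wideChart, lineChart, afEx, izL223, ev_add, ev_mul, Ex.eval] <;> push_cast <;> ring,
    fun x => by
      simp only [pcIz223, Piece.A, Piece.S, ev_add, ev_sub, ev_mul, Ex.eval]; push_cast; ring,
    rfl, rfl⟩

/-- The piece 223 with its lines. -/
theorem izLeaf223 : Leaf izL223 (20, 21, 160) (0, 1, 50) (75, 86, 100) (136, 50) (152, 50) pcIz223 bxIz223 :=
  ⟨by norm_num, izL223_up, izL223_down, Or.inl certIz223, pcIz223_over, ⟨rfl, rfl, rfl, rfl⟩, rfl, rfl⟩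

/-- The piece 224 over its chart. -/
theorem pcIz224_over : pcIz224.Over (wideChart (lineChart izL224 (20, 21, 160) (0, 1, 50) (75, 86, 100) (134, 50) (150, 50))) :=
  ⟨fun _ => rfl, fun _ => rfl, fun _ => rfl,
    fun x => by simp only [pcIz224, wideChart, lineChart, izL224, ev_add, ev_mul, Ex.eval] <;> push_cast <;> ring,
    fun x => by
      simp only [pcIz224, wideChart, lineChart, afEx, izL224, ev_add, ev_mul, Ex.eval] <;> push_cast <;> ring,
    fun x => by
      simp only [pcIz224, Piece.A, Piece.S, ev_add, ev_sub, ev_mul, Ex.eval]; push_cast; ring,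
    rfl, rfl⟩

/-- The piece 224 with its lines. -/
theorem izLeaf224 : Leaf izL224 (20, 21, 160) (0, 1, 50) (75, 86, 100) (134, 50) (150, 50) pcIz224 bxIz224 :=
  ⟨by norm_num, izL224_up, izL224_down, Or.inl certIz224, pcIz224_over, ⟨rfl, rfl, rfl, rfl⟩, rfl, rfl⟩

/-- The piece 225 over its chart. -/
theorem pcIz225_over : pcIz225.Over (wideChart (lineChart izL225 (20, 21, 160) (0, 1, 50) (75, 86, 100) (130, 50) (147, 50))) :=
  ⟨fun _ => rfl, fun _ => rfl, fun _ => rfl,
    fun x => by simp only [pcIz225, wideChart, lineChart, izL225, ev_add, ev_mul, Ex.eval] <;> push_cast <;> ring,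
    fun x => by
      simp only [pcIz225, wideChart, lineChart, afEx, izL225, ev_add, ev_mul, Ex.eval] <;> push_cast <;> ring,
    fun x => by
      simp only [pcIz225, Piece.A, Piece.S, ev_add, ev_sub, ev_mul, Ex.eval]; push_cast; ring,
    rfl, rfl⟩

/-- The piece 225 with its lines. -/
theorem izLeaf225 : Leaf izL225 (20, 21, 160) (0, 1, 50) (75, 86, 100) (130, 50) (147, 50) pcIz225 bxIz225 :=
  ⟨by norm_num, izL225_up, izL225_down, Or.inl certIz225, pcIz225_over, ⟨rfl, rfl, rfl, rfl⟩, rfl, rfl⟩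

/-- The piece 226 over its chart. -/
theorem pcIz226_over : pcIz226.Over (wideChart (lineChart izL226 (20, 21, 160) (0, 1, 50) (75, 86, 100) (125, 50) (144, 50))) :=
  ⟨fun _ => rfl, fun _ => rfl, fun _ => rfl,
    fun x => by simp only [pcIz226, wideChart, lineChart, izL226, ev_add, ev_mul, Ex.eval] <;> push_cast <;> ring,
    fun x => by
      simp only [pcIz226, wideChart, lineChart, afEx, izL226, ev_add, ev_mul, Ex.eval] <;> push_cast <;> ring,
    fun x => by
      simp only [pcIz226, Piece.A, Piece.S, ev_add, ev_sub, ev_mul, Ex.eval]; push_cast; ring,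
    rfl, rfl⟩

/-- The piece 226 with its lines. -/
theorem izLeaf226 : Leaf izL226 (20, 21, 160) (0, 1, 50) (75, 86, 100) (125, 50) (144, 50) pcIz226 bxIz226 :=
  ⟨by norm_num, izL226_up, izL226_down, Or.inl certIz226, pcIz226_over, ⟨rfl, rfl, rfl, rfl⟩, rfl, rfl⟩

/-- The piece 227 over its chart. -/
theorem pcIz227_over : pcIz227.Over (wideChart (lineChart izL227 (42, 43, 320) (0, 1, 50) (15, 17, 20) (144, 50) (163, 50))) :=
  ⟨fun _ => rfl, fun _ => rfl, fun _ => rfl,
    fun x => by simp only [pcIz227, wideChart, lineChart, izL227, ev_add, ev_mul, Ex.eval] <;> push_cast <;> ring,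
    fun x => by
      simp only [pcIz227, wideChart, lineChart, afEx, izL227, ev_add, ev_mul, Ex.eval] <;> push_cast <;> ring,
    fun x => by
      simp only [pcIz227, Piece.A, Piece.S, ev_add, ev_sub, ev_mul, Ex.eval]; push_cast; ring,
    rfl, rfl⟩

/-- The piece 227 with its lines. -/
theorem izLeaf227 : Leaf izL227 (42, 43, 320) (0, 1, 50) (15, 17, 20) (144, 50) (163, 50) pcIz227 bxIz227 :=
  ⟨by norm_num, izL227_up, izL227_down, Or.inl certIz227, pcIz227_over, ⟨rfl, rfl, rfl, rfl⟩, rfl, rfl⟩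

/-- The piece 228 over its chart. -/
theorem pcIz228_over : pcIz228.Over (wideChart (lineChart izL228 (42, 43, 320) (0, 1, 50) (15, 17, 20) (142, 50) (155, 50))) :=
  ⟨fun _ => rfl, fun _ => rfl, fun _ => rfl,
    fun x => by simp only [pcIz228, wideChart, lineChart, izL228, ev_add, ev_mul, Ex.eval] <;> push_cast <;> ring,
    fun x => by
      simp only [pcIz228, wideChart, lineChart, afEx, izL228, ev_add, ev_mul, Ex.eval] <;> push_cast <;> ring,
    fun x => by
      simp only [pcIz228, Piece.A, Piece.S, ev_add, ev_sub, ev_mul, Ex.eval]; push_cast; ring,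
    rfl, rfl⟩

/-- The piece 228 with its lines. -/
theorem izLeaf228 : Leaf izL228 (42, 43, 320) (0, 1, 50) (15, 17, 20) (142, 50) (155, 50) pcIz228 bxIz228 :=
  ⟨by norm_num, izL228_up, izL228_down, Or.inl certIz228, pcIz228_over, ⟨rfl, rfl, rfl, rfl⟩, rfl, rfl⟩

/-- The piece 229 over its chart. -/
theorem pcIz229_over : pcIz229.Over (wideChart (lineChart izL229 (42, 43, 320) (0, 1, 50) (15, 17, 20) (140, 50) (154, 50))) :=
  ⟨fun _ => rfl, fun _ => rfl, fun _ => rfl,
    fun x => by simp only [pcIz229, wideChart, lineChart, izL229, ev_add, ev_mul, Ex.eval] <;> push_cast <;> ring,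
    fun x => by
      simp only [pcIz229, wideChart, lineChart, afEx, izL229, ev_add, ev_mul, Ex.eval] <;> push_cast <;> ring,
    fun x => by
      simp only [pcIz229, Piece.A, Piece.S, ev_add, ev_sub, ev_mul, Ex.eval]; push_cast; ring,
    rfl, rfl⟩

/-- The piece 229 with its lines. -/
theorem izLeaf229 : Leaf izL229 (42, 43, 320) (0, 1, 50) (15, 17, 20) (140, 50) (154, 50) pcIz229 bxIz229 :=
  ⟨by norm_num, izL229_up, izL229_down, Or.inl certIz229, pcIz229_over, ⟨rfl, rfl, rfl, rfl⟩, rfl, rfl⟩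

/-- The piece 230 over its chart. -/
theorem pcIz230_over : pcIz230.Over (wideChart (lineChart izL230 (42, 43, 320) (0, 1, 50) (15, 17, 20) (137, 50) (152, 50))) :=
  ⟨fun _ => rfl, fun _ => rfl, fun _ => rfl,
    fun x => by simp only [pcIz230, wideChart, lineChart, izL230, ev_add, ev_mul, Ex.eval] <;> push_cast <;> ring,
    fun x => by
      simp only [pcIz230, wideChart, lineChart, afEx, izL230, ev_add, ev_mul, Ex.eval] <;> push_cast <;> ring,
    fun x => by
      simp only [pcIz230, Piece.A, Piece.S, ev_add, ev_sub, ev_mul, Ex.eval]; push_cast; ring,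
    rfl, rfl⟩

/-- The piece 230 with its lines. -/
theorem izLeaf230 : Leaf izL230 (42, 43, 320) (0, 1, 50) (15, 17, 20) (137, 50) (152, 50) pcIz230 bxIz230 :=
  ⟨by norm_num, izL230_up, izL230_down, Or.inl certIz230, pcIz230_over, ⟨rfl, rfl, rfl, rfl⟩, rfl, rfl⟩

/-- The piece 231 over its chart. -/
theorem pcIz231_over : pcIz231.Over (wideChart (lineChart izL231 (42, 43, 320) (0, 1, 50) (15, 17, 20) (133, 50) (149, 50))) :=
  ⟨fun _ => rfl, fun _ => rfl, fun _ => rfl,
    fun x => by simp only [pcIz231, wideChart, lineChart, izL231, ev_add, ev_mul, Ex.eval] <;> push_cast <;> ring,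
    fun x => by
      simp only [pcIz231, wideChart, lineChart, afEx, izL231, ev_add, ev_mul, Ex.eval] <;> push_cast <;> ring,
    fun x => by
      simp only [pcIz231, Piece.A, Piece.S, ev_add, ev_sub, ev_mul, Ex.eval]; push_cast; ring,
    rfl, rfl⟩

/-- The piece 231 with its lines. -/
theorem izLeaf231 : Leaf izL231 (42, 43, 320) (0, 1, 50) (15, 17, 20) (133, 50) (149, 50) pcIz231 bxIz231 :=
  ⟨by norm_num, izL231_up, izL231_down, Or.inl certIz231, pcIz231_over, ⟨rfl, rfl, rfl, rfl⟩, rfl, rfl⟩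

/-- The piece 232 over its chart. -/
theorem pcIz232_over : pcIz232.Over (wideChart (lineChart izL232 (42, 43, 320) (0, 1, 50) (15, 17, 20) (127, 50) (145, 50))) :=
  ⟨fun _ => rfl, fun _ => rfl, fun _ => rfl,
    fun x => by simp only [pcIz232, wideChart, lineChart, izL232, ev_add, ev_mul, Ex.eval] <;> push_cast <;> ring,
    fun x => by
      simp only [pcIz232, wideChart, lineChart, afEx, izL232, ev_add, ev_mul, Ex.eval] <;> push_cast <;> ring,
    fun x => by
      simp only [pcIz232, Piece.A, Piece.S, ev_add, ev_sub, ev_mul, Ex.eval]; push_cast; ring,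
    rfl, rfl⟩

/-- The piece 232 with its lines. -/
theorem izLeaf232 : Leaf izL232 (42, 43, 320) (0, 1, 50) (15, 17, 20) (127, 50) (145, 50) pcIz232 bxIz232 :=
  ⟨by norm_num, izL232_up, izL232_down, Or.inl certIz232, pcIz232_over, ⟨rfl, rfl, rfl, rfl⟩, rfl, rfl⟩

/-- The piece 233 over its chart. -/
theorem pcIz233_over : pcIz233.Over (wideChart (lineChart izL233 (85, 86, 640) (0, 1, 1600) (15, 17, 20) (117, 50) (138, 50))) :=
  ⟨fun _ => rfl, fun _ => rfl, fun _ => rfl,
    fun x => by simp only [pcIz233, wideChart, lineChart, izL233, ev_add, ev_mul, Ex.eval] <;> push_cast <;> ring,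
    fun x => by
      simp only [pcIz233, wideChart, lineChart, afEx, izL233, ev_add, ev_mul, Ex.eval] <;> push_cast <;> ring,
    fun x => by
      simp only [pcIz233, Piece.A, Piece.S, ev_add, ev_sub, ev_mul, Ex.eval]; push_cast; ring,
    rfl, rfl⟩

/-- The piece 233 with its lines. -/
theorem izLeaf233 : Leaf izL233 (85, 86, 640) (0, 1, 1600) (15, 17, 20) (117, 50) (138, 50) pcIz233 bxIz233 :=
  ⟨by norm_num, izL233_up, izL233_down, Or.inl certIz233, pcIz233_over, ⟨rfl, rfl, rfl, rfl⟩, rfl, rfl⟩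

/-- The piece 234 over its chart. -/
theorem pcIz234_over : pcIz234.Over (wideChart (lineChart izL234 (85, 86, 640) (1, 3, 1600) (15, 17, 20) (117, 50) (138, 50))) :=
  ⟨fun _ => rfl, fun _ => rfl, fun _ => rfl,
    fun x => by simp only [pcIz234, wideChart, lineChart, izL234, ev_add, ev_mul, Ex.eval] <;> push_cast <;> ring,
    fun x => by
      simp only [pcIz234, wideChart, lineChart, afEx, izL234, ev_add, ev_mul, Ex.eval] <;> push_cast <;> ring,
    fun x => by
      simp only [pcIz234, Piece.A, Piece.S, ev_add, ev_sub, ev_mul, Ex.eval]; push_cast; ring,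
    rfl, rfl⟩

/-- The piece 234 with its lines. -/
theorem izLeaf234 : Leaf izL234 (85, 86, 640) (1, 3, 1600) (15, 17, 20) (117, 50) (138, 50) pcIz234 bxIz234 :=
  ⟨by norm_num, izL234_up, izL234_down, Or.inl certIz234, pcIz234_over, ⟨rfl, rfl, rfl, rfl⟩, rfl, rfl⟩

/-- The piece 235 over its chart. -/
theorem pcIz235_over : pcIz235.Over (wideChart (lineChart izL235 (85, 86, 640) (3, 10, 1600) (15, 17, 20) (117, 50) (138, 50))) :=
  ⟨fun _ => rfl, fun _ => rfl, fun _ => rfl,
    fun x => by simp only [pcIz235, wideChart, lineChart, izL235, ev_add, ev_mul, Ex.eval] <;> push_cast <;> ring,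
    fun x => by
      simp only [pcIz235, wideChart, lineChart, afEx, izL235, ev_add, ev_mul, Ex.eval] <;> push_cast <;> ring,
    fun x => by
      simp only [pcIz235, Piece.A, Piece.S, ev_add, ev_sub, ev_mul, Ex.eval]; push_cast; ring,
    rfl, rfl⟩

/-- The piece 235 with its lines. -/
theorem izLeaf235 : Leaf izL235 (85, 86, 640) (3, 10, 1600) (15, 17, 20) (117, 50) (138, 50) pcIz235 bxIz235 :=
  ⟨by norm_num, izL235_up, izL235_down, Or.inl certIz235, pcIz235_over, ⟨rfl, rfl, rfl, rfl⟩, rfl, rfl⟩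

/-- The piece 236 over its chart. -/
theorem pcIz236_over : pcIz236.Over (wideChart (lineChart izL236 (85, 86, 640) (5, 16, 800) (15, 17, 20) (115, 50) (138, 50))) :=
  ⟨fun _ => rfl, fun _ => rfl, fun _ => rfl,
    fun x => by simp only [pcIz236, wideChart, lineChart, izL236, ev_add, ev_mul, Ex.eval] <;> push_cast <;> ring,
    fun x => by
      simp only [pcIz236, wideChart, lineChart, afEx, izL236, ev_add, ev_mul, Ex.eval] <;> push_cast <;> ring,
    fun x => by
      simp only [pcIz236, Piece.A, Piece.S, ev_add, ev_sub, ev_mul, Ex.eval]; push_cast; ring,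
    rfl, rfl⟩

/-- The piece 236 with its lines. -/
theorem izLeaf236 : Leaf izL236 (85, 86, 640) (5, 16, 800) (15, 17, 20) (115, 50) (138, 50) pcIz236 bxIz236 :=
  ⟨by norm_num, izL236_up, izL236_down, Or.inl certIz236, pcIz236_over, ⟨rfl, rfl, rfl, rfl⟩, rfl, rfl⟩

/-- The piece 238 over its chart. -/
theorem pcIz238_over : pcIz238.Over (wideChart (lineChart izL238 (4, 5, 40) (2, 15, 100) (75, 89, 100) (97, 50) (154, 50))) :=
  ⟨fun _ => rfl, fun _ => rfl, fun _ => rfl,
    fun x => by simp only [pcIz238, wideChart, lineChart, izL238, ev_add, ev_mul, Ex.eval] <;> push_cast <;> ring,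
    fun x => by
      simp only [pcIz238, wideChart, lineChart, afEx, izL238, ev_add, ev_mul, Ex.eval] <;> push_cast <;> ring,
    fun x => by
      simp only [pcIz238, Piece.A, Piece.S, ev_add, ev_sub, ev_mul, Ex.eval]; push_cast; ring,
    rfl, rfl⟩

/-- The piece 238 with its lines. -/
theorem izLeaf238 : Leaf izL238 (4, 5, 40) (2, 15, 100) (75, 89, 100) (97, 50) (154, 50) pcIz238 bxIz238 :=
  ⟨by norm_num, izL238_up, izL238_down, Or.inl certIz238, pcIz238_over, ⟨rfl, rfl, rfl, rfl⟩, rfl, rfl⟩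

/-- The piece 239 over its chart. -/
theorem pcIz239_over : pcIz239.Over (wideChart (lineChart izL239 (4, 5, 40) (3, 20, 20) (75, 89, 100) (74, 50) (144, 50))) :=
  ⟨fun _ => rfl, fun _ => rfl, fun _ => rfl,
    fun x => by simp only [pcIz239, wideChart, lineChart, izL239, ev_add, ev_mul, Ex.eval] <;> push_cast <;> ring,
    fun x => by
      simp only [pcIz239, wideChart, lineChart, afEx, izL239, ev_add, ev_mul, Ex.eval] <;> push_cast <;> ring,
    fun x => by
      simp only [pcIz239, Piece.A, Piece.S, ev_add, ev_sub, ev_mul, Ex.eval]; push_cast; ring,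
    rfl, rfl⟩

/-- The piece 239 with its lines. -/
theorem izLeaf239 : Leaf izL239 (4, 5, 40) (3, 20, 20) (75, 89, 100) (74, 50) (144, 50) pcIz239 bxIz239 :=
  ⟨by norm_num, izL239_up, izL239_down, Or.inl certIz239, pcIz239_over, ⟨rfl, rfl, rfl, rfl⟩, rfl, rfl⟩

/-- The piece 240 over its chart. -/
theorem pcIz240_over : pcIz240.Over (wideChart (lineChart izL240 (8, 9, 80) (5, 6, 800) (75, 89, 100) (129, 50) (148, 50))) :=
  ⟨fun _ => rfl, fun _ => rfl, fun _ => rfl,
    fun x => by simp only [pcIz240, wideChart, lineChart, izL240, ev_add, ev_mul, Ex.eval] <;> push_cast <;> ring,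
    fun x => by
      simp only [pcIz240, wideChart, lineChart, afEx, izL240, ev_add, ev_mul, Ex.eval] <;> push_cast <;> ring,
    fun x => by
      simp only [pcIz240, Piece.A, Piece.S, ev_add, ev_sub, ev_mul, Ex.eval]; push_cast; ring,
    rfl, rfl⟩

/-- The piece 240 with its lines. -/
theorem izLeaf240 : Leaf izL240 (8, 9, 80) (5, 6, 800) (75, 89, 100) (129, 50) (148, 50) pcIz240 bxIz240 :=
  ⟨by norm_num, izL240_up, izL240_down, Or.inl certIz240, pcIz240_over, ⟨rfl, rfl, rfl, rfl⟩, rfl, rfl⟩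

/-- The piece 241 over its chart. -/
theorem pcIz241_over : pcIz241.Over (wideChart (lineChart izL241 (9, 10, 80) (10, 11, 1600) (75, 89, 100) (135, 50) (157, 50))) :=
  ⟨fun _ => rfl, fun _ => rfl, fun _ => rfl,
    fun x => by simp only [pcIz241, wideChart, lineChart, izL241, ev_add, ev_mul, Ex.eval] <;> push_cast <;> ring,
    fun x => by
      simp only [pcIz241, wideChart, lineChart, afEx, izL241, ev_add, ev_mul, Ex.eval] <;> push_cast <;> ring,
    fun x => by
      simp only [pcIz241, Piece.A, Piece.S, ev_add, ev_sub, ev_mul, Ex.eval]; push_cast; ring,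
    rfl, rfl⟩

/-- The piece 241 with its lines. -/
theorem izLeaf241 : Leaf izL241 (9, 10, 80) (10, 11, 1600) (75, 89, 100) (135, 50) (157, 50) pcIz241 bxIz241 :=
  ⟨by norm_num, izL241_up, izL241_down, Or.inl certIz241, pcIz241_over, ⟨rfl, rfl, rfl, rfl⟩, rfl, rfl⟩

/-- The piece 242 over its chart. -/
theorem pcIz242_over : pcIz242.Over (wideChart (lineChart izL242 (9, 10, 80) (11, 12, 1600) (75, 89, 100) (135, 50) (157, 50))) :=
  ⟨fun _ => rfl, fun _ => rfl, fun _ => rfl,
    fun x => by simp only [pcIz242, wideChart, lineChart, izL242, ev_add, ev_mul, Ex.eval] <;> push_cast <;> ring,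
    fun x => by
      simp only [pcIz242, wideChart, lineChart, afEx, izL242, ev_add, ev_mul, Ex.eval] <;> push_cast <;> ring,
    fun x => by
      simp only [pcIz242, Piece.A, Piece.S, ev_add, ev_sub, ev_mul, Ex.eval]; push_cast; ring,
    rfl, rfl⟩

/-- The piece 242 with its lines. -/
theorem izLeaf242 : Leaf izL242 (9, 10, 80) (11, 12, 1600) (75, 89, 100) (135, 50) (157, 50) pcIz242 bxIz242 :=
  ⟨by norm_num, izL242_up, izL242_down, Or.inl certIz242, pcIz242_over, ⟨rfl, rfl, rfl, rfl⟩, rfl, rfl⟩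

/-- The piece 243 over its chart. -/
theorem pcIz243_over : pcIz243.Over (wideChart (lineChart izL243 (43, 44, 320) (5, 16, 800) (75, 83, 100) (116, 50) (161, 50))) :=
  ⟨fun _ => rfl, fun _ => rfl, fun _ => rfl,
    fun x => by simp only [pcIz243, wideChart, lineChart, izL243, ev_add, ev_mul, Ex.eval] <;> push_cast <;> ring,
    fun x => by
      simp only [pcIz243, wideChart, lineChart, afEx, izL243, ev_add, ev_mul, Ex.eval] <;> push_cast <;> ring,
    fun x => by
      simp only [pcIz243, Piece.A, Piece.S, ev_add, ev_sub, ev_mul, Ex.eval]; push_cast; ring,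
    rfl, rfl⟩

/-- The piece 243 with its lines. -/
theorem izLeaf243 : Leaf izL243 (43, 44, 320) (5, 16, 800) (75, 83, 100) (116, 50) (161, 50) pcIz243 bxIz243 :=
  ⟨by norm_num, izL243_up, izL243_down, Or.inl certIz243, pcIz243_over, ⟨rfl, rfl, rfl, rfl⟩, rfl, rfl⟩

/-- The piece 244 over its chart. -/
theorem pcIz244_over : pcIz244.Over (wideChart (lineChart izL244 (20, 23, 160) (3, 8, 20) (75, 89, 100) (90, 50) (155, 50))) :=
  ⟨fun _ => rfl, fun _ => rfl, fun _ => rfl,
    fun x => by simp only [pcIz244, wideChart, lineChart, izL244, ev_add, ev_mul, Ex.eval] <;> push_cast <;> ring,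
    fun x => by
      simp only [pcIz244, wideChart, lineChart, afEx, izL244, ev_add, ev_mul, Ex.eval] <;> push_cast <;> ring,
    fun x => by
      simp only [pcIz244, Piece.A, Piece.S, ev_add, ev_sub, ev_mul, Ex.eval]; push_cast; ring,
    rfl, rfl⟩

/-- The piece 244 with its lines. -/
theorem izLeaf244 : Leaf izL244 (20, 23, 160) (3, 8, 20) (75, 89, 100) (90, 50) (155, 50) pcIz244 bxIz244 :=
  ⟨by norm_num, izL244_up, izL244_down, Or.inl certIz244, pcIz244_over, ⟨rfl, rfl, rfl, rfl⟩, rfl, rfl⟩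

/-- The piece 245 over its chart. -/
theorem pcIz245_over : pcIz245.Over (wideChart (lineChart izL245 (20, 23, 160) (2, 5, 5) (75, 89, 100) (68, 50) (151, 50))) :=
  ⟨fun _ => rfl, fun _ => rfl, fun _ => rfl,
    fun x => by simp only [pcIz245, wideChart, lineChart, izL245, ev_add, ev_mul, Ex.eval] <;> push_cast <;> ring,
    fun x => by
      simp only [pcIz245, wideChart, lineChart, afEx, izL245, ev_add, ev_mul, Ex.eval] <;> push_cast <;> ring,
    fun x => by
      simp only [pcIz245, Piece.A, Piece.S, ev_add, ev_sub, ev_mul, Ex.eval]; push_cast; ring,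
    rfl, rfl⟩

/-- The piece 245 with its lines. -/
theorem izLeaf245 : Leaf izL245 (20, 23, 160) (2, 5, 5) (75, 89, 100) (68, 50) (151, 50) pcIz245 bxIz245 :=
  ⟨by norm_num, izL245_up, izL245_down, Or.inl certIz245, pcIz245_over, ⟨rfl, rfl, rfl, rfl⟩, rfl, rfl⟩

/-- The piece 246 over its chart. -/
theorem pcIz246_over : pcIz246.Over (wideChart (lineChart izL246 (3, 4, 40) (2, 15, 100) (15, 19, 20) (98, 50) (141, 50))) :=
  ⟨fun _ => rfl, fun _ => rfl, fun _ => rfl,
    fun x => by simp only [pcIz246, wideChart, lineChart, izL246, ev_add, ev_mul, Ex.eval] <;> push_cast <;> ring,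
    fun x => by
      simp only [pcIz246, wideChart, lineChart, afEx, izL246, ev_add, ev_mul, Ex.eval] <;> push_cast <;> ring,
    fun x => by
      simp only [pcIz246, Piece.A, Piece.S, ev_add, ev_sub, ev_mul, Ex.eval]; push_cast; ring,
    rfl, rfl⟩

/-- The piece 246 with its lines. -/
theorem izLeaf246 : Leaf izL246 (3, 4, 40) (2, 15, 100) (15, 19, 20) (98, 50) (141, 50) pcIz246 bxIz246 :=
  ⟨by norm_num, izL246_up, izL246_down, Or.inl certIz246, pcIz246_over, ⟨rfl, rfl, rfl, rfl⟩, rfl, rfl⟩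

/-- The piece 247 over its chart. -/
theorem pcIz247_over : pcIz247.Over (wideChart (lineChart izL247 (6, 7, 80) (3, 20, 20) (15, 19, 20) (84, 50) (131, 50))) :=
  ⟨fun _ => rfl, fun _ => rfl, fun _ => rfl,
    fun x => by simp only [pcIz247, wideChart, lineChart, izL247, ev_add, ev_mul, Ex.eval] <;> push_cast <;> ring,
    fun x => by
      simp only [pcIz247, wideChart, lineChart, afEx, izL247, ev_add, ev_mul, Ex.eval] <;> push_cast <;> ring,
    fun x => by
      simp only [pcIz247, Piece.A, Piece.S, ev_add, ev_sub, ev_mul, Ex.eval]; push_cast; ring,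
    rfl, rfl⟩

/-- The piece 247 with its lines. -/
theorem izLeaf247 : Leaf izL247 (6, 7, 80) (3, 20, 20) (15, 19, 20) (84, 50) (131, 50) pcIz247 bxIz247 :=
  ⟨by norm_num, izL247_up, izL247_down, Or.inl certIz247, pcIz247_over, ⟨rfl, rfl, rfl, rfl⟩, rfl, rfl⟩

/-- The piece 248 over its chart. -/
theorem pcIz248_over : pcIz248.Over (wideChart (lineChart izL248 (14, 15, 160) (3, 20, 20) (15, 19, 20) (83, 50) (134, 50))) :=
  ⟨fun _ => rfl, fun _ => rfl, fun _ => rfl,
    fun x => by simp only [pcIz248, wideChart, lineChart, izL248, ev_add, ev_mul, Ex.eval] <;> push_cast <;> ring,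
    fun x => by
      simp only [pcIz248, wideChart, lineChart, afEx, izL248, ev_add, ev_mul, Ex.eval] <;> push_cast <;> ring,
    fun x => by
      simp only [pcIz248, Piece.A, Piece.S, ev_add, ev_sub, ev_mul, Ex.eval]; push_cast; ring,
    rfl, rfl⟩

/-- The piece 248 with its lines. -/
theorem izLeaf248 : Leaf izL248 (14, 15, 160) (3, 20, 20) (15, 19, 20) (83, 50) (134, 50) pcIz248 bxIz248 :=
  ⟨by norm_num, izL248_up, izL248_down, Or.inl certIz248, pcIz248_over, ⟨rfl, rfl, rfl, rfl⟩, rfl, rfl⟩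

/-- The piece 249 over its chart. -/
theorem pcIz249_over : pcIz249.Over (wideChart (lineChart izL249 (15, 16, 160) (3, 8, 20) (15, 19, 20) (94, 50) (138, 50))) :=
  ⟨fun _ => rfl, fun _ => rfl, fun _ => rfl,
    fun x => by simp only [pcIz249, wideChart, lineChart, izL249, ev_add, ev_mul, Ex.eval] <;> push_cast <;> ring,
    fun x => by
      simp only [pcIz249, wideChart, lineChart, afEx, izL249, ev_add, ev_mul, Ex.eval] <;> push_cast <;> ring,
    fun x => by
      simp only [pcIz249, Piece.A, Piece.S, ev_add, ev_sub, ev_mul, Ex.eval]; push_cast; ring,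
    rfl, rfl⟩

/-- The piece 249 with its lines. -/
theorem izLeaf249 : Leaf izL249 (15, 16, 160) (3, 8, 20) (15, 19, 20) (94, 50) (138, 50) pcIz249 bxIz249 :=
  ⟨by norm_num, izL249_up, izL249_down, Or.inl certIz249, pcIz249_over, ⟨rfl, rfl, rfl, rfl⟩, rfl, rfl⟩

end Vale.Agent.P100.Calib.StripEndD
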