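import Vale.Agent.P100.Calib.SlabStripEndIZ7LineFacts
import Vale.Agent.P100.Calib.SlabStripEndIZ7Leaves4

/-!
# The signs in the pieces of the `I` and `Z` charts (At4)
-/

set_option linter.unusedVariables false
set_option linter.unusedTactic false
set_option linter.unreachableTactic false
set_option linter.unusedSimpArgs false
set_option linter.unnecessarySeqFocus false

namespace Vale.Agent.P100.Calib.StripEndD

open Pack hiding ev_add ev_mul
open Pack.Ex Band StripMid StripEnd

local instance endIZ7At4Add : Add Ex := ⟨Ex.add⟩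
local instance endIZ7At4Sub : Sub Ex := ⟨Ex.sub⟩
local instance endIZ7At4Mul : Mul Ex := ⟨Ex.mul⟩

/-- The signs in the piece 216. -/
theorem izAt216 {n : ℕ} {a b u v t H I r s : ℝ} (hb : Closed.All.ChartBox n (b - a) (a + b))
    (hF : Closed.All.ChartFacts (b - a) (a + b) u v t)
    (hH : Closed.chH (b - a) (a + b) u v t = H) (hB : EndBands7 a b u v H)
    (hside : DLow a b) (hE : ExitLine a b u v) (hI : IPt a b u I r s) (hI0 : 0 < I)
    (q0l : (1 / 10 : ℝ) < I) (q0u : I ≤ (1 / 8 : ℝ)) (q1l : (3 / 400 : ℝ) < r) (q1u : r ≤ (1 / 100 : ℝ)) (q2l : (3 / 4 : ℝ) < s) (q2u : s ≤ (89 / 100 : ℝ)) (ku : (500 : ℝ) * (1 - a * v) ≤ (54 : ℝ)) :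
    Closed.Strip.ChartSigns (b - a) (a + b) u v t := by
  obtain ⟨hl, hr⟩ := izLine37 hB hE hI0 (⟨hI, (inU_of (by norm_num) (by norm_num; linarith) (by norm_num; linarith)), (inU_of (by norm_num) (by norm_num; linarith) (by norm_num; linarith)), (inU_of (by norm_num) (by norm_num; linarith) (by norm_num; linarith)), by norm_num [Lines.denV, izM37] <;> linarith⟩ : InLines izM37 (4, 5, 40) (0, 1, 50) (75, 89, 100) a b u I r s)
  norm_num [afVal, Lines.denV, izM37] at hl hr
  refine izLeaf216.low rfl rfl hb hF hH hB hside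
    (⟨hI, (inU_of (by norm_num) (by norm_num; linarith) (by norm_num; linarith)), (inU_of (by norm_num) (by norm_num; linarith) (by norm_num; linarith)), (inU_of (by norm_num) (by norm_num; linarith) (by norm_num; linarith)), by norm_num [Lines.denV, izL216] <;> linarith⟩ : InLines izL216 (4, 5, 40) (3, 4, 400) (75, 89, 100) a b u I r s) ?_ ?_
  all_goals norm_num [afVal, Lines.denV, izL216] <;> linarith

/-- The signs in the piece 217. -/
theorem izAt217 {n : ℕ} {a b u v t H I r s : ℝ} (hb : Closed.All.ChartBox n (b - a) (a + b))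
    (hF : Closed.All.ChartFacts (b - a) (a + b) u v t)
    (hH : Closed.chH (b - a) (a + b) u v t = H) (hB : EndBands7 a b u v H)
    (hside : DLow a b) (hE : ExitLine a b u v) (hI : IPt a b u I r s) (hI0 : 0 < I)
    (q0l : (1 / 10 : ℝ) < I) (q0u : I ≤ (1 / 8 : ℝ)) (q1l : (1 / 100 : ℝ) < r) (q1u : r ≤ (3 / 200 : ℝ)) (q2l : (3 / 4 : ℝ) < s) (q2u : s ≤ (89 / 100 : ℝ)) (ku : (500 : ℝ) * (1 - a * v) ≤ (54 : ℝ)) :
    Closed.Strip.ChartSigns (b - a) (a + b) u v t := by
  obtain ⟨hl, hr⟩ := izLine37 hB hE hI0 (⟨hI, (inU_of (by norm_num) (by norm_num; linarith) (by norm_num; linarith)), (inU_of (by norm_num) (by norm_num; linarith) (by norm_num; linarith)), (inU_of (by norm_num) (by norm_num; linarith) (by norm_num; linarith)), by norm_num [Lines.denV, izM37] <;> linarith⟩ : InLines izM37 (4, 5, 40) (0, 1, 50) (75, 89, 100) a b u I r s)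
  norm_num [afVal, Lines.denV, izM37] at hl hr
  refine izLeaf217.low rfl rfl hb hF hH hB hside
    (⟨hI, (inU_of (by norm_num) (by norm_num; linarith) (by norm_num; linarith)), (inU_of (by norm_num) (by norm_num; linarith) (by norm_num; linarith)), (inU_of (by norm_num) (by norm_num; linarith) (by norm_num; linarith)), by norm_num [Lines.denV, izL217] <;> linarith⟩ : InLines izL217 (4, 5, 40) (2, 3, 200) (75, 89, 100) a b u I r s) ?_ ?_
  all_goals norm_num [afVal, Lines.denV, izL217] <;> linarith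

/-- The signs in the piece 218. -/
theorem izAt218 {n : ℕ} {a b u v t H I r s : ℝ} (hb : Closed.All.ChartBox n (b - a) (a + b))
    (hF : Closed.All.ChartFacts (b - a) (a + b) u v t)
    (hH : Closed.chH (b - a) (a + b) u v t = H) (hB : EndBands7 a b u v H)
    (hside : DLow a b) (hE : ExitLine a b u v) (hI : IPt a b u I r s) (hI0 : 0 < I)
    (q0l : (1 / 10 : ℝ) < I) (q0u : I ≤ (1 / 8 : ℝ)) (q1l : (3 / 200 : ℝ) < r) (q1u : r ≤ (1 / 50 : ℝ)) (q2l : (3 / 4 : ℝ) < s) (q2u : s ≤ (89 / 100 : ℝ)) (ku : (500 : ℝ) * (1 - a * v) ≤ (54 : ℝ)) :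
    Closed.Strip.ChartSigns (b - a) (a + b) u v t := by
  obtain ⟨hl, hr⟩ := izLine37 hB hE hI0 (⟨hI, (inU_of (by norm_num) (by norm_num; linarith) (by norm_num; linarith)), (inU_of (by norm_num) (by norm_num; linarith) (by norm_num; linarith)), (inU_of (by norm_num) (by norm_num; linarith) (by norm_num; linarith)), by norm_num [Lines.denV, izM37] <;> linarith⟩ : InLines izM37 (4, 5, 40) (0, 1, 50) (75, 89, 100) a b u I r s)
  norm_num [afVal, Lines.denV, izM37] at hl hr
  refine izLeaf218.low rfl rfl hb hF hH hB hside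
    (⟨hI, (inU_of (by norm_num) (by norm_num; linarith) (by norm_num; linarith)), (inU_of (by norm_num) (by norm_num; linarith) (by norm_num; linarith)), (inU_of (by norm_num) (by norm_num; linarith) (by norm_num; linarith)), by norm_num [Lines.denV, izL218] <;> linarith⟩ : InLines izL218 (4, 5, 40) (3, 4, 200) (75, 89, 100) a b u I r s) ?_ ?_
  all_goals norm_num [afVal, Lines.denV, izL218] <;> linarith

/-- The signs in the piece 219. -/
theorem izAt219 {n : ℕ} {a b u v t H I r s : ℝ} (hb : Closed.All.ChartBox n (b - a) (a + b))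
    (hF : Closed.All.ChartFacts (b - a) (a + b) u v t)
    (hH : Closed.chH (b - a) (a + b) u v t = H) (hB : EndBands7 a b u v H)
    (hside : DLow a b) (hE : ExitLine a b u v) (hI : IPt a b u I r s) (hI0 : 0 < I)
    (q0l : (1 / 10 : ℝ) < I) (q0u : I ≤ (1 / 8 : ℝ)) (q1l : (0 : ℝ) < r) (q1u : r ≤ (1 / 160 : ℝ)) (q2l : (3 / 4 : ℝ) < s) (q2u : s ≤ (89 / 100 : ℝ)) (kl : (54 : ℝ) < (500 : ℝ) * (1 - a * v)) (ku : (500 : ℝ) * (1 - a * v) ≤ (68 : ℝ)) :
    Closed.Strip.ChartSigns (b - a) (a + b) u v t := by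
  obtain ⟨hl, hr⟩ := izLine37 hB hE hI0 (⟨hI, (inU_of (by norm_num) (by norm_num; linarith) (by norm_num; linarith)), (inU_of (by norm_num) (by norm_num; linarith) (by norm_num; linarith)), (inU_of (by norm_num) (by norm_num; linarith) (by norm_num; linarith)), by norm_num [Lines.denV, izM37] <;> linarith⟩ : InLines izM37 (4, 5, 40) (0, 1, 50) (75, 89, 100) a b u I r s)
  norm_num [afVal, Lines.denV, izM37] at hl hr
  refine izLeaf219.low rfl rfl hb hF hH hB hside
    (⟨hI, (inU_of (by norm_num) (by norm_num; linarith) (by norm_num; linarith)), (inU_of (by norm_num) (by norm_num; linarith) (by norm_num; linarith)), (inU_of (by norm_num) (by norm_num; linarith) (by norm_num; linarith)), by norm_num [Lines.denV, izL219] <;> linarith⟩ : InLines izL219 (4, 5, 40) (0, 1, 160) (75, 89, 100) a b u I r s) ?_ ?_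
  all_goals norm_num [afVal, Lines.denV, izL219] <;> linarith

/-- The signs in the piece 220. -/
theorem izAt220 {n : ℕ} {a b u v t H I r s : ℝ} (hb : Closed.All.ChartBox n (b - a) (a + b))
    (hF : Closed.All.ChartFacts (b - a) (a + b) u v t)
    (hH : Closed.chH (b - a) (a + b) u v t = H) (hB : EndBands7 a b u v H)
    (hside : DLow a b) (hE : ExitLine a b u v) (hI : IPt a b u I r s) (hI0 : 0 < I)
    (q0l : (1 / 10 : ℝ) < I) (q0u : I ≤ (1 / 8 : ℝ)) (q1l : (1 / 160 : ℝ) < r) (q1u : r ≤ (1 / 50 : ℝ)) (q2l : (3 / 4 : ℝ) < s) (q2u : s ≤ (89 / 100 : ℝ)) (kl : (54 : ℝ) < (500 : ℝ) * (1 - a * v)) (ku : (500 : ℝ) * (1 - a * v) ≤ (68 : ℝ)) :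
    Closed.Strip.ChartSigns (b - a) (a + b) u v t := by
  obtain ⟨hl, hr⟩ := izLine37 hB hE hI0 (⟨hI, (inU_of (by norm_num) (by norm_num; linarith) (by norm_num; linarith)), (inU_of (by norm_num) (by norm_num; linarith) (by norm_num; linarith)), (inU_of (by norm_num) (by norm_num; linarith) (by norm_num; linarith)), by norm_num [Lines.denV, izM37] <;> linarith⟩ : InLines izM37 (4, 5, 40) (0, 1, 50) (75, 89, 100) a b u I r s)
  norm_num [afVal, Lines.denV, izM37] at hl hr
  refine izLeaf220.low rfl rfl hb hF hH hB hside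
    (⟨hI, (inU_of (by norm_num) (by norm_num; linarith) (by norm_num; linarith)), (inU_of (by norm_num) (by norm_num; linarith) (by norm_num; linarith)), (inU_of (by norm_num) (by norm_num; linarith) (by norm_num; linarith)), by norm_num [Lines.denV, izL220] <;> linarith⟩ : InLines izL220 (4, 5, 40) (5, 16, 800) (75, 89, 100) a b u I r s) ?_ ?_
  all_goals norm_num [afVal, Lines.denV, izL220] <;> linarith

/-- The signs in the piece 221. -/
theorem izAt221 {n : ℕ} {a b u v t H I r s : ℝ} (hb : Closed.All.ChartBox n (b - a) (a + b))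
    (hF : Closed.All.ChartFacts (b - a) (a + b) u v t)
    (hH : Closed.chH (b - a) (a + b) u v t = H) (hB : EndBands7 a b u v H)
    (hside : DLow a b) (hE : ExitLine a b u v) (hI : IPt a b u I r s) (hI0 : 0 < I)
    (q0l : (1 / 8 : ℝ) < I) (q0u : I ≤ (21 / 160 : ℝ)) (q1l : (0 : ℝ) < r) (q1u : r ≤ (1 / 50 : ℝ)) (q2l : (3 / 4 : ℝ) < s) (q2u : s ≤ (43 / 50 : ℝ)) (ku : (500 : ℝ) * (1 - a * v) ≤ (66 : ℝ)) :
    Closed.Strip.ChartSigns (b - a) (a + b) u v t := by
  obtain ⟨hl, hr⟩ := izLine38 hB hE hI0 (⟨hI, (inU_of (by norm_num) (by norm_num; linarith) (by norm_num; linarith)), (inU_of (by norm_num) (by norm_num; linarith) (by norm_num; linarith)), (inU_of (by norm_num) (by norm_num; linarith) (by norm_num; linarith)), by norm_num [Lines.denV, izM38] <;> linarith⟩ : InLines izM38 (20, 21, 160) (0, 1, 50) (75, 86, 100) a b u I r s)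
  norm_num [afVal, Lines.denV, izM38] at hl hr
  refine izLeaf221.low rfl rfl hb hF hH hB hside
    (⟨hI, (inU_of (by norm_num) (by norm_num; linarith) (by norm_num; linarith)), (inU_of (by norm_num) (by norm_num; linarith) (by norm_num; linarith)), (inU_of (by norm_num) (by norm_num; linarith) (by norm_num; linarith)), by norm_num [Lines.denV, izL221] <;> linarith⟩ : InLines izL221 (20, 21, 160) (0, 1, 50) (75, 86, 100) a b u I r s) ?_ ?_
  all_goals norm_num [afVal, Lines.denV, izL221] <;> linarith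

/-- The signs in the piece 222. -/
theorem izAt222 {n : ℕ} {a b u v t H I r s : ℝ} (hb : Closed.All.ChartBox n (b - a) (a + b))
    (hF : Closed.All.ChartFacts (b - a) (a + b) u v t)
    (hH : Closed.chH (b - a) (a + b) u v t = H) (hB : EndBands7 a b u v H)
    (hside : DLow a b) (hE : ExitLine a b u v) (hI : IPt a b u I r s) (hI0 : 0 < I)
    (q0l : (1 / 8 : ℝ) < I) (q0u : I ≤ (21 / 160 : ℝ)) (q1l : (0 : ℝ) < r) (q1u : r ≤ (1 / 50 : ℝ)) (q2l : (3 / 4 : ℝ) < s) (q2u : s ≤ (43 / 50 : ℝ)) (kl : (66 : ℝ) < (500 : ℝ) * (1 - a * v)) (ku : (500 : ℝ) * (1 - a * v) ≤ (82 : ℝ)) :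
    Closed.Strip.ChartSigns (b - a) (a + b) u v t := by
  obtain ⟨hl, hr⟩ := izLine38 hB hE hI0 (⟨hI, (inU_of (by norm_num) (by norm_num; linarith) (by norm_num; linarith)), (inU_of (by norm_num) (by norm_num; linarith) (by norm_num; linarith)), (inU_of (by norm_num) (by norm_num; linarith) (by norm_num; linarith)), by norm_num [Lines.denV, izM38] <;> linarith⟩ : InLines izM38 (20, 21, 160) (0, 1, 50) (75, 86, 100) a b u I r s)
  norm_num [afVal, Lines.denV, izM38] at hl hr
  refine izLeaf222.low rfl rfl hb hF hH hB hside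
    (⟨hI, (inU_of (by norm_num) (by norm_num; linarith) (by norm_num; linarith)), (inU_of (by norm_num) (by norm_num; linarith) (by norm_num; linarith)), (inU_of (by norm_num) (by norm_num; linarith) (by norm_num; linarith)), by norm_num [Lines.denV, izL222] <;> linarith⟩ : InLines izL222 (20, 21, 160) (0, 1, 50) (75, 86, 100) a b u I r s) ?_ ?_
  all_goals norm_num [afVal, Lines.denV, izL222] <;> linarith

/-- The signs in the piece 223. -/
theorem izAt223 {n : ℕ} {a b u v t H I r s : ℝ} (hb : Closed.All.ChartBox n (b - a) (a + b))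
    (hF : Closed.All.ChartFacts (b - a) (a + b) u v t)
    (hH : Closed.chH (b - a) (a + b) u v t = H) (hB : EndBands7 a b u v H)
    (hside : DLow a b) (hE : ExitLine a b u v) (hI : IPt a b u I r s) (hI0 : 0 < I)
    (q0l : (1 / 8 : ℝ) < I) (q0u : I ≤ (21 / 160 : ℝ)) (q1l : (0 : ℝ) < r) (q1u : r ≤ (1 / 50 : ℝ)) (q2l : (3 / 4 : ℝ) < s) (q2u : s ≤ (43 / 50 : ℝ)) (kl : (82 : ℝ) < (500 : ℝ) * (1 - a * v)) (ku : (500 : ℝ) * (1 - a * v) ≤ (102 : ℝ)) :
    Closed.Strip.ChartSigns (b - a) (a + b) u v t := by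
  obtain ⟨hl, hr⟩ := izLine38 hB hE hI0 (⟨hI, (inU_of (by norm_num) (by norm_num; linarith) (by norm_num; linarith)), (inU_of (by norm_num) (by norm_num; linarith) (by norm_num; linarith)), (inU_of (by norm_num) (by norm_num; linarith) (by norm_num; linarith)), by norm_num [Lines.denV, izM38] <;> linarith⟩ : InLines izM38 (20, 21, 160) (0, 1, 50) (75, 86, 100) a b u I r s)
  norm_num [afVal, Lines.denV, izM38] at hl hr
  refine izLeaf223.low rfl rfl hb hF hH hB hside
    (⟨hI, (inU_of (by norm_num) (by norm_num; linarith) (by norm_num; linarith)), (inU_of (by norm_num) (by norm_num; linarith) (by norm_num; linarith)), (inU_of (by norm_num) (by norm_num; linarith) (by norm_num; linarith)), by norm_num [Lines.denV, izL223] <;> linarith⟩ : InLines izL223 (20, 21, 160) (0, 1, 50) (75, 86, 100) a b u I r s) ?_ ?_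
  all_goals norm_num [afVal, Lines.denV, izL223] <;> linarith

/-- The signs in the piece 224. -/
theorem izAt224 {n : ℕ} {a b u v t H I r s : ℝ} (hb : Closed.All.ChartBox n (b - a) (a + b))
    (hF : Closed.All.ChartFacts (b - a) (a + b) u v t)
    (hH : Closed.chH (b - a) (a + b) u v t = H) (hB : EndBands7 a b u v H)
    (hside : DLow a b) (hE : ExitLine a b u v) (hI : IPt a b u I r s) (hI0 : 0 < I)
    (q0l : (1 / 8 : ℝ) < I) (q0u : I ≤ (21 / 160 : ℝ)) (q1l : (0 : ℝ) < r) (q1u : r ≤ (1 / 50 : ℝ)) (q2l : (3 / 4 : ℝ) < s) (q2u : s ≤ (43 / 50 : ℝ)) (kl : (102 : ℝ) < (500 : ℝ) * (1 - a * v)) (ku : (500 : ℝ) * (1 - a * v) ≤ (128 : ℝ)) :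
    Closed.Strip.ChartSigns (b - a) (a + b) u v t := by
  obtain ⟨hl, hr⟩ := izLine38 hB hE hI0 (⟨hI, (inU_of (by norm_num) (by norm_num; linarith) (by norm_num; linarith)), (inU_of (by norm_num) (by norm_num; linarith) (by norm_num; linarith)), (inU_of (by norm_num) (by norm_num; linarith) (by norm_num; linarith)), by norm_num [Lines.denV, izM38] <;> linarith⟩ : InLines izM38 (20, 21, 160) (0, 1, 50) (75, 86, 100) a b u I r s)
  norm_num [afVal, Lines.denV, izM38] at hl hr
  refine izLeaf224.low rfl rfl hb hF hH hB hside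
    (⟨hI, (inU_of (by norm_num) (by norm_num; linarith) (by norm_num; linarith)), (inU_of (by norm_num) (by norm_num; linarith) (by norm_num; linarith)), (inU_of (by norm_num) (by norm_num; linarith) (by norm_num; linarith)), by norm_num [Lines.denV, izL224] <;> linarith⟩ : InLines izL224 (20, 21, 160) (0, 1, 50) (75, 86, 100) a b u I r s) ?_ ?_
  all_goals norm_num [afVal, Lines.denV, izL224] <;> linarith

/-- The signs in the piece 225. -/
theorem izAt225 {n : ℕ} {a b u v t H I r s : ℝ} (hb : Closed.All.ChartBox n (b - a) (a + b))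
    (hF : Closed.All.ChartFacts (b - a) (a + b) u v t)
    (hH : Closed.chH (b - a) (a + b) u v t = H) (hB : EndBands7 a b u v H)
    (hside : DLow a b) (hE : ExitLine a b u v) (hI : IPt a b u I r s) (hI0 : 0 < I)
    (q0l : (1 / 8 : ℝ) < I) (q0u : I ≤ (21 / 160 : ℝ)) (q1l : (0 : ℝ) < r) (q1u : r ≤ (1 / 50 : ℝ)) (q2l : (3 / 4 : ℝ) < s) (q2u : s ≤ (43 / 50 : ℝ)) (kl : (128 : ℝ) < (500 : ℝ) * (1 - a * v)) (ku : (500 : ℝ) * (1 - a * v) ≤ (160 : ℝ)) :
    Closed.Strip.ChartSigns (b - a) (a + b) u v t := by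
  obtain ⟨hl, hr⟩ := izLine38 hB hE hI0 (⟨hI, (inU_of (by norm_num) (by norm_num; linarith) (by norm_num; linarith)), (inU_of (by norm_num) (by norm_num; linarith) (by norm_num; linarith)), (inU_of (by norm_num) (by norm_num; linarith) (by norm_num; linarith)), by norm_num [Lines.denV, izM38] <;> linarith⟩ : InLines izM38 (20, 21, 160) (0, 1, 50) (75, 86, 100) a b u I r s)
  norm_num [afVal, Lines.denV, izM38] at hl hr
  refine izLeaf225.low rfl rfl hb hF hH hB hside
    (⟨hI, (inU_of (by norm_num) (by norm_num; linarith) (by norm_num; linarith)), (inU_of (by norm_num) (by norm_num; linarith) (by norm_num; linarith)), (inU_of (by norm_num) (by norm_num; linarith) (by norm_num; linarith)), by norm_num [Lines.denV, izL225] <;> linarith⟩ : InLines izL225 (20, 21, 160) (0, 1, 50) (75, 86, 100) a b u I r s) ?_ ?_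
  all_goals norm_num [afVal, Lines.denV, izL225] <;> linarith

/-- The signs in the piece 226. -/
theorem izAt226 {n : ℕ} {a b u v t H I r s : ℝ} (hb : Closed.All.ChartBox n (b - a) (a + b))
    (hF : Closed.All.ChartFacts (b - a) (a + b) u v t)
    (hH : Closed.chH (b - a) (a + b) u v t = H) (hB : EndBands7 a b u v H)
    (hside : DLow a b) (hE : ExitLine a b u v) (hI : IPt a b u I r s) (hI0 : 0 < I)
    (q0l : (1 / 8 : ℝ) < I) (q0u : I ≤ (21 / 160 : ℝ)) (q1l : (0 : ℝ) < r) (q1u : r ≤ (1 / 50 : ℝ)) (q2l : (3 / 4 : ℝ) < s) (q2u : s ≤ (43 / 50 : ℝ)) (kl : (160 : ℝ) < (500 : ℝ) * (1 - a * v)) (ku : (500 : ℝ) * (1 - a * v) ≤ (200 : ℝ)) :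
    Closed.Strip.ChartSigns (b - a) (a + b) u v t := by
  obtain ⟨hl, hr⟩ := izLine38 hB hE hI0 (⟨hI, (inU_of (by norm_num) (by norm_num; linarith) (by norm_num; linarith)), (inU_of (by norm_num) (by norm_num; linarith) (by norm_num; linarith)), (inU_of (by norm_num) (by norm_num; linarith) (by norm_num; linarith)), by norm_num [Lines.denV, izM38] <;> linarith⟩ : InLines izM38 (20, 21, 160) (0, 1, 50) (75, 86, 100) a b u I r s)
  norm_num [afVal, Lines.denV, izM38] at hl hr
  refine izLeaf226.low rfl rfl hb hF hH hB hside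
    (⟨hI, (inU_of (by norm_num) (by norm_num; linarith) (by norm_num; linarith)), (inU_of (by norm_num) (by norm_num; linarith) (by norm_num; linarith)), (inU_of (by norm_num) (by norm_num; linarith) (by norm_num; linarith)), by norm_num [Lines.denV, izL226] <;> linarith⟩ : InLines izL226 (20, 21, 160) (0, 1, 50) (75, 86, 100) a b u I r s) ?_ ?_
  all_goals norm_num [afVal, Lines.denV, izL226] <;> linarith

/-- The signs in the piece 227. -/
theorem izAt227 {n : ℕ} {a b u v t H I r s : ℝ} (hb : Closed.All.ChartBox n (b - a) (a + b))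
    (hF : Closed.All.ChartFacts (b - a) (a + b) u v t)
    (hH : Closed.chH (b - a) (a + b) u v t = H) (hB : EndBands7 a b u v H)
    (hside : DLow a b) (hE : ExitLine a b u v) (hI : IPt a b u I r s) (hI0 : 0 < I)
    (q0l : (21 / 160 : ℝ) < I) (q0u : I ≤ (43 / 320 : ℝ)) (q1l : (0 : ℝ) < r) (q1u : r ≤ (1 / 50 : ℝ)) (q2l : (3 / 4 : ℝ) < s) (q2u : s ≤ (17 / 20 : ℝ)) (ku : (500 : ℝ) * (1 - a * v) ≤ (66 : ℝ)) :
    Closed.Strip.ChartSigns (b - a) (a + b) u v t := by
  obtain ⟨hl, hr⟩ := izLine39 hB hE hI0 (⟨hI, (inU_of (by norm_num) (by norm_num; linarith) (by norm_num; linarith)), (inU_of (by norm_num) (by norm_num; linarith) (by norm_num; linarith)), (inU_of (by norm_num) (by norm_num; linarith) (by norm_num; linarith)), by norm_num [Lines.denV, izM39] <;> linarith⟩ : InLines izM39 (42, 43, 320) (0, 1, 50) (15, 17, 20) a b u I r s)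
  norm_num [afVal, Lines.denV, izM39] at hl hr
  refine izLeaf227.low rfl rfl hb hF hH hB hside
    (⟨hI, (inU_of (by norm_num) (by norm_num; linarith) (by norm_num; linarith)), (inU_of (by norm_num) (by norm_num; linarith) (by norm_num; linarith)), (inU_of (by norm_num) (by norm_num; linarith) (by norm_num; linarith)), by norm_num [Lines.denV, izL227] <;> linarith⟩ : InLines izL227 (42, 43, 320) (0, 1, 50) (15, 17, 20) a b u I r s) ?_ ?_
  all_goals norm_num [afVal, Lines.denV, izL227] <;> linarith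

/-- The signs in the piece 228. -/
theorem izAt228 {n : ℕ} {a b u v t H I r s : ℝ} (hb : Closed.All.ChartBox n (b - a) (a + b))
    (hF : Closed.All.ChartFacts (b - a) (a + b) u v t)
    (hH : Closed.chH (b - a) (a + b) u v t = H) (hB : EndBands7 a b u v H)
    (hside : DLow a b) (hE : ExitLine a b u v) (hI : IPt a b u I r s) (hI0 : 0 < I)
    (q0l : (21 / 160 : ℝ) < I) (q0u : I ≤ (43 / 320 : ℝ)) (q1l : (0 : ℝ) < r) (q1u : r ≤ (1 / 50 : ℝ)) (q2l : (3 / 4 : ℝ) < s) (q2u : s ≤ (17 / 20 : ℝ)) (kl : (66 : ℝ) < (500 : ℝ) * (1 - a * v)) (ku : (500 : ℝ) * (1 - a * v) ≤ (82 : ℝ)) :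
    Closed.Strip.ChartSigns (b - a) (a + b) u v t := by
  obtain ⟨hl, hr⟩ := izLine39 hB hE hI0 (⟨hI, (inU_of (by norm_num) (by norm_num; linarith) (by norm_num; linarith)), (inU_of (by norm_num) (by norm_num; linarith) (by norm_num; linarith)), (inU_of (by norm_num) (by norm_num; linarith) (by norm_num; linarith)), by norm_num [Lines.denV, izM39] <;> linarith⟩ : InLines izM39 (42, 43, 320) (0, 1, 50) (15, 17, 20) a b u I r s)
  norm_num [afVal, Lines.denV, izM39] at hl hr
  refine izLeaf228.low rfl rfl hb hF hH hB hside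
    (⟨hI, (inU_of (by norm_num) (by norm_num; linarith) (by norm_num; linarith)), (inU_of (by norm_num) (by norm_num; linarith) (by norm_num; linarith)), (inU_of (by norm_num) (by norm_num; linarith) (by norm_num; linarith)), by norm_num [Lines.denV, izL228] <;> linarith⟩ : InLines izL228 (42, 43, 320) (0, 1, 50) (15, 17, 20) a b u I r s) ?_ ?_
  all_goals norm_num [afVal, Lines.denV, izL228] <;> linarith

/-- The signs in the piece 229. -/
theorem izAt229 {n : ℕ} {a b u v t H I r s : ℝ} (hb : Closed.All.ChartBox n (b - a) (a + b))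
    (hF : Closed.All.ChartFacts (b - a) (a + b) u v t)
    (hH : Closed.chH (b - a) (a + b) u v t = H) (hB : EndBands7 a b u v H)
    (hside : DLow a b) (hE : ExitLine a b u v) (hI : IPt a b u I r s) (hI0 : 0 < I)
    (q0l : (21 / 160 : ℝ) < I) (q0u : I ≤ (43 / 320 : ℝ)) (q1l : (0 : ℝ) < r) (q1u : r ≤ (1 / 50 : ℝ)) (q2l : (3 / 4 : ℝ) < s) (q2u : s ≤ (17 / 20 : ℝ)) (kl : (82 : ℝ) < (500 : ℝ) * (1 - a * v)) (ku : (500 : ℝ) * (1 - a * v) ≤ (102 : ℝ)) :
    Closed.Strip.ChartSigns (b - a) (a + b) u v t := by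
  obtain ⟨hl, hr⟩ := izLine39 hB hE hI0 (⟨hI, (inU_of (by norm_num) (by norm_num; linarith) (by norm_num; linarith)), (inU_of (by norm_num) (by norm_num; linarith) (by norm_num; linarith)), (inU_of (by norm_num) (by norm_num; linarith) (by norm_num; linarith)), by norm_num [Lines.denV, izM39] <;> linarith⟩ : InLines izM39 (42, 43, 320) (0, 1, 50) (15, 17, 20) a b u I r s)
  norm_num [afVal, Lines.denV, izM39] at hl hr
  refine izLeaf229.low rfl rfl hb hF hH hB hside
    (⟨hI, (inU_of (by norm_num) (by norm_num; linarith) (by norm_num; linarith)), (inU_of (by norm_num) (by norm_num; linarith) (by norm_num; linarith)), (inU_of (by norm_num) (by norm_num; linarith) (by norm_num; linarith)), by norm_num [Lines.denV, izL229] <;> linarith⟩ : InLines izL229 (42, 43, 320) (0, 1, 50) (15, 17, 20) a b u I r s) ?_ ?_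
  all_goals norm_num [afVal, Lines.denV, izL229] <;> linarith

/-- The signs in the piece 230. -/
theorem izAt230 {n : ℕ} {a b u v t H I r s : ℝ} (hb : Closed.All.ChartBox n (b - a) (a + b))
    (hF : Closed.All.ChartFacts (b - a) (a + b) u v t)
    (hH : Closed.chH (b - a) (a + b) u v t = H) (hB : EndBands7 a b u v H)
    (hside : DLow a b) (hE : ExitLine a b u v) (hI : IPt a b u I r s) (hI0 : 0 < I)
    (q0l : (21 / 160 : ℝ) < I) (q0u : I ≤ (43 / 320 : ℝ)) (q1l : (0 : ℝ) < r) (q1u : r ≤ (1 / 50 : ℝ)) (q2l : (3 / 4 : ℝ) < s) (q2u : s ≤ (17 / 20 : ℝ)) (kl : (102 : ℝ) < (500 : ℝ) * (1 - a * v)) (ku : (500 : ℝ) * (1 - a * v) ≤ (128 : ℝ)) :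
    Closed.Strip.ChartSigns (b - a) (a + b) u v t := by
  obtain ⟨hl, hr⟩ := izLine39 hB hE hI0 (⟨hI, (inU_of (by norm_num) (by norm_num; linarith) (by norm_num; linarith)), (inU_of (by norm_num) (by norm_num; linarith) (by norm_num; linarith)), (inU_of (by norm_num) (by norm_num; linarith) (by norm_num; linarith)), by norm_num [Lines.denV, izM39] <;> linarith⟩ : InLines izM39 (42, 43, 320) (0, 1, 50) (15, 17, 20) a b u I r s)
  norm_num [afVal, Lines.denV, izM39] at hl hr
  refine izLeaf230.low rfl rfl hb hF hH hB hside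
    (⟨hI, (inU_of (by norm_num) (by norm_num; linarith) (by norm_num; linarith)), (inU_of (by norm_num) (by norm_num; linarith) (by norm_num; linarith)), (inU_of (by norm_num) (by norm_num; linarith) (by norm_num; linarith)), by norm_num [Lines.denV, izL230] <;> linarith⟩ : InLines izL230 (42, 43, 320) (0, 1, 50) (15, 17, 20) a b u I r s) ?_ ?_
  all_goals norm_num [afVal, Lines.denV, izL230] <;> linarith

/-- The signs in the piece 231. -/
theorem izAt231 {n : ℕ} {a b u v t H I r s : ℝ} (hb : Closed.All.ChartBox n (b - a) (a + b))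
    (hF : Closed.All.ChartFacts (b - a) (a + b) u v t)
    (hH : Closed.chH (b - a) (a + b) u v t = H) (hB : EndBands7 a b u v H)
    (hside : DLow a b) (hE : ExitLine a b u v) (hI : IPt a b u I r s) (hI0 : 0 < I)
    (q0l : (21 / 160 : ℝ) < I) (q0u : I ≤ (43 / 320 : ℝ)) (q1l : (0 : ℝ) < r) (q1u : r ≤ (1 / 50 : ℝ)) (q2l : (3 / 4 : ℝ) < s) (q2u : s ≤ (17 / 20 : ℝ)) (kl : (128 : ℝ) < (500 : ℝ) * (1 - a * v)) (ku : (500 : ℝ) * (1 - a * v) ≤ (160 : ℝ)) :
    Closed.Strip.ChartSigns (b - a) (a + b) u v t := by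
  obtain ⟨hl, hr⟩ := izLine39 hB hE hI0 (⟨hI, (inU_of (by norm_num) (by norm_num; linarith) (by norm_num; linarith)), (inU_of (by norm_num) (by norm_num; linarith) (by norm_num; linarith)), (inU_of (by norm_num) (by norm_num; linarith) (by norm_num; linarith)), by norm_num [Lines.denV, izM39] <;> linarith⟩ : InLines izM39 (42, 43, 320) (0, 1, 50) (15, 17, 20) a b u I r s)
  norm_num [afVal, Lines.denV, izM39] at hl hr
  refine izLeaf231.low rfl rfl hb hF hH hB hside
    (⟨hI, (inU_of (by norm_num) (by norm_num; linarith) (by norm_num; linarith)), (inU_of (by norm_num) (by norm_num; linarith) (by norm_num; linarith)), (inU_of (by norm_num) (by norm_num; linarith) (by norm_num; linarith)), by norm_num [Lines.denV, izL231] <;> linarith⟩ : InLines izL231 (42, 43, 320) (0, 1, 50) (15, 17, 20) a b u I r s) ?_ ?_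
  all_goals norm_num [afVal, Lines.denV, izL231] <;> linarith

/-- The signs in the piece 232. -/
theorem izAt232 {n : ℕ} {a b u v t H I r s : ℝ} (hb : Closed.All.ChartBox n (b - a) (a + b))
    (hF : Closed.All.ChartFacts (b - a) (a + b) u v t)
    (hH : Closed.chH (b - a) (a + b) u v t = H) (hB : EndBands7 a b u v H)
    (hside : DLow a b) (hE : ExitLine a b u v) (hI : IPt a b u I r s) (hI0 : 0 < I)
    (q0l : (21 / 160 : ℝ) < I) (q0u : I ≤ (43 / 320 : ℝ)) (q1l : (0 : ℝ) < r) (q1u : r ≤ (1 / 50 : ℝ)) (q2l : (3 / 4 : ℝ) < s) (q2u : s ≤ (17 / 20 : ℝ)) (kl : (160 : ℝ) < (500 : ℝ) * (1 - a * v)) (ku : (500 : ℝ) * (1 - a * v) ≤ (200 : ℝ)) :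
    Closed.Strip.ChartSigns (b - a) (a + b) u v t := by
  obtain ⟨hl, hr⟩ := izLine39 hB hE hI0 (⟨hI, (inU_of (by norm_num) (by norm_num; linarith) (by norm_num; linarith)), (inU_of (by norm_num) (by norm_num; linarith) (by norm_num; linarith)), (inU_of (by norm_num) (by norm_num; linarith) (by norm_num; linarith)), by norm_num [Lines.denV, izM39] <;> linarith⟩ : InLines izM39 (42, 43, 320) (0, 1, 50) (15, 17, 20) a b u I r s)
  norm_num [afVal, Lines.denV, izM39] at hl hr
  refine izLeaf232.low rfl rfl hb hF hH hB hside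
    (⟨hI, (inU_of (by norm_num) (by norm_num; linarith) (by norm_num; linarith)), (inU_of (by norm_num) (by norm_num; linarith) (by norm_num; linarith)), (inU_of (by norm_num) (by norm_num; linarith) (by norm_num; linarith)), by norm_num [Lines.denV, izL232] <;> linarith⟩ : InLines izL232 (42, 43, 320) (0, 1, 50) (15, 17, 20) a b u I r s) ?_ ?_
  all_goals norm_num [afVal, Lines.denV, izL232] <;> linarith

/-- The signs in the piece 233. -/
theorem izAt233 {n : ℕ} {a b u v t H I r s : ℝ} (hb : Closed.All.ChartBox n (b - a) (a + b))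
    (hF : Closed.All.ChartFacts (b - a) (a + b) u v t)
    (hH : Closed.chH (b - a) (a + b) u v t = H) (hB : EndBands7 a b u v H)
    (hside : DLow a b) (hE : ExitLine a b u v) (hI : IPt a b u I r s) (hI0 : 0 < I)
    (q0l : (17 / 128 : ℝ) < I) (q0u : I ≤ (43 / 320 : ℝ)) (q1l : (0 : ℝ) < r) (q1u : r ≤ (1 / 1600 : ℝ)) (q2l : (3 / 4 : ℝ) < s) (q2u : s ≤ (17 / 20 : ℝ)) (kl : (250 : ℝ) < (500 : ℝ) * (1 - a * v)) :
    Closed.Strip.ChartSigns (b - a) (a + b) u v t := by
  obtain ⟨hl, hr⟩ := izLine39 hB hE hI0 (⟨hI, (inU_of (by norm_num) (by norm_num; linarith) (by norm_num; linarith)), (inU_of (by norm_num) (by norm_num; linarith) (by norm_num; linarith)), (inU_of (by norm_num) (by norm_num; linarith) (by norm_num; linarith)), by norm_num [Lines.denV, izM39] <;> linarith⟩ : InLines izM39 (42, 43, 320) (0, 1, 50) (15, 17, 20) a b u I r s)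
  norm_num [afVal, Lines.denV, izM39] at hl hr
  refine izLeaf233.low rfl rfl hb hF hH hB hside
    (⟨hI, (inU_of (by norm_num) (by norm_num; linarith) (by norm_num; linarith)), (inU_of (by norm_num) (by norm_num; linarith) (by norm_num; linarith)), (inU_of (by norm_num) (by norm_num; linarith) (by norm_num; linarith)), by norm_num [Lines.denV, izL233] <;> linarith⟩ : InLines izL233 (85, 86, 640) (0, 1, 1600) (15, 17, 20) a b u I r s) ?_ ?_
  all_goals norm_num [afVal, Lines.denV, izL233] <;> linarith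

/-- The signs in the piece 234. -/
theorem izAt234 {n : ℕ} {a b u v t H I r s : ℝ} (hb : Closed.All.ChartBox n (b - a) (a + b))
    (hF : Closed.All.ChartFacts (b - a) (a + b) u v t)
    (hH : Closed.chH (b - a) (a + b) u v t = H) (hB : EndBands7 a b u v H)
    (hside : DLow a b) (hE : ExitLine a b u v) (hI : IPt a b u I r s) (hI0 : 0 < I)
    (q0l : (17 / 128 : ℝ) < I) (q0u : I ≤ (43 / 320 : ℝ)) (q1l : (1 / 1600 : ℝ) < r) (q1u : r ≤ (3 / 1600 : ℝ)) (q2l : (3 / 4 : ℝ) < s) (q2u : s ≤ (17 / 20 : ℝ)) (kl : (250 : ℝ) < (500 : ℝ) * (1 - a * v)) :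
    Closed.Strip.ChartSigns (b - a) (a + b) u v t := by
  obtain ⟨hl, hr⟩ := izLine39 hB hE hI0 (⟨hI, (inU_of (by norm_num) (by norm_num; linarith) (by norm_num; linarith)), (inU_of (by norm_num) (by norm_num; linarith) (by norm_num; linarith)), (inU_of (by norm_num) (by norm_num; linarith) (by norm_num; linarith)), by norm_num [Lines.denV, izM39] <;> linarith⟩ : InLines izM39 (42, 43, 320) (0, 1, 50) (15, 17, 20) a b u I r s)
  norm_num [afVal, Lines.denV, izM39] at hl hr
  refine izLeaf234.low rfl rfl hb hF hH hB hside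
    (⟨hI, (inU_of (by norm_num) (by norm_num; linarith) (by norm_num; linarith)), (inU_of (by norm_num) (by norm_num; linarith) (by norm_num; linarith)), (inU_of (by norm_num) (by norm_num; linarith) (by norm_num; linarith)), by norm_num [Lines.denV, izL234] <;> linarith⟩ : InLines izL234 (85, 86, 640) (1, 3, 1600) (15, 17, 20) a b u I r s) ?_ ?_
  all_goals norm_num [afVal, Lines.denV, izL234] <;> linarith

/-- The signs in the piece 235. -/
theorem izAt235 {n : ℕ} {a b u v t H I r s : ℝ} (hb : Closed.All.ChartBox n (b - a) (a + b))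
    (hF : Closed.All.ChartFacts (b - a) (a + b) u v t)
    (hH : Closed.chH (b - a) (a + b) u v t = H) (hB : EndBands7 a b u v H)
    (hside : DLow a b) (hE : ExitLine a b u v) (hI : IPt a b u I r s) (hI0 : 0 < I)
    (q0l : (17 / 128 : ℝ) < I) (q0u : I ≤ (43 / 320 : ℝ)) (q1l : (3 / 1600 : ℝ) < r) (q1u : r ≤ (1 / 160 : ℝ)) (q2l : (3 / 4 : ℝ) < s) (q2u : s ≤ (17 / 20 : ℝ)) (kl : (250 : ℝ) < (500 : ℝ) * (1 - a * v)) :
    Closed.Strip.ChartSigns (b - a) (a + b) u v t := by
  obtain ⟨hl, hr⟩ := izLine39 hB hE hI0 (⟨hI, (inU_of (by norm_num) (by norm_num; linarith) (by norm_num; linarith)), (inU_of (by norm_num) (by norm_num; linarith) (by norm_num; linarith)), (inU_of (by norm_num) (by norm_num; linarith) (by norm_num; linarith)), by norm_num [Lines.denV, izM39] <;> linarith⟩ : InLines izM39 (42, 43, 320) (0, 1, 50) (15, 17, 20) a b u I r s)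
  norm_num [afVal, Lines.denV, izM39] at hl hr
  refine izLeaf235.low rfl rfl hb hF hH hB hside
    (⟨hI, (inU_of (by norm_num) (by norm_num; linarith) (by norm_num; linarith)), (inU_of (by norm_num) (by norm_num; linarith) (by norm_num; linarith)), (inU_of (by norm_num) (by norm_num; linarith) (by norm_num; linarith)), by norm_num [Lines.denV, izL235] <;> linarith⟩ : InLines izL235 (85, 86, 640) (3, 10, 1600) (15, 17, 20) a b u I r s) ?_ ?_
  all_goals norm_num [afVal, Lines.denV, izL235] <;> linarith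

/-- The signs in the piece 236. -/
theorem izAt236 {n : ℕ} {a b u v t H I r s : ℝ} (hb : Closed.All.ChartBox n (b - a) (a + b))
    (hF : Closed.All.ChartFacts (b - a) (a + b) u v t)
    (hH : Closed.chH (b - a) (a + b) u v t = H) (hB : EndBands7 a b u v H)
    (hside : DLow a b) (hE : ExitLine a b u v) (hI : IPt a b u I r s) (hI0 : 0 < I)
    (q0l : (17 / 128 : ℝ) < I) (q0u : I ≤ (43 / 320 : ℝ)) (q1l : (1 / 160 : ℝ) < r) (q1u : r ≤ (1 / 50 : ℝ)) (q2l : (3 / 4 : ℝ) < s) (q2u : s ≤ (17 / 20 : ℝ)) (kl : (250 : ℝ) < (500 : ℝ) * (1 - a * v)) :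
    Closed.Strip.ChartSigns (b - a) (a + b) u v t := by
  obtain ⟨hl, hr⟩ := izLine39 hB hE hI0 (⟨hI, (inU_of (by norm_num) (by norm_num; linarith) (by norm_num; linarith)), (inU_of (by norm_num) (by norm_num; linarith) (by norm_num; linarith)), (inU_of (by norm_num) (by norm_num; linarith) (by norm_num; linarith)), by norm_num [Lines.denV, izM39] <;> linarith⟩ : InLines izM39 (42, 43, 320) (0, 1, 50) (15, 17, 20) a b u I r s)
  norm_num [afVal, Lines.denV, izM39] at hl hr
  refine izLeaf236.low rfl rfl hb hF hH hB hside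
    (⟨hI, (inU_of (by norm_num) (by norm_num; linarith) (by norm_num; linarith)), (inU_of (by norm_num) (by norm_num; linarith) (by norm_num; linarith)), (inU_of (by norm_num) (by norm_num; linarith) (by norm_num; linarith)), by norm_num [Lines.denV, izL236] <;> linarith⟩ : InLines izL236 (85, 86, 640) (5, 16, 800) (15, 17, 20) a b u I r s) ?_ ?_
  all_goals norm_num [afVal, Lines.denV, izL236] <;> linarith

/-- The signs in the piece 238. -/
theorem izAt238 {n : ℕ} {a b u v t H I r s : ℝ} (hb : Closed.All.ChartBox n (b - a) (a + b))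
    (hF : Closed.All.ChartFacts (b - a) (a + b) u v t)
    (hH : Closed.chH (b - a) (a + b) u v t = H) (hB : EndBands7 a b u v H)
    (hside : DLow a b) (hE : ExitLine a b u v) (hI : IPt a b u I r s) (hI0 : 0 < I)
    (q0l : (1 / 10 : ℝ) < I) (q0u : I ≤ (1 / 8 : ℝ)) (q1l : (1 / 50 : ℝ) < r) (q1u : r ≤ (3 / 20 : ℝ)) (q2l : (3 / 4 : ℝ) < s) (q2u : s ≤ (89 / 100 : ℝ)) :
    Closed.Strip.ChartSigns (b - a) (a + b) u v t := by
  obtain ⟨hl, hr⟩ := izLine70 hB hE hI0 (⟨hI, (inU_of (by norm_num) (by norm_num; linarith) (by norm_num; linarith)), (inU_of (by norm_num) (by norm_num; linarith) (by norm_num; linarith)), (inU_of (by norm_num) (by norm_num; linarith) (by norm_num; linarith)), by norm_num [Lines.denV, izM70] <;> linarith⟩ : InLines izM70 (4, 5, 40) (2, 15, 100) (75, 89, 100) a b u I r s)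
  norm_num [afVal, Lines.denV, izM70] at hl hr
  refine izLeaf238.low rfl rfl hb hF hH hB hside
    (⟨hI, (inU_of (by norm_num) (by norm_num; linarith) (by norm_num; linarith)), (inU_of (by norm_num) (by norm_num; linarith) (by norm_num; linarith)), (inU_of (by norm_num) (by norm_num; linarith) (by norm_num; linarith)), by norm_num [Lines.denV, izL238] <;> linarith⟩ : InLines izL238 (4, 5, 40) (2, 15, 100) (75, 89, 100) a b u I r s) ?_ ?_
  all_goals norm_num [afVal, Lines.denV, izL238] <;> linarith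

/-- The signs in the piece 239. -/
theorem izAt239 {n : ℕ} {a b u v t H I r s : ℝ} (hb : Closed.All.ChartBox n (b - a) (a + b))
    (hF : Closed.All.ChartFacts (b - a) (a + b) u v t)
    (hH : Closed.chH (b - a) (a + b) u v t = H) (hB : EndBands7 a b u v H)
    (hside : DLow a b) (hE : ExitLine a b u v) (hI : IPt a b u I r s) (hI0 : 0 < I)
    (q0l : (1 / 10 : ℝ) < I) (q0u : I ≤ (1 / 8 : ℝ)) (q1l : (3 / 20 : ℝ) < r) (q1u : r ≤ (1 : ℝ)) (q2l : (3 / 4 : ℝ) < s) (q2u : s ≤ (89 / 100 : ℝ)) :
    Closed.Strip.ChartSigns (b - a) (a + b) u v t := by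
  obtain ⟨hl, hr⟩ := izLine71 hB hE hI0 (⟨hI, (inU_of (by norm_num) (by norm_num; linarith) (by norm_num; linarith)), (inU_of (by norm_num) (by norm_num; linarith) (by norm_num; linarith)), (inU_of (by norm_num) (by norm_num; linarith) (by norm_num; linarith)), by norm_num [Lines.denV, izM71] <;> linarith⟩ : InLines izM71 (4, 5, 40) (3, 20, 20) (75, 89, 100) a b u I r s)
  norm_num [afVal, Lines.denV, izM71] at hl hr
  refine izLeaf239.low rfl rfl hb hF hH hB hside
    (⟨hI, (inU_of (by norm_num) (by norm_num; linarith) (by norm_num; linarith)), (inU_of (by norm_num) (by norm_num; linarith) (by norm_num; linarith)), (inU_of (by norm_num) (by norm_num; linarith) (by norm_num; linarith)), by norm_num [Lines.denV, izL239] <;> linarith⟩ : InLines izL239 (4, 5, 40) (3, 20, 20) (75, 89, 100) a b u I r s) ?_ ?_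
  all_goals norm_num [afVal, Lines.denV, izL239] <;> linarith

/-- The signs in the piece 240. -/
theorem izAt240 {n : ℕ} {a b u v t H I r s : ℝ} (hb : Closed.All.ChartBox n (b - a) (a + b))
    (hF : Closed.All.ChartFacts (b - a) (a + b) u v t)
    (hH : Closed.chH (b - a) (a + b) u v t = H) (hB : EndBands7 a b u v H)
    (hside : DLow a b) (hE : ExitLine a b u v) (hI : IPt a b u I r s) (hI0 : 0 < I)
    (q0l : (1 / 10 : ℝ) < I) (q0u : I ≤ (9 / 80 : ℝ)) (q1l : (1 / 160 : ℝ) < r) (q1u : r ≤ (3 / 400 : ℝ)) (q2l : (3 / 4 : ℝ) < s) (q2u : s ≤ (89 / 100 : ℝ)) (ku : (500 : ℝ) * (1 - a * v) ≤ (54 : ℝ)) :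
    Closed.Strip.ChartSigns (b - a) (a + b) u v t := by
  obtain ⟨hl, hr⟩ := izLine37 hB hE hI0 (⟨hI, (inU_of (by norm_num) (by norm_num; linarith) (by norm_num; linarith)), (inU_of (by norm_num) (by norm_num; linarith) (by norm_num; linarith)), (inU_of (by norm_num) (by norm_num; linarith) (by norm_num; linarith)), by norm_num [Lines.denV, izM37] <;> linarith⟩ : InLines izM37 (4, 5, 40) (0, 1, 50) (75, 89, 100) a b u I r s)
  norm_num [afVal, Lines.denV, izM37] at hl hr
  refine izLeaf240.low rfl rfl hb hF hH hB hside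
    (⟨hI, (inU_of (by norm_num) (by norm_num; linarith) (by norm_num; linarith)), (inU_of (by norm_num) (by norm_num; linarith) (by norm_num; linarith)), (inU_of (by norm_num) (by norm_num; linarith) (by norm_num; linarith)), by norm_num [Lines.denV, izL240] <;> linarith⟩ : InLines izL240 (8, 9, 80) (5, 6, 800) (75, 89, 100) a b u I r s) ?_ ?_
  all_goals norm_num [afVal, Lines.denV, izL240] <;> linarith

/-- The signs in the piece 241. -/
theorem izAt241 {n : ℕ} {a b u v t H I r s : ℝ} (hb : Closed.All.ChartBox n (b - a) (a + b))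
    (hF : Closed.All.ChartFacts (b - a) (a + b) u v t)
    (hH : Closed.chH (b - a) (a + b) u v t = H) (hB : EndBands7 a b u v H)
    (hside : DLow a b) (hE : ExitLine a b u v) (hI : IPt a b u I r s) (hI0 : 0 < I)
    (q0l : (9 / 80 : ℝ) < I) (q0u : I ≤ (1 / 8 : ℝ)) (q1l : (1 / 160 : ℝ) < r) (q1u : r ≤ (11 / 1600 : ℝ)) (q2l : (3 / 4 : ℝ) < s) (q2u : s ≤ (89 / 100 : ℝ)) (ku : (500 : ℝ) * (1 - a * v) ≤ (54 : ℝ)) :
    Closed.Strip.ChartSigns (b - a) (a + b) u v t := by
  obtain ⟨hl, hr⟩ := izLine37 hB hE hI0 (⟨hI, (inU_of (by norm_num) (by norm_num; linarith) (by norm_num; linarith)), (inU_of (by norm_num) (by norm_num; linarith) (by norm_num; linarith)), (inU_of (by norm_num) (by norm_num; linarith) (by norm_num; linarith)), by norm_num [Lines.denV, izM37] <;> linarith⟩ : InLines izM37 (4, 5, 40) (0, 1, 50) (75, 89, 100) a b u I r s)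
  norm_num [afVal, Lines.denV, izM37] at hl hr
  refine izLeaf241.low rfl rfl hb hF hH hB hside
    (⟨hI, (inU_of (by norm_num) (by norm_num; linarith) (by norm_num; linarith)), (inU_of (by norm_num) (by norm_num; linarith) (by norm_num; linarith)), (inU_of (by norm_num) (by norm_num; linarith) (by norm_num; linarith)), by norm_num [Lines.denV, izL241] <;> linarith⟩ : InLines izL241 (9, 10, 80) (10, 11, 1600) (75, 89, 100) a b u I r s) ?_ ?_
  all_goals norm_num [afVal, Lines.denV, izL241] <;> linarith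

/-- The signs in the piece 242. -/
theorem izAt242 {n : ℕ} {a b u v t H I r s : ℝ} (hb : Closed.All.ChartBox n (b - a) (a + b))
    (hF : Closed.All.ChartFacts (b - a) (a + b) u v t)
    (hH : Closed.chH (b - a) (a + b) u v t = H) (hB : EndBands7 a b u v H)
    (hside : DLow a b) (hE : ExitLine a b u v) (hI : IPt a b u I r s) (hI0 : 0 < I)
    (q0l : (9 / 80 : ℝ) < I) (q0u : I ≤ (1 / 8 : ℝ)) (q1l : (11 / 1600 : ℝ) < r) (q1u : r ≤ (3 / 400 : ℝ)) (q2l : (3 / 4 : ℝ) < s) (q2u : s ≤ (89 / 100 : ℝ)) (ku : (500 : ℝ) * (1 - a * v) ≤ (54 : ℝ)) :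
    Closed.Strip.ChartSigns (b - a) (a + b) u v t := by
  obtain ⟨hl, hr⟩ := izLine37 hB hE hI0 (⟨hI, (inU_of (by norm_num) (by norm_num; linarith) (by norm_num; linarith)), (inU_of (by norm_num) (by norm_num; linarith) (by norm_num; linarith)), (inU_of (by norm_num) (by norm_num; linarith) (by norm_num; linarith)), by norm_num [Lines.denV, izM37] <;> linarith⟩ : InLines izM37 (4, 5, 40) (0, 1, 50) (75, 89, 100) a b u I r s)
  norm_num [afVal, Lines.denV, izM37] at hl hr
  refine izLeaf242.low rfl rfl hb hF hH hB hside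
    (⟨hI, (inU_of (by norm_num) (by norm_num; linarith) (by norm_num; linarith)), (inU_of (by norm_num) (by norm_num; linarith) (by norm_num; linarith)), (inU_of (by norm_num) (by norm_num; linarith) (by norm_num; linarith)), by norm_num [Lines.denV, izL242] <;> linarith⟩ : InLines izL242 (9, 10, 80) (11, 12, 1600) (75, 89, 100) a b u I r s) ?_ ?_
  all_goals norm_num [afVal, Lines.denV, izL242] <;> linarith

/-- The signs in the piece 243. -/
theorem izAt243 {n : ℕ} {a b u v t H I r s : ℝ} (hb : Closed.All.ChartBox n (b - a) (a + b))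
    (hF : Closed.All.ChartFacts (b - a) (a + b) u v t)
    (hH : Closed.chH (b - a) (a + b) u v t = H) (hB : EndBands7 a b u v H)
    (hside : DLow a b) (hE : ExitLine a b u v) (hI : IPt a b u I r s) (hI0 : 0 < I)
    (q0l : (43 / 320 : ℝ) < I) (q0u : I ≤ (11 / 80 : ℝ)) (q1l : (1 / 160 : ℝ) < r) (q1u : r ≤ (1 / 50 : ℝ)) (q2l : (3 / 4 : ℝ) < s) (q2u : s ≤ (83 / 100 : ℝ)) :
    Closed.Strip.ChartSigns (b - a) (a + b) u v t := by
  obtain ⟨hl, hr⟩ := izLine72 hB hE hI0 (⟨hI, (inU_of (by norm_num) (by norm_num; linarith) (by norm_num; linarith)), (inU_of (by norm_num) (by norm_num; linarith) (by norm_num; linarith)), (inU_of (by norm_num) (by norm_num; linarith) (by norm_num; linarith)), by norm_num [Lines.denV, izM72] <;> linarith⟩ : InLines izM72 (43, 44, 320) (5, 16, 800) (75, 83, 100) a b u I r s)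
  norm_num [afVal, Lines.denV, izM72] at hl hr
  refine izLeaf243.low rfl rfl hb hF hH hB hside
    (⟨hI, (inU_of (by norm_num) (by norm_num; linarith) (by norm_num; linarith)), (inU_of (by norm_num) (by norm_num; linarith) (by norm_num; linarith)), (inU_of (by norm_num) (by norm_num; linarith) (by norm_num; linarith)), by norm_num [Lines.denV, izL243] <;> linarith⟩ : InLines izL243 (43, 44, 320) (5, 16, 800) (75, 83, 100) a b u I r s) ?_ ?_
  all_goals norm_num [afVal, Lines.denV, izL243] <;> linarith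

/-- The signs in the piece 244. -/
theorem izAt244 {n : ℕ} {a b u v t H I r s : ℝ} (hb : Closed.All.ChartBox n (b - a) (a + b))
    (hF : Closed.All.ChartFacts (b - a) (a + b) u v t)
    (hH : Closed.chH (b - a) (a + b) u v t = H) (hB : EndBands7 a b u v H)
    (hside : DLow a b) (hE : ExitLine a b u v) (hI : IPt a b u I r s) (hI0 : 0 < I)
    (q0l : (1 / 8 : ℝ) < I) (q0u : I ≤ (23 / 160 : ℝ)) (q1l : (3 / 20 : ℝ) < r) (q1u : r ≤ (2 / 5 : ℝ)) (q2l : (3 / 4 : ℝ) < s) (q2u : s ≤ (89 / 100 : ℝ)) :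
    Closed.Strip.ChartSigns (b - a) (a + b) u v t := by
  obtain ⟨hl, hr⟩ := izLine73 hB hE hI0 (⟨hI, (inU_of (by norm_num) (by norm_num; linarith) (by norm_num; linarith)), (inU_of (by norm_num) (by norm_num; linarith) (by norm_num; linarith)), (inU_of (by norm_num) (by norm_num; linarith) (by norm_num; linarith)), by norm_num [Lines.denV, izM73] <;> linarith⟩ : InLines izM73 (20, 23, 160) (3, 20, 20) (75, 89, 100) a b u I r s)
  norm_num [afVal, Lines.denV, izM73] at hl hr
  refine izLeaf244.low rfl rfl hb hF hH hB hside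
    (⟨hI, (inU_of (by norm_num) (by norm_num; linarith) (by norm_num; linarith)), (inU_of (by norm_num) (by norm_num; linarith) (by norm_num; linarith)), (inU_of (by norm_num) (by norm_num; linarith) (by norm_num; linarith)), by norm_num [Lines.denV, izL244] <;> linarith⟩ : InLines izL244 (20, 23, 160) (3, 8, 20) (75, 89, 100) a b u I r s) ?_ ?_
  all_goals norm_num [afVal, Lines.denV, izL244] <;> linarith

/-- The signs in the piece 245. -/
theorem izAt245 {n : ℕ} {a b u v t H I r s : ℝ} (hb : Closed.All.ChartBox n (b - a) (a + b))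
    (hF : Closed.All.ChartFacts (b - a) (a + b) u v t)
    (hH : Closed.chH (b - a) (a + b) u v t = H) (hB : EndBands7 a b u v H)
    (hside : DLow a b) (hE : ExitLine a b u v) (hI : IPt a b u I r s) (hI0 : 0 < I)
    (q0l : (1 / 8 : ℝ) < I) (q0u : I ≤ (23 / 160 : ℝ)) (q1l : (2 / 5 : ℝ) < r) (q1u : r ≤ (1 : ℝ)) (q2l : (3 / 4 : ℝ) < s) (q2u : s ≤ (89 / 100 : ℝ)) :
    Closed.Strip.ChartSigns (b - a) (a + b) u v t := by
  obtain ⟨hl, hr⟩ := izLine73 hB hE hI0 (⟨hI, (inU_of (by norm_num) (by norm_num; linarith) (by norm_num; linarith)), (inU_of (by norm_num) (by norm_num; linarith) (by norm_num; linarith)), (inU_of (by norm_num) (by norm_num; linarith) (by norm_num; linarith)), by norm_num [Lines.denV, izM73] <;> linarith⟩ : InLines izM73 (20, 23, 160) (3, 20, 20) (75, 89, 100) a b u I r s)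
  norm_num [afVal, Lines.denV, izM73] at hl hr
  refine izLeaf245.low rfl rfl hb hF hH hB hside
    (⟨hI, (inU_of (by norm_num) (by norm_num; linarith) (by norm_num; linarith)), (inU_of (by norm_num) (by norm_num; linarith) (by norm_num; linarith)), (inU_of (by norm_num) (by norm_num; linarith) (by norm_num; linarith)), by norm_num [Lines.denV, izL245] <;> linarith⟩ : InLines izL245 (20, 23, 160) (2, 5, 5) (75, 89, 100) a b u I r s) ?_ ?_
  all_goals norm_num [afVal, Lines.denV, izL245] <;> linarith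

/-- The signs in the piece 246. -/
theorem izAt246 {n : ℕ} {a b u v t H I r s : ℝ} (hb : Closed.All.ChartBox n (b - a) (a + b))
    (hF : Closed.All.ChartFacts (b - a) (a + b) u v t)
    (hH : Closed.chH (b - a) (a + b) u v t = H) (hB : EndBands7 a b u v H)
    (hside : DLow a b) (hE : ExitLine a b u v) (hI : IPt a b u I r s) (hI0 : 0 < I)
    (q0l : (3 / 40 : ℝ) < I) (q0u : I ≤ (1 / 10 : ℝ)) (q1l : (1 / 50 : ℝ) < r) (q1u : r ≤ (3 / 20 : ℝ)) (q2l : (3 / 4 : ℝ) < s) (q2u : s ≤ (19 / 20 : ℝ)) :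
    Closed.Strip.ChartSigns (b - a) (a + b) u v t := by
  obtain ⟨hl, hr⟩ := izLine74 hB hE hI0 (⟨hI, (inU_of (by norm_num) (by norm_num; linarith) (by norm_num; linarith)), (inU_of (by norm_num) (by norm_num; linarith) (by norm_num; linarith)), (inU_of (by norm_num) (by norm_num; linarith) (by norm_num; linarith)), by norm_num [Lines.denV, izM74] <;> linarith⟩ : InLines izM74 (3, 4, 40) (1, 50, 50) (15, 19, 20) a b u I r s)
  norm_num [afVal, Lines.denV, izM74] at hl hr
  refine izLeaf246.low rfl rfl hb hF hH hB hside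
    (⟨hI, (inU_of (by norm_num) (by norm_num; linarith) (by norm_num; linarith)), (inU_of (by norm_num) (by norm_num; linarith) (by norm_num; linarith)), (inU_of (by norm_num) (by norm_num; linarith) (by norm_num; linarith)), by norm_num [Lines.denV, izL246] <;> linarith⟩ : InLines izL246 (3, 4, 40) (2, 15, 100) (15, 19, 20) a b u I r s) ?_ ?_
  all_goals norm_num [afVal, Lines.denV, izL246] <;> linarith

/-- The signs in the piece 247. -/
theorem izAt247 {n : ℕ} {a b u v t H I r s : ℝ} (hb : Closed.All.ChartBox n (b - a) (a + b))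
    (hF : Closed.All.ChartFacts (b - a) (a + b) u v t)
    (hH : Closed.chH (b - a) (a + b) u v t = H) (hB : EndBands7 a b u v H)
    (hside : DLow a b) (hE : ExitLine a b u v) (hI : IPt a b u I r s) (hI0 : 0 < I)
    (q0l : (3 / 40 : ℝ) < I) (q0u : I ≤ (7 / 80 : ℝ)) (q1l : (3 / 20 : ℝ) < r) (q1u : r ≤ (1 : ℝ)) (q2l : (3 / 4 : ℝ) < s) (q2u : s ≤ (19 / 20 : ℝ)) :
    Closed.Strip.ChartSigns (b - a) (a + b) u v t := by
  obtain ⟨hl, hr⟩ := izLine74 hB hE hI0 (⟨hI, (inU_of (by norm_num) (by norm_num; linarith) (by norm_num; linarith)), (inU_of (by norm_num) (by norm_num; linarith) (by norm_num; linarith)), (inU_of (by norm_num) (by norm_num; linarith) (by norm_num; linarith)), by norm_num [Lines.denV, izM74] <;> linarith⟩ : InLines izM74 (3, 4, 40) (1, 50, 50) (15, 19, 20) a b u I r s)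
  norm_num [afVal, Lines.denV, izM74] at hl hr
  refine izLeaf247.low rfl rfl hb hF hH hB hside
    (⟨hI, (inU_of (by norm_num) (by norm_num; linarith) (by norm_num; linarith)), (inU_of (by norm_num) (by norm_num; linarith) (by norm_num; linarith)), (inU_of (by norm_num) (by norm_num; linarith) (by norm_num; linarith)), by norm_num [Lines.denV, izL247] <;> linarith⟩ : InLines izL247 (6, 7, 80) (3, 20, 20) (15, 19, 20) a b u I r s) ?_ ?_
  all_goals norm_num [afVal, Lines.denV, izL247] <;> linarith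

/-- The signs in the piece 248. -/
theorem izAt248 {n : ℕ} {a b u v t H I r s : ℝ} (hb : Closed.All.ChartBox n (b - a) (a + b))
    (hF : Closed.All.ChartFacts (b - a) (a + b) u v t)
    (hH : Closed.chH (b - a) (a + b) u v t = H) (hB : EndBands7 a b u v H)
    (hside : DLow a b) (hE : ExitLine a b u v) (hI : IPt a b u I r s) (hI0 : 0 < I)
    (q0l : (7 / 80 : ℝ) < I) (q0u : I ≤ (3 / 32 : ℝ)) (q1l : (3 / 20 : ℝ) < r) (q1u : r ≤ (1 : ℝ)) (q2l : (3 / 4 : ℝ) < s) (q2u : s ≤ (19 / 20 : ℝ)) :
    Closed.Strip.ChartSigns (b - a) (a + b) u v t := by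
  obtain ⟨hl, hr⟩ := izLine74 hB hE hI0 (⟨hI, (inU_of (by norm_num) (by norm_num; linarith) (by norm_num; linarith)), (inU_of (by norm_num) (by norm_num; linarith) (by norm_num; linarith)), (inU_of (by norm_num) (by norm_num; linarith) (by norm_num; linarith)), by norm_num [Lines.denV, izM74] <;> linarith⟩ : InLines izM74 (3, 4, 40) (1, 50, 50) (15, 19, 20) a b u I r s)
  norm_num [afVal, Lines.denV, izM74] at hl hr
  refine izLeaf248.low rfl rfl hb hF hH hB hside
    (⟨hI, (inU_of (by norm_num) (by norm_num; linarith) (by norm_num; linarith)), (inU_of (by norm_num) (by norm_num; linarith) (by norm_num; linarith)), (inU_of (by norm_num) (by norm_num; linarith) (by norm_num; linarith)), by norm_num [Lines.denV, izL248] <;> linarith⟩ : InLines izL248 (14, 15, 160) (3, 20, 20) (15, 19, 20) a b u I r s) ?_ ?_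
  all_goals norm_num [afVal, Lines.denV, izL248] <;> linarith

/-- The signs in the piece 249. -/
theorem izAt249 {n : ℕ} {a b u v t H I r s : ℝ} (hb : Closed.All.ChartBox n (b - a) (a + b))
    (hF : Closed.All.ChartFacts (b - a) (a + b) u v t)
    (hH : Closed.chH (b - a) (a + b) u v t = H) (hB : EndBands7 a b u v H)
    (hside : DLow a b) (hE : ExitLine a b u v) (hI : IPt a b u I r s) (hI0 : 0 < I)
    (q0l : (3 / 32 : ℝ) < I) (q0u : I ≤ (1 / 10 : ℝ)) (q1l : (3 / 20 : ℝ) < r) (q1u : r ≤ (2 / 5 : ℝ)) (q2l : (3 / 4 : ℝ) < s) (q2u : s ≤ (19 / 20 : ℝ)) :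
    Closed.Strip.ChartSigns (b - a) (a + b) u v t := by
  obtain ⟨hl, hr⟩ := izLine74 hB hE hI0 (⟨hI, (inU_of (by norm_num) (by norm_num; linarith) (by norm_num; linarith)), (inU_of (by norm_num) (by norm_num; linarith) (by norm_num; linarith)), (inU_of (by norm_num) (by norm_num; linarith) (by norm_num; linarith)), by norm_num [Lines.denV, izM74] <;> linarith⟩ : InLines izM74 (3, 4, 40) (1, 50, 50) (15, 19, 20) a b u I r s)
  norm_num [afVal, Lines.denV, izM74] at hl hr
  refine izLeaf249.low rfl rfl hb hF hH hB hside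
    (⟨hI, (inU_of (by norm_num) (by norm_num; linarith) (by norm_num; linarith)), (inU_of (by norm_num) (by norm_num; linarith) (by norm_num; linarith)), (inU_of (by norm_num) (by norm_num; linarith) (by norm_num; linarith)), by norm_num [Lines.denV, izL249] <;> linarith⟩ : InLines izL249 (15, 16, 160) (3, 8, 20) (15, 19, 20) a b u I r s) ?_ ?_
  all_goals norm_num [afVal, Lines.denV, izL249] <;> linarith

end Vale.Agent.P100.Calib.StripEndD
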