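import Vale.Agent.P100.Calib.SlabStripEndDExpr
import Vale.Agent.P100.Calib.SlabStripEndCert

/-!
# The piece 250 of the strip for `u` near one at small `d / I`
-/

namespace Vale.Agent.P100.Calib.StripEndD

open Pack hiding ev_add ev_mul
open Pack.Ex StripMid StripEnd

local instance endIZ7P250Add : Add Ex := ⟨Ex.add⟩
local instance endIZ7P250Sub : Sub Ex := ⟨Ex.sub⟩
local instance endIZ7P250Mul : Mul Ex := ⟨Ex.mul⟩

/-- The piece `Iz250`. -/
def pcIz250 : Piece where
  I := (var 0)
  d := (var 0) * (var 2)
  w := ((var 0) * (var 1))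
  o := (((num 37) + (num (-9) * (var 1))) + ((num 57) + (num (-25) * (var 1))) * (var 3))
  den := ((num 100) + (num 50 * (var 1)))
  vn := num 2 * (((num 37) + (num (-9) * (var 1))) + ((num 57) + (num (-25) * (var 1))) * (var 3))
  vs := (num 1 - num 2 * (var 0) - (var 0) * (var 2))
  mu := ⟨(82, 50), (132, 50)⟩
  pn := fun b => cond b
    (num 50 * (((num 100) + (num 50 * (var 1))) - (((num 37) + (num (-9) * (var 1))) + ((num 57) + (num (-25) * (var 1))) * (var 3))) + num (-132) * ((((num 37) + (num (-9) * (var 1))) + ((num 57) + (num (-25) * (var 1))) * (var 3)) * ((var 0) * (var 1))))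
    (num 50 * (((num 100) + (num 50 * (var 1))) - (((num 37) + (num (-9) * (var 1))) + ((num 57) + (num (-25) * (var 1))) * (var 3))) + num (-82) * ((((num 37) + (num (-9) * (var 1))) + ((num 57) + (num (-25) * (var 1))) * (var 3)) * ((var 0) * (var 1))))
  pd := num 50
  en := fun b => cond b
    (((num 28365) + (num 80196 * (var 0))) * (num 4 * (var 0) * (((num 100) + (num 50 * (var 1))) - (((num 37) + (num (-9) * (var 1))) + ((num 57) + (num (-25) * (var 1))) * (var 3))) * ((var 2) + num 3 * (var 0)) + (var 1) * ((num 100) + (num 50 * (var 1))) * (num 1 + num 20 * ((var 0) * (var 2)))))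
    (((num 23809) + (num 80196 * (var 0))) * (num 4 * (var 0) * (((num 100) + (num 50 * (var 1))) - (((num 37) + (num (-9) * (var 1))) + ((num 57) + (num (-25) * (var 1))) * (var 3))) * ((var 2) + num 3 * (var 0)) + (var 1) * ((num 100) + (num 50 * (var 1))) * (num 1 + num 20 * ((var 0) * (var 2)))))
  kk := fun b => cond b
    (((num 4266) + (num 14524 * (var 2))) * (((var 0) * (var 1)) * (num 4 * ((num 100) + (num 50 * (var 1))) * ((var 2) + num 3 * (var 0)))))
    (((num 1477) + (num 14524 * (var 2))) * (((var 0) * (var 1)) * (num 4 * ((num 100) + (num 50 * (var 1))) * ((var 2) + num 3 * (var 0)))))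
  f0 := num 8000 * ((num 100) + (num 50 * (var 1))) * ((var 2) + num 3 * (var 0))
  wn := fun b => cond b
    (((num (-11692) * ((var 0) * (((num 100) + (num 50 * (var 1))) - (((num 37) + (num (-9) * (var 1))) + ((num 57) + (num (-25) * (var 1))) * (var 3))))) + (num 11956 * (((var 0) * (var 1)) * (((num 37) + (num (-9) * (var 1))) + ((num 57) + (num (-25) * (var 1))) * (var 3)))) + (num (-932) * (((var 0) * (var 1)) * ((num 100) + (num 50 * (var 1))))) + (num 1568 * ((var 0) * (var 2) * (((num 100) + (num 50 * (var 1))) - (((num 37) + (num (-9) * (var 1))) + ((num 57) + (num (-25) * (var 1))) * (var 3)))))))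
    (((num (-12205) * ((var 0) * (((num 100) + (num 50 * (var 1))) - (((num 37) + (num (-9) * (var 1))) + ((num 57) + (num (-25) * (var 1))) * (var 3))))) + (num 11956 * (((var 0) * (var 1)) * (((num 37) + (num (-9) * (var 1))) + ((num 57) + (num (-25) * (var 1))) * (var 3)))) + (num (-1445) * (((var 0) * (var 1)) * ((num 100) + (num 50 * (var 1))))) + (num 1568 * ((var 0) * (var 2) * (((num 100) + (num 50 * (var 1))) - (((num 37) + (num (-9) * (var 1))) + ((num 57) + (num (-25) * (var 1))) * (var 3)))))))
  wd := num 1000 * ((num 100) + (num 50 * (var 1)))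
  tn := fun b => cond b
    (num 9950 * ((var 1) * ((num 100) + (num 50 * (var 1)))))
    (num 8704 * ((var 1) * ((num 100) + (num 50 * (var 1)))))
  td := num 8000 * ((var 1) * ((num 100) + (num 50 * (var 1))) + num 2 * (var 2) * (((num 100) + (num 50 * (var 1))) - (((num 37) + (num (-9) * (var 1))) + ((num 57) + (num (-25) * (var 1))) * (var 3))))
  cn := num 0
  cd := num 1
  kn := ((num 448) + (num 5761 * (var 0)) + (num (-273) * (var 1)) + (num (-165) * (var 2)) + (num 1293 * (var 3)) + (num (-2356) * ((var 1) * (var 3))) + (num 991 * ((var 2) * (var 3))) + (num 4845 * ((var 0) * (var 3))))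
  kd := num 256
  k2n := ((num (-1073)) + (num 6736 * (var 0)) + (num 1092 * (var 2)))
  k2d := num 1024

/-- Its ranges. -/
def bxIz250 : StripEnd.EBox :=
  ⟨(15, 16, 160), (2, 5, 5), (15, 19, 20), (0, 1, 1)⟩

end Vale.Agent.P100.Calib.StripEndD
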