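import Vale.Agent.P100.Calib.SlabStripEndIZ7G400ff
import Vale.Agent.P100.Calib.SlabStripEndIZ7G400ft
import Vale.Agent.P100.Calib.SlabStripEndIZ7G400tf
import Vale.Agent.P100.Calib.SlabStripEndIZ7G400tt
import Vale.Agent.P100.Calib.SlabStripEndIZ7F400ff
import Vale.Agent.P100.Calib.SlabStripEndIZ7F400ft
import Vale.Agent.P100.Calib.SlabStripEndIZ7F400tf
import Vale.Agent.P100.Calib.SlabStripEndIZ7F400tt

/-!
# A piece of the `I` and `Z` charts for `N` between seven and twenty: 400, the certificate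
-/

namespace Vale.Agent.P100.Calib.StripEndD

open Pack hiding ev_add ev_mul
open Pack.Ex StripMid StripEnd

local instance endIZ7K400Add : Add Ex := ⟨Ex.add⟩
local instance endIZ7K400Sub : Sub Ex := ⟨Ex.sub⟩
local instance endIZ7K400Mul : Mul Ex := ⟨Ex.mul⟩

/-- The second condition at the ends, all of them. -/
theorem certIz400_g2 : ∀ s p l t : Bool, checkSgn bxIz400.C 541 17 14 20 14
    (strictPow 14 (pcIz400.at ⟨p, l, true, true, t⟩ (c2 s))) = true := by
  intro s p l
  cases p <;> cases l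
  exacts [certIz400_g2FF s, certIz400_g2FT s, certIz400_g2TF s, certIz400_g2TT s]

/-- The fifth condition at the ends, all of them. -/
theorem certIz400_g5 : ∀ s p l t : Bool, checkSgn bxIz400.C 602 20 14 19 14
    (strictPow 14 (pcIz400.at ⟨p, l, true, true, t⟩ (c5 s))) = true := by
  intro s p l
  cases p <;> cases l
  exacts [certIz400_g5FF s, certIz400_g5FT s, certIz400_g5TF s, certIz400_g5TT s]

/-- **The certificate of `pcIz400`.** -/
theorem certIz400 : CertV pcIz400 bxIz400 := by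
  have h_kn : checkSgn bxIz400.C 39 1 1 1 1
      pcIz400.kn = true := by decide +kernel
  have h_vs : checkSgn bxIz400.C 137 3 3 3 0
      (strictVar pcIz400.vs) = true := by decide +kernel
  have h_g1 : ∀ s p l : Bool, checkSgn bxIz400.C 250 9 6 7 5
      (pcIz400.at ⟨p, l, !s, !s, false⟩ (c1 s)) = true := by decide +kernel
  have h_gMG : ∀ p l t : Bool, checkSgn bxIz400.C 436 17 9 14 9
      (pcIz400.at ⟨p, l, true, false, t⟩ tplMG) = true := by decide +kernel
  have h_v2 : ∀ s : Bool, checkSgn bxIz400.C 235 6 7 9 7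
      (pcIz400.at ⟨false, false, true, true, false⟩ (curve2 s)) = true := by decide +kernel
  have h_v5 : ∀ s : Bool, checkSgn bxIz400.C 242 7 7 10 7
      (pcIz400.at ⟨false, false, true, true, false⟩ (curve5 s)) = true := by decide +kernel
  have h_vMG : checkSgn bxIz400.C 143 6 4 6 4
      (pcIz400.at ⟨false, false, true, true, false⟩ Piece.curveMG) = true := by decide +kernel
  have h_wP : ∀ b q : Bool, checkSgn bxIz400.C 44 1 2 0 1
      (pcIz400.winP b q) = true := by decide +kernel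
  have h_wE : ∀ b q : Bool, checkSgn bxIz400.C 226 13 4 9 3
      (pcIz400.winE b q) = true := by decide +kernel
  have h_wK : ∀ b q : Bool, checkSgn bxIz400.C 209 13 4 9 2
      (pcIz400.winK b q) = true := by decide +kernel
  have h_wT : ∀ b q : Bool, checkSgn bxIz400.C 165 7 5 5 3
      (pcIz400.winT b q) = true := by decide +kernel
  have h_wW : ∀ b : Bool, checkSgn bxIz400.C 162 7 5 4 3
      (pcIz400.winW b) = true := by decide +kernel
  have h_wY : ∀ b : Bool, checkSgn bxIz400.C 369 19 8 14 5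
      (pcIz400.winY b) = true := by decide +kernel
  have h_gap : ∀ b q : Bool, checkSgn bxIz400.C 423 23 9 18 7
      (pcIz400.gap b q) = true := by decide +kernel
  exact {
    pos := ⟨⟨by decide, by decide⟩⟩
    low := by decide
    sgns := fun f => by
      cases f
      · exact Or.inl ⟨133, 3, 3, 3, 0, by decide +kernel⟩
      · exact Or.inl ⟨129, 3, 3, 3, 0, by decide +kernel⟩
      · exact Or.inl ⟨137, 3, 3, 3, 0, by decide +kernel⟩
      · exact Or.inl ⟨137, 3, 3, 3, 0, by decide +kernel⟩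
      · exact Or.inl ⟨136, 3, 3, 3, 0, by decide +kernel⟩
      · exact Or.inl ⟨145, 3, 3, 3, 0, by decide +kernel⟩
      · exact Or.inl ⟨146, 3, 3, 3, 1, by decide +kernel⟩
      · exact Or.inl ⟨147, 3, 3, 3, 1, by decide +kernel⟩
      · exact Or.inl ⟨142, 3, 3, 3, 0, by decide +kernel⟩
      · exact Or.inl ⟨160, 3, 3, 3, 1, by decide +kernel⟩
      · exact Or.inl ⟨157, 3, 3, 3, 0, by decide +kernel⟩
      · exact Or.inl ⟨155, 3, 3, 3, 0, by decide +kernel⟩
      · exact Or.inl ⟨157, 3, 3, 3, 1, by decide +kernel⟩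
      · exact Or.inl ⟨136, 3, 3, 3, 0, by decide +kernel⟩
      · exact Or.inl ⟨153, 3, 3, 3, 1, by decide +kernel⟩
    k2n := Or.inl ⟨204, 3, 4, 4, 4, by decide +kernel⟩
    k2d := Or.inl ⟨187, 3, 3, 3, 3, by decide +kernel⟩
    kn := ⟨_, _, _, _, _, checkFour_of_sgn h_kn⟩
    vs := ⟨_, _, _, _, _, checkFour_of_sgn h_vs⟩
    g1 := fun s p l => ⟨_, _, _, _, _, checkFour_of_sgn (h_g1 s p l)⟩
    gMG := fun p l t => ⟨_, _, _, _, _, checkFour_of_sgn (h_gMG p l t)⟩
    v2 := fun s => ⟨_, _, _, _, _, checkFour_of_sgn (h_v2 s)⟩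
    v5 := fun s => ⟨_, _, _, _, _, checkFour_of_sgn (h_v5 s)⟩
    vMG := ⟨_, _, _, _, _, checkFour_of_sgn h_vMG⟩
    wP := fun b q => ⟨_, _, _, _, _, checkFour_of_sgn (h_wP b q)⟩
    wE := fun b q => ⟨_, _, _, _, _, checkFour_of_sgn (h_wE b q)⟩
    wK := fun b q => ⟨_, _, _, _, _, checkFour_of_sgn (h_wK b q)⟩
    wT := fun b q => ⟨_, _, _, _, _, checkFour_of_sgn (h_wT b q)⟩
    wW := fun b => ⟨_, _, _, _, _, checkFour_of_sgn (h_wW b)⟩
    wY := fun b => ⟨_, _, _, _, _, checkFour_of_sgn (h_wY b)⟩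
    gap := fun b q => ⟨_, _, _, _, _, checkFour_of_sgn (h_gap b q)⟩
    g2 := fun s p l t => ⟨_, _, _, _, _, _, checkFour_of_sgn (certIz400_g2 s p l t)⟩
    g5 := fun s p l t => ⟨_, _, _, _, _, _, checkFour_of_sgn (certIz400_g5 s p l t)⟩ }

end Vale.Agent.P100.Calib.StripEndD
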