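import Vale.Agent.P100.Calib.SlabStripEndIZ7P404

/-!
# A piece of the `I` and `Z` charts for `N` between seven and twenty: 404, a part of the checks
-/

namespace Vale.Agent.P100.Calib.StripEndD

open Pack hiding ev_add ev_mul
open Pack.Ex StripMid StripEnd

local instance endIZ7G404tAdd : Add Ex := ⟨Ex.add⟩
local instance endIZ7G404tSub : Sub Ex := ⟨Ex.sub⟩
local instance endIZ7G404tMul : Mul Ex := ⟨Ex.mul⟩

/-- The second condition at the ends. -/
theorem certIz404_g2T : ∀ s l t : Bool, checkSgn bxIz404.C 501 17 11 17 11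
    (strictPow 11 (pcIz404.at ⟨true, l, true, true, t⟩ (c2 s))) = true := by decide +kernel

end Vale.Agent.P100.Calib.StripEndD
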