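import Vale.Agent.P100.Calib.SlabStripEndIZ7G404f
import Vale.Agent.P100.Calib.SlabStripEndIZ7G404t
import Vale.Agent.P100.Calib.SlabStripEndIZ7F404f
import Vale.Agent.P100.Calib.SlabStripEndIZ7F404t

/-!
# A piece of the `I` and `Z` charts for `N` between seven and twenty: 404, the certificate
-/

namespace Vale.Agent.P100.Calib.StripEndD

open Pack hiding ev_add ev_mul
open Pack.Ex StripMid StripEnd

local instance endIZ7K404Add : Add Ex := ⟨Ex.add⟩
local instance endIZ7K404Sub : Sub Ex := ⟨Ex.sub⟩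
local instance endIZ7K404Mul : Mul Ex := ⟨Ex.mul⟩

/-- The second condition at the ends, all of them. -/
theorem certIz404_g2 : ∀ s p l t : Bool, checkSgn bxIz404.C 501 17 11 17 11
    (strictPow 11 (pcIz404.at ⟨p, l, true, true, t⟩ (c2 s))) = true := by
  intro s p
  cases p
  exacts [certIz404_g2F s, certIz404_g2T s]

/-- The fifth condition at the ends, all of them. -/
theorem certIz404_g5 : ∀ s p l t : Bool, checkSgn bxIz404.C 549 18 11 16 11
    (strictPow 11 (pcIz404.at ⟨p, l, true, true, t⟩ (c5 s))) = true := by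
  intro s p
  cases p
  exacts [certIz404_g5F s, certIz404_g5T s]

/-- **The certificate of `pcIz404`.** -/
theorem certIz404 : CertV pcIz404 bxIz404 := by
  have h_kn : checkSgn bxIz404.C 43 1 1 1 1
      pcIz404.kn = true := by decide +kernel
  have h_vs : checkSgn bxIz404.C 143 3 3 3 0
      (strictVar pcIz404.vs) = true := by decide +kernel
  have h_g1 : ∀ s p l : Bool, checkSgn bxIz404.C 267 9 6 7 5
      (pcIz404.at ⟨p, l, !s, !s, false⟩ (c1 s)) = true := by decide +kernel
  have h_gMG : ∀ p l t : Bool, checkSgn bxIz404.C 469 17 9 14 9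
      (pcIz404.at ⟨p, l, true, false, t⟩ tplMG) = true := by decide +kernel
  have h_v2 : ∀ s : Bool, checkSgn bxIz404.C 166 6 4 6 4
      (pcIz404.at ⟨false, false, true, true, false⟩ (curve2 s)) = true := by decide +kernel
  have h_v5 : ∀ s : Bool, checkSgn bxIz404.C 177 7 4 7 4
      (pcIz404.at ⟨false, false, true, true, false⟩ (curve5 s)) = true := by decide +kernel
  have h_vMG : checkSgn bxIz404.C 155 6 4 6 4
      (pcIz404.at ⟨false, false, true, true, false⟩ Piece.curveMG) = true := by decide +kernel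
  have h_wP : ∀ b q : Bool, checkSgn bxIz404.C 44 1 2 0 1
      (pcIz404.winP b q) = true := by decide +kernel
  have h_wE : ∀ b q : Bool, checkSgn bxIz404.C 245 13 4 9 3
      (pcIz404.winE b q) = true := by decide +kernel
  have h_wK : ∀ b q : Bool, checkSgn bxIz404.C 231 13 4 9 2
      (pcIz404.winK b q) = true := by decide +kernel
  have h_wT : ∀ b q : Bool, checkSgn bxIz404.C 177 7 5 5 3
      (pcIz404.winT b q) = true := by decide +kernel
  have h_wW : ∀ b : Bool, checkSgn bxIz404.C 170 7 5 4 3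
      (pcIz404.winW b) = true := by decide +kernel
  have h_wY : ∀ b : Bool, checkSgn bxIz404.C 400 19 8 14 5
      (pcIz404.winY b) = true := by decide +kernel
  have h_gap : ∀ b q : Bool, checkSgn bxIz404.C 462 23 9 18 7
      (pcIz404.gap b q) = true := by decide +kernel
  exact {
    pos := ⟨⟨by decide, by decide⟩⟩
    low := by decide
    sgns := fun f => by
      cases f
      · exact Or.inl ⟨139, 3, 3, 3, 0, by decide +kernel⟩
      · exact Or.inl ⟨138, 3, 3, 3, 0, by decide +kernel⟩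
      · exact Or.inl ⟨143, 3, 3, 3, 0, by decide +kernel⟩
      · exact Or.inl ⟨143, 3, 3, 3, 0, by decide +kernel⟩
      · exact Or.inl ⟨142, 3, 3, 3, 0, by decide +kernel⟩
      · exact Or.inl ⟨151, 3, 3, 3, 0, by decide +kernel⟩
      · exact Or.inl ⟨152, 3, 3, 3, 1, by decide +kernel⟩
      · exact Or.inl ⟨153, 3, 3, 3, 1, by decide +kernel⟩
      · exact Or.inl ⟨148, 3, 3, 3, 0, by decide +kernel⟩
      · exact Or.inl ⟨167, 3, 3, 3, 1, by decide +kernel⟩
      · exact Or.inl ⟨164, 3, 3, 3, 0, by decide +kernel⟩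
      · exact Or.inl ⟨161, 3, 3, 3, 0, by decide +kernel⟩
      · exact Or.inl ⟨166, 3, 3, 3, 1, by decide +kernel⟩
      · exact Or.inl ⟨142, 3, 3, 3, 0, by decide +kernel⟩
      · exact Or.inl ⟨160, 3, 3, 3, 1, by decide +kernel⟩
    k2n := Or.inl ⟨153, 3, 3, 3, 1, by decide +kernel⟩
    k2d := Or.inl ⟨149, 3, 3, 3, 0, by decide +kernel⟩
    kn := ⟨_, _, _, _, _, checkFour_of_sgn h_kn⟩
    vs := ⟨_, _, _, _, _, checkFour_of_sgn h_vs⟩
    g1 := fun s p l => ⟨_, _, _, _, _, checkFour_of_sgn (h_g1 s p l)⟩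
    gMG := fun p l t => ⟨_, _, _, _, _, checkFour_of_sgn (h_gMG p l t)⟩
    v2 := fun s => ⟨_, _, _, _, _, checkFour_of_sgn (h_v2 s)⟩
    v5 := fun s => ⟨_, _, _, _, _, checkFour_of_sgn (h_v5 s)⟩
    vMG := ⟨_, _, _, _, _, checkFour_of_sgn h_vMG⟩
    wP := fun b q => ⟨_, _, _, _, _, checkFour_of_sgn (h_wP b q)⟩
    wE := fun b q => ⟨_, _, _, _, _, checkFour_of_sgn (h_wE b q)⟩
    wK := fun b q => ⟨_, _, _, _, _, checkFour_of_sgn (h_wK b q)⟩
    wT := fun b q => ⟨_, _, _, _, _, checkFour_of_sgn (h_wT b q)⟩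
    wW := fun b => ⟨_, _, _, _, _, checkFour_of_sgn (h_wW b)⟩
    wY := fun b => ⟨_, _, _, _, _, checkFour_of_sgn (h_wY b)⟩
    gap := fun b q => ⟨_, _, _, _, _, checkFour_of_sgn (h_gap b q)⟩
    g2 := fun s p l t => ⟨_, _, _, _, _, _, checkFour_of_sgn (certIz404_g2 s p l t)⟩
    g5 := fun s p l t => ⟨_, _, _, _, _, _, checkFour_of_sgn (certIz404_g5 s p l t)⟩ }

end Vale.Agent.P100.Calib.StripEndD
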