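import Vale.Agent.P100.Calib.SlabStripEndIZ7Win0
import Vale.Agent.P100.Calib.SlabStripEndIZ7Win1
import Vale.Agent.P100.Calib.SlabStripEndIZ7Win2
import Vale.Agent.P100.Calib.SlabStripEndIZ7Win3
import Vale.Agent.P100.Calib.SlabStripEndIZ7K250
import Vale.Agent.P100.Calib.SlabStripEndIZ7K300
import Vale.Agent.P100.Calib.SlabStripEndIZ7K301
import Vale.Agent.P100.Calib.SlabStripEndIZ7K302
import Vale.Agent.P100.Calib.SlabStripEndIZ7K303
import Vale.Agent.P100.Calib.SlabStripEndIZ7K304
import Vale.Agent.P100.Calib.SlabStripEndIZ7K305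
import Vale.Agent.P100.Calib.SlabStripEndIZ7K310
import Vale.Agent.P100.Calib.SlabStripEndIZ7P311
import Vale.Agent.P100.Calib.SlabStripEndIZ7P312
import Vale.Agent.P100.Calib.SlabStripEndIZ7P313
import Vale.Agent.P100.Calib.SlabStripEndIZ7P314
import Vale.Agent.P100.Calib.SlabStripEndIZ7P315
import Vale.Agent.P100.Calib.SlabStripEndIZ7P316
import Vale.Agent.P100.Calib.SlabStripEndIZ7P317
import Vale.Agent.P100.Calib.SlabStripEndIZ7P318
import Vale.Agent.P100.Calib.SlabStripEndIZ7P319
import Vale.Agent.P100.Calib.SlabStripEndIZ7K321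
import Vale.Agent.P100.Calib.SlabStripEndIZ7K322
import Vale.Agent.P100.Calib.SlabStripEndIZ7K323
import Vale.Agent.P100.Calib.SlabStripEndIZ7K324
import Vale.Agent.P100.Calib.SlabStripEndIZ7K325
import Vale.Agent.P100.Calib.SlabStripEndIZ7K326
import Vale.Agent.P100.Calib.SlabStripEndIZ7K400
import Vale.Agent.P100.Calib.SlabStripEndIZ7K401
import Vale.Agent.P100.Calib.SlabStripEndIZ7K402
import Vale.Agent.P100.Calib.SlabStripEndIZ7K403
import Vale.Agent.P100.Calib.SlabStripEndIZ7K404
import Vale.Agent.P100.Calib.SlabStripEndIZ7K405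
import Vale.Agent.P100.Calib.SlabStripEndIZ7K406
import Vale.Agent.P100.Calib.SlabStripEndIZ7K407
import Vale.Agent.P100.Calib.SlabStripEndIZ7K408
import Vale.Agent.P100.Calib.SlabStripEndIZ7K409

/-!
# The pieces of the `I` and `Z` charts over their lines (Leaves5)
-/

namespace Vale.Agent.P100.Calib.StripEndD

open Pack hiding ev_add ev_mul
open Pack.Ex StripMid StripEnd

local instance endIZ7Leaves5Add : Add Ex := ⟨Ex.add⟩
local instance endIZ7Leaves5Sub : Sub Ex := ⟨Ex.sub⟩
local instance endIZ7Leaves5Mul : Mul Ex := ⟨Ex.mul⟩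

/-- The piece 250 over its chart. -/
theorem pcIz250_over : pcIz250.Over (wideChart (lineChart izL250 (15, 16, 160) (2, 5, 5) (15, 19, 20) (82, 50) (132, 50))) :=
  ⟨fun _ => rfl, fun _ => rfl, fun _ => rfl,
    fun x => by simp only [pcIz250, wideChart, lineChart, izL250, ev_add, ev_mul, Ex.eval] <;> push_cast <;> ring,
    fun x => by
      simp only [pcIz250, wideChart, lineChart, afEx, izL250, ev_add, ev_mul, Ex.eval] <;> push_cast <;> ring,
    fun x => by
      simp only [pcIz250, Piece.A, Piece.S, ev_add, ev_sub, ev_mul, Ex.eval]; push_cast; ring,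
    rfl, rfl⟩

/-- The piece 250 with its lines. -/
theorem izLeaf250 : Leaf izL250 (15, 16, 160) (2, 5, 5) (15, 19, 20) (82, 50) (132, 50) pcIz250 bxIz250 :=
  ⟨by norm_num, izL250_up, izL250_down, Or.inl certIz250, pcIz250_over, ⟨rfl, rfl, rfl, rfl⟩, rfl, rfl⟩

/-- The piece 300 over its chart. -/
theorem pcIz300_over : pcIz300.Over (wideChart (lineChart izL300 (1, 2, 20) (2, 15, 100) (22, 25, 25) (100, 50) (143, 50))) :=
  ⟨fun _ => rfl, fun _ => rfl, fun _ => rfl,
    fun x => by simp only [pcIz300, wideChart, lineChart, izL300, ev_add, ev_mul, Ex.eval] <;> push_cast <;> ring,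
    fun x => by
      simp only [pcIz300, wideChart, lineChart, afEx, izL300, ev_add, ev_mul, Ex.eval] <;> push_cast <;> ring,
    fun x => by
      simp only [pcIz300, Piece.A, Piece.S, ev_add, ev_sub, ev_mul, Ex.eval]; push_cast; ring,
    rfl, rfl⟩

/-- The piece 300 with its lines. -/
theorem izLeaf300 : Leaf izL300 (1, 2, 20) (2, 15, 100) (22, 25, 25) (100, 50) (143, 50) pcIz300 bxIz300 :=
  ⟨by norm_num, izL300_up, izL300_down, Or.inl certIz300, pcIz300_over, ⟨rfl, rfl, rfl, rfl⟩, rfl, rfl⟩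

/-- The piece 301 over its chart. -/
theorem pcIz301_over : pcIz301.Over (wideChart (lineChart izL301 (1, 2, 20) (3, 20, 20) (22, 25, 25) (82, 50) (135, 50))) :=
  ⟨fun _ => rfl, fun _ => rfl, fun _ => rfl,
    fun x => by simp only [pcIz301, wideChart, lineChart, izL301, ev_add, ev_mul, Ex.eval] <;> push_cast <;> ring,
    fun x => by
      simp only [pcIz301, wideChart, lineChart, afEx, izL301, ev_add, ev_mul, Ex.eval] <;> push_cast <;> ring,
    fun x => by
      simp only [pcIz301, Piece.A, Piece.S, ev_add, ev_sub, ev_mul, Ex.eval]; push_cast; ring,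
    rfl, rfl⟩

/-- The piece 301 with its lines. -/
theorem izLeaf301 : Leaf izL301 (1, 2, 20) (3, 20, 20) (22, 25, 25) (82, 50) (135, 50) pcIz301 bxIz301 :=
  ⟨by norm_num, izL301_up, izL301_down, Or.inl certIz301, pcIz301_over, ⟨rfl, rfl, rfl, rfl⟩, rfl, rfl⟩

/-- The piece 302 over its chart. -/
theorem pcIz302_over : pcIz302.Over (wideChart (lineChart izL302 (5, 6, 50) (8, 25, 400) (21, 25, 25) (108, 50) (157, 50))) :=
  ⟨fun _ => rfl, fun _ => rfl, fun _ => rfl,
    fun x => by simp only [pcIz302, wideChart, lineChart, izL302, ev_add, ev_mul, Ex.eval] <;> push_cast <;> ring,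
    fun x => by
      simp only [pcIz302, wideChart, lineChart, afEx, izL302, ev_add, ev_mul, Ex.eval] <;> push_cast <;> ring,
    fun x => by
      simp only [pcIz302, Piece.A, Piece.S, ev_add, ev_sub, ev_mul, Ex.eval]; push_cast; ring,
    rfl, rfl⟩

/-- The piece 302 with its lines. -/
theorem izLeaf302 : Leaf izL302 (5, 6, 50) (8, 25, 400) (21, 25, 25) (108, 50) (157, 50) pcIz302 bxIz302 :=
  ⟨by norm_num, izL302_up, izL302_down, Or.inl certIz302, pcIz302_over, ⟨rfl, rfl, rfl, rfl⟩, rfl, rfl⟩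

/-- The piece 303 over its chart. -/
theorem pcIz303_over : pcIz303.Over (wideChart (lineChart izL303 (5, 6, 50) (5, 12, 80) (21, 25, 25) (100, 50) (151, 50))) :=
  ⟨fun _ => rfl, fun _ => rfl, fun _ => rfl,
    fun x => by simp only [pcIz303, wideChart, lineChart, izL303, ev_add, ev_mul, Ex.eval] <;> push_cast <;> ring,
    fun x => by
      simp only [pcIz303, wideChart, lineChart, afEx, izL303, ev_add, ev_mul, Ex.eval] <;> push_cast <;> ring,
    fun x => by
      simp only [pcIz303, Piece.A, Piece.S, ev_add, ev_sub, ev_mul, Ex.eval]; push_cast; ring,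
    rfl, rfl⟩

/-- The piece 303 with its lines. -/
theorem izLeaf303 : Leaf izL303 (5, 6, 50) (5, 12, 80) (21, 25, 25) (100, 50) (151, 50) pcIz303 bxIz303 :=
  ⟨by norm_num, izL303_up, izL303_down, Or.inl certIz303, pcIz303_over, ⟨rfl, rfl, rfl, rfl⟩, rfl, rfl⟩

/-- The piece 304 over its chart. -/
theorem pcIz304_over : pcIz304.Over (wideChart (lineChart izL304 (24, 27, 200) (2, 15, 100) (21, 25, 25) (99, 50) (169, 50))) :=
  ⟨fun _ => rfl, fun _ => rfl, fun _ => rfl,
    fun x => by simp only [pcIz304, wideChart, lineChart, izL304, ev_add, ev_mul, Ex.eval] <;> push_cast <;> ring,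
    fun x => by
      simp only [pcIz304, wideChart, lineChart, afEx, izL304, ev_add, ev_mul, Ex.eval] <;> push_cast <;> ring,
    fun x => by
      simp only [pcIz304, Piece.A, Piece.S, ev_add, ev_sub, ev_mul, Ex.eval]; push_cast; ring,
    rfl, rfl⟩

/-- The piece 304 with its lines. -/
theorem izLeaf304 : Leaf izL304 (24, 27, 200) (2, 15, 100) (21, 25, 25) (99, 50) (169, 50) pcIz304 bxIz304 :=
  ⟨by norm_num, izL304_up, izL304_down, Or.inl certIz304, pcIz304_over, ⟨rfl, rfl, rfl, rfl⟩, rfl, rfl⟩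

/-- The piece 305 over its chart. -/
theorem pcIz305_over : pcIz305.Over (wideChart (lineChart izL305 (20, 27, 200) (3, 8, 20) (21, 25, 25) (92, 50) (156, 50))) :=
  ⟨fun _ => rfl, fun _ => rfl, fun _ => rfl,
    fun x => by simp only [pcIz305, wideChart, lineChart, izL305, ev_add, ev_mul, Ex.eval] <;> push_cast <;> ring,
    fun x => by
      simp only [pcIz305, wideChart, lineChart, afEx, izL305, ev_add, ev_mul, Ex.eval] <;> push_cast <;> ring,
    fun x => by
      simp only [pcIz305, Piece.A, Piece.S, ev_add, ev_sub, ev_mul, Ex.eval]; push_cast; ring,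
    rfl, rfl⟩

/-- The piece 305 with its lines. -/
theorem izLeaf305 : Leaf izL305 (20, 27, 200) (3, 8, 20) (21, 25, 25) (92, 50) (156, 50) pcIz305 bxIz305 :=
  ⟨by norm_num, izL305_up, izL305_down, Or.inl certIz305, pcIz305_over, ⟨rfl, rfl, rfl, rfl⟩, rfl, rfl⟩

/-- The piece 310 over its chart. -/
theorem pcIz310_over : pcIz310.Over (wideChart (lineChart izL310 (4, 5, 40) (3, 10, 1600) (17, 20, 20) (119, 50) (167, 50))) :=
  ⟨fun _ => rfl, fun _ => rfl, fun _ => rfl,
    fun x => by simp only [pcIz310, wideChart, lineChart, izL310, ev_add, ev_mul, Ex.eval] <;> push_cast <;> ring,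
    fun x => by
      simp only [pcIz310, wideChart, lineChart, afEx, izL310, ev_add, ev_mul, Ex.eval] <;> push_cast <;> ring,
    fun x => by
      simp only [pcIz310, Piece.A, Piece.S, ev_add, ev_sub, ev_mul, Ex.eval]; push_cast; ring,
    rfl, rfl⟩

/-- The piece 310 with its lines. -/
theorem izLeaf310 : Leaf izL310 (4, 5, 40) (3, 10, 1600) (17, 20, 20) (119, 50) (167, 50) pcIz310 bxIz310 :=
  ⟨by norm_num, izL310_up, izL310_down, Or.inl certIz310, pcIz310_over, ⟨rfl, rfl, rfl, rfl⟩, rfl, rfl⟩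

/-- The piece 311 over its chart. -/
theorem pcIz311_over : pcIz311.Over (wideChart (lineChart izL311 (4, 5, 40) (3, 10, 1600) (17, 20, 20) (112, 50) (143, 50))) :=
  ⟨fun _ => rfl, fun _ => rfl, fun _ => rfl,
    fun x => by simp only [pcIz311, wideChart, lineChart, izL311, ev_add, ev_mul, Ex.eval] <;> push_cast <;> ring,
    fun x => by
      simp only [pcIz311, wideChart, lineChart, afEx, izL311, ev_add, ev_mul, Ex.eval] <;> push_cast <;> ring,
    fun x => by
      simp only [pcIz311, Piece.A, Piece.S, ev_add, ev_sub, ev_mul, Ex.eval]; push_cast; ring,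
    rfl, rfl⟩

/-- The piece 311 with its lines. -/
theorem izLeaf311 : Leaf izL311 (4, 5, 40) (3, 10, 1600) (17, 20, 20) (112, 50) (143, 50) pcIz311 bxIz311 :=
  ⟨by norm_num, izL311_up, izL311_down, Or.inl certIz311, pcIz311_over, ⟨rfl, rfl, rfl, rfl⟩, rfl, rfl⟩

/-- The piece 312 over its chart. -/
theorem pcIz312_over : pcIz312.Over (wideChart (lineChart izL312 (4, 5, 40) (5, 8, 800) (17, 20, 20) (131, 50) (164, 50))) :=
  ⟨fun _ => rfl, fun _ => rfl, fun _ => rfl,
    fun x => by simp only [pcIz312, wideChart, lineChart, izL312, ev_add, ev_mul, Ex.eval] <;> push_cast <;> ring,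
    fun x => by
      simp only [pcIz312, wideChart, lineChart, afEx, izL312, ev_add, ev_mul, Ex.eval] <;> push_cast <;> ring,
    fun x => by
      simp only [pcIz312, Piece.A, Piece.S, ev_add, ev_sub, ev_mul, Ex.eval]; push_cast; ring,
    rfl, rfl⟩

/-- The piece 312 with its lines. -/
theorem izLeaf312 : Leaf izL312 (4, 5, 40) (5, 8, 800) (17, 20, 20) (131, 50) (164, 50) pcIz312 bxIz312 :=
  ⟨by norm_num, izL312_up, izL312_down, Or.inl certIz312, pcIz312_over, ⟨rfl, rfl, rfl, rfl⟩, rfl, rfl⟩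

/-- The piece 313 over its chart. -/
theorem pcIz313_over : pcIz313.Over (wideChart (lineChart izL313 (4, 5, 40) (1, 2, 100) (17, 20, 20) (131, 50) (163, 50))) :=
  ⟨fun _ => rfl, fun _ => rfl, fun _ => rfl,
    fun x => by simp only [pcIz313, wideChart, lineChart, izL313, ev_add, ev_mul, Ex.eval] <;> push_cast <;> ring,
    fun x => by
      simp only [pcIz313, wideChart, lineChart, afEx, izL313, ev_add, ev_mul, Ex.eval] <;> push_cast <;> ring,
    fun x => by
      simp only [pcIz313, Piece.A, Piece.S, ev_add, ev_sub, ev_mul, Ex.eval]; push_cast; ring,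
    rfl, rfl⟩

/-- The piece 313 with its lines. -/
theorem izLeaf313 : Leaf izL313 (4, 5, 40) (1, 2, 100) (17, 20, 20) (131, 50) (163, 50) pcIz313 bxIz313 :=
  ⟨by norm_num, izL313_up, izL313_down, Or.inl certIz313, pcIz313_over, ⟨rfl, rfl, rfl, rfl⟩, rfl, rfl⟩

/-- The piece 314 over its chart. -/
theorem pcIz314_over : pcIz314.Over (wideChart (lineChart izL314 (4, 5, 40) (5, 16, 800) (17, 20, 20) (122, 50) (157, 50))) :=
  ⟨fun _ => rfl, fun _ => rfl, fun _ => rfl,
    fun x => by simp only [pcIz314, wideChart, lineChart, izL314, ev_add, ev_mul, Ex.eval] <;> push_cast <;> ring,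
    fun x => by
      simp only [pcIz314, wideChart, lineChart, afEx, izL314, ev_add, ev_mul, Ex.eval] <;> push_cast <;> ring,
    fun x => by
      simp only [pcIz314, Piece.A, Piece.S, ev_add, ev_sub, ev_mul, Ex.eval]; push_cast; ring,
    rfl, rfl⟩

/-- The piece 314 with its lines. -/
theorem izLeaf314 : Leaf izL314 (4, 5, 40) (5, 16, 800) (17, 20, 20) (122, 50) (157, 50) pcIz314 bxIz314 :=
  ⟨by norm_num, izL314_up, izL314_down, Or.inl certIz314, pcIz314_over, ⟨rfl, rfl, rfl, rfl⟩, rfl, rfl⟩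

/-- The piece 315 over its chart. -/
theorem pcIz315_over : pcIz315.Over (wideChart (lineChart izL315 (4, 5, 40) (5, 16, 800) (17, 20, 20) (111, 50) (146, 50))) :=
  ⟨fun _ => rfl, fun _ => rfl, fun _ => rfl,
    fun x => by simp only [pcIz315, wideChart, lineChart, izL315, ev_add, ev_mul, Ex.eval] <;> push_cast <;> ring,
    fun x => by
      simp only [pcIz315, wideChart, lineChart, afEx, izL315, ev_add, ev_mul, Ex.eval] <;> push_cast <;> ring,
    fun x => by
      simp only [pcIz315, Piece.A, Piece.S, ev_add, ev_sub, ev_mul, Ex.eval]; push_cast; ring,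
    rfl, rfl⟩

/-- The piece 315 with its lines. -/
theorem izLeaf315 : Leaf izL315 (4, 5, 40) (5, 16, 800) (17, 20, 20) (111, 50) (146, 50) pcIz315 bxIz315 :=
  ⟨by norm_num, izL315_up, izL315_down, Or.inl certIz315, pcIz315_over, ⟨rfl, rfl, rfl, rfl⟩, rfl, rfl⟩

/-- The piece 316 over its chart. -/
theorem pcIz316_over : pcIz316.Over (wideChart (lineChart izL316 (20, 21, 160) (5, 8, 800) (21, 25, 25) (143, 50) (169, 50))) :=
  ⟨fun _ => rfl, fun _ => rfl, fun _ => rfl,
    fun x => by simp only [pcIz316, wideChart, lineChart, izL316, ev_add, ev_mul, Ex.eval] <;> push_cast <;> ring,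
    fun x => by
      simp only [pcIz316, wideChart, lineChart, afEx, izL316, ev_add, ev_mul, Ex.eval] <;> push_cast <;> ring,
    fun x => by
      simp only [pcIz316, Piece.A, Piece.S, ev_add, ev_sub, ev_mul, Ex.eval]; push_cast; ring,
    rfl, rfl⟩

/-- The piece 316 with its lines. -/
theorem izLeaf316 : Leaf izL316 (20, 21, 160) (5, 8, 800) (21, 25, 25) (143, 50) (169, 50) pcIz316 bxIz316 :=
  ⟨by norm_num, izL316_up, izL316_down, Or.inl certIz316, pcIz316_over, ⟨rfl, rfl, rfl, rfl⟩, rfl, rfl⟩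

/-- The piece 317 over its chart. -/
theorem pcIz317_over : pcIz317.Over (wideChart (lineChart izL317 (20, 21, 160) (1, 2, 100) (21, 25, 25) (143, 50) (168, 50))) :=
  ⟨fun _ => rfl, fun _ => rfl, fun _ => rfl,
    fun x => by simp only [pcIz317, wideChart, lineChart, izL317, ev_add, ev_mul, Ex.eval] <;> push_cast <;> ring,
    fun x => by
      simp only [pcIz317, wideChart, lineChart, afEx, izL317, ev_add, ev_mul, Ex.eval] <;> push_cast <;> ring,
    fun x => by
      simp only [pcIz317, Piece.A, Piece.S, ev_add, ev_sub, ev_mul, Ex.eval]; push_cast; ring,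
    rfl, rfl⟩

/-- The piece 317 with its lines. -/
theorem izLeaf317 : Leaf izL317 (20, 21, 160) (1, 2, 100) (21, 25, 25) (143, 50) (168, 50) pcIz317 bxIz317 :=
  ⟨by norm_num, izL317_up, izL317_down, Or.inl certIz317, pcIz317_over, ⟨rfl, rfl, rfl, rfl⟩, rfl, rfl⟩

/-- The piece 318 over its chart. -/
theorem pcIz318_over : pcIz318.Over (wideChart (lineChart izL318 (20, 21, 160) (5, 16, 800) (21, 25, 25) (132, 50) (161, 50))) :=
  ⟨fun _ => rfl, fun _ => rfl, fun _ => rfl,
    fun x => by simp only [pcIz318, wideChart, lineChart, izL318, ev_add, ev_mul, Ex.eval] <;> push_cast <;> ring,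
    fun x => by
      simp only [pcIz318, wideChart, lineChart, afEx, izL318, ev_add, ev_mul, Ex.eval] <;> push_cast <;> ring,
    fun x => by
      simp only [pcIz318, Piece.A, Piece.S, ev_add, ev_sub, ev_mul, Ex.eval]; push_cast; ring,
    rfl, rfl⟩

/-- The piece 318 with its lines. -/
theorem izLeaf318 : Leaf izL318 (20, 21, 160) (5, 16, 800) (21, 25, 25) (132, 50) (161, 50) pcIz318 bxIz318 :=
  ⟨by norm_num, izL318_up, izL318_down, Or.inl certIz318, pcIz318_over, ⟨rfl, rfl, rfl, rfl⟩, rfl, rfl⟩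

/-- The piece 319 over its chart. -/
theorem pcIz319_over : pcIz319.Over (wideChart (lineChart izL319 (20, 21, 160) (5, 16, 800) (21, 25, 25) (118, 50) (150, 50))) :=
  ⟨fun _ => rfl, fun _ => rfl, fun _ => rfl,
    fun x => by simp only [pcIz319, wideChart, lineChart, izL319, ev_add, ev_mul, Ex.eval] <;> push_cast <;> ring,
    fun x => by
      simp only [pcIz319, wideChart, lineChart, afEx, izL319, ev_add, ev_mul, Ex.eval] <;> push_cast <;> ring,
    fun x => by
      simp only [pcIz319, Piece.A, Piece.S, ev_add, ev_sub, ev_mul, Ex.eval]; push_cast; ring,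
    rfl, rfl⟩

/-- The piece 319 with its lines. -/
theorem izLeaf319 : Leaf izL319 (20, 21, 160) (5, 16, 800) (21, 25, 25) (118, 50) (150, 50) pcIz319 bxIz319 :=
  ⟨by norm_num, izL319_up, izL319_down, Or.inl certIz319, pcIz319_over, ⟨rfl, rfl, rfl, rfl⟩, rfl, rfl⟩

/-- The piece 321 over its chart. -/
theorem pcIz321_over : pcIz321.Over (wideChart (lineChart izL321 (18, 19, 160) (0, 1, 500) (34, 35, 40) (124, 50) (153, 50))) :=
  ⟨fun _ => rfl, fun _ => rfl, fun _ => rfl,
    fun x => by simp only [pcIz321, wideChart, lineChart, izL321, ev_add, ev_mul, Ex.eval] <;> push_cast <;> ring,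
    fun x => by
      simp only [pcIz321, wideChart, lineChart, afEx, izL321, ev_add, ev_mul, Ex.eval] <;> push_cast <;> ring,
    fun x => by
      simp only [pcIz321, Piece.A, Piece.S, ev_add, ev_sub, ev_mul, Ex.eval]; push_cast; ring,
    rfl, rfl⟩

/-- The piece 321 with its lines. -/
theorem izLeaf321 : Leaf izL321 (18, 19, 160) (0, 1, 500) (34, 35, 40) (124, 50) (153, 50) pcIz321 bxIz321 :=
  ⟨by norm_num, izL321_up, izL321_down, Or.inl certIz321, pcIz321_over, ⟨rfl, rfl, rfl, rfl⟩, rfl, rfl⟩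

/-- The piece 322 over its chart. -/
theorem pcIz322_over : pcIz322.Over (wideChart (lineChart izL322 (9, 10, 80) (0, 1, 500) (7, 8, 8) (125, 50) (168, 50))) :=
  ⟨fun _ => rfl, fun _ => rfl, fun _ => rfl,
    fun x => by simp only [pcIz322, wideChart, lineChart, izL322, ev_add, ev_mul, Ex.eval] <;> push_cast <;> ring,
    fun x => by
      simp only [pcIz322, wideChart, lineChart, afEx, izL322, ev_add, ev_mul, Ex.eval] <;> push_cast <;> ring,
    fun x => by
      simp only [pcIz322, Piece.A, Piece.S, ev_add, ev_sub, ev_mul, Ex.eval]; push_cast; ring,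
    rfl, rfl⟩

/-- The piece 322 with its lines. -/
theorem izLeaf322 : Leaf izL322 (9, 10, 80) (0, 1, 500) (7, 8, 8) (125, 50) (168, 50) pcIz322 bxIz322 :=
  ⟨by norm_num, izL322_up, izL322_down, Or.inl certIz322, pcIz322_over, ⟨rfl, rfl, rfl, rfl⟩, rfl, rfl⟩

/-- The piece 323 over its chart. -/
theorem pcIz323_over : pcIz323.Over (wideChart (lineChart izL323 (525, 532, 4000) (0, 1, 500) (168, 175, 200) (122, 50) (138, 50))) :=
  ⟨fun _ => rfl, fun _ => rfl, fun _ => rfl,
    fun x => by simp only [pcIz323, wideChart, lineChart, izL323, ev_add, ev_mul, Ex.eval] <;> push_cast <;> ring,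
    fun x => by
      simp only [pcIz323, wideChart, lineChart, afEx, izL323, ev_add, ev_mul, Ex.eval] <;> push_cast <;> ring,
    fun x => by
      simp only [pcIz323, Piece.A, Piece.S, ev_add, ev_sub, ev_mul, Ex.eval]; push_cast; ring,
    rfl, rfl⟩

/-- The piece 323 with its lines. -/
theorem izLeaf323 : Leaf izL323 (525, 532, 4000) (0, 1, 500) (168, 175, 200) (122, 50) (138, 50) pcIz323 bxIz323 :=
  ⟨by norm_num, izL323_up, izL323_down, Or.inl certIz323, pcIz323_over, ⟨rfl, rfl, rfl, rfl⟩, rfl, rfl⟩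

/-- The piece 324 over its chart. -/
theorem pcIz324_over : pcIz324.Over (wideChart (lineChart izL324 (133, 135, 1000) (0, 1, 500) (168, 175, 200) (122, 50) (139, 50))) :=
  ⟨fun _ => rfl, fun _ => rfl, fun _ => rfl,
    fun x => by simp only [pcIz324, wideChart, lineChart, izL324, ev_add, ev_mul, Ex.eval] <;> push_cast <;> ring,
    fun x => by
      simp only [pcIz324, wideChart, lineChart, afEx, izL324, ev_add, ev_mul, Ex.eval] <;> push_cast <;> ring,
    fun x => by
      simp only [pcIz324, Piece.A, Piece.S, ev_add, ev_sub, ev_mul, Ex.eval]; push_cast; ring,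
    rfl, rfl⟩

/-- The piece 324 with its lines. -/
theorem izLeaf324 : Leaf izL324 (133, 135, 1000) (0, 1, 500) (168, 175, 200) (122, 50) (139, 50) pcIz324 bxIz324 :=
  ⟨by norm_num, izL324_up, izL324_down, Or.inl certIz324, pcIz324_over, ⟨rfl, rfl, rfl, rfl⟩, rfl, rfl⟩

/-- The piece 325 over its chart. -/
theorem pcIz325_over : pcIz325.Over (wideChart (lineChart izL325 (19, 20, 160) (0, 1, 500) (34, 35, 40) (126, 50) (158, 50))) :=
  ⟨fun _ => rfl, fun _ => rfl, fun _ => rfl,
    fun x => by simp only [pcIz325, wideChart, lineChart, izL325, ev_add, ev_mul, Ex.eval] <;> push_cast <;> ring,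
    fun x => by
      simp only [pcIz325, wideChart, lineChart, afEx, izL325, ev_add, ev_mul, Ex.eval] <;> push_cast <;> ring,
    fun x => by
      simp only [pcIz325, Piece.A, Piece.S, ev_add, ev_sub, ev_mul, Ex.eval]; push_cast; ring,
    rfl, rfl⟩

/-- The piece 325 with its lines. -/
theorem izLeaf325 : Leaf izL325 (19, 20, 160) (0, 1, 500) (34, 35, 40) (126, 50) (158, 50) pcIz325 bxIz325 :=
  ⟨by norm_num, izL325_up, izL325_down, Or.inl certIz325, pcIz325_over, ⟨rfl, rfl, rfl, rfl⟩, rfl, rfl⟩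

/-- The piece 326 over its chart. -/
theorem pcIz326_over : pcIz326.Over (wideChart (lineChart izL326 (20, 27, 200) (2, 5, 5) (21, 25, 25) (76, 50) (148, 50))) :=
  ⟨fun _ => rfl, fun _ => rfl, fun _ => rfl,
    fun x => by simp only [pcIz326, wideChart, lineChart, izL326, ev_add, ev_mul, Ex.eval] <;> push_cast <;> ring,
    fun x => by
      simp only [pcIz326, wideChart, lineChart, afEx, izL326, ev_add, ev_mul, Ex.eval] <;> push_cast <;> ring,
    fun x => by
      simp only [pcIz326, Piece.A, Piece.S, ev_add, ev_sub, ev_mul, Ex.eval]; push_cast; ring,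
    rfl, rfl⟩

/-- The piece 326 with its lines. -/
theorem izLeaf326 : Leaf izL326 (20, 27, 200) (2, 5, 5) (21, 25, 25) (76, 50) (148, 50) pcIz326 bxIz326 :=
  ⟨by norm_num, izL326_up, izL326_down, Or.inl certIz326, pcIz326_over, ⟨rfl, rfl, rfl, rfl⟩, rfl, rfl⟩

/-- The piece 400 over its chart. -/
theorem pcIz400_over : pcIz400.Over (wideChart (lineChart izL400 (4, 5, 40) (0, 1, 50) (0, 3, 20) (87, 50) (112, 50))) :=
  ⟨fun _ => rfl, fun _ => rfl, fun _ => rfl,
    fun x => by simp only [pcIz400, wideChart, lineChart, izL400, ev_add, ev_mul, Ex.eval] <;> push_cast <;> ring,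
    fun x => by
      simp only [pcIz400, wideChart, lineChart, afEx, izL400, ev_add, ev_mul, Ex.eval] <;> push_cast <;> ring,
    fun x => by
      simp only [pcIz400, Piece.A, Piece.S, ev_add, ev_sub, ev_mul, Ex.eval]; push_cast; ring,
    rfl, rfl⟩

/-- The piece 400 with its lines. -/
theorem izLeaf400 : Leaf izL400 (4, 5, 40) (0, 1, 50) (0, 3, 20) (87, 50) (112, 50) pcIz400 bxIz400 :=
  ⟨by norm_num, izL400_up, izL400_down, Or.inr certIz400, pcIz400_over, ⟨rfl, rfl, rfl, rfl⟩, rfl, rfl⟩

/-- The piece 401 over its chart. -/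
theorem pcIz401_over : pcIz401.Over (wideChart (lineChart izL401 (10, 11, 80) (0, 1, 50) (0, 3, 40) (86, 50) (113, 50))) :=
  ⟨fun _ => rfl, fun _ => rfl, fun _ => rfl,
    fun x => by simp only [pcIz401, wideChart, lineChart, izL401, ev_add, ev_mul, Ex.eval] <;> push_cast <;> ring,
    fun x => by
      simp only [pcIz401, wideChart, lineChart, afEx, izL401, ev_add, ev_mul, Ex.eval] <;> push_cast <;> ring,
    fun x => by
      simp only [pcIz401, Piece.A, Piece.S, ev_add, ev_sub, ev_mul, Ex.eval]; push_cast; ring,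
    rfl, rfl⟩

/-- The piece 401 with its lines. -/
theorem izLeaf401 : Leaf izL401 (10, 11, 80) (0, 1, 50) (0, 3, 40) (86, 50) (113, 50) pcIz401 bxIz401 :=
  ⟨by norm_num, izL401_up, izL401_down, Or.inr certIz401, pcIz401_over, ⟨rfl, rfl, rfl, rfl⟩, rfl, rfl⟩

/-- The piece 402 over its chart. -/
theorem pcIz402_over : pcIz402.Over (wideChart (lineChart izL402 (22, 23, 160) (0, 1, 50) (0, 3, 40) (85, 50) (114, 50))) :=
  ⟨fun _ => rfl, fun _ => rfl, fun _ => rfl,
    fun x => by simp only [pcIz402, wideChart, lineChart, izL402, ev_add, ev_mul, Ex.eval] <;> push_cast <;> ring,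
    fun x => by
      simp only [pcIz402, wideChart, lineChart, afEx, izL402, ev_add, ev_mul, Ex.eval] <;> push_cast <;> ring,
    fun x => by
      simp only [pcIz402, Piece.A, Piece.S, ev_add, ev_sub, ev_mul, Ex.eval]; push_cast; ring,
    rfl, rfl⟩

/-- The piece 402 with its lines. -/
theorem izLeaf402 : Leaf izL402 (22, 23, 160) (0, 1, 50) (0, 3, 40) (85, 50) (114, 50) pcIz402 bxIz402 :=
  ⟨by norm_num, izL402_up, izL402_down, Or.inr certIz402, pcIz402_over, ⟨rfl, rfl, rfl, rfl⟩, rfl, rfl⟩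

/-- The piece 403 over its chart. -/
theorem pcIz403_over : pcIz403.Over (wideChart (lineChart izL403 (40, 43, 320) (2, 15, 100) (3, 6, 40) (90, 50) (114, 50))) :=
  ⟨fun _ => rfl, fun _ => rfl, fun _ => rfl,
    fun x => by simp only [pcIz403, wideChart, lineChart, izL403, ev_add, ev_mul, Ex.eval] <;> push_cast <;> ring,
    fun x => by
      simp only [pcIz403, wideChart, lineChart, afEx, izL403, ev_add, ev_mul, Ex.eval] <;> push_cast <;> ring,
    fun x => by
      simp only [pcIz403, Piece.A, Piece.S, ev_add, ev_sub, ev_mul, Ex.eval]; push_cast; ring,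
    rfl, rfl⟩

/-- The piece 403 with its lines. -/
theorem izLeaf403 : Leaf izL403 (40, 43, 320) (2, 15, 100) (3, 6, 40) (90, 50) (114, 50) pcIz403 bxIz403 :=
  ⟨by norm_num, izL403_up, izL403_down, Or.inr certIz403, pcIz403_over, ⟨rfl, rfl, rfl, rfl⟩, rfl, rfl⟩

/-- The piece 404 over its chart. -/
theorem pcIz404_over : pcIz404.Over (wideChart (lineChart izL404 (4, 5, 40) (0, 1, 50) (33, 40, 80) (98, 50) (129, 50))) :=
  ⟨fun _ => rfl, fun _ => rfl, fun _ => rfl,
    fun x => by simp only [pcIz404, wideChart, lineChart, izL404, ev_add, ev_mul, Ex.eval] <;> push_cast <;> ring,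
    fun x => by
      simp only [pcIz404, wideChart, lineChart, afEx, izL404, ev_add, ev_mul, Ex.eval] <;> push_cast <;> ring,
    fun x => by
      simp only [pcIz404, Piece.A, Piece.S, ev_add, ev_sub, ev_mul, Ex.eval]; push_cast; ring,
    rfl, rfl⟩

/-- The piece 404 with its lines. -/
theorem izLeaf404 : Leaf izL404 (4, 5, 40) (0, 1, 50) (33, 40, 80) (98, 50) (129, 50) pcIz404 bxIz404 :=
  ⟨by norm_num, izL404_up, izL404_down, Or.inr certIz404, pcIz404_over, ⟨rfl, rfl, rfl, rfl⟩, rfl, rfl⟩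

/-- The piece 405 over its chart. -/
theorem pcIz405_over : pcIz405.Over (wideChart (lineChart izL405 (10, 11, 80) (0, 1, 50) (33, 40, 80) (99, 50) (134, 50))) :=
  ⟨fun _ => rfl, fun _ => rfl, fun _ => rfl,
    fun x => by simp only [pcIz405, wideChart, lineChart, izL405, ev_add, ev_mul, Ex.eval] <;> push_cast <;> ring,
    fun x => by
      simp only [pcIz405, wideChart, lineChart, afEx, izL405, ev_add, ev_mul, Ex.eval] <;> push_cast <;> ring,
    fun x => by
      simp only [pcIz405, Piece.A, Piece.S, ev_add, ev_sub, ev_mul, Ex.eval]; push_cast; ring,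
    rfl, rfl⟩

/-- The piece 405 with its lines. -/
theorem izLeaf405 : Leaf izL405 (10, 11, 80) (0, 1, 50) (33, 40, 80) (99, 50) (134, 50) pcIz405 bxIz405 :=
  ⟨by norm_num, izL405_up, izL405_down, Or.inr certIz405, pcIz405_over, ⟨rfl, rfl, rfl, rfl⟩, rfl, rfl⟩

/-- The piece 406 over its chart. -/
theorem pcIz406_over : pcIz406.Over (wideChart (lineChart izL406 (22, 23, 160) (0, 1, 50) (5, 6, 8) (138, 50) (160, 50))) :=
  ⟨fun _ => rfl, fun _ => rfl, fun _ => rfl,
    fun x => by simp only [pcIz406, wideChart, lineChart, izL406, ev_add, ev_mul, Ex.eval] <;> push_cast <;> ring,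
    fun x => by
      simp only [pcIz406, wideChart, lineChart, afEx, izL406, ev_add, ev_mul, Ex.eval] <;> push_cast <;> ring,
    fun x => by
      simp only [pcIz406, Piece.A, Piece.S, ev_add, ev_sub, ev_mul, Ex.eval]; push_cast; ring,
    rfl, rfl⟩

/-- The piece 406 with its lines. -/
theorem izLeaf406 : Leaf izL406 (22, 23, 160) (0, 1, 50) (5, 6, 8) (138, 50) (160, 50) pcIz406 bxIz406 :=
  ⟨by norm_num, izL406_up, izL406_down, Or.inr certIz406, pcIz406_over, ⟨rfl, rfl, rfl, rfl⟩, rfl, rfl⟩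

/-- The piece 407 over its chart. -/
theorem pcIz407_over : pcIz407.Over (wideChart (lineChart izL407 (7, 8, 80) (0, 1, 50) (3, 10, 20) (92, 50) (121, 50))) :=
  ⟨fun _ => rfl, fun _ => rfl, fun _ => rfl,
    fun x => by simp only [pcIz407, wideChart, lineChart, izL407, ev_add, ev_mul, Ex.eval] <;> push_cast <;> ring,
    fun x => by
      simp only [pcIz407, wideChart, lineChart, afEx, izL407, ev_add, ev_mul, Ex.eval] <;> push_cast <;> ring,
    fun x => by
      simp only [pcIz407, Piece.A, Piece.S, ev_add, ev_sub, ev_mul, Ex.eval]; push_cast; ring,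
    rfl, rfl⟩

/-- The piece 407 with its lines. -/
theorem izLeaf407 : Leaf izL407 (7, 8, 80) (0, 1, 50) (3, 10, 20) (92, 50) (121, 50) pcIz407 bxIz407 :=
  ⟨by norm_num, izL407_up, izL407_down, Or.inr certIz407, pcIz407_over, ⟨rfl, rfl, rfl, rfl⟩, rfl, rfl⟩

/-- The piece 408 over its chart. -/
theorem pcIz408_over : pcIz408.Over (wideChart (lineChart izL408 (10, 11, 80) (0, 1, 50) (19, 26, 80) (92, 50) (121, 50))) :=
  ⟨fun _ => rfl, fun _ => rfl, fun _ => rfl,
    fun x => by simp only [pcIz408, wideChart, lineChart, izL408, ev_add, ev_mul, Ex.eval] <;> push_cast <;> ring,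
    fun x => by
      simp only [pcIz408, wideChart, lineChart, afEx, izL408, ev_add, ev_mul, Ex.eval] <;> push_cast <;> ring,
    fun x => by
      simp only [pcIz408, Piece.A, Piece.S, ev_add, ev_sub, ev_mul, Ex.eval]; push_cast; ring,
    rfl, rfl⟩

/-- The piece 408 with its lines. -/
theorem izLeaf408 : Leaf izL408 (10, 11, 80) (0, 1, 50) (19, 26, 80) (92, 50) (121, 50) pcIz408 bxIz408 :=
  ⟨by norm_num, izL408_up, izL408_down, Or.inr certIz408, pcIz408_over, ⟨rfl, rfl, rfl, rfl⟩, rfl, rfl⟩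

/-- The piece 409 over its chart. -/
theorem pcIz409_over : pcIz409.Over (wideChart (lineChart izL409 (43, 46, 320) (2, 15, 100) (3, 6, 40) (89, 50) (115, 50))) :=
  ⟨fun _ => rfl, fun _ => rfl, fun _ => rfl,
    fun x => by simp only [pcIz409, wideChart, lineChart, izL409, ev_add, ev_mul, Ex.eval] <;> push_cast <;> ring,
    fun x => by
      simp only [pcIz409, wideChart, lineChart, afEx, izL409, ev_add, ev_mul, Ex.eval] <;> push_cast <;> ring,
    fun x => by
      simp only [pcIz409, Piece.A, Piece.S, ev_add, ev_sub, ev_mul, Ex.eval]; push_cast; ring,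
    rfl, rfl⟩

/-- The piece 409 with its lines. -/
theorem izLeaf409 : Leaf izL409 (43, 46, 320) (2, 15, 100) (3, 6, 40) (89, 50) (115, 50) pcIz409 bxIz409 :=
  ⟨by norm_num, izL409_up, izL409_down, Or.inr certIz409, pcIz409_over, ⟨rfl, rfl, rfl, rfl⟩, rfl, rfl⟩

end Vale.Agent.P100.Calib.StripEndD
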