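import Vale.Agent.P100.Calib.SlabStripEndIZ7LineFacts
import Vale.Agent.P100.Calib.SlabStripEndIZ7Leaves5

/-!
# The signs in the pieces of the `I` and `Z` charts (At5)
-/

set_option linter.unusedVariables false
set_option linter.unusedTactic false
set_option linter.unreachableTactic false
set_option linter.unusedSimpArgs false
set_option linter.unnecessarySeqFocus false

namespace Vale.Agent.P100.Calib.StripEndD

open Pack hiding ev_add ev_mul
open Pack.Ex Band StripMid StripEnd

local instance endIZ7At5Add : Add Ex := ⟨Ex.add⟩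
local instance endIZ7At5Sub : Sub Ex := ⟨Ex.sub⟩
local instance endIZ7At5Mul : Mul Ex := ⟨Ex.mul⟩

/-- The signs in the piece 250. -/
theorem izAt250 {n : ℕ} {a b u v t H I r s : ℝ} (hb : Closed.All.ChartBox n (b - a) (a + b))
    (hF : Closed.All.ChartFacts (b - a) (a + b) u v t)
    (hH : Closed.chH (b - a) (a + b) u v t = H) (hB : EndBands7 a b u v H)
    (hside : DLow a b) (hE : ExitLine a b u v) (hI : IPt a b u I r s) (hI0 : 0 < I)
    (q0l : (3 / 32 : ℝ) < I) (q0u : I ≤ (1 / 10 : ℝ)) (q1l : (2 / 5 : ℝ) < r) (q1u : r ≤ (1 : ℝ)) (q2l : (3 / 4 : ℝ) < s) (q2u : s ≤ (19 / 20 : ℝ)) :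
    Closed.Strip.ChartSigns (b - a) (a + b) u v t := by
  obtain ⟨hl, hr⟩ := izLine74 hB hE hI0 (⟨hI, (inU_of (by norm_num) (by norm_num; linarith) (by norm_num; linarith)), (inU_of (by norm_num) (by norm_num; linarith) (by norm_num; linarith)), (inU_of (by norm_num) (by norm_num; linarith) (by norm_num; linarith)), by norm_num [Lines.denV, izM74] <;> linarith⟩ : InLines izM74 (3, 4, 40) (1, 50, 50) (15, 19, 20) a b u I r s)
  norm_num [afVal, Lines.denV, izM74] at hl hr
  refine izLeaf250.low rfl rfl hb hF hH hB hside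
    (⟨hI, (inU_of (by norm_num) (by norm_num; linarith) (by norm_num; linarith)), (inU_of (by norm_num) (by norm_num; linarith) (by norm_num; linarith)), (inU_of (by norm_num) (by norm_num; linarith) (by norm_num; linarith)), by norm_num [Lines.denV, izL250] <;> linarith⟩ : InLines izL250 (15, 16, 160) (2, 5, 5) (15, 19, 20) a b u I r s) ?_ ?_
  all_goals norm_num [afVal, Lines.denV, izL250] <;> linarith

/-- The signs in the piece 300. -/
theorem izAt300 {n : ℕ} {a b u v t H I r s : ℝ} (hb : Closed.All.ChartBox n (b - a) (a + b))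
    (hF : Closed.All.ChartFacts (b - a) (a + b) u v t)
    (hH : Closed.chH (b - a) (a + b) u v t = H) (hB : EndBands7 a b u v H)
    (hside : DHigh a b) (hE : ExitLine a b u v) (hI : IPt a b u I r s) (hI0 : 0 < I)
    (q0l : (1 / 20 : ℝ) < I) (q0u : I ≤ (1 / 10 : ℝ)) (q1l : (1 / 50 : ℝ) < r) (q1u : r ≤ (3 / 20 : ℝ)) (q2l : (22 / 25 : ℝ) < s) (q2u : s ≤ (1 : ℝ)) :
    Closed.Strip.ChartSigns (b - a) (a + b) u v t := by
  obtain ⟨hl, hr⟩ := izLine75 hB hE hI0 (⟨hI, (inU_of (by norm_num) (by norm_num; linarith) (by norm_num; linarith)), (inU_of (by norm_num) (by norm_num; linarith) (by norm_num; linarith)), (inU_of (by norm_num) (by norm_num; linarith) (by norm_num; linarith)), by norm_num [Lines.denV, izM75] <;> linarith⟩ : InLines izM75 (1, 2, 20) (2, 15, 100) (22, 25, 25) a b u I r s)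
  norm_num [afVal, Lines.denV, izM75] at hl hr
  refine izLeaf300.high rfl rfl hb hF hH hB hside
    (⟨hI, (inU_of (by norm_num) (by norm_num; linarith) (by norm_num; linarith)), (inU_of (by norm_num) (by norm_num; linarith) (by norm_num; linarith)), (inU_of (by norm_num) (by norm_num; linarith) (by norm_num; linarith)), by norm_num [Lines.denV, izL300] <;> linarith⟩ : InLines izL300 (1, 2, 20) (2, 15, 100) (22, 25, 25) a b u I r s) ?_ ?_
  all_goals norm_num [afVal, Lines.denV, izL300] <;> linarith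

/-- The signs in the piece 301. -/
theorem izAt301 {n : ℕ} {a b u v t H I r s : ℝ} (hb : Closed.All.ChartBox n (b - a) (a + b))
    (hF : Closed.All.ChartFacts (b - a) (a + b) u v t)
    (hH : Closed.chH (b - a) (a + b) u v t = H) (hB : EndBands7 a b u v H)
    (hside : DHigh a b) (hE : ExitLine a b u v) (hI : IPt a b u I r s) (hI0 : 0 < I)
    (q0l : (1 / 20 : ℝ) < I) (q0u : I ≤ (1 / 10 : ℝ)) (q1l : (3 / 20 : ℝ) < r) (q1u : r ≤ (1 : ℝ)) (q2l : (22 / 25 : ℝ) < s) (q2u : s ≤ (1 : ℝ)) :
    Closed.Strip.ChartSigns (b - a) (a + b) u v t := by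
  obtain ⟨hl, hr⟩ := izLine76 hB hE hI0 (⟨hI, (inU_of (by norm_num) (by norm_num; linarith) (by norm_num; linarith)), (inU_of (by norm_num) (by norm_num; linarith) (by norm_num; linarith)), (inU_of (by norm_num) (by norm_num; linarith) (by norm_num; linarith)), by norm_num [Lines.denV, izM76] <;> linarith⟩ : InLines izM76 (1, 2, 20) (3, 20, 20) (22, 25, 25) a b u I r s)
  norm_num [afVal, Lines.denV, izM76] at hl hr
  refine izLeaf301.high rfl rfl hb hF hH hB hside
    (⟨hI, (inU_of (by norm_num) (by norm_num; linarith) (by norm_num; linarith)), (inU_of (by norm_num) (by norm_num; linarith) (by norm_num; linarith)), (inU_of (by norm_num) (by norm_num; linarith) (by norm_num; linarith)), by norm_num [Lines.denV, izL301] <;> linarith⟩ : InLines izL301 (1, 2, 20) (3, 20, 20) (22, 25, 25) a b u I r s) ?_ ?_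
  all_goals norm_num [afVal, Lines.denV, izL301] <;> linarith

/-- The signs in the piece 302. -/
theorem izAt302 {n : ℕ} {a b u v t H I r s : ℝ} (hb : Closed.All.ChartBox n (b - a) (a + b))
    (hF : Closed.All.ChartFacts (b - a) (a + b) u v t)
    (hH : Closed.chH (b - a) (a + b) u v t = H) (hB : EndBands7 a b u v H)
    (hside : DHigh a b) (hE : ExitLine a b u v) (hI : IPt a b u I r s) (hI0 : 0 < I)
    (q0l : (1 / 10 : ℝ) < I) (q0u : I ≤ (3 / 25 : ℝ)) (q1l : (1 / 50 : ℝ) < r) (q1u : r ≤ (1 / 16 : ℝ)) (q2l : (21 / 25 : ℝ) < s) (q2u : s ≤ (1 : ℝ)) :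
    Closed.Strip.ChartSigns (b - a) (a + b) u v t := by
  obtain ⟨hl, hr⟩ := izLine77 hB hE hI0 (⟨hI, (inU_of (by norm_num) (by norm_num; linarith) (by norm_num; linarith)), (inU_of (by norm_num) (by norm_num; linarith) (by norm_num; linarith)), (inU_of (by norm_num) (by norm_num; linarith) (by norm_num; linarith)), by norm_num [Lines.denV, izM77] <;> linarith⟩ : InLines izM77 (5, 6, 50) (8, 25, 400) (21, 25, 25) a b u I r s)
  norm_num [afVal, Lines.denV, izM77] at hl hr
  refine izLeaf302.high rfl rfl hb hF hH hB hside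
    (⟨hI, (inU_of (by norm_num) (by norm_num; linarith) (by norm_num; linarith)), (inU_of (by norm_num) (by norm_num; linarith) (by norm_num; linarith)), (inU_of (by norm_num) (by norm_num; linarith) (by norm_num; linarith)), by norm_num [Lines.denV, izL302] <;> linarith⟩ : InLines izL302 (5, 6, 50) (8, 25, 400) (21, 25, 25) a b u I r s) ?_ ?_
  all_goals norm_num [afVal, Lines.denV, izL302] <;> linarith

/-- The signs in the piece 303. -/
theorem izAt303 {n : ℕ} {a b u v t H I r s : ℝ} (hb : Closed.All.ChartBox n (b - a) (a + b))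
    (hF : Closed.All.ChartFacts (b - a) (a + b) u v t)
    (hH : Closed.chH (b - a) (a + b) u v t = H) (hB : EndBands7 a b u v H)
    (hside : DHigh a b) (hE : ExitLine a b u v) (hI : IPt a b u I r s) (hI0 : 0 < I)
    (q0l : (1 / 10 : ℝ) < I) (q0u : I ≤ (3 / 25 : ℝ)) (q1l : (1 / 16 : ℝ) < r) (q1u : r ≤ (3 / 20 : ℝ)) (q2l : (21 / 25 : ℝ) < s) (q2u : s ≤ (1 : ℝ)) :
    Closed.Strip.ChartSigns (b - a) (a + b) u v t := by
  obtain ⟨hl, hr⟩ := izLine78 hB hE hI0 (⟨hI, (inU_of (by norm_num) (by norm_num; linarith) (by norm_num; linarith)), (inU_of (by norm_num) (by norm_num; linarith) (by norm_num; linarith)), (inU_of (by norm_num) (by norm_num; linarith) (by norm_num; linarith)), by norm_num [Lines.denV, izM78] <;> linarith⟩ : InLines izM78 (5, 6, 50) (5, 12, 80) (21, 25, 25) a b u I r s)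
  norm_num [afVal, Lines.denV, izM78] at hl hr
  refine izLeaf303.high rfl rfl hb hF hH hB hside
    (⟨hI, (inU_of (by norm_num) (by norm_num; linarith) (by norm_num; linarith)), (inU_of (by norm_num) (by norm_num; linarith) (by norm_num; linarith)), (inU_of (by norm_num) (by norm_num; linarith) (by norm_num; linarith)), by norm_num [Lines.denV, izL303] <;> linarith⟩ : InLines izL303 (5, 6, 50) (5, 12, 80) (21, 25, 25) a b u I r s) ?_ ?_
  all_goals norm_num [afVal, Lines.denV, izL303] <;> linarith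

/-- The signs in the piece 304. -/
theorem izAt304 {n : ℕ} {a b u v t H I r s : ℝ} (hb : Closed.All.ChartBox n (b - a) (a + b))
    (hF : Closed.All.ChartFacts (b - a) (a + b) u v t)
    (hH : Closed.chH (b - a) (a + b) u v t = H) (hB : EndBands7 a b u v H)
    (hside : DHigh a b) (hE : ExitLine a b u v) (hI : IPt a b u I r s) (hI0 : 0 < I)
    (q0l : (3 / 25 : ℝ) < I) (q0u : I ≤ (27 / 200 : ℝ)) (q1l : (1 / 50 : ℝ) < r) (q1u : r ≤ (3 / 20 : ℝ)) (q2l : (21 / 25 : ℝ) < s) (q2u : s ≤ (1 : ℝ)) :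
    Closed.Strip.ChartSigns (b - a) (a + b) u v t := by
  obtain ⟨hl, hr⟩ := izLine79 hB hE hI0 (⟨hI, (inU_of (by norm_num) (by norm_num; linarith) (by norm_num; linarith)), (inU_of (by norm_num) (by norm_num; linarith) (by norm_num; linarith)), (inU_of (by norm_num) (by norm_num; linarith) (by norm_num; linarith)), by norm_num [Lines.denV, izM79] <;> linarith⟩ : InLines izM79 (24, 27, 200) (2, 15, 100) (21, 25, 25) a b u I r s)
  norm_num [afVal, Lines.denV, izM79] at hl hr
  refine izLeaf304.high rfl rfl hb hF hH hB hside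
    (⟨hI, (inU_of (by norm_num) (by norm_num; linarith) (by norm_num; linarith)), (inU_of (by norm_num) (by norm_num; linarith) (by norm_num; linarith)), (inU_of (by norm_num) (by norm_num; linarith) (by norm_num; linarith)), by norm_num [Lines.denV, izL304] <;> linarith⟩ : InLines izL304 (24, 27, 200) (2, 15, 100) (21, 25, 25) a b u I r s) ?_ ?_
  all_goals norm_num [afVal, Lines.denV, izL304] <;> linarith

/-- The signs in the piece 305. -/
theorem izAt305 {n : ℕ} {a b u v t H I r s : ℝ} (hb : Closed.All.ChartBox n (b - a) (a + b))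
    (hF : Closed.All.ChartFacts (b - a) (a + b) u v t)
    (hH : Closed.chH (b - a) (a + b) u v t = H) (hB : EndBands7 a b u v H)
    (hside : DHigh a b) (hE : ExitLine a b u v) (hI : IPt a b u I r s) (hI0 : 0 < I)
    (q0l : (1 / 10 : ℝ) < I) (q0u : I ≤ (27 / 200 : ℝ)) (q1l : (3 / 20 : ℝ) < r) (q1u : r ≤ (2 / 5 : ℝ)) (q2l : (21 / 25 : ℝ) < s) (q2u : s ≤ (1 : ℝ)) :
    Closed.Strip.ChartSigns (b - a) (a + b) u v t := by
  obtain ⟨hl, hr⟩ := izLine80 hB hE hI0 (⟨hI, (inU_of (by norm_num) (by norm_num; linarith) (by norm_num; linarith)), (inU_of (by norm_num) (by norm_num; linarith) (by norm_num; linarith)), (inU_of (by norm_num) (by norm_num; linarith) (by norm_num; linarith)), by norm_num [Lines.denV, izM80] <;> linarith⟩ : InLines izM80 (20, 27, 200) (3, 8, 20) (21, 25, 25) a b u I r s)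
  norm_num [afVal, Lines.denV, izM80] at hl hr
  refine izLeaf305.high rfl rfl hb hF hH hB hside
    (⟨hI, (inU_of (by norm_num) (by norm_num; linarith) (by norm_num; linarith)), (inU_of (by norm_num) (by norm_num; linarith) (by norm_num; linarith)), (inU_of (by norm_num) (by norm_num; linarith) (by norm_num; linarith)), by norm_num [Lines.denV, izL305] <;> linarith⟩ : InLines izL305 (20, 27, 200) (3, 8, 20) (21, 25, 25) a b u I r s) ?_ ?_
  all_goals norm_num [afVal, Lines.denV, izL305] <;> linarith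

/-- The signs in the piece 310. -/
theorem izAt310 {n : ℕ} {a b u v t H I r s : ℝ} (hb : Closed.All.ChartBox n (b - a) (a + b))
    (hF : Closed.All.ChartFacts (b - a) (a + b) u v t)
    (hH : Closed.chH (b - a) (a + b) u v t = H) (hB : EndBands7 a b u v H)
    (hside : DHigh a b) (hE : ExitLine a b u v) (hI : IPt a b u I r s) (hI0 : 0 < I)
    (q0l : (1 / 10 : ℝ) < I) (q0u : I ≤ (1 / 8 : ℝ)) (q1l : (3 / 1600 : ℝ) < r) (q1u : r ≤ (1 / 160 : ℝ)) (q2l : (17 / 20 : ℝ) < s) (q2u : s ≤ (1 : ℝ)) (ku : (500 : ℝ) * (1 - a * v) ≤ (214 : ℝ)) :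
    Closed.Strip.ChartSigns (b - a) (a + b) u v t := by
  obtain ⟨hl, hr⟩ := izLine81 hB hE hI0 (⟨hI, (inU_of (by norm_num) (by norm_num; linarith) (by norm_num; linarith)), (inU_of (by norm_num) (by norm_num; linarith) (by norm_num; linarith)), (inU_of (by norm_num) (by norm_num; linarith) (by norm_num; linarith)), by norm_num [Lines.denV, izM81] <;> linarith⟩ : InLines izM81 (4, 5, 40) (3, 10, 1600) (17, 20, 20) a b u I r s)
  norm_num [afVal, Lines.denV, izM81] at hl hr
  refine izLeaf310.high rfl rfl hb hF hH hB hside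
    (⟨hI, (inU_of (by norm_num) (by norm_num; linarith) (by norm_num; linarith)), (inU_of (by norm_num) (by norm_num; linarith) (by norm_num; linarith)), (inU_of (by norm_num) (by norm_num; linarith) (by norm_num; linarith)), by norm_num [Lines.denV, izL310] <;> linarith⟩ : InLines izL310 (4, 5, 40) (3, 10, 1600) (17, 20, 20) a b u I r s) ?_ ?_
  all_goals norm_num [afVal, Lines.denV, izL310] <;> linarith

/-- The signs in the piece 311. -/
theorem izAt311 {n : ℕ} {a b u v t H I r s : ℝ} (hb : Closed.All.ChartBox n (b - a) (a + b))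
    (hF : Closed.All.ChartFacts (b - a) (a + b) u v t)
    (hH : Closed.chH (b - a) (a + b) u v t = H) (hB : EndBands7 a b u v H)
    (hside : DHigh a b) (hE : ExitLine a b u v) (hI : IPt a b u I r s) (hI0 : 0 < I)
    (q0l : (1 / 10 : ℝ) < I) (q0u : I ≤ (1 / 8 : ℝ)) (q1l : (3 / 1600 : ℝ) < r) (q1u : r ≤ (1 / 160 : ℝ)) (q2l : (17 / 20 : ℝ) < s) (q2u : s ≤ (1 : ℝ)) (kl : (214 : ℝ) < (500 : ℝ) * (1 - a * v)) :
    Closed.Strip.ChartSigns (b - a) (a + b) u v t := by
  obtain ⟨hl, hr⟩ := izLine81 hB hE hI0 (⟨hI, (inU_of (by norm_num) (by norm_num; linarith) (by norm_num; linarith)), (inU_of (by norm_num) (by norm_num; linarith) (by norm_num; linarith)), (inU_of (by norm_num) (by norm_num; linarith) (by norm_num; linarith)), by norm_num [Lines.denV, izM81] <;> linarith⟩ : InLines izM81 (4, 5, 40) (3, 10, 1600) (17, 20, 20) a b u I r s)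
  norm_num [afVal, Lines.denV, izM81] at hl hr
  refine izLeaf311.high rfl rfl hb hF hH hB hside
    (⟨hI, (inU_of (by norm_num) (by norm_num; linarith) (by norm_num; linarith)), (inU_of (by norm_num) (by norm_num; linarith) (by norm_num; linarith)), (inU_of (by norm_num) (by norm_num; linarith) (by norm_num; linarith)), by norm_num [Lines.denV, izL311] <;> linarith⟩ : InLines izL311 (4, 5, 40) (3, 10, 1600) (17, 20, 20) a b u I r s) ?_ ?_
  all_goals norm_num [afVal, Lines.denV, izL311] <;> linarith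

/-- The signs in the piece 312. -/
theorem izAt312 {n : ℕ} {a b u v t H I r s : ℝ} (hb : Closed.All.ChartBox n (b - a) (a + b))
    (hF : Closed.All.ChartFacts (b - a) (a + b) u v t)
    (hH : Closed.chH (b - a) (a + b) u v t = H) (hB : EndBands7 a b u v H)
    (hside : DHigh a b) (hE : ExitLine a b u v) (hI : IPt a b u I r s) (hI0 : 0 < I)
    (q0l : (1 / 10 : ℝ) < I) (q0u : I ≤ (1 / 8 : ℝ)) (q1l : (1 / 160 : ℝ) < r) (q1u : r ≤ (1 / 100 : ℝ)) (q2l : (17 / 20 : ℝ) < s) (q2u : s ≤ (1 : ℝ)) (ku : (500 : ℝ) * (1 - a * v) ≤ (93 : ℝ)) :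
    Closed.Strip.ChartSigns (b - a) (a + b) u v t := by
  obtain ⟨hl, hr⟩ := izLine82 hB hE hI0 (⟨hI, (inU_of (by norm_num) (by norm_num; linarith) (by norm_num; linarith)), (inU_of (by norm_num) (by norm_num; linarith) (by norm_num; linarith)), (inU_of (by norm_num) (by norm_num; linarith) (by norm_num; linarith)), by norm_num [Lines.denV, izM82] <;> linarith⟩ : InLines izM82 (4, 5, 40) (5, 16, 800) (17, 20, 20) a b u I r s)
  norm_num [afVal, Lines.denV, izM82] at hl hr
  refine izLeaf312.high rfl rfl hb hF hH hB hside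
    (⟨hI, (inU_of (by norm_num) (by norm_num; linarith) (by norm_num; linarith)), (inU_of (by norm_num) (by norm_num; linarith) (by norm_num; linarith)), (inU_of (by norm_num) (by norm_num; linarith) (by norm_num; linarith)), by norm_num [Lines.denV, izL312] <;> linarith⟩ : InLines izL312 (4, 5, 40) (5, 8, 800) (17, 20, 20) a b u I r s) ?_ ?_
  all_goals norm_num [afVal, Lines.denV, izL312] <;> linarith

/-- The signs in the piece 313. -/
theorem izAt313 {n : ℕ} {a b u v t H I r s : ℝ} (hb : Closed.All.ChartBox n (b - a) (a + b))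
    (hF : Closed.All.ChartFacts (b - a) (a + b) u v t)
    (hH : Closed.chH (b - a) (a + b) u v t = H) (hB : EndBands7 a b u v H)
    (hside : DHigh a b) (hE : ExitLine a b u v) (hI : IPt a b u I r s) (hI0 : 0 < I)
    (q0l : (1 / 10 : ℝ) < I) (q0u : I ≤ (1 / 8 : ℝ)) (q1l : (1 / 100 : ℝ) < r) (q1u : r ≤ (1 / 50 : ℝ)) (q2l : (17 / 20 : ℝ) < s) (q2u : s ≤ (1 : ℝ)) (ku : (500 : ℝ) * (1 - a * v) ≤ (93 : ℝ)) :
    Closed.Strip.ChartSigns (b - a) (a + b) u v t := by
  obtain ⟨hl, hr⟩ := izLine82 hB hE hI0 (⟨hI, (inU_of (by norm_num) (by norm_num; linarith) (by norm_num; linarith)), (inU_of (by norm_num) (by norm_num; linarith) (by norm_num; linarith)), (inU_of (by norm_num) (by norm_num; linarith) (by norm_num; linarith)), by norm_num [Lines.denV, izM82] <;> linarith⟩ : InLines izM82 (4, 5, 40) (5, 16, 800) (17, 20, 20) a b u I r s)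
  norm_num [afVal, Lines.denV, izM82] at hl hr
  refine izLeaf313.high rfl rfl hb hF hH hB hside
    (⟨hI, (inU_of (by norm_num) (by norm_num; linarith) (by norm_num; linarith)), (inU_of (by norm_num) (by norm_num; linarith) (by norm_num; linarith)), (inU_of (by norm_num) (by norm_num; linarith) (by norm_num; linarith)), by norm_num [Lines.denV, izL313] <;> linarith⟩ : InLines izL313 (4, 5, 40) (1, 2, 100) (17, 20, 20) a b u I r s) ?_ ?_
  all_goals norm_num [afVal, Lines.denV, izL313] <;> linarith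

/-- The signs in the piece 314. -/
theorem izAt314 {n : ℕ} {a b u v t H I r s : ℝ} (hb : Closed.All.ChartBox n (b - a) (a + b))
    (hF : Closed.All.ChartFacts (b - a) (a + b) u v t)
    (hH : Closed.chH (b - a) (a + b) u v t = H) (hB : EndBands7 a b u v H)
    (hside : DHigh a b) (hE : ExitLine a b u v) (hI : IPt a b u I r s) (hI0 : 0 < I)
    (q0l : (1 / 10 : ℝ) < I) (q0u : I ≤ (1 / 8 : ℝ)) (q1l : (1 / 160 : ℝ) < r) (q1u : r ≤ (1 / 50 : ℝ)) (q2l : (17 / 20 : ℝ) < s) (q2u : s ≤ (1 : ℝ)) (kl : (93 : ℝ) < (500 : ℝ) * (1 - a * v)) (ku : (500 : ℝ) * (1 - a * v) ≤ (182 : ℝ)) :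
    Closed.Strip.ChartSigns (b - a) (a + b) u v t := by
  obtain ⟨hl, hr⟩ := izLine82 hB hE hI0 (⟨hI, (inU_of (by norm_num) (by norm_num; linarith) (by norm_num; linarith)), (inU_of (by norm_num) (by norm_num; linarith) (by norm_num; linarith)), (inU_of (by norm_num) (by norm_num; linarith) (by norm_num; linarith)), by norm_num [Lines.denV, izM82] <;> linarith⟩ : InLines izM82 (4, 5, 40) (5, 16, 800) (17, 20, 20) a b u I r s)
  norm_num [afVal, Lines.denV, izM82] at hl hr
  refine izLeaf314.high rfl rfl hb hF hH hB hside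
    (⟨hI, (inU_of (by norm_num) (by norm_num; linarith) (by norm_num; linarith)), (inU_of (by norm_num) (by norm_num; linarith) (by norm_num; linarith)), (inU_of (by norm_num) (by norm_num; linarith) (by norm_num; linarith)), by norm_num [Lines.denV, izL314] <;> linarith⟩ : InLines izL314 (4, 5, 40) (5, 16, 800) (17, 20, 20) a b u I r s) ?_ ?_
  all_goals norm_num [afVal, Lines.denV, izL314] <;> linarith

/-- The signs in the piece 315. -/
theorem izAt315 {n : ℕ} {a b u v t H I r s : ℝ} (hb : Closed.All.ChartBox n (b - a) (a + b))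
    (hF : Closed.All.ChartFacts (b - a) (a + b) u v t)
    (hH : Closed.chH (b - a) (a + b) u v t = H) (hB : EndBands7 a b u v H)
    (hside : DHigh a b) (hE : ExitLine a b u v) (hI : IPt a b u I r s) (hI0 : 0 < I)
    (q0l : (1 / 10 : ℝ) < I) (q0u : I ≤ (1 / 8 : ℝ)) (q1l : (1 / 160 : ℝ) < r) (q1u : r ≤ (1 / 50 : ℝ)) (q2l : (17 / 20 : ℝ) < s) (q2u : s ≤ (1 : ℝ)) (kl : (182 : ℝ) < (500 : ℝ) * (1 - a * v)) :
    Closed.Strip.ChartSigns (b - a) (a + b) u v t := by
  obtain ⟨hl, hr⟩ := izLine82 hB hE hI0 (⟨hI, (inU_of (by norm_num) (by norm_num; linarith) (by norm_num; linarith)), (inU_of (by norm_num) (by norm_num; linarith) (by norm_num; linarith)), (inU_of (by norm_num) (by norm_num; linarith) (by norm_num; linarith)), by norm_num [Lines.denV, izM82] <;> linarith⟩ : InLines izM82 (4, 5, 40) (5, 16, 800) (17, 20, 20) a b u I r s)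
  norm_num [afVal, Lines.denV, izM82] at hl hr
  refine izLeaf315.high rfl rfl hb hF hH hB hside
    (⟨hI, (inU_of (by norm_num) (by norm_num; linarith) (by norm_num; linarith)), (inU_of (by norm_num) (by norm_num; linarith) (by norm_num; linarith)), (inU_of (by norm_num) (by norm_num; linarith) (by norm_num; linarith)), by norm_num [Lines.denV, izL315] <;> linarith⟩ : InLines izL315 (4, 5, 40) (5, 16, 800) (17, 20, 20) a b u I r s) ?_ ?_
  all_goals norm_num [afVal, Lines.denV, izL315] <;> linarith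

/-- The signs in the piece 316. -/
theorem izAt316 {n : ℕ} {a b u v t H I r s : ℝ} (hb : Closed.All.ChartBox n (b - a) (a + b))
    (hF : Closed.All.ChartFacts (b - a) (a + b) u v t)
    (hH : Closed.chH (b - a) (a + b) u v t = H) (hB : EndBands7 a b u v H)
    (hside : DHigh a b) (hE : ExitLine a b u v) (hI : IPt a b u I r s) (hI0 : 0 < I)
    (q0l : (1 / 8 : ℝ) < I) (q0u : I ≤ (21 / 160 : ℝ)) (q1l : (1 / 160 : ℝ) < r) (q1u : r ≤ (1 / 100 : ℝ)) (q2l : (21 / 25 : ℝ) < s) (q2u : s ≤ (1 : ℝ)) (ku : (500 : ℝ) * (1 - a * v) ≤ (99 : ℝ)) :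
    Closed.Strip.ChartSigns (b - a) (a + b) u v t := by
  obtain ⟨hl, hr⟩ := izLine83 hB hE hI0 (⟨hI, (inU_of (by norm_num) (by norm_num; linarith) (by norm_num; linarith)), (inU_of (by norm_num) (by norm_num; linarith) (by norm_num; linarith)), (inU_of (by norm_num) (by norm_num; linarith) (by norm_num; linarith)), by norm_num [Lines.denV, izM83] <;> linarith⟩ : InLines izM83 (20, 21, 160) (5, 16, 800) (21, 25, 25) a b u I r s)
  norm_num [afVal, Lines.denV, izM83] at hl hr
  refine izLeaf316.high rfl rfl hb hF hH hB hside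
    (⟨hI, (inU_of (by norm_num) (by norm_num; linarith) (by norm_num; linarith)), (inU_of (by norm_num) (by norm_num; linarith) (by norm_num; linarith)), (inU_of (by norm_num) (by norm_num; linarith) (by norm_num; linarith)), by norm_num [Lines.denV, izL316] <;> linarith⟩ : InLines izL316 (20, 21, 160) (5, 8, 800) (21, 25, 25) a b u I r s) ?_ ?_
  all_goals norm_num [afVal, Lines.denV, izL316] <;> linarith

/-- The signs in the piece 317. -/
theorem izAt317 {n : ℕ} {a b u v t H I r s : ℝ} (hb : Closed.All.ChartBox n (b - a) (a + b))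
    (hF : Closed.All.ChartFacts (b - a) (a + b) u v t)
    (hH : Closed.chH (b - a) (a + b) u v t = H) (hB : EndBands7 a b u v H)
    (hside : DHigh a b) (hE : ExitLine a b u v) (hI : IPt a b u I r s) (hI0 : 0 < I)
    (q0l : (1 / 8 : ℝ) < I) (q0u : I ≤ (21 / 160 : ℝ)) (q1l : (1 / 100 : ℝ) < r) (q1u : r ≤ (1 / 50 : ℝ)) (q2l : (21 / 25 : ℝ) < s) (q2u : s ≤ (1 : ℝ)) (ku : (500 : ℝ) * (1 - a * v) ≤ (99 : ℝ)) :
    Closed.Strip.ChartSigns (b - a) (a + b) u v t := by
  obtain ⟨hl, hr⟩ := izLine83 hB hE hI0 (⟨hI, (inU_of (by norm_num) (by norm_num; linarith) (by norm_num; linarith)), (inU_of (by norm_num) (by norm_num; linarith) (by norm_num; linarith)), (inU_of (by norm_num) (by norm_num; linarith) (by norm_num; linarith)), by norm_num [Lines.denV, izM83] <;> linarith⟩ : InLines izM83 (20, 21, 160) (5, 16, 800) (21, 25, 25) a b u I r s)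
  norm_num [afVal, Lines.denV, izM83] at hl hr
  refine izLeaf317.high rfl rfl hb hF hH hB hside
    (⟨hI, (inU_of (by norm_num) (by norm_num; linarith) (by norm_num; linarith)), (inU_of (by norm_num) (by norm_num; linarith) (by norm_num; linarith)), (inU_of (by norm_num) (by norm_num; linarith) (by norm_num; linarith)), by norm_num [Lines.denV, izL317] <;> linarith⟩ : InLines izL317 (20, 21, 160) (1, 2, 100) (21, 25, 25) a b u I r s) ?_ ?_
  all_goals norm_num [afVal, Lines.denV, izL317] <;> linarith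

/-- The signs in the piece 318. -/
theorem izAt318 {n : ℕ} {a b u v t H I r s : ℝ} (hb : Closed.All.ChartBox n (b - a) (a + b))
    (hF : Closed.All.ChartFacts (b - a) (a + b) u v t)
    (hH : Closed.chH (b - a) (a + b) u v t = H) (hB : EndBands7 a b u v H)
    (hside : DHigh a b) (hE : ExitLine a b u v) (hI : IPt a b u I r s) (hI0 : 0 < I)
    (q0l : (1 / 8 : ℝ) < I) (q0u : I ≤ (21 / 160 : ℝ)) (q1l : (1 / 160 : ℝ) < r) (q1u : r ≤ (1 / 50 : ℝ)) (q2l : (21 / 25 : ℝ) < s) (q2u : s ≤ (1 : ℝ)) (kl : (99 : ℝ) < (500 : ℝ) * (1 - a * v)) (ku : (500 : ℝ) * (1 - a * v) ≤ (185 : ℝ)) :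
    Closed.Strip.ChartSigns (b - a) (a + b) u v t := by
  obtain ⟨hl, hr⟩ := izLine83 hB hE hI0 (⟨hI, (inU_of (by norm_num) (by norm_num; linarith) (by norm_num; linarith)), (inU_of (by norm_num) (by norm_num; linarith) (by norm_num; linarith)), (inU_of (by norm_num) (by norm_num; linarith) (by norm_num; linarith)), by norm_num [Lines.denV, izM83] <;> linarith⟩ : InLines izM83 (20, 21, 160) (5, 16, 800) (21, 25, 25) a b u I r s)
  norm_num [afVal, Lines.denV, izM83] at hl hr
  refine izLeaf318.high rfl rfl hb hF hH hB hside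
    (⟨hI, (inU_of (by norm_num) (by norm_num; linarith) (by norm_num; linarith)), (inU_of (by norm_num) (by norm_num; linarith) (by norm_num; linarith)), (inU_of (by norm_num) (by norm_num; linarith) (by norm_num; linarith)), by norm_num [Lines.denV, izL318] <;> linarith⟩ : InLines izL318 (20, 21, 160) (5, 16, 800) (21, 25, 25) a b u I r s) ?_ ?_
  all_goals norm_num [afVal, Lines.denV, izL318] <;> linarith

/-- The signs in the piece 319. -/
theorem izAt319 {n : ℕ} {a b u v t H I r s : ℝ} (hb : Closed.All.ChartBox n (b - a) (a + b))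
    (hF : Closed.All.ChartFacts (b - a) (a + b) u v t)
    (hH : Closed.chH (b - a) (a + b) u v t = H) (hB : EndBands7 a b u v H)
    (hside : DHigh a b) (hE : ExitLine a b u v) (hI : IPt a b u I r s) (hI0 : 0 < I)
    (q0l : (1 / 8 : ℝ) < I) (q0u : I ≤ (21 / 160 : ℝ)) (q1l : (1 / 160 : ℝ) < r) (q1u : r ≤ (1 / 50 : ℝ)) (q2l : (21 / 25 : ℝ) < s) (q2u : s ≤ (1 : ℝ)) (kl : (185 : ℝ) < (500 : ℝ) * (1 - a * v)) :
    Closed.Strip.ChartSigns (b - a) (a + b) u v t := by
  obtain ⟨hl, hr⟩ := izLine83 hB hE hI0 (⟨hI, (inU_of (by norm_num) (by norm_num; linarith) (by norm_num; linarith)), (inU_of (by norm_num) (by norm_num; linarith) (by norm_num; linarith)), (inU_of (by norm_num) (by norm_num; linarith) (by norm_num; linarith)), by norm_num [Lines.denV, izM83] <;> linarith⟩ : InLines izM83 (20, 21, 160) (5, 16, 800) (21, 25, 25) a b u I r s)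
  norm_num [afVal, Lines.denV, izM83] at hl hr
  refine izLeaf319.high rfl rfl hb hF hH hB hside
    (⟨hI, (inU_of (by norm_num) (by norm_num; linarith) (by norm_num; linarith)), (inU_of (by norm_num) (by norm_num; linarith) (by norm_num; linarith)), (inU_of (by norm_num) (by norm_num; linarith) (by norm_num; linarith)), by norm_num [Lines.denV, izL319] <;> linarith⟩ : InLines izL319 (20, 21, 160) (5, 16, 800) (21, 25, 25) a b u I r s) ?_ ?_
  all_goals norm_num [afVal, Lines.denV, izL319] <;> linarith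

/-- The signs in the piece 321. -/
theorem izAt321 {n : ℕ} {a b u v t H I r s : ℝ} (hb : Closed.All.ChartBox n (b - a) (a + b))
    (hF : Closed.All.ChartFacts (b - a) (a + b) u v t)
    (hH : Closed.chH (b - a) (a + b) u v t = H) (hB : EndBands7 a b u v H)
    (hside : DHigh a b) (hE : ExitLine a b u v) (hI : IPt a b u I r s) (hI0 : 0 < I)
    (q0l : (9 / 80 : ℝ) < I) (q0u : I ≤ (19 / 160 : ℝ)) (q1l : (0 : ℝ) < r) (q1u : r ≤ (3 / 1600 : ℝ)) (q2l : (17 / 20 : ℝ) < s) (q2u : s ≤ (7 / 8 : ℝ)) (ku : (500 : ℝ) * (1 - a * v) ≤ (210 : ℝ)) :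
    Closed.Strip.ChartSigns (b - a) (a + b) u v t := by
  obtain ⟨hl, hr⟩ := izLine54 hB hE hI0 (⟨hI, (inU_of (by norm_num) (by norm_num; linarith) (by norm_num; linarith)), (inU_of (by norm_num) (by norm_num; linarith) (by norm_num; linarith)), (inU_of (by norm_num) (by norm_num; linarith) (by norm_num; linarith)), by norm_num [Lines.denV, izM54] <;> linarith⟩ : InLines izM54 (4, 5, 40) (0, 3, 1600) (17, 20, 20) a b u I r s)
  norm_num [afVal, Lines.denV, izM54] at hl hr
  refine izLeaf321.high rfl rfl hb hF hH hB hside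
    (⟨hI, (inU_of (by norm_num) (by norm_num; linarith) (by norm_num; linarith)), (inU_of (by norm_num) (by norm_num; linarith) (by norm_num; linarith)), (inU_of (by norm_num) (by norm_num; linarith) (by norm_num; linarith)), by norm_num [Lines.denV, izL321] <;> linarith⟩ : InLines izL321 (18, 19, 160) (0, 1, 500) (34, 35, 40) a b u I r s) ?_ ?_
  all_goals norm_num [afVal, Lines.denV, izL321] <;> linarith

/-- The signs in the piece 322. -/
theorem izAt322 {n : ℕ} {a b u v t H I r s : ℝ} (hb : Closed.All.ChartBox n (b - a) (a + b))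
    (hF : Closed.All.ChartFacts (b - a) (a + b) u v t)
    (hH : Closed.chH (b - a) (a + b) u v t = H) (hB : EndBands7 a b u v H)
    (hside : DHigh a b) (hE : ExitLine a b u v) (hI : IPt a b u I r s) (hI0 : 0 < I)
    (q0l : (9 / 80 : ℝ) < I) (q0u : I ≤ (1 / 8 : ℝ)) (q1l : (0 : ℝ) < r) (q1u : r ≤ (3 / 1600 : ℝ)) (q2l : (7 / 8 : ℝ) < s) (q2u : s ≤ (1 : ℝ)) (ku : (500 : ℝ) * (1 - a * v) ≤ (210 : ℝ)) :
    Closed.Strip.ChartSigns (b - a) (a + b) u v t := by
  obtain ⟨hl, hr⟩ := izLine54 hB hE hI0 (⟨hI, (inU_of (by norm_num) (by norm_num; linarith) (by norm_num; linarith)), (inU_of (by norm_num) (by norm_num; linarith) (by norm_num; linarith)), (inU_of (by norm_num) (by norm_num; linarith) (by norm_num; linarith)), by norm_num [Lines.denV, izM54] <;> linarith⟩ : InLines izM54 (4, 5, 40) (0, 3, 1600) (17, 20, 20) a b u I r s)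
  norm_num [afVal, Lines.denV, izM54] at hl hr
  refine izLeaf322.high rfl rfl hb hF hH hB hside
    (⟨hI, (inU_of (by norm_num) (by norm_num; linarith) (by norm_num; linarith)), (inU_of (by norm_num) (by norm_num; linarith) (by norm_num; linarith)), (inU_of (by norm_num) (by norm_num; linarith) (by norm_num; linarith)), by norm_num [Lines.denV, izL322] <;> linarith⟩ : InLines izL322 (9, 10, 80) (0, 1, 500) (7, 8, 8) a b u I r s) ?_ ?_
  all_goals norm_num [afVal, Lines.denV, izL322] <;> linarith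

/-- The signs in the piece 323. -/
theorem izAt323 {n : ℕ} {a b u v t H I r s : ℝ} (hb : Closed.All.ChartBox n (b - a) (a + b))
    (hF : Closed.All.ChartFacts (b - a) (a + b) u v t)
    (hH : Closed.chH (b - a) (a + b) u v t = H) (hB : EndBands7 a b u v H)
    (hside : DHigh a b) (hE : ExitLine a b u v) (hI : IPt a b u I r s) (hI0 : 0 < I)
    (q0l : (21 / 160 : ℝ) < I) (q0u : I ≤ (133 / 1000 : ℝ)) (q1l : (0 : ℝ) < r) (q1u : r ≤ (1 / 500 : ℝ)) (q2l : (21 / 25 : ℝ) < s) (q2u : s ≤ (7 / 8 : ℝ)) (kl : (255 : ℝ) < (500 : ℝ) * (1 - a * v)) :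
    Closed.Strip.ChartSigns (b - a) (a + b) u v t := by
  obtain ⟨hl, hr⟩ := izLine56 hB hE hI0 (⟨hI, (inU_of (by norm_num) (by norm_num; linarith) (by norm_num; linarith)), (inU_of (by norm_num) (by norm_num; linarith) (by norm_num; linarith)), (inU_of (by norm_num) (by norm_num; linarith) (by norm_num; linarith)), by norm_num [Lines.denV, izM56] <;> linarith⟩ : InLines izM56 (2625, 2672, 20000) (0, 1, 50) (42, 45, 50) a b u I r s)
  norm_num [afVal, Lines.denV, izM56] at hl hr
  refine izLeaf323.high rfl rfl hb hF hH hB hside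
    (⟨hI, (inU_of (by norm_num) (by norm_num; linarith) (by norm_num; linarith)), (inU_of (by norm_num) (by norm_num; linarith) (by norm_num; linarith)), (inU_of (by norm_num) (by norm_num; linarith) (by norm_num; linarith)), by norm_num [Lines.denV, izL323] <;> linarith⟩ : InLines izL323 (525, 532, 4000) (0, 1, 500) (168, 175, 200) a b u I r s) ?_ ?_
  all_goals norm_num [afVal, Lines.denV, izL323] <;> linarith

/-- The signs in the piece 324. -/
theorem izAt324 {n : ℕ} {a b u v t H I r s : ℝ} (hb : Closed.All.ChartBox n (b - a) (a + b))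
    (hF : Closed.All.ChartFacts (b - a) (a + b) u v t)
    (hH : Closed.chH (b - a) (a + b) u v t = H) (hB : EndBands7 a b u v H)
    (hside : DHigh a b) (hE : ExitLine a b u v) (hI : IPt a b u I r s) (hI0 : 0 < I)
    (q0l : (133 / 1000 : ℝ) < I) (q0u : I ≤ (167 / 1250 : ℝ)) (q1l : (0 : ℝ) < r) (q1u : r ≤ (1 / 500 : ℝ)) (q2l : (21 / 25 : ℝ) < s) (q2u : s ≤ (7 / 8 : ℝ)) (kl : (255 : ℝ) < (500 : ℝ) * (1 - a * v)) :
    Closed.Strip.ChartSigns (b - a) (a + b) u v t := by
  obtain ⟨hl, hr⟩ := izLine56 hB hE hI0 (⟨hI, (inU_of (by norm_num) (by norm_num; linarith) (by norm_num; linarith)), (inU_of (by norm_num) (by norm_num; linarith) (by norm_num; linarith)), (inU_of (by norm_num) (by norm_num; linarith) (by norm_num; linarith)), by norm_num [Lines.denV, izM56] <;> linarith⟩ : InLines izM56 (2625, 2672, 20000) (0, 1, 50) (42, 45, 50) a b u I r s)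
  norm_num [afVal, Lines.denV, izM56] at hl hr
  refine izLeaf324.high rfl rfl hb hF hH hB hside
    (⟨hI, (inU_of (by norm_num) (by norm_num; linarith) (by norm_num; linarith)), (inU_of (by norm_num) (by norm_num; linarith) (by norm_num; linarith)), (inU_of (by norm_num) (by norm_num; linarith) (by norm_num; linarith)), by norm_num [Lines.denV, izL324] <;> linarith⟩ : InLines izL324 (133, 135, 1000) (0, 1, 500) (168, 175, 200) a b u I r s) ?_ ?_
  all_goals norm_num [afVal, Lines.denV, izL324] <;> linarith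

/-- The signs in the piece 325. -/
theorem izAt325 {n : ℕ} {a b u v t H I r s : ℝ} (hb : Closed.All.ChartBox n (b - a) (a + b))
    (hF : Closed.All.ChartFacts (b - a) (a + b) u v t)
    (hH : Closed.chH (b - a) (a + b) u v t = H) (hB : EndBands7 a b u v H)
    (hside : DHigh a b) (hE : ExitLine a b u v) (hI : IPt a b u I r s) (hI0 : 0 < I)
    (q0l : (19 / 160 : ℝ) < I) (q0u : I ≤ (1 / 8 : ℝ)) (q1l : (0 : ℝ) < r) (q1u : r ≤ (3 / 1600 : ℝ)) (q2l : (17 / 20 : ℝ) < s) (q2u : s ≤ (7 / 8 : ℝ)) (ku : (500 : ℝ) * (1 - a * v) ≤ (210 : ℝ)) :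
    Closed.Strip.ChartSigns (b - a) (a + b) u v t := by
  obtain ⟨hl, hr⟩ := izLine54 hB hE hI0 (⟨hI, (inU_of (by norm_num) (by norm_num; linarith) (by norm_num; linarith)), (inU_of (by norm_num) (by norm_num; linarith) (by norm_num; linarith)), (inU_of (by norm_num) (by norm_num; linarith) (by norm_num; linarith)), by norm_num [Lines.denV, izM54] <;> linarith⟩ : InLines izM54 (4, 5, 40) (0, 3, 1600) (17, 20, 20) a b u I r s)
  norm_num [afVal, Lines.denV, izM54] at hl hr
  refine izLeaf325.high rfl rfl hb hF hH hB hside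
    (⟨hI, (inU_of (by norm_num) (by norm_num; linarith) (by norm_num; linarith)), (inU_of (by norm_num) (by norm_num; linarith) (by norm_num; linarith)), (inU_of (by norm_num) (by norm_num; linarith) (by norm_num; linarith)), by norm_num [Lines.denV, izL325] <;> linarith⟩ : InLines izL325 (19, 20, 160) (0, 1, 500) (34, 35, 40) a b u I r s) ?_ ?_
  all_goals norm_num [afVal, Lines.denV, izL325] <;> linarith

/-- The signs in the piece 326. -/
theorem izAt326 {n : ℕ} {a b u v t H I r s : ℝ} (hb : Closed.All.ChartBox n (b - a) (a + b))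
    (hF : Closed.All.ChartFacts (b - a) (a + b) u v t)
    (hH : Closed.chH (b - a) (a + b) u v t = H) (hB : EndBands7 a b u v H)
    (hside : DHigh a b) (hE : ExitLine a b u v) (hI : IPt a b u I r s) (hI0 : 0 < I)
    (q0l : (1 / 10 : ℝ) < I) (q0u : I ≤ (27 / 200 : ℝ)) (q1l : (2 / 5 : ℝ) < r) (q1u : r ≤ (1 : ℝ)) (q2l : (21 / 25 : ℝ) < s) (q2u : s ≤ (1 : ℝ)) :
    Closed.Strip.ChartSigns (b - a) (a + b) u v t := by
  obtain ⟨hl, hr⟩ := izLine84 hB hE hI0 (⟨hI, (inU_of (by norm_num) (by norm_num; linarith) (by norm_num; linarith)), (inU_of (by norm_num) (by norm_num; linarith) (by norm_num; linarith)), (inU_of (by norm_num) (by norm_num; linarith) (by norm_num; linarith)), by norm_num [Lines.denV, izM84] <;> linarith⟩ : InLines izM84 (20, 27, 200) (2, 5, 5) (21, 25, 25) a b u I r s)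
  norm_num [afVal, Lines.denV, izM84] at hl hr
  refine izLeaf326.high rfl rfl hb hF hH hB hside
    (⟨hI, (inU_of (by norm_num) (by norm_num; linarith) (by norm_num; linarith)), (inU_of (by norm_num) (by norm_num; linarith) (by norm_num; linarith)), (inU_of (by norm_num) (by norm_num; linarith) (by norm_num; linarith)), by norm_num [Lines.denV, izL326] <;> linarith⟩ : InLines izL326 (20, 27, 200) (2, 5, 5) (21, 25, 25) a b u I r s) ?_ ?_
  all_goals norm_num [afVal, Lines.denV, izL326] <;> linarith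

/-- The signs in the piece 400. -/
theorem izAt400 {n : ℕ} {a b u v t H I r s : ℝ} (hb : Closed.All.ChartBox n (b - a) (a + b))
    (hF : Closed.All.ChartFacts (b - a) (a + b) u v t)
    (hH : Closed.chH (b - a) (a + b) u v t = H) (hB : EndBands7 a b u v H)
    (hside : DLow a b) (hE : ExitLine a b u v) (hI : IPt a b u I r s) (hI0 : 0 < I)
    (q0l : (1 / 10 : ℝ) < I) (q0u : I ≤ (1 / 8 : ℝ)) (q1l : (0 : ℝ) < r) (q1u : r ≤ (1 / 50 : ℝ)) (q2l : (0 : ℝ) < s) (q2u : s ≤ (3 / 20 : ℝ)) (kl : ((8000 : ℝ) * r) < (500 : ℝ) * (1 - a * v)) :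
    Closed.Strip.ChartSigns (b - a) (a + b) u v t := by
  obtain ⟨hl, hr⟩ := izLine3 hB hE hI0 (⟨hI, (inU_of (by norm_num) (by norm_num; linarith) (by norm_num; linarith)), (inU_of (by norm_num) (by norm_num; linarith) (by norm_num; linarith)), (inU_of (by norm_num) (by norm_num; linarith) (by norm_num; linarith)), by norm_num [Lines.denV, izM3] <;> linarith⟩ : InLines izM3 (4, 5, 40) (0, 1, 50) (0, 3, 20) a b u I r s)
  norm_num [afVal, Lines.denV, izM3] at hl hr
  refine izLeaf400.low rfl rfl hb hF hH hB hside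
    (⟨hI, (inU_of (by norm_num) (by norm_num; linarith) (by norm_num; linarith)), (inU_of (by norm_num) (by norm_num; linarith) (by norm_num; linarith)), (inU_of (by norm_num) (by norm_num; linarith) (by norm_num; linarith)), by norm_num [Lines.denV, izL400] <;> linarith⟩ : InLines izL400 (4, 5, 40) (0, 1, 50) (0, 3, 20) a b u I r s) ?_ ?_
  all_goals norm_num [afVal, Lines.denV, izL400] <;> linarith

/-- The signs in the piece 401. -/
theorem izAt401 {n : ℕ} {a b u v t H I r s : ℝ} (hb : Closed.All.ChartBox n (b - a) (a + b))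
    (hF : Closed.All.ChartFacts (b - a) (a + b) u v t)
    (hH : Closed.chH (b - a) (a + b) u v t = H) (hB : EndBands7 a b u v H)
    (hside : DLow a b) (hE : ExitLine a b u v) (hI : IPt a b u I r s) (hI0 : 0 < I)
    (q0l : (1 / 8 : ℝ) < I) (q0u : I ≤ (11 / 80 : ℝ)) (q1l : (0 : ℝ) < r) (q1u : r ≤ (1 / 50 : ℝ)) (q2l : (0 : ℝ) < s) (q2u : s ≤ (3 / 40 : ℝ)) (kl : ((8000 : ℝ) * r) < (500 : ℝ) * (1 - a * v)) :
    Closed.Strip.ChartSigns (b - a) (a + b) u v t := by
  obtain ⟨hl, hr⟩ := izLine4 hB hE hI0 (⟨hI, (inU_of (by norm_num) (by norm_num; linarith) (by norm_num; linarith)), (inU_of (by norm_num) (by norm_num; linarith) (by norm_num; linarith)), (inU_of (by norm_num) (by norm_num; linarith) (by norm_num; linarith)), by norm_num [Lines.denV, izM4] <;> linarith⟩ : InLines izM4 (10, 11, 80) (0, 1, 50) (0, 3, 40) a b u I r s)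
  norm_num [afVal, Lines.denV, izM4] at hl hr
  refine izLeaf401.low rfl rfl hb hF hH hB hside
    (⟨hI, (inU_of (by norm_num) (by norm_num; linarith) (by norm_num; linarith)), (inU_of (by norm_num) (by norm_num; linarith) (by norm_num; linarith)), (inU_of (by norm_num) (by norm_num; linarith) (by norm_num; linarith)), by norm_num [Lines.denV, izL401] <;> linarith⟩ : InLines izL401 (10, 11, 80) (0, 1, 50) (0, 3, 40) a b u I r s) ?_ ?_
  all_goals norm_num [afVal, Lines.denV, izL401] <;> linarith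

/-- The signs in the piece 402. -/
theorem izAt402 {n : ℕ} {a b u v t H I r s : ℝ} (hb : Closed.All.ChartBox n (b - a) (a + b))
    (hF : Closed.All.ChartFacts (b - a) (a + b) u v t)
    (hH : Closed.chH (b - a) (a + b) u v t = H) (hB : EndBands7 a b u v H)
    (hside : DLow a b) (hE : ExitLine a b u v) (hI : IPt a b u I r s) (hI0 : 0 < I)
    (q0l : (11 / 80 : ℝ) < I) (q0u : I ≤ (23 / 160 : ℝ)) (q1l : (0 : ℝ) < r) (q1u : r ≤ (1 / 50 : ℝ)) (q2l : (0 : ℝ) < s) (q2u : s ≤ (3 / 40 : ℝ)) (kl : ((8000 : ℝ) * r) < (500 : ℝ) * (1 - a * v)) :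
    Closed.Strip.ChartSigns (b - a) (a + b) u v t := by
  obtain ⟨hl, hr⟩ := izLine5 hB hE hI0 (⟨hI, (inU_of (by norm_num) (by norm_num; linarith) (by norm_num; linarith)), (inU_of (by norm_num) (by norm_num; linarith) (by norm_num; linarith)), (inU_of (by norm_num) (by norm_num; linarith) (by norm_num; linarith)), by norm_num [Lines.denV, izM5] <;> linarith⟩ : InLines izM5 (22, 23, 160) (0, 1, 50) (0, 3, 40) a b u I r s)
  norm_num [afVal, Lines.denV, izM5] at hl hr
  refine izLeaf402.low rfl rfl hb hF hH hB hside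
    (⟨hI, (inU_of (by norm_num) (by norm_num; linarith) (by norm_num; linarith)), (inU_of (by norm_num) (by norm_num; linarith) (by norm_num; linarith)), (inU_of (by norm_num) (by norm_num; linarith) (by norm_num; linarith)), by norm_num [Lines.denV, izL402] <;> linarith⟩ : InLines izL402 (22, 23, 160) (0, 1, 50) (0, 3, 40) a b u I r s) ?_ ?_
  all_goals norm_num [afVal, Lines.denV, izL402] <;> linarith

/-- The signs in the piece 403. -/
theorem izAt403 {n : ℕ} {a b u v t H I r s : ℝ} (hb : Closed.All.ChartBox n (b - a) (a + b))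
    (hF : Closed.All.ChartFacts (b - a) (a + b) u v t)
    (hH : Closed.chH (b - a) (a + b) u v t = H) (hB : EndBands7 a b u v H)
    (hside : DLow a b) (hE : ExitLine a b u v) (hI : IPt a b u I r s) (hI0 : 0 < I)
    (q0l : (1 / 8 : ℝ) < I) (q0u : I ≤ (43 / 320 : ℝ)) (q1l : (1 / 50 : ℝ) < r) (q1u : r ≤ (3 / 20 : ℝ)) (q2l : (3 / 40 : ℝ) < s) (q2u : s ≤ (3 / 20 : ℝ)) :
    Closed.Strip.ChartSigns (b - a) (a + b) u v t := by
  obtain ⟨hl, hr⟩ := izLine8 hB hE hI0 (⟨hI, (inU_of (by norm_num) (by norm_num; linarith) (by norm_num; linarith)), (inU_of (by norm_num) (by norm_num; linarith) (by norm_num; linarith)), (inU_of (by norm_num) (by norm_num; linarith) (by norm_num; linarith)), by norm_num [Lines.denV, izM8] <;> linarith⟩ : InLines izM8 (20, 23, 160) (2, 15, 100) (0, 3, 20) a b u I r s)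
  norm_num [afVal, Lines.denV, izM8] at hl hr
  refine izLeaf403.low rfl rfl hb hF hH hB hside
    (⟨hI, (inU_of (by norm_num) (by norm_num; linarith) (by norm_num; linarith)), (inU_of (by norm_num) (by norm_num; linarith) (by norm_num; linarith)), (inU_of (by norm_num) (by norm_num; linarith) (by norm_num; linarith)), by norm_num [Lines.denV, izL403] <;> linarith⟩ : InLines izL403 (40, 43, 320) (2, 15, 100) (3, 6, 40) a b u I r s) ?_ ?_
  all_goals norm_num [afVal, Lines.denV, izL403] <;> linarith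

/-- The signs in the piece 404. -/
theorem izAt404 {n : ℕ} {a b u v t H I r s : ℝ} (hb : Closed.All.ChartBox n (b - a) (a + b))
    (hF : Closed.All.ChartFacts (b - a) (a + b) u v t)
    (hH : Closed.chH (b - a) (a + b) u v t = H) (hB : EndBands7 a b u v H)
    (hside : DLow a b) (hE : ExitLine a b u v) (hI : IPt a b u I r s) (hI0 : 0 < I)
    (q0l : (1 / 10 : ℝ) < I) (q0u : I ≤ (1 / 8 : ℝ)) (q1l : (0 : ℝ) < r) (q1u : r ≤ (1 / 50 : ℝ)) (q2l : (33 / 80 : ℝ) < s) (q2u : s ≤ (1 / 2 : ℝ)) :
    Closed.Strip.ChartSigns (b - a) (a + b) u v t := by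
  obtain ⟨hl, hr⟩ := izLine12 hB hE hI0 (⟨hI, (inU_of (by norm_num) (by norm_num; linarith) (by norm_num; linarith)), (inU_of (by norm_num) (by norm_num; linarith) (by norm_num; linarith)), (inU_of (by norm_num) (by norm_num; linarith) (by norm_num; linarith)), by norm_num [Lines.denV, izM12] <;> linarith⟩ : InLines izM12 (4, 5, 40) (0, 1, 50) (13, 20, 40) a b u I r s)
  norm_num [afVal, Lines.denV, izM12] at hl hr
  refine izLeaf404.low rfl rfl hb hF hH hB hside
    (⟨hI, (inU_of (by norm_num) (by norm_num; linarith) (by norm_num; linarith)), (inU_of (by norm_num) (by norm_num; linarith) (by norm_num; linarith)), (inU_of (by norm_num) (by norm_num; linarith) (by norm_num; linarith)), by norm_num [Lines.denV, izL404] <;> linarith⟩ : InLines izL404 (4, 5, 40) (0, 1, 50) (33, 40, 80) a b u I r s) ?_ ?_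
  all_goals norm_num [afVal, Lines.denV, izL404] <;> linarith

/-- The signs in the piece 405. -/
theorem izAt405 {n : ℕ} {a b u v t H I r s : ℝ} (hb : Closed.All.ChartBox n (b - a) (a + b))
    (hF : Closed.All.ChartFacts (b - a) (a + b) u v t)
    (hH : Closed.chH (b - a) (a + b) u v t = H) (hB : EndBands7 a b u v H)
    (hside : DLow a b) (hE : ExitLine a b u v) (hI : IPt a b u I r s) (hI0 : 0 < I)
    (q0l : (1 / 8 : ℝ) < I) (q0u : I ≤ (11 / 80 : ℝ)) (q1l : (0 : ℝ) < r) (q1u : r ≤ (1 / 50 : ℝ)) (q2l : (33 / 80 : ℝ) < s) (q2u : s ≤ (1 / 2 : ℝ)) :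
    Closed.Strip.ChartSigns (b - a) (a + b) u v t := by
  obtain ⟨hl, hr⟩ := izLine14 hB hE hI0 (⟨hI, (inU_of (by norm_num) (by norm_num; linarith) (by norm_num; linarith)), (inU_of (by norm_num) (by norm_num; linarith) (by norm_num; linarith)), (inU_of (by norm_num) (by norm_num; linarith) (by norm_num; linarith)), by norm_num [Lines.denV, izM14] <;> linarith⟩ : InLines izM14 (10, 11, 80) (0, 1, 50) (13, 20, 40) a b u I r s)
  norm_num [afVal, Lines.denV, izM14] at hl hr
  refine izLeaf405.low rfl rfl hb hF hH hB hside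
    (⟨hI, (inU_of (by norm_num) (by norm_num; linarith) (by norm_num; linarith)), (inU_of (by norm_num) (by norm_num; linarith) (by norm_num; linarith)), (inU_of (by norm_num) (by norm_num; linarith) (by norm_num; linarith)), by norm_num [Lines.denV, izL405] <;> linarith⟩ : InLines izL405 (10, 11, 80) (0, 1, 50) (33, 40, 80) a b u I r s) ?_ ?_
  all_goals norm_num [afVal, Lines.denV, izL405] <;> linarith

/-- The signs in the piece 406. -/
theorem izAt406 {n : ℕ} {a b u v t H I r s : ℝ} (hb : Closed.All.ChartBox n (b - a) (a + b))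
    (hF : Closed.All.ChartFacts (b - a) (a + b) u v t)
    (hH : Closed.chH (b - a) (a + b) u v t = H) (hB : EndBands7 a b u v H)
    (hside : DLow a b) (hE : ExitLine a b u v) (hI : IPt a b u I r s) (hI0 : 0 < I)
    (q0l : (11 / 80 : ℝ) < I) (q0u : I ≤ (23 / 160 : ℝ)) (q1l : (0 : ℝ) < r) (q1u : r ≤ (1 / 50 : ℝ)) (q2l : (5 / 8 : ℝ) < s) (q2u : s ≤ (3 / 4 : ℝ)) (ku : (500 : ℝ) * (1 - a * v) ≤ (54 : ℝ)) :
    Closed.Strip.ChartSigns (b - a) (a + b) u v t := by
  obtain ⟨hl, hr⟩ := izLine26 hB hE hI0 (⟨hI, (inU_of (by norm_num) (by norm_num; linarith) (by norm_num; linarith)), (inU_of (by norm_num) (by norm_num; linarith) (by norm_num; linarith)), (inU_of (by norm_num) (by norm_num; linarith) (by norm_num; linarith)), by norm_num [Lines.denV, izM26] <;> linarith⟩ : InLines izM26 (20, 23, 160) (0, 1, 50) (2, 3, 4) a b u I r s)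
  norm_num [afVal, Lines.denV, izM26] at hl hr
  refine izLeaf406.low rfl rfl hb hF hH hB hside
    (⟨hI, (inU_of (by norm_num) (by norm_num; linarith) (by norm_num; linarith)), (inU_of (by norm_num) (by norm_num; linarith) (by norm_num; linarith)), (inU_of (by norm_num) (by norm_num; linarith) (by norm_num; linarith)), by norm_num [Lines.denV, izL406] <;> linarith⟩ : InLines izL406 (22, 23, 160) (0, 1, 50) (5, 6, 8) a b u I r s) ?_ ?_
  all_goals norm_num [afVal, Lines.denV, izL406] <;> linarith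

/-- The signs in the piece 407. -/
theorem izAt407 {n : ℕ} {a b u v t H I r s : ℝ} (hb : Closed.All.ChartBox n (b - a) (a + b))
    (hF : Closed.All.ChartFacts (b - a) (a + b) u v t)
    (hH : Closed.chH (b - a) (a + b) u v t = H) (hB : EndBands7 a b u v H)
    (hside : DLow a b) (hE : ExitLine a b u v) (hI : IPt a b u I r s) (hI0 : 0 < I)
    (q0l : (7 / 80 : ℝ) < I) (q0u : I ≤ (1 / 10 : ℝ)) (q1l : (0 : ℝ) < r) (q1u : r ≤ (1 / 50 : ℝ)) (q2l : (3 / 20 : ℝ) < s) (q2u : s ≤ (1 / 2 : ℝ)) :
    Closed.Strip.ChartSigns (b - a) (a + b) u v t := by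
  obtain ⟨hl, hr⟩ := izLine10 hB hE hI0 (⟨hI, (inU_of (by norm_num) (by norm_num; linarith) (by norm_num; linarith)), (inU_of (by norm_num) (by norm_num; linarith) (by norm_num; linarith)), (inU_of (by norm_num) (by norm_num; linarith) (by norm_num; linarith)), by norm_num [Lines.denV, izM10] <;> linarith⟩ : InLines izM10 (3, 4, 40) (0, 1, 50) (3, 10, 20) a b u I r s)
  norm_num [afVal, Lines.denV, izM10] at hl hr
  refine izLeaf407.low rfl rfl hb hF hH hB hside
    (⟨hI, (inU_of (by norm_num) (by norm_num; linarith) (by norm_num; linarith)), (inU_of (by norm_num) (by norm_num; linarith) (by norm_num; linarith)), (inU_of (by norm_num) (by norm_num; linarith) (by norm_num; linarith)), by norm_num [Lines.denV, izL407] <;> linarith⟩ : InLines izL407 (7, 8, 80) (0, 1, 50) (3, 10, 20) a b u I r s) ?_ ?_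
  all_goals norm_num [afVal, Lines.denV, izL407] <;> linarith

/-- The signs in the piece 408. -/
theorem izAt408 {n : ℕ} {a b u v t H I r s : ℝ} (hb : Closed.All.ChartBox n (b - a) (a + b))
    (hF : Closed.All.ChartFacts (b - a) (a + b) u v t)
    (hH : Closed.chH (b - a) (a + b) u v t = H) (hB : EndBands7 a b u v H)
    (hside : DLow a b) (hE : ExitLine a b u v) (hI : IPt a b u I r s) (hI0 : 0 < I)
    (q0l : (1 / 8 : ℝ) < I) (q0u : I ≤ (11 / 80 : ℝ)) (q1l : (0 : ℝ) < r) (q1u : r ≤ (1 / 50 : ℝ)) (q2l : (19 / 80 : ℝ) < s) (q2u : s ≤ (13 / 40 : ℝ)) :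
    Closed.Strip.ChartSigns (b - a) (a + b) u v t := by
  obtain ⟨hl, hr⟩ := izLine13 hB hE hI0 (⟨hI, (inU_of (by norm_num) (by norm_num; linarith) (by norm_num; linarith)), (inU_of (by norm_num) (by norm_num; linarith) (by norm_num; linarith)), (inU_of (by norm_num) (by norm_num; linarith) (by norm_num; linarith)), by norm_num [Lines.denV, izM13] <;> linarith⟩ : InLines izM13 (10, 11, 80) (0, 1, 50) (6, 13, 40) a b u I r s)
  norm_num [afVal, Lines.denV, izM13] at hl hr
  refine izLeaf408.low rfl rfl hb hF hH hB hside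
    (⟨hI, (inU_of (by norm_num) (by norm_num; linarith) (by norm_num; linarith)), (inU_of (by norm_num) (by norm_num; linarith) (by norm_num; linarith)), (inU_of (by norm_num) (by norm_num; linarith) (by norm_num; linarith)), by norm_num [Lines.denV, izL408] <;> linarith⟩ : InLines izL408 (10, 11, 80) (0, 1, 50) (19, 26, 80) a b u I r s) ?_ ?_
  all_goals norm_num [afVal, Lines.denV, izL408] <;> linarith

/-- The signs in the piece 409. -/
theorem izAt409 {n : ℕ} {a b u v t H I r s : ℝ} (hb : Closed.All.ChartBox n (b - a) (a + b))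
    (hF : Closed.All.ChartFacts (b - a) (a + b) u v t)
    (hH : Closed.chH (b - a) (a + b) u v t = H) (hB : EndBands7 a b u v H)
    (hside : DLow a b) (hE : ExitLine a b u v) (hI : IPt a b u I r s) (hI0 : 0 < I)
    (q0l : (43 / 320 : ℝ) < I) (q0u : I ≤ (23 / 160 : ℝ)) (q1l : (1 / 50 : ℝ) < r) (q1u : r ≤ (3 / 20 : ℝ)) (q2l : (3 / 40 : ℝ) < s) (q2u : s ≤ (3 / 20 : ℝ)) :
    Closed.Strip.ChartSigns (b - a) (a + b) u v t := by
  obtain ⟨hl, hr⟩ := izLine8 hB hE hI0 (⟨hI, (inU_of (by norm_num) (by norm_num; linarith) (by norm_num; linarith)), (inU_of (by norm_num) (by norm_num; linarith) (by norm_num; linarith)), (inU_of (by norm_num) (by norm_num; linarith) (by norm_num; linarith)), by norm_num [Lines.denV, izM8] <;> linarith⟩ : InLines izM8 (20, 23, 160) (2, 15, 100) (0, 3, 20) a b u I r s)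
  norm_num [afVal, Lines.denV, izM8] at hl hr
  refine izLeaf409.low rfl rfl hb hF hH hB hside
    (⟨hI, (inU_of (by norm_num) (by norm_num; linarith) (by norm_num; linarith)), (inU_of (by norm_num) (by norm_num; linarith) (by norm_num; linarith)), (inU_of (by norm_num) (by norm_num; linarith) (by norm_num; linarith)), by norm_num [Lines.denV, izL409] <;> linarith⟩ : InLines izL409 (43, 46, 320) (2, 15, 100) (3, 6, 40) a b u I r s) ?_ ?_
  all_goals norm_num [afVal, Lines.denV, izL409] <;> linarith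

end Vale.Agent.P100.Calib.StripEndD
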