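import Vale.Agent.P100.Calib.SlabStripEndIZ7At0
import Vale.Agent.P100.Calib.SlabStripEndIZ7At1
import Vale.Agent.P100.Calib.SlabStripEndIZ7At2
import Vale.Agent.P100.Calib.SlabStripEndIZ7At3
import Vale.Agent.P100.Calib.SlabStripEndIZ7At4
import Vale.Agent.P100.Calib.SlabStripEndIZ7At5

/-!
# The signs above the kink
-/

set_option linter.unusedVariables false
set_option linter.unusedTactic false
set_option linter.unreachableTactic false
set_option linter.unusedSimpArgs false
set_option linter.unnecessarySeqFocus false

namespace Vale.Agent.P100.Calib.StripEndD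

open Pack hiding ev_add ev_mul
open Pack.Ex Band StripMid StripEnd

local instance endIZ7HighAdd : Add Ex := ⟨Ex.add⟩
local instance endIZ7HighSub : Sub Ex := ⟨Ex.sub⟩
local instance endIZ7HighMul : Mul Ex := ⟨Ex.mul⟩

/-- The signs in a part of the zone above the kink (0). -/
theorem iz7High_0 {n : ℕ} {a b u v t H I r s : ℝ} (hb : Closed.All.ChartBox n (b - a) (a + b))
    (hF : Closed.All.ChartFacts (b - a) (a + b) u v t)
    (hH : Closed.chH (b - a) (a + b) u v t = H) (hB : EndBands7 a b u v H)
    (hside : DHigh a b) (hE : ExitLine a b u v) (hI : IPt a b u I r s) (hI0p : 0 < I)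
    (hI0 : (1 : ℝ) / 20 < I) (hI1 : I ≤ 1 / 7) (hr : 0 < r) (hs : 0 < s) (hw : I * r < 1 / 5)
    (hkink : 1 - 2 * I ≤ s * (1 - I)) (hcap : I * (2 + s) < 19 / 50) (r1 : r ≤ 1) (s1 : s ≤ 1) (Icap : I ≤ 167 / 1250) (h363 : I ≤ (1 / 10 : ℝ)) (h364 : r ≤ (1 / 50 : ℝ)) :
    Closed.Strip.ChartSigns (b - a) (a + b) u v t := by
  rcases le_or_gt I (3 / 40 : ℝ) with h366 | h366
  · 
    exact izAt92 hb hF hH hB hside hE hI hI0p (by linarith) (by linarith) (by linarith) (by linarith) (by norm_num; first | linarith | exact kink_le hkink hI1 (by linarith) | exact cap_le hcap (by linarith) (by linarith) | exact kink_lt hkink hI1 (by linarith) | exact w_le hw (by linarith) (by linarith)) (by linarith)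
  · 
    rcases le_or_gt ((500 : ℝ) * (1 - a * v)) (198 : ℝ) with h368 | h368
    · 
      exact izAt93 hb hF hH hB hside hE hI hI0p (by linarith) (by linarith) (by linarith) (by linarith) (by norm_num; first | linarith | exact kink_le hkink hI1 (by linarith) | exact cap_le hcap (by linarith) (by linarith) | exact kink_lt hkink hI1 (by linarith) | exact w_le hw (by linarith) (by linarith)) (by linarith) (by linarith)
    · 
      rcases le_or_gt ((500 : ℝ) * (1 - a * v)) (248 : ℝ) with h370 | h370
      · 
        exact izAt94 hb hF hH hB hside hE hI hI0p (by linarith) (by linarith) (by linarith) (by linarith) (by norm_num; first | linarith | exact kink_le hkink hI1 (by linarith) | exact cap_le hcap (by linarith) (by linarith) | exact kink_lt hkink hI1 (by linarith) | exact w_le hw (by linarith) (by linarith)) (by linarith) (by linarith) (by linarith)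
      · 
        exact izAt95 hb hF hH hB hside hE hI hI0p (by linarith) (by linarith) (by linarith) (by linarith) (by norm_num; first | linarith | exact kink_le hkink hI1 (by linarith) | exact cap_le hcap (by linarith) (by linarith) | exact kink_lt hkink hI1 (by linarith) | exact w_le hw (by linarith) (by linarith)) (by linarith) (by linarith)

/-- The signs in a part of the zone above the kink (1). -/
theorem iz7High_1 {n : ℕ} {a b u v t H I r s : ℝ} (hb : Closed.All.ChartBox n (b - a) (a + b))
    (hF : Closed.All.ChartFacts (b - a) (a + b) u v t)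
    (hH : Closed.chH (b - a) (a + b) u v t = H) (hB : EndBands7 a b u v H)
    (hside : DHigh a b) (hE : ExitLine a b u v) (hI : IPt a b u I r s) (hI0p : 0 < I)
    (hI0 : (1 : ℝ) / 20 < I) (hI1 : I ≤ 1 / 7) (hr : 0 < r) (hs : 0 < s) (hw : I * r < 1 / 5)
    (hkink : 1 - 2 * I ≤ s * (1 - I)) (hcap : I * (2 + s) < 19 / 50) (r1 : r ≤ 1) (s1 : s ≤ 1) (Icap : I ≤ 167 / 1250) (h363 : I ≤ (1 / 10 : ℝ)) (h364 : (1 / 50 : ℝ) < r) :
    Closed.Strip.ChartSigns (b - a) (a + b) u v t := by
  rcases le_or_gt r (3 / 20 : ℝ) with h374 | h374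
  · 
    exact izAt300 hb hF hH hB hside hE hI hI0p (by linarith) (by linarith) (by linarith) (by linarith) (by norm_num; first | linarith | exact kink_le hkink hI1 (by linarith) | exact cap_le hcap (by linarith) (by linarith) | exact kink_lt hkink hI1 (by linarith) | exact w_le hw (by linarith) (by linarith)) (by linarith)
  · 
    exact izAt301 hb hF hH hB hside hE hI hI0p (by linarith) (by linarith) (by linarith) (by linarith) (by norm_num; first | linarith | exact kink_le hkink hI1 (by linarith) | exact cap_le hcap (by linarith) (by linarith) | exact kink_lt hkink hI1 (by linarith) | exact w_le hw (by linarith) (by linarith)) (by linarith)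

/-- The signs in a part of the zone above the kink (2). -/
theorem iz7High_2 {n : ℕ} {a b u v t H I r s : ℝ} (hb : Closed.All.ChartBox n (b - a) (a + b))
    (hF : Closed.All.ChartFacts (b - a) (a + b) u v t)
    (hH : Closed.chH (b - a) (a + b) u v t = H) (hB : EndBands7 a b u v H)
    (hside : DHigh a b) (hE : ExitLine a b u v) (hI : IPt a b u I r s) (hI0p : 0 < I)
    (hI0 : (1 : ℝ) / 20 < I) (hI1 : I ≤ 1 / 7) (hr : 0 < r) (hs : 0 < s) (hw : I * r < 1 / 5)
    (hkink : 1 - 2 * I ≤ s * (1 - I)) (hcap : I * (2 + s) < 19 / 50) (r1 : r ≤ 1) (s1 : s ≤ 1) (Icap : I ≤ 167 / 1250) (h363 : (1 / 10 : ℝ) < I) (h377 : r ≤ (1 / 50 : ℝ)) (h378 : I ≤ (1 / 8 : ℝ)) (h379 : r ≤ (3 / 1600 : ℝ)) :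
    Closed.Strip.ChartSigns (b - a) (a + b) u v t := by
  rcases le_or_gt ((500 : ℝ) * (1 - a * v)) (210 : ℝ) with h381 | h381
  · 
    rcases le_or_gt I (9 / 80 : ℝ) with h382 | h382
    · 
      exact izAt96 hb hF hH hB hside hE hI hI0p (by linarith) (by linarith) (by linarith) (by linarith) (by norm_num; first | linarith | exact kink_le hkink hI1 (by linarith) | exact cap_le hcap (by linarith) (by linarith) | exact kink_lt hkink hI1 (by linarith) | exact w_le hw (by linarith) (by linarith)) (by linarith) (by linarith)
    · 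
      rcases le_or_gt s (7 / 8 : ℝ) with h384 | h384
      · 
        rcases le_or_gt I (19 / 160 : ℝ) with h385 | h385
        · 
          exact izAt321 hb hF hH hB hside hE hI hI0p (by linarith) (by linarith) (by linarith) (by linarith) (by norm_num; first | linarith | exact kink_le hkink hI1 (by linarith) | exact cap_le hcap (by linarith) (by linarith) | exact kink_lt hkink hI1 (by linarith) | exact w_le hw (by linarith) (by linarith)) (by linarith) (by linarith)
        · 
          exact izAt325 hb hF hH hB hside hE hI hI0p (by linarith) (by linarith) (by linarith) (by linarith) (by norm_num; first | linarith | exact kink_le hkink hI1 (by linarith) | exact cap_le hcap (by linarith) (by linarith) | exact kink_lt hkink hI1 (by linarith) | exact w_le hw (by linarith) (by linarith)) (by linarith) (by linarith)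
      · 
        exact izAt322 hb hF hH hB hside hE hI hI0p (by linarith) (by linarith) (by linarith) (by linarith) (by linarith) (by linarith) (by linarith)
  · 
    exact izAt97 hb hF hH hB hside hE hI hI0p (by linarith) (by linarith) (by linarith) (by linarith) (by norm_num; first | linarith | exact kink_le hkink hI1 (by linarith) | exact cap_le hcap (by linarith) (by linarith) | exact kink_lt hkink hI1 (by linarith) | exact w_le hw (by linarith) (by linarith)) (by linarith) (by linarith)

/-- The signs in a part of the zone above the kink (3). -/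
theorem iz7High_3 {n : ℕ} {a b u v t H I r s : ℝ} (hb : Closed.All.ChartBox n (b - a) (a + b))
    (hF : Closed.All.ChartFacts (b - a) (a + b) u v t)
    (hH : Closed.chH (b - a) (a + b) u v t = H) (hB : EndBands7 a b u v H)
    (hside : DHigh a b) (hE : ExitLine a b u v) (hI : IPt a b u I r s) (hI0p : 0 < I)
    (hI0 : (1 : ℝ) / 20 < I) (hI1 : I ≤ 1 / 7) (hr : 0 < r) (hs : 0 < s) (hw : I * r < 1 / 5)
    (hkink : 1 - 2 * I ≤ s * (1 - I)) (hcap : I * (2 + s) < 19 / 50) (r1 : r ≤ 1) (s1 : s ≤ 1) (Icap : I ≤ 167 / 1250) (h363 : (1 / 10 : ℝ) < I) (h377 : r ≤ (1 / 50 : ℝ)) (h378 : I ≤ (1 / 8 : ℝ)) (h379 : (3 / 1600 : ℝ) < r) (h390 : r ≤ (1 / 160 : ℝ)) :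
    Closed.Strip.ChartSigns (b - a) (a + b) u v t := by
  rcases le_or_gt ((500 : ℝ) * (1 - a * v)) (214 : ℝ) with h392 | h392
  · 
    exact izAt310 hb hF hH hB hside hE hI hI0p (by linarith) (by linarith) (by linarith) (by linarith) (by norm_num; first | linarith | exact kink_le hkink hI1 (by linarith) | exact cap_le hcap (by linarith) (by linarith) | exact kink_lt hkink hI1 (by linarith) | exact w_le hw (by linarith) (by linarith)) (by linarith) (by linarith)
  · 
    exact izAt311 hb hF hH hB hside hE hI hI0p (by linarith) (by linarith) (by linarith) (by linarith) (by norm_num; first | linarith | exact kink_le hkink hI1 (by linarith) | exact cap_le hcap (by linarith) (by linarith) | exact kink_lt hkink hI1 (by linarith) | exact w_le hw (by linarith) (by linarith)) (by linarith) (by linarith)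

/-- The signs in a part of the zone above the kink (4). -/
theorem iz7High_4 {n : ℕ} {a b u v t H I r s : ℝ} (hb : Closed.All.ChartBox n (b - a) (a + b))
    (hF : Closed.All.ChartFacts (b - a) (a + b) u v t)
    (hH : Closed.chH (b - a) (a + b) u v t = H) (hB : EndBands7 a b u v H)
    (hside : DHigh a b) (hE : ExitLine a b u v) (hI : IPt a b u I r s) (hI0p : 0 < I)
    (hI0 : (1 : ℝ) / 20 < I) (hI1 : I ≤ 1 / 7) (hr : 0 < r) (hs : 0 < s) (hw : I * r < 1 / 5)
    (hkink : 1 - 2 * I ≤ s * (1 - I)) (hcap : I * (2 + s) < 19 / 50) (r1 : r ≤ 1) (s1 : s ≤ 1) (Icap : I ≤ 167 / 1250) (h363 : (1 / 10 : ℝ) < I) (h377 : r ≤ (1 / 50 : ℝ)) (h378 : I ≤ (1 / 8 : ℝ)) (h379 : (3 / 1600 : ℝ) < r) (h390 : (1 / 160 : ℝ) < r) :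
    Closed.Strip.ChartSigns (b - a) (a + b) u v t := by
  rcases le_or_gt ((500 : ℝ) * (1 - a * v)) (93 : ℝ) with h396 | h396
  · 
    rcases le_or_gt r (1 / 100 : ℝ) with h397 | h397
    · 
      exact izAt312 hb hF hH hB hside hE hI hI0p (by linarith) (by linarith) (by linarith) (by linarith) (by norm_num; first | linarith | exact kink_le hkink hI1 (by linarith) | exact cap_le hcap (by linarith) (by linarith) | exact kink_lt hkink hI1 (by linarith) | exact w_le hw (by linarith) (by linarith)) (by linarith) (by linarith)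
    · 
      exact izAt313 hb hF hH hB hside hE hI hI0p (by linarith) (by linarith) (by linarith) (by linarith) (by norm_num; first | linarith | exact kink_le hkink hI1 (by linarith) | exact cap_le hcap (by linarith) (by linarith) | exact kink_lt hkink hI1 (by linarith) | exact w_le hw (by linarith) (by linarith)) (by linarith) (by linarith)
  · 
    rcases le_or_gt ((500 : ℝ) * (1 - a * v)) (182 : ℝ) with h400 | h400
    · 
      exact izAt314 hb hF hH hB hside hE hI hI0p (by linarith) (by linarith) (by linarith) (by linarith) (by norm_num; first | linarith | exact kink_le hkink hI1 (by linarith) | exact cap_le hcap (by linarith) (by linarith) | exact kink_lt hkink hI1 (by linarith) | exact w_le hw (by linarith) (by linarith)) (by linarith) (by linarith) (by linarith)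
    · 
      exact izAt315 hb hF hH hB hside hE hI hI0p (by linarith) (by linarith) (by linarith) (by linarith) (by norm_num; first | linarith | exact kink_le hkink hI1 (by linarith) | exact cap_le hcap (by linarith) (by linarith) | exact kink_lt hkink hI1 (by linarith) | exact w_le hw (by linarith) (by linarith)) (by linarith) (by linarith)

/-- The signs in a part of the zone above the kink (5). -/
theorem iz7High_5 {n : ℕ} {a b u v t H I r s : ℝ} (hb : Closed.All.ChartBox n (b - a) (a + b))
    (hF : Closed.All.ChartFacts (b - a) (a + b) u v t)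
    (hH : Closed.chH (b - a) (a + b) u v t = H) (hB : EndBands7 a b u v H)
    (hside : DHigh a b) (hE : ExitLine a b u v) (hI : IPt a b u I r s) (hI0p : 0 < I)
    (hI0 : (1 : ℝ) / 20 < I) (hI1 : I ≤ 1 / 7) (hr : 0 < r) (hs : 0 < s) (hw : I * r < 1 / 5)
    (hkink : 1 - 2 * I ≤ s * (1 - I)) (hcap : I * (2 + s) < 19 / 50) (r1 : r ≤ 1) (s1 : s ≤ 1) (Icap : I ≤ 167 / 1250) (h363 : (1 / 10 : ℝ) < I) (h377 : r ≤ (1 / 50 : ℝ)) (h378 : (1 / 8 : ℝ) < I) (h403 : I ≤ (21 / 160 : ℝ)) (h404 : r ≤ (1 / 160 : ℝ)) (h405 : ((500 : ℝ) * (1 - a * v)) ≤ (66 : ℝ)) :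
    Closed.Strip.ChartSigns (b - a) (a + b) u v t := by
  exact izAt100 hb hF hH hB hside hE hI hI0p (by linarith) (by linarith) (by linarith) (by linarith) (by norm_num; first | linarith | exact kink_le hkink hI1 (by linarith) | exact cap_le hcap (by linarith) (by linarith) | exact kink_lt hkink hI1 (by linarith) | exact w_le hw (by linarith) (by linarith)) (by linarith) (by linarith)

/-- The signs in a part of the zone above the kink (6). -/
theorem iz7High_6 {n : ℕ} {a b u v t H I r s : ℝ} (hb : Closed.All.ChartBox n (b - a) (a + b))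
    (hF : Closed.All.ChartFacts (b - a) (a + b) u v t)
    (hH : Closed.chH (b - a) (a + b) u v t = H) (hB : EndBands7 a b u v H)
    (hside : DHigh a b) (hE : ExitLine a b u v) (hI : IPt a b u I r s) (hI0p : 0 < I)
    (hI0 : (1 : ℝ) / 20 < I) (hI1 : I ≤ 1 / 7) (hr : 0 < r) (hs : 0 < s) (hw : I * r < 1 / 5)
    (hkink : 1 - 2 * I ≤ s * (1 - I)) (hcap : I * (2 + s) < 19 / 50) (r1 : r ≤ 1) (s1 : s ≤ 1) (Icap : I ≤ 167 / 1250) (h363 : (1 / 10 : ℝ) < I) (h377 : r ≤ (1 / 50 : ℝ)) (h378 : (1 / 8 : ℝ) < I) (h403 : I ≤ (21 / 160 : ℝ)) (h404 : r ≤ (1 / 160 : ℝ)) (h405 : (66 : ℝ) < ((500 : ℝ) * (1 - a * v))) (h408 : ((500 : ℝ) * (1 - a * v)) ≤ (165 : ℝ)) :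
    Closed.Strip.ChartSigns (b - a) (a + b) u v t := by
  exact izAt101 hb hF hH hB hside hE hI hI0p (by linarith) (by linarith) (by linarith) (by linarith) (by norm_num; first | linarith | exact kink_le hkink hI1 (by linarith) | exact cap_le hcap (by linarith) (by linarith) | exact kink_lt hkink hI1 (by linarith) | exact w_le hw (by linarith) (by linarith)) (by linarith) (by linarith) (by linarith)

/-- The signs in a part of the zone above the kink (7). -/
theorem iz7High_7 {n : ℕ} {a b u v t H I r s : ℝ} (hb : Closed.All.ChartBox n (b - a) (a + b))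
    (hF : Closed.All.ChartFacts (b - a) (a + b) u v t)
    (hH : Closed.chH (b - a) (a + b) u v t = H) (hB : EndBands7 a b u v H)
    (hside : DHigh a b) (hE : ExitLine a b u v) (hI : IPt a b u I r s) (hI0p : 0 < I)
    (hI0 : (1 : ℝ) / 20 < I) (hI1 : I ≤ 1 / 7) (hr : 0 < r) (hs : 0 < s) (hw : I * r < 1 / 5)
    (hkink : 1 - 2 * I ≤ s * (1 - I)) (hcap : I * (2 + s) < 19 / 50) (r1 : r ≤ 1) (s1 : s ≤ 1) (Icap : I ≤ 167 / 1250) (h363 : (1 / 10 : ℝ) < I) (h377 : r ≤ (1 / 50 : ℝ)) (h378 : (1 / 8 : ℝ) < I) (h403 : I ≤ (21 / 160 : ℝ)) (h404 : r ≤ (1 / 160 : ℝ)) (h405 : (66 : ℝ) < ((500 : ℝ) * (1 - a * v))) (h408 : (165 : ℝ) < ((500 : ℝ) * (1 - a * v))) (h411 : r ≤ (3 / 800 : ℝ)) (h412 : s ≤ (22 / 25 : ℝ)) :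
    Closed.Strip.ChartSigns (b - a) (a + b) u v t := by
  rcases le_or_gt I (51 / 400 : ℝ) with h414 | h414
  · 
    rcases le_or_gt r (3 / 1600 : ℝ) with h415 | h415
    · 
      rcases le_or_gt ((500 : ℝ) * (1 - a * v)) (243 : ℝ) with h416 | h416
      · 
        exact izAt102 hb hF hH hB hside hE hI hI0p (by linarith) (by linarith) (by linarith) (by linarith) (by norm_num; first | linarith | exact kink_le hkink hI1 (by linarith) | exact cap_le hcap (by linarith) (by linarith) | exact kink_lt hkink hI1 (by linarith) | exact w_le hw (by linarith) (by linarith)) (by linarith) (by linarith) (by linarith)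
      · 
        rcases le_or_gt ((500 : ℝ) * (1 - a * v)) (258 : ℝ) with h418 | h418
        · 
          exact izAt103 hb hF hH hB hside hE hI hI0p (by linarith) (by linarith) (by linarith) (by linarith) (by norm_num; first | linarith | exact kink_le hkink hI1 (by linarith) | exact cap_le hcap (by linarith) (by linarith) | exact kink_lt hkink hI1 (by linarith) | exact w_le hw (by linarith) (by linarith)) (by linarith) (by linarith) (by linarith)
        · 
          exact izAt104 hb hF hH hB hside hE hI hI0p (by linarith) (by linarith) (by linarith) (by linarith) (by norm_num; first | linarith | exact kink_le hkink hI1 (by linarith) | exact cap_le hcap (by linarith) (by linarith) | exact kink_lt hkink hI1 (by linarith) | exact w_le hw (by linarith) (by linarith)) (by linarith) (by linarith)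
    · 
      exact izAt108 hb hF hH hB hside hE hI hI0p (by linarith) (by linarith) (by linarith) (by linarith) (by norm_num; first | linarith | exact kink_le hkink hI1 (by linarith) | exact cap_le hcap (by linarith) (by linarith) | exact kink_lt hkink hI1 (by linarith) | exact w_le hw (by linarith) (by linarith)) (by linarith) (by linarith)
  · 
    rcases le_or_gt r (3 / 1600 : ℝ) with h422 | h422
    · 
      rcases le_or_gt ((500 : ℝ) * (1 - a * v)) (243 : ℝ) with h423 | h423
      · 
        exact izAt102 hb hF hH hB hside hE hI hI0p (by linarith) (by linarith) (by linarith) (by linarith) (by norm_num; first | linarith | exact kink_le hkink hI1 (by linarith) | exact cap_le hcap (by linarith) (by linarith) | exact kink_lt hkink hI1 (by linarith) | exact w_le hw (by linarith) (by linarith)) (by linarith) (by linarith) (by linarith)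
      · 
        rcases le_or_gt ((500 : ℝ) * (1 - a * v)) (258 : ℝ) with h425 | h425
        · 
          exact izAt103 hb hF hH hB hside hE hI hI0p (by linarith) (by linarith) (by linarith) (by linarith) (by norm_num; first | linarith | exact kink_le hkink hI1 (by linarith) | exact cap_le hcap (by linarith) (by linarith) | exact kink_lt hkink hI1 (by linarith) | exact w_le hw (by linarith) (by linarith)) (by linarith) (by linarith) (by linarith)
        · 
          exact izAt105 hb hF hH hB hside hE hI hI0p (by linarith) (by linarith) (by linarith) (by linarith) (by norm_num; first | linarith | exact kink_le hkink hI1 (by linarith) | exact cap_le hcap (by linarith) (by linarith) | exact kink_lt hkink hI1 (by linarith) | exact w_le hw (by linarith) (by linarith)) (by linarith) (by linarith)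
    · 
      exact izAt108 hb hF hH hB hside hE hI hI0p (by linarith) (by linarith) (by linarith) (by linarith) (by norm_num; first | linarith | exact kink_le hkink hI1 (by linarith) | exact cap_le hcap (by linarith) (by linarith) | exact kink_lt hkink hI1 (by linarith) | exact w_le hw (by linarith) (by linarith)) (by linarith) (by linarith)

/-- The signs in a part of the zone above the kink (8). -/
theorem iz7High_8 {n : ℕ} {a b u v t H I r s : ℝ} (hb : Closed.All.ChartBox n (b - a) (a + b))
    (hF : Closed.All.ChartFacts (b - a) (a + b) u v t)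
    (hH : Closed.chH (b - a) (a + b) u v t = H) (hB : EndBands7 a b u v H)
    (hside : DHigh a b) (hE : ExitLine a b u v) (hI : IPt a b u I r s) (hI0p : 0 < I)
    (hI0 : (1 : ℝ) / 20 < I) (hI1 : I ≤ 1 / 7) (hr : 0 < r) (hs : 0 < s) (hw : I * r < 1 / 5)
    (hkink : 1 - 2 * I ≤ s * (1 - I)) (hcap : I * (2 + s) < 19 / 50) (r1 : r ≤ 1) (s1 : s ≤ 1) (Icap : I ≤ 167 / 1250) (h363 : (1 / 10 : ℝ) < I) (h377 : r ≤ (1 / 50 : ℝ)) (h378 : (1 / 8 : ℝ) < I) (h403 : I ≤ (21 / 160 : ℝ)) (h404 : r ≤ (1 / 160 : ℝ)) (h405 : (66 : ℝ) < ((500 : ℝ) * (1 - a * v))) (h408 : (165 : ℝ) < ((500 : ℝ) * (1 - a * v))) (h411 : r ≤ (3 / 800 : ℝ)) (h412 : (22 / 25 : ℝ) < s) :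
    Closed.Strip.ChartSigns (b - a) (a + b) u v t := by
  rcases le_or_gt I (51 / 400 : ℝ) with h430 | h430
  · 
    rcases le_or_gt r (3 / 1600 : ℝ) with h431 | h431
    · 
      rcases le_or_gt ((500 : ℝ) * (1 - a * v)) (243 : ℝ) with h432 | h432
      · 
        exact izAt102 hb hF hH hB hside hE hI hI0p (by linarith) (by linarith) (by linarith) (by linarith) (by linarith) (by linarith) (by linarith) (by linarith)
      · 
        rcases le_or_gt ((500 : ℝ) * (1 - a * v)) (258 : ℝ) with h434 | h434
        · 
          exact izAt103 hb hF hH hB hside hE hI hI0p (by linarith) (by linarith) (by linarith) (by linarith) (by linarith) (by linarith) (by linarith) (by linarith)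
        · 
          exact izAt104 hb hF hH hB hside hE hI hI0p (by linarith) (by linarith) (by linarith) (by linarith) (by linarith) (by linarith) (by linarith)
    · 
      exact izAt108 hb hF hH hB hside hE hI hI0p (by linarith) (by linarith) (by linarith) (by linarith) (by linarith) (by linarith) (by linarith)
  · 
    rcases le_or_gt r (3 / 1600 : ℝ) with h438 | h438
    · 
      rcases le_or_gt ((500 : ℝ) * (1 - a * v)) (243 : ℝ) with h439 | h439
      · 
        exact izAt102 hb hF hH hB hside hE hI hI0p (by linarith) (by linarith) (by linarith) (by linarith) (by linarith) (by linarith) (by linarith) (by linarith)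
      · 
        rcases le_or_gt ((500 : ℝ) * (1 - a * v)) (258 : ℝ) with h441 | h441
        · 
          exact izAt103 hb hF hH hB hside hE hI hI0p (by linarith) (by linarith) (by linarith) (by linarith) (by linarith) (by linarith) (by linarith) (by linarith)
        · 
          exact izAt106 hb hF hH hB hside hE hI hI0p (by linarith) (by linarith) (by linarith) (by linarith) (by linarith) (by linarith) (by linarith)
    · 
      exact izAt108 hb hF hH hB hside hE hI hI0p (by linarith) (by linarith) (by linarith) (by linarith) (by linarith) (by linarith) (by linarith)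

/-- The signs in a part of the zone above the kink (9). -/
theorem iz7High_9 {n : ℕ} {a b u v t H I r s : ℝ} (hb : Closed.All.ChartBox n (b - a) (a + b))
    (hF : Closed.All.ChartFacts (b - a) (a + b) u v t)
    (hH : Closed.chH (b - a) (a + b) u v t = H) (hB : EndBands7 a b u v H)
    (hside : DHigh a b) (hE : ExitLine a b u v) (hI : IPt a b u I r s) (hI0p : 0 < I)
    (hI0 : (1 : ℝ) / 20 < I) (hI1 : I ≤ 1 / 7) (hr : 0 < r) (hs : 0 < s) (hw : I * r < 1 / 5)
    (hkink : 1 - 2 * I ≤ s * (1 - I)) (hcap : I * (2 + s) < 19 / 50) (r1 : r ≤ 1) (s1 : s ≤ 1) (Icap : I ≤ 167 / 1250) (h363 : (1 / 10 : ℝ) < I) (h377 : r ≤ (1 / 50 : ℝ)) (h378 : (1 / 8 : ℝ) < I) (h403 : I ≤ (21 / 160 : ℝ)) (h404 : r ≤ (1 / 160 : ℝ)) (h405 : (66 : ℝ) < ((500 : ℝ) * (1 - a * v))) (h408 : (165 : ℝ) < ((500 : ℝ) * (1 - a * v))) (h411 : (3 / 800 : ℝ) < r) :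
    Closed.Strip.ChartSigns (b - a) (a + b) u v t := by
  exact izAt109 hb hF hH hB hside hE hI hI0p (by linarith) (by linarith) (by linarith) (by linarith) (by norm_num; first | linarith | exact kink_le hkink hI1 (by linarith) | exact cap_le hcap (by linarith) (by linarith) | exact kink_lt hkink hI1 (by linarith) | exact w_le hw (by linarith) (by linarith)) (by linarith) (by linarith)

/-- The signs in a part of the zone above the kink (10). -/
theorem iz7High_10 {n : ℕ} {a b u v t H I r s : ℝ} (hb : Closed.All.ChartBox n (b - a) (a + b))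
    (hF : Closed.All.ChartFacts (b - a) (a + b) u v t)
    (hH : Closed.chH (b - a) (a + b) u v t = H) (hB : EndBands7 a b u v H)
    (hside : DHigh a b) (hE : ExitLine a b u v) (hI : IPt a b u I r s) (hI0p : 0 < I)
    (hI0 : (1 : ℝ) / 20 < I) (hI1 : I ≤ 1 / 7) (hr : 0 < r) (hs : 0 < s) (hw : I * r < 1 / 5)
    (hkink : 1 - 2 * I ≤ s * (1 - I)) (hcap : I * (2 + s) < 19 / 50) (r1 : r ≤ 1) (s1 : s ≤ 1) (Icap : I ≤ 167 / 1250) (h363 : (1 / 10 : ℝ) < I) (h377 : r ≤ (1 / 50 : ℝ)) (h378 : (1 / 8 : ℝ) < I) (h403 : I ≤ (21 / 160 : ℝ)) (h404 : (1 / 160 : ℝ) < r) :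
    Closed.Strip.ChartSigns (b - a) (a + b) u v t := by
  rcases le_or_gt ((500 : ℝ) * (1 - a * v)) (99 : ℝ) with h448 | h448
  · 
    rcases le_or_gt r (1 / 100 : ℝ) with h449 | h449
    · 
      exact izAt316 hb hF hH hB hside hE hI hI0p (by linarith) (by linarith) (by linarith) (by linarith) (by norm_num; first | linarith | exact kink_le hkink hI1 (by linarith) | exact cap_le hcap (by linarith) (by linarith) | exact kink_lt hkink hI1 (by linarith) | exact w_le hw (by linarith) (by linarith)) (by linarith) (by linarith)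
    · 
      exact izAt317 hb hF hH hB hside hE hI hI0p (by linarith) (by linarith) (by linarith) (by linarith) (by norm_num; first | linarith | exact kink_le hkink hI1 (by linarith) | exact cap_le hcap (by linarith) (by linarith) | exact kink_lt hkink hI1 (by linarith) | exact w_le hw (by linarith) (by linarith)) (by linarith) (by linarith)
  · 
    rcases le_or_gt ((500 : ℝ) * (1 - a * v)) (185 : ℝ) with h452 | h452
    · 
      exact izAt318 hb hF hH hB hside hE hI hI0p (by linarith) (by linarith) (by linarith) (by linarith) (by norm_num; first | linarith | exact kink_le hkink hI1 (by linarith) | exact cap_le hcap (by linarith) (by linarith) | exact kink_lt hkink hI1 (by linarith) | exact w_le hw (by linarith) (by linarith)) (by linarith) (by linarith) (by linarith)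
    · 
      exact izAt319 hb hF hH hB hside hE hI hI0p (by linarith) (by linarith) (by linarith) (by linarith) (by norm_num; first | linarith | exact kink_le hkink hI1 (by linarith) | exact cap_le hcap (by linarith) (by linarith) | exact kink_lt hkink hI1 (by linarith) | exact w_le hw (by linarith) (by linarith)) (by linarith) (by linarith)

/-- The signs in a part of the zone above the kink (11). -/
theorem iz7High_11 {n : ℕ} {a b u v t H I r s : ℝ} (hb : Closed.All.ChartBox n (b - a) (a + b))
    (hF : Closed.All.ChartFacts (b - a) (a + b) u v t)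
    (hH : Closed.chH (b - a) (a + b) u v t = H) (hB : EndBands7 a b u v H)
    (hside : DHigh a b) (hE : ExitLine a b u v) (hI : IPt a b u I r s) (hI0p : 0 < I)
    (hI0 : (1 : ℝ) / 20 < I) (hI1 : I ≤ 1 / 7) (hr : 0 < r) (hs : 0 < s) (hw : I * r < 1 / 5)
    (hkink : 1 - 2 * I ≤ s * (1 - I)) (hcap : I * (2 + s) < 19 / 50) (r1 : r ≤ 1) (s1 : s ≤ 1) (Icap : I ≤ 167 / 1250) (h363 : (1 / 10 : ℝ) < I) (h377 : r ≤ (1 / 50 : ℝ)) (h378 : (1 / 8 : ℝ) < I) (h403 : (21 / 160 : ℝ) < I) (h455 : ((500 : ℝ) * (1 - a * v)) ≤ (109 : ℝ)) :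
    Closed.Strip.ChartSigns (b - a) (a + b) u v t := by
  exact izAt111 hb hF hH hB hside hE hI hI0p (by linarith) (by linarith) (by linarith) (by linarith) (by norm_num; first | linarith | exact kink_le hkink hI1 (by linarith) | exact cap_le hcap (by linarith) (by linarith) | exact kink_lt hkink hI1 (by linarith) | exact w_le hw (by linarith) (by linarith)) (by norm_num; first | linarith | exact kink_le hkink hI1 (by linarith) | exact cap_le hcap (by linarith) (by linarith) | exact kink_lt hkink hI1 (by linarith) | exact w_le hw (by linarith) (by linarith)) (by linarith)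

/-- The signs in a part of the zone above the kink (12). -/
theorem iz7High_12 {n : ℕ} {a b u v t H I r s : ℝ} (hb : Closed.All.ChartBox n (b - a) (a + b))
    (hF : Closed.All.ChartFacts (b - a) (a + b) u v t)
    (hH : Closed.chH (b - a) (a + b) u v t = H) (hB : EndBands7 a b u v H)
    (hside : DHigh a b) (hE : ExitLine a b u v) (hI : IPt a b u I r s) (hI0p : 0 < I)
    (hI0 : (1 : ℝ) / 20 < I) (hI1 : I ≤ 1 / 7) (hr : 0 < r) (hs : 0 < s) (hw : I * r < 1 / 5)
    (hkink : 1 - 2 * I ≤ s * (1 - I)) (hcap : I * (2 + s) < 19 / 50) (r1 : r ≤ 1) (s1 : s ≤ 1) (Icap : I ≤ 167 / 1250) (h363 : (1 / 10 : ℝ) < I) (h377 : r ≤ (1 / 50 : ℝ)) (h378 : (1 / 8 : ℝ) < I) (h403 : (21 / 160 : ℝ) < I) (h455 : (109 : ℝ) < ((500 : ℝ) * (1 - a * v))) (h458 : ((500 : ℝ) * (1 - a * v)) ≤ (218 : ℝ)) :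
    Closed.Strip.ChartSigns (b - a) (a + b) u v t := by
  exact izAt112 hb hF hH hB hside hE hI hI0p (by linarith) (by linarith) (by linarith) (by linarith) (by norm_num; first | linarith | exact kink_le hkink hI1 (by linarith) | exact cap_le hcap (by linarith) (by linarith) | exact kink_lt hkink hI1 (by linarith) | exact w_le hw (by linarith) (by linarith)) (by norm_num; first | linarith | exact kink_le hkink hI1 (by linarith) | exact cap_le hcap (by linarith) (by linarith) | exact kink_lt hkink hI1 (by linarith) | exact w_le hw (by linarith) (by linarith)) (by linarith) (by linarith)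

/-- The signs in a part of the zone above the kink (13). -/
theorem iz7High_13 {n : ℕ} {a b u v t H I r s : ℝ} (hb : Closed.All.ChartBox n (b - a) (a + b))
    (hF : Closed.All.ChartFacts (b - a) (a + b) u v t)
    (hH : Closed.chH (b - a) (a + b) u v t = H) (hB : EndBands7 a b u v H)
    (hside : DHigh a b) (hE : ExitLine a b u v) (hI : IPt a b u I r s) (hI0p : 0 < I)
    (hI0 : (1 : ℝ) / 20 < I) (hI1 : I ≤ 1 / 7) (hr : 0 < r) (hs : 0 < s) (hw : I * r < 1 / 5)
    (hkink : 1 - 2 * I ≤ s * (1 - I)) (hcap : I * (2 + s) < 19 / 50) (r1 : r ≤ 1) (s1 : s ≤ 1) (Icap : I ≤ 167 / 1250) (h363 : (1 / 10 : ℝ) < I) (h377 : r ≤ (1 / 50 : ℝ)) (h378 : (1 / 8 : ℝ) < I) (h403 : (21 / 160 : ℝ) < I) (h455 : (109 : ℝ) < ((500 : ℝ) * (1 - a * v))) (h458 : (218 : ℝ) < ((500 : ℝ) * (1 - a * v))) (h461 : r ≤ (1 / 160 : ℝ)) (h462 : ((500 : ℝ) * (1 - a * v)) ≤ (255 : ℝ)) :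
    Closed.Strip.ChartSigns (b - a) (a + b) u v t := by
  rcases le_or_gt r (3 / 1600 : ℝ) with h464 | h464
  · 
    exact izAt113 hb hF hH hB hside hE hI hI0p (by linarith) (by linarith) (by linarith) (by linarith) (by norm_num; first | linarith | exact kink_le hkink hI1 (by linarith) | exact cap_le hcap (by linarith) (by linarith) | exact kink_lt hkink hI1 (by linarith) | exact w_le hw (by linarith) (by linarith)) (by norm_num; first | linarith | exact kink_le hkink hI1 (by linarith) | exact cap_le hcap (by linarith) (by linarith) | exact kink_lt hkink hI1 (by linarith) | exact w_le hw (by linarith) (by linarith)) (by linarith) (by linarith)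
  · 
    exact izAt114 hb hF hH hB hside hE hI hI0p (by linarith) (by linarith) (by linarith) (by linarith) (by norm_num; first | linarith | exact kink_le hkink hI1 (by linarith) | exact cap_le hcap (by linarith) (by linarith) | exact kink_lt hkink hI1 (by linarith) | exact w_le hw (by linarith) (by linarith)) (by norm_num; first | linarith | exact kink_le hkink hI1 (by linarith) | exact cap_le hcap (by linarith) (by linarith) | exact kink_lt hkink hI1 (by linarith) | exact w_le hw (by linarith) (by linarith)) (by linarith) (by linarith)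

/-- The signs in a part of the zone above the kink (14). -/
theorem iz7High_14 {n : ℕ} {a b u v t H I r s : ℝ} (hb : Closed.All.ChartBox n (b - a) (a + b))
    (hF : Closed.All.ChartFacts (b - a) (a + b) u v t)
    (hH : Closed.chH (b - a) (a + b) u v t = H) (hB : EndBands7 a b u v H)
    (hside : DHigh a b) (hE : ExitLine a b u v) (hI : IPt a b u I r s) (hI0p : 0 < I)
    (hI0 : (1 : ℝ) / 20 < I) (hI1 : I ≤ 1 / 7) (hr : 0 < r) (hs : 0 < s) (hw : I * r < 1 / 5)
    (hkink : 1 - 2 * I ≤ s * (1 - I)) (hcap : I * (2 + s) < 19 / 50) (r1 : r ≤ 1) (s1 : s ≤ 1) (Icap : I ≤ 167 / 1250) (h363 : (1 / 10 : ℝ) < I) (h377 : r ≤ (1 / 50 : ℝ)) (h378 : (1 / 8 : ℝ) < I) (h403 : (21 / 160 : ℝ) < I) (h455 : (109 : ℝ) < ((500 : ℝ) * (1 - a * v))) (h458 : (218 : ℝ) < ((500 : ℝ) * (1 - a * v))) (h461 : r ≤ (1 / 160 : ℝ)) (h462 : (255 : ℝ) < ((500 : ℝ) * (1 - a * v))) :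
    Closed.Strip.ChartSigns (b - a) (a + b) u v t := by
  rcases le_or_gt s (7 / 8 : ℝ) with h468 | h468
  · 
    rcases le_or_gt r (1 / 500 : ℝ) with h469 | h469
    · 
      rcases le_or_gt I (133 / 1000 : ℝ) with h470 | h470
      · 
        exact izAt323 hb hF hH hB hside hE hI hI0p (by linarith) (by linarith) (by linarith) (by linarith) (by norm_num; first | linarith | exact kink_le hkink hI1 (by linarith) | exact cap_le hcap (by linarith) (by linarith) | exact kink_lt hkink hI1 (by linarith) | exact w_le hw (by linarith) (by linarith)) (by linarith) (by linarith)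
      · 
        exact izAt324 hb hF hH hB hside hE hI hI0p (by linarith) (by linarith) (by linarith) (by linarith) (by norm_num; first | linarith | exact kink_le hkink hI1 (by linarith) | exact cap_le hcap (by linarith) (by linarith) | exact kink_lt hkink hI1 (by linarith) | exact w_le hw (by linarith) (by linarith)) (by linarith) (by linarith)
    · 
      exact izAt115 hb hF hH hB hside hE hI hI0p (by linarith) (by linarith) (by linarith) (by linarith) (by norm_num; first | linarith | exact kink_le hkink hI1 (by linarith) | exact cap_le hcap (by linarith) (by linarith) | exact kink_lt hkink hI1 (by linarith) | exact w_le hw (by linarith) (by linarith)) (by linarith) (by linarith)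
  · 
    exact izAt116 hb hF hH hB hside hE hI hI0p (by linarith) (by linarith) (by linarith) (by linarith) (by linarith) (by norm_num; first | linarith | exact kink_le hkink hI1 (by linarith) | exact cap_le hcap (by linarith) (by linarith) | exact kink_lt hkink hI1 (by linarith) | exact w_le hw (by linarith) (by linarith)) (by linarith)

/-- The signs in a part of the zone above the kink (15). -/
theorem iz7High_15 {n : ℕ} {a b u v t H I r s : ℝ} (hb : Closed.All.ChartBox n (b - a) (a + b))
    (hF : Closed.All.ChartFacts (b - a) (a + b) u v t)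
    (hH : Closed.chH (b - a) (a + b) u v t = H) (hB : EndBands7 a b u v H)
    (hside : DHigh a b) (hE : ExitLine a b u v) (hI : IPt a b u I r s) (hI0p : 0 < I)
    (hI0 : (1 : ℝ) / 20 < I) (hI1 : I ≤ 1 / 7) (hr : 0 < r) (hs : 0 < s) (hw : I * r < 1 / 5)
    (hkink : 1 - 2 * I ≤ s * (1 - I)) (hcap : I * (2 + s) < 19 / 50) (r1 : r ≤ 1) (s1 : s ≤ 1) (Icap : I ≤ 167 / 1250) (h363 : (1 / 10 : ℝ) < I) (h377 : r ≤ (1 / 50 : ℝ)) (h378 : (1 / 8 : ℝ) < I) (h403 : (21 / 160 : ℝ) < I) (h455 : (109 : ℝ) < ((500 : ℝ) * (1 - a * v))) (h458 : (218 : ℝ) < ((500 : ℝ) * (1 - a * v))) (h461 : (1 / 160 : ℝ) < r) :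
    Closed.Strip.ChartSigns (b - a) (a + b) u v t := by
  exact izAt117 hb hF hH hB hside hE hI hI0p (by linarith) (by linarith) (by linarith) (by linarith) (by norm_num; first | linarith | exact kink_le hkink hI1 (by linarith) | exact cap_le hcap (by linarith) (by linarith) | exact kink_lt hkink hI1 (by linarith) | exact w_le hw (by linarith) (by linarith)) (by norm_num; first | linarith | exact kink_le hkink hI1 (by linarith) | exact cap_le hcap (by linarith) (by linarith) | exact kink_lt hkink hI1 (by linarith) | exact w_le hw (by linarith) (by linarith)) (by linarith)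

/-- The signs in a part of the zone above the kink (16). -/
theorem iz7High_16 {n : ℕ} {a b u v t H I r s : ℝ} (hb : Closed.All.ChartBox n (b - a) (a + b))
    (hF : Closed.All.ChartFacts (b - a) (a + b) u v t)
    (hH : Closed.chH (b - a) (a + b) u v t = H) (hB : EndBands7 a b u v H)
    (hside : DHigh a b) (hE : ExitLine a b u v) (hI : IPt a b u I r s) (hI0p : 0 < I)
    (hI0 : (1 : ℝ) / 20 < I) (hI1 : I ≤ 1 / 7) (hr : 0 < r) (hs : 0 < s) (hw : I * r < 1 / 5)
    (hkink : 1 - 2 * I ≤ s * (1 - I)) (hcap : I * (2 + s) < 19 / 50) (r1 : r ≤ 1) (s1 : s ≤ 1) (Icap : I ≤ 167 / 1250) (h363 : (1 / 10 : ℝ) < I) (h377 : (1 / 50 : ℝ) < r) :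
    Closed.Strip.ChartSigns (b - a) (a + b) u v t := by
  rcases le_or_gt r (3 / 20 : ℝ) with h478 | h478
  · 
    rcases le_or_gt I (3 / 25 : ℝ) with h479 | h479
    · 
      rcases le_or_gt r (1 / 16 : ℝ) with h480 | h480
      · 
        exact izAt302 hb hF hH hB hside hE hI hI0p (by linarith) (by linarith) (by linarith) (by linarith) (by norm_num; first | linarith | exact kink_le hkink hI1 (by linarith) | exact cap_le hcap (by linarith) (by linarith) | exact kink_lt hkink hI1 (by linarith) | exact w_le hw (by linarith) (by linarith)) (by linarith)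
      · 
        exact izAt303 hb hF hH hB hside hE hI hI0p (by linarith) (by linarith) (by linarith) (by linarith) (by norm_num; first | linarith | exact kink_le hkink hI1 (by linarith) | exact cap_le hcap (by linarith) (by linarith) | exact kink_lt hkink hI1 (by linarith) | exact w_le hw (by linarith) (by linarith)) (by linarith)
    · 
      exact izAt304 hb hF hH hB hside hE hI hI0p (by linarith) (by linarith) (by linarith) (by linarith) (by norm_num; first | linarith | exact kink_le hkink hI1 (by linarith) | exact cap_le hcap (by linarith) (by linarith) | exact kink_lt hkink hI1 (by linarith) | exact w_le hw (by linarith) (by linarith)) (by linarith)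
  · 
    rcases le_or_gt r (2 / 5 : ℝ) with h484 | h484
    · 
      exact izAt305 hb hF hH hB hside hE hI hI0p (by linarith) (by linarith) (by linarith) (by linarith) (by norm_num; first | linarith | exact kink_le hkink hI1 (by linarith) | exact cap_le hcap (by linarith) (by linarith) | exact kink_lt hkink hI1 (by linarith) | exact w_le hw (by linarith) (by linarith)) (by linarith)
    · 
      exact izAt326 hb hF hH hB hside hE hI hI0p (by linarith) (by linarith) (by linarith) (by linarith) (by norm_num; first | linarith | exact kink_le hkink hI1 (by linarith) | exact cap_le hcap (by linarith) (by linarith) | exact kink_lt hkink hI1 (by linarith) | exact w_le hw (by linarith) (by linarith)) (by linarith)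

/-- The signs above the kink. -/
theorem iz7High {n : ℕ} {a b u v t H I r s : ℝ} (hb : Closed.All.ChartBox n (b - a) (a + b))
    (hF : Closed.All.ChartFacts (b - a) (a + b) u v t)
    (hH : Closed.chH (b - a) (a + b) u v t = H) (hB : EndBands7 a b u v H)
    (hside : DHigh a b) (hE : ExitLine a b u v) (hI : IPt a b u I r s) (hI0p : 0 < I)
    (hI0 : (1 : ℝ) / 20 < I) (hI1 : I ≤ 1 / 7) (hr : 0 < r) (hs : 0 < s) (hw : I * r < 1 / 5)
    (hkink : 1 - 2 * I ≤ s * (1 - I)) (hcap : I * (2 + s) < 19 / 50) (r1 : r ≤ 1) (s1 : s ≤ 1) (Icap : I ≤ 167 / 1250) :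
    Closed.Strip.ChartSigns (b - a) (a + b) u v t := by
  rcases le_or_gt I (1 / 10 : ℝ) with h363 | h363
  · 
    rcases le_or_gt r (1 / 50 : ℝ) with h364 | h364
    · 
      exact iz7High_0 hb hF hH hB hside hE hI hI0p hI0 hI1 hr hs hw hkink hcap r1 s1 Icap h363 h364
    · 
      exact iz7High_1 hb hF hH hB hside hE hI hI0p hI0 hI1 hr hs hw hkink hcap r1 s1 Icap h363 h364
  · 
    rcases le_or_gt r (1 / 50 : ℝ) with h377 | h377
    · 
      rcases le_or_gt I (1 / 8 : ℝ) with h378 | h378
      · 
        rcases le_or_gt r (3 / 1600 : ℝ) with h379 | h379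
        · 
          exact iz7High_2 hb hF hH hB hside hE hI hI0p hI0 hI1 hr hs hw hkink hcap r1 s1 Icap h363 h377 h378 h379
        · 
          rcases le_or_gt r (1 / 160 : ℝ) with h390 | h390
          · 
            exact iz7High_3 hb hF hH hB hside hE hI hI0p hI0 hI1 hr hs hw hkink hcap r1 s1 Icap h363 h377 h378 h379 h390
          · 
            exact iz7High_4 hb hF hH hB hside hE hI hI0p hI0 hI1 hr hs hw hkink hcap r1 s1 Icap h363 h377 h378 h379 h390
      · 
        rcases le_or_gt I (21 / 160 : ℝ) with h403 | h403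
        · 
          rcases le_or_gt r (1 / 160 : ℝ) with h404 | h404
          · 
            rcases le_or_gt ((500 : ℝ) * (1 - a * v)) (66 : ℝ) with h405 | h405
            · 
              exact iz7High_5 hb hF hH hB hside hE hI hI0p hI0 hI1 hr hs hw hkink hcap r1 s1 Icap h363 h377 h378 h403 h404 h405
            · 
              rcases le_or_gt ((500 : ℝ) * (1 - a * v)) (165 : ℝ) with h408 | h408
              · 
                exact iz7High_6 hb hF hH hB hside hE hI hI0p hI0 hI1 hr hs hw hkink hcap r1 s1 Icap h363 h377 h378 h403 h404 h405 h408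
              · 
                rcases le_or_gt r (3 / 800 : ℝ) with h411 | h411
                · 
                  rcases le_or_gt s (22 / 25 : ℝ) with h412 | h412
                  · 
                    exact iz7High_7 hb hF hH hB hside hE hI hI0p hI0 hI1 hr hs hw hkink hcap r1 s1 Icap h363 h377 h378 h403 h404 h405 h408 h411 h412
                  · 
                    exact iz7High_8 hb hF hH hB hside hE hI hI0p hI0 hI1 hr hs hw hkink hcap r1 s1 Icap h363 h377 h378 h403 h404 h405 h408 h411 h412
                · 
                  exact iz7High_9 hb hF hH hB hside hE hI hI0p hI0 hI1 hr hs hw hkink hcap r1 s1 Icap h363 h377 h378 h403 h404 h405 h408 h411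
          · 
            exact iz7High_10 hb hF hH hB hside hE hI hI0p hI0 hI1 hr hs hw hkink hcap r1 s1 Icap h363 h377 h378 h403 h404
        · 
          rcases le_or_gt ((500 : ℝ) * (1 - a * v)) (109 : ℝ) with h455 | h455
          · 
            exact iz7High_11 hb hF hH hB hside hE hI hI0p hI0 hI1 hr hs hw hkink hcap r1 s1 Icap h363 h377 h378 h403 h455
          · 
            rcases le_or_gt ((500 : ℝ) * (1 - a * v)) (218 : ℝ) with h458 | h458
            · 
              exact iz7High_12 hb hF hH hB hside hE hI hI0p hI0 hI1 hr hs hw hkink hcap r1 s1 Icap h363 h377 h378 h403 h455 h458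
            · 
              rcases le_or_gt r (1 / 160 : ℝ) with h461 | h461
              · 
                rcases le_or_gt ((500 : ℝ) * (1 - a * v)) (255 : ℝ) with h462 | h462
                · 
                  exact iz7High_13 hb hF hH hB hside hE hI hI0p hI0 hI1 hr hs hw hkink hcap r1 s1 Icap h363 h377 h378 h403 h455 h458 h461 h462
                · 
                  exact iz7High_14 hb hF hH hB hside hE hI hI0p hI0 hI1 hr hs hw hkink hcap r1 s1 Icap h363 h377 h378 h403 h455 h458 h461 h462
              · 
                exact iz7High_15 hb hF hH hB hside hE hI hI0p hI0 hI1 hr hs hw hkink hcap r1 s1 Icap h363 h377 h378 h403 h455 h458 h461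
    · 
      exact iz7High_16 hb hF hH hB hside hE hI hI0p hI0 hI1 hr hs hw hkink hcap r1 s1 Icap h363 h377

end Vale.Agent.P100.Calib.StripEndD
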