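import Vale.Agent.P100.Calib.SlabStripEndIZ7Low
import Vale.Agent.P100.Calib.SlabStripEndIZ7High

/-!
# The statements for the `I` and `Z` charts for `N` between seven and twenty
-/

set_option linter.unusedVariables false
set_option linter.unusedTactic false
set_option linter.unreachableTactic false
set_option linter.unusedSimpArgs false
set_option linter.unnecessarySeqFocus false

namespace Vale.Agent.P100.Calib.StripEndD

open Pack hiding ev_add ev_mul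
open Pack.Ex Band StripMid StripEnd

local instance endIZ7CertsAdd : Add Ex := ⟨Ex.add⟩
local instance endIZ7CertsSub : Sub Ex := ⟨Ex.sub⟩
local instance endIZ7CertsMul : Mul Ex := ⟨Ex.mul⟩

variable {n : ℕ} {a b u v t H I r s : ℝ}

/-- The facts at a point with `I` above a twentieth. -/
theorem iz7_facts (hB : EndBands7 a b u v H) (hu : 4 / 5 < u) (hI : IPt a b u I r s) :
    0 < I ∧ 0 < r ∧ 0 < s ∧ I * r < 1 / 5 ∧ I * (2 + s) < 19 / 50 := by
  obtain ⟨hI0, hd, hw, eS, hcap⟩ := end_facts7 hB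
  rw [← hI.hI] at hI0 hcap
  rw [← hI.hd] at hd hcap
  rw [← hI.hw] at hw
  exact ⟨hI0, pos_of_mul_pos_right hw hI0.le, pos_of_mul_pos_right hd hI0.le,
    by rw [hI.hw]; linarith, by linarith⟩

/-- The signs below the kink, on the whole zone. -/
theorem iz7_low (hb : Closed.All.ChartBox n (b - a) (a + b))
    (hF : Closed.All.ChartFacts (b - a) (a + b) u v t)
    (hH : Closed.chH (b - a) (a + b) u v t = H) (hB : EndBands7 a b u v H) (hI0 : 1 / 20 < allStabI a b)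
    (hI1 : allStabI a b ≤ 1 / 7) (hu : 4 / 5 < u) (hE : ExitLine a b u v) (hside : DLow a b)
    (hI : IPt a b u I r s) : Closed.Strip.ChartSigns (b - a) (a + b) u v t := by
  obtain ⟨p0, p1, p2, hw, hcap⟩ := iz7_facts hB hu hI
  obtain ⟨-, -, -, eS, -⟩ := end_facts7 hB
  have hk : (b - a) * (1 - allStabI a b) ≤ (a + b) * allStabI a b := hside
  rw [eS, ← hI.hI, ← hI.hd, mul_assoc, mul_comm (1 - 2 * I)] at hk
  rw [← hI.hI] at hI0 hI1
  exact iz7Low hb hF hH hB hside hE hI p0 hI0 hI1 p1 p2 hw (le_of_mul_le_mul_left hk p0) hcap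

/-- The signs above the kink, at most one in both ratios. -/
theorem iz7_high (hb : Closed.All.ChartBox n (b - a) (a + b))
    (hF : Closed.All.ChartFacts (b - a) (a + b) u v t)
    (hH : Closed.chH (b - a) (a + b) u v t = H) (hB : EndBands7 a b u v H) (hI0 : 1 / 20 < allStabI a b)
    (hI1 : allStabI a b ≤ 1 / 7) (hu : 4 / 5 < u) (hE : ExitLine a b u v) (hside : DHigh a b)
    (hI : IPt a b u I r s) (r1 : r ≤ 1) (s1 : s ≤ 1) :
    Closed.Strip.ChartSigns (b - a) (a + b) u v t := by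
  obtain ⟨p0, p1, p2, hw, hcap⟩ := iz7_facts hB hu hI
  obtain ⟨-, -, -, eS, -⟩ := end_facts7 hB
  have hk : (a + b) * allStabI a b ≤ (b - a) * (1 - allStabI a b) := hside
  rw [eS, ← hI.hI, ← hI.hd, mul_assoc, mul_comm (1 - 2 * I)] at hk
  rw [← hI.hI] at hI0 hI1
  have hkink := le_of_mul_le_mul_left hk p0
  exact iz7High hb hF hH hB hside hE hI p0 hI0 hI1 p1 p2 hw hkink hcap r1 s1
    (kink_cap hkink hcap p0 hI1)

/-- The statements for the `I` and `Z` charts for `N` between seven and twenty. -/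
theorem certsIZ7 {n : ℕ} : StripEnd.CertsIZ7 n := by
  constructor <;> intro a b u v t H x hb hF hH hB hI0 hI1 hu hE hx hside <;>
    obtain ⟨⟨h0, h1, h2, -⟩, hg, -⟩ := hx
  · obtain ⟨eI, ed, ew, -, -⟩ := hg
    exact iz7_low (r := x 1) (s := x 2) hb hF hH hB hI0 hI1 hu hE hside ⟨eI, ed, ew⟩
  · obtain ⟨eI, ed, ew, -, -⟩ := hg
    exact iz7_low (r := x 1) (s := x 2) hb hF hH hB hI0 hI1 hu hE hside ⟨eI, ed, ew⟩
  · obtain ⟨eI, ed, ew, -, -⟩ := hg
    exact iz7_low (r := x 1) (s := x 2) hb hF hH hB hI0 hI1 hu hE hside ⟨eI, ed, ew⟩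
  · obtain ⟨eI, ed, ew, -, -⟩ := hg
    exact iz7_low (r := x 1) (s := x 2) hb hF hH hB hI0 hI1 hu hE hside ⟨eI, ed, ew⟩
  · obtain ⟨eI, ed, ew, -, -⟩ := hg
    refine iz7_high hb hF hH hB hI0 hI1 hu hE hside (r := x 1) (s := x 2) ⟨eI, ed, ew⟩ ?_ ?_
    · exact h1.2.2.trans (by norm_num [sevIEL])
    · exact h2.2.2.trans (by norm_num [sevIEL])
  · obtain ⟨eI, ed, ew, -, -⟩ := hg
    exact iz7_low (r := x 1) (s := x 2) hb hF hH hB hI0 hI1 hu hE hside ⟨eI, ed, ew⟩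
  · obtain ⟨eI, ed, ew, -, -⟩ := hg
    exact iz7_low (r := x 1) (s := x 2) hb hF hH hB hI0 hI1 hu hE hside ⟨eI, ed, ew⟩
  · obtain ⟨eI, ed, ew, -, -⟩ := hg
    exact iz7_low (r := x 1) (s := x 2) hb hF hH hB hI0 hI1 hu hE hside ⟨eI, ed, ew⟩
  · obtain ⟨eI, ed, ew, -, -⟩ := hg
    exact iz7_low (r := x 1) (s := x 2) hb hF hH hB hI0 hI1 hu hE hside ⟨eI, ed, ew⟩
  · obtain ⟨eI, ed, ew, -, -⟩ := hg
    refine iz7_high hb hF hH hB hI0 hI1 hu hE hside (r := x 1) (s := x 2) ⟨eI, ed, ew⟩ ?_ ?_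
    · exact h1.2.2.trans (by norm_num [sevIEH])
    · exact h2.2.2.trans (by norm_num [sevIEH])
  · obtain ⟨eI, ed, ew, -, -⟩ := hg
    exact iz7_low (r := x 1) (s := x 2) hb hF hH hB hI0 hI1 hu hE hside ⟨eI, ed, ew⟩
  · obtain ⟨eI, ed, ew, -, -⟩ := hg
    exact iz7_low (r := x 1) (s := x 2) hb hF hH hB hI0 hI1 hu hE hside ⟨eI, ed, ew⟩
  · obtain ⟨eI, ed, ew, -, -⟩ := hg
    exact iz7_low (r := x 1) (s := x 2) hb hF hH hB hI0 hI1 hu hE hside ⟨eI, ed, ew⟩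
  · obtain ⟨eI, ed, ew, -, -⟩ := hg
    exact iz7_low (r := x 1) (s := x 2) hb hF hH hB hI0 hI1 hu hE hside ⟨eI, ed, ew⟩
  · obtain ⟨eI, ed, ew, -, -⟩ := hg
    exact iz7_low (r := x 1) (s := x 2) hb hF hH hB hI0 hI1 hu hE hside ⟨eI, ed, ew⟩
  · obtain ⟨eI, ed, ew, -, -⟩ := hg
    refine iz7_high hb hF hH hB hI0 hI1 hu hE hside (r := x 1) (s := x 2) ⟨eI, ed, ew⟩ ?_ ?_
    · exact h1.2.2.trans (by norm_num [sevIEGc])
    · exact h2.2.2.trans (by norm_num [sevIEGc])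
  · obtain ⟨eI, ed, ew, -, -⟩ := hg
    refine iz7_high hb hF hH hB hI0 hI1 hu hE hside (r := x 1) (s := x 2) ⟨eI, ed, ew⟩ ?_ ?_
    · exact h1.2.2.trans (by norm_num [sevIEGd])
    · exact h2.2.2.trans (by norm_num [sevIEGd])
  · obtain ⟨eI, ed, ew, -, -⟩ := hg
    have p := (end_facts7 hB).1
    refine iz7_low (r := x 0 / x 1) (s := x 2) hb hF hH hB hI0 hI1 hu hE hside ⟨eI, ed, ?_⟩
    have e : x 1 = allStabI a b := eI
    have w : x 0 = 1 - u := ew
    show x 1 * (x 0 / x 1) = 1 - u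
    have pe : x 1 ≠ 0 := by rw [e]; exact p.ne'
    rw [mul_div_cancel₀ _ pe, w]
  · obtain ⟨eI, ed, ew, -, -⟩ := hg
    have p := (end_facts7 hB).1
    refine iz7_low (r := x 0 / x 1) (s := x 2) hb hF hH hB hI0 hI1 hu hE hside ⟨eI, ed, ?_⟩
    have e : x 1 = allStabI a b := eI
    have w : x 0 = 1 - u := ew
    show x 1 * (x 0 / x 1) = 1 - u
    have pe : x 1 ≠ 0 := by rw [e]; exact p.ne'
    rw [mul_div_cancel₀ _ pe, w]

end Vale.Agent.P100.Calib.StripEndD
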