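import Vale.Agent.P100.Calib.SlabStripEndIZ7P2

/-!
# A piece of the `I` and `Z` charts for `N` between seven and twenty: 2, a part of the checks
-/

namespace Vale.Agent.P100.Calib.StripEndD

open Pack hiding ev_add ev_mul
open Pack.Ex StripMid StripEnd

local instance endIZ7F2tfAdd : Add Ex := ⟨Ex.add⟩
local instance endIZ7F2tfSub : Sub Ex := ⟨Ex.sub⟩
local instance endIZ7F2tfMul : Mul Ex := ⟨Ex.mul⟩

/-- The fifth condition at the ends. -/
theorem certIz2_g5TF : ∀ s t : Bool, checkSgn bxIz2.C 633 20 15 18 15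
    (strictPow 15 (pcIz2.at ⟨true, false, true, true, t⟩ (c5 s))) = true := by decide +kernel

end Vale.Agent.P100.Calib.StripEndD
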