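import Vale.Agent.P100.Calib.SlabStripEndIZ7G20

/-!
# A piece of the `I` and `Z` charts for `N` between seven and twenty: 20, the certificate
-/

namespace Vale.Agent.P100.Calib.StripEndD

open Pack hiding ev_add ev_mul
open Pack.Ex StripMid StripEnd

local instance endIZ7K20Add : Add Ex := ⟨Ex.add⟩
local instance endIZ7K20Sub : Sub Ex := ⟨Ex.sub⟩
local instance endIZ7K20Mul : Mul Ex := ⟨Ex.mul⟩

/-- **The certificate of `pcIz20`.** -/
theorem certIz20 : Cert pcIz20 bxIz20 := by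
  have h_kn : checkSgn bxIz20.C 41 1 1 1 1
      pcIz20.kn = true := by decide +kernel
  have h_k2n : checkSgn bxIz20.C 156 3 3 3 0
      (strictVar pcIz20.k2n) = true := by decide +kernel
  have h_k2d : checkSgn bxIz20.C 158 3 3 3 0
      (strictVar pcIz20.k2d) = true := by decide +kernel
  have h_vs : checkSgn bxIz20.C 145 3 3 3 0
      (strictVar pcIz20.vs) = true := by decide +kernel
  have h_g1 : ∀ s p l : Bool, checkSgn bxIz20.C 260 9 6 7 5
      (pcIz20.at ⟨p, l, !s, !s, false⟩ (c1 s)) = true := by decide +kernel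
  have h_g2 := certIz20_g2
  have h_g5F : ∀ s l t : Bool, checkSgn bxIz20.C 622 18 11 16 11
      (pcIz20.at ⟨false, l, true, true, t⟩ (StripEnd.strict (c5 s))) = true := by decide +kernel
  have h_g5T : ∀ s l t : Bool, checkSgn bxIz20.C 622 18 11 16 11
      (pcIz20.at ⟨true, l, true, true, t⟩ (StripEnd.strict (c5 s))) = true := by decide +kernel
  have h_g5 : ∀ s p l t : Bool, checkSgn bxIz20.C 622 18 11 16 11
      (pcIz20.at ⟨p, l, true, true, t⟩ (StripEnd.strict (c5 s))) = true := by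
    intro s p
    cases p
    exacts [h_g5F s, h_g5T s]
  have h_gMG : ∀ p l t : Bool, checkSgn bxIz20.C 461 17 9 14 9
      (pcIz20.at ⟨p, l, true, false, t⟩ tplMG) = true := by decide +kernel
  have h_v2 : ∀ s : Bool, checkSgn bxIz20.C 166 6 4 6 4
      (pcIz20.at ⟨false, false, true, true, false⟩ (curve2 s)) = true := by decide +kernel
  have h_v5 : ∀ s : Bool, checkSgn bxIz20.C 184 7 4 7 4
      (pcIz20.at ⟨false, false, true, true, false⟩ (curve5 s)) = true := by decide +kernel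
  have h_vMG : checkSgn bxIz20.C 153 6 4 6 4
      (pcIz20.at ⟨false, false, true, true, false⟩ Piece.curveMG) = true := by decide +kernel
  have h_wP : ∀ b q : Bool, checkSgn bxIz20.C 41 1 2 0 1
      (pcIz20.winP b q) = true := by decide +kernel
  have h_wE : ∀ b q : Bool, checkSgn bxIz20.C 256 13 4 9 3
      (pcIz20.winE b q) = true := by decide +kernel
  have h_wK : ∀ b q : Bool, checkSgn bxIz20.C 243 13 4 9 2
      (pcIz20.winK b q) = true := by decide +kernel
  have h_wT : ∀ b q : Bool, checkSgn bxIz20.C 175 7 5 5 3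
      (pcIz20.winT b q) = true := by decide +kernel
  have h_wW : ∀ b : Bool, checkSgn bxIz20.C 168 7 5 4 3
      (pcIz20.winW b) = true := by decide +kernel
  have h_wY : ∀ b : Bool, checkSgn bxIz20.C 408 19 8 14 5
      (pcIz20.winY b) = true := by decide +kernel
  have h_gap : ∀ b q : Bool, checkSgn bxIz20.C 476 23 9 18 7
      (pcIz20.gap b q) = true := by decide +kernel
  exact {
    pos := ⟨⟨by decide, by decide⟩⟩
    low := by decide
    sgns := fun f => by
      cases f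
      · exact ⟨141, 3, 3, 3, 0, by decide +kernel⟩
      · exact ⟨139, 3, 3, 3, 0, by decide +kernel⟩
      · exact ⟨145, 3, 3, 3, 0, by decide +kernel⟩
      · exact ⟨145, 3, 3, 3, 0, by decide +kernel⟩
      · exact ⟨144, 3, 3, 3, 0, by decide +kernel⟩
      · exact ⟨151, 3, 3, 3, 0, by decide +kernel⟩
      · exact ⟨152, 3, 3, 3, 1, by decide +kernel⟩
      · exact ⟨153, 3, 3, 3, 1, by decide +kernel⟩
      · exact ⟨150, 3, 3, 3, 0, by decide +kernel⟩
      · exact ⟨167, 3, 3, 3, 1, by decide +kernel⟩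
      · exact ⟨163, 3, 3, 3, 0, by decide +kernel⟩
      · exact ⟨161, 3, 3, 3, 0, by decide +kernel⟩
      · exact ⟨165, 3, 3, 3, 1, by decide +kernel⟩
      · exact ⟨144, 3, 3, 3, 0, by decide +kernel⟩
      · exact ⟨160, 3, 3, 3, 1, by decide +kernel⟩
    kn := ⟨_, _, _, _, _, checkFour_of_sgn h_kn⟩
    k2n := ⟨_, _, _, _, _, checkFour_of_sgn h_k2n⟩
    k2d := ⟨_, _, _, _, _, checkFour_of_sgn h_k2d⟩
    vs := ⟨_, _, _, _, _, checkFour_of_sgn h_vs⟩
    g1 := fun s p l => ⟨_, _, _, _, _, checkFour_of_sgn (h_g1 s p l)⟩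
    g2 := fun s p l t => ⟨_, _, _, _, _, checkFour_of_sgn (h_g2 s p l t)⟩
    g5 := fun s p l t => ⟨_, _, _, _, _, checkFour_of_sgn (h_g5 s p l t)⟩
    gMG := fun p l t => ⟨_, _, _, _, _, checkFour_of_sgn (h_gMG p l t)⟩
    v2 := fun s => ⟨_, _, _, _, _, checkFour_of_sgn (h_v2 s)⟩
    v5 := fun s => ⟨_, _, _, _, _, checkFour_of_sgn (h_v5 s)⟩
    vMG := ⟨_, _, _, _, _, checkFour_of_sgn h_vMG⟩
    wP := fun b q => ⟨_, _, _, _, _, checkFour_of_sgn (h_wP b q)⟩
    wE := fun b q => ⟨_, _, _, _, _, checkFour_of_sgn (h_wE b q)⟩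
    wK := fun b q => ⟨_, _, _, _, _, checkFour_of_sgn (h_wK b q)⟩
    wT := fun b q => ⟨_, _, _, _, _, checkFour_of_sgn (h_wT b q)⟩
    wW := fun b => ⟨_, _, _, _, _, checkFour_of_sgn (h_wW b)⟩
    wY := fun b => ⟨_, _, _, _, _, checkFour_of_sgn (h_wY b)⟩
    gap := fun b q => ⟨_, _, _, _, _, checkFour_of_sgn (h_gap b q)⟩ }

end Vale.Agent.P100.Calib.StripEndD
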