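import Vale.Agent.P100.Calib.SlabStripEndDCert
import Vale.Agent.P100.Calib.SlabStripEndBigSgn

/-!
# A piece of the `I` and `Z` charts for `N` between seven and twenty: 26
-/

namespace Vale.Agent.P100.Calib.StripEndD

open Pack hiding ev_add ev_mul
open Pack.Ex StripMid StripEnd

local instance endIZ7P26Add : Add Ex := ⟨Ex.add⟩
local instance endIZ7P26Sub : Sub Ex := ⟨Ex.sub⟩
local instance endIZ7P26Mul : Mul Ex := ⟨Ex.mul⟩

/-- The piece `Iz26`. -/
def pcIz26 : Piece where
  I := (var 0)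
  d := (var 0) * (var 2)
  w := ((var 0) * (var 1))
  o := (((num 235)) + ((num 48)) * (var 3))
  den := ((num 500))
  vn := num 2 * (((num 235)) + ((num 48)) * (var 3))
  vs := (num 1 - num 2 * (var 0) - (var 0) * (var 2))
  mu := ⟨(101, 50), (131, 50)⟩
  pn := fun b => cond b
    (num 8000 * (((num 500)) - (((num 235)) + ((num 48)) * (var 3))) + num (-131) * ((((num 235)) + ((num 48)) * (var 3)) * (var 0)))
    (num 8000 * (((num 500)) - (((num 235)) + ((num 48)) * (var 3))) + num 0 * ((((num 235)) + ((num 48)) * (var 3)) * (var 0)))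
  pd := num 8000
  en := fun b => cond b
    (((num 37000 * ((var 0) * (((num 500)) - (((num 235)) + ((num 48)) * (var 3)))))) + ((num 500)) * (var 0) * ((num 1550) + (num (-1382) * (var 2)) + (num 6626 * (var 0))))
    (((num 37000 * ((var 0) * (((num 500)) - (((num 235)) + ((num 48)) * (var 3)))))) + ((num 500)) * (var 0) * ((num 24) + (num (-1382) * (var 2)) + (num 6626 * (var 0))))
  kk := fun b => cond b
    (((num 500)) * (var 0) * ((num 82) + (num 38 * (var 2))) + ((num (-4) * ((var 0) * (((num 500)) - (((num 235)) + ((num 48)) * (var 3)))))))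
    (((num 500)) * (var 0) * ((num (-31)) + (num 38 * (var 2))) + ((num (-4) * ((var 0) * (((num 500)) - (((num 235)) + ((num 48)) * (var 3)))))))
  f0 := num 2000 * ((num 500))
  wn := fun b => cond b
    (((num (-11342) * ((var 0) * (((num 500)) - (((num 235)) + ((num 48)) * (var 3))))) + (num 384 * ((var 0) * (var 2) * (((num 500)) - (((num 235)) + ((num 48)) * (var 3)))))) + ((num 500)) * (var 0) * ((num 1686) + (num (-10786) * (var 0))))
    (((num (-11342) * ((var 0) * (((num 500)) - (((num 235)) + ((num 48)) * (var 3))))) + (num 384 * ((var 0) * (var 2) * (((num 500)) - (((num 235)) + ((num 48)) * (var 3)))))) + ((num 500)) * (var 0) * ((num 1595) + (num (-10786) * (var 0))))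
  wd := num 1000 * ((num 500))
  tn := fun b => cond b
    (((num 500)) * ((num 184) + (num (-48) * (var 2)) + (num 24 * (var 0))) + ((num (-64) * (((num 500)) - (((num 235)) + ((num 48)) * (var 3))))))
    (((num 500)) * ((num 40) + (num (-48) * (var 2)) + (num 24 * (var 0))) + ((num (-64) * (((num 500)) - (((num 235)) + ((num 48)) * (var 3))))))
  td := num 8000 * ((num 500))
  cn := num 0
  cd := num 1
  kn := ((num 7353) + (num (-1935) * (var 0)) + (num (-6241) * (var 2)))
  kd := num 512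
  k2n := ((num (-225)) + (num 7136 * (var 0)) + (num 1014 * (var 2)))
  k2d := num 512

/-- Its ranges. -/
def bxIz26 : StripEnd.EBox :=
  ⟨(4, 5, 40), (0, 1, 160), (2, 3, 4), (0, 1, 1)⟩
/-- **The certificate of `pcIz26`.** -/
theorem certIz26 : Cert pcIz26 bxIz26 := by
  have h_kn : checkSgn bxIz26.C 24 1 0 1 0
      pcIz26.kn = true := by decide +kernel
  have h_k2n : checkSgn bxIz26.C 145 3 3 3 0
      (strictVar pcIz26.k2n) = true := by decide +kernel
  have h_k2d : checkSgn bxIz26.C 143 3 3 3 0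
      (strictVar pcIz26.k2d) = true := by decide +kernel
  have h_vs : checkSgn bxIz26.C 135 3 3 3 0
      (strictVar pcIz26.vs) = true := by decide +kernel
  have h_g1 : ∀ s p l : Bool, checkSgn bxIz26.C 185 8 0 6 5
      (pcIz26.at ⟨p, l, !s, !s, false⟩ (c1 s)) = true := by decide +kernel
  have h_g2 : ∀ s p l t : Bool, checkSgn bxIz26.C 429 16 0 14 9
      (pcIz26.at ⟨p, l, true, true, t⟩ (StripEnd.strict (c2 s))) = true := by decide +kernel
  have h_g5 : ∀ s p l t : Bool, checkSgn bxIz26.C 458 16 0 13 8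
      (pcIz26.at ⟨p, l, true, true, t⟩ (StripEnd.strict (c5 s))) = true := by decide +kernel
  have h_gMG : ∀ p l t : Bool, checkSgn bxIz26.C 336 15 0 11 8
      (pcIz26.at ⟨p, l, true, false, t⟩ tplMG) = true := by decide +kernel
  have h_v2 : ∀ s : Bool, checkSgn bxIz26.C 115 6 0 6 4
      (pcIz26.at ⟨false, false, true, true, false⟩ (curve2 s)) = true := by decide +kernel
  have h_v5 : ∀ s : Bool, checkSgn bxIz26.C 123 7 0 7 4
      (pcIz26.at ⟨false, false, true, true, false⟩ (curve5 s)) = true := by decide +kernel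
  have h_vMG : checkSgn bxIz26.C 103 6 0 6 4
      (pcIz26.at ⟨false, false, true, true, false⟩ Piece.curveMG) = true := by decide +kernel
  have h_wP : ∀ b q : Bool, checkSgn bxIz26.C 46 1 1 0 1
      (pcIz26.winP b q) = true := by decide +kernel
  have h_wE : ∀ b q : Bool, checkSgn bxIz26.C 189 12 2 9 3
      (pcIz26.winE b q) = true := by decide +kernel
  have h_wK : ∀ b q : Bool, checkSgn bxIz26.C 172 12 2 8 3
      (pcIz26.winK b q) = true := by decide +kernel
  have h_wT : ∀ b q : Bool, checkSgn bxIz26.C 149 8 2 6 4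
      (pcIz26.winT b q) = true := by decide +kernel
  have h_wW : ∀ b : Bool, checkSgn bxIz26.C 143 8 2 4 3
      (pcIz26.winW b) = true := by decide +kernel
  have h_wY : ∀ b : Bool, checkSgn bxIz26.C 302 18 3 13 6
      (pcIz26.winY b) = true := by decide +kernel
  have h_gap : ∀ b q : Bool, checkSgn bxIz26.C 345 23 3 17 6
      (pcIz26.gap b q) = true := by decide +kernel
  exact {
    pos := ⟨⟨by decide, by decide⟩⟩
    low := by decide
    sgns := fun f => by
      cases f
      · exact ⟨131, 3, 3, 3, 0, by decide +kernel⟩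
      · exact ⟨131, 3, 3, 3, 0, by decide +kernel⟩
      · exact ⟨135, 3, 3, 3, 0, by decide +kernel⟩
      · exact ⟨135, 3, 3, 3, 0, by decide +kernel⟩
      · exact ⟨134, 3, 3, 3, 0, by decide +kernel⟩
      · exact ⟨143, 3, 3, 3, 0, by decide +kernel⟩
      · exact ⟨143, 3, 3, 3, 1, by decide +kernel⟩
      · exact ⟨145, 3, 3, 3, 1, by decide +kernel⟩
      · exact ⟨147, 3, 3, 3, 0, by decide +kernel⟩
      · exact ⟨157, 3, 3, 3, 1, by decide +kernel⟩
      · exact ⟨154, 3, 3, 3, 0, by decide +kernel⟩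
      · exact ⟨153, 3, 3, 3, 0, by decide +kernel⟩
      · exact ⟨156, 3, 3, 3, 0, by decide +kernel⟩
      · exact ⟨134, 3, 3, 3, 0, by decide +kernel⟩
      · exact ⟨143, 3, 3, 3, 0, by decide +kernel⟩
    kn := ⟨_, _, _, _, _, checkFour_of_sgn h_kn⟩
    k2n := ⟨_, _, _, _, _, checkFour_of_sgn h_k2n⟩
    k2d := ⟨_, _, _, _, _, checkFour_of_sgn h_k2d⟩
    vs := ⟨_, _, _, _, _, checkFour_of_sgn h_vs⟩
    g1 := fun s p l => ⟨_, _, _, _, _, checkFour_of_sgn (h_g1 s p l)⟩
    g2 := fun s p l t => ⟨_, _, _, _, _, checkFour_of_sgn (h_g2 s p l t)⟩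
    g5 := fun s p l t => ⟨_, _, _, _, _, checkFour_of_sgn (h_g5 s p l t)⟩
    gMG := fun p l t => ⟨_, _, _, _, _, checkFour_of_sgn (h_gMG p l t)⟩
    v2 := fun s => ⟨_, _, _, _, _, checkFour_of_sgn (h_v2 s)⟩
    v5 := fun s => ⟨_, _, _, _, _, checkFour_of_sgn (h_v5 s)⟩
    vMG := ⟨_, _, _, _, _, checkFour_of_sgn h_vMG⟩
    wP := fun b q => ⟨_, _, _, _, _, checkFour_of_sgn (h_wP b q)⟩
    wE := fun b q => ⟨_, _, _, _, _, checkFour_of_sgn (h_wE b q)⟩
    wK := fun b q => ⟨_, _, _, _, _, checkFour_of_sgn (h_wK b q)⟩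
    wT := fun b q => ⟨_, _, _, _, _, checkFour_of_sgn (h_wT b q)⟩
    wW := fun b => ⟨_, _, _, _, _, checkFour_of_sgn (h_wW b)⟩
    wY := fun b => ⟨_, _, _, _, _, checkFour_of_sgn (h_wY b)⟩
    gap := fun b q => ⟨_, _, _, _, _, checkFour_of_sgn (h_gap b q)⟩ }

end Vale.Agent.P100.Calib.StripEndD
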