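import Vale.Agent.P100.Calib.SlabStripEndDCert
import Vale.Agent.P100.Calib.SlabStripEndBigSgn

/-!
# A piece of the `I` and `Z` charts for `N` between seven and twenty: 27
-/

namespace Vale.Agent.P100.Calib.StripEndD

open Pack hiding ev_add ev_mul
open Pack.Ex StripMid StripEnd

local instance endIZ7P27Add : Add Ex := ⟨Ex.add⟩
local instance endIZ7P27Sub : Sub Ex := ⟨Ex.sub⟩
local instance endIZ7P27Mul : Mul Ex := ⟨Ex.mul⟩

/-- The piece `Iz27`. -/
def pcIz27 : Piece where
  I := (var 0)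
  d := (var 0) * (var 2)
  w := ((var 0) * (var 1))
  o := (((num 228)) + ((num 55)) * (var 3))
  den := ((num 500))
  vn := num 2 * (((num 228)) + ((num 55)) * (var 3))
  vs := (num 1 - num 2 * (var 0) - (var 0) * (var 2))
  mu := ⟨(101, 50), (131, 50)⟩
  pn := fun b => cond b
    (num 40000 * (((num 500)) - (((num 228)) + ((num 55)) * (var 3))) + num (-2096) * ((((num 228)) + ((num 55)) * (var 3)) * (var 0)))
    (num 40000 * (((num 500)) - (((num 228)) + ((num 55)) * (var 3))) + num (-505) * ((((num 228)) + ((num 55)) * (var 3)) * (var 0)))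
  pd := num 40000
  en := fun b => cond b
    (((num 36660 * ((var 0) * (((num 500)) - (((num 228)) + ((num 55)) * (var 3)))))) + ((num 500)) * (var 0) * ((num 5865) + (num (-1892) * (var 2)) + (num (-836) * (var 0))))
    (((num 36660 * ((var 0) * (((num 500)) - (((num 228)) + ((num 55)) * (var 3)))))) + ((num 500)) * (var 0) * ((num 2525) + (num (-1892) * (var 2)) + (num (-836) * (var 0))))
  kk := fun b => cond b
    (((num 500)) * (var 0) * ((num 175) + (num 238 * (var 2))) + ((num (-24) * ((var 0) * (((num 500)) - (((num 228)) + ((num 55)) * (var 3)))))))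
    (((num 500)) * (var 0) * ((num (-89)) + (num 238 * (var 2))) + ((num (-24) * ((var 0) * (((num 500)) - (((num 228)) + ((num 55)) * (var 3)))))))
  f0 := num 2000 * ((num 500))
  wn := fun b => cond b
    (((num (-11494) * ((var 0) * (((num 500)) - (((num 228)) + ((num 55)) * (var 3))))) + (num 407 * ((var 0) * (var 2) * (((num 500)) - (((num 228)) + ((num 55)) * (var 3)))))) + ((num 500)) * (var 0) * ((num 1754) + (num (-10607) * (var 0))))
    (((num (-11494) * ((var 0) * (((num 500)) - (((num 228)) + ((num 55)) * (var 3))))) + (num 407 * ((var 0) * (var 2) * (((num 500)) - (((num 228)) + ((num 55)) * (var 3)))))) + ((num 500)) * (var 0) * ((num 1656) + (num (-10607) * (var 0))))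
  wd := num 1000 * ((num 500))
  tn := fun b => cond b
    (((num 500)) * ((num 690) + (num (-272) * (var 2)) + (num 168 * (var 0))) + ((num (-384) * (((num 500)) - (((num 228)) + ((num 55)) * (var 3))))))
    (((num 500)) * ((num 391) + (num (-272) * (var 2)) + (num 168 * (var 0))) + ((num (-384) * (((num 500)) - (((num 228)) + ((num 55)) * (var 3))))))
  td := num 8000 * ((num 500))
  cn := num 0
  cd := num 1
  kn := ((num 5623) + (num 3058 * (var 0)) + (num (-4290) * (var 2)))
  kd := num 512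
  k2n := ((num (-1035)) + (num 6406 * (var 0)) + (num 2112 * (var 2)))
  k2d := num 512

/-- Its ranges. -/
def bxIz27 : StripEnd.EBox :=
  ⟨(4, 5, 40), (5, 16, 800), (2, 3, 4), (0, 1, 1)⟩
/-- **The certificate of `pcIz27`.** -/
theorem certIz27 : Cert pcIz27 bxIz27 := by
  have h_kn : checkSgn bxIz27.C 24 1 0 1 0
      pcIz27.kn = true := by decide +kernel
  have h_k2n : checkSgn bxIz27.C 153 3 3 3 0
      (strictVar pcIz27.k2n) = true := by decide +kernel
  have h_k2d : checkSgn bxIz27.C 150 3 3 3 0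
      (strictVar pcIz27.k2d) = true := by decide +kernel
  have h_vs : checkSgn bxIz27.C 142 3 3 3 0
      (strictVar pcIz27.vs) = true := by decide +kernel
  have h_g1 : ∀ s p l : Bool, checkSgn bxIz27.C 187 8 0 6 5
      (pcIz27.at ⟨p, l, !s, !s, false⟩ (c1 s)) = true := by decide +kernel
  have h_g2 : ∀ s p l t : Bool, checkSgn bxIz27.C 435 16 0 14 9
      (pcIz27.at ⟨p, l, true, true, t⟩ (StripEnd.strict (c2 s))) = true := by decide +kernel
  have h_g5 : ∀ s p l t : Bool, checkSgn bxIz27.C 463 16 0 13 8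
      (pcIz27.at ⟨p, l, true, true, t⟩ (StripEnd.strict (c5 s))) = true := by decide +kernel
  have h_gMG : ∀ p l t : Bool, checkSgn bxIz27.C 341 15 0 11 8
      (pcIz27.at ⟨p, l, true, false, t⟩ tplMG) = true := by decide +kernel
  have h_v2 : ∀ s : Bool, checkSgn bxIz27.C 116 6 0 6 4
      (pcIz27.at ⟨false, false, true, true, false⟩ (curve2 s)) = true := by decide +kernel
  have h_v5 : ∀ s : Bool, checkSgn bxIz27.C 123 7 0 7 4
      (pcIz27.at ⟨false, false, true, true, false⟩ (curve5 s)) = true := by decide +kernel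
  have h_vMG : checkSgn bxIz27.C 103 6 0 6 4
      (pcIz27.at ⟨false, false, true, true, false⟩ Piece.curveMG) = true := by decide +kernel
  have h_wP : ∀ b q : Bool, checkSgn bxIz27.C 51 1 1 0 1
      (pcIz27.winP b q) = true := by decide +kernel
  have h_wE : ∀ b q : Bool, checkSgn bxIz27.C 193 12 2 9 3
      (pcIz27.winE b q) = true := by decide +kernel
  have h_wK : ∀ b q : Bool, checkSgn bxIz27.C 177 12 2 8 3
      (pcIz27.winK b q) = true := by decide +kernel
  have h_wT : ∀ b q : Bool, checkSgn bxIz27.C 154 8 2 6 4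
      (pcIz27.winT b q) = true := by decide +kernel
  have h_wW : ∀ b : Bool, checkSgn bxIz27.C 147 8 2 4 3
      (pcIz27.winW b) = true := by decide +kernel
  have h_wY : ∀ b : Bool, checkSgn bxIz27.C 309 18 3 13 6
      (pcIz27.winY b) = true := by decide +kernel
  have h_gap : ∀ b q : Bool, checkSgn bxIz27.C 352 23 3 17 6
      (pcIz27.gap b q) = true := by decide +kernel
  exact {
    pos := ⟨⟨by decide, by decide⟩⟩
    low := by decide
    sgns := fun f => by
      cases f
      · exact ⟨138, 3, 3, 3, 0, by decide +kernel⟩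
      · exact ⟨138, 3, 3, 3, 0, by decide +kernel⟩
      · exact ⟨142, 3, 3, 3, 0, by decide +kernel⟩
      · exact ⟨142, 3, 3, 3, 0, by decide +kernel⟩
      · exact ⟨141, 3, 3, 3, 0, by decide +kernel⟩
      · exact ⟨150, 3, 3, 3, 0, by decide +kernel⟩
      · exact ⟨150, 3, 3, 3, 1, by decide +kernel⟩
      · exact ⟨152, 3, 3, 3, 1, by decide +kernel⟩
      · exact ⟨157, 3, 3, 3, 0, by decide +kernel⟩
      · exact ⟨164, 3, 3, 3, 1, by decide +kernel⟩
      · exact ⟨161, 3, 3, 3, 0, by decide +kernel⟩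
      · exact ⟨160, 3, 3, 3, 0, by decide +kernel⟩
      · exact ⟨163, 3, 3, 3, 0, by decide +kernel⟩
      · exact ⟨141, 3, 3, 3, 0, by decide +kernel⟩
      · exact ⟨150, 3, 3, 3, 0, by decide +kernel⟩
    kn := ⟨_, _, _, _, _, checkFour_of_sgn h_kn⟩
    k2n := ⟨_, _, _, _, _, checkFour_of_sgn h_k2n⟩
    k2d := ⟨_, _, _, _, _, checkFour_of_sgn h_k2d⟩
    vs := ⟨_, _, _, _, _, checkFour_of_sgn h_vs⟩
    g1 := fun s p l => ⟨_, _, _, _, _, checkFour_of_sgn (h_g1 s p l)⟩
    g2 := fun s p l t => ⟨_, _, _, _, _, checkFour_of_sgn (h_g2 s p l t)⟩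
    g5 := fun s p l t => ⟨_, _, _, _, _, checkFour_of_sgn (h_g5 s p l t)⟩
    gMG := fun p l t => ⟨_, _, _, _, _, checkFour_of_sgn (h_gMG p l t)⟩
    v2 := fun s => ⟨_, _, _, _, _, checkFour_of_sgn (h_v2 s)⟩
    v5 := fun s => ⟨_, _, _, _, _, checkFour_of_sgn (h_v5 s)⟩
    vMG := ⟨_, _, _, _, _, checkFour_of_sgn h_vMG⟩
    wP := fun b q => ⟨_, _, _, _, _, checkFour_of_sgn (h_wP b q)⟩
    wE := fun b q => ⟨_, _, _, _, _, checkFour_of_sgn (h_wE b q)⟩
    wK := fun b q => ⟨_, _, _, _, _, checkFour_of_sgn (h_wK b q)⟩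
    wT := fun b q => ⟨_, _, _, _, _, checkFour_of_sgn (h_wT b q)⟩
    wW := fun b => ⟨_, _, _, _, _, checkFour_of_sgn (h_wW b)⟩
    wY := fun b => ⟨_, _, _, _, _, checkFour_of_sgn (h_wY b)⟩
    gap := fun b q => ⟨_, _, _, _, _, checkFour_of_sgn (h_gap b q)⟩ }

end Vale.Agent.P100.Calib.StripEndD
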