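import Vale.Agent.P100.Calib.SlabStripEndIZ7Win0
import Vale.Agent.P100.Calib.SlabStripEndIZ7Win1
import Vale.Agent.P100.Calib.SlabStripEndIZ7Win2
import Vale.Agent.P100.Calib.SlabStripEndIZ7Win3
import Vale.Agent.P100.Calib.SlabStripEndIZ7K0
import Vale.Agent.P100.Calib.SlabStripEndIZ7K1
import Vale.Agent.P100.Calib.SlabStripEndIZ7K2
import Vale.Agent.P100.Calib.SlabStripEndIZ7K3
import Vale.Agent.P100.Calib.SlabStripEndIZ7K4
import Vale.Agent.P100.Calib.SlabStripEndIZ7K5
import Vale.Agent.P100.Calib.SlabStripEndIZ7K6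
import Vale.Agent.P100.Calib.SlabStripEndIZ7K7
import Vale.Agent.P100.Calib.SlabStripEndIZ7K8
import Vale.Agent.P100.Calib.SlabStripEndIZ7K9
import Vale.Agent.P100.Calib.SlabStripEndIZ7K10
import Vale.Agent.P100.Calib.SlabStripEndIZ7K11
import Vale.Agent.P100.Calib.SlabStripEndIZ7K12
import Vale.Agent.P100.Calib.SlabStripEndIZ7K13
import Vale.Agent.P100.Calib.SlabStripEndIZ7K14
import Vale.Agent.P100.Calib.SlabStripEndIZ7K15
import Vale.Agent.P100.Calib.SlabStripEndIZ7K16
import Vale.Agent.P100.Calib.SlabStripEndIZ7K17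
import Vale.Agent.P100.Calib.SlabStripEndIZ7K18
import Vale.Agent.P100.Calib.SlabStripEndIZ7K19
import Vale.Agent.P100.Calib.SlabStripEndIZ7K20
import Vale.Agent.P100.Calib.SlabStripEndIZ7K21
import Vale.Agent.P100.Calib.SlabStripEndIZ7K22
import Vale.Agent.P100.Calib.SlabStripEndIZ7K23
import Vale.Agent.P100.Calib.SlabStripEndIZ7K24
import Vale.Agent.P100.Calib.SlabStripEndIZ7K25
import Vale.Agent.P100.Calib.SlabStripEndIZ7P26
import Vale.Agent.P100.Calib.SlabStripEndIZ7P27
import Vale.Agent.P100.Calib.SlabStripEndIZ7K28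
import Vale.Agent.P100.Calib.SlabStripEndIZ7K29
import Vale.Agent.P100.Calib.SlabStripEndIZ7K30
import Vale.Agent.P100.Calib.SlabStripEndIZ7K31

/-!
# The pieces of the `I` and `Z` charts over their lines (Leaves0)
-/

namespace Vale.Agent.P100.Calib.StripEndD

open Pack hiding ev_add ev_mul
open Pack.Ex StripMid StripEnd

local instance endIZ7Leaves0Add : Add Ex := ⟨Ex.add⟩
local instance endIZ7Leaves0Sub : Sub Ex := ⟨Ex.sub⟩
local instance endIZ7Leaves0Mul : Mul Ex := ⟨Ex.mul⟩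

/-- The piece 0 over its chart. -/
theorem pcIz0_over : pcIz0.Over (wideChart (lineChart izL0 (2, 3, 40) (0, 1, 160) (0, 3, 20) (92, 50) (106, 50))) :=
  ⟨fun _ => rfl, fun _ => rfl, fun _ => rfl,
    fun x => by simp only [pcIz0, wideChart, lineChart, izL0, ev_add, ev_mul, Ex.eval] <;> push_cast <;> ring,
    fun x => by
      simp only [pcIz0, wideChart, lineChart, afEx, izL0, ev_add, ev_mul, Ex.eval] <;> push_cast <;> ring,
    fun x => by
      simp only [pcIz0, Piece.A, Piece.S, ev_add, ev_sub, ev_mul, Ex.eval]; push_cast; ring,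
    rfl, rfl⟩

/-- The piece 0 with its lines. -/
theorem izLeaf0 : Leaf izL0 (2, 3, 40) (0, 1, 160) (0, 3, 20) (92, 50) (106, 50) pcIz0 bxIz0 :=
  ⟨by norm_num, izL0_up, izL0_down, Or.inr certIz0, pcIz0_over, ⟨rfl, rfl, rfl, rfl⟩, rfl, rfl⟩

/-- The piece 1 over its chart. -/
theorem pcIz1_over : pcIz1.Over (wideChart (lineChart izL1 (2, 3, 40) (5, 16, 800) (0, 3, 20) (93, 50) (106, 50))) :=
  ⟨fun _ => rfl, fun _ => rfl, fun _ => rfl,
    fun x => by simp only [pcIz1, wideChart, lineChart, izL1, ev_add, ev_mul, Ex.eval] <;> push_cast <;> ring,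
    fun x => by
      simp only [pcIz1, wideChart, lineChart, afEx, izL1, ev_add, ev_mul, Ex.eval] <;> push_cast <;> ring,
    fun x => by
      simp only [pcIz1, Piece.A, Piece.S, ev_add, ev_sub, ev_mul, Ex.eval]; push_cast; ring,
    rfl, rfl⟩

/-- The piece 1 with its lines. -/
theorem izLeaf1 : Leaf izL1 (2, 3, 40) (5, 16, 800) (0, 3, 20) (93, 50) (106, 50) pcIz1 bxIz1 :=
  ⟨by norm_num, izL1_up, izL1_down, Or.inr certIz1, pcIz1_over, ⟨rfl, rfl, rfl, rfl⟩, rfl, rfl⟩

/-- The piece 2 over its chart. -/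
theorem pcIz2_over : pcIz2.Over (wideChart (lineChart izL2 (3, 4, 40) (0, 1, 50) (0, 3, 40) (88, 50) (108, 50))) :=
  ⟨fun _ => rfl, fun _ => rfl, fun _ => rfl,
    fun x => by simp only [pcIz2, wideChart, lineChart, izL2, ev_add, ev_mul, Ex.eval] <;> push_cast <;> ring,
    fun x => by
      simp only [pcIz2, wideChart, lineChart, afEx, izL2, ev_add, ev_mul, Ex.eval] <;> push_cast <;> ring,
    fun x => by
      simp only [pcIz2, Piece.A, Piece.S, ev_add, ev_sub, ev_mul, Ex.eval]; push_cast; ring,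
    rfl, rfl⟩

/-- The piece 2 with its lines. -/
theorem izLeaf2 : Leaf izL2 (3, 4, 40) (0, 1, 50) (0, 3, 40) (88, 50) (108, 50) pcIz2 bxIz2 :=
  ⟨by norm_num, izL2_up, izL2_down, Or.inr certIz2, pcIz2_over, ⟨rfl, rfl, rfl, rfl⟩, rfl, rfl⟩

/-- The piece 3 over its chart. -/
theorem pcIz3_over : pcIz3.Over (wideChart (lineChart izL3 (4, 5, 40) (0, 1, 50) (0, 3, 20) (96, 50) (109, 50))) :=
  ⟨fun _ => rfl, fun _ => rfl, fun _ => rfl,
    fun x => by simp only [pcIz3, wideChart, lineChart, izL3, ev_add, ev_mul, Ex.eval] <;> push_cast <;> ring,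
    fun x => by
      simp only [pcIz3, wideChart, lineChart, afEx, izL3, ev_add, ev_mul, Ex.eval] <;> push_cast <;> ring,
    fun x => by
      simp only [pcIz3, Piece.A, Piece.S, ev_add, ev_sub, ev_mul, Ex.eval]; push_cast; ring,
    rfl, rfl⟩

/-- The piece 3 with its lines. -/
theorem izLeaf3 : Leaf izL3 (4, 5, 40) (0, 1, 50) (0, 3, 20) (96, 50) (109, 50) pcIz3 bxIz3 :=
  ⟨by norm_num, izL3_up, izL3_down, Or.inr certIz3, pcIz3_over, ⟨rfl, rfl, rfl, rfl⟩, rfl, rfl⟩

/-- The piece 4 over its chart. -/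
theorem pcIz4_over : pcIz4.Over (wideChart (lineChart izL4 (10, 11, 80) (0, 1, 50) (0, 3, 40) (96, 50) (107, 50))) :=
  ⟨fun _ => rfl, fun _ => rfl, fun _ => rfl,
    fun x => by simp only [pcIz4, wideChart, lineChart, izL4, ev_add, ev_mul, Ex.eval] <;> push_cast <;> ring,
    fun x => by
      simp only [pcIz4, wideChart, lineChart, afEx, izL4, ev_add, ev_mul, Ex.eval] <;> push_cast <;> ring,
    fun x => by
      simp only [pcIz4, Piece.A, Piece.S, ev_add, ev_sub, ev_mul, Ex.eval]; push_cast; ring,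
    rfl, rfl⟩

/-- The piece 4 with its lines. -/
theorem izLeaf4 : Leaf izL4 (10, 11, 80) (0, 1, 50) (0, 3, 40) (96, 50) (107, 50) pcIz4 bxIz4 :=
  ⟨by norm_num, izL4_up, izL4_down, Or.inr certIz4, pcIz4_over, ⟨rfl, rfl, rfl, rfl⟩, rfl, rfl⟩

/-- The piece 5 over its chart. -/
theorem pcIz5_over : pcIz5.Over (wideChart (lineChart izL5 (22, 23, 160) (0, 1, 50) (0, 3, 40) (96, 50) (108, 50))) :=
  ⟨fun _ => rfl, fun _ => rfl, fun _ => rfl,
    fun x => by simp only [pcIz5, wideChart, lineChart, izL5, ev_add, ev_mul, Ex.eval] <;> push_cast <;> ring,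
    fun x => by
      simp only [pcIz5, wideChart, lineChart, afEx, izL5, ev_add, ev_mul, Ex.eval] <;> push_cast <;> ring,
    fun x => by
      simp only [pcIz5, Piece.A, Piece.S, ev_add, ev_sub, ev_mul, Ex.eval]; push_cast; ring,
    rfl, rfl⟩

/-- The piece 5 with its lines. -/
theorem izLeaf5 : Leaf izL5 (22, 23, 160) (0, 1, 50) (0, 3, 40) (96, 50) (108, 50) pcIz5 bxIz5 :=
  ⟨by norm_num, izL5_up, izL5_down, Or.inr certIz5, pcIz5_over, ⟨rfl, rfl, rfl, rfl⟩, rfl, rfl⟩

/-- The piece 6 over its chart. -/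
theorem pcIz6_over : pcIz6.Over (wideChart (lineChart izL6 (1, 2, 20) (2, 15, 100) (0, 3, 20) (92, 50) (109, 50))) :=
  ⟨fun _ => rfl, fun _ => rfl, fun _ => rfl,
    fun x => by simp only [pcIz6, wideChart, lineChart, izL6, ev_add, ev_mul, Ex.eval] <;> push_cast <;> ring,
    fun x => by
      simp only [pcIz6, wideChart, lineChart, afEx, izL6, ev_add, ev_mul, Ex.eval] <;> push_cast <;> ring,
    fun x => by
      simp only [pcIz6, Piece.A, Piece.S, ev_add, ev_sub, ev_mul, Ex.eval]; push_cast; ring,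
    rfl, rfl⟩

/-- The piece 6 with its lines. -/
theorem izLeaf6 : Leaf izL6 (1, 2, 20) (2, 15, 100) (0, 3, 20) (92, 50) (109, 50) pcIz6 bxIz6 :=
  ⟨by norm_num, izL6_up, izL6_down, Or.inr certIz6, pcIz6_over, ⟨rfl, rfl, rfl, rfl⟩, rfl, rfl⟩

/-- The piece 7 over its chart. -/
theorem pcIz7_over : pcIz7.Over (wideChart (lineChart izL7 (4, 5, 40) (2, 15, 100) (0, 3, 20) (90, 50) (112, 50))) :=
  ⟨fun _ => rfl, fun _ => rfl, fun _ => rfl,
    fun x => by simp only [pcIz7, wideChart, lineChart, izL7, ev_add, ev_mul, Ex.eval] <;> push_cast <;> ring,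
    fun x => by
      simp only [pcIz7, wideChart, lineChart, afEx, izL7, ev_add, ev_mul, Ex.eval] <;> push_cast <;> ring,
    fun x => by
      simp only [pcIz7, Piece.A, Piece.S, ev_add, ev_sub, ev_mul, Ex.eval]; push_cast; ring,
    rfl, rfl⟩

/-- The piece 7 with its lines. -/
theorem izLeaf7 : Leaf izL7 (4, 5, 40) (2, 15, 100) (0, 3, 20) (90, 50) (112, 50) pcIz7 bxIz7 :=
  ⟨by norm_num, izL7_up, izL7_down, Or.inr certIz7, pcIz7_over, ⟨rfl, rfl, rfl, rfl⟩, rfl, rfl⟩

/-- The piece 8 over its chart. -/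
theorem pcIz8_over : pcIz8.Over (wideChart (lineChart izL8 (20, 23, 160) (2, 15, 100) (0, 3, 40) (89, 50) (113, 50))) :=
  ⟨fun _ => rfl, fun _ => rfl, fun _ => rfl,
    fun x => by simp only [pcIz8, wideChart, lineChart, izL8, ev_add, ev_mul, Ex.eval] <;> push_cast <;> ring,
    fun x => by
      simp only [pcIz8, wideChart, lineChart, afEx, izL8, ev_add, ev_mul, Ex.eval] <;> push_cast <;> ring,
    fun x => by
      simp only [pcIz8, Piece.A, Piece.S, ev_add, ev_sub, ev_mul, Ex.eval]; push_cast; ring,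
    rfl, rfl⟩

/-- The piece 8 with its lines. -/
theorem izLeaf8 : Leaf izL8 (20, 23, 160) (2, 15, 100) (0, 3, 40) (89, 50) (113, 50) pcIz8 bxIz8 :=
  ⟨by norm_num, izL8_up, izL8_down, Or.inr certIz8, pcIz8_over, ⟨rfl, rfl, rfl, rfl⟩, rfl, rfl⟩

/-- The piece 9 over its chart. -/
theorem pcIz9_over : pcIz9.Over (wideChart (lineChart izL9 (2, 3, 40) (0, 1, 50) (3, 10, 20) (94, 50) (115, 50))) :=
  ⟨fun _ => rfl, fun _ => rfl, fun _ => rfl,
    fun x => by simp only [pcIz9, wideChart, lineChart, izL9, ev_add, ev_mul, Ex.eval] <;> push_cast <;> ring,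
    fun x => by
      simp only [pcIz9, wideChart, lineChart, afEx, izL9, ev_add, ev_mul, Ex.eval] <;> push_cast <;> ring,
    fun x => by
      simp only [pcIz9, Piece.A, Piece.S, ev_add, ev_sub, ev_mul, Ex.eval]; push_cast; ring,
    rfl, rfl⟩

/-- The piece 9 with its lines. -/
theorem izLeaf9 : Leaf izL9 (2, 3, 40) (0, 1, 50) (3, 10, 20) (94, 50) (115, 50) pcIz9 bxIz9 :=
  ⟨by norm_num, izL9_up, izL9_down, Or.inr certIz9, pcIz9_over, ⟨rfl, rfl, rfl, rfl⟩, rfl, rfl⟩

/-- The piece 10 over its chart. -/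
theorem pcIz10_over : pcIz10.Over (wideChart (lineChart izL10 (6, 7, 80) (0, 1, 50) (3, 10, 20) (93, 50) (118, 50))) :=
  ⟨fun _ => rfl, fun _ => rfl, fun _ => rfl,
    fun x => by simp only [pcIz10, wideChart, lineChart, izL10, ev_add, ev_mul, Ex.eval] <;> push_cast <;> ring,
    fun x => by
      simp only [pcIz10, wideChart, lineChart, afEx, izL10, ev_add, ev_mul, Ex.eval] <;> push_cast <;> ring,
    fun x => by
      simp only [pcIz10, Piece.A, Piece.S, ev_add, ev_sub, ev_mul, Ex.eval]; push_cast; ring,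
    rfl, rfl⟩

/-- The piece 10 with its lines. -/
theorem izLeaf10 : Leaf izL10 (6, 7, 80) (0, 1, 50) (3, 10, 20) (93, 50) (118, 50) pcIz10 bxIz10 :=
  ⟨by norm_num, izL10_up, izL10_down, Or.inr certIz10, pcIz10_over, ⟨rfl, rfl, rfl, rfl⟩, rfl, rfl⟩

/-- The piece 11 over its chart. -/
theorem pcIz11_over : pcIz11.Over (wideChart (lineChart izL11 (4, 5, 40) (0, 1, 50) (6, 13, 40) (91, 50) (118, 50))) :=
  ⟨fun _ => rfl, fun _ => rfl, fun _ => rfl,
    fun x => by simp only [pcIz11, wideChart, lineChart, izL11, ev_add, ev_mul, Ex.eval] <;> push_cast <;> ring,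
    fun x => by
      simp only [pcIz11, wideChart, lineChart, afEx, izL11, ev_add, ev_mul, Ex.eval] <;> push_cast <;> ring,
    fun x => by
      simp only [pcIz11, Piece.A, Piece.S, ev_add, ev_sub, ev_mul, Ex.eval]; push_cast; ring,
    rfl, rfl⟩

/-- The piece 11 with its lines. -/
theorem izLeaf11 : Leaf izL11 (4, 5, 40) (0, 1, 50) (6, 13, 40) (91, 50) (118, 50) pcIz11 bxIz11 :=
  ⟨by norm_num, izL11_up, izL11_down, Or.inr certIz11, pcIz11_over, ⟨rfl, rfl, rfl, rfl⟩, rfl, rfl⟩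

/-- The piece 12 over its chart. -/
theorem pcIz12_over : pcIz12.Over (wideChart (lineChart izL12 (4, 5, 40) (0, 1, 50) (26, 33, 80) (96, 50) (124, 50))) :=
  ⟨fun _ => rfl, fun _ => rfl, fun _ => rfl,
    fun x => by simp only [pcIz12, wideChart, lineChart, izL12, ev_add, ev_mul, Ex.eval] <;> push_cast <;> ring,
    fun x => by
      simp only [pcIz12, wideChart, lineChart, afEx, izL12, ev_add, ev_mul, Ex.eval] <;> push_cast <;> ring,
    fun x => by
      simp only [pcIz12, Piece.A, Piece.S, ev_add, ev_sub, ev_mul, Ex.eval]; push_cast; ring,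
    rfl, rfl⟩

/-- The piece 12 with its lines. -/
theorem izLeaf12 : Leaf izL12 (4, 5, 40) (0, 1, 50) (26, 33, 80) (96, 50) (124, 50) pcIz12 bxIz12 :=
  ⟨by norm_num, izL12_up, izL12_down, Or.inr certIz12, pcIz12_over, ⟨rfl, rfl, rfl, rfl⟩, rfl, rfl⟩

/-- The piece 13 over its chart. -/
theorem pcIz13_over : pcIz13.Over (wideChart (lineChart izL13 (10, 11, 80) (0, 1, 50) (12, 19, 80) (89, 50) (117, 50))) :=
  ⟨fun _ => rfl, fun _ => rfl, fun _ => rfl,
    fun x => by simp only [pcIz13, wideChart, lineChart, izL13, ev_add, ev_mul, Ex.eval] <;> push_cast <;> ring,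
    fun x => by
      simp only [pcIz13, wideChart, lineChart, afEx, izL13, ev_add, ev_mul, Ex.eval] <;> push_cast <;> ring,
    fun x => by
      simp only [pcIz13, Piece.A, Piece.S, ev_add, ev_sub, ev_mul, Ex.eval]; push_cast; ring,
    rfl, rfl⟩

/-- The piece 13 with its lines. -/
theorem izLeaf13 : Leaf izL13 (10, 11, 80) (0, 1, 50) (12, 19, 80) (89, 50) (117, 50) pcIz13 bxIz13 :=
  ⟨by norm_num, izL13_up, izL13_down, Or.inr certIz13, pcIz13_over, ⟨rfl, rfl, rfl, rfl⟩, rfl, rfl⟩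

/-- The piece 14 over its chart. -/
theorem pcIz14_over : pcIz14.Over (wideChart (lineChart izL14 (10, 11, 80) (0, 1, 50) (26, 33, 80) (96, 50) (127, 50))) :=
  ⟨fun _ => rfl, fun _ => rfl, fun _ => rfl,
    fun x => by simp only [pcIz14, wideChart, lineChart, izL14, ev_add, ev_mul, Ex.eval] <;> push_cast <;> ring,
    fun x => by
      simp only [pcIz14, wideChart, lineChart, afEx, izL14, ev_add, ev_mul, Ex.eval] <;> push_cast <;> ring,
    fun x => by
      simp only [pcIz14, Piece.A, Piece.S, ev_add, ev_sub, ev_mul, Ex.eval]; push_cast; ring,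
    rfl, rfl⟩

/-- The piece 14 with its lines. -/
theorem izLeaf14 : Leaf izL14 (10, 11, 80) (0, 1, 50) (26, 33, 80) (96, 50) (127, 50) pcIz14 bxIz14 :=
  ⟨by norm_num, izL14_up, izL14_down, Or.inr certIz14, pcIz14_over, ⟨rfl, rfl, rfl, rfl⟩, rfl, rfl⟩

/-- The piece 15 over its chart. -/
theorem pcIz15_over : pcIz15.Over (wideChart (lineChart izL15 (22, 23, 160) (0, 1, 50) (12, 19, 80) (91, 50) (118, 50))) :=
  ⟨fun _ => rfl, fun _ => rfl, fun _ => rfl,
    fun x => by simp only [pcIz15, wideChart, lineChart, izL15, ev_add, ev_mul, Ex.eval] <;> push_cast <;> ring,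
    fun x => by
      simp only [pcIz15, wideChart, lineChart, afEx, izL15, ev_add, ev_mul, Ex.eval] <;> push_cast <;> ring,
    fun x => by
      simp only [pcIz15, Piece.A, Piece.S, ev_add, ev_sub, ev_mul, Ex.eval]; push_cast; ring,
    rfl, rfl⟩

/-- The piece 15 with its lines. -/
theorem izLeaf15 : Leaf izL15 (22, 23, 160) (0, 1, 50) (12, 19, 80) (91, 50) (118, 50) pcIz15 bxIz15 :=
  ⟨by norm_num, izL15_up, izL15_down, Or.inr certIz15, pcIz15_over, ⟨rfl, rfl, rfl, rfl⟩, rfl, rfl⟩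

/-- The piece 16 over its chart. -/
theorem pcIz16_over : pcIz16.Over (wideChart (lineChart izL16 (22, 23, 160) (0, 1, 50) (26, 33, 80) (96, 50) (129, 50))) :=
  ⟨fun _ => rfl, fun _ => rfl, fun _ => rfl,
    fun x => by simp only [pcIz16, wideChart, lineChart, izL16, ev_add, ev_mul, Ex.eval] <;> push_cast <;> ring,
    fun x => by
      simp only [pcIz16, wideChart, lineChart, afEx, izL16, ev_add, ev_mul, Ex.eval] <;> push_cast <;> ring,
    fun x => by
      simp only [pcIz16, Piece.A, Piece.S, ev_add, ev_sub, ev_mul, Ex.eval]; push_cast; ring,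
    rfl, rfl⟩

/-- The piece 16 with its lines. -/
theorem izLeaf16 : Leaf izL16 (22, 23, 160) (0, 1, 50) (26, 33, 80) (96, 50) (129, 50) pcIz16 bxIz16 :=
  ⟨by norm_num, izL16_up, izL16_down, Or.inr certIz16, pcIz16_over, ⟨rfl, rfl, rfl, rfl⟩, rfl, rfl⟩

/-- The piece 17 over its chart. -/
theorem pcIz17_over : pcIz17.Over (wideChart (lineChart izL17 (1, 2, 20) (2, 15, 100) (3, 10, 20) (92, 50) (121, 50))) :=
  ⟨fun _ => rfl, fun _ => rfl, fun _ => rfl,
    fun x => by simp only [pcIz17, wideChart, lineChart, izL17, ev_add, ev_mul, Ex.eval] <;> push_cast <;> ring,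
    fun x => by
      simp only [pcIz17, wideChart, lineChart, afEx, izL17, ev_add, ev_mul, Ex.eval] <;> push_cast <;> ring,
    fun x => by
      simp only [pcIz17, Piece.A, Piece.S, ev_add, ev_sub, ev_mul, Ex.eval]; push_cast; ring,
    rfl, rfl⟩

/-- The piece 17 with its lines. -/
theorem izLeaf17 : Leaf izL17 (1, 2, 20) (2, 15, 100) (3, 10, 20) (92, 50) (121, 50) pcIz17 bxIz17 :=
  ⟨by norm_num, izL17_up, izL17_down, Or.inl certIz17, pcIz17_over, ⟨rfl, rfl, rfl, rfl⟩, rfl, rfl⟩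

/-- The piece 18 over its chart. -/
theorem pcIz18_over : pcIz18.Over (wideChart (lineChart izL18 (16, 23, 160) (2, 5, 100) (12, 19, 80) (90, 50) (118, 50))) :=
  ⟨fun _ => rfl, fun _ => rfl, fun _ => rfl,
    fun x => by simp only [pcIz18, wideChart, lineChart, izL18, ev_add, ev_mul, Ex.eval] <;> push_cast <;> ring,
    fun x => by
      simp only [pcIz18, wideChart, lineChart, afEx, izL18, ev_add, ev_mul, Ex.eval] <;> push_cast <;> ring,
    fun x => by
      simp only [pcIz18, Piece.A, Piece.S, ev_add, ev_sub, ev_mul, Ex.eval]; push_cast; ring,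
    rfl, rfl⟩

/-- The piece 18 with its lines. -/
theorem izLeaf18 : Leaf izL18 (16, 23, 160) (2, 5, 100) (12, 19, 80) (90, 50) (118, 50) pcIz18 bxIz18 :=
  ⟨by norm_num, izL18_up, izL18_down, Or.inl certIz18, pcIz18_over, ⟨rfl, rfl, rfl, rfl⟩, rfl, rfl⟩

/-- The piece 19 over its chart. -/
theorem pcIz19_over : pcIz19.Over (wideChart (lineChart izL19 (16, 23, 160) (2, 5, 100) (19, 26, 80) (93, 50) (122, 50))) :=
  ⟨fun _ => rfl, fun _ => rfl, fun _ => rfl,
    fun x => by simp only [pcIz19, wideChart, lineChart, izL19, ev_add, ev_mul, Ex.eval] <;> push_cast <;> ring,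
    fun x => by
      simp only [pcIz19, wideChart, lineChart, afEx, izL19, ev_add, ev_mul, Ex.eval] <;> push_cast <;> ring,
    fun x => by
      simp only [pcIz19, Piece.A, Piece.S, ev_add, ev_sub, ev_mul, Ex.eval]; push_cast; ring,
    rfl, rfl⟩

/-- The piece 19 with its lines. -/
theorem izLeaf19 : Leaf izL19 (16, 23, 160) (2, 5, 100) (19, 26, 80) (93, 50) (122, 50) pcIz19 bxIz19 :=
  ⟨by norm_num, izL19_up, izL19_down, Or.inl certIz19, pcIz19_over, ⟨rfl, rfl, rfl, rfl⟩, rfl, rfl⟩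

/-- The piece 20 over its chart. -/
theorem pcIz20_over : pcIz20.Over (wideChart (lineChart izL20 (16, 23, 160) (1, 3, 20) (12, 19, 80) (90, 50) (118, 50))) :=
  ⟨fun _ => rfl, fun _ => rfl, fun _ => rfl,
    fun x => by simp only [pcIz20, wideChart, lineChart, izL20, ev_add, ev_mul, Ex.eval] <;> push_cast <;> ring,
    fun x => by
      simp only [pcIz20, wideChart, lineChart, afEx, izL20, ev_add, ev_mul, Ex.eval] <;> push_cast <;> ring,
    fun x => by
      simp only [pcIz20, Piece.A, Piece.S, ev_add, ev_sub, ev_mul, Ex.eval]; push_cast; ring,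
    rfl, rfl⟩

/-- The piece 20 with its lines. -/
theorem izLeaf20 : Leaf izL20 (16, 23, 160) (1, 3, 20) (12, 19, 80) (90, 50) (118, 50) pcIz20 bxIz20 :=
  ⟨by norm_num, izL20_up, izL20_down, Or.inl certIz20, pcIz20_over, ⟨rfl, rfl, rfl, rfl⟩, rfl, rfl⟩

/-- The piece 21 over its chart. -/
theorem pcIz21_over : pcIz21.Over (wideChart (lineChart izL21 (4, 5, 40) (2, 5, 100) (26, 33, 80) (96, 50) (123, 50))) :=
  ⟨fun _ => rfl, fun _ => rfl, fun _ => rfl,
    fun x => by simp only [pcIz21, wideChart, lineChart, izL21, ev_add, ev_mul, Ex.eval] <;> push_cast <;> ring,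
    fun x => by
      simp only [pcIz21, wideChart, lineChart, afEx, izL21, ev_add, ev_mul, Ex.eval] <;> push_cast <;> ring,
    fun x => by
      simp only [pcIz21, Piece.A, Piece.S, ev_add, ev_sub, ev_mul, Ex.eval]; push_cast; ring,
    rfl, rfl⟩

/-- The piece 21 with its lines. -/
theorem izLeaf21 : Leaf izL21 (4, 5, 40) (2, 5, 100) (26, 33, 80) (96, 50) (123, 50) pcIz21 bxIz21 :=
  ⟨by norm_num, izL21_up, izL21_down, Or.inl certIz21, pcIz21_over, ⟨rfl, rfl, rfl, rfl⟩, rfl, rfl⟩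

/-- The piece 22 over its chart. -/
theorem pcIz22_over : pcIz22.Over (wideChart (lineChart izL22 (16, 23, 160) (1, 3, 20) (26, 33, 80) (93, 50) (128, 50))) :=
  ⟨fun _ => rfl, fun _ => rfl, fun _ => rfl,
    fun x => by simp only [pcIz22, wideChart, lineChart, izL22, ev_add, ev_mul, Ex.eval] <;> push_cast <;> ring,
    fun x => by
      simp only [pcIz22, wideChart, lineChart, afEx, izL22, ev_add, ev_mul, Ex.eval] <;> push_cast <;> ring,
    fun x => by
      simp only [pcIz22, Piece.A, Piece.S, ev_add, ev_sub, ev_mul, Ex.eval]; push_cast; ring,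
    rfl, rfl⟩

/-- The piece 22 with its lines. -/
theorem izLeaf22 : Leaf izL22 (16, 23, 160) (1, 3, 20) (26, 33, 80) (93, 50) (128, 50) pcIz22 bxIz22 :=
  ⟨by norm_num, izL22_up, izL22_down, Or.inl certIz22, pcIz22_over, ⟨rfl, rfl, rfl, rfl⟩, rfl, rfl⟩

/-- The piece 23 over its chart. -/
theorem pcIz23_over : pcIz23.Over (wideChart (lineChart izL23 (4, 5, 40) (2, 15, 100) (33, 40, 80) (96, 50) (129, 50))) :=
  ⟨fun _ => rfl, fun _ => rfl, fun _ => rfl,
    fun x => by simp only [pcIz23, wideChart, lineChart, izL23, ev_add, ev_mul, Ex.eval] <;> push_cast <;> ring,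
    fun x => by
      simp only [pcIz23, wideChart, lineChart, afEx, izL23, ev_add, ev_mul, Ex.eval] <;> push_cast <;> ring,
    fun x => by
      simp only [pcIz23, Piece.A, Piece.S, ev_add, ev_sub, ev_mul, Ex.eval]; push_cast; ring,
    rfl, rfl⟩

/-- The piece 23 with its lines. -/
theorem izLeaf23 : Leaf izL23 (4, 5, 40) (2, 15, 100) (33, 40, 80) (96, 50) (129, 50) pcIz23 bxIz23 :=
  ⟨by norm_num, izL23_up, izL23_down, Or.inl certIz23, pcIz23_over, ⟨rfl, rfl, rfl, rfl⟩, rfl, rfl⟩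

/-- The piece 24 over its chart. -/
theorem pcIz24_over : pcIz24.Over (wideChart (lineChart izL24 (1, 2, 20) (0, 1, 50) (2, 3, 4) (99, 50) (134, 50))) :=
  ⟨fun _ => rfl, fun _ => rfl, fun _ => rfl,
    fun x => by simp only [pcIz24, wideChart, lineChart, izL24, ev_add, ev_mul, Ex.eval] <;> push_cast <;> ring,
    fun x => by
      simp only [pcIz24, wideChart, lineChart, afEx, izL24, ev_add, ev_mul, Ex.eval] <;> push_cast <;> ring,
    fun x => by
      simp only [pcIz24, Piece.A, Piece.S, ev_add, ev_sub, ev_mul, Ex.eval]; push_cast; ring,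
    rfl, rfl⟩

/-- The piece 24 with its lines. -/
theorem izLeaf24 : Leaf izL24 (1, 2, 20) (0, 1, 50) (2, 3, 4) (99, 50) (134, 50) pcIz24 bxIz24 :=
  ⟨by norm_num, izL24_up, izL24_down, Or.inl certIz24, pcIz24_over, ⟨rfl, rfl, rfl, rfl⟩, rfl, rfl⟩

/-- The piece 25 over its chart. -/
theorem pcIz25_over : pcIz25.Over (wideChart (lineChart izL25 (4, 5, 40) (0, 1, 50) (2, 3, 4) (106, 50) (147, 50))) :=
  ⟨fun _ => rfl, fun _ => rfl, fun _ => rfl,
    fun x => by simp only [pcIz25, wideChart, lineChart, izL25, ev_add, ev_mul, Ex.eval] <;> push_cast <;> ring,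
    fun x => by
      simp only [pcIz25, wideChart, lineChart, afEx, izL25, ev_add, ev_mul, Ex.eval] <;> push_cast <;> ring,
    fun x => by
      simp only [pcIz25, Piece.A, Piece.S, ev_add, ev_sub, ev_mul, Ex.eval]; push_cast; ring,
    rfl, rfl⟩

/-- The piece 25 with its lines. -/
theorem izLeaf25 : Leaf izL25 (4, 5, 40) (0, 1, 50) (2, 3, 4) (106, 50) (147, 50) pcIz25 bxIz25 :=
  ⟨by norm_num, izL25_up, izL25_down, Or.inl certIz25, pcIz25_over, ⟨rfl, rfl, rfl, rfl⟩, rfl, rfl⟩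

/-- The piece 26 over its chart. -/
theorem pcIz26_over : pcIz26.Over (wideChart (lineChart izL26 (4, 5, 40) (0, 1, 160) (2, 3, 4) (101, 50) (131, 50))) :=
  ⟨fun _ => rfl, fun _ => rfl, fun _ => rfl,
    fun x => by simp only [pcIz26, wideChart, lineChart, izL26, ev_add, ev_mul, Ex.eval] <;> push_cast <;> ring,
    fun x => by
      simp only [pcIz26, wideChart, lineChart, afEx, izL26, ev_add, ev_mul, Ex.eval] <;> push_cast <;> ring,
    fun x => by
      simp only [pcIz26, Piece.A, Piece.S, ev_add, ev_sub, ev_mul, Ex.eval]; push_cast; ring,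
    rfl, rfl⟩

/-- The piece 26 with its lines. -/
theorem izLeaf26 : Leaf izL26 (4, 5, 40) (0, 1, 160) (2, 3, 4) (101, 50) (131, 50) pcIz26 bxIz26 :=
  ⟨by norm_num, izL26_up, izL26_down, Or.inl certIz26, pcIz26_over, ⟨rfl, rfl, rfl, rfl⟩, rfl, rfl⟩

/-- The piece 27 over its chart. -/
theorem pcIz27_over : pcIz27.Over (wideChart (lineChart izL27 (4, 5, 40) (5, 16, 800) (2, 3, 4) (101, 50) (131, 50))) :=
  ⟨fun _ => rfl, fun _ => rfl, fun _ => rfl,
    fun x => by simp only [pcIz27, wideChart, lineChart, izL27, ev_add, ev_mul, Ex.eval] <;> push_cast <;> ring,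
    fun x => by
      simp only [pcIz27, wideChart, lineChart, afEx, izL27, ev_add, ev_mul, Ex.eval] <;> push_cast <;> ring,
    fun x => by
      simp only [pcIz27, Piece.A, Piece.S, ev_add, ev_sub, ev_mul, Ex.eval]; push_cast; ring,
    rfl, rfl⟩

/-- The piece 27 with its lines. -/
theorem izLeaf27 : Leaf izL27 (4, 5, 40) (5, 16, 800) (2, 3, 4) (101, 50) (131, 50) pcIz27 bxIz27 :=
  ⟨by norm_num, izL27_up, izL27_down, Or.inl certIz27, pcIz27_over, ⟨rfl, rfl, rfl, rfl⟩, rfl, rfl⟩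

/-- The piece 28 over its chart. -/
theorem pcIz28_over : pcIz28.Over (wideChart (lineChart izL28 (10, 11, 80) (0, 1, 50) (2, 3, 4) (125, 50) (156, 50))) :=
  ⟨fun _ => rfl, fun _ => rfl, fun _ => rfl,
    fun x => by simp only [pcIz28, wideChart, lineChart, izL28, ev_add, ev_mul, Ex.eval] <;> push_cast <;> ring,
    fun x => by
      simp only [pcIz28, wideChart, lineChart, afEx, izL28, ev_add, ev_mul, Ex.eval] <;> push_cast <;> ring,
    fun x => by
      simp only [pcIz28, Piece.A, Piece.S, ev_add, ev_sub, ev_mul, Ex.eval]; push_cast; ring,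
    rfl, rfl⟩

/-- The piece 28 with its lines. -/
theorem izLeaf28 : Leaf izL28 (10, 11, 80) (0, 1, 50) (2, 3, 4) (125, 50) (156, 50) pcIz28 bxIz28 :=
  ⟨by norm_num, izL28_up, izL28_down, Or.inl certIz28, pcIz28_over, ⟨rfl, rfl, rfl, rfl⟩, rfl, rfl⟩

/-- The piece 29 over its chart. -/
theorem pcIz29_over : pcIz29.Over (wideChart (lineChart izL29 (20, 23, 160) (0, 1, 50) (2, 3, 4) (110, 50) (155, 50))) :=
  ⟨fun _ => rfl, fun _ => rfl, fun _ => rfl,
    fun x => by simp only [pcIz29, wideChart, lineChart, izL29, ev_add, ev_mul, Ex.eval] <;> push_cast <;> ring,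
    fun x => by
      simp only [pcIz29, wideChart, lineChart, afEx, izL29, ev_add, ev_mul, Ex.eval] <;> push_cast <;> ring,
    fun x => by
      simp only [pcIz29, Piece.A, Piece.S, ev_add, ev_sub, ev_mul, Ex.eval]; push_cast; ring,
    rfl, rfl⟩

/-- The piece 29 with its lines. -/
theorem izLeaf29 : Leaf izL29 (20, 23, 160) (0, 1, 50) (2, 3, 4) (110, 50) (155, 50) pcIz29 bxIz29 :=
  ⟨by norm_num, izL29_up, izL29_down, Or.inl certIz29, pcIz29_over, ⟨rfl, rfl, rfl, rfl⟩, rfl, rfl⟩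

/-- The piece 30 over its chart. -/
theorem pcIz30_over : pcIz30.Over (wideChart (lineChart izL30 (10, 11, 80) (0, 1, 50) (2, 3, 4) (103, 50) (137, 50))) :=
  ⟨fun _ => rfl, fun _ => rfl, fun _ => rfl,
    fun x => by simp only [pcIz30, wideChart, lineChart, izL30, ev_add, ev_mul, Ex.eval] <;> push_cast <;> ring,
    fun x => by
      simp only [pcIz30, wideChart, lineChart, afEx, izL30, ev_add, ev_mul, Ex.eval] <;> push_cast <;> ring,
    fun x => by
      simp only [pcIz30, Piece.A, Piece.S, ev_add, ev_sub, ev_mul, Ex.eval]; push_cast; ring,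
    rfl, rfl⟩

/-- The piece 30 with its lines. -/
theorem izLeaf30 : Leaf izL30 (10, 11, 80) (0, 1, 50) (2, 3, 4) (103, 50) (137, 50) pcIz30 bxIz30 :=
  ⟨by norm_num, izL30_up, izL30_down, Or.inl certIz30, pcIz30_over, ⟨rfl, rfl, rfl, rfl⟩, rfl, rfl⟩

/-- The piece 31 over its chart. -/
theorem pcIz31_over : pcIz31.Over (wideChart (lineChart izL31 (22, 23, 160) (0, 1, 50) (2, 3, 4) (104, 50) (140, 50))) :=
  ⟨fun _ => rfl, fun _ => rfl, fun _ => rfl,
    fun x => by simp only [pcIz31, wideChart, lineChart, izL31, ev_add, ev_mul, Ex.eval] <;> push_cast <;> ring,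
    fun x => by
      simp only [pcIz31, wideChart, lineChart, afEx, izL31, ev_add, ev_mul, Ex.eval] <;> push_cast <;> ring,
    fun x => by
      simp only [pcIz31, Piece.A, Piece.S, ev_add, ev_sub, ev_mul, Ex.eval]; push_cast; ring,
    rfl, rfl⟩

/-- The piece 31 with its lines. -/
theorem izLeaf31 : Leaf izL31 (22, 23, 160) (0, 1, 50) (2, 3, 4) (104, 50) (140, 50) pcIz31 bxIz31 :=
  ⟨by norm_num, izL31_up, izL31_down, Or.inl certIz31, pcIz31_over, ⟨rfl, rfl, rfl, rfl⟩, rfl, rfl⟩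

end Vale.Agent.P100.Calib.StripEndD
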