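import Vale.Agent.P100.Calib.SlabStripEndIZ7LineFacts
import Vale.Agent.P100.Calib.SlabStripEndIZ7Leaves0

/-!
# The signs in the pieces of the `I` and `Z` charts (At0)
-/

set_option linter.unusedVariables false
set_option linter.unusedTactic false
set_option linter.unreachableTactic false
set_option linter.unusedSimpArgs false
set_option linter.unnecessarySeqFocus false

namespace Vale.Agent.P100.Calib.StripEndD

open Pack hiding ev_add ev_mul
open Pack.Ex Band StripMid StripEnd

local instance endIZ7At0Add : Add Ex := ⟨Ex.add⟩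
local instance endIZ7At0Sub : Sub Ex := ⟨Ex.sub⟩
local instance endIZ7At0Mul : Mul Ex := ⟨Ex.mul⟩

/-- The signs in the piece 0. -/
theorem izAt0 {n : ℕ} {a b u v t H I r s : ℝ} (hb : Closed.All.ChartBox n (b - a) (a + b))
    (hF : Closed.All.ChartFacts (b - a) (a + b) u v t)
    (hH : Closed.chH (b - a) (a + b) u v t = H) (hB : EndBands7 a b u v H)
    (hside : DLow a b) (hE : ExitLine a b u v) (hI : IPt a b u I r s) (hI0 : 0 < I)
    (q0l : (1 / 20 : ℝ) < I) (q0u : I ≤ (3 / 40 : ℝ)) (q1l : (0 : ℝ) < r) (q1u : r ≤ (1 / 160 : ℝ)) (q2l : (0 : ℝ) < s) (q2u : s ≤ (3 / 20 : ℝ)) :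
    Closed.Strip.ChartSigns (b - a) (a + b) u v t := by
  obtain ⟨hl, hr⟩ := izLine0 hB hE hI0 (⟨hI, (inU_of (by norm_num) (by norm_num; linarith) (by norm_num; linarith)), (inU_of (by norm_num) (by norm_num; linarith) (by norm_num; linarith)), (inU_of (by norm_num) (by norm_num; linarith) (by norm_num; linarith)), by norm_num [Lines.denV, izM0] <;> linarith⟩ : InLines izM0 (2, 3, 40) (0, 1, 160) (0, 3, 20) a b u I r s)
  norm_num [afVal, Lines.denV, izM0] at hl hr
  refine izLeaf0.low rfl rfl hb hF hH hB hside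
    (⟨hI, (inU_of (by norm_num) (by norm_num; linarith) (by norm_num; linarith)), (inU_of (by norm_num) (by norm_num; linarith) (by norm_num; linarith)), (inU_of (by norm_num) (by norm_num; linarith) (by norm_num; linarith)), by norm_num [Lines.denV, izL0] <;> linarith⟩ : InLines izL0 (2, 3, 40) (0, 1, 160) (0, 3, 20) a b u I r s) ?_ ?_
  all_goals norm_num [afVal, Lines.denV, izL0] <;> linarith

/-- The signs in the piece 1. -/
theorem izAt1 {n : ℕ} {a b u v t H I r s : ℝ} (hb : Closed.All.ChartBox n (b - a) (a + b))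
    (hF : Closed.All.ChartFacts (b - a) (a + b) u v t)
    (hH : Closed.chH (b - a) (a + b) u v t = H) (hB : EndBands7 a b u v H)
    (hside : DLow a b) (hE : ExitLine a b u v) (hI : IPt a b u I r s) (hI0 : 0 < I)
    (q0l : (1 / 20 : ℝ) < I) (q0u : I ≤ (3 / 40 : ℝ)) (q1l : (1 / 160 : ℝ) < r) (q1u : r ≤ (1 / 50 : ℝ)) (q2l : (0 : ℝ) < s) (q2u : s ≤ (3 / 20 : ℝ)) :
    Closed.Strip.ChartSigns (b - a) (a + b) u v t := by
  obtain ⟨hl, hr⟩ := izLine1 hB hE hI0 (⟨hI, (inU_of (by norm_num) (by norm_num; linarith) (by norm_num; linarith)), (inU_of (by norm_num) (by norm_num; linarith) (by norm_num; linarith)), (inU_of (by norm_num) (by norm_num; linarith) (by norm_num; linarith)), by norm_num [Lines.denV, izM1] <;> linarith⟩ : InLines izM1 (2, 3, 40) (5, 16, 800) (0, 3, 20) a b u I r s)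
  norm_num [afVal, Lines.denV, izM1] at hl hr
  refine izLeaf1.low rfl rfl hb hF hH hB hside
    (⟨hI, (inU_of (by norm_num) (by norm_num; linarith) (by norm_num; linarith)), (inU_of (by norm_num) (by norm_num; linarith) (by norm_num; linarith)), (inU_of (by norm_num) (by norm_num; linarith) (by norm_num; linarith)), by norm_num [Lines.denV, izL1] <;> linarith⟩ : InLines izL1 (2, 3, 40) (5, 16, 800) (0, 3, 20) a b u I r s) ?_ ?_
  all_goals norm_num [afVal, Lines.denV, izL1] <;> linarith

/-- The signs in the piece 2. -/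
theorem izAt2 {n : ℕ} {a b u v t H I r s : ℝ} (hb : Closed.All.ChartBox n (b - a) (a + b))
    (hF : Closed.All.ChartFacts (b - a) (a + b) u v t)
    (hH : Closed.chH (b - a) (a + b) u v t = H) (hB : EndBands7 a b u v H)
    (hside : DLow a b) (hE : ExitLine a b u v) (hI : IPt a b u I r s) (hI0 : 0 < I)
    (q0l : (3 / 40 : ℝ) < I) (q0u : I ≤ (1 / 10 : ℝ)) (q1l : (0 : ℝ) < r) (q1u : r ≤ (1 / 50 : ℝ)) (q2l : (0 : ℝ) < s) (q2u : s ≤ (3 / 40 : ℝ)) :
    Closed.Strip.ChartSigns (b - a) (a + b) u v t := by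
  obtain ⟨hl, hr⟩ := izLine2 hB hE hI0 (⟨hI, (inU_of (by norm_num) (by norm_num; linarith) (by norm_num; linarith)), (inU_of (by norm_num) (by norm_num; linarith) (by norm_num; linarith)), (inU_of (by norm_num) (by norm_num; linarith) (by norm_num; linarith)), by norm_num [Lines.denV, izM2] <;> linarith⟩ : InLines izM2 (3, 4, 40) (0, 1, 50) (0, 3, 40) a b u I r s)
  norm_num [afVal, Lines.denV, izM2] at hl hr
  refine izLeaf2.low rfl rfl hb hF hH hB hside
    (⟨hI, (inU_of (by norm_num) (by norm_num; linarith) (by norm_num; linarith)), (inU_of (by norm_num) (by norm_num; linarith) (by norm_num; linarith)), (inU_of (by norm_num) (by norm_num; linarith) (by norm_num; linarith)), by norm_num [Lines.denV, izL2] <;> linarith⟩ : InLines izL2 (3, 4, 40) (0, 1, 50) (0, 3, 40) a b u I r s) ?_ ?_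
  all_goals norm_num [afVal, Lines.denV, izL2] <;> linarith

/-- The signs in the piece 3. -/
theorem izAt3 {n : ℕ} {a b u v t H I r s : ℝ} (hb : Closed.All.ChartBox n (b - a) (a + b))
    (hF : Closed.All.ChartFacts (b - a) (a + b) u v t)
    (hH : Closed.chH (b - a) (a + b) u v t = H) (hB : EndBands7 a b u v H)
    (hside : DLow a b) (hE : ExitLine a b u v) (hI : IPt a b u I r s) (hI0 : 0 < I)
    (q0l : (1 / 10 : ℝ) < I) (q0u : I ≤ (1 / 8 : ℝ)) (q1l : (0 : ℝ) < r) (q1u : r ≤ (1 / 50 : ℝ)) (q2l : (0 : ℝ) < s) (q2u : s ≤ (3 / 20 : ℝ)) (ku : (500 : ℝ) * (1 - a * v) ≤ ((8000 : ℝ) * r)) :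
    Closed.Strip.ChartSigns (b - a) (a + b) u v t := by
  obtain ⟨hl, hr⟩ := izLine3 hB hE hI0 (⟨hI, (inU_of (by norm_num) (by norm_num; linarith) (by norm_num; linarith)), (inU_of (by norm_num) (by norm_num; linarith) (by norm_num; linarith)), (inU_of (by norm_num) (by norm_num; linarith) (by norm_num; linarith)), by norm_num [Lines.denV, izM3] <;> linarith⟩ : InLines izM3 (4, 5, 40) (0, 1, 50) (0, 3, 20) a b u I r s)
  norm_num [afVal, Lines.denV, izM3] at hl hr
  refine izLeaf3.low rfl rfl hb hF hH hB hside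
    (⟨hI, (inU_of (by norm_num) (by norm_num; linarith) (by norm_num; linarith)), (inU_of (by norm_num) (by norm_num; linarith) (by norm_num; linarith)), (inU_of (by norm_num) (by norm_num; linarith) (by norm_num; linarith)), by norm_num [Lines.denV, izL3] <;> linarith⟩ : InLines izL3 (4, 5, 40) (0, 1, 50) (0, 3, 20) a b u I r s) ?_ ?_
  all_goals norm_num [afVal, Lines.denV, izL3] <;> linarith

/-- The signs in the piece 4. -/
theorem izAt4 {n : ℕ} {a b u v t H I r s : ℝ} (hb : Closed.All.ChartBox n (b - a) (a + b))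
    (hF : Closed.All.ChartFacts (b - a) (a + b) u v t)
    (hH : Closed.chH (b - a) (a + b) u v t = H) (hB : EndBands7 a b u v H)
    (hside : DLow a b) (hE : ExitLine a b u v) (hI : IPt a b u I r s) (hI0 : 0 < I)
    (q0l : (1 / 8 : ℝ) < I) (q0u : I ≤ (11 / 80 : ℝ)) (q1l : (0 : ℝ) < r) (q1u : r ≤ (1 / 50 : ℝ)) (q2l : (0 : ℝ) < s) (q2u : s ≤ (3 / 40 : ℝ)) (ku : (500 : ℝ) * (1 - a * v) ≤ ((8000 : ℝ) * r)) :
    Closed.Strip.ChartSigns (b - a) (a + b) u v t := by
  obtain ⟨hl, hr⟩ := izLine4 hB hE hI0 (⟨hI, (inU_of (by norm_num) (by norm_num; linarith) (by norm_num; linarith)), (inU_of (by norm_num) (by norm_num; linarith) (by norm_num; linarith)), (inU_of (by norm_num) (by norm_num; linarith) (by norm_num; linarith)), by norm_num [Lines.denV, izM4] <;> linarith⟩ : InLines izM4 (10, 11, 80) (0, 1, 50) (0, 3, 40) a b u I r s)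
  norm_num [afVal, Lines.denV, izM4] at hl hr
  refine izLeaf4.low rfl rfl hb hF hH hB hside
    (⟨hI, (inU_of (by norm_num) (by norm_num; linarith) (by norm_num; linarith)), (inU_of (by norm_num) (by norm_num; linarith) (by norm_num; linarith)), (inU_of (by norm_num) (by norm_num; linarith) (by norm_num; linarith)), by norm_num [Lines.denV, izL4] <;> linarith⟩ : InLines izL4 (10, 11, 80) (0, 1, 50) (0, 3, 40) a b u I r s) ?_ ?_
  all_goals norm_num [afVal, Lines.denV, izL4] <;> linarith

/-- The signs in the piece 5. -/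
theorem izAt5 {n : ℕ} {a b u v t H I r s : ℝ} (hb : Closed.All.ChartBox n (b - a) (a + b))
    (hF : Closed.All.ChartFacts (b - a) (a + b) u v t)
    (hH : Closed.chH (b - a) (a + b) u v t = H) (hB : EndBands7 a b u v H)
    (hside : DLow a b) (hE : ExitLine a b u v) (hI : IPt a b u I r s) (hI0 : 0 < I)
    (q0l : (11 / 80 : ℝ) < I) (q0u : I ≤ (23 / 160 : ℝ)) (q1l : (0 : ℝ) < r) (q1u : r ≤ (1 / 50 : ℝ)) (q2l : (0 : ℝ) < s) (q2u : s ≤ (3 / 40 : ℝ)) (ku : (500 : ℝ) * (1 - a * v) ≤ ((8000 : ℝ) * r)) :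
    Closed.Strip.ChartSigns (b - a) (a + b) u v t := by
  obtain ⟨hl, hr⟩ := izLine5 hB hE hI0 (⟨hI, (inU_of (by norm_num) (by norm_num; linarith) (by norm_num; linarith)), (inU_of (by norm_num) (by norm_num; linarith) (by norm_num; linarith)), (inU_of (by norm_num) (by norm_num; linarith) (by norm_num; linarith)), by norm_num [Lines.denV, izM5] <;> linarith⟩ : InLines izM5 (22, 23, 160) (0, 1, 50) (0, 3, 40) a b u I r s)
  norm_num [afVal, Lines.denV, izM5] at hl hr
  refine izLeaf5.low rfl rfl hb hF hH hB hside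
    (⟨hI, (inU_of (by norm_num) (by norm_num; linarith) (by norm_num; linarith)), (inU_of (by norm_num) (by norm_num; linarith) (by norm_num; linarith)), (inU_of (by norm_num) (by norm_num; linarith) (by norm_num; linarith)), by norm_num [Lines.denV, izL5] <;> linarith⟩ : InLines izL5 (22, 23, 160) (0, 1, 50) (0, 3, 40) a b u I r s) ?_ ?_
  all_goals norm_num [afVal, Lines.denV, izL5] <;> linarith

/-- The signs in the piece 6. -/
theorem izAt6 {n : ℕ} {a b u v t H I r s : ℝ} (hb : Closed.All.ChartBox n (b - a) (a + b))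
    (hF : Closed.All.ChartFacts (b - a) (a + b) u v t)
    (hH : Closed.chH (b - a) (a + b) u v t = H) (hB : EndBands7 a b u v H)
    (hside : DLow a b) (hE : ExitLine a b u v) (hI : IPt a b u I r s) (hI0 : 0 < I)
    (q0l : (1 / 20 : ℝ) < I) (q0u : I ≤ (1 / 10 : ℝ)) (q1l : (1 / 50 : ℝ) < r) (q1u : r ≤ (3 / 20 : ℝ)) (q2l : (0 : ℝ) < s) (q2u : s ≤ (3 / 20 : ℝ)) :
    Closed.Strip.ChartSigns (b - a) (a + b) u v t := by
  obtain ⟨hl, hr⟩ := izLine6 hB hE hI0 (⟨hI, (inU_of (by norm_num) (by norm_num; linarith) (by norm_num; linarith)), (inU_of (by norm_num) (by norm_num; linarith) (by norm_num; linarith)), (inU_of (by norm_num) (by norm_num; linarith) (by norm_num; linarith)), by norm_num [Lines.denV, izM6] <;> linarith⟩ : InLines izM6 (1, 2, 20) (2, 15, 100) (0, 3, 20) a b u I r s)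
  norm_num [afVal, Lines.denV, izM6] at hl hr
  refine izLeaf6.low rfl rfl hb hF hH hB hside
    (⟨hI, (inU_of (by norm_num) (by norm_num; linarith) (by norm_num; linarith)), (inU_of (by norm_num) (by norm_num; linarith) (by norm_num; linarith)), (inU_of (by norm_num) (by norm_num; linarith) (by norm_num; linarith)), by norm_num [Lines.denV, izL6] <;> linarith⟩ : InLines izL6 (1, 2, 20) (2, 15, 100) (0, 3, 20) a b u I r s) ?_ ?_
  all_goals norm_num [afVal, Lines.denV, izL6] <;> linarith

/-- The signs in the piece 7. -/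
theorem izAt7 {n : ℕ} {a b u v t H I r s : ℝ} (hb : Closed.All.ChartBox n (b - a) (a + b))
    (hF : Closed.All.ChartFacts (b - a) (a + b) u v t)
    (hH : Closed.chH (b - a) (a + b) u v t = H) (hB : EndBands7 a b u v H)
    (hside : DLow a b) (hE : ExitLine a b u v) (hI : IPt a b u I r s) (hI0 : 0 < I)
    (q0l : (1 / 10 : ℝ) < I) (q0u : I ≤ (1 / 8 : ℝ)) (q1l : (1 / 50 : ℝ) < r) (q1u : r ≤ (3 / 20 : ℝ)) (q2l : (0 : ℝ) < s) (q2u : s ≤ (3 / 20 : ℝ)) :
    Closed.Strip.ChartSigns (b - a) (a + b) u v t := by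
  obtain ⟨hl, hr⟩ := izLine7 hB hE hI0 (⟨hI, (inU_of (by norm_num) (by norm_num; linarith) (by norm_num; linarith)), (inU_of (by norm_num) (by norm_num; linarith) (by norm_num; linarith)), (inU_of (by norm_num) (by norm_num; linarith) (by norm_num; linarith)), by norm_num [Lines.denV, izM7] <;> linarith⟩ : InLines izM7 (4, 5, 40) (2, 15, 100) (0, 3, 20) a b u I r s)
  norm_num [afVal, Lines.denV, izM7] at hl hr
  refine izLeaf7.low rfl rfl hb hF hH hB hside
    (⟨hI, (inU_of (by norm_num) (by norm_num; linarith) (by norm_num; linarith)), (inU_of (by norm_num) (by norm_num; linarith) (by norm_num; linarith)), (inU_of (by norm_num) (by norm_num; linarith) (by norm_num; linarith)), by norm_num [Lines.denV, izL7] <;> linarith⟩ : InLines izL7 (4, 5, 40) (2, 15, 100) (0, 3, 20) a b u I r s) ?_ ?_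
  all_goals norm_num [afVal, Lines.denV, izL7] <;> linarith

/-- The signs in the piece 8. -/
theorem izAt8 {n : ℕ} {a b u v t H I r s : ℝ} (hb : Closed.All.ChartBox n (b - a) (a + b))
    (hF : Closed.All.ChartFacts (b - a) (a + b) u v t)
    (hH : Closed.chH (b - a) (a + b) u v t = H) (hB : EndBands7 a b u v H)
    (hside : DLow a b) (hE : ExitLine a b u v) (hI : IPt a b u I r s) (hI0 : 0 < I)
    (q0l : (1 / 8 : ℝ) < I) (q0u : I ≤ (23 / 160 : ℝ)) (q1l : (1 / 50 : ℝ) < r) (q1u : r ≤ (3 / 20 : ℝ)) (q2l : (0 : ℝ) < s) (q2u : s ≤ (3 / 40 : ℝ)) :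
    Closed.Strip.ChartSigns (b - a) (a + b) u v t := by
  obtain ⟨hl, hr⟩ := izLine8 hB hE hI0 (⟨hI, (inU_of (by norm_num) (by norm_num; linarith) (by norm_num; linarith)), (inU_of (by norm_num) (by norm_num; linarith) (by norm_num; linarith)), (inU_of (by norm_num) (by norm_num; linarith) (by norm_num; linarith)), by norm_num [Lines.denV, izM8] <;> linarith⟩ : InLines izM8 (20, 23, 160) (2, 15, 100) (0, 3, 20) a b u I r s)
  norm_num [afVal, Lines.denV, izM8] at hl hr
  refine izLeaf8.low rfl rfl hb hF hH hB hside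
    (⟨hI, (inU_of (by norm_num) (by norm_num; linarith) (by norm_num; linarith)), (inU_of (by norm_num) (by norm_num; linarith) (by norm_num; linarith)), (inU_of (by norm_num) (by norm_num; linarith) (by norm_num; linarith)), by norm_num [Lines.denV, izL8] <;> linarith⟩ : InLines izL8 (20, 23, 160) (2, 15, 100) (0, 3, 40) a b u I r s) ?_ ?_
  all_goals norm_num [afVal, Lines.denV, izL8] <;> linarith

/-- The signs in the piece 9. -/
theorem izAt9 {n : ℕ} {a b u v t H I r s : ℝ} (hb : Closed.All.ChartBox n (b - a) (a + b))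
    (hF : Closed.All.ChartFacts (b - a) (a + b) u v t)
    (hH : Closed.chH (b - a) (a + b) u v t = H) (hB : EndBands7 a b u v H)
    (hside : DLow a b) (hE : ExitLine a b u v) (hI : IPt a b u I r s) (hI0 : 0 < I)
    (q0l : (1 / 20 : ℝ) < I) (q0u : I ≤ (3 / 40 : ℝ)) (q1l : (0 : ℝ) < r) (q1u : r ≤ (1 / 50 : ℝ)) (q2l : (3 / 20 : ℝ) < s) (q2u : s ≤ (1 / 2 : ℝ)) :
    Closed.Strip.ChartSigns (b - a) (a + b) u v t := by
  obtain ⟨hl, hr⟩ := izLine9 hB hE hI0 (⟨hI, (inU_of (by norm_num) (by norm_num; linarith) (by norm_num; linarith)), (inU_of (by norm_num) (by norm_num; linarith) (by norm_num; linarith)), (inU_of (by norm_num) (by norm_num; linarith) (by norm_num; linarith)), by norm_num [Lines.denV, izM9] <;> linarith⟩ : InLines izM9 (2, 3, 40) (0, 1, 50) (3, 10, 20) a b u I r s)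
  norm_num [afVal, Lines.denV, izM9] at hl hr
  refine izLeaf9.low rfl rfl hb hF hH hB hside
    (⟨hI, (inU_of (by norm_num) (by norm_num; linarith) (by norm_num; linarith)), (inU_of (by norm_num) (by norm_num; linarith) (by norm_num; linarith)), (inU_of (by norm_num) (by norm_num; linarith) (by norm_num; linarith)), by norm_num [Lines.denV, izL9] <;> linarith⟩ : InLines izL9 (2, 3, 40) (0, 1, 50) (3, 10, 20) a b u I r s) ?_ ?_
  all_goals norm_num [afVal, Lines.denV, izL9] <;> linarith

/-- The signs in the piece 10. -/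
theorem izAt10 {n : ℕ} {a b u v t H I r s : ℝ} (hb : Closed.All.ChartBox n (b - a) (a + b))
    (hF : Closed.All.ChartFacts (b - a) (a + b) u v t)
    (hH : Closed.chH (b - a) (a + b) u v t = H) (hB : EndBands7 a b u v H)
    (hside : DLow a b) (hE : ExitLine a b u v) (hI : IPt a b u I r s) (hI0 : 0 < I)
    (q0l : (3 / 40 : ℝ) < I) (q0u : I ≤ (7 / 80 : ℝ)) (q1l : (0 : ℝ) < r) (q1u : r ≤ (1 / 50 : ℝ)) (q2l : (3 / 20 : ℝ) < s) (q2u : s ≤ (1 / 2 : ℝ)) :
    Closed.Strip.ChartSigns (b - a) (a + b) u v t := by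
  obtain ⟨hl, hr⟩ := izLine10 hB hE hI0 (⟨hI, (inU_of (by norm_num) (by norm_num; linarith) (by norm_num; linarith)), (inU_of (by norm_num) (by norm_num; linarith) (by norm_num; linarith)), (inU_of (by norm_num) (by norm_num; linarith) (by norm_num; linarith)), by norm_num [Lines.denV, izM10] <;> linarith⟩ : InLines izM10 (3, 4, 40) (0, 1, 50) (3, 10, 20) a b u I r s)
  norm_num [afVal, Lines.denV, izM10] at hl hr
  refine izLeaf10.low rfl rfl hb hF hH hB hside
    (⟨hI, (inU_of (by norm_num) (by norm_num; linarith) (by norm_num; linarith)), (inU_of (by norm_num) (by norm_num; linarith) (by norm_num; linarith)), (inU_of (by norm_num) (by norm_num; linarith) (by norm_num; linarith)), by norm_num [Lines.denV, izL10] <;> linarith⟩ : InLines izL10 (6, 7, 80) (0, 1, 50) (3, 10, 20) a b u I r s) ?_ ?_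
  all_goals norm_num [afVal, Lines.denV, izL10] <;> linarith

/-- The signs in the piece 11. -/
theorem izAt11 {n : ℕ} {a b u v t H I r s : ℝ} (hb : Closed.All.ChartBox n (b - a) (a + b))
    (hF : Closed.All.ChartFacts (b - a) (a + b) u v t)
    (hH : Closed.chH (b - a) (a + b) u v t = H) (hB : EndBands7 a b u v H)
    (hside : DLow a b) (hE : ExitLine a b u v) (hI : IPt a b u I r s) (hI0 : 0 < I)
    (q0l : (1 / 10 : ℝ) < I) (q0u : I ≤ (1 / 8 : ℝ)) (q1l : (0 : ℝ) < r) (q1u : r ≤ (1 / 50 : ℝ)) (q2l : (3 / 20 : ℝ) < s) (q2u : s ≤ (13 / 40 : ℝ)) :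
    Closed.Strip.ChartSigns (b - a) (a + b) u v t := by
  obtain ⟨hl, hr⟩ := izLine11 hB hE hI0 (⟨hI, (inU_of (by norm_num) (by norm_num; linarith) (by norm_num; linarith)), (inU_of (by norm_num) (by norm_num; linarith) (by norm_num; linarith)), (inU_of (by norm_num) (by norm_num; linarith) (by norm_num; linarith)), by norm_num [Lines.denV, izM11] <;> linarith⟩ : InLines izM11 (4, 5, 40) (0, 1, 50) (6, 13, 40) a b u I r s)
  norm_num [afVal, Lines.denV, izM11] at hl hr
  refine izLeaf11.low rfl rfl hb hF hH hB hside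
    (⟨hI, (inU_of (by norm_num) (by norm_num; linarith) (by norm_num; linarith)), (inU_of (by norm_num) (by norm_num; linarith) (by norm_num; linarith)), (inU_of (by norm_num) (by norm_num; linarith) (by norm_num; linarith)), by norm_num [Lines.denV, izL11] <;> linarith⟩ : InLines izL11 (4, 5, 40) (0, 1, 50) (6, 13, 40) a b u I r s) ?_ ?_
  all_goals norm_num [afVal, Lines.denV, izL11] <;> linarith

/-- The signs in the piece 12. -/
theorem izAt12 {n : ℕ} {a b u v t H I r s : ℝ} (hb : Closed.All.ChartBox n (b - a) (a + b))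
    (hF : Closed.All.ChartFacts (b - a) (a + b) u v t)
    (hH : Closed.chH (b - a) (a + b) u v t = H) (hB : EndBands7 a b u v H)
    (hside : DLow a b) (hE : ExitLine a b u v) (hI : IPt a b u I r s) (hI0 : 0 < I)
    (q0l : (1 / 10 : ℝ) < I) (q0u : I ≤ (1 / 8 : ℝ)) (q1l : (0 : ℝ) < r) (q1u : r ≤ (1 / 50 : ℝ)) (q2l : (13 / 40 : ℝ) < s) (q2u : s ≤ (33 / 80 : ℝ)) :
    Closed.Strip.ChartSigns (b - a) (a + b) u v t := by
  obtain ⟨hl, hr⟩ := izLine12 hB hE hI0 (⟨hI, (inU_of (by norm_num) (by norm_num; linarith) (by norm_num; linarith)), (inU_of (by norm_num) (by norm_num; linarith) (by norm_num; linarith)), (inU_of (by norm_num) (by norm_num; linarith) (by norm_num; linarith)), by norm_num [Lines.denV, izM12] <;> linarith⟩ : InLines izM12 (4, 5, 40) (0, 1, 50) (13, 20, 40) a b u I r s)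
  norm_num [afVal, Lines.denV, izM12] at hl hr
  refine izLeaf12.low rfl rfl hb hF hH hB hside
    (⟨hI, (inU_of (by norm_num) (by norm_num; linarith) (by norm_num; linarith)), (inU_of (by norm_num) (by norm_num; linarith) (by norm_num; linarith)), (inU_of (by norm_num) (by norm_num; linarith) (by norm_num; linarith)), by norm_num [Lines.denV, izL12] <;> linarith⟩ : InLines izL12 (4, 5, 40) (0, 1, 50) (26, 33, 80) a b u I r s) ?_ ?_
  all_goals norm_num [afVal, Lines.denV, izL12] <;> linarith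

/-- The signs in the piece 13. -/
theorem izAt13 {n : ℕ} {a b u v t H I r s : ℝ} (hb : Closed.All.ChartBox n (b - a) (a + b))
    (hF : Closed.All.ChartFacts (b - a) (a + b) u v t)
    (hH : Closed.chH (b - a) (a + b) u v t = H) (hB : EndBands7 a b u v H)
    (hside : DLow a b) (hE : ExitLine a b u v) (hI : IPt a b u I r s) (hI0 : 0 < I)
    (q0l : (1 / 8 : ℝ) < I) (q0u : I ≤ (11 / 80 : ℝ)) (q1l : (0 : ℝ) < r) (q1u : r ≤ (1 / 50 : ℝ)) (q2l : (3 / 20 : ℝ) < s) (q2u : s ≤ (19 / 80 : ℝ)) :
    Closed.Strip.ChartSigns (b - a) (a + b) u v t := by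
  obtain ⟨hl, hr⟩ := izLine13 hB hE hI0 (⟨hI, (inU_of (by norm_num) (by norm_num; linarith) (by norm_num; linarith)), (inU_of (by norm_num) (by norm_num; linarith) (by norm_num; linarith)), (inU_of (by norm_num) (by norm_num; linarith) (by norm_num; linarith)), by norm_num [Lines.denV, izM13] <;> linarith⟩ : InLines izM13 (10, 11, 80) (0, 1, 50) (6, 13, 40) a b u I r s)
  norm_num [afVal, Lines.denV, izM13] at hl hr
  refine izLeaf13.low rfl rfl hb hF hH hB hside
    (⟨hI, (inU_of (by norm_num) (by norm_num; linarith) (by norm_num; linarith)), (inU_of (by norm_num) (by norm_num; linarith) (by norm_num; linarith)), (inU_of (by norm_num) (by norm_num; linarith) (by norm_num; linarith)), by norm_num [Lines.denV, izL13] <;> linarith⟩ : InLines izL13 (10, 11, 80) (0, 1, 50) (12, 19, 80) a b u I r s) ?_ ?_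
  all_goals norm_num [afVal, Lines.denV, izL13] <;> linarith

/-- The signs in the piece 14. -/
theorem izAt14 {n : ℕ} {a b u v t H I r s : ℝ} (hb : Closed.All.ChartBox n (b - a) (a + b))
    (hF : Closed.All.ChartFacts (b - a) (a + b) u v t)
    (hH : Closed.chH (b - a) (a + b) u v t = H) (hB : EndBands7 a b u v H)
    (hside : DLow a b) (hE : ExitLine a b u v) (hI : IPt a b u I r s) (hI0 : 0 < I)
    (q0l : (1 / 8 : ℝ) < I) (q0u : I ≤ (11 / 80 : ℝ)) (q1l : (0 : ℝ) < r) (q1u : r ≤ (1 / 50 : ℝ)) (q2l : (13 / 40 : ℝ) < s) (q2u : s ≤ (33 / 80 : ℝ)) :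
    Closed.Strip.ChartSigns (b - a) (a + b) u v t := by
  obtain ⟨hl, hr⟩ := izLine14 hB hE hI0 (⟨hI, (inU_of (by norm_num) (by norm_num; linarith) (by norm_num; linarith)), (inU_of (by norm_num) (by norm_num; linarith) (by norm_num; linarith)), (inU_of (by norm_num) (by norm_num; linarith) (by norm_num; linarith)), by norm_num [Lines.denV, izM14] <;> linarith⟩ : InLines izM14 (10, 11, 80) (0, 1, 50) (13, 20, 40) a b u I r s)
  norm_num [afVal, Lines.denV, izM14] at hl hr
  refine izLeaf14.low rfl rfl hb hF hH hB hside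
    (⟨hI, (inU_of (by norm_num) (by norm_num; linarith) (by norm_num; linarith)), (inU_of (by norm_num) (by norm_num; linarith) (by norm_num; linarith)), (inU_of (by norm_num) (by norm_num; linarith) (by norm_num; linarith)), by norm_num [Lines.denV, izL14] <;> linarith⟩ : InLines izL14 (10, 11, 80) (0, 1, 50) (26, 33, 80) a b u I r s) ?_ ?_
  all_goals norm_num [afVal, Lines.denV, izL14] <;> linarith

/-- The signs in the piece 15. -/
theorem izAt15 {n : ℕ} {a b u v t H I r s : ℝ} (hb : Closed.All.ChartBox n (b - a) (a + b))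
    (hF : Closed.All.ChartFacts (b - a) (a + b) u v t)
    (hH : Closed.chH (b - a) (a + b) u v t = H) (hB : EndBands7 a b u v H)
    (hside : DLow a b) (hE : ExitLine a b u v) (hI : IPt a b u I r s) (hI0 : 0 < I)
    (q0l : (11 / 80 : ℝ) < I) (q0u : I ≤ (23 / 160 : ℝ)) (q1l : (0 : ℝ) < r) (q1u : r ≤ (1 / 50 : ℝ)) (q2l : (3 / 20 : ℝ) < s) (q2u : s ≤ (19 / 80 : ℝ)) :
    Closed.Strip.ChartSigns (b - a) (a + b) u v t := by
  obtain ⟨hl, hr⟩ := izLine15 hB hE hI0 (⟨hI, (inU_of (by norm_num) (by norm_num; linarith) (by norm_num; linarith)), (inU_of (by norm_num) (by norm_num; linarith) (by norm_num; linarith)), (inU_of (by norm_num) (by norm_num; linarith) (by norm_num; linarith)), by norm_num [Lines.denV, izM15] <;> linarith⟩ : InLines izM15 (22, 23, 160) (0, 1, 50) (12, 19, 80) a b u I r s)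
  norm_num [afVal, Lines.denV, izM15] at hl hr
  refine izLeaf15.low rfl rfl hb hF hH hB hside
    (⟨hI, (inU_of (by norm_num) (by norm_num; linarith) (by norm_num; linarith)), (inU_of (by norm_num) (by norm_num; linarith) (by norm_num; linarith)), (inU_of (by norm_num) (by norm_num; linarith) (by norm_num; linarith)), by norm_num [Lines.denV, izL15] <;> linarith⟩ : InLines izL15 (22, 23, 160) (0, 1, 50) (12, 19, 80) a b u I r s) ?_ ?_
  all_goals norm_num [afVal, Lines.denV, izL15] <;> linarith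

/-- The signs in the piece 16. -/
theorem izAt16 {n : ℕ} {a b u v t H I r s : ℝ} (hb : Closed.All.ChartBox n (b - a) (a + b))
    (hF : Closed.All.ChartFacts (b - a) (a + b) u v t)
    (hH : Closed.chH (b - a) (a + b) u v t = H) (hB : EndBands7 a b u v H)
    (hside : DLow a b) (hE : ExitLine a b u v) (hI : IPt a b u I r s) (hI0 : 0 < I)
    (q0l : (11 / 80 : ℝ) < I) (q0u : I ≤ (23 / 160 : ℝ)) (q1l : (0 : ℝ) < r) (q1u : r ≤ (1 / 50 : ℝ)) (q2l : (13 / 40 : ℝ) < s) (q2u : s ≤ (33 / 80 : ℝ)) :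
    Closed.Strip.ChartSigns (b - a) (a + b) u v t := by
  obtain ⟨hl, hr⟩ := izLine16 hB hE hI0 (⟨hI, (inU_of (by norm_num) (by norm_num; linarith) (by norm_num; linarith)), (inU_of (by norm_num) (by norm_num; linarith) (by norm_num; linarith)), (inU_of (by norm_num) (by norm_num; linarith) (by norm_num; linarith)), by norm_num [Lines.denV, izM16] <;> linarith⟩ : InLines izM16 (22, 23, 160) (0, 1, 50) (26, 33, 80) a b u I r s)
  norm_num [afVal, Lines.denV, izM16] at hl hr
  refine izLeaf16.low rfl rfl hb hF hH hB hside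
    (⟨hI, (inU_of (by norm_num) (by norm_num; linarith) (by norm_num; linarith)), (inU_of (by norm_num) (by norm_num; linarith) (by norm_num; linarith)), (inU_of (by norm_num) (by norm_num; linarith) (by norm_num; linarith)), by norm_num [Lines.denV, izL16] <;> linarith⟩ : InLines izL16 (22, 23, 160) (0, 1, 50) (26, 33, 80) a b u I r s) ?_ ?_
  all_goals norm_num [afVal, Lines.denV, izL16] <;> linarith

/-- The signs in the piece 17. -/
theorem izAt17 {n : ℕ} {a b u v t H I r s : ℝ} (hb : Closed.All.ChartBox n (b - a) (a + b))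
    (hF : Closed.All.ChartFacts (b - a) (a + b) u v t)
    (hH : Closed.chH (b - a) (a + b) u v t = H) (hB : EndBands7 a b u v H)
    (hside : DLow a b) (hE : ExitLine a b u v) (hI : IPt a b u I r s) (hI0 : 0 < I)
    (q0l : (1 / 20 : ℝ) < I) (q0u : I ≤ (1 / 10 : ℝ)) (q1l : (1 / 50 : ℝ) < r) (q1u : r ≤ (3 / 20 : ℝ)) (q2l : (3 / 20 : ℝ) < s) (q2u : s ≤ (1 / 2 : ℝ)) :
    Closed.Strip.ChartSigns (b - a) (a + b) u v t := by
  obtain ⟨hl, hr⟩ := izLine17 hB hE hI0 (⟨hI, (inU_of (by norm_num) (by norm_num; linarith) (by norm_num; linarith)), (inU_of (by norm_num) (by norm_num; linarith) (by norm_num; linarith)), (inU_of (by norm_num) (by norm_num; linarith) (by norm_num; linarith)), by norm_num [Lines.denV, izM17] <;> linarith⟩ : InLines izM17 (1, 2, 20) (2, 15, 100) (3, 10, 20) a b u I r s)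
  norm_num [afVal, Lines.denV, izM17] at hl hr
  refine izLeaf17.low rfl rfl hb hF hH hB hside
    (⟨hI, (inU_of (by norm_num) (by norm_num; linarith) (by norm_num; linarith)), (inU_of (by norm_num) (by norm_num; linarith) (by norm_num; linarith)), (inU_of (by norm_num) (by norm_num; linarith) (by norm_num; linarith)), by norm_num [Lines.denV, izL17] <;> linarith⟩ : InLines izL17 (1, 2, 20) (2, 15, 100) (3, 10, 20) a b u I r s) ?_ ?_
  all_goals norm_num [afVal, Lines.denV, izL17] <;> linarith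

/-- The signs in the piece 18. -/
theorem izAt18 {n : ℕ} {a b u v t H I r s : ℝ} (hb : Closed.All.ChartBox n (b - a) (a + b))
    (hF : Closed.All.ChartFacts (b - a) (a + b) u v t)
    (hH : Closed.chH (b - a) (a + b) u v t = H) (hB : EndBands7 a b u v H)
    (hside : DLow a b) (hE : ExitLine a b u v) (hI : IPt a b u I r s) (hI0 : 0 < I)
    (q0l : (1 / 10 : ℝ) < I) (q0u : I ≤ (23 / 160 : ℝ)) (q1l : (1 / 50 : ℝ) < r) (q1u : r ≤ (1 / 20 : ℝ)) (q2l : (3 / 20 : ℝ) < s) (q2u : s ≤ (19 / 80 : ℝ)) :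
    Closed.Strip.ChartSigns (b - a) (a + b) u v t := by
  obtain ⟨hl, hr⟩ := izLine18 hB hE hI0 (⟨hI, (inU_of (by norm_num) (by norm_num; linarith) (by norm_num; linarith)), (inU_of (by norm_num) (by norm_num; linarith) (by norm_num; linarith)), (inU_of (by norm_num) (by norm_num; linarith) (by norm_num; linarith)), by norm_num [Lines.denV, izM18] <;> linarith⟩ : InLines izM18 (16, 23, 160) (2, 5, 100) (12, 19, 80) a b u I r s)
  norm_num [afVal, Lines.denV, izM18] at hl hr
  refine izLeaf18.low rfl rfl hb hF hH hB hside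
    (⟨hI, (inU_of (by norm_num) (by norm_num; linarith) (by norm_num; linarith)), (inU_of (by norm_num) (by norm_num; linarith) (by norm_num; linarith)), (inU_of (by norm_num) (by norm_num; linarith) (by norm_num; linarith)), by norm_num [Lines.denV, izL18] <;> linarith⟩ : InLines izL18 (16, 23, 160) (2, 5, 100) (12, 19, 80) a b u I r s) ?_ ?_
  all_goals norm_num [afVal, Lines.denV, izL18] <;> linarith

/-- The signs in the piece 19. -/
theorem izAt19 {n : ℕ} {a b u v t H I r s : ℝ} (hb : Closed.All.ChartBox n (b - a) (a + b))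
    (hF : Closed.All.ChartFacts (b - a) (a + b) u v t)
    (hH : Closed.chH (b - a) (a + b) u v t = H) (hB : EndBands7 a b u v H)
    (hside : DLow a b) (hE : ExitLine a b u v) (hI : IPt a b u I r s) (hI0 : 0 < I)
    (q0l : (1 / 10 : ℝ) < I) (q0u : I ≤ (23 / 160 : ℝ)) (q1l : (1 / 50 : ℝ) < r) (q1u : r ≤ (1 / 20 : ℝ)) (q2l : (19 / 80 : ℝ) < s) (q2u : s ≤ (13 / 40 : ℝ)) :
    Closed.Strip.ChartSigns (b - a) (a + b) u v t := by
  obtain ⟨hl, hr⟩ := izLine19 hB hE hI0 (⟨hI, (inU_of (by norm_num) (by norm_num; linarith) (by norm_num; linarith)), (inU_of (by norm_num) (by norm_num; linarith) (by norm_num; linarith)), (inU_of (by norm_num) (by norm_num; linarith) (by norm_num; linarith)), by norm_num [Lines.denV, izM19] <;> linarith⟩ : InLines izM19 (16, 23, 160) (2, 5, 100) (19, 26, 80) a b u I r s)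
  norm_num [afVal, Lines.denV, izM19] at hl hr
  refine izLeaf19.low rfl rfl hb hF hH hB hside
    (⟨hI, (inU_of (by norm_num) (by norm_num; linarith) (by norm_num; linarith)), (inU_of (by norm_num) (by norm_num; linarith) (by norm_num; linarith)), (inU_of (by norm_num) (by norm_num; linarith) (by norm_num; linarith)), by norm_num [Lines.denV, izL19] <;> linarith⟩ : InLines izL19 (16, 23, 160) (2, 5, 100) (19, 26, 80) a b u I r s) ?_ ?_
  all_goals norm_num [afVal, Lines.denV, izL19] <;> linarith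

/-- The signs in the piece 20. -/
theorem izAt20 {n : ℕ} {a b u v t H I r s : ℝ} (hb : Closed.All.ChartBox n (b - a) (a + b))
    (hF : Closed.All.ChartFacts (b - a) (a + b) u v t)
    (hH : Closed.chH (b - a) (a + b) u v t = H) (hB : EndBands7 a b u v H)
    (hside : DLow a b) (hE : ExitLine a b u v) (hI : IPt a b u I r s) (hI0 : 0 < I)
    (q0l : (1 / 10 : ℝ) < I) (q0u : I ≤ (23 / 160 : ℝ)) (q1l : (1 / 20 : ℝ) < r) (q1u : r ≤ (3 / 20 : ℝ)) (q2l : (3 / 20 : ℝ) < s) (q2u : s ≤ (19 / 80 : ℝ)) :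
    Closed.Strip.ChartSigns (b - a) (a + b) u v t := by
  obtain ⟨hl, hr⟩ := izLine20 hB hE hI0 (⟨hI, (inU_of (by norm_num) (by norm_num; linarith) (by norm_num; linarith)), (inU_of (by norm_num) (by norm_num; linarith) (by norm_num; linarith)), (inU_of (by norm_num) (by norm_num; linarith) (by norm_num; linarith)), by norm_num [Lines.denV, izM20] <;> linarith⟩ : InLines izM20 (16, 23, 160) (1, 3, 20) (12, 19, 80) a b u I r s)
  norm_num [afVal, Lines.denV, izM20] at hl hr
  refine izLeaf20.low rfl rfl hb hF hH hB hside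
    (⟨hI, (inU_of (by norm_num) (by norm_num; linarith) (by norm_num; linarith)), (inU_of (by norm_num) (by norm_num; linarith) (by norm_num; linarith)), (inU_of (by norm_num) (by norm_num; linarith) (by norm_num; linarith)), by norm_num [Lines.denV, izL20] <;> linarith⟩ : InLines izL20 (16, 23, 160) (1, 3, 20) (12, 19, 80) a b u I r s) ?_ ?_
  all_goals norm_num [afVal, Lines.denV, izL20] <;> linarith

/-- The signs in the piece 21. -/
theorem izAt21 {n : ℕ} {a b u v t H I r s : ℝ} (hb : Closed.All.ChartBox n (b - a) (a + b))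
    (hF : Closed.All.ChartFacts (b - a) (a + b) u v t)
    (hH : Closed.chH (b - a) (a + b) u v t = H) (hB : EndBands7 a b u v H)
    (hside : DLow a b) (hE : ExitLine a b u v) (hI : IPt a b u I r s) (hI0 : 0 < I)
    (q0l : (1 / 10 : ℝ) < I) (q0u : I ≤ (1 / 8 : ℝ)) (q1l : (1 / 50 : ℝ) < r) (q1u : r ≤ (1 / 20 : ℝ)) (q2l : (13 / 40 : ℝ) < s) (q2u : s ≤ (33 / 80 : ℝ)) :
    Closed.Strip.ChartSigns (b - a) (a + b) u v t := by
  obtain ⟨hl, hr⟩ := izLine21 hB hE hI0 (⟨hI, (inU_of (by norm_num) (by norm_num; linarith) (by norm_num; linarith)), (inU_of (by norm_num) (by norm_num; linarith) (by norm_num; linarith)), (inU_of (by norm_num) (by norm_num; linarith) (by norm_num; linarith)), by norm_num [Lines.denV, izM21] <;> linarith⟩ : InLines izM21 (4, 5, 40) (2, 5, 100) (26, 33, 80) a b u I r s)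
  norm_num [afVal, Lines.denV, izM21] at hl hr
  refine izLeaf21.low rfl rfl hb hF hH hB hside
    (⟨hI, (inU_of (by norm_num) (by norm_num; linarith) (by norm_num; linarith)), (inU_of (by norm_num) (by norm_num; linarith) (by norm_num; linarith)), (inU_of (by norm_num) (by norm_num; linarith) (by norm_num; linarith)), by norm_num [Lines.denV, izL21] <;> linarith⟩ : InLines izL21 (4, 5, 40) (2, 5, 100) (26, 33, 80) a b u I r s) ?_ ?_
  all_goals norm_num [afVal, Lines.denV, izL21] <;> linarith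

/-- The signs in the piece 22. -/
theorem izAt22 {n : ℕ} {a b u v t H I r s : ℝ} (hb : Closed.All.ChartBox n (b - a) (a + b))
    (hF : Closed.All.ChartFacts (b - a) (a + b) u v t)
    (hH : Closed.chH (b - a) (a + b) u v t = H) (hB : EndBands7 a b u v H)
    (hside : DLow a b) (hE : ExitLine a b u v) (hI : IPt a b u I r s) (hI0 : 0 < I)
    (q0l : (1 / 10 : ℝ) < I) (q0u : I ≤ (23 / 160 : ℝ)) (q1l : (1 / 20 : ℝ) < r) (q1u : r ≤ (3 / 20 : ℝ)) (q2l : (13 / 40 : ℝ) < s) (q2u : s ≤ (33 / 80 : ℝ)) :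
    Closed.Strip.ChartSigns (b - a) (a + b) u v t := by
  obtain ⟨hl, hr⟩ := izLine22 hB hE hI0 (⟨hI, (inU_of (by norm_num) (by norm_num; linarith) (by norm_num; linarith)), (inU_of (by norm_num) (by norm_num; linarith) (by norm_num; linarith)), (inU_of (by norm_num) (by norm_num; linarith) (by norm_num; linarith)), by norm_num [Lines.denV, izM22] <;> linarith⟩ : InLines izM22 (16, 23, 160) (1, 3, 20) (26, 33, 80) a b u I r s)
  norm_num [afVal, Lines.denV, izM22] at hl hr
  refine izLeaf22.low rfl rfl hb hF hH hB hside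
    (⟨hI, (inU_of (by norm_num) (by norm_num; linarith) (by norm_num; linarith)), (inU_of (by norm_num) (by norm_num; linarith) (by norm_num; linarith)), (inU_of (by norm_num) (by norm_num; linarith) (by norm_num; linarith)), by norm_num [Lines.denV, izL22] <;> linarith⟩ : InLines izL22 (16, 23, 160) (1, 3, 20) (26, 33, 80) a b u I r s) ?_ ?_
  all_goals norm_num [afVal, Lines.denV, izL22] <;> linarith

/-- The signs in the piece 23. -/
theorem izAt23 {n : ℕ} {a b u v t H I r s : ℝ} (hb : Closed.All.ChartBox n (b - a) (a + b))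
    (hF : Closed.All.ChartFacts (b - a) (a + b) u v t)
    (hH : Closed.chH (b - a) (a + b) u v t = H) (hB : EndBands7 a b u v H)
    (hside : DLow a b) (hE : ExitLine a b u v) (hI : IPt a b u I r s) (hI0 : 0 < I)
    (q0l : (1 / 10 : ℝ) < I) (q0u : I ≤ (1 / 8 : ℝ)) (q1l : (1 / 50 : ℝ) < r) (q1u : r ≤ (3 / 20 : ℝ)) (q2l : (33 / 80 : ℝ) < s) (q2u : s ≤ (1 / 2 : ℝ)) :
    Closed.Strip.ChartSigns (b - a) (a + b) u v t := by
  obtain ⟨hl, hr⟩ := izLine23 hB hE hI0 (⟨hI, (inU_of (by norm_num) (by norm_num; linarith) (by norm_num; linarith)), (inU_of (by norm_num) (by norm_num; linarith) (by norm_num; linarith)), (inU_of (by norm_num) (by norm_num; linarith) (by norm_num; linarith)), by norm_num [Lines.denV, izM23] <;> linarith⟩ : InLines izM23 (4, 5, 40) (2, 15, 100) (33, 40, 80) a b u I r s)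
  norm_num [afVal, Lines.denV, izM23] at hl hr
  refine izLeaf23.low rfl rfl hb hF hH hB hside
    (⟨hI, (inU_of (by norm_num) (by norm_num; linarith) (by norm_num; linarith)), (inU_of (by norm_num) (by norm_num; linarith) (by norm_num; linarith)), (inU_of (by norm_num) (by norm_num; linarith) (by norm_num; linarith)), by norm_num [Lines.denV, izL23] <;> linarith⟩ : InLines izL23 (4, 5, 40) (2, 15, 100) (33, 40, 80) a b u I r s) ?_ ?_
  all_goals norm_num [afVal, Lines.denV, izL23] <;> linarith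

/-- The signs in the piece 24. -/
theorem izAt24 {n : ℕ} {a b u v t H I r s : ℝ} (hb : Closed.All.ChartBox n (b - a) (a + b))
    (hF : Closed.All.ChartFacts (b - a) (a + b) u v t)
    (hH : Closed.chH (b - a) (a + b) u v t = H) (hB : EndBands7 a b u v H)
    (hside : DLow a b) (hE : ExitLine a b u v) (hI : IPt a b u I r s) (hI0 : 0 < I)
    (q0l : (1 / 20 : ℝ) < I) (q0u : I ≤ (1 / 10 : ℝ)) (q1l : (0 : ℝ) < r) (q1u : r ≤ (1 / 50 : ℝ)) (q2l : (1 / 2 : ℝ) < s) (q2u : s ≤ (3 / 4 : ℝ)) :
    Closed.Strip.ChartSigns (b - a) (a + b) u v t := by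
  obtain ⟨hl, hr⟩ := izLine24 hB hE hI0 (⟨hI, (inU_of (by norm_num) (by norm_num; linarith) (by norm_num; linarith)), (inU_of (by norm_num) (by norm_num; linarith) (by norm_num; linarith)), (inU_of (by norm_num) (by norm_num; linarith) (by norm_num; linarith)), by norm_num [Lines.denV, izM24] <;> linarith⟩ : InLines izM24 (1, 2, 20) (0, 1, 50) (2, 3, 4) a b u I r s)
  norm_num [afVal, Lines.denV, izM24] at hl hr
  refine izLeaf24.low rfl rfl hb hF hH hB hside
    (⟨hI, (inU_of (by norm_num) (by norm_num; linarith) (by norm_num; linarith)), (inU_of (by norm_num) (by norm_num; linarith) (by norm_num; linarith)), (inU_of (by norm_num) (by norm_num; linarith) (by norm_num; linarith)), by norm_num [Lines.denV, izL24] <;> linarith⟩ : InLines izL24 (1, 2, 20) (0, 1, 50) (2, 3, 4) a b u I r s) ?_ ?_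
  all_goals norm_num [afVal, Lines.denV, izL24] <;> linarith

/-- The signs in the piece 25. -/
theorem izAt25 {n : ℕ} {a b u v t H I r s : ℝ} (hb : Closed.All.ChartBox n (b - a) (a + b))
    (hF : Closed.All.ChartFacts (b - a) (a + b) u v t)
    (hH : Closed.chH (b - a) (a + b) u v t = H) (hB : EndBands7 a b u v H)
    (hside : DLow a b) (hE : ExitLine a b u v) (hI : IPt a b u I r s) (hI0 : 0 < I)
    (q0l : (1 / 10 : ℝ) < I) (q0u : I ≤ (1 / 8 : ℝ)) (q1l : (0 : ℝ) < r) (q1u : r ≤ (1 / 50 : ℝ)) (q2l : (1 / 2 : ℝ) < s) (q2u : s ≤ (3 / 4 : ℝ)) (ku : (500 : ℝ) * (1 - a * v) ≤ (217 : ℝ)) :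
    Closed.Strip.ChartSigns (b - a) (a + b) u v t := by
  obtain ⟨hl, hr⟩ := izLine25 hB hE hI0 (⟨hI, (inU_of (by norm_num) (by norm_num; linarith) (by norm_num; linarith)), (inU_of (by norm_num) (by norm_num; linarith) (by norm_num; linarith)), (inU_of (by norm_num) (by norm_num; linarith) (by norm_num; linarith)), by norm_num [Lines.denV, izM25] <;> linarith⟩ : InLines izM25 (4, 5, 40) (0, 1, 50) (2, 3, 4) a b u I r s)
  norm_num [afVal, Lines.denV, izM25] at hl hr
  refine izLeaf25.low rfl rfl hb hF hH hB hside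
    (⟨hI, (inU_of (by norm_num) (by norm_num; linarith) (by norm_num; linarith)), (inU_of (by norm_num) (by norm_num; linarith) (by norm_num; linarith)), (inU_of (by norm_num) (by norm_num; linarith) (by norm_num; linarith)), by norm_num [Lines.denV, izL25] <;> linarith⟩ : InLines izL25 (4, 5, 40) (0, 1, 50) (2, 3, 4) a b u I r s) ?_ ?_
  all_goals norm_num [afVal, Lines.denV, izL25] <;> linarith

/-- The signs in the piece 26. -/
theorem izAt26 {n : ℕ} {a b u v t H I r s : ℝ} (hb : Closed.All.ChartBox n (b - a) (a + b))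
    (hF : Closed.All.ChartFacts (b - a) (a + b) u v t)
    (hH : Closed.chH (b - a) (a + b) u v t = H) (hB : EndBands7 a b u v H)
    (hside : DLow a b) (hE : ExitLine a b u v) (hI : IPt a b u I r s) (hI0 : 0 < I)
    (q0l : (1 / 10 : ℝ) < I) (q0u : I ≤ (1 / 8 : ℝ)) (q1l : (0 : ℝ) < r) (q1u : r ≤ (1 / 160 : ℝ)) (q2l : (1 / 2 : ℝ) < s) (q2u : s ≤ (3 / 4 : ℝ)) (kl : (217 : ℝ) < (500 : ℝ) * (1 - a * v)) :
    Closed.Strip.ChartSigns (b - a) (a + b) u v t := by
  obtain ⟨hl, hr⟩ := izLine25 hB hE hI0 (⟨hI, (inU_of (by norm_num) (by norm_num; linarith) (by norm_num; linarith)), (inU_of (by norm_num) (by norm_num; linarith) (by norm_num; linarith)), (inU_of (by norm_num) (by norm_num; linarith) (by norm_num; linarith)), by norm_num [Lines.denV, izM25] <;> linarith⟩ : InLines izM25 (4, 5, 40) (0, 1, 50) (2, 3, 4) a b u I r s)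
  norm_num [afVal, Lines.denV, izM25] at hl hr
  refine izLeaf26.low rfl rfl hb hF hH hB hside
    (⟨hI, (inU_of (by norm_num) (by norm_num; linarith) (by norm_num; linarith)), (inU_of (by norm_num) (by norm_num; linarith) (by norm_num; linarith)), (inU_of (by norm_num) (by norm_num; linarith) (by norm_num; linarith)), by norm_num [Lines.denV, izL26] <;> linarith⟩ : InLines izL26 (4, 5, 40) (0, 1, 160) (2, 3, 4) a b u I r s) ?_ ?_
  all_goals norm_num [afVal, Lines.denV, izL26] <;> linarith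

/-- The signs in the piece 27. -/
theorem izAt27 {n : ℕ} {a b u v t H I r s : ℝ} (hb : Closed.All.ChartBox n (b - a) (a + b))
    (hF : Closed.All.ChartFacts (b - a) (a + b) u v t)
    (hH : Closed.chH (b - a) (a + b) u v t = H) (hB : EndBands7 a b u v H)
    (hside : DLow a b) (hE : ExitLine a b u v) (hI : IPt a b u I r s) (hI0 : 0 < I)
    (q0l : (1 / 10 : ℝ) < I) (q0u : I ≤ (1 / 8 : ℝ)) (q1l : (1 / 160 : ℝ) < r) (q1u : r ≤ (1 / 50 : ℝ)) (q2l : (1 / 2 : ℝ) < s) (q2u : s ≤ (3 / 4 : ℝ)) (kl : (217 : ℝ) < (500 : ℝ) * (1 - a * v)) :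
    Closed.Strip.ChartSigns (b - a) (a + b) u v t := by
  obtain ⟨hl, hr⟩ := izLine25 hB hE hI0 (⟨hI, (inU_of (by norm_num) (by norm_num; linarith) (by norm_num; linarith)), (inU_of (by norm_num) (by norm_num; linarith) (by norm_num; linarith)), (inU_of (by norm_num) (by norm_num; linarith) (by norm_num; linarith)), by norm_num [Lines.denV, izM25] <;> linarith⟩ : InLines izM25 (4, 5, 40) (0, 1, 50) (2, 3, 4) a b u I r s)
  norm_num [afVal, Lines.denV, izM25] at hl hr
  refine izLeaf27.low rfl rfl hb hF hH hB hside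
    (⟨hI, (inU_of (by norm_num) (by norm_num; linarith) (by norm_num; linarith)), (inU_of (by norm_num) (by norm_num; linarith) (by norm_num; linarith)), (inU_of (by norm_num) (by norm_num; linarith) (by norm_num; linarith)), by norm_num [Lines.denV, izL27] <;> linarith⟩ : InLines izL27 (4, 5, 40) (5, 16, 800) (2, 3, 4) a b u I r s) ?_ ?_
  all_goals norm_num [afVal, Lines.denV, izL27] <;> linarith

/-- The signs in the piece 28. -/
theorem izAt28 {n : ℕ} {a b u v t H I r s : ℝ} (hb : Closed.All.ChartBox n (b - a) (a + b))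
    (hF : Closed.All.ChartFacts (b - a) (a + b) u v t)
    (hH : Closed.chH (b - a) (a + b) u v t = H) (hB : EndBands7 a b u v H)
    (hside : DLow a b) (hE : ExitLine a b u v) (hI : IPt a b u I r s) (hI0 : 0 < I)
    (q0l : (1 / 8 : ℝ) < I) (q0u : I ≤ (11 / 80 : ℝ)) (q1l : (0 : ℝ) < r) (q1u : r ≤ (1 / 50 : ℝ)) (q2l : (1 / 2 : ℝ) < s) (q2u : s ≤ (3 / 4 : ℝ)) (ku : (500 : ℝ) * (1 - a * v) ≤ (54 : ℝ)) :
    Closed.Strip.ChartSigns (b - a) (a + b) u v t := by
  obtain ⟨hl, hr⟩ := izLine26 hB hE hI0 (⟨hI, (inU_of (by norm_num) (by norm_num; linarith) (by norm_num; linarith)), (inU_of (by norm_num) (by norm_num; linarith) (by norm_num; linarith)), (inU_of (by norm_num) (by norm_num; linarith) (by norm_num; linarith)), by norm_num [Lines.denV, izM26] <;> linarith⟩ : InLines izM26 (20, 23, 160) (0, 1, 50) (2, 3, 4) a b u I r s)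
  norm_num [afVal, Lines.denV, izM26] at hl hr
  refine izLeaf28.low rfl rfl hb hF hH hB hside
    (⟨hI, (inU_of (by norm_num) (by norm_num; linarith) (by norm_num; linarith)), (inU_of (by norm_num) (by norm_num; linarith) (by norm_num; linarith)), (inU_of (by norm_num) (by norm_num; linarith) (by norm_num; linarith)), by norm_num [Lines.denV, izL28] <;> linarith⟩ : InLines izL28 (10, 11, 80) (0, 1, 50) (2, 3, 4) a b u I r s) ?_ ?_
  all_goals norm_num [afVal, Lines.denV, izL28] <;> linarith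

/-- The signs in the piece 29. -/
theorem izAt29 {n : ℕ} {a b u v t H I r s : ℝ} (hb : Closed.All.ChartBox n (b - a) (a + b))
    (hF : Closed.All.ChartFacts (b - a) (a + b) u v t)
    (hH : Closed.chH (b - a) (a + b) u v t = H) (hB : EndBands7 a b u v H)
    (hside : DLow a b) (hE : ExitLine a b u v) (hI : IPt a b u I r s) (hI0 : 0 < I)
    (q0l : (1 / 8 : ℝ) < I) (q0u : I ≤ (23 / 160 : ℝ)) (q1l : (0 : ℝ) < r) (q1u : r ≤ (1 / 50 : ℝ)) (q2l : (1 / 2 : ℝ) < s) (q2u : s ≤ (3 / 4 : ℝ)) (kl : (54 : ℝ) < (500 : ℝ) * (1 - a * v)) (ku : (500 : ℝ) * (1 - a * v) ≤ (218 : ℝ)) :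
    Closed.Strip.ChartSigns (b - a) (a + b) u v t := by
  obtain ⟨hl, hr⟩ := izLine26 hB hE hI0 (⟨hI, (inU_of (by norm_num) (by norm_num; linarith) (by norm_num; linarith)), (inU_of (by norm_num) (by norm_num; linarith) (by norm_num; linarith)), (inU_of (by norm_num) (by norm_num; linarith) (by norm_num; linarith)), by norm_num [Lines.denV, izM26] <;> linarith⟩ : InLines izM26 (20, 23, 160) (0, 1, 50) (2, 3, 4) a b u I r s)
  norm_num [afVal, Lines.denV, izM26] at hl hr
  refine izLeaf29.low rfl rfl hb hF hH hB hside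
    (⟨hI, (inU_of (by norm_num) (by norm_num; linarith) (by norm_num; linarith)), (inU_of (by norm_num) (by norm_num; linarith) (by norm_num; linarith)), (inU_of (by norm_num) (by norm_num; linarith) (by norm_num; linarith)), by norm_num [Lines.denV, izL29] <;> linarith⟩ : InLines izL29 (20, 23, 160) (0, 1, 50) (2, 3, 4) a b u I r s) ?_ ?_
  all_goals norm_num [afVal, Lines.denV, izL29] <;> linarith

/-- The signs in the piece 30. -/
theorem izAt30 {n : ℕ} {a b u v t H I r s : ℝ} (hb : Closed.All.ChartBox n (b - a) (a + b))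
    (hF : Closed.All.ChartFacts (b - a) (a + b) u v t)
    (hH : Closed.chH (b - a) (a + b) u v t = H) (hB : EndBands7 a b u v H)
    (hside : DLow a b) (hE : ExitLine a b u v) (hI : IPt a b u I r s) (hI0 : 0 < I)
    (q0l : (1 / 8 : ℝ) < I) (q0u : I ≤ (11 / 80 : ℝ)) (q1l : (0 : ℝ) < r) (q1u : r ≤ (1 / 50 : ℝ)) (q2l : (1 / 2 : ℝ) < s) (q2u : s ≤ (3 / 4 : ℝ)) (kl : (218 : ℝ) < (500 : ℝ) * (1 - a * v)) :
    Closed.Strip.ChartSigns (b - a) (a + b) u v t := by
  obtain ⟨hl, hr⟩ := izLine26 hB hE hI0 (⟨hI, (inU_of (by norm_num) (by norm_num; linarith) (by norm_num; linarith)), (inU_of (by norm_num) (by norm_num; linarith) (by norm_num; linarith)), (inU_of (by norm_num) (by norm_num; linarith) (by norm_num; linarith)), by norm_num [Lines.denV, izM26] <;> linarith⟩ : InLines izM26 (20, 23, 160) (0, 1, 50) (2, 3, 4) a b u I r s)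
  norm_num [afVal, Lines.denV, izM26] at hl hr
  refine izLeaf30.low rfl rfl hb hF hH hB hside
    (⟨hI, (inU_of (by norm_num) (by norm_num; linarith) (by norm_num; linarith)), (inU_of (by norm_num) (by norm_num; linarith) (by norm_num; linarith)), (inU_of (by norm_num) (by norm_num; linarith) (by norm_num; linarith)), by norm_num [Lines.denV, izL30] <;> linarith⟩ : InLines izL30 (10, 11, 80) (0, 1, 50) (2, 3, 4) a b u I r s) ?_ ?_
  all_goals norm_num [afVal, Lines.denV, izL30] <;> linarith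

/-- The signs in the piece 31. -/
theorem izAt31 {n : ℕ} {a b u v t H I r s : ℝ} (hb : Closed.All.ChartBox n (b - a) (a + b))
    (hF : Closed.All.ChartFacts (b - a) (a + b) u v t)
    (hH : Closed.chH (b - a) (a + b) u v t = H) (hB : EndBands7 a b u v H)
    (hside : DLow a b) (hE : ExitLine a b u v) (hI : IPt a b u I r s) (hI0 : 0 < I)
    (q0l : (11 / 80 : ℝ) < I) (q0u : I ≤ (23 / 160 : ℝ)) (q1l : (0 : ℝ) < r) (q1u : r ≤ (1 / 50 : ℝ)) (q2l : (1 / 2 : ℝ) < s) (q2u : s ≤ (3 / 4 : ℝ)) (kl : (218 : ℝ) < (500 : ℝ) * (1 - a * v)) :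
    Closed.Strip.ChartSigns (b - a) (a + b) u v t := by
  obtain ⟨hl, hr⟩ := izLine26 hB hE hI0 (⟨hI, (inU_of (by norm_num) (by norm_num; linarith) (by norm_num; linarith)), (inU_of (by norm_num) (by norm_num; linarith) (by norm_num; linarith)), (inU_of (by norm_num) (by norm_num; linarith) (by norm_num; linarith)), by norm_num [Lines.denV, izM26] <;> linarith⟩ : InLines izM26 (20, 23, 160) (0, 1, 50) (2, 3, 4) a b u I r s)
  norm_num [afVal, Lines.denV, izM26] at hl hr
  refine izLeaf31.low rfl rfl hb hF hH hB hside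
    (⟨hI, (inU_of (by norm_num) (by norm_num; linarith) (by norm_num; linarith)), (inU_of (by norm_num) (by norm_num; linarith) (by norm_num; linarith)), (inU_of (by norm_num) (by norm_num; linarith) (by norm_num; linarith)), by norm_num [Lines.denV, izL31] <;> linarith⟩ : InLines izL31 (22, 23, 160) (0, 1, 50) (2, 3, 4) a b u I r s) ?_ ?_
  all_goals norm_num [afVal, Lines.denV, izL31] <;> linarith

end Vale.Agent.P100.Calib.StripEndD
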