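import Vale.Agent.P100.Calib.SlabStripEndData

/-!
# The windows of the charts `D`
-/

namespace Vale.Agent.P100.Calib.StripEnd

open Pack StripMid

/-- The windows of `D00`. -/
theorem endD00_ok : endD00.Cert where
  flat := ⟨fun _ _ _ _ => rfl, fun _ _ _ _ => rfl, fun _ _ _ _ => rfl, fun _ _ _ _ => rfl,
    fun _ _ _ _ => rfl, fun _ _ _ _ => rfl⟩
  fits := ⟨by norm_num [endD00], by norm_num [endD00], by norm_num [endD00],
    by norm_num [endD00]⟩
  left := ⟨190, 13, 15, 6, 3, by decide +kernel⟩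
  right := ⟨181, 12, 13, 6, 3, by decide +kernel⟩
  up := ⟨209, 13, 16, 6, 4, by decide +kernel⟩
  down := ⟨209, 13, 15, 7, 4, by decide +kernel⟩

/-- The windows of `D01`. -/
theorem endD01_ok : endD01.Cert where
  flat := ⟨fun _ _ _ _ => rfl, fun _ _ _ _ => rfl, fun _ _ _ _ => rfl, fun _ _ _ _ => rfl,
    fun _ _ _ _ => rfl, fun _ _ _ _ => rfl⟩
  fits := ⟨by norm_num [endD01], by norm_num [endD01], by norm_num [endD01],
    by norm_num [endD01]⟩
  left := ⟨191, 13, 15, 6, 3, by decide +kernel⟩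
  right := ⟨181, 12, 13, 6, 3, by decide +kernel⟩
  up := ⟨213, 13, 16, 6, 4, by decide +kernel⟩
  down := ⟨210, 13, 15, 7, 4, by decide +kernel⟩

/-- The windows of `D02`. -/
theorem endD02_ok : endD02.Cert where
  flat := ⟨fun _ _ _ _ => rfl, fun _ _ _ _ => rfl, fun _ _ _ _ => rfl, fun _ _ _ _ => rfl,
    fun _ _ _ _ => rfl, fun _ _ _ _ => rfl⟩
  fits := ⟨by norm_num [endD02], by norm_num [endD02], by norm_num [endD02],
    by norm_num [endD02]⟩
  left := ⟨168, 13, 15, 6, 3, by decide +kernel⟩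
  right := ⟨163, 12, 13, 6, 3, by decide +kernel⟩
  up := ⟨186, 13, 16, 6, 4, by decide +kernel⟩
  down := ⟨188, 13, 15, 7, 4, by decide +kernel⟩

/-- The windows of `D03`. -/
theorem endD03_ok : endD03.Cert where
  flat := ⟨fun _ _ _ _ => rfl, fun _ _ _ _ => rfl, fun _ _ _ _ => rfl, fun _ _ _ _ => rfl,
    fun _ _ _ _ => rfl, fun _ _ _ _ => rfl⟩
  fits := ⟨by norm_num [endD03], by norm_num [endD03], by norm_num [endD03],
    by norm_num [endD03]⟩
  left := ⟨169, 13, 15, 6, 3, by decide +kernel⟩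
  right := ⟨163, 12, 13, 6, 3, by decide +kernel⟩
  up := ⟨185, 13, 16, 6, 4, by decide +kernel⟩
  down := ⟨189, 13, 15, 7, 4, by decide +kernel⟩

/-- The windows of `D04`. -/
theorem endD04_ok : endD04.Cert where
  flat := ⟨fun _ _ _ _ => rfl, fun _ _ _ _ => rfl, fun _ _ _ _ => rfl, fun _ _ _ _ => rfl,
    fun _ _ _ _ => rfl, fun _ _ _ _ => rfl⟩
  fits := ⟨by norm_num [endD04], by norm_num [endD04], by norm_num [endD04],
    by norm_num [endD04]⟩
  left := ⟨170, 13, 15, 6, 3, by decide +kernel⟩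
  right := ⟨163, 12, 13, 6, 3, by decide +kernel⟩
  up := ⟨189, 13, 16, 6, 4, by decide +kernel⟩
  down := ⟨188, 13, 15, 7, 4, by decide +kernel⟩

/-- The windows of `D05`. -/
theorem endD05_ok : endD05.Cert where
  flat := ⟨fun _ _ _ _ => rfl, fun _ _ _ _ => rfl, fun _ _ _ _ => rfl, fun _ _ _ _ => rfl,
    fun _ _ _ _ => rfl, fun _ _ _ _ => rfl⟩
  fits := ⟨by norm_num [endD05], by norm_num [endD05], by norm_num [endD05],
    by norm_num [endD05]⟩
  left := ⟨170, 13, 15, 6, 3, by decide +kernel⟩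
  right := ⟨163, 12, 13, 6, 3, by decide +kernel⟩
  up := ⟨187, 13, 16, 6, 4, by decide +kernel⟩
  down := ⟨188, 13, 15, 7, 4, by decide +kernel⟩

/-- The windows of `D06`. -/
theorem endD06_ok : endD06.Cert where
  flat := ⟨fun _ _ _ _ => rfl, fun _ _ _ _ => rfl, fun _ _ _ _ => rfl, fun _ _ _ _ => rfl,
    fun _ _ _ _ => rfl, fun _ _ _ _ => rfl⟩
  fits := ⟨by norm_num [endD06], by norm_num [endD06], by norm_num [endD06],
    by norm_num [endD06]⟩
  left := ⟨164, 13, 15, 6, 3, by decide +kernel⟩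
  right := ⟨158, 12, 13, 6, 3, by decide +kernel⟩
  up := ⟨178, 13, 16, 6, 4, by decide +kernel⟩
  down := ⟨184, 13, 15, 7, 4, by decide +kernel⟩

/-- The windows of `D07`. -/
theorem endD07_ok : endD07.Cert where
  flat := ⟨fun _ _ _ _ => rfl, fun _ _ _ _ => rfl, fun _ _ _ _ => rfl, fun _ _ _ _ => rfl,
    fun _ _ _ _ => rfl, fun _ _ _ _ => rfl⟩
  fits := ⟨by norm_num [endD07], by norm_num [endD07], by norm_num [endD07],
    by norm_num [endD07]⟩
  left := ⟨223, 13, 15, 6, 3, by decide +kernel⟩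
  right := ⟨209, 12, 13, 6, 3, by decide +kernel⟩
  up := ⟨240, 13, 16, 6, 4, by decide +kernel⟩
  down := ⟨240, 13, 15, 7, 4, by decide +kernel⟩

/-- The windows of `D08`. -/
theorem endD08_ok : endD08.Cert where
  flat := ⟨fun _ _ _ _ => rfl, fun _ _ _ _ => rfl, fun _ _ _ _ => rfl, fun _ _ _ _ => rfl,
    fun _ _ _ _ => rfl, fun _ _ _ _ => rfl⟩
  fits := ⟨by norm_num [endD08], by norm_num [endD08], by norm_num [endD08],
    by norm_num [endD08]⟩
  left := ⟨223, 13, 15, 6, 3, by decide +kernel⟩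
  right := ⟨210, 12, 13, 6, 3, by decide +kernel⟩
  up := ⟨242, 13, 16, 6, 4, by decide +kernel⟩
  down := ⟨242, 13, 15, 7, 4, by decide +kernel⟩

/-- The windows of `D09`. -/
theorem endD09_ok : endD09.Cert where
  flat := ⟨fun _ _ _ _ => rfl, fun _ _ _ _ => rfl, fun _ _ _ _ => rfl, fun _ _ _ _ => rfl,
    fun _ _ _ _ => rfl, fun _ _ _ _ => rfl⟩
  fits := ⟨by norm_num [endD09], by norm_num [endD09], by norm_num [endD09],
    by norm_num [endD09]⟩
  left := ⟨224, 13, 15, 6, 3, by decide +kernel⟩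
  right := ⟨210, 12, 13, 6, 3, by decide +kernel⟩
  up := ⟨245, 13, 16, 6, 4, by decide +kernel⟩
  down := ⟨238, 13, 15, 7, 4, by decide +kernel⟩

/-- The windows of `D10`. -/
theorem endD10_ok : endD10.Cert where
  flat := ⟨fun _ _ _ _ => rfl, fun _ _ _ _ => rfl, fun _ _ _ _ => rfl, fun _ _ _ _ => rfl,
    fun _ _ _ _ => rfl, fun _ _ _ _ => rfl⟩
  fits := ⟨by norm_num [endD10], by norm_num [endD10], by norm_num [endD10],
    by norm_num [endD10]⟩
  left := ⟨188, 13, 15, 6, 3, by decide +kernel⟩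
  right := ⟨179, 12, 13, 6, 3, by decide +kernel⟩
  up := ⟨202, 13, 16, 6, 4, by decide +kernel⟩
  down := ⟨205, 13, 15, 7, 4, by decide +kernel⟩

/-- The windows of `D11`. -/
theorem endD11_ok : endD11.Cert where
  flat := ⟨fun _ _ _ _ => rfl, fun _ _ _ _ => rfl, fun _ _ _ _ => rfl, fun _ _ _ _ => rfl,
    fun _ _ _ _ => rfl, fun _ _ _ _ => rfl⟩
  fits := ⟨by norm_num [endD11], by norm_num [endD11], by norm_num [endD11],
    by norm_num [endD11]⟩
  left := ⟨188, 13, 15, 6, 3, by decide +kernel⟩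
  right := ⟨179, 12, 13, 6, 3, by decide +kernel⟩
  up := ⟨206, 13, 16, 6, 4, by decide +kernel⟩
  down := ⟨208, 13, 15, 7, 4, by decide +kernel⟩

/-- The windows of `D12`. -/
theorem endD12_ok : endD12.Cert where
  flat := ⟨fun _ _ _ _ => rfl, fun _ _ _ _ => rfl, fun _ _ _ _ => rfl, fun _ _ _ _ => rfl,
    fun _ _ _ _ => rfl, fun _ _ _ _ => rfl⟩
  fits := ⟨by norm_num [endD12], by norm_num [endD12], by norm_num [endD12],
    by norm_num [endD12]⟩
  left := ⟨189, 13, 15, 6, 3, by decide +kernel⟩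
  right := ⟨179, 12, 13, 6, 3, by decide +kernel⟩
  up := ⟨203, 13, 16, 6, 4, by decide +kernel⟩
  down := ⟨207, 13, 15, 7, 4, by decide +kernel⟩

/-- The windows of `D13`. -/
theorem endD13_ok : endD13.Cert where
  flat := ⟨fun _ _ _ _ => rfl, fun _ _ _ _ => rfl, fun _ _ _ _ => rfl, fun _ _ _ _ => rfl,
    fun _ _ _ _ => rfl, fun _ _ _ _ => rfl⟩
  fits := ⟨by norm_num [endD13], by norm_num [endD13], by norm_num [endD13],
    by norm_num [endD13]⟩
  left := ⟨189, 13, 15, 6, 3, by decide +kernel⟩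
  right := ⟨179, 12, 13, 6, 3, by decide +kernel⟩
  up := ⟨205, 13, 16, 6, 4, by decide +kernel⟩
  down := ⟨208, 13, 15, 7, 4, by decide +kernel⟩

/-- The windows of `D14`. -/
theorem endD14_ok : endD14.Cert where
  flat := ⟨fun _ _ _ _ => rfl, fun _ _ _ _ => rfl, fun _ _ _ _ => rfl, fun _ _ _ _ => rfl,
    fun _ _ _ _ => rfl, fun _ _ _ _ => rfl⟩
  fits := ⟨by norm_num [endD14], by norm_num [endD14], by norm_num [endD14],
    by norm_num [endD14]⟩
  left := ⟨189, 13, 15, 6, 3, by decide +kernel⟩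
  right := ⟨180, 12, 13, 6, 3, by decide +kernel⟩
  up := ⟨207, 13, 16, 6, 4, by decide +kernel⟩
  down := ⟨207, 13, 15, 7, 4, by decide +kernel⟩

/-- The windows of `D15`. -/
theorem endD15_ok : endD15.Cert where
  flat := ⟨fun _ _ _ _ => rfl, fun _ _ _ _ => rfl, fun _ _ _ _ => rfl, fun _ _ _ _ => rfl,
    fun _ _ _ _ => rfl, fun _ _ _ _ => rfl⟩
  fits := ⟨by norm_num [endD15], by norm_num [endD15], by norm_num [endD15],
    by norm_num [endD15]⟩
  left := ⟨190, 13, 15, 6, 3, by decide +kernel⟩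
  right := ⟨180, 12, 13, 6, 3, by decide +kernel⟩
  up := ⟨207, 13, 16, 6, 4, by decide +kernel⟩
  down := ⟨209, 13, 15, 7, 4, by decide +kernel⟩

/-- The windows of `D16`. -/
theorem endD16_ok : endD16.Cert where
  flat := ⟨fun _ _ _ _ => rfl, fun _ _ _ _ => rfl, fun _ _ _ _ => rfl, fun _ _ _ _ => rfl,
    fun _ _ _ _ => rfl, fun _ _ _ _ => rfl⟩
  fits := ⟨by norm_num [endD16], by norm_num [endD16], by norm_num [endD16],
    by norm_num [endD16]⟩
  left := ⟨196, 13, 15, 6, 3, by decide +kernel⟩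
  right := ⟨186, 12, 13, 6, 3, by decide +kernel⟩
  up := ⟨214, 13, 16, 6, 4, by decide +kernel⟩
  down := ⟨214, 13, 15, 7, 4, by decide +kernel⟩

/-- The windows of `D17`. -/
theorem endD17_ok : endD17.Cert where
  flat := ⟨fun _ _ _ _ => rfl, fun _ _ _ _ => rfl, fun _ _ _ _ => rfl, fun _ _ _ _ => rfl,
    fun _ _ _ _ => rfl, fun _ _ _ _ => rfl⟩
  fits := ⟨by norm_num [endD17], by norm_num [endD17], by norm_num [endD17],
    by norm_num [endD17]⟩
  left := ⟨266, 13, 15, 6, 3, by decide +kernel⟩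
  right := ⟨247, 12, 13, 6, 3, by decide +kernel⟩
  up := ⟨288, 13, 16, 6, 4, by decide +kernel⟩
  down := ⟨287, 13, 15, 7, 4, by decide +kernel⟩

/-- The windows of `D18`. -/
theorem endD18_ok : endD18.Cert where
  flat := ⟨fun _ _ _ _ => rfl, fun _ _ _ _ => rfl, fun _ _ _ _ => rfl, fun _ _ _ _ => rfl,
    fun _ _ _ _ => rfl, fun _ _ _ _ => rfl⟩
  fits := ⟨by norm_num [endD18], by norm_num [endD18], by norm_num [endD18],
    by norm_num [endD18]⟩
  left := ⟨183, 13, 15, 6, 3, by decide +kernel⟩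
  right := ⟨173, 12, 13, 6, 3, by decide +kernel⟩
  up := ⟨198, 13, 16, 6, 4, by decide +kernel⟩
  down := ⟨200, 13, 15, 7, 4, by decide +kernel⟩

/-- The windows of `D19`. -/
theorem endD19_ok : endD19.Cert where
  flat := ⟨fun _ _ _ _ => rfl, fun _ _ _ _ => rfl, fun _ _ _ _ => rfl, fun _ _ _ _ => rfl,
    fun _ _ _ _ => rfl, fun _ _ _ _ => rfl⟩
  fits := ⟨by norm_num [endD19], by norm_num [endD19], by norm_num [endD19],
    by norm_num [endD19]⟩
  left := ⟨234, 13, 15, 6, 3, by decide +kernel⟩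
  right := ⟨217, 12, 13, 6, 3, by decide +kernel⟩
  up := ⟨255, 13, 16, 6, 4, by decide +kernel⟩
  down := ⟨247, 13, 15, 7, 4, by decide +kernel⟩

/-- The windows of `D20`. -/
theorem endD20_ok : endD20.Cert where
  flat := ⟨fun _ _ _ _ => rfl, fun _ _ _ _ => rfl, fun _ _ _ _ => rfl, fun _ _ _ _ => rfl,
    fun _ _ _ _ => rfl, fun _ _ _ _ => rfl⟩
  fits := ⟨by norm_num [endD20], by norm_num [endD20], by norm_num [endD20],
    by norm_num [endD20]⟩
  left := ⟨219, 13, 15, 6, 3, by decide +kernel⟩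
  right := ⟨204, 12, 13, 6, 3, by decide +kernel⟩
  up := ⟨240, 13, 16, 6, 4, by decide +kernel⟩
  down := ⟨237, 13, 15, 7, 4, by decide +kernel⟩

/-- The windows of `D21`. -/
theorem endD21_ok : endD21.Cert where
  flat := ⟨fun _ _ _ _ => rfl, fun _ _ _ _ => rfl, fun _ _ _ _ => rfl, fun _ _ _ _ => rfl,
    fun _ _ _ _ => rfl, fun _ _ _ _ => rfl⟩
  fits := ⟨by norm_num [endD21], by norm_num [endD21], by norm_num [endD21],
    by norm_num [endD21]⟩
  left := ⟨233, 13, 15, 6, 3, by decide +kernel⟩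
  right := ⟨216, 12, 13, 6, 3, by decide +kernel⟩
  up := ⟨253, 13, 16, 6, 4, by decide +kernel⟩
  down := ⟨249, 13, 15, 7, 4, by decide +kernel⟩

/-- The windows of `D22`. -/
theorem endD22_ok : endD22.Cert where
  flat := ⟨fun _ _ _ _ => rfl, fun _ _ _ _ => rfl, fun _ _ _ _ => rfl, fun _ _ _ _ => rfl,
    fun _ _ _ _ => rfl, fun _ _ _ _ => rfl⟩
  fits := ⟨by norm_num [endD22], by norm_num [endD22], by norm_num [endD22],
    by norm_num [endD22]⟩
  left := ⟨234, 13, 15, 6, 3, by decide +kernel⟩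
  right := ⟨216, 12, 13, 6, 3, by decide +kernel⟩
  up := ⟨256, 13, 16, 6, 4, by decide +kernel⟩
  down := ⟨250, 13, 15, 7, 4, by decide +kernel⟩

/-- The windows of `D23`. -/
theorem endD23_ok : endD23.Cert where
  flat := ⟨fun _ _ _ _ => rfl, fun _ _ _ _ => rfl, fun _ _ _ _ => rfl, fun _ _ _ _ => rfl,
    fun _ _ _ _ => rfl, fun _ _ _ _ => rfl⟩
  fits := ⟨by norm_num [endD23], by norm_num [endD23], by norm_num [endD23],
    by norm_num [endD23]⟩
  left := ⟨219, 13, 15, 6, 3, by decide +kernel⟩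
  right := ⟨203, 12, 13, 6, 3, by decide +kernel⟩
  up := ⟨237, 13, 16, 6, 4, by decide +kernel⟩
  down := ⟨238, 13, 15, 7, 4, by decide +kernel⟩

/-- The windows of `D24`. -/
theorem endD24_ok : endD24.Cert where
  flat := ⟨fun _ _ _ _ => rfl, fun _ _ _ _ => rfl, fun _ _ _ _ => rfl, fun _ _ _ _ => rfl,
    fun _ _ _ _ => rfl, fun _ _ _ _ => rfl⟩
  fits := ⟨by norm_num [endD24], by norm_num [endD24], by norm_num [endD24],
    by norm_num [endD24]⟩
  left := ⟨219, 13, 15, 6, 3, by decide +kernel⟩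
  right := ⟨203, 12, 13, 6, 3, by decide +kernel⟩
  up := ⟨238, 13, 16, 6, 4, by decide +kernel⟩
  down := ⟨237, 13, 15, 7, 4, by decide +kernel⟩

/-- The windows of `D25`. -/
theorem endD25_ok : endD25.Cert where
  flat := ⟨fun _ _ _ _ => rfl, fun _ _ _ _ => rfl, fun _ _ _ _ => rfl, fun _ _ _ _ => rfl,
    fun _ _ _ _ => rfl, fun _ _ _ _ => rfl⟩
  fits := ⟨by norm_num [endD25], by norm_num [endD25], by norm_num [endD25],
    by norm_num [endD25]⟩
  left := ⟨188, 13, 15, 6, 3, by decide +kernel⟩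
  right := ⟨177, 12, 13, 6, 3, by decide +kernel⟩
  up := ⟨206, 13, 16, 6, 4, by decide +kernel⟩
  down := ⟨205, 13, 15, 7, 4, by decide +kernel⟩

/-- The windows of `D26`. -/
theorem endD26_ok : endD26.Cert where
  flat := ⟨fun _ _ _ _ => rfl, fun _ _ _ _ => rfl, fun _ _ _ _ => rfl, fun _ _ _ _ => rfl,
    fun _ _ _ _ => rfl, fun _ _ _ _ => rfl⟩
  fits := ⟨by norm_num [endD26], by norm_num [endD26], by norm_num [endD26],
    by norm_num [endD26]⟩
  left := ⟨278, 13, 15, 6, 3, by decide +kernel⟩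
  right := ⟨258, 12, 13, 6, 3, by decide +kernel⟩
  up := ⟨301, 13, 16, 6, 4, by decide +kernel⟩
  down := ⟨298, 13, 15, 7, 4, by decide +kernel⟩

/-- The windows of `D27`. -/
theorem endD27_ok : endD27.Cert where
  flat := ⟨fun _ _ _ _ => rfl, fun _ _ _ _ => rfl, fun _ _ _ _ => rfl, fun _ _ _ _ => rfl,
    fun _ _ _ _ => rfl, fun _ _ _ _ => rfl⟩
  fits := ⟨by norm_num [endD27], by norm_num [endD27], by norm_num [endD27],
    by norm_num [endD27]⟩
  left := ⟨188, 13, 15, 6, 3, by decide +kernel⟩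
  right := ⟨177, 12, 13, 6, 3, by decide +kernel⟩
  up := ⟨204, 13, 16, 6, 4, by decide +kernel⟩
  down := ⟨203, 13, 15, 7, 4, by decide +kernel⟩

/-- The windows of `D28`. -/
theorem endD28_ok : endD28.Cert where
  flat := ⟨fun _ _ _ _ => rfl, fun _ _ _ _ => rfl, fun _ _ _ _ => rfl, fun _ _ _ _ => rfl,
    fun _ _ _ _ => rfl, fun _ _ _ _ => rfl⟩
  fits := ⟨by norm_num [endD28], by norm_num [endD28], by norm_num [endD28],
    by norm_num [endD28]⟩
  left := ⟨189, 13, 15, 6, 3, by decide +kernel⟩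
  right := ⟨177, 12, 13, 6, 3, by decide +kernel⟩
  up := ⟨204, 13, 16, 6, 4, by decide +kernel⟩
  down := ⟨205, 13, 15, 7, 4, by decide +kernel⟩

/-- The windows of `D29`. -/
theorem endD29_ok : endD29.Cert where
  flat := ⟨fun _ _ _ _ => rfl, fun _ _ _ _ => rfl, fun _ _ _ _ => rfl, fun _ _ _ _ => rfl,
    fun _ _ _ _ => rfl, fun _ _ _ _ => rfl⟩
  fits := ⟨by norm_num [endD29], by norm_num [endD29], by norm_num [endD29],
    by norm_num [endD29]⟩
  left := ⟨258, 13, 15, 6, 3, by decide +kernel⟩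
  right := ⟨238, 12, 13, 6, 3, by decide +kernel⟩
  up := ⟨278, 13, 16, 6, 4, by decide +kernel⟩
  down := ⟨275, 13, 15, 7, 4, by decide +kernel⟩

/-- The windows of `D30`. -/
theorem endD30_ok : endD30.Cert where
  flat := ⟨fun _ _ _ _ => rfl, fun _ _ _ _ => rfl, fun _ _ _ _ => rfl, fun _ _ _ _ => rfl,
    fun _ _ _ _ => rfl, fun _ _ _ _ => rfl⟩
  fits := ⟨by norm_num [endD30], by norm_num [endD30], by norm_num [endD30],
    by norm_num [endD30]⟩
  left := ⟨279, 13, 15, 6, 3, by decide +kernel⟩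
  right := ⟨258, 12, 13, 6, 3, by decide +kernel⟩
  up := ⟨298, 13, 16, 6, 4, by decide +kernel⟩
  down := ⟨300, 13, 15, 7, 4, by decide +kernel⟩

/-- The windows of `D31`. -/
theorem endD31_ok : endD31.Cert where
  flat := ⟨fun _ _ _ _ => rfl, fun _ _ _ _ => rfl, fun _ _ _ _ => rfl, fun _ _ _ _ => rfl,
    fun _ _ _ _ => rfl, fun _ _ _ _ => rfl⟩
  fits := ⟨by norm_num [endD31], by norm_num [endD31], by norm_num [endD31],
    by norm_num [endD31]⟩
  left := ⟨213, 13, 15, 6, 3, by decide +kernel⟩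
  right := ⟨201, 12, 13, 6, 3, by decide +kernel⟩
  up := ⟨232, 13, 16, 6, 4, by decide +kernel⟩
  down := ⟨234, 13, 15, 7, 4, by decide +kernel⟩

/-- The windows of `D32`. -/
theorem endD32_ok : endD32.Cert where
  flat := ⟨fun _ _ _ _ => rfl, fun _ _ _ _ => rfl, fun _ _ _ _ => rfl, fun _ _ _ _ => rfl,
    fun _ _ _ _ => rfl, fun _ _ _ _ => rfl⟩
  fits := ⟨by norm_num [endD32], by norm_num [endD32], by norm_num [endD32],
    by norm_num [endD32]⟩
  left := ⟨341, 13, 15, 6, 3, by decide +kernel⟩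
  right := ⟨313, 12, 13, 6, 3, by decide +kernel⟩
  up := ⟨366, 13, 16, 6, 4, by decide +kernel⟩
  down := ⟨361, 13, 15, 7, 4, by decide +kernel⟩

/-- The windows of `D33`. -/
theorem endD33_ok : endD33.Cert where
  flat := ⟨fun _ _ _ _ => rfl, fun _ _ _ _ => rfl, fun _ _ _ _ => rfl, fun _ _ _ _ => rfl,
    fun _ _ _ _ => rfl, fun _ _ _ _ => rfl⟩
  fits := ⟨by norm_num [endD33], by norm_num [endD33], by norm_num [endD33],
    by norm_num [endD33]⟩
  left := ⟨341, 13, 15, 6, 3, by decide +kernel⟩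
  right := ⟨313, 12, 13, 6, 3, by decide +kernel⟩
  up := ⟨365, 13, 16, 6, 4, by decide +kernel⟩
  down := ⟨361, 13, 15, 7, 4, by decide +kernel⟩

/-- The windows of `D34`. -/
theorem endD34_ok : endD34.Cert where
  flat := ⟨fun _ _ _ _ => rfl, fun _ _ _ _ => rfl, fun _ _ _ _ => rfl, fun _ _ _ _ => rfl,
    fun _ _ _ _ => rfl, fun _ _ _ _ => rfl⟩
  fits := ⟨by norm_num [endD34], by norm_num [endD34], by norm_num [endD34],
    by norm_num [endD34]⟩
  left := ⟨194, 13, 15, 6, 3, by decide +kernel⟩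
  right := ⟨182, 12, 13, 6, 3, by decide +kernel⟩
  up := ⟨210, 13, 16, 6, 4, by decide +kernel⟩
  down := ⟨209, 13, 15, 7, 4, by decide +kernel⟩

/-- The windows of `D35`. -/
theorem endD35_ok : endD35.Cert where
  flat := ⟨fun _ _ _ _ => rfl, fun _ _ _ _ => rfl, fun _ _ _ _ => rfl, fun _ _ _ _ => rfl,
    fun _ _ _ _ => rfl, fun _ _ _ _ => rfl⟩
  fits := ⟨by norm_num [endD35], by norm_num [endD35], by norm_num [endD35],
    by norm_num [endD35]⟩
  left := ⟨194, 13, 15, 6, 3, by decide +kernel⟩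
  right := ⟨182, 12, 13, 6, 3, by decide +kernel⟩
  up := ⟨210, 13, 16, 6, 4, by decide +kernel⟩
  down := ⟨212, 13, 15, 7, 4, by decide +kernel⟩

/-- The windows of `D36`. -/
theorem endD36_ok : endD36.Cert where
  flat := ⟨fun _ _ _ _ => rfl, fun _ _ _ _ => rfl, fun _ _ _ _ => rfl, fun _ _ _ _ => rfl,
    fun _ _ _ _ => rfl, fun _ _ _ _ => rfl⟩
  fits := ⟨by norm_num [endD36], by norm_num [endD36], by norm_num [endD36],
    by norm_num [endD36]⟩
  left := ⟨321, 13, 15, 6, 3, by decide +kernel⟩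
  right := ⟨293, 12, 13, 6, 3, by decide +kernel⟩
  up := ⟨345, 13, 16, 6, 4, by decide +kernel⟩
  down := ⟨340, 13, 15, 7, 4, by decide +kernel⟩

/-- The windows of `D37`. -/
theorem endD37_ok : endD37.Cert where
  flat := ⟨fun _ _ _ _ => rfl, fun _ _ _ _ => rfl, fun _ _ _ _ => rfl, fun _ _ _ _ => rfl,
    fun _ _ _ _ => rfl, fun _ _ _ _ => rfl⟩
  fits := ⟨by norm_num [endD37], by norm_num [endD37], by norm_num [endD37],
    by norm_num [endD37]⟩
  left := ⟨322, 13, 15, 6, 3, by decide +kernel⟩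
  right := ⟨293, 12, 13, 6, 3, by decide +kernel⟩
  up := ⟨341, 13, 16, 6, 4, by decide +kernel⟩
  down := ⟨340, 13, 15, 7, 4, by decide +kernel⟩

/-- The windows of `D38`. -/
theorem endD38_ok : endD38.Cert where
  flat := ⟨fun _ _ _ _ => rfl, fun _ _ _ _ => rfl, fun _ _ _ _ => rfl, fun _ _ _ _ => rfl,
    fun _ _ _ _ => rfl, fun _ _ _ _ => rfl⟩
  fits := ⟨by norm_num [endD38], by norm_num [endD38], by norm_num [endD38],
    by norm_num [endD38]⟩
  left := ⟨342, 13, 15, 6, 3, by decide +kernel⟩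
  right := ⟨313, 12, 13, 6, 3, by decide +kernel⟩
  up := ⟨365, 13, 16, 6, 4, by decide +kernel⟩
  down := ⟨363, 13, 15, 7, 4, by decide +kernel⟩

/-- The windows of `D39`. -/
theorem endD39_ok : endD39.Cert where
  flat := ⟨fun _ _ _ _ => rfl, fun _ _ _ _ => rfl, fun _ _ _ _ => rfl, fun _ _ _ _ => rfl,
    fun _ _ _ _ => rfl, fun _ _ _ _ => rfl⟩
  fits := ⟨by norm_num [endD39], by norm_num [endD39], by norm_num [endD39],
    by norm_num [endD39]⟩
  left := ⟨322, 13, 15, 6, 3, by decide +kernel⟩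
  right := ⟨293, 12, 13, 6, 3, by decide +kernel⟩
  up := ⟨345, 13, 16, 6, 4, by decide +kernel⟩
  down := ⟨341, 13, 15, 7, 4, by decide +kernel⟩

/-- The windows of `D40`. -/
theorem endD40_ok : endD40.Cert where
  flat := ⟨fun _ _ _ _ => rfl, fun _ _ _ _ => rfl, fun _ _ _ _ => rfl, fun _ _ _ _ => rfl,
    fun _ _ _ _ => rfl, fun _ _ _ _ => rfl⟩
  fits := ⟨by norm_num [endD40], by norm_num [endD40], by norm_num [endD40],
    by norm_num [endD40]⟩
  left := ⟨268, 13, 15, 6, 3, by decide +kernel⟩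
  right := ⟨249, 12, 13, 6, 3, by decide +kernel⟩
  up := ⟨287, 13, 16, 6, 4, by decide +kernel⟩
  down := ⟨288, 13, 15, 7, 4, by decide +kernel⟩

/-- The windows of `D41`. -/
theorem endD41_ok : endD41.Cert where
  flat := ⟨fun _ _ _ _ => rfl, fun _ _ _ _ => rfl, fun _ _ _ _ => rfl, fun _ _ _ _ => rfl,
    fun _ _ _ _ => rfl, fun _ _ _ _ => rfl⟩
  fits := ⟨by norm_num [endD41], by norm_num [endD41], by norm_num [endD41],
    by norm_num [endD41]⟩
  left := ⟨268, 13, 15, 6, 3, by decide +kernel⟩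
  right := ⟨249, 12, 13, 6, 3, by decide +kernel⟩
  up := ⟨286, 13, 16, 6, 4, by decide +kernel⟩
  down := ⟨286, 13, 15, 7, 4, by decide +kernel⟩

/-- The windows of `D42`. -/
theorem endD42_ok : endD42.Cert where
  flat := ⟨fun _ _ _ _ => rfl, fun _ _ _ _ => rfl, fun _ _ _ _ => rfl, fun _ _ _ _ => rfl,
    fun _ _ _ _ => rfl, fun _ _ _ _ => rfl⟩
  fits := ⟨by norm_num [endD42], by norm_num [endD42], by norm_num [endD42],
    by norm_num [endD42]⟩
  left := ⟨248, 13, 15, 6, 3, by decide +kernel⟩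
  right := ⟨229, 12, 13, 6, 3, by decide +kernel⟩
  up := ⟨267, 13, 16, 6, 4, by decide +kernel⟩
  down := ⟨266, 13, 15, 7, 4, by decide +kernel⟩

/-- The windows of `D43`. -/
theorem endD43_ok : endD43.Cert where
  flat := ⟨fun _ _ _ _ => rfl, fun _ _ _ _ => rfl, fun _ _ _ _ => rfl, fun _ _ _ _ => rfl,
    fun _ _ _ _ => rfl, fun _ _ _ _ => rfl⟩
  fits := ⟨by norm_num [endD43], by norm_num [endD43], by norm_num [endD43],
    by norm_num [endD43]⟩
  left := ⟨268, 13, 15, 6, 3, by decide +kernel⟩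
  right := ⟨249, 12, 13, 6, 3, by decide +kernel⟩
  up := ⟨288, 13, 16, 6, 4, by decide +kernel⟩
  down := ⟨286, 13, 15, 7, 4, by decide +kernel⟩

/-- The windows of `D44`. -/
theorem endD44_ok : endD44.Cert where
  flat := ⟨fun _ _ _ _ => rfl, fun _ _ _ _ => rfl, fun _ _ _ _ => rfl, fun _ _ _ _ => rfl,
    fun _ _ _ _ => rfl, fun _ _ _ _ => rfl⟩
  fits := ⟨by norm_num [endD44], by norm_num [endD44], by norm_num [endD44],
    by norm_num [endD44]⟩
  left := ⟨248, 13, 15, 6, 3, by decide +kernel⟩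
  right := ⟨229, 12, 13, 6, 3, by decide +kernel⟩
  up := ⟨269, 13, 16, 6, 4, by decide +kernel⟩
  down := ⟨265, 13, 15, 7, 4, by decide +kernel⟩

/-- The windows of `D45`. -/
theorem endD45_ok : endD45.Cert where
  flat := ⟨fun _ _ _ _ => rfl, fun _ _ _ _ => rfl, fun _ _ _ _ => rfl, fun _ _ _ _ => rfl,
    fun _ _ _ _ => rfl, fun _ _ _ _ => rfl⟩
  fits := ⟨by norm_num [endD45], by norm_num [endD45], by norm_num [endD45],
    by norm_num [endD45]⟩
  left := ⟨269, 13, 15, 6, 3, by decide +kernel⟩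
  right := ⟨249, 12, 13, 6, 3, by decide +kernel⟩
  up := ⟨288, 13, 16, 6, 4, by decide +kernel⟩
  down := ⟨288, 13, 15, 7, 4, by decide +kernel⟩

/-- The windows of `D46`. -/
theorem endD46_ok : endD46.Cert where
  flat := ⟨fun _ _ _ _ => rfl, fun _ _ _ _ => rfl, fun _ _ _ _ => rfl, fun _ _ _ _ => rfl,
    fun _ _ _ _ => rfl, fun _ _ _ _ => rfl⟩
  fits := ⟨by norm_num [endD46], by norm_num [endD46], by norm_num [endD46],
    by norm_num [endD46]⟩
  left := ⟨328, 13, 15, 6, 3, by decide +kernel⟩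
  right := ⟨301, 12, 13, 6, 3, by decide +kernel⟩
  up := ⟨351, 13, 16, 6, 4, by decide +kernel⟩
  down := ⟨347, 13, 15, 7, 4, by decide +kernel⟩

/-- The windows of `D47`. -/
theorem endD47_ok : endD47.Cert where
  flat := ⟨fun _ _ _ _ => rfl, fun _ _ _ _ => rfl, fun _ _ _ _ => rfl, fun _ _ _ _ => rfl,
    fun _ _ _ _ => rfl, fun _ _ _ _ => rfl⟩
  fits := ⟨by norm_num [endD47], by norm_num [endD47], by norm_num [endD47],
    by norm_num [endD47]⟩
  left := ⟨213, 13, 15, 6, 3, by decide +kernel⟩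
  right := ⟨201, 12, 13, 6, 3, by decide +kernel⟩
  up := ⟨232, 13, 16, 6, 4, by decide +kernel⟩
  down := ⟨233, 13, 15, 7, 4, by decide +kernel⟩

/-- The windows of `D48`. -/
theorem endD48_ok : endD48.Cert where
  flat := ⟨fun _ _ _ _ => rfl, fun _ _ _ _ => rfl, fun _ _ _ _ => rfl, fun _ _ _ _ => rfl,
    fun _ _ _ _ => rfl, fun _ _ _ _ => rfl⟩
  fits := ⟨by norm_num [endD48], by norm_num [endD48], by norm_num [endD48],
    by norm_num [endD48]⟩
  left := ⟨341, 13, 15, 6, 3, by decide +kernel⟩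
  right := ⟨313, 12, 13, 6, 3, by decide +kernel⟩
  up := ⟨366, 13, 16, 6, 4, by decide +kernel⟩
  down := ⟨360, 13, 15, 7, 4, by decide +kernel⟩

/-- The windows of `D49`. -/
theorem endD49_ok : endD49.Cert where
  flat := ⟨fun _ _ _ _ => rfl, fun _ _ _ _ => rfl, fun _ _ _ _ => rfl, fun _ _ _ _ => rfl,
    fun _ _ _ _ => rfl, fun _ _ _ _ => rfl⟩
  fits := ⟨by norm_num [endD49], by norm_num [endD49], by norm_num [endD49],
    by norm_num [endD49]⟩
  left := ⟨341, 13, 15, 6, 3, by decide +kernel⟩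
  right := ⟨313, 12, 13, 6, 3, by decide +kernel⟩
  up := ⟨365, 13, 16, 6, 4, by decide +kernel⟩
  down := ⟨360, 13, 15, 7, 4, by decide +kernel⟩

/-- The windows of `D50`. -/
theorem endD50_ok : endD50.Cert where
  flat := ⟨fun _ _ _ _ => rfl, fun _ _ _ _ => rfl, fun _ _ _ _ => rfl, fun _ _ _ _ => rfl,
    fun _ _ _ _ => rfl, fun _ _ _ _ => rfl⟩
  fits := ⟨by norm_num [endD50], by norm_num [endD50], by norm_num [endD50],
    by norm_num [endD50]⟩
  left := ⟨317, 13, 15, 6, 3, by decide +kernel⟩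
  right := ⟨292, 12, 13, 6, 3, by decide +kernel⟩
  up := ⟨342, 13, 16, 6, 4, by decide +kernel⟩
  down := ⟨337, 13, 15, 7, 4, by decide +kernel⟩

/-- The windows of `D51`. -/
theorem endD51_ok : endD51.Cert where
  flat := ⟨fun _ _ _ _ => rfl, fun _ _ _ _ => rfl, fun _ _ _ _ => rfl, fun _ _ _ _ => rfl,
    fun _ _ _ _ => rfl, fun _ _ _ _ => rfl⟩
  fits := ⟨by norm_num [endD51], by norm_num [endD51], by norm_num [endD51],
    by norm_num [endD51]⟩
  left := ⟨333, 13, 15, 6, 3, by decide +kernel⟩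
  right := ⟨305, 12, 13, 6, 3, by decide +kernel⟩
  up := ⟨355, 13, 16, 6, 4, by decide +kernel⟩
  down := ⟨352, 13, 15, 7, 4, by decide +kernel⟩

/-- The windows of `D52`. -/
theorem endD52_ok : endD52.Cert where
  flat := ⟨fun _ _ _ _ => rfl, fun _ _ _ _ => rfl, fun _ _ _ _ => rfl, fun _ _ _ _ => rfl,
    fun _ _ _ _ => rfl, fun _ _ _ _ => rfl⟩
  fits := ⟨by norm_num [endD52], by norm_num [endD52], by norm_num [endD52],
    by norm_num [endD52]⟩
  left := ⟨223, 13, 15, 6, 3, by decide +kernel⟩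
  right := ⟨210, 12, 13, 6, 3, by decide +kernel⟩
  up := ⟨241, 13, 16, 6, 4, by decide +kernel⟩
  down := ⟨242, 13, 15, 7, 4, by decide +kernel⟩

/-- The windows of `D53`. -/
theorem endD53_ok : endD53.Cert where
  flat := ⟨fun _ _ _ _ => rfl, fun _ _ _ _ => rfl, fun _ _ _ _ => rfl, fun _ _ _ _ => rfl,
    fun _ _ _ _ => rfl, fun _ _ _ _ => rfl⟩
  fits := ⟨by norm_num [endD53], by norm_num [endD53], by norm_num [endD53],
    by norm_num [endD53]⟩
  left := ⟨224, 13, 15, 6, 3, by decide +kernel⟩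
  right := ⟨210, 12, 13, 6, 3, by decide +kernel⟩
  up := ⟨240, 13, 16, 6, 4, by decide +kernel⟩
  down := ⟨238, 13, 15, 7, 4, by decide +kernel⟩

/-- The windows of `D54`. -/
theorem endD54_ok : endD54.Cert where
  flat := ⟨fun _ _ _ _ => rfl, fun _ _ _ _ => rfl, fun _ _ _ _ => rfl, fun _ _ _ _ => rfl,
    fun _ _ _ _ => rfl, fun _ _ _ _ => rfl⟩
  fits := ⟨by norm_num [endD54], by norm_num [endD54], by norm_num [endD54],
    by norm_num [endD54]⟩
  left := ⟨289, 13, 15, 6, 3, by decide +kernel⟩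
  right := ⟨267, 12, 13, 6, 3, by decide +kernel⟩
  up := ⟨312, 13, 16, 6, 4, by decide +kernel⟩
  down := ⟨303, 13, 15, 7, 4, by decide +kernel⟩

/-- The windows of `D55`. -/
theorem endD55_ok : endD55.Cert where
  flat := ⟨fun _ _ _ _ => rfl, fun _ _ _ _ => rfl, fun _ _ _ _ => rfl, fun _ _ _ _ => rfl,
    fun _ _ _ _ => rfl, fun _ _ _ _ => rfl⟩
  fits := ⟨by norm_num [endD55], by norm_num [endD55], by norm_num [endD55],
    by norm_num [endD55]⟩
  left := ⟨163, 13, 15, 6, 3, by decide +kernel⟩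
  right := ⟨158, 12, 13, 6, 3, by decide +kernel⟩
  up := ⟨179, 13, 16, 6, 4, by decide +kernel⟩
  down := ⟨184, 13, 15, 7, 4, by decide +kernel⟩

/-- The windows of `D56`. -/
theorem endD56_ok : endD56.Cert where
  flat := ⟨fun _ _ _ _ => rfl, fun _ _ _ _ => rfl, fun _ _ _ _ => rfl, fun _ _ _ _ => rfl,
    fun _ _ _ _ => rfl, fun _ _ _ _ => rfl⟩
  fits := ⟨by norm_num [endD56], by norm_num [endD56], by norm_num [endD56],
    by norm_num [endD56]⟩
  left := ⟨195, 13, 15, 6, 3, by decide +kernel⟩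
  right := ⟨187, 12, 13, 6, 3, by decide +kernel⟩
  up := ⟨214, 13, 16, 6, 4, by decide +kernel⟩
  down := ⟨213, 13, 15, 7, 4, by decide +kernel⟩

/-- The windows of `D57`. -/
theorem endD57_ok : endD57.Cert where
  flat := ⟨fun _ _ _ _ => rfl, fun _ _ _ _ => rfl, fun _ _ _ _ => rfl, fun _ _ _ _ => rfl,
    fun _ _ _ _ => rfl, fun _ _ _ _ => rfl⟩
  fits := ⟨by norm_num [endD57], by norm_num [endD57], by norm_num [endD57],
    by norm_num [endD57]⟩
  left := ⟨296, 13, 15, 6, 3, by decide +kernel⟩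
  right := ⟨273, 12, 13, 6, 3, by decide +kernel⟩
  up := ⟨320, 13, 16, 6, 4, by decide +kernel⟩
  down := ⟨317, 13, 15, 7, 4, by decide +kernel⟩

end Vale.Agent.P100.Calib.StripEnd
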