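import Vale.Agent.P100.Calib.SlabStripEndWinCheckA
import Vale.Agent.P100.Calib.SlabStripEndWinCheckB

/-!
# Every point near `u = 1` has a chart
-/

set_option linter.unusedVariables false

namespace Vale.Agent.P100.Calib.StripEnd

open Pack Pack.Ex Band StripMid

local instance endPlaceAdd : Add Ex := ⟨Ex.add⟩
local instance endPlaceSub : Sub Ex := ⟨Ex.sub⟩
local instance endPlaceMul : Mul Ex := ⟨Ex.mul⟩

/-- A chart with a point over `(a, b, u, v, H)`, and the side of `D2`. -/
inductive EndPlace (a b u v H : ℝ) : Prop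
  | cIAt (x : ℕ → ℝ) (hx : endIAt.Point x a b u v H)
      (hk : (b - a) * (1 - allStabI a b) ≤ (a + b) * allStabI a b)
  | cIAu (x : ℕ → ℝ) (hx : endIAu.Point x a b u v H)
      (hk : (b - a) * (1 - allStabI a b) ≤ (a + b) * allStabI a b)
  | cIBt (x : ℕ → ℝ) (hx : endIBt.Point x a b u v H)
      (hk : (b - a) * (1 - allStabI a b) ≤ (a + b) * allStabI a b)
  | cIBu (x : ℕ → ℝ) (hx : endIBu.Point x a b u v H)
      (hk : (b - a) * (1 - allStabI a b) ≤ (a + b) * allStabI a b)
  | cICt (x : ℕ → ℝ) (hx : endICt.Point x a b u v H)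
      (hk : (b - a) * (1 - allStabI a b) ≤ (a + b) * allStabI a b)
  | cICu (x : ℕ → ℝ) (hx : endICu.Point x a b u v H)
      (hk : (b - a) * (1 - allStabI a b) ≤ (a + b) * allStabI a b)
  | cIDp (x : ℕ → ℝ) (hx : endIDp.Point x a b u v H)
      (hk : (b - a) * (1 - allStabI a b) ≤ (a + b) * allStabI a b)
  | cIDq (x : ℕ → ℝ) (hx : endIDq.Point x a b u v H)
      (hk : (b - a) * (1 - allStabI a b) ≤ (a + b) * allStabI a b)
  | cIDr (x : ℕ → ℝ) (hx : endIDr.Point x a b u v H)
      (hk : (b - a) * (1 - allStabI a b) ≤ (a + b) * allStabI a b)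
  | cIDu (x : ℕ → ℝ) (hx : endIDu.Point x a b u v H)
      (hk : (b - a) * (1 - allStabI a b) ≤ (a + b) * allStabI a b)
  | cIEp (x : ℕ → ℝ) (hx : endIEp.Point x a b u v H)
      (hk : (a + b) * allStabI a b ≤ (b - a) * (1 - allStabI a b))
  | cIEq (x : ℕ → ℝ) (hx : endIEq.Point x a b u v H)
      (hk : (a + b) * allStabI a b ≤ (b - a) * (1 - allStabI a b))
  | cIEu (x : ℕ → ℝ) (hx : endIEu.Point x a b u v H)
      (hk : (a + b) * allStabI a b ≤ (b - a) * (1 - allStabI a b))
  | cIFp (x : ℕ → ℝ) (hx : endIFp.Point x a b u v H)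
      (hk : (a + b) * allStabI a b ≤ (b - a) * (1 - allStabI a b))
  | cIFq (x : ℕ → ℝ) (hx : endIFq.Point x a b u v H)
      (hk : (a + b) * allStabI a b ≤ (b - a) * (1 - allStabI a b))
  | cIFg (x : ℕ → ℝ) (hx : endIFg.Point x a b u v H)
      (hk : (a + b) * allStabI a b ≤ (b - a) * (1 - allStabI a b))
  | cIFh (x : ℕ → ℝ) (hx : endIFh.Point x a b u v H)
      (hk : (a + b) * allStabI a b ≤ (b - a) * (1 - allStabI a b))
  | cIGt (x : ℕ → ℝ) (hx : endIGt.Point x a b u v H)
      (hk : (a + b) * allStabI a b ≤ (b - a) * (1 - allStabI a b))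
  | cIGu (x : ℕ → ℝ) (hx : endIGu.Point x a b u v H)
      (hk : (a + b) * allStabI a b ≤ (b - a) * (1 - allStabI a b))
  | cZA (x : ℕ → ℝ) (hx : endZA.Point x a b u v H)
      (hk : (b - a) * (1 - allStabI a b) ≤ (a + b) * allStabI a b)
  | cZB (x : ℕ → ℝ) (hx : endZB.Point x a b u v H)
      (hk : (b - a) * (1 - allStabI a b) ≤ (a + b) * allStabI a b)
  | cCA (x : ℕ → ℝ) (hx : endCA.Point x a b u v H)
      (hk : (a + b) * allStabI a b ≤ (b - a) * (1 - allStabI a b))
  | cCB (x : ℕ → ℝ) (hx : endCB.Point x a b u v H)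
      (hk : (a + b) * allStabI a b ≤ (b - a) * (1 - allStabI a b))
  | cD00 (x : ℕ → ℝ) (hx : endD00.Point x a b u v H)
      (hk : (a + b) * allStabI a b ≤ (b - a) * (1 - allStabI a b))
  | cD01 (x : ℕ → ℝ) (hx : endD01.Point x a b u v H)
      (hk : (a + b) * allStabI a b ≤ (b - a) * (1 - allStabI a b))
  | cD02 (x : ℕ → ℝ) (hx : endD02.Point x a b u v H)
      (hk : (a + b) * allStabI a b ≤ (b - a) * (1 - allStabI a b))
  | cD03 (x : ℕ → ℝ) (hx : endD03.Point x a b u v H)
      (hk : (a + b) * allStabI a b ≤ (b - a) * (1 - allStabI a b))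
  | cD04 (x : ℕ → ℝ) (hx : endD04.Point x a b u v H)
      (hk : (a + b) * allStabI a b ≤ (b - a) * (1 - allStabI a b))
  | cD05 (x : ℕ → ℝ) (hx : endD05.Point x a b u v H)
      (hk : (a + b) * allStabI a b ≤ (b - a) * (1 - allStabI a b))
  | cD06 (x : ℕ → ℝ) (hx : endD06.Point x a b u v H)
      (hk : (a + b) * allStabI a b ≤ (b - a) * (1 - allStabI a b))
  | cD07 (x : ℕ → ℝ) (hx : endD07.Point x a b u v H)
      (hk : (a + b) * allStabI a b ≤ (b - a) * (1 - allStabI a b))
  | cD08 (x : ℕ → ℝ) (hx : endD08.Point x a b u v H)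
      (hk : (a + b) * allStabI a b ≤ (b - a) * (1 - allStabI a b))
  | cD09 (x : ℕ → ℝ) (hx : endD09.Point x a b u v H)
      (hk : (a + b) * allStabI a b ≤ (b - a) * (1 - allStabI a b))
  | cD10 (x : ℕ → ℝ) (hx : endD10.Point x a b u v H)
      (hk : (a + b) * allStabI a b ≤ (b - a) * (1 - allStabI a b))
  | cD11 (x : ℕ → ℝ) (hx : endD11.Point x a b u v H)
      (hk : (a + b) * allStabI a b ≤ (b - a) * (1 - allStabI a b))
  | cD12 (x : ℕ → ℝ) (hx : endD12.Point x a b u v H)
      (hk : (a + b) * allStabI a b ≤ (b - a) * (1 - allStabI a b))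
  | cD13 (x : ℕ → ℝ) (hx : endD13.Point x a b u v H)
      (hk : (a + b) * allStabI a b ≤ (b - a) * (1 - allStabI a b))
  | cD14 (x : ℕ → ℝ) (hx : endD14.Point x a b u v H)
      (hk : (a + b) * allStabI a b ≤ (b - a) * (1 - allStabI a b))
  | cD15 (x : ℕ → ℝ) (hx : endD15.Point x a b u v H)
      (hk : (a + b) * allStabI a b ≤ (b - a) * (1 - allStabI a b))
  | cD16 (x : ℕ → ℝ) (hx : endD16.Point x a b u v H)
      (hk : (a + b) * allStabI a b ≤ (b - a) * (1 - allStabI a b))
  | cD17 (x : ℕ → ℝ) (hx : endD17.Point x a b u v H)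
      (hk : (a + b) * allStabI a b ≤ (b - a) * (1 - allStabI a b))
  | cD18 (x : ℕ → ℝ) (hx : endD18.Point x a b u v H)
      (hk : (a + b) * allStabI a b ≤ (b - a) * (1 - allStabI a b))
  | cD19 (x : ℕ → ℝ) (hx : endD19.Point x a b u v H)
      (hk : (a + b) * allStabI a b ≤ (b - a) * (1 - allStabI a b))
  | cD20 (x : ℕ → ℝ) (hx : endD20.Point x a b u v H)
      (hk : (a + b) * allStabI a b ≤ (b - a) * (1 - allStabI a b))
  | cD21 (x : ℕ → ℝ) (hx : endD21.Point x a b u v H)
      (hk : (a + b) * allStabI a b ≤ (b - a) * (1 - allStabI a b))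
  | cD22 (x : ℕ → ℝ) (hx : endD22.Point x a b u v H)
      (hk : (a + b) * allStabI a b ≤ (b - a) * (1 - allStabI a b))
  | cD23 (x : ℕ → ℝ) (hx : endD23.Point x a b u v H)
      (hk : (a + b) * allStabI a b ≤ (b - a) * (1 - allStabI a b))
  | cD24 (x : ℕ → ℝ) (hx : endD24.Point x a b u v H)
      (hk : (a + b) * allStabI a b ≤ (b - a) * (1 - allStabI a b))
  | cD25 (x : ℕ → ℝ) (hx : endD25.Point x a b u v H)
      (hk : (a + b) * allStabI a b ≤ (b - a) * (1 - allStabI a b))
  | cD26 (x : ℕ → ℝ) (hx : endD26.Point x a b u v H)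
      (hk : (a + b) * allStabI a b ≤ (b - a) * (1 - allStabI a b))
  | cD27 (x : ℕ → ℝ) (hx : endD27.Point x a b u v H)
      (hk : (a + b) * allStabI a b ≤ (b - a) * (1 - allStabI a b))
  | cD28 (x : ℕ → ℝ) (hx : endD28.Point x a b u v H)
      (hk : (a + b) * allStabI a b ≤ (b - a) * (1 - allStabI a b))
  | cD29 (x : ℕ → ℝ) (hx : endD29.Point x a b u v H)
      (hk : (a + b) * allStabI a b ≤ (b - a) * (1 - allStabI a b))
  | cD30 (x : ℕ → ℝ) (hx : endD30.Point x a b u v H)
      (hk : (a + b) * allStabI a b ≤ (b - a) * (1 - allStabI a b))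
  | cD31 (x : ℕ → ℝ) (hx : endD31.Point x a b u v H)
      (hk : (a + b) * allStabI a b ≤ (b - a) * (1 - allStabI a b))
  | cD32 (x : ℕ → ℝ) (hx : endD32.Point x a b u v H)
      (hk : (a + b) * allStabI a b ≤ (b - a) * (1 - allStabI a b))
  | cD33 (x : ℕ → ℝ) (hx : endD33.Point x a b u v H)
      (hk : (a + b) * allStabI a b ≤ (b - a) * (1 - allStabI a b))
  | cD34 (x : ℕ → ℝ) (hx : endD34.Point x a b u v H)
      (hk : (a + b) * allStabI a b ≤ (b - a) * (1 - allStabI a b))
  | cD35 (x : ℕ → ℝ) (hx : endD35.Point x a b u v H)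
      (hk : (a + b) * allStabI a b ≤ (b - a) * (1 - allStabI a b))
  | cD36 (x : ℕ → ℝ) (hx : endD36.Point x a b u v H)
      (hk : (a + b) * allStabI a b ≤ (b - a) * (1 - allStabI a b))
  | cD37 (x : ℕ → ℝ) (hx : endD37.Point x a b u v H)
      (hk : (a + b) * allStabI a b ≤ (b - a) * (1 - allStabI a b))
  | cD38 (x : ℕ → ℝ) (hx : endD38.Point x a b u v H)
      (hk : (a + b) * allStabI a b ≤ (b - a) * (1 - allStabI a b))
  | cD39 (x : ℕ → ℝ) (hx : endD39.Point x a b u v H)
      (hk : (a + b) * allStabI a b ≤ (b - a) * (1 - allStabI a b))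
  | cD40 (x : ℕ → ℝ) (hx : endD40.Point x a b u v H)
      (hk : (a + b) * allStabI a b ≤ (b - a) * (1 - allStabI a b))
  | cD41 (x : ℕ → ℝ) (hx : endD41.Point x a b u v H)
      (hk : (a + b) * allStabI a b ≤ (b - a) * (1 - allStabI a b))
  | cD42 (x : ℕ → ℝ) (hx : endD42.Point x a b u v H)
      (hk : (a + b) * allStabI a b ≤ (b - a) * (1 - allStabI a b))
  | cD43 (x : ℕ → ℝ) (hx : endD43.Point x a b u v H)
      (hk : (a + b) * allStabI a b ≤ (b - a) * (1 - allStabI a b))
  | cD44 (x : ℕ → ℝ) (hx : endD44.Point x a b u v H)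
      (hk : (a + b) * allStabI a b ≤ (b - a) * (1 - allStabI a b))
  | cD45 (x : ℕ → ℝ) (hx : endD45.Point x a b u v H)
      (hk : (a + b) * allStabI a b ≤ (b - a) * (1 - allStabI a b))
  | cD46 (x : ℕ → ℝ) (hx : endD46.Point x a b u v H)
      (hk : (a + b) * allStabI a b ≤ (b - a) * (1 - allStabI a b))
  | cD47 (x : ℕ → ℝ) (hx : endD47.Point x a b u v H)
      (hk : (a + b) * allStabI a b ≤ (b - a) * (1 - allStabI a b))
  | cD48 (x : ℕ → ℝ) (hx : endD48.Point x a b u v H)
      (hk : (a + b) * allStabI a b ≤ (b - a) * (1 - allStabI a b))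
  | cD49 (x : ℕ → ℝ) (hx : endD49.Point x a b u v H)
      (hk : (a + b) * allStabI a b ≤ (b - a) * (1 - allStabI a b))
  | cD50 (x : ℕ → ℝ) (hx : endD50.Point x a b u v H)
      (hk : (a + b) * allStabI a b ≤ (b - a) * (1 - allStabI a b))
  | cD51 (x : ℕ → ℝ) (hx : endD51.Point x a b u v H)
      (hk : (a + b) * allStabI a b ≤ (b - a) * (1 - allStabI a b))
  | cD52 (x : ℕ → ℝ) (hx : endD52.Point x a b u v H)
      (hk : (a + b) * allStabI a b ≤ (b - a) * (1 - allStabI a b))
  | cD53 (x : ℕ → ℝ) (hx : endD53.Point x a b u v H)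
      (hk : (a + b) * allStabI a b ≤ (b - a) * (1 - allStabI a b))
  | cD54 (x : ℕ → ℝ) (hx : endD54.Point x a b u v H)
      (hk : (a + b) * allStabI a b ≤ (b - a) * (1 - allStabI a b))
  | cD55 (x : ℕ → ℝ) (hx : endD55.Point x a b u v H)
      (hk : (a + b) * allStabI a b ≤ (b - a) * (1 - allStabI a b))
  | cD56 (x : ℕ → ℝ) (hx : endD56.Point x a b u v H)
      (hk : (a + b) * allStabI a b ≤ (b - a) * (1 - allStabI a b))
  | cD57 (x : ℕ → ℝ) (hx : endD57.Point x a b u v H)
      (hk : (a + b) * allStabI a b ≤ (b - a) * (1 - allStabI a b))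

variable {a b u v H : ℝ}

/-- The facts used by the regions. -/
theorem end_facts (B : EndBands a b u v H) :
    0 < allStabI a b ∧ 0 < b - a ∧ 0 < 1 - u ∧ a + b = 1 - 2 * allStabI a b ∧
      2 * allStabI a b + (b - a) < 19 / 50 := by
  obtain ⟨hI, -, ha, hd, hu0, hu1, -, -, -, -⟩ := B.place
  exact ⟨hI, hd, sub_pos.2 hu1, by simp only [allStabI]; ring, by simp only [allStabI]; linarith⟩

theorem place_IAt (B : EndBands a b u v H)
    (hk : (b - a) * (1 - allStabI a b) ≤ (a + b) * allStabI a b)
    (h0l : (0 : ℝ) < (allStabI a b))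
    (h0u : (allStabI a b) ≤ (1 / 20 : ℝ))
    (h1l : (0 : ℝ) < ((1 - u) / allStabI a b))
    (h1u : ((1 - u) / allStabI a b) ≤ (1 / 20 : ℝ))
    (h2l : (0 : ℝ) < ((b - a) / allStabI a b))
    (h2u : ((b - a) / allStabI a b) ≤ (3 / 20 : ℝ)) : EndPlace a b u v H := by
  obtain ⟨hI, hd, hw, eS, hcap⟩ := end_facts B
  have hn : (allStabI a b) ≠ 0 := hI.ne'
  have hn' : b - a ≠ 0 := hd.ne'
  obtain ⟨t, ht⟩ := endIAt_ok.point B (x₀ := (allStabI a b)) (x₁ := ((1 - u) / allStabI a b)) (x₂ := ((b - a) / allStabI a b))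
    ⟨by norm_num [endIAt], by norm_num [endIAt] <;> linarith, by norm_num [endIAt] <;> linarith⟩
    ⟨by norm_num [endIAt], by norm_num [endIAt] <;> linarith, by norm_num [endIAt] <;> linarith⟩
    ⟨by norm_num [endIAt], by norm_num [endIAt] <;> linarith, by norm_num [endIAt] <;> linarith⟩
    (by simp only [endIAt, end_add, end_sub, end_mul, Ex.eval, pt4];
        try push_cast; try field_simp; try ring)
    (by simp only [endIAt, end_add, end_sub, end_mul, Ex.eval, pt4];
        try push_cast; try field_simp; try ring)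
    (by simp only [endIAt, end_add, end_sub, end_mul, Ex.eval, pt4];
        try push_cast; try field_simp; try ring)
    (by simp only [endIAt, end_add, end_sub, end_mul, Ex.eval, pt4]; push_cast; positivity)
  exact .cIAt _ ht hk

theorem place_IAu (B : EndBands a b u v H)
    (hk : (b - a) * (1 - allStabI a b) ≤ (a + b) * allStabI a b)
    (h0l : (0 : ℝ) < (allStabI a b))
    (h0u : (allStabI a b) ≤ (1 / 20 : ℝ))
    (h1l : (1 / 20 : ℝ) < ((1 - u) / allStabI a b))
    (h1u : ((1 - u) / allStabI a b) ≤ (1 : ℝ))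
    (h2l : (0 : ℝ) < ((b - a) / allStabI a b))
    (h2u : ((b - a) / allStabI a b) ≤ (3 / 20 : ℝ)) : EndPlace a b u v H := by
  obtain ⟨hI, hd, hw, eS, hcap⟩ := end_facts B
  have hn : (allStabI a b) ≠ 0 := hI.ne'
  have hn' : b - a ≠ 0 := hd.ne'
  obtain ⟨t, ht⟩ := endIAu_ok.point B (x₀ := (allStabI a b)) (x₁ := ((1 - u) / allStabI a b)) (x₂ := ((b - a) / allStabI a b))
    ⟨by norm_num [endIAu], by norm_num [endIAu] <;> linarith, by norm_num [endIAu] <;> linarith⟩
    ⟨by norm_num [endIAu], by norm_num [endIAu] <;> linarith, by norm_num [endIAu] <;> linarith⟩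
    ⟨by norm_num [endIAu], by norm_num [endIAu] <;> linarith, by norm_num [endIAu] <;> linarith⟩
    (by simp only [endIAu, end_add, end_sub, end_mul, Ex.eval, pt4];
        try push_cast; try field_simp; try ring)
    (by simp only [endIAu, end_add, end_sub, end_mul, Ex.eval, pt4];
        try push_cast; try field_simp; try ring)
    (by simp only [endIAu, end_add, end_sub, end_mul, Ex.eval, pt4];
        try push_cast; try field_simp; try ring)
    (by simp only [endIAu, end_add, end_sub, end_mul, Ex.eval, pt4]; push_cast; positivity)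
  exact .cIAu _ ht hk

theorem place_IBt (B : EndBands a b u v H)
    (hk : (b - a) * (1 - allStabI a b) ≤ (a + b) * allStabI a b)
    (h0l : (0 : ℝ) < (allStabI a b))
    (h0u : (allStabI a b) ≤ (1 / 20 : ℝ))
    (h1l : (0 : ℝ) < ((1 - u) / allStabI a b))
    (h1u : ((1 - u) / allStabI a b) ≤ (1 / 20 : ℝ))
    (h2l : (3 / 20 : ℝ) < ((b - a) / allStabI a b))
    (h2u : ((b - a) / allStabI a b) ≤ (1 / 2 : ℝ)) : EndPlace a b u v H := by
  obtain ⟨hI, hd, hw, eS, hcap⟩ := end_facts B
  have hn : (allStabI a b) ≠ 0 := hI.ne'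
  have hn' : b - a ≠ 0 := hd.ne'
  obtain ⟨t, ht⟩ := endIBt_ok.point B (x₀ := (allStabI a b)) (x₁ := ((1 - u) / allStabI a b)) (x₂ := ((b - a) / allStabI a b))
    ⟨by norm_num [endIBt], by norm_num [endIBt] <;> linarith, by norm_num [endIBt] <;> linarith⟩
    ⟨by norm_num [endIBt], by norm_num [endIBt] <;> linarith, by norm_num [endIBt] <;> linarith⟩
    ⟨by norm_num [endIBt], by norm_num [endIBt] <;> linarith, by norm_num [endIBt] <;> linarith⟩
    (by simp only [endIBt, end_add, end_sub, end_mul, Ex.eval, pt4];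
        try push_cast; try field_simp; try ring)
    (by simp only [endIBt, end_add, end_sub, end_mul, Ex.eval, pt4];
        try push_cast; try field_simp; try ring)
    (by simp only [endIBt, end_add, end_sub, end_mul, Ex.eval, pt4];
        try push_cast; try field_simp; try ring)
    (by simp only [endIBt, end_add, end_sub, end_mul, Ex.eval, pt4]; push_cast; positivity)
  exact .cIBt _ ht hk

theorem place_IBu (B : EndBands a b u v H)
    (hk : (b - a) * (1 - allStabI a b) ≤ (a + b) * allStabI a b)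
    (h0l : (0 : ℝ) < (allStabI a b))
    (h0u : (allStabI a b) ≤ (1 / 20 : ℝ))
    (h1l : (1 / 20 : ℝ) < ((1 - u) / allStabI a b))
    (h1u : ((1 - u) / allStabI a b) ≤ (1 : ℝ))
    (h2l : (3 / 20 : ℝ) < ((b - a) / allStabI a b))
    (h2u : ((b - a) / allStabI a b) ≤ (1 / 2 : ℝ)) : EndPlace a b u v H := by
  obtain ⟨hI, hd, hw, eS, hcap⟩ := end_facts B
  have hn : (allStabI a b) ≠ 0 := hI.ne'
  have hn' : b - a ≠ 0 := hd.ne'
  obtain ⟨t, ht⟩ := endIBu_ok.point B (x₀ := (allStabI a b)) (x₁ := ((1 - u) / allStabI a b)) (x₂ := ((b - a) / allStabI a b))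
    ⟨by norm_num [endIBu], by norm_num [endIBu] <;> linarith, by norm_num [endIBu] <;> linarith⟩
    ⟨by norm_num [endIBu], by norm_num [endIBu] <;> linarith, by norm_num [endIBu] <;> linarith⟩
    ⟨by norm_num [endIBu], by norm_num [endIBu] <;> linarith, by norm_num [endIBu] <;> linarith⟩
    (by simp only [endIBu, end_add, end_sub, end_mul, Ex.eval, pt4];
        try push_cast; try field_simp; try ring)
    (by simp only [endIBu, end_add, end_sub, end_mul, Ex.eval, pt4];
        try push_cast; try field_simp; try ring)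
    (by simp only [endIBu, end_add, end_sub, end_mul, Ex.eval, pt4];
        try push_cast; try field_simp; try ring)
    (by simp only [endIBu, end_add, end_sub, end_mul, Ex.eval, pt4]; push_cast; positivity)
  exact .cIBu _ ht hk

theorem place_ICt (B : EndBands a b u v H)
    (hk : (b - a) * (1 - allStabI a b) ≤ (a + b) * allStabI a b)
    (h0l : (0 : ℝ) < (allStabI a b))
    (h0u : (allStabI a b) ≤ (1 / 20 : ℝ))
    (h1l : (0 : ℝ) < ((1 - u) / allStabI a b))
    (h1u : ((1 - u) / allStabI a b) ≤ (1 / 20 : ℝ))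
    (h2l : (1 / 2 : ℝ) < ((b - a) / allStabI a b))
    (h2u : ((b - a) / allStabI a b) ≤ (3 / 4 : ℝ)) : EndPlace a b u v H := by
  obtain ⟨hI, hd, hw, eS, hcap⟩ := end_facts B
  have hn : (allStabI a b) ≠ 0 := hI.ne'
  have hn' : b - a ≠ 0 := hd.ne'
  obtain ⟨t, ht⟩ := endICt_ok.point B (x₀ := (allStabI a b)) (x₁ := ((1 - u) / allStabI a b)) (x₂ := ((b - a) / allStabI a b))
    ⟨by norm_num [endICt], by norm_num [endICt] <;> linarith, by norm_num [endICt] <;> linarith⟩
    ⟨by norm_num [endICt], by norm_num [endICt] <;> linarith, by norm_num [endICt] <;> linarith⟩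
    ⟨by norm_num [endICt], by norm_num [endICt] <;> linarith, by norm_num [endICt] <;> linarith⟩
    (by simp only [endICt, end_add, end_sub, end_mul, Ex.eval, pt4];
        try push_cast; try field_simp; try ring)
    (by simp only [endICt, end_add, end_sub, end_mul, Ex.eval, pt4];
        try push_cast; try field_simp; try ring)
    (by simp only [endICt, end_add, end_sub, end_mul, Ex.eval, pt4];
        try push_cast; try field_simp; try ring)
    (by simp only [endICt, end_add, end_sub, end_mul, Ex.eval, pt4]; push_cast; positivity)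
  exact .cICt _ ht hk

theorem place_ICu (B : EndBands a b u v H)
    (hk : (b - a) * (1 - allStabI a b) ≤ (a + b) * allStabI a b)
    (h0l : (0 : ℝ) < (allStabI a b))
    (h0u : (allStabI a b) ≤ (1 / 20 : ℝ))
    (h1l : (1 / 20 : ℝ) < ((1 - u) / allStabI a b))
    (h1u : ((1 - u) / allStabI a b) ≤ (1 : ℝ))
    (h2l : (1 / 2 : ℝ) < ((b - a) / allStabI a b))
    (h2u : ((b - a) / allStabI a b) ≤ (3 / 4 : ℝ)) : EndPlace a b u v H := by
  obtain ⟨hI, hd, hw, eS, hcap⟩ := end_facts B
  have hn : (allStabI a b) ≠ 0 := hI.ne'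
  have hn' : b - a ≠ 0 := hd.ne'
  obtain ⟨t, ht⟩ := endICu_ok.point B (x₀ := (allStabI a b)) (x₁ := ((1 - u) / allStabI a b)) (x₂ := ((b - a) / allStabI a b))
    ⟨by norm_num [endICu], by norm_num [endICu] <;> linarith, by norm_num [endICu] <;> linarith⟩
    ⟨by norm_num [endICu], by norm_num [endICu] <;> linarith, by norm_num [endICu] <;> linarith⟩
    ⟨by norm_num [endICu], by norm_num [endICu] <;> linarith, by norm_num [endICu] <;> linarith⟩
    (by simp only [endICu, end_add, end_sub, end_mul, Ex.eval, pt4];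
        try push_cast; try field_simp; try ring)
    (by simp only [endICu, end_add, end_sub, end_mul, Ex.eval, pt4];
        try push_cast; try field_simp; try ring)
    (by simp only [endICu, end_add, end_sub, end_mul, Ex.eval, pt4];
        try push_cast; try field_simp; try ring)
    (by simp only [endICu, end_add, end_sub, end_mul, Ex.eval, pt4]; push_cast; positivity)
  exact .cICu _ ht hk

theorem place_IDp (B : EndBands a b u v H)
    (hk : (b - a) * (1 - allStabI a b) ≤ (a + b) * allStabI a b)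
    (h0l : (0 : ℝ) < (allStabI a b))
    (h0u : (allStabI a b) ≤ (1 / 20 : ℝ))
    (h1l : (0 : ℝ) < ((1 - u) / allStabI a b))
    (h1u : ((1 - u) / allStabI a b) ≤ (1 / 20 : ℝ))
    (h2l : (3 / 4 : ℝ) < ((b - a) / allStabI a b))
    (h2u : ((b - a) / allStabI a b) ≤ (9 / 10 : ℝ)) : EndPlace a b u v H := by
  obtain ⟨hI, hd, hw, eS, hcap⟩ := end_facts B
  have hn : (allStabI a b) ≠ 0 := hI.ne'
  have hn' : b - a ≠ 0 := hd.ne'
  obtain ⟨t, ht⟩ := endIDp_ok.point B (x₀ := (allStabI a b)) (x₁ := ((1 - u) / allStabI a b)) (x₂ := ((b - a) / allStabI a b))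
    ⟨by norm_num [endIDp], by norm_num [endIDp] <;> linarith, by norm_num [endIDp] <;> linarith⟩
    ⟨by norm_num [endIDp], by norm_num [endIDp] <;> linarith, by norm_num [endIDp] <;> linarith⟩
    ⟨by norm_num [endIDp], by norm_num [endIDp] <;> linarith, by norm_num [endIDp] <;> linarith⟩
    (by simp only [endIDp, end_add, end_sub, end_mul, Ex.eval, pt4];
        try push_cast; try field_simp; try ring)
    (by simp only [endIDp, end_add, end_sub, end_mul, Ex.eval, pt4];
        try push_cast; try field_simp; try ring)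
    (by simp only [endIDp, end_add, end_sub, end_mul, Ex.eval, pt4];
        try push_cast; try field_simp; try ring)
    (by simp only [endIDp, end_add, end_sub, end_mul, Ex.eval, pt4]; push_cast; positivity)
  exact .cIDp _ ht hk

theorem place_IDq (B : EndBands a b u v H)
    (hk : (b - a) * (1 - allStabI a b) ≤ (a + b) * allStabI a b)
    (h0l : (0 : ℝ) < (allStabI a b))
    (h0u : (allStabI a b) ≤ (1 / 20 : ℝ))
    (h1l : (0 : ℝ) < ((1 - u) / allStabI a b))
    (h1u : ((1 - u) / allStabI a b) ≤ (1 / 20 : ℝ))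
    (h2l : (9 / 10 : ℝ) < ((b - a) / allStabI a b))
    (h2u : ((b - a) / allStabI a b) ≤ (24 / 25 : ℝ)) : EndPlace a b u v H := by
  obtain ⟨hI, hd, hw, eS, hcap⟩ := end_facts B
  have hn : (allStabI a b) ≠ 0 := hI.ne'
  have hn' : b - a ≠ 0 := hd.ne'
  obtain ⟨t, ht⟩ := endIDq_ok.point B (x₀ := (allStabI a b)) (x₁ := ((1 - u) / allStabI a b)) (x₂ := ((b - a) / allStabI a b))
    ⟨by norm_num [endIDq], by norm_num [endIDq] <;> linarith, by norm_num [endIDq] <;> linarith⟩
    ⟨by norm_num [endIDq], by norm_num [endIDq] <;> linarith, by norm_num [endIDq] <;> linarith⟩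
    ⟨by norm_num [endIDq], by norm_num [endIDq] <;> linarith, by norm_num [endIDq] <;> linarith⟩
    (by simp only [endIDq, end_add, end_sub, end_mul, Ex.eval, pt4];
        try push_cast; try field_simp; try ring)
    (by simp only [endIDq, end_add, end_sub, end_mul, Ex.eval, pt4];
        try push_cast; try field_simp; try ring)
    (by simp only [endIDq, end_add, end_sub, end_mul, Ex.eval, pt4];
        try push_cast; try field_simp; try ring)
    (by simp only [endIDq, end_add, end_sub, end_mul, Ex.eval, pt4]; push_cast; positivity)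
  exact .cIDq _ ht hk

theorem place_IDr (B : EndBands a b u v H)
    (hk : (b - a) * (1 - allStabI a b) ≤ (a + b) * allStabI a b)
    (h0l : (0 : ℝ) < (allStabI a b))
    (h0u : (allStabI a b) ≤ (1 / 25 : ℝ))
    (h1l : (0 : ℝ) < ((1 - u) / allStabI a b))
    (h1u : ((1 - u) / allStabI a b) ≤ (1 / 20 : ℝ))
    (h2l : (24 / 25 : ℝ) < ((b - a) / allStabI a b))
    (h2u : ((b - a) / allStabI a b) ≤ (1 : ℝ)) : EndPlace a b u v H := by
  obtain ⟨hI, hd, hw, eS, hcap⟩ := end_facts B
  have hn : (allStabI a b) ≠ 0 := hI.ne'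
  have hn' : b - a ≠ 0 := hd.ne'
  obtain ⟨t, ht⟩ := endIDr_ok.point B (x₀ := (allStabI a b)) (x₁ := ((1 - u) / allStabI a b)) (x₂ := ((b - a) / allStabI a b))
    ⟨by norm_num [endIDr], by norm_num [endIDr] <;> linarith, by norm_num [endIDr] <;> linarith⟩
    ⟨by norm_num [endIDr], by norm_num [endIDr] <;> linarith, by norm_num [endIDr] <;> linarith⟩
    ⟨by norm_num [endIDr], by norm_num [endIDr] <;> linarith, by norm_num [endIDr] <;> linarith⟩
    (by simp only [endIDr, end_add, end_sub, end_mul, Ex.eval, pt4];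
        try push_cast; try field_simp; try ring)
    (by simp only [endIDr, end_add, end_sub, end_mul, Ex.eval, pt4];
        try push_cast; try field_simp; try ring)
    (by simp only [endIDr, end_add, end_sub, end_mul, Ex.eval, pt4];
        try push_cast; try field_simp; try ring)
    (by simp only [endIDr, end_add, end_sub, end_mul, Ex.eval, pt4]; push_cast; positivity)
  exact .cIDr _ ht hk

theorem place_IDu (B : EndBands a b u v H)
    (hk : (b - a) * (1 - allStabI a b) ≤ (a + b) * allStabI a b)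
    (h0l : (0 : ℝ) < (allStabI a b))
    (h0u : (allStabI a b) ≤ (1 / 20 : ℝ))
    (h1l : (1 / 20 : ℝ) < ((1 - u) / allStabI a b))
    (h1u : ((1 - u) / allStabI a b) ≤ (1 : ℝ))
    (h2l : (3 / 4 : ℝ) < ((b - a) / allStabI a b))
    (h2u : ((b - a) / allStabI a b) ≤ (1 : ℝ)) : EndPlace a b u v H := by
  obtain ⟨hI, hd, hw, eS, hcap⟩ := end_facts B
  have hn : (allStabI a b) ≠ 0 := hI.ne'
  have hn' : b - a ≠ 0 := hd.ne'
  obtain ⟨t, ht⟩ := endIDu_ok.point B (x₀ := (allStabI a b)) (x₁ := ((1 - u) / allStabI a b)) (x₂ := ((b - a) / allStabI a b))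
    ⟨by norm_num [endIDu], by norm_num [endIDu] <;> linarith, by norm_num [endIDu] <;> linarith⟩
    ⟨by norm_num [endIDu], by norm_num [endIDu] <;> linarith, by norm_num [endIDu] <;> linarith⟩
    ⟨by norm_num [endIDu], by norm_num [endIDu] <;> linarith, by norm_num [endIDu] <;> linarith⟩
    (by simp only [endIDu, end_add, end_sub, end_mul, Ex.eval, pt4];
        try push_cast; try field_simp; try ring)
    (by simp only [endIDu, end_add, end_sub, end_mul, Ex.eval, pt4];
        try push_cast; try field_simp; try ring)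
    (by simp only [endIDu, end_add, end_sub, end_mul, Ex.eval, pt4];
        try push_cast; try field_simp; try ring)
    (by simp only [endIDu, end_add, end_sub, end_mul, Ex.eval, pt4]; push_cast; positivity)
  exact .cIDu _ ht hk

theorem place_IEp (B : EndBands a b u v H)
    (hk : (a + b) * allStabI a b ≤ (b - a) * (1 - allStabI a b))
    (h0l : (19 / 500 : ℝ) < (allStabI a b))
    (h0u : (allStabI a b) ≤ (1 / 20 : ℝ))
    (h1l : (0 : ℝ) < ((1 - u) / allStabI a b))
    (h1u : ((1 - u) / allStabI a b) ≤ (1 / 20 : ℝ))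
    (h2l : (47 / 50 : ℝ) < ((b - a) / allStabI a b))
    (h2u : ((b - a) / allStabI a b) ≤ (24 / 25 : ℝ)) : EndPlace a b u v H := by
  obtain ⟨hI, hd, hw, eS, hcap⟩ := end_facts B
  have hn : (allStabI a b) ≠ 0 := hI.ne'
  have hn' : b - a ≠ 0 := hd.ne'
  obtain ⟨t, ht⟩ := endIEp_ok.point B (x₀ := (allStabI a b)) (x₁ := ((1 - u) / allStabI a b)) (x₂ := ((b - a) / allStabI a b))
    ⟨by norm_num [endIEp], by norm_num [endIEp] <;> linarith, by norm_num [endIEp] <;> linarith⟩
    ⟨by norm_num [endIEp], by norm_num [endIEp] <;> linarith, by norm_num [endIEp] <;> linarith⟩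
    ⟨by norm_num [endIEp], by norm_num [endIEp] <;> linarith, by norm_num [endIEp] <;> linarith⟩
    (by simp only [endIEp, end_add, end_sub, end_mul, Ex.eval, pt4];
        try push_cast; try field_simp; try ring)
    (by simp only [endIEp, end_add, end_sub, end_mul, Ex.eval, pt4];
        try push_cast; try field_simp; try ring)
    (by simp only [endIEp, end_add, end_sub, end_mul, Ex.eval, pt4];
        try push_cast; try field_simp; try ring)
    (by simp only [endIEp, end_add, end_sub, end_mul, Ex.eval, pt4]; push_cast; positivity)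
  exact .cIEp _ ht hk

theorem place_IEq (B : EndBands a b u v H)
    (hk : (a + b) * allStabI a b ≤ (b - a) * (1 - allStabI a b))
    (h0l : (0 : ℝ) < (allStabI a b))
    (h0u : (allStabI a b) ≤ (1 / 20 : ℝ))
    (h1l : (0 : ℝ) < ((1 - u) / allStabI a b))
    (h1u : ((1 - u) / allStabI a b) ≤ (1 / 20 : ℝ))
    (h2l : (24 / 25 : ℝ) < ((b - a) / allStabI a b))
    (h2u : ((b - a) / allStabI a b) ≤ (1 : ℝ)) : EndPlace a b u v H := by
  obtain ⟨hI, hd, hw, eS, hcap⟩ := end_facts B
  have hn : (allStabI a b) ≠ 0 := hI.ne'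
  have hn' : b - a ≠ 0 := hd.ne'
  obtain ⟨t, ht⟩ := endIEq_ok.point B (x₀ := (allStabI a b)) (x₁ := ((1 - u) / allStabI a b)) (x₂ := ((b - a) / allStabI a b))
    ⟨by norm_num [endIEq], by norm_num [endIEq] <;> linarith, by norm_num [endIEq] <;> linarith⟩
    ⟨by norm_num [endIEq], by norm_num [endIEq] <;> linarith, by norm_num [endIEq] <;> linarith⟩
    ⟨by norm_num [endIEq], by norm_num [endIEq] <;> linarith, by norm_num [endIEq] <;> linarith⟩
    (by simp only [endIEq, end_add, end_sub, end_mul, Ex.eval, pt4];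
        try push_cast; try field_simp; try ring)
    (by simp only [endIEq, end_add, end_sub, end_mul, Ex.eval, pt4];
        try push_cast; try field_simp; try ring)
    (by simp only [endIEq, end_add, end_sub, end_mul, Ex.eval, pt4];
        try push_cast; try field_simp; try ring)
    (by simp only [endIEq, end_add, end_sub, end_mul, Ex.eval, pt4]; push_cast; positivity)
  exact .cIEq _ ht hk

theorem place_IEu (B : EndBands a b u v H)
    (hk : (a + b) * allStabI a b ≤ (b - a) * (1 - allStabI a b))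
    (h0l : (0 : ℝ) < (allStabI a b))
    (h0u : (allStabI a b) ≤ (1 / 20 : ℝ))
    (h1l : (1 / 20 : ℝ) < ((1 - u) / allStabI a b))
    (h1u : ((1 - u) / allStabI a b) ≤ (1 : ℝ))
    (h2l : (47 / 50 : ℝ) < ((b - a) / allStabI a b))
    (h2u : ((b - a) / allStabI a b) ≤ (1 : ℝ)) : EndPlace a b u v H := by
  obtain ⟨hI, hd, hw, eS, hcap⟩ := end_facts B
  have hn : (allStabI a b) ≠ 0 := hI.ne'
  have hn' : b - a ≠ 0 := hd.ne'
  obtain ⟨t, ht⟩ := endIEu_ok.point B (x₀ := (allStabI a b)) (x₁ := ((1 - u) / allStabI a b)) (x₂ := ((b - a) / allStabI a b))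
    ⟨by norm_num [endIEu], by norm_num [endIEu] <;> linarith, by norm_num [endIEu] <;> linarith⟩
    ⟨by norm_num [endIEu], by norm_num [endIEu] <;> linarith, by norm_num [endIEu] <;> linarith⟩
    ⟨by norm_num [endIEu], by norm_num [endIEu] <;> linarith, by norm_num [endIEu] <;> linarith⟩
    (by simp only [endIEu, end_add, end_sub, end_mul, Ex.eval, pt4];
        try push_cast; try field_simp; try ring)
    (by simp only [endIEu, end_add, end_sub, end_mul, Ex.eval, pt4];
        try push_cast; try field_simp; try ring)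
    (by simp only [endIEu, end_add, end_sub, end_mul, Ex.eval, pt4];
        try push_cast; try field_simp; try ring)
    (by simp only [endIEu, end_add, end_sub, end_mul, Ex.eval, pt4]; push_cast; positivity)
  exact .cIEu _ ht hk

theorem place_IFp (B : EndBands a b u v H)
    (hk : (a + b) * allStabI a b ≤ (b - a) * (1 - allStabI a b))
    (h0l : (0 : ℝ) < (allStabI a b))
    (h0u : (allStabI a b) ≤ (1 / 20 : ℝ))
    (h1l : (0 : ℝ) < ((1 - u) / allStabI a b))
    (h1u : ((1 - u) / allStabI a b) ≤ (1 / 20 : ℝ))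
    (h2l : (1 : ℝ) < ((b - a) / allStabI a b))
    (h2u : ((b - a) / allStabI a b) ≤ (5 / 4 : ℝ)) : EndPlace a b u v H := by
  obtain ⟨hI, hd, hw, eS, hcap⟩ := end_facts B
  have hn : (allStabI a b) ≠ 0 := hI.ne'
  have hn' : b - a ≠ 0 := hd.ne'
  obtain ⟨t, ht⟩ := endIFp_ok.point B (x₀ := (allStabI a b)) (x₁ := ((1 - u) / allStabI a b)) (x₂ := ((b - a) / allStabI a b))
    ⟨by norm_num [endIFp], by norm_num [endIFp] <;> linarith, by norm_num [endIFp] <;> linarith⟩
    ⟨by norm_num [endIFp], by norm_num [endIFp] <;> linarith, by norm_num [endIFp] <;> linarith⟩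
    ⟨by norm_num [endIFp], by norm_num [endIFp] <;> linarith, by norm_num [endIFp] <;> linarith⟩
    (by simp only [endIFp, end_add, end_sub, end_mul, Ex.eval, pt4];
        try push_cast; try field_simp; try ring)
    (by simp only [endIFp, end_add, end_sub, end_mul, Ex.eval, pt4];
        try push_cast; try field_simp; try ring)
    (by simp only [endIFp, end_add, end_sub, end_mul, Ex.eval, pt4];
        try push_cast; try field_simp; try ring)
    (by simp only [endIFp, end_add, end_sub, end_mul, Ex.eval, pt4]; push_cast; positivity)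
  exact .cIFp _ ht hk

theorem place_IFq (B : EndBands a b u v H)
    (hk : (a + b) * allStabI a b ≤ (b - a) * (1 - allStabI a b))
    (h0l : (0 : ℝ) < (allStabI a b))
    (h0u : (allStabI a b) ≤ (1 / 20 : ℝ))
    (h1l : (0 : ℝ) < ((1 - u) / allStabI a b))
    (h1u : ((1 - u) / allStabI a b) ≤ (1 / 20 : ℝ))
    (h2l : (5 / 4 : ℝ) < ((b - a) / allStabI a b))
    (h2u : ((b - a) / allStabI a b) ≤ (3 / 2 : ℝ)) : EndPlace a b u v H := by
  obtain ⟨hI, hd, hw, eS, hcap⟩ := end_facts B
  have hn : (allStabI a b) ≠ 0 := hI.ne'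
  have hn' : b - a ≠ 0 := hd.ne'
  obtain ⟨t, ht⟩ := endIFq_ok.point B (x₀ := (allStabI a b)) (x₁ := ((1 - u) / allStabI a b)) (x₂ := ((b - a) / allStabI a b))
    ⟨by norm_num [endIFq], by norm_num [endIFq] <;> linarith, by norm_num [endIFq] <;> linarith⟩
    ⟨by norm_num [endIFq], by norm_num [endIFq] <;> linarith, by norm_num [endIFq] <;> linarith⟩
    ⟨by norm_num [endIFq], by norm_num [endIFq] <;> linarith, by norm_num [endIFq] <;> linarith⟩
    (by simp only [endIFq, end_add, end_sub, end_mul, Ex.eval, pt4];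
        try push_cast; try field_simp; try ring)
    (by simp only [endIFq, end_add, end_sub, end_mul, Ex.eval, pt4];
        try push_cast; try field_simp; try ring)
    (by simp only [endIFq, end_add, end_sub, end_mul, Ex.eval, pt4];
        try push_cast; try field_simp; try ring)
    (by simp only [endIFq, end_add, end_sub, end_mul, Ex.eval, pt4]; push_cast; positivity)
  exact .cIFq _ ht hk

theorem place_IFg (B : EndBands a b u v H)
    (hk : (a + b) * allStabI a b ≤ (b - a) * (1 - allStabI a b))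
    (h0l : (0 : ℝ) < (allStabI a b))
    (h0u : (allStabI a b) ≤ (1 / 20 : ℝ))
    (h1l : (1 / 20 : ℝ) < ((1 - u) / allStabI a b))
    (h1u : ((1 - u) / allStabI a b) ≤ (7 / 20 : ℝ))
    (h2l : (1 : ℝ) < ((b - a) / allStabI a b))
    (h2u : ((b - a) / allStabI a b) ≤ (3 / 2 : ℝ)) : EndPlace a b u v H := by
  obtain ⟨hI, hd, hw, eS, hcap⟩ := end_facts B
  have hn : (allStabI a b) ≠ 0 := hI.ne'
  have hn' : b - a ≠ 0 := hd.ne'
  obtain ⟨t, ht⟩ := endIFg_ok.point B (x₀ := (allStabI a b)) (x₁ := ((1 - u) / allStabI a b)) (x₂ := ((b - a) / allStabI a b))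
    ⟨by norm_num [endIFg], by norm_num [endIFg] <;> linarith, by norm_num [endIFg] <;> linarith⟩
    ⟨by norm_num [endIFg], by norm_num [endIFg] <;> linarith, by norm_num [endIFg] <;> linarith⟩
    ⟨by norm_num [endIFg], by norm_num [endIFg] <;> linarith, by norm_num [endIFg] <;> linarith⟩
    (by simp only [endIFg, end_add, end_sub, end_mul, Ex.eval, pt4];
        try push_cast; try field_simp; try ring)
    (by simp only [endIFg, end_add, end_sub, end_mul, Ex.eval, pt4];
        try push_cast; try field_simp; try ring)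
    (by simp only [endIFg, end_add, end_sub, end_mul, Ex.eval, pt4];
        try push_cast; try field_simp; try ring)
    (by simp only [endIFg, end_add, end_sub, end_mul, Ex.eval, pt4]; push_cast; positivity)
  exact .cIFg _ ht hk

theorem place_IFh (B : EndBands a b u v H)
    (hk : (a + b) * allStabI a b ≤ (b - a) * (1 - allStabI a b))
    (h0l : (0 : ℝ) < (allStabI a b))
    (h0u : (allStabI a b) ≤ (1 / 20 : ℝ))
    (h1l : (7 / 20 : ℝ) < ((1 - u) / allStabI a b))
    (h1u : ((1 - u) / allStabI a b) ≤ (9 / 10 : ℝ))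
    (h2l : (1 : ℝ) < ((b - a) / allStabI a b))
    (h2u : ((b - a) / allStabI a b) ≤ (3 / 2 : ℝ)) : EndPlace a b u v H := by
  obtain ⟨hI, hd, hw, eS, hcap⟩ := end_facts B
  have hn : (allStabI a b) ≠ 0 := hI.ne'
  have hn' : b - a ≠ 0 := hd.ne'
  obtain ⟨t, ht⟩ := endIFh_ok.point B (x₀ := (allStabI a b)) (x₁ := ((1 - u) / allStabI a b)) (x₂ := ((b - a) / allStabI a b))
    ⟨by norm_num [endIFh], by norm_num [endIFh] <;> linarith, by norm_num [endIFh] <;> linarith⟩
    ⟨by norm_num [endIFh], by norm_num [endIFh] <;> linarith, by norm_num [endIFh] <;> linarith⟩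
    ⟨by norm_num [endIFh], by norm_num [endIFh] <;> linarith, by norm_num [endIFh] <;> linarith⟩
    (by simp only [endIFh, end_add, end_sub, end_mul, Ex.eval, pt4];
        try push_cast; try field_simp; try ring)
    (by simp only [endIFh, end_add, end_sub, end_mul, Ex.eval, pt4];
        try push_cast; try field_simp; try ring)
    (by simp only [endIFh, end_add, end_sub, end_mul, Ex.eval, pt4];
        try push_cast; try field_simp; try ring)
    (by simp only [endIFh, end_add, end_sub, end_mul, Ex.eval, pt4]; push_cast; positivity)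
  exact .cIFh _ ht hk

theorem place_IGt (B : EndBands a b u v H)
    (hk : (a + b) * allStabI a b ≤ (b - a) * (1 - allStabI a b))
    (h0l : (0 : ℝ) < (allStabI a b))
    (h0u : (allStabI a b) ≤ (3 / 100 : ℝ))
    (h1l : (0 : ℝ) < ((1 - u) / allStabI a b))
    (h1u : ((1 - u) / allStabI a b) ≤ (1 / 20 : ℝ))
    (h2l : (3 / 2 : ℝ) < ((b - a) / allStabI a b))
    (h2u : ((b - a) / allStabI a b) ≤ (2 : ℝ)) : EndPlace a b u v H := by
  obtain ⟨hI, hd, hw, eS, hcap⟩ := end_facts B
  have hn : (allStabI a b) ≠ 0 := hI.ne'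
  have hn' : b - a ≠ 0 := hd.ne'
  obtain ⟨t, ht⟩ := endIGt_ok.point B (x₀ := (allStabI a b)) (x₁ := ((1 - u) / allStabI a b)) (x₂ := ((b - a) / allStabI a b))
    ⟨by norm_num [endIGt], by norm_num [endIGt] <;> linarith, by norm_num [endIGt] <;> linarith⟩
    ⟨by norm_num [endIGt], by norm_num [endIGt] <;> linarith, by norm_num [endIGt] <;> linarith⟩
    ⟨by norm_num [endIGt], by norm_num [endIGt] <;> linarith, by norm_num [endIGt] <;> linarith⟩
    (by simp only [endIGt, end_add, end_sub, end_mul, Ex.eval, pt4];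
        try push_cast; try field_simp; try ring)
    (by simp only [endIGt, end_add, end_sub, end_mul, Ex.eval, pt4];
        try push_cast; try field_simp; try ring)
    (by simp only [endIGt, end_add, end_sub, end_mul, Ex.eval, pt4];
        try push_cast; try field_simp; try ring)
    (by simp only [endIGt, end_add, end_sub, end_mul, Ex.eval, pt4]; push_cast; positivity)
  exact .cIGt _ ht hk

theorem place_IGu (B : EndBands a b u v H)
    (hk : (a + b) * allStabI a b ≤ (b - a) * (1 - allStabI a b))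
    (h0l : (0 : ℝ) < (allStabI a b))
    (h0u : (allStabI a b) ≤ (3 / 100 : ℝ))
    (h1l : (1 / 20 : ℝ) < ((1 - u) / allStabI a b))
    (h1u : ((1 - u) / allStabI a b) ≤ (9 / 10 : ℝ))
    (h2l : (3 / 2 : ℝ) < ((b - a) / allStabI a b))
    (h2u : ((b - a) / allStabI a b) ≤ (2 : ℝ)) : EndPlace a b u v H := by
  obtain ⟨hI, hd, hw, eS, hcap⟩ := end_facts B
  have hn : (allStabI a b) ≠ 0 := hI.ne'
  have hn' : b - a ≠ 0 := hd.ne'
  obtain ⟨t, ht⟩ := endIGu_ok.point B (x₀ := (allStabI a b)) (x₁ := ((1 - u) / allStabI a b)) (x₂ := ((b - a) / allStabI a b))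
    ⟨by norm_num [endIGu], by norm_num [endIGu] <;> linarith, by norm_num [endIGu] <;> linarith⟩
    ⟨by norm_num [endIGu], by norm_num [endIGu] <;> linarith, by norm_num [endIGu] <;> linarith⟩
    ⟨by norm_num [endIGu], by norm_num [endIGu] <;> linarith, by norm_num [endIGu] <;> linarith⟩
    (by simp only [endIGu, end_add, end_sub, end_mul, Ex.eval, pt4];
        try push_cast; try field_simp; try ring)
    (by simp only [endIGu, end_add, end_sub, end_mul, Ex.eval, pt4];
        try push_cast; try field_simp; try ring)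
    (by simp only [endIGu, end_add, end_sub, end_mul, Ex.eval, pt4];
        try push_cast; try field_simp; try ring)
    (by simp only [endIGu, end_add, end_sub, end_mul, Ex.eval, pt4]; push_cast; positivity)
  exact .cIGu _ ht hk

theorem place_ZA (B : EndBands a b u v H)
    (hk : (b - a) * (1 - allStabI a b) ≤ (a + b) * allStabI a b)
    (h0l : (0 : ℝ) < ((1 - u)))
    (h0u : ((1 - u)) ≤ (1 / 20 : ℝ))
    (h1l : (0 : ℝ) < (allStabI a b / (1 - u)))
    (h1u : (allStabI a b / (1 - u)) ≤ (1 : ℝ))
    (h2l : (0 : ℝ) < ((b - a) / allStabI a b))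
    (h2u : ((b - a) / allStabI a b) ≤ (1 : ℝ)) : EndPlace a b u v H := by
  obtain ⟨hI, hd, hw, eS, hcap⟩ := end_facts B
  have hn : (allStabI a b) ≠ 0 := hI.ne'
  have hn' : b - a ≠ 0 := hd.ne'
  obtain ⟨t, ht⟩ := endZA_ok.point B (x₀ := ((1 - u))) (x₁ := (allStabI a b / (1 - u))) (x₂ := ((b - a) / allStabI a b))
    ⟨by norm_num [endZA], by norm_num [endZA] <;> linarith, by norm_num [endZA] <;> linarith⟩
    ⟨by norm_num [endZA], by norm_num [endZA] <;> linarith, by norm_num [endZA] <;> linarith⟩
    ⟨by norm_num [endZA], by norm_num [endZA] <;> linarith, by norm_num [endZA] <;> linarith⟩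
    (by simp only [endZA, end_add, end_sub, end_mul, Ex.eval, pt4];
        try push_cast; try field_simp; try ring)
    (by simp only [endZA, end_add, end_sub, end_mul, Ex.eval, pt4];
        try push_cast; try field_simp; try ring)
    (by simp only [endZA, end_add, end_sub, end_mul, Ex.eval, pt4];
        try push_cast; try field_simp; try ring)
    (by simp only [endZA, end_add, end_sub, end_mul, Ex.eval, pt4]; push_cast; positivity)
  exact .cZA _ ht hk

theorem place_ZB (B : EndBands a b u v H)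
    (hk : (b - a) * (1 - allStabI a b) ≤ (a + b) * allStabI a b)
    (h0l : (1 / 20 : ℝ) < ((1 - u)))
    (h0u : ((1 - u)) ≤ (1 / 5 : ℝ))
    (h1l : (0 : ℝ) < (allStabI a b))
    (h1u : (allStabI a b) ≤ (1 / 20 : ℝ))
    (h2l : (0 : ℝ) < ((b - a) / allStabI a b))
    (h2u : ((b - a) / allStabI a b) ≤ (1 : ℝ)) : EndPlace a b u v H := by
  obtain ⟨hI, hd, hw, eS, hcap⟩ := end_facts B
  have hn : (allStabI a b) ≠ 0 := hI.ne'
  have hn' : b - a ≠ 0 := hd.ne'
  obtain ⟨t, ht⟩ := endZB_ok.point B (x₀ := ((1 - u))) (x₁ := (allStabI a b)) (x₂ := ((b - a) / allStabI a b))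
    ⟨by norm_num [endZB], by norm_num [endZB] <;> linarith, by norm_num [endZB] <;> linarith⟩
    ⟨by norm_num [endZB], by norm_num [endZB] <;> linarith, by norm_num [endZB] <;> linarith⟩
    ⟨by norm_num [endZB], by norm_num [endZB] <;> linarith, by norm_num [endZB] <;> linarith⟩
    (by simp only [endZB, end_add, end_sub, end_mul, Ex.eval, pt4];
        try push_cast; try field_simp; try ring)
    (by simp only [endZB, end_add, end_sub, end_mul, Ex.eval, pt4];
        try push_cast; try field_simp; try ring)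
    (by simp only [endZB, end_add, end_sub, end_mul, Ex.eval, pt4];
        try push_cast; try field_simp; try ring)
    (by simp only [endZB, end_add, end_sub, end_mul, Ex.eval, pt4]; push_cast; positivity)
  exact .cZB _ ht hk

theorem place_CA (B : EndBands a b u v H)
    (hk : (a + b) * allStabI a b ≤ (b - a) * (1 - allStabI a b))
    (h0l : (0 : ℝ) < ((1 - u)))
    (h0u : ((1 - u)) ≤ (1 / 20 : ℝ))
    (h1l : (0 : ℝ) < ((b - a) / (1 - u)))
    (h1u : ((b - a) / (1 - u)) ≤ (1 : ℝ))
    (h2l : (0 : ℝ) < (allStabI a b / (b - a)))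
    (h2u : (allStabI a b / (b - a)) ≤ (53 / 50 : ℝ)) : EndPlace a b u v H := by
  obtain ⟨hI, hd, hw, eS, hcap⟩ := end_facts B
  have hn : (allStabI a b) ≠ 0 := hI.ne'
  have hn' : b - a ≠ 0 := hd.ne'
  obtain ⟨t, ht⟩ := endCA_ok.point B (x₀ := ((1 - u))) (x₁ := ((b - a) / (1 - u))) (x₂ := (allStabI a b / (b - a)))
    ⟨by norm_num [endCA], by norm_num [endCA] <;> linarith, by norm_num [endCA] <;> linarith⟩
    ⟨by norm_num [endCA], by norm_num [endCA] <;> linarith, by norm_num [endCA] <;> linarith⟩
    ⟨by norm_num [endCA], by norm_num [endCA] <;> linarith, by norm_num [endCA] <;> linarith⟩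
    (by simp only [endCA, end_add, end_sub, end_mul, Ex.eval, pt4];
        try push_cast; try field_simp; try ring)
    (by simp only [endCA, end_add, end_sub, end_mul, Ex.eval, pt4];
        try push_cast; try field_simp; try ring)
    (by simp only [endCA, end_add, end_sub, end_mul, Ex.eval, pt4];
        try push_cast; try field_simp; try ring)
    (by simp only [endCA, end_add, end_sub, end_mul, Ex.eval, pt4]; push_cast; positivity)
  exact .cCA _ ht hk

theorem place_CB (B : EndBands a b u v H)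
    (hk : (a + b) * allStabI a b ≤ (b - a) * (1 - allStabI a b))
    (h0l : (1 / 20 : ℝ) < ((1 - u)))
    (h0u : ((1 - u)) ≤ (1 / 5 : ℝ))
    (h1l : (0 : ℝ) < (allStabI a b))
    (h1u : (allStabI a b) ≤ (1 / 20 : ℝ))
    (h2l : (0 : ℝ) < ((b - a) / (1 - u)))
    (h2u : ((b - a) / (1 - u)) ≤ (1 : ℝ)) : EndPlace a b u v H := by
  obtain ⟨hI, hd, hw, eS, hcap⟩ := end_facts B
  have hn : (allStabI a b) ≠ 0 := hI.ne'
  have hn' : b - a ≠ 0 := hd.ne'
  obtain ⟨t, ht⟩ := endCB_ok.point B (x₀ := ((1 - u))) (x₁ := (allStabI a b)) (x₂ := ((b - a) / (1 - u)))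
    ⟨by norm_num [endCB], by norm_num [endCB] <;> linarith, by norm_num [endCB] <;> linarith⟩
    ⟨by norm_num [endCB], by norm_num [endCB] <;> linarith, by norm_num [endCB] <;> linarith⟩
    ⟨by norm_num [endCB], by norm_num [endCB] <;> linarith, by norm_num [endCB] <;> linarith⟩
    (by simp only [endCB, end_add, end_sub, end_mul, Ex.eval, pt4];
        try push_cast; try field_simp; try ring)
    (by simp only [endCB, end_add, end_sub, end_mul, Ex.eval, pt4];
        try push_cast; try field_simp; try ring)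
    (by simp only [endCB, end_add, end_sub, end_mul, Ex.eval, pt4];
        try push_cast; try field_simp; try ring)
    (by simp only [endCB, end_add, end_sub, end_mul, Ex.eval, pt4]; push_cast; positivity)
  exact .cCB _ ht hk

theorem place_D00 (B : EndBands a b u v H)
    (hk : (a + b) * allStabI a b ≤ (b - a) * (1 - allStabI a b))
    (h0l : (0 : ℝ) < ((b - a)))
    (h0u : ((b - a)) ≤ (1 / 20 : ℝ))
    (h1l : (0 : ℝ) < (allStabI a b / (b - a)))
    (h1u : (allStabI a b / (b - a)) ≤ (1 / 10 : ℝ))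
    (h2l : (0 : ℝ) < ((1 - u) / (b - a)))
    (h2u : ((1 - u) / (b - a)) ≤ (1 / 10 : ℝ)) : EndPlace a b u v H := by
  obtain ⟨hI, hd, hw, eS, hcap⟩ := end_facts B
  have hn : (allStabI a b) ≠ 0 := hI.ne'
  have hn' : b - a ≠ 0 := hd.ne'
  obtain ⟨t, ht⟩ := endD00_ok.point B (x₀ := ((b - a))) (x₁ := (allStabI a b / (b - a))) (x₂ := ((1 - u) / (b - a)))
    ⟨by norm_num [endD00], by norm_num [endD00] <;> linarith, by norm_num [endD00] <;> linarith⟩
    ⟨by norm_num [endD00], by norm_num [endD00] <;> linarith, by norm_num [endD00] <;> linarith⟩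
    ⟨by norm_num [endD00], by norm_num [endD00] <;> linarith, by norm_num [endD00] <;> linarith⟩
    (by simp only [endD00, end_add, end_sub, end_mul, Ex.eval, pt4];
        try push_cast; try field_simp; try ring)
    (by simp only [endD00, end_add, end_sub, end_mul, Ex.eval, pt4];
        try push_cast; try field_simp; try ring)
    (by simp only [endD00, end_add, end_sub, end_mul, Ex.eval, pt4];
        try push_cast; try field_simp; try ring)
    (by simp only [endD00, end_add, end_sub, end_mul, Ex.eval, pt4]; push_cast; positivity)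
  exact .cD00 _ ht hk

theorem place_D01 (B : EndBands a b u v H)
    (hk : (a + b) * allStabI a b ≤ (b - a) * (1 - allStabI a b))
    (h0l : (0 : ℝ) < ((b - a)))
    (h0u : ((b - a)) ≤ (1 / 20 : ℝ))
    (h1l : (1 / 10 : ℝ) < (allStabI a b / (b - a)))
    (h1u : (allStabI a b / (b - a)) ≤ (1 / 2 : ℝ))
    (h2l : (0 : ℝ) < ((1 - u) / (b - a)))
    (h2u : ((1 - u) / (b - a)) ≤ (1 / 10 : ℝ)) : EndPlace a b u v H := by
  obtain ⟨hI, hd, hw, eS, hcap⟩ := end_facts B
  have hn : (allStabI a b) ≠ 0 := hI.ne'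
  have hn' : b - a ≠ 0 := hd.ne'
  obtain ⟨t, ht⟩ := endD01_ok.point B (x₀ := ((b - a))) (x₁ := (allStabI a b / (b - a))) (x₂ := ((1 - u) / (b - a)))
    ⟨by norm_num [endD01], by norm_num [endD01] <;> linarith, by norm_num [endD01] <;> linarith⟩
    ⟨by norm_num [endD01], by norm_num [endD01] <;> linarith, by norm_num [endD01] <;> linarith⟩
    ⟨by norm_num [endD01], by norm_num [endD01] <;> linarith, by norm_num [endD01] <;> linarith⟩
    (by simp only [endD01, end_add, end_sub, end_mul, Ex.eval, pt4];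
        try push_cast; try field_simp; try ring)
    (by simp only [endD01, end_add, end_sub, end_mul, Ex.eval, pt4];
        try push_cast; try field_simp; try ring)
    (by simp only [endD01, end_add, end_sub, end_mul, Ex.eval, pt4];
        try push_cast; try field_simp; try ring)
    (by simp only [endD01, end_add, end_sub, end_mul, Ex.eval, pt4]; push_cast; positivity)
  exact .cD01 _ ht hk

theorem place_D02 (B : EndBands a b u v H)
    (hk : (a + b) * allStabI a b ≤ (b - a) * (1 - allStabI a b))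
    (h0l : (0 : ℝ) < ((b - a)))
    (h0u : ((b - a)) ≤ (1 / 40 : ℝ))
    (h1l : (0 : ℝ) < (allStabI a b / (b - a)))
    (h1u : (allStabI a b / (b - a)) ≤ (1 / 2 : ℝ))
    (h2l : (1 / 10 : ℝ) < ((1 - u) / (b - a)))
    (h2u : ((1 - u) / (b - a)) ≤ (3 / 10 : ℝ)) : EndPlace a b u v H := by
  obtain ⟨hI, hd, hw, eS, hcap⟩ := end_facts B
  have hn : (allStabI a b) ≠ 0 := hI.ne'
  have hn' : b - a ≠ 0 := hd.ne'
  obtain ⟨t, ht⟩ := endD02_ok.point B (x₀ := ((b - a))) (x₁ := (allStabI a b / (b - a))) (x₂ := ((1 - u) / (b - a)))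
    ⟨by norm_num [endD02], by norm_num [endD02] <;> linarith, by norm_num [endD02] <;> linarith⟩
    ⟨by norm_num [endD02], by norm_num [endD02] <;> linarith, by norm_num [endD02] <;> linarith⟩
    ⟨by norm_num [endD02], by norm_num [endD02] <;> linarith, by norm_num [endD02] <;> linarith⟩
    (by simp only [endD02, end_add, end_sub, end_mul, Ex.eval, pt4];
        try push_cast; try field_simp; try ring)
    (by simp only [endD02, end_add, end_sub, end_mul, Ex.eval, pt4];
        try push_cast; try field_simp; try ring)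
    (by simp only [endD02, end_add, end_sub, end_mul, Ex.eval, pt4];
        try push_cast; try field_simp; try ring)
    (by simp only [endD02, end_add, end_sub, end_mul, Ex.eval, pt4]; push_cast; positivity)
  exact .cD02 _ ht hk

theorem place_D03 (B : EndBands a b u v H)
    (hk : (a + b) * allStabI a b ≤ (b - a) * (1 - allStabI a b))
    (h0l : (0 : ℝ) < ((b - a)))
    (h0u : ((b - a)) ≤ (1 / 40 : ℝ))
    (h1l : (0 : ℝ) < (allStabI a b / (b - a)))
    (h1u : (allStabI a b / (b - a)) ≤ (1 / 2 : ℝ))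
    (h2l : (3 / 10 : ℝ) < ((1 - u) / (b - a)))
    (h2u : ((1 - u) / (b - a)) ≤ (1 : ℝ)) : EndPlace a b u v H := by
  obtain ⟨hI, hd, hw, eS, hcap⟩ := end_facts B
  have hn : (allStabI a b) ≠ 0 := hI.ne'
  have hn' : b - a ≠ 0 := hd.ne'
  obtain ⟨t, ht⟩ := endD03_ok.point B (x₀ := ((b - a))) (x₁ := (allStabI a b / (b - a))) (x₂ := ((1 - u) / (b - a)))
    ⟨by norm_num [endD03], by norm_num [endD03] <;> linarith, by norm_num [endD03] <;> linarith⟩
    ⟨by norm_num [endD03], by norm_num [endD03] <;> linarith, by norm_num [endD03] <;> linarith⟩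
    ⟨by norm_num [endD03], by norm_num [endD03] <;> linarith, by norm_num [endD03] <;> linarith⟩
    (by simp only [endD03, end_add, end_sub, end_mul, Ex.eval, pt4];
        try push_cast; try field_simp; try ring)
    (by simp only [endD03, end_add, end_sub, end_mul, Ex.eval, pt4];
        try push_cast; try field_simp; try ring)
    (by simp only [endD03, end_add, end_sub, end_mul, Ex.eval, pt4];
        try push_cast; try field_simp; try ring)
    (by simp only [endD03, end_add, end_sub, end_mul, Ex.eval, pt4]; push_cast; positivity)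
  exact .cD03 _ ht hk

theorem place_D04 (B : EndBands a b u v H)
    (hk : (a + b) * allStabI a b ≤ (b - a) * (1 - allStabI a b))
    (h0l : (1 / 40 : ℝ) < ((b - a)))
    (h0u : ((b - a)) ≤ (1 / 20 : ℝ))
    (h1l : (0 : ℝ) < (allStabI a b / (b - a)))
    (h1u : (allStabI a b / (b - a)) ≤ (1 / 2 : ℝ))
    (h2l : (1 / 10 : ℝ) < ((1 - u) / (b - a)))
    (h2u : ((1 - u) / (b - a)) ≤ (3 / 10 : ℝ)) : EndPlace a b u v H := by
  obtain ⟨hI, hd, hw, eS, hcap⟩ := end_facts B
  have hn : (allStabI a b) ≠ 0 := hI.ne'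
  have hn' : b - a ≠ 0 := hd.ne'
  obtain ⟨t, ht⟩ := endD04_ok.point B (x₀ := ((b - a))) (x₁ := (allStabI a b / (b - a))) (x₂ := ((1 - u) / (b - a)))
    ⟨by norm_num [endD04], by norm_num [endD04] <;> linarith, by norm_num [endD04] <;> linarith⟩
    ⟨by norm_num [endD04], by norm_num [endD04] <;> linarith, by norm_num [endD04] <;> linarith⟩
    ⟨by norm_num [endD04], by norm_num [endD04] <;> linarith, by norm_num [endD04] <;> linarith⟩
    (by simp only [endD04, end_add, end_sub, end_mul, Ex.eval, pt4];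
        try push_cast; try field_simp; try ring)
    (by simp only [endD04, end_add, end_sub, end_mul, Ex.eval, pt4];
        try push_cast; try field_simp; try ring)
    (by simp only [endD04, end_add, end_sub, end_mul, Ex.eval, pt4];
        try push_cast; try field_simp; try ring)
    (by simp only [endD04, end_add, end_sub, end_mul, Ex.eval, pt4]; push_cast; positivity)
  exact .cD04 _ ht hk

theorem place_D05 (B : EndBands a b u v H)
    (hk : (a + b) * allStabI a b ≤ (b - a) * (1 - allStabI a b))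
    (h0l : (1 / 40 : ℝ) < ((b - a)))
    (h0u : ((b - a)) ≤ (1 / 20 : ℝ))
    (h1l : (0 : ℝ) < (allStabI a b / (b - a)))
    (h1u : (allStabI a b / (b - a)) ≤ (1 / 2 : ℝ))
    (h2l : (3 / 10 : ℝ) < ((1 - u) / (b - a)))
    (h2u : ((1 - u) / (b - a)) ≤ (1 : ℝ)) : EndPlace a b u v H := by
  obtain ⟨hI, hd, hw, eS, hcap⟩ := end_facts B
  have hn : (allStabI a b) ≠ 0 := hI.ne'
  have hn' : b - a ≠ 0 := hd.ne'
  obtain ⟨t, ht⟩ := endD05_ok.point B (x₀ := ((b - a))) (x₁ := (allStabI a b / (b - a))) (x₂ := ((1 - u) / (b - a)))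
    ⟨by norm_num [endD05], by norm_num [endD05] <;> linarith, by norm_num [endD05] <;> linarith⟩
    ⟨by norm_num [endD05], by norm_num [endD05] <;> linarith, by norm_num [endD05] <;> linarith⟩
    ⟨by norm_num [endD05], by norm_num [endD05] <;> linarith, by norm_num [endD05] <;> linarith⟩
    (by simp only [endD05, end_add, end_sub, end_mul, Ex.eval, pt4];
        try push_cast; try field_simp; try ring)
    (by simp only [endD05, end_add, end_sub, end_mul, Ex.eval, pt4];
        try push_cast; try field_simp; try ring)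
    (by simp only [endD05, end_add, end_sub, end_mul, Ex.eval, pt4];
        try push_cast; try field_simp; try ring)
    (by simp only [endD05, end_add, end_sub, end_mul, Ex.eval, pt4]; push_cast; positivity)
  exact .cD05 _ ht hk

theorem place_D06 (B : EndBands a b u v H)
    (hk : (a + b) * allStabI a b ≤ (b - a) * (1 - allStabI a b))
    (h0l : (0 : ℝ) < ((b - a)))
    (h0u : ((b - a)) ≤ (1 / 20 : ℝ))
    (h1l : (1 / 2 : ℝ) < (allStabI a b / (b - a)))
    (h1u : (allStabI a b / (b - a)) ≤ (1 : ℝ))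
    (h2l : (9 / 20 : ℝ) < ((1 - u) / (b - a)))
    (h2u : ((1 - u) / (b - a)) ≤ (1 : ℝ)) : EndPlace a b u v H := by
  obtain ⟨hI, hd, hw, eS, hcap⟩ := end_facts B
  have hn : (allStabI a b) ≠ 0 := hI.ne'
  have hn' : b - a ≠ 0 := hd.ne'
  obtain ⟨t, ht⟩ := endD06_ok.point B (x₀ := ((b - a))) (x₁ := (allStabI a b / (b - a))) (x₂ := ((1 - u) / (b - a)))
    ⟨by norm_num [endD06], by norm_num [endD06] <;> linarith, by norm_num [endD06] <;> linarith⟩
    ⟨by norm_num [endD06], by norm_num [endD06] <;> linarith, by norm_num [endD06] <;> linarith⟩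
    ⟨by norm_num [endD06], by norm_num [endD06] <;> linarith, by norm_num [endD06] <;> linarith⟩
    (by simp only [endD06, end_add, end_sub, end_mul, Ex.eval, pt4];
        try push_cast; try field_simp; try ring)
    (by simp only [endD06, end_add, end_sub, end_mul, Ex.eval, pt4];
        try push_cast; try field_simp; try ring)
    (by simp only [endD06, end_add, end_sub, end_mul, Ex.eval, pt4];
        try push_cast; try field_simp; try ring)
    (by simp only [endD06, end_add, end_sub, end_mul, Ex.eval, pt4]; push_cast; positivity)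
  exact .cD06 _ ht hk

theorem place_D07 (B : EndBands a b u v H)
    (hk : (a + b) * allStabI a b ≤ (b - a) * (1 - allStabI a b))
    (h0l : (1 / 20 : ℝ) < ((b - a)))
    (h0u : ((b - a)) ≤ (3 / 25 : ℝ))
    (h1l : (0 : ℝ) < (allStabI a b / (b - a)))
    (h1u : (allStabI a b / (b - a)) ≤ (3 / 10 : ℝ))
    (h2l : (0 : ℝ) < ((1 - u) / (b - a)))
    (h2u : ((1 - u) / (b - a)) ≤ (1 / 10 : ℝ)) : EndPlace a b u v H := by
  obtain ⟨hI, hd, hw, eS, hcap⟩ := end_facts B
  have hn : (allStabI a b) ≠ 0 := hI.ne'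
  have hn' : b - a ≠ 0 := hd.ne'
  obtain ⟨t, ht⟩ := endD07_ok.point B (x₀ := ((b - a))) (x₁ := (allStabI a b / (b - a))) (x₂ := ((1 - u) / (b - a)))
    ⟨by norm_num [endD07], by norm_num [endD07] <;> linarith, by norm_num [endD07] <;> linarith⟩
    ⟨by norm_num [endD07], by norm_num [endD07] <;> linarith, by norm_num [endD07] <;> linarith⟩
    ⟨by norm_num [endD07], by norm_num [endD07] <;> linarith, by norm_num [endD07] <;> linarith⟩
    (by simp only [endD07, end_add, end_sub, end_mul, Ex.eval, pt4];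
        try push_cast; try field_simp; try ring)
    (by simp only [endD07, end_add, end_sub, end_mul, Ex.eval, pt4];
        try push_cast; try field_simp; try ring)
    (by simp only [endD07, end_add, end_sub, end_mul, Ex.eval, pt4];
        try push_cast; try field_simp; try ring)
    (by simp only [endD07, end_add, end_sub, end_mul, Ex.eval, pt4]; push_cast; positivity)
  exact .cD07 _ ht hk

theorem place_D08 (B : EndBands a b u v H)
    (hk : (a + b) * allStabI a b ≤ (b - a) * (1 - allStabI a b))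
    (h0l : (1 / 20 : ℝ) < ((b - a)))
    (h0u : ((b - a)) ≤ (9 / 100 : ℝ))
    (h1l : (3 / 10 : ℝ) < (allStabI a b / (b - a)))
    (h1u : (allStabI a b / (b - a)) ≤ (1 / 2 : ℝ))
    (h2l : (0 : ℝ) < ((1 - u) / (b - a)))
    (h2u : ((1 - u) / (b - a)) ≤ (1 / 10 : ℝ)) : EndPlace a b u v H := by
  obtain ⟨hI, hd, hw, eS, hcap⟩ := end_facts B
  have hn : (allStabI a b) ≠ 0 := hI.ne'
  have hn' : b - a ≠ 0 := hd.ne'
  obtain ⟨t, ht⟩ := endD08_ok.point B (x₀ := ((b - a))) (x₁ := (allStabI a b / (b - a))) (x₂ := ((1 - u) / (b - a)))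
    ⟨by norm_num [endD08], by norm_num [endD08] <;> linarith, by norm_num [endD08] <;> linarith⟩
    ⟨by norm_num [endD08], by norm_num [endD08] <;> linarith, by norm_num [endD08] <;> linarith⟩
    ⟨by norm_num [endD08], by norm_num [endD08] <;> linarith, by norm_num [endD08] <;> linarith⟩
    (by simp only [endD08, end_add, end_sub, end_mul, Ex.eval, pt4];
        try push_cast; try field_simp; try ring)
    (by simp only [endD08, end_add, end_sub, end_mul, Ex.eval, pt4];
        try push_cast; try field_simp; try ring)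
    (by simp only [endD08, end_add, end_sub, end_mul, Ex.eval, pt4];
        try push_cast; try field_simp; try ring)
    (by simp only [endD08, end_add, end_sub, end_mul, Ex.eval, pt4]; push_cast; positivity)
  exact .cD08 _ ht hk

theorem place_D09 (B : EndBands a b u v H)
    (hk : (a + b) * allStabI a b ≤ (b - a) * (1 - allStabI a b))
    (h0l : (9 / 100 : ℝ) < ((b - a)))
    (h0u : ((b - a)) ≤ (3 / 25 : ℝ))
    (h1l : (3 / 10 : ℝ) < (allStabI a b / (b - a)))
    (h1u : (allStabI a b / (b - a)) ≤ (1 / 2 : ℝ))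
    (h2l : (0 : ℝ) < ((1 - u) / (b - a)))
    (h2u : ((1 - u) / (b - a)) ≤ (1 / 10 : ℝ)) : EndPlace a b u v H := by
  obtain ⟨hI, hd, hw, eS, hcap⟩ := end_facts B
  have hn : (allStabI a b) ≠ 0 := hI.ne'
  have hn' : b - a ≠ 0 := hd.ne'
  obtain ⟨t, ht⟩ := endD09_ok.point B (x₀ := ((b - a))) (x₁ := (allStabI a b / (b - a))) (x₂ := ((1 - u) / (b - a)))
    ⟨by norm_num [endD09], by norm_num [endD09] <;> linarith, by norm_num [endD09] <;> linarith⟩
    ⟨by norm_num [endD09], by norm_num [endD09] <;> linarith, by norm_num [endD09] <;> linarith⟩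
    ⟨by norm_num [endD09], by norm_num [endD09] <;> linarith, by norm_num [endD09] <;> linarith⟩
    (by simp only [endD09, end_add, end_sub, end_mul, Ex.eval, pt4];
        try push_cast; try field_simp; try ring)
    (by simp only [endD09, end_add, end_sub, end_mul, Ex.eval, pt4];
        try push_cast; try field_simp; try ring)
    (by simp only [endD09, end_add, end_sub, end_mul, Ex.eval, pt4];
        try push_cast; try field_simp; try ring)
    (by simp only [endD09, end_add, end_sub, end_mul, Ex.eval, pt4]; push_cast; positivity)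
  exact .cD09 _ ht hk

theorem place_D10 (B : EndBands a b u v H)
    (hk : (a + b) * allStabI a b ≤ (b - a) * (1 - allStabI a b))
    (h0l : (1 / 20 : ℝ) < ((b - a)))
    (h0u : ((b - a)) ≤ (7 / 100 : ℝ))
    (h1l : (0 : ℝ) < (allStabI a b / (b - a)))
    (h1u : (allStabI a b / (b - a)) ≤ (1 / 2 : ℝ))
    (h2l : (1 / 10 : ℝ) < ((1 - u) / (b - a)))
    (h2u : ((1 - u) / (b - a)) ≤ (3 / 10 : ℝ)) : EndPlace a b u v H := by
  obtain ⟨hI, hd, hw, eS, hcap⟩ := end_facts B
  have hn : (allStabI a b) ≠ 0 := hI.ne'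
  have hn' : b - a ≠ 0 := hd.ne'
  obtain ⟨t, ht⟩ := endD10_ok.point B (x₀ := ((b - a))) (x₁ := (allStabI a b / (b - a))) (x₂ := ((1 - u) / (b - a)))
    ⟨by norm_num [endD10], by norm_num [endD10] <;> linarith, by norm_num [endD10] <;> linarith⟩
    ⟨by norm_num [endD10], by norm_num [endD10] <;> linarith, by norm_num [endD10] <;> linarith⟩
    ⟨by norm_num [endD10], by norm_num [endD10] <;> linarith, by norm_num [endD10] <;> linarith⟩
    (by simp only [endD10, end_add, end_sub, end_mul, Ex.eval, pt4];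
        try push_cast; try field_simp; try ring)
    (by simp only [endD10, end_add, end_sub, end_mul, Ex.eval, pt4];
        try push_cast; try field_simp; try ring)
    (by simp only [endD10, end_add, end_sub, end_mul, Ex.eval, pt4];
        try push_cast; try field_simp; try ring)
    (by simp only [endD10, end_add, end_sub, end_mul, Ex.eval, pt4]; push_cast; positivity)
  exact .cD10 _ ht hk

theorem place_D11 (B : EndBands a b u v H)
    (hk : (a + b) * allStabI a b ≤ (b - a) * (1 - allStabI a b))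
    (h0l : (1 / 20 : ℝ) < ((b - a)))
    (h0u : ((b - a)) ≤ (7 / 100 : ℝ))
    (h1l : (0 : ℝ) < (allStabI a b / (b - a)))
    (h1u : (allStabI a b / (b - a)) ≤ (1 / 2 : ℝ))
    (h2l : (3 / 10 : ℝ) < ((1 - u) / (b - a)))
    (h2u : ((1 - u) / (b - a)) ≤ (1 : ℝ)) : EndPlace a b u v H := by
  obtain ⟨hI, hd, hw, eS, hcap⟩ := end_facts B
  have hn : (allStabI a b) ≠ 0 := hI.ne'
  have hn' : b - a ≠ 0 := hd.ne'
  obtain ⟨t, ht⟩ := endD11_ok.point B (x₀ := ((b - a))) (x₁ := (allStabI a b / (b - a))) (x₂ := ((1 - u) / (b - a)))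
    ⟨by norm_num [endD11], by norm_num [endD11] <;> linarith, by norm_num [endD11] <;> linarith⟩
    ⟨by norm_num [endD11], by norm_num [endD11] <;> linarith, by norm_num [endD11] <;> linarith⟩
    ⟨by norm_num [endD11], by norm_num [endD11] <;> linarith, by norm_num [endD11] <;> linarith⟩
    (by simp only [endD11, end_add, end_sub, end_mul, Ex.eval, pt4];
        try push_cast; try field_simp; try ring)
    (by simp only [endD11, end_add, end_sub, end_mul, Ex.eval, pt4];
        try push_cast; try field_simp; try ring)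
    (by simp only [endD11, end_add, end_sub, end_mul, Ex.eval, pt4];
        try push_cast; try field_simp; try ring)
    (by simp only [endD11, end_add, end_sub, end_mul, Ex.eval, pt4]; push_cast; positivity)
  exact .cD11 _ ht hk

theorem place_D12 (B : EndBands a b u v H)
    (hk : (a + b) * allStabI a b ≤ (b - a) * (1 - allStabI a b))
    (h0l : (7 / 100 : ℝ) < ((b - a)))
    (h0u : ((b - a)) ≤ (9 / 100 : ℝ))
    (h1l : (0 : ℝ) < (allStabI a b / (b - a)))
    (h1u : (allStabI a b / (b - a)) ≤ (1 / 2 : ℝ))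
    (h2l : (1 / 10 : ℝ) < ((1 - u) / (b - a)))
    (h2u : ((1 - u) / (b - a)) ≤ (3 / 10 : ℝ)) : EndPlace a b u v H := by
  obtain ⟨hI, hd, hw, eS, hcap⟩ := end_facts B
  have hn : (allStabI a b) ≠ 0 := hI.ne'
  have hn' : b - a ≠ 0 := hd.ne'
  obtain ⟨t, ht⟩ := endD12_ok.point B (x₀ := ((b - a))) (x₁ := (allStabI a b / (b - a))) (x₂ := ((1 - u) / (b - a)))
    ⟨by norm_num [endD12], by norm_num [endD12] <;> linarith, by norm_num [endD12] <;> linarith⟩
    ⟨by norm_num [endD12], by norm_num [endD12] <;> linarith, by norm_num [endD12] <;> linarith⟩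
    ⟨by norm_num [endD12], by norm_num [endD12] <;> linarith, by norm_num [endD12] <;> linarith⟩
    (by simp only [endD12, end_add, end_sub, end_mul, Ex.eval, pt4];
        try push_cast; try field_simp; try ring)
    (by simp only [endD12, end_add, end_sub, end_mul, Ex.eval, pt4];
        try push_cast; try field_simp; try ring)
    (by simp only [endD12, end_add, end_sub, end_mul, Ex.eval, pt4];
        try push_cast; try field_simp; try ring)
    (by simp only [endD12, end_add, end_sub, end_mul, Ex.eval, pt4]; push_cast; positivity)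
  exact .cD12 _ ht hk

theorem place_D13 (B : EndBands a b u v H)
    (hk : (a + b) * allStabI a b ≤ (b - a) * (1 - allStabI a b))
    (h0l : (7 / 100 : ℝ) < ((b - a)))
    (h0u : ((b - a)) ≤ (9 / 100 : ℝ))
    (h1l : (0 : ℝ) < (allStabI a b / (b - a)))
    (h1u : (allStabI a b / (b - a)) ≤ (1 / 2 : ℝ))
    (h2l : (3 / 10 : ℝ) < ((1 - u) / (b - a)))
    (h2u : ((1 - u) / (b - a)) ≤ (1 : ℝ)) : EndPlace a b u v H := by
  obtain ⟨hI, hd, hw, eS, hcap⟩ := end_facts B
  have hn : (allStabI a b) ≠ 0 := hI.ne'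
  have hn' : b - a ≠ 0 := hd.ne'
  obtain ⟨t, ht⟩ := endD13_ok.point B (x₀ := ((b - a))) (x₁ := (allStabI a b / (b - a))) (x₂ := ((1 - u) / (b - a)))
    ⟨by norm_num [endD13], by norm_num [endD13] <;> linarith, by norm_num [endD13] <;> linarith⟩
    ⟨by norm_num [endD13], by norm_num [endD13] <;> linarith, by norm_num [endD13] <;> linarith⟩
    ⟨by norm_num [endD13], by norm_num [endD13] <;> linarith, by norm_num [endD13] <;> linarith⟩
    (by simp only [endD13, end_add, end_sub, end_mul, Ex.eval, pt4];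
        try push_cast; try field_simp; try ring)
    (by simp only [endD13, end_add, end_sub, end_mul, Ex.eval, pt4];
        try push_cast; try field_simp; try ring)
    (by simp only [endD13, end_add, end_sub, end_mul, Ex.eval, pt4];
        try push_cast; try field_simp; try ring)
    (by simp only [endD13, end_add, end_sub, end_mul, Ex.eval, pt4]; push_cast; positivity)
  exact .cD13 _ ht hk

theorem place_D14 (B : EndBands a b u v H)
    (hk : (a + b) * allStabI a b ≤ (b - a) * (1 - allStabI a b))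
    (h0l : (9 / 100 : ℝ) < ((b - a)))
    (h0u : ((b - a)) ≤ (3 / 25 : ℝ))
    (h1l : (0 : ℝ) < (allStabI a b / (b - a)))
    (h1u : (allStabI a b / (b - a)) ≤ (1 / 2 : ℝ))
    (h2l : (1 / 10 : ℝ) < ((1 - u) / (b - a)))
    (h2u : ((1 - u) / (b - a)) ≤ (3 / 10 : ℝ)) : EndPlace a b u v H := by
  obtain ⟨hI, hd, hw, eS, hcap⟩ := end_facts B
  have hn : (allStabI a b) ≠ 0 := hI.ne'
  have hn' : b - a ≠ 0 := hd.ne'
  obtain ⟨t, ht⟩ := endD14_ok.point B (x₀ := ((b - a))) (x₁ := (allStabI a b / (b - a))) (x₂ := ((1 - u) / (b - a)))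
    ⟨by norm_num [endD14], by norm_num [endD14] <;> linarith, by norm_num [endD14] <;> linarith⟩
    ⟨by norm_num [endD14], by norm_num [endD14] <;> linarith, by norm_num [endD14] <;> linarith⟩
    ⟨by norm_num [endD14], by norm_num [endD14] <;> linarith, by norm_num [endD14] <;> linarith⟩
    (by simp only [endD14, end_add, end_sub, end_mul, Ex.eval, pt4];
        try push_cast; try field_simp; try ring)
    (by simp only [endD14, end_add, end_sub, end_mul, Ex.eval, pt4];
        try push_cast; try field_simp; try ring)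
    (by simp only [endD14, end_add, end_sub, end_mul, Ex.eval, pt4];
        try push_cast; try field_simp; try ring)
    (by simp only [endD14, end_add, end_sub, end_mul, Ex.eval, pt4]; push_cast; positivity)
  exact .cD14 _ ht hk

theorem place_D15 (B : EndBands a b u v H)
    (hk : (a + b) * allStabI a b ≤ (b - a) * (1 - allStabI a b))
    (h0l : (9 / 100 : ℝ) < ((b - a)))
    (h0u : ((b - a)) ≤ (3 / 25 : ℝ))
    (h1l : (0 : ℝ) < (allStabI a b / (b - a)))
    (h1u : (allStabI a b / (b - a)) ≤ (1 / 2 : ℝ))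
    (h2l : (3 / 10 : ℝ) < ((1 - u) / (b - a)))
    (h2u : ((1 - u) / (b - a)) ≤ (1 : ℝ)) : EndPlace a b u v H := by
  obtain ⟨hI, hd, hw, eS, hcap⟩ := end_facts B
  have hn : (allStabI a b) ≠ 0 := hI.ne'
  have hn' : b - a ≠ 0 := hd.ne'
  obtain ⟨t, ht⟩ := endD15_ok.point B (x₀ := ((b - a))) (x₁ := (allStabI a b / (b - a))) (x₂ := ((1 - u) / (b - a)))
    ⟨by norm_num [endD15], by norm_num [endD15] <;> linarith, by norm_num [endD15] <;> linarith⟩
    ⟨by norm_num [endD15], by norm_num [endD15] <;> linarith, by norm_num [endD15] <;> linarith⟩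
    ⟨by norm_num [endD15], by norm_num [endD15] <;> linarith, by norm_num [endD15] <;> linarith⟩
    (by simp only [endD15, end_add, end_sub, end_mul, Ex.eval, pt4];
        try push_cast; try field_simp; try ring)
    (by simp only [endD15, end_add, end_sub, end_mul, Ex.eval, pt4];
        try push_cast; try field_simp; try ring)
    (by simp only [endD15, end_add, end_sub, end_mul, Ex.eval, pt4];
        try push_cast; try field_simp; try ring)
    (by simp only [endD15, end_add, end_sub, end_mul, Ex.eval, pt4]; push_cast; positivity)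
  exact .cD15 _ ht hk

theorem place_D16 (B : EndBands a b u v H)
    (hk : (a + b) * allStabI a b ≤ (b - a) * (1 - allStabI a b))
    (h0l : (1 / 20 : ℝ) < ((b - a)))
    (h0u : ((b - a)) ≤ (7 / 100 : ℝ))
    (h1l : (1 / 2 : ℝ) < (allStabI a b / (b - a)))
    (h1u : (allStabI a b / (b - a)) ≤ (1 : ℝ))
    (h2l : (9 / 20 : ℝ) < ((1 - u) / (b - a)))
    (h2u : ((1 - u) / (b - a)) ≤ (1 : ℝ)) : EndPlace a b u v H := by
  obtain ⟨hI, hd, hw, eS, hcap⟩ := end_facts B
  have hn : (allStabI a b) ≠ 0 := hI.ne'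
  have hn' : b - a ≠ 0 := hd.ne'
  obtain ⟨t, ht⟩ := endD16_ok.point B (x₀ := ((b - a))) (x₁ := (allStabI a b / (b - a))) (x₂ := ((1 - u) / (b - a)))
    ⟨by norm_num [endD16], by norm_num [endD16] <;> linarith, by norm_num [endD16] <;> linarith⟩
    ⟨by norm_num [endD16], by norm_num [endD16] <;> linarith, by norm_num [endD16] <;> linarith⟩
    ⟨by norm_num [endD16], by norm_num [endD16] <;> linarith, by norm_num [endD16] <;> linarith⟩
    (by simp only [endD16, end_add, end_sub, end_mul, Ex.eval, pt4];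
        try push_cast; try field_simp; try ring)
    (by simp only [endD16, end_add, end_sub, end_mul, Ex.eval, pt4];
        try push_cast; try field_simp; try ring)
    (by simp only [endD16, end_add, end_sub, end_mul, Ex.eval, pt4];
        try push_cast; try field_simp; try ring)
    (by simp only [endD16, end_add, end_sub, end_mul, Ex.eval, pt4]; push_cast; positivity)
  exact .cD16 _ ht hk

theorem place_D17 (B : EndBands a b u v H)
    (hk : (a + b) * allStabI a b ≤ (b - a) * (1 - allStabI a b))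
    (h0l : (7 / 100 : ℝ) < ((b - a)))
    (h0u : ((b - a)) ≤ (1 / 10 : ℝ))
    (h1l : (1 / 2 : ℝ) < (allStabI a b / (b - a)))
    (h1u : (allStabI a b / (b - a)) ≤ (18 / 25 : ℝ))
    (h2l : (9 / 20 : ℝ) < ((1 - u) / (b - a)))
    (h2u : ((1 - u) / (b - a)) ≤ (1 : ℝ)) : EndPlace a b u v H := by
  obtain ⟨hI, hd, hw, eS, hcap⟩ := end_facts B
  have hn : (allStabI a b) ≠ 0 := hI.ne'
  have hn' : b - a ≠ 0 := hd.ne'
  obtain ⟨t, ht⟩ := endD17_ok.point B (x₀ := ((b - a))) (x₁ := (allStabI a b / (b - a))) (x₂ := ((1 - u) / (b - a)))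
    ⟨by norm_num [endD17], by norm_num [endD17] <;> linarith, by norm_num [endD17] <;> linarith⟩
    ⟨by norm_num [endD17], by norm_num [endD17] <;> linarith, by norm_num [endD17] <;> linarith⟩
    ⟨by norm_num [endD17], by norm_num [endD17] <;> linarith, by norm_num [endD17] <;> linarith⟩
    (by simp only [endD17, end_add, end_sub, end_mul, Ex.eval, pt4];
        try push_cast; try field_simp; try ring)
    (by simp only [endD17, end_add, end_sub, end_mul, Ex.eval, pt4];
        try push_cast; try field_simp; try ring)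
    (by simp only [endD17, end_add, end_sub, end_mul, Ex.eval, pt4];
        try push_cast; try field_simp; try ring)
    (by simp only [endD17, end_add, end_sub, end_mul, Ex.eval, pt4]; push_cast; positivity)
  exact .cD17 _ ht hk

theorem place_D18 (B : EndBands a b u v H)
    (hk : (a + b) * allStabI a b ≤ (b - a) * (1 - allStabI a b))
    (h0l : (3 / 25 : ℝ) < ((b - a)))
    (h0u : ((b - a)) ≤ (1 / 5 : ℝ))
    (h1l : (0 : ℝ) < (allStabI a b / (b - a)))
    (h1u : (allStabI a b / (b - a)) ≤ (1 / 5 : ℝ))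
    (h2l : (0 : ℝ) < ((1 - u) / (b - a)))
    (h2u : ((1 - u) / (b - a)) ≤ (1 / 10 : ℝ)) : EndPlace a b u v H := by
  obtain ⟨hI, hd, hw, eS, hcap⟩ := end_facts B
  have hn : (allStabI a b) ≠ 0 := hI.ne'
  have hn' : b - a ≠ 0 := hd.ne'
  obtain ⟨t, ht⟩ := endD18_ok.point B (x₀ := ((b - a))) (x₁ := (allStabI a b / (b - a))) (x₂ := ((1 - u) / (b - a)))
    ⟨by norm_num [endD18], by norm_num [endD18] <;> linarith, by norm_num [endD18] <;> linarith⟩
    ⟨by norm_num [endD18], by norm_num [endD18] <;> linarith, by norm_num [endD18] <;> linarith⟩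
    ⟨by norm_num [endD18], by norm_num [endD18] <;> linarith, by norm_num [endD18] <;> linarith⟩
    (by simp only [endD18, end_add, end_sub, end_mul, Ex.eval, pt4];
        try push_cast; try field_simp; try ring)
    (by simp only [endD18, end_add, end_sub, end_mul, Ex.eval, pt4];
        try push_cast; try field_simp; try ring)
    (by simp only [endD18, end_add, end_sub, end_mul, Ex.eval, pt4];
        try push_cast; try field_simp; try ring)
    (by simp only [endD18, end_add, end_sub, end_mul, Ex.eval, pt4]; push_cast; positivity)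
  exact .cD18 _ ht hk

theorem place_D19 (B : EndBands a b u v H)
    (hk : (a + b) * allStabI a b ≤ (b - a) * (1 - allStabI a b))
    (h0l : (3 / 25 : ℝ) < ((b - a)))
    (h0u : ((b - a)) ≤ (4 / 25 : ℝ))
    (h1l : (1 / 5 : ℝ) < (allStabI a b / (b - a)))
    (h1u : (allStabI a b / (b - a)) ≤ (21 / 50 : ℝ))
    (h2l : (0 : ℝ) < ((1 - u) / (b - a)))
    (h2u : ((1 - u) / (b - a)) ≤ (1 / 10 : ℝ)) : EndPlace a b u v H := by
  obtain ⟨hI, hd, hw, eS, hcap⟩ := end_facts B
  have hn : (allStabI a b) ≠ 0 := hI.ne'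
  have hn' : b - a ≠ 0 := hd.ne'
  obtain ⟨t, ht⟩ := endD19_ok.point B (x₀ := ((b - a))) (x₁ := (allStabI a b / (b - a))) (x₂ := ((1 - u) / (b - a)))
    ⟨by norm_num [endD19], by norm_num [endD19] <;> linarith, by norm_num [endD19] <;> linarith⟩
    ⟨by norm_num [endD19], by norm_num [endD19] <;> linarith, by norm_num [endD19] <;> linarith⟩
    ⟨by norm_num [endD19], by norm_num [endD19] <;> linarith, by norm_num [endD19] <;> linarith⟩
    (by simp only [endD19, end_add, end_sub, end_mul, Ex.eval, pt4];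
        try push_cast; try field_simp; try ring)
    (by simp only [endD19, end_add, end_sub, end_mul, Ex.eval, pt4];
        try push_cast; try field_simp; try ring)
    (by simp only [endD19, end_add, end_sub, end_mul, Ex.eval, pt4];
        try push_cast; try field_simp; try ring)
    (by simp only [endD19, end_add, end_sub, end_mul, Ex.eval, pt4]; push_cast; positivity)
  exact .cD19 _ ht hk

theorem place_D20 (B : EndBands a b u v H)
    (hk : (a + b) * allStabI a b ≤ (b - a) * (1 - allStabI a b))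
    (h0l : (4 / 25 : ℝ) < ((b - a)))
    (h0u : ((b - a)) ≤ (1 / 5 : ℝ))
    (h1l : (1 / 5 : ℝ) < (allStabI a b / (b - a)))
    (h1u : (allStabI a b / (b - a)) ≤ (8 / 25 : ℝ))
    (h2l : (0 : ℝ) < ((1 - u) / (b - a)))
    (h2u : ((1 - u) / (b - a)) ≤ (1 / 10 : ℝ)) : EndPlace a b u v H := by
  obtain ⟨hI, hd, hw, eS, hcap⟩ := end_facts B
  have hn : (allStabI a b) ≠ 0 := hI.ne'
  have hn' : b - a ≠ 0 := hd.ne'
  obtain ⟨t, ht⟩ := endD20_ok.point B (x₀ := ((b - a))) (x₁ := (allStabI a b / (b - a))) (x₂ := ((1 - u) / (b - a)))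
    ⟨by norm_num [endD20], by norm_num [endD20] <;> linarith, by norm_num [endD20] <;> linarith⟩
    ⟨by norm_num [endD20], by norm_num [endD20] <;> linarith, by norm_num [endD20] <;> linarith⟩
    ⟨by norm_num [endD20], by norm_num [endD20] <;> linarith, by norm_num [endD20] <;> linarith⟩
    (by simp only [endD20, end_add, end_sub, end_mul, Ex.eval, pt4];
        try push_cast; try field_simp; try ring)
    (by simp only [endD20, end_add, end_sub, end_mul, Ex.eval, pt4];
        try push_cast; try field_simp; try ring)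
    (by simp only [endD20, end_add, end_sub, end_mul, Ex.eval, pt4];
        try push_cast; try field_simp; try ring)
    (by simp only [endD20, end_add, end_sub, end_mul, Ex.eval, pt4]; push_cast; positivity)
  exact .cD20 _ ht hk

theorem place_D21 (B : EndBands a b u v H)
    (hk : (a + b) * allStabI a b ≤ (b - a) * (1 - allStabI a b))
    (h0l : (3 / 25 : ℝ) < ((b - a)))
    (h0u : ((b - a)) ≤ (4 / 25 : ℝ))
    (h1l : (0 : ℝ) < (allStabI a b / (b - a)))
    (h1u : (allStabI a b / (b - a)) ≤ (21 / 50 : ℝ))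
    (h2l : (1 / 10 : ℝ) < ((1 - u) / (b - a)))
    (h2u : ((1 - u) / (b - a)) ≤ (3 / 10 : ℝ)) : EndPlace a b u v H := by
  obtain ⟨hI, hd, hw, eS, hcap⟩ := end_facts B
  have hn : (allStabI a b) ≠ 0 := hI.ne'
  have hn' : b - a ≠ 0 := hd.ne'
  obtain ⟨t, ht⟩ := endD21_ok.point B (x₀ := ((b - a))) (x₁ := (allStabI a b / (b - a))) (x₂ := ((1 - u) / (b - a)))
    ⟨by norm_num [endD21], by norm_num [endD21] <;> linarith, by norm_num [endD21] <;> linarith⟩
    ⟨by norm_num [endD21], by norm_num [endD21] <;> linarith, by norm_num [endD21] <;> linarith⟩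
    ⟨by norm_num [endD21], by norm_num [endD21] <;> linarith, by norm_num [endD21] <;> linarith⟩
    (by simp only [endD21, end_add, end_sub, end_mul, Ex.eval, pt4];
        try push_cast; try field_simp; try ring)
    (by simp only [endD21, end_add, end_sub, end_mul, Ex.eval, pt4];
        try push_cast; try field_simp; try ring)
    (by simp only [endD21, end_add, end_sub, end_mul, Ex.eval, pt4];
        try push_cast; try field_simp; try ring)
    (by simp only [endD21, end_add, end_sub, end_mul, Ex.eval, pt4]; push_cast; positivity)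
  exact .cD21 _ ht hk

theorem place_D22 (B : EndBands a b u v H)
    (hk : (a + b) * allStabI a b ≤ (b - a) * (1 - allStabI a b))
    (h0l : (3 / 25 : ℝ) < ((b - a)))
    (h0u : ((b - a)) ≤ (4 / 25 : ℝ))
    (h1l : (0 : ℝ) < (allStabI a b / (b - a)))
    (h1u : (allStabI a b / (b - a)) ≤ (21 / 50 : ℝ))
    (h2l : (3 / 10 : ℝ) < ((1 - u) / (b - a)))
    (h2u : ((1 - u) / (b - a)) ≤ (1 : ℝ)) : EndPlace a b u v H := by
  obtain ⟨hI, hd, hw, eS, hcap⟩ := end_facts B
  have hn : (allStabI a b) ≠ 0 := hI.ne'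
  have hn' : b - a ≠ 0 := hd.ne'
  obtain ⟨t, ht⟩ := endD22_ok.point B (x₀ := ((b - a))) (x₁ := (allStabI a b / (b - a))) (x₂ := ((1 - u) / (b - a)))
    ⟨by norm_num [endD22], by norm_num [endD22] <;> linarith, by norm_num [endD22] <;> linarith⟩
    ⟨by norm_num [endD22], by norm_num [endD22] <;> linarith, by norm_num [endD22] <;> linarith⟩
    ⟨by norm_num [endD22], by norm_num [endD22] <;> linarith, by norm_num [endD22] <;> linarith⟩
    (by simp only [endD22, end_add, end_sub, end_mul, Ex.eval, pt4];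
        try push_cast; try field_simp; try ring)
    (by simp only [endD22, end_add, end_sub, end_mul, Ex.eval, pt4];
        try push_cast; try field_simp; try ring)
    (by simp only [endD22, end_add, end_sub, end_mul, Ex.eval, pt4];
        try push_cast; try field_simp; try ring)
    (by simp only [endD22, end_add, end_sub, end_mul, Ex.eval, pt4]; push_cast; positivity)
  exact .cD22 _ ht hk

theorem place_D23 (B : EndBands a b u v H)
    (hk : (a + b) * allStabI a b ≤ (b - a) * (1 - allStabI a b))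
    (h0l : (4 / 25 : ℝ) < ((b - a)))
    (h0u : ((b - a)) ≤ (1 / 5 : ℝ))
    (h1l : (0 : ℝ) < (allStabI a b / (b - a)))
    (h1u : (allStabI a b / (b - a)) ≤ (8 / 25 : ℝ))
    (h2l : (1 / 10 : ℝ) < ((1 - u) / (b - a)))
    (h2u : ((1 - u) / (b - a)) ≤ (3 / 10 : ℝ)) : EndPlace a b u v H := by
  obtain ⟨hI, hd, hw, eS, hcap⟩ := end_facts B
  have hn : (allStabI a b) ≠ 0 := hI.ne'
  have hn' : b - a ≠ 0 := hd.ne'
  obtain ⟨t, ht⟩ := endD23_ok.point B (x₀ := ((b - a))) (x₁ := (allStabI a b / (b - a))) (x₂ := ((1 - u) / (b - a)))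
    ⟨by norm_num [endD23], by norm_num [endD23] <;> linarith, by norm_num [endD23] <;> linarith⟩
    ⟨by norm_num [endD23], by norm_num [endD23] <;> linarith, by norm_num [endD23] <;> linarith⟩
    ⟨by norm_num [endD23], by norm_num [endD23] <;> linarith, by norm_num [endD23] <;> linarith⟩
    (by simp only [endD23, end_add, end_sub, end_mul, Ex.eval, pt4];
        try push_cast; try field_simp; try ring)
    (by simp only [endD23, end_add, end_sub, end_mul, Ex.eval, pt4];
        try push_cast; try field_simp; try ring)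
    (by simp only [endD23, end_add, end_sub, end_mul, Ex.eval, pt4];
        try push_cast; try field_simp; try ring)
    (by simp only [endD23, end_add, end_sub, end_mul, Ex.eval, pt4]; push_cast; positivity)
  exact .cD23 _ ht hk

theorem place_D24 (B : EndBands a b u v H)
    (hk : (a + b) * allStabI a b ≤ (b - a) * (1 - allStabI a b))
    (h0l : (4 / 25 : ℝ) < ((b - a)))
    (h0u : ((b - a)) ≤ (1 / 5 : ℝ))
    (h1l : (0 : ℝ) < (allStabI a b / (b - a)))
    (h1u : (allStabI a b / (b - a)) ≤ (8 / 25 : ℝ))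
    (h2l : (3 / 10 : ℝ) < ((1 - u) / (b - a)))
    (h2u : ((1 - u) / (b - a)) ≤ (1 : ℝ)) : EndPlace a b u v H := by
  obtain ⟨hI, hd, hw, eS, hcap⟩ := end_facts B
  have hn : (allStabI a b) ≠ 0 := hI.ne'
  have hn' : b - a ≠ 0 := hd.ne'
  obtain ⟨t, ht⟩ := endD24_ok.point B (x₀ := ((b - a))) (x₁ := (allStabI a b / (b - a))) (x₂ := ((1 - u) / (b - a)))
    ⟨by norm_num [endD24], by norm_num [endD24] <;> linarith, by norm_num [endD24] <;> linarith⟩
    ⟨by norm_num [endD24], by norm_num [endD24] <;> linarith, by norm_num [endD24] <;> linarith⟩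
    ⟨by norm_num [endD24], by norm_num [endD24] <;> linarith, by norm_num [endD24] <;> linarith⟩
    (by simp only [endD24, end_add, end_sub, end_mul, Ex.eval, pt4];
        try push_cast; try field_simp; try ring)
    (by simp only [endD24, end_add, end_sub, end_mul, Ex.eval, pt4];
        try push_cast; try field_simp; try ring)
    (by simp only [endD24, end_add, end_sub, end_mul, Ex.eval, pt4];
        try push_cast; try field_simp; try ring)
    (by simp only [endD24, end_add, end_sub, end_mul, Ex.eval, pt4]; push_cast; positivity)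
  exact .cD24 _ ht hk

theorem place_D25 (B : EndBands a b u v H)
    (hk : (a + b) * allStabI a b ≤ (b - a) * (1 - allStabI a b))
    (h0l : (1 / 5 : ℝ) < ((b - a)))
    (h0u : ((b - a)) ≤ (9 / 40 : ℝ))
    (h1l : (0 : ℝ) < (allStabI a b / (b - a)))
    (h1u : (allStabI a b / (b - a)) ≤ (1 / 4 : ℝ))
    (h2l : (0 : ℝ) < ((1 - u) / (b - a)))
    (h2u : ((1 - u) / (b - a)) ≤ (1 / 10 : ℝ)) : EndPlace a b u v H := by
  obtain ⟨hI, hd, hw, eS, hcap⟩ := end_facts B
  have hn : (allStabI a b) ≠ 0 := hI.ne'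
  have hn' : b - a ≠ 0 := hd.ne'
  obtain ⟨t, ht⟩ := endD25_ok.point B (x₀ := ((b - a))) (x₁ := (allStabI a b / (b - a))) (x₂ := ((1 - u) / (b - a)))
    ⟨by norm_num [endD25], by norm_num [endD25] <;> linarith, by norm_num [endD25] <;> linarith⟩
    ⟨by norm_num [endD25], by norm_num [endD25] <;> linarith, by norm_num [endD25] <;> linarith⟩
    ⟨by norm_num [endD25], by norm_num [endD25] <;> linarith, by norm_num [endD25] <;> linarith⟩
    (by simp only [endD25, end_add, end_sub, end_mul, Ex.eval, pt4];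
        try push_cast; try field_simp; try ring)
    (by simp only [endD25, end_add, end_sub, end_mul, Ex.eval, pt4];
        try push_cast; try field_simp; try ring)
    (by simp only [endD25, end_add, end_sub, end_mul, Ex.eval, pt4];
        try push_cast; try field_simp; try ring)
    (by simp only [endD25, end_add, end_sub, end_mul, Ex.eval, pt4]; push_cast; positivity)
  exact .cD25 _ ht hk

theorem place_D26 (B : EndBands a b u v H)
    (hk : (a + b) * allStabI a b ≤ (b - a) * (1 - allStabI a b))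
    (h0l : (9 / 40 : ℝ) < ((b - a)))
    (h0u : ((b - a)) ≤ (1 / 4 : ℝ))
    (h1l : (0 : ℝ) < (allStabI a b / (b - a)))
    (h1u : (allStabI a b / (b - a)) ≤ (23 / 100 : ℝ))
    (h2l : (1 / 100 : ℝ) < ((1 - u) / (b - a)))
    (h2u : ((1 - u) / (b - a)) ≤ (1 / 10 : ℝ)) : EndPlace a b u v H := by
  obtain ⟨hI, hd, hw, eS, hcap⟩ := end_facts B
  have hn : (allStabI a b) ≠ 0 := hI.ne'
  have hn' : b - a ≠ 0 := hd.ne'
  obtain ⟨t, ht⟩ := endD26_ok.point B (x₀ := ((b - a))) (x₁ := (allStabI a b / (b - a))) (x₂ := ((1 - u) / (b - a)))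
    ⟨by norm_num [endD26], by norm_num [endD26] <;> linarith, by norm_num [endD26] <;> linarith⟩
    ⟨by norm_num [endD26], by norm_num [endD26] <;> linarith, by norm_num [endD26] <;> linarith⟩
    ⟨by norm_num [endD26], by norm_num [endD26] <;> linarith, by norm_num [endD26] <;> linarith⟩
    (by simp only [endD26, end_add, end_sub, end_mul, Ex.eval, pt4];
        try push_cast; try field_simp; try ring)
    (by simp only [endD26, end_add, end_sub, end_mul, Ex.eval, pt4];
        try push_cast; try field_simp; try ring)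
    (by simp only [endD26, end_add, end_sub, end_mul, Ex.eval, pt4];
        try push_cast; try field_simp; try ring)
    (by simp only [endD26, end_add, end_sub, end_mul, Ex.eval, pt4]; push_cast; positivity)
  exact .cD26 _ ht hk

theorem place_D27 (B : EndBands a b u v H)
    (hk : (a + b) * allStabI a b ≤ (b - a) * (1 - allStabI a b))
    (h0l : (1 / 5 : ℝ) < ((b - a)))
    (h0u : ((b - a)) ≤ (9 / 40 : ℝ))
    (h1l : (0 : ℝ) < (allStabI a b / (b - a)))
    (h1u : (allStabI a b / (b - a)) ≤ (1 / 4 : ℝ))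
    (h2l : (1 / 10 : ℝ) < ((1 - u) / (b - a)))
    (h2u : ((1 - u) / (b - a)) ≤ (3 / 10 : ℝ)) : EndPlace a b u v H := by
  obtain ⟨hI, hd, hw, eS, hcap⟩ := end_facts B
  have hn : (allStabI a b) ≠ 0 := hI.ne'
  have hn' : b - a ≠ 0 := hd.ne'
  obtain ⟨t, ht⟩ := endD27_ok.point B (x₀ := ((b - a))) (x₁ := (allStabI a b / (b - a))) (x₂ := ((1 - u) / (b - a)))
    ⟨by norm_num [endD27], by norm_num [endD27] <;> linarith, by norm_num [endD27] <;> linarith⟩
    ⟨by norm_num [endD27], by norm_num [endD27] <;> linarith, by norm_num [endD27] <;> linarith⟩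
    ⟨by norm_num [endD27], by norm_num [endD27] <;> linarith, by norm_num [endD27] <;> linarith⟩
    (by simp only [endD27, end_add, end_sub, end_mul, Ex.eval, pt4];
        try push_cast; try field_simp; try ring)
    (by simp only [endD27, end_add, end_sub, end_mul, Ex.eval, pt4];
        try push_cast; try field_simp; try ring)
    (by simp only [endD27, end_add, end_sub, end_mul, Ex.eval, pt4];
        try push_cast; try field_simp; try ring)
    (by simp only [endD27, end_add, end_sub, end_mul, Ex.eval, pt4]; push_cast; positivity)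
  exact .cD27 _ ht hk

theorem place_D28 (B : EndBands a b u v H)
    (hk : (a + b) * allStabI a b ≤ (b - a) * (1 - allStabI a b))
    (h0l : (1 / 5 : ℝ) < ((b - a)))
    (h0u : ((b - a)) ≤ (9 / 40 : ℝ))
    (h1l : (0 : ℝ) < (allStabI a b / (b - a)))
    (h1u : (allStabI a b / (b - a)) ≤ (1 / 4 : ℝ))
    (h2l : (3 / 10 : ℝ) < ((1 - u) / (b - a)))
    (h2u : ((1 - u) / (b - a)) ≤ (1 : ℝ)) : EndPlace a b u v H := by
  obtain ⟨hI, hd, hw, eS, hcap⟩ := end_facts B
  have hn : (allStabI a b) ≠ 0 := hI.ne'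
  have hn' : b - a ≠ 0 := hd.ne'
  obtain ⟨t, ht⟩ := endD28_ok.point B (x₀ := ((b - a))) (x₁ := (allStabI a b / (b - a))) (x₂ := ((1 - u) / (b - a)))
    ⟨by norm_num [endD28], by norm_num [endD28] <;> linarith, by norm_num [endD28] <;> linarith⟩
    ⟨by norm_num [endD28], by norm_num [endD28] <;> linarith, by norm_num [endD28] <;> linarith⟩
    ⟨by norm_num [endD28], by norm_num [endD28] <;> linarith, by norm_num [endD28] <;> linarith⟩
    (by simp only [endD28, end_add, end_sub, end_mul, Ex.eval, pt4];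
        try push_cast; try field_simp; try ring)
    (by simp only [endD28, end_add, end_sub, end_mul, Ex.eval, pt4];
        try push_cast; try field_simp; try ring)
    (by simp only [endD28, end_add, end_sub, end_mul, Ex.eval, pt4];
        try push_cast; try field_simp; try ring)
    (by simp only [endD28, end_add, end_sub, end_mul, Ex.eval, pt4]; push_cast; positivity)
  exact .cD28 _ ht hk

theorem place_D29 (B : EndBands a b u v H)
    (hk : (a + b) * allStabI a b ≤ (b - a) * (1 - allStabI a b))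
    (h0l : (9 / 40 : ℝ) < ((b - a)))
    (h0u : ((b - a)) ≤ (1 / 4 : ℝ))
    (h1l : (0 : ℝ) < (allStabI a b / (b - a)))
    (h1u : (allStabI a b / (b - a)) ≤ (23 / 100 : ℝ))
    (h2l : (1 / 10 : ℝ) < ((1 - u) / (b - a)))
    (h2u : ((1 - u) / (b - a)) ≤ (3 / 10 : ℝ)) : EndPlace a b u v H := by
  obtain ⟨hI, hd, hw, eS, hcap⟩ := end_facts B
  have hn : (allStabI a b) ≠ 0 := hI.ne'
  have hn' : b - a ≠ 0 := hd.ne'
  obtain ⟨t, ht⟩ := endD29_ok.point B (x₀ := ((b - a))) (x₁ := (allStabI a b / (b - a))) (x₂ := ((1 - u) / (b - a)))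
    ⟨by norm_num [endD29], by norm_num [endD29] <;> linarith, by norm_num [endD29] <;> linarith⟩
    ⟨by norm_num [endD29], by norm_num [endD29] <;> linarith, by norm_num [endD29] <;> linarith⟩
    ⟨by norm_num [endD29], by norm_num [endD29] <;> linarith, by norm_num [endD29] <;> linarith⟩
    (by simp only [endD29, end_add, end_sub, end_mul, Ex.eval, pt4];
        try push_cast; try field_simp; try ring)
    (by simp only [endD29, end_add, end_sub, end_mul, Ex.eval, pt4];
        try push_cast; try field_simp; try ring)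
    (by simp only [endD29, end_add, end_sub, end_mul, Ex.eval, pt4];
        try push_cast; try field_simp; try ring)
    (by simp only [endD29, end_add, end_sub, end_mul, Ex.eval, pt4]; push_cast; positivity)
  exact .cD29 _ ht hk

theorem place_D30 (B : EndBands a b u v H)
    (hk : (a + b) * allStabI a b ≤ (b - a) * (1 - allStabI a b))
    (h0l : (9 / 40 : ℝ) < ((b - a)))
    (h0u : ((b - a)) ≤ (1 / 4 : ℝ))
    (h1l : (0 : ℝ) < (allStabI a b / (b - a)))
    (h1u : (allStabI a b / (b - a)) ≤ (23 / 100 : ℝ))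
    (h2l : (3 / 10 : ℝ) < ((1 - u) / (b - a)))
    (h2u : ((1 - u) / (b - a)) ≤ (89 / 100 : ℝ)) : EndPlace a b u v H := by
  obtain ⟨hI, hd, hw, eS, hcap⟩ := end_facts B
  have hn : (allStabI a b) ≠ 0 := hI.ne'
  have hn' : b - a ≠ 0 := hd.ne'
  obtain ⟨t, ht⟩ := endD30_ok.point B (x₀ := ((b - a))) (x₁ := (allStabI a b / (b - a))) (x₂ := ((1 - u) / (b - a)))
    ⟨by norm_num [endD30], by norm_num [endD30] <;> linarith, by norm_num [endD30] <;> linarith⟩
    ⟨by norm_num [endD30], by norm_num [endD30] <;> linarith, by norm_num [endD30] <;> linarith⟩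
    ⟨by norm_num [endD30], by norm_num [endD30] <;> linarith, by norm_num [endD30] <;> linarith⟩
    (by simp only [endD30, end_add, end_sub, end_mul, Ex.eval, pt4];
        try push_cast; try field_simp; try ring)
    (by simp only [endD30, end_add, end_sub, end_mul, Ex.eval, pt4];
        try push_cast; try field_simp; try ring)
    (by simp only [endD30, end_add, end_sub, end_mul, Ex.eval, pt4];
        try push_cast; try field_simp; try ring)
    (by simp only [endD30, end_add, end_sub, end_mul, Ex.eval, pt4]; push_cast; positivity)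
  exact .cD30 _ ht hk

theorem place_D31 (B : EndBands a b u v H)
    (hk : (a + b) * allStabI a b ≤ (b - a) * (1 - allStabI a b))
    (h0l : (1 / 4 : ℝ) < ((b - a)))
    (h0u : ((b - a)) ≤ (11 / 40 : ℝ))
    (h1l : (0 : ℝ) < (allStabI a b / (b - a)))
    (h1u : (allStabI a b / (b - a)) ≤ (1 / 5 : ℝ))
    (h2l : (1 / 100 : ℝ) < ((1 - u) / (b - a)))
    (h2u : ((1 - u) / (b - a)) ≤ (1 / 10 : ℝ)) : EndPlace a b u v H := by
  obtain ⟨hI, hd, hw, eS, hcap⟩ := end_facts B
  have hn : (allStabI a b) ≠ 0 := hI.ne'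
  have hn' : b - a ≠ 0 := hd.ne'
  obtain ⟨t, ht⟩ := endD31_ok.point B (x₀ := ((b - a))) (x₁ := (allStabI a b / (b - a))) (x₂ := ((1 - u) / (b - a)))
    ⟨by norm_num [endD31], by norm_num [endD31] <;> linarith, by norm_num [endD31] <;> linarith⟩
    ⟨by norm_num [endD31], by norm_num [endD31] <;> linarith, by norm_num [endD31] <;> linarith⟩
    ⟨by norm_num [endD31], by norm_num [endD31] <;> linarith, by norm_num [endD31] <;> linarith⟩
    (by simp only [endD31, end_add, end_sub, end_mul, Ex.eval, pt4];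
        try push_cast; try field_simp; try ring)
    (by simp only [endD31, end_add, end_sub, end_mul, Ex.eval, pt4];
        try push_cast; try field_simp; try ring)
    (by simp only [endD31, end_add, end_sub, end_mul, Ex.eval, pt4];
        try push_cast; try field_simp; try ring)
    (by simp only [endD31, end_add, end_sub, end_mul, Ex.eval, pt4]; push_cast; positivity)
  exact .cD31 _ ht hk

theorem place_D32 (B : EndBands a b u v H)
    (hk : (a + b) * allStabI a b ≤ (b - a) * (1 - allStabI a b))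
    (h0l : (11 / 40 : ℝ) < ((b - a)))
    (h0u : ((b - a)) ≤ (23 / 80 : ℝ))
    (h1l : (0 : ℝ) < (allStabI a b / (b - a)))
    (h1u : (allStabI a b / (b - a)) ≤ (191 / 1000 : ℝ))
    (h2l : (1 / 100 : ℝ) < ((1 - u) / (b - a)))
    (h2u : ((1 - u) / (b - a)) ≤ (1 / 10 : ℝ)) : EndPlace a b u v H := by
  obtain ⟨hI, hd, hw, eS, hcap⟩ := end_facts B
  have hn : (allStabI a b) ≠ 0 := hI.ne'
  have hn' : b - a ≠ 0 := hd.ne'
  obtain ⟨t, ht⟩ := endD32_ok.point B (x₀ := ((b - a))) (x₁ := (allStabI a b / (b - a))) (x₂ := ((1 - u) / (b - a)))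
    ⟨by norm_num [endD32], by norm_num [endD32] <;> linarith, by norm_num [endD32] <;> linarith⟩
    ⟨by norm_num [endD32], by norm_num [endD32] <;> linarith, by norm_num [endD32] <;> linarith⟩
    ⟨by norm_num [endD32], by norm_num [endD32] <;> linarith, by norm_num [endD32] <;> linarith⟩
    (by simp only [endD32, end_add, end_sub, end_mul, Ex.eval, pt4];
        try push_cast; try field_simp; try ring)
    (by simp only [endD32, end_add, end_sub, end_mul, Ex.eval, pt4];
        try push_cast; try field_simp; try ring)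
    (by simp only [endD32, end_add, end_sub, end_mul, Ex.eval, pt4];
        try push_cast; try field_simp; try ring)
    (by simp only [endD32, end_add, end_sub, end_mul, Ex.eval, pt4]; push_cast; positivity)
  exact .cD32 _ ht hk

theorem place_D33 (B : EndBands a b u v H)
    (hk : (a + b) * allStabI a b ≤ (b - a) * (1 - allStabI a b))
    (h0l : (23 / 80 : ℝ) < ((b - a)))
    (h0u : ((b - a)) ≤ (3 / 10 : ℝ))
    (h1l : (0 : ℝ) < (allStabI a b / (b - a)))
    (h1u : (allStabI a b / (b - a)) ≤ (161 / 1000 : ℝ))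
    (h2l : (1 / 100 : ℝ) < ((1 - u) / (b - a)))
    (h2u : ((1 - u) / (b - a)) ≤ (1 / 10 : ℝ)) : EndPlace a b u v H := by
  obtain ⟨hI, hd, hw, eS, hcap⟩ := end_facts B
  have hn : (allStabI a b) ≠ 0 := hI.ne'
  have hn' : b - a ≠ 0 := hd.ne'
  obtain ⟨t, ht⟩ := endD33_ok.point B (x₀ := ((b - a))) (x₁ := (allStabI a b / (b - a))) (x₂ := ((1 - u) / (b - a)))
    ⟨by norm_num [endD33], by norm_num [endD33] <;> linarith, by norm_num [endD33] <;> linarith⟩
    ⟨by norm_num [endD33], by norm_num [endD33] <;> linarith, by norm_num [endD33] <;> linarith⟩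
    ⟨by norm_num [endD33], by norm_num [endD33] <;> linarith, by norm_num [endD33] <;> linarith⟩
    (by simp only [endD33, end_add, end_sub, end_mul, Ex.eval, pt4];
        try push_cast; try field_simp; try ring)
    (by simp only [endD33, end_add, end_sub, end_mul, Ex.eval, pt4];
        try push_cast; try field_simp; try ring)
    (by simp only [endD33, end_add, end_sub, end_mul, Ex.eval, pt4];
        try push_cast; try field_simp; try ring)
    (by simp only [endD33, end_add, end_sub, end_mul, Ex.eval, pt4]; push_cast; positivity)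
  exact .cD33 _ ht hk

theorem place_D34 (B : EndBands a b u v H)
    (hk : (a + b) * allStabI a b ≤ (b - a) * (1 - allStabI a b))
    (h0l : (1 / 4 : ℝ) < ((b - a)))
    (h0u : ((b - a)) ≤ (11 / 40 : ℝ))
    (h1l : (0 : ℝ) < (allStabI a b / (b - a)))
    (h1u : (allStabI a b / (b - a)) ≤ (1 / 5 : ℝ))
    (h2l : (1 / 10 : ℝ) < ((1 - u) / (b - a)))
    (h2u : ((1 - u) / (b - a)) ≤ (3 / 10 : ℝ)) : EndPlace a b u v H := by
  obtain ⟨hI, hd, hw, eS, hcap⟩ := end_facts B
  have hn : (allStabI a b) ≠ 0 := hI.ne'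
  have hn' : b - a ≠ 0 := hd.ne'
  obtain ⟨t, ht⟩ := endD34_ok.point B (x₀ := ((b - a))) (x₁ := (allStabI a b / (b - a))) (x₂ := ((1 - u) / (b - a)))
    ⟨by norm_num [endD34], by norm_num [endD34] <;> linarith, by norm_num [endD34] <;> linarith⟩
    ⟨by norm_num [endD34], by norm_num [endD34] <;> linarith, by norm_num [endD34] <;> linarith⟩
    ⟨by norm_num [endD34], by norm_num [endD34] <;> linarith, by norm_num [endD34] <;> linarith⟩
    (by simp only [endD34, end_add, end_sub, end_mul, Ex.eval, pt4];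
        try push_cast; try field_simp; try ring)
    (by simp only [endD34, end_add, end_sub, end_mul, Ex.eval, pt4];
        try push_cast; try field_simp; try ring)
    (by simp only [endD34, end_add, end_sub, end_mul, Ex.eval, pt4];
        try push_cast; try field_simp; try ring)
    (by simp only [endD34, end_add, end_sub, end_mul, Ex.eval, pt4]; push_cast; positivity)
  exact .cD34 _ ht hk

theorem place_D35 (B : EndBands a b u v H)
    (hk : (a + b) * allStabI a b ≤ (b - a) * (1 - allStabI a b))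
    (h0l : (1 / 4 : ℝ) < ((b - a)))
    (h0u : ((b - a)) ≤ (11 / 40 : ℝ))
    (h1l : (0 : ℝ) < (allStabI a b / (b - a)))
    (h1u : (allStabI a b / (b - a)) ≤ (1 / 5 : ℝ))
    (h2l : (3 / 10 : ℝ) < ((1 - u) / (b - a)))
    (h2u : ((1 - u) / (b - a)) ≤ (4 / 5 : ℝ)) : EndPlace a b u v H := by
  obtain ⟨hI, hd, hw, eS, hcap⟩ := end_facts B
  have hn : (allStabI a b) ≠ 0 := hI.ne'
  have hn' : b - a ≠ 0 := hd.ne'
  obtain ⟨t, ht⟩ := endD35_ok.point B (x₀ := ((b - a))) (x₁ := (allStabI a b / (b - a))) (x₂ := ((1 - u) / (b - a)))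
    ⟨by norm_num [endD35], by norm_num [endD35] <;> linarith, by norm_num [endD35] <;> linarith⟩
    ⟨by norm_num [endD35], by norm_num [endD35] <;> linarith, by norm_num [endD35] <;> linarith⟩
    ⟨by norm_num [endD35], by norm_num [endD35] <;> linarith, by norm_num [endD35] <;> linarith⟩
    (by simp only [endD35, end_add, end_sub, end_mul, Ex.eval, pt4];
        try push_cast; try field_simp; try ring)
    (by simp only [endD35, end_add, end_sub, end_mul, Ex.eval, pt4];
        try push_cast; try field_simp; try ring)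
    (by simp only [endD35, end_add, end_sub, end_mul, Ex.eval, pt4];
        try push_cast; try field_simp; try ring)
    (by simp only [endD35, end_add, end_sub, end_mul, Ex.eval, pt4]; push_cast; positivity)
  exact .cD35 _ ht hk

theorem place_D36 (B : EndBands a b u v H)
    (hk : (a + b) * allStabI a b ≤ (b - a) * (1 - allStabI a b))
    (h0l : (11 / 40 : ℝ) < ((b - a)))
    (h0u : ((b - a)) ≤ (23 / 80 : ℝ))
    (h1l : (0 : ℝ) < (allStabI a b / (b - a)))
    (h1u : (allStabI a b / (b - a)) ≤ (191 / 1000 : ℝ))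
    (h2l : (1 / 10 : ℝ) < ((1 - u) / (b - a)))
    (h2u : ((1 - u) / (b - a)) ≤ (3 / 10 : ℝ)) : EndPlace a b u v H := by
  obtain ⟨hI, hd, hw, eS, hcap⟩ := end_facts B
  have hn : (allStabI a b) ≠ 0 := hI.ne'
  have hn' : b - a ≠ 0 := hd.ne'
  obtain ⟨t, ht⟩ := endD36_ok.point B (x₀ := ((b - a))) (x₁ := (allStabI a b / (b - a))) (x₂ := ((1 - u) / (b - a)))
    ⟨by norm_num [endD36], by norm_num [endD36] <;> linarith, by norm_num [endD36] <;> linarith⟩
    ⟨by norm_num [endD36], by norm_num [endD36] <;> linarith, by norm_num [endD36] <;> linarith⟩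
    ⟨by norm_num [endD36], by norm_num [endD36] <;> linarith, by norm_num [endD36] <;> linarith⟩
    (by simp only [endD36, end_add, end_sub, end_mul, Ex.eval, pt4];
        try push_cast; try field_simp; try ring)
    (by simp only [endD36, end_add, end_sub, end_mul, Ex.eval, pt4];
        try push_cast; try field_simp; try ring)
    (by simp only [endD36, end_add, end_sub, end_mul, Ex.eval, pt4];
        try push_cast; try field_simp; try ring)
    (by simp only [endD36, end_add, end_sub, end_mul, Ex.eval, pt4]; push_cast; positivity)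
  exact .cD36 _ ht hk

theorem place_D37 (B : EndBands a b u v H)
    (hk : (a + b) * allStabI a b ≤ (b - a) * (1 - allStabI a b))
    (h0l : (23 / 80 : ℝ) < ((b - a)))
    (h0u : ((b - a)) ≤ (3 / 10 : ℝ))
    (h1l : (0 : ℝ) < (allStabI a b / (b - a)))
    (h1u : (allStabI a b / (b - a)) ≤ (161 / 1000 : ℝ))
    (h2l : (1 / 10 : ℝ) < ((1 - u) / (b - a)))
    (h2u : ((1 - u) / (b - a)) ≤ (3 / 10 : ℝ)) : EndPlace a b u v H := by
  obtain ⟨hI, hd, hw, eS, hcap⟩ := end_facts B
  have hn : (allStabI a b) ≠ 0 := hI.ne'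
  have hn' : b - a ≠ 0 := hd.ne'
  obtain ⟨t, ht⟩ := endD37_ok.point B (x₀ := ((b - a))) (x₁ := (allStabI a b / (b - a))) (x₂ := ((1 - u) / (b - a)))
    ⟨by norm_num [endD37], by norm_num [endD37] <;> linarith, by norm_num [endD37] <;> linarith⟩
    ⟨by norm_num [endD37], by norm_num [endD37] <;> linarith, by norm_num [endD37] <;> linarith⟩
    ⟨by norm_num [endD37], by norm_num [endD37] <;> linarith, by norm_num [endD37] <;> linarith⟩
    (by simp only [endD37, end_add, end_sub, end_mul, Ex.eval, pt4];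
        try push_cast; try field_simp; try ring)
    (by simp only [endD37, end_add, end_sub, end_mul, Ex.eval, pt4];
        try push_cast; try field_simp; try ring)
    (by simp only [endD37, end_add, end_sub, end_mul, Ex.eval, pt4];
        try push_cast; try field_simp; try ring)
    (by simp only [endD37, end_add, end_sub, end_mul, Ex.eval, pt4]; push_cast; positivity)
  exact .cD37 _ ht hk

theorem place_D38 (B : EndBands a b u v H)
    (hk : (a + b) * allStabI a b ≤ (b - a) * (1 - allStabI a b))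
    (h0l : (11 / 40 : ℝ) < ((b - a)))
    (h0u : ((b - a)) ≤ (23 / 80 : ℝ))
    (h1l : (0 : ℝ) < (allStabI a b / (b - a)))
    (h1u : (allStabI a b / (b - a)) ≤ (191 / 1000 : ℝ))
    (h2l : (3 / 10 : ℝ) < ((1 - u) / (b - a)))
    (h2u : ((1 - u) / (b - a)) ≤ (73 / 100 : ℝ)) : EndPlace a b u v H := by
  obtain ⟨hI, hd, hw, eS, hcap⟩ := end_facts B
  have hn : (allStabI a b) ≠ 0 := hI.ne'
  have hn' : b - a ≠ 0 := hd.ne'
  obtain ⟨t, ht⟩ := endD38_ok.point B (x₀ := ((b - a))) (x₁ := (allStabI a b / (b - a))) (x₂ := ((1 - u) / (b - a)))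
    ⟨by norm_num [endD38], by norm_num [endD38] <;> linarith, by norm_num [endD38] <;> linarith⟩
    ⟨by norm_num [endD38], by norm_num [endD38] <;> linarith, by norm_num [endD38] <;> linarith⟩
    ⟨by norm_num [endD38], by norm_num [endD38] <;> linarith, by norm_num [endD38] <;> linarith⟩
    (by simp only [endD38, end_add, end_sub, end_mul, Ex.eval, pt4];
        try push_cast; try field_simp; try ring)
    (by simp only [endD38, end_add, end_sub, end_mul, Ex.eval, pt4];
        try push_cast; try field_simp; try ring)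
    (by simp only [endD38, end_add, end_sub, end_mul, Ex.eval, pt4];
        try push_cast; try field_simp; try ring)
    (by simp only [endD38, end_add, end_sub, end_mul, Ex.eval, pt4]; push_cast; positivity)
  exact .cD38 _ ht hk

theorem place_D39 (B : EndBands a b u v H)
    (hk : (a + b) * allStabI a b ≤ (b - a) * (1 - allStabI a b))
    (h0l : (23 / 80 : ℝ) < ((b - a)))
    (h0u : ((b - a)) ≤ (3 / 10 : ℝ))
    (h1l : (0 : ℝ) < (allStabI a b / (b - a)))
    (h1u : (allStabI a b / (b - a)) ≤ (161 / 1000 : ℝ))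
    (h2l : (3 / 10 : ℝ) < ((1 - u) / (b - a)))
    (h2u : ((1 - u) / (b - a)) ≤ (7 / 10 : ℝ)) : EndPlace a b u v H := by
  obtain ⟨hI, hd, hw, eS, hcap⟩ := end_facts B
  have hn : (allStabI a b) ≠ 0 := hI.ne'
  have hn' : b - a ≠ 0 := hd.ne'
  obtain ⟨t, ht⟩ := endD39_ok.point B (x₀ := ((b - a))) (x₁ := (allStabI a b / (b - a))) (x₂ := ((1 - u) / (b - a)))
    ⟨by norm_num [endD39], by norm_num [endD39] <;> linarith, by norm_num [endD39] <;> linarith⟩
    ⟨by norm_num [endD39], by norm_num [endD39] <;> linarith, by norm_num [endD39] <;> linarith⟩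
    ⟨by norm_num [endD39], by norm_num [endD39] <;> linarith, by norm_num [endD39] <;> linarith⟩
    (by simp only [endD39, end_add, end_sub, end_mul, Ex.eval, pt4];
        try push_cast; try field_simp; try ring)
    (by simp only [endD39, end_add, end_sub, end_mul, Ex.eval, pt4];
        try push_cast; try field_simp; try ring)
    (by simp only [endD39, end_add, end_sub, end_mul, Ex.eval, pt4];
        try push_cast; try field_simp; try ring)
    (by simp only [endD39, end_add, end_sub, end_mul, Ex.eval, pt4]; push_cast; positivity)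
  exact .cD39 _ ht hk

theorem place_D40 (B : EndBands a b u v H)
    (hk : (a + b) * allStabI a b ≤ (b - a) * (1 - allStabI a b))
    (h0l : (3 / 10 : ℝ) < ((b - a)))
    (h0u : ((b - a)) ≤ (17 / 50 : ℝ))
    (h1l : (0 : ℝ) < (allStabI a b / (b - a)))
    (h1u : (allStabI a b / (b - a)) ≤ (7 / 50 : ℝ))
    (h2l : (1 / 100 : ℝ) < ((1 - u) / (b - a)))
    (h2u : ((1 - u) / (b - a)) ≤ (1 / 10 : ℝ)) : EndPlace a b u v H := by
  obtain ⟨hI, hd, hw, eS, hcap⟩ := end_facts B
  have hn : (allStabI a b) ≠ 0 := hI.ne'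
  have hn' : b - a ≠ 0 := hd.ne'
  obtain ⟨t, ht⟩ := endD40_ok.point B (x₀ := ((b - a))) (x₁ := (allStabI a b / (b - a))) (x₂ := ((1 - u) / (b - a)))
    ⟨by norm_num [endD40], by norm_num [endD40] <;> linarith, by norm_num [endD40] <;> linarith⟩
    ⟨by norm_num [endD40], by norm_num [endD40] <;> linarith, by norm_num [endD40] <;> linarith⟩
    ⟨by norm_num [endD40], by norm_num [endD40] <;> linarith, by norm_num [endD40] <;> linarith⟩
    (by simp only [endD40, end_add, end_sub, end_mul, Ex.eval, pt4];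
        try push_cast; try field_simp; try ring)
    (by simp only [endD40, end_add, end_sub, end_mul, Ex.eval, pt4];
        try push_cast; try field_simp; try ring)
    (by simp only [endD40, end_add, end_sub, end_mul, Ex.eval, pt4];
        try push_cast; try field_simp; try ring)
    (by simp only [endD40, end_add, end_sub, end_mul, Ex.eval, pt4]; push_cast; positivity)
  exact .cD40 _ ht hk

theorem place_D41 (B : EndBands a b u v H)
    (hk : (a + b) * allStabI a b ≤ (b - a) * (1 - allStabI a b))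
    (h0l : (17 / 50 : ℝ) < ((b - a)))
    (h0u : ((b - a)) ≤ (19 / 50 : ℝ))
    (h1l : (0 : ℝ) < (allStabI a b / (b - a)))
    (h1u : (allStabI a b / (b - a)) ≤ (3 / 50 : ℝ))
    (h2l : (1 / 100 : ℝ) < ((1 - u) / (b - a)))
    (h2u : ((1 - u) / (b - a)) ≤ (1 / 10 : ℝ)) : EndPlace a b u v H := by
  obtain ⟨hI, hd, hw, eS, hcap⟩ := end_facts B
  have hn : (allStabI a b) ≠ 0 := hI.ne'
  have hn' : b - a ≠ 0 := hd.ne'
  obtain ⟨t, ht⟩ := endD41_ok.point B (x₀ := ((b - a))) (x₁ := (allStabI a b / (b - a))) (x₂ := ((1 - u) / (b - a)))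
    ⟨by norm_num [endD41], by norm_num [endD41] <;> linarith, by norm_num [endD41] <;> linarith⟩
    ⟨by norm_num [endD41], by norm_num [endD41] <;> linarith, by norm_num [endD41] <;> linarith⟩
    ⟨by norm_num [endD41], by norm_num [endD41] <;> linarith, by norm_num [endD41] <;> linarith⟩
    (by simp only [endD41, end_add, end_sub, end_mul, Ex.eval, pt4];
        try push_cast; try field_simp; try ring)
    (by simp only [endD41, end_add, end_sub, end_mul, Ex.eval, pt4];
        try push_cast; try field_simp; try ring)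
    (by simp only [endD41, end_add, end_sub, end_mul, Ex.eval, pt4];
        try push_cast; try field_simp; try ring)
    (by simp only [endD41, end_add, end_sub, end_mul, Ex.eval, pt4]; push_cast; positivity)
  exact .cD41 _ ht hk

theorem place_D42 (B : EndBands a b u v H)
    (hk : (a + b) * allStabI a b ≤ (b - a) * (1 - allStabI a b))
    (h0l : (3 / 10 : ℝ) < ((b - a)))
    (h0u : ((b - a)) ≤ (17 / 50 : ℝ))
    (h1l : (0 : ℝ) < (allStabI a b / (b - a)))
    (h1u : (allStabI a b / (b - a)) ≤ (7 / 50 : ℝ))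
    (h2l : (1 / 10 : ℝ) < ((1 - u) / (b - a)))
    (h2u : ((1 - u) / (b - a)) ≤ (3 / 10 : ℝ)) : EndPlace a b u v H := by
  obtain ⟨hI, hd, hw, eS, hcap⟩ := end_facts B
  have hn : (allStabI a b) ≠ 0 := hI.ne'
  have hn' : b - a ≠ 0 := hd.ne'
  obtain ⟨t, ht⟩ := endD42_ok.point B (x₀ := ((b - a))) (x₁ := (allStabI a b / (b - a))) (x₂ := ((1 - u) / (b - a)))
    ⟨by norm_num [endD42], by norm_num [endD42] <;> linarith, by norm_num [endD42] <;> linarith⟩
    ⟨by norm_num [endD42], by norm_num [endD42] <;> linarith, by norm_num [endD42] <;> linarith⟩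
    ⟨by norm_num [endD42], by norm_num [endD42] <;> linarith, by norm_num [endD42] <;> linarith⟩
    (by simp only [endD42, end_add, end_sub, end_mul, Ex.eval, pt4];
        try push_cast; try field_simp; try ring)
    (by simp only [endD42, end_add, end_sub, end_mul, Ex.eval, pt4];
        try push_cast; try field_simp; try ring)
    (by simp only [endD42, end_add, end_sub, end_mul, Ex.eval, pt4];
        try push_cast; try field_simp; try ring)
    (by simp only [endD42, end_add, end_sub, end_mul, Ex.eval, pt4]; push_cast; positivity)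
  exact .cD42 _ ht hk

theorem place_D43 (B : EndBands a b u v H)
    (hk : (a + b) * allStabI a b ≤ (b - a) * (1 - allStabI a b))
    (h0l : (3 / 10 : ℝ) < ((b - a)))
    (h0u : ((b - a)) ≤ (17 / 50 : ℝ))
    (h1l : (0 : ℝ) < (allStabI a b / (b - a)))
    (h1u : (allStabI a b / (b - a)) ≤ (7 / 50 : ℝ))
    (h2l : (3 / 10 : ℝ) < ((1 - u) / (b - a)))
    (h2u : ((1 - u) / (b - a)) ≤ (67 / 100 : ℝ)) : EndPlace a b u v H := by
  obtain ⟨hI, hd, hw, eS, hcap⟩ := end_facts B
  have hn : (allStabI a b) ≠ 0 := hI.ne'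
  have hn' : b - a ≠ 0 := hd.ne'
  obtain ⟨t, ht⟩ := endD43_ok.point B (x₀ := ((b - a))) (x₁ := (allStabI a b / (b - a))) (x₂ := ((1 - u) / (b - a)))
    ⟨by norm_num [endD43], by norm_num [endD43] <;> linarith, by norm_num [endD43] <;> linarith⟩
    ⟨by norm_num [endD43], by norm_num [endD43] <;> linarith, by norm_num [endD43] <;> linarith⟩
    ⟨by norm_num [endD43], by norm_num [endD43] <;> linarith, by norm_num [endD43] <;> linarith⟩
    (by simp only [endD43, end_add, end_sub, end_mul, Ex.eval, pt4];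
        try push_cast; try field_simp; try ring)
    (by simp only [endD43, end_add, end_sub, end_mul, Ex.eval, pt4];
        try push_cast; try field_simp; try ring)
    (by simp only [endD43, end_add, end_sub, end_mul, Ex.eval, pt4];
        try push_cast; try field_simp; try ring)
    (by simp only [endD43, end_add, end_sub, end_mul, Ex.eval, pt4]; push_cast; positivity)
  exact .cD43 _ ht hk

theorem place_D44 (B : EndBands a b u v H)
    (hk : (a + b) * allStabI a b ≤ (b - a) * (1 - allStabI a b))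
    (h0l : (17 / 50 : ℝ) < ((b - a)))
    (h0u : ((b - a)) ≤ (19 / 50 : ℝ))
    (h1l : (0 : ℝ) < (allStabI a b / (b - a)))
    (h1u : (allStabI a b / (b - a)) ≤ (3 / 50 : ℝ))
    (h2l : (1 / 10 : ℝ) < ((1 - u) / (b - a)))
    (h2u : ((1 - u) / (b - a)) ≤ (3 / 10 : ℝ)) : EndPlace a b u v H := by
  obtain ⟨hI, hd, hw, eS, hcap⟩ := end_facts B
  have hn : (allStabI a b) ≠ 0 := hI.ne'
  have hn' : b - a ≠ 0 := hd.ne'
  obtain ⟨t, ht⟩ := endD44_ok.point B (x₀ := ((b - a))) (x₁ := (allStabI a b / (b - a))) (x₂ := ((1 - u) / (b - a)))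
    ⟨by norm_num [endD44], by norm_num [endD44] <;> linarith, by norm_num [endD44] <;> linarith⟩
    ⟨by norm_num [endD44], by norm_num [endD44] <;> linarith, by norm_num [endD44] <;> linarith⟩
    ⟨by norm_num [endD44], by norm_num [endD44] <;> linarith, by norm_num [endD44] <;> linarith⟩
    (by simp only [endD44, end_add, end_sub, end_mul, Ex.eval, pt4];
        try push_cast; try field_simp; try ring)
    (by simp only [endD44, end_add, end_sub, end_mul, Ex.eval, pt4];
        try push_cast; try field_simp; try ring)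
    (by simp only [endD44, end_add, end_sub, end_mul, Ex.eval, pt4];
        try push_cast; try field_simp; try ring)
    (by simp only [endD44, end_add, end_sub, end_mul, Ex.eval, pt4]; push_cast; positivity)
  exact .cD44 _ ht hk

theorem place_D45 (B : EndBands a b u v H)
    (hk : (a + b) * allStabI a b ≤ (b - a) * (1 - allStabI a b))
    (h0l : (17 / 50 : ℝ) < ((b - a)))
    (h0u : ((b - a)) ≤ (19 / 50 : ℝ))
    (h1l : (0 : ℝ) < (allStabI a b / (b - a)))
    (h1u : (allStabI a b / (b - a)) ≤ (3 / 50 : ℝ))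
    (h2l : (3 / 10 : ℝ) < ((1 - u) / (b - a)))
    (h2u : ((1 - u) / (b - a)) ≤ (59 / 100 : ℝ)) : EndPlace a b u v H := by
  obtain ⟨hI, hd, hw, eS, hcap⟩ := end_facts B
  have hn : (allStabI a b) ≠ 0 := hI.ne'
  have hn' : b - a ≠ 0 := hd.ne'
  obtain ⟨t, ht⟩ := endD45_ok.point B (x₀ := ((b - a))) (x₁ := (allStabI a b / (b - a))) (x₂ := ((1 - u) / (b - a)))
    ⟨by norm_num [endD45], by norm_num [endD45] <;> linarith, by norm_num [endD45] <;> linarith⟩
    ⟨by norm_num [endD45], by norm_num [endD45] <;> linarith, by norm_num [endD45] <;> linarith⟩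
    ⟨by norm_num [endD45], by norm_num [endD45] <;> linarith, by norm_num [endD45] <;> linarith⟩
    (by simp only [endD45, end_add, end_sub, end_mul, Ex.eval, pt4];
        try push_cast; try field_simp; try ring)
    (by simp only [endD45, end_add, end_sub, end_mul, Ex.eval, pt4];
        try push_cast; try field_simp; try ring)
    (by simp only [endD45, end_add, end_sub, end_mul, Ex.eval, pt4];
        try push_cast; try field_simp; try ring)
    (by simp only [endD45, end_add, end_sub, end_mul, Ex.eval, pt4]; push_cast; positivity)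
  exact .cD45 _ ht hk

theorem place_D46 (B : EndBands a b u v H)
    (hk : (a + b) * allStabI a b ≤ (b - a) * (1 - allStabI a b))
    (h0l : (9 / 40 : ℝ) < ((b - a)))
    (h0u : ((b - a)) ≤ (1 / 4 : ℝ))
    (h1l : (0 : ℝ) < (allStabI a b / (b - a)))
    (h1u : (allStabI a b / (b - a)) ≤ (223 / 1000 : ℝ))
    (h2l : (0 : ℝ) < ((1 - u) / (b - a)))
    (h2u : ((1 - u) / (b - a)) ≤ (1 / 100 : ℝ)) : EndPlace a b u v H := by
  obtain ⟨hI, hd, hw, eS, hcap⟩ := end_facts B
  have hn : (allStabI a b) ≠ 0 := hI.ne'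
  have hn' : b - a ≠ 0 := hd.ne'
  obtain ⟨t, ht⟩ := endD46_ok.point B (x₀ := ((b - a))) (x₁ := (allStabI a b / (b - a))) (x₂ := ((1 - u) / (b - a)))
    ⟨by norm_num [endD46], by norm_num [endD46] <;> linarith, by norm_num [endD46] <;> linarith⟩
    ⟨by norm_num [endD46], by norm_num [endD46] <;> linarith, by norm_num [endD46] <;> linarith⟩
    ⟨by norm_num [endD46], by norm_num [endD46] <;> linarith, by norm_num [endD46] <;> linarith⟩
    (by simp only [endD46, end_add, end_sub, end_mul, Ex.eval, pt4];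
        try push_cast; try field_simp; try ring)
    (by simp only [endD46, end_add, end_sub, end_mul, Ex.eval, pt4];
        try push_cast; try field_simp; try ring)
    (by simp only [endD46, end_add, end_sub, end_mul, Ex.eval, pt4];
        try push_cast; try field_simp; try ring)
    (by simp only [endD46, end_add, end_sub, end_mul, Ex.eval, pt4]; push_cast; positivity)
  exact .cD46 _ ht hk

theorem place_D47 (B : EndBands a b u v H)
    (hk : (a + b) * allStabI a b ≤ (b - a) * (1 - allStabI a b))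
    (h0l : (1 / 4 : ℝ) < ((b - a)))
    (h0u : ((b - a)) ≤ (11 / 40 : ℝ))
    (h1l : (0 : ℝ) < (allStabI a b / (b - a)))
    (h1u : (allStabI a b / (b - a)) ≤ (1 / 5 : ℝ))
    (h2l : (0 : ℝ) < ((1 - u) / (b - a)))
    (h2u : ((1 - u) / (b - a)) ≤ (1 / 100 : ℝ)) : EndPlace a b u v H := by
  obtain ⟨hI, hd, hw, eS, hcap⟩ := end_facts B
  have hn : (allStabI a b) ≠ 0 := hI.ne'
  have hn' : b - a ≠ 0 := hd.ne'
  obtain ⟨t, ht⟩ := endD47_ok.point B (x₀ := ((b - a))) (x₁ := (allStabI a b / (b - a))) (x₂ := ((1 - u) / (b - a)))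
    ⟨by norm_num [endD47], by norm_num [endD47] <;> linarith, by norm_num [endD47] <;> linarith⟩
    ⟨by norm_num [endD47], by norm_num [endD47] <;> linarith, by norm_num [endD47] <;> linarith⟩
    ⟨by norm_num [endD47], by norm_num [endD47] <;> linarith, by norm_num [endD47] <;> linarith⟩
    (by simp only [endD47, end_add, end_sub, end_mul, Ex.eval, pt4];
        try push_cast; try field_simp; try ring)
    (by simp only [endD47, end_add, end_sub, end_mul, Ex.eval, pt4];
        try push_cast; try field_simp; try ring)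
    (by simp only [endD47, end_add, end_sub, end_mul, Ex.eval, pt4];
        try push_cast; try field_simp; try ring)
    (by simp only [endD47, end_add, end_sub, end_mul, Ex.eval, pt4]; push_cast; positivity)
  exact .cD47 _ ht hk

theorem place_D48 (B : EndBands a b u v H)
    (hk : (a + b) * allStabI a b ≤ (b - a) * (1 - allStabI a b))
    (h0l : (11 / 40 : ℝ) < ((b - a)))
    (h0u : ((b - a)) ≤ (23 / 80 : ℝ))
    (h1l : (0 : ℝ) < (allStabI a b / (b - a)))
    (h1u : (allStabI a b / (b - a)) ≤ (191 / 1000 : ℝ))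
    (h2l : (0 : ℝ) < ((1 - u) / (b - a)))
    (h2u : ((1 - u) / (b - a)) ≤ (1 / 100 : ℝ)) : EndPlace a b u v H := by
  obtain ⟨hI, hd, hw, eS, hcap⟩ := end_facts B
  have hn : (allStabI a b) ≠ 0 := hI.ne'
  have hn' : b - a ≠ 0 := hd.ne'
  obtain ⟨t, ht⟩ := endD48_ok.point B (x₀ := ((b - a))) (x₁ := (allStabI a b / (b - a))) (x₂ := ((1 - u) / (b - a)))
    ⟨by norm_num [endD48], by norm_num [endD48] <;> linarith, by norm_num [endD48] <;> linarith⟩
    ⟨by norm_num [endD48], by norm_num [endD48] <;> linarith, by norm_num [endD48] <;> linarith⟩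
    ⟨by norm_num [endD48], by norm_num [endD48] <;> linarith, by norm_num [endD48] <;> linarith⟩
    (by simp only [endD48, end_add, end_sub, end_mul, Ex.eval, pt4];
        try push_cast; try field_simp; try ring)
    (by simp only [endD48, end_add, end_sub, end_mul, Ex.eval, pt4];
        try push_cast; try field_simp; try ring)
    (by simp only [endD48, end_add, end_sub, end_mul, Ex.eval, pt4];
        try push_cast; try field_simp; try ring)
    (by simp only [endD48, end_add, end_sub, end_mul, Ex.eval, pt4]; push_cast; positivity)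
  exact .cD48 _ ht hk

theorem place_D49 (B : EndBands a b u v H)
    (hk : (a + b) * allStabI a b ≤ (b - a) * (1 - allStabI a b))
    (h0l : (23 / 80 : ℝ) < ((b - a)))
    (h0u : ((b - a)) ≤ (3 / 10 : ℝ))
    (h1l : (0 : ℝ) < (allStabI a b / (b - a)))
    (h1u : (allStabI a b / (b - a)) ≤ (161 / 1000 : ℝ))
    (h2l : (0 : ℝ) < ((1 - u) / (b - a)))
    (h2u : ((1 - u) / (b - a)) ≤ (1 / 100 : ℝ)) : EndPlace a b u v H := by
  obtain ⟨hI, hd, hw, eS, hcap⟩ := end_facts B
  have hn : (allStabI a b) ≠ 0 := hI.ne'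
  have hn' : b - a ≠ 0 := hd.ne'
  obtain ⟨t, ht⟩ := endD49_ok.point B (x₀ := ((b - a))) (x₁ := (allStabI a b / (b - a))) (x₂ := ((1 - u) / (b - a)))
    ⟨by norm_num [endD49], by norm_num [endD49] <;> linarith, by norm_num [endD49] <;> linarith⟩
    ⟨by norm_num [endD49], by norm_num [endD49] <;> linarith, by norm_num [endD49] <;> linarith⟩
    ⟨by norm_num [endD49], by norm_num [endD49] <;> linarith, by norm_num [endD49] <;> linarith⟩
    (by simp only [endD49, end_add, end_sub, end_mul, Ex.eval, pt4];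
        try push_cast; try field_simp; try ring)
    (by simp only [endD49, end_add, end_sub, end_mul, Ex.eval, pt4];
        try push_cast; try field_simp; try ring)
    (by simp only [endD49, end_add, end_sub, end_mul, Ex.eval, pt4];
        try push_cast; try field_simp; try ring)
    (by simp only [endD49, end_add, end_sub, end_mul, Ex.eval, pt4]; push_cast; positivity)
  exact .cD49 _ ht hk

theorem place_D50 (B : EndBands a b u v H)
    (hk : (a + b) * allStabI a b ≤ (b - a) * (1 - allStabI a b))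
    (h0l : (3 / 10 : ℝ) < ((b - a)))
    (h0u : ((b - a)) ≤ (17 / 50 : ℝ))
    (h1l : (0 : ℝ) < (allStabI a b / (b - a)))
    (h1u : (allStabI a b / (b - a)) ≤ (67 / 500 : ℝ))
    (h2l : (0 : ℝ) < ((1 - u) / (b - a)))
    (h2u : ((1 - u) / (b - a)) ≤ (1 / 100 : ℝ)) : EndPlace a b u v H := by
  obtain ⟨hI, hd, hw, eS, hcap⟩ := end_facts B
  have hn : (allStabI a b) ≠ 0 := hI.ne'
  have hn' : b - a ≠ 0 := hd.ne'
  obtain ⟨t, ht⟩ := endD50_ok.point B (x₀ := ((b - a))) (x₁ := (allStabI a b / (b - a))) (x₂ := ((1 - u) / (b - a)))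
    ⟨by norm_num [endD50], by norm_num [endD50] <;> linarith, by norm_num [endD50] <;> linarith⟩
    ⟨by norm_num [endD50], by norm_num [endD50] <;> linarith, by norm_num [endD50] <;> linarith⟩
    ⟨by norm_num [endD50], by norm_num [endD50] <;> linarith, by norm_num [endD50] <;> linarith⟩
    (by simp only [endD50, end_add, end_sub, end_mul, Ex.eval, pt4];
        try push_cast; try field_simp; try ring)
    (by simp only [endD50, end_add, end_sub, end_mul, Ex.eval, pt4];
        try push_cast; try field_simp; try ring)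
    (by simp only [endD50, end_add, end_sub, end_mul, Ex.eval, pt4];
        try push_cast; try field_simp; try ring)
    (by simp only [endD50, end_add, end_sub, end_mul, Ex.eval, pt4]; push_cast; positivity)
  exact .cD50 _ ht hk

theorem place_D51 (B : EndBands a b u v H)
    (hk : (a + b) * allStabI a b ≤ (b - a) * (1 - allStabI a b))
    (h0l : (17 / 50 : ℝ) < ((b - a)))
    (h0u : ((b - a)) ≤ (19 / 50 : ℝ))
    (h1l : (0 : ℝ) < (allStabI a b / (b - a)))
    (h1u : (allStabI a b / (b - a)) ≤ (59 / 1000 : ℝ))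
    (h2l : (0 : ℝ) < ((1 - u) / (b - a)))
    (h2u : ((1 - u) / (b - a)) ≤ (1 / 100 : ℝ)) : EndPlace a b u v H := by
  obtain ⟨hI, hd, hw, eS, hcap⟩ := end_facts B
  have hn : (allStabI a b) ≠ 0 := hI.ne'
  have hn' : b - a ≠ 0 := hd.ne'
  obtain ⟨t, ht⟩ := endD51_ok.point B (x₀ := ((b - a))) (x₁ := (allStabI a b / (b - a))) (x₂ := ((1 - u) / (b - a)))
    ⟨by norm_num [endD51], by norm_num [endD51] <;> linarith, by norm_num [endD51] <;> linarith⟩
    ⟨by norm_num [endD51], by norm_num [endD51] <;> linarith, by norm_num [endD51] <;> linarith⟩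
    ⟨by norm_num [endD51], by norm_num [endD51] <;> linarith, by norm_num [endD51] <;> linarith⟩
    (by simp only [endD51, end_add, end_sub, end_mul, Ex.eval, pt4];
        try push_cast; try field_simp; try ring)
    (by simp only [endD51, end_add, end_sub, end_mul, Ex.eval, pt4];
        try push_cast; try field_simp; try ring)
    (by simp only [endD51, end_add, end_sub, end_mul, Ex.eval, pt4];
        try push_cast; try field_simp; try ring)
    (by simp only [endD51, end_add, end_sub, end_mul, Ex.eval, pt4]; push_cast; positivity)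
  exact .cD51 _ ht hk

theorem place_D52 (B : EndBands a b u v H)
    (hk : (a + b) * allStabI a b ≤ (b - a) * (1 - allStabI a b))
    (h0l : (3 / 100 : ℝ) < ((b - a)))
    (h0u : ((b - a)) ≤ (1 / 20 : ℝ))
    (h1l : (1 / 2 : ℝ) < (allStabI a b / (b - a)))
    (h1u : (allStabI a b / (b - a)) ≤ (7 / 10 : ℝ))
    (h2l : (0 : ℝ) < ((1 - u) / (b - a)))
    (h2u : ((1 - u) / (b - a)) ≤ (1 / 10 : ℝ)) : EndPlace a b u v H := by
  obtain ⟨hI, hd, hw, eS, hcap⟩ := end_facts B
  have hn : (allStabI a b) ≠ 0 := hI.ne'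
  have hn' : b - a ≠ 0 := hd.ne'
  obtain ⟨t, ht⟩ := endD52_ok.point B (x₀ := ((b - a))) (x₁ := (allStabI a b / (b - a))) (x₂ := ((1 - u) / (b - a)))
    ⟨by norm_num [endD52], by norm_num [endD52] <;> linarith, by norm_num [endD52] <;> linarith⟩
    ⟨by norm_num [endD52], by norm_num [endD52] <;> linarith, by norm_num [endD52] <;> linarith⟩
    ⟨by norm_num [endD52], by norm_num [endD52] <;> linarith, by norm_num [endD52] <;> linarith⟩
    (by simp only [endD52, end_add, end_sub, end_mul, Ex.eval, pt4];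
        try push_cast; try field_simp; try ring)
    (by simp only [endD52, end_add, end_sub, end_mul, Ex.eval, pt4];
        try push_cast; try field_simp; try ring)
    (by simp only [endD52, end_add, end_sub, end_mul, Ex.eval, pt4];
        try push_cast; try field_simp; try ring)
    (by simp only [endD52, end_add, end_sub, end_mul, Ex.eval, pt4]; push_cast; positivity)
  exact .cD52 _ ht hk

theorem place_D53 (B : EndBands a b u v H)
    (hk : (a + b) * allStabI a b ≤ (b - a) * (1 - allStabI a b))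
    (h0l : (1 / 20 : ℝ) < ((b - a)))
    (h0u : ((b - a)) ≤ (7 / 100 : ℝ))
    (h1l : (1 / 2 : ℝ) < (allStabI a b / (b - a)))
    (h1u : (allStabI a b / (b - a)) ≤ (7 / 10 : ℝ))
    (h2l : (0 : ℝ) < ((1 - u) / (b - a)))
    (h2u : ((1 - u) / (b - a)) ≤ (1 / 10 : ℝ)) : EndPlace a b u v H := by
  obtain ⟨hI, hd, hw, eS, hcap⟩ := end_facts B
  have hn : (allStabI a b) ≠ 0 := hI.ne'
  have hn' : b - a ≠ 0 := hd.ne'
  obtain ⟨t, ht⟩ := endD53_ok.point B (x₀ := ((b - a))) (x₁ := (allStabI a b / (b - a))) (x₂ := ((1 - u) / (b - a)))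
    ⟨by norm_num [endD53], by norm_num [endD53] <;> linarith, by norm_num [endD53] <;> linarith⟩
    ⟨by norm_num [endD53], by norm_num [endD53] <;> linarith, by norm_num [endD53] <;> linarith⟩
    ⟨by norm_num [endD53], by norm_num [endD53] <;> linarith, by norm_num [endD53] <;> linarith⟩
    (by simp only [endD53, end_add, end_sub, end_mul, Ex.eval, pt4];
        try push_cast; try field_simp; try ring)
    (by simp only [endD53, end_add, end_sub, end_mul, Ex.eval, pt4];
        try push_cast; try field_simp; try ring)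
    (by simp only [endD53, end_add, end_sub, end_mul, Ex.eval, pt4];
        try push_cast; try field_simp; try ring)
    (by simp only [endD53, end_add, end_sub, end_mul, Ex.eval, pt4]; push_cast; positivity)
  exact .cD53 _ ht hk

theorem place_D54 (B : EndBands a b u v H)
    (hk : (a + b) * allStabI a b ≤ (b - a) * (1 - allStabI a b))
    (h0l : (7 / 100 : ℝ) < ((b - a)))
    (h0u : ((b - a)) ≤ (1 / 10 : ℝ))
    (h1l : (1 / 2 : ℝ) < (allStabI a b / (b - a)))
    (h1u : (allStabI a b / (b - a)) ≤ (143 / 200 : ℝ))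
    (h2l : (0 : ℝ) < ((1 - u) / (b - a)))
    (h2u : ((1 - u) / (b - a)) ≤ (1 / 10 : ℝ)) : EndPlace a b u v H := by
  obtain ⟨hI, hd, hw, eS, hcap⟩ := end_facts B
  have hn : (allStabI a b) ≠ 0 := hI.ne'
  have hn' : b - a ≠ 0 := hd.ne'
  obtain ⟨t, ht⟩ := endD54_ok.point B (x₀ := ((b - a))) (x₁ := (allStabI a b / (b - a))) (x₂ := ((1 - u) / (b - a)))
    ⟨by norm_num [endD54], by norm_num [endD54] <;> linarith, by norm_num [endD54] <;> linarith⟩
    ⟨by norm_num [endD54], by norm_num [endD54] <;> linarith, by norm_num [endD54] <;> linarith⟩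
    ⟨by norm_num [endD54], by norm_num [endD54] <;> linarith, by norm_num [endD54] <;> linarith⟩
    (by simp only [endD54, end_add, end_sub, end_mul, Ex.eval, pt4];
        try push_cast; try field_simp; try ring)
    (by simp only [endD54, end_add, end_sub, end_mul, Ex.eval, pt4];
        try push_cast; try field_simp; try ring)
    (by simp only [endD54, end_add, end_sub, end_mul, Ex.eval, pt4];
        try push_cast; try field_simp; try ring)
    (by simp only [endD54, end_add, end_sub, end_mul, Ex.eval, pt4]; push_cast; positivity)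
  exact .cD54 _ ht hk

theorem place_D55 (B : EndBands a b u v H)
    (hk : (a + b) * allStabI a b ≤ (b - a) * (1 - allStabI a b))
    (h0l : (0 : ℝ) < ((b - a)))
    (h0u : ((b - a)) ≤ (1 / 20 : ℝ))
    (h1l : (1 / 2 : ℝ) < (allStabI a b / (b - a)))
    (h1u : (allStabI a b / (b - a)) ≤ (1 : ℝ))
    (h2l : (1 / 10 : ℝ) < ((1 - u) / (b - a)))
    (h2u : ((1 - u) / (b - a)) ≤ (9 / 20 : ℝ)) : EndPlace a b u v H := by
  obtain ⟨hI, hd, hw, eS, hcap⟩ := end_facts B
  have hn : (allStabI a b) ≠ 0 := hI.ne'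
  have hn' : b - a ≠ 0 := hd.ne'
  obtain ⟨t, ht⟩ := endD55_ok.point B (x₀ := ((b - a))) (x₁ := (allStabI a b / (b - a))) (x₂ := ((1 - u) / (b - a)))
    ⟨by norm_num [endD55], by norm_num [endD55] <;> linarith, by norm_num [endD55] <;> linarith⟩
    ⟨by norm_num [endD55], by norm_num [endD55] <;> linarith, by norm_num [endD55] <;> linarith⟩
    ⟨by norm_num [endD55], by norm_num [endD55] <;> linarith, by norm_num [endD55] <;> linarith⟩
    (by simp only [endD55, end_add, end_sub, end_mul, Ex.eval, pt4];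
        try push_cast; try field_simp; try ring)
    (by simp only [endD55, end_add, end_sub, end_mul, Ex.eval, pt4];
        try push_cast; try field_simp; try ring)
    (by simp only [endD55, end_add, end_sub, end_mul, Ex.eval, pt4];
        try push_cast; try field_simp; try ring)
    (by simp only [endD55, end_add, end_sub, end_mul, Ex.eval, pt4]; push_cast; positivity)
  exact .cD55 _ ht hk

theorem place_D56 (B : EndBands a b u v H)
    (hk : (a + b) * allStabI a b ≤ (b - a) * (1 - allStabI a b))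
    (h0l : (1 / 20 : ℝ) < ((b - a)))
    (h0u : ((b - a)) ≤ (7 / 100 : ℝ))
    (h1l : (1 / 2 : ℝ) < (allStabI a b / (b - a)))
    (h1u : (allStabI a b / (b - a)) ≤ (1 : ℝ))
    (h2l : (1 / 10 : ℝ) < ((1 - u) / (b - a)))
    (h2u : ((1 - u) / (b - a)) ≤ (9 / 20 : ℝ)) : EndPlace a b u v H := by
  obtain ⟨hI, hd, hw, eS, hcap⟩ := end_facts B
  have hn : (allStabI a b) ≠ 0 := hI.ne'
  have hn' : b - a ≠ 0 := hd.ne'
  obtain ⟨t, ht⟩ := endD56_ok.point B (x₀ := ((b - a))) (x₁ := (allStabI a b / (b - a))) (x₂ := ((1 - u) / (b - a)))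
    ⟨by norm_num [endD56], by norm_num [endD56] <;> linarith, by norm_num [endD56] <;> linarith⟩
    ⟨by norm_num [endD56], by norm_num [endD56] <;> linarith, by norm_num [endD56] <;> linarith⟩
    ⟨by norm_num [endD56], by norm_num [endD56] <;> linarith, by norm_num [endD56] <;> linarith⟩
    (by simp only [endD56, end_add, end_sub, end_mul, Ex.eval, pt4];
        try push_cast; try field_simp; try ring)
    (by simp only [endD56, end_add, end_sub, end_mul, Ex.eval, pt4];
        try push_cast; try field_simp; try ring)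
    (by simp only [endD56, end_add, end_sub, end_mul, Ex.eval, pt4];
        try push_cast; try field_simp; try ring)
    (by simp only [endD56, end_add, end_sub, end_mul, Ex.eval, pt4]; push_cast; positivity)
  exact .cD56 _ ht hk

theorem place_D57 (B : EndBands a b u v H)
    (hk : (a + b) * allStabI a b ≤ (b - a) * (1 - allStabI a b))
    (h0l : (7 / 100 : ℝ) < ((b - a)))
    (h0u : ((b - a)) ≤ (1 / 10 : ℝ))
    (h1l : (1 / 2 : ℝ) < (allStabI a b / (b - a)))
    (h1u : (allStabI a b / (b - a)) ≤ (143 / 200 : ℝ))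
    (h2l : (1 / 10 : ℝ) < ((1 - u) / (b - a)))
    (h2u : ((1 - u) / (b - a)) ≤ (9 / 20 : ℝ)) : EndPlace a b u v H := by
  obtain ⟨hI, hd, hw, eS, hcap⟩ := end_facts B
  have hn : (allStabI a b) ≠ 0 := hI.ne'
  have hn' : b - a ≠ 0 := hd.ne'
  obtain ⟨t, ht⟩ := endD57_ok.point B (x₀ := ((b - a))) (x₁ := (allStabI a b / (b - a))) (x₂ := ((1 - u) / (b - a)))
    ⟨by norm_num [endD57], by norm_num [endD57] <;> linarith, by norm_num [endD57] <;> linarith⟩
    ⟨by norm_num [endD57], by norm_num [endD57] <;> linarith, by norm_num [endD57] <;> linarith⟩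
    ⟨by norm_num [endD57], by norm_num [endD57] <;> linarith, by norm_num [endD57] <;> linarith⟩
    (by simp only [endD57, end_add, end_sub, end_mul, Ex.eval, pt4];
        try push_cast; try field_simp; try ring)
    (by simp only [endD57, end_add, end_sub, end_mul, Ex.eval, pt4];
        try push_cast; try field_simp; try ring)
    (by simp only [endD57, end_add, end_sub, end_mul, Ex.eval, pt4];
        try push_cast; try field_simp; try ring)
    (by simp only [endD57, end_add, end_sub, end_mul, Ex.eval, pt4]; push_cast; positivity)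
  exact .cD57 _ ht hk


/-- The charts with `d` at most `1/5` and `I` at most half of it. -/
theorem end_place_low (B : EndBands a b u v H)
    (hk : (a + b) * allStabI a b ≤ (b - a) * (1 - allStabI a b))
    (hI20 : allStabI a b ≤ 1 / 20) (hdI : allStabI a b < (b - a)) (hwd : (1 - u) ≤ (b - a))
    (hu : 4 / 5 < u)
    (g : allStabI a b / (b - a) ≤ 1 / 2) (g0 : (b - a) ≤ 1 / 5) : EndPlace a b u v H := by
  obtain ⟨hI, hd, hw, eS, hcap⟩ := end_facts B
  have hw5 : (1 - u) ≤ 1 / 5 := by linarith
  have hw1 := div_pos hw hd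
  have hs1 := div_pos hI hd
  have hd2 : allStabI a b / (b - a) ≤ 1 := (div_le_one hd).2 hdI.le
  have hom : (1 - u) / (b - a) ≤ 1 := (div_le_one hd).2 hwd
  rcases le_or_gt ((b - a)) (1/20 : ℝ) with g | g
  · rcases le_or_gt ((1 - u) / (b - a)) (1/10 : ℝ) with g | g
    · rcases le_or_gt (allStabI a b / (b - a)) (1/10 : ℝ) with g | g
      · refine place_D00 B hk ?_ ?_ ?_ ?_ ?_ ?_ <;> first | assumption | linarith
      · refine place_D01 B hk ?_ ?_ ?_ ?_ ?_ ?_ <;> first | assumption | linarith
    · rcases le_or_gt ((1 - u) / (b - a)) (3/10 : ℝ) with g | g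
      · rcases le_or_gt ((b - a)) (1/40 : ℝ) with g | g
        · refine place_D02 B hk ?_ ?_ ?_ ?_ ?_ ?_ <;> first | assumption | linarith
        · refine place_D04 B hk ?_ ?_ ?_ ?_ ?_ ?_ <;> first | assumption | linarith
      · have : (1 - u) / (b - a) ≤ (1 : ℝ) := by rw [div_le_iff₀ hd]; linarith
        rcases le_or_gt ((b - a)) (1/40 : ℝ) with g | g
        · refine place_D03 B hk ?_ ?_ ?_ ?_ ?_ ?_ <;> first | assumption | linarith
        · refine place_D05 B hk ?_ ?_ ?_ ?_ ?_ ?_ <;> first | assumption | linarith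
  · rcases le_or_gt ((b - a)) (3/25 : ℝ) with g | g
    · rcases le_or_gt ((1 - u) / (b - a)) (1/10 : ℝ) with g | g
      · rcases le_or_gt (allStabI a b / (b - a)) (3/10 : ℝ) with g | g
        · refine place_D07 B hk ?_ ?_ ?_ ?_ ?_ ?_ <;> first | assumption | linarith
        · rcases le_or_gt ((b - a)) (9/100 : ℝ) with g | g
          · refine place_D08 B hk ?_ ?_ ?_ ?_ ?_ ?_ <;> first | assumption | linarith
          · refine place_D09 B hk ?_ ?_ ?_ ?_ ?_ ?_ <;> first | assumption | linarith
      · rcases le_or_gt ((b - a)) (7/100 : ℝ) with g | g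
        · rcases le_or_gt ((1 - u) / (b - a)) (3/10 : ℝ) with g | g
          · refine place_D10 B hk ?_ ?_ ?_ ?_ ?_ ?_ <;> first | assumption | linarith
          · have : (1 - u) / (b - a) ≤ (1 : ℝ) := by rw [div_le_iff₀ hd]; linarith
            refine place_D11 B hk ?_ ?_ ?_ ?_ ?_ ?_ <;> first | assumption | linarith
        · rcases le_or_gt ((b - a)) (9/100 : ℝ) with g | g
          · rcases le_or_gt ((1 - u) / (b - a)) (3/10 : ℝ) with g | g
            · refine place_D12 B hk ?_ ?_ ?_ ?_ ?_ ?_ <;> first | assumption | linarith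
            · have : (1 - u) / (b - a) ≤ (1 : ℝ) := by rw [div_le_iff₀ hd]; linarith
              refine place_D13 B hk ?_ ?_ ?_ ?_ ?_ ?_ <;> first | assumption | linarith
          · rcases le_or_gt ((1 - u) / (b - a)) (3/10 : ℝ) with g | g
            · refine place_D14 B hk ?_ ?_ ?_ ?_ ?_ ?_ <;> first | assumption | linarith
            · have : (1 - u) / (b - a) ≤ (1 : ℝ) := by rw [div_le_iff₀ hd]; linarith
              refine place_D15 B hk ?_ ?_ ?_ ?_ ?_ ?_ <;> first | assumption | linarith
    · rcases le_or_gt ((b - a)) (4/25 : ℝ) with g | g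
      · have : allStabI a b / (b - a) ≤ (21/50 : ℝ) := by rw [div_le_iff₀ hd]; linarith
        rcases le_or_gt ((1 - u) / (b - a)) (1/10 : ℝ) with g | g
        · rcases le_or_gt (allStabI a b / (b - a)) (1/5 : ℝ) with g | g
          · refine place_D18 B hk ?_ ?_ ?_ ?_ ?_ ?_ <;> first | assumption | linarith
          · refine place_D19 B hk ?_ ?_ ?_ ?_ ?_ ?_ <;> first | assumption | linarith
        · rcases le_or_gt ((1 - u) / (b - a)) (3/10 : ℝ) with g | g
          · refine place_D21 B hk ?_ ?_ ?_ ?_ ?_ ?_ <;> first | assumption | linarith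
          · have : (1 - u) / (b - a) ≤ (1 : ℝ) := by rw [div_le_iff₀ hd]; linarith
            refine place_D22 B hk ?_ ?_ ?_ ?_ ?_ ?_ <;> first | assumption | linarith
      · have : allStabI a b / (b - a) ≤ (8/25 : ℝ) := by rw [div_le_iff₀ hd]; linarith
        rcases le_or_gt ((1 - u) / (b - a)) (1/10 : ℝ) with g | g
        · rcases le_or_gt (allStabI a b / (b - a)) (1/5 : ℝ) with g | g
          · refine place_D18 B hk ?_ ?_ ?_ ?_ ?_ ?_ <;> first | assumption | linarith
          · refine place_D20 B hk ?_ ?_ ?_ ?_ ?_ ?_ <;> first | assumption | linarith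
        · rcases le_or_gt ((1 - u) / (b - a)) (3/10 : ℝ) with g | g
          · refine place_D23 B hk ?_ ?_ ?_ ?_ ?_ ?_ <;> first | assumption | linarith
          · have : (1 - u) / (b - a) ≤ (1 : ℝ) := by rw [div_le_iff₀ hd]; linarith
            refine place_D24 B hk ?_ ?_ ?_ ?_ ?_ ?_ <;> first | assumption | linarith

/-- The charts with `d` above `1/5`. -/
theorem end_place_high (B : EndBands a b u v H)
    (hk : (a + b) * allStabI a b ≤ (b - a) * (1 - allStabI a b))
    (hI20 : allStabI a b ≤ 1 / 20) (hdI : allStabI a b < (b - a)) (hwd : (1 - u) ≤ (b - a))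
    (hu : 4 / 5 < u)
    (g0 : 1 / 5 < (b - a)) : EndPlace a b u v H := by
  obtain ⟨hI, hd, hw, eS, hcap⟩ := end_facts B
  have hw5 : (1 - u) ≤ 1 / 5 := by linarith
  have hw1 := div_pos hw hd
  have hs1 := div_pos hI hd
  have hd2 : allStabI a b / (b - a) ≤ 1 := (div_le_one hd).2 hdI.le
  have hom : (1 - u) / (b - a) ≤ 1 := (div_le_one hd).2 hwd
  rcases le_or_gt ((b - a)) (9/40 : ℝ) with g | g
  · have : allStabI a b / (b - a) ≤ (1/4 : ℝ) := by rw [div_le_iff₀ hd]; linarith
    rcases le_or_gt ((1 - u) / (b - a)) (1/10 : ℝ) with g | g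
    · refine place_D25 B hk ?_ ?_ ?_ ?_ ?_ ?_ <;> first | assumption | linarith
    · rcases le_or_gt ((1 - u) / (b - a)) (3/10 : ℝ) with g | g
      · refine place_D27 B hk ?_ ?_ ?_ ?_ ?_ ?_ <;> first | assumption | linarith
      · have : (1 - u) / (b - a) ≤ (1 : ℝ) := by rw [div_le_iff₀ hd]; linarith
        refine place_D28 B hk ?_ ?_ ?_ ?_ ?_ ?_ <;> first | assumption | linarith
  · rcases le_or_gt ((b - a)) (1/4 : ℝ) with g | g
    · have : allStabI a b / (b - a) ≤ (223/1000 : ℝ) := by rw [div_le_iff₀ hd]; linarith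
      rcases le_or_gt ((1 - u) / (b - a)) (1/100 : ℝ) with g | g
      · refine place_D46 B hk ?_ ?_ ?_ ?_ ?_ ?_ <;> first | assumption | linarith
      · rcases le_or_gt ((1 - u) / (b - a)) (1/10 : ℝ) with g | g
        · refine place_D26 B hk ?_ ?_ ?_ ?_ ?_ ?_ <;> first | assumption | linarith
        · rcases le_or_gt ((1 - u) / (b - a)) (3/10 : ℝ) with g | g
          · refine place_D29 B hk ?_ ?_ ?_ ?_ ?_ ?_ <;> first | assumption | linarith
          · have : (1 - u) / (b - a) ≤ (89/100 : ℝ) := by rw [div_le_iff₀ hd]; linarith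
            refine place_D30 B hk ?_ ?_ ?_ ?_ ?_ ?_ <;> first | assumption | linarith
    · rcases le_or_gt ((b - a)) (11/40 : ℝ) with g | g
      · have : allStabI a b / (b - a) ≤ (1/5 : ℝ) := by rw [div_le_iff₀ hd]; linarith
        rcases le_or_gt ((1 - u) / (b - a)) (1/100 : ℝ) with g | g
        · refine place_D47 B hk ?_ ?_ ?_ ?_ ?_ ?_ <;> first | assumption | linarith
        · rcases le_or_gt ((1 - u) / (b - a)) (1/10 : ℝ) with g | g
          · refine place_D31 B hk ?_ ?_ ?_ ?_ ?_ ?_ <;> first | assumption | linarith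
          · rcases le_or_gt ((1 - u) / (b - a)) (3/10 : ℝ) with g | g
            · refine place_D34 B hk ?_ ?_ ?_ ?_ ?_ ?_ <;> first | assumption | linarith
            · have : (1 - u) / (b - a) ≤ (4/5 : ℝ) := by rw [div_le_iff₀ hd]; linarith
              refine place_D35 B hk ?_ ?_ ?_ ?_ ?_ ?_ <;> first | assumption | linarith
      · rcases le_or_gt ((b - a)) (23/80 : ℝ) with g | g
        · have : allStabI a b / (b - a) ≤ (191/1000 : ℝ) := by rw [div_le_iff₀ hd]; linarith
          rcases le_or_gt ((1 - u) / (b - a)) (1/100 : ℝ) with g | g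
          · refine place_D48 B hk ?_ ?_ ?_ ?_ ?_ ?_ <;> first | assumption | linarith
          · rcases le_or_gt ((1 - u) / (b - a)) (1/10 : ℝ) with g | g
            · refine place_D32 B hk ?_ ?_ ?_ ?_ ?_ ?_ <;> first | assumption | linarith
            · rcases le_or_gt ((1 - u) / (b - a)) (3/10 : ℝ) with g | g
              · refine place_D36 B hk ?_ ?_ ?_ ?_ ?_ ?_ <;> first | assumption | linarith
              · have : (1 - u) / (b - a) ≤ (73/100 : ℝ) := by rw [div_le_iff₀ hd]; linarith
                refine place_D38 B hk ?_ ?_ ?_ ?_ ?_ ?_ <;> first | assumption | linarith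
        · rcases le_or_gt ((b - a)) (3/10 : ℝ) with g | g
          · have : allStabI a b / (b - a) ≤ (161/1000 : ℝ) := by rw [div_le_iff₀ hd]; linarith
            rcases le_or_gt ((1 - u) / (b - a)) (1/100 : ℝ) with g | g
            · refine place_D49 B hk ?_ ?_ ?_ ?_ ?_ ?_ <;> first | assumption | linarith
            · rcases le_or_gt ((1 - u) / (b - a)) (1/10 : ℝ) with g | g
              · refine place_D33 B hk ?_ ?_ ?_ ?_ ?_ ?_ <;> first | assumption | linarith
              · rcases le_or_gt ((1 - u) / (b - a)) (3/10 : ℝ) with g | g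
                · refine place_D37 B hk ?_ ?_ ?_ ?_ ?_ ?_ <;> first | assumption | linarith
                · have : (1 - u) / (b - a) ≤ (7/10 : ℝ) := by rw [div_le_iff₀ hd]; linarith
                  refine place_D39 B hk ?_ ?_ ?_ ?_ ?_ ?_ <;> first | assumption | linarith
          · rcases le_or_gt ((b - a)) (17/50 : ℝ) with g | g
            · have : allStabI a b / (b - a) ≤ (67/500 : ℝ) := by rw [div_le_iff₀ hd]; linarith
              rcases le_or_gt ((1 - u) / (b - a)) (1/100 : ℝ) with g | g
              · refine place_D50 B hk ?_ ?_ ?_ ?_ ?_ ?_ <;> first | assumption | linarith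
              · rcases le_or_gt ((1 - u) / (b - a)) (1/10 : ℝ) with g | g
                · refine place_D40 B hk ?_ ?_ ?_ ?_ ?_ ?_ <;> first | assumption | linarith
                · rcases le_or_gt ((1 - u) / (b - a)) (3/10 : ℝ) with g | g
                  · refine place_D42 B hk ?_ ?_ ?_ ?_ ?_ ?_ <;> first | assumption | linarith
                  · have : (1 - u) / (b - a) ≤ (67/100 : ℝ) := by rw [div_le_iff₀ hd]; linarith
                    refine place_D43 B hk ?_ ?_ ?_ ?_ ?_ ?_ <;> first | assumption | linarith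
            · have : allStabI a b / (b - a) ≤ (59/1000 : ℝ) := by rw [div_le_iff₀ hd]; linarith
              rcases le_or_gt ((1 - u) / (b - a)) (1/100 : ℝ) with g | g
              · refine place_D51 B hk ?_ ?_ ?_ ?_ ?_ ?_ <;> first | assumption | linarith
              · rcases le_or_gt ((1 - u) / (b - a)) (1/10 : ℝ) with g | g
                · refine place_D41 B hk ?_ ?_ ?_ ?_ ?_ ?_ <;> first | assumption | linarith
                · rcases le_or_gt ((1 - u) / (b - a)) (3/10 : ℝ) with g | g
                  · refine place_D44 B hk ?_ ?_ ?_ ?_ ?_ ?_ <;> first | assumption | linarith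
                  · have : (1 - u) / (b - a) ≤ (59/100 : ℝ) := by rw [div_le_iff₀ hd]; linarith
                    refine place_D45 B hk ?_ ?_ ?_ ?_ ?_ ?_ <;> first | assumption | linarith

/-- The charts with `I` above half of `d`. -/
theorem end_place_mid (B : EndBands a b u v H)
    (hk : (a + b) * allStabI a b ≤ (b - a) * (1 - allStabI a b))
    (hI20 : allStabI a b ≤ 1 / 20) (hdI : allStabI a b < (b - a)) (hwd : (1 - u) ≤ (b - a))
    (hu : 4 / 5 < u)
    (g : 1 / 2 < allStabI a b / (b - a)) : EndPlace a b u v H := by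
  obtain ⟨hI, hd, hw, eS, hcap⟩ := end_facts B
  have hw5 : (1 - u) ≤ 1 / 5 := by linarith
  have hw1 := div_pos hw hd
  have hs1 := div_pos hI hd
  have hd2 : allStabI a b / (b - a) ≤ 1 := (div_le_one hd).2 hdI.le
  have hom : (1 - u) / (b - a) ≤ 1 := (div_le_one hd).2 hwd
  have hdh : (b - a) < 2 * allStabI a b := by rw [lt_div_iff₀ hd] at g; linarith
  rcases le_or_gt ((1 - u) / (b - a)) (9 / 20 : ℝ) with e | e
  swap
  · rcases le_or_gt ((b - a)) (1/20 : ℝ) with g | g
    · refine place_D06 B hk ?_ ?_ ?_ ?_ ?_ ?_ <;> first | assumption | linarith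
    · rcases le_or_gt ((b - a)) (7/100 : ℝ) with g | g
      · refine place_D16 B hk ?_ ?_ ?_ ?_ ?_ ?_ <;> first | assumption | linarith
      · have : allStabI a b / (b - a) ≤ (18/25 : ℝ) := by rw [div_le_iff₀ hd]; linarith
        refine place_D17 B hk ?_ ?_ ?_ ?_ ?_ ?_ <;> first | assumption | linarith
  have hwI : (1 - u) / allStabI a b ≤ 9 / 10 := by
    rw [div_le_iff₀ hd] at e; rw [div_le_iff₀ hI]; linarith
  rcases le_or_gt ((b - a) / allStabI a b) (3 / 2 : ℝ) with f | f
  · have f1 := (one_lt_div hI).2 hdI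
    have hw0 := div_pos hw hI
    rcases le_or_gt ((1 - u) / allStabI a b) (1 / 20 : ℝ) with w1 | w1
    · rcases le_or_gt ((b - a) / allStabI a b) (5 / 4 : ℝ) with f2 | f2
      · exact place_IFp B hk hI hI20 hw0 w1 f1 f2
      · exact place_IFq B hk hI hI20 hw0 w1 f2 f
    rcases le_or_gt ((1 - u) / allStabI a b) (7 / 20 : ℝ) with w2 | w2
    · exact place_IFg B hk hI hI20 w1 w2 f1 f
    · exact place_IFh B hk hI hI20 w2 hwI f1 f
  rcases le_or_gt (allStabI a b) (3 / 100 : ℝ) with f3 | f3
  · have f4 : (b - a) / allStabI a b ≤ 2 := (div_le_iff₀ hI).2 (by linarith)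
    rcases le_or_gt ((1 - u) / allStabI a b) (1 / 20 : ℝ) with w1 | w1
    · exact place_IGt B hk hI f3 (div_pos hw hI) w1 f f4
    · exact place_IGu B hk hI f3 w1 hwI f f4
  rw [lt_div_iff₀ hI] at f
  have hs7 : allStabI a b / (b - a) ≤ 7 / 10 := by rw [div_le_iff₀ hd]; linarith
  rcases le_or_gt ((b - a)) (1/20 : ℝ) with g | g
  · rcases le_or_gt ((1 - u) / (b - a)) (1/10 : ℝ) with g | g
    · refine place_D52 B hk ?_ ?_ ?_ ?_ ?_ ?_ <;> first | assumption | linarith
    · refine place_D55 B hk ?_ ?_ ?_ ?_ ?_ ?_ <;> first | assumption | linarith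
  · rcases le_or_gt ((b - a)) (7/100 : ℝ) with g | g
    · rcases le_or_gt ((1 - u) / (b - a)) (1/10 : ℝ) with g | g
      · refine place_D53 B hk ?_ ?_ ?_ ?_ ?_ ?_ <;> first | assumption | linarith
      · refine place_D56 B hk ?_ ?_ ?_ ?_ ?_ ?_ <;> first | assumption | linarith
    · rcases le_or_gt ((1 - u) / (b - a)) (1/10 : ℝ) with g | g
      · refine place_D54 B hk ?_ ?_ ?_ ?_ ?_ ?_ <;> first | assumption | linarith
      · refine place_D57 B hk ?_ ?_ ?_ ?_ ?_ ?_ <;> first | assumption | linarith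

theorem end_place_IAD (B : EndBands a b u v H)
    (hk : (b - a) * (1 - allStabI a b) ≤ (a + b) * allStabI a b) (hI20 : allStabI a b ≤ 1 / 20)
    (hwI : 1 - u ≤ allStabI a b) (hdI : b - a ≤ allStabI a b) : EndPlace a b u v H := by
  obtain ⟨hI, hd, hw, eS, hcap⟩ := end_facts B
  have hx2 : (b - a) / allStabI a b ≤ 1 := (div_le_one hI).2 hdI
  have hx1 : (1 - u) / allStabI a b ≤ 1 := (div_le_one hI).2 hwI
  have hw1 := div_pos hw hI
  have hd1 := div_pos hd hI
  rw [eS] at hk
  rcases le_or_gt ((1 - u) / allStabI a b) (1 / 20) with f | f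
  · rcases le_or_gt ((b - a) / allStabI a b) (3 / 20) with g | g
    · exact place_IAt B (eS ▸ hk) hI hI20 hw1 f hd1 g
    rcases le_or_gt ((b - a) / allStabI a b) (1 / 2) with g1 | g1
    · exact place_IBt B (eS ▸ hk) hI hI20 hw1 f g g1
    rcases le_or_gt ((b - a) / allStabI a b) (3 / 4) with g2 | g2
    · exact place_ICt B (eS ▸ hk) hI hI20 hw1 f g1 g2
    rcases le_or_gt ((b - a) / allStabI a b) (9 / 10) with g3 | g3
    · exact place_IDp B (eS ▸ hk) hI hI20 hw1 f g2 g3
    rcases le_or_gt ((b - a) / allStabI a b) (24 / 25) with g4 | g4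
    · exact place_IDq B (eS ▸ hk) hI hI20 hw1 f g3 g4
    · have h : allStabI a b ≤ 1 / 25 := by
        have h4 := (lt_div_iff₀ hI).1 g4
        refine le_of_mul_le_mul_left (a := allStabI a b) ?_ hI
        linarith [mul_le_mul_of_nonneg_right h4.le (show 0 ≤ 1 - allStabI a b by linarith),
          mul_nonneg hI.le hI.le]
      exact place_IDr B (eS ▸ hk) hI h hw1 f g4 hx2
  · rcases le_or_gt ((b - a) / allStabI a b) (3 / 20) with g | g
    · exact place_IAu B (eS ▸ hk) hI hI20 f hx1 hd1 g
    rcases le_or_gt ((b - a) / allStabI a b) (1 / 2) with g1 | g1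
    · exact place_IBu B (eS ▸ hk) hI hI20 f hx1 g g1
    rcases le_or_gt ((b - a) / allStabI a b) (3 / 4) with g2 | g2
    · exact place_ICu B (eS ▸ hk) hI hI20 f hx1 g1 g2
    · exact place_IDu B (eS ▸ hk) hI hI20 f hx1 g2 hx2

theorem end_place_IE (B : EndBands a b u v H)
    (hk : (a + b) * allStabI a b ≤ (b - a) * (1 - allStabI a b)) (hI20 : allStabI a b ≤ 1 / 20)
    (hwI : 1 - u ≤ allStabI a b) (hdI : b - a ≤ allStabI a b) : EndPlace a b u v H := by
  obtain ⟨hI, hd, hw, eS, hcap⟩ := end_facts B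
  have hx2 : (b - a) / allStabI a b ≤ 1 := (div_le_one hI).2 hdI
  have hx1 : (1 - u) / allStabI a b ≤ 1 := (div_le_one hI).2 hwI
  have hw1 := div_pos hw hI
  have hlo : 47 / 50 < (b - a) / allStabI a b := by
    rw [lt_div_iff₀ hI]
    rw [eS] at hk
    refine lt_of_mul_lt_mul_left (a := 1 - allStabI a b) ?_ (by linarith)
    linarith [mul_lt_mul_of_pos_left
      (show 47 / 50 * (1 - allStabI a b) < 1 - 2 * allStabI a b by linarith) hI]
  rcases le_or_gt ((1 - u) / allStabI a b) (1 / 20) with f | f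
  · rcases le_or_gt ((b - a) / allStabI a b) (24 / 25) with g4 | g4
    · have h : (19 / 500 : ℝ) < allStabI a b := by
        by_contra h0
        rw [eS] at hk
        have h5 := mul_le_mul_of_nonneg_right ((div_le_iff₀ hI).1 g4)
          (show 0 ≤ 1 - allStabI a b by linarith)
        linarith [mul_lt_mul_of_pos_left
          (show 24 / 25 * (1 - allStabI a b) < 1 - 2 * allStabI a b by linarith [not_lt.1 h0]) hI]
      exact place_IEp B hk h hI20 hw1 f hlo g4
    · exact place_IEq B hk hI hI20 hw1 f g4 hx2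
  · exact place_IEu B hk hI hI20 f hx1 hlo hx2

/-- **Every point with `u > 4/5` and `I ≤ 1/20` has a chart.** -/
theorem end_place (B : EndBands a b u v H) (hI20 : allStabI a b ≤ 1 / 20) (hu : 4 / 5 < u) :
    EndPlace a b u v H := by
  obtain ⟨hI, hd, hw, eS, hcap⟩ := end_facts B
  have hw5 : (1 - u) ≤ 1 / 5 := by linarith
  rcases le_or_gt (b - a) (allStabI a b) with hdI | hdI
  · have hx2 : (b - a) / allStabI a b ≤ 1 := (div_le_one hI).2 hdI
    rcases le_or_gt ((b - a) * (1 - allStabI a b)) ((a + b) * allStabI a b) with hk | hk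
    · rcases le_or_gt (1 - u) (allStabI a b) with hwI | hwI
      · exact end_place_IAD B hk hI20 hwI hdI
      · rcases le_or_gt (1 - u) (1 / 20) with g | g
        · exact place_ZA B hk hw g (div_pos hI hw) ((div_le_one hw).2 hwI.le) (div_pos hd hI) hx2
        · exact place_ZB B hk g hw5 hI hI20 (div_pos hd hI) hx2
    · rw [eS] at hk
      have hr : allStabI a b / (b - a) ≤ 53 / 50 := by
        rw [div_le_iff₀ hd]
        refine le_of_mul_le_mul_left (a := 1 - allStabI a b) ?_ (by linarith)
        linarith [mul_nonneg hI.le (show 0 ≤ 53 / 50 * (1 - 2 * allStabI a b) - (1 - allStabI a b) by linarith)]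
      rw [← eS] at hk
      rcases le_or_gt (1 - u) (allStabI a b) with hwI | hwI
      · exact end_place_IE B hk.le hI20 hwI hdI
      · rcases le_or_gt (1 - u) (1 / 20) with g | g
        · exact place_CA B hk.le hw g (div_pos hd hw) ((div_le_one hw).2 (by linarith))
            (div_pos hI hd) hr
        · exact place_CB B hk.le g hw5 hI hI20 (div_pos hd hw) ((div_le_one hw).2 (by linarith))
  have hk : (a + b) * allStabI a b ≤ (b - a) * (1 - allStabI a b) := by
    rw [eS]
    linarith [mul_le_mul_of_nonneg_right (show 1 - 2 * allStabI a b ≤ 1 - allStabI a b by linarith) hI.le,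
      mul_le_mul_of_nonneg_right hdI.le (show 0 ≤ 1 - allStabI a b by linarith)]
  rcases le_or_gt (1 - u) (b - a) with hwd | hwd
  swap
  · rcases le_or_gt (1 - u) (1 / 20) with g | g
    · refine place_CA B hk hw g (div_pos hd hw) ((div_le_one hw).2 hwd.le) (div_pos hI hd) ?_
      rw [div_le_iff₀ hd]; linarith
    · exact place_CB B hk g hw5 hI hI20 (div_pos hd hw) ((div_le_one hw).2 hwd.le)
  have hw1 := div_pos hw hd
  have hs1 := div_pos hI hd
  rcases le_or_gt ((b - a)) (1 / 5 : ℝ) with g0 | g0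
  · rcases le_or_gt (allStabI a b / (b - a)) (1 / 2 : ℝ) with g | g
    · exact end_place_low B hk hI20 hdI hwd hu g g0
    · exact end_place_mid B hk hI20 hdI hwd hu g
  · exact end_place_high B hk hI20 hdI hwd hu g0

end Vale.Agent.P100.Calib.StripEnd
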