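import Vale.Agent.P100.Calib.SlabStripEndWinCheckSev
import Vale.Agent.P100.Calib.SlabStripEndPlace

/-!
# Every point near `u = 1` has a chart, for `N` between seven and twenty
-/

set_option linter.unusedVariables false

namespace Vale.Agent.P100.Calib.StripEnd

open Pack Pack.Ex Band StripMid

local instance endSevPlaceAdd : Add Ex := ⟨Ex.add⟩
local instance endSevPlaceSub : Sub Ex := ⟨Ex.sub⟩
local instance endSevPlaceMul : Mul Ex := ⟨Ex.mul⟩

/-- A chart with a point over `(a, b, u, v, H)`, and the side of `D2`. -/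
inductive EndPlace7 (a b u v H : ℝ) : Prop
  | cIAL (x : ℕ → ℝ) (hx : sevIAL.Point x a b u v H)
      (hk : (b - a) * (1 - allStabI a b) ≤ (a + b) * allStabI a b)
  | cIBL (x : ℕ → ℝ) (hx : sevIBL.Point x a b u v H)
      (hk : (b - a) * (1 - allStabI a b) ≤ (a + b) * allStabI a b)
  | cICL (x : ℕ → ℝ) (hx : sevICL.Point x a b u v H)
      (hk : (b - a) * (1 - allStabI a b) ≤ (a + b) * allStabI a b)
  | cIDL (x : ℕ → ℝ) (hx : sevIDL.Point x a b u v H)
      (hk : (b - a) * (1 - allStabI a b) ≤ (a + b) * allStabI a b)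
  | cIEL (x : ℕ → ℝ) (hx : sevIEL.Point x a b u v H)
      (hk : (a + b) * allStabI a b ≤ (b - a) * (1 - allStabI a b))
  | cIAH (x : ℕ → ℝ) (hx : sevIAH.Point x a b u v H)
      (hk : (b - a) * (1 - allStabI a b) ≤ (a + b) * allStabI a b)
  | cIBH (x : ℕ → ℝ) (hx : sevIBH.Point x a b u v H)
      (hk : (b - a) * (1 - allStabI a b) ≤ (a + b) * allStabI a b)
  | cICH (x : ℕ → ℝ) (hx : sevICH.Point x a b u v H)
      (hk : (b - a) * (1 - allStabI a b) ≤ (a + b) * allStabI a b)
  | cIDH (x : ℕ → ℝ) (hx : sevIDH.Point x a b u v H)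
      (hk : (b - a) * (1 - allStabI a b) ≤ (a + b) * allStabI a b)
  | cIEH (x : ℕ → ℝ) (hx : sevIEH.Point x a b u v H)
      (hk : (a + b) * allStabI a b ≤ (b - a) * (1 - allStabI a b))
  | cIAG (x : ℕ → ℝ) (hx : sevIAG.Point x a b u v H)
      (hk : (b - a) * (1 - allStabI a b) ≤ (a + b) * allStabI a b)
  | cIBG (x : ℕ → ℝ) (hx : sevIBG.Point x a b u v H)
      (hk : (b - a) * (1 - allStabI a b) ≤ (a + b) * allStabI a b)
  | cICG (x : ℕ → ℝ) (hx : sevICG.Point x a b u v H)
      (hk : (b - a) * (1 - allStabI a b) ≤ (a + b) * allStabI a b)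
  | cIDGa (x : ℕ → ℝ) (hx : sevIDGa.Point x a b u v H)
      (hk : (b - a) * (1 - allStabI a b) ≤ (a + b) * allStabI a b)
  | cIDGb (x : ℕ → ℝ) (hx : sevIDGb.Point x a b u v H)
      (hk : (b - a) * (1 - allStabI a b) ≤ (a + b) * allStabI a b)
  | cIEGc (x : ℕ → ℝ) (hx : sevIEGc.Point x a b u v H)
      (hk : (a + b) * allStabI a b ≤ (b - a) * (1 - allStabI a b))
  | cIEGd (x : ℕ → ℝ) (hx : sevIEGd.Point x a b u v H)
      (hk : (a + b) * allStabI a b ≤ (b - a) * (1 - allStabI a b))
  | cZBL (x : ℕ → ℝ) (hx : sevZBL.Point x a b u v H)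
      (hk : (b - a) * (1 - allStabI a b) ≤ (a + b) * allStabI a b)
  | cCBL (x : ℕ → ℝ) (hx : sevCBL.Point x a b u v H)
      (hk : (a + b) * allStabI a b ≤ (b - a) * (1 - allStabI a b))
  | cZBH (x : ℕ → ℝ) (hx : sevZBH.Point x a b u v H)
      (hk : (b - a) * (1 - allStabI a b) ≤ (a + b) * allStabI a b)
  | cCBH (x : ℕ → ℝ) (hx : sevCBH.Point x a b u v H)
      (hk : (a + b) * allStabI a b ≤ (b - a) * (1 - allStabI a b))
  | cDa (x : ℕ → ℝ) (hx : sevDa.Point x a b u v H)
      (hk : (a + b) * allStabI a b ≤ (b - a) * (1 - allStabI a b))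
  | cDb (x : ℕ → ℝ) (hx : sevDb.Point x a b u v H)
      (hk : (a + b) * allStabI a b ≤ (b - a) * (1 - allStabI a b))
  | cDc (x : ℕ → ℝ) (hx : sevDc.Point x a b u v H)
      (hk : (a + b) * allStabI a b ≤ (b - a) * (1 - allStabI a b))
  | cDd (x : ℕ → ℝ) (hx : sevDd.Point x a b u v H)
      (hk : (a + b) * allStabI a b ≤ (b - a) * (1 - allStabI a b))
  | cDe (x : ℕ → ℝ) (hx : sevDe.Point x a b u v H)
      (hk : (a + b) * allStabI a b ≤ (b - a) * (1 - allStabI a b))
  | cDf (x : ℕ → ℝ) (hx : sevDf.Point x a b u v H)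
      (hk : (a + b) * allStabI a b ≤ (b - a) * (1 - allStabI a b))
  | cDg (x : ℕ → ℝ) (hx : sevDg.Point x a b u v H)
      (hk : (a + b) * allStabI a b ≤ (b - a) * (1 - allStabI a b))
  | cDh (x : ℕ → ℝ) (hx : sevDh.Point x a b u v H)
      (hk : (a + b) * allStabI a b ≤ (b - a) * (1 - allStabI a b))
  | cDi (x : ℕ → ℝ) (hx : sevDi.Point x a b u v H)
      (hk : (a + b) * allStabI a b ≤ (b - a) * (1 - allStabI a b))
  | cDj (x : ℕ → ℝ) (hx : sevDj.Point x a b u v H)
      (hk : (a + b) * allStabI a b ≤ (b - a) * (1 - allStabI a b))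
  | cDk (x : ℕ → ℝ) (hx : sevDk.Point x a b u v H)
      (hk : (a + b) * allStabI a b ≤ (b - a) * (1 - allStabI a b))
  | cDl (x : ℕ → ℝ) (hx : sevDl.Point x a b u v H)
      (hk : (a + b) * allStabI a b ≤ (b - a) * (1 - allStabI a b))

variable {a b u v H : ℝ}

/-- The facts used by the regions. -/
theorem end_facts7 (B : EndBands7 a b u v H) :
    0 < allStabI a b ∧ 0 < b - a ∧ 0 < 1 - u ∧ a + b = 1 - 2 * allStabI a b ∧
      2 * allStabI a b + (b - a) < 19 / 50 := by
  obtain ⟨hI, -, ha, hd, hu0, hu1, -, -, -, -⟩ := B.place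
  exact ⟨hI, hd, sub_pos.2 hu1, by simp only [allStabI]; ring, by simp only [allStabI]; linarith⟩

theorem place7_IAL (B : EndBands7 a b u v H)
    (hk : (b - a) * (1 - allStabI a b) ≤ (a + b) * allStabI a b)
    (h0l : (1 / 20 : ℝ) < (allStabI a b)) (h0u : (allStabI a b) ≤ (1 / 10 : ℝ)) (h1l : (0 : ℝ) < ((1 - u) / allStabI a b)) (h1u : ((1 - u) / allStabI a b) ≤ (1 : ℝ)) (h2l : (0 : ℝ) < ((b - a) / allStabI a b)) (h2u : ((b - a) / allStabI a b) ≤ (3 / 20 : ℝ)) : EndPlace7 a b u v H := by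
  obtain ⟨hI, hd, hw, eS, hcap⟩ := end_facts7 B
  have hn : (allStabI a b) ≠ 0 := hI.ne'
  obtain ⟨t, ht⟩ := sevIAL_ok.point B (x₀ := allStabI a b) (x₁ := (1 - u) / allStabI a b) (x₂ := (b - a) / allStabI a b)
    ⟨by norm_num [sevIAL], by norm_num [sevIAL] <;> linarith, by norm_num [sevIAL] <;> linarith⟩
    ⟨by norm_num [sevIAL], by norm_num [sevIAL] <;> linarith, by norm_num [sevIAL] <;> linarith⟩
    ⟨by norm_num [sevIAL], by norm_num [sevIAL] <;> linarith, by norm_num [sevIAL] <;> linarith⟩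
    (by simp only [sevIAL, end_add, end_sub, end_mul, Ex.eval, pt4]; try push_cast; try field_simp; try ring)
    (by simp only [sevIAL, end_add, end_sub, end_mul, Ex.eval, pt4]; try push_cast; try field_simp; try ring)
    (by simp only [sevIAL, end_add, end_sub, end_mul, Ex.eval, pt4]; try push_cast; try field_simp; try ring)
    (by simp only [sevIAL, end_add, end_sub, end_mul, Ex.eval, pt4]; push_cast; positivity)
  exact .cIAL _ ht hk

theorem place7_IBL (B : EndBands7 a b u v H)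
    (hk : (b - a) * (1 - allStabI a b) ≤ (a + b) * allStabI a b)
    (h0l : (1 / 20 : ℝ) < (allStabI a b)) (h0u : (allStabI a b) ≤ (1 / 10 : ℝ)) (h1l : (0 : ℝ) < ((1 - u) / allStabI a b)) (h1u : ((1 - u) / allStabI a b) ≤ (1 : ℝ)) (h2l : (3 / 20 : ℝ) < ((b - a) / allStabI a b)) (h2u : ((b - a) / allStabI a b) ≤ (1 / 2 : ℝ)) : EndPlace7 a b u v H := by
  obtain ⟨hI, hd, hw, eS, hcap⟩ := end_facts7 B
  have hn : (allStabI a b) ≠ 0 := hI.ne'
  obtain ⟨t, ht⟩ := sevIBL_ok.point B (x₀ := allStabI a b) (x₁ := (1 - u) / allStabI a b) (x₂ := (b - a) / allStabI a b)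
    ⟨by norm_num [sevIBL], by norm_num [sevIBL] <;> linarith, by norm_num [sevIBL] <;> linarith⟩
    ⟨by norm_num [sevIBL], by norm_num [sevIBL] <;> linarith, by norm_num [sevIBL] <;> linarith⟩
    ⟨by norm_num [sevIBL], by norm_num [sevIBL] <;> linarith, by norm_num [sevIBL] <;> linarith⟩
    (by simp only [sevIBL, end_add, end_sub, end_mul, Ex.eval, pt4]; try push_cast; try field_simp; try ring)
    (by simp only [sevIBL, end_add, end_sub, end_mul, Ex.eval, pt4]; try push_cast; try field_simp; try ring)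
    (by simp only [sevIBL, end_add, end_sub, end_mul, Ex.eval, pt4]; try push_cast; try field_simp; try ring)
    (by simp only [sevIBL, end_add, end_sub, end_mul, Ex.eval, pt4]; push_cast; positivity)
  exact .cIBL _ ht hk

theorem place7_ICL (B : EndBands7 a b u v H)
    (hk : (b - a) * (1 - allStabI a b) ≤ (a + b) * allStabI a b)
    (h0l : (1 / 20 : ℝ) < (allStabI a b)) (h0u : (allStabI a b) ≤ (1 / 10 : ℝ)) (h1l : (0 : ℝ) < ((1 - u) / allStabI a b)) (h1u : ((1 - u) / allStabI a b) ≤ (1 : ℝ)) (h2l : (1 / 2 : ℝ) < ((b - a) / allStabI a b)) (h2u : ((b - a) / allStabI a b) ≤ (3 / 4 : ℝ)) : EndPlace7 a b u v H := by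
  obtain ⟨hI, hd, hw, eS, hcap⟩ := end_facts7 B
  have hn : (allStabI a b) ≠ 0 := hI.ne'
  obtain ⟨t, ht⟩ := sevICL_ok.point B (x₀ := allStabI a b) (x₁ := (1 - u) / allStabI a b) (x₂ := (b - a) / allStabI a b)
    ⟨by norm_num [sevICL], by norm_num [sevICL] <;> linarith, by norm_num [sevICL] <;> linarith⟩
    ⟨by norm_num [sevICL], by norm_num [sevICL] <;> linarith, by norm_num [sevICL] <;> linarith⟩
    ⟨by norm_num [sevICL], by norm_num [sevICL] <;> linarith, by norm_num [sevICL] <;> linarith⟩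
    (by simp only [sevICL, end_add, end_sub, end_mul, Ex.eval, pt4]; try push_cast; try field_simp; try ring)
    (by simp only [sevICL, end_add, end_sub, end_mul, Ex.eval, pt4]; try push_cast; try field_simp; try ring)
    (by simp only [sevICL, end_add, end_sub, end_mul, Ex.eval, pt4]; try push_cast; try field_simp; try ring)
    (by simp only [sevICL, end_add, end_sub, end_mul, Ex.eval, pt4]; push_cast; positivity)
  exact .cICL _ ht hk

theorem place7_IDL (B : EndBands7 a b u v H)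
    (hk : (b - a) * (1 - allStabI a b) ≤ (a + b) * allStabI a b)
    (h0l : (1 / 20 : ℝ) < (allStabI a b)) (h0u : (allStabI a b) ≤ (1 / 10 : ℝ)) (h1l : (0 : ℝ) < ((1 - u) / allStabI a b)) (h1u : ((1 - u) / allStabI a b) ≤ (1 : ℝ)) (h2l : (3 / 4 : ℝ) < ((b - a) / allStabI a b)) (h2u : ((b - a) / allStabI a b) ≤ (237 / 250 : ℝ)) : EndPlace7 a b u v H := by
  obtain ⟨hI, hd, hw, eS, hcap⟩ := end_facts7 B
  have hn : (allStabI a b) ≠ 0 := hI.ne'
  obtain ⟨t, ht⟩ := sevIDL_ok.point B (x₀ := allStabI a b) (x₁ := (1 - u) / allStabI a b) (x₂ := (b - a) / allStabI a b)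
    ⟨by norm_num [sevIDL], by norm_num [sevIDL] <;> linarith, by norm_num [sevIDL] <;> linarith⟩
    ⟨by norm_num [sevIDL], by norm_num [sevIDL] <;> linarith, by norm_num [sevIDL] <;> linarith⟩
    ⟨by norm_num [sevIDL], by norm_num [sevIDL] <;> linarith, by norm_num [sevIDL] <;> linarith⟩
    (by simp only [sevIDL, end_add, end_sub, end_mul, Ex.eval, pt4]; try push_cast; try field_simp; try ring)
    (by simp only [sevIDL, end_add, end_sub, end_mul, Ex.eval, pt4]; try push_cast; try field_simp; try ring)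
    (by simp only [sevIDL, end_add, end_sub, end_mul, Ex.eval, pt4]; try push_cast; try field_simp; try ring)
    (by simp only [sevIDL, end_add, end_sub, end_mul, Ex.eval, pt4]; push_cast; positivity)
  exact .cIDL _ ht hk

theorem place7_IEL (B : EndBands7 a b u v H)
    (hk : (a + b) * allStabI a b ≤ (b - a) * (1 - allStabI a b))
    (h0l : (1 / 20 : ℝ) < (allStabI a b)) (h0u : (allStabI a b) ≤ (1 / 10 : ℝ)) (h1l : (0 : ℝ) < ((1 - u) / allStabI a b)) (h1u : ((1 - u) / allStabI a b) ≤ (1 : ℝ)) (h2l : (111 / 125 : ℝ) < ((b - a) / allStabI a b)) (h2u : ((b - a) / allStabI a b) ≤ (1 : ℝ)) : EndPlace7 a b u v H := by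
  obtain ⟨hI, hd, hw, eS, hcap⟩ := end_facts7 B
  have hn : (allStabI a b) ≠ 0 := hI.ne'
  obtain ⟨t, ht⟩ := sevIEL_ok.point B (x₀ := allStabI a b) (x₁ := (1 - u) / allStabI a b) (x₂ := (b - a) / allStabI a b)
    ⟨by norm_num [sevIEL], by norm_num [sevIEL] <;> linarith, by norm_num [sevIEL] <;> linarith⟩
    ⟨by norm_num [sevIEL], by norm_num [sevIEL] <;> linarith, by norm_num [sevIEL] <;> linarith⟩
    ⟨by norm_num [sevIEL], by norm_num [sevIEL] <;> linarith, by norm_num [sevIEL] <;> linarith⟩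
    (by simp only [sevIEL, end_add, end_sub, end_mul, Ex.eval, pt4]; try push_cast; try field_simp; try ring)
    (by simp only [sevIEL, end_add, end_sub, end_mul, Ex.eval, pt4]; try push_cast; try field_simp; try ring)
    (by simp only [sevIEL, end_add, end_sub, end_mul, Ex.eval, pt4]; try push_cast; try field_simp; try ring)
    (by simp only [sevIEL, end_add, end_sub, end_mul, Ex.eval, pt4]; push_cast; positivity)
  exact .cIEL _ ht hk

theorem place7_IAH (B : EndBands7 a b u v H)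
    (hk : (b - a) * (1 - allStabI a b) ≤ (a + b) * allStabI a b)
    (h0l : (1 / 10 : ℝ) < (allStabI a b)) (h0u : (allStabI a b) ≤ (1267 / 10000 : ℝ)) (h1l : (0 : ℝ) < ((1 - u) / allStabI a b)) (h1u : ((1 - u) / allStabI a b) ≤ (1 : ℝ)) (h2l : (0 : ℝ) < ((b - a) / allStabI a b)) (h2u : ((b - a) / allStabI a b) ≤ (3 / 20 : ℝ)) : EndPlace7 a b u v H := by
  obtain ⟨hI, hd, hw, eS, hcap⟩ := end_facts7 B
  have hn : (allStabI a b) ≠ 0 := hI.ne'
  obtain ⟨t, ht⟩ := sevIAH_ok.point B (x₀ := allStabI a b) (x₁ := (1 - u) / allStabI a b) (x₂ := (b - a) / allStabI a b)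
    ⟨by norm_num [sevIAH], by norm_num [sevIAH] <;> linarith, by norm_num [sevIAH] <;> linarith⟩
    ⟨by norm_num [sevIAH], by norm_num [sevIAH] <;> linarith, by norm_num [sevIAH] <;> linarith⟩
    ⟨by norm_num [sevIAH], by norm_num [sevIAH] <;> linarith, by norm_num [sevIAH] <;> linarith⟩
    (by simp only [sevIAH, end_add, end_sub, end_mul, Ex.eval, pt4]; try push_cast; try field_simp; try ring)
    (by simp only [sevIAH, end_add, end_sub, end_mul, Ex.eval, pt4]; try push_cast; try field_simp; try ring)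
    (by simp only [sevIAH, end_add, end_sub, end_mul, Ex.eval, pt4]; try push_cast; try field_simp; try ring)
    (by simp only [sevIAH, end_add, end_sub, end_mul, Ex.eval, pt4]; push_cast; positivity)
  exact .cIAH _ ht hk

theorem place7_IBH (B : EndBands7 a b u v H)
    (hk : (b - a) * (1 - allStabI a b) ≤ (a + b) * allStabI a b)
    (h0l : (1 / 10 : ℝ) < (allStabI a b)) (h0u : (allStabI a b) ≤ (1267 / 10000 : ℝ)) (h1l : (0 : ℝ) < ((1 - u) / allStabI a b)) (h1u : ((1 - u) / allStabI a b) ≤ (1 : ℝ)) (h2l : (3 / 20 : ℝ) < ((b - a) / allStabI a b)) (h2u : ((b - a) / allStabI a b) ≤ (1 / 2 : ℝ)) : EndPlace7 a b u v H := by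
  obtain ⟨hI, hd, hw, eS, hcap⟩ := end_facts7 B
  have hn : (allStabI a b) ≠ 0 := hI.ne'
  obtain ⟨t, ht⟩ := sevIBH_ok.point B (x₀ := allStabI a b) (x₁ := (1 - u) / allStabI a b) (x₂ := (b - a) / allStabI a b)
    ⟨by norm_num [sevIBH], by norm_num [sevIBH] <;> linarith, by norm_num [sevIBH] <;> linarith⟩
    ⟨by norm_num [sevIBH], by norm_num [sevIBH] <;> linarith, by norm_num [sevIBH] <;> linarith⟩
    ⟨by norm_num [sevIBH], by norm_num [sevIBH] <;> linarith, by norm_num [sevIBH] <;> linarith⟩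
    (by simp only [sevIBH, end_add, end_sub, end_mul, Ex.eval, pt4]; try push_cast; try field_simp; try ring)
    (by simp only [sevIBH, end_add, end_sub, end_mul, Ex.eval, pt4]; try push_cast; try field_simp; try ring)
    (by simp only [sevIBH, end_add, end_sub, end_mul, Ex.eval, pt4]; try push_cast; try field_simp; try ring)
    (by simp only [sevIBH, end_add, end_sub, end_mul, Ex.eval, pt4]; push_cast; positivity)
  exact .cIBH _ ht hk

theorem place7_ICH (B : EndBands7 a b u v H)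
    (hk : (b - a) * (1 - allStabI a b) ≤ (a + b) * allStabI a b)
    (h0l : (1 / 10 : ℝ) < (allStabI a b)) (h0u : (allStabI a b) ≤ (1267 / 10000 : ℝ)) (h1l : (0 : ℝ) < ((1 - u) / allStabI a b)) (h1u : ((1 - u) / allStabI a b) ≤ (1 : ℝ)) (h2l : (1 / 2 : ℝ) < ((b - a) / allStabI a b)) (h2u : ((b - a) / allStabI a b) ≤ (3 / 4 : ℝ)) : EndPlace7 a b u v H := by
  obtain ⟨hI, hd, hw, eS, hcap⟩ := end_facts7 B
  have hn : (allStabI a b) ≠ 0 := hI.ne'
  obtain ⟨t, ht⟩ := sevICH_ok.point B (x₀ := allStabI a b) (x₁ := (1 - u) / allStabI a b) (x₂ := (b - a) / allStabI a b)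
    ⟨by norm_num [sevICH], by norm_num [sevICH] <;> linarith, by norm_num [sevICH] <;> linarith⟩
    ⟨by norm_num [sevICH], by norm_num [sevICH] <;> linarith, by norm_num [sevICH] <;> linarith⟩
    ⟨by norm_num [sevICH], by norm_num [sevICH] <;> linarith, by norm_num [sevICH] <;> linarith⟩
    (by simp only [sevICH, end_add, end_sub, end_mul, Ex.eval, pt4]; try push_cast; try field_simp; try ring)
    (by simp only [sevICH, end_add, end_sub, end_mul, Ex.eval, pt4]; try push_cast; try field_simp; try ring)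
    (by simp only [sevICH, end_add, end_sub, end_mul, Ex.eval, pt4]; try push_cast; try field_simp; try ring)
    (by simp only [sevICH, end_add, end_sub, end_mul, Ex.eval, pt4]; push_cast; positivity)
  exact .cICH _ ht hk

theorem place7_IDH (B : EndBands7 a b u v H)
    (hk : (b - a) * (1 - allStabI a b) ≤ (a + b) * allStabI a b)
    (h0l : (1 / 10 : ℝ) < (allStabI a b)) (h0u : (allStabI a b) ≤ (1267 / 10000 : ℝ)) (h1l : (0 : ℝ) < ((1 - u) / allStabI a b)) (h1u : ((1 - u) / allStabI a b) ≤ (1 : ℝ)) (h2l : (3 / 4 : ℝ) < ((b - a) / allStabI a b)) (h2u : ((b - a) / allStabI a b) ≤ (889 / 1000 : ℝ)) : EndPlace7 a b u v H := by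
  obtain ⟨hI, hd, hw, eS, hcap⟩ := end_facts7 B
  have hn : (allStabI a b) ≠ 0 := hI.ne'
  obtain ⟨t, ht⟩ := sevIDH_ok.point B (x₀ := allStabI a b) (x₁ := (1 - u) / allStabI a b) (x₂ := (b - a) / allStabI a b)
    ⟨by norm_num [sevIDH], by norm_num [sevIDH] <;> linarith, by norm_num [sevIDH] <;> linarith⟩
    ⟨by norm_num [sevIDH], by norm_num [sevIDH] <;> linarith, by norm_num [sevIDH] <;> linarith⟩
    ⟨by norm_num [sevIDH], by norm_num [sevIDH] <;> linarith, by norm_num [sevIDH] <;> linarith⟩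
    (by simp only [sevIDH, end_add, end_sub, end_mul, Ex.eval, pt4]; try push_cast; try field_simp; try ring)
    (by simp only [sevIDH, end_add, end_sub, end_mul, Ex.eval, pt4]; try push_cast; try field_simp; try ring)
    (by simp only [sevIDH, end_add, end_sub, end_mul, Ex.eval, pt4]; try push_cast; try field_simp; try ring)
    (by simp only [sevIDH, end_add, end_sub, end_mul, Ex.eval, pt4]; push_cast; positivity)
  exact .cIDH _ ht hk

theorem place7_IEH (B : EndBands7 a b u v H)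
    (hk : (a + b) * allStabI a b ≤ (b - a) * (1 - allStabI a b))
    (h0l : (1 / 10 : ℝ) < (allStabI a b)) (h0u : (allStabI a b) ≤ (1267 / 10000 : ℝ)) (h1l : (0 : ℝ) < ((1 - u) / allStabI a b)) (h1u : ((1 - u) / allStabI a b) ≤ (1 : ℝ)) (h2l : (427 / 500 : ℝ) < ((b - a) / allStabI a b)) (h2u : ((b - a) / allStabI a b) ≤ (1 : ℝ)) : EndPlace7 a b u v H := by
  obtain ⟨hI, hd, hw, eS, hcap⟩ := end_facts7 B
  have hn : (allStabI a b) ≠ 0 := hI.ne'
  obtain ⟨t, ht⟩ := sevIEH_ok.point B (x₀ := allStabI a b) (x₁ := (1 - u) / allStabI a b) (x₂ := (b - a) / allStabI a b)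
    ⟨by norm_num [sevIEH], by norm_num [sevIEH] <;> linarith, by norm_num [sevIEH] <;> linarith⟩
    ⟨by norm_num [sevIEH], by norm_num [sevIEH] <;> linarith, by norm_num [sevIEH] <;> linarith⟩
    ⟨by norm_num [sevIEH], by norm_num [sevIEH] <;> linarith, by norm_num [sevIEH] <;> linarith⟩
    (by simp only [sevIEH, end_add, end_sub, end_mul, Ex.eval, pt4]; try push_cast; try field_simp; try ring)
    (by simp only [sevIEH, end_add, end_sub, end_mul, Ex.eval, pt4]; try push_cast; try field_simp; try ring)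
    (by simp only [sevIEH, end_add, end_sub, end_mul, Ex.eval, pt4]; try push_cast; try field_simp; try ring)
    (by simp only [sevIEH, end_add, end_sub, end_mul, Ex.eval, pt4]; push_cast; positivity)
  exact .cIEH _ ht hk

theorem place7_IAG (B : EndBands7 a b u v H)
    (hk : (b - a) * (1 - allStabI a b) ≤ (a + b) * allStabI a b)
    (h0l : (1267 / 10000 : ℝ) < (allStabI a b)) (h0u : (allStabI a b) ≤ (1429 / 10000 : ℝ)) (h1l : (0 : ℝ) < ((1 - u) / allStabI a b)) (h1u : ((1 - u) / allStabI a b) ≤ (1 : ℝ)) (h2l : (0 : ℝ) < ((b - a) / allStabI a b)) (h2u : ((b - a) / allStabI a b) ≤ (3 / 20 : ℝ)) : EndPlace7 a b u v H := by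
  obtain ⟨hI, hd, hw, eS, hcap⟩ := end_facts7 B
  have hn : (allStabI a b) ≠ 0 := hI.ne'
  obtain ⟨t, ht⟩ := sevIAG_ok.point B (x₀ := allStabI a b) (x₁ := (1 - u) / allStabI a b) (x₂ := (b - a) / allStabI a b)
    ⟨by norm_num [sevIAG], by norm_num [sevIAG] <;> linarith, by norm_num [sevIAG] <;> linarith⟩
    ⟨by norm_num [sevIAG], by norm_num [sevIAG] <;> linarith, by norm_num [sevIAG] <;> linarith⟩
    ⟨by norm_num [sevIAG], by norm_num [sevIAG] <;> linarith, by norm_num [sevIAG] <;> linarith⟩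
    (by simp only [sevIAG, end_add, end_sub, end_mul, Ex.eval, pt4]; try push_cast; try field_simp; try ring)
    (by simp only [sevIAG, end_add, end_sub, end_mul, Ex.eval, pt4]; try push_cast; try field_simp; try ring)
    (by simp only [sevIAG, end_add, end_sub, end_mul, Ex.eval, pt4]; try push_cast; try field_simp; try ring)
    (by simp only [sevIAG, end_add, end_sub, end_mul, Ex.eval, pt4]; push_cast; positivity)
  exact .cIAG _ ht hk

theorem place7_IBG (B : EndBands7 a b u v H)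
    (hk : (b - a) * (1 - allStabI a b) ≤ (a + b) * allStabI a b)
    (h0l : (1267 / 10000 : ℝ) < (allStabI a b)) (h0u : (allStabI a b) ≤ (1429 / 10000 : ℝ)) (h1l : (0 : ℝ) < ((1 - u) / allStabI a b)) (h1u : ((1 - u) / allStabI a b) ≤ (1 : ℝ)) (h2l : (3 / 20 : ℝ) < ((b - a) / allStabI a b)) (h2u : ((b - a) / allStabI a b) ≤ (1 / 2 : ℝ)) : EndPlace7 a b u v H := by
  obtain ⟨hI, hd, hw, eS, hcap⟩ := end_facts7 B
  have hn : (allStabI a b) ≠ 0 := hI.ne'
  obtain ⟨t, ht⟩ := sevIBG_ok.point B (x₀ := allStabI a b) (x₁ := (1 - u) / allStabI a b) (x₂ := (b - a) / allStabI a b)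
    ⟨by norm_num [sevIBG], by norm_num [sevIBG] <;> linarith, by norm_num [sevIBG] <;> linarith⟩
    ⟨by norm_num [sevIBG], by norm_num [sevIBG] <;> linarith, by norm_num [sevIBG] <;> linarith⟩
    ⟨by norm_num [sevIBG], by norm_num [sevIBG] <;> linarith, by norm_num [sevIBG] <;> linarith⟩
    (by simp only [sevIBG, end_add, end_sub, end_mul, Ex.eval, pt4]; try push_cast; try field_simp; try ring)
    (by simp only [sevIBG, end_add, end_sub, end_mul, Ex.eval, pt4]; try push_cast; try field_simp; try ring)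
    (by simp only [sevIBG, end_add, end_sub, end_mul, Ex.eval, pt4]; try push_cast; try field_simp; try ring)
    (by simp only [sevIBG, end_add, end_sub, end_mul, Ex.eval, pt4]; push_cast; positivity)
  exact .cIBG _ ht hk

theorem place7_ICG (B : EndBands7 a b u v H)
    (hk : (b - a) * (1 - allStabI a b) ≤ (a + b) * allStabI a b)
    (h0l : (1267 / 10000 : ℝ) < (allStabI a b)) (h0u : (allStabI a b) ≤ (1429 / 10000 : ℝ)) (h1l : (0 : ℝ) < ((1 - u) / allStabI a b)) (h1u : ((1 - u) / allStabI a b) ≤ (1 : ℝ)) (h2l : (1 / 2 : ℝ) < ((b - a) / allStabI a b)) (h2u : ((b - a) / allStabI a b) ≤ (7 / 10 : ℝ)) : EndPlace7 a b u v H := by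
  obtain ⟨hI, hd, hw, eS, hcap⟩ := end_facts7 B
  have hn : (allStabI a b) ≠ 0 := hI.ne'
  obtain ⟨t, ht⟩ := sevICG_ok.point B (x₀ := allStabI a b) (x₁ := (1 - u) / allStabI a b) (x₂ := (b - a) / allStabI a b)
    ⟨by norm_num [sevICG], by norm_num [sevICG] <;> linarith, by norm_num [sevICG] <;> linarith⟩
    ⟨by norm_num [sevICG], by norm_num [sevICG] <;> linarith, by norm_num [sevICG] <;> linarith⟩
    ⟨by norm_num [sevICG], by norm_num [sevICG] <;> linarith, by norm_num [sevICG] <;> linarith⟩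
    (by simp only [sevICG, end_add, end_sub, end_mul, Ex.eval, pt4]; try push_cast; try field_simp; try ring)
    (by simp only [sevICG, end_add, end_sub, end_mul, Ex.eval, pt4]; try push_cast; try field_simp; try ring)
    (by simp only [sevICG, end_add, end_sub, end_mul, Ex.eval, pt4]; try push_cast; try field_simp; try ring)
    (by simp only [sevICG, end_add, end_sub, end_mul, Ex.eval, pt4]; push_cast; positivity)
  exact .cICG _ ht hk

theorem place7_IDGa (B : EndBands7 a b u v H)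
    (hk : (b - a) * (1 - allStabI a b) ≤ (a + b) * allStabI a b)
    (h0l : (1267 / 10000 : ℝ) < (allStabI a b)) (h0u : (allStabI a b) ≤ (27 / 200 : ℝ)) (h1l : (0 : ℝ) < ((1 - u) / allStabI a b)) (h1u : ((1 - u) / allStabI a b) ≤ (1 : ℝ)) (h2l : (7 / 10 : ℝ) < ((b - a) / allStabI a b)) (h2u : ((b - a) / allStabI a b) ≤ (857 / 1000 : ℝ)) : EndPlace7 a b u v H := by
  obtain ⟨hI, hd, hw, eS, hcap⟩ := end_facts7 B
  have hn : (allStabI a b) ≠ 0 := hI.ne'
  obtain ⟨t, ht⟩ := sevIDGa_ok.point B (x₀ := allStabI a b) (x₁ := (1 - u) / allStabI a b) (x₂ := (b - a) / allStabI a b)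
    ⟨by norm_num [sevIDGa], by norm_num [sevIDGa] <;> linarith, by norm_num [sevIDGa] <;> linarith⟩
    ⟨by norm_num [sevIDGa], by norm_num [sevIDGa] <;> linarith, by norm_num [sevIDGa] <;> linarith⟩
    ⟨by norm_num [sevIDGa], by norm_num [sevIDGa] <;> linarith, by norm_num [sevIDGa] <;> linarith⟩
    (by simp only [sevIDGa, end_add, end_sub, end_mul, Ex.eval, pt4]; try push_cast; try field_simp; try ring)
    (by simp only [sevIDGa, end_add, end_sub, end_mul, Ex.eval, pt4]; try push_cast; try field_simp; try ring)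
    (by simp only [sevIDGa, end_add, end_sub, end_mul, Ex.eval, pt4]; try push_cast; try field_simp; try ring)
    (by simp only [sevIDGa, end_add, end_sub, end_mul, Ex.eval, pt4]; push_cast; positivity)
  exact .cIDGa _ ht hk

theorem place7_IDGb (B : EndBands7 a b u v H)
    (hk : (b - a) * (1 - allStabI a b) ≤ (a + b) * allStabI a b)
    (h0l : (27 / 200 : ℝ) < (allStabI a b)) (h0u : (allStabI a b) ≤ (1429 / 10000 : ℝ)) (h1l : (0 : ℝ) < ((1 - u) / allStabI a b)) (h1u : ((1 - u) / allStabI a b) ≤ (1 : ℝ)) (h2l : (7 / 10 : ℝ) < ((b - a) / allStabI a b)) (h2u : ((b - a) / allStabI a b) ≤ (163 / 200 : ℝ)) : EndPlace7 a b u v H := by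
  obtain ⟨hI, hd, hw, eS, hcap⟩ := end_facts7 B
  have hn : (allStabI a b) ≠ 0 := hI.ne'
  obtain ⟨t, ht⟩ := sevIDGb_ok.point B (x₀ := allStabI a b) (x₁ := (1 - u) / allStabI a b) (x₂ := (b - a) / allStabI a b)
    ⟨by norm_num [sevIDGb], by norm_num [sevIDGb] <;> linarith, by norm_num [sevIDGb] <;> linarith⟩
    ⟨by norm_num [sevIDGb], by norm_num [sevIDGb] <;> linarith, by norm_num [sevIDGb] <;> linarith⟩
    ⟨by norm_num [sevIDGb], by norm_num [sevIDGb] <;> linarith, by norm_num [sevIDGb] <;> linarith⟩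
    (by simp only [sevIDGb, end_add, end_sub, end_mul, Ex.eval, pt4]; try push_cast; try field_simp; try ring)
    (by simp only [sevIDGb, end_add, end_sub, end_mul, Ex.eval, pt4]; try push_cast; try field_simp; try ring)
    (by simp only [sevIDGb, end_add, end_sub, end_mul, Ex.eval, pt4]; try push_cast; try field_simp; try ring)
    (by simp only [sevIDGb, end_add, end_sub, end_mul, Ex.eval, pt4]; push_cast; positivity)
  exact .cIDGb _ ht hk

theorem place7_IEGc (B : EndBands7 a b u v H)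
    (hk : (a + b) * allStabI a b ≤ (b - a) * (1 - allStabI a b))
    (h0l : (1267 / 10000 : ℝ) < (allStabI a b)) (h0u : (allStabI a b) ≤ (131 / 1000 : ℝ)) (h1l : (0 : ℝ) < ((1 - u) / allStabI a b)) (h1u : ((1 - u) / allStabI a b) ≤ (1 : ℝ)) (h2l : (21 / 25 : ℝ) < ((b - a) / allStabI a b)) (h2u : ((b - a) / allStabI a b) ≤ (1 : ℝ)) : EndPlace7 a b u v H := by
  obtain ⟨hI, hd, hw, eS, hcap⟩ := end_facts7 B
  have hn : (allStabI a b) ≠ 0 := hI.ne'
  obtain ⟨t, ht⟩ := sevIEGc_ok.point B (x₀ := allStabI a b) (x₁ := (1 - u) / allStabI a b) (x₂ := (b - a) / allStabI a b)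
    ⟨by norm_num [sevIEGc], by norm_num [sevIEGc] <;> linarith, by norm_num [sevIEGc] <;> linarith⟩
    ⟨by norm_num [sevIEGc], by norm_num [sevIEGc] <;> linarith, by norm_num [sevIEGc] <;> linarith⟩
    ⟨by norm_num [sevIEGc], by norm_num [sevIEGc] <;> linarith, by norm_num [sevIEGc] <;> linarith⟩
    (by simp only [sevIEGc, end_add, end_sub, end_mul, Ex.eval, pt4]; try push_cast; try field_simp; try ring)
    (by simp only [sevIEGc, end_add, end_sub, end_mul, Ex.eval, pt4]; try push_cast; try field_simp; try ring)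
    (by simp only [sevIEGc, end_add, end_sub, end_mul, Ex.eval, pt4]; try push_cast; try field_simp; try ring)
    (by simp only [sevIEGc, end_add, end_sub, end_mul, Ex.eval, pt4]; push_cast; positivity)
  exact .cIEGc _ ht hk

theorem place7_IEGd (B : EndBands7 a b u v H)
    (hk : (a + b) * allStabI a b ≤ (b - a) * (1 - allStabI a b))
    (h0l : (131 / 1000 : ℝ) < (allStabI a b)) (h0u : (allStabI a b) ≤ (339 / 2500 : ℝ)) (h1l : (0 : ℝ) < ((1 - u) / allStabI a b)) (h1u : ((1 - u) / allStabI a b) ≤ (1 : ℝ)) (h2l : (21 / 25 : ℝ) < ((b - a) / allStabI a b)) (h2u : ((b - a) / allStabI a b) ≤ (91 / 100 : ℝ)) : EndPlace7 a b u v H := by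
  obtain ⟨hI, hd, hw, eS, hcap⟩ := end_facts7 B
  have hn : (allStabI a b) ≠ 0 := hI.ne'
  obtain ⟨t, ht⟩ := sevIEGd_ok.point B (x₀ := allStabI a b) (x₁ := (1 - u) / allStabI a b) (x₂ := (b - a) / allStabI a b)
    ⟨by norm_num [sevIEGd], by norm_num [sevIEGd] <;> linarith, by norm_num [sevIEGd] <;> linarith⟩
    ⟨by norm_num [sevIEGd], by norm_num [sevIEGd] <;> linarith, by norm_num [sevIEGd] <;> linarith⟩
    ⟨by norm_num [sevIEGd], by norm_num [sevIEGd] <;> linarith, by norm_num [sevIEGd] <;> linarith⟩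
    (by simp only [sevIEGd, end_add, end_sub, end_mul, Ex.eval, pt4]; try push_cast; try field_simp; try ring)
    (by simp only [sevIEGd, end_add, end_sub, end_mul, Ex.eval, pt4]; try push_cast; try field_simp; try ring)
    (by simp only [sevIEGd, end_add, end_sub, end_mul, Ex.eval, pt4]; try push_cast; try field_simp; try ring)
    (by simp only [sevIEGd, end_add, end_sub, end_mul, Ex.eval, pt4]; push_cast; positivity)
  exact .cIEGd _ ht hk

theorem place7_ZBL (B : EndBands7 a b u v H)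
    (hk : (b - a) * (1 - allStabI a b) ≤ (a + b) * allStabI a b)
    (h0l : (1 / 20 : ℝ) < ((1 - u))) (h0u : ((1 - u)) ≤ (1 / 5 : ℝ)) (h1l : (1 / 20 : ℝ) < (allStabI a b)) (h1u : (allStabI a b) ≤ (1 / 10 : ℝ)) (h2l : (0 : ℝ) < ((b - a) / allStabI a b)) (h2u : ((b - a) / allStabI a b) ≤ (237 / 250 : ℝ)) : EndPlace7 a b u v H := by
  obtain ⟨hI, hd, hw, eS, hcap⟩ := end_facts7 B
  have hn : (allStabI a b) ≠ 0 := hI.ne'
  obtain ⟨t, ht⟩ := sevZBL_ok.point B (x₀ := (1 - u)) (x₁ := allStabI a b) (x₂ := (b - a) / allStabI a b)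
    ⟨by norm_num [sevZBL], by norm_num [sevZBL] <;> linarith, by norm_num [sevZBL] <;> linarith⟩
    ⟨by norm_num [sevZBL], by norm_num [sevZBL] <;> linarith, by norm_num [sevZBL] <;> linarith⟩
    ⟨by norm_num [sevZBL], by norm_num [sevZBL] <;> linarith, by norm_num [sevZBL] <;> linarith⟩
    (by simp only [sevZBL, end_add, end_sub, end_mul, Ex.eval, pt4]; try push_cast; try field_simp; try ring)
    (by simp only [sevZBL, end_add, end_sub, end_mul, Ex.eval, pt4]; try push_cast; try field_simp; try ring)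
    (by simp only [sevZBL, end_add, end_sub, end_mul, Ex.eval, pt4]; try push_cast; try field_simp; try ring)
    (by simp only [sevZBL, end_add, end_sub, end_mul, Ex.eval, pt4]; push_cast; positivity)
  exact .cZBL _ ht hk

theorem place7_CBL (B : EndBands7 a b u v H)
    (hk : (a + b) * allStabI a b ≤ (b - a) * (1 - allStabI a b))
    (h0l : (1 / 20 : ℝ) < ((1 - u))) (h0u : ((1 - u)) ≤ (1 / 5 : ℝ)) (h1l : (1 / 20 : ℝ) < (allStabI a b)) (h1u : (allStabI a b) ≤ (1 / 10 : ℝ)) (h2l : (1 / 5 : ℝ) < ((b - a) / (1 - u))) (h2u : ((b - a) / (1 - u)) ≤ (1 : ℝ)) : EndPlace7 a b u v H := by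
  obtain ⟨hI, hd, hw, eS, hcap⟩ := end_facts7 B
  have hn : (allStabI a b) ≠ 0 := hI.ne'
  obtain ⟨t, ht⟩ := sevCBL_ok.point B (x₀ := (1 - u)) (x₁ := allStabI a b) (x₂ := (b - a) / (1 - u))
    ⟨by norm_num [sevCBL], by norm_num [sevCBL] <;> linarith, by norm_num [sevCBL] <;> linarith⟩
    ⟨by norm_num [sevCBL], by norm_num [sevCBL] <;> linarith, by norm_num [sevCBL] <;> linarith⟩
    ⟨by norm_num [sevCBL], by norm_num [sevCBL] <;> linarith, by norm_num [sevCBL] <;> linarith⟩
    (by simp only [sevCBL, end_add, end_sub, end_mul, Ex.eval, pt4]; try push_cast; try field_simp; try ring)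
    (by simp only [sevCBL, end_add, end_sub, end_mul, Ex.eval, pt4]; try push_cast; try field_simp; try ring)
    (by simp only [sevCBL, end_add, end_sub, end_mul, Ex.eval, pt4]; try push_cast; try field_simp; try ring)
    (by simp only [sevCBL, end_add, end_sub, end_mul, Ex.eval, pt4]; push_cast; positivity)
  exact .cCBL _ ht hk

theorem place7_ZBH (B : EndBands7 a b u v H)
    (hk : (b - a) * (1 - allStabI a b) ≤ (a + b) * allStabI a b)
    (h0l : (1 / 10 : ℝ) < ((1 - u))) (h0u : ((1 - u)) ≤ (1 / 5 : ℝ)) (h1l : (1 / 10 : ℝ) < (allStabI a b)) (h1u : (allStabI a b) ≤ (1429 / 10000 : ℝ)) (h2l : (0 : ℝ) < ((b - a) / allStabI a b)) (h2u : ((b - a) / allStabI a b) ≤ (889 / 1000 : ℝ)) : EndPlace7 a b u v H := by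
  obtain ⟨hI, hd, hw, eS, hcap⟩ := end_facts7 B
  have hn : (allStabI a b) ≠ 0 := hI.ne'
  obtain ⟨t, ht⟩ := sevZBH_ok.point B (x₀ := (1 - u)) (x₁ := allStabI a b) (x₂ := (b - a) / allStabI a b)
    ⟨by norm_num [sevZBH], by norm_num [sevZBH] <;> linarith, by norm_num [sevZBH] <;> linarith⟩
    ⟨by norm_num [sevZBH], by norm_num [sevZBH] <;> linarith, by norm_num [sevZBH] <;> linarith⟩
    ⟨by norm_num [sevZBH], by norm_num [sevZBH] <;> linarith, by norm_num [sevZBH] <;> linarith⟩
    (by simp only [sevZBH, end_add, end_sub, end_mul, Ex.eval, pt4]; try push_cast; try field_simp; try ring)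
    (by simp only [sevZBH, end_add, end_sub, end_mul, Ex.eval, pt4]; try push_cast; try field_simp; try ring)
    (by simp only [sevZBH, end_add, end_sub, end_mul, Ex.eval, pt4]; try push_cast; try field_simp; try ring)
    (by simp only [sevZBH, end_add, end_sub, end_mul, Ex.eval, pt4]; push_cast; positivity)
  exact .cZBH _ ht hk

theorem place7_CBH (B : EndBands7 a b u v H)
    (hk : (a + b) * allStabI a b ≤ (b - a) * (1 - allStabI a b))
    (h0l : (1 / 10 : ℝ) < ((1 - u))) (h0u : ((1 - u)) ≤ (1 / 5 : ℝ)) (h1l : (1 / 10 : ℝ) < (allStabI a b)) (h1u : (allStabI a b) ≤ (1429 / 10000 : ℝ)) (h2l : (2 / 5 : ℝ) < ((b - a) / (1 - u))) (h2u : ((b - a) / (1 - u)) ≤ (1 : ℝ)) : EndPlace7 a b u v H := by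
  obtain ⟨hI, hd, hw, eS, hcap⟩ := end_facts7 B
  have hn : (allStabI a b) ≠ 0 := hI.ne'
  obtain ⟨t, ht⟩ := sevCBH_ok.point B (x₀ := (1 - u)) (x₁ := allStabI a b) (x₂ := (b - a) / (1 - u))
    ⟨by norm_num [sevCBH], by norm_num [sevCBH] <;> linarith, by norm_num [sevCBH] <;> linarith⟩
    ⟨by norm_num [sevCBH], by norm_num [sevCBH] <;> linarith, by norm_num [sevCBH] <;> linarith⟩
    ⟨by norm_num [sevCBH], by norm_num [sevCBH] <;> linarith, by norm_num [sevCBH] <;> linarith⟩
    (by simp only [sevCBH, end_add, end_sub, end_mul, Ex.eval, pt4]; try push_cast; try field_simp; try ring)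
    (by simp only [sevCBH, end_add, end_sub, end_mul, Ex.eval, pt4]; try push_cast; try field_simp; try ring)
    (by simp only [sevCBH, end_add, end_sub, end_mul, Ex.eval, pt4]; try push_cast; try field_simp; try ring)
    (by simp only [sevCBH, end_add, end_sub, end_mul, Ex.eval, pt4]; push_cast; positivity)
  exact .cCBH _ ht hk

theorem place7_Da (B : EndBands7 a b u v H)
    (hk : (a + b) * allStabI a b ≤ (b - a) * (1 - allStabI a b))
    (h0l : (1 / 20 : ℝ) < ((b - a))) (h0u : ((b - a)) ≤ (9 / 100 : ℝ)) (h1l : (111 / 200 : ℝ) < (allStabI a b / (b - a))) (h1u : (allStabI a b / (b - a)) ≤ (1 : ℝ)) (h2l : (0 : ℝ) < ((1 - u) / (b - a))) (h2u : ((1 - u) / (b - a)) ≤ (1 / 10 : ℝ)) : EndPlace7 a b u v H := by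
  obtain ⟨hI, hd, hw, eS, hcap⟩ := end_facts7 B
  have hn : (allStabI a b) ≠ 0 := hI.ne'
  obtain ⟨t, ht⟩ := sevDa_ok.point B (x₀ := (b - a)) (x₁ := allStabI a b / (b - a)) (x₂ := (1 - u) / (b - a))
    ⟨by norm_num [sevDa], by norm_num [sevDa] <;> linarith, by norm_num [sevDa] <;> linarith⟩
    ⟨by norm_num [sevDa], by norm_num [sevDa] <;> linarith, by norm_num [sevDa] <;> linarith⟩
    ⟨by norm_num [sevDa], by norm_num [sevDa] <;> linarith, by norm_num [sevDa] <;> linarith⟩
    (by simp only [sevDa, end_add, end_sub, end_mul, Ex.eval, pt4]; try push_cast; try field_simp; try ring)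
    (by simp only [sevDa, end_add, end_sub, end_mul, Ex.eval, pt4]; try push_cast; try field_simp; try ring)
    (by simp only [sevDa, end_add, end_sub, end_mul, Ex.eval, pt4]; try push_cast; try field_simp; try ring)
    (by simp only [sevDa, end_add, end_sub, end_mul, Ex.eval, pt4]; push_cast; positivity)
  exact .cDa _ ht hk

theorem place7_Db (B : EndBands7 a b u v H)
    (hk : (a + b) * allStabI a b ≤ (b - a) * (1 - allStabI a b))
    (h0l : (1 / 20 : ℝ) < ((b - a))) (h0u : ((b - a)) ≤ (9 / 100 : ℝ)) (h1l : (111 / 200 : ℝ) < (allStabI a b / (b - a))) (h1u : (allStabI a b / (b - a)) ≤ (1 : ℝ)) (h2l : (1 / 10 : ℝ) < ((1 - u) / (b - a))) (h2u : ((1 - u) / (b - a)) ≤ (1 : ℝ)) : EndPlace7 a b u v H := by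
  obtain ⟨hI, hd, hw, eS, hcap⟩ := end_facts7 B
  have hn : (allStabI a b) ≠ 0 := hI.ne'
  obtain ⟨t, ht⟩ := sevDb_ok.point B (x₀ := (b - a)) (x₁ := allStabI a b / (b - a)) (x₂ := (1 - u) / (b - a))
    ⟨by norm_num [sevDb], by norm_num [sevDb] <;> linarith, by norm_num [sevDb] <;> linarith⟩
    ⟨by norm_num [sevDb], by norm_num [sevDb] <;> linarith, by norm_num [sevDb] <;> linarith⟩
    ⟨by norm_num [sevDb], by norm_num [sevDb] <;> linarith, by norm_num [sevDb] <;> linarith⟩
    (by simp only [sevDb, end_add, end_sub, end_mul, Ex.eval, pt4]; try push_cast; try field_simp; try ring)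
    (by simp only [sevDb, end_add, end_sub, end_mul, Ex.eval, pt4]; try push_cast; try field_simp; try ring)
    (by simp only [sevDb, end_add, end_sub, end_mul, Ex.eval, pt4]; try push_cast; try field_simp; try ring)
    (by simp only [sevDb, end_add, end_sub, end_mul, Ex.eval, pt4]; push_cast; positivity)
  exact .cDb _ ht hk

theorem place7_Dc (B : EndBands7 a b u v H)
    (hk : (a + b) * allStabI a b ≤ (b - a) * (1 - allStabI a b))
    (h0l : (9 / 100 : ℝ) < ((b - a))) (h0u : ((b - a)) ≤ (13 / 100 : ℝ)) (h1l : (48 / 125 : ℝ) < (allStabI a b / (b - a))) (h1u : (allStabI a b / (b - a)) ≤ (1 : ℝ)) (h2l : (0 : ℝ) < ((1 - u) / (b - a))) (h2u : ((1 - u) / (b - a)) ≤ (1 / 10 : ℝ)) : EndPlace7 a b u v H := by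
  obtain ⟨hI, hd, hw, eS, hcap⟩ := end_facts7 B
  have hn : (allStabI a b) ≠ 0 := hI.ne'
  obtain ⟨t, ht⟩ := sevDc_ok.point B (x₀ := (b - a)) (x₁ := allStabI a b / (b - a)) (x₂ := (1 - u) / (b - a))
    ⟨by norm_num [sevDc], by norm_num [sevDc] <;> linarith, by norm_num [sevDc] <;> linarith⟩
    ⟨by norm_num [sevDc], by norm_num [sevDc] <;> linarith, by norm_num [sevDc] <;> linarith⟩
    ⟨by norm_num [sevDc], by norm_num [sevDc] <;> linarith, by norm_num [sevDc] <;> linarith⟩
    (by simp only [sevDc, end_add, end_sub, end_mul, Ex.eval, pt4]; try push_cast; try field_simp; try ring)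
    (by simp only [sevDc, end_add, end_sub, end_mul, Ex.eval, pt4]; try push_cast; try field_simp; try ring)
    (by simp only [sevDc, end_add, end_sub, end_mul, Ex.eval, pt4]; try push_cast; try field_simp; try ring)
    (by simp only [sevDc, end_add, end_sub, end_mul, Ex.eval, pt4]; push_cast; positivity)
  exact .cDc _ ht hk

theorem place7_Dd (B : EndBands7 a b u v H)
    (hk : (a + b) * allStabI a b ≤ (b - a) * (1 - allStabI a b))
    (h0l : (9 / 100 : ℝ) < ((b - a))) (h0u : ((b - a)) ≤ (13 / 100 : ℝ)) (h1l : (48 / 125 : ℝ) < (allStabI a b / (b - a))) (h1u : (allStabI a b / (b - a)) ≤ (1 : ℝ)) (h2l : (1 / 10 : ℝ) < ((1 - u) / (b - a))) (h2u : ((1 - u) / (b - a)) ≤ (1 : ℝ)) : EndPlace7 a b u v H := by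
  obtain ⟨hI, hd, hw, eS, hcap⟩ := end_facts7 B
  have hn : (allStabI a b) ≠ 0 := hI.ne'
  obtain ⟨t, ht⟩ := sevDd_ok.point B (x₀ := (b - a)) (x₁ := allStabI a b / (b - a)) (x₂ := (1 - u) / (b - a))
    ⟨by norm_num [sevDd], by norm_num [sevDd] <;> linarith, by norm_num [sevDd] <;> linarith⟩
    ⟨by norm_num [sevDd], by norm_num [sevDd] <;> linarith, by norm_num [sevDd] <;> linarith⟩
    ⟨by norm_num [sevDd], by norm_num [sevDd] <;> linarith, by norm_num [sevDd] <;> linarith⟩
    (by simp only [sevDd, end_add, end_sub, end_mul, Ex.eval, pt4]; try push_cast; try field_simp; try ring)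
    (by simp only [sevDd, end_add, end_sub, end_mul, Ex.eval, pt4]; try push_cast; try field_simp; try ring)
    (by simp only [sevDd, end_add, end_sub, end_mul, Ex.eval, pt4]; try push_cast; try field_simp; try ring)
    (by simp only [sevDd, end_add, end_sub, end_mul, Ex.eval, pt4]; push_cast; positivity)
  exact .cDd _ ht hk

theorem place7_De (B : EndBands7 a b u v H)
    (hk : (a + b) * allStabI a b ≤ (b - a) * (1 - allStabI a b))
    (h0l : (13 / 100 : ℝ) < ((b - a))) (h0u : ((b - a)) ≤ (4 / 25 : ℝ)) (h1l : (1 / 20 : ℝ) < (allStabI a b)) (h1u : (allStabI a b) ≤ (1 / 8 : ℝ)) (h2l : (0 : ℝ) < ((1 - u) / (b - a))) (h2u : ((1 - u) / (b - a)) ≤ (1 / 10 : ℝ)) : EndPlace7 a b u v H := by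
  obtain ⟨hI, hd, hw, eS, hcap⟩ := end_facts7 B
  have hn : (allStabI a b) ≠ 0 := hI.ne'
  obtain ⟨t, ht⟩ := sevDe_ok.point B (x₀ := (b - a)) (x₁ := allStabI a b) (x₂ := (1 - u) / (b - a))
    ⟨by norm_num [sevDe], by norm_num [sevDe] <;> linarith, by norm_num [sevDe] <;> linarith⟩
    ⟨by norm_num [sevDe], by norm_num [sevDe] <;> linarith, by norm_num [sevDe] <;> linarith⟩
    ⟨by norm_num [sevDe], by norm_num [sevDe] <;> linarith, by norm_num [sevDe] <;> linarith⟩
    (by simp only [sevDe, end_add, end_sub, end_mul, Ex.eval, pt4]; try push_cast; try field_simp; try ring)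
    (by simp only [sevDe, end_add, end_sub, end_mul, Ex.eval, pt4]; try push_cast; try field_simp; try ring)
    (by simp only [sevDe, end_add, end_sub, end_mul, Ex.eval, pt4]; try push_cast; try field_simp; try ring)
    (by simp only [sevDe, end_add, end_sub, end_mul, Ex.eval, pt4]; push_cast; positivity)
  exact .cDe _ ht hk

theorem place7_Df (B : EndBands7 a b u v H)
    (hk : (a + b) * allStabI a b ≤ (b - a) * (1 - allStabI a b))
    (h0l : (13 / 100 : ℝ) < ((b - a))) (h0u : ((b - a)) ≤ (4 / 25 : ℝ)) (h1l : (1 / 20 : ℝ) < (allStabI a b)) (h1u : (allStabI a b) ≤ (1 / 8 : ℝ)) (h2l : (1 / 10 : ℝ) < ((1 - u) / (b - a))) (h2u : ((1 - u) / (b - a)) ≤ (1 : ℝ)) : EndPlace7 a b u v H := by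
  obtain ⟨hI, hd, hw, eS, hcap⟩ := end_facts7 B
  have hn : (allStabI a b) ≠ 0 := hI.ne'
  obtain ⟨t, ht⟩ := sevDf_ok.point B (x₀ := (b - a)) (x₁ := allStabI a b) (x₂ := (1 - u) / (b - a))
    ⟨by norm_num [sevDf], by norm_num [sevDf] <;> linarith, by norm_num [sevDf] <;> linarith⟩
    ⟨by norm_num [sevDf], by norm_num [sevDf] <;> linarith, by norm_num [sevDf] <;> linarith⟩
    ⟨by norm_num [sevDf], by norm_num [sevDf] <;> linarith, by norm_num [sevDf] <;> linarith⟩
    (by simp only [sevDf, end_add, end_sub, end_mul, Ex.eval, pt4]; try push_cast; try field_simp; try ring)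
    (by simp only [sevDf, end_add, end_sub, end_mul, Ex.eval, pt4]; try push_cast; try field_simp; try ring)
    (by simp only [sevDf, end_add, end_sub, end_mul, Ex.eval, pt4]; try push_cast; try field_simp; try ring)
    (by simp only [sevDf, end_add, end_sub, end_mul, Ex.eval, pt4]; push_cast; positivity)
  exact .cDf _ ht hk

theorem place7_Dg (B : EndBands7 a b u v H)
    (hk : (a + b) * allStabI a b ≤ (b - a) * (1 - allStabI a b))
    (h0l : (4 / 25 : ℝ) < ((b - a))) (h0u : ((b - a)) ≤ (1 / 5 : ℝ)) (h1l : (1 / 20 : ℝ) < (allStabI a b)) (h1u : (allStabI a b) ≤ (11 / 100 : ℝ)) (h2l : (0 : ℝ) < ((1 - u) / (b - a))) (h2u : ((1 - u) / (b - a)) ≤ (1 / 10 : ℝ)) : EndPlace7 a b u v H := by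
  obtain ⟨hI, hd, hw, eS, hcap⟩ := end_facts7 B
  have hn : (allStabI a b) ≠ 0 := hI.ne'
  obtain ⟨t, ht⟩ := sevDg_ok.point B (x₀ := (b - a)) (x₁ := allStabI a b) (x₂ := (1 - u) / (b - a))
    ⟨by norm_num [sevDg], by norm_num [sevDg] <;> linarith, by norm_num [sevDg] <;> linarith⟩
    ⟨by norm_num [sevDg], by norm_num [sevDg] <;> linarith, by norm_num [sevDg] <;> linarith⟩
    ⟨by norm_num [sevDg], by norm_num [sevDg] <;> linarith, by norm_num [sevDg] <;> linarith⟩
    (by simp only [sevDg, end_add, end_sub, end_mul, Ex.eval, pt4]; try push_cast; try field_simp; try ring)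
    (by simp only [sevDg, end_add, end_sub, end_mul, Ex.eval, pt4]; try push_cast; try field_simp; try ring)
    (by simp only [sevDg, end_add, end_sub, end_mul, Ex.eval, pt4]; try push_cast; try field_simp; try ring)
    (by simp only [sevDg, end_add, end_sub, end_mul, Ex.eval, pt4]; push_cast; positivity)
  exact .cDg _ ht hk

theorem place7_Dh (B : EndBands7 a b u v H)
    (hk : (a + b) * allStabI a b ≤ (b - a) * (1 - allStabI a b))
    (h0l : (4 / 25 : ℝ) < ((b - a))) (h0u : ((b - a)) ≤ (1 / 5 : ℝ)) (h1l : (1 / 20 : ℝ) < (allStabI a b)) (h1u : (allStabI a b) ≤ (11 / 100 : ℝ)) (h2l : (1 / 10 : ℝ) < ((1 - u) / (b - a))) (h2u : ((1 - u) / (b - a)) ≤ (1 : ℝ)) : EndPlace7 a b u v H := by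
  obtain ⟨hI, hd, hw, eS, hcap⟩ := end_facts7 B
  have hn : (allStabI a b) ≠ 0 := hI.ne'
  obtain ⟨t, ht⟩ := sevDh_ok.point B (x₀ := (b - a)) (x₁ := allStabI a b) (x₂ := (1 - u) / (b - a))
    ⟨by norm_num [sevDh], by norm_num [sevDh] <;> linarith, by norm_num [sevDh] <;> linarith⟩
    ⟨by norm_num [sevDh], by norm_num [sevDh] <;> linarith, by norm_num [sevDh] <;> linarith⟩
    ⟨by norm_num [sevDh], by norm_num [sevDh] <;> linarith, by norm_num [sevDh] <;> linarith⟩
    (by simp only [sevDh, end_add, end_sub, end_mul, Ex.eval, pt4]; try push_cast; try field_simp; try ring)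
    (by simp only [sevDh, end_add, end_sub, end_mul, Ex.eval, pt4]; try push_cast; try field_simp; try ring)
    (by simp only [sevDh, end_add, end_sub, end_mul, Ex.eval, pt4]; try push_cast; try field_simp; try ring)
    (by simp only [sevDh, end_add, end_sub, end_mul, Ex.eval, pt4]; push_cast; positivity)
  exact .cDh _ ht hk

theorem place7_Di (B : EndBands7 a b u v H)
    (hk : (a + b) * allStabI a b ≤ (b - a) * (1 - allStabI a b))
    (h0l : (1 / 5 : ℝ) < ((b - a))) (h0u : ((b - a)) ≤ (6 / 25 : ℝ)) (h1l : (1 / 20 : ℝ) < (allStabI a b)) (h1u : (allStabI a b) ≤ (9 / 100 : ℝ)) (h2l : (0 : ℝ) < ((1 - u) / (b - a))) (h2u : ((1 - u) / (b - a)) ≤ (1 / 10 : ℝ)) : EndPlace7 a b u v H := by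
  obtain ⟨hI, hd, hw, eS, hcap⟩ := end_facts7 B
  have hn : (allStabI a b) ≠ 0 := hI.ne'
  obtain ⟨t, ht⟩ := sevDi_ok.point B (x₀ := (b - a)) (x₁ := allStabI a b) (x₂ := (1 - u) / (b - a))
    ⟨by norm_num [sevDi], by norm_num [sevDi] <;> linarith, by norm_num [sevDi] <;> linarith⟩
    ⟨by norm_num [sevDi], by norm_num [sevDi] <;> linarith, by norm_num [sevDi] <;> linarith⟩
    ⟨by norm_num [sevDi], by norm_num [sevDi] <;> linarith, by norm_num [sevDi] <;> linarith⟩
    (by simp only [sevDi, end_add, end_sub, end_mul, Ex.eval, pt4]; try push_cast; try field_simp; try ring)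
    (by simp only [sevDi, end_add, end_sub, end_mul, Ex.eval, pt4]; try push_cast; try field_simp; try ring)
    (by simp only [sevDi, end_add, end_sub, end_mul, Ex.eval, pt4]; try push_cast; try field_simp; try ring)
    (by simp only [sevDi, end_add, end_sub, end_mul, Ex.eval, pt4]; push_cast; positivity)
  exact .cDi _ ht hk

theorem place7_Dj (B : EndBands7 a b u v H)
    (hk : (a + b) * allStabI a b ≤ (b - a) * (1 - allStabI a b))
    (h0l : (1 / 5 : ℝ) < ((b - a))) (h0u : ((b - a)) ≤ (6 / 25 : ℝ)) (h1l : (1 / 20 : ℝ) < (allStabI a b)) (h1u : (allStabI a b) ≤ (9 / 100 : ℝ)) (h2l : (1 / 10 : ℝ) < ((1 - u) / (b - a))) (h2u : ((1 - u) / (b - a)) ≤ (1 : ℝ)) : EndPlace7 a b u v H := by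
  obtain ⟨hI, hd, hw, eS, hcap⟩ := end_facts7 B
  have hn : (allStabI a b) ≠ 0 := hI.ne'
  obtain ⟨t, ht⟩ := sevDj_ok.point B (x₀ := (b - a)) (x₁ := allStabI a b) (x₂ := (1 - u) / (b - a))
    ⟨by norm_num [sevDj], by norm_num [sevDj] <;> linarith, by norm_num [sevDj] <;> linarith⟩
    ⟨by norm_num [sevDj], by norm_num [sevDj] <;> linarith, by norm_num [sevDj] <;> linarith⟩
    ⟨by norm_num [sevDj], by norm_num [sevDj] <;> linarith, by norm_num [sevDj] <;> linarith⟩
    (by simp only [sevDj, end_add, end_sub, end_mul, Ex.eval, pt4]; try push_cast; try field_simp; try ring)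
    (by simp only [sevDj, end_add, end_sub, end_mul, Ex.eval, pt4]; try push_cast; try field_simp; try ring)
    (by simp only [sevDj, end_add, end_sub, end_mul, Ex.eval, pt4]; try push_cast; try field_simp; try ring)
    (by simp only [sevDj, end_add, end_sub, end_mul, Ex.eval, pt4]; push_cast; positivity)
  exact .cDj _ ht hk

theorem place7_Dk (B : EndBands7 a b u v H)
    (hk : (a + b) * allStabI a b ≤ (b - a) * (1 - allStabI a b))
    (h0l : (6 / 25 : ℝ) < ((b - a))) (h0u : ((b - a)) ≤ (7 / 25 : ℝ)) (h1l : (1 / 20 : ℝ) < (allStabI a b)) (h1u : (allStabI a b) ≤ (7 / 100 : ℝ)) (h2l : (0 : ℝ) < ((1 - u) / (b - a))) (h2u : ((1 - u) / (b - a)) ≤ (1 / 10 : ℝ)) : EndPlace7 a b u v H := by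
  obtain ⟨hI, hd, hw, eS, hcap⟩ := end_facts7 B
  have hn : (allStabI a b) ≠ 0 := hI.ne'
  obtain ⟨t, ht⟩ := sevDk_ok.point B (x₀ := (b - a)) (x₁ := allStabI a b) (x₂ := (1 - u) / (b - a))
    ⟨by norm_num [sevDk], by norm_num [sevDk] <;> linarith, by norm_num [sevDk] <;> linarith⟩
    ⟨by norm_num [sevDk], by norm_num [sevDk] <;> linarith, by norm_num [sevDk] <;> linarith⟩
    ⟨by norm_num [sevDk], by norm_num [sevDk] <;> linarith, by norm_num [sevDk] <;> linarith⟩
    (by simp only [sevDk, end_add, end_sub, end_mul, Ex.eval, pt4]; try push_cast; try field_simp; try ring)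
    (by simp only [sevDk, end_add, end_sub, end_mul, Ex.eval, pt4]; try push_cast; try field_simp; try ring)
    (by simp only [sevDk, end_add, end_sub, end_mul, Ex.eval, pt4]; try push_cast; try field_simp; try ring)
    (by simp only [sevDk, end_add, end_sub, end_mul, Ex.eval, pt4]; push_cast; positivity)
  exact .cDk _ ht hk

theorem place7_Dl (B : EndBands7 a b u v H)
    (hk : (a + b) * allStabI a b ≤ (b - a) * (1 - allStabI a b))
    (h0l : (6 / 25 : ℝ) < ((b - a))) (h0u : ((b - a)) ≤ (7 / 25 : ℝ)) (h1l : (1 / 20 : ℝ) < (allStabI a b)) (h1u : (allStabI a b) ≤ (7 / 100 : ℝ)) (h2l : (1 / 10 : ℝ) < ((1 - u) / (b - a))) (h2u : ((1 - u) / (b - a)) ≤ (21 / 25 : ℝ)) : EndPlace7 a b u v H := by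
  obtain ⟨hI, hd, hw, eS, hcap⟩ := end_facts7 B
  have hn : (allStabI a b) ≠ 0 := hI.ne'
  obtain ⟨t, ht⟩ := sevDl_ok.point B (x₀ := (b - a)) (x₁ := allStabI a b) (x₂ := (1 - u) / (b - a))
    ⟨by norm_num [sevDl], by norm_num [sevDl] <;> linarith, by norm_num [sevDl] <;> linarith⟩
    ⟨by norm_num [sevDl], by norm_num [sevDl] <;> linarith, by norm_num [sevDl] <;> linarith⟩
    ⟨by norm_num [sevDl], by norm_num [sevDl] <;> linarith, by norm_num [sevDl] <;> linarith⟩
    (by simp only [sevDl, end_add, end_sub, end_mul, Ex.eval, pt4]; try push_cast; try field_simp; try ring)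
    (by simp only [sevDl, end_add, end_sub, end_mul, Ex.eval, pt4]; try push_cast; try field_simp; try ring)
    (by simp only [sevDl, end_add, end_sub, end_mul, Ex.eval, pt4]; try push_cast; try field_simp; try ring)
    (by simp only [sevDl, end_add, end_sub, end_mul, Ex.eval, pt4]; push_cast; positivity)
  exact .cDl _ ht hk

/-- On the side `D2 = 0` the ratio `d / I` is at most `(1 - 2 I) / (1 - I)`. -/
theorem kap_ratio {d I l r : ℝ} (hk : d * (1 - I) ≤ (1 - 2 * I) * I) (hl : l ≤ I) (hI : 0 < I)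
    (hI1 : I < 1) (hr1 : r ≤ 1) (hr : 1 - 2 * l ≤ r * (1 - l)) : d / I ≤ r := by
  rw [div_le_iff₀ hI]
  refine le_of_mul_le_mul_right (a := 1 - I) ?_ (by linarith)
  have h1 := mul_le_mul_of_nonneg_left hl (show 0 ≤ 2 - r by linarith)
  have h2 := mul_le_mul_of_nonneg_right (show 1 - 2 * I ≤ r * (1 - I) by linarith) hI.le
  linarith

/-- On the other side it is at least as much. -/
theorem kap_ratio' {d I h r : ℝ} (hk : (1 - 2 * I) * I < d * (1 - I)) (hh : I ≤ h) (hI : 0 < I)
    (hI1 : I < 1) (hr : r * (1 - h) ≤ 1 - 2 * h) (hr1 : r ≤ 1) : r < d / I := by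
  rw [lt_div_iff₀ hI]
  refine lt_of_mul_lt_mul_right (a := 1 - I) ?_ (by linarith)
  have h1 := mul_le_mul_of_nonneg_left hh (show 0 ≤ 2 - r by linarith)
  have h2 := mul_le_mul_of_nonneg_right (show r * (1 - I) ≤ 1 - 2 * I by linarith) hI.le
  linarith

/-- `d` is not small on the other side. -/
theorem kap_d {d I r : ℝ} (hk : r < d / I) (hI : 0 < I) (h : 1 / 20 < I) (hr : 0 ≤ r) :
    r / 20 < d := by
  rw [lt_div_iff₀ hI] at hk
  linarith [mul_le_mul_of_nonneg_left h.le hr]

/-- **Every point with `u > 4/5` and `I ∈ (1/20, 1/7]` has a chart.** -/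
theorem end_place7 (B : EndBands7 a b u v H) (hI20 : 1 / 20 < allStabI a b) (hI7 : allStabI a b ≤ 1 / 7)
    (hu : 4 / 5 < u) : EndPlace7 a b u v H := by
  obtain ⟨hI, hd, hw, eS, hcap⟩ := end_facts7 B
  have hw5 : (1 - u) ≤ 1 / 5 := by linarith
  have hI14 : allStabI a b ≤ (1429 / 10000 : ℝ) := by linarith
  rcases le_or_gt (b - a) (allStabI a b) with hdI | hdI
  · have hx2 : (b - a) / allStabI a b ≤ 1 := (div_le_one hI).2 hdI
    have hcd : (b - a) / allStabI a b < 19 / 50 / allStabI a b - 2 := by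
      rw [lt_sub_iff_add_lt, div_add' _ _ _ hI.ne', div_lt_div_iff_of_pos_right hI]
      linarith
    rcases le_or_gt ((b - a) * (1 - allStabI a b)) ((a + b) * allStabI a b) with hk | hk
    · have hk' : (b - a) * (1 - allStabI a b) ≤ (1 - 2 * allStabI a b) * allStabI a b := eS ▸ hk
      rcases le_or_gt (1 - u) (allStabI a b) with hwI | hwI
      · have hx1 : (1 - u) / allStabI a b ≤ 1 := (div_le_one hI).2 hwI
        have hw1 := div_pos hw hI
        rcases le_or_gt (allStabI a b) (1 / 10) with i0 | i0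
        · rcases le_or_gt ((b - a) / allStabI a b) (3 / 20) with e | e
          · exact place7_IAL B hk hI20 i0 hw1 hx1 (div_pos hd hI) e
          rcases le_or_gt ((b - a) / allStabI a b) (1 / 2) with e1 | e1
          · exact place7_IBL B hk hI20 i0 hw1 hx1 e e1
          rcases le_or_gt ((b - a) / allStabI a b) (3 / 4) with e2 | e2
          · exact place7_ICL B hk hI20 i0 hw1 hx1 e1 e2
          exact place7_IDL B hk hI20 i0 hw1 hx1 e2
            (kap_ratio hk' hI20.le hI (by linarith) (by norm_num) (by norm_num))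
        rcases le_or_gt (allStabI a b) (1267 / 10000) with i1 | i1
        · rcases le_or_gt ((b - a) / allStabI a b) (3 / 20) with e | e
          · exact place7_IAH B hk i0 i1 hw1 hx1 (div_pos hd hI) e
          rcases le_or_gt ((b - a) / allStabI a b) (1 / 2) with e1 | e1
          · exact place7_IBH B hk i0 i1 hw1 hx1 e e1
          rcases le_or_gt ((b - a) / allStabI a b) (3 / 4) with e2 | e2
          · exact place7_ICH B hk i0 i1 hw1 hx1 e1 e2
          exact place7_IDH B hk i0 i1 hw1 hx1 e2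
            (kap_ratio hk' i0.le hI (by linarith) (by norm_num) (by norm_num))
        rcases le_or_gt ((b - a) / allStabI a b) (3 / 20) with e | e
        · exact place7_IAG B hk i1 hI14 hw1 hx1 (div_pos hd hI) e
        rcases le_or_gt ((b - a) / allStabI a b) (1 / 2) with e1 | e1
        · exact place7_IBG B hk i1 hI14 hw1 hx1 e e1
        rcases le_or_gt ((b - a) / allStabI a b) (7 / 10) with e2 | e2
        · exact place7_ICG B hk i1 hI14 hw1 hx1 e1 e2
        rcases le_or_gt (allStabI a b) (27 / 200) with i2 | i2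
        · exact place7_IDGa B hk i1 i2 hw1 hx1 e2
            (kap_ratio hk' i1.le hI (by linarith) (by norm_num) (by norm_num))
        refine place7_IDGb B hk i2 hI14 hw1 hx1 e2 (hcd.le.trans ?_)
        rw [sub_le_iff_le_add, div_le_iff₀ hI]; linarith
      · rcases le_or_gt (allStabI a b) (1 / 10) with i0 | i0
        · exact place7_ZBL B hk (by linarith) hw5 hI20 i0 (div_pos hd hI)
            (kap_ratio hk' hI20.le hI (by linarith) (by norm_num) (by norm_num))
        · exact place7_ZBH B hk (by linarith) hw5 i0 hI14 (div_pos hd hI)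
            (kap_ratio hk' i0.le hI (by linarith) (by norm_num) (by norm_num))
    · have hk' : (1 - 2 * allStabI a b) * allStabI a b < (b - a) * (1 - allStabI a b) := eS ▸ hk
      rcases le_or_gt (1 - u) (allStabI a b) with hwI | hwI
      · have hx1 : (1 - u) / allStabI a b ≤ 1 := (div_le_one hI).2 hwI
        have hw1 := div_pos hw hI
        rcases le_or_gt (allStabI a b) (1 / 10) with i0 | i0
        · exact place7_IEL B hk.le hI20 i0 hw1 hx1
            (kap_ratio' hk' i0 hI (by linarith) (by norm_num) (by norm_num)) hx2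
        rcases le_or_gt (allStabI a b) (1267 / 10000) with i1 | i1
        · exact place7_IEH B hk.le i0 i1 hw1 hx1
            (kap_ratio' hk' i1 hI (by linarith) (by norm_num) (by norm_num)) hx2
        rcases le_or_gt (allStabI a b) (131 / 1000) with i2 | i2
        · exact place7_IEGc B hk.le i1 i2 hw1 hx1
            (kap_ratio' hk' i2 hI (by linarith) (by norm_num) (by norm_num)) hx2
        rcases le_or_gt (allStabI a b) (339 / 2500) with i3 | i3
        · refine place7_IEGd B hk.le i2 i3 hw1 hx1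
            (kap_ratio' hk' i3 hI (by linarith) (by norm_num) (by norm_num)) (hcd.le.trans ?_)
          rw [sub_le_iff_le_add, div_le_iff₀ hI]; linarith
        exfalso
        have h := kap_ratio' (r := 4 / 5 + 3 / 100) hk' hI14 hI (by linarith) (by norm_num)
          (by norm_num)
        have h' : 19 / 50 / allStabI a b - 2 ≤ 83 / 100 := by
          rw [sub_le_iff_le_add, div_le_iff₀ hI]; linarith
        linarith
      · have hr := kap_ratio' (r := 83 / 100) hk' hI14 hI (by linarith) (by norm_num) (by norm_num)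
        have hd83 := kap_d hr hI hI20 (by norm_num)
        rw [lt_div_iff₀ hI] at hr
        have hdw : (b - a) / (1 - u) ≤ 1 := (div_le_one hw).2 (by linarith)
        rcases le_or_gt (allStabI a b) (1 / 10) with i0 | i0
        · exact place7_CBL B hk.le (by linarith) hw5 hI20 i0 (by rw [lt_div_iff₀ hw]; linarith) hdw
        · exact place7_CBH B hk.le (by linarith) hw5 i0 hI14 (by rw [lt_div_iff₀ hw]; linarith) hdw
  have hk : (a + b) * allStabI a b ≤ (b - a) * (1 - allStabI a b) := by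
    rw [eS]
    linarith [mul_le_mul_of_nonneg_right (show 1 - 2 * allStabI a b ≤ 1 - allStabI a b by linarith) hI.le,
      mul_le_mul_of_nonneg_right hdI.le (show 0 ≤ 1 - allStabI a b by linarith)]
  rcases le_or_gt (1 - u) (b - a) with hwd | hwd
  swap
  · have hdw : (b - a) / (1 - u) ≤ 1 := (div_le_one hw).2 hwd.le
    rcases le_or_gt (allStabI a b) (1 / 10) with i0 | i0
    · exact place7_CBL B hk (by linarith) hw5 hI20 i0 (by rw [lt_div_iff₀ hw]; linarith) hdw
    · exact place7_CBH B hk (by linarith) hw5 i0 hI14 (by rw [lt_div_iff₀ hw]; linarith) hdw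
  have hx2 : (1 - u) / (b - a) ≤ 1 := (div_le_one hd).2 hwd
  have hw1 := div_pos hw hd
  have hs : allStabI a b / (b - a) ≤ 1 := (div_le_one hd).2 hdI.le
  rcases le_or_gt (b - a) (9 / 100) with g1 | g1
  · rcases le_or_gt ((1 - u) / (b - a)) (1 / 10) with e | e
    · exact place7_Da B hk (by linarith) g1 (by rw [lt_div_iff₀ hd]; linarith) hs hw1 e
    · exact place7_Db B hk (by linarith) g1 (by rw [lt_div_iff₀ hd]; linarith) hs e hx2
  rcases le_or_gt (b - a) (13 / 100) with g2 | g2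
  · rcases le_or_gt ((1 - u) / (b - a)) (1 / 10) with e | e
    · exact place7_Dc B hk g1 g2 (by rw [lt_div_iff₀ hd]; linarith) hs hw1 e
    · exact place7_Dd B hk g1 g2 (by rw [lt_div_iff₀ hd]; linarith) hs e hx2
  rcases le_or_gt (b - a) (4 / 25) with g3 | g3
  · rcases le_or_gt ((1 - u) / (b - a)) (1 / 10) with e | e
    · exact place7_De B hk g2 g3 hI20 (by linarith) hw1 e
    · exact place7_Df B hk g2 g3 hI20 (by linarith) e hx2
  rcases le_or_gt (b - a) (1 / 5) with g4 | g4
  · rcases le_or_gt ((1 - u) / (b - a)) (1 / 10) with e | e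
    · exact place7_Dg B hk g3 g4 hI20 (by linarith) hw1 e
    · exact place7_Dh B hk g3 g4 hI20 (by linarith) e hx2
  rcases le_or_gt (b - a) (6 / 25) with g5 | g5
  · rcases le_or_gt ((1 - u) / (b - a)) (1 / 10) with e | e
    · exact place7_Di B hk g4 g5 hI20 (by linarith) hw1 e
    · exact place7_Dj B hk g4 g5 hI20 (by linarith) e hx2
  rcases le_or_gt ((1 - u) / (b - a)) (1 / 10) with e | e
  · exact place7_Dk B hk g5 (by linarith) hI20 (by linarith) hw1 e
  · exact place7_Dl B hk g5 (by linarith) hI20 (by linarith) e (by rw [div_le_iff₀ hd]; linarith)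

end Vale.Agent.P100.Calib.StripEnd
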