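import Vale.Agent.P100.Calib.SlabStripEndIZ7Strict
import Vale.Agent.P100.Calib.SlabStripEndSigns
import Vale.Agent.P100.Calib.SlabStripEndPlaceSev

/-!
# The charts `(I, w / I, d / I, t)` with affine lines for `o`, and the signs from a piece over one

`o = a v` goes between two affine numerators over `den = D + g x₁`. A chart gives the lines, by the
windows or by the exit line; a piece gives the signs between lines.
-/

set_option linter.unusedVariables false

namespace Vale.Agent.P100.Calib.StripEndD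

open Pack hiding ev_add ev_mul
open Pack.Ex Band StripMid StripEnd

local instance endIZ7BinAdd : Add Ex := ⟨Ex.add⟩
local instance endIZ7BinSub : Sub Ex := ⟨Ex.sub⟩
local instance endIZ7BinMul : Mul Ex := ⟨Ex.mul⟩

/-- An affine form in `x₁`, `x₂`, `x₀`, from the four coefficients. -/
def afEx (l : ℤ × ℤ × ℤ × ℤ) : Ex :=
  num l.1 + num l.2.1 * var 1 + num l.2.2.1 * var 2 + num l.2.2.2 * var 0

/-- Its value. -/
noncomputable def afVal (l : ℤ × ℤ × ℤ × ℤ) (I r s : ℝ) : ℝ :=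
  l.1 + l.2.1 * r + l.2.2.1 * s + l.2.2.2 * I

/-- The data of a chart with lines. -/
structure Lines where
  /-- `den = D + g x₁`. -/
  den : ℤ × ℤ
  /-- The numerator of `o` at `t = 0`. -/
  lo : ℤ × ℤ × ℤ × ℤ
  /-- The numerator of `o` from `t = 0` to `t = 1`. -/
  gap : ℤ × ℤ × ℤ × ℤ

/-- The value of the denominator. -/
noncomputable def Lines.denV (L : Lines) (r : ℝ) : ℝ := L.den.1 + L.den.2 * r

/-- The chart. -/
def lineChart (L : Lines) (q₀ q₁ q₂ : ℤ × ℤ × ℕ) (m₀ m₁ : ℤ × ℕ) : EndChart where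
  I := var 0
  d := var 0 * var 2
  w := var 0 * var 1
  den := num L.den.1 + num L.den.2 * var 1
  n₀ := afEx L.lo
  n₁ := afEx L.gap
  q₀ := q₀
  q₁ := q₁
  q₂ := q₂
  q₃ := (0, 1, 1)
  t₀ := (0, 1)
  t₁ := (1, 1)
  mu₀ := m₀
  mu₁ := m₁

variable {L : Lines} {q₀ q₁ q₂ : ℤ × ℤ × ℕ} {m₀ m₁ : ℤ × ℕ} {n : ℕ}
  {a b u v t H I r s : ℝ}

/-- The same chart with a range for `t` about `[0, 1)`. -/
def wideChart (c : EndChart) : EndChart := { c with q₃ := (-1, 2, 1) }

/-- `x = (I, w / I, d / I)` at a point. -/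
structure IPt (a b u : ℝ) (I r s : ℝ) : Prop where
  hI : I = allStabI a b
  hd : I * s = b - a
  hw : I * r = 1 - u

/-- The variables of a point. -/
theorem iPt_of (h : 0 < allStabI a b) :
    IPt a b u (allStabI a b) ((1 - u) / allStabI a b) ((b - a) / allStabI a b) :=
  ⟨rfl, mul_div_cancel₀ _ h.ne', mul_div_cancel₀ _ h.ne'⟩

theorem eval_afEx (l : ℤ × ℤ × ℤ × ℤ) (x₃ : ℝ) :
    (afEx l).eval (StripEnd.pt4 I r s x₃) = afVal l I r s := by
  simp only [afEx, afVal, end_add, Ex.eval, StripEnd.pt4]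

theorem eval_lineDen (x₃ : ℝ) :
    (lineChart L q₀ q₁ q₂ m₀ m₁).den.eval (StripEnd.pt4 I r s x₃) = L.denV r := by
  simp only [lineChart, Lines.denV, end_add, Ex.eval, StripEnd.pt4]

theorem lineChart_flat : (lineChart L q₀ q₁ q₂ m₀ m₁).Flat :=
  ⟨fun _ _ _ _ => rfl, fun _ _ _ _ => rfl, fun _ _ _ _ => rfl, fun _ _ _ _ => rfl,
    fun _ _ _ _ => rfl, fun _ _ _ _ => rfl⟩

/-- A point of `lineChart` in the ranges. -/
structure InLines (L : Lines) (q₀ q₁ q₂ : ℤ × ℤ × ℕ) (a b u I r s : ℝ) : Prop extends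
    IPt a b u I r s where
  h0 : InU q₀ I
  h1 : InU q₁ r
  h2 : InU q₂ s
  den : 0 < L.denV r

/-- `o` is above the lower line, from the lower band and the tube. -/
theorem lines_left (hP : InLines L q₀ q₁ q₂ a b u I r s) (hB : EndBands7 a b u v H)
    (hL : Chk ((lineChart L q₀ q₁ q₂ m₀ m₁).box (sideUp (0, 1, 1)))
      ((lineChart L q₀ q₁ q₂ m₀ m₁).geoL.loWin 4)) :
    afVal L.lo I r s < a * v * L.denV r := by
  obtain ⟨⟨hI, hd, hw⟩, h0, h1, h2, hden⟩ := hP
  by_contra hn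
  rw [not_lt] at hn
  have hav0 : 0 < a * v := mul_pos (by linarith [hB.place.a_gt]) hB.place.v_pos
  have hA : 0 < afVal L.lo I r s := lt_of_lt_of_le (mul_pos hav0 hden) hn
  obtain ⟨x, hx⟩ : ∃ x, x = a * v * L.denV r / afVal L.lo I r s := ⟨_, rfl⟩
  refine left_false (g := (lineChart L q₀ q₁ q₂ m₀ m₁).geoL) (y := StripEnd.pt4 I r s x)
    ⟨hI, hd, hw, ?_, ?_⟩ hB.place (chk_at hL h0 h1 h2 (sideUp_mem ⟨by norm_num, ?_, ?_⟩))
    (le_of_le_of_eq hB.low (endLow_four a b u v H).symm) hB.tube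
  · show 0 < ((lineChart L q₀ q₁ q₂ m₀ m₁).den * num (1 : ℕ)).eval _
    rw [end_mul, eval_lineDen]
    simpa [Ex.eval] using hden
  · show ((num (1 : ℕ) * afEx L.lo + num 0 * afEx L.gap) * var 3).eval _ =
      a * v * ((lineChart L q₀ q₁ q₂ m₀ m₁).den * num (1 : ℕ)).eval _
    rw [end_mul, end_add, end_mul, end_mul, end_mul, eval_lineDen, eval_afEx, eval_afEx]
    simp only [Ex.eval, StripEnd.pt4, hx]
    push_cast
    field_simp
    ring
  · rw [hx]; norm_num; positivity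
  · rw [hx]; norm_num; rw [div_le_one hA]; exact hn

/-- `o` is below the upper line, from the upper exit band and the Flow. -/
theorem lines_right (hP : InLines L q₀ q₁ q₂ a b u I r s) (hB : EndBands7 a b u v H)
    (hR : Chk ((lineChart L q₀ q₁ q₂ m₀ m₁).box (side (0, 1, 1)))
      (lineChart L q₀ q₁ q₂ m₀ m₁).geoR.hiWin) :
    a * v * L.denV r < afVal L.lo I r s + afVal L.gap I r s := by
  obtain ⟨⟨hI, hd, hw⟩, h0, h1, h2, hden⟩ := hP
  by_contra hn
  rw [not_lt] at hn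
  have hB1 : afVal L.lo I r s + afVal L.gap I r s < L.denV r :=
    lt_of_le_of_lt hn (mul_lt_of_lt_one_left hden hB.place.av)
  obtain ⟨o, ho⟩ : ∃ o, o = afVal L.lo I r s + afVal L.gap I r s := ⟨_, rfl⟩
  rw [← ho] at hn hB1
  obtain ⟨x, hx⟩ : ∃ x, x = (a * v * L.denV r - o) / (L.denV r - o) := ⟨_, rfl⟩
  refine right_false (g := (lineChart L q₀ q₁ q₂ m₀ m₁).geoR) (y := StripEnd.pt4 I r s x)
    ⟨hI, hd, hw, ?_, ?_⟩ hB.place (chk_at hR h0 h1 h2 (side_mem ⟨by norm_num, ?_, ?_⟩))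
    hB.top hB.flow
  · show 0 < ((lineChart L q₀ q₁ q₂ m₀ m₁).den * num (1 : ℕ)).eval _
    rw [end_mul, eval_lineDen]
    simpa [Ex.eval] using hden
  · show ((num (1 : ℕ) * afEx L.lo + num 1 * afEx L.gap) +
        ((lineChart L q₀ q₁ q₂ m₀ m₁).den * num (1 : ℕ) -
          (num (1 : ℕ) * afEx L.lo + num 1 * afEx L.gap)) * var 3).eval _ =
      a * v * ((lineChart L q₀ q₁ q₂ m₀ m₁).den * num (1 : ℕ)).eval _
    rw [end_add, end_add, end_mul, end_mul, end_mul, end_sub, end_mul, eval_lineDen, eval_afEx,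
      eval_afEx]
    simp only [eval_afEx, Ex.eval, StripEnd.pt4]
    push_cast
    rw [one_mul, one_mul, ← ho]
    have : L.denV r - o ≠ 0 := (sub_pos.2 hB1).ne'
    rw [hx]; field_simp; ring
  · rw [hx]; norm_num
    exact div_nonneg (by linarith) (by linarith)
  · rw [hx]; norm_num
    rw [div_lt_one (by linarith)]
    linarith [mul_lt_of_lt_one_left hden hB.place.av]

/-- The lower line is below the exit line: `25 n₀ ≤ den (12 - 205 w)`. -/
def exitEx (c : EndChart) : Ex := c.den * (num 12 - num 205 * c.w) - num 25 * c.n₀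

/-- `o` is above the lower line, from the exit line. -/
theorem lines_exit (hP : InLines L q₀ q₁ q₂ a b u I r s) (hE : ExitLine a b u v)
    (hs : s ≤ 1) (hI0 : 0 < I) (hw' : I * r ≤ 1 / 40)
    (hC : Chk ((lineChart L q₀ q₁ q₂ m₀ m₁).box (side (0, 1, 1)))
      (exitEx (lineChart L q₀ q₁ q₂ m₀ m₁))) :
    afVal L.lo I r s < a * v * L.denV r := by
  obtain ⟨⟨hI, hd, hw⟩, h0, h1, h2, hden⟩ := hP
  have h : 1 - a * v < 13 / 25 + 41 / 5 * (1 - u) :=
    hE (by rw [← hd, ← hI]; exact mul_le_of_le_one_right hI0.le hs) (by linarith)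
  have hh := chk_at (s := 0) hC h0 h1 h2
    (side_mem ⟨by norm_num, by norm_num, by norm_num⟩)
  simp only [exitEx, end_sub, end_mul, eval_lineDen] at hh
  simp only [lineChart, end_mul, eval_afEx, Ex.eval, StripEnd.pt4] at hh
  push_cast at hh
  rw [← hw] at h
  linarith [mul_lt_mul_of_pos_left h hden]

/-- A piece over a chart with lines, both checked. -/
structure Leaf (L : Lines) (q₀ q₁ q₂ : ℤ × ℤ × ℕ) (m₀ m₁ : ℤ × ℕ) (P : Piece) (B : StripEnd.EBox) :
    Prop where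
  mu : 0 < m₀.2 ∧ 0 < m₁.2 ∧ (m₀.1 : ℝ) ≤ 18 / 5 * m₀.2 ∧ (m₁.1 : ℝ) ≤ 18 / 5 * m₁.2
  up : Chk ((lineChart L q₀ q₁ q₂ m₀ m₁).box (side (0, 1, 1)))
    ((lineChart L q₀ q₁ q₂ m₀ m₁).geo.muUp 4 m₁)
  down : Chk ((lineChart L q₀ q₁ q₂ m₀ m₁).box (side (0, 1, 1)))
    ((lineChart L q₀ q₁ q₂ m₀ m₁).geo.muLo m₀)
  cert : Cert P B ∨ CertV P B
  lies : P.Over (wideChart (lineChart L q₀ q₁ q₂ m₀ m₁))
  box : B.q₀ = q₀ ∧ B.q₁ = q₁ ∧ B.q₂ = q₂ ∧ B.q₃ = (0, 1, 1)
  pI : P.I = var 0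
  pd : P.d = var 0 * var 2

variable {P : Piece} {B : StripEnd.EBox}

/-- The point of a piece between its lines, with the value of `D2` as a hypothesis. -/
theorem Leaf.signs_of (K : Leaf L q₀ q₁ q₂ m₀ m₁ P B)
    (hb : Closed.All.ChartBox n (b - a) (a + b))
    (hF : Closed.All.ChartFacts (b - a) (a + b) u v t)
    (hH : Closed.chH (b - a) (a + b) u v t = H) (hB : EndBands7 a b u v H)
    (hP : InLines L q₀ q₁ q₂ a b u I r s)
    (hlo : afVal L.lo I r s ≤ a * v * L.denV r)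
    (hhi : a * v * L.denV r < afVal L.lo I r s + afVal L.gap I r s)
    (hk : ∀ x : ℕ → ℝ, Place P x → x 0 = I → x 2 = s →
      (AllN.kapAll (1 / P.I.eval x) (xa P x) + 1) / P.d.eval x = kap P x) :
    Closed.Strip.ChartSigns (b - a) (a + b) u v t := by
  obtain ⟨⟨hI, hd, hw⟩, h0, h1, h2, hden⟩ := hP
  obtain ⟨hm0, hm1, hm0', hm1'⟩ := K.mu
  obtain ⟨g, hg⟩ : ∃ g, g = afVal L.gap I r s := ⟨_, rfl⟩
  rw [← hg] at hhi
  have hg0 : 0 < g := by linarith
  obtain ⟨x, hx⟩ : ∃ x, x = (a * v * L.denV r - afVal L.lo I r s) / g := ⟨_, rfl⟩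
  have hx0 : 0 ≤ x := hx ▸ div_nonneg (by linarith) hg0.le
  have hx1 : x < 1 := by rw [hx, div_lt_one hg0]; linarith
  have hgeo : GeoAt (lineChart L q₀ q₁ q₂ m₀ m₁).geo (StripEnd.pt4 I r s x) a b u v := by
    refine ⟨hI, hd, hw, ?_, ?_⟩
    · show 0 < (lineChart L q₀ q₁ q₂ m₀ m₁).den.eval _
      rw [eval_lineDen]; exact hden
    · show (afEx L.lo + afEx L.gap * var 3).eval _ =
        a * v * (lineChart L q₀ q₁ q₂ m₀ m₁).den.eval _
      rw [end_add, end_mul, eval_afEx, eval_afEx, eval_lineDen]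
      simp only [Ex.eval, StripEnd.pt4]
      rw [← hg, hx, mul_div_cancel₀ _ hg0.ne']
      ring
  have hbox : InR ((0, 1, 1) : ℤ × ℤ × ℕ) x := ⟨by norm_num, by simpa using hx0, by simpa using hx1⟩
  have hpt : (wideChart (lineChart L q₀ q₁ q₂ m₀ m₁)).Point (StripEnd.pt4 I r s x) a b u v H :=
    ⟨⟨h0, h1, h2, by
      show (((-1 : ℤ)) : ℝ) / ((1 : ℕ) : ℝ) < x
      push_cast; linarith, by
      show x < (((2 : ℤ)) : ℝ) / ((1 : ℕ) : ℝ)
      push_cast; linarith⟩, hgeo,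
      pinned_of hgeo hB.place hm0 hm1 hm0' hm1'
        (chk_at K.up h0 h1 h2 (side_mem hbox)) (chk_at K.down h0 h1 h2 (side_mem hbox))
        (le_of_le_of_eq hB.low (endLow_four a b u v H).symm) hB.top hB.pos hB.den⟩
  obtain ⟨e0, e1, e2, e3⟩ := K.box
  have hM : B.Mem (StripEnd.pt4 I r s x) :=
    ⟨e0 ▸ h0, e1 ▸ h1, e2 ▸ h2, e3 ▸ hbox⟩
  refine signs_of_certE K.cert hM K.lies hpt hb hF hH (hk _ ?_ rfl rfl)
  exact K.cert.elim (fun h => h.place hM (K.lies.vo _)) fun h => h.place hM (K.lies.vo _)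

/-- The signs below the kink of `D2`. -/
theorem Leaf.low (K : Leaf L q₀ q₁ q₂ m₀ m₁ P B) (hcn : P.cn = num 0) (hcd : P.cd = num 1)
    (hb : Closed.All.ChartBox n (b - a) (a + b))
    (hF : Closed.All.ChartFacts (b - a) (a + b) u v t)
    (hH : Closed.chH (b - a) (a + b) u v t = H) (hB : EndBands7 a b u v H) (hs : DLow a b)
    (hP : InLines L q₀ q₁ q₂ a b u I r s)
    (hlo : afVal L.lo I r s ≤ a * v * L.denV r)
    (hhi : a * v * L.denV r < afVal L.lo I r s + afVal L.gap I r s) :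
    Closed.Strip.ChartSigns (b - a) (a + b) u v t := by
  refine K.signs_of hb hF hH hB hP hlo hhi fun x h e0 e2 => ?_
  have eI : P.I.eval x = allStabI a b := by rw [K.pI]; exact e0.trans hP.hI
  have ed : P.d.eval x = b - a := by
    rw [K.pd, end_mul]; show x 0 * x 2 = _
    rw [e0, e2, hP.hd]
  have eS : P.S.eval x = a + b := by rw [eval_S, eI]; simp only [allStabI]; ring
  have hkap : kap P x = 0 := by simp only [kap, hcn, hcd, Ex.eval]; simp
  refine kap_flat h.I h.d h.S eval_S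
    (by linarith [eval_A' (P := P) (x := x), eval_S (P := P) (x := x)]) ⟨fun _ => hkap, fun hk => ?_⟩
  have : P.d.eval x * (1 - P.I.eval x) - P.S.eval x * P.I.eval x = 0 := by
    refine sub_eq_zero.2 (le_antisymm ?_ hk)
    rw [ed, eI, eS]; exact hs
  rw [this, zero_div, hkap]

/-- The signs above the kink of `D2`. -/
theorem Leaf.high (K : Leaf L q₀ q₁ q₂ m₀ m₁ P B)
    (hcn : P.cn = (num 1 - var 0) * var 2 - (num 1 - num 2 * var 0))
    (hcd : P.cd = (num 1 - num 2 * var 0) * (num 1 - num 2 * var 0) * var 2)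
    (hb : Closed.All.ChartBox n (b - a) (a + b))
    (hF : Closed.All.ChartFacts (b - a) (a + b) u v t)
    (hH : Closed.chH (b - a) (a + b) u v t = H) (hB : EndBands7 a b u v H) (hs : DHigh a b)
    (hP : InLines L q₀ q₁ q₂ a b u I r s)
    (hlo : afVal L.lo I r s ≤ a * v * L.denV r)
    (hhi : a * v * L.denV r < afVal L.lo I r s + afVal L.gap I r s) :
    Closed.Strip.ChartSigns (b - a) (a + b) u v t := by
  refine K.signs_of hb hF hH hB hP hlo hhi fun x h e0 e2 => ?_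
  have hx0 : 0 < x 0 := by have := h.I; rw [K.pI] at this; exact this
  have eI : P.I.eval x = x 0 := by rw [K.pI]; rfl
  have ed : P.d.eval x = x 0 * x 2 := by rw [K.pd]; rfl
  have hd0 := h.d
  rw [ed] at hd0
  have hx2 : 0 < x 2 := pos_of_mul_pos_right hd0 hx0.le
  have hS : 0 < 1 - 2 * x 0 := by have := h.S; rwa [eval_S, eI] at this
  have hkap : kap P x = (P.d.eval x * (1 - P.I.eval x) - P.S.eval x * P.I.eval x) /
      (P.S.eval x ^ 2 * P.d.eval x) := by
    simp only [kap, hcn, hcd, end_sub, end_mul, Ex.eval]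
    rw [eval_S, eI, ed]
    push_cast
    rw [div_eq_div_iff (by positivity) (by positivity)]
    ring
  refine kap_flat h.I h.d h.S eval_S
    (by linarith [eval_A' (P := P) (x := x), eval_S (P := P) (x := x)]) ⟨fun hk => ?_, fun _ => hkap⟩
  have : P.d.eval x * (1 - P.I.eval x) - P.S.eval x * P.I.eval x = 0 := by
    refine sub_eq_zero.2 (le_antisymm hk ?_)
    have eS : P.S.eval x = a + b := by
      rw [eval_S, eI, e0, hP.hI]; simp only [allStabI]; ring
    rw [eS, ed, eI, e0, e2, hP.hd, hP.hI]; exact hs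
  rw [hkap, this, zero_div]

end Vale.Agent.P100.Calib.StripEndD
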