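import Vale.Agent.P100.Calib.SlabStripEndIZ7Bin

/-!
# Bounds on `(I, w / I, d / I)` at the strip end for `N` between seven and twenty
-/

namespace Vale.Agent.P100.Calib.StripEndD

open Band StripMid StripEnd

variable {I r s l hi lo x : ℝ}

/-- Membership in a range. -/
theorem inU_of {a b : ℤ} {D : ℕ} (hD : 0 < D) (h1 : (a : ℝ) / D < x) (h2 : x ≤ (b : ℝ) / D) :
    InU (a, b, D) x := ⟨hD, h1, h2⟩

/-- Below the kink `d / I` is at most `hi`. -/
theorem kink_le (h : s * (1 - I) ≤ 1 - 2 * I) (hI : I ≤ 1 / 7)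
    (hh : 1 - 2 * I ≤ hi * (1 - I)) : s ≤ hi :=
  le_of_mul_le_mul_right (h.trans hh) (by linarith)

/-- Above the kink `d / I` exceeds `lo`. -/
theorem kink_lt (h : 1 - 2 * I ≤ s * (1 - I)) (hI : I ≤ 1 / 7)
    (hh : lo * (1 - I) < 1 - 2 * I) : lo < s :=
  lt_of_mul_lt_mul_right (lt_of_lt_of_le hh h) (by linarith)

/-- `d / I` is at most `hi` by the cap of `2 I + d`. -/
theorem cap_le (h : I * (2 + s) < 19 / 50) (hI : 0 < I) (hh : 19 / 50 ≤ (2 + hi) * I) : s ≤ hi := by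
  by_contra hc
  rw [not_le] at hc
  linarith [mul_lt_mul_of_pos_left hc hI]

/-- `w / I` is at most `hi`. -/
theorem w_le (h : I * r < 1 / 5) (hI : 0 < I) (hh : 1 / 5 ≤ hi * I) : r ≤ hi := by
  by_contra hc
  rw [not_le] at hc
  linarith [mul_lt_mul_of_pos_left hc hI]

/-- A product is at most a bound. -/
theorem mul_le_of {p q m : ℝ} (hr : 0 ≤ r) (hI : I ≤ p) (hq : r ≤ q) (hp : 0 ≤ p)
    (h : p * q ≤ m) : I * r ≤ m :=
  ((mul_le_mul_of_nonneg_right hI hr).trans (mul_le_mul_of_nonneg_left hq hp)).trans h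

/-- Above the kink `I` is below `167 / 1250`. -/
theorem kink_cap (h : 1 - 2 * I ≤ s * (1 - I)) (hc : I * (2 + s) < 19 / 50) (hI0 : 0 < I)
    (hI : I ≤ 1 / 7) : I ≤ 167 / 1250 := by
  by_contra hn
  rw [not_le] at hn
  have h1 := mul_lt_mul_of_pos_right hc (show 0 < 1 - I by linarith)
  have h2 := mul_le_mul_of_nonneg_left h hI0.le
  nlinarith [mul_nonneg (sub_nonneg.2 hn.le) (sub_nonneg.2 hI)]

end Vale.Agent.P100.Calib.StripEndD
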