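import Vale.Agent.P100.Calib.SlabStripEndDExpr
import Vale.Agent.P100.Calib.SlabStripEndCert

/-!
# The piece 245 of the strip for `u` near one at small `d / I`
-/

namespace Vale.Agent.P100.Calib.StripEndD

open Pack hiding ev_add ev_mul
open Pack.Ex StripMid StripEnd

local instance endIZ7P245Add : Add Ex := ⟨Ex.add⟩
local instance endIZ7P245Sub : Sub Ex := ⟨Ex.sub⟩
local instance endIZ7P245Mul : Mul Ex := ⟨Ex.mul⟩

/-- The piece `Iz245`. -/
def pcIz245 : Piece where
  I := (var 0)
  d := (var 0) * (var 2)
  w := ((var 0) * (var 1))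
  o := (((num 31) + (num (-15) * (var 1))) + ((num 43) + (num (-21) * (var 1))) * (var 3))
  den := ((num 100))
  vn := num 2 * (((num 31) + (num (-15) * (var 1))) + ((num 43) + (num (-21) * (var 1))) * (var 3))
  vs := (num 1 - num 2 * (var 0) - (var 0) * (var 2))
  mu := ⟨(68, 50), (151, 50)⟩
  pn := fun b => cond b
    (num 50 * (((num 100)) - (((num 31) + (num (-15) * (var 1))) + ((num 43) + (num (-21) * (var 1))) * (var 3))) + num (-151) * ((((num 31) + (num (-15) * (var 1))) + ((num 43) + (num (-21) * (var 1))) * (var 3)) * ((var 0) * (var 1))))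
    (num 50 * (((num 100)) - (((num 31) + (num (-15) * (var 1))) + ((num 43) + (num (-21) * (var 1))) * (var 3))) + num (-68) * ((((num 31) + (num (-15) * (var 1))) + ((num 43) + (num (-21) * (var 1))) * (var 3)) * ((var 0) * (var 1))))
  pd := num 50
  en := fun b => cond b
    (((num 30988) + (num 68488 * (var 0))) * (num 4 * (var 0) * (((num 100)) - (((num 31) + (num (-15) * (var 1))) + ((num 43) + (num (-21) * (var 1))) * (var 3))) * ((var 2) + num 3 * (var 0)) + (var 1) * ((num 100)) * (num 1 + num 20 * ((var 0) * (var 2)))))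
    (((num 24109) + (num 68488 * (var 0))) * (num 4 * (var 0) * (((num 100)) - (((num 31) + (num (-15) * (var 1))) + ((num 43) + (num (-21) * (var 1))) * (var 3))) * ((var 2) + num 3 * (var 0)) + (var 1) * ((num 100)) * (num 1 + num 20 * ((var 0) * (var 2)))))
  kk := fun b => cond b
    (((num 5268) + (num 19056 * (var 2))) * (((var 0) * (var 1)) * (num 4 * ((num 100)) * ((var 2) + num 3 * (var 0)))))
    (((num (-25)) + (num 19056 * (var 2))) * (((var 0) * (var 1)) * (num 4 * ((num 100)) * ((var 2) + num 3 * (var 0)))))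
  f0 := num 8000 * ((num 100)) * ((var 2) + num 3 * (var 0))
  wn := fun b => cond b
    (((num (-13562) * ((var 0) * (((num 100)) - (((num 31) + (num (-15) * (var 1))) + ((num 43) + (num (-21) * (var 1))) * (var 3))))) + (num 17556 * (((var 0) * (var 1)) * (((num 31) + (num (-15) * (var 1))) + ((num 43) + (num (-21) * (var 1))) * (var 3)))) + (num (-1563) * (((var 0) * (var 1)) * ((num 100)))) + (num 2511 * ((var 0) * (var 2) * (((num 100)) - (((num 31) + (num (-15) * (var 1))) + ((num 43) + (num (-21) * (var 1))) * (var 3)))))))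
    (((num (-14644) * ((var 0) * (((num 100)) - (((num 31) + (num (-15) * (var 1))) + ((num 43) + (num (-21) * (var 1))) * (var 3))))) + (num 17556 * (((var 0) * (var 1)) * (((num 31) + (num (-15) * (var 1))) + ((num 43) + (num (-21) * (var 1))) * (var 3)))) + (num (-2645) * (((var 0) * (var 1)) * ((num 100)))) + (num 2511 * ((var 0) * (var 2) * (((num 100)) - (((num 31) + (num (-15) * (var 1))) + ((num 43) + (num (-21) * (var 1))) * (var 3)))))))
  wd := num 1000 * ((num 100))
  tn := fun b => cond b
    (num 10781 * ((var 1) * ((num 100))))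
    (num 8812 * ((var 1) * ((num 100))))
  td := num 8000 * ((var 1) * ((num 100)) + num 2 * (var 2) * (((num 100)) - (((num 31) + (num (-15) * (var 1))) + ((num 43) + (num (-21) * (var 1))) * (var 3))))
  cn := num 0
  cd := num 1
  kn := ((num 184) + (num 3039 * (var 0)) + (num (-153) * (var 1)) + (num (-68) * (var 2)) + (num 300 * (var 3)) + (num (-1424) * ((var 1) * (var 3))) + (num 740 * ((var 2) * (var 3))) + (num 5824 * ((var 0) * (var 3))))
  kd := num 128
  k2n := ((num (-2242)) + (num 7344 * (var 0)) + (num 3056 * (var 2)))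
  k2d := num 2048

/-- Its ranges. -/
def bxIz245 : StripEnd.EBox :=
  ⟨(20, 23, 160), (2, 5, 5), (75, 89, 100), (0, 1, 1)⟩

end Vale.Agent.P100.Calib.StripEndD
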