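import Vale.Agent.P100.Calib.SlabStripEndIZ7P31

/-!
# A piece of the `I` and `Z` charts for `N` between seven and twenty: 31, the second condition
-/

namespace Vale.Agent.P100.Calib.StripEndD

open Pack hiding ev_add ev_mul
open Pack.Ex StripMid StripEnd

local instance endIZ7G31Add : Add Ex := ⟨Ex.add⟩
local instance endIZ7G31Sub : Sub Ex := ⟨Ex.sub⟩
local instance endIZ7G31Mul : Mul Ex := ⟨Ex.mul⟩

/-- The second condition at the ends, checked. -/
theorem certIz31_g2 : ∀ s p l t : Bool, checkSgn bxIz31.C 574 17 12 18 12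
      (pcIz31.at ⟨p, l, true, true, t⟩ (StripEnd.strict (c2 s))) = true := by
  have hF : ∀ s l t : Bool, checkSgn bxIz31.C 574 17 12 18 12
      (pcIz31.at ⟨false, l, true, true, t⟩ (StripEnd.strict (c2 s))) = true := by decide +kernel
  have hT : ∀ s l t : Bool, checkSgn bxIz31.C 574 17 12 18 12
      (pcIz31.at ⟨true, l, true, true, t⟩ (StripEnd.strict (c2 s))) = true := by decide +kernel
  intro s p
  cases p
  exacts [hF s, hT s]

end Vale.Agent.P100.Calib.StripEndD
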