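import Vale.Agent.P100.Calib.SlabStripEndIZ7P324

/-!
# A piece of the `I` and `Z` charts for `N` between seven and twenty: 324, the second condition
-/

namespace Vale.Agent.P100.Calib.StripEndD

open Pack hiding ev_add ev_mul
open Pack.Ex StripMid StripEnd

local instance endIZ7G324Add : Add Ex := ⟨Ex.add⟩
local instance endIZ7G324Sub : Sub Ex := ⟨Ex.sub⟩
local instance endIZ7G324Mul : Mul Ex := ⟨Ex.mul⟩

/-- The condition `g2` at the ends, checked. -/
theorem certIz324_g2 : ∀ s p l t : Bool, checkSgn bxIz324.C 856 21 13 21 13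
    (pcIz324.at ⟨p, l, true, true, t⟩ (StripEnd.strict (c2 s))) = true := by
  have hfalsefalse : ∀ s t : Bool, checkSgn bxIz324.C 856 21 13 21 13
    (pcIz324.at ⟨false, false, true, true, t⟩ (StripEnd.strict (c2 s))) = true := by decide +kernel
  have hfalsetrue : ∀ s t : Bool, checkSgn bxIz324.C 856 21 13 21 13
    (pcIz324.at ⟨false, true, true, true, t⟩ (StripEnd.strict (c2 s))) = true := by decide +kernel
  have htruefalse : ∀ s t : Bool, checkSgn bxIz324.C 856 21 13 21 13
    (pcIz324.at ⟨true, false, true, true, t⟩ (StripEnd.strict (c2 s))) = true := by decide +kernel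
  have htruetrue : ∀ s t : Bool, checkSgn bxIz324.C 856 21 13 21 13
    (pcIz324.at ⟨true, true, true, true, t⟩ (StripEnd.strict (c2 s))) = true := by decide +kernel
  intro s p l
  rcases p with _ | _ <;> rcases l with _ | _
  exacts [hfalsefalse s, hfalsetrue s, htruefalse s, htruetrue s]

end Vale.Agent.P100.Calib.StripEndD
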