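import Vale.Agent.P100.Calib.SlabStripEndIZ7P6

/-!
# A piece of the `I` and `Z` charts for `N` between seven and twenty: 6, a part of the checks
-/

namespace Vale.Agent.P100.Calib.StripEndD

open Pack hiding ev_add ev_mul
open Pack.Ex StripMid StripEnd

local instance endIZ7G6Add : Add Ex := ⟨Ex.add⟩
local instance endIZ7G6Sub : Sub Ex := ⟨Ex.sub⟩
local instance endIZ7G6Mul : Mul Ex := ⟨Ex.mul⟩

/-- The second condition at the ends. -/
theorem certIz6_g2 : ∀ s p l t : Bool, checkSgn bxIz6.C 421 17 10 17 10
    (strictPow 10 (pcIz6.at ⟨p, l, true, true, t⟩ (c2 s))) = true := by decide +kernel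

end Vale.Agent.P100.Calib.StripEndD
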