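import Vale.Agent.P100.Calib.SlabStripEndIZ7G100

/-!
# A piece of the `I` and `Z` charts for `N` between seven and twenty: 100, the fifth condition
-/

namespace Vale.Agent.P100.Calib.StripEndD

open Pack hiding ev_add ev_mul
open Pack.Ex StripMid StripEnd

local instance endIZ7H100Add : Add Ex := ⟨Ex.add⟩
local instance endIZ7H100Sub : Sub Ex := ⟨Ex.sub⟩
local instance endIZ7H100Mul : Mul Ex := ⟨Ex.mul⟩

/-- The condition `g5` at the ends, checked. -/
theorem certIz100_g5 : ∀ s p l t : Bool, checkSgn bxIz100.C 703 22 11 18 11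
    (pcIz100.at ⟨p, l, true, true, t⟩ (StripEnd.strict (c5 s))) = true := by
  have hfalse : ∀ s l t : Bool, checkSgn bxIz100.C 703 22 11 18 11
    (pcIz100.at ⟨false, l, true, true, t⟩ (StripEnd.strict (c5 s))) = true := by decide +kernel
  have htrue : ∀ s l t : Bool, checkSgn bxIz100.C 703 22 11 18 11
    (pcIz100.at ⟨true, l, true, true, t⟩ (StripEnd.strict (c5 s))) = true := by decide +kernel
  intro s p l
  rcases p with _ | _
  exacts [hfalse s l, htrue s l]

end Vale.Agent.P100.Calib.StripEndD
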