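import Vale.Agent.P100.Calib.SlabStripEndBigSgn
import Vale.Agent.P100.Calib.SlabStripEndIZ7P210
import Vale.Agent.P100.Calib.SlabStripEndDCert
import Vale.Agent.P100.Calib.SlabStripEndBig
import Vale.Agent.P100.Calib.SlabStripEndIZ7G210

/-!
# The checks of the piece 210
-/

namespace Vale.Agent.P100.Calib.StripEndD

open Pack hiding ev_add ev_mul
open Pack.Ex StripMid StripEnd

local instance endIZ7K210Add : Add Ex := ⟨Ex.add⟩
local instance endIZ7K210Sub : Sub Ex := ⟨Ex.sub⟩
local instance endIZ7K210Mul : Mul Ex := ⟨Ex.mul⟩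

/-- **The certificate of `pcIz210`.** -/
theorem certIz210 : Cert pcIz210 bxIz210 := by
  have h_kn : checkBig bxIz210.C 42 1 1 1 1
      pcIz210.kn = true := by decide +kernel
  have h_k2n : checkBig bxIz210.C 160 3 3 3 0
      (strictVar pcIz210.k2n) = true := by decide +kernel
  have h_k2d : checkBig bxIz210.C 157 3 3 3 0
      (strictVar pcIz210.k2d) = true := by decide +kernel
  have h_vs : checkBig bxIz210.C 149 3 3 3 0
      (strictVar pcIz210.vs) = true := by decide +kernel
  have h_g1 : ∀ s p l : Bool, checkBig bxIz210.C 277 9 6 7 5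
      (pcIz210.at ⟨p, l, !s, !s, false⟩ (c1 s)) = true := by decide +kernel
  have h_g2 := certIz210_g2
  have h_g5 : ∀ s p l t : Bool, checkSgn bxIz210.C 652 18 11 16 11
      (pcIz210.at ⟨p, l, true, true, t⟩ (StripEnd.strict (c5 s))) = true := by
    have hf : ∀ s l t : Bool, checkSgn bxIz210.C 652 18 11 16 11
      (pcIz210.at ⟨false, l, true, true, t⟩ (StripEnd.strict (c5 s))) = true := by decide +kernel
    have ht : ∀ s l t : Bool, checkSgn bxIz210.C 652 18 11 16 11
      (pcIz210.at ⟨true, l, true, true, t⟩ (StripEnd.strict (c5 s))) = true := by decide +kernel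
    intro s p l
    rcases p with _ | _
    exacts [hf s l, ht s l]
  have h_gMG : ∀ p l t : Bool, checkBig bxIz210.C 492 17 9 14 9
      (pcIz210.at ⟨p, l, true, false, t⟩ tplMG) = true := by decide +kernel
  have h_v2 : ∀ s : Bool, checkBig bxIz210.C 177 6 4 6 4
      (pcIz210.at ⟨false, false, true, true, false⟩ (curve2 s)) = true := by decide +kernel
  have h_v5 : ∀ s : Bool, checkBig bxIz210.C 189 7 4 7 4
      (pcIz210.at ⟨false, false, true, true, false⟩ (curve5 s)) = true := by decide +kernel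
  have h_vMG : checkBig bxIz210.C 164 6 4 6 4
      (pcIz210.at ⟨false, false, true, true, false⟩ Piece.curveMG) = true := by decide +kernel
  have h_wP : ∀ b q : Bool, checkBig bxIz210.C 48 1 2 0 1
      (pcIz210.winP b q) = true := by decide +kernel
  have h_wE : ∀ b q : Bool, checkBig bxIz210.C 256 13 4 9 3
      (pcIz210.winE b q) = true := by decide +kernel
  have h_wK : ∀ b q : Bool, checkBig bxIz210.C 242 13 4 9 2
      (pcIz210.winK b q) = true := by decide +kernel
  have h_wT : ∀ b q : Bool, checkBig bxIz210.C 189 7 5 5 3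
      (pcIz210.winT b q) = true := by decide +kernel
  have h_wW : ∀ b : Bool, checkBig bxIz210.C 181 7 5 4 3
      (pcIz210.winW b) = true := by decide +kernel
  have h_wY : ∀ b : Bool, checkBig bxIz210.C 421 19 8 14 5
      (pcIz210.winY b) = true := by decide +kernel
  have h_gap : ∀ b q : Bool, checkBig bxIz210.C 485 23 9 18 7
      (pcIz210.gap b q) = true := by decide +kernel
  exact {
    pos := ⟨⟨by decide, by decide⟩⟩
    low := by decide
    sgns := fun f => by
      cases f
      · exact ⟨145, 3, 3, 3, 0, by decide +kernel⟩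
      · exact ⟨145, 3, 3, 3, 0, by decide +kernel⟩
      · exact ⟨149, 3, 3, 3, 0, by decide +kernel⟩
      · exact ⟨149, 3, 3, 3, 0, by decide +kernel⟩
      · exact ⟨148, 3, 3, 3, 0, by decide +kernel⟩
      · exact ⟨157, 3, 3, 3, 0, by decide +kernel⟩
      · exact ⟨158, 3, 3, 3, 1, by decide +kernel⟩
      · exact ⟨159, 3, 3, 3, 1, by decide +kernel⟩
      · exact ⟨154, 3, 3, 3, 0, by decide +kernel⟩
      · exact ⟨174, 3, 3, 3, 1, by decide +kernel⟩
      · exact ⟨171, 3, 3, 3, 0, by decide +kernel⟩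
      · exact ⟨167, 3, 3, 3, 0, by decide +kernel⟩
      · exact ⟨173, 3, 3, 3, 1, by decide +kernel⟩
      · exact ⟨148, 3, 3, 3, 0, by decide +kernel⟩
      · exact ⟨163, 3, 3, 3, 1, by decide +kernel⟩
    kn := ⟨_, _, _, _, _, checkFour_of_big h_kn⟩
    k2n := ⟨_, _, _, _, _, checkFour_of_big h_k2n⟩
    k2d := ⟨_, _, _, _, _, checkFour_of_big h_k2d⟩
    vs := ⟨_, _, _, _, _, checkFour_of_big h_vs⟩
    g1 := fun s p l => ⟨_, _, _, _, _, checkFour_of_big (h_g1 s p l)⟩
    g2 := fun s p l t => ⟨_, _, _, _, _, checkFour_of_sgn (h_g2 s p l t)⟩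
    g5 := fun s p l t => ⟨_, _, _, _, _, checkFour_of_sgn (h_g5 s p l t)⟩
    gMG := fun p l t => ⟨_, _, _, _, _, checkFour_of_big (h_gMG p l t)⟩
    v2 := fun s => ⟨_, _, _, _, _, checkFour_of_big (h_v2 s)⟩
    v5 := fun s => ⟨_, _, _, _, _, checkFour_of_big (h_v5 s)⟩
    vMG := ⟨_, _, _, _, _, checkFour_of_big h_vMG⟩
    wP := fun b q => ⟨_, _, _, _, _, checkFour_of_big (h_wP b q)⟩
    wE := fun b q => ⟨_, _, _, _, _, checkFour_of_big (h_wE b q)⟩
    wK := fun b q => ⟨_, _, _, _, _, checkFour_of_big (h_wK b q)⟩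
    wT := fun b q => ⟨_, _, _, _, _, checkFour_of_big (h_wT b q)⟩
    wW := fun b => ⟨_, _, _, _, _, checkFour_of_big (h_wW b)⟩
    wY := fun b => ⟨_, _, _, _, _, checkFour_of_big (h_wY b)⟩
    gap := fun b q => ⟨_, _, _, _, _, checkFour_of_big (h_gap b q)⟩ }

end Vale.Agent.P100.Calib.StripEndD
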