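import Vale.Agent.P100.Calib.SlabStripEndIZ7Lines

/-!
# Windows of the lines of the `I` and `Z` charts for `N` between seven and twenty (0)
-/

namespace Vale.Agent.P100.Calib.StripEndD

open Pack hiding ev_add ev_mul
open Pack.Ex StripMid StripEnd

local instance endIZ7Win0Add : Add Ex := ⟨Ex.add⟩
local instance endIZ7Win0Sub : Sub Ex := ⟨Ex.sub⟩
local instance endIZ7Win0Mul : Mul Ex := ⟨Ex.mul⟩

/-- A window. -/
theorem izM0_left : Chk ((lineChart izM0 (2, 3, 40) (0, 1, 160) (0, 3, 20) (0, 1) (1, 1)).box (sideUp (0, 1, 1))) ((lineChart izM0 (2, 3, 40) (0, 1, 160) (0, 3, 20) (0, 1) (1, 1)).geoL.loWin 4) :=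
  ⟨215, 13, 6, 8, 3, by decide +kernel⟩

/-- A window. -/
theorem izM2_left : Chk ((lineChart izM2 (3, 4, 40) (0, 1, 50) (0, 3, 40) (0, 1) (1, 1)).box (sideUp (0, 1, 1))) ((lineChart izM2 (3, 4, 40) (0, 1, 50) (0, 3, 40) (0, 1) (1, 1)).geoL.loWin 4) :=
  ⟨213, 13, 6, 8, 3, by decide +kernel⟩

/-- A window. -/
theorem izM4_left : Chk ((lineChart izM4 (10, 11, 80) (0, 1, 50) (0, 3, 40) (0, 1) (1, 1)).box (sideUp (0, 1, 1))) ((lineChart izM4 (10, 11, 80) (0, 1, 50) (0, 3, 40) (0, 1) (1, 1)).geoL.loWin 4) :=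
  ⟨227, 13, 6, 8, 3, by decide +kernel⟩

/-- A window. -/
theorem izM6_left : Chk ((lineChart izM6 (1, 2, 20) (2, 15, 100) (0, 3, 20) (0, 1) (1, 1)).box (sideUp (0, 1, 1))) ((lineChart izM6 (1, 2, 20) (2, 15, 100) (0, 3, 20) (0, 1) (1, 1)).geoL.loWin 4) :=
  ⟨191, 13, 6, 8, 3, by decide +kernel⟩

/-- A window. -/
theorem izM8_left : Chk ((lineChart izM8 (20, 23, 160) (2, 15, 100) (0, 3, 20) (0, 1) (1, 1)).box (sideUp (0, 1, 1))) ((lineChart izM8 (20, 23, 160) (2, 15, 100) (0, 3, 20) (0, 1) (1, 1)).geoL.loWin 4) :=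
  ⟨232, 13, 6, 8, 3, by decide +kernel⟩

/-- A window. -/
theorem izM10_left : Chk ((lineChart izM10 (3, 4, 40) (0, 1, 50) (3, 10, 20) (0, 1) (1, 1)).box (sideUp (0, 1, 1))) ((lineChart izM10 (3, 4, 40) (0, 1, 50) (3, 10, 20) (0, 1) (1, 1)).geoL.loWin 4) :=
  ⟨206, 13, 6, 8, 3, by decide +kernel⟩

/-- A window. -/
theorem izM12_exit : Chk ((lineChart izM12 (4, 5, 40) (0, 1, 50) (13, 20, 40) (0, 1) (1, 1)).box (side (0, 1, 1))) (exitEx (lineChart izM12 (4, 5, 40) (0, 1, 50) (13, 20, 40) (0, 1) (1, 1))) :=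
  ⟨41, 1, 2, 1, 0, by decide +kernel⟩

/-- A window. -/
theorem izM14_exit : Chk ((lineChart izM14 (10, 11, 80) (0, 1, 50) (13, 20, 40) (0, 1) (1, 1)).box (side (0, 1, 1))) (exitEx (lineChart izM14 (10, 11, 80) (0, 1, 50) (13, 20, 40) (0, 1) (1, 1))) :=
  ⟨42, 1, 2, 1, 0, by decide +kernel⟩

/-- A window. -/
theorem izM16_exit0 : Chk ((lineChart izM16 (22, 23, 160) (0, 1, 75) (26, 33, 80) (0, 1) (1, 1)).box (side (0, 1, 1))) (exitEx (lineChart izM16 (22, 23, 160) (0, 1, 75) (26, 33, 80) (0, 1) (1, 1))) :=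
  ⟨45, 1, 2, 1, 0, by decide +kernel⟩

/-- A window. -/
theorem izM17_right : Chk ((lineChart izM17 (1, 2, 20) (2, 15, 100) (3, 10, 20) (0, 1) (1, 1)).box (side (0, 1, 1))) ((lineChart izM17 (1, 2, 20) (2, 15, 100) (3, 10, 20) (0, 1) (1, 1)).geoR.hiWin) :=
  ⟨184, 12, 6, 7, 3, by decide +kernel⟩

/-- A window. -/
theorem izM19_right : Chk ((lineChart izM19 (16, 23, 160) (2, 5, 100) (19, 26, 80) (0, 1) (1, 1)).box (side (0, 1, 1))) ((lineChart izM19 (16, 23, 160) (2, 5, 100) (19, 26, 80) (0, 1) (1, 1)).geoR.hiWin) :=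
  ⟨234, 12, 6, 7, 3, by decide +kernel⟩

/-- A window. -/
theorem izM21_right : Chk ((lineChart izM21 (4, 5, 40) (2, 5, 100) (26, 33, 80) (0, 1) (1, 1)).box (side (0, 1, 1))) ((lineChart izM21 (4, 5, 40) (2, 5, 100) (26, 33, 80) (0, 1) (1, 1)).geoR.hiWin) :=
  ⟨210, 12, 6, 7, 3, by decide +kernel⟩

/-- A window. -/
theorem izM23_right : Chk ((lineChart izM23 (4, 5, 40) (2, 15, 100) (33, 40, 80) (0, 1) (1, 1)).box (side (0, 1, 1))) ((lineChart izM23 (4, 5, 40) (2, 15, 100) (33, 40, 80) (0, 1) (1, 1)).geoR.hiWin) :=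
  ⟨210, 12, 6, 7, 3, by decide +kernel⟩

/-- A window. -/
theorem izM25_right : Chk ((lineChart izM25 (4, 5, 40) (0, 1, 50) (2, 3, 4) (0, 1) (1, 1)).box (side (0, 1, 1))) ((lineChart izM25 (4, 5, 40) (0, 1, 50) (2, 3, 4) (0, 1) (1, 1)).geoR.hiWin) :=
  ⟨181, 12, 6, 7, 3, by decide +kernel⟩

/-- A window. -/
theorem izM27_right : Chk ((lineChart izM27 (1, 2, 20) (2, 15, 100) (2, 3, 4) (0, 1) (1, 1)).box (side (0, 1, 1))) ((lineChart izM27 (1, 2, 20) (2, 15, 100) (2, 3, 4) (0, 1) (1, 1)).geoR.hiWin) :=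
  ⟨168, 12, 6, 7, 3, by decide +kernel⟩

/-- A window. -/
theorem izM29_left : Chk ((lineChart izM29 (20, 23, 160) (2, 15, 100) (8, 9, 16) (0, 1) (1, 1)).box (sideUp (0, 1, 1))) ((lineChart izM29 (20, 23, 160) (2, 15, 100) (8, 9, 16) (0, 1) (1, 1)).geoL.loWin 4) :=
  ⟨230, 13, 6, 8, 3, by decide +kernel⟩

/-- A window. -/
theorem izM30_right : Chk ((lineChart izM30 (20, 23, 160) (2, 15, 100) (5, 6, 8) (0, 1) (1, 1)).box (side (0, 1, 1))) ((lineChart izM30 (20, 23, 160) (2, 15, 100) (5, 6, 8) (0, 1) (1, 1)).geoR.hiWin) :=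
  ⟨212, 12, 6, 7, 3, by decide +kernel⟩

/-- A window. -/
theorem izM32_right : Chk ((lineChart izM32 (16, 23, 160) (3, 20, 20) (0, 1, 4) (0, 1) (1, 1)).box (side (0, 1, 1))) ((lineChart izM32 (16, 23, 160) (3, 20, 20) (0, 1, 4) (0, 1) (1, 1)).geoR.hiWin) :=
  ⟨190, 12, 6, 7, 3, by decide +kernel⟩

/-- A window. -/
theorem izM34_right : Chk ((lineChart izM34 (1, 2, 20) (3, 20, 20) (2, 3, 4) (0, 1) (1, 1)).box (side (0, 1, 1))) ((lineChart izM34 (1, 2, 20) (3, 20, 20) (2, 3, 4) (0, 1) (1, 1)).geoR.hiWin) :=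
  ⟨154, 12, 6, 7, 3, by decide +kernel⟩

/-- A window. -/
theorem izM36_exit : Chk ((lineChart izM36 (3, 4, 40) (0, 1, 50) (75, 92, 100) (0, 1) (1, 1)).box (side (0, 1, 1))) (exitEx (lineChart izM36 (3, 4, 40) (0, 1, 50) (75, 92, 100) (0, 1) (1, 1))) :=
  ⟨42, 1, 2, 1, 0, by decide +kernel⟩

/-- A window. -/
theorem izM38_exit : Chk ((lineChart izM38 (20, 21, 160) (0, 1, 50) (75, 86, 100) (0, 1) (1, 1)).box (side (0, 1, 1))) (exitEx (lineChart izM38 (20, 21, 160) (0, 1, 50) (75, 86, 100) (0, 1) (1, 1))) :=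
  ⟨44, 1, 2, 1, 0, by decide +kernel⟩

/-- A window. -/
theorem izM40_exit : Chk ((lineChart izM40 (43, 44, 320) (0, 1, 160) (75, 83, 100) (0, 1) (1, 1)).box (side (0, 1, 1))) (exitEx (lineChart izM40 (43, 44, 320) (0, 1, 160) (75, 83, 100) (0, 1) (1, 1))) :=
  ⟨49, 1, 2, 1, 0, by decide +kernel⟩

/-- A window. -/
theorem izM42_left : Chk ((lineChart izM42 (2, 3, 40) (1, 50, 50) (15, 19, 20) (0, 1) (1, 1)).box (sideUp (0, 1, 1))) ((lineChart izM42 (2, 3, 40) (1, 50, 50) (15, 19, 20) (0, 1) (1, 1)).geoL.loWin 4) :=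
  ⟨199, 13, 6, 8, 3, by decide +kernel⟩

/-- A window. -/
theorem izM44_left : Chk ((lineChart izM44 (1, 2, 20) (1, 2, 1) (0, 1, 2) (0, 1) (1, 1)).box (sideUp (0, 1, 1))) ((lineChart izM44 (1, 2, 20) (1, 2, 1) (0, 1, 2) (0, 1) (1, 1)).geoL.loWin 4) :=
  ⟨126, 13, 6, 8, 3, by decide +kernel⟩

/-- A window. -/
theorem izM46_left : Chk ((lineChart izM46 (16, 23, 160) (1, 2, 1) (0, 1, 2) (0, 1) (1, 1)).box (sideUp (0, 1, 1))) ((lineChart izM46 (16, 23, 160) (1, 2, 1) (0, 1, 2) (0, 1) (1, 1)).geoL.loWin 4) :=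
  ⟨166, 13, 6, 8, 3, by decide +kernel⟩

/-- A window. -/
theorem izM48_left : Chk ((lineChart izM48 (1, 2, 20) (2, 4, 1) (2, 3, 4) (0, 1) (1, 1)).box (sideUp (0, 1, 1))) ((lineChart izM48 (1, 2, 20) (2, 4, 1) (2, 3, 4) (0, 1) (1, 1)).geoL.loWin 4) :=
  ⟨135, 13, 6, 8, 3, by decide +kernel⟩

/-- A window. -/
theorem izM50_left0 : Chk ((lineChart izM50 (1, 2, 20) (1, 2, 1) (15, 19, 20) (0, 1) (1, 1)).box (sideUp (0, 1, 1))) ((lineChart izM50 (1, 2, 20) (1, 2, 1) (15, 19, 20) (0, 1) (1, 1)).geoL.loWin 4) :=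
  ⟨153, 13, 6, 8, 3, by decide +kernel⟩

/-- A window. -/
theorem izM51_right : Chk ((lineChart izM51 (16, 23, 160) (1, 2, 1) (75, 89, 100) (0, 1) (1, 1)).box (side (0, 1, 1))) ((lineChart izM51 (16, 23, 160) (1, 2, 1) (75, 89, 100) (0, 1) (1, 1)).geoR.hiWin) :=
  ⟨197, 12, 6, 7, 3, by decide +kernel⟩

/-- A window. -/
theorem izM53_right : Chk ((lineChart izM53 (3, 4, 40) (0, 1, 50) (22, 25, 25) (0, 1) (1, 1)).box (side (0, 1, 1))) ((lineChart izM53 (3, 4, 40) (0, 1, 50) (22, 25, 25) (0, 1) (1, 1)).geoR.hiWin) :=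
  ⟨199, 12, 6, 7, 3, by decide +kernel⟩

/-- A window. -/
theorem izM55_right : Chk ((lineChart izM55 (20, 21, 160) (0, 1, 160) (21, 25, 25) (0, 1) (1, 1)).box (side (0, 1, 1))) ((lineChart izM55 (20, 21, 160) (0, 1, 160) (21, 25, 25) (0, 1) (1, 1)).geoR.hiWin) :=
  ⟨234, 12, 6, 7, 3, by decide +kernel⟩

/-- A window. -/
theorem izM57_right : Chk ((lineChart izM57 (22, 23, 160) (0, 1, 50) (19, 26, 80) (0, 1) (1, 1)).box (side (0, 1, 1))) ((lineChart izM57 (22, 23, 160) (0, 1, 50) (19, 26, 80) (0, 1) (1, 1)).geoR.hiWin) :=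
  ⟨235, 12, 6, 7, 3, by decide +kernel⟩

/-- A window. -/
theorem izM59_right : Chk ((lineChart izM59 (20, 23, 160) (2, 15, 100) (33, 40, 80) (0, 1) (1, 1)).box (side (0, 1, 1))) ((lineChart izM59 (20, 23, 160) (2, 15, 100) (33, 40, 80) (0, 1) (1, 1)).geoR.hiWin) :=
  ⟨235, 12, 6, 7, 3, by decide +kernel⟩

/-- A window. -/
theorem izM61_right : Chk ((lineChart izM61 (20, 23, 160) (2, 5, 100) (26, 33, 80) (0, 1) (1, 1)).box (side (0, 1, 1))) ((lineChart izM61 (20, 23, 160) (2, 5, 100) (26, 33, 80) (0, 1) (1, 1)).geoR.hiWin) :=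
  ⟨234, 12, 6, 7, 3, by decide +kernel⟩

/-- A window. -/
theorem izM63_right : Chk ((lineChart izM63 (10, 11, 80) (0, 1, 50) (3, 6, 40) (0, 1) (1, 1)).box (side (0, 1, 1))) ((lineChart izM63 (10, 11, 80) (0, 1, 50) (3, 6, 40) (0, 1) (1, 1)).geoR.hiWin) :=
  ⟨216, 12, 6, 7, 3, by decide +kernel⟩

/-- A window. -/
theorem izM65_right : Chk ((lineChart izM65 (16, 23, 160) (1, 3, 20) (19, 26, 80) (0, 1) (1, 1)).box (side (0, 1, 1))) ((lineChart izM65 (16, 23, 160) (1, 3, 20) (19, 26, 80) (0, 1) (1, 1)).geoR.hiWin) :=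
  ⟨220, 12, 6, 7, 3, by decide +kernel⟩

/-- A window. -/
theorem izM67_right : Chk ((lineChart izM67 (16, 23, 160) (3, 20, 20) (5, 6, 8) (0, 1) (1, 1)).box (side (0, 1, 1))) ((lineChart izM67 (16, 23, 160) (3, 20, 20) (5, 6, 8) (0, 1) (1, 1)).geoR.hiWin) :=
  ⟨197, 12, 6, 7, 3, by decide +kernel⟩

/-- A window. -/
theorem izM69_right : Chk ((lineChart izM69 (2, 3, 40) (5, 16, 800) (15, 19, 20) (0, 1) (1, 1)).box (side (0, 1, 1))) ((lineChart izM69 (2, 3, 40) (5, 16, 800) (15, 19, 20) (0, 1) (1, 1)).geoR.hiWin) :=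
  ⟨221, 12, 6, 7, 3, by decide +kernel⟩

/-- A window. -/
theorem izM71_right : Chk ((lineChart izM71 (4, 5, 40) (3, 20, 20) (75, 89, 100) (0, 1) (1, 1)).box (side (0, 1, 1))) ((lineChart izM71 (4, 5, 40) (3, 20, 20) (75, 89, 100) (0, 1) (1, 1)).geoR.hiWin) :=
  ⟨199, 12, 6, 7, 3, by decide +kernel⟩

/-- A window. -/
theorem izM73_right : Chk ((lineChart izM73 (20, 23, 160) (3, 20, 20) (75, 89, 100) (0, 1) (1, 1)).box (side (0, 1, 1))) ((lineChart izM73 (20, 23, 160) (3, 20, 20) (75, 89, 100) (0, 1) (1, 1)).geoR.hiWin) :=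
  ⟨223, 12, 6, 7, 3, by decide +kernel⟩

/-- A window. -/
theorem izM75_right : Chk ((lineChart izM75 (1, 2, 20) (2, 15, 100) (22, 25, 25) (0, 1) (1, 1)).box (side (0, 1, 1))) ((lineChart izM75 (1, 2, 20) (2, 15, 100) (22, 25, 25) (0, 1) (1, 1)).geoR.hiWin) :=
  ⟨186, 12, 6, 7, 3, by decide +kernel⟩

/-- A window. -/
theorem izM77_right : Chk ((lineChart izM77 (5, 6, 50) (8, 25, 400) (21, 25, 25) (0, 1) (1, 1)).box (side (0, 1, 1))) ((lineChart izM77 (5, 6, 50) (8, 25, 400) (21, 25, 25) (0, 1) (1, 1)).geoR.hiWin) :=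
  ⟨215, 12, 6, 7, 3, by decide +kernel⟩

/-- A window. -/
theorem izM79_right : Chk ((lineChart izM79 (24, 27, 200) (2, 15, 100) (21, 25, 25) (0, 1) (1, 1)).box (side (0, 1, 1))) ((lineChart izM79 (24, 27, 200) (2, 15, 100) (21, 25, 25) (0, 1) (1, 1)).geoR.hiWin) :=
  ⟨227, 12, 6, 7, 3, by decide +kernel⟩

/-- A window. -/
theorem izM81_right : Chk ((lineChart izM81 (4, 5, 40) (3, 10, 1600) (17, 20, 20) (0, 1) (1, 1)).box (side (0, 1, 1))) ((lineChart izM81 (4, 5, 40) (3, 10, 1600) (17, 20, 20) (0, 1) (1, 1)).geoR.hiWin) :=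
  ⟨228, 12, 6, 7, 3, by decide +kernel⟩

/-- A window. -/
theorem izM83_right : Chk ((lineChart izM83 (20, 21, 160) (5, 16, 800) (21, 25, 25) (0, 1) (1, 1)).box (side (0, 1, 1))) ((lineChart izM83 (20, 21, 160) (5, 16, 800) (21, 25, 25) (0, 1) (1, 1)).geoR.hiWin) :=
  ⟨248, 12, 6, 7, 3, by decide +kernel⟩

/-- A window. -/
theorem izL0_down : Chk ((lineChart izL0 (2, 3, 40) (0, 1, 160) (0, 3, 20) (92, 50) (106, 50)).box (side (0, 1, 1))) ((lineChart izL0 (2, 3, 40) (0, 1, 160) (0, 3, 20) (92, 50) (106, 50)).geo.muLo (92, 50)) :=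
  ⟨255, 13, 8, 9, 4, by decide +kernel⟩

/-- A window. -/
theorem izL2_down : Chk ((lineChart izL2 (3, 4, 40) (0, 1, 50) (0, 3, 40) (88, 50) (108, 50)).box (side (0, 1, 1))) ((lineChart izL2 (3, 4, 40) (0, 1, 50) (0, 3, 40) (88, 50) (108, 50)).geo.muLo (88, 50)) :=
  ⟨251, 13, 8, 9, 4, by decide +kernel⟩

/-- A window. -/
theorem izL4_down : Chk ((lineChart izL4 (10, 11, 80) (0, 1, 50) (0, 3, 40) (96, 50) (107, 50)).box (side (0, 1, 1))) ((lineChart izL4 (10, 11, 80) (0, 1, 50) (0, 3, 40) (96, 50) (107, 50)).geo.muLo (96, 50)) :=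
  ⟨264, 13, 8, 9, 4, by decide +kernel⟩

/-- A window. -/
theorem izL6_down : Chk ((lineChart izL6 (1, 2, 20) (2, 15, 100) (0, 3, 20) (92, 50) (109, 50)).box (side (0, 1, 1))) ((lineChart izL6 (1, 2, 20) (2, 15, 100) (0, 3, 20) (92, 50) (109, 50)).geo.muLo (92, 50)) :=
  ⟨227, 13, 8, 9, 4, by decide +kernel⟩

/-- A window. -/
theorem izL8_down : Chk ((lineChart izL8 (20, 23, 160) (2, 15, 100) (0, 3, 40) (89, 50) (113, 50)).box (side (0, 1, 1))) ((lineChart izL8 (20, 23, 160) (2, 15, 100) (0, 3, 40) (89, 50) (113, 50)).geo.muLo (89, 50)) :=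
  ⟨276, 13, 8, 9, 4, by decide +kernel⟩

/-- A window. -/
theorem izL10_down : Chk ((lineChart izL10 (6, 7, 80) (0, 1, 50) (3, 10, 20) (93, 50) (118, 50)).box (side (0, 1, 1))) ((lineChart izL10 (6, 7, 80) (0, 1, 50) (3, 10, 20) (93, 50) (118, 50)).geo.muLo (93, 50)) :=
  ⟨255, 13, 8, 9, 4, by decide +kernel⟩

/-- A window. -/
theorem izL12_down : Chk ((lineChart izL12 (4, 5, 40) (0, 1, 50) (26, 33, 80) (96, 50) (124, 50)).box (side (0, 1, 1))) ((lineChart izL12 (4, 5, 40) (0, 1, 50) (26, 33, 80) (96, 50) (124, 50)).geo.muLo (96, 50)) :=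
  ⟨260, 13, 8, 9, 4, by decide +kernel⟩

/-- A window. -/
theorem izL14_down : Chk ((lineChart izL14 (10, 11, 80) (0, 1, 50) (26, 33, 80) (96, 50) (127, 50)).box (side (0, 1, 1))) ((lineChart izL14 (10, 11, 80) (0, 1, 50) (26, 33, 80) (96, 50) (127, 50)).geo.muLo (96, 50)) :=
  ⟨273, 13, 8, 9, 4, by decide +kernel⟩

/-- A window. -/
theorem izL16_down : Chk ((lineChart izL16 (22, 23, 160) (0, 1, 50) (26, 33, 80) (96, 50) (129, 50)).box (side (0, 1, 1))) ((lineChart izL16 (22, 23, 160) (0, 1, 50) (26, 33, 80) (96, 50) (129, 50)).geo.muLo (96, 50)) :=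
  ⟨287, 13, 8, 9, 4, by decide +kernel⟩

/-- A window. -/
theorem izL18_down : Chk ((lineChart izL18 (16, 23, 160) (2, 5, 100) (12, 19, 80) (90, 50) (118, 50)).box (side (0, 1, 1))) ((lineChart izL18 (16, 23, 160) (2, 5, 100) (12, 19, 80) (90, 50) (118, 50)).geo.muLo (90, 50)) :=
  ⟨285, 13, 8, 9, 4, by decide +kernel⟩

/-- A window. -/
theorem izL20_down : Chk ((lineChart izL20 (16, 23, 160) (1, 3, 20) (12, 19, 80) (90, 50) (118, 50)).box (side (0, 1, 1))) ((lineChart izL20 (16, 23, 160) (1, 3, 20) (12, 19, 80) (90, 50) (118, 50)).geo.muLo (90, 50)) :=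
  ⟨266, 13, 8, 9, 4, by decide +kernel⟩

/-- A window. -/
theorem izL22_down : Chk ((lineChart izL22 (16, 23, 160) (1, 3, 20) (26, 33, 80) (93, 50) (128, 50)).box (side (0, 1, 1))) ((lineChart izL22 (16, 23, 160) (1, 3, 20) (26, 33, 80) (93, 50) (128, 50)).geo.muLo (93, 50)) :=
  ⟨267, 13, 8, 9, 4, by decide +kernel⟩

/-- A window. -/
theorem izL24_down : Chk ((lineChart izL24 (1, 2, 20) (0, 1, 50) (2, 3, 4) (99, 50) (134, 50)).box (side (0, 1, 1))) ((lineChart izL24 (1, 2, 20) (0, 1, 50) (2, 3, 4) (99, 50) (134, 50)).geo.muLo (99, 50)) :=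
  ⟨208, 13, 8, 9, 4, by decide +kernel⟩

/-- A window. -/
theorem izL26_down : Chk ((lineChart izL26 (4, 5, 40) (0, 1, 160) (2, 3, 4) (101, 50) (131, 50)).box (side (0, 1, 1))) ((lineChart izL26 (4, 5, 40) (0, 1, 160) (2, 3, 4) (101, 50) (131, 50)).geo.muLo (101, 50)) :=
  ⟨235, 13, 8, 9, 4, by decide +kernel⟩

/-- A window. -/
theorem izL28_down : Chk ((lineChart izL28 (10, 11, 80) (0, 1, 50) (2, 3, 4) (125, 50) (156, 50)).box (side (0, 1, 1))) ((lineChart izL28 (10, 11, 80) (0, 1, 50) (2, 3, 4) (125, 50) (156, 50)).geo.muLo (125, 50)) :=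
  ⟨235, 13, 8, 9, 4, by decide +kernel⟩

/-- A window. -/
theorem izL30_down : Chk ((lineChart izL30 (10, 11, 80) (0, 1, 50) (2, 3, 4) (103, 50) (137, 50)).box (side (0, 1, 1))) ((lineChart izL30 (10, 11, 80) (0, 1, 50) (2, 3, 4) (103, 50) (137, 50)).geo.muLo (103, 50)) :=
  ⟨235, 13, 8, 9, 4, by decide +kernel⟩

/-- A window. -/
theorem izL32_down : Chk ((lineChart izL32 (1, 2, 20) (2, 15, 100) (2, 3, 4) (94, 50) (133, 50)).box (side (0, 1, 1))) ((lineChart izL32 (1, 2, 20) (2, 15, 100) (2, 3, 4) (94, 50) (133, 50)).geo.muLo (94, 50)) :=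
  ⟨207, 13, 8, 9, 4, by decide +kernel⟩

/-- A window. -/
theorem izL34_down : Chk ((lineChart izL34 (20, 23, 160) (2, 15, 100) (8, 9, 16) (97, 50) (141, 50)).box (side (0, 1, 1))) ((lineChart izL34 (20, 23, 160) (2, 15, 100) (8, 9, 16) (97, 50) (141, 50)).geo.muLo (97, 50)) :=
  ⟨265, 13, 8, 9, 4, by decide +kernel⟩

/-- A window. -/
theorem izL36_down : Chk ((lineChart izL36 (1, 2, 20) (3, 20, 20) (0, 1, 2) (80, 50) (119, 50)).box (side (0, 1, 1))) ((lineChart izL36 (1, 2, 20) (3, 20, 20) (0, 1, 2) (80, 50) (119, 50)).geo.muLo (80, 50)) :=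
  ⟨179, 13, 8, 9, 4, by decide +kernel⟩

/-- A window. -/
theorem izL38_down : Chk ((lineChart izL38 (16, 23, 160) (3, 20, 20) (2, 3, 8) (70, 50) (133, 50)).box (side (0, 1, 1))) ((lineChart izL38 (16, 23, 160) (3, 20, 20) (2, 3, 8) (70, 50) (133, 50)).geo.muLo (70, 50)) :=
  ⟨237, 13, 8, 9, 4, by decide +kernel⟩

/-- A window. -/
theorem izL40_down : Chk ((lineChart izL40 (16, 23, 160) (3, 20, 20) (4, 5, 8) (71, 50) (140, 50)).box (side (0, 1, 1))) ((lineChart izL40 (16, 23, 160) (3, 20, 20) (4, 5, 8) (71, 50) (140, 50)).geo.muLo (71, 50)) :=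
  ⟨237, 13, 8, 9, 4, by decide +kernel⟩

/-- A window. -/
theorem izL44_down : Chk ((lineChart izL44 (3, 4, 40) (0, 1, 160) (75, 92, 100) (105, 50) (125, 50)).box (side (0, 1, 1))) ((lineChart izL44 (3, 4, 40) (0, 1, 160) (75, 92, 100) (105, 50) (125, 50)).geo.muLo (105, 50)) :=
  ⟨276, 13, 8, 9, 4, by decide +kernel⟩

/-- A window. -/
theorem izL47_down : Chk ((lineChart izL47 (4, 5, 40) (0, 1, 160) (75, 89, 100) (121, 50) (152, 50)).box (side (0, 1, 1))) ((lineChart izL47 (4, 5, 40) (0, 1, 160) (75, 89, 100) (121, 50) (152, 50)).geo.muLo (121, 50)) :=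
  ⟨277, 13, 8, 9, 4, by decide +kernel⟩

/-- A window. -/
theorem izL49_down : Chk ((lineChart izL49 (4, 5, 40) (0, 1, 50) (75, 89, 100) (120, 50) (143, 50)).box (side (0, 1, 1))) ((lineChart izL49 (4, 5, 40) (0, 1, 50) (75, 89, 100) (120, 50) (143, 50)).geo.muLo (120, 50)) :=
  ⟨263, 13, 8, 9, 4, by decide +kernel⟩

/-- A window. -/
theorem izL51_down : Chk ((lineChart izL51 (4, 5, 40) (0, 1, 1600) (75, 89, 100) (109, 50) (135, 50)).box (side (0, 1, 1))) ((lineChart izL51 (4, 5, 40) (0, 1, 1600) (75, 89, 100) (109, 50) (135, 50)).geo.muLo (109, 50)) :=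
  ⟨303, 13, 8, 9, 4, by decide +kernel⟩

/-- A window. -/
theorem izL53_down : Chk ((lineChart izL53 (4, 5, 40) (3, 6, 1600) (75, 89, 100) (109, 50) (141, 50)).box (side (0, 1, 1))) ((lineChart izL53 (4, 5, 40) (3, 6, 1600) (75, 89, 100) (109, 50) (141, 50)).geo.muLo (109, 50)) :=
  ⟨303, 13, 8, 9, 4, by decide +kernel⟩

/-- A window. -/
theorem izL55_down : Chk ((lineChart izL55 (4, 5, 40) (5, 8, 800) (75, 89, 100) (109, 50) (141, 50)).box (side (0, 1, 1))) ((lineChart izL55 (4, 5, 40) (5, 8, 800) (75, 89, 100) (109, 50) (141, 50)).geo.muLo (109, 50)) :=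
  ⟨295, 13, 8, 9, 4, by decide +kernel⟩

/-- A window. -/
theorem izL58_down : Chk ((lineChart izL58 (20, 21, 160) (0, 1, 50) (75, 86, 100) (119, 50) (140, 50)).box (side (0, 1, 1))) ((lineChart izL58 (20, 21, 160) (0, 1, 50) (75, 86, 100) (119, 50) (140, 50)).geo.muLo (119, 50)) :=
  ⟨289, 13, 8, 9, 4, by decide +kernel⟩

/-- A window. -/
theorem izL60_down : Chk ((lineChart izL60 (20, 21, 160) (0, 1, 160) (150, 161, 200) (115, 50) (134, 50)).box (side (0, 1, 1))) ((lineChart izL60 (20, 21, 160) (0, 1, 160) (150, 161, 200) (115, 50) (134, 50)).geo.muLo (115, 50)) :=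
  ⟨312, 13, 8, 9, 4, by decide +kernel⟩

/-- A window. -/
theorem izL62_down : Chk ((lineChart izL62 (40, 41, 320) (0, 1, 50) (161, 172, 200) (116, 50) (135, 50)).box (side (0, 1, 1))) ((lineChart izL62 (40, 41, 320) (0, 1, 50) (161, 172, 200) (116, 50) (135, 50)).geo.muLo (116, 50)) :=
  ⟨311, 13, 8, 9, 4, by decide +kernel⟩

/-- A window. -/
theorem izL65_down : Chk ((lineChart izL65 (42, 43, 320) (0, 1, 50) (15, 17, 20) (121, 50) (142, 50)).box (side (0, 1, 1))) ((lineChart izL65 (42, 43, 320) (0, 1, 50) (15, 17, 20) (121, 50) (142, 50)).geo.muLo (121, 50)) :=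
  ⟨282, 13, 8, 9, 4, by decide +kernel⟩

/-- A window. -/
theorem izL67_down : Chk ((lineChart izL67 (84, 85, 640) (0, 1, 50) (15, 17, 20) (115, 50) (137, 50)).box (side (0, 1, 1))) ((lineChart izL67 (84, 85, 640) (0, 1, 50) (15, 17, 20) (115, 50) (137, 50)).geo.muLo (115, 50)) :=
  ⟨295, 13, 8, 9, 4, by decide +kernel⟩

/-- A window. -/
theorem izL70_down : Chk ((lineChart izL70 (43, 44, 320) (0, 1, 160) (75, 83, 100) (121, 50) (143, 50)).box (side (0, 1, 1))) ((lineChart izL70 (43, 44, 320) (0, 1, 160) (75, 83, 100) (121, 50) (143, 50)).geo.muLo (121, 50)) :=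
  ⟨316, 13, 8, 9, 4, by decide +kernel⟩

/-- A window. -/
theorem izL72_down : Chk ((lineChart izL72 (43, 44, 320) (3, 10, 1600) (75, 83, 100) (117, 50) (139, 50)).box (side (0, 1, 1))) ((lineChart izL72 (43, 44, 320) (3, 10, 1600) (75, 83, 100) (117, 50) (139, 50)).geo.muLo (117, 50)) :=
  ⟨343, 13, 8, 9, 4, by decide +kernel⟩

/-- A window. -/
theorem izL75_down : Chk ((lineChart izL75 (22, 23, 160) (0, 1, 50) (15, 16, 20) (127, 50) (153, 50)).box (side (0, 1, 1))) ((lineChart izL75 (22, 23, 160) (0, 1, 50) (15, 16, 20) (127, 50) (153, 50)).geo.muLo (127, 50)) :=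
  ⟨269, 13, 8, 9, 4, by decide +kernel⟩

/-- A window. -/
theorem izL77_down : Chk ((lineChart izL77 (22, 23, 160) (3, 10, 1600) (15, 16, 20) (118, 50) (142, 50)).box (side (0, 1, 1))) ((lineChart izL77 (22, 23, 160) (3, 10, 1600) (15, 16, 20) (118, 50) (142, 50)).geo.muLo (118, 50)) :=
  ⟨309, 13, 8, 9, 4, by decide +kernel⟩

/-- A window. -/
theorem izL79_down : Chk ((lineChart izL79 (2, 3, 40) (1, 50, 50) (15, 19, 20) (84, 50) (128, 50)).box (side (0, 1, 1))) ((lineChart izL79 (2, 3, 40) (1, 50, 50) (15, 19, 20) (84, 50) (128, 50)).geo.muLo (84, 50)) :=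
  ⟨233, 13, 8, 9, 4, by decide +kernel⟩

/-- A window. -/
theorem izL84_down : Chk ((lineChart izL84 (1, 2, 20) (1, 2, 1) (0, 1, 2) (68, 50) (125, 50)).box (side (0, 1, 1))) ((lineChart izL84 (1, 2, 20) (1, 2, 1) (0, 1, 2) (68, 50) (125, 50)).geo.muLo (68, 50)) :=
  ⟨144, 13, 8, 9, 4, by decide +kernel⟩

/-- A window. -/
theorem izL86_down : Chk ((lineChart izL86 (16, 23, 160) (1, 2, 1) (0, 1, 2) (46, 50) (154, 50)).box (side (0, 1, 1))) ((lineChart izL86 (16, 23, 160) (1, 2, 1) (0, 1, 2) (46, 50) (154, 50)).geo.muLo (46, 50)) :=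
  ⟨184, 13, 8, 9, 4, by decide +kernel⟩

/-- A window. -/
theorem izL88_down : Chk ((lineChart izL88 (1, 2, 20) (2, 4, 1) (2, 3, 4) (29, 50) (152, 50)).box (side (0, 1, 1))) ((lineChart izL88 (1, 2, 20) (2, 4, 1) (2, 3, 4) (29, 50) (152, 50)).geo.muLo (29, 50)) :=
  ⟨153, 13, 8, 9, 4, by decide +kernel⟩

/-- A window. -/
theorem izL90_down : Chk ((lineChart izL90 (1, 2, 20) (1, 4, 1) (15, 19, 20) (29, 50) (153, 50)).box (side (0, 1, 1))) ((lineChart izL90 (1, 2, 20) (1, 4, 1) (15, 19, 20) (29, 50) (153, 50)).geo.muLo (29, 50)) :=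
  ⟨174, 13, 8, 9, 4, by decide +kernel⟩

/-- A window. -/
theorem izL92_down : Chk ((lineChart izL92 (2, 3, 40) (0, 1, 50) (9, 10, 10) (104, 50) (131, 50)).box (side (0, 1, 1))) ((lineChart izL92 (2, 3, 40) (0, 1, 50) (9, 10, 10) (104, 50) (131, 50)).geo.muLo (104, 50)) :=
  ⟨233, 13, 8, 9, 4, by decide +kernel⟩

/-- A window. -/
theorem izL94_down : Chk ((lineChart izL94 (3, 4, 40) (0, 1, 50) (22, 25, 25) (110, 50) (131, 50)).box (side (0, 1, 1))) ((lineChart izL94 (3, 4, 40) (0, 1, 50) (22, 25, 25) (110, 50) (131, 50)).geo.muLo (110, 50)) :=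
  ⟨245, 13, 8, 9, 4, by decide +kernel⟩

/-- A window. -/
theorem izL96_down : Chk ((lineChart izL96 (8, 9, 80) (0, 1, 500) (17, 20, 20) (119, 50) (157, 50)).box (side (0, 1, 1))) ((lineChart izL96 (8, 9, 80) (0, 1, 500) (17, 20, 20) (119, 50) (157, 50)).geo.muLo (119, 50)) :=
  ⟨282, 13, 8, 9, 4, by decide +kernel⟩

/-- A window. -/
theorem izL100_down : Chk ((lineChart izL100 (20, 21, 160) (0, 1, 160) (21, 25, 25) (147, 50) (175, 50)).box (side (0, 1, 1))) ((lineChart izL100 (20, 21, 160) (0, 1, 160) (21, 25, 25) (147, 50) (175, 50)).geo.muLo (147, 50)) :=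
  ⟨285, 13, 8, 9, 4, by decide +kernel⟩

/-- A window. -/
theorem izL102_down : Chk ((lineChart izL102 (20, 21, 160) (0, 1, 500) (21, 25, 25) (123, 50) (153, 50)).box (side (0, 1, 1))) ((lineChart izL102 (20, 21, 160) (0, 1, 500) (21, 25, 25) (123, 50) (153, 50)).geo.muLo (123, 50)) :=
  ⟨298, 13, 8, 9, 4, by decide +kernel⟩

/-- A window. -/
theorem izL104_down : Chk ((lineChart izL104 (50, 51, 400) (0, 1, 500) (21, 25, 25) (120, 50) (140, 50)).box (side (0, 1, 1))) ((lineChart izL104 (50, 51, 400) (0, 1, 500) (21, 25, 25) (120, 50) (140, 50)).geo.muLo (120, 50)) :=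
  ⟨315, 13, 8, 9, 4, by decide +kernel⟩

/-- A window. -/
theorem izL106_down : Chk ((lineChart izL106 (102, 105, 800) (0, 1, 500) (22, 25, 25) (123, 50) (142, 50)).box (side (0, 1, 1))) ((lineChart izL106 (102, 105, 800) (0, 1, 500) (22, 25, 25) (123, 50) (142, 50)).geo.muLo (123, 50)) :=
  ⟨328, 13, 8, 9, 4, by decide +kernel⟩

/-- A window. -/
theorem izL109_down : Chk ((lineChart izL109 (20, 21, 160) (3, 5, 800) (21, 25, 25) (119, 50) (153, 50)).box (side (0, 1, 1))) ((lineChart izL109 (20, 21, 160) (3, 5, 800) (21, 25, 25) (119, 50) (153, 50)).geo.muLo (119, 50)) :=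
  ⟨304, 13, 8, 9, 4, by decide +kernel⟩

/-- A window. -/
theorem izL112_down : Chk ((lineChart izL112 (2625, 2672, 20000) (0, 1, 50) (42, 45, 50) (130, 50) (154, 50)).box (side (0, 1, 1))) ((lineChart izL112 (2625, 2672, 20000) (0, 1, 50) (42, 45, 50) (130, 50) (154, 50)).geo.muLo (130, 50)) :=
  ⟨371, 13, 8, 9, 4, by decide +kernel⟩

/-- A window. -/
theorem izL114_down : Chk ((lineChart izL114 (105, 108, 800) (3, 10, 1600) (42, 45, 50) (123, 50) (143, 50)).box (side (0, 1, 1))) ((lineChart izL114 (105, 108, 800) (3, 10, 1600) (42, 45, 50) (123, 50) (143, 50)).geo.muLo (123, 50)) :=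
  ⟨351, 13, 8, 9, 4, by decide +kernel⟩

/-- A window. -/
theorem izL116_down : Chk ((lineChart izL116 (105, 108, 800) (0, 1, 160) (35, 36, 40) (123, 50) (140, 50)).box (side (0, 1, 1))) ((lineChart izL116 (105, 108, 800) (0, 1, 160) (35, 36, 40) (123, 50) (140, 50)).geo.muLo (123, 50)) :=
  ⟨321, 13, 8, 9, 4, by decide +kernel⟩

/-- A window. -/
theorem izL121_down : Chk ((lineChart izL121 (22, 23, 160) (0, 1, 50) (19, 26, 80) (94, 50) (123, 50)).box (side (0, 1, 1))) ((lineChart izL121 (22, 23, 160) (0, 1, 50) (19, 26, 80) (94, 50) (123, 50)).geo.muLo (94, 50)) :=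
  ⟨286, 13, 8, 9, 4, by decide +kernel⟩

/-- A window. -/
theorem izL123_down : Chk ((lineChart izL123 (20, 23, 160) (2, 15, 100) (33, 40, 80) (95, 50) (136, 50)).box (side (0, 1, 1))) ((lineChart izL123 (20, 23, 160) (2, 15, 100) (33, 40, 80) (95, 50) (136, 50)).geo.muLo (95, 50)) :=
  ⟨285, 13, 8, 9, 4, by decide +kernel⟩

/-- A window. -/
theorem izL125_down : Chk ((lineChart izL125 (22, 23, 160) (0, 1, 50) (4, 5, 8) (129, 50) (148, 50)).box (side (0, 1, 1))) ((lineChart izL125 (22, 23, 160) (0, 1, 50) (4, 5, 8) (129, 50) (148, 50)).geo.muLo (129, 50)) :=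
  ⟨257, 13, 8, 9, 4, by decide +kernel⟩

/-- A window. -/
theorem izL127_down : Chk ((lineChart izL127 (22, 23, 160) (0, 1, 50) (3, 6, 40) (88, 50) (116, 50)).box (side (0, 1, 1))) ((lineChart izL127 (22, 23, 160) (0, 1, 50) (3, 6, 40) (88, 50) (116, 50)).geo.muLo (88, 50)) :=
  ⟨277, 13, 8, 9, 4, by decide +kernel⟩

/-- A window. -/
theorem izL129_down : Chk ((lineChart izL129 (3, 4, 40) (0, 1, 50) (3, 6, 40) (91, 50) (109, 50)).box (side (0, 1, 1))) ((lineChart izL129 (3, 4, 40) (0, 1, 50) (3, 6, 40) (91, 50) (109, 50)).geo.muLo (91, 50)) :=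
  ⟨251, 13, 8, 9, 4, by decide +kernel⟩

/-- A window. -/
theorem izL131_down : Chk ((lineChart izL131 (16, 23, 160) (3, 20, 20) (3, 4, 8) (69, 50) (137, 50)).box (side (0, 1, 1))) ((lineChart izL131 (16, 23, 160) (3, 20, 20) (3, 4, 8) (69, 50) (137, 50)).geo.muLo (69, 50)) :=
  ⟨237, 13, 8, 9, 4, by decide +kernel⟩

/-- A window. -/
theorem izL200_down : Chk ((lineChart izL200 (2, 3, 40) (0, 1, 160) (15, 19, 20) (112, 50) (130, 50)).box (side (0, 1, 1))) ((lineChart izL200 (2, 3, 40) (0, 1, 160) (15, 19, 20) (112, 50) (130, 50)).geo.muLo (112, 50)) :=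
  ⟨255, 13, 8, 9, 4, by decide +kernel⟩

/-- A window. -/
theorem izL202_down : Chk ((lineChart izL202 (2, 3, 40) (0, 1, 160) (15, 19, 20) (106, 50) (127, 50)).box (side (0, 1, 1))) ((lineChart izL202 (2, 3, 40) (0, 1, 160) (15, 19, 20) (106, 50) (127, 50)).geo.muLo (106, 50)) :=
  ⟨255, 13, 8, 9, 4, by decide +kernel⟩

/-- A window. -/
theorem izL204_down : Chk ((lineChart izL204 (2, 3, 40) (0, 1, 160) (15, 19, 20) (103, 50) (117, 50)).box (side (0, 1, 1))) ((lineChart izL204 (2, 3, 40) (0, 1, 160) (15, 19, 20) (103, 50) (117, 50)).geo.muLo (103, 50)) :=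
  ⟨255, 13, 8, 9, 4, by decide +kernel⟩

/-- A window. -/
theorem izL206_down : Chk ((lineChart izL206 (3, 4, 40) (0, 1, 160) (75, 92, 100) (114, 50) (138, 50)).box (side (0, 1, 1))) ((lineChart izL206 (3, 4, 40) (0, 1, 160) (75, 92, 100) (114, 50) (138, 50)).geo.muLo (114, 50)) :=
  ⟨277, 13, 8, 9, 4, by decide +kernel⟩

/-- A window. -/
theorem izL208_down : Chk ((lineChart izL208 (3, 4, 40) (5, 16, 800) (75, 92, 100) (114, 50) (138, 50)).box (side (0, 1, 1))) ((lineChart izL208 (3, 4, 40) (5, 16, 800) (75, 92, 100) (114, 50) (138, 50)).geo.muLo (114, 50)) :=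
  ⟨295, 13, 8, 9, 4, by decide +kernel⟩

/-- A window. -/
theorem izL210_down : Chk ((lineChart izL210 (4, 5, 40) (0, 1, 160) (75, 89, 100) (131, 50) (159, 50)).box (side (0, 1, 1))) ((lineChart izL210 (4, 5, 40) (0, 1, 160) (75, 89, 100) (131, 50) (159, 50)).geo.muLo (131, 50)) :=
  ⟨277, 13, 8, 9, 4, by decide +kernel⟩

/-- A window. -/
theorem izL212_down : Chk ((lineChart izL212 (4, 5, 40) (3, 10, 1600) (75, 89, 100) (131, 50) (157, 50)).box (side (0, 1, 1))) ((lineChart izL212 (4, 5, 40) (3, 10, 1600) (75, 89, 100) (131, 50) (157, 50)).geo.muLo (131, 50)) :=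
  ⟨304, 13, 8, 9, 4, by decide +kernel⟩

/-- A window. -/
theorem izL214_down : Chk ((lineChart izL214 (4, 5, 40) (0, 1, 160) (75, 89, 100) (129, 50) (156, 50)).box (side (0, 1, 1))) ((lineChart izL214 (4, 5, 40) (0, 1, 160) (75, 89, 100) (129, 50) (156, 50)).geo.muLo (129, 50)) :=
  ⟨277, 13, 8, 9, 4, by decide +kernel⟩

/-- A window. -/
theorem izL217_down : Chk ((lineChart izL217 (4, 5, 40) (2, 3, 200) (75, 89, 100) (129, 50) (156, 50)).box (side (0, 1, 1))) ((lineChart izL217 (4, 5, 40) (2, 3, 200) (75, 89, 100) (129, 50) (156, 50)).geo.muLo (129, 50)) :=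
  ⟨280, 13, 8, 9, 4, by decide +kernel⟩

/-- A window. -/
theorem izL219_down : Chk ((lineChart izL219 (4, 5, 40) (0, 1, 160) (75, 89, 100) (128, 50) (153, 50)).box (side (0, 1, 1))) ((lineChart izL219 (4, 5, 40) (0, 1, 160) (75, 89, 100) (128, 50) (153, 50)).geo.muLo (128, 50)) :=
  ⟨277, 13, 8, 9, 4, by decide +kernel⟩

/-- A window. -/
theorem izL221_down : Chk ((lineChart izL221 (20, 21, 160) (0, 1, 50) (75, 86, 100) (140, 50) (161, 50)).box (side (0, 1, 1))) ((lineChart izL221 (20, 21, 160) (0, 1, 50) (75, 86, 100) (140, 50) (161, 50)).geo.muLo (140, 50)) :=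
  ⟨290, 13, 8, 9, 4, by decide +kernel⟩

/-- A window. -/
theorem izL223_down : Chk ((lineChart izL223 (20, 21, 160) (0, 1, 50) (75, 86, 100) (136, 50) (152, 50)).box (side (0, 1, 1))) ((lineChart izL223 (20, 21, 160) (0, 1, 50) (75, 86, 100) (136, 50) (152, 50)).geo.muLo (136, 50)) :=
  ⟨290, 13, 8, 9, 4, by decide +kernel⟩

/-- A window. -/
theorem izL225_down : Chk ((lineChart izL225 (20, 21, 160) (0, 1, 50) (75, 86, 100) (130, 50) (147, 50)).box (side (0, 1, 1))) ((lineChart izL225 (20, 21, 160) (0, 1, 50) (75, 86, 100) (130, 50) (147, 50)).geo.muLo (130, 50)) :=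
  ⟨290, 13, 8, 9, 4, by decide +kernel⟩

/-- A window. -/
theorem izL227_down : Chk ((lineChart izL227 (42, 43, 320) (0, 1, 50) (15, 17, 20) (144, 50) (163, 50)).box (side (0, 1, 1))) ((lineChart izL227 (42, 43, 320) (0, 1, 50) (15, 17, 20) (144, 50) (163, 50)).geo.muLo (144, 50)) :=
  ⟨282, 13, 8, 9, 4, by decide +kernel⟩

/-- A window. -/
theorem izL229_down : Chk ((lineChart izL229 (42, 43, 320) (0, 1, 50) (15, 17, 20) (140, 50) (154, 50)).box (side (0, 1, 1))) ((lineChart izL229 (42, 43, 320) (0, 1, 50) (15, 17, 20) (140, 50) (154, 50)).geo.muLo (140, 50)) :=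
  ⟨282, 13, 8, 9, 4, by decide +kernel⟩

/-- A window. -/
theorem izL231_down : Chk ((lineChart izL231 (42, 43, 320) (0, 1, 50) (15, 17, 20) (133, 50) (149, 50)).box (side (0, 1, 1))) ((lineChart izL231 (42, 43, 320) (0, 1, 50) (15, 17, 20) (133, 50) (149, 50)).geo.muLo (133, 50)) :=
  ⟨282, 13, 8, 9, 4, by decide +kernel⟩

/-- A window. -/
theorem izL233_down : Chk ((lineChart izL233 (85, 86, 640) (0, 1, 1600) (15, 17, 20) (117, 50) (138, 50)).box (side (0, 1, 1))) ((lineChart izL233 (85, 86, 640) (0, 1, 1600) (15, 17, 20) (117, 50) (138, 50)).geo.muLo (117, 50)) :=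
  ⟨335, 13, 8, 9, 4, by decide +kernel⟩

/-- A window. -/
theorem izL235_down : Chk ((lineChart izL235 (85, 86, 640) (3, 10, 1600) (15, 17, 20) (117, 50) (138, 50)).box (side (0, 1, 1))) ((lineChart izL235 (85, 86, 640) (3, 10, 1600) (15, 17, 20) (117, 50) (138, 50)).geo.muLo (117, 50)) :=
  ⟨335, 13, 8, 9, 4, by decide +kernel⟩

/-- A window. -/
theorem izL238_down : Chk ((lineChart izL238 (4, 5, 40) (2, 15, 100) (75, 89, 100) (97, 50) (154, 50)).box (side (0, 1, 1))) ((lineChart izL238 (4, 5, 40) (2, 15, 100) (75, 89, 100) (97, 50) (154, 50)).geo.muLo (97, 50)) :=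
  ⟨262, 13, 8, 9, 4, by decide +kernel⟩

/-- A window. -/
theorem izL240_down : Chk ((lineChart izL240 (8, 9, 80) (5, 6, 800) (75, 89, 100) (129, 50) (148, 50)).box (side (0, 1, 1))) ((lineChart izL240 (8, 9, 80) (5, 6, 800) (75, 89, 100) (129, 50) (148, 50)).geo.muLo (129, 50)) :=
  ⟨309, 13, 8, 9, 4, by decide +kernel⟩

/-- A window. -/
theorem izL242_down : Chk ((lineChart izL242 (9, 10, 80) (11, 12, 1600) (75, 89, 100) (135, 50) (157, 50)).box (side (0, 1, 1))) ((lineChart izL242 (9, 10, 80) (11, 12, 1600) (75, 89, 100) (135, 50) (157, 50)).geo.muLo (135, 50)) :=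
  ⟨317, 13, 8, 9, 4, by decide +kernel⟩

/-- A window. -/
theorem izL244_down : Chk ((lineChart izL244 (20, 23, 160) (3, 8, 20) (75, 89, 100) (90, 50) (155, 50)).box (side (0, 1, 1))) ((lineChart izL244 (20, 23, 160) (3, 8, 20) (75, 89, 100) (90, 50) (155, 50)).geo.muLo (90, 50)) :=
  ⟨270, 13, 8, 9, 4, by decide +kernel⟩

/-- A window. -/
theorem izL246_down : Chk ((lineChart izL246 (3, 4, 40) (2, 15, 100) (15, 19, 20) (98, 50) (141, 50)).box (side (0, 1, 1))) ((lineChart izL246 (3, 4, 40) (2, 15, 100) (15, 19, 20) (98, 50) (141, 50)).geo.muLo (98, 50)) :=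
  ⟨241, 13, 8, 9, 4, by decide +kernel⟩

/-- A window. -/
theorem izL248_down : Chk ((lineChart izL248 (14, 15, 160) (3, 20, 20) (15, 19, 20) (83, 50) (134, 50)).box (side (0, 1, 1))) ((lineChart izL248 (14, 15, 160) (3, 20, 20) (15, 19, 20) (83, 50) (134, 50)).geo.muLo (83, 50)) :=
  ⟨250, 13, 8, 9, 4, by decide +kernel⟩

/-- A window. -/
theorem izL250_down : Chk ((lineChart izL250 (15, 16, 160) (2, 5, 5) (15, 19, 20) (82, 50) (132, 50)).box (side (0, 1, 1))) ((lineChart izL250 (15, 16, 160) (2, 5, 5) (15, 19, 20) (82, 50) (132, 50)).geo.muLo (82, 50)) :=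
  ⟨234, 13, 8, 9, 4, by decide +kernel⟩

/-- A window. -/
theorem izL301_down : Chk ((lineChart izL301 (1, 2, 20) (3, 20, 20) (22, 25, 25) (82, 50) (135, 50)).box (side (0, 1, 1))) ((lineChart izL301 (1, 2, 20) (3, 20, 20) (22, 25, 25) (82, 50) (135, 50)).geo.muLo (82, 50)) :=
  ⟨212, 13, 8, 9, 4, by decide +kernel⟩

/-- A window. -/
theorem izL303_down : Chk ((lineChart izL303 (5, 6, 50) (5, 12, 80) (21, 25, 25) (100, 50) (151, 50)).box (side (0, 1, 1))) ((lineChart izL303 (5, 6, 50) (5, 12, 80) (21, 25, 25) (100, 50) (151, 50)).geo.muLo (100, 50)) :=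
  ⟨246, 13, 8, 9, 4, by decide +kernel⟩

/-- A window. -/
theorem izL305_down : Chk ((lineChart izL305 (20, 27, 200) (3, 8, 20) (21, 25, 25) (92, 50) (156, 50)).box (side (0, 1, 1))) ((lineChart izL305 (20, 27, 200) (3, 8, 20) (21, 25, 25) (92, 50) (156, 50)).geo.muLo (92, 50)) :=
  ⟨256, 13, 8, 9, 4, by decide +kernel⟩

/-- A window. -/
theorem izL311_down : Chk ((lineChart izL311 (4, 5, 40) (3, 10, 1600) (17, 20, 20) (112, 50) (143, 50)).box (side (0, 1, 1))) ((lineChart izL311 (4, 5, 40) (3, 10, 1600) (17, 20, 20) (112, 50) (143, 50)).geo.muLo (112, 50)) :=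
  ⟨282, 13, 8, 9, 4, by decide +kernel⟩

/-- A window. -/
theorem izL313_down : Chk ((lineChart izL313 (4, 5, 40) (1, 2, 100) (17, 20, 20) (131, 50) (163, 50)).box (side (0, 1, 1))) ((lineChart izL313 (4, 5, 40) (1, 2, 100) (17, 20, 20) (131, 50) (163, 50)).geo.muLo (131, 50)) :=
  ⟨251, 13, 8, 9, 4, by decide +kernel⟩

/-- A window. -/
theorem izL315_down : Chk ((lineChart izL315 (4, 5, 40) (5, 16, 800) (17, 20, 20) (111, 50) (146, 50)).box (side (0, 1, 1))) ((lineChart izL315 (4, 5, 40) (5, 16, 800) (17, 20, 20) (111, 50) (146, 50)).geo.muLo (111, 50)) :=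
  ⟨274, 13, 8, 9, 4, by decide +kernel⟩

/-- A window. -/
theorem izL317_down : Chk ((lineChart izL317 (20, 21, 160) (1, 2, 100) (21, 25, 25) (143, 50) (168, 50)).box (side (0, 1, 1))) ((lineChart izL317 (20, 21, 160) (1, 2, 100) (21, 25, 25) (143, 50) (168, 50)).geo.muLo (143, 50)) :=
  ⟨280, 13, 8, 9, 4, by decide +kernel⟩

/-- A window. -/
theorem izL319_down : Chk ((lineChart izL319 (20, 21, 160) (5, 16, 800) (21, 25, 25) (118, 50) (150, 50)).box (side (0, 1, 1))) ((lineChart izL319 (20, 21, 160) (5, 16, 800) (21, 25, 25) (118, 50) (150, 50)).geo.muLo (118, 50)) :=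
  ⟨304, 13, 8, 9, 4, by decide +kernel⟩

/-- A window. -/
theorem izL322_down : Chk ((lineChart izL322 (9, 10, 80) (0, 1, 500) (7, 8, 8) (125, 50) (168, 50)).box (side (0, 1, 1))) ((lineChart izL322 (9, 10, 80) (0, 1, 500) (7, 8, 8) (125, 50) (168, 50)).geo.muLo (125, 50)) :=
  ⟨271, 13, 8, 9, 4, by decide +kernel⟩

/-- A window. -/
theorem izL324_down : Chk ((lineChart izL324 (133, 135, 1000) (0, 1, 500) (168, 175, 200) (122, 50) (139, 50)).box (side (0, 1, 1))) ((lineChart izL324 (133, 135, 1000) (0, 1, 500) (168, 175, 200) (122, 50) (139, 50)).geo.muLo (122, 50)) :=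
  ⟨359, 13, 8, 9, 4, by decide +kernel⟩

/-- A window. -/
theorem izL326_down : Chk ((lineChart izL326 (20, 27, 200) (2, 5, 5) (21, 25, 25) (76, 50) (148, 50)).box (side (0, 1, 1))) ((lineChart izL326 (20, 27, 200) (2, 5, 5) (21, 25, 25) (76, 50) (148, 50)).geo.muLo (76, 50)) :=
  ⟨240, 13, 8, 9, 4, by decide +kernel⟩

/-- A window. -/
theorem izL401_down : Chk ((lineChart izL401 (10, 11, 80) (0, 1, 50) (0, 3, 40) (86, 50) (113, 50)).box (side (0, 1, 1))) ((lineChart izL401 (10, 11, 80) (0, 1, 50) (0, 3, 40) (86, 50) (113, 50)).geo.muLo (86, 50)) :=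
  ⟨264, 13, 8, 9, 4, by decide +kernel⟩

/-- A window. -/
theorem izL403_down : Chk ((lineChart izL403 (40, 43, 320) (2, 15, 100) (3, 6, 40) (90, 50) (114, 50)).box (side (0, 1, 1))) ((lineChart izL403 (40, 43, 320) (2, 15, 100) (3, 6, 40) (90, 50) (114, 50)).geo.muLo (90, 50)) :=
  ⟨289, 13, 8, 9, 4, by decide +kernel⟩

/-- A window. -/
theorem izL405_down : Chk ((lineChart izL405 (10, 11, 80) (0, 1, 50) (33, 40, 80) (99, 50) (134, 50)).box (side (0, 1, 1))) ((lineChart izL405 (10, 11, 80) (0, 1, 50) (33, 40, 80) (99, 50) (134, 50)).geo.muLo (99, 50)) :=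
  ⟨274, 13, 8, 9, 4, by decide +kernel⟩

/-- A window. -/
theorem izL407_down : Chk ((lineChart izL407 (7, 8, 80) (0, 1, 50) (3, 10, 20) (92, 50) (121, 50)).box (side (0, 1, 1))) ((lineChart izL407 (7, 8, 80) (0, 1, 50) (3, 10, 20) (92, 50) (121, 50)).geo.muLo (92, 50)) :=
  ⟨255, 13, 8, 9, 4, by decide +kernel⟩

/-- A window. -/
theorem izL409_down : Chk ((lineChart izL409 (43, 46, 320) (2, 15, 100) (3, 6, 40) (89, 50) (115, 50)).box (side (0, 1, 1))) ((lineChart izL409 (43, 46, 320) (2, 15, 100) (3, 6, 40) (89, 50) (115, 50)).geo.muLo (89, 50)) :=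
  ⟨289, 13, 8, 9, 4, by decide +kernel⟩

end Vale.Agent.P100.Calib.StripEndD
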