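import Vale.Agent.P100.Calib.SlabStripEndIZ7Facts
import Vale.Agent.P100.Calib.SlabStripEndIZ7Win0
import Vale.Agent.P100.Calib.SlabStripEndIZ7Win1
import Vale.Agent.P100.Calib.SlabStripEndIZ7Win2
import Vale.Agent.P100.Calib.SlabStripEndIZ7Win3

/-!
# Both lines of each chart
-/

set_option linter.unusedVariables false
set_option linter.unusedTactic false
set_option linter.unreachableTactic false
set_option linter.unusedSimpArgs false
set_option linter.unnecessarySeqFocus false

namespace Vale.Agent.P100.Calib.StripEndD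

open Pack hiding ev_add ev_mul
open Pack.Ex Band StripMid StripEnd

local instance endIZ7LineFactsAdd : Add Ex := ⟨Ex.add⟩
local instance endIZ7LineFactsSub : Sub Ex := ⟨Ex.sub⟩
local instance endIZ7LineFactsMul : Mul Ex := ⟨Ex.mul⟩

/-- Both lines of the chart 0. -/
theorem izLine0 {a b u v H I r s : ℝ} (hB : EndBands7 a b u v H) (hE : ExitLine a b u v) (hI0 : 0 < I)
    (hp : InLines izM0 (2, 3, 40) (0, 1, 160) (0, 3, 20) a b u I r s) :
    afVal izM0.lo I r s < a * v * izM0.denV r ∧
      a * v * izM0.denV r < afVal izM0.lo I r s + afVal izM0.gap I r s := by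
  refine ⟨?_, lines_right hp hB izM0_right⟩
  exact lines_left hp hB izM0_left

/-- Both lines of the chart 1. -/
theorem izLine1 {a b u v H I r s : ℝ} (hB : EndBands7 a b u v H) (hE : ExitLine a b u v) (hI0 : 0 < I)
    (hp : InLines izM1 (2, 3, 40) (5, 16, 800) (0, 3, 20) a b u I r s) :
    afVal izM1.lo I r s < a * v * izM1.denV r ∧
      a * v * izM1.denV r < afVal izM1.lo I r s + afVal izM1.gap I r s := by
  refine ⟨?_, lines_right hp hB izM1_right⟩
  exact lines_left hp hB izM1_left

/-- Both lines of the chart 2. -/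
theorem izLine2 {a b u v H I r s : ℝ} (hB : EndBands7 a b u v H) (hE : ExitLine a b u v) (hI0 : 0 < I)
    (hp : InLines izM2 (3, 4, 40) (0, 1, 50) (0, 3, 40) a b u I r s) :
    afVal izM2.lo I r s < a * v * izM2.denV r ∧
      a * v * izM2.denV r < afVal izM2.lo I r s + afVal izM2.gap I r s := by
  refine ⟨?_, lines_right hp hB izM2_right⟩
  exact lines_left hp hB izM2_left

/-- Both lines of the chart 3. -/
theorem izLine3 {a b u v H I r s : ℝ} (hB : EndBands7 a b u v H) (hE : ExitLine a b u v) (hI0 : 0 < I)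
    (hp : InLines izM3 (4, 5, 40) (0, 1, 50) (0, 3, 20) a b u I r s) :
    afVal izM3.lo I r s < a * v * izM3.denV r ∧
      a * v * izM3.denV r < afVal izM3.lo I r s + afVal izM3.gap I r s := by
  refine ⟨?_, lines_right hp hB izM3_right⟩
  exact lines_left hp hB izM3_left

/-- Both lines of the chart 4. -/
theorem izLine4 {a b u v H I r s : ℝ} (hB : EndBands7 a b u v H) (hE : ExitLine a b u v) (hI0 : 0 < I)
    (hp : InLines izM4 (10, 11, 80) (0, 1, 50) (0, 3, 40) a b u I r s) :
    afVal izM4.lo I r s < a * v * izM4.denV r ∧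
      a * v * izM4.denV r < afVal izM4.lo I r s + afVal izM4.gap I r s := by
  refine ⟨?_, lines_right hp hB izM4_right⟩
  exact lines_left hp hB izM4_left

/-- Both lines of the chart 5. -/
theorem izLine5 {a b u v H I r s : ℝ} (hB : EndBands7 a b u v H) (hE : ExitLine a b u v) (hI0 : 0 < I)
    (hp : InLines izM5 (22, 23, 160) (0, 1, 50) (0, 3, 40) a b u I r s) :
    afVal izM5.lo I r s < a * v * izM5.denV r ∧
      a * v * izM5.denV r < afVal izM5.lo I r s + afVal izM5.gap I r s := by
  refine ⟨?_, lines_right hp hB izM5_right⟩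
  exact lines_left hp hB izM5_left

/-- Both lines of the chart 6. -/
theorem izLine6 {a b u v H I r s : ℝ} (hB : EndBands7 a b u v H) (hE : ExitLine a b u v) (hI0 : 0 < I)
    (hp : InLines izM6 (1, 2, 20) (2, 15, 100) (0, 3, 20) a b u I r s) :
    afVal izM6.lo I r s < a * v * izM6.denV r ∧
      a * v * izM6.denV r < afVal izM6.lo I r s + afVal izM6.gap I r s := by
  refine ⟨?_, lines_right hp hB izM6_right⟩
  exact lines_left hp hB izM6_left

/-- Both lines of the chart 7. -/
theorem izLine7 {a b u v H I r s : ℝ} (hB : EndBands7 a b u v H) (hE : ExitLine a b u v) (hI0 : 0 < I)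
    (hp : InLines izM7 (4, 5, 40) (2, 15, 100) (0, 3, 20) a b u I r s) :
    afVal izM7.lo I r s < a * v * izM7.denV r ∧
      a * v * izM7.denV r < afVal izM7.lo I r s + afVal izM7.gap I r s := by
  refine ⟨?_, lines_right hp hB izM7_right⟩
  exact lines_left hp hB izM7_left

/-- Both lines of the chart 8. -/
theorem izLine8 {a b u v H I r s : ℝ} (hB : EndBands7 a b u v H) (hE : ExitLine a b u v) (hI0 : 0 < I)
    (hp : InLines izM8 (20, 23, 160) (2, 15, 100) (0, 3, 20) a b u I r s) :
    afVal izM8.lo I r s < a * v * izM8.denV r ∧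
      a * v * izM8.denV r < afVal izM8.lo I r s + afVal izM8.gap I r s := by
  refine ⟨?_, lines_right hp hB izM8_right⟩
  exact lines_left hp hB izM8_left

/-- Both lines of the chart 9. -/
theorem izLine9 {a b u v H I r s : ℝ} (hB : EndBands7 a b u v H) (hE : ExitLine a b u v) (hI0 : 0 < I)
    (hp : InLines izM9 (2, 3, 40) (0, 1, 50) (3, 10, 20) a b u I r s) :
    afVal izM9.lo I r s < a * v * izM9.denV r ∧
      a * v * izM9.denV r < afVal izM9.lo I r s + afVal izM9.gap I r s := by
  refine ⟨?_, lines_right hp hB izM9_right⟩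
  exact lines_left hp hB izM9_left

/-- Both lines of the chart 10. -/
theorem izLine10 {a b u v H I r s : ℝ} (hB : EndBands7 a b u v H) (hE : ExitLine a b u v) (hI0 : 0 < I)
    (hp : InLines izM10 (3, 4, 40) (0, 1, 50) (3, 10, 20) a b u I r s) :
    afVal izM10.lo I r s < a * v * izM10.denV r ∧
      a * v * izM10.denV r < afVal izM10.lo I r s + afVal izM10.gap I r s := by
  refine ⟨?_, lines_right hp hB izM10_right⟩
  exact lines_left hp hB izM10_left

/-- Both lines of the chart 11. -/
theorem izLine11 {a b u v H I r s : ℝ} (hB : EndBands7 a b u v H) (hE : ExitLine a b u v) (hI0 : 0 < I)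
    (hp : InLines izM11 (4, 5, 40) (0, 1, 50) (6, 13, 40) a b u I r s) :
    afVal izM11.lo I r s < a * v * izM11.denV r ∧
      a * v * izM11.denV r < afVal izM11.lo I r s + afVal izM11.gap I r s := by
  refine ⟨?_, lines_right hp hB izM11_right⟩
  exact lines_left hp hB izM11_left

/-- Both lines of the chart 12. -/
theorem izLine12 {a b u v H I r s : ℝ} (hB : EndBands7 a b u v H) (hE : ExitLine a b u v) (hI0 : 0 < I)
    (hp : InLines izM12 (4, 5, 40) (0, 1, 50) (13, 20, 40) a b u I r s) :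
    afVal izM12.lo I r s < a * v * izM12.denV r ∧
      a * v * izM12.denV r < afVal izM12.lo I r s + afVal izM12.gap I r s := by
  refine ⟨?_, lines_right hp hB izM12_right⟩
  obtain ⟨⟨-, -, i1⟩, ⟨-, r0, r1⟩, ⟨-, -, s1⟩⟩ := And.intro hp.h0 (And.intro hp.h1 hp.h2)
  norm_num at i1 r0 r1 s1
  exact lines_exit hp hE (by linarith) hI0 (mul_le_of (p := (1 / 8 : ℝ)) (q := (1 / 50 : ℝ)) (by linarith) (by linarith) (by linarith) (by norm_num) (by norm_num)) izM12_exit

/-- Both lines of the chart 13. -/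
theorem izLine13 {a b u v H I r s : ℝ} (hB : EndBands7 a b u v H) (hE : ExitLine a b u v) (hI0 : 0 < I)
    (hp : InLines izM13 (10, 11, 80) (0, 1, 50) (6, 13, 40) a b u I r s) :
    afVal izM13.lo I r s < a * v * izM13.denV r ∧
      a * v * izM13.denV r < afVal izM13.lo I r s + afVal izM13.gap I r s := by
  refine ⟨?_, lines_right hp hB izM13_right⟩
  exact lines_left hp hB izM13_left

/-- Both lines of the chart 14. -/
theorem izLine14 {a b u v H I r s : ℝ} (hB : EndBands7 a b u v H) (hE : ExitLine a b u v) (hI0 : 0 < I)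
    (hp : InLines izM14 (10, 11, 80) (0, 1, 50) (13, 20, 40) a b u I r s) :
    afVal izM14.lo I r s < a * v * izM14.denV r ∧
      a * v * izM14.denV r < afVal izM14.lo I r s + afVal izM14.gap I r s := by
  refine ⟨?_, lines_right hp hB izM14_right⟩
  obtain ⟨⟨-, -, i1⟩, ⟨-, r0, r1⟩, ⟨-, -, s1⟩⟩ := And.intro hp.h0 (And.intro hp.h1 hp.h2)
  norm_num at i1 r0 r1 s1
  exact lines_exit hp hE (by linarith) hI0 (mul_le_of (p := (11 / 80 : ℝ)) (q := (1 / 50 : ℝ)) (by linarith) (by linarith) (by linarith) (by norm_num) (by norm_num)) izM14_exit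

/-- Both lines of the chart 15. -/
theorem izLine15 {a b u v H I r s : ℝ} (hB : EndBands7 a b u v H) (hE : ExitLine a b u v) (hI0 : 0 < I)
    (hp : InLines izM15 (22, 23, 160) (0, 1, 50) (12, 19, 80) a b u I r s) :
    afVal izM15.lo I r s < a * v * izM15.denV r ∧
      a * v * izM15.denV r < afVal izM15.lo I r s + afVal izM15.gap I r s := by
  refine ⟨?_, lines_right hp hB izM15_right⟩
  exact lines_left hp hB izM15_left

/-- Both lines of the chart 16. -/
theorem izLine16 {a b u v H I r s : ℝ} (hB : EndBands7 a b u v H) (hE : ExitLine a b u v) (hI0 : 0 < I)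
    (hp : InLines izM16 (22, 23, 160) (0, 1, 50) (26, 33, 80) a b u I r s) :
    afVal izM16.lo I r s < a * v * izM16.denV r ∧
      a * v * izM16.denV r < afVal izM16.lo I r s + afVal izM16.gap I r s := by
  refine ⟨?_, lines_right hp hB izM16_right⟩
  obtain ⟨-, r0, r1⟩ := hp.h1
  norm_num at r0 r1
  rcases le_or_gt r (1 / 75 : ℝ) with h | h
  · have hq : InLines izM16 (22, 23, 160) (0, 1, 75) (26, 33, 80) a b u I r s :=
      ⟨hp.toIPt, hp.h0, inU_of (by norm_num) (by norm_num; linarith) (by norm_num; linarith), hp.h2, hp.den⟩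
    obtain ⟨⟨-, -, i1⟩, ⟨-, r0, r1⟩, ⟨-, -, s1⟩⟩ := And.intro hq.h0 (And.intro hq.h1 hq.h2)
    norm_num at i1 r0 r1 s1
    exact lines_exit hq hE (by linarith) hI0 (mul_le_of (p := (23 / 160 : ℝ)) (q := (1 / 75 : ℝ)) (by linarith) (by linarith) (by linarith) (by norm_num) (by norm_num)) izM16_exit0
  · have hq : InLines izM16 (22, 23, 160) (2, 3, 150) (26, 33, 80) a b u I r s :=
      ⟨hp.toIPt, hp.h0, inU_of (by norm_num) (by norm_num; linarith) (by norm_num; linarith), hp.h2, hp.den⟩
    exact lines_left hq hB izM16_left1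

/-- Both lines of the chart 17. -/
theorem izLine17 {a b u v H I r s : ℝ} (hB : EndBands7 a b u v H) (hE : ExitLine a b u v) (hI0 : 0 < I)
    (hp : InLines izM17 (1, 2, 20) (2, 15, 100) (3, 10, 20) a b u I r s) :
    afVal izM17.lo I r s < a * v * izM17.denV r ∧
      a * v * izM17.denV r < afVal izM17.lo I r s + afVal izM17.gap I r s := by
  refine ⟨?_, lines_right hp hB izM17_right⟩
  exact lines_left hp hB izM17_left

/-- Both lines of the chart 18. -/
theorem izLine18 {a b u v H I r s : ℝ} (hB : EndBands7 a b u v H) (hE : ExitLine a b u v) (hI0 : 0 < I)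
    (hp : InLines izM18 (16, 23, 160) (2, 5, 100) (12, 19, 80) a b u I r s) :
    afVal izM18.lo I r s < a * v * izM18.denV r ∧
      a * v * izM18.denV r < afVal izM18.lo I r s + afVal izM18.gap I r s := by
  refine ⟨?_, lines_right hp hB izM18_right⟩
  exact lines_left hp hB izM18_left

/-- Both lines of the chart 19. -/
theorem izLine19 {a b u v H I r s : ℝ} (hB : EndBands7 a b u v H) (hE : ExitLine a b u v) (hI0 : 0 < I)
    (hp : InLines izM19 (16, 23, 160) (2, 5, 100) (19, 26, 80) a b u I r s) :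
    afVal izM19.lo I r s < a * v * izM19.denV r ∧
      a * v * izM19.denV r < afVal izM19.lo I r s + afVal izM19.gap I r s := by
  refine ⟨?_, lines_right hp hB izM19_right⟩
  exact lines_left hp hB izM19_left

/-- Both lines of the chart 20. -/
theorem izLine20 {a b u v H I r s : ℝ} (hB : EndBands7 a b u v H) (hE : ExitLine a b u v) (hI0 : 0 < I)
    (hp : InLines izM20 (16, 23, 160) (1, 3, 20) (12, 19, 80) a b u I r s) :
    afVal izM20.lo I r s < a * v * izM20.denV r ∧
      a * v * izM20.denV r < afVal izM20.lo I r s + afVal izM20.gap I r s := by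
  refine ⟨?_, lines_right hp hB izM20_right⟩
  exact lines_left hp hB izM20_left

/-- Both lines of the chart 21. -/
theorem izLine21 {a b u v H I r s : ℝ} (hB : EndBands7 a b u v H) (hE : ExitLine a b u v) (hI0 : 0 < I)
    (hp : InLines izM21 (4, 5, 40) (2, 5, 100) (26, 33, 80) a b u I r s) :
    afVal izM21.lo I r s < a * v * izM21.denV r ∧
      a * v * izM21.denV r < afVal izM21.lo I r s + afVal izM21.gap I r s := by
  refine ⟨?_, lines_right hp hB izM21_right⟩
  exact lines_left hp hB izM21_left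

/-- Both lines of the chart 22. -/
theorem izLine22 {a b u v H I r s : ℝ} (hB : EndBands7 a b u v H) (hE : ExitLine a b u v) (hI0 : 0 < I)
    (hp : InLines izM22 (16, 23, 160) (1, 3, 20) (26, 33, 80) a b u I r s) :
    afVal izM22.lo I r s < a * v * izM22.denV r ∧
      a * v * izM22.denV r < afVal izM22.lo I r s + afVal izM22.gap I r s := by
  refine ⟨?_, lines_right hp hB izM22_right⟩
  exact lines_left hp hB izM22_left

/-- Both lines of the chart 23. -/
theorem izLine23 {a b u v H I r s : ℝ} (hB : EndBands7 a b u v H) (hE : ExitLine a b u v) (hI0 : 0 < I)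
    (hp : InLines izM23 (4, 5, 40) (2, 15, 100) (33, 40, 80) a b u I r s) :
    afVal izM23.lo I r s < a * v * izM23.denV r ∧
      a * v * izM23.denV r < afVal izM23.lo I r s + afVal izM23.gap I r s := by
  refine ⟨?_, lines_right hp hB izM23_right⟩
  exact lines_left hp hB izM23_left

/-- Both lines of the chart 24. -/
theorem izLine24 {a b u v H I r s : ℝ} (hB : EndBands7 a b u v H) (hE : ExitLine a b u v) (hI0 : 0 < I)
    (hp : InLines izM24 (1, 2, 20) (0, 1, 50) (2, 3, 4) a b u I r s) :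
    afVal izM24.lo I r s < a * v * izM24.denV r ∧
      a * v * izM24.denV r < afVal izM24.lo I r s + afVal izM24.gap I r s := by
  refine ⟨?_, lines_right hp hB izM24_right⟩
  obtain ⟨⟨-, -, i1⟩, ⟨-, r0, r1⟩, ⟨-, -, s1⟩⟩ := And.intro hp.h0 (And.intro hp.h1 hp.h2)
  norm_num at i1 r0 r1 s1
  exact lines_exit hp hE (by linarith) hI0 (mul_le_of (p := (1 / 10 : ℝ)) (q := (1 / 50 : ℝ)) (by linarith) (by linarith) (by linarith) (by norm_num) (by norm_num)) izM24_exit

/-- Both lines of the chart 25. -/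
theorem izLine25 {a b u v H I r s : ℝ} (hB : EndBands7 a b u v H) (hE : ExitLine a b u v) (hI0 : 0 < I)
    (hp : InLines izM25 (4, 5, 40) (0, 1, 50) (2, 3, 4) a b u I r s) :
    afVal izM25.lo I r s < a * v * izM25.denV r ∧
      a * v * izM25.denV r < afVal izM25.lo I r s + afVal izM25.gap I r s := by
  refine ⟨?_, lines_right hp hB izM25_right⟩
  obtain ⟨⟨-, -, i1⟩, ⟨-, r0, r1⟩, ⟨-, -, s1⟩⟩ := And.intro hp.h0 (And.intro hp.h1 hp.h2)
  norm_num at i1 r0 r1 s1
  exact lines_exit hp hE (by linarith) hI0 (mul_le_of (p := (1 / 8 : ℝ)) (q := (1 / 50 : ℝ)) (by linarith) (by linarith) (by linarith) (by norm_num) (by norm_num)) izM25_exit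

/-- Both lines of the chart 26. -/
theorem izLine26 {a b u v H I r s : ℝ} (hB : EndBands7 a b u v H) (hE : ExitLine a b u v) (hI0 : 0 < I)
    (hp : InLines izM26 (20, 23, 160) (0, 1, 50) (2, 3, 4) a b u I r s) :
    afVal izM26.lo I r s < a * v * izM26.denV r ∧
      a * v * izM26.denV r < afVal izM26.lo I r s + afVal izM26.gap I r s := by
  refine ⟨?_, lines_right hp hB izM26_right⟩
  obtain ⟨⟨-, -, i1⟩, ⟨-, r0, r1⟩, ⟨-, -, s1⟩⟩ := And.intro hp.h0 (And.intro hp.h1 hp.h2)
  norm_num at i1 r0 r1 s1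
  exact lines_exit hp hE (by linarith) hI0 (mul_le_of (p := (23 / 160 : ℝ)) (q := (1 / 50 : ℝ)) (by linarith) (by linarith) (by linarith) (by norm_num) (by norm_num)) izM26_exit

/-- Both lines of the chart 27. -/
theorem izLine27 {a b u v H I r s : ℝ} (hB : EndBands7 a b u v H) (hE : ExitLine a b u v) (hI0 : 0 < I)
    (hp : InLines izM27 (1, 2, 20) (2, 15, 100) (2, 3, 4) a b u I r s) :
    afVal izM27.lo I r s < a * v * izM27.denV r ∧
      a * v * izM27.denV r < afVal izM27.lo I r s + afVal izM27.gap I r s := by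
  refine ⟨?_, lines_right hp hB izM27_right⟩
  obtain ⟨⟨-, -, i1⟩, ⟨-, r0, r1⟩, ⟨-, -, s1⟩⟩ := And.intro hp.h0 (And.intro hp.h1 hp.h2)
  norm_num at i1 r0 r1 s1
  exact lines_exit hp hE (by linarith) hI0 (mul_le_of (p := (1 / 10 : ℝ)) (q := (3 / 20 : ℝ)) (by linarith) (by linarith) (by linarith) (by norm_num) (by norm_num)) izM27_exit

/-- Both lines of the chart 28. -/
theorem izLine28 {a b u v H I r s : ℝ} (hB : EndBands7 a b u v H) (hE : ExitLine a b u v) (hI0 : 0 < I)
    (hp : InLines izM28 (4, 5, 40) (2, 15, 100) (2, 3, 4) a b u I r s) :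
    afVal izM28.lo I r s < a * v * izM28.denV r ∧
      a * v * izM28.denV r < afVal izM28.lo I r s + afVal izM28.gap I r s := by
  refine ⟨?_, lines_right hp hB izM28_right⟩
  obtain ⟨-, r0, r1⟩ := hp.h1
  norm_num at r0 r1
  rcases le_or_gt r (37 / 400 : ℝ) with h | h
  · have hq : InLines izM28 (4, 5, 40) (8, 37, 400) (2, 3, 4) a b u I r s :=
      ⟨hp.toIPt, hp.h0, inU_of (by norm_num) (by norm_num; linarith) (by norm_num; linarith), hp.h2, hp.den⟩
    obtain ⟨⟨-, -, i1⟩, ⟨-, r0, r1⟩, ⟨-, -, s1⟩⟩ := And.intro hq.h0 (And.intro hq.h1 hq.h2)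
    norm_num at i1 r0 r1 s1
    exact lines_exit hq hE (by linarith) hI0 (mul_le_of (p := (1 / 8 : ℝ)) (q := (37 / 400 : ℝ)) (by linarith) (by linarith) (by linarith) (by norm_num) (by norm_num)) izM28_exit0
  · have hq : InLines izM28 (4, 5, 40) (37, 60, 400) (2, 3, 4) a b u I r s :=
      ⟨hp.toIPt, hp.h0, inU_of (by norm_num) (by norm_num; linarith) (by norm_num; linarith), hp.h2, hp.den⟩
    exact lines_left hq hB izM28_left1

/-- Both lines of the chart 29. -/
theorem izLine29 {a b u v H I r s : ℝ} (hB : EndBands7 a b u v H) (hE : ExitLine a b u v) (hI0 : 0 < I)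
    (hp : InLines izM29 (20, 23, 160) (2, 15, 100) (8, 9, 16) a b u I r s) :
    afVal izM29.lo I r s < a * v * izM29.denV r ∧
      a * v * izM29.denV r < afVal izM29.lo I r s + afVal izM29.gap I r s := by
  refine ⟨?_, lines_right hp hB izM29_right⟩
  exact lines_left hp hB izM29_left

/-- Both lines of the chart 30. -/
theorem izLine30 {a b u v H I r s : ℝ} (hB : EndBands7 a b u v H) (hE : ExitLine a b u v) (hI0 : 0 < I)
    (hp : InLines izM30 (20, 23, 160) (2, 15, 100) (5, 6, 8) a b u I r s) :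
    afVal izM30.lo I r s < a * v * izM30.denV r ∧
      a * v * izM30.denV r < afVal izM30.lo I r s + afVal izM30.gap I r s := by
  refine ⟨?_, lines_right hp hB izM30_right⟩
  obtain ⟨-, r0, r1⟩ := hp.h1
  norm_num at r0 r1
  rcases le_or_gt r (17 / 200 : ℝ) with h | h
  · have hq : InLines izM30 (20, 23, 160) (4, 17, 200) (5, 6, 8) a b u I r s :=
      ⟨hp.toIPt, hp.h0, inU_of (by norm_num) (by norm_num; linarith) (by norm_num; linarith), hp.h2, hp.den⟩
    obtain ⟨⟨-, -, i1⟩, ⟨-, r0, r1⟩, ⟨-, -, s1⟩⟩ := And.intro hq.h0 (And.intro hq.h1 hq.h2)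
    norm_num at i1 r0 r1 s1
    exact lines_exit hq hE (by linarith) hI0 (mul_le_of (p := (23 / 160 : ℝ)) (q := (17 / 200 : ℝ)) (by linarith) (by linarith) (by linarith) (by norm_num) (by norm_num)) izM30_exit0
  · have hq : InLines izM30 (20, 23, 160) (17, 30, 200) (5, 6, 8) a b u I r s :=
      ⟨hp.toIPt, hp.h0, inU_of (by norm_num) (by norm_num; linarith) (by norm_num; linarith), hp.h2, hp.den⟩
    exact lines_left hq hB izM30_left1

/-- Both lines of the chart 31. -/
theorem izLine31 {a b u v H I r s : ℝ} (hB : EndBands7 a b u v H) (hE : ExitLine a b u v) (hI0 : 0 < I)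
    (hp : InLines izM31 (1, 2, 20) (3, 20, 20) (0, 1, 2) a b u I r s) :
    afVal izM31.lo I r s < a * v * izM31.denV r ∧
      a * v * izM31.denV r < afVal izM31.lo I r s + afVal izM31.gap I r s := by
  refine ⟨?_, lines_right hp hB izM31_right⟩
  exact lines_left hp hB izM31_left

/-- Both lines of the chart 32. -/
theorem izLine32 {a b u v H I r s : ℝ} (hB : EndBands7 a b u v H) (hE : ExitLine a b u v) (hI0 : 0 < I)
    (hp : InLines izM32 (16, 23, 160) (3, 20, 20) (0, 1, 4) a b u I r s) :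
    afVal izM32.lo I r s < a * v * izM32.denV r ∧
      a * v * izM32.denV r < afVal izM32.lo I r s + afVal izM32.gap I r s := by
  refine ⟨?_, lines_right hp hB izM32_right⟩
  exact lines_left hp hB izM32_left

/-- Both lines of the chart 33. -/
theorem izLine33 {a b u v H I r s : ℝ} (hB : EndBands7 a b u v H) (hE : ExitLine a b u v) (hI0 : 0 < I)
    (hp : InLines izM33 (16, 23, 160) (3, 20, 20) (2, 3, 8) a b u I r s) :
    afVal izM33.lo I r s < a * v * izM33.denV r ∧
      a * v * izM33.denV r < afVal izM33.lo I r s + afVal izM33.gap I r s := by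
  refine ⟨?_, lines_right hp hB izM33_right⟩
  exact lines_left hp hB izM33_left

/-- Both lines of the chart 34. -/
theorem izLine34 {a b u v H I r s : ℝ} (hB : EndBands7 a b u v H) (hE : ExitLine a b u v) (hI0 : 0 < I)
    (hp : InLines izM34 (1, 2, 20) (3, 20, 20) (2, 3, 4) a b u I r s) :
    afVal izM34.lo I r s < a * v * izM34.denV r ∧
      a * v * izM34.denV r < afVal izM34.lo I r s + afVal izM34.gap I r s := by
  refine ⟨?_, lines_right hp hB izM34_right⟩
  exact lines_left hp hB izM34_left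

/-- Both lines of the chart 35. -/
theorem izLine35 {a b u v H I r s : ℝ} (hB : EndBands7 a b u v H) (hE : ExitLine a b u v) (hI0 : 0 < I)
    (hp : InLines izM35 (16, 23, 160) (3, 20, 20) (4, 5, 8) a b u I r s) :
    afVal izM35.lo I r s < a * v * izM35.denV r ∧
      a * v * izM35.denV r < afVal izM35.lo I r s + afVal izM35.gap I r s := by
  refine ⟨?_, lines_right hp hB izM35_right⟩
  obtain ⟨-, r0, r1⟩ := hp.h1
  norm_num at r0 r1
  rcases le_or_gt r (23 / 40 : ℝ) with h | h
  · have hq : InLines izM35 (16, 23, 160) (6, 23, 40) (4, 5, 8) a b u I r s :=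
      ⟨hp.toIPt, hp.h0, inU_of (by norm_num) (by norm_num; linarith) (by norm_num; linarith), hp.h2, hp.den⟩
    exact lines_left hq hB izM35_left0
  · have hq : InLines izM35 (16, 23, 160) (23, 40, 40) (4, 5, 8) a b u I r s :=
      ⟨hp.toIPt, hp.h0, inU_of (by norm_num) (by norm_num; linarith) (by norm_num; linarith), hp.h2, hp.den⟩
    exact lines_left hq hB izM35_left1

/-- Both lines of the chart 36. -/
theorem izLine36 {a b u v H I r s : ℝ} (hB : EndBands7 a b u v H) (hE : ExitLine a b u v) (hI0 : 0 < I)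
    (hp : InLines izM36 (3, 4, 40) (0, 1, 50) (75, 92, 100) a b u I r s) :
    afVal izM36.lo I r s < a * v * izM36.denV r ∧
      a * v * izM36.denV r < afVal izM36.lo I r s + afVal izM36.gap I r s := by
  refine ⟨?_, lines_right hp hB izM36_right⟩
  obtain ⟨⟨-, -, i1⟩, ⟨-, r0, r1⟩, ⟨-, -, s1⟩⟩ := And.intro hp.h0 (And.intro hp.h1 hp.h2)
  norm_num at i1 r0 r1 s1
  exact lines_exit hp hE (by linarith) hI0 (mul_le_of (p := (1 / 10 : ℝ)) (q := (1 / 50 : ℝ)) (by linarith) (by linarith) (by linarith) (by norm_num) (by norm_num)) izM36_exit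

/-- Both lines of the chart 37. -/
theorem izLine37 {a b u v H I r s : ℝ} (hB : EndBands7 a b u v H) (hE : ExitLine a b u v) (hI0 : 0 < I)
    (hp : InLines izM37 (4, 5, 40) (0, 1, 50) (75, 89, 100) a b u I r s) :
    afVal izM37.lo I r s < a * v * izM37.denV r ∧
      a * v * izM37.denV r < afVal izM37.lo I r s + afVal izM37.gap I r s := by
  refine ⟨?_, lines_right hp hB izM37_right⟩
  obtain ⟨⟨-, -, i1⟩, ⟨-, r0, r1⟩, ⟨-, -, s1⟩⟩ := And.intro hp.h0 (And.intro hp.h1 hp.h2)
  norm_num at i1 r0 r1 s1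
  exact lines_exit hp hE (by linarith) hI0 (mul_le_of (p := (1 / 8 : ℝ)) (q := (1 / 50 : ℝ)) (by linarith) (by linarith) (by linarith) (by norm_num) (by norm_num)) izM37_exit

/-- Both lines of the chart 38. -/
theorem izLine38 {a b u v H I r s : ℝ} (hB : EndBands7 a b u v H) (hE : ExitLine a b u v) (hI0 : 0 < I)
    (hp : InLines izM38 (20, 21, 160) (0, 1, 50) (75, 86, 100) a b u I r s) :
    afVal izM38.lo I r s < a * v * izM38.denV r ∧
      a * v * izM38.denV r < afVal izM38.lo I r s + afVal izM38.gap I r s := by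
  refine ⟨?_, lines_right hp hB izM38_right⟩
  obtain ⟨⟨-, -, i1⟩, ⟨-, r0, r1⟩, ⟨-, -, s1⟩⟩ := And.intro hp.h0 (And.intro hp.h1 hp.h2)
  norm_num at i1 r0 r1 s1
  exact lines_exit hp hE (by linarith) hI0 (mul_le_of (p := (21 / 160 : ℝ)) (q := (1 / 50 : ℝ)) (by linarith) (by linarith) (by linarith) (by norm_num) (by norm_num)) izM38_exit

/-- Both lines of the chart 39. -/
theorem izLine39 {a b u v H I r s : ℝ} (hB : EndBands7 a b u v H) (hE : ExitLine a b u v) (hI0 : 0 < I)
    (hp : InLines izM39 (42, 43, 320) (0, 1, 50) (15, 17, 20) a b u I r s) :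
    afVal izM39.lo I r s < a * v * izM39.denV r ∧
      a * v * izM39.denV r < afVal izM39.lo I r s + afVal izM39.gap I r s := by
  refine ⟨?_, lines_right hp hB izM39_right⟩
  obtain ⟨⟨-, -, i1⟩, ⟨-, r0, r1⟩, ⟨-, -, s1⟩⟩ := And.intro hp.h0 (And.intro hp.h1 hp.h2)
  norm_num at i1 r0 r1 s1
  exact lines_exit hp hE (by linarith) hI0 (mul_le_of (p := (43 / 320 : ℝ)) (q := (1 / 50 : ℝ)) (by linarith) (by linarith) (by linarith) (by norm_num) (by norm_num)) izM39_exit

/-- Both lines of the chart 40. -/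
theorem izLine40 {a b u v H I r s : ℝ} (hB : EndBands7 a b u v H) (hE : ExitLine a b u v) (hI0 : 0 < I)
    (hp : InLines izM40 (43, 44, 320) (0, 1, 160) (75, 83, 100) a b u I r s) :
    afVal izM40.lo I r s < a * v * izM40.denV r ∧
      a * v * izM40.denV r < afVal izM40.lo I r s + afVal izM40.gap I r s := by
  refine ⟨?_, lines_right hp hB izM40_right⟩
  obtain ⟨⟨-, -, i1⟩, ⟨-, r0, r1⟩, ⟨-, -, s1⟩⟩ := And.intro hp.h0 (And.intro hp.h1 hp.h2)
  norm_num at i1 r0 r1 s1
  exact lines_exit hp hE (by linarith) hI0 (mul_le_of (p := (11 / 80 : ℝ)) (q := (1 / 160 : ℝ)) (by linarith) (by linarith) (by linarith) (by norm_num) (by norm_num)) izM40_exit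

/-- Both lines of the chart 41. -/
theorem izLine41 {a b u v H I r s : ℝ} (hB : EndBands7 a b u v H) (hE : ExitLine a b u v) (hI0 : 0 < I)
    (hp : InLines izM41 (22, 23, 160) (0, 1, 50) (15, 16, 20) a b u I r s) :
    afVal izM41.lo I r s < a * v * izM41.denV r ∧
      a * v * izM41.denV r < afVal izM41.lo I r s + afVal izM41.gap I r s := by
  refine ⟨?_, lines_right hp hB izM41_right⟩
  obtain ⟨⟨-, -, i1⟩, ⟨-, r0, r1⟩, ⟨-, -, s1⟩⟩ := And.intro hp.h0 (And.intro hp.h1 hp.h2)
  norm_num at i1 r0 r1 s1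
  exact lines_exit hp hE (by linarith) hI0 (mul_le_of (p := (23 / 160 : ℝ)) (q := (1 / 50 : ℝ)) (by linarith) (by linarith) (by linarith) (by norm_num) (by norm_num)) izM41_exit

/-- Both lines of the chart 42. -/
theorem izLine42 {a b u v H I r s : ℝ} (hB : EndBands7 a b u v H) (hE : ExitLine a b u v) (hI0 : 0 < I)
    (hp : InLines izM42 (2, 3, 40) (1, 50, 50) (15, 19, 20) a b u I r s) :
    afVal izM42.lo I r s < a * v * izM42.denV r ∧
      a * v * izM42.denV r < afVal izM42.lo I r s + afVal izM42.gap I r s := by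
  refine ⟨?_, lines_right hp hB izM42_right⟩
  exact lines_left hp hB izM42_left

/-- Both lines of the chart 43. -/
theorem izLine43 {a b u v H I r s : ℝ} (hB : EndBands7 a b u v H) (hE : ExitLine a b u v) (hI0 : 0 < I)
    (hp : InLines izM43 (20, 23, 160) (2, 15, 100) (75, 89, 100) a b u I r s) :
    afVal izM43.lo I r s < a * v * izM43.denV r ∧
      a * v * izM43.denV r < afVal izM43.lo I r s + afVal izM43.gap I r s := by
  refine ⟨?_, lines_right hp hB izM43_right⟩
  obtain ⟨⟨-, -, i1⟩, ⟨-, r0, r1⟩, ⟨-, -, s1⟩⟩ := And.intro hp.h0 (And.intro hp.h1 hp.h2)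
  norm_num at i1 r0 r1 s1
  exact lines_exit hp hE (by linarith) hI0 (mul_le_of (p := (23 / 160 : ℝ)) (q := (3 / 20 : ℝ)) (by linarith) (by linarith) (by linarith) (by norm_num) (by norm_num)) izM43_exit

/-- Both lines of the chart 44. -/
theorem izLine44 {a b u v H I r s : ℝ} (hB : EndBands7 a b u v H) (hE : ExitLine a b u v) (hI0 : 0 < I)
    (hp : InLines izM44 (1, 2, 20) (1, 2, 1) (0, 1, 2) a b u I r s) :
    afVal izM44.lo I r s < a * v * izM44.denV r ∧
      a * v * izM44.denV r < afVal izM44.lo I r s + afVal izM44.gap I r s := by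
  refine ⟨?_, lines_right hp hB izM44_right⟩
  exact lines_left hp hB izM44_left

/-- Both lines of the chart 45. -/
theorem izLine45 {a b u v H I r s : ℝ} (hB : EndBands7 a b u v H) (hE : ExitLine a b u v) (hI0 : 0 < I)
    (hp : InLines izM45 (1, 2, 20) (2, 4, 1) (0, 1, 2) a b u I r s) :
    afVal izM45.lo I r s < a * v * izM45.denV r ∧
      a * v * izM45.denV r < afVal izM45.lo I r s + afVal izM45.gap I r s := by
  refine ⟨?_, lines_right hp hB izM45_right⟩
  exact lines_left hp hB izM45_left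

/-- Both lines of the chart 46. -/
theorem izLine46 {a b u v H I r s : ℝ} (hB : EndBands7 a b u v H) (hE : ExitLine a b u v) (hI0 : 0 < I)
    (hp : InLines izM46 (16, 23, 160) (1, 2, 1) (0, 1, 2) a b u I r s) :
    afVal izM46.lo I r s < a * v * izM46.denV r ∧
      a * v * izM46.denV r < afVal izM46.lo I r s + afVal izM46.gap I r s := by
  refine ⟨?_, lines_right hp hB izM46_right⟩
  exact lines_left hp hB izM46_left

/-- Both lines of the chart 47. -/
theorem izLine47 {a b u v H I r s : ℝ} (hB : EndBands7 a b u v H) (hE : ExitLine a b u v) (hI0 : 0 < I)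
    (hp : InLines izM47 (1, 2, 20) (1, 2, 1) (2, 3, 4) a b u I r s) :
    afVal izM47.lo I r s < a * v * izM47.denV r ∧
      a * v * izM47.denV r < afVal izM47.lo I r s + afVal izM47.gap I r s := by
  refine ⟨?_, lines_right hp hB izM47_right⟩
  exact lines_left hp hB izM47_left

/-- Both lines of the chart 48. -/
theorem izLine48 {a b u v H I r s : ℝ} (hB : EndBands7 a b u v H) (hE : ExitLine a b u v) (hI0 : 0 < I)
    (hp : InLines izM48 (1, 2, 20) (2, 4, 1) (2, 3, 4) a b u I r s) :
    afVal izM48.lo I r s < a * v * izM48.denV r ∧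
      a * v * izM48.denV r < afVal izM48.lo I r s + afVal izM48.gap I r s := by
  refine ⟨?_, lines_right hp hB izM48_right⟩
  exact lines_left hp hB izM48_left

/-- Both lines of the chart 49. -/
theorem izLine49 {a b u v H I r s : ℝ} (hB : EndBands7 a b u v H) (hE : ExitLine a b u v) (hI0 : 0 < I)
    (hp : InLines izM49 (16, 23, 160) (1, 2, 1) (2, 3, 4) a b u I r s) :
    afVal izM49.lo I r s < a * v * izM49.denV r ∧
      a * v * izM49.denV r < afVal izM49.lo I r s + afVal izM49.gap I r s := by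
  refine ⟨?_, lines_right hp hB izM49_right⟩
  exact lines_left hp hB izM49_left

/-- Both lines of the chart 50. -/
theorem izLine50 {a b u v H I r s : ℝ} (hB : EndBands7 a b u v H) (hE : ExitLine a b u v) (hI0 : 0 < I)
    (hp : InLines izM50 (1, 2, 20) (1, 4, 1) (15, 19, 20) a b u I r s) :
    afVal izM50.lo I r s < a * v * izM50.denV r ∧
      a * v * izM50.denV r < afVal izM50.lo I r s + afVal izM50.gap I r s := by
  refine ⟨?_, lines_right hp hB izM50_right⟩
  obtain ⟨-, r0, r1⟩ := hp.h1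
  norm_num at r0 r1
  rcases le_or_gt r (2 : ℝ) with h | h
  · have hq : InLines izM50 (1, 2, 20) (1, 2, 1) (15, 19, 20) a b u I r s :=
      ⟨hp.toIPt, hp.h0, inU_of (by norm_num) (by norm_num; linarith) (by norm_num; linarith), hp.h2, hp.den⟩
    exact lines_left hq hB izM50_left0
  · have hq : InLines izM50 (1, 2, 20) (2, 4, 1) (15, 19, 20) a b u I r s :=
      ⟨hp.toIPt, hp.h0, inU_of (by norm_num) (by norm_num; linarith) (by norm_num; linarith), hp.h2, hp.den⟩
    exact lines_left hq hB izM50_left1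

/-- Both lines of the chart 51. -/
theorem izLine51 {a b u v H I r s : ℝ} (hB : EndBands7 a b u v H) (hE : ExitLine a b u v) (hI0 : 0 < I)
    (hp : InLines izM51 (16, 23, 160) (1, 2, 1) (75, 89, 100) a b u I r s) :
    afVal izM51.lo I r s < a * v * izM51.denV r ∧
      a * v * izM51.denV r < afVal izM51.lo I r s + afVal izM51.gap I r s := by
  refine ⟨?_, lines_right hp hB izM51_right⟩
  exact lines_left hp hB izM51_left

/-- Both lines of the chart 52. -/
theorem izLine52 {a b u v H I r s : ℝ} (hB : EndBands7 a b u v H) (hE : ExitLine a b u v) (hI0 : 0 < I)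
    (hp : InLines izM52 (2, 3, 40) (0, 1, 50) (91, 100, 100) a b u I r s) :
    afVal izM52.lo I r s < a * v * izM52.denV r ∧
      a * v * izM52.denV r < afVal izM52.lo I r s + afVal izM52.gap I r s := by
  refine ⟨?_, lines_right hp hB izM52_right⟩
  obtain ⟨⟨-, -, i1⟩, ⟨-, r0, r1⟩, ⟨-, -, s1⟩⟩ := And.intro hp.h0 (And.intro hp.h1 hp.h2)
  norm_num at i1 r0 r1 s1
  exact lines_exit hp hE (by linarith) hI0 (mul_le_of (p := (3 / 40 : ℝ)) (q := (1 / 50 : ℝ)) (by linarith) (by linarith) (by linarith) (by norm_num) (by norm_num)) izM52_exit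

/-- Both lines of the chart 53. -/
theorem izLine53 {a b u v H I r s : ℝ} (hB : EndBands7 a b u v H) (hE : ExitLine a b u v) (hI0 : 0 < I)
    (hp : InLines izM53 (3, 4, 40) (0, 1, 50) (22, 25, 25) a b u I r s) :
    afVal izM53.lo I r s < a * v * izM53.denV r ∧
      a * v * izM53.denV r < afVal izM53.lo I r s + afVal izM53.gap I r s := by
  refine ⟨?_, lines_right hp hB izM53_right⟩
  obtain ⟨⟨-, -, i1⟩, ⟨-, r0, r1⟩, ⟨-, -, s1⟩⟩ := And.intro hp.h0 (And.intro hp.h1 hp.h2)
  norm_num at i1 r0 r1 s1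
  exact lines_exit hp hE (by linarith) hI0 (mul_le_of (p := (1 / 10 : ℝ)) (q := (1 / 50 : ℝ)) (by linarith) (by linarith) (by linarith) (by norm_num) (by norm_num)) izM53_exit

/-- Both lines of the chart 54. -/
theorem izLine54 {a b u v H I r s : ℝ} (hB : EndBands7 a b u v H) (hE : ExitLine a b u v) (hI0 : 0 < I)
    (hp : InLines izM54 (4, 5, 40) (0, 3, 1600) (17, 20, 20) a b u I r s) :
    afVal izM54.lo I r s < a * v * izM54.denV r ∧
      a * v * izM54.denV r < afVal izM54.lo I r s + afVal izM54.gap I r s := by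
  refine ⟨?_, lines_right hp hB izM54_right⟩
  obtain ⟨⟨-, -, i1⟩, ⟨-, r0, r1⟩, ⟨-, -, s1⟩⟩ := And.intro hp.h0 (And.intro hp.h1 hp.h2)
  norm_num at i1 r0 r1 s1
  exact lines_exit hp hE (by linarith) hI0 (mul_le_of (p := (1 / 8 : ℝ)) (q := (3 / 1600 : ℝ)) (by linarith) (by linarith) (by linarith) (by norm_num) (by norm_num)) izM54_exit

/-- Both lines of the chart 55. -/
theorem izLine55 {a b u v H I r s : ℝ} (hB : EndBands7 a b u v H) (hE : ExitLine a b u v) (hI0 : 0 < I)
    (hp : InLines izM55 (20, 21, 160) (0, 1, 160) (21, 25, 25) a b u I r s) :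
    afVal izM55.lo I r s < a * v * izM55.denV r ∧
      a * v * izM55.denV r < afVal izM55.lo I r s + afVal izM55.gap I r s := by
  refine ⟨?_, lines_right hp hB izM55_right⟩
  obtain ⟨⟨-, -, i1⟩, ⟨-, r0, r1⟩, ⟨-, -, s1⟩⟩ := And.intro hp.h0 (And.intro hp.h1 hp.h2)
  norm_num at i1 r0 r1 s1
  exact lines_exit hp hE (by linarith) hI0 (mul_le_of (p := (21 / 160 : ℝ)) (q := (1 / 160 : ℝ)) (by linarith) (by linarith) (by linarith) (by norm_num) (by norm_num)) izM55_exit

/-- Both lines of the chart 56. -/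
theorem izLine56 {a b u v H I r s : ℝ} (hB : EndBands7 a b u v H) (hE : ExitLine a b u v) (hI0 : 0 < I)
    (hp : InLines izM56 (2625, 2672, 20000) (0, 1, 50) (42, 45, 50) a b u I r s) :
    afVal izM56.lo I r s < a * v * izM56.denV r ∧
      a * v * izM56.denV r < afVal izM56.lo I r s + afVal izM56.gap I r s := by
  refine ⟨?_, lines_right hp hB izM56_right⟩
  obtain ⟨⟨-, -, i1⟩, ⟨-, r0, r1⟩, ⟨-, -, s1⟩⟩ := And.intro hp.h0 (And.intro hp.h1 hp.h2)
  norm_num at i1 r0 r1 s1
  exact lines_exit hp hE (by linarith) hI0 (mul_le_of (p := (167 / 1250 : ℝ)) (q := (1 / 50 : ℝ)) (by linarith) (by linarith) (by linarith) (by norm_num) (by norm_num)) izM56_exit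

/-- Both lines of the chart 57. -/
theorem izLine57 {a b u v H I r s : ℝ} (hB : EndBands7 a b u v H) (hE : ExitLine a b u v) (hI0 : 0 < I)
    (hp : InLines izM57 (22, 23, 160) (0, 1, 50) (19, 26, 80) a b u I r s) :
    afVal izM57.lo I r s < a * v * izM57.denV r ∧
      a * v * izM57.denV r < afVal izM57.lo I r s + afVal izM57.gap I r s := by
  refine ⟨?_, lines_right hp hB izM57_right⟩
  exact lines_left hp hB izM57_left

/-- Both lines of the chart 58. -/
theorem izLine58 {a b u v H I r s : ℝ} (hB : EndBands7 a b u v H) (hE : ExitLine a b u v) (hI0 : 0 < I)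
    (hp : InLines izM58 (22, 23, 160) (0, 1, 50) (33, 40, 80) a b u I r s) :
    afVal izM58.lo I r s < a * v * izM58.denV r ∧
      a * v * izM58.denV r < afVal izM58.lo I r s + afVal izM58.gap I r s := by
  refine ⟨?_, lines_right hp hB izM58_right⟩
  obtain ⟨⟨-, -, i1⟩, ⟨-, r0, r1⟩, ⟨-, -, s1⟩⟩ := And.intro hp.h0 (And.intro hp.h1 hp.h2)
  norm_num at i1 r0 r1 s1
  exact lines_exit hp hE (by linarith) hI0 (mul_le_of (p := (23 / 160 : ℝ)) (q := (1 / 50 : ℝ)) (by linarith) (by linarith) (by linarith) (by norm_num) (by norm_num)) izM58_exit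

/-- Both lines of the chart 59. -/
theorem izLine59 {a b u v H I r s : ℝ} (hB : EndBands7 a b u v H) (hE : ExitLine a b u v) (hI0 : 0 < I)
    (hp : InLines izM59 (20, 23, 160) (2, 15, 100) (33, 40, 80) a b u I r s) :
    afVal izM59.lo I r s < a * v * izM59.denV r ∧
      a * v * izM59.denV r < afVal izM59.lo I r s + afVal izM59.gap I r s := by
  refine ⟨?_, lines_right hp hB izM59_right⟩
  exact lines_left hp hB izM59_left

/-- Both lines of the chart 60. -/
theorem izLine60 {a b u v H I r s : ℝ} (hB : EndBands7 a b u v H) (hE : ExitLine a b u v) (hI0 : 0 < I)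
    (hp : InLines izM60 (20, 23, 160) (2, 15, 100) (9, 10, 16) a b u I r s) :
    afVal izM60.lo I r s < a * v * izM60.denV r ∧
      a * v * izM60.denV r < afVal izM60.lo I r s + afVal izM60.gap I r s := by
  refine ⟨?_, lines_right hp hB izM60_right⟩
  exact lines_left hp hB izM60_left

/-- Both lines of the chart 61. -/
theorem izLine61 {a b u v H I r s : ℝ} (hB : EndBands7 a b u v H) (hE : ExitLine a b u v) (hI0 : 0 < I)
    (hp : InLines izM61 (20, 23, 160) (2, 5, 100) (26, 33, 80) a b u I r s) :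
    afVal izM61.lo I r s < a * v * izM61.denV r ∧
      a * v * izM61.denV r < afVal izM61.lo I r s + afVal izM61.gap I r s := by
  refine ⟨?_, lines_right hp hB izM61_right⟩
  exact lines_left hp hB izM61_left

/-- Both lines of the chart 62. -/
theorem izLine62 {a b u v H I r s : ℝ} (hB : EndBands7 a b u v H) (hE : ExitLine a b u v) (hI0 : 0 < I)
    (hp : InLines izM62 (22, 23, 160) (0, 1, 50) (3, 6, 40) a b u I r s) :
    afVal izM62.lo I r s < a * v * izM62.denV r ∧
      a * v * izM62.denV r < afVal izM62.lo I r s + afVal izM62.gap I r s := by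
  refine ⟨?_, lines_right hp hB izM62_right⟩
  exact lines_left hp hB izM62_left

/-- Both lines of the chart 63. -/
theorem izLine63 {a b u v H I r s : ℝ} (hB : EndBands7 a b u v H) (hE : ExitLine a b u v) (hI0 : 0 < I)
    (hp : InLines izM63 (10, 11, 80) (0, 1, 50) (3, 6, 40) a b u I r s) :
    afVal izM63.lo I r s < a * v * izM63.denV r ∧
      a * v * izM63.denV r < afVal izM63.lo I r s + afVal izM63.gap I r s := by
  refine ⟨?_, lines_right hp hB izM63_right⟩
  exact lines_left hp hB izM63_left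

/-- Both lines of the chart 64. -/
theorem izLine64 {a b u v H I r s : ℝ} (hB : EndBands7 a b u v H) (hE : ExitLine a b u v) (hI0 : 0 < I)
    (hp : InLines izM64 (3, 4, 40) (0, 1, 50) (3, 6, 40) a b u I r s) :
    afVal izM64.lo I r s < a * v * izM64.denV r ∧
      a * v * izM64.denV r < afVal izM64.lo I r s + afVal izM64.gap I r s := by
  refine ⟨?_, lines_right hp hB izM64_right⟩
  exact lines_left hp hB izM64_left

/-- Both lines of the chart 65. -/
theorem izLine65 {a b u v H I r s : ℝ} (hB : EndBands7 a b u v H) (hE : ExitLine a b u v) (hI0 : 0 < I)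
    (hp : InLines izM65 (16, 23, 160) (1, 3, 20) (19, 26, 80) a b u I r s) :
    afVal izM65.lo I r s < a * v * izM65.denV r ∧
      a * v * izM65.denV r < afVal izM65.lo I r s + afVal izM65.gap I r s := by
  refine ⟨?_, lines_right hp hB izM65_right⟩
  exact lines_left hp hB izM65_left

/-- Both lines of the chart 66. -/
theorem izLine66 {a b u v H I r s : ℝ} (hB : EndBands7 a b u v H) (hE : ExitLine a b u v) (hI0 : 0 < I)
    (hp : InLines izM66 (16, 23, 160) (3, 20, 20) (3, 4, 8) a b u I r s) :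
    afVal izM66.lo I r s < a * v * izM66.denV r ∧
      a * v * izM66.denV r < afVal izM66.lo I r s + afVal izM66.gap I r s := by
  refine ⟨?_, lines_right hp hB izM66_right⟩
  exact lines_left hp hB izM66_left

/-- Both lines of the chart 67. -/
theorem izLine67 {a b u v H I r s : ℝ} (hB : EndBands7 a b u v H) (hE : ExitLine a b u v) (hI0 : 0 < I)
    (hp : InLines izM67 (16, 23, 160) (3, 20, 20) (5, 6, 8) a b u I r s) :
    afVal izM67.lo I r s < a * v * izM67.denV r ∧
      a * v * izM67.denV r < afVal izM67.lo I r s + afVal izM67.gap I r s := by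
  refine ⟨?_, lines_right hp hB izM67_right⟩
  exact lines_left hp hB izM67_left

/-- Both lines of the chart 68. -/
theorem izLine68 {a b u v H I r s : ℝ} (hB : EndBands7 a b u v H) (hE : ExitLine a b u v) (hI0 : 0 < I)
    (hp : InLines izM68 (2, 3, 40) (0, 1, 160) (15, 19, 20) a b u I r s) :
    afVal izM68.lo I r s < a * v * izM68.denV r ∧
      a * v * izM68.denV r < afVal izM68.lo I r s + afVal izM68.gap I r s := by
  refine ⟨?_, lines_right hp hB izM68_right⟩
  obtain ⟨⟨-, -, i1⟩, ⟨-, r0, r1⟩, ⟨-, -, s1⟩⟩ := And.intro hp.h0 (And.intro hp.h1 hp.h2)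
  norm_num at i1 r0 r1 s1
  exact lines_exit hp hE (by linarith) hI0 (mul_le_of (p := (3 / 40 : ℝ)) (q := (1 / 160 : ℝ)) (by linarith) (by linarith) (by linarith) (by norm_num) (by norm_num)) izM68_exit

/-- Both lines of the chart 69. -/
theorem izLine69 {a b u v H I r s : ℝ} (hB : EndBands7 a b u v H) (hE : ExitLine a b u v) (hI0 : 0 < I)
    (hp : InLines izM69 (2, 3, 40) (5, 16, 800) (15, 19, 20) a b u I r s) :
    afVal izM69.lo I r s < a * v * izM69.denV r ∧
      a * v * izM69.denV r < afVal izM69.lo I r s + afVal izM69.gap I r s := by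
  refine ⟨?_, lines_right hp hB izM69_right⟩
  obtain ⟨⟨-, -, i1⟩, ⟨-, r0, r1⟩, ⟨-, -, s1⟩⟩ := And.intro hp.h0 (And.intro hp.h1 hp.h2)
  norm_num at i1 r0 r1 s1
  exact lines_exit hp hE (by linarith) hI0 (mul_le_of (p := (3 / 40 : ℝ)) (q := (1 / 50 : ℝ)) (by linarith) (by linarith) (by linarith) (by norm_num) (by norm_num)) izM69_exit

/-- Both lines of the chart 70. -/
theorem izLine70 {a b u v H I r s : ℝ} (hB : EndBands7 a b u v H) (hE : ExitLine a b u v) (hI0 : 0 < I)
    (hp : InLines izM70 (4, 5, 40) (2, 15, 100) (75, 89, 100) a b u I r s) :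
    afVal izM70.lo I r s < a * v * izM70.denV r ∧
      a * v * izM70.denV r < afVal izM70.lo I r s + afVal izM70.gap I r s := by
  refine ⟨?_, lines_right hp hB izM70_right⟩
  obtain ⟨⟨-, -, i1⟩, ⟨-, r0, r1⟩, ⟨-, -, s1⟩⟩ := And.intro hp.h0 (And.intro hp.h1 hp.h2)
  norm_num at i1 r0 r1 s1
  exact lines_exit hp hE (by linarith) hI0 (mul_le_of (p := (1 / 8 : ℝ)) (q := (3 / 20 : ℝ)) (by linarith) (by linarith) (by linarith) (by norm_num) (by norm_num)) izM70_exit

/-- Both lines of the chart 71. -/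
theorem izLine71 {a b u v H I r s : ℝ} (hB : EndBands7 a b u v H) (hE : ExitLine a b u v) (hI0 : 0 < I)
    (hp : InLines izM71 (4, 5, 40) (3, 20, 20) (75, 89, 100) a b u I r s) :
    afVal izM71.lo I r s < a * v * izM71.denV r ∧
      a * v * izM71.denV r < afVal izM71.lo I r s + afVal izM71.gap I r s := by
  refine ⟨?_, lines_right hp hB izM71_right⟩
  exact lines_left hp hB izM71_left

/-- Both lines of the chart 72. -/
theorem izLine72 {a b u v H I r s : ℝ} (hB : EndBands7 a b u v H) (hE : ExitLine a b u v) (hI0 : 0 < I)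
    (hp : InLines izM72 (43, 44, 320) (5, 16, 800) (75, 83, 100) a b u I r s) :
    afVal izM72.lo I r s < a * v * izM72.denV r ∧
      a * v * izM72.denV r < afVal izM72.lo I r s + afVal izM72.gap I r s := by
  refine ⟨?_, lines_right hp hB izM72_right⟩
  obtain ⟨⟨-, -, i1⟩, ⟨-, r0, r1⟩, ⟨-, -, s1⟩⟩ := And.intro hp.h0 (And.intro hp.h1 hp.h2)
  norm_num at i1 r0 r1 s1
  exact lines_exit hp hE (by linarith) hI0 (mul_le_of (p := (11 / 80 : ℝ)) (q := (1 / 50 : ℝ)) (by linarith) (by linarith) (by linarith) (by norm_num) (by norm_num)) izM72_exit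

/-- Both lines of the chart 73. -/
theorem izLine73 {a b u v H I r s : ℝ} (hB : EndBands7 a b u v H) (hE : ExitLine a b u v) (hI0 : 0 < I)
    (hp : InLines izM73 (20, 23, 160) (3, 20, 20) (75, 89, 100) a b u I r s) :
    afVal izM73.lo I r s < a * v * izM73.denV r ∧
      a * v * izM73.denV r < afVal izM73.lo I r s + afVal izM73.gap I r s := by
  refine ⟨?_, lines_right hp hB izM73_right⟩
  exact lines_left hp hB izM73_left

/-- Both lines of the chart 74. -/
theorem izLine74 {a b u v H I r s : ℝ} (hB : EndBands7 a b u v H) (hE : ExitLine a b u v) (hI0 : 0 < I)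
    (hp : InLines izM74 (3, 4, 40) (1, 50, 50) (15, 19, 20) a b u I r s) :
    afVal izM74.lo I r s < a * v * izM74.denV r ∧
      a * v * izM74.denV r < afVal izM74.lo I r s + afVal izM74.gap I r s := by
  refine ⟨?_, lines_right hp hB izM74_right⟩
  exact lines_left hp hB izM74_left

/-- Both lines of the chart 75. -/
theorem izLine75 {a b u v H I r s : ℝ} (hB : EndBands7 a b u v H) (hE : ExitLine a b u v) (hI0 : 0 < I)
    (hp : InLines izM75 (1, 2, 20) (2, 15, 100) (22, 25, 25) a b u I r s) :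
    afVal izM75.lo I r s < a * v * izM75.denV r ∧
      a * v * izM75.denV r < afVal izM75.lo I r s + afVal izM75.gap I r s := by
  refine ⟨?_, lines_right hp hB izM75_right⟩
  obtain ⟨⟨-, -, i1⟩, ⟨-, r0, r1⟩, ⟨-, -, s1⟩⟩ := And.intro hp.h0 (And.intro hp.h1 hp.h2)
  norm_num at i1 r0 r1 s1
  exact lines_exit hp hE (by linarith) hI0 (mul_le_of (p := (1 / 10 : ℝ)) (q := (3 / 20 : ℝ)) (by linarith) (by linarith) (by linarith) (by norm_num) (by norm_num)) izM75_exit

/-- Both lines of the chart 76. -/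
theorem izLine76 {a b u v H I r s : ℝ} (hB : EndBands7 a b u v H) (hE : ExitLine a b u v) (hI0 : 0 < I)
    (hp : InLines izM76 (1, 2, 20) (3, 20, 20) (22, 25, 25) a b u I r s) :
    afVal izM76.lo I r s < a * v * izM76.denV r ∧
      a * v * izM76.denV r < afVal izM76.lo I r s + afVal izM76.gap I r s := by
  refine ⟨?_, lines_right hp hB izM76_right⟩
  exact lines_left hp hB izM76_left

/-- Both lines of the chart 77. -/
theorem izLine77 {a b u v H I r s : ℝ} (hB : EndBands7 a b u v H) (hE : ExitLine a b u v) (hI0 : 0 < I)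
    (hp : InLines izM77 (5, 6, 50) (8, 25, 400) (21, 25, 25) a b u I r s) :
    afVal izM77.lo I r s < a * v * izM77.denV r ∧
      a * v * izM77.denV r < afVal izM77.lo I r s + afVal izM77.gap I r s := by
  refine ⟨?_, lines_right hp hB izM77_right⟩
  obtain ⟨⟨-, -, i1⟩, ⟨-, r0, r1⟩, ⟨-, -, s1⟩⟩ := And.intro hp.h0 (And.intro hp.h1 hp.h2)
  norm_num at i1 r0 r1 s1
  exact lines_exit hp hE (by linarith) hI0 (mul_le_of (p := (3 / 25 : ℝ)) (q := (1 / 16 : ℝ)) (by linarith) (by linarith) (by linarith) (by norm_num) (by norm_num)) izM77_exit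

/-- Both lines of the chart 78. -/
theorem izLine78 {a b u v H I r s : ℝ} (hB : EndBands7 a b u v H) (hE : ExitLine a b u v) (hI0 : 0 < I)
    (hp : InLines izM78 (5, 6, 50) (5, 12, 80) (21, 25, 25) a b u I r s) :
    afVal izM78.lo I r s < a * v * izM78.denV r ∧
      a * v * izM78.denV r < afVal izM78.lo I r s + afVal izM78.gap I r s := by
  refine ⟨?_, lines_right hp hB izM78_right⟩
  obtain ⟨⟨-, -, i1⟩, ⟨-, r0, r1⟩, ⟨-, -, s1⟩⟩ := And.intro hp.h0 (And.intro hp.h1 hp.h2)
  norm_num at i1 r0 r1 s1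
  exact lines_exit hp hE (by linarith) hI0 (mul_le_of (p := (3 / 25 : ℝ)) (q := (3 / 20 : ℝ)) (by linarith) (by linarith) (by linarith) (by norm_num) (by norm_num)) izM78_exit

/-- Both lines of the chart 79. -/
theorem izLine79 {a b u v H I r s : ℝ} (hB : EndBands7 a b u v H) (hE : ExitLine a b u v) (hI0 : 0 < I)
    (hp : InLines izM79 (24, 27, 200) (2, 15, 100) (21, 25, 25) a b u I r s) :
    afVal izM79.lo I r s < a * v * izM79.denV r ∧
      a * v * izM79.denV r < afVal izM79.lo I r s + afVal izM79.gap I r s := by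
  refine ⟨?_, lines_right hp hB izM79_right⟩
  obtain ⟨⟨-, -, i1⟩, ⟨-, r0, r1⟩, ⟨-, -, s1⟩⟩ := And.intro hp.h0 (And.intro hp.h1 hp.h2)
  norm_num at i1 r0 r1 s1
  exact lines_exit hp hE (by linarith) hI0 (mul_le_of (p := (27 / 200 : ℝ)) (q := (3 / 20 : ℝ)) (by linarith) (by linarith) (by linarith) (by norm_num) (by norm_num)) izM79_exit

/-- Both lines of the chart 80. -/
theorem izLine80 {a b u v H I r s : ℝ} (hB : EndBands7 a b u v H) (hE : ExitLine a b u v) (hI0 : 0 < I)
    (hp : InLines izM80 (20, 27, 200) (3, 8, 20) (21, 25, 25) a b u I r s) :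
    afVal izM80.lo I r s < a * v * izM80.denV r ∧
      a * v * izM80.denV r < afVal izM80.lo I r s + afVal izM80.gap I r s := by
  refine ⟨?_, lines_right hp hB izM80_right⟩
  exact lines_left hp hB izM80_left

/-- Both lines of the chart 81. -/
theorem izLine81 {a b u v H I r s : ℝ} (hB : EndBands7 a b u v H) (hE : ExitLine a b u v) (hI0 : 0 < I)
    (hp : InLines izM81 (4, 5, 40) (3, 10, 1600) (17, 20, 20) a b u I r s) :
    afVal izM81.lo I r s < a * v * izM81.denV r ∧
      a * v * izM81.denV r < afVal izM81.lo I r s + afVal izM81.gap I r s := by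
  refine ⟨?_, lines_right hp hB izM81_right⟩
  obtain ⟨⟨-, -, i1⟩, ⟨-, r0, r1⟩, ⟨-, -, s1⟩⟩ := And.intro hp.h0 (And.intro hp.h1 hp.h2)
  norm_num at i1 r0 r1 s1
  exact lines_exit hp hE (by linarith) hI0 (mul_le_of (p := (1 / 8 : ℝ)) (q := (1 / 160 : ℝ)) (by linarith) (by linarith) (by linarith) (by norm_num) (by norm_num)) izM81_exit

/-- Both lines of the chart 82. -/
theorem izLine82 {a b u v H I r s : ℝ} (hB : EndBands7 a b u v H) (hE : ExitLine a b u v) (hI0 : 0 < I)
    (hp : InLines izM82 (4, 5, 40) (5, 16, 800) (17, 20, 20) a b u I r s) :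
    afVal izM82.lo I r s < a * v * izM82.denV r ∧
      a * v * izM82.denV r < afVal izM82.lo I r s + afVal izM82.gap I r s := by
  refine ⟨?_, lines_right hp hB izM82_right⟩
  obtain ⟨⟨-, -, i1⟩, ⟨-, r0, r1⟩, ⟨-, -, s1⟩⟩ := And.intro hp.h0 (And.intro hp.h1 hp.h2)
  norm_num at i1 r0 r1 s1
  exact lines_exit hp hE (by linarith) hI0 (mul_le_of (p := (1 / 8 : ℝ)) (q := (1 / 50 : ℝ)) (by linarith) (by linarith) (by linarith) (by norm_num) (by norm_num)) izM82_exit

/-- Both lines of the chart 83. -/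
theorem izLine83 {a b u v H I r s : ℝ} (hB : EndBands7 a b u v H) (hE : ExitLine a b u v) (hI0 : 0 < I)
    (hp : InLines izM83 (20, 21, 160) (5, 16, 800) (21, 25, 25) a b u I r s) :
    afVal izM83.lo I r s < a * v * izM83.denV r ∧
      a * v * izM83.denV r < afVal izM83.lo I r s + afVal izM83.gap I r s := by
  refine ⟨?_, lines_right hp hB izM83_right⟩
  obtain ⟨⟨-, -, i1⟩, ⟨-, r0, r1⟩, ⟨-, -, s1⟩⟩ := And.intro hp.h0 (And.intro hp.h1 hp.h2)
  norm_num at i1 r0 r1 s1
  exact lines_exit hp hE (by linarith) hI0 (mul_le_of (p := (21 / 160 : ℝ)) (q := (1 / 50 : ℝ)) (by linarith) (by linarith) (by linarith) (by norm_num) (by norm_num)) izM83_exit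

/-- Both lines of the chart 84. -/
theorem izLine84 {a b u v H I r s : ℝ} (hB : EndBands7 a b u v H) (hE : ExitLine a b u v) (hI0 : 0 < I)
    (hp : InLines izM84 (20, 27, 200) (2, 5, 5) (21, 25, 25) a b u I r s) :
    afVal izM84.lo I r s < a * v * izM84.denV r ∧
      a * v * izM84.denV r < afVal izM84.lo I r s + afVal izM84.gap I r s := by
  refine ⟨?_, lines_right hp hB izM84_right⟩
  exact lines_left hp hB izM84_left

end Vale.Agent.P100.Calib.StripEndD
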