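import Vale.Agent.P100.Calib.SlabStripEndIZ7Bin

/-!
# The lines of the `I` and `Z` charts for `N` between seven and twenty
-/

namespace Vale.Agent.P100.Calib.StripEndD

open Pack hiding ev_add ev_mul
open Pack.Ex StripMid StripEnd

local instance endIZ7LinesAdd : Add Ex := ⟨Ex.add⟩
local instance endIZ7LinesSub : Sub Ex := ⟨Ex.sub⟩
local instance endIZ7LinesMul : Mul Ex := ⟨Ex.mul⟩

/-- The lines of the chart 0. -/
def izM0 : Lines := ⟨(500, 0), (249, (-253), 0, 0), (251, (-238), 0, 0)⟩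

/-- The lines of the chart 1. -/
def izM1 : Lines := ⟨(500, 0), (249, (-248), 0, 0), (252, (-239), 0, 0)⟩

/-- The lines of the chart 2. -/
def izM2 : Lines := ⟨(500, 0), (249, (-252), 0, 0), (251, (-232), 0, 0)⟩

/-- The lines of the chart 3. -/
def izM3 : Lines := ⟨(500, 0), (249, (-274), 0, 0), (251, (-210), 0, 0)⟩

/-- The lines of the chart 4. -/
def izM4 : Lines := ⟨(500, 0), (249, (-261), 0, 0), (251, (-223), 0, 0)⟩

/-- The lines of the chart 5. -/
def izM5 : Lines := ⟨(500, 0), (249, (-274), 0, 0), (251, (-210), 0, 0)⟩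

/-- The lines of the chart 6. -/
def izM6 : Lines := ⟨(100, 0), (49, (-47), 0, 0), (51, (-38), 0, 0)⟩

/-- The lines of the chart 7. -/
def izM7 : Lines := ⟨(100, 0), (49, (-47), 0, 0), (51, (-37), 0, 0)⟩

/-- The lines of the chart 8. -/
def izM8 : Lines := ⟨(100, 0), (49, (-48), 0, 0), (51, (-36), 0, 0)⟩

/-- The lines of the chart 9. -/
def izM9 : Lines := ⟨(500, 0), (244, (-297), 0, 0), (256, (-283), 0, 0)⟩

/-- The lines of the chart 10. -/
def izM10 : Lines := ⟨(500, 0), (239, (-297), 0, 0), (261, (-292), 0, 0)⟩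

/-- The lines of the chart 11. -/
def izM11 : Lines := ⟨(500, 0), (244, (-300), 0, 0), (256, (-299), 0, 0)⟩

/-- The lines of the chart 12. -/
def izM12 : Lines := ⟨(500, 0), (239, (-512), 0, 0), (261, (-289), 0, 0)⟩

/-- The lines of the chart 13. -/
def izM13 : Lines := ⟨(500, 0), (242, (-301), 0, 0), (258, (-309), 0, 0)⟩

/-- The lines of the chart 14. -/
def izM14 : Lines := ⟨(500, 0), (239, (-564), 0, 0), (261, (-274), 0, 0)⟩

/-- The lines of the chart 15. -/
def izM15 : Lines := ⟨(500, 0), (245, (-299), 0, 0), (255, (-317), 0, 0)⟩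

/-- The lines of the chart 16. -/
def izM16 : Lines := ⟨(500, 0), (239, (-533), 0, 0), (261, (-326), 0, 0)⟩

/-- The lines of the chart 17. -/
def izM17 : Lines := ⟨(100, 0), (47, (-47), 0, 0), (53, (-50), 0, 0)⟩

/-- The lines of the chart 18. -/
def izM18 : Lines := ⟨(100, 0), (48, (-56), 0, 0), (52, (-56), 0, 0)⟩

/-- The lines of the chart 19. -/
def izM19 : Lines := ⟨(100, 0), (48, (-56), 0, 0), (52, (-70), 0, 0)⟩

/-- The lines of the chart 20. -/
def izM20 : Lines := ⟨(100, 0), (48, (-47), 0, 0), (52, (-47), 0, 0)⟩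

/-- The lines of the chart 21. -/
def izM21 : Lines := ⟨(100, 0), (47, (-56), 0, 0), (53, (-87), 0, 0)⟩

/-- The lines of the chart 22. -/
def izM22 : Lines := ⟨(100, 0), (46, (-47), 0, 0), (53, (-63), 0, 0)⟩

/-- The lines of the chart 23. -/
def izM23 : Lines := ⟨(100, 0), (46, (-47), 0, 0), (53, (-81), 0, 0)⟩

/-- The lines of the chart 24. -/
def izM24 : Lines := ⟨(500, 0), (239, (-410), 0, 0), (261, (-604), 0, 0)⟩

/-- The lines of the chart 25. -/
def izM25 : Lines := ⟨(500, 0), (239, (-512), 0, 0), (261, (-638), 0, 0)⟩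

/-- The lines of the chart 26. -/
def izM26 : Lines := ⟨(500, 0), (239, (-589), 0, 0), (261, (-653), 0, 0)⟩

/-- The lines of the chart 27. -/
def izM27 : Lines := ⟨(100, 0), (47, (-82), 0, 0), (52, (-49), 0, 0)⟩

/-- The lines of the chart 28. -/
def izM28 : Lines := ⟨(100, 0), (45, (-71), 0, 0), (54, (-68), 0, 0)⟩

/-- The lines of the chart 29. -/
def izM29 : Lines := ⟨(100, 0), (44, (-46), 0, 0), (55, (-98), 0, 0)⟩

/-- The lines of the chart 30. -/
def izM30 : Lines := ⟨(100, 0), (43, (-65), 0, 0), (54, (-93), 0, 0)⟩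

/-- The lines of the chart 31. -/
def izM31 : Lines := ⟨(100, 0), (38, (-18), 0, 0), (56, (-24), 0, 0)⟩

/-- The lines of the chart 32. -/
def izM32 : Lines := ⟨(100, 0), (39, (-20), 0, 0), (55, (-22), 0, 0)⟩

/-- The lines of the chart 33. -/
def izM33 : Lines := ⟨(100, 0), (38, (-19), 0, 0), (53, (-24), 0, 0)⟩

/-- The lines of the chart 34. -/
def izM34 : Lines := ⟨(100, 0), (36, (-17), 0, 0), (50, (-25), 0, 0)⟩

/-- The lines of the chart 35. -/
def izM35 : Lines := ⟨(100, 0), (35, (-17), 0, 0), (49, (-24), 0, 0)⟩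

/-- The lines of the chart 36. -/
def izM36 : Lines := ⟨(500, 0), (239, (-410), 0, 0), (261, (-1658), 0, 0)⟩

/-- The lines of the chart 37. -/
def izM37 : Lines := ⟨(500, 0), (239, (-512), 0, 0), (261, (-1817), 0, 0)⟩

/-- The lines of the chart 38. -/
def izM38 : Lines := ⟨(500, 0), (239, (-538), 0, 0), (261, (-2128), 0, 0)⟩

/-- The lines of the chart 39. -/
def izM39 : Lines := ⟨(500, 0), (239, (-551), 0, 0), (261, (-2214), 0, 0)⟩

/-- The lines of the chart 40. -/
def izM40 : Lines := ⟨(500, 0), (239, (-564), 0, 0), (261, (-3484), 0, 0)⟩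

/-- The lines of the chart 41. -/
def izM41 : Lines := ⟨(500, 0), (239, (-589), 0, 0), (261, (-2282), 0, 0)⟩

/-- The lines of the chart 42. -/
def izM42 : Lines := ⟨(100, 0), (35, (-17), 0, 0), (59, (-36), 0, 0)⟩

/-- The lines of the chart 43. -/
def izM43 : Lines := ⟨(100, 0), (47, (-118), 0, 0), (46, (-46), 0, 0)⟩

/-- The lines of the chart 44. -/
def izM44 : Lines := ⟨(100, 0), (27, (-7), 0, 0), (41, (-9), 0, 0)⟩

/-- The lines of the chart 45. -/
def izM45 : Lines := ⟨(100, 0), (19, (-3), (-1), 0), (29, (-3), (-4), 0)⟩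

/-- The lines of the chart 46. -/
def izM46 : Lines := ⟨(100, 0), (29, (-8), (-4), 0), (40, (-8), (-8), 0)⟩

/-- The lines of the chart 47. -/
def izM47 : Lines := ⟨(100, 0), (26, (-7), 0, 0), (31, (-6), 0, 0)⟩

/-- The lines of the chart 48. -/
def izM48 : Lines := ⟨(100, 0), (18, (-3), 0, 0), (23, (-2), 0, 0)⟩

/-- The lines of the chart 49. -/
def izM49 : Lines := ⟨(100, 0), (24, (-7), 0, 0), (33, (-6), 0, 0)⟩

/-- The lines of the chart 50. -/
def izM50 : Lines := ⟨(100, 0), (18, (-3), 0, 0), (30, (-4), 0, 0)⟩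

/-- The lines of the chart 51. -/
def izM51 : Lines := ⟨(100, 0), (22, (-6), 0, 0), (28, (-5), 0, 0)⟩

/-- The lines of the chart 52. -/
def izM52 : Lines := ⟨(500, 0), (239, (-307), 0, 0), (261, (-2775), 0, 0)⟩

/-- The lines of the chart 53. -/
def izM53 : Lines := ⟨(500, 0), (239, (-410), 0, 0), (261, (-2757), 0, 0)⟩

/-- The lines of the chart 54. -/
def izM54 : Lines := ⟨(500, 0), (239, (-512), 0, 0), (261, (-7823), 0, 0)⟩

/-- The lines of the chart 55. -/
def izM55 : Lines := ⟨(500, 0), (239, (-538), 0, 0), (261, (-6007), 0, 0)⟩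

/-- The lines of the chart 56. -/
def izM56 : Lines := ⟨(500, 0), (239, (-548), 0, 0), (261, (-3269), 0, 0)⟩

/-- The lines of the chart 57. -/
def izM57 : Lines := ⟨(500, 0), (241, (-302), 0, 0), (259, (-420), 0, 0)⟩

/-- The lines of the chart 58. -/
def izM58 : Lines := ⟨(500, 0), (239, (-589), 0, 0), (261, (-453), 0, 0)⟩

/-- The lines of the chart 59. -/
def izM59 : Lines := ⟨(100, 0), (45, (-47), 0, 0), (54, (-85), 0, 0)⟩

/-- The lines of the chart 60. -/
def izM60 : Lines := ⟨(100, 0), (43, (-45), 0, 0), (55, (-107), 0, 0)⟩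

/-- The lines of the chart 61. -/
def izM61 : Lines := ⟨(100, 0), (47, (-56), 0, 0), (53, (-92), 0, 0)⟩

/-- The lines of the chart 62. -/
def izM62 : Lines := ⟨(500, 0), (248, (-291), 0, 0), (252, (-253), 0, 0)⟩

/-- The lines of the chart 63. -/
def izM63 : Lines := ⟨(500, 0), (249, (-290), 0, 0), (251, (-251), 0, 0)⟩

/-- The lines of the chart 64. -/
def izM64 : Lines := ⟨(500, 0), (251, (-271), 0, 0), (249, (-261), 0, 0)⟩

/-- The lines of the chart 65. -/
def izM65 : Lines := ⟨(100, 0), (47, (-47), 0, 0), (52, (-55), 0, 0)⟩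

/-- The lines of the chart 66. -/
def izM66 : Lines := ⟨(100, 0), (36, (-18), 0, 0), (51, (-24), 0, 0)⟩

/-- The lines of the chart 67. -/
def izM67 : Lines := ⟨(100, 0), (33, (-16), 0, 0), (47, (-23), 0, 0)⟩

/-- The lines of the chart 68. -/
def izM68 : Lines := ⟨(500, 0), (239, (-307), 0, 0), (261, (-1959), 0, 0)⟩

/-- The lines of the chart 69. -/
def izM69 : Lines := ⟨(500, 0), (239, (-307), 0, 0), (258, (-1388), 0, 0)⟩

/-- The lines of the chart 70. -/
def izM70 : Lines := ⟨(100, 0), (47, (-103), 0, 0), (47, (-57), 0, 0)⟩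

/-- The lines of the chart 71. -/
def izM71 : Lines := ⟨(100, 0), (32, (-15), 0, 0), (44, (-21), 0, 0)⟩

/-- The lines of the chart 72. -/
def izM72 : Lines := ⟨(500, 0), (239, (-564), 0, 0), (250, (-1717), 0, 0)⟩

/-- The lines of the chart 73. -/
def izM73 : Lines := ⟨(100, 0), (31, (-15), 0, 0), (43, (-21), 0, 0)⟩

/-- The lines of the chart 74. -/
def izM74 : Lines := ⟨(100, 50), (37, (-9), 0, 0), (57, (-25), 0, 0)⟩

/-- The lines of the chart 75. -/
def izM75 : Lines := ⟨(100, 0), (47, (-82), 0, 0), (45, (-72), 0, 0)⟩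

/-- The lines of the chart 76. -/
def izM76 : Lines := ⟨(100, 0), (33, (-15), 0, 0), (42, (-21), 0, 0)⟩

/-- The lines of the chart 77. -/
def izM77 : Lines := ⟨(100, 0), (47, (-98), 0, 0), (46, (-136), 0, 0)⟩

/-- The lines of the chart 78. -/
def izM78 : Lines := ⟨(100, 0), (47, (-98), 0, 0), (38, (-23), 0, 0)⟩

/-- The lines of the chart 79. -/
def izM79 : Lines := ⟨(100, 0), (47, (-111), 0, 0), (42, (-47), 0, 0)⟩

/-- The lines of the chart 80. -/
def izM80 : Lines := ⟨(100, 0), (35, (-24), 0, 0), (41, (-34), 0, 0)⟩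

/-- The lines of the chart 81. -/
def izM81 : Lines := ⟨(500, 0), (239, (-512), 0, 0), (254, (-3768), 0, 0)⟩

/-- The lines of the chart 82. -/
def izM82 : Lines := ⟨(500, 0), (239, (-512), 0, 0), (242, (-1794), 0, 0)⟩

/-- The lines of the chart 83. -/
def izM83 : Lines := ⟨(500, 0), (239, (-538), 0, 0), (235, (-1850), 0, 0)⟩

/-- The lines of the chart 84. -/
def izM84 : Lines := ⟨(100, 0), (30, (-13), 0, 0), (33, (-12), 0, 0)⟩

/-- The lines of the piece 0. -/
def izL0 : Lines := ⟨(500, 0), (249, (-253), 0, 0), (251, (-238), 0, 0)⟩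

/-- The lines of the piece 1. -/
def izL1 : Lines := ⟨(500, 0), (249, (-248), 0, 0), (252, (-239), 0, 0)⟩

/-- The lines of the piece 2. -/
def izL2 : Lines := ⟨(500, 0), (249, (-252), 0, 0), (251, (-232), 0, 0)⟩

/-- The lines of the piece 3. -/
def izL3 : Lines := ⟨(500, 0), (500, (-8000), 0, 0), (0, 7516, 0, 0)⟩

/-- The lines of the piece 4. -/
def izL4 : Lines := ⟨(500, 0), (500, (-8000), 0, 0), (0, 7516, 0, 0)⟩

/-- The lines of the piece 5. -/
def izL5 : Lines := ⟨(500, 0), (500, (-8000), 0, 0), (0, 7516, 0, 0)⟩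

/-- The lines of the piece 6. -/
def izL6 : Lines := ⟨(100, 0), (49, (-47), 0, 0), (51, (-38), 0, 0)⟩

/-- The lines of the piece 7. -/
def izL7 : Lines := ⟨(100, 0), (49, (-47), 0, 0), (51, (-37), 0, 0)⟩

/-- The lines of the piece 8. -/
def izL8 : Lines := ⟨(100, 0), (49, (-48), 0, 0), (51, (-36), 0, 0)⟩

/-- The lines of the piece 9. -/
def izL9 : Lines := ⟨(500, 0), (244, (-297), 0, 0), (256, (-283), 0, 0)⟩

/-- The lines of the piece 10. -/
def izL10 : Lines := ⟨(500, 0), (239, (-297), 0, 0), (261, (-292), 0, 0)⟩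

/-- The lines of the piece 11. -/
def izL11 : Lines := ⟨(500, 0), (244, (-300), 0, 0), (256, (-299), 0, 0)⟩

/-- The lines of the piece 12. -/
def izL12 : Lines := ⟨(500, 0), (239, (-512), 0, 0), (261, (-289), 0, 0)⟩

/-- The lines of the piece 13. -/
def izL13 : Lines := ⟨(500, 0), (242, (-301), 0, 0), (258, (-309), 0, 0)⟩

/-- The lines of the piece 14. -/
def izL14 : Lines := ⟨(500, 0), (239, (-564), 0, 0), (261, (-274), 0, 0)⟩

/-- The lines of the piece 15. -/
def izL15 : Lines := ⟨(500, 0), (245, (-299), 0, 0), (255, (-317), 0, 0)⟩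

/-- The lines of the piece 16. -/
def izL16 : Lines := ⟨(500, 0), (239, (-533), 0, 0), (261, (-326), 0, 0)⟩

/-- The lines of the piece 17. -/
def izL17 : Lines := ⟨(100, 0), (47, (-47), 0, 0), (53, (-50), 0, 0)⟩

/-- The lines of the piece 18. -/
def izL18 : Lines := ⟨(100, 0), (48, (-56), 0, 0), (52, (-56), 0, 0)⟩

/-- The lines of the piece 19. -/
def izL19 : Lines := ⟨(100, 0), (48, (-56), 0, 0), (52, (-70), 0, 0)⟩

/-- The lines of the piece 20. -/
def izL20 : Lines := ⟨(100, 0), (48, (-47), 0, 0), (52, (-47), 0, 0)⟩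

/-- The lines of the piece 21. -/
def izL21 : Lines := ⟨(100, 0), (47, (-56), 0, 0), (53, (-87), 0, 0)⟩

/-- The lines of the piece 22. -/
def izL22 : Lines := ⟨(100, 0), (46, (-47), 0, 0), (53, (-63), 0, 0)⟩

/-- The lines of the piece 23. -/
def izL23 : Lines := ⟨(100, 0), (46, (-47), 0, 0), (53, (-81), 0, 0)⟩

/-- The lines of the piece 24. -/
def izL24 : Lines := ⟨(500, 0), (239, (-410), 0, 0), (261, (-604), 0, 0)⟩

/-- The lines of the piece 25. -/
def izL25 : Lines := ⟨(500, 0), (283, 0, 0, 0), (217, (-1150), 0, 0)⟩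

/-- The lines of the piece 26. -/
def izL26 : Lines := ⟨(500, 0), (235, 0, 0, 0), (48, 0, 0, 0)⟩

/-- The lines of the piece 27. -/
def izL27 : Lines := ⟨(500, 0), (228, 0, 0, 0), (55, 0, 0, 0)⟩

/-- The lines of the piece 28. -/
def izL28 : Lines := ⟨(500, 0), (446, 0, 0, 0), (54, (-1242), 0, 0)⟩

/-- The lines of the piece 29. -/
def izL29 : Lines := ⟨(500, 0), (282, 0, 0, 0), (164, 0, 0, 0)⟩

/-- The lines of the piece 30. -/
def izL30 : Lines := ⟨(500, 0), (239, (-589), 0, 0), (43, 589, 0, 0)⟩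

/-- The lines of the piece 31. -/
def izL31 : Lines := ⟨(500, 0), (239, (-589), 0, 0), (43, 589, 0, 0)⟩

/-- The lines of the piece 32. -/
def izL32 : Lines := ⟨(100, 0), (47, (-82), 0, 0), (52, (-49), 0, 0)⟩

/-- The lines of the piece 33. -/
def izL33 : Lines := ⟨(100, 0), (45, (-71), 0, 0), (54, (-68), 0, 0)⟩

/-- The lines of the piece 34. -/
def izL34 : Lines := ⟨(100, 0), (44, (-46), 0, 0), (55, (-98), 0, 0)⟩

/-- The lines of the piece 35. -/
def izL35 : Lines := ⟨(100, 0), (43, (-65), 0, 0), (54, (-93), 0, 0)⟩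

/-- The lines of the piece 36. -/
def izL36 : Lines := ⟨(100, 0), (38, (-18), 0, 0), (56, (-24), 0, 0)⟩

/-- The lines of the piece 37. -/
def izL37 : Lines := ⟨(100, 0), (39, (-20), 0, 0), (55, (-22), 0, 0)⟩

/-- The lines of the piece 38. -/
def izL38 : Lines := ⟨(100, 0), (38, (-19), 0, 0), (53, (-24), 0, 0)⟩

/-- The lines of the piece 39. -/
def izL39 : Lines := ⟨(100, 0), (36, (-17), 0, 0), (50, (-25), 0, 0)⟩

/-- The lines of the piece 40. -/
def izL40 : Lines := ⟨(100, 0), (35, (-17), 0, 0), (49, (-24), 0, 0)⟩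

/-- The lines of the piece 42. -/
def izL42 : Lines := ⟨(500, 0), (438, 0, 0, 0), (62, (-2068), 0, 0)⟩

/-- The lines of the piece 44. -/
def izL44 : Lines := ⟨(500, 0), (236, 0, 0, 0), (16, 0, 0, 0)⟩

/-- The lines of the piece 45. -/
def izL45 : Lines := ⟨(500, 0), (230, 0, 0, 0), (22, 0, 0, 0)⟩

/-- The lines of the piece 47. -/
def izL47 : Lines := ⟨(500, 0), (350, 0, 0, 0), (82, 0, 0, 0)⟩

/-- The lines of the piece 48. -/
def izL48 : Lines := ⟨(500, 0), (350, 0, 0, 0), (82, 0, 0, 0)⟩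

/-- The lines of the piece 49. -/
def izL49 : Lines := ⟨(500, 0), (330, 0, 0, 0), (20, 0, 0, 0)⟩

/-- The lines of the piece 50. -/
def izL50 : Lines := ⟨(500, 0), (256, 0, 0, 0), (74, 0, 0, 0)⟩

/-- The lines of the piece 51. -/
def izL51 : Lines := ⟨(500, 0), (238, 0, 0, 0), (18, 0, 0, 0)⟩

/-- The lines of the piece 52. -/
def izL52 : Lines := ⟨(500, 0), (238, 0, 0, 0), (18, 0, 0, 0)⟩

/-- The lines of the piece 53. -/
def izL53 : Lines := ⟨(500, 0), (237, 0, 0, 0), (93, 0, 0, 0)⟩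

/-- The lines of the piece 54. -/
def izL54 : Lines := ⟨(500, 0), (235, 0, 0, 0), (95, 0, 0, 0)⟩

/-- The lines of the piece 55. -/
def izL55 : Lines := ⟨(500, 0), (233, 0, 0, 0), (97, 0, 0, 0)⟩

/-- The lines of the piece 56. -/
def izL56 : Lines := ⟨(500, 0), (228, 0, 0, 0), (102, 0, 0, 0)⟩

/-- The lines of the piece 58. -/
def izL58 : Lines := ⟨(500, 0), (260, 0, 0, 0), (40, 0, 0, 0)⟩

/-- The lines of the piece 59. -/
def izL59 : Lines := ⟨(500, 0), (250, 0, 0, 0), (10, 0, 0, 0)⟩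

/-- The lines of the piece 60. -/
def izL60 : Lines := ⟨(500, 0), (235, 0, 0, 0), (15, 0, 0, 0)⟩

/-- The lines of the piece 61. -/
def izL61 : Lines := ⟨(500, 0), (228, 0, 0, 0), (22, 0, 0, 0)⟩

/-- The lines of the piece 62. -/
def izL62 : Lines := ⟨(500, 0), (239, (-538), 0, 0), (11, 538, 0, 0)⟩

/-- The lines of the piece 63. -/
def izL63 : Lines := ⟨(500, 0), (239, (-538), 0, 0), (11, 538, 0, 0)⟩

/-- The lines of the piece 65. -/
def izL65 : Lines := ⟨(500, 0), (260, 0, 0, 0), (40, 0, 0, 0)⟩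

/-- The lines of the piece 66. -/
def izL66 : Lines := ⟨(500, 0), (250, 0, 0, 0), (10, 0, 0, 0)⟩

/-- The lines of the piece 67. -/
def izL67 : Lines := ⟨(500, 0), (239, (-551), 0, 0), (11, 551, 0, 0)⟩

/-- The lines of the piece 69. -/
def izL69 : Lines := ⟨(500, 0), (306, 0, 0, 0), (194, (-4048), 0, 0)⟩

/-- The lines of the piece 70. -/
def izL70 : Lines := ⟨(500, 0), (257, 0, 0, 0), (49, 0, 0, 0)⟩

/-- The lines of the piece 71. -/
def izL71 : Lines := ⟨(500, 0), (237, 0, 0, 0), (20, 0, 0, 0)⟩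

/-- The lines of the piece 72. -/
def izL72 : Lines := ⟨(500, 0), (235, 0, 0, 0), (22, 0, 0, 0)⟩

/-- The lines of the piece 74. -/
def izL74 : Lines := ⟨(500, 0), (391, 0, 0, 0), (109, (-2871), 0, 0)⟩

/-- The lines of the piece 75. -/
def izL75 : Lines := ⟨(500, 0), (282, 0, 0, 0), (109, 0, 0, 0)⟩

/-- The lines of the piece 76. -/
def izL76 : Lines := ⟨(500, 0), (237, 0, 0, 0), (45, 0, 0, 0)⟩

/-- The lines of the piece 77. -/
def izL77 : Lines := ⟨(500, 0), (235, 0, 0, 0), (47, 0, 0, 0)⟩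

/-- The lines of the piece 78. -/
def izL78 : Lines := ⟨(500, 0), (227, 0, 0, 0), (55, 0, 0, 0)⟩

/-- The lines of the piece 79. -/
def izL79 : Lines := ⟨(100, 0), (35, (-17), 0, 0), (59, (-36), 0, 0)⟩

/-- The lines of the piece 82. -/
def izL82 : Lines := ⟨(100, 0), (47, (-118), 0, 0), (46, (-46), 0, 0)⟩

/-- The lines of the piece 84. -/
def izL84 : Lines := ⟨(100, 0), (27, (-7), 0, 0), (41, (-9), 0, 0)⟩

/-- The lines of the piece 85. -/
def izL85 : Lines := ⟨(100, 0), (19, (-3), (-1), 0), (29, (-3), (-4), 0)⟩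

/-- The lines of the piece 86. -/
def izL86 : Lines := ⟨(100, 0), (29, (-8), (-4), 0), (40, (-8), (-8), 0)⟩

/-- The lines of the piece 87. -/
def izL87 : Lines := ⟨(100, 0), (26, (-7), 0, 0), (31, (-6), 0, 0)⟩

/-- The lines of the piece 88. -/
def izL88 : Lines := ⟨(100, 0), (18, (-3), 0, 0), (23, (-2), 0, 0)⟩

/-- The lines of the piece 89. -/
def izL89 : Lines := ⟨(100, 0), (24, (-7), 0, 0), (33, (-6), 0, 0)⟩

/-- The lines of the piece 90. -/
def izL90 : Lines := ⟨(100, 0), (18, (-3), 0, 0), (30, (-4), 0, 0)⟩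

/-- The lines of the piece 91. -/
def izL91 : Lines := ⟨(100, 0), (22, (-6), 0, 0), (28, (-5), 0, 0)⟩

/-- The lines of the piece 92. -/
def izL92 : Lines := ⟨(500, 0), (239, (-307), 0, 0), (261, (-2775), 0, 0)⟩

/-- The lines of the piece 93. -/
def izL93 : Lines := ⟨(500, 0), (302, 0, 0, 0), (198, (-3167), 0, 0)⟩

/-- The lines of the piece 94. -/
def izL94 : Lines := ⟨(500, 0), (252, 0, 0, 0), (50, 0, 0, 0)⟩

/-- The lines of the piece 95. -/
def izL95 : Lines := ⟨(500, 0), (230, 0, 0, 0), (22, 0, 0, 0)⟩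

/-- The lines of the piece 96. -/
def izL96 : Lines := ⟨(500, 0), (290, 0, 0, 0), (210, (-8335), 0, 0)⟩

/-- The lines of the piece 97. -/
def izL97 : Lines := ⟨(500, 0), (238, 0, 0, 0), (52, 0, 0, 0)⟩

/-- The lines of the piece 100. -/
def izL100 : Lines := ⟨(500, 0), (434, 0, 0, 0), (66, (-6545), 0, 0)⟩

/-- The lines of the piece 101. -/
def izL101 : Lines := ⟨(500, 0), (335, 0, 0, 0), (99, 0, 0, 0)⟩

/-- The lines of the piece 102. -/
def izL102 : Lines := ⟨(500, 0), (257, 0, 0, 0), (78, 0, 0, 0)⟩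

/-- The lines of the piece 103. -/
def izL103 : Lines := ⟨(500, 0), (242, 0, 0, 0), (15, 0, 0, 0)⟩

/-- The lines of the piece 104. -/
def izL104 : Lines := ⟨(500, 0), (239, (-538), 0, 0), (3, 538, 0, 0)⟩

/-- The lines of the piece 105. -/
def izL105 : Lines := ⟨(500, 0), (239, (-538), 0, 0), (3, 538, 0, 0)⟩

/-- The lines of the piece 106. -/
def izL106 : Lines := ⟨(500, 0), (239, (-538), 0, 0), (3, 538, 0, 0)⟩

/-- The lines of the piece 108. -/
def izL108 : Lines := ⟨(500, 0), (236, 0, 0, 0), (99, 0, 0, 0)⟩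

/-- The lines of the piece 109. -/
def izL109 : Lines := ⟨(500, 0), (235, 0, 0, 0), (100, 0, 0, 0)⟩

/-- The lines of the piece 111. -/
def izL111 : Lines := ⟨(500, 0), (391, 0, 0, 0), (109, (-3817), 0, 0)⟩

/-- The lines of the piece 112. -/
def izL112 : Lines := ⟨(500, 0), (282, 0, 0, 0), (109, 0, 0, 0)⟩

/-- The lines of the piece 113. -/
def izL113 : Lines := ⟨(500, 0), (245, 0, 0, 0), (37, 0, 0, 0)⟩

/-- The lines of the piece 114. -/
def izL114 : Lines := ⟨(500, 0), (245, 0, 0, 0), (37, 0, 0, 0)⟩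

/-- The lines of the piece 115. -/
def izL115 : Lines := ⟨(500, 0), (239, (-548), 0, 0), (6, 548, 0, 0)⟩

/-- The lines of the piece 116. -/
def izL116 : Lines := ⟨(500, 0), (239, (-548), 0, 0), (6, 548, 0, 0)⟩

/-- The lines of the piece 117. -/
def izL117 : Lines := ⟨(500, 0), (228, 0, 0, 0), (54, 0, 0, 0)⟩

/-- The lines of the piece 121. -/
def izL121 : Lines := ⟨(500, 0), (241, (-302), 0, 0), (259, (-420), 0, 0)⟩

/-- The lines of the piece 122. -/
def izL122 : Lines := ⟨(500, 0), (239, (-589), 0, 0), (261, (-453), 0, 0)⟩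

/-- The lines of the piece 123. -/
def izL123 : Lines := ⟨(100, 0), (45, (-47), 0, 0), (54, (-85), 0, 0)⟩

/-- The lines of the piece 124. -/
def izL124 : Lines := ⟨(100, 0), (43, (-45), 0, 0), (55, (-107), 0, 0)⟩

/-- The lines of the piece 125. -/
def izL125 : Lines := ⟨(500, 0), (446, 0, 0, 0), (54, (-1242), 0, 0)⟩

/-- The lines of the piece 126. -/
def izL126 : Lines := ⟨(100, 0), (47, (-56), 0, 0), (53, (-92), 0, 0)⟩

/-- The lines of the piece 127. -/
def izL127 : Lines := ⟨(500, 0), (248, (-291), 0, 0), (252, (-253), 0, 0)⟩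

/-- The lines of the piece 128. -/
def izL128 : Lines := ⟨(500, 0), (249, (-290), 0, 0), (251, (-251), 0, 0)⟩

/-- The lines of the piece 129. -/
def izL129 : Lines := ⟨(500, 0), (251, (-271), 0, 0), (249, (-261), 0, 0)⟩

/-- The lines of the piece 130. -/
def izL130 : Lines := ⟨(100, 0), (47, (-47), 0, 0), (52, (-55), 0, 0)⟩

/-- The lines of the piece 131. -/
def izL131 : Lines := ⟨(100, 0), (36, (-18), 0, 0), (51, (-24), 0, 0)⟩

/-- The lines of the piece 132. -/
def izL132 : Lines := ⟨(100, 0), (33, (-16), 0, 0), (47, (-23), 0, 0)⟩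

/-- The lines of the piece 200. -/
def izL200 : Lines := ⟨(500, 0), (462, 0, 0, 0), (38, (-2266), 0, 0)⟩

/-- The lines of the piece 201. -/
def izL201 : Lines := ⟨(500, 0), (452, 0, 0, 0), (10, 0, 0, 0)⟩

/-- The lines of the piece 202. -/
def izL202 : Lines := ⟨(500, 0), (306, 0, 0, 0), (146, 0, 0, 0)⟩

/-- The lines of the piece 203. -/
def izL203 : Lines := ⟨(500, 0), (258, 0, 0, 0), (48, 0, 0, 0)⟩

/-- The lines of the piece 204. -/
def izL204 : Lines := ⟨(500, 0), (237, 0, 0, 0), (21, 0, 0, 0)⟩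

/-- The lines of the piece 205. -/
def izL205 : Lines := ⟨(500, 0), (239, (-307), 0, 0), (258, (-1388), 0, 0)⟩

/-- The lines of the piece 206. -/
def izL206 : Lines := ⟨(500, 0), (345, 0, 0, 0), (93, 0, 0, 0)⟩

/-- The lines of the piece 207. -/
def izL207 : Lines := ⟨(500, 0), (252, 0, 0, 0), (93, 0, 0, 0)⟩

/-- The lines of the piece 208. -/
def izL208 : Lines := ⟨(500, 0), (345, 0, 0, 0), (93, 0, 0, 0)⟩

/-- The lines of the piece 209. -/
def izL209 : Lines := ⟨(500, 0), (252, 0, 0, 0), (93, 0, 0, 0)⟩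

/-- The lines of the piece 210. -/
def izL210 : Lines := ⟨(500, 0), (482, 0, 0, 0), (18, (-2329), 0, 0)⟩

/-- The lines of the piece 211. -/
def izL211 : Lines := ⟨(500, 0), (478, 0, 0, 0), (4, 0, 0, 0)⟩

/-- The lines of the piece 212. -/
def izL212 : Lines := ⟨(500, 0), (478, 0, 0, 0), (4, 0, 0, 0)⟩

/-- The lines of the piece 213. -/
def izL213 : Lines := ⟨(500, 0), (473, 0, 0, 0), (5, 0, 0, 0)⟩

/-- The lines of the piece 214. -/
def izL214 : Lines := ⟨(500, 0), (446, 0, 0, 0), (27, 0, 0, 0)⟩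

/-- The lines of the piece 216. -/
def izL216 : Lines := ⟨(500, 0), (446, 0, 0, 0), (37, 0, 0, 0)⟩

/-- The lines of the piece 217. -/
def izL217 : Lines := ⟨(500, 0), (446, 0, 0, 0), (31, 0, 0, 0)⟩

/-- The lines of the piece 218. -/
def izL218 : Lines := ⟨(500, 0), (446, 0, 0, 0), (20, 0, 0, 0)⟩

/-- The lines of the piece 219. -/
def izL219 : Lines := ⟨(500, 0), (432, 0, 0, 0), (14, 0, 0, 0)⟩

/-- The lines of the piece 220. -/
def izL220 : Lines := ⟨(500, 0), (432, 0, 0, 0), (14, 0, 0, 0)⟩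

/-- The lines of the piece 221. -/
def izL221 : Lines := ⟨(500, 0), (434, 0, 0, 0), (66, (-2666), 0, 0)⟩

/-- The lines of the piece 222. -/
def izL222 : Lines := ⟨(500, 0), (418, 0, 0, 0), (16, 0, 0, 0)⟩

/-- The lines of the piece 223. -/
def izL223 : Lines := ⟨(500, 0), (398, 0, 0, 0), (20, 0, 0, 0)⟩

/-- The lines of the piece 224. -/
def izL224 : Lines := ⟨(500, 0), (372, 0, 0, 0), (26, 0, 0, 0)⟩

/-- The lines of the piece 225. -/
def izL225 : Lines := ⟨(500, 0), (340, 0, 0, 0), (32, 0, 0, 0)⟩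

/-- The lines of the piece 226. -/
def izL226 : Lines := ⟨(500, 0), (300, 0, 0, 0), (40, 0, 0, 0)⟩

/-- The lines of the piece 227. -/
def izL227 : Lines := ⟨(500, 0), (434, 0, 0, 0), (66, (-2765), 0, 0)⟩

/-- The lines of the piece 228. -/
def izL228 : Lines := ⟨(500, 0), (418, 0, 0, 0), (16, 0, 0, 0)⟩

/-- The lines of the piece 229. -/
def izL229 : Lines := ⟨(500, 0), (398, 0, 0, 0), (20, 0, 0, 0)⟩

/-- The lines of the piece 230. -/
def izL230 : Lines := ⟨(500, 0), (372, 0, 0, 0), (26, 0, 0, 0)⟩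

/-- The lines of the piece 231. -/
def izL231 : Lines := ⟨(500, 0), (340, 0, 0, 0), (32, 0, 0, 0)⟩

/-- The lines of the piece 232. -/
def izL232 : Lines := ⟨(500, 0), (300, 0, 0, 0), (40, 0, 0, 0)⟩

/-- The lines of the piece 233. -/
def izL233 : Lines := ⟨(500, 0), (238, 0, 0, 0), (12, 0, 0, 0)⟩

/-- The lines of the piece 234. -/
def izL234 : Lines := ⟨(500, 0), (237, 0, 0, 0), (13, 0, 0, 0)⟩

/-- The lines of the piece 235. -/
def izL235 : Lines := ⟨(500, 0), (235, 0, 0, 0), (15, 0, 0, 0)⟩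

/-- The lines of the piece 236. -/
def izL236 : Lines := ⟨(500, 0), (227, 0, 0, 0), (23, 0, 0, 0)⟩

/-- The lines of the piece 238. -/
def izL238 : Lines := ⟨(100, 0), (47, (-103), 0, 0), (47, (-57), 0, 0)⟩

/-- The lines of the piece 239. -/
def izL239 : Lines := ⟨(100, 0), (32, (-15), 0, 0), (44, (-21), 0, 0)⟩

/-- The lines of the piece 240. -/
def izL240 : Lines := ⟨(500, 0), (446, 0, 0, 0), (40, 0, 0, 0)⟩

/-- The lines of the piece 241. -/
def izL241 : Lines := ⟨(500, 0), (446, 0, 0, 0), (40, 0, 0, 0)⟩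

/-- The lines of the piece 242. -/
def izL242 : Lines := ⟨(500, 0), (446, 0, 0, 0), (38, 0, 0, 0)⟩

/-- The lines of the piece 243. -/
def izL243 : Lines := ⟨(500, 0), (239, (-564), 0, 0), (250, (-1717), 0, 0)⟩

/-- The lines of the piece 244. -/
def izL244 : Lines := ⟨(100, 0), (31, (-15), 0, 0), (43, (-21), 0, 0)⟩

/-- The lines of the piece 245. -/
def izL245 : Lines := ⟨(100, 0), (31, (-15), 0, 0), (43, (-21), 0, 0)⟩

/-- The lines of the piece 246. -/
def izL246 : Lines := ⟨(100, 50), (37, (-9), 0, 0), (57, (-25), 0, 0)⟩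

/-- The lines of the piece 247. -/
def izL247 : Lines := ⟨(100, 50), (37, (-9), 0, 0), (57, (-25), 0, 0)⟩

/-- The lines of the piece 248. -/
def izL248 : Lines := ⟨(100, 50), (37, (-9), 0, 0), (57, (-25), 0, 0)⟩

/-- The lines of the piece 249. -/
def izL249 : Lines := ⟨(100, 50), (37, (-9), 0, 0), (57, (-25), 0, 0)⟩

/-- The lines of the piece 250. -/
def izL250 : Lines := ⟨(100, 50), (37, (-9), 0, 0), (57, (-25), 0, 0)⟩

/-- The lines of the piece 300. -/
def izL300 : Lines := ⟨(100, 0), (47, (-82), 0, 0), (45, (-72), 0, 0)⟩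

/-- The lines of the piece 301. -/
def izL301 : Lines := ⟨(100, 0), (33, (-15), 0, 0), (42, (-21), 0, 0)⟩

/-- The lines of the piece 302. -/
def izL302 : Lines := ⟨(100, 0), (47, (-98), 0, 0), (46, (-136), 0, 0)⟩

/-- The lines of the piece 303. -/
def izL303 : Lines := ⟨(100, 0), (47, (-98), 0, 0), (38, (-23), 0, 0)⟩

/-- The lines of the piece 304. -/
def izL304 : Lines := ⟨(100, 0), (47, (-111), 0, 0), (42, (-47), 0, 0)⟩

/-- The lines of the piece 305. -/
def izL305 : Lines := ⟨(100, 0), (35, (-24), 0, 0), (41, (-34), 0, 0)⟩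

/-- The lines of the piece 310. -/
def izL310 : Lines := ⟨(500, 0), (286, 0, 0, 0), (207, (-4280), 0, 0)⟩

/-- The lines of the piece 311. -/
def izL311 : Lines := ⟨(500, 0), (235, 0, 0, 0), (51, 0, 0, 0)⟩

/-- The lines of the piece 312. -/
def izL312 : Lines := ⟨(500, 0), (407, 0, 0, 0), (60, 0, 0, 0)⟩

/-- The lines of the piece 313. -/
def izL313 : Lines := ⟨(500, 0), (407, 0, 0, 0), (51, 0, 0, 0)⟩

/-- The lines of the piece 314. -/
def izL314 : Lines := ⟨(500, 0), (318, 0, 0, 0), (89, 0, 0, 0)⟩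

/-- The lines of the piece 315. -/
def izL315 : Lines := ⟨(500, 0), (228, 0, 0, 0), (90, 0, 0, 0)⟩

/-- The lines of the piece 316. -/
def izL316 : Lines := ⟨(500, 0), (401, 0, 0, 0), (59, 0, 0, 0)⟩

/-- The lines of the piece 317. -/
def izL317 : Lines := ⟨(500, 0), (401, 0, 0, 0), (50, 0, 0, 0)⟩

/-- The lines of the piece 318. -/
def izL318 : Lines := ⟨(500, 0), (315, 0, 0, 0), (86, 0, 0, 0)⟩

/-- The lines of the piece 319. -/
def izL319 : Lines := ⟨(500, 0), (228, 0, 0, 0), (87, 0, 0, 0)⟩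

/-- The lines of the piece 321. -/
def izL321 : Lines := ⟨(500, 0), (290, 0, 0, 0), (210, (-8335), 0, 0)⟩

/-- The lines of the piece 322. -/
def izL322 : Lines := ⟨(500, 0), (290, 0, 0, 0), (210, (-8335), 0, 0)⟩

/-- The lines of the piece 323. -/
def izL323 : Lines := ⟨(500, 0), (239, (-548), 0, 0), (6, 548, 0, 0)⟩

/-- The lines of the piece 324. -/
def izL324 : Lines := ⟨(500, 0), (239, (-548), 0, 0), (6, 548, 0, 0)⟩

/-- The lines of the piece 325. -/
def izL325 : Lines := ⟨(500, 0), (290, 0, 0, 0), (210, (-8335), 0, 0)⟩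

/-- The lines of the piece 326. -/
def izL326 : Lines := ⟨(100, 0), (30, (-13), 0, 0), (33, (-12), 0, 0)⟩

/-- The lines of the piece 400. -/
def izL400 : Lines := ⟨(500, 0), (249, (-274), 0, 0), (251, (-7726), 0, 0)⟩

/-- The lines of the piece 401. -/
def izL401 : Lines := ⟨(500, 0), (249, (-261), 0, 0), (251, (-7739), 0, 0)⟩

/-- The lines of the piece 402. -/
def izL402 : Lines := ⟨(500, 0), (249, (-274), 0, 0), (251, (-7726), 0, 0)⟩

/-- The lines of the piece 403. -/
def izL403 : Lines := ⟨(100, 0), (49, (-48), 0, 0), (51, (-36), 0, 0)⟩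

/-- The lines of the piece 404. -/
def izL404 : Lines := ⟨(500, 0), (239, (-512), 0, 0), (261, (-289), 0, 0)⟩

/-- The lines of the piece 405. -/
def izL405 : Lines := ⟨(500, 0), (239, (-564), 0, 0), (261, (-274), 0, 0)⟩

/-- The lines of the piece 406. -/
def izL406 : Lines := ⟨(500, 0), (446, 0, 0, 0), (54, (-1242), 0, 0)⟩

/-- The lines of the piece 407. -/
def izL407 : Lines := ⟨(500, 0), (239, (-297), 0, 0), (261, (-292), 0, 0)⟩

/-- The lines of the piece 408. -/
def izL408 : Lines := ⟨(500, 0), (242, (-301), 0, 0), (258, (-309), 0, 0)⟩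

/-- The lines of the piece 409. -/
def izL409 : Lines := ⟨(100, 0), (49, (-48), 0, 0), (51, (-36), 0, 0)⟩

end Vale.Agent.P100.Calib.StripEndD
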