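import Vale.Agent.P100.Calib.SlabStripEndIZ7At0
import Vale.Agent.P100.Calib.SlabStripEndIZ7At1
import Vale.Agent.P100.Calib.SlabStripEndIZ7At2
import Vale.Agent.P100.Calib.SlabStripEndIZ7At3
import Vale.Agent.P100.Calib.SlabStripEndIZ7At4
import Vale.Agent.P100.Calib.SlabStripEndIZ7At5

/-!
# The signs below the kink
-/

set_option linter.unusedVariables false
set_option linter.unusedTactic false
set_option linter.unreachableTactic false
set_option linter.unusedSimpArgs false
set_option linter.unnecessarySeqFocus false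

namespace Vale.Agent.P100.Calib.StripEndD

open Pack hiding ev_add ev_mul
open Pack.Ex Band StripMid StripEnd

local instance endIZ7LowAdd : Add Ex := ⟨Ex.add⟩
local instance endIZ7LowSub : Sub Ex := ⟨Ex.sub⟩
local instance endIZ7LowMul : Mul Ex := ⟨Ex.mul⟩

/-- The signs in a part of the zone below the kink (0). -/
theorem iz7Low_0 {n : ℕ} {a b u v t H I r s : ℝ} (hb : Closed.All.ChartBox n (b - a) (a + b))
    (hF : Closed.All.ChartFacts (b - a) (a + b) u v t)
    (hH : Closed.chH (b - a) (a + b) u v t = H) (hB : EndBands7 a b u v H)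
    (hside : DLow a b) (hE : ExitLine a b u v) (hI : IPt a b u I r s) (hI0p : 0 < I)
    (hI0 : (1 : ℝ) / 20 < I) (hI1 : I ≤ 1 / 7) (hr : 0 < r) (hs : 0 < s) (hw : I * r < 1 / 5)
    (hkink : s * (1 - I) ≤ 1 - 2 * I) (hcap : I * (2 + s) < 19 / 50) (h1 : s ≤ (1 / 2 : ℝ)) (h2 : I ≤ (1 / 10 : ℝ)) (h3 : r ≤ (1 / 50 : ℝ)) (h4 : s ≤ (3 / 20 : ℝ)) :
    Closed.Strip.ChartSigns (b - a) (a + b) u v t := by
  rcases le_or_gt I (3 / 40 : ℝ) with h6 | h6
  · 
    rcases le_or_gt r (1 / 160 : ℝ) with h7 | h7
    · 
      exact izAt0 hb hF hH hB hside hE hI hI0p (by linarith) (by linarith) (by linarith) (by linarith) (by linarith) (by linarith)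
    · 
      exact izAt1 hb hF hH hB hside hE hI hI0p (by linarith) (by linarith) (by linarith) (by linarith) (by linarith) (by linarith)
  · 
    rcases le_or_gt s (3 / 40 : ℝ) with h10 | h10
    · 
      exact izAt2 hb hF hH hB hside hE hI hI0p (by linarith) (by linarith) (by linarith) (by linarith) (by linarith) (by linarith)
    · 
      exact izAt129 hb hF hH hB hside hE hI hI0p (by linarith) (by linarith) (by linarith) (by linarith) (by linarith) (by linarith)

/-- The signs in a part of the zone below the kink (1). -/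
theorem iz7Low_1 {n : ℕ} {a b u v t H I r s : ℝ} (hb : Closed.All.ChartBox n (b - a) (a + b))
    (hF : Closed.All.ChartFacts (b - a) (a + b) u v t)
    (hH : Closed.chH (b - a) (a + b) u v t = H) (hB : EndBands7 a b u v H)
    (hside : DLow a b) (hE : ExitLine a b u v) (hI : IPt a b u I r s) (hI0p : 0 < I)
    (hI0 : (1 : ℝ) / 20 < I) (hI1 : I ≤ 1 / 7) (hr : 0 < r) (hs : 0 < s) (hw : I * r < 1 / 5)
    (hkink : s * (1 - I) ≤ 1 - 2 * I) (hcap : I * (2 + s) < 19 / 50) (h1 : s ≤ (1 / 2 : ℝ)) (h2 : I ≤ (1 / 10 : ℝ)) (h3 : r ≤ (1 / 50 : ℝ)) (h4 : (3 / 20 : ℝ) < s) :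
    Closed.Strip.ChartSigns (b - a) (a + b) u v t := by
  rcases le_or_gt I (3 / 40 : ℝ) with h14 | h14
  · 
    exact izAt9 hb hF hH hB hside hE hI hI0p (by linarith) (by linarith) (by linarith) (by linarith) (by linarith) (by linarith)
  · 
    rcases le_or_gt I (7 / 80 : ℝ) with h16 | h16
    · 
      exact izAt10 hb hF hH hB hside hE hI hI0p (by linarith) (by linarith) (by linarith) (by linarith) (by linarith) (by linarith)
    · 
      exact izAt407 hb hF hH hB hside hE hI hI0p (by linarith) (by linarith) (by linarith) (by linarith) (by linarith) (by linarith)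

/-- The signs in a part of the zone below the kink (2). -/
theorem iz7Low_2 {n : ℕ} {a b u v t H I r s : ℝ} (hb : Closed.All.ChartBox n (b - a) (a + b))
    (hF : Closed.All.ChartFacts (b - a) (a + b) u v t)
    (hH : Closed.chH (b - a) (a + b) u v t = H) (hB : EndBands7 a b u v H)
    (hside : DLow a b) (hE : ExitLine a b u v) (hI : IPt a b u I r s) (hI0p : 0 < I)
    (hI0 : (1 : ℝ) / 20 < I) (hI1 : I ≤ 1 / 7) (hr : 0 < r) (hs : 0 < s) (hw : I * r < 1 / 5)
    (hkink : s * (1 - I) ≤ 1 - 2 * I) (hcap : I * (2 + s) < 19 / 50) (h1 : s ≤ (1 / 2 : ℝ)) (h2 : I ≤ (1 / 10 : ℝ)) (h3 : (1 / 50 : ℝ) < r) :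
    Closed.Strip.ChartSigns (b - a) (a + b) u v t := by
  rcases le_or_gt r (3 / 20 : ℝ) with h20 | h20
  · 
    rcases le_or_gt s (3 / 20 : ℝ) with h21 | h21
    · 
      exact izAt6 hb hF hH hB hside hE hI hI0p (by linarith) (by linarith) (by linarith) (by linarith) (by linarith) (by linarith)
    · 
      exact izAt17 hb hF hH hB hside hE hI hI0p (by linarith) (by linarith) (by linarith) (by linarith) (by linarith) (by linarith)
  · 
    rcases le_or_gt r (1 : ℝ) with h24 | h24
    · 
      exact izAt36 hb hF hH hB hside hE hI hI0p (by linarith) (by linarith) (by linarith) (by linarith) (by linarith) (by linarith)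
    · 
      rcases le_or_gt r (2 : ℝ) with h26 | h26
      · 
        exact izAt84 hb hF hH hB hside hE hI hI0p (by linarith) (by linarith) (by linarith) (by linarith) (by linarith) (by linarith)
      · 
        exact izAt85 hb hF hH hB hside hE hI hI0p (by linarith) (by linarith) (by linarith) (by norm_num; first | linarith | exact kink_le hkink hI1 (by linarith) | exact cap_le hcap (by linarith) (by linarith) | exact kink_lt hkink hI1 (by linarith) | exact w_le hw (by linarith) (by linarith)) (by linarith) (by linarith)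

/-- The signs in a part of the zone below the kink (3). -/
theorem iz7Low_3 {n : ℕ} {a b u v t H I r s : ℝ} (hb : Closed.All.ChartBox n (b - a) (a + b))
    (hF : Closed.All.ChartFacts (b - a) (a + b) u v t)
    (hH : Closed.chH (b - a) (a + b) u v t = H) (hB : EndBands7 a b u v H)
    (hside : DLow a b) (hE : ExitLine a b u v) (hI : IPt a b u I r s) (hI0p : 0 < I)
    (hI0 : (1 : ℝ) / 20 < I) (hI1 : I ≤ 1 / 7) (hr : 0 < r) (hs : 0 < s) (hw : I * r < 1 / 5)
    (hkink : s * (1 - I) ≤ 1 - 2 * I) (hcap : I * (2 + s) < 19 / 50) (h1 : s ≤ (1 / 2 : ℝ)) (h2 : (1 / 10 : ℝ) < I) (h29 : r ≤ (1 / 50 : ℝ)) (h30 : s ≤ (3 / 20 : ℝ)) (h31 : I ≤ (1 / 8 : ℝ)) :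
    Closed.Strip.ChartSigns (b - a) (a + b) u v t := by
  rcases le_or_gt ((500 : ℝ) * (1 - a * v)) ((8000 : ℝ) * r) with h33 | h33
  · 
    exact izAt3 hb hF hH hB hside hE hI hI0p (by linarith) (by linarith) (by linarith) (by linarith) (by linarith) (by linarith) (by linarith)
  · 
    exact izAt400 hb hF hH hB hside hE hI hI0p (by linarith) (by linarith) (by linarith) (by linarith) (by linarith) (by linarith) (by linarith)

/-- The signs in a part of the zone below the kink (4). -/
theorem iz7Low_4 {n : ℕ} {a b u v t H I r s : ℝ} (hb : Closed.All.ChartBox n (b - a) (a + b))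
    (hF : Closed.All.ChartFacts (b - a) (a + b) u v t)
    (hH : Closed.chH (b - a) (a + b) u v t = H) (hB : EndBands7 a b u v H)
    (hside : DLow a b) (hE : ExitLine a b u v) (hI : IPt a b u I r s) (hI0p : 0 < I)
    (hI0 : (1 : ℝ) / 20 < I) (hI1 : I ≤ 1 / 7) (hr : 0 < r) (hs : 0 < s) (hw : I * r < 1 / 5)
    (hkink : s * (1 - I) ≤ 1 - 2 * I) (hcap : I * (2 + s) < 19 / 50) (h1 : s ≤ (1 / 2 : ℝ)) (h2 : (1 / 10 : ℝ) < I) (h29 : r ≤ (1 / 50 : ℝ)) (h30 : s ≤ (3 / 20 : ℝ)) (h31 : (1 / 8 : ℝ) < I) (h36 : s ≤ (3 / 40 : ℝ)) :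
    Closed.Strip.ChartSigns (b - a) (a + b) u v t := by
  rcases le_or_gt I (11 / 80 : ℝ) with h38 | h38
  · 
    rcases le_or_gt ((500 : ℝ) * (1 - a * v)) ((8000 : ℝ) * r) with h39 | h39
    · 
      exact izAt4 hb hF hH hB hside hE hI hI0p (by linarith) (by linarith) (by linarith) (by linarith) (by linarith) (by linarith) (by linarith)
    · 
      exact izAt401 hb hF hH hB hside hE hI hI0p (by linarith) (by linarith) (by linarith) (by linarith) (by linarith) (by linarith) (by linarith)
  · 
    rcases le_or_gt ((500 : ℝ) * (1 - a * v)) ((8000 : ℝ) * r) with h42 | h42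
    · 
      exact izAt5 hb hF hH hB hside hE hI hI0p (by linarith) (by linarith) (by linarith) (by linarith) (by linarith) (by linarith) (by linarith)
    · 
      exact izAt402 hb hF hH hB hside hE hI hI0p (by linarith) (by linarith) (by linarith) (by linarith) (by linarith) (by linarith) (by linarith)

/-- The signs in a part of the zone below the kink (5). -/
theorem iz7Low_5 {n : ℕ} {a b u v t H I r s : ℝ} (hb : Closed.All.ChartBox n (b - a) (a + b))
    (hF : Closed.All.ChartFacts (b - a) (a + b) u v t)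
    (hH : Closed.chH (b - a) (a + b) u v t = H) (hB : EndBands7 a b u v H)
    (hside : DLow a b) (hE : ExitLine a b u v) (hI : IPt a b u I r s) (hI0p : 0 < I)
    (hI0 : (1 : ℝ) / 20 < I) (hI1 : I ≤ 1 / 7) (hr : 0 < r) (hs : 0 < s) (hw : I * r < 1 / 5)
    (hkink : s * (1 - I) ≤ 1 - 2 * I) (hcap : I * (2 + s) < 19 / 50) (h1 : s ≤ (1 / 2 : ℝ)) (h2 : (1 / 10 : ℝ) < I) (h29 : r ≤ (1 / 50 : ℝ)) (h30 : s ≤ (3 / 20 : ℝ)) (h31 : (1 / 8 : ℝ) < I) (h36 : (3 / 40 : ℝ) < s) :
    Closed.Strip.ChartSigns (b - a) (a + b) u v t := by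
  rcases le_or_gt I (11 / 80 : ℝ) with h46 | h46
  · 
    exact izAt128 hb hF hH hB hside hE hI hI0p (by linarith) (by linarith) (by linarith) (by linarith) (by linarith) (by linarith)
  · 
    exact izAt127 hb hF hH hB hside hE hI hI0p (by linarith) (by linarith) (by linarith) (by linarith) (by linarith) (by linarith)

/-- The signs in a part of the zone below the kink (6). -/
theorem iz7Low_6 {n : ℕ} {a b u v t H I r s : ℝ} (hb : Closed.All.ChartBox n (b - a) (a + b))
    (hF : Closed.All.ChartFacts (b - a) (a + b) u v t)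
    (hH : Closed.chH (b - a) (a + b) u v t = H) (hB : EndBands7 a b u v H)
    (hside : DLow a b) (hE : ExitLine a b u v) (hI : IPt a b u I r s) (hI0p : 0 < I)
    (hI0 : (1 : ℝ) / 20 < I) (hI1 : I ≤ 1 / 7) (hr : 0 < r) (hs : 0 < s) (hw : I * r < 1 / 5)
    (hkink : s * (1 - I) ≤ 1 - 2 * I) (hcap : I * (2 + s) < 19 / 50) (h1 : s ≤ (1 / 2 : ℝ)) (h2 : (1 / 10 : ℝ) < I) (h29 : r ≤ (1 / 50 : ℝ)) (h30 : (3 / 20 : ℝ) < s) (h49 : s ≤ (13 / 40 : ℝ)) :
    Closed.Strip.ChartSigns (b - a) (a + b) u v t := by
  rcases le_or_gt I (1 / 8 : ℝ) with h51 | h51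
  · 
    exact izAt11 hb hF hH hB hside hE hI hI0p (by linarith) (by linarith) (by linarith) (by linarith) (by linarith) (by linarith)
  · 
    rcases le_or_gt s (19 / 80 : ℝ) with h53 | h53
    · 
      rcases le_or_gt I (11 / 80 : ℝ) with h54 | h54
      · 
        exact izAt13 hb hF hH hB hside hE hI hI0p (by linarith) (by linarith) (by linarith) (by linarith) (by linarith) (by linarith)
      · 
        exact izAt15 hb hF hH hB hside hE hI hI0p (by linarith) (by linarith) (by linarith) (by linarith) (by linarith) (by linarith)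
    · 
      rcases le_or_gt I (11 / 80 : ℝ) with h57 | h57
      · 
        exact izAt408 hb hF hH hB hside hE hI hI0p (by linarith) (by linarith) (by linarith) (by linarith) (by linarith) (by linarith)
      · 
        exact izAt121 hb hF hH hB hside hE hI hI0p (by linarith) (by linarith) (by linarith) (by linarith) (by linarith) (by linarith)

/-- The signs in a part of the zone below the kink (7). -/
theorem iz7Low_7 {n : ℕ} {a b u v t H I r s : ℝ} (hb : Closed.All.ChartBox n (b - a) (a + b))
    (hF : Closed.All.ChartFacts (b - a) (a + b) u v t)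
    (hH : Closed.chH (b - a) (a + b) u v t = H) (hB : EndBands7 a b u v H)
    (hside : DLow a b) (hE : ExitLine a b u v) (hI : IPt a b u I r s) (hI0p : 0 < I)
    (hI0 : (1 : ℝ) / 20 < I) (hI1 : I ≤ 1 / 7) (hr : 0 < r) (hs : 0 < s) (hw : I * r < 1 / 5)
    (hkink : s * (1 - I) ≤ 1 - 2 * I) (hcap : I * (2 + s) < 19 / 50) (h1 : s ≤ (1 / 2 : ℝ)) (h2 : (1 / 10 : ℝ) < I) (h29 : r ≤ (1 / 50 : ℝ)) (h30 : (3 / 20 : ℝ) < s) (h49 : (13 / 40 : ℝ) < s) (h60 : s ≤ (33 / 80 : ℝ)) :
    Closed.Strip.ChartSigns (b - a) (a + b) u v t := by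
  rcases le_or_gt I (1 / 8 : ℝ) with h62 | h62
  · 
    exact izAt12 hb hF hH hB hside hE hI hI0p (by linarith) (by linarith) (by linarith) (by linarith) (by linarith) (by linarith)
  · 
    rcases le_or_gt I (11 / 80 : ℝ) with h64 | h64
    · 
      exact izAt14 hb hF hH hB hside hE hI hI0p (by linarith) (by linarith) (by linarith) (by linarith) (by linarith) (by linarith)
    · 
      exact izAt16 hb hF hH hB hside hE hI hI0p (by linarith) (by linarith) (by linarith) (by linarith) (by linarith) (by linarith)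

/-- The signs in a part of the zone below the kink (8). -/
theorem iz7Low_8 {n : ℕ} {a b u v t H I r s : ℝ} (hb : Closed.All.ChartBox n (b - a) (a + b))
    (hF : Closed.All.ChartFacts (b - a) (a + b) u v t)
    (hH : Closed.chH (b - a) (a + b) u v t = H) (hB : EndBands7 a b u v H)
    (hside : DLow a b) (hE : ExitLine a b u v) (hI : IPt a b u I r s) (hI0p : 0 < I)
    (hI0 : (1 : ℝ) / 20 < I) (hI1 : I ≤ 1 / 7) (hr : 0 < r) (hs : 0 < s) (hw : I * r < 1 / 5)
    (hkink : s * (1 - I) ≤ 1 - 2 * I) (hcap : I * (2 + s) < 19 / 50) (h1 : s ≤ (1 / 2 : ℝ)) (h2 : (1 / 10 : ℝ) < I) (h29 : r ≤ (1 / 50 : ℝ)) (h30 : (3 / 20 : ℝ) < s) (h49 : (13 / 40 : ℝ) < s) (h60 : (33 / 80 : ℝ) < s) :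
    Closed.Strip.ChartSigns (b - a) (a + b) u v t := by
  rcases le_or_gt I (1 / 8 : ℝ) with h68 | h68
  · 
    exact izAt404 hb hF hH hB hside hE hI hI0p (by linarith) (by linarith) (by linarith) (by linarith) (by linarith) (by linarith)
  · 
    rcases le_or_gt I (11 / 80 : ℝ) with h70 | h70
    · 
      exact izAt405 hb hF hH hB hside hE hI hI0p (by linarith) (by linarith) (by linarith) (by linarith) (by linarith) (by linarith)
    · 
      exact izAt122 hb hF hH hB hside hE hI hI0p (by linarith) (by linarith) (by linarith) (by linarith) (by linarith) (by linarith)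

/-- The signs in a part of the zone below the kink (9). -/
theorem iz7Low_9 {n : ℕ} {a b u v t H I r s : ℝ} (hb : Closed.All.ChartBox n (b - a) (a + b))
    (hF : Closed.All.ChartFacts (b - a) (a + b) u v t)
    (hH : Closed.chH (b - a) (a + b) u v t = H) (hB : EndBands7 a b u v H)
    (hside : DLow a b) (hE : ExitLine a b u v) (hI : IPt a b u I r s) (hI0p : 0 < I)
    (hI0 : (1 : ℝ) / 20 < I) (hI1 : I ≤ 1 / 7) (hr : 0 < r) (hs : 0 < s) (hw : I * r < 1 / 5)
    (hkink : s * (1 - I) ≤ 1 - 2 * I) (hcap : I * (2 + s) < 19 / 50) (h1 : s ≤ (1 / 2 : ℝ)) (h2 : (1 / 10 : ℝ) < I) (h29 : (1 / 50 : ℝ) < r) (h73 : r ≤ (3 / 20 : ℝ)) (h74 : s ≤ (3 / 20 : ℝ)) :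
    Closed.Strip.ChartSigns (b - a) (a + b) u v t := by
  rcases le_or_gt I (1 / 8 : ℝ) with h76 | h76
  · 
    exact izAt7 hb hF hH hB hside hE hI hI0p (by linarith) (by linarith) (by linarith) (by linarith) (by linarith) (by linarith)
  · 
    rcases le_or_gt s (3 / 40 : ℝ) with h78 | h78
    · 
      exact izAt8 hb hF hH hB hside hE hI hI0p (by linarith) (by linarith) (by linarith) (by linarith) (by linarith) (by linarith)
    · 
      rcases le_or_gt I (43 / 320 : ℝ) with h80 | h80
      · 
        exact izAt403 hb hF hH hB hside hE hI hI0p (by linarith) (by linarith) (by linarith) (by linarith) (by linarith) (by linarith)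
      · 
        exact izAt409 hb hF hH hB hside hE hI hI0p (by linarith) (by linarith) (by linarith) (by linarith) (by linarith) (by linarith)

/-- The signs in a part of the zone below the kink (10). -/
theorem iz7Low_10 {n : ℕ} {a b u v t H I r s : ℝ} (hb : Closed.All.ChartBox n (b - a) (a + b))
    (hF : Closed.All.ChartFacts (b - a) (a + b) u v t)
    (hH : Closed.chH (b - a) (a + b) u v t = H) (hB : EndBands7 a b u v H)
    (hside : DLow a b) (hE : ExitLine a b u v) (hI : IPt a b u I r s) (hI0p : 0 < I)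
    (hI0 : (1 : ℝ) / 20 < I) (hI1 : I ≤ 1 / 7) (hr : 0 < r) (hs : 0 < s) (hw : I * r < 1 / 5)
    (hkink : s * (1 - I) ≤ 1 - 2 * I) (hcap : I * (2 + s) < 19 / 50) (h1 : s ≤ (1 / 2 : ℝ)) (h2 : (1 / 10 : ℝ) < I) (h29 : (1 / 50 : ℝ) < r) (h73 : r ≤ (3 / 20 : ℝ)) (h74 : (3 / 20 : ℝ) < s) (h83 : s ≤ (19 / 80 : ℝ)) :
    Closed.Strip.ChartSigns (b - a) (a + b) u v t := by
  rcases le_or_gt r (1 / 20 : ℝ) with h85 | h85
  · 
    exact izAt18 hb hF hH hB hside hE hI hI0p (by linarith) (by linarith) (by linarith) (by linarith) (by linarith) (by linarith)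
  · 
    exact izAt20 hb hF hH hB hside hE hI hI0p (by linarith) (by linarith) (by linarith) (by linarith) (by linarith) (by linarith)

/-- The signs in a part of the zone below the kink (11). -/
theorem iz7Low_11 {n : ℕ} {a b u v t H I r s : ℝ} (hb : Closed.All.ChartBox n (b - a) (a + b))
    (hF : Closed.All.ChartFacts (b - a) (a + b) u v t)
    (hH : Closed.chH (b - a) (a + b) u v t = H) (hB : EndBands7 a b u v H)
    (hside : DLow a b) (hE : ExitLine a b u v) (hI : IPt a b u I r s) (hI0p : 0 < I)
    (hI0 : (1 : ℝ) / 20 < I) (hI1 : I ≤ 1 / 7) (hr : 0 < r) (hs : 0 < s) (hw : I * r < 1 / 5)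
    (hkink : s * (1 - I) ≤ 1 - 2 * I) (hcap : I * (2 + s) < 19 / 50) (h1 : s ≤ (1 / 2 : ℝ)) (h2 : (1 / 10 : ℝ) < I) (h29 : (1 / 50 : ℝ) < r) (h73 : r ≤ (3 / 20 : ℝ)) (h74 : (3 / 20 : ℝ) < s) (h83 : (19 / 80 : ℝ) < s) (h88 : s ≤ (13 / 40 : ℝ)) :
    Closed.Strip.ChartSigns (b - a) (a + b) u v t := by
  rcases le_or_gt r (1 / 20 : ℝ) with h90 | h90
  · 
    exact izAt19 hb hF hH hB hside hE hI hI0p (by linarith) (by linarith) (by linarith) (by linarith) (by linarith) (by linarith)
  · 
    exact izAt130 hb hF hH hB hside hE hI hI0p (by linarith) (by linarith) (by linarith) (by linarith) (by linarith) (by linarith)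

/-- The signs in a part of the zone below the kink (12). -/
theorem iz7Low_12 {n : ℕ} {a b u v t H I r s : ℝ} (hb : Closed.All.ChartBox n (b - a) (a + b))
    (hF : Closed.All.ChartFacts (b - a) (a + b) u v t)
    (hH : Closed.chH (b - a) (a + b) u v t = H) (hB : EndBands7 a b u v H)
    (hside : DLow a b) (hE : ExitLine a b u v) (hI : IPt a b u I r s) (hI0p : 0 < I)
    (hI0 : (1 : ℝ) / 20 < I) (hI1 : I ≤ 1 / 7) (hr : 0 < r) (hs : 0 < s) (hw : I * r < 1 / 5)
    (hkink : s * (1 - I) ≤ 1 - 2 * I) (hcap : I * (2 + s) < 19 / 50) (h1 : s ≤ (1 / 2 : ℝ)) (h2 : (1 / 10 : ℝ) < I) (h29 : (1 / 50 : ℝ) < r) (h73 : r ≤ (3 / 20 : ℝ)) (h74 : (3 / 20 : ℝ) < s) (h83 : (19 / 80 : ℝ) < s) (h88 : (13 / 40 : ℝ) < s) :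
    Closed.Strip.ChartSigns (b - a) (a + b) u v t := by
  rcases le_or_gt s (33 / 80 : ℝ) with h94 | h94
  · 
    rcases le_or_gt r (1 / 20 : ℝ) with h95 | h95
    · 
      rcases le_or_gt I (1 / 8 : ℝ) with h96 | h96
      · 
        exact izAt21 hb hF hH hB hside hE hI hI0p (by linarith) (by linarith) (by linarith) (by linarith) (by linarith) (by linarith)
      · 
        exact izAt126 hb hF hH hB hside hE hI hI0p (by linarith) (by linarith) (by linarith) (by linarith) (by linarith) (by linarith)
    · 
      exact izAt22 hb hF hH hB hside hE hI hI0p (by linarith) (by linarith) (by linarith) (by linarith) (by linarith) (by linarith)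
  · 
    rcases le_or_gt I (1 / 8 : ℝ) with h100 | h100
    · 
      exact izAt23 hb hF hH hB hside hE hI hI0p (by linarith) (by linarith) (by linarith) (by linarith) (by linarith) (by linarith)
    · 
      exact izAt123 hb hF hH hB hside hE hI hI0p (by linarith) (by linarith) (by linarith) (by linarith) (by linarith) (by linarith)

/-- The signs in a part of the zone below the kink (13). -/
theorem iz7Low_13 {n : ℕ} {a b u v t H I r s : ℝ} (hb : Closed.All.ChartBox n (b - a) (a + b))
    (hF : Closed.All.ChartFacts (b - a) (a + b) u v t)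
    (hH : Closed.chH (b - a) (a + b) u v t = H) (hB : EndBands7 a b u v H)
    (hside : DLow a b) (hE : ExitLine a b u v) (hI : IPt a b u I r s) (hI0p : 0 < I)
    (hI0 : (1 : ℝ) / 20 < I) (hI1 : I ≤ 1 / 7) (hr : 0 < r) (hs : 0 < s) (hw : I * r < 1 / 5)
    (hkink : s * (1 - I) ≤ 1 - 2 * I) (hcap : I * (2 + s) < 19 / 50) (h1 : s ≤ (1 / 2 : ℝ)) (h2 : (1 / 10 : ℝ) < I) (h29 : (1 / 50 : ℝ) < r) (h73 : (3 / 20 : ℝ) < r) :
    Closed.Strip.ChartSigns (b - a) (a + b) u v t := by
  rcases le_or_gt r (1 : ℝ) with h104 | h104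
  · 
    rcases le_or_gt s (1 / 4 : ℝ) with h105 | h105
    · 
      exact izAt37 hb hF hH hB hside hE hI hI0p (by linarith) (by linarith) (by linarith) (by linarith) (by linarith) (by linarith)
    · 
      rcases le_or_gt s (3 / 8 : ℝ) with h107 | h107
      · 
        exact izAt38 hb hF hH hB hside hE hI hI0p (by linarith) (by linarith) (by linarith) (by linarith) (by linarith) (by linarith)
      · 
        exact izAt131 hb hF hH hB hside hE hI hI0p (by linarith) (by linarith) (by linarith) (by linarith) (by linarith) (by linarith)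
  · 
    exact izAt86 hb hF hH hB hside hE hI hI0p (by linarith) (by linarith) (by linarith) (by norm_num; first | linarith | exact kink_le hkink hI1 (by linarith) | exact cap_le hcap (by linarith) (by linarith) | exact kink_lt hkink hI1 (by linarith) | exact w_le hw (by linarith) (by linarith)) (by linarith) (by linarith)

/-- The signs in a part of the zone below the kink (14). -/
theorem iz7Low_14 {n : ℕ} {a b u v t H I r s : ℝ} (hb : Closed.All.ChartBox n (b - a) (a + b))
    (hF : Closed.All.ChartFacts (b - a) (a + b) u v t)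
    (hH : Closed.chH (b - a) (a + b) u v t = H) (hB : EndBands7 a b u v H)
    (hside : DLow a b) (hE : ExitLine a b u v) (hI : IPt a b u I r s) (hI0p : 0 < I)
    (hI0 : (1 : ℝ) / 20 < I) (hI1 : I ≤ 1 / 7) (hr : 0 < r) (hs : 0 < s) (hw : I * r < 1 / 5)
    (hkink : s * (1 - I) ≤ 1 - 2 * I) (hcap : I * (2 + s) < 19 / 50) (h1 : (1 / 2 : ℝ) < s) (h111 : s ≤ (3 / 4 : ℝ)) (h112 : I ≤ (1 / 10 : ℝ)) :
    Closed.Strip.ChartSigns (b - a) (a + b) u v t := by
  rcases le_or_gt r (1 / 50 : ℝ) with h114 | h114
  · 
    exact izAt24 hb hF hH hB hside hE hI hI0p (by linarith) (by linarith) (by linarith) (by linarith) (by linarith) (by linarith)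
  · 
    rcases le_or_gt r (3 / 20 : ℝ) with h116 | h116
    · 
      exact izAt32 hb hF hH hB hside hE hI hI0p (by linarith) (by linarith) (by linarith) (by linarith) (by linarith) (by linarith)
    · 
      rcases le_or_gt r (1 : ℝ) with h118 | h118
      · 
        exact izAt39 hb hF hH hB hside hE hI hI0p (by linarith) (by linarith) (by linarith) (by linarith) (by linarith) (by linarith)
      · 
        rcases le_or_gt r (2 : ℝ) with h120 | h120
        · 
          exact izAt87 hb hF hH hB hside hE hI hI0p (by linarith) (by linarith) (by linarith) (by linarith) (by linarith) (by linarith)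
        · 
          exact izAt88 hb hF hH hB hside hE hI hI0p (by linarith) (by linarith) (by linarith) (by norm_num; first | linarith | exact kink_le hkink hI1 (by linarith) | exact cap_le hcap (by linarith) (by linarith) | exact kink_lt hkink hI1 (by linarith) | exact w_le hw (by linarith) (by linarith)) (by linarith) (by linarith)

/-- The signs in a part of the zone below the kink (15). -/
theorem iz7Low_15 {n : ℕ} {a b u v t H I r s : ℝ} (hb : Closed.All.ChartBox n (b - a) (a + b))
    (hF : Closed.All.ChartFacts (b - a) (a + b) u v t)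
    (hH : Closed.chH (b - a) (a + b) u v t = H) (hB : EndBands7 a b u v H)
    (hside : DLow a b) (hE : ExitLine a b u v) (hI : IPt a b u I r s) (hI0p : 0 < I)
    (hI0 : (1 : ℝ) / 20 < I) (hI1 : I ≤ 1 / 7) (hr : 0 < r) (hs : 0 < s) (hw : I * r < 1 / 5)
    (hkink : s * (1 - I) ≤ 1 - 2 * I) (hcap : I * (2 + s) < 19 / 50) (h1 : (1 / 2 : ℝ) < s) (h111 : s ≤ (3 / 4 : ℝ)) (h112 : (1 / 10 : ℝ) < I) (h123 : r ≤ (1 / 50 : ℝ)) (h124 : I ≤ (1 / 8 : ℝ)) :
    Closed.Strip.ChartSigns (b - a) (a + b) u v t := by
  rcases le_or_gt ((500 : ℝ) * (1 - a * v)) (217 : ℝ) with h126 | h126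
  · 
    exact izAt25 hb hF hH hB hside hE hI hI0p (by linarith) (by linarith) (by linarith) (by linarith) (by linarith) (by linarith) (by linarith)
  · 
    rcases le_or_gt r (1 / 160 : ℝ) with h128 | h128
    · 
      exact izAt26 hb hF hH hB hside hE hI hI0p (by linarith) (by linarith) (by linarith) (by linarith) (by linarith) (by linarith) (by linarith)
    · 
      exact izAt27 hb hF hH hB hside hE hI hI0p (by linarith) (by linarith) (by linarith) (by linarith) (by linarith) (by linarith) (by linarith)

/-- The signs in a part of the zone below the kink (16). -/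
theorem iz7Low_16 {n : ℕ} {a b u v t H I r s : ℝ} (hb : Closed.All.ChartBox n (b - a) (a + b))
    (hF : Closed.All.ChartFacts (b - a) (a + b) u v t)
    (hH : Closed.chH (b - a) (a + b) u v t = H) (hB : EndBands7 a b u v H)
    (hside : DLow a b) (hE : ExitLine a b u v) (hI : IPt a b u I r s) (hI0p : 0 < I)
    (hI0 : (1 : ℝ) / 20 < I) (hI1 : I ≤ 1 / 7) (hr : 0 < r) (hs : 0 < s) (hw : I * r < 1 / 5)
    (hkink : s * (1 - I) ≤ 1 - 2 * I) (hcap : I * (2 + s) < 19 / 50) (h1 : (1 / 2 : ℝ) < s) (h111 : s ≤ (3 / 4 : ℝ)) (h112 : (1 / 10 : ℝ) < I) (h123 : r ≤ (1 / 50 : ℝ)) (h124 : (1 / 8 : ℝ) < I) (h131 : ((500 : ℝ) * (1 - a * v)) ≤ (54 : ℝ)) :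
    Closed.Strip.ChartSigns (b - a) (a + b) u v t := by
  rcases le_or_gt I (11 / 80 : ℝ) with h133 | h133
  · 
    exact izAt28 hb hF hH hB hside hE hI hI0p (by linarith) (by linarith) (by linarith) (by linarith) (by linarith) (by linarith) (by linarith)
  · 
    rcases le_or_gt s (5 / 8 : ℝ) with h135 | h135
    · 
      exact izAt125 hb hF hH hB hside hE hI hI0p (by linarith) (by linarith) (by linarith) (by linarith) (by linarith) (by linarith) (by linarith)
    · 
      exact izAt406 hb hF hH hB hside hE hI hI0p (by linarith) (by linarith) (by linarith) (by linarith) (by linarith) (by linarith) (by linarith)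

/-- The signs in a part of the zone below the kink (17). -/
theorem iz7Low_17 {n : ℕ} {a b u v t H I r s : ℝ} (hb : Closed.All.ChartBox n (b - a) (a + b))
    (hF : Closed.All.ChartFacts (b - a) (a + b) u v t)
    (hH : Closed.chH (b - a) (a + b) u v t = H) (hB : EndBands7 a b u v H)
    (hside : DLow a b) (hE : ExitLine a b u v) (hI : IPt a b u I r s) (hI0p : 0 < I)
    (hI0 : (1 : ℝ) / 20 < I) (hI1 : I ≤ 1 / 7) (hr : 0 < r) (hs : 0 < s) (hw : I * r < 1 / 5)
    (hkink : s * (1 - I) ≤ 1 - 2 * I) (hcap : I * (2 + s) < 19 / 50) (h1 : (1 / 2 : ℝ) < s) (h111 : s ≤ (3 / 4 : ℝ)) (h112 : (1 / 10 : ℝ) < I) (h123 : r ≤ (1 / 50 : ℝ)) (h124 : (1 / 8 : ℝ) < I) (h131 : (54 : ℝ) < ((500 : ℝ) * (1 - a * v))) :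
    Closed.Strip.ChartSigns (b - a) (a + b) u v t := by
  rcases le_or_gt ((500 : ℝ) * (1 - a * v)) (218 : ℝ) with h139 | h139
  · 
    exact izAt29 hb hF hH hB hside hE hI hI0p (by linarith) (by linarith) (by linarith) (by linarith) (by linarith) (by linarith) (by linarith) (by linarith)
  · 
    rcases le_or_gt I (11 / 80 : ℝ) with h141 | h141
    · 
      exact izAt30 hb hF hH hB hside hE hI hI0p (by linarith) (by linarith) (by linarith) (by linarith) (by linarith) (by linarith) (by linarith)
    · 
      exact izAt31 hb hF hH hB hside hE hI hI0p (by linarith) (by linarith) (by linarith) (by linarith) (by linarith) (by linarith) (by linarith)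

/-- The signs in a part of the zone below the kink (18). -/
theorem iz7Low_18 {n : ℕ} {a b u v t H I r s : ℝ} (hb : Closed.All.ChartBox n (b - a) (a + b))
    (hF : Closed.All.ChartFacts (b - a) (a + b) u v t)
    (hH : Closed.chH (b - a) (a + b) u v t = H) (hB : EndBands7 a b u v H)
    (hside : DLow a b) (hE : ExitLine a b u v) (hI : IPt a b u I r s) (hI0p : 0 < I)
    (hI0 : (1 : ℝ) / 20 < I) (hI1 : I ≤ 1 / 7) (hr : 0 < r) (hs : 0 < s) (hw : I * r < 1 / 5)
    (hkink : s * (1 - I) ≤ 1 - 2 * I) (hcap : I * (2 + s) < 19 / 50) (h1 : (1 / 2 : ℝ) < s) (h111 : s ≤ (3 / 4 : ℝ)) (h112 : (1 / 10 : ℝ) < I) (h123 : (1 / 50 : ℝ) < r) (h144 : r ≤ (3 / 20 : ℝ)) :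
    Closed.Strip.ChartSigns (b - a) (a + b) u v t := by
  rcases le_or_gt I (1 / 8 : ℝ) with h146 | h146
  · 
    exact izAt33 hb hF hH hB hside hE hI hI0p (by linarith) (by linarith) (by linarith) (by linarith) (by linarith) (by linarith)
  · 
    rcases le_or_gt s (9 / 16 : ℝ) with h148 | h148
    · 
      exact izAt34 hb hF hH hB hside hE hI hI0p (by linarith) (by linarith) (by linarith) (by linarith) (by linarith) (by linarith)
    · 
      rcases le_or_gt s (5 / 8 : ℝ) with h150 | h150
      · 
        exact izAt124 hb hF hH hB hside hE hI hI0p (by linarith) (by linarith) (by linarith) (by linarith) (by linarith) (by linarith)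
      · 
        exact izAt35 hb hF hH hB hside hE hI hI0p (by linarith) (by linarith) (by linarith) (by linarith) (by linarith) (by linarith)

/-- The signs in a part of the zone below the kink (19). -/
theorem iz7Low_19 {n : ℕ} {a b u v t H I r s : ℝ} (hb : Closed.All.ChartBox n (b - a) (a + b))
    (hF : Closed.All.ChartFacts (b - a) (a + b) u v t)
    (hH : Closed.chH (b - a) (a + b) u v t = H) (hB : EndBands7 a b u v H)
    (hside : DLow a b) (hE : ExitLine a b u v) (hI : IPt a b u I r s) (hI0p : 0 < I)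
    (hI0 : (1 : ℝ) / 20 < I) (hI1 : I ≤ 1 / 7) (hr : 0 < r) (hs : 0 < s) (hw : I * r < 1 / 5)
    (hkink : s * (1 - I) ≤ 1 - 2 * I) (hcap : I * (2 + s) < 19 / 50) (h1 : (1 / 2 : ℝ) < s) (h111 : s ≤ (3 / 4 : ℝ)) (h112 : (1 / 10 : ℝ) < I) (h123 : (1 / 50 : ℝ) < r) (h144 : (3 / 20 : ℝ) < r) :
    Closed.Strip.ChartSigns (b - a) (a + b) u v t := by
  rcases le_or_gt r (1 : ℝ) with h154 | h154
  · 
    rcases le_or_gt s (5 / 8 : ℝ) with h155 | h155
    · 
      exact izAt40 hb hF hH hB hside hE hI hI0p (by linarith) (by linarith) (by linarith) (by linarith) (by linarith) (by linarith)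
    · 
      exact izAt132 hb hF hH hB hside hE hI hI0p (by linarith) (by linarith) (by linarith) (by linarith) (by linarith) (by linarith)
  · 
    exact izAt89 hb hF hH hB hside hE hI hI0p (by linarith) (by linarith) (by linarith) (by norm_num; first | linarith | exact kink_le hkink hI1 (by linarith) | exact cap_le hcap (by linarith) (by linarith) | exact kink_lt hkink hI1 (by linarith) | exact w_le hw (by linarith) (by linarith)) (by linarith) (by linarith)

/-- The signs in a part of the zone below the kink (20). -/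
theorem iz7Low_20 {n : ℕ} {a b u v t H I r s : ℝ} (hb : Closed.All.ChartBox n (b - a) (a + b))
    (hF : Closed.All.ChartFacts (b - a) (a + b) u v t)
    (hH : Closed.chH (b - a) (a + b) u v t = H) (hB : EndBands7 a b u v H)
    (hside : DLow a b) (hE : ExitLine a b u v) (hI : IPt a b u I r s) (hI0p : 0 < I)
    (hI0 : (1 : ℝ) / 20 < I) (hI1 : I ≤ 1 / 7) (hr : 0 < r) (hs : 0 < s) (hw : I * r < 1 / 5)
    (hkink : s * (1 - I) ≤ 1 - 2 * I) (hcap : I * (2 + s) < 19 / 50) (h1 : (1 / 2 : ℝ) < s) (h111 : (3 / 4 : ℝ) < s) (h159 : I ≤ (1 / 10 : ℝ)) (h160 : r ≤ (1 / 50 : ℝ)) (h161 : I ≤ (3 / 40 : ℝ)) (h162 : r ≤ (1 / 160 : ℝ)) :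
    Closed.Strip.ChartSigns (b - a) (a + b) u v t := by
  rcases le_or_gt ((500 : ℝ) * (1 - a * v)) (38 : ℝ) with h164 | h164
  · 
    exact izAt200 hb hF hH hB hside hE hI hI0p (by linarith) (by linarith) (by linarith) (by linarith) (by linarith) (by norm_num; first | linarith | exact kink_le hkink hI1 (by linarith) | exact cap_le hcap (by linarith) (by linarith) | exact kink_lt hkink hI1 (by linarith) | exact w_le hw (by linarith) (by linarith)) (by linarith)
  · 
    rcases le_or_gt ((500 : ℝ) * (1 - a * v)) (48 : ℝ) with h166 | h166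
    · 
      exact izAt201 hb hF hH hB hside hE hI hI0p (by linarith) (by linarith) (by linarith) (by linarith) (by linarith) (by norm_num; first | linarith | exact kink_le hkink hI1 (by linarith) | exact cap_le hcap (by linarith) (by linarith) | exact kink_lt hkink hI1 (by linarith) | exact w_le hw (by linarith) (by linarith)) (by linarith) (by linarith)
    · 
      rcases le_or_gt ((500 : ℝ) * (1 - a * v)) (194 : ℝ) with h168 | h168
      · 
        exact izAt202 hb hF hH hB hside hE hI hI0p (by linarith) (by linarith) (by linarith) (by linarith) (by linarith) (by norm_num; first | linarith | exact kink_le hkink hI1 (by linarith) | exact cap_le hcap (by linarith) (by linarith) | exact kink_lt hkink hI1 (by linarith) | exact w_le hw (by linarith) (by linarith)) (by linarith) (by linarith)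
      · 
        rcases le_or_gt ((500 : ℝ) * (1 - a * v)) (242 : ℝ) with h170 | h170
        · 
          exact izAt203 hb hF hH hB hside hE hI hI0p (by linarith) (by linarith) (by linarith) (by linarith) (by linarith) (by norm_num; first | linarith | exact kink_le hkink hI1 (by linarith) | exact cap_le hcap (by linarith) (by linarith) | exact kink_lt hkink hI1 (by linarith) | exact w_le hw (by linarith) (by linarith)) (by linarith) (by linarith)
        · 
          exact izAt204 hb hF hH hB hside hE hI hI0p (by linarith) (by linarith) (by linarith) (by linarith) (by linarith) (by norm_num; first | linarith | exact kink_le hkink hI1 (by linarith) | exact cap_le hcap (by linarith) (by linarith) | exact kink_lt hkink hI1 (by linarith) | exact w_le hw (by linarith) (by linarith)) (by linarith)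

/-- The signs in a part of the zone below the kink (21). -/
theorem iz7Low_21 {n : ℕ} {a b u v t H I r s : ℝ} (hb : Closed.All.ChartBox n (b - a) (a + b))
    (hF : Closed.All.ChartFacts (b - a) (a + b) u v t)
    (hH : Closed.chH (b - a) (a + b) u v t = H) (hB : EndBands7 a b u v H)
    (hside : DLow a b) (hE : ExitLine a b u v) (hI : IPt a b u I r s) (hI0p : 0 < I)
    (hI0 : (1 : ℝ) / 20 < I) (hI1 : I ≤ 1 / 7) (hr : 0 < r) (hs : 0 < s) (hw : I * r < 1 / 5)
    (hkink : s * (1 - I) ≤ 1 - 2 * I) (hcap : I * (2 + s) < 19 / 50) (h1 : (1 / 2 : ℝ) < s) (h111 : (3 / 4 : ℝ) < s) (h159 : I ≤ (1 / 10 : ℝ)) (h160 : r ≤ (1 / 50 : ℝ)) (h161 : I ≤ (3 / 40 : ℝ)) (h162 : (1 / 160 : ℝ) < r) :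
    Closed.Strip.ChartSigns (b - a) (a + b) u v t := by
  exact izAt205 hb hF hH hB hside hE hI hI0p (by linarith) (by linarith) (by linarith) (by linarith) (by linarith) (by norm_num; first | linarith | exact kink_le hkink hI1 (by linarith) | exact cap_le hcap (by linarith) (by linarith) | exact kink_lt hkink hI1 (by linarith) | exact w_le hw (by linarith) (by linarith))

/-- The signs in a part of the zone below the kink (22). -/
theorem iz7Low_22 {n : ℕ} {a b u v t H I r s : ℝ} (hb : Closed.All.ChartBox n (b - a) (a + b))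
    (hF : Closed.All.ChartFacts (b - a) (a + b) u v t)
    (hH : Closed.chH (b - a) (a + b) u v t = H) (hB : EndBands7 a b u v H)
    (hside : DLow a b) (hE : ExitLine a b u v) (hI : IPt a b u I r s) (hI0p : 0 < I)
    (hI0 : (1 : ℝ) / 20 < I) (hI1 : I ≤ 1 / 7) (hr : 0 < r) (hs : 0 < s) (hw : I * r < 1 / 5)
    (hkink : s * (1 - I) ≤ 1 - 2 * I) (hcap : I * (2 + s) < 19 / 50) (h1 : (1 / 2 : ℝ) < s) (h111 : (3 / 4 : ℝ) < s) (h159 : I ≤ (1 / 10 : ℝ)) (h160 : r ≤ (1 / 50 : ℝ)) (h161 : (3 / 40 : ℝ) < I) (h175 : ((500 : ℝ) * (1 - a * v)) ≤ (62 : ℝ)) :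
    Closed.Strip.ChartSigns (b - a) (a + b) u v t := by
  exact izAt42 hb hF hH hB hside hE hI hI0p (by linarith) (by linarith) (by linarith) (by linarith) (by linarith) (by norm_num; first | linarith | exact kink_le hkink hI1 (by linarith) | exact cap_le hcap (by linarith) (by linarith) | exact kink_lt hkink hI1 (by linarith) | exact w_le hw (by linarith) (by linarith)) (by linarith)

/-- The signs in a part of the zone below the kink (23). -/
theorem iz7Low_23 {n : ℕ} {a b u v t H I r s : ℝ} (hb : Closed.All.ChartBox n (b - a) (a + b))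
    (hF : Closed.All.ChartFacts (b - a) (a + b) u v t)
    (hH : Closed.chH (b - a) (a + b) u v t = H) (hB : EndBands7 a b u v H)
    (hside : DLow a b) (hE : ExitLine a b u v) (hI : IPt a b u I r s) (hI0p : 0 < I)
    (hI0 : (1 : ℝ) / 20 < I) (hI1 : I ≤ 1 / 7) (hr : 0 < r) (hs : 0 < s) (hw : I * r < 1 / 5)
    (hkink : s * (1 - I) ≤ 1 - 2 * I) (hcap : I * (2 + s) < 19 / 50) (h1 : (1 / 2 : ℝ) < s) (h111 : (3 / 4 : ℝ) < s) (h159 : I ≤ (1 / 10 : ℝ)) (h160 : r ≤ (1 / 50 : ℝ)) (h161 : (3 / 40 : ℝ) < I) (h175 : (62 : ℝ) < ((500 : ℝ) * (1 - a * v))) (h178 : r ≤ (1 / 160 : ℝ)) :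
    Closed.Strip.ChartSigns (b - a) (a + b) u v t := by
  rcases le_or_gt ((500 : ℝ) * (1 - a * v)) (155 : ℝ) with h180 | h180
  · 
    exact izAt206 hb hF hH hB hside hE hI hI0p (by linarith) (by linarith) (by linarith) (by linarith) (by linarith) (by norm_num; first | linarith | exact kink_le hkink hI1 (by linarith) | exact cap_le hcap (by linarith) (by linarith) | exact kink_lt hkink hI1 (by linarith) | exact w_le hw (by linarith) (by linarith)) (by linarith) (by linarith)
  · 
    rcases le_or_gt ((500 : ℝ) * (1 - a * v)) (248 : ℝ) with h182 | h182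
    · 
      exact izAt207 hb hF hH hB hside hE hI hI0p (by linarith) (by linarith) (by linarith) (by linarith) (by linarith) (by norm_num; first | linarith | exact kink_le hkink hI1 (by linarith) | exact cap_le hcap (by linarith) (by linarith) | exact kink_lt hkink hI1 (by linarith) | exact w_le hw (by linarith) (by linarith)) (by linarith) (by linarith)
    · 
      exact izAt44 hb hF hH hB hside hE hI hI0p (by linarith) (by linarith) (by linarith) (by linarith) (by linarith) (by norm_num; first | linarith | exact kink_le hkink hI1 (by linarith) | exact cap_le hcap (by linarith) (by linarith) | exact kink_lt hkink hI1 (by linarith) | exact w_le hw (by linarith) (by linarith)) (by linarith)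

/-- The signs in a part of the zone below the kink (24). -/
theorem iz7Low_24 {n : ℕ} {a b u v t H I r s : ℝ} (hb : Closed.All.ChartBox n (b - a) (a + b))
    (hF : Closed.All.ChartFacts (b - a) (a + b) u v t)
    (hH : Closed.chH (b - a) (a + b) u v t = H) (hB : EndBands7 a b u v H)
    (hside : DLow a b) (hE : ExitLine a b u v) (hI : IPt a b u I r s) (hI0p : 0 < I)
    (hI0 : (1 : ℝ) / 20 < I) (hI1 : I ≤ 1 / 7) (hr : 0 < r) (hs : 0 < s) (hw : I * r < 1 / 5)
    (hkink : s * (1 - I) ≤ 1 - 2 * I) (hcap : I * (2 + s) < 19 / 50) (h1 : (1 / 2 : ℝ) < s) (h111 : (3 / 4 : ℝ) < s) (h159 : I ≤ (1 / 10 : ℝ)) (h160 : r ≤ (1 / 50 : ℝ)) (h161 : (3 / 40 : ℝ) < I) (h175 : (62 : ℝ) < ((500 : ℝ) * (1 - a * v))) (h178 : (1 / 160 : ℝ) < r) :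
    Closed.Strip.ChartSigns (b - a) (a + b) u v t := by
  rcases le_or_gt ((500 : ℝ) * (1 - a * v)) (155 : ℝ) with h186 | h186
  · 
    exact izAt208 hb hF hH hB hside hE hI hI0p (by linarith) (by linarith) (by linarith) (by linarith) (by linarith) (by norm_num; first | linarith | exact kink_le hkink hI1 (by linarith) | exact cap_le hcap (by linarith) (by linarith) | exact kink_lt hkink hI1 (by linarith) | exact w_le hw (by linarith) (by linarith)) (by linarith) (by linarith)
  · 
    rcases le_or_gt ((500 : ℝ) * (1 - a * v)) (248 : ℝ) with h188 | h188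
    · 
      exact izAt209 hb hF hH hB hside hE hI hI0p (by linarith) (by linarith) (by linarith) (by linarith) (by linarith) (by norm_num; first | linarith | exact kink_le hkink hI1 (by linarith) | exact cap_le hcap (by linarith) (by linarith) | exact kink_lt hkink hI1 (by linarith) | exact w_le hw (by linarith) (by linarith)) (by linarith) (by linarith)
    · 
      exact izAt45 hb hF hH hB hside hE hI hI0p (by linarith) (by linarith) (by linarith) (by linarith) (by linarith) (by norm_num; first | linarith | exact kink_le hkink hI1 (by linarith) | exact cap_le hcap (by linarith) (by linarith) | exact kink_lt hkink hI1 (by linarith) | exact w_le hw (by linarith) (by linarith)) (by linarith)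

/-- The signs in a part of the zone below the kink (25). -/
theorem iz7Low_25 {n : ℕ} {a b u v t H I r s : ℝ} (hb : Closed.All.ChartBox n (b - a) (a + b))
    (hF : Closed.All.ChartFacts (b - a) (a + b) u v t)
    (hH : Closed.chH (b - a) (a + b) u v t = H) (hB : EndBands7 a b u v H)
    (hside : DLow a b) (hE : ExitLine a b u v) (hI : IPt a b u I r s) (hI0p : 0 < I)
    (hI0 : (1 : ℝ) / 20 < I) (hI1 : I ≤ 1 / 7) (hr : 0 < r) (hs : 0 < s) (hw : I * r < 1 / 5)
    (hkink : s * (1 - I) ≤ 1 - 2 * I) (hcap : I * (2 + s) < 19 / 50) (h1 : (1 / 2 : ℝ) < s) (h111 : (3 / 4 : ℝ) < s) (h159 : I ≤ (1 / 10 : ℝ)) (h160 : (1 / 50 : ℝ) < r) (h191 : r ≤ (1 : ℝ)) (h192 : I ≤ (3 / 40 : ℝ)) :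
    Closed.Strip.ChartSigns (b - a) (a + b) u v t := by
  exact izAt79 hb hF hH hB hside hE hI hI0p (by linarith) (by linarith) (by linarith) (by linarith) (by linarith) (by norm_num; first | linarith | exact kink_le hkink hI1 (by linarith) | exact cap_le hcap (by linarith) (by linarith) | exact kink_lt hkink hI1 (by linarith) | exact w_le hw (by linarith) (by linarith))

/-- The signs in a part of the zone below the kink (26). -/
theorem iz7Low_26 {n : ℕ} {a b u v t H I r s : ℝ} (hb : Closed.All.ChartBox n (b - a) (a + b))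
    (hF : Closed.All.ChartFacts (b - a) (a + b) u v t)
    (hH : Closed.chH (b - a) (a + b) u v t = H) (hB : EndBands7 a b u v H)
    (hside : DLow a b) (hE : ExitLine a b u v) (hI : IPt a b u I r s) (hI0p : 0 < I)
    (hI0 : (1 : ℝ) / 20 < I) (hI1 : I ≤ 1 / 7) (hr : 0 < r) (hs : 0 < s) (hw : I * r < 1 / 5)
    (hkink : s * (1 - I) ≤ 1 - 2 * I) (hcap : I * (2 + s) < 19 / 50) (h1 : (1 / 2 : ℝ) < s) (h111 : (3 / 4 : ℝ) < s) (h159 : I ≤ (1 / 10 : ℝ)) (h160 : (1 / 50 : ℝ) < r) (h191 : r ≤ (1 : ℝ)) (h192 : (3 / 40 : ℝ) < I) :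
    Closed.Strip.ChartSigns (b - a) (a + b) u v t := by
  rcases le_or_gt r (3 / 20 : ℝ) with h196 | h196
  · 
    exact izAt246 hb hF hH hB hside hE hI hI0p (by linarith) (by linarith) (by linarith) (by linarith) (by linarith) (by norm_num; first | linarith | exact kink_le hkink hI1 (by linarith) | exact cap_le hcap (by linarith) (by linarith) | exact kink_lt hkink hI1 (by linarith) | exact w_le hw (by linarith) (by linarith))
  · 
    rcases le_or_gt I (7 / 80 : ℝ) with h198 | h198
    · 
      exact izAt247 hb hF hH hB hside hE hI hI0p (by linarith) (by linarith) (by linarith) (by linarith) (by linarith) (by norm_num; first | linarith | exact kink_le hkink hI1 (by linarith) | exact cap_le hcap (by linarith) (by linarith) | exact kink_lt hkink hI1 (by linarith) | exact w_le hw (by linarith) (by linarith))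
    · 
      rcases le_or_gt I (3 / 32 : ℝ) with h200 | h200
      · 
        exact izAt248 hb hF hH hB hside hE hI hI0p (by linarith) (by linarith) (by linarith) (by linarith) (by linarith) (by norm_num; first | linarith | exact kink_le hkink hI1 (by linarith) | exact cap_le hcap (by linarith) (by linarith) | exact kink_lt hkink hI1 (by linarith) | exact w_le hw (by linarith) (by linarith))
      · 
        rcases le_or_gt r (2 / 5 : ℝ) with h202 | h202
        · 
          exact izAt249 hb hF hH hB hside hE hI hI0p (by linarith) (by linarith) (by linarith) (by linarith) (by linarith) (by norm_num; first | linarith | exact kink_le hkink hI1 (by linarith) | exact cap_le hcap (by linarith) (by linarith) | exact kink_lt hkink hI1 (by linarith) | exact w_le hw (by linarith) (by linarith))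
        · 
          exact izAt250 hb hF hH hB hside hE hI hI0p (by linarith) (by linarith) (by linarith) (by linarith) (by linarith) (by norm_num; first | linarith | exact kink_le hkink hI1 (by linarith) | exact cap_le hcap (by linarith) (by linarith) | exact kink_lt hkink hI1 (by linarith) | exact w_le hw (by linarith) (by linarith))

/-- The signs in a part of the zone below the kink (27). -/
theorem iz7Low_27 {n : ℕ} {a b u v t H I r s : ℝ} (hb : Closed.All.ChartBox n (b - a) (a + b))
    (hF : Closed.All.ChartFacts (b - a) (a + b) u v t)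
    (hH : Closed.chH (b - a) (a + b) u v t = H) (hB : EndBands7 a b u v H)
    (hside : DLow a b) (hE : ExitLine a b u v) (hI : IPt a b u I r s) (hI0p : 0 < I)
    (hI0 : (1 : ℝ) / 20 < I) (hI1 : I ≤ 1 / 7) (hr : 0 < r) (hs : 0 < s) (hw : I * r < 1 / 5)
    (hkink : s * (1 - I) ≤ 1 - 2 * I) (hcap : I * (2 + s) < 19 / 50) (h1 : (1 / 2 : ℝ) < s) (h111 : (3 / 4 : ℝ) < s) (h159 : I ≤ (1 / 10 : ℝ)) (h160 : (1 / 50 : ℝ) < r) (h191 : (1 : ℝ) < r) :
    Closed.Strip.ChartSigns (b - a) (a + b) u v t := by
  exact izAt90 hb hF hH hB hside hE hI hI0p (by linarith) (by linarith) (by linarith) (by norm_num; first | linarith | exact kink_le hkink hI1 (by linarith) | exact cap_le hcap (by linarith) (by linarith) | exact kink_lt hkink hI1 (by linarith) | exact w_le hw (by linarith) (by linarith)) (by linarith) (by norm_num; first | linarith | exact kink_le hkink hI1 (by linarith) | exact cap_le hcap (by linarith) (by linarith) | exact kink_lt hkink hI1 (by linarith) | exact w_le hw (by linarith) (by linarith))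

/-- The signs in a part of the zone below the kink (28). -/
theorem iz7Low_28 {n : ℕ} {a b u v t H I r s : ℝ} (hb : Closed.All.ChartBox n (b - a) (a + b))
    (hF : Closed.All.ChartFacts (b - a) (a + b) u v t)
    (hH : Closed.chH (b - a) (a + b) u v t = H) (hB : EndBands7 a b u v H)
    (hside : DLow a b) (hE : ExitLine a b u v) (hI : IPt a b u I r s) (hI0p : 0 < I)
    (hI0 : (1 : ℝ) / 20 < I) (hI1 : I ≤ 1 / 7) (hr : 0 < r) (hs : 0 < s) (hw : I * r < 1 / 5)
    (hkink : s * (1 - I) ≤ 1 - 2 * I) (hcap : I * (2 + s) < 19 / 50) (h1 : (1 / 2 : ℝ) < s) (h111 : (3 / 4 : ℝ) < s) (h159 : (1 / 10 : ℝ) < I) (h207 : r ≤ (1 / 50 : ℝ)) (h208 : I ≤ (1 / 8 : ℝ)) (h209 : ((500 : ℝ) * (1 - a * v)) ≤ (54 : ℝ)) (h210 : r ≤ (1 / 160 : ℝ)) :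
    Closed.Strip.ChartSigns (b - a) (a + b) u v t := by
  rcases le_or_gt ((500 : ℝ) * (1 - a * v)) (18 : ℝ) with h212 | h212
  · 
    exact izAt210 hb hF hH hB hside hE hI hI0p (by linarith) (by linarith) (by linarith) (by linarith) (by linarith) (by norm_num; first | linarith | exact kink_le hkink hI1 (by linarith) | exact cap_le hcap (by linarith) (by linarith) | exact kink_lt hkink hI1 (by linarith) | exact w_le hw (by linarith) (by linarith)) (by linarith)
  · 
    rcases le_or_gt ((500 : ℝ) * (1 - a * v)) (22 : ℝ) with h214 | h214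
    · 
      rcases le_or_gt r (3 / 1600 : ℝ) with h215 | h215
      · 
        exact izAt211 hb hF hH hB hside hE hI hI0p (by linarith) (by linarith) (by linarith) (by linarith) (by linarith) (by norm_num; first | linarith | exact kink_le hkink hI1 (by linarith) | exact cap_le hcap (by linarith) (by linarith) | exact kink_lt hkink hI1 (by linarith) | exact w_le hw (by linarith) (by linarith)) (by linarith) (by linarith)
      · 
        exact izAt212 hb hF hH hB hside hE hI hI0p (by linarith) (by linarith) (by linarith) (by linarith) (by linarith) (by norm_num; first | linarith | exact kink_le hkink hI1 (by linarith) | exact cap_le hcap (by linarith) (by linarith) | exact kink_lt hkink hI1 (by linarith) | exact w_le hw (by linarith) (by linarith)) (by linarith) (by linarith)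
    · 
      rcases le_or_gt ((500 : ℝ) * (1 - a * v)) (27 : ℝ) with h218 | h218
      · 
        exact izAt213 hb hF hH hB hside hE hI hI0p (by linarith) (by linarith) (by linarith) (by linarith) (by linarith) (by norm_num; first | linarith | exact kink_le hkink hI1 (by linarith) | exact cap_le hcap (by linarith) (by linarith) | exact kink_lt hkink hI1 (by linarith) | exact w_le hw (by linarith) (by linarith)) (by linarith) (by linarith)
      · 
        exact izAt214 hb hF hH hB hside hE hI hI0p (by linarith) (by linarith) (by linarith) (by linarith) (by linarith) (by norm_num; first | linarith | exact kink_le hkink hI1 (by linarith) | exact cap_le hcap (by linarith) (by linarith) | exact kink_lt hkink hI1 (by linarith) | exact w_le hw (by linarith) (by linarith)) (by linarith) (by linarith)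

/-- The signs in a part of the zone below the kink (29). -/
theorem iz7Low_29 {n : ℕ} {a b u v t H I r s : ℝ} (hb : Closed.All.ChartBox n (b - a) (a + b))
    (hF : Closed.All.ChartFacts (b - a) (a + b) u v t)
    (hH : Closed.chH (b - a) (a + b) u v t = H) (hB : EndBands7 a b u v H)
    (hside : DLow a b) (hE : ExitLine a b u v) (hI : IPt a b u I r s) (hI0p : 0 < I)
    (hI0 : (1 : ℝ) / 20 < I) (hI1 : I ≤ 1 / 7) (hr : 0 < r) (hs : 0 < s) (hw : I * r < 1 / 5)
    (hkink : s * (1 - I) ≤ 1 - 2 * I) (hcap : I * (2 + s) < 19 / 50) (h1 : (1 / 2 : ℝ) < s) (h111 : (3 / 4 : ℝ) < s) (h159 : (1 / 10 : ℝ) < I) (h207 : r ≤ (1 / 50 : ℝ)) (h208 : I ≤ (1 / 8 : ℝ)) (h209 : ((500 : ℝ) * (1 - a * v)) ≤ (54 : ℝ)) (h210 : (1 / 160 : ℝ) < r) (h221 : r ≤ (3 / 400 : ℝ)) :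
    Closed.Strip.ChartSigns (b - a) (a + b) u v t := by
  rcases le_or_gt I (9 / 80 : ℝ) with h223 | h223
  · 
    exact izAt240 hb hF hH hB hside hE hI hI0p (by linarith) (by linarith) (by linarith) (by linarith) (by linarith) (by norm_num; first | linarith | exact kink_le hkink hI1 (by linarith) | exact cap_le hcap (by linarith) (by linarith) | exact kink_lt hkink hI1 (by linarith) | exact w_le hw (by linarith) (by linarith)) (by linarith)
  · 
    rcases le_or_gt r (11 / 1600 : ℝ) with h225 | h225
    · 
      exact izAt241 hb hF hH hB hside hE hI hI0p (by linarith) (by linarith) (by linarith) (by linarith) (by linarith) (by norm_num; first | linarith | exact kink_le hkink hI1 (by linarith) | exact cap_le hcap (by linarith) (by linarith) | exact kink_lt hkink hI1 (by linarith) | exact w_le hw (by linarith) (by linarith)) (by linarith)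
    · 
      exact izAt242 hb hF hH hB hside hE hI hI0p (by linarith) (by linarith) (by linarith) (by linarith) (by linarith) (by norm_num; first | linarith | exact kink_le hkink hI1 (by linarith) | exact cap_le hcap (by linarith) (by linarith) | exact kink_lt hkink hI1 (by linarith) | exact w_le hw (by linarith) (by linarith)) (by linarith)

/-- The signs in a part of the zone below the kink (30). -/
theorem iz7Low_30 {n : ℕ} {a b u v t H I r s : ℝ} (hb : Closed.All.ChartBox n (b - a) (a + b))
    (hF : Closed.All.ChartFacts (b - a) (a + b) u v t)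
    (hH : Closed.chH (b - a) (a + b) u v t = H) (hB : EndBands7 a b u v H)
    (hside : DLow a b) (hE : ExitLine a b u v) (hI : IPt a b u I r s) (hI0p : 0 < I)
    (hI0 : (1 : ℝ) / 20 < I) (hI1 : I ≤ 1 / 7) (hr : 0 < r) (hs : 0 < s) (hw : I * r < 1 / 5)
    (hkink : s * (1 - I) ≤ 1 - 2 * I) (hcap : I * (2 + s) < 19 / 50) (h1 : (1 / 2 : ℝ) < s) (h111 : (3 / 4 : ℝ) < s) (h159 : (1 / 10 : ℝ) < I) (h207 : r ≤ (1 / 50 : ℝ)) (h208 : I ≤ (1 / 8 : ℝ)) (h209 : ((500 : ℝ) * (1 - a * v)) ≤ (54 : ℝ)) (h210 : (1 / 160 : ℝ) < r) (h221 : (3 / 400 : ℝ) < r) :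
    Closed.Strip.ChartSigns (b - a) (a + b) u v t := by
  rcases le_or_gt r (1 / 100 : ℝ) with h229 | h229
  · 
    exact izAt216 hb hF hH hB hside hE hI hI0p (by linarith) (by linarith) (by linarith) (by linarith) (by linarith) (by norm_num; first | linarith | exact kink_le hkink hI1 (by linarith) | exact cap_le hcap (by linarith) (by linarith) | exact kink_lt hkink hI1 (by linarith) | exact w_le hw (by linarith) (by linarith)) (by linarith)
  · 
    rcases le_or_gt r (3 / 200 : ℝ) with h231 | h231
    · 
      exact izAt217 hb hF hH hB hside hE hI hI0p (by linarith) (by linarith) (by linarith) (by linarith) (by linarith) (by norm_num; first | linarith | exact kink_le hkink hI1 (by linarith) | exact cap_le hcap (by linarith) (by linarith) | exact kink_lt hkink hI1 (by linarith) | exact w_le hw (by linarith) (by linarith)) (by linarith)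
    · 
      exact izAt218 hb hF hH hB hside hE hI hI0p (by linarith) (by linarith) (by linarith) (by linarith) (by linarith) (by norm_num; first | linarith | exact kink_le hkink hI1 (by linarith) | exact cap_le hcap (by linarith) (by linarith) | exact kink_lt hkink hI1 (by linarith) | exact w_le hw (by linarith) (by linarith)) (by linarith)

/-- The signs in a part of the zone below the kink (31). -/
theorem iz7Low_31 {n : ℕ} {a b u v t H I r s : ℝ} (hb : Closed.All.ChartBox n (b - a) (a + b))
    (hF : Closed.All.ChartFacts (b - a) (a + b) u v t)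
    (hH : Closed.chH (b - a) (a + b) u v t = H) (hB : EndBands7 a b u v H)
    (hside : DLow a b) (hE : ExitLine a b u v) (hI : IPt a b u I r s) (hI0p : 0 < I)
    (hI0 : (1 : ℝ) / 20 < I) (hI1 : I ≤ 1 / 7) (hr : 0 < r) (hs : 0 < s) (hw : I * r < 1 / 5)
    (hkink : s * (1 - I) ≤ 1 - 2 * I) (hcap : I * (2 + s) < 19 / 50) (h1 : (1 / 2 : ℝ) < s) (h111 : (3 / 4 : ℝ) < s) (h159 : (1 / 10 : ℝ) < I) (h207 : r ≤ (1 / 50 : ℝ)) (h208 : I ≤ (1 / 8 : ℝ)) (h209 : (54 : ℝ) < ((500 : ℝ) * (1 - a * v))) (h234 : ((500 : ℝ) * (1 - a * v)) ≤ (68 : ℝ)) :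
    Closed.Strip.ChartSigns (b - a) (a + b) u v t := by
  rcases le_or_gt r (1 / 160 : ℝ) with h236 | h236
  · 
    exact izAt219 hb hF hH hB hside hE hI hI0p (by linarith) (by linarith) (by linarith) (by linarith) (by linarith) (by norm_num; first | linarith | exact kink_le hkink hI1 (by linarith) | exact cap_le hcap (by linarith) (by linarith) | exact kink_lt hkink hI1 (by linarith) | exact w_le hw (by linarith) (by linarith)) (by linarith) (by linarith)
  · 
    exact izAt220 hb hF hH hB hside hE hI hI0p (by linarith) (by linarith) (by linarith) (by linarith) (by linarith) (by norm_num; first | linarith | exact kink_le hkink hI1 (by linarith) | exact cap_le hcap (by linarith) (by linarith) | exact kink_lt hkink hI1 (by linarith) | exact w_le hw (by linarith) (by linarith)) (by linarith) (by linarith)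

/-- The signs in a part of the zone below the kink (32). -/
theorem iz7Low_32 {n : ℕ} {a b u v t H I r s : ℝ} (hb : Closed.All.ChartBox n (b - a) (a + b))
    (hF : Closed.All.ChartFacts (b - a) (a + b) u v t)
    (hH : Closed.chH (b - a) (a + b) u v t = H) (hB : EndBands7 a b u v H)
    (hside : DLow a b) (hE : ExitLine a b u v) (hI : IPt a b u I r s) (hI0p : 0 < I)
    (hI0 : (1 : ℝ) / 20 < I) (hI1 : I ≤ 1 / 7) (hr : 0 < r) (hs : 0 < s) (hw : I * r < 1 / 5)
    (hkink : s * (1 - I) ≤ 1 - 2 * I) (hcap : I * (2 + s) < 19 / 50) (h1 : (1 / 2 : ℝ) < s) (h111 : (3 / 4 : ℝ) < s) (h159 : (1 / 10 : ℝ) < I) (h207 : r ≤ (1 / 50 : ℝ)) (h208 : I ≤ (1 / 8 : ℝ)) (h209 : (54 : ℝ) < ((500 : ℝ) * (1 - a * v))) (h234 : (68 : ℝ) < ((500 : ℝ) * (1 - a * v))) (h239 : ((500 : ℝ) * (1 - a * v)) ≤ (150 : ℝ)) :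
    Closed.Strip.ChartSigns (b - a) (a + b) u v t := by
  rcases le_or_gt r (1 / 160 : ℝ) with h241 | h241
  · 
    exact izAt47 hb hF hH hB hside hE hI hI0p (by linarith) (by linarith) (by linarith) (by linarith) (by linarith) (by norm_num; first | linarith | exact kink_le hkink hI1 (by linarith) | exact cap_le hcap (by linarith) (by linarith) | exact kink_lt hkink hI1 (by linarith) | exact w_le hw (by linarith) (by linarith)) (by linarith) (by linarith)
  · 
    exact izAt48 hb hF hH hB hside hE hI hI0p (by linarith) (by linarith) (by linarith) (by linarith) (by linarith) (by norm_num; first | linarith | exact kink_le hkink hI1 (by linarith) | exact cap_le hcap (by linarith) (by linarith) | exact kink_lt hkink hI1 (by linarith) | exact w_le hw (by linarith) (by linarith)) (by linarith) (by linarith)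

/-- The signs in a part of the zone below the kink (33). -/
theorem iz7Low_33 {n : ℕ} {a b u v t H I r s : ℝ} (hb : Closed.All.ChartBox n (b - a) (a + b))
    (hF : Closed.All.ChartFacts (b - a) (a + b) u v t)
    (hH : Closed.chH (b - a) (a + b) u v t = H) (hB : EndBands7 a b u v H)
    (hside : DLow a b) (hE : ExitLine a b u v) (hI : IPt a b u I r s) (hI0p : 0 < I)
    (hI0 : (1 : ℝ) / 20 < I) (hI1 : I ≤ 1 / 7) (hr : 0 < r) (hs : 0 < s) (hw : I * r < 1 / 5)
    (hkink : s * (1 - I) ≤ 1 - 2 * I) (hcap : I * (2 + s) < 19 / 50) (h1 : (1 / 2 : ℝ) < s) (h111 : (3 / 4 : ℝ) < s) (h159 : (1 / 10 : ℝ) < I) (h207 : r ≤ (1 / 50 : ℝ)) (h208 : I ≤ (1 / 8 : ℝ)) (h209 : (54 : ℝ) < ((500 : ℝ) * (1 - a * v))) (h234 : (68 : ℝ) < ((500 : ℝ) * (1 - a * v))) (h239 : (150 : ℝ) < ((500 : ℝ) * (1 - a * v))) (h244 : ((500 : ℝ) * (1 - a * v)) ≤ (170 : ℝ)) :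
    Closed.Strip.ChartSigns (b - a) (a + b) u v t := by
  exact izAt49 hb hF hH hB hside hE hI hI0p (by linarith) (by linarith) (by linarith) (by linarith) (by linarith) (by norm_num; first | linarith | exact kink_le hkink hI1 (by linarith) | exact cap_le hcap (by linarith) (by linarith) | exact kink_lt hkink hI1 (by linarith) | exact w_le hw (by linarith) (by linarith)) (by linarith) (by linarith)

/-- The signs in a part of the zone below the kink (34). -/
theorem iz7Low_34 {n : ℕ} {a b u v t H I r s : ℝ} (hb : Closed.All.ChartBox n (b - a) (a + b))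
    (hF : Closed.All.ChartFacts (b - a) (a + b) u v t)
    (hH : Closed.chH (b - a) (a + b) u v t = H) (hB : EndBands7 a b u v H)
    (hside : DLow a b) (hE : ExitLine a b u v) (hI : IPt a b u I r s) (hI0p : 0 < I)
    (hI0 : (1 : ℝ) / 20 < I) (hI1 : I ≤ 1 / 7) (hr : 0 < r) (hs : 0 < s) (hw : I * r < 1 / 5)
    (hkink : s * (1 - I) ≤ 1 - 2 * I) (hcap : I * (2 + s) < 19 / 50) (h1 : (1 / 2 : ℝ) < s) (h111 : (3 / 4 : ℝ) < s) (h159 : (1 / 10 : ℝ) < I) (h207 : r ≤ (1 / 50 : ℝ)) (h208 : I ≤ (1 / 8 : ℝ)) (h209 : (54 : ℝ) < ((500 : ℝ) * (1 - a * v))) (h234 : (68 : ℝ) < ((500 : ℝ) * (1 - a * v))) (h239 : (150 : ℝ) < ((500 : ℝ) * (1 - a * v))) (h244 : (170 : ℝ) < ((500 : ℝ) * (1 - a * v))) (h247 : r ≤ (3 / 1600 : ℝ)) :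
    Closed.Strip.ChartSigns (b - a) (a + b) u v t := by
  rcases le_or_gt ((500 : ℝ) * (1 - a * v)) (244 : ℝ) with h249 | h249
  · 
    exact izAt50 hb hF hH hB hside hE hI hI0p (by linarith) (by linarith) (by linarith) (by linarith) (by linarith) (by norm_num; first | linarith | exact kink_le hkink hI1 (by linarith) | exact cap_le hcap (by linarith) (by linarith) | exact kink_lt hkink hI1 (by linarith) | exact w_le hw (by linarith) (by linarith)) (by linarith) (by linarith)
  · 
    rcases le_or_gt r (1 / 1600 : ℝ) with h251 | h251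
    · 
      exact izAt51 hb hF hH hB hside hE hI hI0p (by linarith) (by linarith) (by linarith) (by linarith) (by linarith) (by norm_num; first | linarith | exact kink_le hkink hI1 (by linarith) | exact cap_le hcap (by linarith) (by linarith) | exact kink_lt hkink hI1 (by linarith) | exact w_le hw (by linarith) (by linarith)) (by linarith)
    · 
      exact izAt52 hb hF hH hB hside hE hI hI0p (by linarith) (by linarith) (by linarith) (by linarith) (by linarith) (by norm_num; first | linarith | exact kink_le hkink hI1 (by linarith) | exact cap_le hcap (by linarith) (by linarith) | exact kink_lt hkink hI1 (by linarith) | exact w_le hw (by linarith) (by linarith)) (by linarith)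

/-- The signs in a part of the zone below the kink (35). -/
theorem iz7Low_35 {n : ℕ} {a b u v t H I r s : ℝ} (hb : Closed.All.ChartBox n (b - a) (a + b))
    (hF : Closed.All.ChartFacts (b - a) (a + b) u v t)
    (hH : Closed.chH (b - a) (a + b) u v t = H) (hB : EndBands7 a b u v H)
    (hside : DLow a b) (hE : ExitLine a b u v) (hI : IPt a b u I r s) (hI0p : 0 < I)
    (hI0 : (1 : ℝ) / 20 < I) (hI1 : I ≤ 1 / 7) (hr : 0 < r) (hs : 0 < s) (hw : I * r < 1 / 5)
    (hkink : s * (1 - I) ≤ 1 - 2 * I) (hcap : I * (2 + s) < 19 / 50) (h1 : (1 / 2 : ℝ) < s) (h111 : (3 / 4 : ℝ) < s) (h159 : (1 / 10 : ℝ) < I) (h207 : r ≤ (1 / 50 : ℝ)) (h208 : I ≤ (1 / 8 : ℝ)) (h209 : (54 : ℝ) < ((500 : ℝ) * (1 - a * v))) (h234 : (68 : ℝ) < ((500 : ℝ) * (1 - a * v))) (h239 : (150 : ℝ) < ((500 : ℝ) * (1 - a * v))) (h244 : (170 : ℝ) < ((500 : ℝ) * (1 - a * v))) (h247 : (3 / 1600 : ℝ) < r) :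
    Closed.Strip.ChartSigns (b - a) (a + b) u v t := by
  rcases le_or_gt r (3 / 800 : ℝ) with h255 | h255
  · 
    exact izAt53 hb hF hH hB hside hE hI hI0p (by linarith) (by linarith) (by linarith) (by linarith) (by linarith) (by norm_num; first | linarith | exact kink_le hkink hI1 (by linarith) | exact cap_le hcap (by linarith) (by linarith) | exact kink_lt hkink hI1 (by linarith) | exact w_le hw (by linarith) (by linarith)) (by linarith)
  · 
    rcases le_or_gt r (1 / 160 : ℝ) with h257 | h257
    · 
      exact izAt54 hb hF hH hB hside hE hI hI0p (by linarith) (by linarith) (by linarith) (by linarith) (by linarith) (by norm_num; first | linarith | exact kink_le hkink hI1 (by linarith) | exact cap_le hcap (by linarith) (by linarith) | exact kink_lt hkink hI1 (by linarith) | exact w_le hw (by linarith) (by linarith)) (by linarith)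
    · 
      rcases le_or_gt r (1 / 100 : ℝ) with h259 | h259
      · 
        exact izAt55 hb hF hH hB hside hE hI hI0p (by linarith) (by linarith) (by linarith) (by linarith) (by linarith) (by norm_num; first | linarith | exact kink_le hkink hI1 (by linarith) | exact cap_le hcap (by linarith) (by linarith) | exact kink_lt hkink hI1 (by linarith) | exact w_le hw (by linarith) (by linarith)) (by linarith)
      · 
        exact izAt56 hb hF hH hB hside hE hI hI0p (by linarith) (by linarith) (by linarith) (by linarith) (by linarith) (by norm_num; first | linarith | exact kink_le hkink hI1 (by linarith) | exact cap_le hcap (by linarith) (by linarith) | exact kink_lt hkink hI1 (by linarith) | exact w_le hw (by linarith) (by linarith)) (by linarith)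

/-- The signs in a part of the zone below the kink (36). -/
theorem iz7Low_36 {n : ℕ} {a b u v t H I r s : ℝ} (hb : Closed.All.ChartBox n (b - a) (a + b))
    (hF : Closed.All.ChartFacts (b - a) (a + b) u v t)
    (hH : Closed.chH (b - a) (a + b) u v t = H) (hB : EndBands7 a b u v H)
    (hside : DLow a b) (hE : ExitLine a b u v) (hI : IPt a b u I r s) (hI0p : 0 < I)
    (hI0 : (1 : ℝ) / 20 < I) (hI1 : I ≤ 1 / 7) (hr : 0 < r) (hs : 0 < s) (hw : I * r < 1 / 5)
    (hkink : s * (1 - I) ≤ 1 - 2 * I) (hcap : I * (2 + s) < 19 / 50) (h1 : (1 / 2 : ℝ) < s) (h111 : (3 / 4 : ℝ) < s) (h159 : (1 / 10 : ℝ) < I) (h207 : r ≤ (1 / 50 : ℝ)) (h208 : (1 / 8 : ℝ) < I) (h262 : I ≤ (21 / 160 : ℝ)) (h263 : ((500 : ℝ) * (1 - a * v)) ≤ (66 : ℝ)) :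
    Closed.Strip.ChartSigns (b - a) (a + b) u v t := by
  exact izAt221 hb hF hH hB hside hE hI hI0p (by linarith) (by linarith) (by linarith) (by linarith) (by linarith) (by norm_num; first | linarith | exact kink_le hkink hI1 (by linarith) | exact cap_le hcap (by linarith) (by linarith) | exact kink_lt hkink hI1 (by linarith) | exact w_le hw (by linarith) (by linarith)) (by linarith)

/-- The signs in a part of the zone below the kink (37). -/
theorem iz7Low_37 {n : ℕ} {a b u v t H I r s : ℝ} (hb : Closed.All.ChartBox n (b - a) (a + b))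
    (hF : Closed.All.ChartFacts (b - a) (a + b) u v t)
    (hH : Closed.chH (b - a) (a + b) u v t = H) (hB : EndBands7 a b u v H)
    (hside : DLow a b) (hE : ExitLine a b u v) (hI : IPt a b u I r s) (hI0p : 0 < I)
    (hI0 : (1 : ℝ) / 20 < I) (hI1 : I ≤ 1 / 7) (hr : 0 < r) (hs : 0 < s) (hw : I * r < 1 / 5)
    (hkink : s * (1 - I) ≤ 1 - 2 * I) (hcap : I * (2 + s) < 19 / 50) (h1 : (1 / 2 : ℝ) < s) (h111 : (3 / 4 : ℝ) < s) (h159 : (1 / 10 : ℝ) < I) (h207 : r ≤ (1 / 50 : ℝ)) (h208 : (1 / 8 : ℝ) < I) (h262 : I ≤ (21 / 160 : ℝ)) (h263 : (66 : ℝ) < ((500 : ℝ) * (1 - a * v))) (h266 : ((500 : ℝ) * (1 - a * v)) ≤ (82 : ℝ)) :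
    Closed.Strip.ChartSigns (b - a) (a + b) u v t := by
  exact izAt222 hb hF hH hB hside hE hI hI0p (by linarith) (by linarith) (by linarith) (by linarith) (by linarith) (by norm_num; first | linarith | exact kink_le hkink hI1 (by linarith) | exact cap_le hcap (by linarith) (by linarith) | exact kink_lt hkink hI1 (by linarith) | exact w_le hw (by linarith) (by linarith)) (by linarith) (by linarith)

/-- The signs in a part of the zone below the kink (38). -/
theorem iz7Low_38 {n : ℕ} {a b u v t H I r s : ℝ} (hb : Closed.All.ChartBox n (b - a) (a + b))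
    (hF : Closed.All.ChartFacts (b - a) (a + b) u v t)
    (hH : Closed.chH (b - a) (a + b) u v t = H) (hB : EndBands7 a b u v H)
    (hside : DLow a b) (hE : ExitLine a b u v) (hI : IPt a b u I r s) (hI0p : 0 < I)
    (hI0 : (1 : ℝ) / 20 < I) (hI1 : I ≤ 1 / 7) (hr : 0 < r) (hs : 0 < s) (hw : I * r < 1 / 5)
    (hkink : s * (1 - I) ≤ 1 - 2 * I) (hcap : I * (2 + s) < 19 / 50) (h1 : (1 / 2 : ℝ) < s) (h111 : (3 / 4 : ℝ) < s) (h159 : (1 / 10 : ℝ) < I) (h207 : r ≤ (1 / 50 : ℝ)) (h208 : (1 / 8 : ℝ) < I) (h262 : I ≤ (21 / 160 : ℝ)) (h263 : (66 : ℝ) < ((500 : ℝ) * (1 - a * v))) (h266 : (82 : ℝ) < ((500 : ℝ) * (1 - a * v))) (h269 : ((500 : ℝ) * (1 - a * v)) ≤ (102 : ℝ)) :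
    Closed.Strip.ChartSigns (b - a) (a + b) u v t := by
  exact izAt223 hb hF hH hB hside hE hI hI0p (by linarith) (by linarith) (by linarith) (by linarith) (by linarith) (by norm_num; first | linarith | exact kink_le hkink hI1 (by linarith) | exact cap_le hcap (by linarith) (by linarith) | exact kink_lt hkink hI1 (by linarith) | exact w_le hw (by linarith) (by linarith)) (by linarith) (by linarith)

/-- The signs in a part of the zone below the kink (39). -/
theorem iz7Low_39 {n : ℕ} {a b u v t H I r s : ℝ} (hb : Closed.All.ChartBox n (b - a) (a + b))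
    (hF : Closed.All.ChartFacts (b - a) (a + b) u v t)
    (hH : Closed.chH (b - a) (a + b) u v t = H) (hB : EndBands7 a b u v H)
    (hside : DLow a b) (hE : ExitLine a b u v) (hI : IPt a b u I r s) (hI0p : 0 < I)
    (hI0 : (1 : ℝ) / 20 < I) (hI1 : I ≤ 1 / 7) (hr : 0 < r) (hs : 0 < s) (hw : I * r < 1 / 5)
    (hkink : s * (1 - I) ≤ 1 - 2 * I) (hcap : I * (2 + s) < 19 / 50) (h1 : (1 / 2 : ℝ) < s) (h111 : (3 / 4 : ℝ) < s) (h159 : (1 / 10 : ℝ) < I) (h207 : r ≤ (1 / 50 : ℝ)) (h208 : (1 / 8 : ℝ) < I) (h262 : I ≤ (21 / 160 : ℝ)) (h263 : (66 : ℝ) < ((500 : ℝ) * (1 - a * v))) (h266 : (82 : ℝ) < ((500 : ℝ) * (1 - a * v))) (h269 : (102 : ℝ) < ((500 : ℝ) * (1 - a * v))) (h272 : ((500 : ℝ) * (1 - a * v)) ≤ (128 : ℝ)) :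
    Closed.Strip.ChartSigns (b - a) (a + b) u v t := by
  exact izAt224 hb hF hH hB hside hE hI hI0p (by linarith) (by linarith) (by linarith) (by linarith) (by linarith) (by norm_num; first | linarith | exact kink_le hkink hI1 (by linarith) | exact cap_le hcap (by linarith) (by linarith) | exact kink_lt hkink hI1 (by linarith) | exact w_le hw (by linarith) (by linarith)) (by linarith) (by linarith)

/-- The signs in a part of the zone below the kink (40). -/
theorem iz7Low_40 {n : ℕ} {a b u v t H I r s : ℝ} (hb : Closed.All.ChartBox n (b - a) (a + b))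
    (hF : Closed.All.ChartFacts (b - a) (a + b) u v t)
    (hH : Closed.chH (b - a) (a + b) u v t = H) (hB : EndBands7 a b u v H)
    (hside : DLow a b) (hE : ExitLine a b u v) (hI : IPt a b u I r s) (hI0p : 0 < I)
    (hI0 : (1 : ℝ) / 20 < I) (hI1 : I ≤ 1 / 7) (hr : 0 < r) (hs : 0 < s) (hw : I * r < 1 / 5)
    (hkink : s * (1 - I) ≤ 1 - 2 * I) (hcap : I * (2 + s) < 19 / 50) (h1 : (1 / 2 : ℝ) < s) (h111 : (3 / 4 : ℝ) < s) (h159 : (1 / 10 : ℝ) < I) (h207 : r ≤ (1 / 50 : ℝ)) (h208 : (1 / 8 : ℝ) < I) (h262 : I ≤ (21 / 160 : ℝ)) (h263 : (66 : ℝ) < ((500 : ℝ) * (1 - a * v))) (h266 : (82 : ℝ) < ((500 : ℝ) * (1 - a * v))) (h269 : (102 : ℝ) < ((500 : ℝ) * (1 - a * v))) (h272 : (128 : ℝ) < ((500 : ℝ) * (1 - a * v))) (h275 : ((500 : ℝ) * (1 - a * v)) ≤ (160 : ℝ)) :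
    Closed.Strip.ChartSigns (b - a) (a + b) u v t := by
  exact izAt225 hb hF hH hB hside hE hI hI0p (by linarith) (by linarith) (by linarith) (by linarith) (by linarith) (by norm_num; first | linarith | exact kink_le hkink hI1 (by linarith) | exact cap_le hcap (by linarith) (by linarith) | exact kink_lt hkink hI1 (by linarith) | exact w_le hw (by linarith) (by linarith)) (by linarith) (by linarith)

/-- The signs in a part of the zone below the kink (41). -/
theorem iz7Low_41 {n : ℕ} {a b u v t H I r s : ℝ} (hb : Closed.All.ChartBox n (b - a) (a + b))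
    (hF : Closed.All.ChartFacts (b - a) (a + b) u v t)
    (hH : Closed.chH (b - a) (a + b) u v t = H) (hB : EndBands7 a b u v H)
    (hside : DLow a b) (hE : ExitLine a b u v) (hI : IPt a b u I r s) (hI0p : 0 < I)
    (hI0 : (1 : ℝ) / 20 < I) (hI1 : I ≤ 1 / 7) (hr : 0 < r) (hs : 0 < s) (hw : I * r < 1 / 5)
    (hkink : s * (1 - I) ≤ 1 - 2 * I) (hcap : I * (2 + s) < 19 / 50) (h1 : (1 / 2 : ℝ) < s) (h111 : (3 / 4 : ℝ) < s) (h159 : (1 / 10 : ℝ) < I) (h207 : r ≤ (1 / 50 : ℝ)) (h208 : (1 / 8 : ℝ) < I) (h262 : I ≤ (21 / 160 : ℝ)) (h263 : (66 : ℝ) < ((500 : ℝ) * (1 - a * v))) (h266 : (82 : ℝ) < ((500 : ℝ) * (1 - a * v))) (h269 : (102 : ℝ) < ((500 : ℝ) * (1 - a * v))) (h272 : (128 : ℝ) < ((500 : ℝ) * (1 - a * v))) (h275 : (160 : ℝ) < ((500 : ℝ) * (1 - a * v))) (h278 : ((500 : ℝ) * (1 - a * v)) ≤ (200 : ℝ)) :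
    Closed.Strip.ChartSigns (b - a) (a + b) u v t := by
  exact izAt226 hb hF hH hB hside hE hI hI0p (by linarith) (by linarith) (by linarith) (by linarith) (by linarith) (by norm_num; first | linarith | exact kink_le hkink hI1 (by linarith) | exact cap_le hcap (by linarith) (by linarith) | exact kink_lt hkink hI1 (by linarith) | exact w_le hw (by linarith) (by linarith)) (by linarith) (by linarith)

/-- The signs in a part of the zone below the kink (42). -/
theorem iz7Low_42 {n : ℕ} {a b u v t H I r s : ℝ} (hb : Closed.All.ChartBox n (b - a) (a + b))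
    (hF : Closed.All.ChartFacts (b - a) (a + b) u v t)
    (hH : Closed.chH (b - a) (a + b) u v t = H) (hB : EndBands7 a b u v H)
    (hside : DLow a b) (hE : ExitLine a b u v) (hI : IPt a b u I r s) (hI0p : 0 < I)
    (hI0 : (1 : ℝ) / 20 < I) (hI1 : I ≤ 1 / 7) (hr : 0 < r) (hs : 0 < s) (hw : I * r < 1 / 5)
    (hkink : s * (1 - I) ≤ 1 - 2 * I) (hcap : I * (2 + s) < 19 / 50) (h1 : (1 / 2 : ℝ) < s) (h111 : (3 / 4 : ℝ) < s) (h159 : (1 / 10 : ℝ) < I) (h207 : r ≤ (1 / 50 : ℝ)) (h208 : (1 / 8 : ℝ) < I) (h262 : I ≤ (21 / 160 : ℝ)) (h263 : (66 : ℝ) < ((500 : ℝ) * (1 - a * v))) (h266 : (82 : ℝ) < ((500 : ℝ) * (1 - a * v))) (h269 : (102 : ℝ) < ((500 : ℝ) * (1 - a * v))) (h272 : (128 : ℝ) < ((500 : ℝ) * (1 - a * v))) (h275 : (160 : ℝ) < ((500 : ℝ) * (1 - a * v))) (h278 : (200 : ℝ) < ((500 : ℝ) * (1 - a * v))) (h281 : ((500 : ℝ) * (1 - a * v)) ≤ (240 : ℝ)) :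
    Closed.Strip.ChartSigns (b - a) (a + b) u v t := by
  exact izAt58 hb hF hH hB hside hE hI hI0p (by linarith) (by linarith) (by linarith) (by linarith) (by linarith) (by norm_num; first | linarith | exact kink_le hkink hI1 (by linarith) | exact cap_le hcap (by linarith) (by linarith) | exact kink_lt hkink hI1 (by linarith) | exact w_le hw (by linarith) (by linarith)) (by linarith) (by linarith)

/-- The signs in a part of the zone below the kink (43). -/
theorem iz7Low_43 {n : ℕ} {a b u v t H I r s : ℝ} (hb : Closed.All.ChartBox n (b - a) (a + b))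
    (hF : Closed.All.ChartFacts (b - a) (a + b) u v t)
    (hH : Closed.chH (b - a) (a + b) u v t = H) (hB : EndBands7 a b u v H)
    (hside : DLow a b) (hE : ExitLine a b u v) (hI : IPt a b u I r s) (hI0p : 0 < I)
    (hI0 : (1 : ℝ) / 20 < I) (hI1 : I ≤ 1 / 7) (hr : 0 < r) (hs : 0 < s) (hw : I * r < 1 / 5)
    (hkink : s * (1 - I) ≤ 1 - 2 * I) (hcap : I * (2 + s) < 19 / 50) (h1 : (1 / 2 : ℝ) < s) (h111 : (3 / 4 : ℝ) < s) (h159 : (1 / 10 : ℝ) < I) (h207 : r ≤ (1 / 50 : ℝ)) (h208 : (1 / 8 : ℝ) < I) (h262 : I ≤ (21 / 160 : ℝ)) (h263 : (66 : ℝ) < ((500 : ℝ) * (1 - a * v))) (h266 : (82 : ℝ) < ((500 : ℝ) * (1 - a * v))) (h269 : (102 : ℝ) < ((500 : ℝ) * (1 - a * v))) (h272 : (128 : ℝ) < ((500 : ℝ) * (1 - a * v))) (h275 : (160 : ℝ) < ((500 : ℝ) * (1 - a * v))) (h278 : (200 : ℝ) < ((500 : ℝ) * (1 - a * v))) (h281 : (240 : ℝ) < ((500 : ℝ) * (1 - a * v))) :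
    Closed.Strip.ChartSigns (b - a) (a + b) u v t := by
  rcases le_or_gt ((500 : ℝ) * (1 - a * v)) (250 : ℝ) with h285 | h285
  · 
    exact izAt59 hb hF hH hB hside hE hI hI0p (by linarith) (by linarith) (by linarith) (by linarith) (by linarith) (by norm_num; first | linarith | exact kink_le hkink hI1 (by linarith) | exact cap_le hcap (by linarith) (by linarith) | exact kink_lt hkink hI1 (by linarith) | exact w_le hw (by linarith) (by linarith)) (by linarith) (by linarith)
  · 
    rcases le_or_gt s (161 / 200 : ℝ) with h287 | h287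
    · 
      rcases le_or_gt r (1 / 160 : ℝ) with h288 | h288
      · 
        exact izAt60 hb hF hH hB hside hE hI hI0p (by linarith) (by linarith) (by linarith) (by linarith) (by linarith) (by linarith) (by linarith)
      · 
        exact izAt61 hb hF hH hB hside hE hI hI0p (by linarith) (by linarith) (by linarith) (by linarith) (by linarith) (by linarith) (by linarith)
    · 
      rcases le_or_gt I (41 / 320 : ℝ) with h291 | h291
      · 
        exact izAt62 hb hF hH hB hside hE hI hI0p (by linarith) (by linarith) (by linarith) (by linarith) (by linarith) (by norm_num; first | linarith | exact kink_le hkink hI1 (by linarith) | exact cap_le hcap (by linarith) (by linarith) | exact kink_lt hkink hI1 (by linarith) | exact w_le hw (by linarith) (by linarith)) (by linarith)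
      · 
        exact izAt63 hb hF hH hB hside hE hI hI0p (by linarith) (by linarith) (by linarith) (by linarith) (by linarith) (by norm_num; first | linarith | exact kink_le hkink hI1 (by linarith) | exact cap_le hcap (by linarith) (by linarith) | exact kink_lt hkink hI1 (by linarith) | exact w_le hw (by linarith) (by linarith)) (by linarith)

/-- The signs in a part of the zone below the kink (44). -/
theorem iz7Low_44 {n : ℕ} {a b u v t H I r s : ℝ} (hb : Closed.All.ChartBox n (b - a) (a + b))
    (hF : Closed.All.ChartFacts (b - a) (a + b) u v t)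
    (hH : Closed.chH (b - a) (a + b) u v t = H) (hB : EndBands7 a b u v H)
    (hside : DLow a b) (hE : ExitLine a b u v) (hI : IPt a b u I r s) (hI0p : 0 < I)
    (hI0 : (1 : ℝ) / 20 < I) (hI1 : I ≤ 1 / 7) (hr : 0 < r) (hs : 0 < s) (hw : I * r < 1 / 5)
    (hkink : s * (1 - I) ≤ 1 - 2 * I) (hcap : I * (2 + s) < 19 / 50) (h1 : (1 / 2 : ℝ) < s) (h111 : (3 / 4 : ℝ) < s) (h159 : (1 / 10 : ℝ) < I) (h207 : r ≤ (1 / 50 : ℝ)) (h208 : (1 / 8 : ℝ) < I) (h262 : (21 / 160 : ℝ) < I) (h294 : I ≤ (43 / 320 : ℝ)) (h295 : ((500 : ℝ) * (1 - a * v)) ≤ (66 : ℝ)) :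
    Closed.Strip.ChartSigns (b - a) (a + b) u v t := by
  exact izAt227 hb hF hH hB hside hE hI hI0p (by linarith) (by linarith) (by linarith) (by linarith) (by linarith) (by norm_num; first | linarith | exact kink_le hkink hI1 (by linarith) | exact cap_le hcap (by linarith) (by linarith) | exact kink_lt hkink hI1 (by linarith) | exact w_le hw (by linarith) (by linarith)) (by linarith)

/-- The signs in a part of the zone below the kink (45). -/
theorem iz7Low_45 {n : ℕ} {a b u v t H I r s : ℝ} (hb : Closed.All.ChartBox n (b - a) (a + b))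
    (hF : Closed.All.ChartFacts (b - a) (a + b) u v t)
    (hH : Closed.chH (b - a) (a + b) u v t = H) (hB : EndBands7 a b u v H)
    (hside : DLow a b) (hE : ExitLine a b u v) (hI : IPt a b u I r s) (hI0p : 0 < I)
    (hI0 : (1 : ℝ) / 20 < I) (hI1 : I ≤ 1 / 7) (hr : 0 < r) (hs : 0 < s) (hw : I * r < 1 / 5)
    (hkink : s * (1 - I) ≤ 1 - 2 * I) (hcap : I * (2 + s) < 19 / 50) (h1 : (1 / 2 : ℝ) < s) (h111 : (3 / 4 : ℝ) < s) (h159 : (1 / 10 : ℝ) < I) (h207 : r ≤ (1 / 50 : ℝ)) (h208 : (1 / 8 : ℝ) < I) (h262 : (21 / 160 : ℝ) < I) (h294 : I ≤ (43 / 320 : ℝ)) (h295 : (66 : ℝ) < ((500 : ℝ) * (1 - a * v))) (h298 : ((500 : ℝ) * (1 - a * v)) ≤ (82 : ℝ)) :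
    Closed.Strip.ChartSigns (b - a) (a + b) u v t := by
  exact izAt228 hb hF hH hB hside hE hI hI0p (by linarith) (by linarith) (by linarith) (by linarith) (by linarith) (by norm_num; first | linarith | exact kink_le hkink hI1 (by linarith) | exact cap_le hcap (by linarith) (by linarith) | exact kink_lt hkink hI1 (by linarith) | exact w_le hw (by linarith) (by linarith)) (by linarith) (by linarith)

/-- The signs in a part of the zone below the kink (46). -/
theorem iz7Low_46 {n : ℕ} {a b u v t H I r s : ℝ} (hb : Closed.All.ChartBox n (b - a) (a + b))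
    (hF : Closed.All.ChartFacts (b - a) (a + b) u v t)
    (hH : Closed.chH (b - a) (a + b) u v t = H) (hB : EndBands7 a b u v H)
    (hside : DLow a b) (hE : ExitLine a b u v) (hI : IPt a b u I r s) (hI0p : 0 < I)
    (hI0 : (1 : ℝ) / 20 < I) (hI1 : I ≤ 1 / 7) (hr : 0 < r) (hs : 0 < s) (hw : I * r < 1 / 5)
    (hkink : s * (1 - I) ≤ 1 - 2 * I) (hcap : I * (2 + s) < 19 / 50) (h1 : (1 / 2 : ℝ) < s) (h111 : (3 / 4 : ℝ) < s) (h159 : (1 / 10 : ℝ) < I) (h207 : r ≤ (1 / 50 : ℝ)) (h208 : (1 / 8 : ℝ) < I) (h262 : (21 / 160 : ℝ) < I) (h294 : I ≤ (43 / 320 : ℝ)) (h295 : (66 : ℝ) < ((500 : ℝ) * (1 - a * v))) (h298 : (82 : ℝ) < ((500 : ℝ) * (1 - a * v))) (h301 : ((500 : ℝ) * (1 - a * v)) ≤ (102 : ℝ)) :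
    Closed.Strip.ChartSigns (b - a) (a + b) u v t := by
  exact izAt229 hb hF hH hB hside hE hI hI0p (by linarith) (by linarith) (by linarith) (by linarith) (by linarith) (by norm_num; first | linarith | exact kink_le hkink hI1 (by linarith) | exact cap_le hcap (by linarith) (by linarith) | exact kink_lt hkink hI1 (by linarith) | exact w_le hw (by linarith) (by linarith)) (by linarith) (by linarith)

/-- The signs in a part of the zone below the kink (47). -/
theorem iz7Low_47 {n : ℕ} {a b u v t H I r s : ℝ} (hb : Closed.All.ChartBox n (b - a) (a + b))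
    (hF : Closed.All.ChartFacts (b - a) (a + b) u v t)
    (hH : Closed.chH (b - a) (a + b) u v t = H) (hB : EndBands7 a b u v H)
    (hside : DLow a b) (hE : ExitLine a b u v) (hI : IPt a b u I r s) (hI0p : 0 < I)
    (hI0 : (1 : ℝ) / 20 < I) (hI1 : I ≤ 1 / 7) (hr : 0 < r) (hs : 0 < s) (hw : I * r < 1 / 5)
    (hkink : s * (1 - I) ≤ 1 - 2 * I) (hcap : I * (2 + s) < 19 / 50) (h1 : (1 / 2 : ℝ) < s) (h111 : (3 / 4 : ℝ) < s) (h159 : (1 / 10 : ℝ) < I) (h207 : r ≤ (1 / 50 : ℝ)) (h208 : (1 / 8 : ℝ) < I) (h262 : (21 / 160 : ℝ) < I) (h294 : I ≤ (43 / 320 : ℝ)) (h295 : (66 : ℝ) < ((500 : ℝ) * (1 - a * v))) (h298 : (82 : ℝ) < ((500 : ℝ) * (1 - a * v))) (h301 : (102 : ℝ) < ((500 : ℝ) * (1 - a * v))) (h304 : ((500 : ℝ) * (1 - a * v)) ≤ (128 : ℝ)) :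
    Closed.Strip.ChartSigns (b - a) (a + b) u v t := by
  exact izAt230 hb hF hH hB hside hE hI hI0p (by linarith) (by linarith) (by linarith) (by linarith) (by linarith) (by norm_num; first | linarith | exact kink_le hkink hI1 (by linarith) | exact cap_le hcap (by linarith) (by linarith) | exact kink_lt hkink hI1 (by linarith) | exact w_le hw (by linarith) (by linarith)) (by linarith) (by linarith)

/-- The signs in a part of the zone below the kink (48). -/
theorem iz7Low_48 {n : ℕ} {a b u v t H I r s : ℝ} (hb : Closed.All.ChartBox n (b - a) (a + b))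
    (hF : Closed.All.ChartFacts (b - a) (a + b) u v t)
    (hH : Closed.chH (b - a) (a + b) u v t = H) (hB : EndBands7 a b u v H)
    (hside : DLow a b) (hE : ExitLine a b u v) (hI : IPt a b u I r s) (hI0p : 0 < I)
    (hI0 : (1 : ℝ) / 20 < I) (hI1 : I ≤ 1 / 7) (hr : 0 < r) (hs : 0 < s) (hw : I * r < 1 / 5)
    (hkink : s * (1 - I) ≤ 1 - 2 * I) (hcap : I * (2 + s) < 19 / 50) (h1 : (1 / 2 : ℝ) < s) (h111 : (3 / 4 : ℝ) < s) (h159 : (1 / 10 : ℝ) < I) (h207 : r ≤ (1 / 50 : ℝ)) (h208 : (1 / 8 : ℝ) < I) (h262 : (21 / 160 : ℝ) < I) (h294 : I ≤ (43 / 320 : ℝ)) (h295 : (66 : ℝ) < ((500 : ℝ) * (1 - a * v))) (h298 : (82 : ℝ) < ((500 : ℝ) * (1 - a * v))) (h301 : (102 : ℝ) < ((500 : ℝ) * (1 - a * v))) (h304 : (128 : ℝ) < ((500 : ℝ) * (1 - a * v))) (h307 : ((500 : ℝ) * (1 - a * v)) ≤ (160 : ℝ)) :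
    Closed.Strip.ChartSigns (b - a) (a + b) u v t := by
  exact izAt231 hb hF hH hB hside hE hI hI0p (by linarith) (by linarith) (by linarith) (by linarith) (by linarith) (by norm_num; first | linarith | exact kink_le hkink hI1 (by linarith) | exact cap_le hcap (by linarith) (by linarith) | exact kink_lt hkink hI1 (by linarith) | exact w_le hw (by linarith) (by linarith)) (by linarith) (by linarith)

/-- The signs in a part of the zone below the kink (49). -/
theorem iz7Low_49 {n : ℕ} {a b u v t H I r s : ℝ} (hb : Closed.All.ChartBox n (b - a) (a + b))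
    (hF : Closed.All.ChartFacts (b - a) (a + b) u v t)
    (hH : Closed.chH (b - a) (a + b) u v t = H) (hB : EndBands7 a b u v H)
    (hside : DLow a b) (hE : ExitLine a b u v) (hI : IPt a b u I r s) (hI0p : 0 < I)
    (hI0 : (1 : ℝ) / 20 < I) (hI1 : I ≤ 1 / 7) (hr : 0 < r) (hs : 0 < s) (hw : I * r < 1 / 5)
    (hkink : s * (1 - I) ≤ 1 - 2 * I) (hcap : I * (2 + s) < 19 / 50) (h1 : (1 / 2 : ℝ) < s) (h111 : (3 / 4 : ℝ) < s) (h159 : (1 / 10 : ℝ) < I) (h207 : r ≤ (1 / 50 : ℝ)) (h208 : (1 / 8 : ℝ) < I) (h262 : (21 / 160 : ℝ) < I) (h294 : I ≤ (43 / 320 : ℝ)) (h295 : (66 : ℝ) < ((500 : ℝ) * (1 - a * v))) (h298 : (82 : ℝ) < ((500 : ℝ) * (1 - a * v))) (h301 : (102 : ℝ) < ((500 : ℝ) * (1 - a * v))) (h304 : (128 : ℝ) < ((500 : ℝ) * (1 - a * v))) (h307 : (160 : ℝ) < ((500 : ℝ) * (1 - a * v))) (h310 : ((500 : ℝ) * (1 - a * v)) ≤ (200 : ℝ)) :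
    Closed.Strip.ChartSigns (b - a) (a + b) u v t := by
  exact izAt232 hb hF hH hB hside hE hI hI0p (by linarith) (by linarith) (by linarith) (by linarith) (by linarith) (by norm_num; first | linarith | exact kink_le hkink hI1 (by linarith) | exact cap_le hcap (by linarith) (by linarith) | exact kink_lt hkink hI1 (by linarith) | exact w_le hw (by linarith) (by linarith)) (by linarith) (by linarith)

/-- The signs in a part of the zone below the kink (50). -/
theorem iz7Low_50 {n : ℕ} {a b u v t H I r s : ℝ} (hb : Closed.All.ChartBox n (b - a) (a + b))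
    (hF : Closed.All.ChartFacts (b - a) (a + b) u v t)
    (hH : Closed.chH (b - a) (a + b) u v t = H) (hB : EndBands7 a b u v H)
    (hside : DLow a b) (hE : ExitLine a b u v) (hI : IPt a b u I r s) (hI0p : 0 < I)
    (hI0 : (1 : ℝ) / 20 < I) (hI1 : I ≤ 1 / 7) (hr : 0 < r) (hs : 0 < s) (hw : I * r < 1 / 5)
    (hkink : s * (1 - I) ≤ 1 - 2 * I) (hcap : I * (2 + s) < 19 / 50) (h1 : (1 / 2 : ℝ) < s) (h111 : (3 / 4 : ℝ) < s) (h159 : (1 / 10 : ℝ) < I) (h207 : r ≤ (1 / 50 : ℝ)) (h208 : (1 / 8 : ℝ) < I) (h262 : (21 / 160 : ℝ) < I) (h294 : I ≤ (43 / 320 : ℝ)) (h295 : (66 : ℝ) < ((500 : ℝ) * (1 - a * v))) (h298 : (82 : ℝ) < ((500 : ℝ) * (1 - a * v))) (h301 : (102 : ℝ) < ((500 : ℝ) * (1 - a * v))) (h304 : (128 : ℝ) < ((500 : ℝ) * (1 - a * v))) (h307 : (160 : ℝ) < ((500 : ℝ) * (1 - a * v))) (h310 : (200 : ℝ) < ((500 : ℝ) * (1 - a * v))) (h313 : ((500 : ℝ) * (1 - a * v)) ≤ (240 : ℝ)) :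
    Closed.Strip.ChartSigns (b - a) (a + b) u v t := by
  exact izAt65 hb hF hH hB hside hE hI hI0p (by linarith) (by linarith) (by linarith) (by linarith) (by linarith) (by norm_num; first | linarith | exact kink_le hkink hI1 (by linarith) | exact cap_le hcap (by linarith) (by linarith) | exact kink_lt hkink hI1 (by linarith) | exact w_le hw (by linarith) (by linarith)) (by linarith) (by linarith)

/-- The signs in a part of the zone below the kink (51). -/
theorem iz7Low_51 {n : ℕ} {a b u v t H I r s : ℝ} (hb : Closed.All.ChartBox n (b - a) (a + b))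
    (hF : Closed.All.ChartFacts (b - a) (a + b) u v t)
    (hH : Closed.chH (b - a) (a + b) u v t = H) (hB : EndBands7 a b u v H)
    (hside : DLow a b) (hE : ExitLine a b u v) (hI : IPt a b u I r s) (hI0p : 0 < I)
    (hI0 : (1 : ℝ) / 20 < I) (hI1 : I ≤ 1 / 7) (hr : 0 < r) (hs : 0 < s) (hw : I * r < 1 / 5)
    (hkink : s * (1 - I) ≤ 1 - 2 * I) (hcap : I * (2 + s) < 19 / 50) (h1 : (1 / 2 : ℝ) < s) (h111 : (3 / 4 : ℝ) < s) (h159 : (1 / 10 : ℝ) < I) (h207 : r ≤ (1 / 50 : ℝ)) (h208 : (1 / 8 : ℝ) < I) (h262 : (21 / 160 : ℝ) < I) (h294 : I ≤ (43 / 320 : ℝ)) (h295 : (66 : ℝ) < ((500 : ℝ) * (1 - a * v))) (h298 : (82 : ℝ) < ((500 : ℝ) * (1 - a * v))) (h301 : (102 : ℝ) < ((500 : ℝ) * (1 - a * v))) (h304 : (128 : ℝ) < ((500 : ℝ) * (1 - a * v))) (h307 : (160 : ℝ) < ((500 : ℝ) * (1 - a * v))) (h310 : (200 : ℝ) < ((500 : ℝ) * (1 - a * v))) (h313 : (240 : ℝ) < ((500 : ℝ) * (1 - a * v))) (h316 : ((500 : ℝ) * (1 - a * v)) ≤ (250 : ℝ)) :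
    Closed.Strip.ChartSigns (b - a) (a + b) u v t := by
  exact izAt66 hb hF hH hB hside hE hI hI0p (by linarith) (by linarith) (by linarith) (by linarith) (by linarith) (by norm_num; first | linarith | exact kink_le hkink hI1 (by linarith) | exact cap_le hcap (by linarith) (by linarith) | exact kink_lt hkink hI1 (by linarith) | exact w_le hw (by linarith) (by linarith)) (by linarith) (by linarith)

/-- The signs in a part of the zone below the kink (52). -/
theorem iz7Low_52 {n : ℕ} {a b u v t H I r s : ℝ} (hb : Closed.All.ChartBox n (b - a) (a + b))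
    (hF : Closed.All.ChartFacts (b - a) (a + b) u v t)
    (hH : Closed.chH (b - a) (a + b) u v t = H) (hB : EndBands7 a b u v H)
    (hside : DLow a b) (hE : ExitLine a b u v) (hI : IPt a b u I r s) (hI0p : 0 < I)
    (hI0 : (1 : ℝ) / 20 < I) (hI1 : I ≤ 1 / 7) (hr : 0 < r) (hs : 0 < s) (hw : I * r < 1 / 5)
    (hkink : s * (1 - I) ≤ 1 - 2 * I) (hcap : I * (2 + s) < 19 / 50) (h1 : (1 / 2 : ℝ) < s) (h111 : (3 / 4 : ℝ) < s) (h159 : (1 / 10 : ℝ) < I) (h207 : r ≤ (1 / 50 : ℝ)) (h208 : (1 / 8 : ℝ) < I) (h262 : (21 / 160 : ℝ) < I) (h294 : I ≤ (43 / 320 : ℝ)) (h295 : (66 : ℝ) < ((500 : ℝ) * (1 - a * v))) (h298 : (82 : ℝ) < ((500 : ℝ) * (1 - a * v))) (h301 : (102 : ℝ) < ((500 : ℝ) * (1 - a * v))) (h304 : (128 : ℝ) < ((500 : ℝ) * (1 - a * v))) (h307 : (160 : ℝ) < ((500 : ℝ) * (1 - a * v))) (h310 : (200 : ℝ) < ((500 : ℝ) * (1 - a * v))) (h313 : (240 : ℝ) < ((500 : ℝ) * (1 - a * v))) (h316 : (250 : ℝ) < ((500 : ℝ) * (1 - a * v))) :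
    Closed.Strip.ChartSigns (b - a) (a + b) u v t := by
  rcases le_or_gt I (17 / 128 : ℝ) with h320 | h320
  · 
    exact izAt67 hb hF hH hB hside hE hI hI0p (by linarith) (by linarith) (by linarith) (by linarith) (by linarith) (by norm_num; first | linarith | exact kink_le hkink hI1 (by linarith) | exact cap_le hcap (by linarith) (by linarith) | exact kink_lt hkink hI1 (by linarith) | exact w_le hw (by linarith) (by linarith)) (by linarith)
  · 
    rcases le_or_gt r (1 / 1600 : ℝ) with h322 | h322
    · 
      exact izAt233 hb hF hH hB hside hE hI hI0p (by linarith) (by linarith) (by linarith) (by linarith) (by linarith) (by norm_num; first | linarith | exact kink_le hkink hI1 (by linarith) | exact cap_le hcap (by linarith) (by linarith) | exact kink_lt hkink hI1 (by linarith) | exact w_le hw (by linarith) (by linarith)) (by linarith)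
    · 
      rcases le_or_gt r (3 / 1600 : ℝ) with h324 | h324
      · 
        exact izAt234 hb hF hH hB hside hE hI hI0p (by linarith) (by linarith) (by linarith) (by linarith) (by linarith) (by norm_num; first | linarith | exact kink_le hkink hI1 (by linarith) | exact cap_le hcap (by linarith) (by linarith) | exact kink_lt hkink hI1 (by linarith) | exact w_le hw (by linarith) (by linarith)) (by linarith)
      · 
        rcases le_or_gt r (1 / 160 : ℝ) with h326 | h326
        · 
          exact izAt235 hb hF hH hB hside hE hI hI0p (by linarith) (by linarith) (by linarith) (by linarith) (by linarith) (by norm_num; first | linarith | exact kink_le hkink hI1 (by linarith) | exact cap_le hcap (by linarith) (by linarith) | exact kink_lt hkink hI1 (by linarith) | exact w_le hw (by linarith) (by linarith)) (by linarith)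
        · 
          exact izAt236 hb hF hH hB hside hE hI hI0p (by linarith) (by linarith) (by linarith) (by linarith) (by linarith) (by norm_num; first | linarith | exact kink_le hkink hI1 (by linarith) | exact cap_le hcap (by linarith) (by linarith) | exact kink_lt hkink hI1 (by linarith) | exact w_le hw (by linarith) (by linarith)) (by linarith)

/-- The signs in a part of the zone below the kink (53). -/
theorem iz7Low_53 {n : ℕ} {a b u v t H I r s : ℝ} (hb : Closed.All.ChartBox n (b - a) (a + b))
    (hF : Closed.All.ChartFacts (b - a) (a + b) u v t)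
    (hH : Closed.chH (b - a) (a + b) u v t = H) (hB : EndBands7 a b u v H)
    (hside : DLow a b) (hE : ExitLine a b u v) (hI : IPt a b u I r s) (hI0p : 0 < I)
    (hI0 : (1 : ℝ) / 20 < I) (hI1 : I ≤ 1 / 7) (hr : 0 < r) (hs : 0 < s) (hw : I * r < 1 / 5)
    (hkink : s * (1 - I) ≤ 1 - 2 * I) (hcap : I * (2 + s) < 19 / 50) (h1 : (1 / 2 : ℝ) < s) (h111 : (3 / 4 : ℝ) < s) (h159 : (1 / 10 : ℝ) < I) (h207 : r ≤ (1 / 50 : ℝ)) (h208 : (1 / 8 : ℝ) < I) (h262 : (21 / 160 : ℝ) < I) (h294 : (43 / 320 : ℝ) < I) (h329 : I ≤ (11 / 80 : ℝ)) :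
    Closed.Strip.ChartSigns (b - a) (a + b) u v t := by
  rcases le_or_gt r (1 / 160 : ℝ) with h331 | h331
  · 
    rcases le_or_gt ((500 : ℝ) * (1 - a * v)) (194 : ℝ) with h332 | h332
    · 
      exact izAt69 hb hF hH hB hside hE hI hI0p (by linarith) (by linarith) (by linarith) (by linarith) (by linarith) (by norm_num; first | linarith | exact kink_le hkink hI1 (by linarith) | exact cap_le hcap (by linarith) (by linarith) | exact kink_lt hkink hI1 (by linarith) | exact w_le hw (by linarith) (by linarith)) (by linarith)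
    · 
      rcases le_or_gt ((500 : ℝ) * (1 - a * v)) (243 : ℝ) with h334 | h334
      · 
        exact izAt70 hb hF hH hB hside hE hI hI0p (by linarith) (by linarith) (by linarith) (by linarith) (by linarith) (by norm_num; first | linarith | exact kink_le hkink hI1 (by linarith) | exact cap_le hcap (by linarith) (by linarith) | exact kink_lt hkink hI1 (by linarith) | exact w_le hw (by linarith) (by linarith)) (by linarith) (by linarith)
      · 
        rcases le_or_gt r (3 / 1600 : ℝ) with h336 | h336
        · 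
          exact izAt71 hb hF hH hB hside hE hI hI0p (by linarith) (by linarith) (by linarith) (by linarith) (by linarith) (by norm_num; first | linarith | exact kink_le hkink hI1 (by linarith) | exact cap_le hcap (by linarith) (by linarith) | exact kink_lt hkink hI1 (by linarith) | exact w_le hw (by linarith) (by linarith)) (by linarith)
        · 
          exact izAt72 hb hF hH hB hside hE hI hI0p (by linarith) (by linarith) (by linarith) (by linarith) (by linarith) (by norm_num; first | linarith | exact kink_le hkink hI1 (by linarith) | exact cap_le hcap (by linarith) (by linarith) | exact kink_lt hkink hI1 (by linarith) | exact w_le hw (by linarith) (by linarith)) (by linarith)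
  · 
    exact izAt243 hb hF hH hB hside hE hI hI0p (by linarith) (by linarith) (by linarith) (by linarith) (by linarith) (by norm_num; first | linarith | exact kink_le hkink hI1 (by linarith) | exact cap_le hcap (by linarith) (by linarith) | exact kink_lt hkink hI1 (by linarith) | exact w_le hw (by linarith) (by linarith))

/-- The signs in a part of the zone below the kink (54). -/
theorem iz7Low_54 {n : ℕ} {a b u v t H I r s : ℝ} (hb : Closed.All.ChartBox n (b - a) (a + b))
    (hF : Closed.All.ChartFacts (b - a) (a + b) u v t)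
    (hH : Closed.chH (b - a) (a + b) u v t = H) (hB : EndBands7 a b u v H)
    (hside : DLow a b) (hE : ExitLine a b u v) (hI : IPt a b u I r s) (hI0p : 0 < I)
    (hI0 : (1 : ℝ) / 20 < I) (hI1 : I ≤ 1 / 7) (hr : 0 < r) (hs : 0 < s) (hw : I * r < 1 / 5)
    (hkink : s * (1 - I) ≤ 1 - 2 * I) (hcap : I * (2 + s) < 19 / 50) (h1 : (1 / 2 : ℝ) < s) (h111 : (3 / 4 : ℝ) < s) (h159 : (1 / 10 : ℝ) < I) (h207 : r ≤ (1 / 50 : ℝ)) (h208 : (1 / 8 : ℝ) < I) (h262 : (21 / 160 : ℝ) < I) (h294 : (43 / 320 : ℝ) < I) (h329 : (11 / 80 : ℝ) < I) :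
    Closed.Strip.ChartSigns (b - a) (a + b) u v t := by
  rcases le_or_gt ((500 : ℝ) * (1 - a * v)) (109 : ℝ) with h341 | h341
  · 
    exact izAt74 hb hF hH hB hside hE hI hI0p (by linarith) (by linarith) (by linarith) (by linarith) (by linarith) (by norm_num; first | linarith | exact kink_le hkink hI1 (by linarith) | exact cap_le hcap (by linarith) (by linarith) | exact kink_lt hkink hI1 (by linarith) | exact w_le hw (by linarith) (by linarith)) (by linarith)
  · 
    rcases le_or_gt ((500 : ℝ) * (1 - a * v)) (218 : ℝ) with h343 | h343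
    · 
      exact izAt75 hb hF hH hB hside hE hI hI0p (by linarith) (by linarith) (by linarith) (by linarith) (by linarith) (by norm_num; first | linarith | exact kink_le hkink hI1 (by linarith) | exact cap_le hcap (by linarith) (by linarith) | exact kink_lt hkink hI1 (by linarith) | exact w_le hw (by linarith) (by linarith)) (by linarith) (by linarith)
    · 
      rcases le_or_gt r (3 / 1600 : ℝ) with h345 | h345
      · 
        exact izAt76 hb hF hH hB hside hE hI hI0p (by linarith) (by linarith) (by linarith) (by linarith) (by linarith) (by norm_num; first | linarith | exact kink_le hkink hI1 (by linarith) | exact cap_le hcap (by linarith) (by linarith) | exact kink_lt hkink hI1 (by linarith) | exact w_le hw (by linarith) (by linarith)) (by linarith)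
      · 
        rcases le_or_gt r (1 / 160 : ℝ) with h347 | h347
        · 
          exact izAt77 hb hF hH hB hside hE hI hI0p (by linarith) (by linarith) (by linarith) (by linarith) (by linarith) (by norm_num; first | linarith | exact kink_le hkink hI1 (by linarith) | exact cap_le hcap (by linarith) (by linarith) | exact kink_lt hkink hI1 (by linarith) | exact w_le hw (by linarith) (by linarith)) (by linarith)
        · 
          exact izAt78 hb hF hH hB hside hE hI hI0p (by linarith) (by linarith) (by linarith) (by linarith) (by linarith) (by norm_num; first | linarith | exact kink_le hkink hI1 (by linarith) | exact cap_le hcap (by linarith) (by linarith) | exact kink_lt hkink hI1 (by linarith) | exact w_le hw (by linarith) (by linarith)) (by linarith)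

/-- The signs in a part of the zone below the kink (55). -/
theorem iz7Low_55 {n : ℕ} {a b u v t H I r s : ℝ} (hb : Closed.All.ChartBox n (b - a) (a + b))
    (hF : Closed.All.ChartFacts (b - a) (a + b) u v t)
    (hH : Closed.chH (b - a) (a + b) u v t = H) (hB : EndBands7 a b u v H)
    (hside : DLow a b) (hE : ExitLine a b u v) (hI : IPt a b u I r s) (hI0p : 0 < I)
    (hI0 : (1 : ℝ) / 20 < I) (hI1 : I ≤ 1 / 7) (hr : 0 < r) (hs : 0 < s) (hw : I * r < 1 / 5)
    (hkink : s * (1 - I) ≤ 1 - 2 * I) (hcap : I * (2 + s) < 19 / 50) (h1 : (1 / 2 : ℝ) < s) (h111 : (3 / 4 : ℝ) < s) (h159 : (1 / 10 : ℝ) < I) (h207 : (1 / 50 : ℝ) < r) (h350 : r ≤ (3 / 20 : ℝ)) :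
    Closed.Strip.ChartSigns (b - a) (a + b) u v t := by
  rcases le_or_gt I (1 / 8 : ℝ) with h352 | h352
  · 
    exact izAt238 hb hF hH hB hside hE hI hI0p (by linarith) (by linarith) (by linarith) (by linarith) (by linarith) (by norm_num; first | linarith | exact kink_le hkink hI1 (by linarith) | exact cap_le hcap (by linarith) (by linarith) | exact kink_lt hkink hI1 (by linarith) | exact w_le hw (by linarith) (by linarith))
  · 
    exact izAt82 hb hF hH hB hside hE hI hI0p (by linarith) (by linarith) (by linarith) (by linarith) (by linarith) (by norm_num; first | linarith | exact kink_le hkink hI1 (by linarith) | exact cap_le hcap (by linarith) (by linarith) | exact kink_lt hkink hI1 (by linarith) | exact w_le hw (by linarith) (by linarith))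

/-- The signs in a part of the zone below the kink (56). -/
theorem iz7Low_56 {n : ℕ} {a b u v t H I r s : ℝ} (hb : Closed.All.ChartBox n (b - a) (a + b))
    (hF : Closed.All.ChartFacts (b - a) (a + b) u v t)
    (hH : Closed.chH (b - a) (a + b) u v t = H) (hB : EndBands7 a b u v H)
    (hside : DLow a b) (hE : ExitLine a b u v) (hI : IPt a b u I r s) (hI0p : 0 < I)
    (hI0 : (1 : ℝ) / 20 < I) (hI1 : I ≤ 1 / 7) (hr : 0 < r) (hs : 0 < s) (hw : I * r < 1 / 5)
    (hkink : s * (1 - I) ≤ 1 - 2 * I) (hcap : I * (2 + s) < 19 / 50) (h1 : (1 / 2 : ℝ) < s) (h111 : (3 / 4 : ℝ) < s) (h159 : (1 / 10 : ℝ) < I) (h207 : (1 / 50 : ℝ) < r) (h350 : (3 / 20 : ℝ) < r) :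
    Closed.Strip.ChartSigns (b - a) (a + b) u v t := by
  rcases le_or_gt r (1 : ℝ) with h356 | h356
  · 
    rcases le_or_gt I (1 / 8 : ℝ) with h357 | h357
    · 
      exact izAt239 hb hF hH hB hside hE hI hI0p (by linarith) (by linarith) (by linarith) (by linarith) (by linarith) (by norm_num; first | linarith | exact kink_le hkink hI1 (by linarith) | exact cap_le hcap (by linarith) (by linarith) | exact kink_lt hkink hI1 (by linarith) | exact w_le hw (by linarith) (by linarith))
    · 
      rcases le_or_gt r (2 / 5 : ℝ) with h359 | h359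
      · 
        exact izAt244 hb hF hH hB hside hE hI hI0p (by linarith) (by linarith) (by linarith) (by linarith) (by linarith) (by norm_num; first | linarith | exact kink_le hkink hI1 (by linarith) | exact cap_le hcap (by linarith) (by linarith) | exact kink_lt hkink hI1 (by linarith) | exact w_le hw (by linarith) (by linarith))
      · 
        exact izAt245 hb hF hH hB hside hE hI hI0p (by linarith) (by linarith) (by linarith) (by linarith) (by linarith) (by norm_num; first | linarith | exact kink_le hkink hI1 (by linarith) | exact cap_le hcap (by linarith) (by linarith) | exact kink_lt hkink hI1 (by linarith) | exact w_le hw (by linarith) (by linarith))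
  · 
    exact izAt91 hb hF hH hB hside hE hI hI0p (by linarith) (by linarith) (by linarith) (by norm_num; first | linarith | exact kink_le hkink hI1 (by linarith) | exact cap_le hcap (by linarith) (by linarith) | exact kink_lt hkink hI1 (by linarith) | exact w_le hw (by linarith) (by linarith)) (by linarith) (by norm_num; first | linarith | exact kink_le hkink hI1 (by linarith) | exact cap_le hcap (by linarith) (by linarith) | exact kink_lt hkink hI1 (by linarith) | exact w_le hw (by linarith) (by linarith))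

/-- The signs below the kink. -/
theorem iz7Low {n : ℕ} {a b u v t H I r s : ℝ} (hb : Closed.All.ChartBox n (b - a) (a + b))
    (hF : Closed.All.ChartFacts (b - a) (a + b) u v t)
    (hH : Closed.chH (b - a) (a + b) u v t = H) (hB : EndBands7 a b u v H)
    (hside : DLow a b) (hE : ExitLine a b u v) (hI : IPt a b u I r s) (hI0p : 0 < I)
    (hI0 : (1 : ℝ) / 20 < I) (hI1 : I ≤ 1 / 7) (hr : 0 < r) (hs : 0 < s) (hw : I * r < 1 / 5)
    (hkink : s * (1 - I) ≤ 1 - 2 * I) (hcap : I * (2 + s) < 19 / 50) :
    Closed.Strip.ChartSigns (b - a) (a + b) u v t := by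
  rcases le_or_gt s (1 / 2 : ℝ) with h1 | h1
  · 
    rcases le_or_gt I (1 / 10 : ℝ) with h2 | h2
    · 
      rcases le_or_gt r (1 / 50 : ℝ) with h3 | h3
      · 
        rcases le_or_gt s (3 / 20 : ℝ) with h4 | h4
        · 
          exact iz7Low_0 hb hF hH hB hside hE hI hI0p hI0 hI1 hr hs hw hkink hcap h1 h2 h3 h4
        · 
          exact iz7Low_1 hb hF hH hB hside hE hI hI0p hI0 hI1 hr hs hw hkink hcap h1 h2 h3 h4
      · 
        exact iz7Low_2 hb hF hH hB hside hE hI hI0p hI0 hI1 hr hs hw hkink hcap h1 h2 h3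
    · 
      rcases le_or_gt r (1 / 50 : ℝ) with h29 | h29
      · 
        rcases le_or_gt s (3 / 20 : ℝ) with h30 | h30
        · 
          rcases le_or_gt I (1 / 8 : ℝ) with h31 | h31
          · 
            exact iz7Low_3 hb hF hH hB hside hE hI hI0p hI0 hI1 hr hs hw hkink hcap h1 h2 h29 h30 h31
          · 
            rcases le_or_gt s (3 / 40 : ℝ) with h36 | h36
            · 
              exact iz7Low_4 hb hF hH hB hside hE hI hI0p hI0 hI1 hr hs hw hkink hcap h1 h2 h29 h30 h31 h36
            · 
              exact iz7Low_5 hb hF hH hB hside hE hI hI0p hI0 hI1 hr hs hw hkink hcap h1 h2 h29 h30 h31 h36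
        · 
          rcases le_or_gt s (13 / 40 : ℝ) with h49 | h49
          · 
            exact iz7Low_6 hb hF hH hB hside hE hI hI0p hI0 hI1 hr hs hw hkink hcap h1 h2 h29 h30 h49
          · 
            rcases le_or_gt s (33 / 80 : ℝ) with h60 | h60
            · 
              exact iz7Low_7 hb hF hH hB hside hE hI hI0p hI0 hI1 hr hs hw hkink hcap h1 h2 h29 h30 h49 h60
            · 
              exact iz7Low_8 hb hF hH hB hside hE hI hI0p hI0 hI1 hr hs hw hkink hcap h1 h2 h29 h30 h49 h60
      · 
        rcases le_or_gt r (3 / 20 : ℝ) with h73 | h73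
        · 
          rcases le_or_gt s (3 / 20 : ℝ) with h74 | h74
          · 
            exact iz7Low_9 hb hF hH hB hside hE hI hI0p hI0 hI1 hr hs hw hkink hcap h1 h2 h29 h73 h74
          · 
            rcases le_or_gt s (19 / 80 : ℝ) with h83 | h83
            · 
              exact iz7Low_10 hb hF hH hB hside hE hI hI0p hI0 hI1 hr hs hw hkink hcap h1 h2 h29 h73 h74 h83
            · 
              rcases le_or_gt s (13 / 40 : ℝ) with h88 | h88
              · 
                exact iz7Low_11 hb hF hH hB hside hE hI hI0p hI0 hI1 hr hs hw hkink hcap h1 h2 h29 h73 h74 h83 h88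
              · 
                exact iz7Low_12 hb hF hH hB hside hE hI hI0p hI0 hI1 hr hs hw hkink hcap h1 h2 h29 h73 h74 h83 h88
        · 
          exact iz7Low_13 hb hF hH hB hside hE hI hI0p hI0 hI1 hr hs hw hkink hcap h1 h2 h29 h73
  · 
    rcases le_or_gt s (3 / 4 : ℝ) with h111 | h111
    · 
      rcases le_or_gt I (1 / 10 : ℝ) with h112 | h112
      · 
        exact iz7Low_14 hb hF hH hB hside hE hI hI0p hI0 hI1 hr hs hw hkink hcap h1 h111 h112
      · 
        rcases le_or_gt r (1 / 50 : ℝ) with h123 | h123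
        · 
          rcases le_or_gt I (1 / 8 : ℝ) with h124 | h124
          · 
            exact iz7Low_15 hb hF hH hB hside hE hI hI0p hI0 hI1 hr hs hw hkink hcap h1 h111 h112 h123 h124
          · 
            rcases le_or_gt ((500 : ℝ) * (1 - a * v)) (54 : ℝ) with h131 | h131
            · 
              exact iz7Low_16 hb hF hH hB hside hE hI hI0p hI0 hI1 hr hs hw hkink hcap h1 h111 h112 h123 h124 h131
            · 
              exact iz7Low_17 hb hF hH hB hside hE hI hI0p hI0 hI1 hr hs hw hkink hcap h1 h111 h112 h123 h124 h131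
        · 
          rcases le_or_gt r (3 / 20 : ℝ) with h144 | h144
          · 
            exact iz7Low_18 hb hF hH hB hside hE hI hI0p hI0 hI1 hr hs hw hkink hcap h1 h111 h112 h123 h144
          · 
            exact iz7Low_19 hb hF hH hB hside hE hI hI0p hI0 hI1 hr hs hw hkink hcap h1 h111 h112 h123 h144
    · 
      rcases le_or_gt I (1 / 10 : ℝ) with h159 | h159
      · 
        rcases le_or_gt r (1 / 50 : ℝ) with h160 | h160
        · 
          rcases le_or_gt I (3 / 40 : ℝ) with h161 | h161
          · 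
            rcases le_or_gt r (1 / 160 : ℝ) with h162 | h162
            · 
              exact iz7Low_20 hb hF hH hB hside hE hI hI0p hI0 hI1 hr hs hw hkink hcap h1 h111 h159 h160 h161 h162
            · 
              exact iz7Low_21 hb hF hH hB hside hE hI hI0p hI0 hI1 hr hs hw hkink hcap h1 h111 h159 h160 h161 h162
          · 
            rcases le_or_gt ((500 : ℝ) * (1 - a * v)) (62 : ℝ) with h175 | h175
            · 
              exact iz7Low_22 hb hF hH hB hside hE hI hI0p hI0 hI1 hr hs hw hkink hcap h1 h111 h159 h160 h161 h175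
            · 
              rcases le_or_gt r (1 / 160 : ℝ) with h178 | h178
              · 
                exact iz7Low_23 hb hF hH hB hside hE hI hI0p hI0 hI1 hr hs hw hkink hcap h1 h111 h159 h160 h161 h175 h178
              · 
                exact iz7Low_24 hb hF hH hB hside hE hI hI0p hI0 hI1 hr hs hw hkink hcap h1 h111 h159 h160 h161 h175 h178
        · 
          rcases le_or_gt r (1 : ℝ) with h191 | h191
          · 
            rcases le_or_gt I (3 / 40 : ℝ) with h192 | h192
            · 
              exact iz7Low_25 hb hF hH hB hside hE hI hI0p hI0 hI1 hr hs hw hkink hcap h1 h111 h159 h160 h191 h192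
            · 
              exact iz7Low_26 hb hF hH hB hside hE hI hI0p hI0 hI1 hr hs hw hkink hcap h1 h111 h159 h160 h191 h192
          · 
            exact iz7Low_27 hb hF hH hB hside hE hI hI0p hI0 hI1 hr hs hw hkink hcap h1 h111 h159 h160 h191
      · 
        rcases le_or_gt r (1 / 50 : ℝ) with h207 | h207
        · 
          rcases le_or_gt I (1 / 8 : ℝ) with h208 | h208
          · 
            rcases le_or_gt ((500 : ℝ) * (1 - a * v)) (54 : ℝ) with h209 | h209
            · 
              rcases le_or_gt r (1 / 160 : ℝ) with h210 | h210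
              · 
                exact iz7Low_28 hb hF hH hB hside hE hI hI0p hI0 hI1 hr hs hw hkink hcap h1 h111 h159 h207 h208 h209 h210
              · 
                rcases le_or_gt r (3 / 400 : ℝ) with h221 | h221
                · 
                  exact iz7Low_29 hb hF hH hB hside hE hI hI0p hI0 hI1 hr hs hw hkink hcap h1 h111 h159 h207 h208 h209 h210 h221
                · 
                  exact iz7Low_30 hb hF hH hB hside hE hI hI0p hI0 hI1 hr hs hw hkink hcap h1 h111 h159 h207 h208 h209 h210 h221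
            · 
              rcases le_or_gt ((500 : ℝ) * (1 - a * v)) (68 : ℝ) with h234 | h234
              · 
                exact iz7Low_31 hb hF hH hB hside hE hI hI0p hI0 hI1 hr hs hw hkink hcap h1 h111 h159 h207 h208 h209 h234
              · 
                rcases le_or_gt ((500 : ℝ) * (1 - a * v)) (150 : ℝ) with h239 | h239
                · 
                  exact iz7Low_32 hb hF hH hB hside hE hI hI0p hI0 hI1 hr hs hw hkink hcap h1 h111 h159 h207 h208 h209 h234 h239
                · 
                  rcases le_or_gt ((500 : ℝ) * (1 - a * v)) (170 : ℝ) with h244 | h244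
                  · 
                    exact iz7Low_33 hb hF hH hB hside hE hI hI0p hI0 hI1 hr hs hw hkink hcap h1 h111 h159 h207 h208 h209 h234 h239 h244
                  · 
                    rcases le_or_gt r (3 / 1600 : ℝ) with h247 | h247
                    · 
                      exact iz7Low_34 hb hF hH hB hside hE hI hI0p hI0 hI1 hr hs hw hkink hcap h1 h111 h159 h207 h208 h209 h234 h239 h244 h247
                    · 
                      exact iz7Low_35 hb hF hH hB hside hE hI hI0p hI0 hI1 hr hs hw hkink hcap h1 h111 h159 h207 h208 h209 h234 h239 h244 h247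
          · 
            rcases le_or_gt I (21 / 160 : ℝ) with h262 | h262
            · 
              rcases le_or_gt ((500 : ℝ) * (1 - a * v)) (66 : ℝ) with h263 | h263
              · 
                exact iz7Low_36 hb hF hH hB hside hE hI hI0p hI0 hI1 hr hs hw hkink hcap h1 h111 h159 h207 h208 h262 h263
              · 
                rcases le_or_gt ((500 : ℝ) * (1 - a * v)) (82 : ℝ) with h266 | h266
                · 
                  exact iz7Low_37 hb hF hH hB hside hE hI hI0p hI0 hI1 hr hs hw hkink hcap h1 h111 h159 h207 h208 h262 h263 h266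
                · 
                  rcases le_or_gt ((500 : ℝ) * (1 - a * v)) (102 : ℝ) with h269 | h269
                  · 
                    exact iz7Low_38 hb hF hH hB hside hE hI hI0p hI0 hI1 hr hs hw hkink hcap h1 h111 h159 h207 h208 h262 h263 h266 h269
                  · 
                    rcases le_or_gt ((500 : ℝ) * (1 - a * v)) (128 : ℝ) with h272 | h272
                    · 
                      exact iz7Low_39 hb hF hH hB hside hE hI hI0p hI0 hI1 hr hs hw hkink hcap h1 h111 h159 h207 h208 h262 h263 h266 h269 h272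
                    · 
                      rcases le_or_gt ((500 : ℝ) * (1 - a * v)) (160 : ℝ) with h275 | h275
                      · 
                        exact iz7Low_40 hb hF hH hB hside hE hI hI0p hI0 hI1 hr hs hw hkink hcap h1 h111 h159 h207 h208 h262 h263 h266 h269 h272 h275
                      · 
                        rcases le_or_gt ((500 : ℝ) * (1 - a * v)) (200 : ℝ) with h278 | h278
                        · 
                          exact iz7Low_41 hb hF hH hB hside hE hI hI0p hI0 hI1 hr hs hw hkink hcap h1 h111 h159 h207 h208 h262 h263 h266 h269 h272 h275 h278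
                        · 
                          rcases le_or_gt ((500 : ℝ) * (1 - a * v)) (240 : ℝ) with h281 | h281
                          · 
                            exact iz7Low_42 hb hF hH hB hside hE hI hI0p hI0 hI1 hr hs hw hkink hcap h1 h111 h159 h207 h208 h262 h263 h266 h269 h272 h275 h278 h281
                          · 
                            exact iz7Low_43 hb hF hH hB hside hE hI hI0p hI0 hI1 hr hs hw hkink hcap h1 h111 h159 h207 h208 h262 h263 h266 h269 h272 h275 h278 h281
            · 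
              rcases le_or_gt I (43 / 320 : ℝ) with h294 | h294
              · 
                rcases le_or_gt ((500 : ℝ) * (1 - a * v)) (66 : ℝ) with h295 | h295
                · 
                  exact iz7Low_44 hb hF hH hB hside hE hI hI0p hI0 hI1 hr hs hw hkink hcap h1 h111 h159 h207 h208 h262 h294 h295
                · 
                  rcases le_or_gt ((500 : ℝ) * (1 - a * v)) (82 : ℝ) with h298 | h298
                  · 
                    exact iz7Low_45 hb hF hH hB hside hE hI hI0p hI0 hI1 hr hs hw hkink hcap h1 h111 h159 h207 h208 h262 h294 h295 h298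
                  · 
                    rcases le_or_gt ((500 : ℝ) * (1 - a * v)) (102 : ℝ) with h301 | h301
                    · 
                      exact iz7Low_46 hb hF hH hB hside hE hI hI0p hI0 hI1 hr hs hw hkink hcap h1 h111 h159 h207 h208 h262 h294 h295 h298 h301
                    · 
                      rcases le_or_gt ((500 : ℝ) * (1 - a * v)) (128 : ℝ) with h304 | h304
                      · 
                        exact iz7Low_47 hb hF hH hB hside hE hI hI0p hI0 hI1 hr hs hw hkink hcap h1 h111 h159 h207 h208 h262 h294 h295 h298 h301 h304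
                      · 
                        rcases le_or_gt ((500 : ℝ) * (1 - a * v)) (160 : ℝ) with h307 | h307
                        · 
                          exact iz7Low_48 hb hF hH hB hside hE hI hI0p hI0 hI1 hr hs hw hkink hcap h1 h111 h159 h207 h208 h262 h294 h295 h298 h301 h304 h307
                        · 
                          rcases le_or_gt ((500 : ℝ) * (1 - a * v)) (200 : ℝ) with h310 | h310
                          · 
                            exact iz7Low_49 hb hF hH hB hside hE hI hI0p hI0 hI1 hr hs hw hkink hcap h1 h111 h159 h207 h208 h262 h294 h295 h298 h301 h304 h307 h310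
                          · 
                            rcases le_or_gt ((500 : ℝ) * (1 - a * v)) (240 : ℝ) with h313 | h313
                            · 
                              exact iz7Low_50 hb hF hH hB hside hE hI hI0p hI0 hI1 hr hs hw hkink hcap h1 h111 h159 h207 h208 h262 h294 h295 h298 h301 h304 h307 h310 h313
                            · 
                              rcases le_or_gt ((500 : ℝ) * (1 - a * v)) (250 : ℝ) with h316 | h316
                              · 
                                exact iz7Low_51 hb hF hH hB hside hE hI hI0p hI0 hI1 hr hs hw hkink hcap h1 h111 h159 h207 h208 h262 h294 h295 h298 h301 h304 h307 h310 h313 h316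
                              · 
                                exact iz7Low_52 hb hF hH hB hside hE hI hI0p hI0 hI1 hr hs hw hkink hcap h1 h111 h159 h207 h208 h262 h294 h295 h298 h301 h304 h307 h310 h313 h316
              · 
                rcases le_or_gt I (11 / 80 : ℝ) with h329 | h329
                · 
                  exact iz7Low_53 hb hF hH hB hside hE hI hI0p hI0 hI1 hr hs hw hkink hcap h1 h111 h159 h207 h208 h262 h294 h329
                · 
                  exact iz7Low_54 hb hF hH hB hside hE hI hI0p hI0 hI1 hr hs hw hkink hcap h1 h111 h159 h207 h208 h262 h294 h329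
        · 
          rcases le_or_gt r (3 / 20 : ℝ) with h350 | h350
          · 
            exact iz7Low_55 hb hF hH hB hside hE hI hI0p hI0 hI1 hr hs hw hkink hcap h1 h111 h159 h207 h350
          · 
            exact iz7Low_56 hb hF hH hB hside hE hI hI0p hI0 hI1 hr hs hw hkink hcap h1 h111 h159 h207 h350

end Vale.Agent.P100.Calib.StripEndD
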