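import Vale.Agent.P100.Calib.SlabStripEndIZ7Strict
import Vale.Agent.P100.Calib.SlabStripEndBigSgn

/-!
# A piece of the `I` and `Z` charts for `N` between seven and twenty: 1
-/

namespace Vale.Agent.P100.Calib.StripEndD

open Pack hiding ev_add ev_mul
open Pack.Ex StripMid StripEnd

local instance endIZ7P1Add : Add Ex := ⟨Ex.add⟩
local instance endIZ7P1Sub : Sub Ex := ⟨Ex.sub⟩
local instance endIZ7P1Mul : Mul Ex := ⟨Ex.mul⟩

/-- The piece `Iz1`. -/
def pcIz1 : Piece where
  I := (var 0)
  d := (var 0) * (var 2)
  w := ((var 0) * (var 1))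
  o := (((num 249) + (num (-248) * (var 1))) + ((num 252) + (num (-239) * (var 1))) * (var 3))
  den := ((num 500))
  vn := num 2 * (((num 249) + (num (-248) * (var 1))) + ((num 252) + (num (-239) * (var 1))) * (var 3))
  vs := (num 1 - num 2 * (var 0) - (var 0) * (var 2))
  mu := ⟨(93, 50), (106, 50)⟩
  pn := fun b => cond b
    (num 50 * (((num 500)) - (((num 249) + (num (-248) * (var 1))) + ((num 252) + (num (-239) * (var 1))) * (var 3))) + num (-106) * ((((num 249) + (num (-248) * (var 1))) + ((num 252) + (num (-239) * (var 1))) * (var 3)) * ((var 0) * (var 1))))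
    (num 50 * (((num 500)) - (((num 249) + (num (-248) * (var 1))) + ((num 252) + (num (-239) * (var 1))) * (var 3))) + num (-93) * ((((num 249) + (num (-248) * (var 1))) + ((num 252) + (num (-239) * (var 1))) * (var 3)) * ((var 0) * (var 1))))
  pd := num 50
  en := fun b => cond b
    (((num 27632) + (num 128584 * (var 0))) * (num 4 * (var 0) * (((num 500)) - (((num 249) + (num (-248) * (var 1))) + ((num 252) + (num (-239) * (var 1))) * (var 3))) * ((var 2) + num 3 * (var 0)) + (var 1) * ((num 500)) * (num 1 + num 20 * ((var 0) * (var 2)))))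
    (((num 21238) + (num 128584 * (var 0))) * (num 4 * (var 0) * (((num 500)) - (((num 249) + (num (-248) * (var 1))) + ((num 252) + (num (-239) * (var 1))) * (var 3))) * ((var 2) + num 3 * (var 0)) + (var 1) * ((num 500)) * (num 1 + num 20 * ((var 0) * (var 2)))))
  kk := fun b => cond b
    (((num (-161)) + (num 27154 * (var 2))) * (((var 0) * (var 1)) * (num 4 * ((num 500)) * ((var 2) + num 3 * (var 0)))))
    (((num (-1453)) + (num 27154 * (var 2))) * (((var 0) * (var 1)) * (num 4 * ((num 500)) * ((var 2) + num 3 * (var 0)))))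
  f0 := num 8000 * ((num 500)) * ((var 2) + num 3 * (var 0))
  wn := fun b => cond b
    (((num (-8853) * ((var 0) * (((num 500)) - (((num 249) + (num (-248) * (var 1))) + ((num 252) + (num (-239) * (var 1))) * (var 3))))) + (num 6485 * (((var 0) * (var 1)) * (((num 249) + (num (-248) * (var 1))) + ((num 252) + (num (-239) * (var 1))) * (var 3)))) + (num (-367) * (((var 0) * (var 1)) * ((num 500)))) + (num 621 * ((var 0) * (var 2) * (((num 500)) - (((num 249) + (num (-248) * (var 1))) + ((num 252) + (num (-239) * (var 1))) * (var 3)))))))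
    (((num (-9521) * ((var 0) * (((num 500)) - (((num 249) + (num (-248) * (var 1))) + ((num 252) + (num (-239) * (var 1))) * (var 3))))) + (num 6485 * (((var 0) * (var 1)) * (((num 249) + (num (-248) * (var 1))) + ((num 252) + (num (-239) * (var 1))) * (var 3)))) + (num (-1035) * (((var 0) * (var 1)) * ((num 500)))) + (num 621 * ((var 0) * (var 2) * (((num 500)) - (((num 249) + (num (-248) * (var 1))) + ((num 252) + (num (-239) * (var 1))) * (var 3)))))))
  wd := num 1000 * ((num 500))
  tn := fun b => cond b
    (num 9463 * ((var 1) * ((num 500))))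
    (num 8037 * ((var 1) * ((num 500))))
  td := num 8000 * ((var 1) * ((num 500)) + num 2 * (var 2) * (((num 500)) - (((num 249) + (num (-248) * (var 1))) + ((num 252) + (num (-239) * (var 1))) * (var 3))))
  cn := num 0
  cd := num 1
  kn := ((num 500)) * ((((num 500)) - (((num 249) + (num (-248) * (var 1))) + ((num 252) + (num (-239) * (var 1))) * (var 3))) * ((num 1071) + (num 333587 * (var 0)) + (num (-617203) * (var 1)) + (num (-1023) * (var 2)) + (num (-10152) * (var 3)) + (num 461607 * ((var 1) * (var 3))) + (num 4989 * ((var 2) * (var 3))) + (num 35116 * ((var 0) * (var 3)))) + (var 1) * ((num 500)) * ((num 97144) + (num (-989256) * (var 0)) + (num 149662 * (var 1)) + (num 224161 * (var 2)) + (num (-101753) * (var 3)) + (num (-203816) * ((var 2) * (var 3))) + (num 1062791 * ((var 0) * (var 3)))))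
  kd := num 65536 * ((var 0) * ((((num 500)) - (((num 249) + (num (-248) * (var 1))) + ((num 252) + (num (-239) * (var 1))) * (var 3))) + (var 1) * ((num 500)))) * (((num 500)) - (((num 249) + (num (-248) * (var 1))) + ((num 252) + (num (-239) * (var 1))) * (var 3)))
  k2n := ((num 205) + (num 5560 * (var 0)) + (num 1760 * (var 2)))
  k2d := num 4096

/-- Its ranges. -/
def bxIz1 : StripEnd.EBox :=
  ⟨(2, 3, 40), (5, 16, 800), (0, 3, 20), (0, 1, 1)⟩
end Vale.Agent.P100.Calib.StripEndD
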