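import Vale.Agent.P100.Calib.SlabStripEndIZ7Strict
import Vale.Agent.P100.Calib.SlabStripEndBigSgn

/-!
# A piece of the `I` and `Z` charts for `N` between seven and twenty: 10
-/

namespace Vale.Agent.P100.Calib.StripEndD

open Pack hiding ev_add ev_mul
open Pack.Ex StripMid StripEnd

local instance endIZ7P10Add : Add Ex := ⟨Ex.add⟩
local instance endIZ7P10Sub : Sub Ex := ⟨Ex.sub⟩
local instance endIZ7P10Mul : Mul Ex := ⟨Ex.mul⟩

/-- The piece `Iz10`. -/
def pcIz10 : Piece where
  I := (var 0)
  d := (var 0) * (var 2)
  w := ((var 0) * (var 1))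
  o := (((num 239) + (num (-297) * (var 1))) + ((num 261) + (num (-292) * (var 1))) * (var 3))
  den := ((num 500))
  vn := num 2 * (((num 239) + (num (-297) * (var 1))) + ((num 261) + (num (-292) * (var 1))) * (var 3))
  vs := (num 1 - num 2 * (var 0) - (var 0) * (var 2))
  mu := ⟨(93, 50), (118, 50)⟩
  pn := fun b => cond b
    (num 50 * (((num 500)) - (((num 239) + (num (-297) * (var 1))) + ((num 261) + (num (-292) * (var 1))) * (var 3))) + num (-118) * ((((num 239) + (num (-297) * (var 1))) + ((num 261) + (num (-292) * (var 1))) * (var 3)) * ((var 0) * (var 1))))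
    (num 50 * (((num 500)) - (((num 239) + (num (-297) * (var 1))) + ((num 261) + (num (-292) * (var 1))) * (var 3))) + num (-93) * ((((num 239) + (num (-297) * (var 1))) + ((num 261) + (num (-292) * (var 1))) * (var 3)) * ((var 0) * (var 1))))
  pd := num 50
  en := fun b => cond b
    (((num 30194) + (num 85868 * (var 0))) * (num 4 * (var 0) * (((num 500)) - (((num 239) + (num (-297) * (var 1))) + ((num 261) + (num (-292) * (var 1))) * (var 3))) * ((var 2) + num 3 * (var 0)) + (var 1) * ((num 500)) * (num 1 + num 20 * ((var 0) * (var 2)))))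
    (((num 26200) + (num 85868 * (var 0))) * (num 4 * (var 0) * (((num 500)) - (((num 239) + (num (-297) * (var 1))) + ((num 261) + (num (-292) * (var 1))) * (var 3))) * ((var 2) + num 3 * (var 0)) + (var 1) * ((num 500)) * (num 1 + num 20 * ((var 0) * (var 2)))))
  kk := fun b => cond b
    (((num 430) + (num 18598 * (var 2))) * (((var 0) * (var 1)) * (num 4 * ((num 500)) * ((var 2) + num 3 * (var 0)))))
    (((num (-731)) + (num 18598 * (var 2))) * (((var 0) * (var 1)) * (num 4 * ((num 500)) * ((var 2) + num 3 * (var 0)))))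
  f0 := num 8000 * ((num 500)) * ((var 2) + num 3 * (var 0))
  wn := fun b => cond b
    (((num (-9340) * ((var 0) * (((num 500)) - (((num 239) + (num (-297) * (var 1))) + ((num 261) + (num (-292) * (var 1))) * (var 3))))) + (num 11969 * (((var 0) * (var 1)) * (((num 239) + (num (-297) * (var 1))) + ((num 261) + (num (-292) * (var 1))) * (var 3)))) + (num (-4448) * (((var 0) * (var 1)) * ((num 500)))) + (num 790 * ((var 0) * (var 2) * (((num 500)) - (((num 239) + (num (-297) * (var 1))) + ((num 261) + (num (-292) * (var 1))) * (var 3)))))))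
    (((num (-10117) * ((var 0) * (((num 500)) - (((num 239) + (num (-297) * (var 1))) + ((num 261) + (num (-292) * (var 1))) * (var 3))))) + (num 11969 * (((var 0) * (var 1)) * (((num 239) + (num (-297) * (var 1))) + ((num 261) + (num (-292) * (var 1))) * (var 3)))) + (num (-5225) * (((var 0) * (var 1)) * ((num 500)))) + (num 790 * ((var 0) * (var 2) * (((num 500)) - (((num 239) + (num (-297) * (var 1))) + ((num 261) + (num (-292) * (var 1))) * (var 3)))))))
  wd := num 1000 * ((num 500))
  tn := fun b => cond b
    (num 9525 * ((var 1) * ((num 500))))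
    (num 8040 * ((var 1) * ((num 500))))
  td := num 8000 * ((var 1) * ((num 500)) + num 2 * (var 2) * (((num 500)) - (((num 239) + (num (-297) * (var 1))) + ((num 261) + (num (-292) * (var 1))) * (var 3))))
  cn := num 0
  cd := num 1
  kn := ((num 500)) * (((((num 500)) - (((num 239) + (num (-297) * (var 1))) + ((num 261) + (num (-292) * (var 1))) * (var 3))) + num 16 * ((var 1) * ((num 500)))) * ((num (-16166)) + (num 322240 * (var 0)) + (num 577795 * (var 1)) + (num (-15999) * (var 2)) + (num (-14861) * (var 3)) + (num (-588568) * ((var 1) * (var 3))) + (num 45293 * ((var 2) * (var 3))) + (num 272209 * ((var 0) * (var 3)))) + (((num 500)) - (((num 239) + (num (-297) * (var 1))) + ((num 261) + (num (-292) * (var 1))) * (var 3))) * ((num 19944) + (num (-71586) * (var 0)) + (num (-581023) * (var 1)) + (num 7053 * (var 2)) + (num 53319 * (var 3)) + (num (-86787) * ((var 2) * (var 3))) + (num (-531536) * ((var 0) * (var 3)))))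
  kd := num 65536 * ((var 0) * ((((num 500)) - (((num 239) + (num (-297) * (var 1))) + ((num 261) + (num (-292) * (var 1))) * (var 3))) + (var 1) * ((num 500)))) * ((((num 500)) - (((num 239) + (num (-297) * (var 1))) + ((num 261) + (num (-292) * (var 1))) * (var 3))) + num 16 * ((var 1) * ((num 500))))
  k2n := ((var 1) * ((num 500)) + num 2 * (var 2) * (((num 500)) - (((num 239) + (num (-297) * (var 1))) + ((num 261) + (num (-292) * (var 1))) * (var 3)))) * ((num (-3494)) + (num 432396 * (var 0)) + (num 1916481 * (var 1)) + (num 178921 * (var 2)) + (num 5775 * (var 3)) + (num (-3891435) * ((var 1) * (var 3))) + (num (-178921) * ((var 2) * (var 3))) + (num 63890 * ((var 0) * (var 3)))) + (var 1) * ((num 500)) * ((num 4850309) + (num (-55824536) * (var 0)) + (num (-1916481) * (var 1)) + (num (-178921) * (var 2)) + (num (-4785826) * (var 3)) + (num 5981667 * ((var 1) * (var 3))) + (num 486425 * ((var 2) * (var 3))) + (num 54038118 * ((var 0) * (var 3))))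
  k2d := num 65536 * ((var 1) * ((num 500)) + num 2 * (var 2) * (((num 500)) - (((num 239) + (num (-297) * (var 1))) + ((num 261) + (num (-292) * (var 1))) * (var 3))))

/-- Its ranges. -/
def bxIz10 : StripEnd.EBox :=
  ⟨(6, 7, 80), (0, 1, 50), (3, 10, 20), (0, 1, 1)⟩
end Vale.Agent.P100.Calib.StripEndD
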