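import Vale.Agent.P100.Calib.SlabStripEndDCert
import Vale.Agent.P100.Calib.SlabStripEndBigSgn

/-!
# A piece of the `I` and `Z` charts for `N` between seven and twenty: 105
-/

namespace Vale.Agent.P100.Calib.StripEndD

open Pack hiding ev_add ev_mul
open Pack.Ex StripMid StripEnd

local instance endIZ7P105Add : Add Ex := ⟨Ex.add⟩
local instance endIZ7P105Sub : Sub Ex := ⟨Ex.sub⟩
local instance endIZ7P105Mul : Mul Ex := ⟨Ex.mul⟩

/-- The piece `Iz105`. -/
def pcIz105 : Piece where
  I := (var 0)
  d := (var 0) * (var 2)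
  w := ((var 0) * (var 1))
  o := (((num 239) + (num (-538) * (var 1))) + ((num 3) + (num 538 * (var 1))) * (var 3))
  den := ((num 500))
  vn := num 2 * (((num 239) + (num (-538) * (var 1))) + ((num 3) + (num 538 * (var 1))) * (var 3))
  vs := (num 1 - num 2 * (var 0) - (var 0) * (var 2))
  mu := ⟨(120, 50), (137, 50)⟩
  pn := fun b => cond b
    (num 50 * (((num 500)) - (((num 239) + (num (-538) * (var 1))) + ((num 3) + (num 538 * (var 1))) * (var 3))) + num (-137) * ((((num 239) + (num (-538) * (var 1))) + ((num 3) + (num 538 * (var 1))) * (var 3)) * ((var 0) * (var 1))))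
    (num 50 * (((num 500)) - (((num 239) + (num (-538) * (var 1))) + ((num 3) + (num 538 * (var 1))) * (var 3))) + num (-120) * ((((num 239) + (num (-538) * (var 1))) + ((num 3) + (num 538 * (var 1))) * (var 3)) * ((var 0) * (var 1))))
  pd := num 50
  en := fun b => cond b
    (((num 37499) + (num (-7586) * (var 0))) * (num 4 * (var 0) * (((num 500)) - (((num 239) + (num (-538) * (var 1))) + ((num 3) + (num 538 * (var 1))) * (var 3))) * ((var 2) + num 3 * (var 0)) + (var 1) * ((num 500)) * (num 1 + num 20 * ((var 0) * (var 2)))))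
    (((num 37301) + (num (-7586) * (var 0))) * (num 4 * (var 0) * (((num 500)) - (((num 239) + (num (-538) * (var 1))) + ((num 3) + (num 538 * (var 1))) * (var 3))) * ((var 2) + num 3 * (var 0)) + (var 1) * ((num 500)) * (num 1 + num 20 * ((var 0) * (var 2)))))
  kk := fun b => cond b
    (((num 2727) + (num 19360 * (var 2))) * (((var 0) * (var 1)) * (num 4 * ((num 500)) * ((var 2) + num 3 * (var 0)))))
    (((num 1926) + (num 19360 * (var 2))) * (((var 0) * (var 1)) * (num 4 * ((num 500)) * ((var 2) + num 3 * (var 0)))))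
  f0 := num 8000 * ((num 500)) * ((var 2) + num 3 * (var 0))
  wn := fun b => cond b
    (((num (-10982) * ((var 0) * (((num 500)) - (((num 239) + (num (-538) * (var 1))) + ((num 3) + (num 538 * (var 1))) * (var 3))))) + (num 1059471 * (((var 0) * (var 1)) * (((num 239) + (num (-538) * (var 1))) + ((num 3) + (num 538 * (var 1))) * (var 3)))) + (num (-505437) * (((var 0) * (var 1)) * ((num 500)))) + (num 505 * ((var 0) * (var 2) * (((num 500)) - (((num 239) + (num (-538) * (var 1))) + ((num 3) + (num 538 * (var 1))) * (var 3)))))))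
    (((num (-11103) * ((var 0) * (((num 500)) - (((num 239) + (num (-538) * (var 1))) + ((num 3) + (num 538 * (var 1))) * (var 3))))) + (num 1059471 * (((var 0) * (var 1)) * (((num 239) + (num (-538) * (var 1))) + ((num 3) + (num 538 * (var 1))) * (var 3)))) + (num (-505558) * (((var 0) * (var 1)) * ((num 500)))) + (num 505 * ((var 0) * (var 2) * (((num 500)) - (((num 239) + (num (-538) * (var 1))) + ((num 3) + (num 538 * (var 1))) * (var 3)))))))
  wd := num 1000 * ((num 500))
  tn := fun b => cond b
    (num 9332 * ((var 1) * ((num 500))))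
    (num 9059 * ((var 1) * ((num 500))))
  td := num 8000 * ((var 1) * ((num 500)) + num 2 * (var 2) * (((num 500)) - (((num 239) + (num (-538) * (var 1))) + ((num 3) + (num 538 * (var 1))) * (var 3))))
  cn := (num 1 - (var 0)) * (var 2) - (num 1 - num 2 * (var 0))
  cd := (num 1 - num 2 * (var 0)) * (num 1 - num 2 * (var 0)) * (var 2)
  kn := ((var 1) * ((num 500)) + num 2 * (var 2) * (((num 500)) - (((num 239) + (num (-538) * (var 1))) + ((num 3) + (num 538 * (var 1))) * (var 3)))) * ((num 1770258) + (num (-8753660) * (var 0)) + (num (-92265251) * (var 1)) + (num (-496371) * (var 2)) + (num (-834825) * (var 3)) + (num 60212242 * ((var 1) * (var 3))) + (num 25782 * ((var 2) * (var 3))) + (num 6390598 * ((var 0) * (var 3)))) + (var 1) * ((num 500)) * ((num (-1709960397)) + (num 13058871257 * (var 0)) + (num 25815546514 * (var 1)) + (num 93637488 * (var 2)) + (num 1709024967 * (var 3)) + (num (-16623010758) * ((var 1) * (var 3))) + (num (-93166899) * ((var 2) * (var 3))) + (num (-13056508194) * ((var 0) * (var 3))))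
  kd := num 65536 * ((var 1) * ((num 500)) + num 2 * (var 2) * (((num 500)) - (((num 239) + (num (-538) * (var 1))) + ((num 3) + (num 538 * (var 1))) * (var 3))))
  k2n := ((num 500)) * ((num 371) + (num 1411 * (var 0)) + (num (-5335) * (var 1)) + (num (-446) * (var 2)) + (num (-50) * (var 3)) + (num (-1243) * ((var 1) * (var 3))) + (num 49 * ((var 2) * (var 3))) + (num 25 * ((var 0) * (var 3))))
  k2d := num 1024 * ((var 0) * ((((num 500)) - (((num 239) + (num (-538) * (var 1))) + ((num 3) + (num 538 * (var 1))) * (var 3))) + (var 1) * ((num 500))))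

/-- Its ranges. -/
def bxIz105 : StripEnd.EBox :=
  ⟨(102, 105, 800), (0, 1, 500), (21, 22, 25), (0, 1, 1)⟩
end Vale.Agent.P100.Calib.StripEndD
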