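import Vale.Agent.P100.Calib.SlabStripEndDCert
import Vale.Agent.P100.Calib.SlabStripEndBigSgn

/-!
# A piece of the `I` and `Z` charts for `N` between seven and twenty: 106
-/

namespace Vale.Agent.P100.Calib.StripEndD

open Pack hiding ev_add ev_mul
open Pack.Ex StripMid StripEnd

local instance endIZ7P106Add : Add Ex := ⟨Ex.add⟩
local instance endIZ7P106Sub : Sub Ex := ⟨Ex.sub⟩
local instance endIZ7P106Mul : Mul Ex := ⟨Ex.mul⟩

/-- The piece `Iz106`. -/
def pcIz106 : Piece where
  I := (var 0)
  d := (var 0) * (var 2)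
  w := ((var 0) * (var 1))
  o := (((num 239) + (num (-538) * (var 1))) + ((num 3) + (num 538 * (var 1))) * (var 3))
  den := ((num 500))
  vn := num 2 * (((num 239) + (num (-538) * (var 1))) + ((num 3) + (num 538 * (var 1))) * (var 3))
  vs := (num 1 - num 2 * (var 0) - (var 0) * (var 2))
  mu := ⟨(123, 50), (142, 50)⟩
  pn := fun b => cond b
    (num 50 * (((num 500)) - (((num 239) + (num (-538) * (var 1))) + ((num 3) + (num 538 * (var 1))) * (var 3))) + num (-142) * ((((num 239) + (num (-538) * (var 1))) + ((num 3) + (num 538 * (var 1))) * (var 3)) * ((var 0) * (var 1))))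
    (num 50 * (((num 500)) - (((num 239) + (num (-538) * (var 1))) + ((num 3) + (num 538 * (var 1))) * (var 3))) + num (-123) * ((((num 239) + (num (-538) * (var 1))) + ((num 3) + (num 538 * (var 1))) * (var 3)) * ((var 0) * (var 1))))
  pd := num 50
  en := fun b => cond b
    (((num 37933) + (num (-12062) * (var 0))) * (num 4 * (var 0) * (((num 500)) - (((num 239) + (num (-538) * (var 1))) + ((num 3) + (num 538 * (var 1))) * (var 3))) * ((var 2) + num 3 * (var 0)) + (var 1) * ((num 500)) * (num 1 + num 20 * ((var 0) * (var 2)))))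
    (((num 37397) + (num (-12062) * (var 0))) * (num 4 * (var 0) * (((num 500)) - (((num 239) + (num (-538) * (var 1))) + ((num 3) + (num 538 * (var 1))) * (var 3))) * ((var 2) + num 3 * (var 0)) + (var 1) * ((num 500)) * (num 1 + num 20 * ((var 0) * (var 2)))))
  kk := fun b => cond b
    (((num 3740) + (num 18404 * (var 2))) * (((var 0) * (var 1)) * (num 4 * ((num 500)) * ((var 2) + num 3 * (var 0)))))
    (((num 2754) + (num 18404 * (var 2))) * (((var 0) * (var 1)) * (num 4 * ((num 500)) * ((var 2) + num 3 * (var 0)))))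
  f0 := num 8000 * ((num 500)) * ((var 2) + num 3 * (var 0))
  wn := fun b => cond b
    (((num (-11030) * ((var 0) * (((num 500)) - (((num 239) + (num (-538) * (var 1))) + ((num 3) + (num 538 * (var 1))) * (var 3))))) + (num 1153214 * (((var 0) * (var 1)) * (((num 239) + (num (-538) * (var 1))) + ((num 3) + (num 538 * (var 1))) * (var 3)))) + (num (-550379) * (((var 0) * (var 1)) * ((num 500)))) + (num 558 * ((var 0) * (var 2) * (((num 500)) - (((num 239) + (num (-538) * (var 1))) + ((num 3) + (num 538 * (var 1))) * (var 3)))))))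
    (((num (-11150) * ((var 0) * (((num 500)) - (((num 239) + (num (-538) * (var 1))) + ((num 3) + (num 538 * (var 1))) * (var 3))))) + (num 1153214 * (((var 0) * (var 1)) * (((num 239) + (num (-538) * (var 1))) + ((num 3) + (num 538 * (var 1))) * (var 3)))) + (num (-550499) * (((var 0) * (var 1)) * ((num 500)))) + (num 558 * ((var 0) * (var 2) * (((num 500)) - (((num 239) + (num (-538) * (var 1))) + ((num 3) + (num 538 * (var 1))) * (var 3)))))))
  wd := num 1000 * ((num 500))
  tn := fun b => cond b
    (num 9520 * ((var 1) * ((num 500))))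
    (num 9123 * ((var 1) * ((num 500))))
  td := num 8000 * ((var 1) * ((num 500)) + num 2 * (var 2) * (((num 500)) - (((num 239) + (num (-538) * (var 1))) + ((num 3) + (num 538 * (var 1))) * (var 3))))
  cn := (num 1 - (var 0)) * (var 2) - (num 1 - num 2 * (var 0))
  cd := (num 1 - num 2 * (var 0)) * (num 1 - num 2 * (var 0)) * (var 2)
  kn := ((num (-570)) + (num (-5934) * (var 0)) + (num 2085 * (var 2)))
  kd := num 128
  k2n := ((num 1608) + (num (-4978) * (var 0)) + (num 333 * (var 2)))
  k2d := num 512

/-- Its ranges. -/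
def bxIz106 : StripEnd.EBox :=
  ⟨(102, 105, 800), (0, 1, 500), (22, 25, 25), (0, 1, 1)⟩
end Vale.Agent.P100.Calib.StripEndD
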