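import Vale.Agent.P100.Calib.SlabStripEndIZ7Strict
import Vale.Agent.P100.Calib.SlabStripEndBigSgn

/-!
# A piece of the `I` and `Z` charts for `N` between seven and twenty: 11
-/

namespace Vale.Agent.P100.Calib.StripEndD

open Pack hiding ev_add ev_mul
open Pack.Ex StripMid StripEnd

local instance endIZ7P11Add : Add Ex := ⟨Ex.add⟩
local instance endIZ7P11Sub : Sub Ex := ⟨Ex.sub⟩
local instance endIZ7P11Mul : Mul Ex := ⟨Ex.mul⟩

/-- The piece `Iz11`. -/
def pcIz11 : Piece where
  I := (var 0)
  d := (var 0) * (var 2)
  w := ((var 0) * (var 1))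
  o := (((num 244) + (num (-300) * (var 1))) + ((num 256) + (num (-299) * (var 1))) * (var 3))
  den := ((num 500))
  vn := num 2 * (((num 244) + (num (-300) * (var 1))) + ((num 256) + (num (-299) * (var 1))) * (var 3))
  vs := (num 1 - num 2 * (var 0) - (var 0) * (var 2))
  mu := ⟨(91, 50), (118, 50)⟩
  pn := fun b => cond b
    (num 50 * (((num 500)) - (((num 244) + (num (-300) * (var 1))) + ((num 256) + (num (-299) * (var 1))) * (var 3))) + num (-118) * ((((num 244) + (num (-300) * (var 1))) + ((num 256) + (num (-299) * (var 1))) * (var 3)) * ((var 0) * (var 1))))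
    (num 50 * (((num 500)) - (((num 244) + (num (-300) * (var 1))) + ((num 256) + (num (-299) * (var 1))) * (var 3))) + num (-91) * ((((num 244) + (num (-300) * (var 1))) + ((num 256) + (num (-299) * (var 1))) * (var 3)) * ((var 0) * (var 1))))
  pd := num 50
  en := fun b => cond b
    (((num 32072) + (num 73908 * (var 0))) * (num 4 * (var 0) * (((num 500)) - (((num 244) + (num (-300) * (var 1))) + ((num 256) + (num (-299) * (var 1))) * (var 3))) * ((var 2) + num 3 * (var 0)) + (var 1) * ((num 500)) * (num 1 + num 20 * ((var 0) * (var 2)))))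
    (((num 28763) + (num 73908 * (var 0))) * (num 4 * (var 0) * (((num 500)) - (((num 244) + (num (-300) * (var 1))) + ((num 256) + (num (-299) * (var 1))) * (var 3))) * ((var 2) + num 3 * (var 0)) + (var 1) * ((num 500)) * (num 1 + num 20 * ((var 0) * (var 2)))))
  kk := fun b => cond b
    (((num (-1144)) + (num 24910 * (var 2))) * (((var 0) * (var 1)) * (num 4 * ((num 500)) * ((var 2) + num 3 * (var 0)))))
    (((num (-1948)) + (num 24910 * (var 2))) * (((var 0) * (var 1)) * (num 4 * ((num 500)) * ((var 2) + num 3 * (var 0)))))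
  f0 := num 8000 * ((num 500)) * ((var 2) + num 3 * (var 0))
  wn := fun b => cond b
    (((num (-9928) * ((var 0) * (((num 500)) - (((num 244) + (num (-300) * (var 1))) + ((num 256) + (num (-299) * (var 1))) * (var 3))))) + (num 14304 * (((var 0) * (var 1)) * (((num 244) + (num (-300) * (var 1))) + ((num 256) + (num (-299) * (var 1))) * (var 3)))) + (num (-5274) * (((var 0) * (var 1)) * ((num 500)))) + (num 1288 * ((var 0) * (var 2) * (((num 500)) - (((num 244) + (num (-300) * (var 1))) + ((num 256) + (num (-299) * (var 1))) * (var 3)))))))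
    (((num (-11108) * ((var 0) * (((num 500)) - (((num 244) + (num (-300) * (var 1))) + ((num 256) + (num (-299) * (var 1))) * (var 3))))) + (num 14304 * (((var 0) * (var 1)) * (((num 244) + (num (-300) * (var 1))) + ((num 256) + (num (-299) * (var 1))) * (var 3)))) + (num (-6454) * (((var 0) * (var 1)) * ((num 500)))) + (num 1288 * ((var 0) * (var 2) * (((num 500)) - (((num 244) + (num (-300) * (var 1))) + ((num 256) + (num (-299) * (var 1))) * (var 3)))))))
  wd := num 1000 * ((num 500))
  tn := fun b => cond b
    (num 10291 * ((var 1) * ((num 500))))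
    (num 8052 * ((var 1) * ((num 500))))
  td := num 8000 * ((var 1) * ((num 500)) + num 2 * (var 2) * (((num 500)) - (((num 244) + (num (-300) * (var 1))) + ((num 256) + (num (-299) * (var 1))) * (var 3))))
  cn := num 0
  cd := num 1
  kn := ((num 500)) * ((num 435) + (num (-1389) * (var 0)) + (num (-61) * (var 1)) + (num (-174) * (var 2)) + (num (-705) * (var 3)) + (num (-571) * ((var 1) * (var 3))) + (num 524 * ((var 2) * (var 3))) + (num 6354 * ((var 0) * (var 3))))
  kd := num 512 * ((var 0) * ((((num 500)) - (((num 244) + (num (-300) * (var 1))) + ((num 256) + (num (-299) * (var 1))) * (var 3))) + (var 1) * ((num 500))))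
  k2n := ((var 1) * ((num 500)) + num 2 * (var 2) * (((num 500)) - (((num 244) + (num (-300) * (var 1))) + ((num 256) + (num (-299) * (var 1))) * (var 3)))) * (((var 1) * ((num 500)) + num 2 * (var 2) * (((num 500)) - (((num 244) + (num (-300) * (var 1))) + ((num 256) + (num (-299) * (var 1))) * (var 3)))) * ((num (-142351)) + (num 1668771 * (var 0)) + (num 250813 * (var 2)) + (num 429803 * (var 3)) + (num (-91906) * ((var 1) * (var 3))) + (num (-443012) * ((var 2) * (var 3))) + (num (-3294382) * ((var 0) * (var 3)))) + ((var 1) * ((num 500))) * ((num 1701554) + (num (-15044347) * (var 0)) + (num (-191595) * (var 2)) + (num (-2276452) * (var 3)) + (num 183813 * ((var 1) * (var 3))) + (num 575994 * ((var 2) * (var 3))) + (num 18295569 * ((var 0) * (var 3))))) + ((var 1) * ((num 500))) * ((var 1) * ((num 500))) * ((num 282908) + (num (-1361290) * (var 0)) + (num (-59218) * (var 2)) + (num (-38754) * (var 3)))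
  k2d := num 65536 * (((var 1) * ((num 500)) + num 2 * (var 2) * (((num 500)) - (((num 244) + (num (-300) * (var 1))) + ((num 256) + (num (-299) * (var 1))) * (var 3)))) * ((var 1) * ((num 500)) + num 2 * (var 2) * (((num 500)) - (((num 244) + (num (-300) * (var 1))) + ((num 256) + (num (-299) * (var 1))) * (var 3)))))

/-- Its ranges. -/
def bxIz11 : StripEnd.EBox :=
  ⟨(4, 5, 40), (0, 1, 50), (6, 13, 40), (0, 1, 1)⟩
end Vale.Agent.P100.Calib.StripEndD
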