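import Vale.Agent.P100.Calib.SlabStripEndDCert
import Vale.Agent.P100.Calib.SlabStripEndBigSgn

/-!
# A piece of the `I` and `Z` charts for `N` between seven and twenty: 111
-/

namespace Vale.Agent.P100.Calib.StripEndD

open Pack hiding ev_add ev_mul
open Pack.Ex StripMid StripEnd

local instance endIZ7P111Add : Add Ex := ⟨Ex.add⟩
local instance endIZ7P111Sub : Sub Ex := ⟨Ex.sub⟩
local instance endIZ7P111Mul : Mul Ex := ⟨Ex.mul⟩

/-- The piece `Iz111`. -/
def pcIz111 : Piece where
  I := (var 0)
  d := (var 0) * (var 2)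
  w := ((var 0) * (var 1))
  o := (((num 391)) + ((num 109) + (num (-3817) * (var 1))) * (var 3))
  den := ((num 500))
  vn := num 2 * (((num 391)) + ((num 109) + (num (-3817) * (var 1))) * (var 3))
  vs := (num 1 - num 2 * (var 0) - (var 0) * (var 2))
  mu := ⟨(146, 50), (168, 50)⟩
  pn := fun b => cond b
    (num 50 * (((num 500)) - (((num 391)) + ((num 109) + (num (-3817) * (var 1))) * (var 3))) + num (-168) * ((((num 391)) + ((num 109) + (num (-3817) * (var 1))) * (var 3)) * ((var 0) * (var 1))))
    (num 50 * (((num 500)) - (((num 391)) + ((num 109) + (num (-3817) * (var 1))) * (var 3))) + num (-146) * ((((num 391)) + ((num 109) + (num (-3817) * (var 1))) * (var 3)) * ((var 0) * (var 1))))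
  pd := num 50
  en := fun b => cond b
    (((num 37910) + (num 15296 * (var 0))) * (num 4 * (var 0) * (((num 500)) - (((num 391)) + ((num 109) + (num (-3817) * (var 1))) * (var 3))) * ((var 2) + num 3 * (var 0)) + (var 1) * ((num 500)) * (num 1 + num 20 * ((var 0) * (var 2)))))
    (((num 34038) + (num 15296 * (var 0))) * (num 4 * (var 0) * (((num 500)) - (((num 391)) + ((num 109) + (num (-3817) * (var 1))) * (var 3))) * ((var 2) + num 3 * (var 0)) + (var 1) * ((num 500)) * (num 1 + num 20 * ((var 0) * (var 2)))))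
  kk := fun b => cond b
    (((num 2604) + (num 24416 * (var 2))) * (((var 0) * (var 1)) * (num 4 * ((num 500)) * ((var 2) + num 3 * (var 0)))))
    (((num (-61)) + (num 24416 * (var 2))) * (((var 0) * (var 1)) * (num 4 * ((num 500)) * ((var 2) + num 3 * (var 0)))))
  f0 := num 8000 * ((num 500)) * ((var 2) + num 3 * (var 0))
  wn := fun b => cond b
    (((num (-10915) * ((var 0) * (((num 500)) - (((num 391)) + ((num 109) + (num (-3817) * (var 1))) * (var 3))))) + (num 41402 * (((var 0) * (var 1)) * (((num 391)) + ((num 109) + (num (-3817) * (var 1))) * (var 3)))) + (num (-24604) * (((var 0) * (var 1)) * ((num 500)))) + (num 2048 * ((var 0) * (var 2) * (((num 500)) - (((num 391)) + ((num 109) + (num (-3817) * (var 1))) * (var 3)))))))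
    (((num (-11601) * ((var 0) * (((num 500)) - (((num 391)) + ((num 109) + (num (-3817) * (var 1))) * (var 3))))) + (num 41402 * (((var 0) * (var 1)) * (((num 391)) + ((num 109) + (num (-3817) * (var 1))) * (var 3)))) + (num (-25290) * (((var 0) * (var 1)) * ((num 500)))) + (num 2048 * ((var 0) * (var 2) * (((num 500)) - (((num 391)) + ((num 109) + (num (-3817) * (var 1))) * (var 3)))))))
  wd := num 1000 * ((num 500))
  tn := fun b => cond b
    (num 11343 * ((var 1) * ((num 500))))
    (num 10055 * ((var 1) * ((num 500))))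
  td := num 8000 * ((var 1) * ((num 500)) + num 2 * (var 2) * (((num 500)) - (((num 391)) + ((num 109) + (num (-3817) * (var 1))) * (var 3))))
  cn := (num 1 - (var 0)) * (var 2) - (num 1 - num 2 * (var 0))
  cd := (num 1 - num 2 * (var 0)) * (num 1 - num 2 * (var 0)) * (var 2)
  kn := ((num 500)) * ((num (-271)) + (num 340 * (var 0)) + (num (-6642) * (var 1)) + (num 605 * (var 2)) + (num (-71) * (var 3)) + (num (-4151) * ((var 1) * (var 3))) + (num (-175) * ((var 2) * (var 3))) + (num 2712 * ((var 0) * (var 3))))
  kd := num 64 * (((num 500)) - (((num 391)) + ((num 109) + (num (-3817) * (var 1))) * (var 3)))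
  k2n := ((num (-1831)) + (num 6745 * (var 0)) + (num 3123 * (var 2)))
  k2d := num 1024

/-- Its ranges. -/
def bxIz111 : StripEnd.EBox :=
  ⟨(105, 108, 800), (0, 1, 50), (42, 45, 50), (0, 1, 1)⟩
end Vale.Agent.P100.Calib.StripEndD
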