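import Vale.Agent.P100.Calib.SlabStripEndDCert
import Vale.Agent.P100.Calib.SlabStripEndBigSgn

/-!
# A piece of the `I` and `Z` charts for `N` between seven and twenty: 112
-/

namespace Vale.Agent.P100.Calib.StripEndD

open Pack hiding ev_add ev_mul
open Pack.Ex StripMid StripEnd

local instance endIZ7P112Add : Add Ex := ⟨Ex.add⟩
local instance endIZ7P112Sub : Sub Ex := ⟨Ex.sub⟩
local instance endIZ7P112Mul : Mul Ex := ⟨Ex.mul⟩

/-- The piece `Iz112`. -/
def pcIz112 : Piece where
  I := (var 0)
  d := (var 0) * (var 2)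
  w := ((var 0) * (var 1))
  o := (((num 282)) + ((num 109)) * (var 3))
  den := ((num 500))
  vn := num 2 * (((num 282)) + ((num 109)) * (var 3))
  vs := (num 1 - num 2 * (var 0) - (var 0) * (var 2))
  mu := ⟨(130, 50), (154, 50)⟩
  pn := fun b => cond b
    (num 50 * (((num 500)) - (((num 282)) + ((num 109)) * (var 3))) + num (-154) * ((((num 282)) + ((num 109)) * (var 3)) * ((var 0) * (var 1))))
    (num 50 * (((num 500)) - (((num 282)) + ((num 109)) * (var 3))) + num (-130) * ((((num 282)) + ((num 109)) * (var 3)) * ((var 0) * (var 1))))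
  pd := num 50
  en := fun b => cond b
    (((num 38395) + (num (-1184) * (var 0))) * (num 4 * (var 0) * (((num 500)) - (((num 282)) + ((num 109)) * (var 3))) * ((var 2) + num 3 * (var 0)) + (var 1) * ((num 500)) * (num 1 + num 20 * ((var 0) * (var 2)))))
    (((num 36297) + (num (-1184) * (var 0))) * (num 4 * (var 0) * (((num 500)) - (((num 282)) + ((num 109)) * (var 3))) * ((var 2) + num 3 * (var 0)) + (var 1) * ((num 500)) * (num 1 + num 20 * ((var 0) * (var 2)))))
  kk := fun b => cond b
    (((num 2754) + (num 22042 * (var 2))) * (((var 0) * (var 1)) * (num 4 * ((num 500)) * ((var 2) + num 3 * (var 0)))))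
    (((num 509) + (num 22042 * (var 2))) * (((var 0) * (var 1)) * (num 4 * ((num 500)) * ((var 2) + num 3 * (var 0)))))
  f0 := num 8000 * ((num 500)) * ((var 2) + num 3 * (var 0))
  wn := fun b => cond b
    (((num (-10896) * ((var 0) * (((num 500)) - (((num 282)) + ((num 109)) * (var 3))))) + (num 82521 * (((var 0) * (var 1)) * (((num 282)) + ((num 109)) * (var 3)))) + (num (-50783) * (((var 0) * (var 1)) * ((num 500)))) + (num 1378 * ((var 0) * (var 2) * (((num 500)) - (((num 282)) + ((num 109)) * (var 3)))))))
    (((num (-11664) * ((var 0) * (((num 500)) - (((num 282)) + ((num 109)) * (var 3))))) + (num 82521 * (((var 0) * (var 1)) * (((num 282)) + ((num 109)) * (var 3)))) + (num (-51551) * (((var 0) * (var 1)) * ((num 500)))) + (num 1378 * ((var 0) * (var 2) * (((num 500)) - (((num 282)) + ((num 109)) * (var 3)))))))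
  wd := num 1000 * ((num 500))
  tn := fun b => cond b
    (num 10473 * ((var 1) * ((num 500))))
    (num 9359 * ((var 1) * ((num 500))))
  td := num 8000 * ((var 1) * ((num 500)) + num 2 * (var 2) * (((num 500)) - (((num 282)) + ((num 109)) * (var 3))))
  cn := (num 1 - (var 0)) * (var 2) - (num 1 - num 2 * (var 0))
  cd := (num 1 - num 2 * (var 0)) * (num 1 - num 2 * (var 0)) * (var 2)
  kn := ((((num 500)) - (((num 282)) + ((num 109)) * (var 3))) + (var 1) * ((num 500))) * (((var 1) * ((num 500)) + num 2 * (var 2) * (((num 500)) - (((num 282)) + ((num 109)) * (var 3)))) * ((num 3) + (num (-6951937) * (var 3)) + (num 4207388 * ((var 2) * (var 3))) + (num 26039858 * ((var 0) * (var 3)))) + (var 1) * ((num 500)) * ((num 96048059) + (num 336682687 * (var 1)) + (num (-106720066) * (var 2)) + (num 426153202 * (var 3)) + (num (-336682687) * ((var 1) * (var 3))) + (num (-436046893) * ((var 2) * (var 3))) + (num (-254675414) * ((var 0) * (var 3))))) + ((var 1) * ((num 500)) + num 2 * (var 2) * (((num 500)) - (((num 282)) + ((num 109))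 * (var 3)))) * (((num 500)) - (((num 282)) + ((num 109)) * (var 3))) * ((num 1104232) + (num (-4802014) * (var 0)) + (num (-323025) * (var 2)) + (num 138126 * (var 3)))
  kd := num 65536 * ((var 1) * ((num 500)) + num 2 * (var 2) * (((num 500)) - (((num 282)) + ((num 109)) * (var 3)))) * ((((num 500)) - (((num 282)) + ((num 109)) * (var 3))) + (var 1) * ((num 500)))
  k2n := ((num 771) + (num 340 * (var 0)) + (num (-5388) * (var 1)) + (num (-647) * (var 2)) + (num 2024 * (var 3)) + (num (-313) * ((var 1) * (var 3))) + (num (-2215) * ((var 2) * (var 3))) + (num (-720) * ((var 0) * (var 3))))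
  k2d := num 128

/-- Its ranges. -/
def bxIz112 : StripEnd.EBox :=
  ⟨(2625, 2672, 20000), (0, 1, 50), (42, 45, 50), (0, 1, 1)⟩
end Vale.Agent.P100.Calib.StripEndD
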