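import Vale.Agent.P100.Calib.SlabStripEndIZ7Strict
import Vale.Agent.P100.Calib.SlabStripEndBigSgn

/-!
# A piece of the `I` and `Z` charts for `N` between seven and twenty: 12
-/

namespace Vale.Agent.P100.Calib.StripEndD

open Pack hiding ev_add ev_mul
open Pack.Ex StripMid StripEnd

local instance endIZ7P12Add : Add Ex := ⟨Ex.add⟩
local instance endIZ7P12Sub : Sub Ex := ⟨Ex.sub⟩
local instance endIZ7P12Mul : Mul Ex := ⟨Ex.mul⟩

/-- The piece `Iz12`. -/
def pcIz12 : Piece where
  I := (var 0)
  d := (var 0) * (var 2)
  w := ((var 0) * (var 1))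
  o := (((num 239) + (num (-512) * (var 1))) + ((num 261) + (num (-289) * (var 1))) * (var 3))
  den := ((num 500))
  vn := num 2 * (((num 239) + (num (-512) * (var 1))) + ((num 261) + (num (-289) * (var 1))) * (var 3))
  vs := (num 1 - num 2 * (var 0) - (var 0) * (var 2))
  mu := ⟨(96, 50), (124, 50)⟩
  pn := fun b => cond b
    (num 50 * (((num 500)) - (((num 239) + (num (-512) * (var 1))) + ((num 261) + (num (-289) * (var 1))) * (var 3))) + num (-124) * ((((num 239) + (num (-512) * (var 1))) + ((num 261) + (num (-289) * (var 1))) * (var 3)) * ((var 0) * (var 1))))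
    (num 50 * (((num 500)) - (((num 239) + (num (-512) * (var 1))) + ((num 261) + (num (-289) * (var 1))) * (var 3))) + num (-96) * ((((num 239) + (num (-512) * (var 1))) + ((num 261) + (num (-289) * (var 1))) * (var 3)) * ((var 0) * (var 1))))
  pd := num 50
  en := fun b => cond b
    (((num 32994) + (num 67656 * (var 0))) * (num 4 * (var 0) * (((num 500)) - (((num 239) + (num (-512) * (var 1))) + ((num 261) + (num (-289) * (var 1))) * (var 3))) * ((var 2) + num 3 * (var 0)) + (var 1) * ((num 500)) * (num 1 + num 20 * ((var 0) * (var 2)))))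
    (((num 29400) + (num 67656 * (var 0))) * (num 4 * (var 0) * (((num 500)) - (((num 239) + (num (-512) * (var 1))) + ((num 261) + (num (-289) * (var 1))) * (var 3))) * ((var 2) + num 3 * (var 0)) + (var 1) * ((num 500)) * (num 1 + num 20 * ((var 0) * (var 2)))))
  kk := fun b => cond b
    (((num (-427)) + (num 23882 * (var 2))) * (((var 0) * (var 1)) * (num 4 * ((num 500)) * ((var 2) + num 3 * (var 0)))))
    (((num (-1968)) + (num 23882 * (var 2))) * (((var 0) * (var 1)) * (num 4 * ((num 500)) * ((var 2) + num 3 * (var 0)))))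
  f0 := num 8000 * ((num 500)) * ((var 2) + num 3 * (var 0))
  wn := fun b => cond b
    (((num (-9931) * ((var 0) * (((num 500)) - (((num 239) + (num (-512) * (var 1))) + ((num 261) + (num (-289) * (var 1))) * (var 3))))) + (num 18341 * (((var 0) * (var 1)) * (((num 239) + (num (-512) * (var 1))) + ((num 261) + (num (-289) * (var 1))) * (var 3)))) + (num (-8444) * (((var 0) * (var 1)) * ((num 500)))) + (num 1299 * ((var 0) * (var 2) * (((num 500)) - (((num 239) + (num (-512) * (var 1))) + ((num 261) + (num (-289) * (var 1))) * (var 3)))))))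
    (((num (-11226) * ((var 0) * (((num 500)) - (((num 239) + (num (-512) * (var 1))) + ((num 261) + (num (-289) * (var 1))) * (var 3))))) + (num 18341 * (((var 0) * (var 1)) * (((num 239) + (num (-512) * (var 1))) + ((num 261) + (num (-289) * (var 1))) * (var 3)))) + (num (-9739) * (((var 0) * (var 1)) * ((num 500)))) + (num 1299 * ((var 0) * (var 2) * (((num 500)) - (((num 239) + (num (-512) * (var 1))) + ((num 261) + (num (-289) * (var 1))) * (var 3)))))))
  wd := num 1000 * ((num 500))
  tn := fun b => cond b
    (num 10116 * ((var 1) * ((num 500))))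
    (num 8215 * ((var 1) * ((num 500))))
  td := num 8000 * ((var 1) * ((num 500)) + num 2 * (var 2) * (((num 500)) - (((num 239) + (num (-512) * (var 1))) + ((num 261) + (num (-289) * (var 1))) * (var 3))))
  cn := num 0
  cd := num 1
  kn := ((num 500)) * ((((num 500)) - (((num 239) + (num (-512) * (var 1))) + ((num 261) + (num (-289) * (var 1))) * (var 3))) * ((num 17266) + (num 176556 * (var 0)) + (num 64726 * (var 1)) + (num (-15238) * (var 2)) + (num 23567 * (var 3)) + (num (-436325) * ((var 1) * (var 3))) + (num (-40556) * ((var 2) * (var 3))) + (num (-99762) * ((var 0) * (var 3)))) + (var 1) * ((num 500)) * ((num (-560983)) + (num 3403324 * (var 0)) + (num 430905 * (var 1)) + (num 531224 * (var 2)) + (num 386436 * (var 3)) + (num (-345654) * ((var 2) * (var 3))) + (num (-2214053) * ((var 0) * (var 3)))))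
  kd := num 65536 * ((var 0) * ((((num 500)) - (((num 239) + (num (-512) * (var 1))) + ((num 261) + (num (-289) * (var 1))) * (var 3))) + (var 1) * ((num 500)))) * (((num 500)) - (((num 239) + (num (-512) * (var 1))) + ((num 261) + (num (-289) * (var 1))) * (var 3)))
  k2n := ((num 295) + (num (-133) * (var 0)) + (num (-4956) * (var 1)) + (num (-323) * (var 2)) + (num (-191) * (var 3)) + (num 7405 * ((var 1) * (var 3))) + (num 189 * ((var 2) * (var 3))) + (num (-177) * ((var 0) * (var 3))))
  k2d := num 64

/-- Its ranges. -/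
def bxIz12 : StripEnd.EBox :=
  ⟨(4, 5, 40), (0, 1, 50), (26, 33, 80), (0, 1, 1)⟩
end Vale.Agent.P100.Calib.StripEndD
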