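import Vale.Agent.P100.Calib.SlabStripEndIZ7Strict
import Vale.Agent.P100.Calib.SlabStripEndBigSgn

/-!
# A piece of the `I` and `Z` charts for `N` between seven and twenty: 121
-/

namespace Vale.Agent.P100.Calib.StripEndD

open Pack hiding ev_add ev_mul
open Pack.Ex StripMid StripEnd

local instance endIZ7P121Add : Add Ex := ⟨Ex.add⟩
local instance endIZ7P121Sub : Sub Ex := ⟨Ex.sub⟩
local instance endIZ7P121Mul : Mul Ex := ⟨Ex.mul⟩

/-- The piece `Iz121`. -/
def pcIz121 : Piece where
  I := (var 0)
  d := (var 0) * (var 2)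
  w := ((var 0) * (var 1))
  o := (((num 241) + (num (-302) * (var 1))) + ((num 259) + (num (-420) * (var 1))) * (var 3))
  den := ((num 500))
  vn := num 2 * (((num 241) + (num (-302) * (var 1))) + ((num 259) + (num (-420) * (var 1))) * (var 3))
  vs := (num 1 - num 2 * (var 0) - (var 0) * (var 2))
  mu := ⟨(94, 50), (123, 50)⟩
  pn := fun b => cond b
    (num 50 * (((num 500)) - (((num 241) + (num (-302) * (var 1))) + ((num 259) + (num (-420) * (var 1))) * (var 3))) + num (-123) * ((((num 241) + (num (-302) * (var 1))) + ((num 259) + (num (-420) * (var 1))) * (var 3)) * ((var 0) * (var 1))))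
    (num 50 * (((num 500)) - (((num 241) + (num (-302) * (var 1))) + ((num 259) + (num (-420) * (var 1))) * (var 3))) + num (-94) * ((((num 241) + (num (-302) * (var 1))) + ((num 259) + (num (-420) * (var 1))) * (var 3)) * ((var 0) * (var 1))))
  pd := num 50
  en := fun b => cond b
    (((num 36063) + (num 55594 * (var 0))) * (num 4 * (var 0) * (((num 500)) - (((num 241) + (num (-302) * (var 1))) + ((num 259) + (num (-420) * (var 1))) * (var 3))) * ((var 2) + num 3 * (var 0)) + (var 1) * ((num 500)) * (num 1 + num 20 * ((var 0) * (var 2)))))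
    (((num 30387) + (num 55594 * (var 0))) * (num 4 * (var 0) * (((num 500)) - (((num 241) + (num (-302) * (var 1))) + ((num 259) + (num (-420) * (var 1))) * (var 3))) * ((var 2) + num 3 * (var 0)) + (var 1) * ((num 500)) * (num 1 + num 20 * ((var 0) * (var 2)))))
  kk := fun b => cond b
    (((num (-2238)) + (num 29674 * (var 2))) * (((var 0) * (var 1)) * (num 4 * ((num 500)) * ((var 2) + num 3 * (var 0)))))
    (((num (-2974)) + (num 29674 * (var 2))) * (((var 0) * (var 1)) * (num 4 * ((num 500)) * ((var 2) + num 3 * (var 0)))))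
  f0 := num 8000 * ((num 500)) * ((var 2) + num 3 * (var 0))
  wn := fun b => cond b
    (((num (-10905) * ((var 0) * (((num 500)) - (((num 241) + (num (-302) * (var 1))) + ((num 259) + (num (-420) * (var 1))) * (var 3))))) + (num 20326 * (((var 0) * (var 1)) * (((num 241) + (num (-302) * (var 1))) + ((num 259) + (num (-420) * (var 1))) * (var 3)))) + (num (-9289) * (((var 0) * (var 1)) * ((num 500)))) + (num 1885 * ((var 0) * (var 2) * (((num 500)) - (((num 241) + (num (-302) * (var 1))) + ((num 259) + (num (-420) * (var 1))) * (var 3)))))))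
    (((num (-11851) * ((var 0) * (((num 500)) - (((num 241) + (num (-302) * (var 1))) + ((num 259) + (num (-420) * (var 1))) * (var 3))))) + (num 20326 * (((var 0) * (var 1)) * (((num 241) + (num (-302) * (var 1))) + ((num 259) + (num (-420) * (var 1))) * (var 3)))) + (num (-10235) * (((var 0) * (var 1)) * ((num 500)))) + (num 1885 * ((var 0) * (var 2) * (((num 500)) - (((num 241) + (num (-302) * (var 1))) + ((num 259) + (num (-420) * (var 1))) * (var 3)))))))
  wd := num 1000 * ((num 500))
  tn := fun b => cond b
    (num 10537 * ((var 1) * ((num 500))))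
    (num 8226 * ((var 1) * ((num 500))))
  td := num 8000 * ((var 1) * ((num 500)) + num 2 * (var 2) * (((num 500)) - (((num 241) + (num (-302) * (var 1))) + ((num 259) + (num (-420) * (var 1))) * (var 3))))
  cn := num 0
  cd := num 1
  kn := ((num 500)) * ((num 1003) + (num (-1658) * (var 0)) + (num 1200 * (var 1)) + (num (-345) * (var 2)) + (num (-867) * (var 3)) + (num (-4516) * ((var 1) * (var 3))) + (num 846 * ((var 2) * (var 3))) + (num 3882 * ((var 0) * (var 3))))
  kd := num 128 * (((num 500)) - (((num 241) + (num (-302) * (var 1))) + ((num 259) + (num (-420) * (var 1))) * (var 3)))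
  k2n := ((var 1) * ((num 500)) + num 2 * (var 2) * (((num 500)) - (((num 241) + (num (-302) * (var 1))) + ((num 259) + (num (-420) * (var 1))) * (var 3)))) * ((num 24791) + (num 1204018 * (var 0)) + (num (-6710055) * (var 1)) + (num (-172736) * (var 2)) + (num 108416 * (var 3)) + (num 6219549 * ((var 1) * (var 3))) + (num 1715 * ((var 2) * (var 3))) + (num (-1675754) * ((var 0) * (var 3)))) + (var 1) * ((num 500)) * ((num (-4487174)) + (num (-7456784) * (var 0)) + (num 6710055 * (var 1)) + (num 22746299 * (var 2)) + (num 4328729 * (var 3)) + (num (-3336521) * ((var 1) * (var 3))) + (num (-22639131) * ((var 2) * (var 3))) + (num 8263013 * ((var 0) * (var 3))))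
  k2d := num 65536 * ((var 1) * ((num 500)) + num 2 * (var 2) * (((num 500)) - (((num 241) + (num (-302) * (var 1))) + ((num 259) + (num (-420) * (var 1))) * (var 3))))

/-- Its ranges. -/
def bxIz121 : StripEnd.EBox :=
  ⟨(22, 23, 160), (0, 1, 50), (19, 26, 80), (0, 1, 1)⟩
end Vale.Agent.P100.Calib.StripEndD
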