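import Vale.Agent.P100.Calib.SlabStripEndIZ7Strict
import Vale.Agent.P100.Calib.SlabStripEndBigSgn

/-!
# A piece of the `I` and `Z` charts for `N` between seven and twenty: 122
-/

namespace Vale.Agent.P100.Calib.StripEndD

open Pack hiding ev_add ev_mul
open Pack.Ex StripMid StripEnd

local instance endIZ7P122Add : Add Ex := ⟨Ex.add⟩
local instance endIZ7P122Sub : Sub Ex := ⟨Ex.sub⟩
local instance endIZ7P122Mul : Mul Ex := ⟨Ex.mul⟩

/-- The piece `Iz122`. -/
def pcIz122 : Piece where
  I := (var 0)
  d := (var 0) * (var 2)
  w := ((var 0) * (var 1))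
  o := (((num 239) + (num (-589) * (var 1))) + ((num 261) + (num (-453) * (var 1))) * (var 3))
  den := ((num 500))
  vn := num 2 * (((num 239) + (num (-589) * (var 1))) + ((num 261) + (num (-453) * (var 1))) * (var 3))
  vs := (num 1 - num 2 * (var 0) - (var 0) * (var 2))
  mu := ⟨(100, 50), (137, 50)⟩
  pn := fun b => cond b
    (num 50 * (((num 500)) - (((num 239) + (num (-589) * (var 1))) + ((num 261) + (num (-453) * (var 1))) * (var 3))) + num (-137) * ((((num 239) + (num (-589) * (var 1))) + ((num 261) + (num (-453) * (var 1))) * (var 3)) * ((var 0) * (var 1))))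
    (num 50 * (((num 500)) - (((num 239) + (num (-589) * (var 1))) + ((num 261) + (num (-453) * (var 1))) * (var 3))) + num (-100) * ((((num 239) + (num (-589) * (var 1))) + ((num 261) + (num (-453) * (var 1))) * (var 3)) * ((var 0) * (var 1))))
  pd := num 50
  en := fun b => cond b
    (((num 37690) + (num 44076 * (var 0))) * (num 4 * (var 0) * (((num 500)) - (((num 239) + (num (-589) * (var 1))) + ((num 261) + (num (-453) * (var 1))) * (var 3))) * ((var 2) + num 3 * (var 0)) + (var 1) * ((num 500)) * (num 1 + num 20 * ((var 0) * (var 2)))))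
    (((num 31299) + (num 44076 * (var 0))) * (num 4 * (var 0) * (((num 500)) - (((num 239) + (num (-589) * (var 1))) + ((num 261) + (num (-453) * (var 1))) * (var 3))) * ((var 2) + num 3 * (var 0)) + (var 1) * ((num 500)) * (num 1 + num 20 * ((var 0) * (var 2)))))
  kk := fun b => cond b
    (((num (-1321)) + (num 28954 * (var 2))) * (((var 0) * (var 1)) * (num 4 * ((num 500)) * ((var 2) + num 3 * (var 0)))))
    (((num (-3304)) + (num 28954 * (var 2))) * (((var 0) * (var 1)) * (num 4 * ((num 500)) * ((var 2) + num 3 * (var 0)))))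
  f0 := num 8000 * ((num 500)) * ((var 2) + num 3 * (var 0))
  wn := fun b => cond b
    (((num (-10870) * ((var 0) * (((num 500)) - (((num 239) + (num (-589) * (var 1))) + ((num 261) + (num (-453) * (var 1))) * (var 3))))) + (num 28446 * (((var 0) * (var 1)) * (((num 239) + (num (-589) * (var 1))) + ((num 261) + (num (-453) * (var 1))) * (var 3)))) + (num (-15449) * (((var 0) * (var 1)) * ((num 500)))) + (num 1932 * ((var 0) * (var 2) * (((num 500)) - (((num 239) + (num (-589) * (var 1))) + ((num 261) + (num (-453) * (var 1))) * (var 3)))))))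
    (((num (-12172) * ((var 0) * (((num 500)) - (((num 239) + (num (-589) * (var 1))) + ((num 261) + (num (-453) * (var 1))) * (var 3))))) + (num 28446 * (((var 0) * (var 1)) * (((num 239) + (num (-589) * (var 1))) + ((num 261) + (num (-453) * (var 1))) * (var 3)))) + (num (-16751) * (((var 0) * (var 1)) * ((num 500)))) + (num 1932 * ((var 0) * (var 2) * (((num 500)) - (((num 239) + (num (-589) * (var 1))) + ((num 261) + (num (-453) * (var 1))) * (var 3)))))))
  wd := num 1000 * ((num 500))
  tn := fun b => cond b
    (num 10620 * ((var 1) * ((num 500))))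
    (num 8458 * ((var 1) * ((num 500))))
  td := num 8000 * ((var 1) * ((num 500)) + num 2 * (var 2) * (((num 500)) - (((num 239) + (num (-589) * (var 1))) + ((num 261) + (num (-453) * (var 1))) * (var 3))))
  cn := num 0
  cd := num 1
  kn := ((num 500)) * (((((num 500)) - (((num 239) + (num (-589) * (var 1))) + ((num 261) + (num (-453) * (var 1))) * (var 3))) + num 16 * ((var 1) * ((num 500)))) * ((num 539385) + (num (-3615999) * (var 0)) + (num 1079780 * (var 1)) + (num (-39164) * (var 2)) + (num (-720424) * (var 3)) + (num (-892014) * ((var 1) * (var 3))) + (num 183442 * ((var 2) * (var 3))) + (num 4994753 * ((var 0) * (var 3)))) + (((num 500)) - (((num 239) + (num (-589) * (var 1))) + ((num 261) + (num (-453) * (var 1))) * (var 3))) * ((num (-697811)) + (num 5061769 * (var 0)) + (num (-1195490) * (var 1)) + (num 14318 * (var 2)) + (num 1017589 * (var 3)) + (num (-260836) * ((var 2) * (var 3))) + (num (-6909817) * ((var 0) * (var 3)))))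
  kd := num 65536 * ((var 0) * ((((num 500)) - (((num 239) + (num (-589) * (var 1))) + ((num 261) + (num (-453) * (var 1))) * (var 3))) + (var 1) * ((num 500)))) * ((((num 500)) - (((num 239) + (num (-589) * (var 1))) + ((num 261) + (num (-453) * (var 1))) * (var 3))) + num 16 * ((var 1) * ((num 500))))
  k2n := ((num 1471) + (num (-7976) * (var 0)) + (num (-4753) * (var 1)) + (num (-337) * (var 2)) + (num (-1043) * (var 3)) + (num 4165 * ((var 1) * (var 3))) + (num 305 * ((var 2) * (var 3))) + (num 5796 * ((var 0) * (var 3))))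
  k2d := num 64

/-- Its ranges. -/
def bxIz122 : StripEnd.EBox :=
  ⟨(22, 23, 160), (0, 1, 50), (33, 40, 80), (0, 1, 1)⟩
end Vale.Agent.P100.Calib.StripEndD
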