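import Vale.Agent.P100.Calib.SlabStripEndIZ7Strict
import Vale.Agent.P100.Calib.SlabStripEndBigSgn

/-!
# A piece of the `I` and `Z` charts for `N` between seven and twenty: 127
-/

namespace Vale.Agent.P100.Calib.StripEndD

open Pack hiding ev_add ev_mul
open Pack.Ex StripMid StripEnd

local instance endIZ7P127Add : Add Ex := ⟨Ex.add⟩
local instance endIZ7P127Sub : Sub Ex := ⟨Ex.sub⟩
local instance endIZ7P127Mul : Mul Ex := ⟨Ex.mul⟩

/-- The piece `Iz127`. -/
def pcIz127 : Piece where
  I := (var 0)
  d := (var 0) * (var 2)
  w := ((var 0) * (var 1))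
  o := (((num 248) + (num (-291) * (var 1))) + ((num 252) + (num (-253) * (var 1))) * (var 3))
  den := ((num 500))
  vn := num 2 * (((num 248) + (num (-291) * (var 1))) + ((num 252) + (num (-253) * (var 1))) * (var 3))
  vs := (num 1 - num 2 * (var 0) - (var 0) * (var 2))
  mu := ⟨(88, 50), (116, 50)⟩
  pn := fun b => cond b
    (num 50 * (((num 500)) - (((num 248) + (num (-291) * (var 1))) + ((num 252) + (num (-253) * (var 1))) * (var 3))) + num (-116) * ((((num 248) + (num (-291) * (var 1))) + ((num 252) + (num (-253) * (var 1))) * (var 3)) * ((var 0) * (var 1))))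
    (num 50 * (((num 500)) - (((num 248) + (num (-291) * (var 1))) + ((num 252) + (num (-253) * (var 1))) * (var 3))) + num (-88) * ((((num 248) + (num (-291) * (var 1))) + ((num 252) + (num (-253) * (var 1))) * (var 3)) * ((var 0) * (var 1))))
  pd := num 50
  en := fun b => cond b
    (((num 34211) + (num 58120 * (var 0))) * (num 4 * (var 0) * (((num 500)) - (((num 248) + (num (-291) * (var 1))) + ((num 252) + (num (-253) * (var 1))) * (var 3))) * ((var 2) + num 3 * (var 0)) + (var 1) * ((num 500)) * (num 1 + num 20 * ((var 0) * (var 2)))))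
    (((num 30746) + (num 58120 * (var 0))) * (num 4 * (var 0) * (((num 500)) - (((num 248) + (num (-291) * (var 1))) + ((num 252) + (num (-253) * (var 1))) * (var 3))) * ((var 2) + num 3 * (var 0)) + (var 1) * ((num 500)) * (num 1 + num 20 * ((var 0) * (var 2)))))
  kk := fun b => cond b
    (((num (-2162)) + (num 27694 * (var 2))) * (((var 0) * (var 1)) * (num 4 * ((num 500)) * ((var 2) + num 3 * (var 0)))))
    (((num (-2318)) + (num 27694 * (var 2))) * (((var 0) * (var 1)) * (num 4 * ((num 500)) * ((var 2) + num 3 * (var 0)))))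
  f0 := num 8000 * ((num 500)) * ((var 2) + num 3 * (var 0))
  wn := fun b => cond b
    (((num (-10872) * ((var 0) * (((num 500)) - (((num 248) + (num (-291) * (var 1))) + ((num 252) + (num (-253) * (var 1))) * (var 3))))) + (num 13921 * (((var 0) * (var 1)) * (((num 248) + (num (-291) * (var 1))) + ((num 252) + (num (-253) * (var 1))) * (var 3)))) + (num (-4228) * (((var 0) * (var 1)) * ((num 500)))) + (num 1833 * ((var 0) * (var 2) * (((num 500)) - (((num 248) + (num (-291) * (var 1))) + ((num 252) + (num (-253) * (var 1))) * (var 3)))))))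
    (((num (-11567) * ((var 0) * (((num 500)) - (((num 248) + (num (-291) * (var 1))) + ((num 252) + (num (-253) * (var 1))) * (var 3))))) + (num 13921 * (((var 0) * (var 1)) * (((num 248) + (num (-291) * (var 1))) + ((num 252) + (num (-253) * (var 1))) * (var 3)))) + (num (-4923) * (((var 0) * (var 1)) * ((num 500)))) + (num 1833 * ((var 0) * (var 2) * (((num 500)) - (((num 248) + (num (-291) * (var 1))) + ((num 252) + (num (-253) * (var 1))) * (var 3)))))))
  wd := num 1000 * ((num 500))
  tn := fun b => cond b
    (num 10986 * ((var 1) * ((num 500))))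
    (num 7995 * ((var 1) * ((num 500))))
  td := num 8000 * ((var 1) * ((num 500)) + num 2 * (var 2) * (((num 500)) - (((num 248) + (num (-291) * (var 1))) + ((num 252) + (num (-253) * (var 1))) * (var 3))))
  cn := num 0
  cd := num 1
  kn := ((num 500)) * ((((num 500)) - (((num 248) + (num (-291) * (var 1))) + ((num 252) + (num (-253) * (var 1))) * (var 3))) * ((num 13152) + (num 262604 * (var 0)) + (num (-2380058) * (var 1)) + (num (-11041) * (var 2)) + (num 24276 * (var 3)) + (num 106803 * ((var 1) * (var 3))) + (num (-57051) * ((var 2) * (var 3))) + (num (-128335) * ((var 0) * (var 3)))) + (var 1) * ((num 500)) * ((num (-5997677)) + (num 49983479 * (var 0)) + (num 2590586 * (var 1)) + (num 166921 * (var 2)) + (num 5870540 * (var 3)) + (num 30191 * ((var 2) * (var 3))) + (num (-49176568) * ((var 0) * (var 3)))))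
  kd := num 65536 * ((var 0) * ((((num 500)) - (((num 248) + (num (-291) * (var 1))) + ((num 252) + (num (-253) * (var 1))) * (var 3))) + (var 1) * ((num 500)))) * (((num 500)) - (((num 248) + (num (-291) * (var 1))) + ((num 252) + (num (-253) * (var 1))) * (var 3)))
  k2n := ((var 1) * ((num 500)) + num 2 * (var 2) * (((num 500)) - (((num 248) + (num (-291) * (var 1))) + ((num 252) + (num (-253) * (var 1))) * (var 3)))) * ((num 3615203) + (num (-21448664) * (var 0)) + (num (-5507148) * (var 1)) + (num (-2812079) * (var 2)) + (num (-3560892) * (var 3)) + (num 2535839 * ((var 1) * (var 3))) + (num 2812079 * ((var 2) * (var 3))) + (num 21485883 * ((var 0) * (var 3)))) + (var 1) * ((num 500)) * ((num (-2293105)) + (num 11798095 * (var 0)) + (num 5507148 * (var 1)) + (num 3681070 * (var 2)) + (num 2232243 * (var 3)) + (num (-1687427) * ((var 1) * (var 3))) + (num (-3630352) * ((var 2) * (var 3))) + (num (-11804259) * ((var 0) * (var 3))))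
  k2d := num 65536 * ((var 1) * ((num 500)) + num 2 * (var 2) * (((num 500)) - (((num 248) + (num (-291) * (var 1))) + ((num 252) + (num (-253) * (var 1))) * (var 3))))

/-- Its ranges. -/
def bxIz127 : StripEnd.EBox :=
  ⟨(22, 23, 160), (0, 1, 50), (3, 6, 40), (0, 1, 1)⟩
end Vale.Agent.P100.Calib.StripEndD
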