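import Vale.Agent.P100.Calib.SlabStripEndIZ7Strict
import Vale.Agent.P100.Calib.SlabStripEndBigSgn

/-!
# A piece of the `I` and `Z` charts for `N` between seven and twenty: 128
-/

namespace Vale.Agent.P100.Calib.StripEndD

open Pack hiding ev_add ev_mul
open Pack.Ex StripMid StripEnd

local instance endIZ7P128Add : Add Ex := ⟨Ex.add⟩
local instance endIZ7P128Sub : Sub Ex := ⟨Ex.sub⟩
local instance endIZ7P128Mul : Mul Ex := ⟨Ex.mul⟩

/-- The piece `Iz128`. -/
def pcIz128 : Piece where
  I := (var 0)
  d := (var 0) * (var 2)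
  w := ((var 0) * (var 1))
  o := (((num 249) + (num (-290) * (var 1))) + ((num 251) + (num (-251) * (var 1))) * (var 3))
  den := ((num 500))
  vn := num 2 * (((num 249) + (num (-290) * (var 1))) + ((num 251) + (num (-251) * (var 1))) * (var 3))
  vs := (num 1 - num 2 * (var 0) - (var 0) * (var 2))
  mu := ⟨(88, 50), (114, 50)⟩
  pn := fun b => cond b
    (num 50 * (((num 500)) - (((num 249) + (num (-290) * (var 1))) + ((num 251) + (num (-251) * (var 1))) * (var 3))) + num (-114) * ((((num 249) + (num (-290) * (var 1))) + ((num 251) + (num (-251) * (var 1))) * (var 3)) * ((var 0) * (var 1))))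
    (num 50 * (((num 500)) - (((num 249) + (num (-290) * (var 1))) + ((num 251) + (num (-251) * (var 1))) * (var 3))) + num (-88) * ((((num 249) + (num (-290) * (var 1))) + ((num 251) + (num (-251) * (var 1))) * (var 3)) * ((var 0) * (var 1))))
  pd := num 50
  en := fun b => cond b
    (((num 32756) + (num 64698 * (var 0))) * (num 4 * (var 0) * (((num 500)) - (((num 249) + (num (-290) * (var 1))) + ((num 251) + (num (-251) * (var 1))) * (var 3))) * ((var 2) + num 3 * (var 0)) + (var 1) * ((num 500)) * (num 1 + num 20 * ((var 0) * (var 2)))))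
    (((num 30101) + (num 64698 * (var 0))) * (num 4 * (var 0) * (((num 500)) - (((num 249) + (num (-290) * (var 1))) + ((num 251) + (num (-251) * (var 1))) * (var 3))) * ((var 2) + num 3 * (var 0)) + (var 1) * ((num 500)) * (num 1 + num 20 * ((var 0) * (var 2)))))
  kk := fun b => cond b
    (((num (-1951)) + (num 26992 * (var 2))) * (((var 0) * (var 1)) * (num 4 * ((num 500)) * ((var 2) + num 3 * (var 0)))))
    (((num (-2168)) + (num 26992 * (var 2))) * (((var 0) * (var 1)) * (num 4 * ((num 500)) * ((var 2) + num 3 * (var 0)))))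
  f0 := num 8000 * ((num 500)) * ((var 2) + num 3 * (var 0))
  wn := fun b => cond b
    (((num (-10582) * ((var 0) * (((num 500)) - (((num 249) + (num (-290) * (var 1))) + ((num 251) + (num (-251) * (var 1))) * (var 3))))) + (num 12918 * (((var 0) * (var 1)) * (((num 249) + (num (-290) * (var 1))) + ((num 251) + (num (-251) * (var 1))) * (var 3)))) + (num (-3749) * (((var 0) * (var 1)) * ((num 500)))) + (num 1628 * ((var 0) * (var 2) * (((num 500)) - (((num 249) + (num (-290) * (var 1))) + ((num 251) + (num (-251) * (var 1))) * (var 3)))))))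
    (((num (-11297) * ((var 0) * (((num 500)) - (((num 249) + (num (-290) * (var 1))) + ((num 251) + (num (-251) * (var 1))) * (var 3))))) + (num 12918 * (((var 0) * (var 1)) * (((num 249) + (num (-290) * (var 1))) + ((num 251) + (num (-251) * (var 1))) * (var 3)))) + (num (-4464) * (((var 0) * (var 1)) * ((num 500)))) + (num 1628 * ((var 0) * (var 2) * (((num 500)) - (((num 249) + (num (-290) * (var 1))) + ((num 251) + (num (-251) * (var 1))) * (var 3)))))))
  wd := num 1000 * ((num 500))
  tn := fun b => cond b
    (num 10805 * ((var 1) * ((num 500))))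
    (num 7990 * ((var 1) * ((num 500))))
  td := num 8000 * ((var 1) * ((num 500)) + num 2 * (var 2) * (((num 500)) - (((num 249) + (num (-290) * (var 1))) + ((num 251) + (num (-251) * (var 1))) * (var 3))))
  cn := num 0
  cd := num 1
  kn := ((num 500)) * ((num 98) + (num 3525 * (var 0)) + (num (-615) * (var 1)) + (num (-380) * (var 2)) + (num (-529) * (var 3)) + (num (-169) * ((var 1) * (var 3))) + (num 1371 * ((var 2) * (var 3))) + (num 5036 * ((var 0) * (var 3))))
  kd := num 1024 * ((var 0) * ((((num 500)) - (((num 249) + (num (-290) * (var 1))) + ((num 251) + (num (-251) * (var 1))) * (var 3))) + (var 1) * ((num 500))))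
  k2n := ((var 1) * ((num 500)) + num 2 * (var 2) * (((num 500)) - (((num 249) + (num (-290) * (var 1))) + ((num 251) + (num (-251) * (var 1))) * (var 3)))) * (((var 1) * ((num 500)) + num 2 * (var 2) * (((num 500)) - (((num 249) + (num (-290) * (var 1))) + ((num 251) + (num (-251) * (var 1))) * (var 3)))) * ((num (-1489362)) + (num 10730003 * (var 0)) + (num 2813688 * (var 2)) + (num 1592882 * (var 3)) + (num (-11503) * ((var 1) * (var 3))) + (num (-3055632) * ((var 2) * (var 3))) + (num (-10843907) * ((var 0) * (var 3)))) + ((var 1) * ((num 500))) * ((num 3844962) + (num (-29440950) * (var 0)) + (num (-2545417) * (var 2)) + (num (-4051997) * (var 3)) + (num 23007 * ((var 1) * (var 3))) + (num 3029305 * ((var 2) * (var 3))) + (num 29668756 * ((var 0) * (var 3))))) + ((var 1) * ((num 500))) * ((var 1) * ((num 500))) * ((num 225400) + (num (-59945) * (var 0)) + (num (-268271) * (var 2)) + (num (-114049) * (var 3)))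
  k2d := num 65536 * (((var 1) * ((num 500)) + num 2 * (var 2) * (((num 500)) - (((num 249) + (num (-290) * (var 1))) + ((num 251) + (num (-251) * (var 1))) * (var 3)))) * ((var 1) * ((num 500)) + num 2 * (var 2) * (((num 500)) - (((num 249) + (num (-290) * (var 1))) + ((num 251) + (num (-251) * (var 1))) * (var 3)))))

/-- Its ranges. -/
def bxIz128 : StripEnd.EBox :=
  ⟨(10, 11, 80), (0, 1, 50), (3, 6, 40), (0, 1, 1)⟩
end Vale.Agent.P100.Calib.StripEndD
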