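import Vale.Agent.P100.Calib.SlabStripEndIZ7Strict
import Vale.Agent.P100.Calib.SlabStripEndBigSgn

/-!
# A piece of the `I` and `Z` charts for `N` between seven and twenty: 129
-/

namespace Vale.Agent.P100.Calib.StripEndD

open Pack hiding ev_add ev_mul
open Pack.Ex StripMid StripEnd

local instance endIZ7P129Add : Add Ex := ⟨Ex.add⟩
local instance endIZ7P129Sub : Sub Ex := ⟨Ex.sub⟩
local instance endIZ7P129Mul : Mul Ex := ⟨Ex.mul⟩

/-- The piece `Iz129`. -/
def pcIz129 : Piece where
  I := (var 0)
  d := (var 0) * (var 2)
  w := ((var 0) * (var 1))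
  o := (((num 251) + (num (-271) * (var 1))) + ((num 249) + (num (-261) * (var 1))) * (var 3))
  den := ((num 500))
  vn := num 2 * (((num 251) + (num (-271) * (var 1))) + ((num 249) + (num (-261) * (var 1))) * (var 3))
  vs := (num 1 - num 2 * (var 0) - (var 0) * (var 2))
  mu := ⟨(91, 50), (109, 50)⟩
  pn := fun b => cond b
    (num 50 * (((num 500)) - (((num 251) + (num (-271) * (var 1))) + ((num 249) + (num (-261) * (var 1))) * (var 3))) + num (-109) * ((((num 251) + (num (-271) * (var 1))) + ((num 249) + (num (-261) * (var 1))) * (var 3)) * ((var 0) * (var 1))))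
    (num 50 * (((num 500)) - (((num 251) + (num (-271) * (var 1))) + ((num 249) + (num (-261) * (var 1))) * (var 3))) + num (-91) * ((((num 251) + (num (-271) * (var 1))) + ((num 249) + (num (-261) * (var 1))) * (var 3)) * ((var 0) * (var 1))))
  pd := num 50
  en := fun b => cond b
    (((num 29980) + (num 89914 * (var 0))) * (num 4 * (var 0) * (((num 500)) - (((num 251) + (num (-271) * (var 1))) + ((num 249) + (num (-261) * (var 1))) * (var 3))) * ((var 2) + num 3 * (var 0)) + (var 1) * ((num 500)) * (num 1 + num 20 * ((var 0) * (var 2)))))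
    (((num 25220) + (num 89914 * (var 0))) * (num 4 * (var 0) * (((num 500)) - (((num 251) + (num (-271) * (var 1))) + ((num 249) + (num (-261) * (var 1))) * (var 3))) * ((var 2) + num 3 * (var 0)) + (var 1) * ((num 500)) * (num 1 + num 20 * ((var 0) * (var 2)))))
  kk := fun b => cond b
    (((num (-719)) + (num 24096 * (var 2))) * (((var 0) * (var 1)) * (num 4 * ((num 500)) * ((var 2) + num 3 * (var 0)))))
    (((num (-1363)) + (num 24096 * (var 2))) * (((var 0) * (var 1)) * (num 4 * ((num 500)) * ((var 2) + num 3 * (var 0)))))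
  f0 := num 8000 * ((num 500)) * ((var 2) + num 3 * (var 0))
  wn := fun b => cond b
    (((num (-9362) * ((var 0) * (((num 500)) - (((num 251) + (num (-271) * (var 1))) + ((num 249) + (num (-261) * (var 1))) * (var 3))))) + (num 9122 * (((var 0) * (var 1)) * (((num 251) + (num (-271) * (var 1))) + ((num 249) + (num (-261) * (var 1))) * (var 3)))) + (num (-1901) * (((var 0) * (var 1)) * ((num 500)))) + (num 873 * ((var 0) * (var 2) * (((num 500)) - (((num 251) + (num (-271) * (var 1))) + ((num 249) + (num (-261) * (var 1))) * (var 3)))))))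
    (((num (-10153) * ((var 0) * (((num 500)) - (((num 251) + (num (-271) * (var 1))) + ((num 249) + (num (-261) * (var 1))) * (var 3))))) + (num 9122 * (((var 0) * (var 1)) * (((num 251) + (num (-271) * (var 1))) + ((num 249) + (num (-261) * (var 1))) * (var 3)))) + (num (-2692) * (((var 0) * (var 1)) * ((num 500)))) + (num 873 * ((var 0) * (var 2) * (((num 500)) - (((num 251) + (num (-271) * (var 1))) + ((num 249) + (num (-261) * (var 1))) * (var 3)))))))
  wd := num 1000 * ((num 500))
  tn := fun b => cond b
    (num 9859 * ((var 1) * ((num 500))))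
    (num 7982 * ((var 1) * ((num 500))))
  td := num 8000 * ((var 1) * ((num 500)) + num 2 * (var 2) * (((num 500)) - (((num 251) + (num (-271) * (var 1))) + ((num 249) + (num (-261) * (var 1))) * (var 3))))
  cn := num 0
  cd := num 1
  kn := ((num 500)) * (((((num 500)) - (((num 251) + (num (-271) * (var 1))) + ((num 249) + (num (-261) * (var 1))) * (var 3))) + num 16 * ((var 1) * ((num 500)))) * ((num (-19052)) + (num 385440 * (var 0)) + (num 756593 * (var 1)) + (num (-65683) * (var 2)) + (num (-4056) * (var 3)) + (num (-689545) * ((var 1) * (var 3))) + (num 109052 * ((var 2) * (var 3))) + (num 109664 * ((var 0) * (var 3)))) + (((num 500)) - (((num 251) + (num (-271) * (var 1))) + ((num 249) + (num (-261) * (var 1))) * (var 3))) * ((num 22080) + (num (-112150) * (var 0)) + (num (-849228) * (var 1)) + (num 61625 * (var 2)) + (num 28607 * (var 3)) + (num (-152010) * ((var 2) * (var 3))) + (num (-244263) * ((var 0) * (var 3)))))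
  kd := num 65536 * ((var 0) * ((((num 500)) - (((num 251) + (num (-271) * (var 1))) + ((num 249) + (num (-261) * (var 1))) * (var 3))) + (var 1) * ((num 500)))) * ((((num 500)) - (((num 251) + (num (-271) * (var 1))) + ((num 249) + (num (-261) * (var 1))) * (var 3))) + num 16 * ((var 1) * ((num 500))))
  k2n := ((var 1) * ((num 500)) + num 2 * (var 2) * (((num 500)) - (((num 251) + (num (-271) * (var 1))) + ((num 249) + (num (-261) * (var 1))) * (var 3)))) * ((num 1046222) + (num (-8604976) * (var 0)) + (num (-9099750) * (var 1)) + (num (-15801) * (var 2)) + (num (-946536) * (var 3)) + (num 6208734 * ((var 1) * (var 3))) + (num (-60495) * ((var 2) * (var 3))) + (num 8300796 * ((var 0) * (var 3)))) + (var 1) * ((num 500)) * ((num (-1090588)) + (num 8604976 * (var 0)) + (num 9099750 * (var 1)) + (num 607394 * (var 2)) + (num 991707 * (var 3)) + (num (-5653105) * ((var 1) * (var 3))) + (num (-543650) * ((var 2) * (var 3))) + (num (-8286387) * ((var 0) * (var 3))))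
  k2d := num 65536 * ((var 1) * ((num 500)) + num 2 * (var 2) * (((num 500)) - (((num 251) + (num (-271) * (var 1))) + ((num 249) + (num (-261) * (var 1))) * (var 3))))

/-- Its ranges. -/
def bxIz129 : StripEnd.EBox :=
  ⟨(3, 4, 40), (0, 1, 50), (3, 6, 40), (0, 1, 1)⟩
end Vale.Agent.P100.Calib.StripEndD
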