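import Vale.Agent.P100.Calib.SlabStripEndIZ7Strict
import Vale.Agent.P100.Calib.SlabStripEndBigSgn

/-!
# A piece of the `I` and `Z` charts for `N` between seven and twenty: 13
-/

namespace Vale.Agent.P100.Calib.StripEndD

open Pack hiding ev_add ev_mul
open Pack.Ex StripMid StripEnd

local instance endIZ7P13Add : Add Ex := ⟨Ex.add⟩
local instance endIZ7P13Sub : Sub Ex := ⟨Ex.sub⟩
local instance endIZ7P13Mul : Mul Ex := ⟨Ex.mul⟩

/-- The piece `Iz13`. -/
def pcIz13 : Piece where
  I := (var 0)
  d := (var 0) * (var 2)
  w := ((var 0) * (var 1))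
  o := (((num 242) + (num (-301) * (var 1))) + ((num 258) + (num (-309) * (var 1))) * (var 3))
  den := ((num 500))
  vn := num 2 * (((num 242) + (num (-301) * (var 1))) + ((num 258) + (num (-309) * (var 1))) * (var 3))
  vs := (num 1 - num 2 * (var 0) - (var 0) * (var 2))
  mu := ⟨(89, 50), (117, 50)⟩
  pn := fun b => cond b
    (num 50 * (((num 500)) - (((num 242) + (num (-301) * (var 1))) + ((num 258) + (num (-309) * (var 1))) * (var 3))) + num (-117) * ((((num 242) + (num (-301) * (var 1))) + ((num 258) + (num (-309) * (var 1))) * (var 3)) * ((var 0) * (var 1))))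
    (num 50 * (((num 500)) - (((num 242) + (num (-301) * (var 1))) + ((num 258) + (num (-309) * (var 1))) * (var 3))) + num (-89) * ((((num 242) + (num (-301) * (var 1))) + ((num 258) + (num (-309) * (var 1))) * (var 3)) * ((var 0) * (var 1))))
  pd := num 50
  en := fun b => cond b
    (((num 33782) + (num 64436 * (var 0))) * (num 4 * (var 0) * (((num 500)) - (((num 242) + (num (-301) * (var 1))) + ((num 258) + (num (-309) * (var 1))) * (var 3))) * ((var 2) + num 3 * (var 0)) + (var 1) * ((num 500)) * (num 1 + num 20 * ((var 0) * (var 2)))))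
    (((num 29805) + (num 64436 * (var 0))) * (num 4 * (var 0) * (((num 500)) - (((num 242) + (num (-301) * (var 1))) + ((num 258) + (num (-309) * (var 1))) * (var 3))) * ((var 2) + num 3 * (var 0)) + (var 1) * ((num 500)) * (num 1 + num 20 * ((var 0) * (var 2)))))
  kk := fun b => cond b
    (((num (-2040)) + (num 27816 * (var 2))) * (((var 0) * (var 1)) * (num 4 * ((num 500)) * ((var 2) + num 3 * (var 0)))))
    (((num (-2343)) + (num 27816 * (var 2))) * (((var 0) * (var 1)) * (num 4 * ((num 500)) * ((var 2) + num 3 * (var 0)))))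
  f0 := num 8000 * ((num 500)) * ((var 2) + num 3 * (var 0))
  wn := fun b => cond b
    (((num (-10576) * ((var 0) * (((num 500)) - (((num 242) + (num (-301) * (var 1))) + ((num 258) + (num (-309) * (var 1))) * (var 3))))) + (num 15586 * (((var 0) * (var 1)) * (((num 242) + (num (-301) * (var 1))) + ((num 258) + (num (-309) * (var 1))) * (var 3)))) + (num (-5884) * (((var 0) * (var 1)) * ((num 500)))) + (num 1636 * ((var 0) * (var 2) * (((num 500)) - (((num 242) + (num (-301) * (var 1))) + ((num 258) + (num (-309) * (var 1))) * (var 3)))))))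
    (((num (-11447) * ((var 0) * (((num 500)) - (((num 242) + (num (-301) * (var 1))) + ((num 258) + (num (-309) * (var 1))) * (var 3))))) + (num 15586 * (((var 0) * (var 1)) * (((num 242) + (num (-301) * (var 1))) + ((num 258) + (num (-309) * (var 1))) * (var 3)))) + (num (-6755) * (((var 0) * (var 1)) * ((num 500)))) + (num 1636 * ((var 0) * (var 2) * (((num 500)) - (((num 242) + (num (-301) * (var 1))) + ((num 258) + (num (-309) * (var 1))) * (var 3)))))))
  wd := num 1000 * ((num 500))
  tn := fun b => cond b
    (num 10564 * ((var 1) * ((num 500))))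
    (num 8081 * ((var 1) * ((num 500))))
  td := num 8000 * ((var 1) * ((num 500)) + num 2 * (var 2) * (((num 500)) - (((num 242) + (num (-301) * (var 1))) + ((num 258) + (num (-309) * (var 1))) * (var 3))))
  cn := num 0
  cd := num 1
  kn := ((num 500)) * ((((num 500)) - (((num 242) + (num (-301) * (var 1))) + ((num 258) + (num (-309) * (var 1))) * (var 3))) * ((num 14660) + (num 238785 * (var 0)) + (num (-1144093) * (var 1)) + (num (-13809) * (var 2)) + (num 20872 * (var 3)) + (num (-747559) * ((var 1) * (var 3))) + (num (-48284) * ((var 2) * (var 3))) + (num (-102380) * ((var 0) * (var 3)))) + (var 1) * ((num 500)) * ((num 65090) + (num 3092374 * (var 0)) + (num 2420588 * (var 1)) + (num 638188 * (var 2)) + (num (-167837) * (var 3)) + (num (-490182) * ((var 2) * (var 3))) + (num (-2390294) * ((var 0) * (var 3)))))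
  kd := num 65536 * ((var 0) * ((((num 500)) - (((num 242) + (num (-301) * (var 1))) + ((num 258) + (num (-309) * (var 1))) * (var 3))) + (var 1) * ((num 500)))) * (((num 500)) - (((num 242) + (num (-301) * (var 1))) + ((num 258) + (num (-309) * (var 1))) * (var 3)))
  k2n := ((var 1) * ((num 500)) + num 2 * (var 2) * (((num 500)) - (((num 242) + (num (-301) * (var 1))) + ((num 258) + (num (-309) * (var 1))) * (var 3)))) * ((num 317206) + (num (-282057) * (var 0)) + (num (-7523054) * (var 1)) + (num (-538774) * (var 2)) + (num (-233316) * (var 3)) + (num 5410018 * ((var 1) * (var 3))) + (num 479694 * ((var 2) * (var 3))) + (num 121972 * ((var 0) * (var 3)))) + (var 1) * ((num 500)) * ((num (-317203)) + (num 282057 * (var 0)) + (num 60673672 * (var 1)) + (num 538774 * (var 2)) + (num 241340 * (var 3)) + (num (-58107092) * ((var 1) * (var 3))) + (num (-479694) * ((var 2) * (var 3))) + (num (-180326) * ((var 0) * (var 3))))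
  k2d := num 65536 * ((var 1) * ((num 500)) + num 2 * (var 2) * (((num 500)) - (((num 242) + (num (-301) * (var 1))) + ((num 258) + (num (-309) * (var 1))) * (var 3))))

/-- Its ranges. -/
def bxIz13 : StripEnd.EBox :=
  ⟨(10, 11, 80), (0, 1, 50), (12, 19, 80), (0, 1, 1)⟩
end Vale.Agent.P100.Calib.StripEndD
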