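import Vale.Agent.P100.Calib.SlabStripEndIZ7Strict
import Vale.Agent.P100.Calib.SlabStripEndBigSgn

/-!
# A piece of the `I` and `Z` charts for `N` between seven and twenty: 14
-/

namespace Vale.Agent.P100.Calib.StripEndD

open Pack hiding ev_add ev_mul
open Pack.Ex StripMid StripEnd

local instance endIZ7P14Add : Add Ex := ⟨Ex.add⟩
local instance endIZ7P14Sub : Sub Ex := ⟨Ex.sub⟩
local instance endIZ7P14Mul : Mul Ex := ⟨Ex.mul⟩

/-- The piece `Iz14`. -/
def pcIz14 : Piece where
  I := (var 0)
  d := (var 0) * (var 2)
  w := ((var 0) * (var 1))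
  o := (((num 239) + (num (-564) * (var 1))) + ((num 261) + (num (-274) * (var 1))) * (var 3))
  den := ((num 500))
  vn := num 2 * (((num 239) + (num (-564) * (var 1))) + ((num 261) + (num (-274) * (var 1))) * (var 3))
  vs := (num 1 - num 2 * (var 0) - (var 0) * (var 2))
  mu := ⟨(96, 50), (127, 50)⟩
  pn := fun b => cond b
    (num 50 * (((num 500)) - (((num 239) + (num (-564) * (var 1))) + ((num 261) + (num (-274) * (var 1))) * (var 3))) + num (-127) * ((((num 239) + (num (-564) * (var 1))) + ((num 261) + (num (-274) * (var 1))) * (var 3)) * ((var 0) * (var 1))))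
    (num 50 * (((num 500)) - (((num 239) + (num (-564) * (var 1))) + ((num 261) + (num (-274) * (var 1))) * (var 3))) + num (-96) * ((((num 239) + (num (-564) * (var 1))) + ((num 261) + (num (-274) * (var 1))) * (var 3)) * ((var 0) * (var 1))))
  pd := num 50
  en := fun b => cond b
    (((num 35449) + (num 56686 * (var 0))) * (num 4 * (var 0) * (((num 500)) - (((num 239) + (num (-564) * (var 1))) + ((num 261) + (num (-274) * (var 1))) * (var 3))) * ((var 2) + num 3 * (var 0)) + (var 1) * ((num 500)) * (num 1 + num 20 * ((var 0) * (var 2)))))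
    (((num 30198) + (num 56686 * (var 0))) * (num 4 * (var 0) * (((num 500)) - (((num 239) + (num (-564) * (var 1))) + ((num 261) + (num (-274) * (var 1))) * (var 3))) * ((var 2) + num 3 * (var 0)) + (var 1) * ((num 500)) * (num 1 + num 20 * ((var 0) * (var 2)))))
  kk := fun b => cond b
    (((num (-1416)) + (num 27580 * (var 2))) * (((var 0) * (var 1)) * (num 4 * ((num 500)) * ((var 2) + num 3 * (var 0)))))
    (((num (-2808)) + (num 27580 * (var 2))) * (((var 0) * (var 1)) * (num 4 * ((num 500)) * ((var 2) + num 3 * (var 0)))))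
  f0 := num 8000 * ((num 500)) * ((var 2) + num 3 * (var 0))
  wn := fun b => cond b
    (((num (-10549) * ((var 0) * (((num 500)) - (((num 239) + (num (-564) * (var 1))) + ((num 261) + (num (-274) * (var 1))) * (var 3))))) + (num 22154 * (((var 0) * (var 1)) * (((num 239) + (num (-564) * (var 1))) + ((num 261) + (num (-274) * (var 1))) * (var 3)))) + (num (-10964) * (((var 0) * (var 1)) * ((num 500)))) + (num 1681 * ((var 0) * (var 2) * (((num 500)) - (((num 239) + (num (-564) * (var 1))) + ((num 261) + (num (-274) * (var 1))) * (var 3)))))))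
    (((num (-11737) * ((var 0) * (((num 500)) - (((num 239) + (num (-564) * (var 1))) + ((num 261) + (num (-274) * (var 1))) * (var 3))))) + (num 22154 * (((var 0) * (var 1)) * (((num 239) + (num (-564) * (var 1))) + ((num 261) + (num (-274) * (var 1))) * (var 3)))) + (num (-12152) * (((var 0) * (var 1)) * ((num 500)))) + (num 1681 * ((var 0) * (var 2) * (((num 500)) - (((num 239) + (num (-564) * (var 1))) + ((num 261) + (num (-274) * (var 1))) * (var 3)))))))
  wd := num 1000 * ((num 500))
  tn := fun b => cond b
    (num 10374 * ((var 1) * ((num 500))))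
    (num 8295 * ((var 1) * ((num 500))))
  td := num 8000 * ((var 1) * ((num 500)) + num 2 * (var 2) * (((num 500)) - (((num 239) + (num (-564) * (var 1))) + ((num 261) + (num (-274) * (var 1))) * (var 3))))
  cn := num 0
  cd := num 1
  kn := ((num 500)) * ((num 962) + (num (-1552) * (var 0)) + (num (-7625) * (var 1)) + (num (-459) * (var 2)) + (num (-1008) * (var 3)) + (num 7805 * ((var 1) * (var 3))) + (num 1173 * ((var 2) * (var 3))) + (num 4395 * ((var 0) * (var 3))))
  kd := num 128 * (((num 500)) - (((num 239) + (num (-564) * (var 1))) + ((num 261) + (num (-274) * (var 1))) * (var 3)))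
  k2n := ((num 246) + (num (-184) * (var 0)) + (num (-5156) * (var 1)) + (num (-169) * (var 2)) + (num (-143) * (var 3)) + (num 7072 * ((var 1) * (var 3))) + (num 60 * ((var 2) * (var 3))) + (num (-187) * ((var 0) * (var 3))))
  k2d := num 64

/-- Its ranges. -/
def bxIz14 : StripEnd.EBox :=
  ⟨(10, 11, 80), (0, 1, 50), (26, 33, 80), (0, 1, 1)⟩
end Vale.Agent.P100.Calib.StripEndD
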