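import Vale.Agent.P100.Calib.SlabStripEndIZ7Strict
import Vale.Agent.P100.Calib.SlabStripEndBigSgn

/-!
# A piece of the `I` and `Z` charts for `N` between seven and twenty: 15
-/

namespace Vale.Agent.P100.Calib.StripEndD

open Pack hiding ev_add ev_mul
open Pack.Ex StripMid StripEnd

local instance endIZ7P15Add : Add Ex := ⟨Ex.add⟩
local instance endIZ7P15Sub : Sub Ex := ⟨Ex.sub⟩
local instance endIZ7P15Mul : Mul Ex := ⟨Ex.mul⟩

/-- The piece `Iz15`. -/
def pcIz15 : Piece where
  I := (var 0)
  d := (var 0) * (var 2)
  w := ((var 0) * (var 1))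
  o := (((num 245) + (num (-299) * (var 1))) + ((num 255) + (num (-317) * (var 1))) * (var 3))
  den := ((num 500))
  vn := num 2 * (((num 245) + (num (-299) * (var 1))) + ((num 255) + (num (-317) * (var 1))) * (var 3))
  vs := (num 1 - num 2 * (var 0) - (var 0) * (var 2))
  mu := ⟨(91, 50), (118, 50)⟩
  pn := fun b => cond b
    (num 50 * (((num 500)) - (((num 245) + (num (-299) * (var 1))) + ((num 255) + (num (-317) * (var 1))) * (var 3))) + num (-118) * ((((num 245) + (num (-299) * (var 1))) + ((num 255) + (num (-317) * (var 1))) * (var 3)) * ((var 0) * (var 1))))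
    (num 50 * (((num 500)) - (((num 245) + (num (-299) * (var 1))) + ((num 255) + (num (-317) * (var 1))) * (var 3))) + num (-91) * ((((num 245) + (num (-299) * (var 1))) + ((num 255) + (num (-317) * (var 1))) * (var 3)) * ((var 0) * (var 1))))
  pd := num 50
  en := fun b => cond b
    (((num 35182) + (num 58500 * (var 0))) * (num 4 * (var 0) * (((num 500)) - (((num 245) + (num (-299) * (var 1))) + ((num 255) + (num (-317) * (var 1))) * (var 3))) * ((var 2) + num 3 * (var 0)) + (var 1) * ((num 500)) * (num 1 + num 20 * ((var 0) * (var 2)))))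
    (((num 30331) + (num 58500 * (var 0))) * (num 4 * (var 0) * (((num 500)) - (((num 245) + (num (-299) * (var 1))) + ((num 255) + (num (-317) * (var 1))) * (var 3))) * ((var 2) + num 3 * (var 0)) + (var 1) * ((num 500)) * (num 1 + num 20 * ((var 0) * (var 2)))))
  kk := fun b => cond b
    (((num (-2317)) + (num 29182 * (var 2))) * (((var 0) * (var 1)) * (num 4 * ((num 500)) * ((var 2) + num 3 * (var 0)))))
    (((num (-2633)) + (num 29182 * (var 2))) * (((var 0) * (var 1)) * (num 4 * ((num 500)) * ((var 2) + num 3 * (var 0)))))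
  f0 := num 8000 * ((num 500)) * ((var 2) + num 3 * (var 0))
  wn := fun b => cond b
    (((num (-10930) * ((var 0) * (((num 500)) - (((num 245) + (num (-299) * (var 1))) + ((num 255) + (num (-317) * (var 1))) * (var 3))))) + (num 16881 * (((var 0) * (var 1)) * (((num 245) + (num (-299) * (var 1))) + ((num 255) + (num (-317) * (var 1))) * (var 3)))) + (num (-6640) * (((var 0) * (var 1)) * ((num 500)))) + (num 1860 * ((var 0) * (var 2) * (((num 500)) - (((num 245) + (num (-299) * (var 1))) + ((num 255) + (num (-317) * (var 1))) * (var 3)))))))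
    (((num (-11683) * ((var 0) * (((num 500)) - (((num 245) + (num (-299) * (var 1))) + ((num 255) + (num (-317) * (var 1))) * (var 3))))) + (num 16881 * (((var 0) * (var 1)) * (((num 245) + (num (-299) * (var 1))) + ((num 255) + (num (-317) * (var 1))) * (var 3)))) + (num (-7393) * (((var 0) * (var 1)) * ((num 500)))) + (num 1860 * ((var 0) * (var 2) * (((num 500)) - (((num 245) + (num (-299) * (var 1))) + ((num 255) + (num (-317) * (var 1))) * (var 3)))))))
  wd := num 1000 * ((num 500))
  tn := fun b => cond b
    (num 10718 * ((var 1) * ((num 500))))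
    (num 8105 * ((var 1) * ((num 500))))
  td := num 8000 * ((var 1) * ((num 500)) + num 2 * (var 2) * (((num 500)) - (((num 245) + (num (-299) * (var 1))) + ((num 255) + (num (-317) * (var 1))) * (var 3))))
  cn := num 0
  cd := num 1
  kn := ((num 500)) * ((((num 500)) - (((num 245) + (num (-299) * (var 1))) + ((num 255) + (num (-317) * (var 1))) * (var 3))) * ((num (-18673)) + (num 245399 * (var 0)) + (num 42824 * (var 1)) + (num 133952 * (var 2)) + (num 72717 * (var 3)) + (num 854653 * ((var 1) * (var 3))) + (num (-218714) * ((var 2) * (var 3))) + (num (-200214) * ((var 0) * (var 3)))) + (var 1) * ((num 500)) * ((num (-320501)) + (num 908566 * (var 0)) + (num (-986504) * (var 1)) + (num 1139565 * (var 2)) + (num 133129 * (var 3)) + (num (-874953) * ((var 2) * (var 3))) + (num 203208 * ((var 0) * (var 3)))))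
  kd := num 65536 * ((var 0) * ((((num 500)) - (((num 245) + (num (-299) * (var 1))) + ((num 255) + (num (-317) * (var 1))) * (var 3))) + (var 1) * ((num 500)))) * (((num 500)) - (((num 245) + (num (-299) * (var 1))) + ((num 255) + (num (-317) * (var 1))) * (var 3)))
  k2n := ((var 1) * ((num 500)) + num 2 * (var 2) * (((num 500)) - (((num 245) + (num (-299) * (var 1))) + ((num 255) + (num (-317) * (var 1))) * (var 3)))) * ((num (-117092)) + (num 1689586 * (var 0)) + (num (-6508157) * (var 1)) + (num 99603 * (var 2)) + (num 207440 * (var 3)) + (num 4216418 * ((var 1) * (var 3))) + (num (-133144) * ((var 2) * (var 3))) + (num (-1934152) * ((var 0) * (var 3)))) + (var 1) * ((num 500)) * ((num 3341642) + (num (-20716509) * (var 0)) + (num 8328821 * (var 1)) + (num (-2160348) * (var 2)) + (num (-3431987) * (var 3)) + (num (-5470676) * ((var 1) * (var 3))) + (num 2193888 * ((var 2) * (var 3))) + (num 20961075 * ((var 0) * (var 3))))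
  k2d := num 65536 * ((var 1) * ((num 500)) + num 2 * (var 2) * (((num 500)) - (((num 245) + (num (-299) * (var 1))) + ((num 255) + (num (-317) * (var 1))) * (var 3))))

/-- Its ranges. -/
def bxIz15 : StripEnd.EBox :=
  ⟨(22, 23, 160), (0, 1, 50), (12, 19, 80), (0, 1, 1)⟩
end Vale.Agent.P100.Calib.StripEndD
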