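import Vale.Agent.P100.Calib.SlabStripEndIZ7Strict
import Vale.Agent.P100.Calib.SlabStripEndBigSgn

/-!
# A piece of the `I` and `Z` charts for `N` between seven and twenty: 16
-/

namespace Vale.Agent.P100.Calib.StripEndD

open Pack hiding ev_add ev_mul
open Pack.Ex StripMid StripEnd

local instance endIZ7P16Add : Add Ex := ⟨Ex.add⟩
local instance endIZ7P16Sub : Sub Ex := ⟨Ex.sub⟩
local instance endIZ7P16Mul : Mul Ex := ⟨Ex.mul⟩

/-- The piece `Iz16`. -/
def pcIz16 : Piece where
  I := (var 0)
  d := (var 0) * (var 2)
  w := ((var 0) * (var 1))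
  o := (((num 239) + (num (-533) * (var 1))) + ((num 261) + (num (-326) * (var 1))) * (var 3))
  den := ((num 500))
  vn := num 2 * (((num 239) + (num (-533) * (var 1))) + ((num 261) + (num (-326) * (var 1))) * (var 3))
  vs := (num 1 - num 2 * (var 0) - (var 0) * (var 2))
  mu := ⟨(96, 50), (129, 50)⟩
  pn := fun b => cond b
    (num 50 * (((num 500)) - (((num 239) + (num (-533) * (var 1))) + ((num 261) + (num (-326) * (var 1))) * (var 3))) + num (-129) * ((((num 239) + (num (-533) * (var 1))) + ((num 261) + (num (-326) * (var 1))) * (var 3)) * ((var 0) * (var 1))))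
    (num 50 * (((num 500)) - (((num 239) + (num (-533) * (var 1))) + ((num 261) + (num (-326) * (var 1))) * (var 3))) + num (-96) * ((((num 239) + (num (-533) * (var 1))) + ((num 261) + (num (-326) * (var 1))) * (var 3)) * ((var 0) * (var 1))))
  pd := num 50
  en := fun b => cond b
    (((num 36882) + (num 50472 * (var 0))) * (num 4 * (var 0) * (((num 500)) - (((num 239) + (num (-533) * (var 1))) + ((num 261) + (num (-326) * (var 1))) * (var 3))) * ((var 2) + num 3 * (var 0)) + (var 1) * ((num 500)) * (num 1 + num 20 * ((var 0) * (var 2)))))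
    (((num 30756) + (num 50472 * (var 0))) * (num 4 * (var 0) * (((num 500)) - (((num 239) + (num (-533) * (var 1))) + ((num 261) + (num (-326) * (var 1))) * (var 3))) * ((var 2) + num 3 * (var 0)) + (var 1) * ((num 500)) * (num 1 + num 20 * ((var 0) * (var 2)))))
  kk := fun b => cond b
    (((num (-1901)) + (num 29472 * (var 2))) * (((var 0) * (var 1)) * (num 4 * ((num 500)) * ((var 2) + num 3 * (var 0)))))
    (((num (-3198)) + (num 29472 * (var 2))) * (((var 0) * (var 1)) * (num 4 * ((num 500)) * ((var 2) + num 3 * (var 0)))))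
  f0 := num 8000 * ((num 500)) * ((var 2) + num 3 * (var 0))
  wn := fun b => cond b
    (((num (-10884) * ((var 0) * (((num 500)) - (((num 239) + (num (-533) * (var 1))) + ((num 261) + (num (-326) * (var 1))) * (var 3))))) + (num 24258 * (((var 0) * (var 1)) * (((num 239) + (num (-533) * (var 1))) + ((num 261) + (num (-326) * (var 1))) * (var 3)))) + (num (-12335) * (((var 0) * (var 1)) * ((num 500)))) + (num 1906 * ((var 0) * (var 2) * (((num 500)) - (((num 239) + (num (-533) * (var 1))) + ((num 261) + (num (-326) * (var 1))) * (var 3)))))))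
    (((num (-12014) * ((var 0) * (((num 500)) - (((num 239) + (num (-533) * (var 1))) + ((num 261) + (num (-326) * (var 1))) * (var 3))))) + (num 24258 * (((var 0) * (var 1)) * (((num 239) + (num (-533) * (var 1))) + ((num 261) + (num (-326) * (var 1))) * (var 3)))) + (num (-13465) * (((var 0) * (var 1)) * ((num 500)))) + (num 1906 * ((var 0) * (var 2) * (((num 500)) - (((num 239) + (num (-533) * (var 1))) + ((num 261) + (num (-326) * (var 1))) * (var 3)))))))
  wd := num 1000 * ((num 500))
  tn := fun b => cond b
    (num 10514 * ((var 1) * ((num 500))))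
    (num 8338 * ((var 1) * ((num 500))))
  td := num 8000 * ((var 1) * ((num 500)) + num 2 * (var 2) * (((num 500)) - (((num 239) + (num (-533) * (var 1))) + ((num 261) + (num (-326) * (var 1))) * (var 3))))
  cn := num 0
  cd := num 1
  kn := ((num 500)) * ((num 665) + (num 1160 * (var 0)) + (num 579 * (var 1)) + (num (-1452) * (var 2)) + (num (-1689) * (var 3)) + (num 233 * ((var 1) * (var 3))) + (num 2406 * ((var 2) * (var 3))) + (num 7451 * ((var 0) * (var 3))))
  kd := num 512 * ((var 0) * ((((num 500)) - (((num 239) + (num (-533) * (var 1))) + ((num 261) + (num (-326) * (var 1))) * (var 3))) + (var 1) * ((num 500))))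
  k2n := ((num (-63)) + (num 1275 * (var 0)) + (num (-5274) * (var 1)) + (num 100 * (var 2)) + (num 487 * (var 3)) + (num 5333 * ((var 1) * (var 3))) + (num (-666) * ((var 2) * (var 3))) + (num (-2553) * ((var 0) * (var 3))))
  k2d := num 64

/-- Its ranges. -/
def bxIz16 : StripEnd.EBox :=
  ⟨(22, 23, 160), (0, 1, 50), (26, 33, 80), (0, 1, 1)⟩
end Vale.Agent.P100.Calib.StripEndD
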