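import Vale.Agent.P100.Calib.SlabStripEndDCert
import Vale.Agent.P100.Calib.SlabStripEndBigSgn

/-!
# A piece of the `I` and `Z` charts for `N` between seven and twenty: 17
-/

namespace Vale.Agent.P100.Calib.StripEndD

open Pack hiding ev_add ev_mul
open Pack.Ex StripMid StripEnd

local instance endIZ7P17Add : Add Ex := ⟨Ex.add⟩
local instance endIZ7P17Sub : Sub Ex := ⟨Ex.sub⟩
local instance endIZ7P17Mul : Mul Ex := ⟨Ex.mul⟩

/-- The piece `Iz17`. -/
def pcIz17 : Piece where
  I := (var 0)
  d := (var 0) * (var 2)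
  w := ((var 0) * (var 1))
  o := (((num 47) + (num (-47) * (var 1))) + ((num 53) + (num (-50) * (var 1))) * (var 3))
  den := ((num 100))
  vn := num 2 * (((num 47) + (num (-47) * (var 1))) + ((num 53) + (num (-50) * (var 1))) * (var 3))
  vs := (num 1 - num 2 * (var 0) - (var 0) * (var 2))
  mu := ⟨(92, 50), (121, 50)⟩
  pn := fun b => cond b
    (num 50 * (((num 100)) - (((num 47) + (num (-47) * (var 1))) + ((num 53) + (num (-50) * (var 1))) * (var 3))) + num (-121) * ((((num 47) + (num (-47) * (var 1))) + ((num 53) + (num (-50) * (var 1))) * (var 3)) * ((var 0) * (var 1))))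
    (num 50 * (((num 100)) - (((num 47) + (num (-47) * (var 1))) + ((num 53) + (num (-50) * (var 1))) * (var 3))) + num (-92) * ((((num 47) + (num (-47) * (var 1))) + ((num 53) + (num (-50) * (var 1))) * (var 3)) * ((var 0) * (var 1))))
  pd := num 50
  en := fun b => cond b
    (((num 27022) + (num 127812 * (var 0))) * (num 4 * (var 0) * (((num 100)) - (((num 47) + (num (-47) * (var 1))) + ((num 53) + (num (-50) * (var 1))) * (var 3))) * ((var 2) + num 3 * (var 0)) + (var 1) * ((num 100)) * (num 1 + num 20 * ((var 0) * (var 2)))))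
    (((num 22631) + (num 127812 * (var 0))) * (num 4 * (var 0) * (((num 100)) - (((num 47) + (num (-47) * (var 1))) + ((num 53) + (num (-50) * (var 1))) * (var 3))) * ((var 2) + num 3 * (var 0)) + (var 1) * ((num 100)) * (num 1 + num 20 * ((var 0) * (var 2)))))
  kk := fun b => cond b
    (((num 1757) + (num 17294 * (var 2))) * (((var 0) * (var 1)) * (num 4 * ((num 100)) * ((var 2) + num 3 * (var 0)))))
    (((num (-1104)) + (num 17294 * (var 2))) * (((var 0) * (var 1)) * (num 4 * ((num 100)) * ((var 2) + num 3 * (var 0)))))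
  f0 := num 8000 * ((num 100)) * ((var 2) + num 3 * (var 0))
  wn := fun b => cond b
    (((num (-9007) * ((var 0) * (((num 100)) - (((num 47) + (num (-47) * (var 1))) + ((num 53) + (num (-50) * (var 1))) * (var 3))))) + (num 8287 * (((var 0) * (var 1)) * (((num 47) + (num (-47) * (var 1))) + ((num 53) + (num (-50) * (var 1))) * (var 3)))) + (num (-566) * (((var 0) * (var 1)) * ((num 100)))) + (num 976 * ((var 0) * (var 2) * (((num 100)) - (((num 47) + (num (-47) * (var 1))) + ((num 53) + (num (-50) * (var 1))) * (var 3)))))))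
    (((num (-10501) * ((var 0) * (((num 100)) - (((num 47) + (num (-47) * (var 1))) + ((num 53) + (num (-50) * (var 1))) * (var 3))))) + (num 8287 * (((var 0) * (var 1)) * (((num 47) + (num (-47) * (var 1))) + ((num 53) + (num (-50) * (var 1))) * (var 3)))) + (num (-2060) * (((var 0) * (var 1)) * ((num 100)))) + (num 976 * ((var 0) * (var 2) * (((num 100)) - (((num 47) + (num (-47) * (var 1))) + ((num 53) + (num (-50) * (var 1))) * (var 3)))))))
  wd := num 1000 * ((num 100))
  tn := fun b => cond b
    (num 9865 * ((var 1) * ((num 100))))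
    (num 8083 * ((var 1) * ((num 100))))
  td := num 8000 * ((var 1) * ((num 100)) + num 2 * (var 2) * (((num 100)) - (((num 47) + (num (-47) * (var 1))) + ((num 53) + (num (-50) * (var 1))) * (var 3))))
  cn := num 0
  cd := num 1
  kn := ((num 100)) * ((num 1022) + (num 2386 * (var 0)) + (num (-4116) * (var 1)) + (num (-215) * (var 2)) + (num (-824) * (var 3)) + (num 2908 * ((var 1) * (var 3))) + (num 867 * ((var 2) * (var 3))) + (num 2561 * ((var 0) * (var 3))))
  kd := num 256 * (((num 100)) - (((num 47) + (num (-47) * (var 1))) + ((num 53) + (num (-50) * (var 1))) * (var 3)))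
  k2n := ((num (-950)) + (num 6480 * (var 0)) + (num 6344 * (var 2)))
  k2d := num 4096

/-- Its ranges. -/
def bxIz17 : StripEnd.EBox :=
  ⟨(1, 2, 20), (2, 15, 100), (3, 10, 20), (0, 1, 1)⟩
end Vale.Agent.P100.Calib.StripEndD
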