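import Vale.Agent.P100.Calib.SlabStripEndDCert
import Vale.Agent.P100.Calib.SlabStripEndBigSgn

/-!
# A piece of the `I` and `Z` charts for `N` between seven and twenty: 19
-/

namespace Vale.Agent.P100.Calib.StripEndD

open Pack hiding ev_add ev_mul
open Pack.Ex StripMid StripEnd

local instance endIZ7P19Add : Add Ex := ⟨Ex.add⟩
local instance endIZ7P19Sub : Sub Ex := ⟨Ex.sub⟩
local instance endIZ7P19Mul : Mul Ex := ⟨Ex.mul⟩

/-- The piece `Iz19`. -/
def pcIz19 : Piece where
  I := (var 0)
  d := (var 0) * (var 2)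
  w := ((var 0) * (var 1))
  o := (((num 48) + (num (-56) * (var 1))) + ((num 52) + (num (-70) * (var 1))) * (var 3))
  den := ((num 100))
  vn := num 2 * (((num 48) + (num (-56) * (var 1))) + ((num 52) + (num (-70) * (var 1))) * (var 3))
  vs := (num 1 - num 2 * (var 0) - (var 0) * (var 2))
  mu := ⟨(93, 50), (122, 50)⟩
  pn := fun b => cond b
    (num 50 * (((num 100)) - (((num 48) + (num (-56) * (var 1))) + ((num 52) + (num (-70) * (var 1))) * (var 3))) + num (-122) * ((((num 48) + (num (-56) * (var 1))) + ((num 52) + (num (-70) * (var 1))) * (var 3)) * ((var 0) * (var 1))))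
    (num 50 * (((num 100)) - (((num 48) + (num (-56) * (var 1))) + ((num 52) + (num (-70) * (var 1))) * (var 3))) + num (-93) * ((((num 48) + (num (-56) * (var 1))) + ((num 52) + (num (-70) * (var 1))) * (var 3)) * ((var 0) * (var 1))))
  pd := num 50
  en := fun b => cond b
    (((num 28921) + (num 105492 * (var 0))) * (num 4 * (var 0) * (((num 100)) - (((num 48) + (num (-56) * (var 1))) + ((num 52) + (num (-70) * (var 1))) * (var 3))) * ((var 2) + num 3 * (var 0)) + (var 1) * ((num 100)) * (num 1 + num 20 * ((var 0) * (var 2)))))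
    (((num 23773) + (num 105492 * (var 0))) * (num 4 * (var 0) * (((num 100)) - (((num 48) + (num (-56) * (var 1))) + ((num 52) + (num (-70) * (var 1))) * (var 3))) * ((var 2) + num 3 * (var 0)) + (var 1) * ((num 100)) * (num 1 + num 20 * ((var 0) * (var 2)))))
  kk := fun b => cond b
    (((num (-1123)) + (num 26192 * (var 2))) * (((var 0) * (var 1)) * (num 4 * ((num 100)) * ((var 2) + num 3 * (var 0)))))
    (((num (-2384)) + (num 26192 * (var 2))) * (((var 0) * (var 1)) * (num 4 * ((num 100)) * ((var 2) + num 3 * (var 0)))))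
  f0 := num 8000 * ((num 100)) * ((var 2) + num 3 * (var 0))
  wn := fun b => cond b
    (((num (-10309) * ((var 0) * (((num 100)) - (((num 48) + (num (-56) * (var 1))) + ((num 52) + (num (-70) * (var 1))) * (var 3))))) + (num 12672 * (((var 0) * (var 1)) * (((num 48) + (num (-56) * (var 1))) + ((num 52) + (num (-70) * (var 1))) * (var 3)))) + (num (-2520) * (((var 0) * (var 1)) * ((num 100)))) + (num 1825 * ((var 0) * (var 2) * (((num 100)) - (((num 48) + (num (-56) * (var 1))) + ((num 52) + (num (-70) * (var 1))) * (var 3)))))))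
    (((num (-11798) * ((var 0) * (((num 100)) - (((num 48) + (num (-56) * (var 1))) + ((num 52) + (num (-70) * (var 1))) * (var 3))))) + (num 12672 * (((var 0) * (var 1)) * (((num 48) + (num (-56) * (var 1))) + ((num 52) + (num (-70) * (var 1))) * (var 3)))) + (num (-4009) * (((var 0) * (var 1)) * ((num 100)))) + (num 1825 * ((var 0) * (var 2) * (((num 100)) - (((num 48) + (num (-56) * (var 1))) + ((num 52) + (num (-70) * (var 1))) * (var 3)))))))
  wd := num 1000 * ((num 100))
  tn := fun b => cond b
    (num 10616 * ((var 1) * ((num 100))))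
    (num 8237 * ((var 1) * ((num 100))))
  td := num 8000 * ((var 1) * ((num 100)) + num 2 * (var 2) * (((num 100)) - (((num 48) + (num (-56) * (var 1))) + ((num 52) + (num (-70) * (var 1))) * (var 3))))
  cn := num 0
  cd := num 1
  kn := ((num 100)) * ((num 2218) + (num 3067 * (var 0)) + (num (-1159) * (var 1)) + (num 53 * (var 2)) + (num (-2414) * (var 3)) + (num 3619 * ((var 1) * (var 3))) + (num 3476 * ((var 2) * (var 3))) + (num 6904 * ((var 0) * (var 3))))
  kd := num 512 * (((num 100)) - (((num 48) + (num (-56) * (var 1))) + ((num 52) + (num (-70) * (var 1))) * (var 3)))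
  k2n := ((num 1041) + (num 4469 * (var 0)) + (num (-6953) * (var 1)) + (num (-2803) * (var 2)) + (num (-1082) * (var 3)) + (num 7160 * ((var 1) * (var 3))) + (num 3361 * ((var 2) * (var 3))) + (num (-4179) * ((var 0) * (var 3))))
  k2d := num 1024

/-- Its ranges. -/
def bxIz19 : StripEnd.EBox :=
  ⟨(16, 23, 160), (2, 5, 100), (19, 26, 80), (0, 1, 1)⟩
end Vale.Agent.P100.Calib.StripEndD
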