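import Vale.Agent.P100.Calib.SlabStripEndIZ7Strict
import Vale.Agent.P100.Calib.SlabStripEndBigSgn

/-!
# A piece of the `I` and `Z` charts for `N` between seven and twenty: 2
-/

namespace Vale.Agent.P100.Calib.StripEndD

open Pack hiding ev_add ev_mul
open Pack.Ex StripMid StripEnd

local instance endIZ7P2Add : Add Ex := ⟨Ex.add⟩
local instance endIZ7P2Sub : Sub Ex := ⟨Ex.sub⟩
local instance endIZ7P2Mul : Mul Ex := ⟨Ex.mul⟩

/-- The piece `Iz2`. -/
def pcIz2 : Piece where
  I := (var 0)
  d := (var 0) * (var 2)
  w := ((var 0) * (var 1))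
  o := (((num 249) + (num (-252) * (var 1))) + ((num 251) + (num (-232) * (var 1))) * (var 3))
  den := ((num 500))
  vn := num 2 * (((num 249) + (num (-252) * (var 1))) + ((num 251) + (num (-232) * (var 1))) * (var 3))
  vs := (num 1 - num 2 * (var 0) - (var 0) * (var 2))
  mu := ⟨(88, 50), (108, 50)⟩
  pn := fun b => cond b
    (num 50 * (((num 500)) - (((num 249) + (num (-252) * (var 1))) + ((num 251) + (num (-232) * (var 1))) * (var 3))) + num (-108) * ((((num 249) + (num (-252) * (var 1))) + ((num 251) + (num (-232) * (var 1))) * (var 3)) * ((var 0) * (var 1))))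
    (num 50 * (((num 500)) - (((num 249) + (num (-252) * (var 1))) + ((num 251) + (num (-232) * (var 1))) * (var 3))) + num (-88) * ((((num 249) + (num (-252) * (var 1))) + ((num 251) + (num (-232) * (var 1))) * (var 3)) * ((var 0) * (var 1))))
  pd := num 50
  en := fun b => cond b
    (((num 30073) + (num 89918 * (var 0))) * (num 4 * (var 0) * (((num 500)) - (((num 249) + (num (-252) * (var 1))) + ((num 251) + (num (-232) * (var 1))) * (var 3))) * ((var 2) + num 3 * (var 0)) + (var 1) * ((num 500)) * (num 1 + num 20 * ((var 0) * (var 2)))))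
    (((num 24259) + (num 89918 * (var 0))) * (num 4 * (var 0) * (((num 500)) - (((num 249) + (num (-252) * (var 1))) + ((num 251) + (num (-232) * (var 1))) * (var 3))) * ((var 2) + num 3 * (var 0)) + (var 1) * ((num 500)) * (num 1 + num 20 * ((var 0) * (var 2)))))
  kk := fun b => cond b
    (((num (-999)) + (num 28034 * (var 2))) * (((var 0) * (var 1)) * (num 4 * ((num 500)) * ((var 2) + num 3 * (var 0)))))
    (((num (-1659)) + (num 28034 * (var 2))) * (((var 0) * (var 1)) * (num 4 * ((num 500)) * ((var 2) + num 3 * (var 0)))))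
  f0 := num 8000 * ((num 500)) * ((var 2) + num 3 * (var 0))
  wn := fun b => cond b
    (((num (-9363) * ((var 0) * (((num 500)) - (((num 249) + (num (-252) * (var 1))) + ((num 251) + (num (-232) * (var 1))) * (var 3))))) + (num 7682 * (((var 0) * (var 1)) * (((num 249) + (num (-252) * (var 1))) + ((num 251) + (num (-232) * (var 1))) * (var 3)))) + (num (-743) * (((var 0) * (var 1)) * ((num 500)))) + (num 860 * ((var 0) * (var 2) * (((num 500)) - (((num 249) + (num (-252) * (var 1))) + ((num 251) + (num (-232) * (var 1))) * (var 3)))))))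
    (((num (-10088) * ((var 0) * (((num 500)) - (((num 249) + (num (-252) * (var 1))) + ((num 251) + (num (-232) * (var 1))) * (var 3))))) + (num 7682 * (((var 0) * (var 1)) * (((num 249) + (num (-252) * (var 1))) + ((num 251) + (num (-232) * (var 1))) * (var 3)))) + (num (-1468) * (((var 0) * (var 1)) * ((num 500)))) + (num 860 * ((var 0) * (var 2) * (((num 500)) - (((num 249) + (num (-252) * (var 1))) + ((num 251) + (num (-232) * (var 1))) * (var 3)))))))
  wd := num 1000 * ((num 500))
  tn := fun b => cond b
    (num 10074 * ((var 1) * ((num 500))))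
    (num 7926 * ((var 1) * ((num 500))))
  td := num 8000 * ((var 1) * ((num 500)) + num 2 * (var 2) * (((num 500)) - (((num 249) + (num (-252) * (var 1))) + ((num 251) + (num (-232) * (var 1))) * (var 3))))
  cn := num 0
  cd := num 1
  kn := ((num 500)) * (((((num 500)) - (((num 249) + (num (-252) * (var 1))) + ((num 251) + (num (-232) * (var 1))) * (var 3))) + num 16 * ((var 1) * ((num 500)))) * ((num (-32260)) + (num 430177 * (var 0)) + (num 975846 * (var 1)) + (num 132359 * (var 2)) + (num 5788 * (var 3)) + (num (-801096) * ((var 1) * (var 3))) + (num (-98227) * ((var 2) * (var 3))) + (num 112503 * ((var 0) * (var 3)))) + (((num 500)) - (((num 249) + (num (-252) * (var 1))) + ((num 251) + (num (-232) * (var 1))) * (var 3))) * ((num 35086) + (num (-133330) * (var 0)) + (num (-1054292) * (var 1)) + (num (-208025) * (var 2)) + (num 10797 * (var 3)) + (num 200932 * ((var 2) * (var 3))) + (num (-197606) * ((var 0) * (var 3)))))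
  kd := num 65536 * ((var 0) * ((((num 500)) - (((num 249) + (num (-252) * (var 1))) + ((num 251) + (num (-232) * (var 1))) * (var 3))) + (var 1) * ((num 500)))) * ((((num 500)) - (((num 249) + (num (-252) * (var 1))) + ((num 251) + (num (-232) * (var 1))) * (var 3))) + num 16 * ((var 1) * ((num 500))))
  k2n := ((var 1) * ((num 500)) + num 2 * (var 2) * (((num 500)) - (((num 249) + (num (-252) * (var 1))) + ((num 251) + (num (-232) * (var 1))) * (var 3)))) * (((var 1) * ((num 500)) + num 2 * (var 2) * (((num 500)) - (((num 249) + (num (-252) * (var 1))) + ((num 251) + (num (-232) * (var 1))) * (var 3)))) * ((num (-6052)) + (num 663971 * (var 0)) + (num 9367288 * (var 1)) + (num (-417894) * (var 2)) + (num (-3451) * (var 3)) + (num (-9664424) * ((var 1) * (var 3))) + (num 923368 * ((var 2) * (var 3))) + (num 141430 * ((var 0) * (var 3)))) + ((var 1) * ((num 500))) * ((num 219041) + (num (-2518475) * (var 0)) + (num (-9377863) * (var 1)) + (num (-335922) * (var 2)) + (num (-165437) * (var 3)) + (num 9676235 * ((var 1) * (var 3))) + (num (-1079964)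 * ((var 2) * (var 3))) + (num 930268 * ((var 0) * (var 3))))) + ((var 1) * ((num 500))) * ((var 1) * ((num 500))) * ((num (-106976)) + (num 851421 * (var 0)) + (num 904730 * (var 2)) + (num 67212 * (var 3)))
  k2d := num 65536 * (((var 1) * ((num 500)) + num 2 * (var 2) * (((num 500)) - (((num 249) + (num (-252) * (var 1))) + ((num 251) + (num (-232) * (var 1))) * (var 3)))) * ((var 1) * ((num 500)) + num 2 * (var 2) * (((num 500)) - (((num 249) + (num (-252) * (var 1))) + ((num 251) + (num (-232) * (var 1))) * (var 3)))))

/-- Its ranges. -/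
def bxIz2 : StripEnd.EBox :=
  ⟨(3, 4, 40), (0, 1, 50), (0, 3, 40), (0, 1, 1)⟩
end Vale.Agent.P100.Calib.StripEndD
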