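import Vale.Agent.P100.Calib.SlabStripEndDExpr
import Vale.Agent.P100.Calib.SlabStripEndCert

/-!
# The piece 201 of the strip for `u` near one at small `d / I`
-/

namespace Vale.Agent.P100.Calib.StripEndD

open Pack hiding ev_add ev_mul
open Pack.Ex StripMid StripEnd

local instance endIZ7P201Add : Add Ex := ⟨Ex.add⟩
local instance endIZ7P201Sub : Sub Ex := ⟨Ex.sub⟩
local instance endIZ7P201Mul : Mul Ex := ⟨Ex.mul⟩

/-- The piece `Iz201`. -/
def pcIz201 : Piece where
  I := (var 0)
  d := (var 0) * (var 2)
  w := ((var 0) * (var 1))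
  o := (((num 452)) + ((num 10)) * (var 3))
  den := ((num 500))
  vn := num 2 * (((num 452)) + ((num 10)) * (var 3))
  vs := (num 1 - num 2 * (var 0) - (var 0) * (var 2))
  mu := ⟨(112, 50), (128, 50)⟩
  pn := fun b => cond b
    (num 8000 * (((num 500)) - (((num 452)) + ((num 10)) * (var 3))) + num (-128) * ((((num 452)) + ((num 10)) * (var 3)) * (var 0)))
    (num 8000 * (((num 500)) - (((num 452)) + ((num 10)) * (var 3))) + num 0 * ((((num 452)) + ((num 10)) * (var 3)) * (var 0)))
  pd := num 8000
  en := fun b => cond b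
    (((num 35194 * ((var 0) * (((num 500)) - (((num 452)) + ((num 10)) * (var 3)))))) + ((num 500)) * (var 0) * ((num 2087) + (num (-264) * (var 2)) + (num (-228) * (var 0))))
    (((num 35194 * ((var 0) * (((num 500)) - (((num 452)) + ((num 10)) * (var 3)))))) + ((num 500)) * (var 0) * ((num 134) + (num (-264) * (var 2)) + (num (-228) * (var 0))))
  kk := fun b => cond b
    (((num 500)) * (var 0) * ((num 79) + (num 22 * (var 2))) + ((num (-2) * ((var 0) * (((num 500)) - (((num 452)) + ((num 10)) * (var 3)))))))
    (((num 500)) * (var 0) * ((num (-24)) + (num 22 * (var 2))) + ((num (-2) * ((var 0) * (((num 500)) - (((num 452)) + ((num 10)) * (var 3)))))))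
  f0 := num 2000 * ((num 500))
  wn := fun b => cond b
    (((num (-9285) * ((var 0) * (((num 500)) - (((num 452)) + ((num 10)) * (var 3))))) + (num 603 * ((var 0) * (var 2) * (((num 500)) - (((num 452)) + ((num 10)) * (var 3)))))) + ((num 500)) * (var 0) * ((num 58) + (num (-799) * (var 0))))
    (((num (-9285) * ((var 0) * (((num 500)) - (((num 452)) + ((num 10)) * (var 3))))) + (num 603 * ((var 0) * (var 2) * (((num 500)) - (((num 452)) + ((num 10)) * (var 3)))))) + ((num 500)) * (var 0) * ((num 52) + (num (-799) * (var 0))))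
  wd := num 1000 * ((num 500))
  tn := fun b => cond b
    (((num 500)) * ((num 674) + (num (-128) * (var 2)) + (num 208 * (var 0))) + ((num (-1352) * (((num 500)) - (((num 452)) + ((num 10)) * (var 3))))))
    (((num 500)) * ((num 168) + (num (-128) * (var 2)) + (num 208 * (var 0))) + ((num (-1352) * (((num 500)) - (((num 452)) + ((num 10)) * (var 3))))))
  td := num 8000 * ((num 500))
  cn := num 0
  cd := num 1
  kn := ((num 871) + (num 6735 * (var 0)) + (num 3864 * (var 2)) + (num 4601 * (var 3)) + (num (-3702) * ((var 2) * (var 3))))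
  kd := num 128
  k2n := ((num 3147) + (num 6854 * (var 0)) + (num (-2535) * (var 2)) + (num (-6689) * (var 3)) + (num 7207 * ((var 2) * (var 3))))
  k2d := num 1024

/-- Its ranges. -/
def bxIz201 : StripEnd.EBox :=
  ⟨(2, 3, 40), (0, 1, 160), (15, 19, 20), (0, 1, 1)⟩

end Vale.Agent.P100.Calib.StripEndD
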