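import Vale.Agent.P100.Calib.SlabStripEndDExpr
import Vale.Agent.P100.Calib.SlabStripEndCert

/-!
# The piece 202 of the strip for `u` near one at small `d / I`
-/

namespace Vale.Agent.P100.Calib.StripEndD

open Pack hiding ev_add ev_mul
open Pack.Ex StripMid StripEnd

local instance endIZ7P202Add : Add Ex := ⟨Ex.add⟩
local instance endIZ7P202Sub : Sub Ex := ⟨Ex.sub⟩
local instance endIZ7P202Mul : Mul Ex := ⟨Ex.mul⟩

/-- The piece `Iz202`. -/
def pcIz202 : Piece where
  I := (var 0)
  d := (var 0) * (var 2)
  w := ((var 0) * (var 1))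
  o := (((num 306)) + ((num 146)) * (var 3))
  den := ((num 500))
  vn := num 2 * (((num 306)) + ((num 146)) * (var 3))
  vs := (num 1 - num 2 * (var 0) - (var 0) * (var 2))
  mu := ⟨(106, 50), (127, 50)⟩
  pn := fun b => cond b
    (num 8000 * (((num 500)) - (((num 306)) + ((num 146)) * (var 3))) + num (-127) * ((((num 306)) + ((num 146)) * (var 3)) * (var 0)))
    (num 8000 * (((num 500)) - (((num 306)) + ((num 146)) * (var 3))) + num 0 * ((((num 306)) + ((num 146)) * (var 3)) * (var 0)))
  pd := num 8000
  en := fun b => cond b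
    (((num 35196 * ((var 0) * (((num 500)) - (((num 306)) + ((num 146)) * (var 3)))))) + ((num 500)) * (var 0) * ((num 1959) + (num (-366) * (var 2)) + (num 3664 * (var 0))))
    (((num 35196 * ((var 0) * (((num 500)) - (((num 306)) + ((num 146)) * (var 3)))))) + ((num 500)) * (var 0) * ((num (-99)) + (num (-366) * (var 2)) + (num 3664 * (var 0))))
  kk := fun b => cond b
    (((num 500)) * (var 0) * ((num 81) + (num 20 * (var 2))) + ((num (-2) * ((var 0) * (((num 500)) - (((num 306)) + ((num 146)) * (var 3)))))))
    (((num 500)) * (var 0) * ((num (-22)) + (num 20 * (var 2))) + ((num (-2) * ((var 0) * (((num 500)) - (((num 306)) + ((num 146)) * (var 3)))))))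
  f0 := num 2000 * ((num 500))
  wn := fun b => cond b
    (((num (-9368) * ((var 0) * (((num 500)) - (((num 306)) + ((num 146)) * (var 3))))) + (num 336 * ((var 0) * (var 2) * (((num 500)) - (((num 306)) + ((num 146)) * (var 3)))))) + ((num 500)) * (var 0) * ((num 253) + (num (-2536) * (var 0))))
    (((num (-9368) * ((var 0) * (((num 500)) - (((num 306)) + ((num 146)) * (var 3))))) + (num 336 * ((var 0) * (var 2) * (((num 500)) - (((num 306)) + ((num 146)) * (var 3)))))) + ((num 500)) * (var 0) * ((num 138) + (num (-2536) * (var 0))))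
  wd := num 1000 * ((num 500))
  tn := fun b => cond b
    (((num 500)) * ((num 463) + (num (-72) * (var 2)) + (num 112 * (var 0))) + ((num (-272) * (((num 500)) - (((num 306)) + ((num 146)) * (var 3))))))
    (((num 500)) * ((num 59) + (num (-72) * (var 2)) + (num 112 * (var 0))) + ((num (-272) * (((num 500)) - (((num 306)) + ((num 146)) * (var 3))))))
  td := num 8000 * ((num 500))
  cn := num 0
  cd := num 1
  kn := ((num 1240) + (num (-726) * (var 0)) + (num (-602) * (var 2)) + (num 4896 * (var 3)) + (num (-1495) * ((var 2) * (var 3))))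
  kd := num 128
  k2n := ((num 334) + (num (-6327) * (var 0)) + (num 923 * (var 2)) + (num (-1758) * (var 3)) + (num 1719 * ((var 2) * (var 3))))
  k2d := num 256

/-- Its ranges. -/
def bxIz202 : StripEnd.EBox :=
  ⟨(2, 3, 40), (0, 1, 160), (15, 19, 20), (0, 1, 1)⟩

end Vale.Agent.P100.Calib.StripEndD
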