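import Vale.Agent.P100.Calib.SlabStripEndDExpr
import Vale.Agent.P100.Calib.SlabStripEndCert

/-!
# The piece 204 of the strip for `u` near one at small `d / I`
-/

namespace Vale.Agent.P100.Calib.StripEndD

open Pack hiding ev_add ev_mul
open Pack.Ex StripMid StripEnd

local instance endIZ7P204Add : Add Ex := ⟨Ex.add⟩
local instance endIZ7P204Sub : Sub Ex := ⟨Ex.sub⟩
local instance endIZ7P204Mul : Mul Ex := ⟨Ex.mul⟩

/-- The piece `Iz204`. -/
def pcIz204 : Piece where
  I := (var 0)
  d := (var 0) * (var 2)
  w := ((var 0) * (var 1))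
  o := (((num 237)) + ((num 21)) * (var 3))
  den := ((num 500))
  vn := num 2 * (((num 237)) + ((num 21)) * (var 3))
  vs := (num 1 - num 2 * (var 0) - (var 0) * (var 2))
  mu := ⟨(103, 50), (117, 50)⟩
  pn := fun b => cond b
    (num 8000 * (((num 500)) - (((num 237)) + ((num 21)) * (var 3))) + num (-117) * ((((num 237)) + ((num 21)) * (var 3)) * (var 0)))
    (num 8000 * (((num 500)) - (((num 237)) + ((num 21)) * (var 3))) + num 0 * ((((num 237)) + ((num 21)) * (var 3)) * (var 0)))
  pd := num 8000
  en := fun b => cond b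
    (((num 35196 * ((var 0) * (((num 500)) - (((num 237)) + ((num 21)) * (var 3)))))) + ((num 500)) * (var 0) * ((num 1376) + (num (-674) * (var 2)) + (num 15508 * (var 0))))
    (((num 35196 * ((var 0) * (((num 500)) - (((num 237)) + ((num 21)) * (var 3)))))) + ((num 500)) * (var 0) * ((num (-510)) + (num (-674) * (var 2)) + (num 15508 * (var 0))))
  kk := fun b => cond b
    (((num 500)) * (var 0) * ((num 75) + (num 20 * (var 2))) + ((num (-2) * ((var 0) * (((num 500)) - (((num 237)) + ((num 21)) * (var 3)))))))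
    (((num 500)) * (var 0) * ((num (-21)) + (num 20 * (var 2))) + ((num (-2) * ((var 0) * (((num 500)) - (((num 237)) + ((num 21)) * (var 3)))))))
  f0 := num 2000 * ((num 500))
  wn := fun b => cond b
    (((num (-9767) * ((var 0) * (((num 500)) - (((num 237)) + ((num 21)) * (var 3))))) + (num 88 * ((var 0) * (var 2) * (((num 500)) - (((num 237)) + ((num 21)) * (var 3)))))) + ((num 500)) * (var 0) * ((num 906) + (num (-9650) * (var 0))))
    (((num (-9767) * ((var 0) * (((num 500)) - (((num 237)) + ((num 21)) * (var 3))))) + (num 88 * ((var 0) * (var 2) * (((num 500)) - (((num 237)) + ((num 21)) * (var 3)))))) + ((num 500)) * (var 0) * ((num 878) + (num (-9650) * (var 0))))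
  wd := num 1000 * ((num 500))
  tn := fun b => cond b
    (((num 500)) * ((num 114) + (num (-24) * (var 2)) + (num 16 * (var 0))) + ((num (-40) * (((num 500)) - (((num 237)) + ((num 21)) * (var 3))))))
    (((num 500)) * ((num 31) + (num (-24) * (var 2)) + (num 16 * (var 0))) + ((num (-40) * (((num 500)) - (((num 237)) + ((num 21)) * (var 3))))))
  td := num 8000 * ((num 500))
  cn := num 0
  cd := num 1
  kn := ((num 4982) + (num (-2963) * (var 0)) + (num (-3027) * (var 2)) + (num (-1482) * (var 3)) + (num 2102 * ((var 2) * (var 3))))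
  kd := num 512
  k2n := ((num 5486) + (num (-6947) * (var 0)) + (num (-2721) * (var 2)) + (num (-5648) * (var 3)) + (num 5917 * ((var 2) * (var 3))))
  k2d := num 1024

/-- Its ranges. -/
def bxIz204 : StripEnd.EBox :=
  ⟨(2, 3, 40), (0, 1, 160), (15, 19, 20), (0, 1, 1)⟩

end Vale.Agent.P100.Calib.StripEndD
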