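import Vale.Agent.P100.Calib.SlabStripEndDExpr
import Vale.Agent.P100.Calib.SlabStripEndCert

/-!
# The piece 206 of the strip for `u` near one at small `d / I`
-/

namespace Vale.Agent.P100.Calib.StripEndD

open Pack hiding ev_add ev_mul
open Pack.Ex StripMid StripEnd

local instance endIZ7P206Add : Add Ex := ⟨Ex.add⟩
local instance endIZ7P206Sub : Sub Ex := ⟨Ex.sub⟩
local instance endIZ7P206Mul : Mul Ex := ⟨Ex.mul⟩

/-- The piece `Iz206`. -/
def pcIz206 : Piece where
  I := (var 0)
  d := (var 0) * (var 2)
  w := ((var 0) * (var 1))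
  o := (((num 345)) + ((num 93)) * (var 3))
  den := ((num 500))
  vn := num 2 * (((num 345)) + ((num 93)) * (var 3))
  vs := (num 1 - num 2 * (var 0) - (var 0) * (var 2))
  mu := ⟨(114, 50), (138, 50)⟩
  pn := fun b => cond b
    (num 8000 * (((num 500)) - (((num 345)) + ((num 93)) * (var 3))) + num (-138) * ((((num 345)) + ((num 93)) * (var 3)) * (var 0)))
    (num 8000 * (((num 500)) - (((num 345)) + ((num 93)) * (var 3))) + num 0 * ((((num 345)) + ((num 93)) * (var 3)) * (var 0)))
  pd := num 8000
  en := fun b => cond b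
    (((num 35994 * ((var 0) * (((num 500)) - (((num 345)) + ((num 93)) * (var 3)))))) + ((num 500)) * (var 0) * ((num 1705) + (num (-446) * (var 2)) + (num 2730 * (var 0))))
    (((num 35994 * ((var 0) * (((num 500)) - (((num 345)) + ((num 93)) * (var 3)))))) + ((num 500)) * (var 0) * ((num 50) + (num (-446) * (var 2)) + (num 2730 * (var 0))))
  kk := fun b => cond b
    (((num 500)) * (var 0) * ((num 92) + (num 30 * (var 2))) + ((num (-4) * ((var 0) * (((num 500)) - (((num 345)) + ((num 93)) * (var 3)))))))
    (((num 500)) * (var 0) * ((num (-31)) + (num 30 * (var 2))) + ((num (-4) * ((var 0) * (((num 500)) - (((num 345)) + ((num 93)) * (var 3)))))))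
  f0 := num 2000 * ((num 500))
  wn := fun b => cond b
    (((num (-10078) * ((var 0) * (((num 500)) - (((num 345)) + ((num 93)) * (var 3))))) + (num 693 * ((var 0) * (var 2) * (((num 500)) - (((num 345)) + ((num 93)) * (var 3)))))) + ((num 500)) * (var 0) * ((num 305) + (num (-2403) * (var 0))))
    (((num (-10078) * ((var 0) * (((num 500)) - (((num 345)) + ((num 93)) * (var 3))))) + (num 693 * ((var 0) * (var 2) * (((num 500)) - (((num 345)) + ((num 93)) * (var 3)))))) + ((num 500)) * (var 0) * ((num 232) + (num (-2403) * (var 0))))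
  wd := num 1000 * ((num 500))
  tn := fun b => cond b
    (((num 500)) * ((num 401) + (num (-72) * (var 2)) + (num 104 * (var 0))) + ((num (-288) * (((num 500)) - (((num 345)) + ((num 93)) * (var 3))))))
    (((num 500)) * ((num 69) + (num (-72) * (var 2)) + (num 104 * (var 0))) + ((num (-288) * (((num 500)) - (((num 345)) + ((num 93)) * (var 3))))))
  td := num 8000 * ((num 500))
  cn := num 0
  cd := num 1
  kn := ((num 2886) + (num (-780) * (var 0)) + (num (-2339) * (var 2)) + (num (-1448) * (var 3)) + (num 4502 * ((var 2) * (var 3))))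
  kd := num 128
  k2n := ((num 2448) + (num 4309 * (var 0)) + (num (-1842) * (var 2)) + (num (-7122) * (var 3)) + (num 7961 * ((var 2) * (var 3))))
  k2d := num 512

/-- Its ranges. -/
def bxIz206 : StripEnd.EBox :=
  ⟨(3, 4, 40), (0, 1, 160), (75, 92, 100), (0, 1, 1)⟩

end Vale.Agent.P100.Calib.StripEndD
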