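import Vale.Agent.P100.Calib.SlabStripEndDExpr
import Vale.Agent.P100.Calib.SlabStripEndCert

/-!
# The piece 209 of the strip for `u` near one at small `d / I`
-/

namespace Vale.Agent.P100.Calib.StripEndD

open Pack hiding ev_add ev_mul
open Pack.Ex StripMid StripEnd

local instance endIZ7P209Add : Add Ex := ⟨Ex.add⟩
local instance endIZ7P209Sub : Sub Ex := ⟨Ex.sub⟩
local instance endIZ7P209Mul : Mul Ex := ⟨Ex.mul⟩

/-- The piece `Iz209`. -/
def pcIz209 : Piece where
  I := (var 0)
  d := (var 0) * (var 2)
  w := ((var 0) * (var 1))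
  o := (((num 252)) + ((num 93)) * (var 3))
  den := ((num 500))
  vn := num 2 * (((num 252)) + ((num 93)) * (var 3))
  vs := (num 1 - num 2 * (var 0) - (var 0) * (var 2))
  mu := ⟨(107, 50), (131, 50)⟩
  pn := fun b => cond b
    (num 40000 * (((num 500)) - (((num 252)) + ((num 93)) * (var 3))) + num (-2096) * ((((num 252)) + ((num 93)) * (var 3)) * (var 0)))
    (num 40000 * (((num 500)) - (((num 252)) + ((num 93)) * (var 3))) + num (-535) * ((((num 252)) + ((num 93)) * (var 3)) * (var 0)))
  pd := num 40000
  en := fun b => cond b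
    (((num 35646 * ((var 0) * (((num 500)) - (((num 252)) + ((num 93)) * (var 3)))))) + ((num 500)) * (var 0) * ((num 6236) + (num (-1452) * (var 2)) + (num (-2242) * (var 0))))
    (((num 35646 * ((var 0) * (((num 500)) - (((num 252)) + ((num 93)) * (var 3)))))) + ((num 500)) * (var 0) * ((num 2743) + (num (-1452) * (var 2)) + (num (-2242) * (var 0))))
  kk := fun b => cond b
    (((num 500)) * (var 0) * ((num 209) + (num 174 * (var 2))) + ((num (-28) * ((var 0) * (((num 500)) - (((num 252)) + ((num 93)) * (var 3)))))))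
    (((num 500)) * (var 0) * ((num (-68)) + (num 174 * (var 2))) + ((num (-28) * ((var 0) * (((num 500)) - (((num 252)) + ((num 93)) * (var 3)))))))
  f0 := num 2000 * ((num 500))
  wn := fun b => cond b
    (((num (-10588) * ((var 0) * (((num 500)) - (((num 252)) + ((num 93)) * (var 3))))) + (num 439 * ((var 0) * (var 2) * (((num 500)) - (((num 252)) + ((num 93)) * (var 3)))))) + ((num 500)) * (var 0) * ((num 914) + (num (-6135) * (var 0))))
    (((num (-10588) * ((var 0) * (((num 500)) - (((num 252)) + ((num 93)) * (var 3))))) + (num 439 * ((var 0) * (var 2) * (((num 500)) - (((num 252)) + ((num 93)) * (var 3)))))) + ((num 500)) * (var 0) * ((num 797) + (num (-6135) * (var 0))))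
  wd := num 1000 * ((num 500))
  tn := fun b => cond b
    (((num 500)) * ((num 648) + (num (-192) * (var 2)) + (num 224 * (var 0))) + ((num (-440) * (((num 500)) - (((num 252)) + ((num 93)) * (var 3))))))
    (((num 500)) * ((num 367) + (num (-192) * (var 2)) + (num 224 * (var 0))) + ((num (-440) * (((num 500)) - (((num 252)) + ((num 93)) * (var 3))))))
  td := num 8000 * ((num 500))
  cn := num 0
  cd := num 1
  kn := ((num 3971) + (num (-2336) * (var 0)) + (num (-2919) * (var 2)) + (num (-4766) * (var 3)) + (num 7183 * ((var 2) * (var 3))))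
  kd := num 256
  k2n := ((num 3700) + (num 7062 * (var 0)) + (num (-2244) * (var 2)) + (num (-4935) * (var 3)) + (num 4007 * ((var 2) * (var 3))))
  k2d := num 1024

/-- Its ranges. -/
def bxIz209 : StripEnd.EBox :=
  ⟨(3, 4, 40), (5, 16, 800), (75, 92, 100), (0, 1, 1)⟩

end Vale.Agent.P100.Calib.StripEndD
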