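import Vale.Agent.P100.Calib.SlabStripEndDExpr
import Vale.Agent.P100.Calib.SlabStripEndCert

/-!
# The piece 219 of the strip for `u` near one at small `d / I`
-/

namespace Vale.Agent.P100.Calib.StripEndD

open Pack hiding ev_add ev_mul
open Pack.Ex StripMid StripEnd

local instance endIZ7P219Add : Add Ex := ⟨Ex.add⟩
local instance endIZ7P219Sub : Sub Ex := ⟨Ex.sub⟩
local instance endIZ7P219Mul : Mul Ex := ⟨Ex.mul⟩

/-- The piece `Iz219`. -/
def pcIz219 : Piece where
  I := (var 0)
  d := (var 0) * (var 2)
  w := ((var 0) * (var 1))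
  o := (((num 432)) + ((num 14)) * (var 3))
  den := ((num 500))
  vn := num 2 * (((num 432)) + ((num 14)) * (var 3))
  vs := (num 1 - num 2 * (var 0) - (var 0) * (var 2))
  mu := ⟨(128, 50), (153, 50)⟩
  pn := fun b => cond b
    (num 8000 * (((num 500)) - (((num 432)) + ((num 14)) * (var 3))) + num (-153) * ((((num 432)) + ((num 14)) * (var 3)) * (var 0)))
    (num 8000 * (((num 500)) - (((num 432)) + ((num 14)) * (var 3))) + num 0 * ((((num 432)) + ((num 14)) * (var 3)) * (var 0)))
  pd := num 8000
  en := fun b => cond b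
    (((num 36424 * ((var 0) * (((num 500)) - (((num 432)) + ((num 14)) * (var 3)))))) + ((num 500)) * (var 0) * ((num 1793) + (num (-416) * (var 2)) + (num (-38) * (var 0))))
    (((num 36424 * ((var 0) * (((num 500)) - (((num 432)) + ((num 14)) * (var 3)))))) + ((num 500)) * (var 0) * ((num 299) + (num (-416) * (var 2)) + (num (-38) * (var 0))))
  kk := fun b => cond b
    (((num 500)) * (var 0) * ((num 105) + (num 40 * (var 2))) + ((num (-6) * ((var 0) * (((num 500)) - (((num 432)) + ((num 14)) * (var 3)))))))
    (((num 500)) * (var 0) * ((num (-39)) + (num 40 * (var 2))) + ((num (-6) * ((var 0) * (((num 500)) - (((num 432)) + ((num 14)) * (var 3)))))))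
  f0 := num 2000 * ((num 500))
  wn := fun b => cond b
    (((num (-10700) * ((var 0) * (((num 500)) - (((num 432)) + ((num 14)) * (var 3))))) + (num 1336 * ((var 0) * (var 2) * (((num 500)) - (((num 432)) + ((num 14)) * (var 3)))))) + ((num 500)) * (var 0) * ((num 172) + (num (-1255) * (var 0))))
    (((num (-10700) * ((var 0) * (((num 500)) - (((num 432)) + ((num 14)) * (var 3))))) + (num 1336 * ((var 0) * (var 2) * (((num 500)) - (((num 432)) + ((num 14)) * (var 3)))))) + ((num 500)) * (var 0) * ((num 164) + (num (-1255) * (var 0))))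
  wd := num 1000 * ((num 500))
  tn := fun b => cond b
    (((num 500)) * ((num 535) + (num (-104) * (var 2)) + (num 168 * (var 0))) + ((num (-792) * (((num 500)) - (((num 432)) + ((num 14)) * (var 3))))))
    (((num 500)) * ((num 130) + (num (-104) * (var 2)) + (num 168 * (var 0))) + ((num (-792) * (((num 500)) - (((num 432)) + ((num 14)) * (var 3))))))
  td := num 8000 * ((num 500))
  cn := num 0
  cd := num 1
  kn := ((num 4695) + (num 4232 * (var 0)) + (num (-2324) * (var 2)) + (num (-5294) * (var 3)) + (num 7561 * ((var 2) * (var 3))))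
  kd := num 128
  k2n := ((num 1470) + (num 6995 * (var 0)) + (num (-1594) * (var 2)) + (num (-3930) * (var 3)) + (num 4466 * ((var 2) * (var 3))))
  k2d := num 512

/-- Its ranges. -/
def bxIz219 : StripEnd.EBox :=
  ⟨(4, 5, 40), (0, 1, 160), (75, 89, 100), (0, 1, 1)⟩

end Vale.Agent.P100.Calib.StripEndD
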