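import Vale.Agent.P100.Calib.SlabStripEndDExpr
import Vale.Agent.P100.Calib.SlabStripEndCert

/-!
# The piece 225 of the strip for `u` near one at small `d / I`
-/

namespace Vale.Agent.P100.Calib.StripEndD

open Pack hiding ev_add ev_mul
open Pack.Ex StripMid StripEnd

local instance endIZ7P225Add : Add Ex := ⟨Ex.add⟩
local instance endIZ7P225Sub : Sub Ex := ⟨Ex.sub⟩
local instance endIZ7P225Mul : Mul Ex := ⟨Ex.mul⟩

/-- The piece `Iz225`. -/
def pcIz225 : Piece where
  I := (var 0)
  d := (var 0) * (var 2)
  w := ((var 0) * (var 1))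
  o := (((num 340)) + ((num 32)) * (var 3))
  den := ((num 500))
  vn := num 2 * (((num 340)) + ((num 32)) * (var 3))
  vs := (num 1 - num 2 * (var 0) - (var 0) * (var 2))
  mu := ⟨(130, 50), (147, 50)⟩
  pn := fun b => cond b
    (num 2500 * (((num 500)) - (((num 340)) + ((num 32)) * (var 3))) + num (-147) * ((((num 340)) + ((num 32)) * (var 3)) * (var 0)))
    (num 2500 * (((num 500)) - (((num 340)) + ((num 32)) * (var 3))) + num 0 * ((((num 340)) + ((num 32)) * (var 3)) * (var 0)))
  pd := num 2500
  en := fun b => cond b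
    (((num 36334 * ((var 0) * (((num 500)) - (((num 340)) + ((num 32)) * (var 3)))))) + ((num 500)) * (var 0) * ((num 5749) + (num (-1244) * (var 2)) + (num (-3530) * (var 0))))
    (((num 36334 * ((var 0) * (((num 500)) - (((num 340)) + ((num 32)) * (var 3)))))) + ((num 500)) * (var 0) * ((num 1416) + (num (-1244) * (var 2)) + (num (-3530) * (var 0))))
  kk := fun b => cond b
    (((num 500)) * (var 0) * ((num 317) + (num 136 * (var 2))) + ((num (-26) * ((var 0) * (((num 500)) - (((num 340)) + ((num 32)) * (var 3)))))))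
    (((num 500)) * (var 0) * ((num (-120)) + (num 136 * (var 2))) + ((num (-26) * ((var 0) * (((num 500)) - (((num 340)) + ((num 32)) * (var 3)))))))
  f0 := num 2000 * ((num 500))
  wn := fun b => cond b
    (((num (-11809) * ((var 0) * (((num 500)) - (((num 340)) + ((num 32)) * (var 3))))) + (num 1269 * ((var 0) * (var 2) * (((num 500)) - (((num 340)) + ((num 32)) * (var 3)))))) + ((num 500)) * (var 0) * ((num 756) + (num (-4143) * (var 0))))
    (((num (-11809) * ((var 0) * (((num 500)) - (((num 340)) + ((num 32)) * (var 3))))) + (num 1269 * ((var 0) * (var 2) * (((num 500)) - (((num 340)) + ((num 32)) * (var 3)))))) + ((num 500)) * (var 0) * ((num 755) + (num (-4143) * (var 0))))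
  wd := num 1000 * ((num 500))
  tn := fun b => cond b
    (((num 500)) * ((num 703) + (num (-136) * (var 2)) + (num 192 * (var 0))) + ((num (-464) * (((num 500)) - (((num 340)) + ((num 32)) * (var 3))))))
    (((num 500)) * ((num 180) + (num (-136) * (var 2)) + (num 192 * (var 0))) + ((num (-464) * (((num 500)) - (((num 340)) + ((num 32)) * (var 3))))))
  td := num 8000 * ((num 500))
  cn := num 0
  cd := num 1
  kn := ((num 4490) + (num (-6957) * (var 0)) + (num (-3126) * (var 2)) + (num (-764) * (var 3)) + (num 1713 * ((var 2) * (var 3))))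
  kd := num 128
  k2n := ((num 1758) + (num 5915 * (var 0)) + (num (-1605) * (var 2)) + (num (-2868) * (var 3)) + (num 3012 * ((var 2) * (var 3))))
  k2d := num 512

/-- Its ranges. -/
def bxIz225 : StripEnd.EBox :=
  ⟨(20, 21, 160), (0, 1, 50), (75, 86, 100), (0, 1, 1)⟩

end Vale.Agent.P100.Calib.StripEndD
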