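import Vale.Agent.P100.Calib.SlabStripEndDExpr
import Vale.Agent.P100.Calib.SlabStripEndCert

/-!
# The piece 233 of the strip for `u` near one at small `d / I`
-/

namespace Vale.Agent.P100.Calib.StripEndD

open Pack hiding ev_add ev_mul
open Pack.Ex StripMid StripEnd

local instance endIZ7P233Add : Add Ex := ⟨Ex.add⟩
local instance endIZ7P233Sub : Sub Ex := ⟨Ex.sub⟩
local instance endIZ7P233Mul : Mul Ex := ⟨Ex.mul⟩

/-- The piece `Iz233`. -/
def pcIz233 : Piece where
  I := (var 0)
  d := (var 0) * (var 2)
  w := ((var 0) * (var 1))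
  o := (((num 238)) + ((num 12)) * (var 3))
  den := ((num 500))
  vn := num 2 * (((num 238)) + ((num 12)) * (var 3))
  vs := (num 1 - num 2 * (var 0) - (var 0) * (var 2))
  mu := ⟨(117, 50), (138, 50)⟩
  pn := fun b => cond b
    (num 80000 * (((num 500)) - (((num 238)) + ((num 12)) * (var 3))) + num (-138) * ((((num 238)) + ((num 12)) * (var 3)) * (var 0)))
    (num 80000 * (((num 500)) - (((num 238)) + ((num 12)) * (var 3))) + num 0 * ((((num 238)) + ((num 12)) * (var 3)) * (var 0)))
  pd := num 80000
  en := fun b => cond b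
    (((num 36600 * ((var 0) * (((num 500)) - (((num 238)) + ((num 12)) * (var 3)))))) + ((num 500)) * (var 0) * ((num 2377) + (num (-2066) * (var 2)) + (num (-4438) * (var 0))))
    (((num 36600 * ((var 0) * (((num 500)) - (((num 238)) + ((num 12)) * (var 3)))))) + ((num 500)) * (var 0) * ((num 2242) + (num (-2066) * (var 2)) + (num (-4438) * (var 0))))
  kk := fun b => cond b
    (((num 500)) * (var 0) * ((num 10) + (num 4 * (var 2))) + (num 0))
    (((num 500)) * (var 0) * ((num (-5)) + (num 4 * (var 2))) + (num 0))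
  f0 := num 2000 * ((num 500))
  wn := fun b => cond b
    (((num (-12768) * ((var 0) * (((num 500)) - (((num 238)) + ((num 12)) * (var 3))))) + (num 553 * ((var 0) * (var 2) * (((num 500)) - (((num 238)) + ((num 12)) * (var 3)))))) + ((num 500)) * (var 0) * ((num 2496) + (num (-12521) * (var 0))))
    (((num (-12768) * ((var 0) * (((num 500)) - (((num 238)) + ((num 12)) * (var 3))))) + (num 553 * ((var 0) * (var 2) * (((num 500)) - (((num 238)) + ((num 12)) * (var 3)))))) + ((num 500)) * (var 0) * ((num 2490) + (num (-12521) * (var 0))))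
  wd := num 1000 * ((num 500))
  tn := fun b => cond b
    (((num 500)) * ((num 15)) + ((num (-8) * (((num 500)) - (((num 238)) + ((num 12)) * (var 3))))))
    (((num 500)) * ((num 1)) + ((num (-8) * (((num 500)) - (((num 238)) + ((num 12)) * (var 3))))))
  td := num 8000 * ((num 500))
  cn := num 0
  cd := num 1
  kn := ((num 4328) + (num (-1454) * (var 0)) + (num (-4404) * (var 2)) + (num (-4021) * (var 3)) + (num 4894 * ((var 2) * (var 3))))
  kd := num 128
  k2n := ((num (-136)) + (num 6355 * (var 0)) + (num 713 * (var 2)) + (num (-122) * (var 3)) + (num 47 * ((var 2) * (var 3))))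
  k2d := num 512

/-- Its ranges. -/
def bxIz233 : StripEnd.EBox :=
  ⟨(85, 86, 640), (0, 1, 1600), (15, 17, 20), (0, 1, 1)⟩

end Vale.Agent.P100.Calib.StripEndD
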