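import Vale.Agent.P100.Calib.SlabStripEndDExpr
import Vale.Agent.P100.Calib.SlabStripEndCert

/-!
# The piece 236 of the strip for `u` near one at small `d / I`
-/

namespace Vale.Agent.P100.Calib.StripEndD

open Pack hiding ev_add ev_mul
open Pack.Ex StripMid StripEnd

local instance endIZ7P236Add : Add Ex := ⟨Ex.add⟩
local instance endIZ7P236Sub : Sub Ex := ⟨Ex.sub⟩
local instance endIZ7P236Mul : Mul Ex := ⟨Ex.mul⟩

/-- The piece `Iz236`. -/
def pcIz236 : Piece where
  I := (var 0)
  d := (var 0) * (var 2)
  w := ((var 0) * (var 1))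
  o := (((num 227)) + ((num 23)) * (var 3))
  den := ((num 500))
  vn := num 2 * (((num 227)) + ((num 23)) * (var 3))
  vs := (num 1 - num 2 * (var 0) - (var 0) * (var 2))
  mu := ⟨(115, 50), (138, 50)⟩
  pn := fun b => cond b
    (num 40000 * (((num 500)) - (((num 227)) + ((num 23)) * (var 3))) + num (-2208) * ((((num 227)) + ((num 23)) * (var 3)) * (var 0)))
    (num 40000 * (((num 500)) - (((num 227)) + ((num 23)) * (var 3))) + num (-575) * ((((num 227)) + ((num 23)) * (var 3)) * (var 0)))
  pd := num 40000
  en := fun b => cond b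
    (((num 36044 * ((var 0) * (((num 500)) - (((num 227)) + ((num 23)) * (var 3)))))) + ((num 500)) * (var 0) * ((num 7459) + (num (-2572) * (var 2)) + (num (-9444) * (var 0))))
    (((num 36044 * ((var 0) * (((num 500)) - (((num 227)) + ((num 23)) * (var 3)))))) + ((num 500)) * (var 0) * ((num 4693) + (num (-2572) * (var 2)) + (num (-9444) * (var 0))))
  kk := fun b => cond b
    (((num 500)) * (var 0) * ((num 213) + (num 248 * (var 2))) + ((num (-52) * ((var 0) * (((num 500)) - (((num 227)) + ((num 23)) * (var 3)))))))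
    (((num 500)) * (var 0) * ((num (-73)) + (num 248 * (var 2))) + ((num (-52) * ((var 0) * (((num 500)) - (((num 227)) + ((num 23)) * (var 3)))))))
  f0 := num 2000 * ((num 500))
  wn := fun b => cond b
    (((num (-13031) * ((var 0) * (((num 500)) - (((num 227)) + ((num 23)) * (var 3))))) + (num 579 * ((var 0) * (var 2) * (((num 500)) - (((num 227)) + ((num 23)) * (var 3)))))) + ((num 500)) * (var 0) * ((num 2622) + (num (-12342) * (var 0))))
    (((num (-13031) * ((var 0) * (((num 500)) - (((num 227)) + ((num 23)) * (var 3))))) + (num 579 * ((var 0) * (var 2) * (((num 500)) - (((num 227)) + ((num 23)) * (var 3)))))) + ((num 500)) * (var 0) * ((num 2620) + (num (-12342) * (var 0))))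
  wd := num 1000 * ((num 500))
  tn := fun b => cond b
    (((num 500)) * ((num 478) + (num (-144) * (var 2)) + (num 136 * (var 0))) + ((num (-280) * (((num 500)) - (((num 227)) + ((num 23)) * (var 3))))))
    (((num 500)) * ((num 297) + (num (-144) * (var 2)) + (num 136 * (var 0))) + ((num (-280) * (((num 500)) - (((num 227)) + ((num 23)) * (var 3))))))
  td := num 8000 * ((num 500))
  cn := num 0
  cd := num 1
  kn := ((num 2959) + (num (-6290) * (var 0)) + (num (-1826) * (var 2)) + (num (-1813) * (var 3)) + (num 2323 * ((var 2) * (var 3))))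
  kd := num 128
  k2n := ((num 3526) + (num 4973 * (var 0)) + (num (-1971) * (var 2)) + (num (-4282) * (var 3)) + (num 4601 * ((var 2) * (var 3))))
  k2d := num 1024

/-- Its ranges. -/
def bxIz236 : StripEnd.EBox :=
  ⟨(85, 86, 640), (5, 16, 800), (15, 17, 20), (0, 1, 1)⟩

end Vale.Agent.P100.Calib.StripEndD
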