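import Vale.Agent.P100.Calib.SlabStripEndDExpr
import Vale.Agent.P100.Calib.SlabStripEndCert

/-!
# The piece 239 of the strip for `u` near one at small `d / I`
-/

namespace Vale.Agent.P100.Calib.StripEndD

open Pack hiding ev_add ev_mul
open Pack.Ex StripMid StripEnd

local instance endIZ7P239Add : Add Ex := ⟨Ex.add⟩
local instance endIZ7P239Sub : Sub Ex := ⟨Ex.sub⟩
local instance endIZ7P239Mul : Mul Ex := ⟨Ex.mul⟩

/-- The piece `Iz239`. -/
def pcIz239 : Piece where
  I := (var 0)
  d := (var 0) * (var 2)
  w := ((var 0) * (var 1))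
  o := (((num 32) + (num (-15) * (var 1))) + ((num 44) + (num (-21) * (var 1))) * (var 3))
  den := ((num 100))
  vn := num 2 * (((num 32) + (num (-15) * (var 1))) + ((num 44) + (num (-21) * (var 1))) * (var 3))
  vs := (num 1 - num 2 * (var 0) - (var 0) * (var 2))
  mu := ⟨(74, 50), (144, 50)⟩
  pn := fun b => cond b
    (num 50 * (((num 100)) - (((num 32) + (num (-15) * (var 1))) + ((num 44) + (num (-21) * (var 1))) * (var 3))) + num (-144) * ((((num 32) + (num (-15) * (var 1))) + ((num 44) + (num (-21) * (var 1))) * (var 3)) * ((var 0) * (var 1))))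
    (num 50 * (((num 100)) - (((num 32) + (num (-15) * (var 1))) + ((num 44) + (num (-21) * (var 1))) * (var 3))) + num (-74) * ((((num 32) + (num (-15) * (var 1))) + ((num 44) + (num (-21) * (var 1))) * (var 3)) * ((var 0) * (var 1))))
  pd := num 50
  en := fun b => cond b
    (((num 30012) + (num 75336 * (var 0))) * (num 4 * (var 0) * (((num 100)) - (((num 32) + (num (-15) * (var 1))) + ((num 44) + (num (-21) * (var 1))) * (var 3))) * ((var 2) + num 3 * (var 0)) + (var 1) * ((num 100)) * (num 1 + num 20 * ((var 0) * (var 2)))))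
    (((num 23838) + (num 75336 * (var 0))) * (num 4 * (var 0) * (((num 100)) - (((num 32) + (num (-15) * (var 1))) + ((num 44) + (num (-21) * (var 1))) * (var 3))) * ((var 2) + num 3 * (var 0)) + (var 1) * ((num 100)) * (num 1 + num 20 * ((var 0) * (var 2)))))
  kk := fun b => cond b
    (((num 5474) + (num 16958 * (var 2))) * (((var 0) * (var 1)) * (num 4 * ((num 100)) * ((var 2) + num 3 * (var 0)))))
    (((num (-140)) + (num 16958 * (var 2))) * (((var 0) * (var 1)) * (num 4 * ((num 100)) * ((var 2) + num 3 * (var 0)))))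
  f0 := num 8000 * ((num 100)) * ((var 2) + num 3 * (var 0))
  wn := fun b => cond b
    (((num (-11525) * ((var 0) * (((num 100)) - (((num 32) + (num (-15) * (var 1))) + ((num 44) + (num (-21) * (var 1))) * (var 3))))) + (num 14644 * (((var 0) * (var 1)) * (((num 32) + (num (-15) * (var 1))) + ((num 44) + (num (-21) * (var 1))) * (var 3)))) + (num (-1581) * (((var 0) * (var 1)) * ((num 100)))) + (num 1598 * ((var 0) * (var 2) * (((num 100)) - (((num 32) + (num (-15) * (var 1))) + ((num 44) + (num (-21) * (var 1))) * (var 3)))))))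
    (((num (-12623) * ((var 0) * (((num 100)) - (((num 32) + (num (-15) * (var 1))) + ((num 44) + (num (-21) * (var 1))) * (var 3))))) + (num 14644 * (((var 0) * (var 1)) * (((num 32) + (num (-15) * (var 1))) + ((num 44) + (num (-21) * (var 1))) * (var 3)))) + (num (-2679) * (((var 0) * (var 1)) * ((num 100)))) + (num 1598 * ((var 0) * (var 2) * (((num 100)) - (((num 32) + (num (-15) * (var 1))) + ((num 44) + (num (-21) * (var 1))) * (var 3)))))))
  wd := num 1000 * ((num 100))
  tn := fun b => cond b
    (num 10442 * ((var 1) * ((num 100))))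
    (num 8439 * ((var 1) * ((num 100))))
  td := num 8000 * ((var 1) * ((num 100)) + num 2 * (var 2) * (((num 100)) - (((num 32) + (num (-15) * (var 1))) + ((num 44) + (num (-21) * (var 1))) * (var 3))))
  cn := num 0
  cd := num 1
  kn := ((num 401) + (num 1978 * (var 0)) + (num (-147) * (var 1)) + (num (-178) * (var 2)) + (num 359 * (var 3)) + (num (-1391) * ((var 1) * (var 3))) + (num 719 * ((var 2) * (var 3))) + (num 5741 * ((var 0) * (var 3))))
  kd := num 128
  k2n := ((num (-1511)) + (num 5715 * (var 0)) + (num 2099 * (var 2)))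
  k2d := num 1024

/-- Its ranges. -/
def bxIz239 : StripEnd.EBox :=
  ⟨(4, 5, 40), (3, 20, 20), (75, 89, 100), (0, 1, 1)⟩

end Vale.Agent.P100.Calib.StripEndD
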