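import Vale.Agent.P100.Calib.SlabStripEndDExpr
import Vale.Agent.P100.Calib.SlabStripEndCert

/-!
# The piece 241 of the strip for `u` near one at small `d / I`
-/

namespace Vale.Agent.P100.Calib.StripEndD

open Pack hiding ev_add ev_mul
open Pack.Ex StripMid StripEnd

local instance endIZ7P241Add : Add Ex := ⟨Ex.add⟩
local instance endIZ7P241Sub : Sub Ex := ⟨Ex.sub⟩
local instance endIZ7P241Mul : Mul Ex := ⟨Ex.mul⟩

/-- The piece `Iz241`. -/
def pcIz241 : Piece where
  I := (var 0)
  d := (var 0) * (var 2)
  w := ((var 0) * (var 1))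
  o := (((num 446)) + ((num 40)) * (var 3))
  den := ((num 500))
  vn := num 2 * (((num 446)) + ((num 40)) * (var 3))
  vs := (num 1 - num 2 * (var 0) - (var 0) * (var 2))
  mu := ⟨(135, 50), (157, 50)⟩
  pn := fun b => cond b
    (num 80000 * (((num 500)) - (((num 446)) + ((num 40)) * (var 3))) + num (-1727) * ((((num 446)) + ((num 40)) * (var 3)) * (var 0)))
    (num 80000 * (((num 500)) - (((num 446)) + ((num 40)) * (var 3))) + num (-1350) * ((((num 446)) + ((num 40)) * (var 3)) * (var 0)))
  pd := num 80000
  en := fun b => cond b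
    (((num 36274 * ((var 0) * (((num 500)) - (((num 446)) + ((num 40)) * (var 3)))))) + ((num 500)) * (var 0) * ((num 2154) + (num (-370) * (var 2)) + (num (-2536) * (var 0))))
    (((num 36274 * ((var 0) * (((num 500)) - (((num 446)) + ((num 40)) * (var 3)))))) + ((num 500)) * (var 0) * ((num 1944) + (num (-370) * (var 2)) + (num (-2536) * (var 0))))
  kk := fun b => cond b
    (((num 500)) * (var 0) * ((num 25) + (num 146 * (var 2))) + ((num (-26) * ((var 0) * (((num 500)) - (((num 446)) + ((num 40)) * (var 3)))))))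
    (((num 500)) * (var 0) * ((num (-7)) + (num 146 * (var 2))) + ((num (-26) * ((var 0) * (((num 500)) - (((num 446)) + ((num 40)) * (var 3)))))))
  f0 := num 2000 * ((num 500))
  wn := fun b => cond b
    (((num (-11038) * ((var 0) * (((num 500)) - (((num 446)) + ((num 40)) * (var 3))))) + (num 1867 * ((var 0) * (var 2) * (((num 500)) - (((num 446)) + ((num 40)) * (var 3)))))) + ((num 500)) * (var 0) * ((num 76) + (num 36 * (var 0))))
    (((num (-11038) * ((var 0) * (((num 500)) - (((num 446)) + ((num 40)) * (var 3))))) + (num 1867 * ((var 0) * (var 2) * (((num 500)) - (((num 446)) + ((num 40)) * (var 3)))))) + ((num 500)) * (var 0) * ((num 66) + (num 36 * (var 0))))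
  wd := num 1000 * ((num 500))
  tn := fun b => cond b
    (((num 500)) * ((num 2369) + (num (-848) * (var 2)) + (num 1624 * (var 0))) + ((num (-12424) * (((num 500)) - (((num 446)) + ((num 40)) * (var 3))))))
    (((num 500)) * ((num 1738) + (num (-848) * (var 2)) + (num 1624 * (var 0))) + ((num (-12424) * (((num 500)) - (((num 446)) + ((num 40)) * (var 3))))))
  td := num 8000 * ((num 500))
  cn := num 0
  cd := num 1
  kn := ((num 200) + (num 7317 * (var 0)) + (num (-1064) * (var 2)) + (num 98 * (var 3)) + (num 3056 * ((var 2) * (var 3))))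
  kd := num 16
  k2n := ((num (-555)) + (num (-4052) * (var 0)) + (num 1594 * (var 2)))
  k2d := num 128

/-- Its ranges. -/
def bxIz241 : StripEnd.EBox :=
  ⟨(9, 10, 80), (10, 11, 1600), (75, 89, 100), (0, 1, 1)⟩

end Vale.Agent.P100.Calib.StripEndD
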