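import Vale.Agent.P100.Calib.SlabStripEndDCert
import Vale.Agent.P100.Calib.SlabStripEndBigSgn

/-!
# A piece of the `I` and `Z` charts for `N` between seven and twenty: 25
-/

namespace Vale.Agent.P100.Calib.StripEndD

open Pack hiding ev_add ev_mul
open Pack.Ex StripMid StripEnd

local instance endIZ7P25Add : Add Ex := ⟨Ex.add⟩
local instance endIZ7P25Sub : Sub Ex := ⟨Ex.sub⟩
local instance endIZ7P25Mul : Mul Ex := ⟨Ex.mul⟩

/-- The piece `Iz25`. -/
def pcIz25 : Piece where
  I := (var 0)
  d := (var 0) * (var 2)
  w := ((var 0) * (var 1))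
  o := (((num 283)) + ((num 217) + (num (-1150) * (var 1))) * (var 3))
  den := ((num 500))
  vn := num 2 * (((num 283)) + ((num 217) + (num (-1150) * (var 1))) * (var 3))
  vs := (num 1 - num 2 * (var 0) - (var 0) * (var 2))
  mu := ⟨(106, 50), (147, 50)⟩
  pn := fun b => cond b
    (num 50 * (((num 500)) - (((num 283)) + ((num 217) + (num (-1150) * (var 1))) * (var 3))) + num (-147) * ((((num 283)) + ((num 217) + (num (-1150) * (var 1))) * (var 3)) * ((var 0) * (var 1))))
    (num 50 * (((num 500)) - (((num 283)) + ((num 217) + (num (-1150) * (var 1))) * (var 3))) + num (-106) * ((((num 283)) + ((num 217) + (num (-1150) * (var 1))) * (var 3)) * ((var 0) * (var 1))))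
  pd := num 50
  en := fun b => cond b
    (((num 35011) + (num 53680 * (var 0))) * (num 4 * (var 0) * (((num 500)) - (((num 283)) + ((num 217) + (num (-1150) * (var 1))) * (var 3))) * ((var 2) + num 3 * (var 0)) + (var 1) * ((num 500)) * (num 1 + num 20 * ((var 0) * (var 2)))))
    (((num 29974) + (num 53680 * (var 0))) * (num 4 * (var 0) * (((num 500)) - (((num 283)) + ((num 217) + (num (-1150) * (var 1))) * (var 3))) * ((var 2) + num 3 * (var 0)) + (var 1) * ((num 500)) * (num 1 + num 20 * ((var 0) * (var 2)))))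
  kk := fun b => cond b
    (((num 2290) + (num 22014 * (var 2))) * (((var 0) * (var 1)) * (num 4 * ((num 500)) * ((var 2) + num 3 * (var 0)))))
    (((num (-2477)) + (num 22014 * (var 2))) * (((var 0) * (var 1)) * (num 4 * ((num 500)) * ((var 2) + num 3 * (var 0)))))
  f0 := num 8000 * ((num 500)) * ((var 2) + num 3 * (var 0))
  wn := fun b => cond b
    (((num (-10003) * ((var 0) * (((num 500)) - (((num 283)) + ((num 217) + (num (-1150) * (var 1))) * (var 3))))) + (num 24291 * (((var 0) * (var 1)) * (((num 283)) + ((num 217) + (num (-1150) * (var 1))) * (var 3)))) + (num (-12576) * (((var 0) * (var 1)) * ((num 500)))) + (num 1446 * ((var 0) * (var 2) * (((num 500)) - (((num 283)) + ((num 217) + (num (-1150) * (var 1))) * (var 3)))))))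
    (((num (-11464) * ((var 0) * (((num 500)) - (((num 283)) + ((num 217) + (num (-1150) * (var 1))) * (var 3))))) + (num 24291 * (((var 0) * (var 1)) * (((num 283)) + ((num 217) + (num (-1150) * (var 1))) * (var 3)))) + (num (-14037) * (((var 0) * (var 1)) * ((num 500)))) + (num 1446 * ((var 0) * (var 2) * (((num 500)) - (((num 283)) + ((num 217) + (num (-1150) * (var 1))) * (var 3)))))))
  wd := num 1000 * ((num 500))
  tn := fun b => cond b
    (num 10739 * ((var 1) * ((num 500))))
    (num 8466 * ((var 1) * ((num 500))))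
  td := num 8000 * ((var 1) * ((num 500)) + num 2 * (var 2) * (((num 500)) - (((num 283)) + ((num 217) + (num (-1150) * (var 1))) * (var 3))))
  cn := num 0
  cd := num 1
  kn := ((num 500)) * ((num 455) + (num (-976) * (var 0)) + (num 1249 * (var 1)) + (num (-287) * (var 2)) + (num (-721) * (var 3)) + (num (-1885) * ((var 1) * (var 3))) + (num 545 * ((var 2) * (var 3))) + (num 4843 * ((var 0) * (var 3))))
  kd := num 64 * (((num 500)) - (((num 283)) + ((num 217) + (num (-1150) * (var 1))) * (var 3)))
  k2n := ((num (-498)) + (num 6488 * (var 0)) + (num 960 * (var 2)))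
  k2d := num 512

/-- Its ranges. -/
def bxIz25 : StripEnd.EBox :=
  ⟨(4, 5, 40), (0, 1, 50), (2, 3, 4), (0, 1, 1)⟩
end Vale.Agent.P100.Calib.StripEndD
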