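import Vale.Agent.P100.Calib.SlabStripEndDCert
import Vale.Agent.P100.Calib.SlabStripEndBigSgn

/-!
# A piece of the `I` and `Z` charts for `N` between seven and twenty: 29
-/

namespace Vale.Agent.P100.Calib.StripEndD

open Pack hiding ev_add ev_mul
open Pack.Ex StripMid StripEnd

local instance endIZ7P29Add : Add Ex := ⟨Ex.add⟩
local instance endIZ7P29Sub : Sub Ex := ⟨Ex.sub⟩
local instance endIZ7P29Mul : Mul Ex := ⟨Ex.mul⟩

/-- The piece `Iz29`. -/
def pcIz29 : Piece where
  I := (var 0)
  d := (var 0) * (var 2)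
  w := ((var 0) * (var 1))
  o := (((num 282)) + ((num 164)) * (var 3))
  den := ((num 500))
  vn := num 2 * (((num 282)) + ((num 164)) * (var 3))
  vs := (num 1 - num 2 * (var 0) - (var 0) * (var 2))
  mu := ⟨(110, 50), (155, 50)⟩
  pn := fun b => cond b
    (num 50 * (((num 500)) - (((num 282)) + ((num 164)) * (var 3))) + num (-155) * ((((num 282)) + ((num 164)) * (var 3)) * ((var 0) * (var 1))))
    (num 50 * (((num 500)) - (((num 282)) + ((num 164)) * (var 3))) + num (-110) * ((((num 282)) + ((num 164)) * (var 3)) * ((var 0) * (var 1))))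
  pd := num 50
  en := fun b => cond b
    (((num 39339) + (num 17648 * (var 0))) * (num 4 * (var 0) * (((num 500)) - (((num 282)) + ((num 164)) * (var 3))) * ((var 2) + num 3 * (var 0)) + (var 1) * ((num 500)) * (num 1 + num 20 * ((var 0) * (var 2)))))
    (((num 34016) + (num 17648 * (var 0))) * (num 4 * (var 0) * (((num 500)) - (((num 282)) + ((num 164)) * (var 3))) * ((var 2) + num 3 * (var 0)) + (var 1) * ((num 500)) * (num 1 + num 20 * ((var 0) * (var 2)))))
  kk := fun b => cond b
    (((num 1250) + (num 26006 * (var 2))) * (((var 0) * (var 1)) * (num 4 * ((num 500)) * ((var 2) + num 3 * (var 0)))))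
    (((num (-3271)) + (num 26006 * (var 2))) * (((var 0) * (var 1)) * (num 4 * ((num 500)) * ((var 2) + num 3 * (var 0)))))
  f0 := num 8000 * ((num 500)) * ((var 2) + num 3 * (var 0))
  wn := fun b => cond b
    (((num (-10644) * ((var 0) * (((num 500)) - (((num 282)) + ((num 164)) * (var 3))))) + (num 51191 * (((var 0) * (var 1)) * (((num 282)) + ((num 164)) * (var 3)))) + (num (-32496) * (((var 0) * (var 1)) * ((num 500)))) + (num 1581 * ((var 0) * (var 2) * (((num 500)) - (((num 282)) + ((num 164)) * (var 3)))))))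
    (((num (-11992) * ((var 0) * (((num 500)) - (((num 282)) + ((num 164)) * (var 3))))) + (num 51191 * (((var 0) * (var 1)) * (((num 282)) + ((num 164)) * (var 3)))) + (num (-33844) * (((var 0) * (var 1)) * ((num 500)))) + (num 1581 * ((var 0) * (var 2) * (((num 500)) - (((num 282)) + ((num 164)) * (var 3)))))))
  wd := num 1000 * ((num 500))
  tn := fun b => cond b
    (num 10810 * ((var 1) * ((num 500))))
    (num 8652 * ((var 1) * ((num 500))))
  td := num 8000 * ((var 1) * ((num 500)) + num 2 * (var 2) * (((num 500)) - (((num 282)) + ((num 164)) * (var 3))))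
  cn := num 0
  cd := num 1
  kn := ((num 500)) * ((num 336) + (num (-856) * (var 0)) + (num 1690 * (var 1)) + (num (-208) * (var 2)) + (num 94 * (var 3)) + (num (-4166) * ((var 1) * (var 3))) + (num 228 * ((var 2) * (var 3))) + (num (-857) * ((var 0) * (var 3))))
  kd := num 32 * (((num 500)) - (((num 282)) + ((num 164)) * (var 3)))
  k2n := ((num 1772) + (num 6223 * (var 0)) + (num (-2132) * (var 2)))
  k2d := num 512

/-- Its ranges. -/
def bxIz29 : StripEnd.EBox :=
  ⟨(20, 23, 160), (0, 1, 50), (2, 3, 4), (0, 1, 1)⟩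
end Vale.Agent.P100.Calib.StripEndD
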