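import Vale.Agent.P100.Calib.SlabStripEndDCert
import Vale.Agent.P100.Calib.SlabStripEndBigSgn

/-!
# A piece of the `I` and `Z` charts for `N` between seven and twenty: 301
-/

namespace Vale.Agent.P100.Calib.StripEndD

open Pack hiding ev_add ev_mul
open Pack.Ex StripMid StripEnd

local instance endIZ7P301Add : Add Ex := ⟨Ex.add⟩
local instance endIZ7P301Sub : Sub Ex := ⟨Ex.sub⟩
local instance endIZ7P301Mul : Mul Ex := ⟨Ex.mul⟩

/-- The piece `Iz301`. -/
def pcIz301 : Piece where
  I := (var 0)
  d := (var 0) * (var 2)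
  w := ((var 0) * (var 1))
  o := (((num 33) + (num (-15) * (var 1))) + ((num 42) + (num (-21) * (var 1))) * (var 3))
  den := ((num 100))
  vn := num 2 * (((num 33) + (num (-15) * (var 1))) + ((num 42) + (num (-21) * (var 1))) * (var 3))
  vs := (num 1 - num 2 * (var 0) - (var 0) * (var 2))
  mu := ⟨(82, 50), (135, 50)⟩
  pn := fun b => cond b
    (num 50 * (((num 100)) - (((num 33) + (num (-15) * (var 1))) + ((num 42) + (num (-21) * (var 1))) * (var 3))) + num (-135) * ((((num 33) + (num (-15) * (var 1))) + ((num 42) + (num (-21) * (var 1))) * (var 3)) * ((var 0) * (var 1))))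
    (num 50 * (((num 100)) - (((num 33) + (num (-15) * (var 1))) + ((num 42) + (num (-21) * (var 1))) * (var 3))) + num (-82) * ((((num 33) + (num (-15) * (var 1))) + ((num 42) + (num (-21) * (var 1))) * (var 3)) * ((var 0) * (var 1))))
  pd := num 50
  en := fun b => cond b
    (((num 28244) + (num 81550 * (var 0))) * (num 4 * (var 0) * (((num 100)) - (((num 33) + (num (-15) * (var 1))) + ((num 42) + (num (-21) * (var 1))) * (var 3))) * ((var 2) + num 3 * (var 0)) + (var 1) * ((num 100)) * (num 1 + num 20 * ((var 0) * (var 2)))))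
    (((num 23173) + (num 81550 * (var 0))) * (num 4 * (var 0) * (((num 100)) - (((num 33) + (num (-15) * (var 1))) + ((num 42) + (num (-21) * (var 1))) * (var 3))) * ((var 2) + num 3 * (var 0)) + (var 1) * ((num 100)) * (num 1 + num 20 * ((var 0) * (var 2)))))
  kk := fun b => cond b
    (((num 8213) + (num 11042 * (var 2))) * (((var 0) * (var 1)) * (num 4 * ((num 100)) * ((var 2) + num 3 * (var 0)))))
    (((num 193) + (num 11042 * (var 2))) * (((var 0) * (var 1)) * (num 4 * ((num 100)) * ((var 2) + num 3 * (var 0)))))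
  f0 := num 8000 * ((num 100)) * ((var 2) + num 3 * (var 0))
  wn := fun b => cond b
    (((num (-9872) * ((var 0) * (((num 100)) - (((num 33) + (num (-15) * (var 1))) + ((num 42) + (num (-21) * (var 1))) * (var 3))))) + (num 10715 * (((var 0) * (var 1)) * (((num 33) + (num (-15) * (var 1))) + ((num 42) + (num (-21) * (var 1))) * (var 3)))) + (num (-779) * (((var 0) * (var 1)) * ((num 100)))) + (num 821 * ((var 0) * (var 2) * (((num 100)) - (((num 33) + (num (-15) * (var 1))) + ((num 42) + (num (-21) * (var 1))) * (var 3)))))))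
    (((num (-11062) * ((var 0) * (((num 100)) - (((num 33) + (num (-15) * (var 1))) + ((num 42) + (num (-21) * (var 1))) * (var 3))))) + (num 10715 * (((var 0) * (var 1)) * (((num 33) + (num (-15) * (var 1))) + ((num 42) + (num (-21) * (var 1))) * (var 3)))) + (num (-1969) * (((var 0) * (var 1)) * ((num 100)))) + (num 821 * ((var 0) * (var 2) * (((num 100)) - (((num 33) + (num (-15) * (var 1))) + ((num 42) + (num (-21) * (var 1))) * (var 3)))))))
  wd := num 1000 * ((num 100))
  tn := fun b => cond b
    (num 9933 * ((var 1) * ((num 100))))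
    (num 8188 * ((var 1) * ((num 100))))
  td := num 8000 * ((var 1) * ((num 100)) + num 2 * (var 2) * (((num 100)) - (((num 33) + (num (-15) * (var 1))) + ((num 42) + (num (-21) * (var 1))) * (var 3))))
  cn := (num 1 - (var 0)) * (var 2) - (num 1 - num 2 * (var 0))
  cd := (num 1 - num 2 * (var 0)) * (num 1 - num 2 * (var 0)) * (var 2)
  kn := ((num 488) + (num 4459 * (var 0)) + (num (-307) * (var 1)) + (num (-71) * (var 2)) + (num 1320 * (var 3)) + (num (-1768) * ((var 1) * (var 3))) + (num 175 * ((var 2) * (var 3))) + (num 7080 * ((var 0) * (var 3))))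
  kd := num 256
  k2n := ((num (-1393)) + (num 5373 * (var 0)) + (num 2060 * (var 2)))
  k2d := num 1024

/-- Its ranges. -/
def bxIz301 : StripEnd.EBox :=
  ⟨(1, 2, 20), (3, 20, 20), (22, 25, 25), (0, 1, 1)⟩
end Vale.Agent.P100.Calib.StripEndD
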