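import Vale.Agent.P100.Calib.SlabStripEndDCert
import Vale.Agent.P100.Calib.SlabStripEndBigSgn

/-!
# A piece of the `I` and `Z` charts for `N` between seven and twenty: 324
-/

namespace Vale.Agent.P100.Calib.StripEndD

open Pack hiding ev_add ev_mul
open Pack.Ex StripMid StripEnd

local instance endIZ7P324Add : Add Ex := ⟨Ex.add⟩
local instance endIZ7P324Sub : Sub Ex := ⟨Ex.sub⟩
local instance endIZ7P324Mul : Mul Ex := ⟨Ex.mul⟩

/-- The piece `Iz324`. -/
def pcIz324 : Piece where
  I := (var 0)
  d := (var 0) * (var 2)
  w := ((var 0) * (var 1))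
  o := (((num 239) + (num (-548) * (var 1))) + ((num 6) + (num 548 * (var 1))) * (var 3))
  den := ((num 500))
  vn := num 2 * (((num 239) + (num (-548) * (var 1))) + ((num 6) + (num 548 * (var 1))) * (var 3))
  vs := (num 1 - num 2 * (var 0) - (var 0) * (var 2))
  mu := ⟨(122, 50), (139, 50)⟩
  pn := fun b => cond b
    (num 50 * (((num 500)) - (((num 239) + (num (-548) * (var 1))) + ((num 6) + (num 548 * (var 1))) * (var 3))) + num (-139) * ((((num 239) + (num (-548) * (var 1))) + ((num 6) + (num 548 * (var 1))) * (var 3)) * ((var 0) * (var 1))))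
    (num 50 * (((num 500)) - (((num 239) + (num (-548) * (var 1))) + ((num 6) + (num 548 * (var 1))) * (var 3))) + num (-122) * ((((num 239) + (num (-548) * (var 1))) + ((num 6) + (num 548 * (var 1))) * (var 3)) * ((var 0) * (var 1))))
  pd := num 50
  en := fun b => cond b
    (((num 38046) + (num (-11644) * (var 0))) * (num 4 * (var 0) * (((num 500)) - (((num 239) + (num (-548) * (var 1))) + ((num 6) + (num 548 * (var 1))) * (var 3))) * ((var 2) + num 3 * (var 0)) + (var 1) * ((num 500)) * (num 1 + num 20 * ((var 0) * (var 2)))))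
    (((num 37850) + (num (-11644) * (var 0))) * (num 4 * (var 0) * (((num 500)) - (((num 239) + (num (-548) * (var 1))) + ((num 6) + (num 548 * (var 1))) * (var 3))) * ((var 2) + num 3 * (var 0)) + (var 1) * ((num 500)) * (num 1 + num 20 * ((var 0) * (var 2)))))
  kk := fun b => cond b
    (((num 2607) + (num 20036 * (var 2))) * (((var 0) * (var 1)) * (num 4 * ((num 500)) * ((var 2) + num 3 * (var 0)))))
    (((num 1941) + (num 20036 * (var 2))) * (((var 0) * (var 1)) * (num 4 * ((num 500)) * ((var 2) + num 3 * (var 0)))))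
  f0 := num 8000 * ((num 500)) * ((var 2) + num 3 * (var 0))
  wn := fun b => cond b
    (((num (-11161) * ((var 0) * (((num 500)) - (((num 239) + (num (-548) * (var 1))) + ((num 6) + (num 548 * (var 1))) * (var 3))))) + (num 1164106 * (((var 0) * (var 1)) * (((num 239) + (num (-548) * (var 1))) + ((num 6) + (num 548 * (var 1))) * (var 3)))) + (num (-560605) * (((var 0) * (var 1)) * ((num 500)))) + (num 580 * ((var 0) * (var 2) * (((num 500)) - (((num 239) + (num (-548) * (var 1))) + ((num 6) + (num 548 * (var 1))) * (var 3)))))))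
    (((num (-11259) * ((var 0) * (((num 500)) - (((num 239) + (num (-548) * (var 1))) + ((num 6) + (num 548 * (var 1))) * (var 3))))) + (num 1164106 * (((var 0) * (var 1)) * (((num 239) + (num (-548) * (var 1))) + ((num 6) + (num 548 * (var 1))) * (var 3)))) + (num (-560703) * (((var 0) * (var 1)) * ((num 500)))) + (num 580 * ((var 0) * (var 2) * (((num 500)) - (((num 239) + (num (-548) * (var 1))) + ((num 6) + (num 548 * (var 1))) * (var 3)))))))
  wd := num 1000 * ((num 500))
  tn := fun b => cond b
    (num 9401 * ((var 1) * ((num 500))))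
    (num 9126 * ((var 1) * ((num 500))))
  td := num 8000 * ((var 1) * ((num 500)) + num 2 * (var 2) * (((num 500)) - (((num 239) + (num (-548) * (var 1))) + ((num 6) + (num 548 * (var 1))) * (var 3))))
  cn := (num 1 - (var 0)) * (var 2) - (num 1 - num 2 * (var 0))
  cd := (num 1 - num 2 * (var 0)) * (num 1 - num 2 * (var 0)) * (var 2)
  kn := ((num (-3244)) + (num (-2276) * (var 0)) + (num 4472 * (var 2)))
  kd := num 64
  k2n := ((var 1) * ((num 500)) + num 2 * (var 2) * (((num 500)) - (((num 239) + (num (-548) * (var 1))) + ((num 6) + (num 548 * (var 1))) * (var 3)))) * (((var 1) * ((num 500)) + num 2 * (var 2) * (((num 500)) - (((num 239) + (num (-548) * (var 1))) + ((num 6) + (num 548 * (var 1))) * (var 3)))) * ((num 559732) + (num (-610598) * (var 0)) + (num (-77010137) * (var 1)) + (num (-369460) * (var 2)) + (num (-16561) * (var 3)) + (num 46046619 * ((var 1) * (var 3))) + (num 48961 * ((var 2) * (var 3))) + (num (-183922) * ((var 0) * (var 3)))) + ((var 1) * ((num 500))) * ((num (-850851258)) + (num 7211476362 * (var 0)) + (num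 (-3469971537) * (var 1)) + (num (-63255106) * (var 2)) + (num (-573293680) * (var 3)) + (num 3531898572 * ((var 1) * (var 3))) + (num (-72458833) * ((var 2) * (var 3))) + (num 4386873375 * ((var 0) * (var 3))))) + ((var 1) * ((num 500))) * ((var 1) * ((num 500))) * ((num 591572661266) + (num (-4862161485266) * (var 0)) + (num 77091074399 * (var 2)) + (num 34837494 * (var 3)))
  k2d := num 65536 * (((var 1) * ((num 500)) + num 2 * (var 2) * (((num 500)) - (((num 239) + (num (-548) * (var 1))) + ((num 6) + (num 548 * (var 1))) * (var 3)))) * ((var 1) * ((num 500)) + num 2 * (var 2) * (((num 500)) - (((num 239) + (num (-548) * (var 1))) + ((num 6) + (num 548 * (var 1))) * (var 3)))))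

/-- Its ranges. -/
def bxIz324 : StripEnd.EBox :=
  ⟨(133, 135, 1000), (0, 1, 500), (168, 175, 200), (0, 1, 1)⟩
end Vale.Agent.P100.Calib.StripEndD
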