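import Vale.Agent.P100.Calib.SlabStripEndIZ7Strict
import Vale.Agent.P100.Calib.SlabStripEndBigSgn

/-!
# A piece of the `I` and `Z` charts for `N` between seven and twenty: 4
-/

namespace Vale.Agent.P100.Calib.StripEndD

open Pack hiding ev_add ev_mul
open Pack.Ex StripMid StripEnd

local instance endIZ7P4Add : Add Ex := ⟨Ex.add⟩
local instance endIZ7P4Sub : Sub Ex := ⟨Ex.sub⟩
local instance endIZ7P4Mul : Mul Ex := ⟨Ex.mul⟩

/-- The piece `Iz4`. -/
def pcIz4 : Piece where
  I := (var 0)
  d := (var 0) * (var 2)
  w := ((var 0) * (var 1))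
  o := (((num 500) + (num (-8000) * (var 1))) + ((num 7516 * (var 1))) * (var 3))
  den := ((num 500))
  vn := num 2 * (((num 500) + (num (-8000) * (var 1))) + ((num 7516 * (var 1))) * (var 3))
  vs := (num 1 - num 2 * (var 0) - (var 0) * (var 2))
  mu := ⟨(96, 50), (107, 50)⟩
  pn := fun b => cond b
    (num 50 * (((num 500)) - (((num 500) + (num (-8000) * (var 1))) + ((num 7516 * (var 1))) * (var 3))) + num (-107) * ((((num 500) + (num (-8000) * (var 1))) + ((num 7516 * (var 1))) * (var 3)) * ((var 0) * (var 1))))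
    (num 50 * (((num 500)) - (((num 500) + (num (-8000) * (var 1))) + ((num 7516 * (var 1))) * (var 3))) + num (-96) * ((((num 500) + (num (-8000) * (var 1))) + ((num 7516 * (var 1))) * (var 3)) * ((var 0) * (var 1))))
  pd := num 50
  en := fun b => cond b
    (((num 28489) + (num 86160 * (var 0))) * (num 4 * (var 0) * (((num 500)) - (((num 500) + (num (-8000) * (var 1))) + ((num 7516 * (var 1))) * (var 3))) * ((var 2) + num 3 * (var 0)) + (var 1) * ((num 500)) * (num 1 + num 20 * ((var 0) * (var 2)))))
    (((num 25760) + (num 86160 * (var 0))) * (num 4 * (var 0) * (((num 500)) - (((num 500) + (num (-8000) * (var 1))) + ((num 7516 * (var 1))) * (var 3))) * ((var 2) + num 3 * (var 0)) + (var 1) * ((num 500)) * (num 1 + num 20 * ((var 0) * (var 2)))))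
  kk := fun b => cond b
    (((num (-1795)) + (num 24920 * (var 2))) * (((var 0) * (var 1)) * (num 4 * ((num 500)) * ((var 2) + num 3 * (var 0)))))
    (((num (-2027)) + (num 24920 * (var 2))) * (((var 0) * (var 1)) * (num 4 * ((num 500)) * ((var 2) + num 3 * (var 0)))))
  f0 := num 8000 * ((num 500)) * ((var 2) + num 3 * (var 0))
  wn := fun b => cond b
    (((num (-10653) * ((var 0) * (((num 500)) - (((num 500) + (num (-8000) * (var 1))) + ((num 7516 * (var 1))) * (var 3))))) + (num 10070 * (((var 0) * (var 1)) * (((num 500) + (num (-8000) * (var 1))) + ((num 7516 * (var 1))) * (var 3)))) + (num (-1422) * (((var 0) * (var 1)) * ((num 500)))) + (num 2786 * ((var 0) * (var 2) * (((num 500)) - (((num 500) + (num (-8000) * (var 1))) + ((num 7516 * (var 1))) * (var 3)))))))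
    (((num (-11170) * ((var 0) * (((num 500)) - (((num 500) + (num (-8000) * (var 1))) + ((num 7516 * (var 1))) * (var 3))))) + (num 10070 * (((var 0) * (var 1)) * (((num 500) + (num (-8000) * (var 1))) + ((num 7516 * (var 1))) * (var 3)))) + (num (-1939) * (((var 0) * (var 1)) * ((num 500)))) + (num 2786 * ((var 0) * (var 2) * (((num 500)) - (((num 500) + (num (-8000) * (var 1))) + ((num 7516 * (var 1))) * (var 3)))))))
  wd := num 1000 * ((num 500))
  tn := fun b => cond b
    (num 11119 * ((var 1) * ((num 500))))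
    (num 8676 * ((var 1) * ((num 500))))
  td := num 8000 * ((var 1) * ((num 500)) + num 2 * (var 2) * (((num 500)) - (((num 500) + (num (-8000) * (var 1))) + ((num 7516 * (var 1))) * (var 3))))
  cn := num 0
  cd := num 1
  kn := ((num 500)) * ((((num 500)) - (((num 500) + (num (-8000) * (var 1))) + ((num 7516 * (var 1))) * (var 3))) * ((num 18533) + (num 207801 * (var 0)) + (num 143571 * (var 1)) + (num 18628 * (var 2)) + (num (-772) * (var 3)) + (num 33838 * ((var 1) * (var 3))) + (num 44803 * ((var 2) * (var 3))) + (num (-31456) * ((var 0) * (var 3)))) + (var 1) * ((num 500)) * ((num (-63184)) + (num 495631 * (var 0)) + (num (-195508) * (var 1)) + (num 20214 * (var 2))))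
  kd := num 65536 * ((var 0) * ((((num 500)) - (((num 500) + (num (-8000) * (var 1))) + ((num 7516 * (var 1))) * (var 3))) + (var 1) * ((num 500)))) * (((num 500)) - (((num 500) + (num (-8000) * (var 1))) + ((num 7516 * (var 1))) * (var 3)))
  k2n := ((var 1) * ((num 500)) + num 2 * (var 2) * (((num 500)) - (((num 500) + (num (-8000) * (var 1))) + ((num 7516 * (var 1))) * (var 3)))) * ((num (-15427)) + (num 263197 * (var 0)) + (num 5337962 * (var 1)) + (num (-127600) * (var 2)) + (num 356614 * (var 3)) + (num (-5631739) * ((var 1) * (var 3))) + (num 149102 * ((var 2) * (var 3))) + (num (-2701801) * ((var 0) * (var 3)))) + (var 1) * ((num 500)) * ((num 30204) + (num (-278363) * (var 0)) + (num (-5369916) * (var 1)) + (num (-33051) * (var 2)) + (num (-365907) * (var 3)) + (num 5674623 * ((var 1) * (var 3))) + (num 2769384 * ((var 0) * (var 3))))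
  k2d := num 65536 * ((var 1) * ((num 500)) + num 2 * (var 2) * (((num 500)) - (((num 500) + (num (-8000) * (var 1))) + ((num 7516 * (var 1))) * (var 3))))

/-- Its ranges. -/
def bxIz4 : StripEnd.EBox :=
  ⟨(10, 11, 80), (0, 1, 50), (0, 3, 40), (0, 1, 1)⟩
end Vale.Agent.P100.Calib.StripEndD
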