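import Vale.Agent.P100.Calib.SlabStripEndIZ7Strict
import Vale.Agent.P100.Calib.SlabStripEndBigSgn

/-!
# A piece of the `I` and `Z` charts for `N` between seven and twenty: 400
-/

namespace Vale.Agent.P100.Calib.StripEndD

open Pack hiding ev_add ev_mul
open Pack.Ex StripMid StripEnd

local instance endIZ7P400Add : Add Ex := ⟨Ex.add⟩
local instance endIZ7P400Sub : Sub Ex := ⟨Ex.sub⟩
local instance endIZ7P400Mul : Mul Ex := ⟨Ex.mul⟩

/-- The piece `Iz400`. -/
def pcIz400 : Piece where
  I := (var 0)
  d := (var 0) * (var 2)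
  w := ((var 0) * (var 1))
  o := (((num 249) + (num (-274) * (var 1))) + ((num 251) + (num (-7726) * (var 1))) * (var 3))
  den := ((num 500))
  vn := num 2 * (((num 249) + (num (-274) * (var 1))) + ((num 251) + (num (-7726) * (var 1))) * (var 3))
  vs := (num 1 - num 2 * (var 0) - (var 0) * (var 2))
  mu := ⟨(87, 50), (112, 50)⟩
  pn := fun b => cond b
    (num 50 * (((num 500)) - (((num 249) + (num (-274) * (var 1))) + ((num 251) + (num (-7726) * (var 1))) * (var 3))) + num (-112) * ((((num 249) + (num (-274) * (var 1))) + ((num 251) + (num (-7726) * (var 1))) * (var 3)) * ((var 0) * (var 1))))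
    (num 50 * (((num 500)) - (((num 249) + (num (-274) * (var 1))) + ((num 251) + (num (-7726) * (var 1))) * (var 3))) + num (-87) * ((((num 249) + (num (-274) * (var 1))) + ((num 251) + (num (-7726) * (var 1))) * (var 3)) * ((var 0) * (var 1))))
  pd := num 50
  en := fun b => cond b
    (((num 32116) + (num 59318 * (var 0))) * (num 4 * (var 0) * (((num 500)) - (((num 249) + (num (-274) * (var 1))) + ((num 251) + (num (-7726) * (var 1))) * (var 3))) * ((var 2) + num 3 * (var 0)) + (var 1) * ((num 500)) * (num 1 + num 20 * ((var 0) * (var 2)))))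
    (((num 30484) + (num 59318 * (var 0))) * (num 4 * (var 0) * (((num 500)) - (((num 249) + (num (-274) * (var 1))) + ((num 251) + (num (-7726) * (var 1))) * (var 3))) * ((var 2) + num 3 * (var 0)) + (var 1) * ((num 500)) * (num 1 + num 20 * ((var 0) * (var 2)))))
  kk := fun b => cond b
    (((num (-1439)) + (num 25798 * (var 2))) * (((var 0) * (var 1)) * (num 4 * ((num 500)) * ((var 2) + num 3 * (var 0)))))
    (((num (-1894)) + (num 25798 * (var 2))) * (((var 0) * (var 1)) * (num 4 * ((num 500)) * ((var 2) + num 3 * (var 0)))))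
  f0 := num 8000 * ((num 500)) * ((var 2) + num 3 * (var 0))
  wn := fun b => cond b
    (((num (-9891) * ((var 0) * (((num 500)) - (((num 249) + (num (-274) * (var 1))) + ((num 251) + (num (-7726) * (var 1))) * (var 3))))) + (num 12151 * (((var 0) * (var 1)) * (((num 249) + (num (-274) * (var 1))) + ((num 251) + (num (-7726) * (var 1))) * (var 3)))) + (num (-3370) * (((var 0) * (var 1)) * ((num 500)))) + (num 939 * ((var 0) * (var 2) * (((num 500)) - (((num 249) + (num (-274) * (var 1))) + ((num 251) + (num (-7726) * (var 1))) * (var 3)))))))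
    (((num (-10833) * ((var 0) * (((num 500)) - (((num 249) + (num (-274) * (var 1))) + ((num 251) + (num (-7726) * (var 1))) * (var 3))))) + (num 12151 * (((var 0) * (var 1)) * (((num 249) + (num (-274) * (var 1))) + ((num 251) + (num (-7726) * (var 1))) * (var 3)))) + (num (-4312) * (((var 0) * (var 1)) * ((num 500)))) + (num 939 * ((var 0) * (var 2) * (((num 500)) - (((num 249) + (num (-274) * (var 1))) + ((num 251) + (num (-7726) * (var 1))) * (var 3)))))))
  wd := num 1000 * ((num 500))
  tn := fun b => cond b
    (num 10764 * ((var 1) * ((num 500))))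
    (num 7904 * ((var 1) * ((num 500))))
  td := num 8000 * ((var 1) * ((num 500)) + num 2 * (var 2) * (((num 500)) - (((num 249) + (num (-274) * (var 1))) + ((num 251) + (num (-7726) * (var 1))) * (var 3))))
  cn := num 0
  cd := num 1
  kn := ((num 500)) * ((num 75) + (num 1912 * (var 0)) + (num (-1129) * (var 1)) + (num (-593) * (var 2)) + (num (-31) * (var 3)) + (num (-4084) * ((var 1) * (var 3))) + (num 987 * ((var 2) * (var 3))) + (num 495 * ((var 0) * (var 3))))
  kd := num 512 * ((var 0) * ((((num 500)) - (((num 249) + (num (-274) * (var 1))) + ((num 251) + (num (-7726) * (var 1))) * (var 3))) + (var 1) * ((num 500))))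
  k2n := num 860 * (((var 1) * ((num 500)) + num 2 * (var 2) * ((((num 500))) - (((num 249) + (num (-274) * (var 1))) + ((num 251) + (num (-7726) * (var 1))) * (var 3)))) * (((var 1) * ((num 500)) + num 2 * (var 2) * (((num 500)) - (((num 249) + (num (-274) * (var 1))) + ((num 251) + (num (-7726) * (var 1))) * (var 3)))) * (((var 1) * ((num 500)) + num 2 * (var 2) * (((num 500)) - (((num 249) + (num (-274) * (var 1))) + ((num 251) + (num (-7726) * (var 1))) * (var 3)))) * ((num 428194) + (num (-649944) * (var 0)) + (num 13712563 * (var 1)) + (num 1283162 * (var 2)) + (num (-487620) * (var 3)) + (num (-14210194) * ((var 1) * (var 3))) + (num (-1404644) * ((var 2) * (var 3))) + (num 1902187 * ((var 0) * (var 3)))) + ((var 1) * ((num 500))) * ((num (-467958)) + (num (-1807509) * (var 0)) + (num (-15987677) * (var 1)) + (num (-969519) * (var 2)) + (num 707210 * (var 3)) + (num 16284736 * ((var 1) * (var 3))) + (num 1429386 * ((var 2) * (var 3))) + (num (-1548417) * ((var 0) * (var 3))))) + ((var 1) * ((num 500))) * ((var 1) * ((num 500))) * ((num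 124242) + (num 2158365 * (var 0)) + (num (-324223) * (var 2)) + (num (-298461) * (var 3)))))
  k2d := num 1000 * (num 65536 * (((var 1) * ((num 500)) + num 2 * (var 2) * (((num 500)) - (((num 249) + (num (-274) * (var 1))) + ((num 251) + (num (-7726) * (var 1))) * (var 3)))) * ((var 1) * ((num 500)) + num 2 * (var 2) * (((num 500)) - (((num 249) + (num (-274) * (var 1))) + ((num 251) + (num (-7726) * (var 1))) * (var 3))))) * ((var 1) * ((num 500)) + num 2 * (var 2) * ((((num 500))) - (((num 249) + (num (-274) * (var 1))) + ((num 251) + (num (-7726) * (var 1))) * (var 3)))))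

/-- Its ranges. -/
def bxIz400 : StripEnd.EBox :=
  ⟨(4, 5, 40), (0, 1, 50), (0, 3, 20), (0, 1, 1)⟩
end Vale.Agent.P100.Calib.StripEndD
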