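import Vale.Agent.P100.Calib.SlabStripEndIZ7Strict
import Vale.Agent.P100.Calib.SlabStripEndBigSgn

/-!
# A piece of the `I` and `Z` charts for `N` between seven and twenty: 401
-/

namespace Vale.Agent.P100.Calib.StripEndD

open Pack hiding ev_add ev_mul
open Pack.Ex StripMid StripEnd

local instance endIZ7P401Add : Add Ex := ⟨Ex.add⟩
local instance endIZ7P401Sub : Sub Ex := ⟨Ex.sub⟩
local instance endIZ7P401Mul : Mul Ex := ⟨Ex.mul⟩

/-- The piece `Iz401`. -/
def pcIz401 : Piece where
  I := (var 0)
  d := (var 0) * (var 2)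
  w := ((var 0) * (var 1))
  o := (((num 249) + (num (-261) * (var 1))) + ((num 251) + (num (-7739) * (var 1))) * (var 3))
  den := ((num 500))
  vn := num 2 * (((num 249) + (num (-261) * (var 1))) + ((num 251) + (num (-7739) * (var 1))) * (var 3))
  vs := (num 1 - num 2 * (var 0) - (var 0) * (var 2))
  mu := ⟨(86, 50), (113, 50)⟩
  pn := fun b => cond b
    (num 50 * (((num 500)) - (((num 249) + (num (-261) * (var 1))) + ((num 251) + (num (-7739) * (var 1))) * (var 3))) + num (-113) * ((((num 249) + (num (-261) * (var 1))) + ((num 251) + (num (-7739) * (var 1))) * (var 3)) * ((var 0) * (var 1))))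
    (num 50 * (((num 500)) - (((num 249) + (num (-261) * (var 1))) + ((num 251) + (num (-7739) * (var 1))) * (var 3))) + num (-86) * ((((num 249) + (num (-261) * (var 1))) + ((num 251) + (num (-7739) * (var 1))) * (var 3)) * ((var 0) * (var 1))))
  pd := num 50
  en := fun b => cond b
    (((num 33542) + (num 44756 * (var 0))) * (num 4 * (var 0) * (((num 500)) - (((num 249) + (num (-261) * (var 1))) + ((num 251) + (num (-7739) * (var 1))) * (var 3))) * ((var 2) + num 3 * (var 0)) + (var 1) * ((num 500)) * (num 1 + num 20 * ((var 0) * (var 2)))))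
    (((num 32725) + (num 44756 * (var 0))) * (num 4 * (var 0) * (((num 500)) - (((num 249) + (num (-261) * (var 1))) + ((num 251) + (num (-7739) * (var 1))) * (var 3))) * ((var 2) + num 3 * (var 0)) + (var 1) * ((num 500)) * (num 1 + num 20 * ((var 0) * (var 2)))))
  kk := fun b => cond b
    (((num (-1796)) + (num 24928 * (var 2))) * (((var 0) * (var 1)) * (num 4 * ((num 500)) * ((var 2) + num 3 * (var 0)))))
    (((num (-2028)) + (num 24928 * (var 2))) * (((var 0) * (var 1)) * (num 4 * ((num 500)) * ((var 2) + num 3 * (var 0)))))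
  f0 := num 8000 * ((num 500)) * ((var 2) + num 3 * (var 0))
  wn := fun b => cond b
    (((num (-10586) * ((var 0) * (((num 500)) - (((num 249) + (num (-261) * (var 1))) + ((num 251) + (num (-7739) * (var 1))) * (var 3))))) + (num 11924 * (((var 0) * (var 1)) * (((num 249) + (num (-261) * (var 1))) + ((num 251) + (num (-7739) * (var 1))) * (var 3)))) + (num (-2845) * (((var 0) * (var 1)) * ((num 500)))) + (num 1194 * ((var 0) * (var 2) * (((num 500)) - (((num 249) + (num (-261) * (var 1))) + ((num 251) + (num (-7739) * (var 1))) * (var 3)))))))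
    (((num (-11141) * ((var 0) * (((num 500)) - (((num 249) + (num (-261) * (var 1))) + ((num 251) + (num (-7739) * (var 1))) * (var 3))))) + (num 11924 * (((var 0) * (var 1)) * (((num 249) + (num (-261) * (var 1))) + ((num 251) + (num (-7739) * (var 1))) * (var 3)))) + (num (-3400) * (((var 0) * (var 1)) * ((num 500)))) + (num 1194 * ((var 0) * (var 2) * (((num 500)) - (((num 249) + (num (-261) * (var 1))) + ((num 251) + (num (-7739) * (var 1))) * (var 3)))))))
  wd := num 1000 * ((num 500))
  tn := fun b => cond b
    (num 11145 * ((var 1) * ((num 500))))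
    (num 7891 * ((var 1) * ((num 500))))
  td := num 8000 * ((var 1) * ((num 500)) + num 2 * (var 2) * (((num 500)) - (((num 249) + (num (-261) * (var 1))) + ((num 251) + (num (-7739) * (var 1))) * (var 3))))
  cn := num 0
  cd := num 1
  kn := ((num 500)) * ((num 54) + (num 2301 * (var 0)) + (num (-5294) * (var 1)) + (num (-282) * (var 2)) + (num 37 * (var 3)) + (num 668 * ((var 1) * (var 3))) + (num 1128 * ((var 2) * (var 3))) + (num (-289) * ((var 0) * (var 3))))
  kd := num 512 * ((var 0) * ((((num 500)) - (((num 249) + (num (-261) * (var 1))) + ((num 251) + (num (-7739) * (var 1))) * (var 3))) + (var 1) * ((num 500))))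
  k2n := num 910 * (((var 1) * ((num 500)) + num 2 * (var 2) * ((((num 500))) - (((num 249) + (num (-261) * (var 1))) + ((num 251) + (num (-7739) * (var 1))) * (var 3)))) * (((var 1) * ((num 500)) + num 2 * (var 2) * (((num 500)) - (((num 249) + (num (-261) * (var 1))) + ((num 251) + (num (-7739) * (var 1))) * (var 3)))) * (((var 1) * ((num 500)) + num 2 * (var 2) * (((num 500)) - (((num 249) + (num (-261) * (var 1))) + ((num 251) + (num (-7739) * (var 1))) * (var 3)))) * ((num 136124) + (num 1494991 * (var 0)) + (num (-6930366) * (var 1)) + (num 2763899 * (var 2)) + (num (-72141) * (var 3)) + (num 7148531 * ((var 1) * (var 3))) + (num (-2750560) * ((var 2) * (var 3))) + (num (-1384272) * ((var 0) * (var 3)))) + ((var 1) * ((num 500))) * ((num (-272242)) + (num (-2989981) * (var 0)) + (num 13860733 * (var 1)) + (num (-3514474) * (var 2)) + (num 180980 * (var 3)) + (num (-14297063) * ((var 1) * (var 3))) + (num 2998497 * ((var 2) * (var 3))) + (num 2768544 * ((var 0) * (var 3))))) + ((var 1) * ((num 500))) * ((var 1) * ((num 500))) * ((num 356470)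 + (num 90248 * (var 0)) + (num 387950 * (var 2)) + (num (-313408) * (var 3)))))
  k2d := num 1000 * (num 65536 * (((var 1) * ((num 500)) + num 2 * (var 2) * (((num 500)) - (((num 249) + (num (-261) * (var 1))) + ((num 251) + (num (-7739) * (var 1))) * (var 3)))) * ((var 1) * ((num 500)) + num 2 * (var 2) * (((num 500)) - (((num 249) + (num (-261) * (var 1))) + ((num 251) + (num (-7739) * (var 1))) * (var 3))))) * ((var 1) * ((num 500)) + num 2 * (var 2) * ((((num 500))) - (((num 249) + (num (-261) * (var 1))) + ((num 251) + (num (-7739) * (var 1))) * (var 3)))))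

/-- Its ranges. -/
def bxIz401 : StripEnd.EBox :=
  ⟨(10, 11, 80), (0, 1, 50), (0, 3, 40), (0, 1, 1)⟩
end Vale.Agent.P100.Calib.StripEndD
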