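import Vale.Agent.P100.Calib.SlabStripEndIZ7Strict
import Vale.Agent.P100.Calib.SlabStripEndBigSgn

/-!
# A piece of the `I` and `Z` charts for `N` between seven and twenty: 402
-/

namespace Vale.Agent.P100.Calib.StripEndD

open Pack hiding ev_add ev_mul
open Pack.Ex StripMid StripEnd

local instance endIZ7P402Add : Add Ex := ⟨Ex.add⟩
local instance endIZ7P402Sub : Sub Ex := ⟨Ex.sub⟩
local instance endIZ7P402Mul : Mul Ex := ⟨Ex.mul⟩

/-- The piece `Iz402`. -/
def pcIz402 : Piece where
  I := (var 0)
  d := (var 0) * (var 2)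
  w := ((var 0) * (var 1))
  o := (((num 249) + (num (-274) * (var 1))) + ((num 251) + (num (-7726) * (var 1))) * (var 3))
  den := ((num 500))
  vn := num 2 * (((num 249) + (num (-274) * (var 1))) + ((num 251) + (num (-7726) * (var 1))) * (var 3))
  vs := (num 1 - num 2 * (var 0) - (var 0) * (var 2))
  mu := ⟨(85, 50), (114, 50)⟩
  pn := fun b => cond b
    (num 50 * (((num 500)) - (((num 249) + (num (-274) * (var 1))) + ((num 251) + (num (-7726) * (var 1))) * (var 3))) + num (-114) * ((((num 249) + (num (-274) * (var 1))) + ((num 251) + (num (-7726) * (var 1))) * (var 3)) * ((var 0) * (var 1))))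
    (num 50 * (((num 500)) - (((num 249) + (num (-274) * (var 1))) + ((num 251) + (num (-7726) * (var 1))) * (var 3))) + num (-85) * ((((num 249) + (num (-274) * (var 1))) + ((num 251) + (num (-7726) * (var 1))) * (var 3)) * ((var 0) * (var 1))))
  pd := num 50
  en := fun b => cond b
    (((num 34708) + (num 36250 * (var 0))) * (num 4 * (var 0) * (((num 500)) - (((num 249) + (num (-274) * (var 1))) + ((num 251) + (num (-7726) * (var 1))) * (var 3))) * ((var 2) + num 3 * (var 0)) + (var 1) * ((num 500)) * (num 1 + num 20 * ((var 0) * (var 2)))))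
    (((num 34024) + (num 36250 * (var 0))) * (num 4 * (var 0) * (((num 500)) - (((num 249) + (num (-274) * (var 1))) + ((num 251) + (num (-7726) * (var 1))) * (var 3))) * ((var 2) + num 3 * (var 0)) + (var 1) * ((num 500)) * (num 1 + num 20 * ((var 0) * (var 2)))))
  kk := fun b => cond b
    (((num (-1937)) + (num 24576 * (var 2))) * (((var 0) * (var 1)) * (num 4 * ((num 500)) * ((var 2) + num 3 * (var 0)))))
    (((num (-2096)) + (num 24576 * (var 2))) * (((var 0) * (var 1)) * (num 4 * ((num 500)) * ((var 2) + num 3 * (var 0)))))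
  f0 := num 8000 * ((num 500)) * ((var 2) + num 3 * (var 0))
  wn := fun b => cond b
    (((num (-10952) * ((var 0) * (((num 500)) - (((num 249) + (num (-274) * (var 1))) + ((num 251) + (num (-7726) * (var 1))) * (var 3))))) + (num 12768 * (((var 0) * (var 1)) * (((num 249) + (num (-274) * (var 1))) + ((num 251) + (num (-7726) * (var 1))) * (var 3)))) + (num (-3282) * (((var 0) * (var 1)) * ((num 500)))) + (num 1346 * ((var 0) * (var 2) * (((num 500)) - (((num 249) + (num (-274) * (var 1))) + ((num 251) + (num (-7726) * (var 1))) * (var 3)))))))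
    (((num (-11341) * ((var 0) * (((num 500)) - (((num 249) + (num (-274) * (var 1))) + ((num 251) + (num (-7726) * (var 1))) * (var 3))))) + (num 12768 * (((var 0) * (var 1)) * (((num 249) + (num (-274) * (var 1))) + ((num 251) + (num (-7726) * (var 1))) * (var 3)))) + (num (-3671) * (((var 0) * (var 1)) * ((num 500)))) + (num 1346 * ((var 0) * (var 2) * (((num 500)) - (((num 249) + (num (-274) * (var 1))) + ((num 251) + (num (-7726) * (var 1))) * (var 3)))))))
  wd := num 1000 * ((num 500))
  tn := fun b => cond b
    (num 11345 * ((var 1) * ((num 500))))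
    (num 7884 * ((var 1) * ((num 500))))
  td := num 8000 * ((var 1) * ((num 500)) + num 2 * (var 2) * (((num 500)) - (((num 249) + (num (-274) * (var 1))) + ((num 251) + (num (-7726) * (var 1))) * (var 3))))
  cn := num 0
  cd := num 1
  kn := ((num 500)) * ((num 153) + (num 4711 * (var 0)) + (num (-7003) * (var 1)) + (num (-2089) * (var 2)) + (num 84 * (var 3)) + (num (-2268) * ((var 1) * (var 3))) + (num 4314 * ((var 2) * (var 3))) + (num (-841) * ((var 0) * (var 3))))
  kd := num 1024 * ((var 0) * ((((num 500)) - (((num 249) + (num (-274) * (var 1))) + ((num 251) + (num (-7726) * (var 1))) * (var 3))) + (var 1) * ((num 500))))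
  k2n := ((var 1) * ((num 500)) + num 2 * (var 2) * ((((num 500))) - (((num 249) + (num (-274) * (var 1))) + ((num 251) + (num (-7726) * (var 1))) * (var 3)))) * (((var 1) * ((num 500)) + num 2 * (var 2) * (((num 500)) - (((num 249) + (num (-274) * (var 1))) + ((num 251) + (num (-7726) * (var 1))) * (var 3)))) * (((var 1) * ((num 500)) + num 2 * (var 2) * (((num 500)) - (((num 249) + (num (-274) * (var 1))) + ((num 251) + (num (-7726) * (var 1))) * (var 3)))) * ((num (-242372)) + (num 2114749 * (var 0)) + (num (-2420161) * (var 1)) + (num 7378587 * (var 2)) + (num 325367 * (var 3)) + (num 1680125 * ((var 1) * (var 3))) + (num (-7652013) * ((var 2) * (var 3))) + (num (-2125038) * ((var 0) * (var 3)))) + ((var 1) * ((num 500))) * ((num 189150) + (num (-2079681) * (var 0)) + (num 9569447 * (var 1)) + (num (-7592020) * (var 2)) + (num (-362969) * (var 3)) + (num (-9049084) * ((var 1) * (var 3))) + (num 8138871 * ((var 2) * (var 3))) + (num 2296835 * ((var 0) * (var 3))))) + ((var 1) * ((num 500))) * ((var 1) * ((num 500))) * ((num 115281) + (num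 (-157940) * (var 0)) + (num (-378476) * (var 2)) + (num (-18909) * (var 3))))
  k2d := num 65536 * (((var 1) * ((num 500)) + num 2 * (var 2) * (((num 500)) - (((num 249) + (num (-274) * (var 1))) + ((num 251) + (num (-7726) * (var 1))) * (var 3)))) * ((var 1) * ((num 500)) + num 2 * (var 2) * (((num 500)) - (((num 249) + (num (-274) * (var 1))) + ((num 251) + (num (-7726) * (var 1))) * (var 3))))) * ((var 1) * ((num 500)) + num 2 * (var 2) * ((((num 500))) - (((num 249) + (num (-274) * (var 1))) + ((num 251) + (num (-7726) * (var 1))) * (var 3))))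

/-- Its ranges. -/
def bxIz402 : StripEnd.EBox :=
  ⟨(22, 23, 160), (0, 1, 50), (0, 3, 40), (0, 1, 1)⟩
end Vale.Agent.P100.Calib.StripEndD
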