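import Vale.Agent.P100.Calib.SlabStripEndIZ7Strict
import Vale.Agent.P100.Calib.SlabStripEndBigSgn

/-!
# A piece of the `I` and `Z` charts for `N` between seven and twenty: 403
-/

namespace Vale.Agent.P100.Calib.StripEndD

open Pack hiding ev_add ev_mul
open Pack.Ex StripMid StripEnd

local instance endIZ7P403Add : Add Ex := ⟨Ex.add⟩
local instance endIZ7P403Sub : Sub Ex := ⟨Ex.sub⟩
local instance endIZ7P403Mul : Mul Ex := ⟨Ex.mul⟩

/-- The piece `Iz403`. -/
def pcIz403 : Piece where
  I := (var 0)
  d := (var 0) * (var 2)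
  w := ((var 0) * (var 1))
  o := (((num 49) + (num (-48) * (var 1))) + ((num 51) + (num (-36) * (var 1))) * (var 3))
  den := ((num 100))
  vn := num 2 * (((num 49) + (num (-48) * (var 1))) + ((num 51) + (num (-36) * (var 1))) * (var 3))
  vs := (num 1 - num 2 * (var 0) - (var 0) * (var 2))
  mu := ⟨(90, 50), (114, 50)⟩
  pn := fun b => cond b
    (num 50 * (((num 100)) - (((num 49) + (num (-48) * (var 1))) + ((num 51) + (num (-36) * (var 1))) * (var 3))) + num (-114) * ((((num 49) + (num (-48) * (var 1))) + ((num 51) + (num (-36) * (var 1))) * (var 3)) * ((var 0) * (var 1))))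
    (num 50 * (((num 100)) - (((num 49) + (num (-48) * (var 1))) + ((num 51) + (num (-36) * (var 1))) * (var 3))) + num (-90) * ((((num 49) + (num (-48) * (var 1))) + ((num 51) + (num (-36) * (var 1))) * (var 3)) * ((var 0) * (var 1))))
  pd := num 50
  en := fun b => cond b
    (((num 26400) + (num 110516 * (var 0))) * (num 4 * (var 0) * (((num 100)) - (((num 49) + (num (-48) * (var 1))) + ((num 51) + (num (-36) * (var 1))) * (var 3))) * ((var 2) + num 3 * (var 0)) + (var 1) * ((num 100)) * (num 1 + num 20 * ((var 0) * (var 2)))))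
    (((num 24310) + (num 110516 * (var 0))) * (num 4 * (var 0) * (((num 100)) - (((num 49) + (num (-48) * (var 1))) + ((num 51) + (num (-36) * (var 1))) * (var 3))) * ((var 2) + num 3 * (var 0)) + (var 1) * ((num 100)) * (num 1 + num 20 * ((var 0) * (var 2)))))
  kk := fun b => cond b
    (((num (-1942)) + (num 26814 * (var 2))) * (((var 0) * (var 1)) * (num 4 * ((num 100)) * ((var 2) + num 3 * (var 0)))))
    (((num (-2109)) + (num 26814 * (var 2))) * (((var 0) * (var 1)) * (num 4 * ((num 100)) * ((var 2) + num 3 * (var 0)))))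
  f0 := num 8000 * ((num 100)) * ((var 2) + num 3 * (var 0))
  wn := fun b => cond b
    (((num (-10661) * ((var 0) * (((num 100)) - (((num 49) + (num (-48) * (var 1))) + ((num 51) + (num (-36) * (var 1))) * (var 3))))) + (num 10270 * (((var 0) * (var 1)) * (((num 49) + (num (-48) * (var 1))) + ((num 51) + (num (-36) * (var 1))) * (var 3)))) + (num (-1027) * (((var 0) * (var 1)) * ((num 100)))) + (num 2155 * ((var 0) * (var 2) * (((num 100)) - (((num 49) + (num (-48) * (var 1))) + ((num 51) + (num (-36) * (var 1))) * (var 3)))))))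
    (((num (-11378) * ((var 0) * (((num 100)) - (((num 49) + (num (-48) * (var 1))) + ((num 51) + (num (-36) * (var 1))) * (var 3))))) + (num 10270 * (((var 0) * (var 1)) * (((num 49) + (num (-48) * (var 1))) + ((num 51) + (num (-36) * (var 1))) * (var 3)))) + (num (-1744) * (((var 0) * (var 1)) * ((num 100)))) + (num 2155 * ((var 0) * (var 2) * (((num 100)) - (((num 49) + (num (-48) * (var 1))) + ((num 51) + (num (-36) * (var 1))) * (var 3)))))))
  wd := num 1000 * ((num 100))
  tn := fun b => cond b
    (num 10810 * ((var 1) * ((num 100))))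
    (num 8317 * ((var 1) * ((num 100))))
  td := num 8000 * ((var 1) * ((num 100)) + num 2 * (var 2) * (((num 100)) - (((num 49) + (num (-48) * (var 1))) + ((num 51) + (num (-36) * (var 1))) * (var 3))))
  cn := num 0
  cd := num 1
  kn := ((num 100)) * ((((num 100)) - (((num 49) + (num (-48) * (var 1))) + ((num 51) + (num (-36) * (var 1))) * (var 3))) * ((num 4512) + (num 342173 * (var 0)) + (num (-277001) * (var 1)) + (num 818 * (var 2)) + (num 64146 * (var 3)) + (num 76204 * ((var 1) * (var 3))) + (num (-214036) * ((var 2) * (var 3))) + (num (-390932) * ((var 0) * (var 3)))) + (var 1) * ((num 100)) * ((num 37311) + (num 128788 * (var 0)) + (num 233448 * (var 1)) + (num (-30619) * (var 2)) + (num (-146858) * (var 3)) + (num 271520 * ((var 2) * (var 3))) + (num 621953 * ((var 0) * (var 3)))))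
  kd := num 65536 * ((var 0) * ((((num 100)) - (((num 49) + (num (-48) * (var 1))) + ((num 51) + (num (-36) * (var 1))) * (var 3))) + (var 1) * ((num 100)))) * (((num 100)) - (((num 49) + (num (-48) * (var 1))) + ((num 51) + (num (-36) * (var 1))) * (var 3)))
  k2n := ((num 1416) + (num (-4254) * (var 0)) + (num (-1093) * (var 2)))
  k2d := num 4096

/-- Its ranges. -/
def bxIz403 : StripEnd.EBox :=
  ⟨(40, 43, 320), (2, 15, 100), (3, 6, 40), (0, 1, 1)⟩
end Vale.Agent.P100.Calib.StripEndD
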