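import Vale.Agent.P100.Calib.SlabStripEndIZ7Strict
import Vale.Agent.P100.Calib.SlabStripEndBigSgn

/-!
# A piece of the `I` and `Z` charts for `N` between seven and twenty: 406
-/

namespace Vale.Agent.P100.Calib.StripEndD

open Pack hiding ev_add ev_mul
open Pack.Ex StripMid StripEnd

local instance endIZ7P406Add : Add Ex := ⟨Ex.add⟩
local instance endIZ7P406Sub : Sub Ex := ⟨Ex.sub⟩
local instance endIZ7P406Mul : Mul Ex := ⟨Ex.mul⟩

/-- The piece `Iz406`. -/
def pcIz406 : Piece where
  I := (var 0)
  d := (var 0) * (var 2)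
  w := ((var 0) * (var 1))
  o := (((num 446)) + ((num 54) + (num (-1242) * (var 1))) * (var 3))
  den := ((num 500))
  vn := num 2 * (((num 446)) + ((num 54) + (num (-1242) * (var 1))) * (var 3))
  vs := (num 1 - num 2 * (var 0) - (var 0) * (var 2))
  mu := ⟨(138, 50), (160, 50)⟩
  pn := fun b => cond b
    (num 50 * (((num 500)) - (((num 446)) + ((num 54) + (num (-1242) * (var 1))) * (var 3))) + num (-160) * ((((num 446)) + ((num 54) + (num (-1242) * (var 1))) * (var 3)) * ((var 0) * (var 1))))
    (num 50 * (((num 500)) - (((num 446)) + ((num 54) + (num (-1242) * (var 1))) * (var 3))) + num (-138) * ((((num 446)) + ((num 54) + (num (-1242) * (var 1))) * (var 3)) * ((var 0) * (var 1))))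
  pd := num 50
  en := fun b => cond b
    (((num 37193) + (num 47876 * (var 0))) * (num 4 * (var 0) * (((num 500)) - (((num 446)) + ((num 54) + (num (-1242) * (var 1))) * (var 3))) * ((var 2) + num 3 * (var 0)) + (var 1) * ((num 500)) * (num 1 + num 20 * ((var 0) * (var 2)))))
    (((num 29606) + (num 47876 * (var 0))) * (num 4 * (var 0) * (((num 500)) - (((num 446)) + ((num 54) + (num (-1242) * (var 1))) * (var 3))) * ((var 2) + num 3 * (var 0)) + (var 1) * ((num 500)) * (num 1 + num 20 * ((var 0) * (var 2)))))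
  kk := fun b => cond b
    (((num (-48)) + (num 28552 * (var 2))) * (((var 0) * (var 1)) * (num 4 * ((num 500)) * ((var 2) + num 3 * (var 0)))))
    (((num (-2090)) + (num 28552 * (var 2))) * (((var 0) * (var 1)) * (num 4 * ((num 500)) * ((var 2) + num 3 * (var 0)))))
  f0 := num 8000 * ((num 500)) * ((var 2) + num 3 * (var 0))
  wn := fun b => cond b
    (((num (-11418) * ((var 0) * (((num 500)) - (((num 446)) + ((num 54) + (num (-1242) * (var 1))) * (var 3))))) + (num 23772 * (((var 0) * (var 1)) * (((num 446)) + ((num 54) + (num (-1242) * (var 1))) * (var 3)))) + (num (-9588) * (((var 0) * (var 1)) * ((num 500)))) + (num 2761 * ((var 0) * (var 2) * (((num 500)) - (((num 446)) + ((num 54) + (num (-1242) * (var 1))) * (var 3)))))))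
    (((num (-11947) * ((var 0) * (((num 500)) - (((num 446)) + ((num 54) + (num (-1242) * (var 1))) * (var 3))))) + (num 23772 * (((var 0) * (var 1)) * (((num 446)) + ((num 54) + (num (-1242) * (var 1))) * (var 3)))) + (num (-10117) * (((var 0) * (var 1)) * ((num 500)))) + (num 2761 * ((var 0) * (var 2) * (((num 500)) - (((num 446)) + ((num 54) + (num (-1242) * (var 1))) * (var 3)))))))
  wd := num 1000 * ((num 500))
  tn := fun b => cond b
    (num 11339 * ((var 1) * ((num 500))))
    (num 9809 * ((var 1) * ((num 500))))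
  td := num 8000 * ((var 1) * ((num 500)) + num 2 * (var 2) * (((num 500)) - (((num 446)) + ((num 54) + (num (-1242) * (var 1))) * (var 3))))
  cn := num 0
  cd := num 1
  kn := ((num 500)) * ((num 695) + (num (-5817) * (var 0)) + (num 2961 * (var 1)) + (num 243 * (var 2)) + (num (-755) * (var 3)) + (num (-3518) * ((var 1) * (var 3))) + (num (-147) * ((var 2) * (var 3))) + (num 6643 * ((var 0) * (var 3))))
  kd := num 16 * (((num 500)) - (((num 446)) + ((num 54) + (num (-1242) * (var 1))) * (var 3)))
  k2n := ((num (-177)) + (num 1521 * (var 0)) + (num (-5296) * (var 1)) + (num 140 * (var 2)) + (num 169 * (var 3)) + (num 2971 * ((var 1) * (var 3))) + (num (-83) * ((var 2) * (var 3))) + (num (-1327) * ((var 0) * (var 3))))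
  k2d := num 64

/-- Its ranges. -/
def bxIz406 : StripEnd.EBox :=
  ⟨(22, 23, 160), (0, 1, 50), (5, 6, 8), (0, 1, 1)⟩
end Vale.Agent.P100.Calib.StripEndD
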