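import Vale.Agent.P100.Calib.SlabStripEndIZ7Strict
import Vale.Agent.P100.Calib.SlabStripEndBigSgn

/-!
# A piece of the `I` and `Z` charts for `N` between seven and twenty: 407
-/

namespace Vale.Agent.P100.Calib.StripEndD

open Pack hiding ev_add ev_mul
open Pack.Ex StripMid StripEnd

local instance endIZ7P407Add : Add Ex := ⟨Ex.add⟩
local instance endIZ7P407Sub : Sub Ex := ⟨Ex.sub⟩
local instance endIZ7P407Mul : Mul Ex := ⟨Ex.mul⟩

/-- The piece `Iz407`. -/
def pcIz407 : Piece where
  I := (var 0)
  d := (var 0) * (var 2)
  w := ((var 0) * (var 1))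
  o := (((num 239) + (num (-297) * (var 1))) + ((num 261) + (num (-292) * (var 1))) * (var 3))
  den := ((num 500))
  vn := num 2 * (((num 239) + (num (-297) * (var 1))) + ((num 261) + (num (-292) * (var 1))) * (var 3))
  vs := (num 1 - num 2 * (var 0) - (var 0) * (var 2))
  mu := ⟨(92, 50), (121, 50)⟩
  pn := fun b => cond b
    (num 50 * (((num 500)) - (((num 239) + (num (-297) * (var 1))) + ((num 261) + (num (-292) * (var 1))) * (var 3))) + num (-121) * ((((num 239) + (num (-297) * (var 1))) + ((num 261) + (num (-292) * (var 1))) * (var 3)) * ((var 0) * (var 1))))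
    (num 50 * (((num 500)) - (((num 239) + (num (-297) * (var 1))) + ((num 261) + (num (-292) * (var 1))) * (var 3))) + num (-92) * ((((num 239) + (num (-297) * (var 1))) + ((num 261) + (num (-292) * (var 1))) * (var 3)) * ((var 0) * (var 1))))
  pd := num 50
  en := fun b => cond b
    (((num 30281) + (num 79626 * (var 0))) * (num 4 * (var 0) * (((num 500)) - (((num 239) + (num (-297) * (var 1))) + ((num 261) + (num (-292) * (var 1))) * (var 3))) * ((var 2) + num 3 * (var 0)) + (var 1) * ((num 500)) * (num 1 + num 20 * ((var 0) * (var 2)))))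
    (((num 27451) + (num 79626 * (var 0))) * (num 4 * (var 0) * (((num 500)) - (((num 239) + (num (-297) * (var 1))) + ((num 261) + (num (-292) * (var 1))) * (var 3))) * ((var 2) + num 3 * (var 0)) + (var 1) * ((num 500)) * (num 1 + num 20 * ((var 0) * (var 2)))))
  kk := fun b => cond b
    (((num (-36)) + (num 20844 * (var 2))) * (((var 0) * (var 1)) * (num 4 * ((num 500)) * ((var 2) + num 3 * (var 0)))))
    (((num (-1381)) + (num 20844 * (var 2))) * (((var 0) * (var 1)) * (num 4 * ((num 500)) * ((var 2) + num 3 * (var 0)))))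
  f0 := num 8000 * ((num 500)) * ((var 2) + num 3 * (var 0))
  wn := fun b => cond b
    (((num (-9611) * ((var 0) * (((num 500)) - (((num 239) + (num (-297) * (var 1))) + ((num 261) + (num (-292) * (var 1))) * (var 3))))) + (num 13614 * (((var 0) * (var 1)) * (((num 239) + (num (-297) * (var 1))) + ((num 261) + (num (-292) * (var 1))) * (var 3)))) + (num (-5398) * (((var 0) * (var 1)) * ((num 500)))) + (num 974 * ((var 0) * (var 2) * (((num 500)) - (((num 239) + (num (-297) * (var 1))) + ((num 261) + (num (-292) * (var 1))) * (var 3)))))))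
    (((num (-10511) * ((var 0) * (((num 500)) - (((num 239) + (num (-297) * (var 1))) + ((num 261) + (num (-292) * (var 1))) * (var 3))))) + (num 13614 * (((var 0) * (var 1)) * (((num 239) + (num (-297) * (var 1))) + ((num 261) + (num (-292) * (var 1))) * (var 3)))) + (num (-6298) * (((var 0) * (var 1)) * ((num 500)))) + (num 974 * ((var 0) * (var 2) * (((num 500)) - (((num 239) + (num (-297) * (var 1))) + ((num 261) + (num (-292) * (var 1))) * (var 3)))))))
  wd := num 1000 * ((num 500))
  tn := fun b => cond b
    (num 9800 * ((var 1) * ((num 500))))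
    (num 8048 * ((var 1) * ((num 500))))
  td := num 8000 * ((var 1) * ((num 500)) + num 2 * (var 2) * (((num 500)) - (((num 239) + (num (-297) * (var 1))) + ((num 261) + (num (-292) * (var 1))) * (var 3))))
  cn := num 0
  cd := num 1
  kn := ((num 500)) * (((((num 500)) - (((num 239) + (num (-297) * (var 1))) + ((num 261) + (num (-292) * (var 1))) * (var 3))) + (var 1) * ((num 500))) * ((num (-132653)) + (num 95739 * (var 0)) + (num 1472871 * (var 1)) + (num 620617 * (var 2)) + (num (-28939) * (var 3)) + (num (-711255) * ((var 1) * (var 3))) + (num (-503474) * ((var 2) * (var 3))) + (num 1683733 * ((var 0) * (var 3)))) + (((num 500)) - (((num 239) + (num (-297) * (var 1))) + ((num 261) + (num (-292) * (var 1))) * (var 3))) * ((num 134281) + (num 233923 * (var 0)) + (num (-1445805) * (var 1)) + (num (-647253) * (var 2)) + (num 46861 * (var 3)) + (num 489034 * ((var 2) * (var 3))) + (num (-1795621) * ((var 0) * (var 3)))))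
  kd := num 65536 * ((var 0) * ((((num 500)) - (((num 239) + (num (-297) * (var 1))) + ((num 261) + (num (-292) * (var 1))) * (var 3))) + (var 1) * ((num 500)))) * ((((num 500)) - (((num 239) + (num (-297) * (var 1))) + ((num 261) + (num (-292) * (var 1))) * (var 3))) + (var 1) * ((num 500)))
  k2n := ((var 1) * ((num 500)) + num 2 * (var 2) * (((num 500)) - (((num 239) + (num (-297) * (var 1))) + ((num 261) + (num (-292) * (var 1))) * (var 3)))) * (((var 1) * ((num 500)) + num 2 * (var 2) * (((num 500)) - (((num 239) + (num (-297) * (var 1))) + ((num 261) + (num (-292) * (var 1))) * (var 3)))) * ((num 465746) + (num (-2014749) * (var 0)) + (num (-7035778) * (var 1)) + (num (-247105) * (var 2)) + (num (-373342) * (var 3)) + (num 11213560 * ((var 1) * (var 3))) + (num 123112 * ((var 2) * (var 3))) + (num 1775854 * ((var 0) * (var 3)))) + ((var 1) * ((num 500))) * ((num 190312) + (num (-6721824) * (var 0)) + (num (-18882487) * (var 1)) + (num 4576978 * (var 2)) + (num 128097 * (var 3)) + (num 14471203 * ((var 1) * (var 3))) + (num (-4328992) * ((var 2)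 * (var 3))) + (num 2167499 * ((var 0) * (var 3))))) + ((var 1) * ((num 500))) * ((var 1) * ((num 500))) * ((num (-403547)) + (num 5086326 * (var 0)) + (num (-123993) * (var 2)) + (num (-28240) * (var 3)))
  k2d := num 65536 * (((var 1) * ((num 500)) + num 2 * (var 2) * (((num 500)) - (((num 239) + (num (-297) * (var 1))) + ((num 261) + (num (-292) * (var 1))) * (var 3)))) * ((var 1) * ((num 500)) + num 2 * (var 2) * (((num 500)) - (((num 239) + (num (-297) * (var 1))) + ((num 261) + (num (-292) * (var 1))) * (var 3)))))

/-- Its ranges. -/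
def bxIz407 : StripEnd.EBox :=
  ⟨(7, 8, 80), (0, 1, 50), (3, 10, 20), (0, 1, 1)⟩
end Vale.Agent.P100.Calib.StripEndD
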