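import Vale.Agent.P100.Calib.SlabStripEndIZ7Strict
import Vale.Agent.P100.Calib.SlabStripEndBigSgn

/-!
# A piece of the `I` and `Z` charts for `N` between seven and twenty: 408
-/

namespace Vale.Agent.P100.Calib.StripEndD

open Pack hiding ev_add ev_mul
open Pack.Ex StripMid StripEnd

local instance endIZ7P408Add : Add Ex := ⟨Ex.add⟩
local instance endIZ7P408Sub : Sub Ex := ⟨Ex.sub⟩
local instance endIZ7P408Mul : Mul Ex := ⟨Ex.mul⟩

/-- The piece `Iz408`. -/
def pcIz408 : Piece where
  I := (var 0)
  d := (var 0) * (var 2)
  w := ((var 0) * (var 1))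
  o := (((num 242) + (num (-301) * (var 1))) + ((num 258) + (num (-309) * (var 1))) * (var 3))
  den := ((num 500))
  vn := num 2 * (((num 242) + (num (-301) * (var 1))) + ((num 258) + (num (-309) * (var 1))) * (var 3))
  vs := (num 1 - num 2 * (var 0) - (var 0) * (var 2))
  mu := ⟨(92, 50), (121, 50)⟩
  pn := fun b => cond b
    (num 50 * (((num 500)) - (((num 242) + (num (-301) * (var 1))) + ((num 258) + (num (-309) * (var 1))) * (var 3))) + num (-121) * ((((num 242) + (num (-301) * (var 1))) + ((num 258) + (num (-309) * (var 1))) * (var 3)) * ((var 0) * (var 1))))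
    (num 50 * (((num 500)) - (((num 242) + (num (-301) * (var 1))) + ((num 258) + (num (-309) * (var 1))) * (var 3))) + num (-92) * ((((num 242) + (num (-301) * (var 1))) + ((num 258) + (num (-309) * (var 1))) * (var 3)) * ((var 0) * (var 1))))
  pd := num 50
  en := fun b => cond b
    (((num 34638) + (num 62736 * (var 0))) * (num 4 * (var 0) * (((num 500)) - (((num 242) + (num (-301) * (var 1))) + ((num 258) + (num (-309) * (var 1))) * (var 3))) * ((var 2) + num 3 * (var 0)) + (var 1) * ((num 500)) * (num 1 + num 20 * ((var 0) * (var 2)))))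
    (((num 29701) + (num 62736 * (var 0))) * (num 4 * (var 0) * (((num 500)) - (((num 242) + (num (-301) * (var 1))) + ((num 258) + (num (-309) * (var 1))) * (var 3))) * ((var 2) + num 3 * (var 0)) + (var 1) * ((num 500)) * (num 1 + num 20 * ((var 0) * (var 2)))))
  kk := fun b => cond b
    (((num (-1834)) + (num 27922 * (var 2))) * (((var 0) * (var 1)) * (num 4 * ((num 500)) * ((var 2) + num 3 * (var 0)))))
    (((num (-2614)) + (num 27922 * (var 2))) * (((var 0) * (var 1)) * (num 4 * ((num 500)) * ((var 2) + num 3 * (var 0)))))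
  f0 := num 8000 * ((num 500)) * ((var 2) + num 3 * (var 0))
  wn := fun b => cond b
    (((num (-10566) * ((var 0) * (((num 500)) - (((num 242) + (num (-301) * (var 1))) + ((num 258) + (num (-309) * (var 1))) * (var 3))))) + (num 18263 * (((var 0) * (var 1)) * (((num 242) + (num (-301) * (var 1))) + ((num 258) + (num (-309) * (var 1))) * (var 3)))) + (num (-7952) * (((var 0) * (var 1)) * ((num 500)))) + (num 1675 * ((var 0) * (var 2) * (((num 500)) - (((num 242) + (num (-301) * (var 1))) + ((num 258) + (num (-309) * (var 1))) * (var 3)))))))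
    (((num (-11594) * ((var 0) * (((num 500)) - (((num 242) + (num (-301) * (var 1))) + ((num 258) + (num (-309) * (var 1))) * (var 3))))) + (num 18263 * (((var 0) * (var 1)) * (((num 242) + (num (-301) * (var 1))) + ((num 258) + (num (-309) * (var 1))) * (var 3)))) + (num (-8980) * (((var 0) * (var 1)) * ((num 500)))) + (num 1675 * ((var 0) * (var 2) * (((num 500)) - (((num 242) + (num (-301) * (var 1))) + ((num 258) + (num (-309) * (var 1))) * (var 3)))))))
  wd := num 1000 * ((num 500))
  tn := fun b => cond b
    (num 10501 * ((var 1) * ((num 500))))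
    (num 8186 * ((var 1) * ((num 500))))
  td := num 8000 * ((var 1) * ((num 500)) + num 2 * (var 2) * (((num 500)) - (((num 242) + (num (-301) * (var 1))) + ((num 258) + (num (-309) * (var 1))) * (var 3))))
  cn := num 0
  cd := num 1
  kn := ((num 500)) * ((((num 500)) - (((num 242) + (num (-301) * (var 1))) + ((num 258) + (num (-309) * (var 1))) * (var 3))) * ((num 57660) + (num 255044 * (var 0)) + (num (-1333688) * (var 1)) + (num (-193426) * (var 2)) + (num (-18616) * (var 3)) + (num 592773 * ((var 1) * (var 3))) + (num 147745 * ((var 2) * (var 3))) + (num (-183075) * ((var 0) * (var 3)))) + (var 1) * ((num 500)) * ((num (-3368609)) + (num 11971590 * (var 0)) + (num 980666 * (var 1)) + (num 9037569 * (var 2)) + (num 3237090 * (var 3)) + (num (-8907322) * ((var 2) * (var 3))) + (num (-10982398) * ((var 0) * (var 3)))))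
  kd := num 65536 * ((var 0) * ((((num 500)) - (((num 242) + (num (-301) * (var 1))) + ((num 258) + (num (-309) * (var 1))) * (var 3))) + (var 1) * ((num 500)))) * (((num 500)) - (((num 242) + (num (-301) * (var 1))) + ((num 258) + (num (-309) * (var 1))) * (var 3)))
  k2n := ((var 1) * ((num 500)) + num 2 * (var 2) * (((num 500)) - (((num 242) + (num (-301) * (var 1))) + ((num 258) + (num (-309) * (var 1))) * (var 3)))) * ((num (-253822)) + (num 1708017 * (var 0)) + (num (-5777434) * (var 1)) + (num 656302 * (var 2)) + (num 360705 * (var 3)) + (num 4978621 * ((var 1) * (var 3))) + (num (-822516) * ((var 2) * (var 3))) + (num (-1976263) * ((var 0) * (var 3)))) + (var 1) * ((num 500)) * ((num 17288331) + (num (-76477859) * (var 0)) + (num (-71725634) * (var 1)) + (num (-16667352) * (var 2)) + (num (-17297078) * (var 3)) + (num 72661491 * ((var 1) * (var 3))) + (num 16920169 * ((var 2) * (var 3))) + (num 75882828 * ((var 0) * (var 3))))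
  k2d := num 65536 * ((var 1) * ((num 500)) + num 2 * (var 2) * (((num 500)) - (((num 242) + (num (-301) * (var 1))) + ((num 258) + (num (-309) * (var 1))) * (var 3))))

/-- Its ranges. -/
def bxIz408 : StripEnd.EBox :=
  ⟨(10, 11, 80), (0, 1, 50), (19, 26, 80), (0, 1, 1)⟩
end Vale.Agent.P100.Calib.StripEndD
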