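import Vale.Agent.P100.Calib.SlabStripEndIZ7Strict
import Vale.Agent.P100.Calib.SlabStripEndBigSgn

/-!
# A piece of the `I` and `Z` charts for `N` between seven and twenty: 409
-/

namespace Vale.Agent.P100.Calib.StripEndD

open Pack hiding ev_add ev_mul
open Pack.Ex StripMid StripEnd

local instance endIZ7P409Add : Add Ex := ⟨Ex.add⟩
local instance endIZ7P409Sub : Sub Ex := ⟨Ex.sub⟩
local instance endIZ7P409Mul : Mul Ex := ⟨Ex.mul⟩

/-- The piece `Iz409`. -/
def pcIz409 : Piece where
  I := (var 0)
  d := (var 0) * (var 2)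
  w := ((var 0) * (var 1))
  o := (((num 49) + (num (-48) * (var 1))) + ((num 51) + (num (-36) * (var 1))) * (var 3))
  den := ((num 100))
  vn := num 2 * (((num 49) + (num (-48) * (var 1))) + ((num 51) + (num (-36) * (var 1))) * (var 3))
  vs := (num 1 - num 2 * (var 0) - (var 0) * (var 2))
  mu := ⟨(89, 50), (115, 50)⟩
  pn := fun b => cond b
    (num 50 * (((num 100)) - (((num 49) + (num (-48) * (var 1))) + ((num 51) + (num (-36) * (var 1))) * (var 3))) + num (-115) * ((((num 49) + (num (-48) * (var 1))) + ((num 51) + (num (-36) * (var 1))) * (var 3)) * ((var 0) * (var 1))))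
    (num 50 * (((num 100)) - (((num 49) + (num (-48) * (var 1))) + ((num 51) + (num (-36) * (var 1))) * (var 3))) + num (-89) * ((((num 49) + (num (-48) * (var 1))) + ((num 51) + (num (-36) * (var 1))) * (var 3)) * ((var 0) * (var 1))))
  pd := num 50
  en := fun b => cond b
    (((num 27352) + (num 106630 * (var 0))) * (num 4 * (var 0) * (((num 100)) - (((num 49) + (num (-48) * (var 1))) + ((num 51) + (num (-36) * (var 1))) * (var 3))) * ((var 2) + num 3 * (var 0)) + (var 1) * ((num 100)) * (num 1 + num 20 * ((var 0) * (var 2)))))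
    (((num 24168) + (num 106630 * (var 0))) * (num 4 * (var 0) * (((num 100)) - (((num 49) + (num (-48) * (var 1))) + ((num 51) + (num (-36) * (var 1))) * (var 3))) * ((var 2) + num 3 * (var 0)) + (var 1) * ((num 100)) * (num 1 + num 20 * ((var 0) * (var 2)))))
  kk := fun b => cond b
    (((num (-2125)) + (num 27496 * (var 2))) * (((var 0) * (var 1)) * (num 4 * ((num 100)) * ((var 2) + num 3 * (var 0)))))
    (((num (-2283)) + (num 27496 * (var 2))) * (((var 0) * (var 1)) * (num 4 * ((num 100)) * ((var 2) + num 3 * (var 0)))))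
  f0 := num 8000 * ((num 100)) * ((var 2) + num 3 * (var 0))
  wn := fun b => cond b
    (((num (-10916) * ((var 0) * (((num 100)) - (((num 49) + (num (-48) * (var 1))) + ((num 51) + (num (-36) * (var 1))) * (var 3))))) + (num 10916 * (((var 0) * (var 1)) * (((num 49) + (num (-48) * (var 1))) + ((num 51) + (num (-36) * (var 1))) * (var 3)))) + (num (-1120) * (((var 0) * (var 1)) * ((num 100)))) + (num 2430 * ((var 0) * (var 2) * (((num 100)) - (((num 49) + (num (-48) * (var 1))) + ((num 51) + (num (-36) * (var 1))) * (var 3)))))))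
    (((num (-11738) * ((var 0) * (((num 100)) - (((num 49) + (num (-48) * (var 1))) + ((num 51) + (num (-36) * (var 1))) * (var 3))))) + (num 10916 * (((var 0) * (var 1)) * (((num 49) + (num (-48) * (var 1))) + ((num 51) + (num (-36) * (var 1))) * (var 3)))) + (num (-1942) * (((var 0) * (var 1)) * ((num 100)))) + (num 2430 * ((var 0) * (var 2) * (((num 100)) - (((num 49) + (num (-48) * (var 1))) + ((num 51) + (num (-36) * (var 1))) * (var 3)))))))
  wd := num 1000 * ((num 100))
  tn := fun b => cond b
    (num 11084 * ((var 1) * ((num 100))))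
    (num 8342 * ((var 1) * ((num 100))))
  td := num 8000 * ((var 1) * ((num 100)) + num 2 * (var 2) * (((num 100)) - (((num 49) + (num (-48) * (var 1))) + ((num 51) + (num (-36) * (var 1))) * (var 3))))
  cn := num 0
  cd := num 1
  kn := (((((num 100))) - (((num 49) + (num (-48) * (var 1))) + ((num 51) + (num (-36) * (var 1))) * (var 3))) + (var 1) * ((num 100))) * (((num 100)) * ((((num 100)) - (((num 49) + (num (-48) * (var 1))) + ((num 51) + (num (-36) * (var 1))) * (var 3))) * ((num 1659) + (num 371653 * (var 0)) + (num (-344470) * (var 1)) + (num 984 * (var 2)) + (num (-16962) * (var 3)) + (num 682042 * ((var 1) * (var 3))) + (num (-40582) * ((var 2) * (var 3))) + (num (-96798) * ((var 0) * (var 3)))) + (var 1) * ((num 100)) * ((num 167092) + (num 65561 * (var 0)) + (num (-328375) * (var 1)) + (num (-36427) * (var 2)) + (num (-273091) * (var 3)) + (num 166657 * ((var 2) * (var 3))) + (num 879297 * ((var 0) * (var 3))))))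
  kd := num 65536 * ((var 0) * ((((num 100)) - (((num 49) + (num (-48) * (var 1))) + ((num 51) + (num (-36) * (var 1))) * (var 3))) + (var 1) * ((num 100)))) * (((num 100)) - (((num 49) + (num (-48) * (var 1))) + ((num 51) + (num (-36) * (var 1))) * (var 3))) * (((((num 100))) - (((num 49) + (num (-48) * (var 1))) + ((num 51) + (num (-36) * (var 1))) * (var 3))) + (var 1) * ((num 100)))
  k2n := ((num 869) + (num 5114 * (var 0)) + (num (-1867) * (var 2)))
  k2d := num 8192

/-- Its ranges. -/
def bxIz409 : StripEnd.EBox :=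
  ⟨(43, 46, 320), (2, 15, 100), (3, 6, 40), (0, 1, 1)⟩
end Vale.Agent.P100.Calib.StripEndD
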