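import Vale.Agent.P100.Calib.SlabStripEndDExpr
import Vale.Agent.P100.Calib.SlabStripEndCert

/-!
# The piece 44 of the strip for `u` near one at small `d / I`
-/

namespace Vale.Agent.P100.Calib.StripEndD

open Pack hiding ev_add ev_mul
open Pack.Ex StripMid StripEnd

local instance endIZ7P44Add : Add Ex := ⟨Ex.add⟩
local instance endIZ7P44Sub : Sub Ex := ⟨Ex.sub⟩
local instance endIZ7P44Mul : Mul Ex := ⟨Ex.mul⟩

/-- The piece `Iz44`. -/
def pcIz44 : Piece where
  I := (var 0)
  d := (var 0) * (var 2)
  w := ((var 0) * (var 1))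
  o := (((num 236)) + ((num 16)) * (var 3))
  den := ((num 500))
  vn := num 2 * (((num 236)) + ((num 16)) * (var 3))
  vs := (num 1 - num 2 * (var 0) - (var 0) * (var 2))
  mu := ⟨(105, 50), (125, 50)⟩
  pn := fun b => cond b
    (num 8000 * (((num 500)) - (((num 236)) + ((num 16)) * (var 3))) + num (-125) * ((((num 236)) + ((num 16)) * (var 3)) * (var 0)))
    (num 8000 * (((num 500)) - (((num 236)) + ((num 16)) * (var 3))) + num 0 * ((((num 236)) + ((num 16)) * (var 3)) * (var 0)))
  pd := num 8000
  en := fun b => cond b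
    (((num 35996 * ((var 0) * (((num 500)) - (((num 236)) + ((num 16)) * (var 3)))))) + ((num 500)) * (var 0) * ((num 1428) + (num (-1056) * (var 2)) + (num 10572 * (var 0))))
    (((num 35996 * ((var 0) * (((num 500)) - (((num 236)) + ((num 16)) * (var 3)))))) + ((num 500)) * (var 0) * ((num (-112)) + (num (-1056) * (var 2)) + (num 10572 * (var 0))))
  kk := fun b => cond b
    (((num 500)) * (var 0) * ((num 87) + (num 26 * (var 2))) + ((num (-4) * ((var 0) * (((num 500)) - (((num 236)) + ((num 16)) * (var 3)))))))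
    (((num 500)) * (var 0) * ((num (-25)) + (num 26 * (var 2))) + ((num (-4) * ((var 0) * (((num 500)) - (((num 236)) + ((num 16)) * (var 3)))))))
  f0 := num 2000 * ((num 500))
  wn := fun b => cond b
    (((num (-10689) * ((var 0) * (((num 500)) - (((num 236)) + ((num 16)) * (var 3))))) + (num 179 * ((var 0) * (var 2) * (((num 500)) - (((num 236)) + ((num 16)) * (var 3)))))) + ((num 500)) * (var 0) * ((num 1411) + (num (-10752) * (var 0))))
    (((num (-10689) * ((var 0) * (((num 500)) - (((num 236)) + ((num 16)) * (var 3))))) + (num 179 * ((var 0) * (var 2) * (((num 500)) - (((num 236)) + ((num 16)) * (var 3)))))) + ((num 500)) * (var 0) * ((num 1385) + (num (-10752) * (var 0))))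
  wd := num 1000 * ((num 500))
  tn := fun b => cond b
    (((num 500)) * ((num 115) + (num (-24) * (var 2)) + (num 16 * (var 0))) + ((num (-40) * (((num 500)) - (((num 236)) + ((num 16)) * (var 3))))))
    (((num 500)) * ((num 32) + (num (-24) * (var 2)) + (num 16 * (var 0))) + ((num (-40) * (((num 500)) - (((num 236)) + ((num 16)) * (var 3))))))
  td := num 8000 * ((num 500))
  cn := num 0
  cd := num 1
  kn := ((num 7951) + (num (-7512) * (var 0)) + (num (-5814) * (var 2)) + (num (-4284) * (var 3)) + (num 5204 * ((var 2) * (var 3))))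
  kd := num 512
  k2n := ((num 4801) + (num (-1778) * (var 0)) + (num (-2296) * (var 2)) + (num (-4561) * (var 3)) + (num 4847 * ((var 2) * (var 3))))
  k2d := num 1024

/-- Its ranges. -/
def bxIz44 : StripEnd.EBox :=
  ⟨(3, 4, 40), (0, 1, 160), (75, 92, 100), (0, 1, 1)⟩

end Vale.Agent.P100.Calib.StripEndD
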