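import Vale.Agent.P100.Calib.SlabStripEndDExpr
import Vale.Agent.P100.Calib.SlabStripEndCert

/-!
# The piece 45 of the strip for `u` near one at small `d / I`
-/

namespace Vale.Agent.P100.Calib.StripEndD

open Pack hiding ev_add ev_mul
open Pack.Ex StripMid StripEnd

local instance endIZ7P45Add : Add Ex := ⟨Ex.add⟩
local instance endIZ7P45Sub : Sub Ex := ⟨Ex.sub⟩
local instance endIZ7P45Mul : Mul Ex := ⟨Ex.mul⟩

/-- The piece `Iz45`. -/
def pcIz45 : Piece where
  I := (var 0)
  d := (var 0) * (var 2)
  w := ((var 0) * (var 1))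
  o := (((num 230)) + ((num 22)) * (var 3))
  den := ((num 500))
  vn := num 2 * (((num 230)) + ((num 22)) * (var 3))
  vs := (num 1 - num 2 * (var 0) - (var 0) * (var 2))
  mu := ⟨(105, 50), (125, 50)⟩
  pn := fun b => cond b
    (num 40000 * (((num 500)) - (((num 230)) + ((num 22)) * (var 3))) + num (-2000) * ((((num 230)) + ((num 22)) * (var 3)) * (var 0)))
    (num 40000 * (((num 500)) - (((num 230)) + ((num 22)) * (var 3))) + num (-525) * ((((num 230)) + ((num 22)) * (var 3)) * (var 0)))
  pd := num 40000
  en := fun b => cond b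
    (((num 35650 * ((var 0) * (((num 500)) - (((num 230)) + ((num 22)) * (var 3)))))) + ((num 500)) * (var 0) * ((num 6129) + (num (-1754) * (var 2)) + (num 852 * (var 0))))
    (((num 35650 * ((var 0) * (((num 500)) - (((num 230)) + ((num 22)) * (var 3)))))) + ((num 500)) * (var 0) * ((num 2741) + (num (-1754) * (var 2)) + (num 852 * (var 0))))
  kk := fun b => cond b
    (((num 500)) * (var 0) * ((num 206) + (num 166 * (var 2))) + ((num (-28) * ((var 0) * (((num 500)) - (((num 230)) + ((num 22)) * (var 3)))))))
    (((num 500)) * (var 0) * ((num (-57)) + (num 166 * (var 2))) + ((num (-28) * ((var 0) * (((num 500)) - (((num 230)) + ((num 22)) * (var 3)))))))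
  f0 := num 2000 * ((num 500))
  wn := fun b => cond b
    (((num (-10818) * ((var 0) * (((num 500)) - (((num 230)) + ((num 22)) * (var 3))))) + (num 193 * ((var 0) * (var 2) * (((num 500)) - (((num 230)) + ((num 22)) * (var 3)))))) + ((num 500)) * (var 0) * ((num 1480) + (num (-10601) * (var 0))))
    (((num (-10818) * ((var 0) * (((num 500)) - (((num 230)) + ((num 22)) * (var 3))))) + (num 193 * ((var 0) * (var 2) * (((num 500)) - (((num 230)) + ((num 22)) * (var 3)))))) + ((num 500)) * (var 0) * ((num 1449) + (num (-10601) * (var 0))))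
  wd := num 1000 * ((num 500))
  tn := fun b => cond b
    (((num 500)) * ((num 452) + (num (-136) * (var 2)) + (num 120 * (var 0))) + ((num (-248) * (((num 500)) - (((num 230)) + ((num 22)) * (var 3))))))
    (((num 500)) * ((num 279) + (num (-136) * (var 2)) + (num 120 * (var 0))) + ((num (-248) * (((num 500)) - (((num 230)) + ((num 22)) * (var 3))))))
  td := num 8000 * ((num 500))
  cn := num 0
  cd := num 1
  kn := ((num 5757) + (num (-1271) * (var 0)) + (num (-3870) * (var 2)) + (num (-2570) * (var 3)) + (num 3396 * ((var 2) * (var 3))))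
  kd := num 512
  k2n := ((num 5061) + (num (-4538) * (var 0)) + (num (-2485) * (var 2)) + (num (-5873) * (var 3)) + (num 6262 * ((var 2) * (var 3))))
  k2d := num 1024

/-- Its ranges. -/
def bxIz45 : StripEnd.EBox :=
  ⟨(3, 4, 40), (5, 16, 800), (75, 92, 100), (0, 1, 1)⟩

end Vale.Agent.P100.Calib.StripEndD
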