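import Vale.Agent.P100.Calib.SlabStripEndDExpr
import Vale.Agent.P100.Calib.SlabStripEndCert

/-!
# The piece 48 of the strip for `u` near one at small `d / I`
-/

namespace Vale.Agent.P100.Calib.StripEndD

open Pack hiding ev_add ev_mul
open Pack.Ex StripMid StripEnd

local instance endIZ7P48Add : Add Ex := ⟨Ex.add⟩
local instance endIZ7P48Sub : Sub Ex := ⟨Ex.sub⟩
local instance endIZ7P48Mul : Mul Ex := ⟨Ex.mul⟩

/-- The piece `Iz48`. -/
def pcIz48 : Piece where
  I := (var 0)
  d := (var 0) * (var 2)
  w := ((var 0) * (var 1))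
  o := (((num 350)) + ((num 82)) * (var 3))
  den := ((num 500))
  vn := num 2 * (((num 350)) + ((num 82)) * (var 3))
  vs := (num 1 - num 2 * (var 0) - (var 0) * (var 2))
  mu := ⟨(121, 50), (152, 50)⟩
  pn := fun b => cond b
    (num 40000 * (((num 500)) - (((num 350)) + ((num 82)) * (var 3))) + num (-2432) * ((((num 350)) + ((num 82)) * (var 3)) * (var 0)))
    (num 40000 * (((num 500)) - (((num 350)) + ((num 82)) * (var 3))) + num (-605) * ((((num 350)) + ((num 82)) * (var 3)) * (var 0)))
  pd := num 40000
  en := fun b => cond b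
    (((num 35996 * ((var 0) * (((num 500)) - (((num 350)) + ((num 82)) * (var 3)))))) + ((num 500)) * (var 0) * ((num 5940) + (num (-1026) * (var 2)) + (num (-4714) * (var 0))))
    (((num 35996 * ((var 0) * (((num 500)) - (((num 350)) + ((num 82)) * (var 3)))))) + ((num 500)) * (var 0) * ((num 2636) + (num (-1026) * (var 2)) + (num (-4714) * (var 0))))
  kk := fun b => cond b
    (((num 500)) * (var 0) * ((num 229) + (num 242 * (var 2))) + ((num (-42) * ((var 0) * (((num 500)) - (((num 350)) + ((num 82)) * (var 3)))))))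
    (((num 500)) * (var 0) * ((num (-108)) + (num 242 * (var 2))) + ((num (-42) * ((var 0) * (((num 500)) - (((num 350)) + ((num 82)) * (var 3)))))))
  f0 := num 2000 * ((num 500))
  wn := fun b => cond b
    (((num (-11128) * ((var 0) * (((num 500)) - (((num 350)) + ((num 82)) * (var 3))))) + (num 1224 * ((var 0) * (var 2) * (((num 500)) - (((num 350)) + ((num 82)) * (var 3)))))) + ((num 500)) * (var 0) * ((num 389) + (num (-1816) * (var 0))))
    (((num (-11128) * ((var 0) * (((num 500)) - (((num 350)) + ((num 82)) * (var 3))))) + (num 1224 * ((var 0) * (var 2) * (((num 500)) - (((num 350)) + ((num 82)) * (var 3)))))) + ((num 500)) * (var 0) * ((num 328) + (num (-1816) * (var 0))))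
  wd := num 1000 * ((num 500))
  tn := fun b => cond b
    (((num 500)) * ((num 1395) + (num (-408) * (var 2)) + (num 648 * (var 0))) + ((num (-1736) * (((num 500)) - (((num 350)) + ((num 82)) * (var 3))))))
    (((num 500)) * ((num 728) + (num (-408) * (var 2)) + (num 648 * (var 0))) + ((num (-1736) * (((num 500)) - (((num 350)) + ((num 82)) * (var 3))))))
  td := num 8000 * ((num 500))
  cn := num 0
  cd := num 1
  kn := ((num 1065) + (num 6133 * (var 0)) + (num (-648) * (var 2)) + (num 4807 * (var 3)) + (num (-1779) * ((var 2) * (var 3))))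
  kd := num 128
  k2n := ((num 5364) + (num 4828 * (var 0)) + (num (-4122) * (var 2)) + (num (-6525) * (var 3)) + (num 5431 * ((var 2) * (var 3))))
  k2d := num 1024

/-- Its ranges. -/
def bxIz48 : StripEnd.EBox :=
  ⟨(4, 5, 40), (5, 16, 800), (75, 89, 100), (0, 1, 1)⟩

end Vale.Agent.P100.Calib.StripEndD
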