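import Vale.Agent.P100.Calib.SlabStripEndDExpr
import Vale.Agent.P100.Calib.SlabStripEndCert

/-!
# The piece 51 of the strip for `u` near one at small `d / I`
-/

namespace Vale.Agent.P100.Calib.StripEndD

open Pack hiding ev_add ev_mul
open Pack.Ex StripMid StripEnd

local instance endIZ7P51Add : Add Ex := ⟨Ex.add⟩
local instance endIZ7P51Sub : Sub Ex := ⟨Ex.sub⟩
local instance endIZ7P51Mul : Mul Ex := ⟨Ex.mul⟩

/-- The piece `Iz51`. -/
def pcIz51 : Piece where
  I := (var 0)
  d := (var 0) * (var 2)
  w := ((var 0) * (var 1))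
  o := (((num 238)) + ((num 18)) * (var 3))
  den := ((num 500))
  vn := num 2 * (((num 238)) + ((num 18)) * (var 3))
  vs := (num 1 - num 2 * (var 0) - (var 0) * (var 2))
  mu := ⟨(109, 50), (135, 50)⟩
  pn := fun b => cond b
    (num 80000 * (((num 500)) - (((num 238)) + ((num 18)) * (var 3))) + num (-135) * ((((num 238)) + ((num 18)) * (var 3)) * (var 0)))
    (num 80000 * (((num 500)) - (((num 238)) + ((num 18)) * (var 3))) + num 0 * ((((num 238)) + ((num 18)) * (var 3)) * (var 0)))
  pd := num 80000
  en := fun b => cond b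
    (((num 36498 * ((var 0) * (((num 500)) - (((num 238)) + ((num 18)) * (var 3)))))) + ((num 500)) * (var 0) * ((num 952) + (num (-1486) * (var 2)) + (num 3794 * (var 0))))
    (((num 36498 * ((var 0) * (((num 500)) - (((num 238)) + ((num 18)) * (var 3)))))) + ((num 500)) * (var 0) * ((num 752) + (num (-1486) * (var 2)) + (num 3794 * (var 0))))
  kk := fun b => cond b
    (((num 500)) * (var 0) * ((num 10) + (num 4 * (var 2))) + (num 0))
    (((num 500)) * (var 0) * ((num (-5)) + (num 4 * (var 2))) + (num 0))
  f0 := num 2000 * ((num 500))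
  wn := fun b => cond b
    (((num (-11725) * ((var 0) * (((num 500)) - (((num 238)) + ((num 18)) * (var 3))))) + (num 366 * ((var 0) * (var 2) * (((num 500)) - (((num 238)) + ((num 18)) * (var 3)))))) + ((num 500)) * (var 0) * ((num 1924) + (num (-11401) * (var 0))))
    (((num (-11725) * ((var 0) * (((num 500)) - (((num 238)) + ((num 18)) * (var 3))))) + (num 366 * ((var 0) * (var 2) * (((num 500)) - (((num 238)) + ((num 18)) * (var 3)))))) + ((num 500)) * (var 0) * ((num 1888) + (num (-11401) * (var 0))))
  wd := num 1000 * ((num 500))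
  tn := fun b => cond b
    (((num 500)) * ((num 15)) + ((num (-8) * (((num 500)) - (((num 238)) + ((num 18)) * (var 3))))))
    (((num 500)) * ((num 1)) + ((num (-8) * (((num 500)) - (((num 238)) + ((num 18)) * (var 3))))))
  td := num 8000 * ((num 500))
  cn := num 0
  cd := num 1
  kn := ((num 3746) + (num (-1245) * (var 0)) + (num (-3619) * (var 2)) + (num (-3679) * (var 3)) + (num 4395 * ((var 2) * (var 3))))
  kd := num 128
  k2n := ((num 500)) * ((num 5661) + (num (-5985) * (var 0)) + (num 533 * (var 2)) + (num (-3101) * (var 3)) + (num 2587 * ((var 2) * (var 3))))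
  k2d := num 4096 * (((num 500)) - (((num 238)) + ((num 18)) * (var 3)))

/-- Its ranges. -/
def bxIz51 : StripEnd.EBox :=
  ⟨(4, 5, 40), (0, 1, 1600), (75, 89, 100), (0, 1, 1)⟩

end Vale.Agent.P100.Calib.StripEndD
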