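import Vale.Agent.P100.Calib.SlabStripEndIZ7Strict
import Vale.Agent.P100.Calib.SlabStripEndBigSgn

/-!
# A piece of the `I` and `Z` charts for `N` between seven and twenty: 6
-/

namespace Vale.Agent.P100.Calib.StripEndD

open Pack hiding ev_add ev_mul
open Pack.Ex StripMid StripEnd

local instance endIZ7P6Add : Add Ex := ⟨Ex.add⟩
local instance endIZ7P6Sub : Sub Ex := ⟨Ex.sub⟩
local instance endIZ7P6Mul : Mul Ex := ⟨Ex.mul⟩

/-- The piece `Iz6`. -/
def pcIz6 : Piece where
  I := (var 0)
  d := (var 0) * (var 2)
  w := ((var 0) * (var 1))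
  o := (((num 49) + (num (-47) * (var 1))) + ((num 51) + (num (-38) * (var 1))) * (var 3))
  den := ((num 100))
  vn := num 2 * (((num 49) + (num (-47) * (var 1))) + ((num 51) + (num (-38) * (var 1))) * (var 3))
  vs := (num 1 - num 2 * (var 0) - (var 0) * (var 2))
  mu := ⟨(92, 50), (109, 50)⟩
  pn := fun b => cond b
    (num 50 * (((num 100)) - (((num 49) + (num (-47) * (var 1))) + ((num 51) + (num (-38) * (var 1))) * (var 3))) + num (-109) * ((((num 49) + (num (-47) * (var 1))) + ((num 51) + (num (-38) * (var 1))) * (var 3)) * ((var 0) * (var 1))))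
    (num 50 * (((num 100)) - (((num 49) + (num (-47) * (var 1))) + ((num 51) + (num (-38) * (var 1))) * (var 3))) + num (-92) * ((((num 49) + (num (-47) * (var 1))) + ((num 51) + (num (-38) * (var 1))) * (var 3)) * ((var 0) * (var 1))))
  pd := num 50
  en := fun b => cond b
    (((num 26229) + (num 126026 * (var 0))) * (num 4 * (var 0) * (((num 100)) - (((num 49) + (num (-47) * (var 1))) + ((num 51) + (num (-38) * (var 1))) * (var 3))) * ((var 2) + num 3 * (var 0)) + (var 1) * ((num 100)) * (num 1 + num 20 * ((var 0) * (var 2)))))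
    (((num 21211) + (num 126026 * (var 0))) * (num 4 * (var 0) * (((num 100)) - (((num 49) + (num (-47) * (var 1))) + ((num 51) + (num (-38) * (var 1))) * (var 3))) * ((var 2) + num 3 * (var 0)) + (var 1) * ((num 100)) * (num 1 + num 20 * ((var 0) * (var 2)))))
  kk := fun b => cond b
    (((num (-179)) + (num 26700 * (var 2))) * (((var 0) * (var 1)) * (num 4 * ((num 100)) * ((var 2) + num 3 * (var 0)))))
    (((num (-1780)) + (num 26700 * (var 2))) * (((var 0) * (var 1)) * (num 4 * ((num 100)) * ((var 2) + num 3 * (var 0)))))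
  f0 := num 8000 * ((num 100)) * ((var 2) + num 3 * (var 0))
  wn := fun b => cond b
    (((num (-8859) * ((var 0) * (((num 100)) - (((num 49) + (num (-47) * (var 1))) + ((num 51) + (num (-38) * (var 1))) * (var 3))))) + (num 6868 * (((var 0) * (var 1)) * (((num 49) + (num (-47) * (var 1))) + ((num 51) + (num (-38) * (var 1))) * (var 3)))) + (num 75 * (((var 0) * (var 1)) * ((num 100)))) + (num 968 * ((var 0) * (var 2) * (((num 100)) - (((num 49) + (num (-47) * (var 1))) + ((num 51) + (num (-38) * (var 1))) * (var 3)))))))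
    (((num (-10160) * ((var 0) * (((num 100)) - (((num 49) + (num (-47) * (var 1))) + ((num 51) + (num (-38) * (var 1))) * (var 3))))) + (num 6868 * (((var 0) * (var 1)) * (((num 49) + (num (-47) * (var 1))) + ((num 51) + (num (-38) * (var 1))) * (var 3)))) + (num (-1226) * (((var 0) * (var 1)) * ((num 100)))) + (num 968 * ((var 0) * (var 2) * (((num 100)) - (((num 49) + (num (-47) * (var 1))) + ((num 51) + (num (-38) * (var 1))) * (var 3)))))))
  wd := num 1000 * ((num 100))
  tn := fun b => cond b
    (num 10069 * ((var 1) * ((num 100))))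
    (num 8081 * ((var 1) * ((num 100))))
  td := num 8000 * ((var 1) * ((num 100)) + num 2 * (var 2) * (((num 100)) - (((num 49) + (num (-47) * (var 1))) + ((num 51) + (num (-38) * (var 1))) * (var 3))))
  cn := num 0
  cd := num 1
  kn := ((num 100)) * ((((num 100)) - (((num 49) + (num (-47) * (var 1))) + ((num 51) + (num (-38) * (var 1))) * (var 3))) * ((num (-15193)) + (num 470255 * (var 0)) + (num (-55442) * (var 1)) + (num 3942 * (var 2)) + (num 17809 * (var 3)) + (num 1623 * ((var 1) * (var 3))) + (num 10962 * ((var 2) * (var 3))) + (num (-261511) * ((var 0) * (var 3)))) + (var 1) * ((num 100)) * ((num 81510) + (num (-1016792) * (var 0)) + (num 65033 * (var 1)) + (num (-51624) * (var 2)) + (num (-100922) * (var 3)) + (num 72488 * ((var 2) * (var 3))) + (num 1295704 * ((var 0) * (var 3)))))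
  kd := num 65536 * ((var 0) * ((((num 100)) - (((num 49) + (num (-47) * (var 1))) + ((num 51) + (num (-38) * (var 1))) * (var 3))) + (var 1) * ((num 100)))) * (((num 100)) - (((num 49) + (num (-47) * (var 1))) + ((num 51) + (num (-38) * (var 1))) * (var 3)))
  k2n := ((num 256) + (num 4476 * (var 0)) + (num (-641) * (var 2)))
  k2d := num 4096

/-- Its ranges. -/
def bxIz6 : StripEnd.EBox :=
  ⟨(1, 2, 20), (2, 15, 100), (0, 3, 20), (0, 1, 1)⟩
end Vale.Agent.P100.Calib.StripEndD
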