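import Vale.Agent.P100.Calib.SlabStripEndDExpr
import Vale.Agent.P100.Calib.SlabStripEndCert

/-!
# The piece 65 of the strip for `u` near one at small `d / I`
-/

namespace Vale.Agent.P100.Calib.StripEndD

open Pack hiding ev_add ev_mul
open Pack.Ex StripMid StripEnd

local instance endIZ7P65Add : Add Ex := ⟨Ex.add⟩
local instance endIZ7P65Sub : Sub Ex := ⟨Ex.sub⟩
local instance endIZ7P65Mul : Mul Ex := ⟨Ex.mul⟩

/-- The piece `Iz65`. -/
def pcIz65 : Piece where
  I := (var 0)
  d := (var 0) * (var 2)
  w := ((var 0) * (var 1))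
  o := (((num 260)) + ((num 40)) * (var 3))
  den := ((num 500))
  vn := num 2 * (((num 260)) + ((num 40)) * (var 3))
  vs := (num 1 - num 2 * (var 0) - (var 0) * (var 2))
  mu := ⟨(121, 50), (142, 50)⟩
  pn := fun b => cond b
    (num 50 * (((num 500)) - (((num 260)) + ((num 40)) * (var 3))) + num (-142) * ((((num 260)) + ((num 40)) * (var 3)) * ((var 0) * (var 1))))
    (num 50 * (((num 500)) - (((num 260)) + ((num 40)) * (var 3))) + num (-121) * ((((num 260)) + ((num 40)) * (var 3)) * ((var 0) * (var 1))))
  pd := num 50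
  en := fun b => cond b
    (((num 37701) + (num (-1234) * (var 0))) * (num 4 * (var 0) * (((num 500)) - (((num 260)) + ((num 40)) * (var 3))) * ((var 2) + num 3 * (var 0)) + (var 1) * ((num 500)) * (num 1 + num 20 * ((var 0) * (var 2)))))
    (((num 36538) + (num (-1234) * (var 0))) * (num 4 * (var 0) * (((num 500)) - (((num 260)) + ((num 40)) * (var 3))) * ((var 2) + num 3 * (var 0)) + (var 1) * ((num 500)) * (num 1 + num 20 * ((var 0) * (var 2)))))
  kk := fun b => cond b
    (((num 1937) + (num 21506 * (var 2))) * (((var 0) * (var 1)) * (num 4 * ((num 500)) * ((var 2) + num 3 * (var 0)))))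
    (((num 691) + (num 21506 * (var 2))) * (((var 0) * (var 1)) * (num 4 * ((num 500)) * ((var 2) + num 3 * (var 0)))))
  f0 := num 8000 * ((num 500)) * ((var 2) + num 3 * (var 0))
  wn := fun b => cond b
    (((num (-11014) * ((var 0) * (((num 500)) - (((num 260)) + ((num 40)) * (var 3))))) + (num 106612 * (((var 0) * (var 1)) * (((num 260)) + ((num 40)) * (var 3)))) + (num (-54633) * (((var 0) * (var 1)) * ((num 500)))) + (num 875 * ((var 0) * (var 2) * (((num 500)) - (((num 260)) + ((num 40)) * (var 3)))))))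
    (((num (-11360) * ((var 0) * (((num 500)) - (((num 260)) + ((num 40)) * (var 3))))) + (num 106612 * (((var 0) * (var 1)) * (((num 260)) + ((num 40)) * (var 3)))) + (num (-54979) * (((var 0) * (var 1)) * ((num 500)))) + (num 875 * ((var 0) * (var 2) * (((num 500)) - (((num 260)) + ((num 40)) * (var 3)))))))
  wd := num 1000 * ((num 500))
  tn := fun b => cond b
    (num 9736 * ((var 1) * ((num 500))))
    (num 9079 * ((var 1) * ((num 500))))
  td := num 8000 * ((var 1) * ((num 500)) + num 2 * (var 2) * (((num 500)) - (((num 260)) + ((num 40)) * (var 3))))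
  cn := num 0
  cd := num 1
  kn := ((num 212) + (num (-492) * (var 0)) + (num 247 * (var 1)) + (num (-158) * (var 2)) + (num (-1047) * (var 3)) + (num (-20) * ((var 1) * (var 3))) + (num 63 * ((var 2) * (var 3))) + (num 7556 * ((var 0) * (var 3))))
  kd := num 4
  k2n := ((num 210) + (num (-1105) * (var 0)) + (num (-3418) * (var 1)) + (num 101 * (var 2)) + (num (-281) * (var 3)) + (num 4497 * ((var 1) * (var 3))) + (num 4 * ((var 2) * (var 3))) + (num 1886 * ((var 0) * (var 3))))
  k2d := num 64

/-- Its ranges. -/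
def bxIz65 : StripEnd.EBox :=
  ⟨(42, 43, 320), (0, 1, 50), (15, 17, 20), (0, 1, 1)⟩

end Vale.Agent.P100.Calib.StripEndD
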