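import Vale.Agent.P100.Calib.SlabStripEndIZ7Strict
import Vale.Agent.P100.Calib.SlabStripEndBigSgn

/-!
# A piece of the `I` and `Z` charts for `N` between seven and twenty: 7
-/

namespace Vale.Agent.P100.Calib.StripEndD

open Pack hiding ev_add ev_mul
open Pack.Ex StripMid StripEnd

local instance endIZ7P7Add : Add Ex := ⟨Ex.add⟩
local instance endIZ7P7Sub : Sub Ex := ⟨Ex.sub⟩
local instance endIZ7P7Mul : Mul Ex := ⟨Ex.mul⟩

/-- The piece `Iz7`. -/
def pcIz7 : Piece where
  I := (var 0)
  d := (var 0) * (var 2)
  w := ((var 0) * (var 1))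
  o := (((num 49) + (num (-47) * (var 1))) + ((num 51) + (num (-37) * (var 1))) * (var 3))
  den := ((num 100))
  vn := num 2 * (((num 49) + (num (-47) * (var 1))) + ((num 51) + (num (-37) * (var 1))) * (var 3))
  vs := (num 1 - num 2 * (var 0) - (var 0) * (var 2))
  mu := ⟨(90, 50), (112, 50)⟩
  pn := fun b => cond b
    (num 50 * (((num 100)) - (((num 49) + (num (-47) * (var 1))) + ((num 51) + (num (-37) * (var 1))) * (var 3))) + num (-112) * ((((num 49) + (num (-47) * (var 1))) + ((num 51) + (num (-37) * (var 1))) * (var 3)) * ((var 0) * (var 1))))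
    (num 50 * (((num 100)) - (((num 49) + (num (-47) * (var 1))) + ((num 51) + (num (-37) * (var 1))) * (var 3))) + num (-90) * ((((num 49) + (num (-47) * (var 1))) + ((num 51) + (num (-37) * (var 1))) * (var 3)) * ((var 0) * (var 1))))
  pd := num 50
  en := fun b => cond b
    (((num 26541) + (num 108076 * (var 0))) * (num 4 * (var 0) * (((num 100)) - (((num 49) + (num (-47) * (var 1))) + ((num 51) + (num (-37) * (var 1))) * (var 3))) * ((var 2) + num 3 * (var 0)) + (var 1) * ((num 100)) * (num 1 + num 20 * ((var 0) * (var 2)))))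
    (((num 22870) + (num 108076 * (var 0))) * (num 4 * (var 0) * (((num 100)) - (((num 49) + (num (-47) * (var 1))) + ((num 51) + (num (-37) * (var 1))) * (var 3))) * ((var 2) + num 3 * (var 0)) + (var 1) * ((num 100)) * (num 1 + num 20 * ((var 0) * (var 2)))))
  kk := fun b => cond b
    (((num (-1441)) + (num 25810 * (var 2))) * (((var 0) * (var 1)) * (num 4 * ((num 100)) * ((var 2) + num 3 * (var 0)))))
    (((num (-1895)) + (num 25810 * (var 2))) * (((var 0) * (var 1)) * (num 4 * ((num 100)) * ((var 2) + num 3 * (var 0)))))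
  f0 := num 8000 * ((num 100)) * ((var 2) + num 3 * (var 0))
  wn := fun b => cond b
    (((num (-9972) * ((var 0) * (((num 100)) - (((num 49) + (num (-47) * (var 1))) + ((num 51) + (num (-37) * (var 1))) * (var 3))))) + (num 8692 * (((var 0) * (var 1)) * (((num 49) + (num (-47) * (var 1))) + ((num 51) + (num (-37) * (var 1))) * (var 3)))) + (num (-441) * (((var 0) * (var 1)) * ((num 100)))) + (num 1699 * ((var 0) * (var 2) * (((num 100)) - (((num 49) + (num (-47) * (var 1))) + ((num 51) + (num (-37) * (var 1))) * (var 3)))))))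
    (((num (-10941) * ((var 0) * (((num 100)) - (((num 49) + (num (-47) * (var 1))) + ((num 51) + (num (-37) * (var 1))) * (var 3))))) + (num 8692 * (((var 0) * (var 1)) * (((num 49) + (num (-47) * (var 1))) + ((num 51) + (num (-37) * (var 1))) * (var 3)))) + (num (-1410) * (((var 0) * (var 1)) * ((num 100)))) + (num 1699 * ((var 0) * (var 2) * (((num 100)) - (((num 49) + (num (-47) * (var 1))) + ((num 51) + (num (-37) * (var 1))) * (var 3)))))))
  wd := num 1000 * ((num 100))
  tn := fun b => cond b
    (num 10754 * ((var 1) * ((num 100))))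
    (num 8227 * ((var 1) * ((num 100))))
  td := num 8000 * ((var 1) * ((num 100)) + num 2 * (var 2) * (((num 100)) - (((num 49) + (num (-47) * (var 1))) + ((num 51) + (num (-37) * (var 1))) * (var 3))))
  cn := num 0
  cd := num 1
  kn := num 1015 * (((num 100)) * (((((num 100)) - (((num 49) + (num (-47) * (var 1))) + ((num 51) + (num (-37) * (var 1))) * (var 3))) + (var 1) * ((num 100))) * ((num 47461) + (num 252562 * (var 0)) + (num (-606783) * (var 1)) + (num (-45967) * (var 2)) + (num (-115910) * (var 3)) + (num 308585 * ((var 1) * (var 3))) + (num 264015 * ((var 2) * (var 3))) + (num 773011 * ((var 0) * (var 3)))) + (((num 100)) - (((num 49) + (num (-47) * (var 1))) + ((num 51) + (num (-37) * (var 1))) * (var 3))) * ((num (-52734)) + (num 117224 * (var 0)) + (num 590180 * (var 1)) + (num 51210 * (var 2)) + (num 111964 * (var 3)) + (num (-352562) * ((var 2) * (var 3))) + (num (-823702) * ((var 0) * (var 3))))))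
  kd := num 1000 * (num 65536 * ((var 0) * ((((num 100)) - (((num 49) + (num (-47) * (var 1))) + ((num 51) + (num (-37) * (var 1))) * (var 3))) + (var 1) * ((num 100)))) * ((((num 100)) - (((num 49) + (num (-47) * (var 1))) + ((num 51) + (num (-37) * (var 1))) * (var 3))) + (var 1) * ((num 100))))
  k2n := ((num 631) + (num 7303 * (var 0)) + (num 3164 * (var 2)))
  k2d := num 8192

/-- Its ranges. -/
def bxIz7 : StripEnd.EBox :=
  ⟨(4, 5, 40), (2, 15, 100), (0, 3, 20), (0, 1, 1)⟩
end Vale.Agent.P100.Calib.StripEndD
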