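import Vale.Agent.P100.Calib.SlabStripEndDExpr
import Vale.Agent.P100.Calib.SlabStripEndCert

/-!
# The piece 75 of the strip for `u` near one at small `d / I`
-/

namespace Vale.Agent.P100.Calib.StripEndD

open Pack hiding ev_add ev_mul
open Pack.Ex StripMid StripEnd

local instance endIZ7P75Add : Add Ex := ⟨Ex.add⟩
local instance endIZ7P75Sub : Sub Ex := ⟨Ex.sub⟩
local instance endIZ7P75Mul : Mul Ex := ⟨Ex.mul⟩

/-- The piece `Iz75`. -/
def pcIz75 : Piece where
  I := (var 0)
  d := (var 0) * (var 2)
  w := ((var 0) * (var 1))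
  o := (((num 282)) + ((num 109)) * (var 3))
  den := ((num 500))
  vn := num 2 * (((num 282)) + ((num 109)) * (var 3))
  vs := (num 1 - num 2 * (var 0) - (var 0) * (var 2))
  mu := ⟨(127, 50), (153, 50)⟩
  pn := fun b => cond b
    (num 50 * (((num 500)) - (((num 282)) + ((num 109)) * (var 3))) + num (-153) * ((((num 282)) + ((num 109)) * (var 3)) * ((var 0) * (var 1))))
    (num 50 * (((num 500)) - (((num 282)) + ((num 109)) * (var 3))) + num (-127) * ((((num 282)) + ((num 109)) * (var 3)) * ((var 0) * (var 1))))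
  pd := num 50
  en := fun b => cond b
    (((num 39360) + (num (-2834) * (var 0))) * (num 4 * (var 0) * (((num 500)) - (((num 282)) + ((num 109)) * (var 3))) * ((var 2) + num 3 * (var 0)) + (var 1) * ((num 500)) * (num 1 + num 20 * ((var 0) * (var 2)))))
    (((num 36831) + (num (-2834) * (var 0))) * (num 4 * (var 0) * (((num 500)) - (((num 282)) + ((num 109)) * (var 3))) * ((var 2) + num 3 * (var 0)) + (var 1) * ((num 500)) * (num 1 + num 20 * ((var 0) * (var 2)))))
  kk := fun b => cond b
    (((num 1772) + (num 24540 * (var 2))) * (((var 0) * (var 1)) * (num 4 * ((num 500)) * ((var 2) + num 3 * (var 0)))))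
    (((num (-774)) + (num 24540 * (var 2))) * (((var 0) * (var 1)) * (num 4 * ((num 500)) * ((var 2) + num 3 * (var 0)))))
  f0 := num 8000 * ((num 500)) * ((var 2) + num 3 * (var 0))
  wn := fun b => cond b
    (((num (-11090) * ((var 0) * (((num 500)) - (((num 282)) + ((num 109)) * (var 3))))) + (num 84430 * (((var 0) * (var 1)) * (((num 282)) + ((num 109)) * (var 3)))) + (num (-51913) * (((var 0) * (var 1)) * ((num 500)))) + (num 1501 * ((var 0) * (var 2) * (((num 500)) - (((num 282)) + ((num 109)) * (var 3)))))))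
    (((num (-11936) * ((var 0) * (((num 500)) - (((num 282)) + ((num 109)) * (var 3))))) + (num 84430 * (((var 0) * (var 1)) * (((num 282)) + ((num 109)) * (var 3)))) + (num (-52759) * (((var 0) * (var 1)) * ((num 500)))) + (num 1501 * ((var 0) * (var 2) * (((num 500)) - (((num 282)) + ((num 109)) * (var 3)))))))
  wd := num 1000 * ((num 500))
  tn := fun b => cond b
    (num 10457 * ((var 1) * ((num 500))))
    (num 9274 * ((var 1) * ((num 500))))
  td := num 8000 * ((var 1) * ((num 500)) + num 2 * (var 2) * (((num 500)) - (((num 282)) + ((num 109)) * (var 3))))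
  cn := num 0
  cd := num 1
  kn := ((num 58) + (num (-163) * (var 0)) + (num 294 * (var 1)) + (num (-35) * (var 2)) + (num (-538) * (var 3)) + (num 317 * ((var 1) * (var 3))) + (num (-13) * ((var 2) * (var 3))) + (num 4001 * ((var 0) * (var 3))))
  kd := num 2
  k2n := ((num 500)) * ((num 460) + (num (-1114) * (var 0)) + (num (-2975) * (var 1)) + (num (-227) * (var 2)) + (num (-511) * (var 3)) + (num 4974 * ((var 1) * (var 3))) + (num 276 * ((var 2) * (var 3))) + (num 1448 * ((var 0) * (var 3))))
  k2d := num 128 * (((num 500)) - (((num 282)) + ((num 109)) * (var 3)))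

/-- Its ranges. -/
def bxIz75 : StripEnd.EBox :=
  ⟨(22, 23, 160), (0, 1, 50), (15, 16, 20), (0, 1, 1)⟩

end Vale.Agent.P100.Calib.StripEndD
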