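import Vale.Agent.P100.Calib.SlabStripEndDExpr
import Vale.Agent.P100.Calib.SlabStripEndCert

/-!
# The piece 77 of the strip for `u` near one at small `d / I`
-/

namespace Vale.Agent.P100.Calib.StripEndD

open Pack hiding ev_add ev_mul
open Pack.Ex StripMid StripEnd

local instance endIZ7P77Add : Add Ex := ⟨Ex.add⟩
local instance endIZ7P77Sub : Sub Ex := ⟨Ex.sub⟩
local instance endIZ7P77Mul : Mul Ex := ⟨Ex.mul⟩

/-- The piece `Iz77`. -/
def pcIz77 : Piece where
  I := (var 0)
  d := (var 0) * (var 2)
  w := ((var 0) * (var 1))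
  o := (((num 235)) + ((num 47)) * (var 3))
  den := ((num 500))
  vn := num 2 * (((num 235)) + ((num 47)) * (var 3))
  vs := (num 1 - num 2 * (var 0) - (var 0) * (var 2))
  mu := ⟨(118, 50), (142, 50)⟩
  pn := fun b => cond b
    (num 80000 * (((num 500)) - (((num 235)) + ((num 47)) * (var 3))) + num (-1420) * ((((num 235)) + ((num 47)) * (var 3)) * (var 0)))
    (num 80000 * (((num 500)) - (((num 235)) + ((num 47)) * (var 3))) + num (-354) * ((((num 235)) + ((num 47)) * (var 3)) * (var 0)))
  pd := num 80000
  en := fun b => cond b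
    (((num 36454 * ((var 0) * (((num 500)) - (((num 235)) + ((num 47)) * (var 3)))))) + ((num 500)) * (var 0) * ((num 4089) + (num (-2194) * (var 2)) + (num (-7742) * (var 0))))
    (((num 36454 * ((var 0) * (((num 500)) - (((num 235)) + ((num 47)) * (var 3)))))) + ((num 500)) * (var 0) * ((num 3190) + (num (-2194) * (var 2)) + (num (-7742) * (var 0))))
  kk := fun b => cond b
    (((num 500)) * (var 0) * ((num 67) + (num 84 * (var 2))) + ((num (-16) * ((var 0) * (((num 500)) - (((num 235)) + ((num 47)) * (var 3)))))))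
    (((num 500)) * (var 0) * ((num (-28)) + (num 84 * (var 2))) + ((num (-16) * ((var 0) * (((num 500)) - (((num 235)) + ((num 47)) * (var 3)))))))
  f0 := num 2000 * ((num 500))
  wn := fun b => cond b
    (((num (-13051) * ((var 0) * (((num 500)) - (((num 235)) + ((num 47)) * (var 3))))) + (num 802 * ((var 0) * (var 2) * (((num 500)) - (((num 235)) + ((num 47)) * (var 3)))))) + ((num 500)) * (var 0) * ((num 2329) + (num (-10927) * (var 0))))
    (((num (-13051) * ((var 0) * (((num 500)) - (((num 235)) + ((num 47)) * (var 3))))) + (num 802 * ((var 0) * (var 2) * (((num 500)) - (((num 235)) + ((num 47)) * (var 3)))))) + ((num 500)) * (var 0) * ((num 2303) + (num (-10927) * (var 0))))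
  wd := num 1000 * ((num 500))
  tn := fun b => cond b
    (((num 500)) * ((num 178) + (num (-56) * (var 2)) + (num 56 * (var 0))) + ((num (-112) * (((num 500)) - (((num 235)) + ((num 47)) * (var 3))))))
    (((num 500)) * ((num 105) + (num (-56) * (var 2)) + (num 56 * (var 0))) + ((num (-112) * (((num 500)) - (((num 235)) + ((num 47)) * (var 3))))))
  td := num 8000 * ((num 500))
  cn := num 0
  cd := num 1
  kn := ((num 4225) + (num (-6830) * (var 0)) + (num (-3402) * (var 2)) + (num (-1700) * (var 3)) + (num 2086 * ((var 2) * (var 3))))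
  kd := num 128
  k2n := ((num 2034) + (num (-3156) * (var 0)) + (num (-310) * (var 2)) + (num 5719 * (var 3)) + (num (-7539) * ((var 2) * (var 3))))
  k2d := num 512

/-- Its ranges. -/
def bxIz77 : StripEnd.EBox :=
  ⟨(22, 23, 160), (3, 10, 1600), (15, 16, 20), (0, 1, 1)⟩

end Vale.Agent.P100.Calib.StripEndD
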