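import Vale.Agent.P100.Calib.SlabStripEndIZ7Strict
import Vale.Agent.P100.Calib.SlabStripEndBigSgn

/-!
# A piece of the `I` and `Z` charts for `N` between seven and twenty: 8
-/

namespace Vale.Agent.P100.Calib.StripEndD

open Pack hiding ev_add ev_mul
open Pack.Ex StripMid StripEnd

local instance endIZ7P8Add : Add Ex := ⟨Ex.add⟩
local instance endIZ7P8Sub : Sub Ex := ⟨Ex.sub⟩
local instance endIZ7P8Mul : Mul Ex := ⟨Ex.mul⟩

/-- The piece `Iz8`. -/
def pcIz8 : Piece where
  I := (var 0)
  d := (var 0) * (var 2)
  w := ((var 0) * (var 1))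
  o := (((num 49) + (num (-48) * (var 1))) + ((num 51) + (num (-36) * (var 1))) * (var 3))
  den := ((num 100))
  vn := num 2 * (((num 49) + (num (-48) * (var 1))) + ((num 51) + (num (-36) * (var 1))) * (var 3))
  vs := (num 1 - num 2 * (var 0) - (var 0) * (var 2))
  mu := ⟨(89, 50), (113, 50)⟩
  pn := fun b => cond b
    (num 50 * (((num 100)) - (((num 49) + (num (-48) * (var 1))) + ((num 51) + (num (-36) * (var 1))) * (var 3))) + num (-113) * ((((num 49) + (num (-48) * (var 1))) + ((num 51) + (num (-36) * (var 1))) * (var 3)) * ((var 0) * (var 1))))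
    (num 50 * (((num 100)) - (((num 49) + (num (-48) * (var 1))) + ((num 51) + (num (-36) * (var 1))) * (var 3))) + num (-89) * ((((num 49) + (num (-48) * (var 1))) + ((num 51) + (num (-36) * (var 1))) * (var 3)) * ((var 0) * (var 1))))
  pd := num 50
  en := fun b => cond b
    (((num 28330) + (num 89876 * (var 0))) * (num 4 * (var 0) * (((num 100)) - (((num 49) + (num (-48) * (var 1))) + ((num 51) + (num (-36) * (var 1))) * (var 3))) * ((var 2) + num 3 * (var 0)) + (var 1) * ((num 100)) * (num 1 + num 20 * ((var 0) * (var 2)))))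
    (((num 25118) + (num 89876 * (var 0))) * (num 4 * (var 0) * (((num 100)) - (((num 49) + (num (-48) * (var 1))) + ((num 51) + (num (-36) * (var 1))) * (var 3))) * ((var 2) + num 3 * (var 0)) + (var 1) * ((num 100)) * (num 1 + num 20 * ((var 0) * (var 2)))))
  kk := fun b => cond b
    (((num (-1782)) + (num 24816 * (var 2))) * (((var 0) * (var 1)) * (num 4 * ((num 100)) * ((var 2) + num 3 * (var 0)))))
    (((num (-2107)) + (num 24816 * (var 2))) * (((var 0) * (var 1)) * (num 4 * ((num 100)) * ((var 2) + num 3 * (var 0)))))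
  f0 := num 8000 * ((num 100)) * ((var 2) + num 3 * (var 0))
  wn := fun b => cond b
    (((num (-10600) * ((var 0) * (((num 100)) - (((num 49) + (num (-48) * (var 1))) + ((num 51) + (num (-36) * (var 1))) * (var 3))))) + (num 9675 * (((var 0) * (var 1)) * (((num 49) + (num (-48) * (var 1))) + ((num 51) + (num (-36) * (var 1))) * (var 3)))) + (num (-562) * (((var 0) * (var 1)) * ((num 100)))) + (num 2232 * ((var 0) * (var 2) * (((num 100)) - (((num 49) + (num (-48) * (var 1))) + ((num 51) + (num (-36) * (var 1))) * (var 3)))))))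
    (((num (-11424) * ((var 0) * (((num 100)) - (((num 49) + (num (-48) * (var 1))) + ((num 51) + (num (-36) * (var 1))) * (var 3))))) + (num 9675 * (((var 0) * (var 1)) * (((num 49) + (num (-48) * (var 1))) + ((num 51) + (num (-36) * (var 1))) * (var 3)))) + (num (-1386) * (((var 0) * (var 1)) * ((num 100)))) + (num 2232 * ((var 0) * (var 2) * (((num 100)) - (((num 49) + (num (-48) * (var 1))) + ((num 51) + (num (-36) * (var 1))) * (var 3)))))))
  wd := num 1000 * ((num 100))
  tn := fun b => cond b
    (num 11327 * ((var 1) * ((num 100))))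
    (num 8418 * ((var 1) * ((num 100))))
  td := num 8000 * ((var 1) * ((num 100)) + num 2 * (var 2) * (((num 100)) - (((num 49) + (num (-48) * (var 1))) + ((num 51) + (num (-36) * (var 1))) * (var 3))))
  cn := num 0
  cd := num 1
  kn := ((num 100)) * ((((num 100)) - (((num 49) + (num (-48) * (var 1))) + ((num 51) + (num (-36) * (var 1))) * (var 3))) * ((num (-104023)) + (num 1088229 * (var 0)) + (num (-213351) * (var 1)) + (num 6720 * (var 2)) + (num 173043 * (var 3)) + (num 255670 * ((var 1) * (var 3))) + (num (-54820) * ((var 2) * (var 3))) + (num (-1329793) * ((var 0) * (var 3)))) + (var 1) * ((num 100)) * ((num 451933) + (num (-2659998) * (var 0)) + (num (-63120) * (var 1)) + (num (-49261) * (var 2)) + (num (-572653) * (var 3)) + (num 172474 * ((var 2) * (var 3))) + (num 3648090 * ((var 0) * (var 3)))))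
  kd := num 65536 * ((var 0) * ((((num 100)) - (((num 49) + (num (-48) * (var 1))) + ((num 51) + (num (-36) * (var 1))) * (var 3))) + (var 1) * ((num 100)))) * (((num 100)) - (((num 49) + (num (-48) * (var 1))) + ((num 51) + (num (-36) * (var 1))) * (var 3)))
  k2n := ((num 2367) + (num (-5253) * (var 0)) + (num 2070 * (var 2)))
  k2d := num 8192

/-- Its ranges. -/
def bxIz8 : StripEnd.EBox :=
  ⟨(20, 23, 160), (2, 15, 100), (0, 3, 40), (0, 1, 1)⟩
end Vale.Agent.P100.Calib.StripEndD
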