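import Vale.Agent.P100.Calib.SlabStripEndDCert
import Vale.Agent.P100.Calib.SlabStripEndBigSgn

/-!
# A piece of the `I` and `Z` charts for `N` between seven and twenty: 85
-/

namespace Vale.Agent.P100.Calib.StripEndD

open Pack hiding ev_add ev_mul
open Pack.Ex StripMid StripEnd

local instance endIZ7P85Add : Add Ex := ⟨Ex.add⟩
local instance endIZ7P85Sub : Sub Ex := ⟨Ex.sub⟩
local instance endIZ7P85Mul : Mul Ex := ⟨Ex.mul⟩

/-- The piece `Iz85`. -/
def pcIz85 : Piece where
  I := (var 0)
  d := (var 0) * (var 2)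
  w := ((var 0) * (var 1))
  o := (((num 19) + (num (-3) * (var 1)) + (num (-1) * (var 2))) + ((num 29) + (num (-3) * (var 1)) + (num (-4) * (var 2))) * (var 3))
  den := ((num 100))
  vn := num 2 * (((num 19) + (num (-3) * (var 1)) + (num (-1) * (var 2))) + ((num 29) + (num (-3) * (var 1)) + (num (-4) * (var 2))) * (var 3))
  vs := (num 1 - num 2 * (var 0) - (var 0) * (var 2))
  mu := ⟨(35, 50), (147, 50)⟩
  pn := fun b => cond b
    (num 50 * (((num 100)) - (((num 19) + (num (-3) * (var 1)) + (num (-1) * (var 2))) + ((num 29) + (num (-3) * (var 1)) + (num (-4) * (var 2))) * (var 3))) + num (-147) * ((((num 19) + (num (-3) * (var 1)) + (num (-1) * (var 2))) + ((num 29) + (num (-3) * (var 1)) + (num (-4) * (var 2))) * (var 3)) * ((var 0) * (var 1))))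
    (num 50 * (((num 100)) - (((num 19) + (num (-3) * (var 1)) + (num (-1) * (var 2))) + ((num 29) + (num (-3) * (var 1)) + (num (-4) * (var 2))) * (var 3))) + num (-35) * ((((num 19) + (num (-3) * (var 1)) + (num (-1) * (var 2))) + ((num 29) + (num (-3) * (var 1)) + (num (-4) * (var 2))) * (var 3)) * ((var 0) * (var 1))))
  pd := num 50
  en := fun b => cond b
    (((num 23879) + (num 119792 * (var 0))) * (num 4 * (var 0) * (((num 100)) - (((num 19) + (num (-3) * (var 1)) + (num (-1) * (var 2))) + ((num 29) + (num (-3) * (var 1)) + (num (-4) * (var 2))) * (var 3))) * ((var 2) + num 3 * (var 0)) + (var 1) * ((num 100)) * (num 1 + num 20 * ((var 0) * (var 2)))))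
    (((num 21570) + (num 119792 * (var 0))) * (num 4 * (var 0) * (((num 100)) - (((num 19) + (num (-3) * (var 1)) + (num (-1) * (var 2))) + ((num 29) + (num (-3) * (var 1)) + (num (-4) * (var 2))) * (var 3))) * ((var 2) + num 3 * (var 0)) + (var 1) * ((num 100)) * (num 1 + num 20 * ((var 0) * (var 2)))))
  kk := fun b => cond b
    (((num 647) + (num 19246 * (var 2))) * (((var 0) * (var 1)) * (num 4 * ((num 100)) * ((var 2) + num 3 * (var 0)))))
    (((num (-2368)) + (num 19246 * (var 2))) * (((var 0) * (var 1)) * (num 4 * ((num 100)) * ((var 2) + num 3 * (var 0)))))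
  f0 := num 8000 * ((num 100)) * ((var 2) + num 3 * (var 0))
  wn := fun b => cond b
    (((num (-11071) * ((var 0) * (((num 100)) - (((num 19) + (num (-3) * (var 1)) + (num (-1) * (var 2))) + ((num 29) + (num (-3) * (var 1)) + (num (-4) * (var 2))) * (var 3))))) + (num 9145 * (((var 0) * (var 1)) * (((num 19) + (num (-3) * (var 1)) + (num (-1) * (var 2))) + ((num 29) + (num (-3) * (var 1)) + (num (-4) * (var 2))) * (var 3)))) + (num 678 * (((var 0) * (var 1)) * ((num 100)))) + (num 1180 * ((var 0) * (var 2) * (((num 100)) - (((num 19) + (num (-3) * (var 1)) + (num (-1) * (var 2))) + ((num 29) + (num (-3) * (var 1)) + (num (-4) * (var 2))) * (var 3)))))))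
    (((num (-12849) * ((var 0) * (((num 100)) - (((num 19) + (num (-3) * (var 1)) + (num (-1) * (var 2))) + ((num 29) + (num (-3) * (var 1)) + (num (-4) * (var 2))) * (var 3))))) + (num 9145 * (((var 0) * (var 1)) * (((num 19) + (num (-3) * (var 1)) + (num (-1) * (var 2))) + ((num 29) + (num (-3) * (var 1)) + (num (-4) * (var 2))) * (var 3)))) + (num (-1100) * (((var 0) * (var 1)) * ((num 100)))) + (num 1180 * ((var 0) * (var 2) * (((num 100)) - (((num 19) + (num (-3) * (var 1)) + (num (-1) * (var 2))) + ((num 29) + (num (-3) * (var 1)) + (num (-4) * (var 2))) * (var 3)))))))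
  wd := num 1000 * ((num 100))
  tn := fun b => cond b
    (num 10085 * ((var 1) * ((num 100))))
    (num 8631 * ((var 1) * ((num 100))))
  td := num 8000 * ((var 1) * ((num 100)) + num 2 * (var 2) * (((num 100)) - (((num 19) + (num (-3) * (var 1)) + (num (-1) * (var 2))) + ((num 29) + (num (-3) * (var 1)) + (num (-4) * (var 2))) * (var 3))))
  cn := num 0
  cd := num 1
  kn := ((num 576) + (num 4621 * (var 0)) + (num (-41) * (var 1)) + (num (-25) * (var 2)) + (num (-512) * (var 3)) + (num (-26) * ((var 1) * (var 3))) + (num 1747 * ((var 2) * (var 3))) + (num 7580 * ((var 0) * (var 3))))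
  kd := num 512
  k2n := ((num (-108)) + (num 4794 * (var 0)) + (num (-31) * (var 2)))
  k2d := num 128

/-- Its ranges. -/
def bxIz85 : StripEnd.EBox :=
  ⟨(1, 2, 20), (2, 4, 1), (0, 1, 2), (0, 1, 1)⟩
end Vale.Agent.P100.Calib.StripEndD
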