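import Vale.Agent.P100.Calib.SlabStripEndIZ7Strict
import Vale.Agent.P100.Calib.SlabStripEndBigSgn

/-!
# A piece of the `I` and `Z` charts for `N` between seven and twenty: 9
-/

namespace Vale.Agent.P100.Calib.StripEndD

open Pack hiding ev_add ev_mul
open Pack.Ex StripMid StripEnd

local instance endIZ7P9Add : Add Ex := ⟨Ex.add⟩
local instance endIZ7P9Sub : Sub Ex := ⟨Ex.sub⟩
local instance endIZ7P9Mul : Mul Ex := ⟨Ex.mul⟩

/-- The piece `Iz9`. -/
def pcIz9 : Piece where
  I := (var 0)
  d := (var 0) * (var 2)
  w := ((var 0) * (var 1))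
  o := (((num 244) + (num (-297) * (var 1))) + ((num 256) + (num (-283) * (var 1))) * (var 3))
  den := ((num 500))
  vn := num 2 * (((num 244) + (num (-297) * (var 1))) + ((num 256) + (num (-283) * (var 1))) * (var 3))
  vs := (num 1 - num 2 * (var 0) - (var 0) * (var 2))
  mu := ⟨(94, 50), (115, 50)⟩
  pn := fun b => cond b
    (num 50 * (((num 500)) - (((num 244) + (num (-297) * (var 1))) + ((num 256) + (num (-283) * (var 1))) * (var 3))) + num (-115) * ((((num 244) + (num (-297) * (var 1))) + ((num 256) + (num (-283) * (var 1))) * (var 3)) * ((var 0) * (var 1))))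
    (num 50 * (((num 500)) - (((num 244) + (num (-297) * (var 1))) + ((num 256) + (num (-283) * (var 1))) * (var 3))) + num (-94) * ((((num 244) + (num (-297) * (var 1))) + ((num 256) + (num (-283) * (var 1))) * (var 3)) * ((var 0) * (var 1))))
  pd := num 50
  en := fun b => cond b
    (((num 30449) + (num 96650 * (var 0))) * (num 4 * (var 0) * (((num 500)) - (((num 244) + (num (-297) * (var 1))) + ((num 256) + (num (-283) * (var 1))) * (var 3))) * ((var 2) + num 3 * (var 0)) + (var 1) * ((num 500)) * (num 1 + num 20 * ((var 0) * (var 2)))))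
    (((num 24252) + (num 96650 * (var 0))) * (num 4 * (var 0) * (((num 500)) - (((num 244) + (num (-297) * (var 1))) + ((num 256) + (num (-283) * (var 1))) * (var 3))) * ((var 2) + num 3 * (var 0)) + (var 1) * ((num 500)) * (num 1 + num 20 * ((var 0) * (var 2)))))
  kk := fun b => cond b
    (((num 1562) + (num 15118 * (var 2))) * (((var 0) * (var 1)) * (num 4 * ((num 500)) * ((var 2) + num 3 * (var 0)))))
    (((num 55) + (num 15118 * (var 2))) * (((var 0) * (var 1)) * (num 4 * ((num 500)) * ((var 2) + num 3 * (var 0)))))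
  f0 := num 8000 * ((num 500)) * ((var 2) + num 3 * (var 0))
  wn := fun b => cond b
    (((num (-8841) * ((var 0) * (((num 500)) - (((num 244) + (num (-297) * (var 1))) + ((num 256) + (num (-283) * (var 1))) * (var 3))))) + (num 9731 * (((var 0) * (var 1)) * (((num 244) + (num (-297) * (var 1))) + ((num 256) + (num (-283) * (var 1))) * (var 3)))) + (num (-3020) * (((var 0) * (var 1)) * ((num 500)))) + (num 561 * ((var 0) * (var 2) * (((num 500)) - (((num 244) + (num (-297) * (var 1))) + ((num 256) + (num (-283) * (var 1))) * (var 3)))))))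
    (((num (-9715) * ((var 0) * (((num 500)) - (((num 244) + (num (-297) * (var 1))) + ((num 256) + (num (-283) * (var 1))) * (var 3))))) + (num 9731 * (((var 0) * (var 1)) * (((num 244) + (num (-297) * (var 1))) + ((num 256) + (num (-283) * (var 1))) * (var 3)))) + (num (-3894) * (((var 0) * (var 1)) * ((num 500)))) + (num 561 * ((var 0) * (var 2) * (((num 500)) - (((num 244) + (num (-297) * (var 1))) + ((num 256) + (num (-283) * (var 1))) * (var 3)))))))
  wd := num 1000 * ((num 500))
  tn := fun b => cond b
    (num 9271 * ((var 1) * ((num 500))))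
    (num 8015 * ((var 1) * ((num 500))))
  td := num 8000 * ((var 1) * ((num 500)) + num 2 * (var 2) * (((num 500)) - (((num 244) + (num (-297) * (var 1))) + ((num 256) + (num (-283) * (var 1))) * (var 3))))
  cn := num 0
  cd := num 1
  kn := ((num 500)) * (((((num 500)) - (((num 244) + (num (-297) * (var 1))) + ((num 256) + (num (-283) * (var 1))) * (var 3))) + (var 1) * ((num 500))) * ((num 396634) + (num (-5389546) * (var 0)) + (num 1490281 * (var 1)) + (num (-31806) * (var 2)) + (num (-426778) * (var 3)) + (num (-191090) * ((var 1) * (var 3))) + (num 50036 * ((var 2) * (var 3))) + (num 5791513 * ((var 0) * (var 3)))) + (((num 500)) - (((num 244) + (num (-297) * (var 1))) + ((num 256) + (num (-283) * (var 1))) * (var 3))) * ((num (-393999)) + (num 5670798 * (var 0)) + (num (-1892321) * (var 1)) + (num 24851 * (var 2)) + (num 420664 * (var 3)) + (num (-33749) * ((var 2) * (var 3))) + (num (-5641648) * ((var 0) * (var 3)))))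
  kd := num 65536 * ((var 0) * ((((num 500)) - (((num 244) + (num (-297) * (var 1))) + ((num 256) + (num (-283) * (var 1))) * (var 3))) + (var 1) * ((num 500)))) * ((((num 500)) - (((num 244) + (num (-297) * (var 1))) + ((num 256) + (num (-283) * (var 1))) * (var 3))) + (var 1) * ((num 500)))
  k2n := ((num (-403)) + (num 7821 * (var 0)) + (num 2399 * (var 2)))
  k2d := num 1024

/-- Its ranges. -/
def bxIz9 : StripEnd.EBox :=
  ⟨(2, 3, 40), (0, 1, 50), (3, 10, 20), (0, 1, 1)⟩
end Vale.Agent.P100.Calib.StripEndD
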