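import Vale.Agent.P100.Calib.SlabStripEndDCert
import Vale.Agent.P100.Calib.SlabStripEndBigSgn

/-!
# A piece of the `I` and `Z` charts for `N` between seven and twenty: 91
-/

namespace Vale.Agent.P100.Calib.StripEndD

open Pack hiding ev_add ev_mul
open Pack.Ex StripMid StripEnd

local instance endIZ7P91Add : Add Ex := ⟨Ex.add⟩
local instance endIZ7P91Sub : Sub Ex := ⟨Ex.sub⟩
local instance endIZ7P91Mul : Mul Ex := ⟨Ex.mul⟩

/-- The piece `Iz91`. -/
def pcIz91 : Piece where
  I := (var 0)
  d := (var 0) * (var 2)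
  w := ((var 0) * (var 1))
  o := (((num 22) + (num (-6) * (var 1))) + ((num 28) + (num (-5) * (var 1))) * (var 3))
  den := ((num 100))
  vn := num 2 * (((num 22) + (num (-6) * (var 1))) + ((num 28) + (num (-5) * (var 1))) * (var 3))
  vs := (num 1 - num 2 * (var 0) - (var 0) * (var 2))
  mu := ⟨(41, 50), (165, 50)⟩
  pn := fun b => cond b
    (num 50 * (((num 100)) - (((num 22) + (num (-6) * (var 1))) + ((num 28) + (num (-5) * (var 1))) * (var 3))) + num (-165) * ((((num 22) + (num (-6) * (var 1))) + ((num 28) + (num (-5) * (var 1))) * (var 3)) * ((var 0) * (var 1))))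
    (num 50 * (((num 100)) - (((num 22) + (num (-6) * (var 1))) + ((num 28) + (num (-5) * (var 1))) * (var 3))) + num (-41) * ((((num 22) + (num (-6) * (var 1))) + ((num 28) + (num (-5) * (var 1))) * (var 3)) * ((var 0) * (var 1))))
  pd := num 50
  en := fun b => cond b
    (((num 29719) + (num 64910 * (var 0))) * (num 4 * (var 0) * (((num 100)) - (((num 22) + (num (-6) * (var 1))) + ((num 28) + (num (-5) * (var 1))) * (var 3))) * ((var 2) + num 3 * (var 0)) + (var 1) * ((num 100)) * (num 1 + num 20 * ((var 0) * (var 2)))))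
    (((num 23896) + (num 64910 * (var 0))) * (num 4 * (var 0) * (((num 100)) - (((num 22) + (num (-6) * (var 1))) + ((num 28) + (num (-5) * (var 1))) * (var 3))) * ((var 2) + num 3 * (var 0)) + (var 1) * ((num 100)) * (num 1 + num 20 * ((var 0) * (var 2)))))
  kk := fun b => cond b
    (((num 6254) + (num 16472 * (var 2))) * (((var 0) * (var 1)) * (num 4 * ((num 100)) * ((var 2) + num 3 * (var 0)))))
    (((num 49) + (num 16472 * (var 2))) * (((var 0) * (var 1)) * (num 4 * ((num 100)) * ((var 2) + num 3 * (var 0)))))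
  f0 := num 8000 * ((num 100)) * ((var 2) + num 3 * (var 0))
  wn := fun b => cond b
    (((num (-13745) * ((var 0) * (((num 100)) - (((num 22) + (num (-6) * (var 1))) + ((num 28) + (num (-5) * (var 1))) * (var 3))))) + (num 16505 * (((var 0) * (var 1)) * (((num 22) + (num (-6) * (var 1))) + ((num 28) + (num (-5) * (var 1))) * (var 3)))) + (num (-407) * (((var 0) * (var 1)) * ((num 100)))) + (num 2119 * ((var 0) * (var 2) * (((num 100)) - (((num 22) + (num (-6) * (var 1))) + ((num 28) + (num (-5) * (var 1))) * (var 3)))))))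
    (((num (-15421) * ((var 0) * (((num 100)) - (((num 22) + (num (-6) * (var 1))) + ((num 28) + (num (-5) * (var 1))) * (var 3))))) + (num 16505 * (((var 0) * (var 1)) * (((num 22) + (num (-6) * (var 1))) + ((num 28) + (num (-5) * (var 1))) * (var 3)))) + (num (-2083) * (((var 0) * (var 1)) * ((num 100)))) + (num 2119 * ((var 0) * (var 2) * (((num 100)) - (((num 22) + (num (-6) * (var 1))) + ((num 28) + (num (-5) * (var 1))) * (var 3)))))))
  wd := num 1000 * ((num 100))
  tn := fun b => cond b
    (num 10990 * ((var 1) * ((num 100))))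
    (num 8836 * ((var 1) * ((num 100))))
  td := num 8000 * ((var 1) * ((num 100)) + num 2 * (var 2) * (((num 100)) - (((num 22) + (num (-6) * (var 1))) + ((num 28) + (num (-5) * (var 1))) * (var 3))))
  cn := num 0
  cd := num 1
  kn := ((num 192) + (num 5031 * (var 0)) + (num (-91) * (var 1)) + (num (-28) * (var 2)) + (num (-109) * (var 3)) + (num 201 * ((var 1) * (var 3))) + (num 238 * ((var 2) * (var 3))) + (num 1549 * ((var 0) * (var 3))))
  kd := num 256
  k2n := ((num 2038) + (num 6169 * (var 0)) + (num (-2264) * (var 2)))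
  k2d := num 1024

/-- Its ranges. -/
def bxIz91 : StripEnd.EBox :=
  ⟨(16, 23, 160), (1, 2, 1), (75, 89, 100), (0, 1, 1)⟩
end Vale.Agent.P100.Calib.StripEndD
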