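import Vale.Agent.P100.Calib.SlabStripEndDCert

/-!
# The checks of a piece with the strict ones against a power of the variables

Where `1 - u` and `1 - a v` vanish together, the numerators of the conditions with the singular
multipliers vanish to a higher order than the positive number of `strict`. They are compared
with a power of the first three variables instead; both multipliers of the second kind
times a large constant then give the checks at the point.
-/

set_option linter.unusedVariables false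

namespace Vale.Agent.P100.Calib.StripEndD

open Pack hiding ev_add ev_mul
open Pack.Ex Band StripMid StripEnd

local instance endIZ7StrictAdd : Add Ex := ⟨Ex.add⟩
local instance endIZ7StrictSub : Sub Ex := ⟨Ex.sub⟩
local instance endIZ7StrictMul : Mul Ex := ⟨Ex.mul⟩

/-- A check of a strict sign: the value minus a power of the variables. -/
def strictPow (n : ℕ) (e : Ex) : Ex := e - pow (var 0 * (var 1 * var 2)) n

/-- A strict sign on a box, against either power of the variables. -/
def StrictlyPos (B : StripEnd.EBox) (e : Ex) : Prop :=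
  Chk B.C (strictVar e) ∨ ∃ n, Chk B.C (strictPow n e)

/-- All checks of a piece on its ranges, the strict ones with `strictPow`. -/
structure CertV (P : Piece) (B : StripEnd.EBox) : Prop where
  pos : P.Pos
  low : 0 ≤ B.q₀.1 ∧ 0 ≤ B.q₁.1 ∧ 0 ≤ B.q₂.1
  kn : Chk B.C P.kn
  sgns : ∀ f, StrictlyPos B (P.posF f)
  k2n : StrictlyPos B P.k2n
  k2d : StrictlyPos B P.k2d
  vs : Chk B.C (strictVar P.vs)
  g1 : ∀ s p l, Chk B.C (P.at ⟨p, l, !s, !s, false⟩ (c1 s))
  g2 : ∀ s p l t, ∃ n, Chk B.C (strictPow n (P.at ⟨p, l, true, true, t⟩ (c2 s)))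
  g5 : ∀ s p l t, ∃ n, Chk B.C (strictPow n (P.at ⟨p, l, true, true, t⟩ (c5 s)))
  gMG : ∀ p l t, Chk B.C (P.at ⟨p, l, true, false, t⟩ tplMG)
  v2 : ∀ s, Chk B.C (P.at ⟨false, false, true, true, false⟩ (curve2 s))
  v5 : ∀ s, Chk B.C (P.at ⟨false, false, true, true, false⟩ (curve5 s))
  vMG : Chk B.C (P.at ⟨false, false, true, true, false⟩ Piece.curveMG)
  wP : ∀ b hi, Chk B.C (P.winP b hi)
  wE : ∀ b hi, Chk B.C (P.winE b hi)
  wK : ∀ b hi, Chk B.C (P.winK b hi)
  wW : ∀ b, Chk B.C (P.winW b)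
  wY : ∀ b, Chk B.C (P.winY b)
  wT : ∀ b hi, Chk B.C (P.winT b hi)
  gap : ∀ b t, Chk B.C (P.gap b t)

/-- The piece with `k2n` and `k2d` times a constant. -/
def Piece.boost (P : Piece) (c : ℕ) : Piece :=
  { P with k2n := num c * P.k2n, k2d := num c * P.k2d }

variable {P : Piece} {B : StripEnd.EBox} {x : ℕ → ℝ} {c : ℕ}

theorem at_eval (h : Place P x) (V : StripEnd.Vtx) (e : Ex) :
    (P.at V e).eval x = P.vd.eval x ^ e.deg 2 * e.eval (rho P V x) := by
  rw [Piece.at, eval_csub h.vd.ne' (fun i hi => by interval_cases i <;> rfl) e,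
    eval_hsub _ _ _ h.vd.ne']
  rfl

theorem strictPow_pos {e : Ex} {n : ℕ} (hx : 0 < x 0 * (x 1 * x 2))
    (h : 0 ≤ (strictPow n e).eval x) : 0 < e.eval x := by
  simp only [strictPow, ev_sub, Ex.eval] at h
  have := pow_pos hx n
  linarith

theorem StrictlyPos.pos {e : Ex} (hx : 0 < x 0 * (x 1 * x 2)) (h : B.Mem x)
    (K : StrictlyPos B e) : 0 < e.eval x := by
  rcases K with K | ⟨n, K⟩
  · exact strictVar_pos hx (K.nonneg h.at_pt)
  · exact strictPow_pos hx (K.nonneg h.at_pt)

theorem CertV.place (K : CertV P B) (h : B.Mem x)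
    (hvo : P.A.eval x * P.vn.eval x = 2 * (P.vs.eval x * P.o.eval x)) : Place P x := by
  have hx : 0 < x 0 * (x 1 * x 2) := mul_pos (lower_pos K.low.1 h.h0)
    (mul_pos (lower_pos K.low.2.1 h.h1) (lower_pos K.low.2.2 h.h2))
  have hh : ∀ f, 0 < (P.posF f).eval x := fun f =>
    (K.sgns f).pos hx h
  exact ⟨hh .I, hh .d, hh .A, hh .S, hh .U, hh .den, hh .o,
    sub_pos.1 (hh .olt), hh .pd, hh .e0, hh .f0, hh .wd, hh .td, hh .cd, K.kn.nonneg h.at_pt,
    hh .kd, K.k2n.pos hx h, K.k2d.pos hx h,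
    strictVar_pos hx (K.vs.nonneg h.at_pt), hvo⟩

theorem CertV.strict_rho (K : CertV P B) (h : B.Mem x) (hP : Place P x) {V : StripEnd.Vtx}
    {e : Ex} (hs : ∃ n, Chk B.C (strictPow n (P.at V e))) : 0 < e.eval (rho P V x) := by
  obtain ⟨n, hs⟩ := hs
  have hh := hs.nonneg h.at_pt
  have hx : 0 < x 0 * (x 1 * x 2) := mul_pos (lower_pos K.low.1 h.h0)
    (mul_pos (lower_pos K.low.2.1 h.h1) (lower_pos K.low.2.2 h.h2))
  have h2 : 0 < (P.at V e).eval x := strictPow_pos hx hh
  rw [at_eval hP] at h2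
  exact pos_of_mul_pos_right h2 (pow_nonneg hP.vd.le _)

theorem Place.boost (h : Place P x) (hc : 0 < c) : Place (P.boost c) x := by
  have hc' : (0 : ℝ) < c := by exact_mod_cast hc
  exact ⟨h.I, h.d, h.A, h.S, h.U, h.den, h.o, h.o_lt, h.pd, h.e0, h.f0, h.wd, h.td, h.cd, h.kn,
    h.kd, by simpa [Piece.boost, ev_mul, Ex.eval] using mul_pos hc' h.k2n,
    by simpa [Piece.boost, ev_mul, Ex.eval] using mul_pos hc' h.k2d, h.vs, h.vo⟩

theorem rho_boost_low (V : StripEnd.Vtx) {i : ℕ} (hi : i < 17) :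
    rho (P.boost c) V x i = rho P V x i := by
  interval_cases i <;> rfl

theorem rho_boost_k2 (V : StripEnd.Vtx) :
    rho (P.boost c) V x 17 = c * rho P V x 17 ∧ rho (P.boost c) V x 18 = c * rho P V x 18 := by
  constructor <;> simp [rho, hvec, sub, Piece.boost, ev_mul, Ex.eval]

theorem c2_boost (V : StripEnd.Vtx) (s : Bool) :
    (c2 s).eval (rho (P.boost c) V x) = c * (c2 s).eval (rho P V x) := by
  obtain ⟨e17, e18⟩ := rho_boost_k2 (P := P) (x := x) (c := c) V
  have f : ∀ {e : Ex}, e.ok 17 = true → e.eval (rho (P.boost c) V x) = e.eval (rho P V x) :=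
    fun {e} he => eval_congr (fun i hi => rho_boost_low V hi) e he
  simp only [c2, end_add, end_mul, Ex.eval, e17, e18, f (e := tplG) rfl, f (e := tplT) rfl,
    f (e := qEx) rfl, rho_boost_low V (show 7 < 17 by norm_num),
    rho_boost_low V (show 12 < 17 by norm_num), rho_boost_low V (show 14 < 17 by norm_num)]
  ring

theorem c5_boost (V : StripEnd.Vtx) (s : Bool) :
    (c5 s).eval (rho (P.boost c) V x) = c * (c5 s).eval (rho P V x) := by
  obtain ⟨e17, e18⟩ := rho_boost_k2 (P := P) (x := x) (c := c) V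
  have f : ∀ {e : Ex}, e.ok 17 = true → e.eval (rho (P.boost c) V x) = e.eval (rho P V x) :=
    fun {e} he => eval_congr (fun i hi => rho_boost_low V hi) e he
  have g : ∀ {i : ℕ}, i < 17 → rho (P.boost c) V x i = rho P V x i := fun hi => rho_boost_low V hi
  simp only [c5, end_add, end_sub, end_mul, ev_pow, Ex.eval, e17, e18, f (e := tplA) rfl,
    f (e := tplT) rfl, f (e := tplM) rfl, g (i := 4) (by norm_num), g (i := 7) (by norm_num),
    g (i := 9) (by norm_num), g (i := 12) (by norm_num), g (i := 14) (by norm_num),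
    g (i := 15) (by norm_num), g (i := 16) (by norm_num)]
  ring

theorem strict_eval (e : Ex) (ρ : ℕ → ℝ) :
    (StripEnd.strict e).eval ρ = 2 ^ 80 * e.eval ρ - posEnd.eval ρ ^ 3 := by
  simp only [StripEnd.strict, end_sub, end_mul, ev_pow, Ex.eval]
  push_cast
  ring

/-- Some constant multiple passes the strict checks. -/
theorem CertV.boost_all (K : CertV P B) (h : B.Mem x) (hP : Place P x) :
    ∃ c : ℕ, 0 < c ∧ AllChecks (P.boost c) x := by
  let R : Bool × Bool × Bool × Bool → ℝ := fun q =>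
    posEnd.eval (rho P ⟨q.2.1, q.2.2.1, true, true, q.2.2.2⟩ x) ^ 3 /
        (c2 q.1).eval (rho P ⟨q.2.1, q.2.2.1, true, true, q.2.2.2⟩ x) +
      posEnd.eval (rho P ⟨q.2.1, q.2.2.1, true, true, q.2.2.2⟩ x) ^ 3 /
        (c5 q.1).eval (rho P ⟨q.2.1, q.2.2.1, true, true, q.2.2.2⟩ x)
  have p3 : ∀ V, 0 < posEnd.eval (rho P V x) ^ 3 := fun V => pow_pos (posEx_rho hP V) 3
  have a2 := fun s p l t => K.strict_rho h hP (K.g2 s p l t)
  have a5 := fun s p l t => K.strict_rho h hP (K.g5 s p l t)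
  have hR : ∀ q, 0 ≤ R q := fun q =>
    add_nonneg (div_nonneg (p3 _).le (a2 _ _ _ _).le) (div_nonneg (p3 _).le (a5 _ _ _ _).le)
  obtain ⟨c, hc⟩ := exists_nat_ge (∑ q, R q + 1)
  have hsum : 0 ≤ ∑ q, R q := Finset.sum_nonneg fun q _ => hR q
  have hc' : (0 : ℝ) < c := by linarith
  refine ⟨c, by exact_mod_cast hc', ?_⟩
  have hle : ∀ q, R q ≤ c := fun q => by
    have := Finset.single_le_sum (fun r _ => hR r) (Finset.mem_univ q)
    linarith
  have hQ : Place (P.boost c) x := hP.boost (by exact_mod_cast hc')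
  have n1 : ∀ {V} {e : Ex}, e.ok 17 = true → Chk B.C (P.at V e) →
      0 ≤ ((P.boost c).at V e).eval x := fun {V} {e} he hk => by
    have := hk.nonneg h.at_pt
    rw [at_eval hP] at this
    rw [at_eval hQ, eval_congr (fun i hi => rho_boost_low V hi) e he]
    exact this
  have ns : ∀ (V : StripEnd.Vtx) (e : Ex) (r : ℝ), e.eval (rho (P.boost c) V x) = c * r →
      posEnd.eval (rho P V x) ^ 3 / r ≤ c → 0 < r →
      0 ≤ ((P.boost c).at V (StripEnd.strict e)).eval x := by
    intro V e r he hr hr0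
    rw [at_eval hQ, strict_eval, he,
      eval_congr (m := 17) (fun i hi => rho_boost_low V hi) posEnd rfl]
    refine mul_nonneg (pow_nonneg hQ.vd.le _) ?_
    have := (div_le_iff₀ hr0).1 hr
    have : (c : ℝ) * r ≤ 2 ^ 80 * (c * r) :=
      le_mul_of_one_le_left (mul_pos hc' hr0).le (by norm_num)
    linarith
  have nv : ∀ (V : StripEnd.Vtx) (e : Ex), e.eval (rho (P.boost c) V x) =
      c * e.eval (rho P V x) → Chk B.C (P.at V e) → 0 ≤ ((P.boost c).at V e).eval x := by
    intro V e he hk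
    have := hk.nonneg h.at_pt
    rw [at_eval hP] at this
    rw [at_eval hQ, he, mul_left_comm]
    exact mul_nonneg hc'.le this
  refine ⟨⟨⟨fun s p l => n1 (by cases s <;> rfl) (K.g1 s p l),
      fun s p l t => ns _ _ _ (c2_boost _ s) ?_ (a2 s p l t),
      fun p l t => n1 rfl (K.gMG p l t), fun s => nv _ _ ?_ (K.v2 s), fun s => nv _ _ ?_ (K.v5 s),
      n1 rfl K.vMG⟩,
    fun s p l t => ns _ _ _ (c5_boost _ s) ?_ (a5 s p l t)⟩, ?_⟩
  · exact le_trans (le_add_of_nonneg_right (div_nonneg (p3 _).le (a5 s p l t).le))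
      (hle (s, p, l, t))
  · obtain ⟨e17, e18⟩ := rho_boost_k2 (P := P) (x := x) (c := c) ⟨false, false, true, true, false⟩
    simp only [curve2, end_add, end_mul, Ex.eval, e17, e18,
      eval_congr (m := 17) (fun i hi => rho_boost_low (P := P) (x := x) (c := c) _ hi) coG10 rfl,
      eval_congr (m := 17) (fun i hi => rho_boost_low (P := P) (x := x) (c := c) _ hi) coT9 rfl,
      eval_congr (m := 17) (fun i hi => rho_boost_low (P := P) (x := x) (c := c) _ hi) qEx rfl]
    ring
  · obtain ⟨e17, e18⟩ := rho_boost_k2 (P := P) (x := x) (c := c) ⟨false, false, true, true, false⟩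
    simp only [curve5, end_add, end_mul, Ex.eval, e17, e18,
      eval_congr (m := 17) (fun i hi => rho_boost_low (P := P) (x := x) (c := c) _ hi) coA12 rfl,
      eval_congr (m := 17) (fun i hi => rho_boost_low (P := P) (x := x) (c := c) _ hi) coT9 rfl]
    ring
  · exact le_trans (le_add_of_nonneg_left (div_nonneg (p3 _).le (a2 s p l t).le))
      (hle (s, p, l, t))
  · exact ⟨fun b hi => (K.wP b hi).nonneg h.at_pt, fun b hi => (K.wE b hi).nonneg h.at_pt,
      fun b hi => (K.wK b hi).nonneg h.at_pt, fun b => (K.wW b).nonneg h.at_pt,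
      fun b => (K.wY b).nonneg h.at_pt, fun b hi => (K.wT b hi).nonneg h.at_pt,
      fun b t => (K.gap b t).nonneg h.at_pt⟩

variable {ch : EndChart} {n : ℕ} {a b u v t H : ℝ}

/-- The signs at a point of a chart from the checks of a piece over it, of either kind. -/
theorem signs_of_certE (K : Cert P B ∨ CertV P B) (hB : B.Mem x) (hc : P.Over ch)
    (hx : ch.Point x a b u v H) (hb : Closed.All.ChartBox n (b - a) (a + b))
    (hF : Closed.All.ChartFacts (b - a) (a + b) u v t)
    (hH : Closed.chH (b - a) (a + b) u v t = H)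
    (hk : (AllN.kapAll (1 / P.I.eval x) (xa P x) + 1) / P.d.eval x = kap P x) :
    Closed.Strip.ChartSigns (b - a) (a + b) u v t := by
  rcases K with K | K
  · exact signs_of_cert K hB hc hx hb hF hH hk
  · have h := K.place hB (hc.vo x)
    obtain ⟨c, hc0, hall⟩ := K.boost_all hB h
    obtain ⟨hp, hd, -, hpin⟩ := over_point h hc hx hH
    exact signs_end (P := P.boost c) ⟨K.pos.1⟩ (h.boost hc0) hb hF ⟨hp.hI, hp.hd, hp.hw, hp.ho⟩
      (hd ▸ hk) hpin hall

end Vale.Agent.P100.Calib.StripEndD
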