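import Vale.Agent.P100.Calib.SlabStripEndEnds
import Vale.Agent.P100.Calib.SlabStripEndCore
import Vale.Agent.P100.Calib.SlabStripMidInside

/-!
# The conditions of a piece of the strip for `u` near one inside its window
-/

set_option linter.unusedVariables false

namespace Vale.Agent.P100.Calib.StripEnd

open Pack StripMid

local instance endInAdd : Add Ex := ⟨Ex.add⟩
local instance endInSub : Sub Ex := ⟨Ex.sub⟩
local instance endInMul : Mul Ex := ⟨Ex.mul⟩

/-- The checks of the conditions of a piece at a point. -/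
structure Checks (P : Piece) (x : ℕ → ℝ) : Prop where
  h1 : ∀ s p l, 0 ≤ (P.at ⟨p, l, !s, !s, false⟩ (c1 s)).eval x
  h2 : ∀ s p l t, 0 ≤ (P.at ⟨p, l, true, true, t⟩ (strict (c2 P.k2 s))).eval x
  h3 : ∀ s p l, 0 ≤ (P.at ⟨p, l, true, true, false⟩ (strict (c3 P.θ s))).eval x
  h3' : ∀ p l, 0 ≤ (P.at ⟨p, l, false, false, false⟩ (strict (c3 P.θ true))).eval x
  h4 : ∀ s p l t, 0 ≤ (P.at ⟨p, l, true, true, t⟩ (c4 P.θ P.k2 s)).eval x
  hMG : ∀ p l t, 0 ≤ (P.at ⟨p, l, true, false, t⟩ tplMG).eval x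
  v2 : ∀ s, 0 ≤ (P.at ⟨false, false, true, true, false⟩ (curve2 P.k2 s)).eval x
  v4 : ∀ s, 0 ≤ (P.at ⟨false, false, true, true, false⟩ (curve4 P.θ P.k2 s)).eval x
  vMG : 0 ≤ (P.at ⟨false, false, true, true, false⟩ Piece.curveMG).eval x

/-- What else the constants of a piece satisfy. -/
structure Piece.Pos2 (P : Piece) : Prop extends P.Pos where
  θn : 0 < P.θ.1

/-- The values of the conditions at the ends, and the curvatures along `p`. -/
structure Ends (P : Piece) (x : ℕ → ℝ) : Prop where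
  e1 : ∀ s p l, 0 ≤ P.kn.eval x * hM (xa P x) (P.d.eval x) (xv P x) (pE P x p) (eE P x l)
        (kE P x (!s)) (wE P x (!s)) (tE P x false) (kap P x) +
      P.kd.eval x * (sgn s * hX (xa P x) (P.d.eval x) (xv P x) (pE P x p) (eE P x l) (kE P x (!s))
        (wE P x (!s)) (tE P x false) (kap P x))
  e2 : ∀ s p l t, 0 < P.k2.1 * hG (xa P x) (P.d.eval x) (xv P x) (pE P x p) (eE P x l)
        (kE P x true) (wE P x true) (tE P x t) (kap P x) +
      4 * sgn s * P.k2.2 * (1 + P.d.eval x * xv P x) *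
        hT (xa P x) (P.d.eval x) (xv P x) (pE P x p) (eE P x l) (kE P x true) (wE P x true)
          (tE P x t) (kap P x)
  e3 : ∀ s k p l, (k = true ∨ s = true) →
    0 < 2 * ((P.θ.2 : ℝ) - P.θ.1) * P.kd.eval x * hA (xa P x) (P.d.eval x) (xv P x) (pE P x p)
        (eE P x l) (kE P x k) (wE P x k) (tE P x false) (kap P x) +
      P.θ.2 * P.kn.eval x * (sgn s * hX (xa P x) (P.d.eval x) (xv P x) (pE P x p) (eE P x l)
        (kE P x k) (wE P x k) (tE P x false) (kap P x))
  e4 : ∀ s p l t, 0 ≤ (P.θ.1 : ℝ) * P.k2.2 * hA (xa P x) (P.d.eval x) (xv P x) (pE P x p)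
        (eE P x l) (kE P x true) (wE P x true) (tE P x t) (kap P x) +
      sgn s * P.θ.2 * P.k2.1 * hT (xa P x) (P.d.eval x) (xv P x) (pE P x p) (eE P x l)
        (kE P x true) (wE P x true) (tE P x t) (kap P x)
  eMG : ∀ p l t, 0 ≤ hMG (xa P x) (P.d.eval x) (xv P x) (pE P x p) (eE P x l) (kE P x true)
      (wE P x false) (tE P x t) (kap P x)
  curve : (∀ s, (P.k2.1 : ℝ) * coG10.eval (StripMid.base (xa P x) (P.d.eval x) (xv P x)) +
      4 * sgn s * P.k2.2 * (1 + P.d.eval x * xv P x) *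
        coT9.eval (StripMid.base (xa P x) (P.d.eval x) (xv P x)) ≤ 0) ∧
    (∀ s, (P.θ.1 : ℝ) * P.k2.2 * coA12.eval (StripMid.base (xa P x) (P.d.eval x) (xv P x)) +
      sgn s * P.θ.2 * P.k2.1 *
        coT9.eval (StripMid.base (xa P x) (P.d.eval x) (xv P x)) ≤ 0) ∧
    coA12.eval (StripMid.base (xa P x) (P.d.eval x) (xv P x)) ≤ 0 ∧
    coMG12.eval (StripMid.base (xa P x) (P.d.eval x) (xv P x)) ≤ 0

/-- A point of the window. -/
structure Inside (P : Piece) (x : ℕ → ℝ) (p e k w T : ℝ) : Prop where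
  mu : ∃ s, 0 ≤ s ∧ s ≤ 1 ∧ p = mix s (pE P x false) (pE P x true)
  p_pos : 0 ≤ p
  w_low : wE P x false ≤ w
  w_high : w ≤ wE P x true
  e_low : eE P x true ≤ e
  e_high : e ≤ eE P x false
  k_low : kE P x false ≤ k
  k_high : k ≤ kE P x true
  t_low : tE P x false ≤ T
  t_high : T ≤ tE P x true

section blocks
variable {a d v p e k w T T' c : ℝ}

theorem hX_indep : hX a d v p e k w T c = hX a d v p e k w T' c := by
  simp only [hX, tplX, coef_base (e := coX0) rfl, coef_base (e := coX1) rfl,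
    coef_base (e := coX2) rfl, coef_base (e := coX3) rfl, coef_base (e := coX4) rfl, Ex.eval, vec,
    hatOne]

theorem hM_indep : hM a d v p e k w T c = hM a d v p e k w T' c := by
  simp only [hM, tplM, coef_base (e := coM0) rfl, Ex.eval, vec, hatOne]

theorem hA_T_eq : hA a d v p e k w T c =
    hA a d v p e k w T' c - (T - T') * (1 / 10 / (a + d) ^ 2) * p *
      coA10.eval (StripMid.base a d v) := by
  simp only [hA, tplA, coef_base (e := coA0) rfl, coef_base (e := coA1) rfl, coef_base (e := coA2) rfl, coef_base (e := coA3) rfl, coef_base (e := coA4) rfl, coef_base (e := coA5) rfl, coef_base (e := coA6) rfl, coef_base (e := coA7) rfl, coef_base (e := coA8) rfl, coef_base (e := coA9) rfl, coef_base (e := coA10) rfl, coef_base (e := coA11) rfl, coef_base (e := coA12) rfl, Ex.eval, vec, hatOne, gHat, gHat1]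
  ring

theorem coA10_le (ha : 0 ≤ a) (hd : 0 ≤ d) (hv : 0 ≤ v) (hS : 2 * a + d ≤ 1) :
    coA10.eval (StripMid.base a d v) ≤ 0 := by
  have e : coA10.eval (StripMid.base a d v) = -(d * v ^ 2 * ((512 - 512 * a - 256 * d) +
      d * v * (768 - 768 * a - 384 * d) + (d * v) ^ 2 * (256 - 256 * a - 128 * d))) := by
    simp only [coA10, Ex.eval, StripMid.base, hatOne]
    push_cast
    ring
  rw [e, neg_nonpos]
  exact mul_nonneg (mul_nonneg hd (sq_nonneg v)) (add_nonneg (add_nonneg (by linarith)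
    (mul_nonneg (mul_nonneg hd hv) (by linarith))) (mul_nonneg (sq_nonneg _) (by linarith)))

theorem hM_eq : hM a d v p e k w T c = -(e * p) := by
  simp only [hM, tplM, coM0, Ex.eval, vec, hatOne]
  push_cast; ring

end blocks

variable {P : Piece} {x : ℕ → ℝ}

theorem quo_at (hP : P.Pos) (h : Place P x) (V : Vtx) {e : Ex}
    (hc : 0 ≤ (P.at V e).eval x) : 0 ≤ e.eval (rho P V x) :=
  hsub_nonneg h.vd hc

theorem posEx_rho (h : Place P x) (V : Vtx) : 0 < posEnd.eval (rho P V x) := by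
  obtain ⟨e0, e1, e2⟩ := rho_low h V
  show 0 < rho P V x 1 * rho P V x 2 * mEx.eval (rho P V x) *
    (((2 : ℤ) : ℝ) - rho P V x 0 * rho P V x 2)
  rw [eval_mEx, e0, e1, e2]
  refine mul_pos (mul_pos (mul_pos h.d h.v) ?_) ?_
  · linarith [eval_A' (P := P) (x := x), h.I]
  · push_cast; linarith [h.av]

theorem end_1 (hP : P.Pos) (h : Place P x) (C : Checks P x) (s p l : Bool) :
    0 ≤ P.kn.eval x * hM (xa P x) (P.d.eval x) (xv P x) (pE P x p) (eE P x l) (kE P x (!s))
        (wE P x (!s)) (tE P x false) (kap P x) +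
      P.kd.eval x * (sgn s * hX (xa P x) (P.d.eval x) (xv P x) (pE P x p) (eE P x l) (kE P x (!s))
        (wE P x (!s)) (tE P x false) (kap P x)) := by
  obtain ⟨V, hV⟩ : ∃ V, V = (⟨p, l, !s, !s, false⟩ : Vtx) := ⟨_, rfl⟩
  have D := rho_den hP h V
  have hh := quo_at hP h V (by rw [hV]; exact C.h1 s p l)
  rw [c1_quo D, quo_rho hP h] at hh
  have := nonneg_of_mul_nonneg_right hh (mul_pos (mul_pos D.h4 D.h7) D.h9)
  subst hV
  simpa [rho, hvec, sub, hM, hX, vAt] using this

theorem end_2 (hP : P.Pos) (h : Place P x) (C : Checks P x) (s p l t : Bool) :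
    0 < P.k2.1 * hG (xa P x) (P.d.eval x) (xv P x) (pE P x p) (eE P x l) (kE P x true)
        (wE P x true) (tE P x t) (kap P x) +
      4 * sgn s * P.k2.2 * (1 + P.d.eval x * xv P x) *
        hT (xa P x) (P.d.eval x) (xv P x) (pE P x p) (eE P x l) (kE P x true) (wE P x true)
          (tE P x t) (kap P x) := by
  obtain ⟨V, hV⟩ : ∃ V, V = (⟨p, l, true, true, t⟩ : Vtx) := ⟨_, rfl⟩
  have D := rho_den hP h V
  have hh := strict_pos (posEx_rho h V) (quo_at hP h V (by rw [hV]; exact C.h2 s p l t))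
  rw [c2_quo D, quo_rho hP h, (rho_low h V).2.1, (rho_low h V).2.2] at hh
  have h4 := D.h4; have h7 := D.h7; have h12 := D.h12; have h14 := D.h14
  have := pos_of_mul_pos_right hh (by positivity)
  subst hV
  exact this

theorem end_3 (hP : P.Pos) (h : Place P x) (C : Checks P x) (s k p l : Bool)
    (hk : k = true ∨ s = true) :
    0 < 2 * ((P.θ.2 : ℝ) - P.θ.1) * P.kd.eval x * hA (xa P x) (P.d.eval x) (xv P x) (pE P x p)
        (eE P x l) (kE P x k) (wE P x k) (tE P x false) (kap P x) +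
      P.θ.2 * P.kn.eval x * (sgn s * hX (xa P x) (P.d.eval x) (xv P x) (pE P x p) (eE P x l)
        (kE P x k) (wE P x k) (tE P x false) (kap P x)) := by
  obtain ⟨V, hV⟩ : ∃ V, V = (⟨p, l, k, k, false⟩ : Vtx) := ⟨_, rfl⟩
  have hc : 0 ≤ (P.at V (strict (c3 P.θ s))).eval x := by
    rw [hV]
    cases k
    · rcases hk with hk | hk
      · exact absurd hk (by simp)
      · subst hk; exact C.h3' p l
    · exact C.h3 s p l
  have D := rho_den hP h V
  have hh := strict_pos (posEx_rho h V) (quo_at hP h V hc)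
  rw [c3_quo D, quo_rho hP h] at hh
  have h4 := D.h4; have h7 := D.h7; have h9 := D.h9; have h12 := D.h12; have h14 := D.h14
  have := pos_of_mul_pos_right hh (by positivity)
  subst hV
  simpa [rho, hvec, sub, hA, hX, vAt] using this

theorem end_4 (hP : P.Pos) (h : Place P x) (C : Checks P x) (s p l t : Bool) :
    0 ≤ (P.θ.1 : ℝ) * P.k2.2 * hA (xa P x) (P.d.eval x) (xv P x) (pE P x p) (eE P x l)
        (kE P x true) (wE P x true) (tE P x t) (kap P x) +
      sgn s * P.θ.2 * P.k2.1 * hT (xa P x) (P.d.eval x) (xv P x) (pE P x p) (eE P x l)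
        (kE P x true) (wE P x true) (tE P x t) (kap P x) := by
  obtain ⟨V, hV⟩ : ∃ V, V = (⟨p, l, true, true, t⟩ : Vtx) := ⟨_, rfl⟩
  have D := rho_den hP h V
  have hh := quo_at hP h V (by rw [hV]; exact C.h4 s p l t)
  rw [c4_quo D, quo_rho hP h] at hh
  have h4 := D.h4; have h7 := D.h7; have h9 := D.h9; have h12 := D.h12; have h14 := D.h14
  have := nonneg_of_mul_nonneg_right hh (by positivity)
  subst hV
  exact this

theorem end_MG (hP : P.Pos) (h : Place P x) (C : Checks P x) (p l t : Bool) :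
    0 ≤ hMG (xa P x) (P.d.eval x) (xv P x) (pE P x p) (eE P x l) (kE P x true) (wE P x false)
      (tE P x t) (kap P x) := by
  obtain ⟨V, hV⟩ : ∃ V, V = (⟨p, l, true, false, t⟩ : Vtx) := ⟨_, rfl⟩
  have D := rho_den hP h V
  have hh := quo_at hP h V (by rw [hV]; exact C.hMG p l t)
  rw [tplMG_quo D.h4.ne' D.h7.ne' D.h9.ne' D.h12.ne' D.h14.ne', quo_rho hP h] at hh
  have h4 := D.h4; have h7 := D.h7; have h9 := D.h9; have h12 := D.h12; have h14 := D.h14
  have := nonneg_of_mul_nonneg_right hh (by positivity)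
  subst hV
  exact this

theorem coef_at (h : Place P x) (V : Vtx) {e : Ex} (he : e.ok 3 = true) :
    e.eval (rho P V x) = e.eval (StripMid.base (xa P x) (P.d.eval x) (xv P x)) := by
  obtain ⟨e0, e1, e2⟩ := rho_low h V
  refine eval_congr (fun i hi => ?_) e he
  interval_cases i <;> simp [StripMid.base, hatOne, e0, e1, e2]

theorem curve_of (hP : P.Pos2) (h : Place P x)
    (c2 : ∀ s, 0 ≤ (P.at ⟨false, false, true, true, false⟩ (curve2 P.k2 s)).eval x)
    (c4 : ∀ s, 0 ≤ (P.at ⟨false, false, true, true, false⟩ (curve4 P.θ P.k2 s)).eval x)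
    (cM : 0 ≤ (P.at ⟨false, false, true, true, false⟩ Piece.curveMG).eval x) :
    let B := StripMid.base (xa P x) (P.d.eval x) (xv P x)
    (∀ s, (P.k2.1 : ℝ) * coG10.eval B +
      4 * sgn s * P.k2.2 * (1 + P.d.eval x * xv P x) * coT9.eval B ≤ 0) ∧
    (∀ s, (P.θ.1 : ℝ) * P.k2.2 * coA12.eval B + sgn s * P.θ.2 * P.k2.1 * coT9.eval B ≤ 0) ∧
    coA12.eval B ≤ 0 ∧ coMG12.eval B ≤ 0 := by
  intro B
  obtain ⟨e0, e1, e2⟩ := rho_low h ⟨false, false, true, true, false⟩
  have g2 : ∀ s, (P.k2.1 : ℝ) * coG10.eval B +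
      4 * sgn s * P.k2.2 * (1 + P.d.eval x * xv P x) * coT9.eval B ≤ 0 := by
    intro s
    have := quo_at hP.toPos h _ (c2 s)
    simp only [curve2, ev_add, ev_mul, ev_num, qEx_quo, e1, e2, coef_at h _ (e := coG10) rfl,
      coef_at h _ (e := coT9) rfl] at this
    cases s <;> simp only [sgn, cond_true, cond_false] at this ⊢ <;> push_cast at this <;> linarith
  have g4 : ∀ s, (P.θ.1 : ℝ) * P.k2.2 * coA12.eval B +
      sgn s * P.θ.2 * P.k2.1 * coT9.eval B ≤ 0 := by
    intro s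
    have := quo_at hP.toPos h _ (c4 s)
    simp only [curve4, ev_add, ev_mul, ev_num, coef_at h _ (e := coA12) rfl,
      coef_at h _ (e := coT9) rfl] at this
    cases s <;> simp only [sgn, cond_true, cond_false] at this ⊢ <;> push_cast at this <;> linarith
  refine ⟨g2, g4, ?_, ?_⟩
  · have := g4 false
    have := g4 true
    have hk : (0 : ℝ) < P.θ.1 * P.k2.2 := by
      have := hP.θn; have := hP.k2.2
      exact mul_pos (by exact_mod_cast hP.θn) (by exact_mod_cast hP.k2.2)
    simp only [sgn, cond_true, cond_false] at *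
    exact le_of_mul_le_mul_left (by linarith) hk
  · have := quo_at hP.toPos h _ cM
    simp only [Piece.curveMG, ev_mul, ev_num, coef_at h _ (e := coMG12) rfl] at this
    push_cast at this
    linarith

theorem curve_le (hP : P.Pos2) (h : Place P x) (C : Checks P x) :
    let B := StripMid.base (xa P x) (P.d.eval x) (xv P x)
    (∀ s, (P.k2.1 : ℝ) * coG10.eval B +
      4 * sgn s * P.k2.2 * (1 + P.d.eval x * xv P x) * coT9.eval B ≤ 0) ∧
    (∀ s, (P.θ.1 : ℝ) * P.k2.2 * coA12.eval B + sgn s * P.θ.2 * P.k2.1 * coT9.eval B ≤ 0) ∧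
    coA12.eval B ≤ 0 ∧ coMG12.eval B ≤ 0 :=
  curve_of hP h C.v2 C.v4 C.vMG

/-- All values at the ends from the checks of all ends. -/
theorem Checks.ends (hP : P.Pos2) (h : Place P x) (C : Checks P x) : Ends P x :=
  ⟨end_1 hP.toPos h C, end_2 hP.toPos h C, fun s k p l => end_3 hP.toPos h C s k p l,
    end_4 hP.toPos h C, end_MG hP.toPos h C, curve_le hP h C⟩

variable {p e k w T : ℝ}

/-- `κ M ± X`. -/
theorem inside_1 (hP : P.Pos2) (h : Place P x) (E : Ends P x) (W : Inside P x p e k w T)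
    (s : Bool) : 0 ≤ P.kn.eval x * hM (xa P x) (P.d.eval x) (xv P x) p e k w T (kap P x) +
      P.kd.eval x * (sgn s * hX (xa P x) (P.d.eval x) (xv P x) p e k w T (kap P x)) := by
  obtain ⟨r, hr0, hr1, hp⟩ := W.mu
  have hw0 : mix r (wE P x false) (wE P x false) ≤ w := by unfold mix; linarith [W.w_low]
  have hw1 : w ≤ mix r (wE P x true) (wE P x true) := by unfold mix; linarith [W.w_high]
  obtain ⟨q, hq0, hq1, hq⟩ := exists_mix W.e_low W.e_high
  obtain ⟨ws, hws⟩ : ∃ ws, ws = mix r (wE P x (!s)) (wE P x (!s)) := ⟨_, rfl⟩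
  rw [hX_indep (T' := tE P x false), hM_indep (T' := tE P x false),
    hM_kw (k' := kE P x (!s)) (w' := ws), hX_kw (k' := kE P x (!s)) (w' := ws), hws, hp, hM_p,
    hX_p, hq]
  simp only [hM_e, hX_e]
  have hh := fun p l => E.e1 s p l
  have X1 : 0 ≤ coX1.eval (StripMid.base (xa P x) (P.d.eval x) (xv P x)) := by
    rw [coef_X_k]; have := h.d; have := h.v; positivity
  have X0 : 0 ≤ coX0.eval (StripMid.base (xa P x) (P.d.eval x) (xv P x)) := by
    rw [coef_X_w]; have := h.d; have := h.v; have := h.a; positivity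
  have hd := h.kd.le
  have key := mix_nonneg (mix_nonneg (hh false true) (hh false false) hq0 hq1)
    (mix_nonneg (hh true true) (hh true false) hq0 hq1) hr0 hr1
  unfold mix at key hws ⊢
  cases s <;> simp only [sgn, cond_true, cond_false, Bool.not_false, Bool.not_true] at *
  · have := mul_nonneg (mul_nonneg hd X1) (sub_nonneg.2 W.k_high)
    have := mul_nonneg (mul_nonneg hd X0) (sub_nonneg.2 hw1)
    unfold mix at *
    linarith
  · have := mul_nonneg (mul_nonneg hd X1) (sub_nonneg.2 W.k_low)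
    have := mul_nonneg (mul_nonneg hd X0) (sub_nonneg.2 hw0)
    unfold mix at *
    linarith

/-- `k2 G ± 4 q T`. -/
theorem inside_2 (hP : P.Pos2) (h : Place P x) (E : Ends P x) (W : Inside P x p e k w T)
    (s : Bool) : 0 < P.k2.1 * hG (xa P x) (P.d.eval x) (xv P x) p e k w T (kap P x) +
      4 * sgn s * P.k2.2 * (1 + P.d.eval x * xv P x) *
        hT (xa P x) (P.d.eval x) (xv P x) p e k w T (kap P x) := by
  obtain ⟨r, hr0, hr1, hp⟩ := W.mu
  have hw0 : mix r (wE P x false) (wE P x false) ≤ w := by unfold mix; linarith [W.w_low]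
  have hw1 : w ≤ mix r (wE P x true) (wE P x true) := by unfold mix; linarith [W.w_high]
  obtain ⟨q, hq0, hq1, hq⟩ := exists_mix W.e_low W.e_high
  obtain ⟨t, ht0, ht1, ht⟩ := exists_mix W.t_low W.t_high
  obtain ⟨g2, -, -, -⟩ := E.curve
  have hG6 := coef_G_t_le h.a.le h.d.le h.v.le
  have hk : (0 : ℝ) ≤ P.k2.1 := Nat.cast_nonneg _
  rw [hG_kw (k' := kE P x true) (w' := mix r (wE P x true) (wE P x true)),
    hT_kw (k' := kE P x true) (w' := mix r (wE P x true) (wE P x true)), hp, hG_p, hT_p,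
    hq]
  simp only [hG_e, hT_e]
  rw [ht]
  simp only [hG_T, hT_T]
  have hh : ∀ p l, 0 < P.k2.1 * (mix t
      (hG (xa P x) (P.d.eval x) (xv P x) (pE P x p) (eE P x l) (kE P x true) (wE P x true)
        (tE P x false) (kap P x))
      (hG (xa P x) (P.d.eval x) (xv P x) (pE P x p) (eE P x l) (kE P x true) (wE P x true)
        (tE P x true) (kap P x)) -
      t * (1 - t) * ((tE P x true - tE P x false) ^ 2 *
        (1 / 10 / (xa P x + P.d.eval x) ^ 2) ^ 2) *
        coG6.eval (StripMid.base (xa P x) (P.d.eval x) (xv P x))) +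
      4 * sgn s * P.k2.2 * (1 + P.d.eval x * xv P x) * mix t
      (hT (xa P x) (P.d.eval x) (xv P x) (pE P x p) (eE P x l) (kE P x true) (wE P x true)
        (tE P x false) (kap P x))
      (hT (xa P x) (P.d.eval x) (xv P x) (pE P x p) (eE P x l) (kE P x true) (wE P x true)
        (tE P x true) (kap P x)) := by
    intro p l
    have := secant_pos (E.e2 s p l false) (E.e2 s p l true)
      (mul_nonpos_of_nonneg_of_nonpos hk hG6)
      (show (0 : ℝ) ≤ (tE P x true - tE P x false) ^ 2 *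
        (1 / 10 / (xa P x + P.d.eval x) ^ 2) ^ 2 by positivity) ht0 ht1
    unfold mix at *
    linarith
  have := secant_pos (secant_pos (hh false true) (hh false false) le_rfl le_rfl hq0 hq1)
    (secant_pos (hh true true) (hh true false) le_rfl le_rfl hq0 hq1) (g2 s)
    (show (0 : ℝ) ≤ (pE P x true - pE P x false) ^ 2 from sq_nonneg _) hr0 hr1
  unfold mix at *
  linarith

/-- `θ A ± k2 T`. -/
theorem inside_4 (hP : P.Pos2) (h : Place P x) (E : Ends P x) (W : Inside P x p e k w T)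
    (s : Bool) : 0 ≤ (P.θ.1 : ℝ) * P.k2.2 * hA (xa P x) (P.d.eval x) (xv P x) p e k w T (kap P x) +
      sgn s * P.θ.2 * P.k2.1 * hT (xa P x) (P.d.eval x) (xv P x) p e k w T (kap P x) := by
  obtain ⟨r, hr0, hr1, hp⟩ := W.mu
  have hw0 : mix r (wE P x false) (wE P x false) ≤ w := by unfold mix; linarith [W.w_low]
  have hw1 : w ≤ mix r (wE P x true) (wE P x true) := by unfold mix; linarith [W.w_high]
  obtain ⟨q, hq0, hq1, hq⟩ := exists_mix W.e_low W.e_high
  obtain ⟨t, ht0, ht1, ht⟩ := exists_mix W.t_low W.t_high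
  obtain ⟨-, g4, -, -⟩ := E.curve
  have hA7 := coef_A_e_le h.a.le h.d.le h.v.le
  have hq' := h.q
  have hd := h.d
  have hv := h.v
  have ha := h.a
  have hk : (0 : ℝ) ≤ P.θ.1 * P.k2.2 := by positivity
  rw [hA_kw (k' := kE P x true) (w' := mix r (wE P x true) (wE P x true)),
    hT_kw (k' := kE P x true) (w' := mix r (wE P x true) (wE P x true)),
    coef_A_k, coef_A_w]
  have s1 : 0 ≤ (P.θ.1 : ℝ) * P.k2.2 * ((kE P x true - k) *
      (256 * xv P x ^ 2 * (1 + P.d.eval x * xv P x) * (2 + P.d.eval x * xv P x))) :=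
    mul_nonneg hk (mul_nonneg (by linarith [W.k_high]) (by positivity))
  have s2 : 0 ≤ (P.θ.1 : ℝ) * P.k2.2 *
      ((mix r (wE P x true) (wE P x true) - w) * (128 * xv P x *
        (1 + P.d.eval x * xv P x) * (2 + P.d.eval x * xv P x) *
          (1 + P.d.eval x + 2 * xa P x))) :=
    mul_nonneg hk (mul_nonneg (by linarith) (by positivity))
  rw [hp, hA_p, hT_p, hq]
  simp only [hA_e, hT_e]
  rw [ht]
  simp only [hA_T, hT_T]
  have hh := fun p l =>
    mix_nonneg (E.e4 s p l false) (E.e4 s p l true) ht0 ht1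
  have he := fun p => secant_nonneg (hh p true) (hh p false)
    (mul_nonpos_of_nonneg_of_nonpos hk hA7)
    (show (0 : ℝ) ≤ (eE P x false - eE P x true) ^ 2 from sq_nonneg _) hq0 hq1
  have := secant_nonneg (he false) (he true) (g4 s)
    (show (0 : ℝ) ≤ (pE P x true - pE P x false) ^ 2 from sq_nonneg _) hr0 hr1
  unfold mix at *
  linarith

/-- `2 (1 - θ) A ± κ X`. -/
theorem inside_3 (hP : P.Pos2) (h : Place P x) (E : Ends P x) (W : Inside P x p e k w T)
    (s : Bool) :
    0 < 2 * ((P.θ.2 : ℝ) - P.θ.1) * P.kd.eval x *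
        hA (xa P x) (P.d.eval x) (xv P x) p e k w T (kap P x) +
      P.θ.2 * P.kn.eval x * (sgn s * hX (xa P x) (P.d.eval x) (xv P x) p e k w T (kap P x)) := by
  obtain ⟨r, hr0, hr1, hp⟩ := W.mu
  have hw0 : mix r (wE P x false) (wE P x false) ≤ w := by unfold mix; linarith [W.w_low]
  have hw1 : w ≤ mix r (wE P x true) (wE P x true) := by unfold mix; linarith [W.w_high]
  obtain ⟨q, hq0, hq1, hq⟩ := exists_mix W.e_low W.e_high
  obtain ⟨-, -, g3, -⟩ := E.curve
  have hA7 := coef_A_e_le h.a.le h.d.le h.v.le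
  have hd := h.d
  have hv := h.v
  have ha := h.a
  have hθ : (0 : ℝ) ≤ 2 * ((P.θ.2 : ℝ) - P.θ.1) * P.kd.eval x := by
    have : (P.θ.1 : ℝ) < P.θ.2 := by exact_mod_cast hP.θ
    exact mul_nonneg (by linarith) h.kd.le
  have hT : 0 ≤ (T - tE P x false) * (1 / 10 / (xa P x + P.d.eval x) ^ 2) * p *
      -(coA10.eval (StripMid.base (xa P x) (P.d.eval x) (xv P x))) :=
    mul_nonneg (mul_nonneg (mul_nonneg (sub_nonneg.2 W.t_low) (by positivity)) W.p_pos)
      (neg_nonneg.2 (coA10_le h.a.le h.d.le h.v.le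
        (by linarith [eval_A' (P := P) (x := x), h.I])))
  rw [hA_T_eq (T' := tE P x false), hX_indep (T' := tE P x false)]
  have hTθ := mul_nonneg hθ hT
  suffices 0 < 2 * ((P.θ.2 : ℝ) - P.θ.1) * P.kd.eval x *
      hA (xa P x) (P.d.eval x) (xv P x) p e k w (tE P x false) (kap P x) +
      P.θ.2 * P.kn.eval x *
        (sgn s * hX (xa P x) (P.d.eval x) (xv P x) p e k w (tE P x false) (kap P x)) by linarith
  obtain ⟨Q, hQ⟩ : ∃ Q, Q = -(32 * ((P.θ.2 : ℝ) - P.θ.1) * P.kd.eval x *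
      (1 + P.d.eval x * xv P x)) + sgn s * P.θ.2 * P.kn.eval x := ⟨_, rfl⟩
  have hit : ∀ b, (b = true ∨ s = true) →
      0 ≤ Q * ((k - kE P x b) * (xv P x ^ 2 * (2 + P.d.eval x * xv P x) * 16) +
        (w - mix r (wE P x b) (wE P x b)) *
          (xv P x * (2 + P.d.eval x * xv P x) * (1 + P.d.eval x + 2 * xa P x) * 8)) →
      0 < 2 * ((P.θ.2 : ℝ) - P.θ.1) * P.kd.eval x *
          hA (xa P x) (P.d.eval x) (xv P x) p e k w (tE P x false) (kap P x) +
        P.θ.2 * P.kn.eval x *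
          (sgn s * hX (xa P x) (P.d.eval x) (xv P x) p e k w (tE P x false) (kap P x)) := by
    intro b hb hs
    rw [hA_kw (k' := kE P x b) (w' := mix r (wE P x b) (wE P x b)),
      hX_kw (k' := kE P x b) (w' := mix r (wE P x b) (wE P x b)),
      coef_A_k, coef_A_w, coef_X_k, coef_X_w]
    rw [hQ] at hs
    rw [hp, hA_p, hX_p, hq]
    simp only [hA_e, hX_e]
    have hh := fun p l => E.e3 s b p l hb
    have he := fun p => secant_pos (hh p true) (hh p false)
      (mul_nonpos_of_nonneg_of_nonpos hθ hA7)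
      (show (0 : ℝ) ≤ (eE P x false - eE P x true) ^ 2 from sq_nonneg _) hq0 hq1
    have := secant_pos (he false) (he true) (mul_nonpos_of_nonneg_of_nonpos hθ g3)
      (show (0 : ℝ) ≤ (pE P x true - pE P x false) ^ 2 from sq_nonneg _) hr0 hr1
    unfold mix at *
    linarith
  rcases le_total Q 0 with hQ0 | hQ0
  · refine hit true (Or.inl rfl) (mul_nonneg_of_nonpos_of_nonpos hQ0 (add_nonpos ?_ ?_))
    · exact mul_nonpos_of_nonpos_of_nonneg (by linarith [W.k_high]) (by positivity)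
    · exact mul_nonpos_of_nonpos_of_nonneg (by linarith) (by positivity)
  · cases s
    · have h1 : Q ≤ 0 := by
        rw [hQ]
        have : 0 ≤ (P.θ.2 : ℝ) * P.kn.eval x := mul_nonneg (Nat.cast_nonneg _) h.kn
        have := mul_nonneg hθ h.q.le
        simp only [sgn, cond_false]
        linarith
      rw [show Q = 0 from le_antisymm h1 hQ0] at hit
      exact hit true (Or.inl rfl) (by simp)
    · refine hit false (Or.inr rfl) (mul_nonneg hQ0 (add_nonneg ?_ ?_))
      · exact mul_nonneg (by linarith [W.k_low]) (by positivity)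
      · exact mul_nonneg (by linarith) (by positivity)

/-- `MG`. -/
theorem inside_MG (hP : P.Pos2) (h : Place P x) (E : Ends P x) (W : Inside P x p e k w T) :
    0 ≤ hMG (xa P x) (P.d.eval x) (xv P x) p e k w T (kap P x) := by
  obtain ⟨r, hr0, hr1, hp⟩ := W.mu
  have hw0 : mix r (wE P x false) (wE P x false) ≤ w := by unfold mix; linarith [W.w_low]
  have hw1 : w ≤ mix r (wE P x true) (wE P x true) := by unfold mix; linarith [W.w_high]
  obtain ⟨q, hq0, hq1, hq⟩ := exists_mix W.e_low W.e_high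
  obtain ⟨t, ht0, ht1, ht⟩ := exists_mix W.t_low W.t_high
  obtain ⟨-, -, -, g⟩ := E.curve
  have hM7 := coef_MG_e_le (a := xa P x) h.d.le h.v.le
  have hd := h.d
  have hv := h.v
  have hI := h.I
  rw [hMG_kw (k' := kE P x true) (w' := mix r (wE P x false) (wE P x false)),
    coef_MG_k, coef_MG_w,
    show 1 - P.d.eval x - 2 * xa P x = 2 * P.I.eval x by linarith [eval_A' (P := P) (x := x)]]
  refine add_nonneg (add_nonneg ?_ ?_) ?_
  · rw [hp, hMG_p, hq]
    simp only [hMG_e]
    rw [ht]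
    simp only [hMG_T]
    have hh := fun p l =>
      mix_nonneg (E.eMG p l false) (E.eMG p l true) ht0 ht1
    exact secant_nonneg
      (secant_nonneg (hh false true) (hh false false) hM7 (sq_nonneg _) hq0 hq1)
      (secant_nonneg (hh true true) (hh true false) hM7 (sq_nonneg _) hq0 hq1) g (sq_nonneg _)
      hr0 hr1
  · exact mul_nonneg_of_nonpos_of_nonpos (by linarith [W.k_high])
      (neg_nonpos.2 (by positivity))
  · exact mul_nonneg (by linarith) (by positivity)

/-- The arrow from the four conditions. -/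
theorem arrow_end {q A M G T X kn kd : ℝ} {k θ : ℕ × ℕ} (hk : 0 < k.1 ∧ 0 < k.2)
    (hθ : θ.1 < θ.2) (hq : 0 < q) (hM : 0 < M) (hkd : 0 < kd)
    (h1 : ∀ s, 0 ≤ kn * M + kd * (sgn s * X))
    (h2 : ∀ s, 0 < k.1 * G + 4 * sgn s * k.2 * q * T)
    (h3 : ∀ s, 0 < 2 * ((θ.2 : ℝ) - θ.1) * kd * A + θ.2 * kn * (sgn s * X))
    (h4 : ∀ s, 0 ≤ (θ.1 : ℝ) * k.2 * A + sgn s * θ.2 * k.1 * T) :
    0 < G ∧ 0 < 2 * A * M * G - 8 * q * T ^ 2 * M - X ^ 2 * G := by
  have k1 : (0 : ℝ) < k.1 := by exact_mod_cast hk.1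
  have k2 : (0 : ℝ) < k.2 := by exact_mod_cast hk.2
  have t2 : (0 : ℝ) < θ.2 := by exact_mod_cast (Nat.zero_le _).trans_lt hθ
  have a1 := h1 false; have b1 := h1 true
  have a2 := h2 false; have b2 := h2 true
  have a3 := h3 false; have b3 := h3 true
  have a4 := h4 false; have b4 := h4 true
  simp only [sgn, cond_true, cond_false] at a1 b1 a2 b2 a3 b3 a4 b4
  have hG : 0 < G := pos_of_mul_pos_right (show 0 < (k.1 : ℝ) * G by linarith) k1.le
  refine ⟨hG, ?_⟩
  have e1 : kd * |X| ≤ kn * M := by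
    rcases abs_cases X with ⟨e, -⟩ | ⟨e, -⟩ <;> rw [e] <;> linarith
  have e2 : 4 * k.2 * q * |T| ≤ k.1 * G := by
    rcases abs_cases T with ⟨e, -⟩ | ⟨e, -⟩ <;> rw [e] <;> linarith
  have e3 : θ.2 * kn * |X| < 2 * ((θ.2 : ℝ) - θ.1) * kd * A := by
    rcases abs_cases X with ⟨e, -⟩ | ⟨e, -⟩ <;> rw [e] <;> linarith
  have e4 : θ.2 * k.1 * |T| ≤ θ.1 * k.2 * A := by
    rcases abs_cases T with ⟨e, -⟩ | ⟨e, -⟩ <;> rw [e] <;> linarith
  have hT2 : 4 * q * θ.2 * T ^ 2 ≤ θ.1 * A * G := by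
    have := mul_le_mul e2 e4 (by positivity) (by positivity)
    refine le_of_mul_le_mul_left ?_ (mul_pos k1 k2)
    rw [← sq_abs T]
    linarith
  have hX2 : (θ.2 : ℝ) * X ^ 2 < 2 * ((θ.2 : ℝ) - θ.1) * M * A := by
    refine lt_of_mul_lt_mul_left ?_ hkd.le
    rw [← sq_abs X]
    have f1 := mul_le_mul_of_nonneg_left e1 (mul_nonneg t2.le (abs_nonneg X))
    have f2 := mul_lt_mul_of_pos_left e3 hM
    linarith
  refine pos_of_mul_pos_right ?_ t2.le
  linarith [mul_le_mul_of_nonneg_left hT2 hM.le, mul_lt_mul_of_pos_left hX2 hG]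

end Vale.Agent.P100.Calib.StripEnd
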