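import Vale.Agent.P100.Calib.SlabStripUpBand
import Vale.Agent.P100.Calib.SlabAllEndExit

/-!
# The upper exit band of the strip from `u = 9/20` on

`H (b - a u (1 + d v)) <= 1 - a v - (1 - u) G / 20`,
`G = 20 S v (1 + d v) - (14 + 6 u) (1 - a v) (I - S d v / 2)`, on orbits, for real `N >= 20` and
`31/100 < a`. It is an exit barrier up to `u = 1`; below `u = 111/125` its sign uses the band
`stripUp`.
-/

open Set Filter Topology

namespace Vale.Agent.P100.Calib.Band

open Vale.Agent.P100.Bubble Chart

/-- Twenty times the coefficient of the band. -/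
noncomputable def stripTopG (a b u v : ℝ) : ℝ :=
  20 * ((a + b) * (v * (1 + (b - a) * v))) -
    (14 + 6 * u) * ((1 - a * v) * (allStabI a b - (a + b) * ((b - a) * v) / 2))

/-- Minus its derivative in `u`. -/
noncomputable def stripTopGu (a b v : ℝ) : ℝ :=
  6 * ((1 - a * v) * (allStabI a b - (a + b) * ((b - a) * v) / 2))

/-- Its derivative in `v`. -/
noncomputable def stripTopGv (a b u v : ℝ) : ℝ :=
  20 * ((a + b) * (1 + 2 * ((b - a) * v))) + (7 + 3 * u) *
    (2 * (a * (allStabI a b - (a + b) * ((b - a) * v) / 2)) + (1 - a * v) * ((a + b) * (b - a)))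

/-- **The band function.** -/
noncomputable def stripTop (a b u v H : ℝ) : ℝ :=
  1 - a * v - H * (b - a * ((1 + (b - a) * v) * u)) - (1 - u) * stripTopG a b u v / 20

theorem hasGrad_stripTop (a b : ℝ) :
    HasGrad (fun u v H => stripTop a b u v H)
      (fun u v H =>
        a * (1 + (b - a) * v) * H + (stripTopG a b u v + (1 - u) * stripTopGu a b v) / 20)
      (fun u v H => a * u * (b - a) * H - a - (1 - u) * stripTopGv a b u v / 20)
      (fun u v _ => -(b - a * ((1 + (b - a) * v) * u))) := by
  intro u v H du dv dh t hu hv hh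
  have h1 := ((((hv.const_mul (b - a)).const_add 1).fun_mul hu).const_mul a).const_sub b
  have hKI := ((hv.const_mul a).const_sub 1).fun_mul
    ((((hv.const_mul (b - a)).const_mul (a + b)).div_const 2).const_sub (allStabI a b))
  have h2 : HasDerivAt (fun s => stripTopG a b (u s) (v s))
      (-stripTopGu a b (v t) * du + stripTopGv a b (u t) (v t) * dv) t := by
    refine (((hv.fun_mul ((hv.const_mul (b - a)).const_add 1)).const_mul (a + b)).const_mul
      20 |>.fun_sub (((hu.const_mul 6).const_add 14).fun_mul hKI)).congr_deriv ?_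
    simp only [stripTopGu, stripTopGv]
    ring
  refine ((((hv.const_mul a).const_sub 1).fun_sub (hh.fun_mul h1)).fun_sub
    (((hu.const_sub 1).fun_mul h2).div_const 20)).congr_deriv ?_
  ring

/-- A quadratic is positive where it and its slope say so. -/
theorem strip_quad_pos {c₀ c₁ c₂ y z H : ℝ} (hz : z ≤ H) (hy : H < y)
    (hT : 0 < c₂ * z ^ 2 + c₁ * z + c₀) (hy' : 0 ≤ 2 * c₂ * y + c₁)
    (hz' : 0 ≤ 2 * c₂ * z + c₁) : 0 < c₂ * H ^ 2 + c₁ * H + c₀ := by
  have e1 : (y - z) * (2 * c₂ * H + c₁) =
      (H - z) * (2 * c₂ * y + c₁) + (y - H) * (2 * c₂ * z + c₁) := by ring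
  have h1 : 0 ≤ 2 * c₂ * H + c₁ := by
    refine nonneg_of_mul_nonneg_right ?_ (show 0 < y - z by linarith)
    rw [e1]
    exact add_nonneg (mul_nonneg (by linarith) hy') (mul_nonneg (by linarith) hz')
  have h2 := mul_nonneg (show 0 ≤ H - z by linarith) (add_nonneg h1 hz')
  linarith

/-- The sign of the exit condition. -/
theorem strip_top_sign {a b u v H : ℝ} (hP : StripPlace a b u v) (hH1 : (b - a) * H < 1)
    (hu4 : 11 / 25 < u) (hup : u ≤ 111 / 125 → H < stripUp a b u v)
    (hF : stripTop a b u v H ≤ 0) :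
    allDot a b u v H
      (a * (1 + (b - a) * v) * H + (stripTopG a b u v + (1 - u) * stripTopGu a b v) / 20)
      (a * u * (b - a) * H - a - (1 - u) * stripTopGv a b u v / 20)
      (-(b - a * ((1 + (b - a) * v) * u))) < 0 := by
  have hc := AllLow.strip_up_conds hP
  obtain ⟨e1, -, -⟩ := stripUp_eq (a := a) (b := b) (v := v) hP.u_lt.le
  rw [e1] at hup
  obtain ⟨hI0, hI20, ha, hd, hu, hu1, hv, hav, hlo, hhi⟩ := hP
  set p := stripAt a b u v with hp
  have hK : 0 < 1 - a * v := by linarith
  have hw : 0 < 1 - u := by linarith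
  have hS0 : 0 < a + b := by linarith
  have hPp : 0 < p.P := by
    have e : p.P = (1 - u) * b + u * ((b - a) * (1 - a * v)) := by
      simp only [hp, stripAt, StripAtoms.P, StripAtoms.qu, StripAtoms.q, StripAtoms.u]
      ring
    rw [e]
    exact add_pos (mul_pos hw (by linarith)) (by positivity)
  have hW : 0 < p.upW := by
    simp only [hp, stripAt, StripAtoms.upW, StripAtoms.u]
    linarith [mul_le_mul_of_nonneg_right hu1.le (show 0 ≤ a by linarith)]
  have eF : 20 * stripTop a b u v H = p.upM - 20 * p.P * H := by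
    simp only [hp, stripAt, StripAtoms.P, StripAtoms.upM, StripAtoms.upG, StripAtoms.upKI,
      StripAtoms.qu, StripAtoms.q, StripAtoms.u, stripTop, stripTopG]
    ring
  have eT : -100 * allDot a b u v H
      (a * (1 + (b - a) * v) * H + (stripTopG a b u v + (1 - u) * stripTopGu a b v) / 20)
      (a * u * (b - a) * H - a - (1 - u) * stripTopGv a b u v / 20)
      (-(b - a * ((1 + (b - a) * v) * u))) = p.upC2 * H ^ 2 + p.upC1 * H + p.upC0 := by
    simp only [hp, stripAt, StripAtoms.upC2, StripAtoms.upC1, StripAtoms.upC0, StripAtoms.A0,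
      StripAtoms.A1, StripAtoms.upFV, StripAtoms.upFU, StripAtoms.upGv, StripAtoms.upGu,
      StripAtoms.upG, StripAtoms.upKI, StripAtoms.P, StripAtoms.N, StripAtoms.f0, StripAtoms.E0,
      StripAtoms.e1, StripAtoms.qn, StripAtoms.D0, StripAtoms.qu, StripAtoms.q, StripAtoms.ud,
      StripAtoms.u, allDot, allEn, allFh, allFlow, allQn, allDen, stripTopG, stripTopGu,
      stripTopGv]
    ring
  have hM : p.upM ≤ H * (20 * p.P) := by linarith
  have hA : 0 < p.upA := by
    rcases lt_or_ge (111 / 125) u with h8 | h8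
    · exact hc.last h8
    · have hn := hup h8
      rw [lt_div_iff₀ hW] at hn
      have hg : 0 < p.upGap := by
        have h1 := mul_le_mul_of_nonneg_right hM hW.le
        have h2 := mul_lt_mul_of_pos_right hn (show 0 < 20 * p.P by positivity)
        simp only [StripAtoms.upGap]
        linarith
      have hT : 0 < p.T := div_pos (by simp only [hp, stripAt]; linarith) hI0
      have h3 : 0 ≤ (888 - 1000 * u) * ((93 + 340 * (b - a)) *
          ((1 - u) * (p.P * ((1 - a * v) * (p.T * p.upGap))))) := by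
        have : 0 ≤ 888 - 1000 * u := by linarith
        positivity
      have h4 := hc.mid hu4 h8
      have e : p.upAm = 5000 * p.upA - (888 - 1000 * u) * ((93 + 340 * (b - a)) *
          ((1 - u) * (p.P * ((1 - a * v) * (p.T * p.upGap))))) := by
        simp only [StripAtoms.upAm, show p.u = u by simp [hp, stripAt, StripAtoms.u],
          show p.d = b - a from rfl, show p.w = 1 - u from rfl, show p.K = 1 - a * v from rfl]
      linarith
  have hd1 : H < 1 / (b - a) := by
    rw [lt_div_iff₀ hd]
    linarith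
  have key : 0 < p.upC2 * H ^ 2 + p.upC1 * H + p.upC0 := by
    have hB := hc.slope hu4
    have hC := hc.top hu4
    simp only [← hp, StripAtoms.upA, StripAtoms.upB, StripAtoms.upC,
      show p.d = b - a from rfl] at hA hB hC
    refine strip_quad_pos (z := p.upM / (20 * p.P)) ?_ hd1 ?_ ?_ ?_
    · rw [div_le_iff₀ (by positivity)]
      linarith
    · refine pos_of_mul_pos_left (b := 400 * p.P ^ 2) ?_ (by positivity)
      field_simp
      linarith
    · refine nonneg_of_mul_nonneg_left (b := b - a) ?_ hd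
      field_simp
      linarith
    · refine nonneg_of_mul_nonneg_left (b := 20 * p.P) ?_ (by positivity)
      field_simp
      linarith
  linarith

/-- The band function is bounded below by a multiple of `1 - u`. -/
theorem strip_top_bound {a b u v H : ℝ} (hP : StripPlace a b u v) (hH : 0 < H)
    (hH1 : (b - a) * H < 1) : -((1 - u) * (1 / (b - a) + 7)) ≤ stripTop a b u v H := by
  obtain ⟨hI0, hI20, ha, hd, hu, hu1, hv, hav, hlo, hhi⟩ := hP
  have hK : 0 < 1 - a * v := by linarith
  have hb1 : b ≤ 1 := by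
    simp only [allStabI] at hI0
    linarith
  have hb : 0 < b := by linarith
  have h1 : H * b ≤ 1 / (b - a) := by
    rw [le_div_iff₀ hd]
    have := mul_le_mul hH1.le hb1 hb.le zero_le_one
    linarith
  have h2 : stripTopG a b u v / 20 ≤ 7 := by
    have hv4 : v ≤ 100 / 31 := by
      linarith [mul_le_mul_of_nonneg_right ha.le hv.le]
    have hs : a + b ≤ 1 := by
      simp only [allStabI] at hI0
      linarith
    have hS0 : 0 < a + b := by linarith
    have hIT : 0 ≤ allStabI a b - (a + b) * ((b - a) * v) / 2 := by linarith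
    have hG : 0 ≤ (14 + 6 * u) *
        ((1 - a * v) * (allStabI a b - (a + b) * ((b - a) * v) / 2)) := by positivity
    have hq : 1 + (b - a) * v ≤ 2 := by
      have : (a + b) * ((b - a) * v) < (a + b) * 1 := by linarith
      linarith [lt_of_mul_lt_mul_left this hS0.le]
    have h3 : (a + b) * (v * (1 + (b - a) * v)) ≤ 1 * (100 / 31 * 2) :=
      mul_le_mul hs (mul_le_mul hv4 hq (by positivity) (by norm_num)) (by positivity) zero_le_one
    simp only [stripTopG]
    linarith
  have h4 := mul_le_mul_of_nonneg_left (add_le_add h1 h2) (show 0 ≤ 1 - u by linarith)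
  have h5 : 0 ≤ (1 - a * v) * (1 - u * ((b - a) * H)) := by
    refine mul_nonneg hK.le ?_
    linarith [mul_le_of_le_one_left (mul_pos hd hH).le hu1.le]
  simp only [stripTop]
  linarith

variable {N p q : ℝ} {S : Set ℝ} {R x y s dx dy : ℝ → ℝ}

/-- **The upper exit band of the strip from `u = 9/20` on** for real `N ≥ 20` and
`31/100 < 1/(p+1)`. -/
theorem orbit_strip_top_all (hf : IsOrbitFns N p q S R x y s dx dy)
    (hb : SlabBoxAll N (1 / (p + 1)) (1 / (q + 1))) (h20 : 20 ≤ N) (ha : 31 / 100 < 1 / (p + 1))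
    {w : ℝ} (hw : w ∈ S) (hw0 : 0 < R w) (hwu : 9 / 20 ≤ uOf N (R w) (x w)) :
    0 ≤ stripTop (1 / (p + 1)) (1 / (q + 1)) (uOf N (R w) (x w))
      (vOf (1 / (p + 1)) (1 / (q + 1)) (y w / x w))
      (hOf N (R w) (x w) (y w) w / (1 / (q + 1) - 1 / (p + 1))) := by
  have hd := hb.facts.2.2.1
  have hM : 0 < 1 / (1 / (q + 1) - 1 / (p + 1)) + 7 := by positivity
  refine exit_end_all hf hb (u₀ := 9 / 20) (η := 1 / 100)
    (M := 1 / (1 / (q + 1) - 1 / (p + 1)) + 7) (by norm_num) hM.le (hasGrad_stripTop _ _)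
    (fun u v H => u ≤ 111 / 125 → H < stripUp (1 / (p + 1)) (1 / (q + 1)) u v)
    (fun z hz hz0 hzu => orbit_strip_up_all hf hb h20 ha hz hz0 hzu)
    (fun u v H hP _ _ => ?_)
    (fun ε hε => ⟨ε / (1 / (1 / (q + 1) - 1 / (p + 1)) + 7), div_pos hε hM,
      fun u v H hP _ hu _ => ?_⟩)
    (fun u v H hP _ hu hE hF => ?_) hw hw0 hwu
  · have h1 := strip_top_bound (stripPlace_of hb h20 ha hP.u_pos hP.u_lt hP.toVRange)
      hP.H_pos hP.H_lt
    have h2 := mul_lt_mul_of_pos_right (show 1 - u < 1 by linarith [hP.u_pos]) hM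
    linarith
  · have h1 := strip_top_bound (stripPlace_of hb h20 ha hP.u_pos hP.u_lt hP.toVRange)
      hP.H_pos hP.H_lt
    have h2 : (1 - u) * (1 / (1 / (q + 1) - 1 / (p + 1)) + 7) < ε := by
      rw [← lt_div_iff₀ hM]
      linarith
    linarith
  · exact strip_top_sign (stripPlace_of hb h20 ha hP.u_pos hP.u_lt hP.toVRange) hP.H_lt
      (by linarith) hE hF

end Vale.Agent.P100.Calib.Band
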