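import Vale.Agent.P100.Calib.SlabStripEndPlace
import Vale.Agent.P100.Calib.SlabStripUpExit
import Vale.Agent.P100.Calib.SlabMainOrbit

/-!
# The signs of the strip along orbits for `u > 4/5`, from those of the charts
-/

set_option linter.unusedVariables false

open Set

namespace Vale.Agent.P100.Calib.StripEnd

open Pack Band Bubble Chart StripMid

/-- The signs at a point of a chart. -/
def EndSigns (n : ℕ) : Prop :=
  ∀ a b u v t H : ℝ, Closed.All.ChartBox n (b - a) (a + b) →
    Closed.All.ChartFacts (b - a) (a + b) u v t → Closed.chH (b - a) (a + b) u v t = H →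
    EndBands a b u v H → allStabI a b ≤ 1 / 20 → 4 / 5 < u → EndPlace a b u v H →
    Closed.Strip.ChartSigns (b - a) (a + b) u v t

/-- **The signs of the strip on `4/5 < u`**, from those of the charts. -/
theorem orbit_signs_strip_end {n : ℕ} (hn : 20 ≤ n) (hS : EndSigns n) :
    OrbitSignsStrip n (fun r u => 0 < r ∧ 4 / 5 < u) := by
  intro N p q R₀ R x y s dx dy hc hf hb hcb ha z hz hκ hZ
  obtain ⟨hR, hu⟩ := hZ
  have hn' : (20 : ℝ) ≤ n := by exact_mod_cast hn
  have hlo := hcb.dim_low
  rw [← hb.dim_eq] at hlo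
  have h20 : 20 ≤ N := by linarith
  have hd := hb.facts.2.2.1
  have hP := (orbit_point_all hf hb hz hR).1
  obtain ⟨-, eH⟩ := slopeAt_eq_all hc hf hb hz hR.ne'
  have hI : allStabI (1 / (p + 1)) (1 / (q + 1)) ≤ 1 / 20 := by
    have e := hb.dim
    simp only [allStabI]
    refine le_of_mul_le_mul_left (a := N) ?_ (by linarith)
    linarith
  have hB : EndBands (1 / (p + 1)) (1 / (q + 1)) (uOf N (R z) (x z))
      (vOf (1 / (p + 1)) (1 / (q + 1)) (y z / x z))
      (hOf N (R z) (x z) (y z) z / (1 / (q + 1) - 1 / (p + 1))) :=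
    ⟨tubePlace_of hb (by linarith) ha hP.u_pos hP.u_lt hP.toVRange,
      orbit_strip_low_all hf hb h20 ha hz hR,
      orbit_strip_top_all hf hb h20 ha hz hR (by linarith),
      orbit_strip_tube hf hb (by linarith) ha hz hR (by linarith),
      hP.flow_pos, hP.den_pos, hP.H_pos⟩
  refine hS _ _ _ _ _ _ hcb (chartFacts_orbit_all hc hf hb hz hR) ?_ hB hI hu
    (end_place hB hI hu)
  rw [eq_div_iff hd.ne']
  linarith

end Vale.Agent.P100.Calib.StripEnd
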