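import Vale.Agent.P100.Calib.SlabStripEndCertSmall

/-!
# The pieces over the charts `C` for `N` at least twenty

In a piece `d = 24 x₀`, `I = d x₁`, `den` is a linear form plus `x₂`, `o = I` and `x₃` is the ratio
`(w + I + d/2) / den`.
-/

namespace Vale.Agent.P100.Calib.StripEnd

open Pack hiding ev_add ev_mul
open Pack.Ex StripMid

local instance pieceCAdd : Add Ex := ⟨Ex.add⟩
local instance pieceCSub : Sub Ex := ⟨Ex.sub⟩
local instance pieceCMul : Mul Ex := ⟨Ex.mul⟩

/-- The piece `C00`: L, `g` in (47/100, 3/5], `d` in (0, 1/12]. -/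
def pcC00 : Piece where
  I := (num 24 * var 0 * var 1)
  d := (num 24 * var 0)
  w := (var 2 * var 3 + num (-12) * var 0 + num 86 * var 0 * var 3 + num (-24) * var 0 * var 1
       + num 40 * var 0 * var 1 * var 3)
  o := (num 24 * var 0 * var 1)
  den := (var 2 + num 86 * var 0 + num 40 * var 0 * var 1)
  mu := ⟨(149, 100), (228, 100)⟩
  pn := fun b => cond b
    (num 10000 * var 2 + num 860000 * var 0 + num 160000 * var 0 * var 1
       + num (-328320) * var 0 * var 1 * var 2 + num (-21669120) * pow (var 0) 2 * var 1)
    (num 10000 * var 2 + num 860000 * var 0 + num 160000 * var 0 * var 1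
       + num (-168072) * var 0 * var 1 * var 2 + num (-10162992) * pow (var 0) 2 * var 1
       + num 1859520 * pow (var 0) 2 * pow (var 1) 2)
  pd := (num 10000)
  en := fun b => cond b
    (num 4620600 * var 2 + num 304959600 * var 0 + num 2217888000 * var 0 * var 2
       + num 146380608000 * pow (var 0) 2 + num 17743104000 * pow (var 0) 2 * var 1
       + num 1277503488000 * pow (var 0) 3 * pow (var 1) 3)
    (num 2500635 * var 2 + num 151208610 * var 0 + num 1200304800 * var 0 * var 2
       + num (-27666600) * var 0 * var 1 + num 72580132800 * pow (var 0) 2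
       + num (-1021536000) * pow (var 0) 2 * var 1 + num 882607104000 * pow (var 0) 3 * pow (var 1) 3)
  kk := fun b => cond b
    (num 223171200 * var 0 * var 2 + num 14729299200 * pow (var 0) 2
       + num 16068326400 * pow (var 0) 2 * pow (var 1) 2 * var 2
       + num 1060509542400 * pow (var 0) 3 * pow (var 1) 2)
    (num 63145440 * var 0 * var 2 + num 3818283840 * pow (var 0) 2
       + num (-698630400) * pow (var 0) 2 * var 1 + num 4546471680 * pow (var 0) 2 * pow (var 1) 2 * var 2
       + num 274916436480 * pow (var 0) 3 * pow (var 1) 2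
       + num (-50301388800) * pow (var 0) 3 * pow (var 1) 3)
  f0 := (num 48000000 * var 0 + num 3456000000 * pow (var 0) 2 * pow (var 1) 2)
  wn := fun b => cond b
    (num (-13437600) * var 0 * var 1 * var 2 + num (-1270833600) * pow (var 0) 2 * var 1
       + num (-307161600) * pow (var 0) 2 * pow (var 1) 2)
    (num (-20613600) * var 0 * var 1 * var 2 + num (-1887969600) * pow (var 0) 2 * var 1
       + num (-451929600) * pow (var 0) 2 * pow (var 1) 2)
  wd := (num 100000 * var 2 + num 8600000 * var 0 + num 4000000 * var 0 * var 1)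
  tn := fun b => cond b
    (num 166944 * pow (var 2) 2 + num 38162688 * var 0 * var 2 + num (-1847040) * var 0 * var 1 * var 2
       + num 1791529344 * pow (var 0) 2 + num (-121904640) * pow (var 0) 2 * var 1)
    (num 140859 * pow (var 2) 2 + num 29082888 * var 0 * var 2 + num (-1558440) * var 0 * var 1 * var 2
       + num 1243551204 * pow (var 0) 2 + num (-227532240) * pow (var 0) 2 * var 1)
  td := (num 141000 * pow (var 2) 2 + num 43512000 * var 0 * var 2 + num 3384000 * var 0 * pow (var 2) 2
       + num (-1560000) * var 0 * var 1 * var 2 + num (-6768000) * var 0 * var 1 * pow (var 2) 2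
       + num 3347196000 * pow (var 0) 2 + num 1044288000 * pow (var 0) 2 * var 2
       + num (-227760000) * pow (var 0) 2 * var 1 + num (-2126016000) * pow (var 0) 2 * var 1 * var 2
       + num 74880000 * pow (var 0) 2 * pow (var 1) 2 * var 2 + num 80332704000 * pow (var 0) 3
       + num (-166131648000) * pow (var 0) 3 * var 1 + num 10932480000 * pow (var 0) 3 * pow (var 1) 2)
  cn := (num 1 + num (-1) * var 1 + num (-24) * var 0 * var 1 + num 48 * var 0 * pow (var 1) 2)
  cd := (num 1 + num (-96) * var 0 * var 1 + num 2304 * pow (var 0) 2 * pow (var 1) 2)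
  kn := (num 288 * var 0 * var 1)
  kd := (var 2 + num 110 * var 0 + num 40 * var 0 * var 1)
  k2 := (6, 5)
  θ := (7, 11)

/-- Its ranges. -/
def bxC00 : EBox :=
  ⟨(0, 1, 288), (0, 53, 50), (0, 213, 1250), (47, 60, 100)⟩

/-- The piece `C01`: L, `g` in (47/100, 3/5], `d` in (0, 1/12]. -/
def pcC01 : Piece where
  I := (num 24 * var 0 * var 1)
  d := (num 24 * var 0)
  w := (var 2 * var 3 + num (-12) * var 0 + num 86 * var 0 * var 3 + num (-24) * var 0 * var 1
       + num 40 * var 0 * var 1 * var 3)
  o := (num 24 * var 0 * var 1)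
  den := (var 2 + num 86 * var 0 + num 40 * var 0 * var 1)
  mu := ⟨(149, 100), (228, 100)⟩
  pn := fun b => cond b
    (num 10000 * var 2 + num 860000 * var 0 + num 160000 * var 0 * var 1
       + num (-328320) * var 0 * var 1 * var 2 + num (-21669120) * pow (var 0) 2 * var 1)
    (num 10000 * var 2 + num 860000 * var 0 + num 160000 * var 0 * var 1
       + num (-168072) * var 0 * var 1 * var 2 + num (-10162992) * pow (var 0) 2 * var 1
       + num 1859520 * pow (var 0) 2 * pow (var 1) 2)
  pd := (num 10000)
  en := fun b => cond b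
    (num 4596600 * var 2 + num 303375600 * var 0 + num 2206368000 * var 0 * var 2
       + num 145620288000 * pow (var 0) 2 + num 17650944000 * pow (var 0) 2 * var 1
       + num 1270867968000 * pow (var 0) 3 * pow (var 1) 3)
    (num 2500635 * var 2 + num 151208610 * var 0 + num 1200304800 * var 0 * var 2
       + num (-27666600) * var 0 * var 1 + num 72580132800 * pow (var 0) 2
       + num (-1021536000) * pow (var 0) 2 * var 1 + num 882607104000 * pow (var 0) 3 * pow (var 1) 3)
  kk := fun b => cond b
    (num 221385600 * var 0 * var 2 + num 14611449600 * pow (var 0) 2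
       + num 15939763200 * pow (var 0) 2 * pow (var 1) 2 * var 2
       + num 1052024371200 * pow (var 0) 3 * pow (var 1) 2)
    (num 63145440 * var 0 * var 2 + num 3818283840 * pow (var 0) 2
       + num (-698630400) * pow (var 0) 2 * var 1 + num 4546471680 * pow (var 0) 2 * pow (var 1) 2 * var 2
       + num 274916436480 * pow (var 0) 3 * pow (var 1) 2
       + num (-50301388800) * pow (var 0) 3 * pow (var 1) 3)
  f0 := (num 48000000 * var 0 + num 3456000000 * pow (var 0) 2 * pow (var 1) 2)
  wn := fun b => cond b
    (num (-14222400) * var 0 * var 1 * var 2 + num (-1338326400) * pow (var 0) 2 * var 1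
       + num (-319718400) * pow (var 0) 2 * pow (var 1) 2)
    (num (-23169600) * var 0 * var 1 * var 2 + num (-2107785600) * pow (var 0) 2 * var 1
       + num (-492825600) * pow (var 0) 2 * pow (var 1) 2)
  wd := (num 100000 * var 2 + num 8600000 * var 0 + num 4000000 * var 0 * var 1)
  tn := fun b => cond b
    (num 162291 * pow (var 2) 2 + num 37099032 * var 0 * var 2 + num (-1795560) * var 0 * var 1 * var 2
       + num 1741596516 * pow (var 0) 2 + num (-118506960) * pow (var 0) 2 * var 1)
    (num 140859 * pow (var 2) 2 + num 29082888 * var 0 * var 2 + num (-1558440) * var 0 * var 1 * var 2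
       + num 1243551204 * pow (var 0) 2 + num (-227532240) * pow (var 0) 2 * var 1)
  td := (num 141000 * pow (var 2) 2 + num 43512000 * var 0 * var 2 + num 3384000 * var 0 * pow (var 2) 2
       + num (-1560000) * var 0 * var 1 * var 2 + num (-6768000) * var 0 * var 1 * pow (var 2) 2
       + num 3347196000 * pow (var 0) 2 + num 1044288000 * pow (var 0) 2 * var 2
       + num (-227760000) * pow (var 0) 2 * var 1 + num (-2126016000) * pow (var 0) 2 * var 1 * var 2
       + num 74880000 * pow (var 0) 2 * pow (var 1) 2 * var 2 + num 80332704000 * pow (var 0) 3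
       + num (-166131648000) * pow (var 0) 3 * var 1 + num 10932480000 * pow (var 0) 3 * pow (var 1) 2)
  cn := (num 1 + num (-1) * var 1 + num (-24) * var 0 * var 1 + num 48 * var 0 * pow (var 1) 2)
  cd := (num 1 + num (-96) * var 0 * var 1 + num 2304 * pow (var 0) 2 * pow (var 1) 2)
  kn := (num 312 * var 0 * var 1)
  kd := (var 2 + num 86 * var 0 + num 40 * var 0 * var 1)
  k2 := (9, 5)
  θ := (4, 15)

/-- Its ranges. -/
def bxC01 : EBox :=
  ⟨(0, 1, 288), (0, 53, 50), (426, 1065, 2500), (47, 60, 100)⟩

/-- The piece `C02`: L, `g` in (3/5, 3/4], `d` in (0, 1/12]. -/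
def pcC02 : Piece where
  I := (num 24 * var 0 * var 1)
  d := (num 24 * var 0)
  w := (var 2 * var 3 + num (-12) * var 0 + num 69 * var 0 * var 3 + num (-24) * var 0 * var 1
       + num 32 * var 0 * var 1 * var 3)
  o := (num 24 * var 0 * var 1)
  den := (var 2 + num 69 * var 0 + num 32 * var 0 * var 1)
  mu := ⟨(149, 100), (228, 100)⟩
  pn := fun b => cond b
    (num 2000 * var 2 + num 138000 * var 0 + num 16000 * var 0 * var 1
       + num (-82080) * var 0 * var 1 * var 2 + num (-4350240) * pow (var 0) 2 * var 1)
    (num 2000 * var 2 + num 138000 * var 0 + num 16000 * var 0 * var 1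
       + num (-42912) * var 0 * var 1 * var 2 + num (-2102688) * pow (var 0) 2 * var 1
       + num 343296 * pow (var 0) 2 * pow (var 1) 2)
  pd := (num 2000)
  en := fun b => cond b
    (num 231615 * var 2 + num 12275595 * var 0 + num 111175200 * var 0 * var 2
       + num 5892285600 * pow (var 0) 2 + num 711521280 * pow (var 0) 2 * var 1
       + num 51229532160 * pow (var 0) 3 * pow (var 1) 3)
    (num 127692 * var 2 + num 6256908 * var 0 + num 61292160 * var 0 * var 2
       + num (-1021536) * var 0 * var 1 + num 3003315840 * pow (var 0) 2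
       + num 35304284160 * pow (var 0) 3 * pow (var 1) 3)
  kk := fun b => cond b
    (num 11217600 * var 0 * var 2 + num 594532800 * pow (var 0) 2
       + num 807667200 * pow (var 0) 2 * pow (var 1) 2 * var 2
       + num 42806361600 * pow (var 0) 3 * pow (var 1) 2)
    (num 3224448 * var 0 * var 2 + num 157997952 * pow (var 0) 2 + num (-25795584) * pow (var 0) 2 * var 1
       + num 232160256 * pow (var 0) 2 * pow (var 1) 2 * var 2
       + num 11375852544 * pow (var 0) 3 * pow (var 1) 2 + num (-1857282048) * pow (var 0) 3 * pow (var 1) 3)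
  f0 := (num 1920000 * var 0 + num 138240000 * pow (var 0) 2 * pow (var 1) 2)
  wn := fun b => cond b
    (num (-2399520) * var 0 * var 1 * var 2 + num (-188606880) * pow (var 0) 2 * var 1
       + num (-30716160) * pow (var 0) 2 * pow (var 1) 2)
    (num (-3911520) * var 0 * var 1 * var 2 + num (-292934880) * pow (var 0) 2 * var 1
       + num (-49724160) * pow (var 0) 2 * pow (var 1) 2)
  wd := (num 20000 * var 2 + num 1380000 * var 0 + num 640000 * var 0 * var 1)
  tn := fun b => cond b
    (num 11052 * pow (var 2) 2 + num 2011464 * var 0 * var 2 + num (-88416) * var 0 * var 1 * var 2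
       + num 75562524 * pow (var 0) 2 + num (-4686048) * pow (var 0) 2 * var 1)
    (num 8991 * pow (var 2) 2 + num 1492506 * var 0 * var 2 + num (-71928) * var 0 * var 1 * var 2
       + num 51545403 * pow (var 0) 2 + num (-8415576) * pow (var 0) 2 * var 1)
  td := (num 9000 * pow (var 2) 2 + num 2214000 * var 0 * var 2 + num 216000 * var 0 * pow (var 2) 2
       + num (-72000) * var 0 * var 1 * var 2 + num (-432000) * var 0 * var 1 * pow (var 2) 2
       + num 135837000 * pow (var 0) 2 + num 53136000 * pow (var 0) 2 * var 2
       + num (-8424000) * pow (var 0) 2 * var 1 + num (-108000000) * pow (var 0) 2 * var 1 * var 2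
       + num 3456000 * pow (var 0) 2 * pow (var 1) 2 * var 2 + num 3260088000 * pow (var 0) 3
       + num (-6722352000) * pow (var 0) 3 * var 1 + num 404352000 * pow (var 0) 3 * pow (var 1) 2)
  cn := (num 1 + num (-1) * var 1 + num (-24) * var 0 * var 1 + num 48 * var 0 * pow (var 1) 2)
  cd := (num 1 + num (-96) * var 0 * var 1 + num 2304 * pow (var 0) 2 * pow (var 1) 2)
  kn := (num 264 * var 0 * var 1)
  kd := (var 2 + num 93 * var 0 + num 32 * var 0 * var 1)
  k2 := (17, 13)
  θ := (5, 9)

/-- Its ranges. -/
def bxC02 : EBox :=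
  ⟨(0, 1, 288), (0, 53, 50), (0, 167, 500), (12, 15, 20)⟩

/-- The piece `C03`: L, `g` in (3/4, 22/25], `d` in (0, 1/12]. -/
def pcC03 : Piece where
  I := (num 24 * var 0 * var 1)
  d := (num 24 * var 0)
  w := (var 2 * var 3 + num (-12) * var 0 + num 59 * var 0 * var 3 + num (-24) * var 0 * var 1
       + num 27 * var 0 * var 1 * var 3)
  o := (num 24 * var 0 * var 1)
  den := (var 2 + num 59 * var 0 + num 27 * var 0 * var 1)
  mu := ⟨(149, 100), (228, 100)⟩
  pn := fun b => cond b
    (num 10000 * var 2 + num 590000 * var 0 + num 30000 * var 0 * var 1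
       + num (-481536) * var 0 * var 1 * var 2 + num (-21844224) * pow (var 0) 2 * var 1
       + num 131328 * pow (var 0) 2 * pow (var 1) 2)
    (num 10000 * var 2 + num 590000 * var 0 + num 30000 * var 0 * var 1
       + num (-268200) * var 0 * var 1 * var 2 + num (-11532600) * pow (var 0) 2 * var 1
       + num 1341000 * pow (var 0) 2 * pow (var 1) 2)
  pd := (num 10000)
  en := fun b => cond b
    (num 1362592 * var 2 + num 61812128 * var 0 + num 654044160 * var 0 * var 2
       + num (-371616) * var 0 * var 1 + num 29669821440 * pow (var 0) 2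
       + num 3389137920 * pow (var 0) 2 * var 1 + num 256860979200 * pow (var 0) 3 * pow (var 1) 3)
    (num 798075 * var 2 + num 34317225 * var 0 + num 383076000 * var 0 * var 2
       + num (-3990375) * var 0 * var 1 + num 16472268000 * pow (var 0) 2
       + num 536306400 * pow (var 0) 2 * var 1 + num 176521420800 * pow (var 0) 3 * pow (var 1) 3)
  kk := fun b => cond b
    (num 66114048 * var 0 * var 2 + num 2999173632 * pow (var 0) 2 + num (-18031104) * pow (var 0) 2 * var 1
       + num 4760211456 * pow (var 0) 2 * pow (var 1) 2 * var 2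
       + num 215940501504 * pow (var 0) 3 * pow (var 1) 2 + num (-1298239488) * pow (var 0) 3 * pow (var 1) 3)
    (num 20152800 * var 0 * var 2 + num 866570400 * pow (var 0) 2 + num (-100764000) * pow (var 0) 2 * var 1
       + num 1451001600 * pow (var 0) 2 * pow (var 1) 2 * var 2
       + num 62393068800 * pow (var 0) 3 * pow (var 1) 2 + num (-7255008000) * pow (var 0) 3 * pow (var 1) 3)
  f0 := (num 9600000 * var 0 + num 691200000 * pow (var 0) 2 * pow (var 1) 2)
  wn := fun b => cond b
    (num (-7197600) * var 0 * var 1 * var 2 + num (-539858400) * pow (var 0) 2 * var 1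
       + num (-49240800) * pow (var 0) 2 * pow (var 1) 2)
    (num (-15232800) * var 0 * var 1 * var 2 + num (-1013935200) * pow (var 0) 2 * var 1
       + num (-103298400) * pow (var 0) 2 * pow (var 1) 2)
  wd := (num 100000 * var 2 + num 5900000 * var 0 + num 2700000 * var 0 * var 1)
  tn := fun b => cond b
    (num 83754 * pow (var 2) 2 + num 12761064 * var 0 * var 2 + num (-441612) * var 0 * var 1 * var 2
       + num 406534302 * pow (var 0) 2 + num (-21441024) * pow (var 0) 2 * var 1
       + num 114210 * pow (var 0) 2 * pow (var 1) 2)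
    (num 65934 * pow (var 2) 2 + num 9422568 * var 0 * var 2 + num (-347652) * var 0 * var 1 * var 2
       + num 283258458 * pow (var 0) 2 + num (-33710256) * pow (var 0) 2 * var 1
       + num 89910 * pow (var 0) 2 * pow (var 1) 2)
  td := (num 66000 * pow (var 2) 2 + num 13656000 * var 0 * var 2 + num 1584000 * var 0 * pow (var 2) 2
       + num (-348000) * var 0 * var 1 * var 2 + num (-3168000) * var 0 * var 1 * pow (var 2) 2
       + num 705558000 * pow (var 0) 2 + num 327744000 * pow (var 0) 2 * var 2
       + num (-34896000) * pow (var 0) 2 * var 1 + num (-663840000) * pow (var 0) 2 * var 1 * var 2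
       + num 90000 * pow (var 0) 2 * pow (var 1) 2 + num 16704000 * pow (var 0) 2 * pow (var 1) 2 * var 2
       + num 16933392000 * pow (var 0) 3 + num (-34704288000) * pow (var 0) 3 * var 1
       + num 1677168000 * pow (var 0) 3 * pow (var 1) 2 + num (-4320000) * pow (var 0) 3 * pow (var 1) 3)
  cn := (num 1 + num (-1) * var 1 + num (-24) * var 0 * var 1 + num 48 * var 0 * pow (var 1) 2)
  cd := (num 1 + num (-96) * var 0 * var 1 + num 2304 * pow (var 0) 2 * pow (var 1) 2)
  kn := (num 240 * var 0 * var 1)
  kd := (var 2 + num 83 * var 0 + num 27 * var 0 * var 1)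
  k2 := (22, 21)
  θ := (10, 21)

/-- Its ranges. -/
def bxC03 : EBox :=
  ⟨(0, 1, 288), (0, 53, 50), (0, 267, 1000), (75, 88, 100)⟩

/-- The piece `C04`: L, `g` in (22/25, 99/100], `d` in (0, 1/12]. -/
def pcC04 : Piece where
  I := (num 24 * var 0 * var 1)
  d := (num 24 * var 0)
  w := (var 2 * var 3 + num (-12) * var 0 + num 52 * var 0 * var 3 + num (-24) * var 0 * var 1
       + num 24 * var 0 * var 1 * var 3)
  o := (num 24 * var 0 * var 1)
  den := (var 2 + num 52 * var 0 + num 24 * var 0 * var 1)
  mu := ⟨(149, 100), (228, 100)⟩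
  pn := fun b => cond b
    (num 10000 * var 2 + num 520000 * var 0 + num (-541728) * var 0 * var 1 * var 2
       + num (-21603456) * pow (var 0) 2 * var 1 + num 131328 * pow (var 0) 2 * pow (var 1) 2)
    (num 10000 * var 2 + num 520000 * var 0 + num (-314688) * var 0 * var 1 * var 2
       + num (-12072576) * pow (var 0) 2 * var 1 + num 1029888 * pow (var 0) 2 * pow (var 1) 2)
  pd := (num 10000)
  en := fun b => cond b
    (num 38412000 * var 2 + num 1531824000 * var 0 + num 18437760000 * var 0 * var 2
       + num (-9312000) * var 0 * var 1 + num 735275520000 * pow (var 0) 2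
       + num 84925440000 * pow (var 0) 2 * var 1 + num 6436454400000 * pow (var 0) 3 * pow (var 1) 3)
    (num 23410200 * var 2 + num 898100400 * var 0 + num 11236896000 * var 0 * var 2
       + num (-76615200) * var 0 * var 1 + num 431088192000 * pow (var 0) 2
       + num 24516864000 * pow (var 0) 2 * var 1 + num 4413035520000 * pow (var 0) 3 * pow (var 1) 3)
  kk := fun b => cond b
    (num 1867298400 * var 0 * var 2 + num 74465596800 * pow (var 0) 2
       + num (-452678400) * pow (var 0) 2 * var 1 + num 134445484800 * pow (var 0) 2 * pow (var 1) 2 * var 2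
       + num 5361522969600 * pow (var 0) 3 * pow (var 1) 2
       + num (-32592844800) * pow (var 0) 3 * pow (var 1) 3)
    (num 591148800 * var 0 * var 2 + num 22678617600 * pow (var 0) 2
       + num (-1934668800) * pow (var 0) 2 * var 1 + num 42562713600 * pow (var 0) 2 * pow (var 1) 2 * var 2
       + num 1632860467200 * pow (var 0) 3 * pow (var 1) 2
       + num (-139296153600) * pow (var 0) 3 * pow (var 1) 3)
  f0 := (num 240000000 * var 0 + num 17280000000 * pow (var 0) 2 * pow (var 1) 2)
  wn := fun b => cond b
    (num (-2575200) * var 0 * var 1 * var 2 + num (-249110400) * pow (var 0) 2 * var 1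
       + num (-2304000) * pow (var 0) 2 * pow (var 1) 2)
    (num (-12223200) * var 0 * var 1 * var 2 + num (-750806400) * pow (var 0) 2 * var 1
       + num (-27648000) * pow (var 0) 2 * pow (var 1) 2)
  wd := (num 100000 * var 2 + num 5200000 * var 0 + num 2400000 * var 0 * var 1)
  tn := fun b => cond b
    (num 2846646 * pow (var 2) 2 + num 378000084 * var 0 * var 2 + num (-10006392) * var 0 * var 1 * var 2
       + num 10547113584 * pow (var 0) 2 + num (-435638784) * pow (var 0) 2 * var 1
       + num 2258496 * pow (var 0) 2 * pow (var 1) 2)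
    (num 2175822 * pow (var 2) 2 + num 275735988 * var 0 * var 2 + num (-7648344) * var 0 * var 1 * var 2
       + num 7375928688 * pow (var 0) 2 + num (-649461888) * pow (var 0) 2 * var 1
       + num 1726272 * pow (var 0) 2 * pow (var 1) 2)
  td := (num 2178000 * pow (var 2) 2 + num 394812000 * var 0 * var 2 + num 52272000 * var 0 * pow (var 2) 2
       + num (-7656000) * var 0 * var 1 * var 2 + num (-104544000) * var 0 * var 1 * pow (var 2) 2
       + num 17880912000 * pow (var 0) 2 + num 9475488000 * pow (var 0) 2 * var 2
       + num (-678912000) * pow (var 0) 2 * var 1 + num (-19134720000) * pow (var 0) 2 * var 1 * var 2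
       + num 1728000 * pow (var 0) 2 * pow (var 1) 2 + num 367488000 * pow (var 0) 2 * pow (var 1) 2 * var 2
       + num 429141888000 * pow (var 0) 3 + num (-874577664000) * pow (var 0) 3 * var 1
       + num 32629248000 * pow (var 0) 3 * pow (var 1) 2 + num (-82944000) * pow (var 0) 3 * pow (var 1) 3)
  cn := (num 1 + num (-1) * var 1 + num (-24) * var 0 * var 1 + num 48 * var 0 * pow (var 1) 2)
  cd := (num 1 + num (-96) * var 0 * var 1 + num 2304 * pow (var 0) 2 * pow (var 1) 2)
  kn := (num 120 * var 0 * var 1)
  kd := (var 2 + num 52 * var 0)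
  k2 := (8, 9)
  θ := (8, 15)

/-- Its ranges. -/
def bxC04 : EBox :=
  ⟨(0, 1, 288), (0, 53, 50), (0, 57, 250), (88, 99, 100)⟩

/-- The piece `C05`: L4, `g` in (99/100, 11/10], `d` in (0, 1/12]. -/
def pcC05 : Piece where
  I := (num 24 * var 0 * var 1)
  d := (num 24 * var 0)
  w := (var 2 * var 3 + num (-12) * var 0 + num 63 * var 0 * var 3 + num (-24) * var 0 * var 1
       + num 21 * var 0 * var 1 * var 3)
  o := (num 24 * var 0 * var 1)
  den := (var 2 + num 63 * var 0 + num 21 * var 0 * var 1)
  mu := ⟨(149, 100), (225, 100)⟩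
  pn := fun b => cond b
    (num 10000 * var 2 + num 630000 * var 0 + num (-30000) * var 0 * var 1
       + num (-594000) * var 0 * var 1 * var 2 + num (-30942000) * pow (var 0) 2 * var 1
       + num 486000 * pow (var 0) 2 * pow (var 1) 2)
    (num 10000 * var 2 + num 630000 * var 0 + num (-30000) * var 0 * var 1
       + num (-354024) * var 0 * var 1 * var 2 + num (-18012312) * pow (var 0) 2 * var 1
       + num 1147896 * pow (var 0) 2 * pow (var 1) 2)
  pd := (num 10000)
  en := fun b => cond b
    (num 17064300 * var 2 + num 888894900 * var 0 + num 8190864000 * var 0 * var 2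
       + num (-13961700) * var 0 * var 1 + num 426669552000 * pow (var 0) 2
       + num 29040336000 * pow (var 0) 2 * var 1 + num 2573420544000 * pow (var 0) 3 * pow (var 1) 3)
    (num 10534590 * var 2 + num 535987170 * var 0 + num 5056603200 * var 0 * var 2
       + num (-34157610) * var 0 * var 1 + num 257273841600 * pow (var 0) 2
       + num 8121211200 * pow (var 0) 2 * var 1 + num 1765214208000 * pow (var 0) 3 * pow (var 1) 3)
  kk := fun b => cond b
    (num 824208000 * var 0 * var 2 + num 42933744000 * pow (var 0) 2
       + num (-674352000) * pow (var 0) 2 * var 1 + num 59342976000 * pow (var 0) 2 * pow (var 1) 2 * var 2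
       + num 3091229568000 * pow (var 0) 3 * pow (var 1) 2
       + num (-48553344000) * pow (var 0) 3 * pow (var 1) 3)
    (num 266016960 * var 0 * var 2 + num 13534620480 * pow (var 0) 2
       + num (-862539840) * pow (var 0) 2 * var 1 + num 19153221120 * pow (var 0) 2 * pow (var 1) 2 * var 2
       + num 974492674560 * pow (var 0) 3 * pow (var 1) 2
       + num (-62102868480) * pow (var 0) 3 * pow (var 1) 3)
  f0 := (num 96000000 * var 0 + num 6912000000 * pow (var 0) 2 * pow (var 1) 2)
  wn := fun b => cond b
    (num 3451200 * var 0 * var 1 * var 2 + num 102225600 * pow (var 0) 2 * var 1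
       + num 12686400 * pow (var 0) 2 * pow (var 1) 2)
    (num (-10356000) * var 0 * var 1 * var 2 + num (-767628000) * pow (var 0) 2 * var 1
       + num 28764000 * pow (var 0) 2 * pow (var 1) 2)
  wd := (num 100000 * var 2 + num 6300000 * var 0 + num 2100000 * var 0 * var 1)
  tn := fun b => cond b
    (num 1364517 * pow (var 2) 2 + num 206662302 * var 0 * var 2 + num (-5540766) * var 0 * var 1 * var 2
       + num 7062661053 * pow (var 0) 2 + num (-341399898) * pow (var 0) 2 * var 1
       + num 3619917 * pow (var 0) 2 * pow (var 1) 2)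
    (num 1087911 * pow (var 2) 2 + num 159494346 * var 0 * var 2 + num (-4417578) * var 0 * var 1 * var 2
       + num 5298657039 * pow (var 0) 2 + num (-382962654) * pow (var 0) 2 * var 1
       + num 2886111 * pow (var 0) 2 * pow (var 1) 2)
  td := (num 1089000 * pow (var 2) 2 + num 212454000 * var 0 * var 2 + num 26136000 * var 0 * pow (var 2) 2
       + num (-4422000) * var 0 * var 1 * var 2 + num (-52272000) * var 0 * var 1 * pow (var 2) 2
       + num 10358361000 * pow (var 0) 2 + num 5098896000 * pow (var 0) 2 * var 2
       + num (-426546000) * pow (var 0) 2 * var 1 + num (-10303920000) * pow (var 0) 2 * var 1 * var 2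
       + num 2889000 * pow (var 0) 2 * pow (var 1) 2 + num 212256000 * pow (var 0) 2 * pow (var 1) 2 * var 2
       + num 248600664000 * pow (var 0) 3 + num (-507438432000) * pow (var 0) 3 * var 1
       + num 20543544000 * pow (var 0) 3 * pow (var 1) 2 + num (-138672000) * pow (var 0) 3 * pow (var 1) 3)
  cn := (num 1 + num (-1) * var 1 + num (-24) * var 0 * var 1 + num 48 * var 0 * pow (var 1) 2)
  cd := (num 1 + num (-96) * var 0 * var 1 + num 2304 * pow (var 0) 2 * pow (var 1) 2)
  kn := (num 120 * var 0 * var 1)
  kd := (var 2 + num 63 * var 0 + num (-3) * var 0 * var 1)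
  k2 := (15, 16)
  θ := (11, 18)

/-- Its ranges. -/
def bxC05 : EBox :=
  ⟨(0, 1, 288), (0, 53, 50), (0, 203, 1000), (99, 110, 100)⟩

/-- The piece `C06`: H, `g` in (12/25, 14/25], `d` in (0, 1/12]. -/
def pcC06 : Piece where
  I := (num 24 * var 0 * var 1)
  d := (num 24 * var 0)
  w := (var 2 * var 3 + num (-12) * var 0 + num 64 * var 0 * var 3 + num (-24) * var 0 * var 1
       + num 42 * var 0 * var 1 * var 3)
  o := (num 24 * var 0 * var 1)
  den := (var 2 + num 64 * var 0 + num 42 * var 0 * var 1)
  mu := ⟨(162, 100), (231, 100)⟩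
  pn := fun b => cond b
    (num 2500 * var 2 + num 160000 * var 0 + num 45000 * var 0 * var 1
       + num (-77616) * var 0 * var 1 * var 2 + num (-3304224) * pow (var 0) 2 * var 1
       + num 66528 * pow (var 0) 2 * pow (var 1) 2)
    (num 2500 * var 2 + num 160000 * var 0 + num 45000 * var 0 * var 1
       + num (-46656) * var 0 * var 1 * var 2 + num (-1819584) * pow (var 0) 2 * var 1
       + num 373248 * pow (var 0) 2 * pow (var 1) 2)
  pd := (num 2500)
  en := fun b => cond b
    (num 5396300 * var 2 + num 229728200 * var 0 + num 2590224000 * var 0 * var 2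
       + num (-4625400) * var 0 * var 1 + num 110269536000 * pow (var 0) 2
       + num 19981728000 * pow (var 0) 2 * var 1 + num 1598538240000 * pow (var 0) 3 * pow (var 1) 3)
    (num 3192300 * var 2 + num 124499700 * var 0 + num 1532304000 * var 0 * var 2
       + num (-25538400) * var 0 * var 1 + num 59759856000 * pow (var 0) 2
       + num 3064608000 * pow (var 0) 2 * var 1 + num 1103258880000 * pow (var 0) 3 * pow (var 1) 3)
  kk := fun b => cond b
    (num 262248000 * var 0 * var 2 + num 11164272000 * pow (var 0) 2
       + num (-224784000) * pow (var 0) 2 * var 1 + num 18881856000 * pow (var 0) 2 * pow (var 1) 2 * var 2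
       + num 803827584000 * pow (var 0) 3 * pow (var 1) 2
       + num (-16184448000) * pow (var 0) 3 * pow (var 1) 3)
    (num 80611200 * var 0 * var 2 + num 3143836800 * pow (var 0) 2
       + num (-644889600) * pow (var 0) 2 * var 1 + num 5804006400 * pow (var 0) 2 * pow (var 1) 2 * var 2
       + num 226356249600 * pow (var 0) 3 * pow (var 1) 2
       + num (-46432051200) * pow (var 0) 3 * pow (var 1) 3)
  f0 := (num 60000000 * var 0 + num 4320000000 * pow (var 0) 2 * pow (var 1) 2)
  wn := fun b => cond b
    (num (-3455400) * var 0 * var 1 * var 2 + num (-249945600) * pow (var 0) 2 * var 1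
       + num (-87541200) * pow (var 0) 2 * pow (var 1) 2)
    (num (-5187600) * var 0 * var 1 * var 2 + num (-360806400) * pow (var 0) 2 * var 1
       + num (-123328800) * pow (var 0) 2 * pow (var 1) 2)
  wd := (num 25000 * var 2 + num 1600000 * var 0 + num 1050000 * var 0 * var 1)
  tn := fun b => cond b
    (num 206136 * pow (var 2) 2 + num 37428408 * var 0 * var 2 + num (-1825776) * var 0 * var 1 * var 2
       + num 1219795056 * pow (var 0) 2 + num (-94763664) * pow (var 0) 2 * var 1
       + num 1413504 * pow (var 0) 2 * pow (var 1) 2)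
    (num 167832 * pow (var 2) 2 + num 28075896 * var 0 * var 2 + num (-1486512) * var 0 * var 1 * var 2
       + num 839687472 * pow (var 0) 2 + num (-177853968) * pow (var 0) 2 * var 1
       + num 1150848 * pow (var 0) 2 * pow (var 1) 2)
  td := (num 168000 * pow (var 2) 2 + num 44904000 * var 0 * var 2 + num 4032000 * var 0 * pow (var 2) 2
       + num (-1488000) * var 0 * var 1 * var 2 + num (-8064000) * var 0 * var 1 * pow (var 2) 2
       + num 2995728000 * pow (var 0) 2 + num 1077696000 * pow (var 0) 2 * var 2
       + num (-192432000) * pow (var 0) 2 * var 1 + num (-2191104000) * pow (var 0) 2 * var 1 * var 2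
       + num 1152000 * pow (var 0) 2 * pow (var 1) 2 + num 71424000 * pow (var 0) 2 * pow (var 1) 2 * var 2
       + num 71897472000 * pow (var 0) 3 + num (-148413312000) * pow (var 0) 3 * var 1
       + num 9264384000 * pow (var 0) 3 * pow (var 1) 2 + num (-55296000) * pow (var 0) 3 * pow (var 1) 3)
  cn := (num 1 + num (-1) * var 1 + num (-24) * var 0 * var 1 + num 48 * var 0 * pow (var 1) 2)
  cd := (num 1 + num (-96) * var 0 * var 1 + num 2304 * pow (var 0) 2 * pow (var 1) 2)
  kn := (num 288 * var 0 * var 1)
  kd := (var 2 + num 88 * var 0 + num 42 * var 0 * var 1)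
  k2 := (19, 15)
  θ := (8, 11)

/-- Its ranges. -/
def bxC06 : EBox :=
  ⟨(0, 1, 288), (0, 53, 50), (0, 73, 250), (12, 14, 25)⟩

/-- The piece `C07`: H, `g` in (14/25, 7/10], `d` in (0, 1/12]. -/
def pcC07 : Piece where
  I := (num 24 * var 0 * var 1)
  d := (num 24 * var 0)
  w := (var 2 * var 3 + num (-12) * var 0 + num 51 * var 0 * var 3 + num (-24) * var 0 * var 1
       + num 34 * var 0 * var 1 * var 3)
  o := (num 24 * var 0 * var 1)
  den := (var 2 + num 51 * var 0 + num 34 * var 0 * var 1)
  mu := ⟨(162, 100), (231, 100)⟩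
  pn := fun b => cond b
    (num 5000 * var 2 + num 255000 * var 0 + num 50000 * var 0 * var 1
       + num (-194040) * var 0 * var 1 * var 2 + num (-6569640) * pow (var 0) 2 * var 1
       + num 55440 * pow (var 0) 2 * pow (var 1) 2)
    (num 5000 * var 2 + num 255000 * var 0 + num 50000 * var 0 * var 1
       + num (-108864) * var 0 * var 1 * var 2 + num (-3219264) * pow (var 0) 2 * var 1
       + num 964224 * pow (var 0) 2 * pow (var 1) 2)
  pd := (num 5000)
  en := fun b => cond b
    (num 2705850 * var 2 + num 91612350 * var 0 + num 1298808000 * var 0 * var 2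
       + num (-773100) * var 0 * var 1 + num 43973928000 * pow (var 0) 2
       + num 8535024000 * pow (var 0) 2 * var 1 + num 641240064000 * pow (var 0) 3 * pow (var 1) 3)
    (num 1489740 * var 2 + num 44053740 * var 0 + num 715075200 * var 0 * var 2
       + num (-13194840) * var 0 * var 1 + num 21145795200 * pow (var 0) 2
       + num (-204307200) * pow (var 0) 2 * var 1 + num 441303552000 * pow (var 0) 3 * pow (var 1) 3)
  kk := fun b => cond b
    (num 132048000 * var 0 * var 2 + num 4470768000 * pow (var 0) 2
       + num (-37728000) * pow (var 0) 2 * var 1 + num 9507456000 * pow (var 0) 2 * pow (var 1) 2 * var 2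
       + num 321895296000 * pow (var 0) 3 * pow (var 1) 2 + num (-2716416000) * pow (var 0) 3 * pow (var 1) 3)
    (num 37618560 * var 0 * var 2 + num 1112434560 * pow (var 0) 2
       + num (-333192960) * pow (var 0) 2 * var 1 + num 2708536320 * pow (var 0) 2 * pow (var 1) 2 * var 2
       + num 80095288320 * pow (var 0) 3 * pow (var 1) 2 + num (-23989893120) * pow (var 0) 3 * pow (var 1) 3)
  f0 := (num 24000000 * var 0 + num 1728000000 * pow (var 0) 2 * pow (var 1) 2)
  wn := fun b => cond b
    (num (-6238800) * var 0 * var 1 * var 2 + num (-375778800) * pow (var 0) 2 * var 1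
       + num (-96948000) * pow (var 0) 2 * pow (var 1) 2)
    (num (-9303600) * var 0 * var 1 * var 2 + num (-532083600) * pow (var 0) 2 * var 1
       + num (-143724000) * pow (var 0) 2 * pow (var 1) 2)
  wd := (num 50000 * var 2 + num 2550000 * var 0 + num 1700000 * var 0 * var 1)
  tn := fun b => cond b
    (num 127204 * pow (var 2) 2 + num 18971568 * var 0 * var 2 + num (-1163008) * var 0 * var 1 * var 2
       + num 496508364 * pow (var 0) 2 + num (-42335568) * pow (var 0) 2 * var 1
       + num 321904 * pow (var 0) 2 * pow (var 1) 2)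
    (num 97902 * pow (var 2) 2 + num 12923064 * var 0 * var 2 + num (-895104) * var 0 * var 1 * var 2
       + num 296541162 * pow (var 0) 2 + num (-89646264) * pow (var 0) 2 * var 1
       + num 247752 * pow (var 0) 2 * pow (var 1) 2)
  td := (num 98000 * pow (var 2) 2 + num 21336000 * var 0 * var 2 + num 2352000 * var 0 * pow (var 2) 2
       + num (-896000) * var 0 * var 1 * var 2 + num (-4704000) * var 0 * var 1 * pow (var 2) 2
       + num 1157238000 * pow (var 0) 2 + num 512064000 * pow (var 0) 2 * var 2
       + num (-92136000) * pow (var 0) 2 * var 1 + num (-1045632000) * pow (var 0) 2 * var 1 * var 2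
       + num 248000 * pow (var 0) 2 * pow (var 1) 2 + num 43008000 * pow (var 0) 2 * pow (var 1) 2 * var 2
       + num 27773712000 * pow (var 0) 3 + num (-57758688000) * pow (var 0) 3 * var 1
       + num 4428480000 * pow (var 0) 3 * pow (var 1) 2 + num (-11904000) * pow (var 0) 3 * pow (var 1) 3)
  cn := (num 1 + num (-1) * var 1 + num (-24) * var 0 * var 1 + num 48 * var 0 * pow (var 1) 2)
  cd := (num 1 + num (-96) * var 0 * var 1 + num 2304 * pow (var 0) 2 * pow (var 1) 2)
  kn := (num 312 * var 0 * var 1)
  kd := (var 2 + num 75 * var 0 + num 34 * var 0 * var 1)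
  k2 := (48, 47)
  θ := (5, 9)

/-- Its ranges. -/
def bxC07 : EBox :=
  ⟨(0, 1, 288), (0, 53, 50), (0, 1, 4), (28, 35, 50)⟩

/-- The piece `C08`: H, `g` in (7/10, 17/20], `d` in (0, 1/12]. -/
def pcC08 : Piece where
  I := (num 24 * var 0 * var 1)
  d := (num 24 * var 0)
  w := (var 2 * var 3 + num (-12) * var 0 + num 42 * var 0 * var 3 + num (-24) * var 0 * var 1
       + num 28 * var 0 * var 1 * var 3)
  o := (num 24 * var 0 * var 1)
  den := (var 2 + num 42 * var 0 + num 28 * var 0 * var 1)
  mu := ⟨(162, 100), (231, 100)⟩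
  pn := fun b => cond b
    (num 2000 * var 2 + num 84000 * var 0 + num 8000 * var 0 * var 1 + num (-94248) * var 0 * var 1 * var 2
       + num (-2627856) * pow (var 0) 2 * var 1 + num 22176 * pow (var 0) 2 * pow (var 1) 2)
    (num 2000 * var 2 + num 84000 * var 0 + num 8000 * var 0 * var 1 + num (-54432) * var 0 * var 1 * var 2
       + num (-1353024) * pow (var 0) 2 * var 1 + num 342144 * pow (var 0) 2 * pow (var 1) 2)
  pd := (num 2000)
  en := fun b => cond b
    (num 2636360 * var 2 + num 73507920 * var 0 + num 1265452800 * var 0 * var 2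
       + num (-620320) * var 0 * var 1 + num 35283801600 * pow (var 0) 2
       + num 6848332800 * pow (var 0) 2 * var 1 + num 514518220800 * pow (var 0) 3 * pow (var 1) 3)
    (num 1489740 * var 2 + num 37030680 * var 0 + num 715075200 * var 0 * var 2
       + num (-9364080) * var 0 * var 1 + num 17774726400 * pow (var 0) 2
       + num 408614400 * pow (var 0) 2 * var 1 + num 353042841600 * pow (var 0) 3 * pow (var 1) 3)
  kk := fun b => cond b
    (num 129221760 * var 0 * var 2 + num 3603006720 * pow (var 0) 2
       + num (-30405120) * pow (var 0) 2 * var 1 + num 9303966720 * pow (var 0) 2 * pow (var 1) 2 * var 2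
       + num 259416483840 * pow (var 0) 3 * pow (var 1) 2 + num (-2189168640) * pow (var 0) 3 * pow (var 1) 3)
    (num 37618560 * var 0 * var 2 + num 935089920 * pow (var 0) 2 + num (-236459520) * pow (var 0) 2 * var 1
       + num 2708536320 * pow (var 0) 2 * pow (var 1) 2 * var 2
       + num 67326474240 * pow (var 0) 3 * pow (var 1) 2 + num (-17025085440) * pow (var 0) 3 * pow (var 1) 3)
  f0 := (num 19200000 * var 0 + num 1382400000 * pow (var 0) 2 * pow (var 1) 2)
  wn := fun b => cond b
    (num (-1755840) * var 0 * var 1 * var 2 + num (-96785280) * pow (var 0) 2 * var 1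
       + num (-13935360) * pow (var 0) 2 * pow (var 1) 2)
    (num (-3026400) * var 0 * var 1 * var 2 + num (-150148800) * pow (var 0) 2 * var 1
       + num (-25929600) * pow (var 0) 2 * pow (var 1) 2)
  wd := (num 20000 * var 2 + num 840000 * var 0 + num 560000 * var 0 * var 1)
  tn := fun b => cond b
    (num 164577 * pow (var 2) 2 + num 19964988 * var 0 * var 2 + num (-1073208) * var 0 * var 1 * var 2
       + num 428724468 * pow (var 0) 2 + num (-32461776) * pow (var 0) 2 * var 1
       + num 243408 * pow (var 0) 2 * pow (var 1) 2)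
    (num 118881 * pow (var 2) 2 + num 12983004 * var 0 * var 2 + num (-775224) * var 0 * var 1 * var 2
       + num 249266484 * pow (var 0) 2 + num (-63728208) * pow (var 0) 2 * var 1
       + num 175824 * pow (var 0) 2 * pow (var 1) 2)
  td := (num 119000 * pow (var 2) 2 + num 21156000 * var 0 * var 2 + num 2856000 * var 0 * pow (var 2) 2
       + num (-776000) * var 0 * var 1 * var 2 + num (-5712000) * var 0 * var 1 * pow (var 2) 2
       + num 937836000 * pow (var 0) 2 + num 507744000 * pow (var 0) 2 * var 2
       + num (-65712000) * pow (var 0) 2 * var 1 + num (-1034112000) * pow (var 0) 2 * var 1 * var 2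
       + num 176000 * pow (var 0) 2 * pow (var 1) 2 + num 37248000 * pow (var 0) 2 * pow (var 1) 2 * var 2
       + num 22508064000 * pow (var 0) 3 + num (-46593216000) * pow (var 0) 3 * var 1
       + num 3158400000 * pow (var 0) 3 * pow (var 1) 2 + num (-8448000) * pow (var 0) 3 * pow (var 1) 3)
  cn := (num 1 + num (-1) * var 1 + num (-24) * var 0 * var 1 + num 48 * var 0 * pow (var 1) 2)
  cd := (num 1 + num (-96) * var 0 * var 1 + num 2304 * pow (var 0) 2 * pow (var 1) 2)
  kn := (num 312 * var 0 * var 1)
  kd := (var 2 + num 66 * var 0 + num 28 * var 0 * var 1)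
  k2 := (10, 13)
  θ := (5, 11)

/-- Its ranges. -/
def bxC08 : EBox :=
  ⟨(0, 1, 288), (0, 53, 50), (0, 1, 5), (14, 17, 20)⟩

/-- The piece `C09`: H, `g` in (17/20, 97/100], `d` in (0, 1/12]. -/
def pcC09 : Piece where
  I := (num 24 * var 0 * var 1)
  d := (num 24 * var 0)
  w := (var 2 * var 3 + num (-12) * var 0 + num 37 * var 0 * var 3 + num (-24) * var 0 * var 1
       + num 24 * var 0 * var 1 * var 3)
  o := (num 24 * var 0 * var 1)
  den := (var 2 + num 37 * var 0 + num 24 * var 0 * var 1)
  mu := ⟨(162, 100), (231, 100)⟩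
  pn := fun b => cond b
    (num 10000 * var 2 + num 370000 * var 0 + num (-537768) * var 0 * var 1 * var 2
       + num (-13244616) * pow (var 0) 2 * var 1 + num 399168 * pow (var 0) 2 * pow (var 1) 2)
    (num 10000 * var 2 + num 370000 * var 0 + num (-330480) * var 0 * var 1 * var 2
       + num (-7562160) * pow (var 0) 2 * var 1 + num 1399680 * pow (var 0) 2 * pow (var 1) 2)
  pd := (num 10000)
  en := fun b => cond b
    (num 30151480 * var 2 + num 742596760 * var 0 + num 14472710400 * var 0 * var 2
       + num (-22380480) * var 0 * var 1 + num 356446444800 * pow (var 0) 2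
       + num 60874905600 * pow (var 0) 2 * var 1 + num 5156462592000 * pow (var 0) 3 * pow (var 1) 3)
    (num 18089700 * var 2 + num 413934900 * var 0 + num 8683056000 * var 0 * var 2
       + num (-76615200) * var 0 * var 1 + num 198688752000 * pow (var 0) 2
       + num 12258432000 * pow (var 0) 2 * var 1 + num 3530428416000 * pow (var 0) 3 * pow (var 1) 3)
  kk := fun b => cond b
    (num 1483774080 * var 0 * var 2 + num 36543672960 * pow (var 0) 2
       + num (-1101358080) * pow (var 0) 2 * var 1 + num 106831733760 * pow (var 0) 2 * pow (var 1) 2 * var 2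
       + num 2631144453120 * pow (var 0) 3 * pow (var 1) 2
       + num (-79297781760) * pow (var 0) 3 * pow (var 1) 3)
    (num 456796800 * var 0 * var 2 + num 10452585600 * pow (var 0) 2
       + num (-1934668800) * pow (var 0) 2 * var 1 + num 32889369600 * pow (var 0) 2 * pow (var 1) 2 * var 2
       + num 752586163200 * pow (var 0) 3 * pow (var 1) 2
       + num (-139296153600) * pow (var 0) 3 * pow (var 1) 3)
  f0 := (num 192000000 * var 0 + num 13824000000 * pow (var 0) 2 * pow (var 1) 2)
  wn := fun b => cond b
    (num (-4716000) * var 0 * var 1 * var 2 + num (-289692000) * pow (var 0) 2 * var 1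
       + num (-6912000) * pow (var 0) 2 * pow (var 1) 2)
    (num (-11884800) * var 0 * var 1 * var 2 + num (-554937600) * pow (var 0) 2 * var 1
       + num (-34560000) * pow (var 0) 2 * pow (var 1) 2)
  wd := (num 100000 * var 2 + num 3700000 * var 0 + num 2400000 * var 0 * var 1)
  tn := fun b => cond b
    (num 2412487 * pow (var 2) 2 + num 250854758 * var 0 * var 2 + num (-12008304) * var 0 * var 1 * var 2
       + num 4714899343 * pow (var 0) 2 + num (-393745968) * pow (var 0) 2 * var 1
       + num 7584192 * pow (var 0) 2 * pow (var 1) 2)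
    (num 1647351 * pow (var 2) 2 + num 159786054 * var 0 * var 2 + num (-8199792) * var 0 * var 1 * var 2
       + num 2793724479 * pow (var 0) 2 + num (-545070384) * pow (var 0) 2 * var 1
       + num 5178816 * pow (var 0) 2 * pow (var 1) 2)
  td := (num 1649000 * pow (var 2) 2 + num 253066000 * var 0 * var 2 + num 39576000 * var 0 * pow (var 2) 2
       + num (-8208000) * var 0 * var 1 * var 2 + num (-79152000) * var 0 * var 1 * pow (var 2) 2
       + num 9697961000 * pow (var 0) 2 + num 6073584000 * pow (var 0) 2 * var 2
       + num (-614736000) * pow (var 0) 2 * var 1 + num (-12344160000) * pow (var 0) 2 * var 1 * var 2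
       + num 5184000 * pow (var 0) 2 * pow (var 1) 2 + num 393984000 * pow (var 0) 2 * pow (var 1) 2 * var 2
       + num 232751064000 * pow (var 0) 3 + num (-480255792000) * pow (var 0) 3 * var 1
       + num 29631744000 * pow (var 0) 3 * pow (var 1) 2 + num (-248832000) * pow (var 0) 3 * pow (var 1) 3)
  cn := (num 1 + num (-1) * var 1 + num (-24) * var 0 * var 1 + num 48 * var 0 * pow (var 1) 2)
  cd := (num 1 + num (-96) * var 0 * var 1 + num 2304 * pow (var 0) 2 * pow (var 1) 2)
  kn := (num 120 * var 0 * var 1)
  kd := (var 2 + num 37 * var 0)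
  k2 := (11, 18)
  θ := (3, 7)

/-- Its ranges. -/
def bxC09 : EBox :=
  ⟨(0, 1, 288), (0, 53, 50), (0, 33, 200), (85, 97, 100)⟩

/-- The piece `C10`: D, `g` in (11/25, 3/5], `d` in (1/12, 1/8]. -/
def pcC10 : Piece where
  I := (num 24 * var 0 * var 1)
  d := (num 24 * var 0)
  w := (var 2 * var 3 + num (-12) * var 0 + num 60 * var 0 * var 3 + num (-24) * var 0 * var 1
       + num 40 * var 0 * var 1 * var 3)
  o := (num 24 * var 0 * var 1)
  den := (var 2 + num 60 * var 0 + num 40 * var 0 * var 1)
  mu := ⟨(142, 100), (239, 100)⟩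
  pn := fun b => cond b
    (num 2500 * var 2 + num 150000 * var 0 + num 40000 * var 0 * var 1
       + num (-86040) * var 0 * var 1 * var 2 + num (-3441600) * pow (var 0) 2 * var 1)
    (num 2500 * var 2 + num 150000 * var 0 + num 40000 * var 0 * var 1
       + num (-37488) * var 0 * var 1 * var 2 + num (-1226880) * pow (var 0) 2 * var 1
       + num 545280 * pow (var 0) 2 * pow (var 1) 2)
  pd := (num 2500)
  en := fun b => cond b
    (num 1011225 * var 2 + num 40449000 * var 0 + num 485388000 * var 0 * var 2
       + num 19415520000 * pow (var 0) 2 + num 3883104000 * pow (var 0) 2 * var 1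
       + num 279583488000 * pow (var 0) 3 * pow (var 1) 3)
    (num 536085 * var 2 + num 17544600 * var 0 + num 257320800 * var 0 * var 2
       + num (-7797600) * var 0 * var 1 + num 8421408000 * pow (var 0) 2
       + num (-935712000) * pow (var 0) 2 * var 1 + num 202113792000 * pow (var 0) 3 * pow (var 1) 3)
  kk := fun b => cond b
    (num 70732800 * var 0 * var 2 + num 2829312000 * pow (var 0) 2
       + num 5092761600 * pow (var 0) 2 * pow (var 1) 2 * var 2
       + num 203710464000 * pow (var 0) 3 * pow (var 1) 2)
    (num 37456320 * var 0 * var 2 + num 1225843200 * pow (var 0) 2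
       + num (-544819200) * pow (var 0) 2 * var 1 + num 2696855040 * pow (var 0) 2 * pow (var 1) 2 * var 2
       + num 88260710400 * pow (var 0) 3 * pow (var 1) 2 + num (-39226982400) * pow (var 0) 3 * pow (var 1) 3)
  f0 := (num 12000000 * var 0 + num 864000000 * pow (var 0) 2 * pow (var 1) 2)
  wn := fun b => cond b
    (num (-3643200) * var 0 * var 1 * var 2 + num (-247392000) * pow (var 0) 2 * var 1
       + num (-81331200) * pow (var 0) 2 * pow (var 1) 2)
    (num (-5589000) * var 0 * var 1 * var 2 + num (-364140000) * pow (var 0) 2 * var 1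
       + num (-121680000) * pow (var 0) 2 * pow (var 1) 2)
  wd := (num 25000 * var 2 + num 1500000 * var 0 + num 1000000 * var 0 * var 1)
  tn := fun b => cond b
    (num 41349 * pow (var 2) 2 + num 7518000 * var 0 * var 2 + num (-601440) * var 0 * var 1 * var 2
       + num 234561600 * pow (var 0) 2 + num (-24057600) * pow (var 0) 2 * var 1)
    (num 36432 * pow (var 2) 2 + num 5564160 * var 0 * var 2 + num (-529920) * var 0 * var 1 * var 2
       + num 143078400 * pow (var 0) 2 + num (-63590400) * pow (var 0) 2 * var 1)
  td := (num 33000 * pow (var 2) 2 + num 8640000 * var 0 * var 2 + num 792000 * var 0 * pow (var 2) 2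
       + num (-480000) * var 0 * var 1 * var 2 + num (-1584000) * var 0 * var 1 * pow (var 2) 2
       + num 561600000 * pow (var 0) 2 + num 207360000 * pow (var 0) 2 * var 2
       + num (-57600000) * pow (var 0) 2 * var 1 + num (-426240000) * pow (var 0) 2 * var 1 * var 2
       + num 23040000 * pow (var 0) 2 * pow (var 1) 2 * var 2 + num 13478400000 * pow (var 0) 3
       + num (-28339200000) * pow (var 0) 3 * var 1 + num 2764800000 * pow (var 0) 3 * pow (var 1) 2)
  cn := (num 1 + num (-1) * var 1 + num (-24) * var 0 * var 1 + num 48 * var 0 * pow (var 1) 2)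
  cd := (num 1 + num (-96) * var 0 * var 1 + num 2304 * pow (var 0) 2 * pow (var 1) 2)
  kn := (num 336 * var 0 * var 1)
  kd := (var 2 + num 84 * var 0 + num 40 * var 0 * var 1)
  k2 := (9, 5)
  θ := (9, 19)

/-- Its ranges. -/
def bxC10 : EBox :=
  ⟨(2, 3, 576), (0, 3, 5), (0, 93, 250), (11, 15, 25)⟩

/-- The piece `C11`: D, `g` in (3/5, 4/5], `d` in (1/12, 1/8]. -/
def pcC11 : Piece where
  I := (num 24 * var 0 * var 1)
  d := (num 24 * var 0)
  w := (var 2 * var 3 + num (-12) * var 0 + num 45 * var 0 * var 3 + num (-24) * var 0 * var 1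
       + num 30 * var 0 * var 1 * var 3)
  o := (num 24 * var 0 * var 1)
  den := (var 2 + num 45 * var 0 + num 30 * var 0 * var 1)
  mu := ⟨(142, 100), (239, 100)⟩
  pn := fun b => cond b
    (num 500 * var 2 + num 22500 * var 0 + num 3000 * var 0 * var 1 + num (-22944) * var 0 * var 1 * var 2
       + num (-688320) * pow (var 0) 2 * var 1)
    (num 500 * var 2 + num 22500 * var 0 + num 3000 * var 0 * var 1 + num (-10224) * var 0 * var 1 * var 2
       + num (-255600) * pow (var 0) 2 * var 1 + num 102240 * pow (var 0) 2 * pow (var 1) 2)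
  pd := (num 500)
  en := fun b => cond b
    (num 271300 * var 2 + num 8139000 * var 0 + num 130224000 * var 0 * var 2
       + num 3906720000 * pow (var 0) 2 + num 781344000 * pow (var 0) 2 * var 1
       + num 56256768000 * pow (var 0) 3 * pow (var 1) 3)
    (num 146205 * var 2 + num 3655125 * var 0 + num 70178400 * var 0 * var 2
       + num (-1462050) * var 0 * var 1 + num 1754460000 * pow (var 0) 2
       + num (-140356800) * pow (var 0) 2 * var 1 + num 40422758400 * pow (var 0) 3 * pow (var 1) 3)
  kk := fun b => cond b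
    (num 19121280 * var 0 * var 2 + num 573638400 * pow (var 0) 2
       + num 1376732160 * pow (var 0) 2 * pow (var 1) 2 * var 2
       + num 41301964800 * pow (var 0) 3 * pow (var 1) 2)
    (num 10215360 * var 0 * var 2 + num 255384000 * pow (var 0) 2 + num (-102153600) * pow (var 0) 2 * var 1
       + num 735505920 * pow (var 0) 2 * pow (var 1) 2 * var 2
       + num 18387648000 * pow (var 0) 3 * pow (var 1) 2 + num (-7355059200) * pow (var 0) 3 * pow (var 1) 3)
  f0 := (num 2400000 * var 0 + num 172800000 * pow (var 0) 2 * pow (var 1) 2)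
  wn := fun b => cond b
    (num (-484920) * var 0 * var 1 * var 2 + num (-27581400) * pow (var 0) 2 * var 1
       + num (-5213520) * pow (var 0) 2 * pow (var 1) 2)
    (num (-910920) * var 0 * var 1 * var 2 + num (-46751400) * pow (var 0) 2 * var 1
       + num (-10073520) * pow (var 0) 2 * pow (var 1) 2)
  wd := (num 5000 * var 2 + num 225000 * var 0 + num 150000 * var 0 * var 1)
  tn := fun b => cond b
    (num 15864 * pow (var 2) 2 + num 2141640 * var 0 * var 2 + num (-158640) * var 0 * var 1 * var 2
       + num 49971600 * pow (var 0) 2 + num (-4759200) * pow (var 0) 2 * var 1)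
    (num 13260 * pow (var 2) 2 + num 1524900 * var 0 * var 2 + num (-132600) * var 0 * var 1 * var 2
       + num 29835000 * pow (var 0) 2 + num (-11934000) * pow (var 0) 2 * var 1)
  td := (num 12000 * pow (var 2) 2 + num 2340000 * var 0 * var 2 + num 288000 * var 0 * pow (var 2) 2
       + num (-120000) * var 0 * var 1 * var 2 + num (-576000) * var 0 * var 1 * pow (var 2) 2
       + num 113400000 * pow (var 0) 2 + num 56160000 * pow (var 0) 2 * var 2
       + num (-10800000) * pow (var 0) 2 * var 1 + num (-115200000) * pow (var 0) 2 * var 1 * var 2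
       + num 5760000 * pow (var 0) 2 * pow (var 1) 2 * var 2 + num 2721600000 * pow (var 0) 3
       + num (-5702400000) * pow (var 0) 3 * var 1 + num 518400000 * pow (var 0) 3 * pow (var 1) 2)
  cn := (num 1 + num (-1) * var 1 + num (-24) * var 0 * var 1 + num 48 * var 0 * pow (var 1) 2)
  cd := (num 1 + num (-96) * var 0 * var 1 + num 2304 * pow (var 0) 2 * pow (var 1) 2)
  kn := (num 240 * var 0 * var 1)
  kd := (var 2 + num 45 * var 0 + num 30 * var 0 * var 1)
  k2 := (11, 9)
  θ := (4, 15)

/-- Its ranges. -/
def bxC11 : EBox :=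
  ⟨(2, 3, 576), (0, 3, 5), (0, 67, 250), (3, 4, 5)⟩

/-- The piece `C12`: D, `g` in (4/5, 24/25], `d` in (1/12, 1/8]. -/
def pcC12 : Piece where
  I := (num 24 * var 0 * var 1)
  d := (num 24 * var 0)
  w := (var 2 * var 3 + num (-12) * var 0 + num 37 * var 0 * var 3 + num (-24) * var 0 * var 1
       + num 25 * var 0 * var 1 * var 3)
  o := (num 24 * var 0 * var 1)
  den := (var 2 + num 37 * var 0 + num 25 * var 0 * var 1)
  mu := ⟨(142, 100), (239, 100)⟩
  pn := fun b => cond b
    (num 2500 * var 2 + num 92500 * var 0 + num 2500 * var 0 * var 1 + num (-137664) * var 0 * var 1 * var 2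
       + num (-3372768) * pow (var 0) 2 * var 1)
    (num 2500 * var 2 + num 92500 * var 0 + num 2500 * var 0 * var 1 + num (-68160) * var 0 * var 1 * var 2
       + num (-1499520) * pow (var 0) 2 * var 1 + num 340800 * pow (var 0) 2 * pow (var 1) 2)
  pd := (num 2500)
  en := fun b => cond b
    (num 1636320 * var 2 + num 40089840 * var 0 + num 785433600 * var 0 * var 2
       + num 19243123200 * pow (var 0) 2 + num 3927168000 * pow (var 0) 2 * var 1
       + num 282756096000 * pow (var 0) 3 * pow (var 1) 3)
    (num 974700 * var 2 + num 21443400 * var 0 + num 467856000 * var 0 * var 2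
       + num (-4873500) * var 0 * var 1 + num 10292832000 * pow (var 0) 2
       + num 467856000 * pow (var 0) 2 * var 1 + num 202113792000 * pow (var 0) 3 * pow (var 1) 3)
  kk := fun b => cond b
    (num 116040960 * var 0 * var 2 + num 2843003520 * pow (var 0) 2
       + num 8354949120 * pow (var 0) 2 * pow (var 1) 2 * var 2
       + num 204696253440 * pow (var 0) 3 * pow (var 1) 2)
    (num 68102400 * var 0 * var 2 + num 1498252800 * pow (var 0) 2
       + num (-340512000) * pow (var 0) 2 * var 1 + num 4903372800 * pow (var 0) 2 * pow (var 1) 2 * var 2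
       + num 107874201600 * pow (var 0) 3 * pow (var 1) 2
       + num (-24516864000) * pow (var 0) 3 * pow (var 1) 3)
  f0 := (num 12000000 * var 0 + num 864000000 * pow (var 0) 2 * pow (var 1) 2)
  wn := fun b => cond b
    (num (-941400) * var 0 * var 1 * var 2 + num (-63631800) * pow (var 0) 2 * var 1
       + num (-3245400) * pow (var 0) 2 * pow (var 1) 2)
    (num (-3289800) * var 0 * var 1 * var 2 + num (-150522600) * pow (var 0) 2 * var 1
       + num (-14809800) * pow (var 0) 2 * pow (var 1) 2)
  wd := (num 25000 * var 2 + num 925000 * var 0 + num 625000 * var 0 * var 1)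
  tn := fun b => cond b
    (num 132960 * pow (var 2) 2 + num 14160240 * var 0 * var 2 + num (-664800) * var 0 * var 1 * var 2
       + num 267116640 * pow (var 0) 2 + num (-16287600) * pow (var 0) 2 * var 1)
    (num 106368 * pow (var 2) 2 + num 10264512 * var 0 * var 2 + num (-531840) * var 0 * var 1 * var 2
       + num 174337152 * pow (var 0) 2 + num (-39622080) * pow (var 0) 2 * var 1)
  td := (num 96000 * pow (var 2) 2 + num 15024000 * var 0 * var 2 + num 2304000 * var 0 * pow (var 2) 2
       + num (-480000) * var 0 * var 1 * var 2 + num (-4608000) * var 0 * var 1 * pow (var 2) 2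
       + num 586464000 * pow (var 0) 2 + num 360576000 * pow (var 0) 2 * var 2
       + num (-35760000) * pow (var 0) 2 * var 1 + num (-732672000) * pow (var 0) 2 * var 1 * var 2
       + num 23040000 * pow (var 0) 2 * pow (var 1) 2 * var 2 + num 14075136000 * pow (var 0) 3
       + num (-29008512000) * pow (var 0) 3 * var 1 + num 1716480000 * pow (var 0) 3 * pow (var 1) 2)
  cn := (num 1 + num (-1) * var 1 + num (-24) * var 0 * var 1 + num 48 * var 0 * pow (var 1) 2)
  cd := (num 1 + num (-96) * var 0 * var 1 + num 2304 * pow (var 0) 2 * pow (var 1) 2)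
  kn := (num 144 * var 0 * var 1)
  kd := (var 2 + num 37 * var 0 + var 0 * var 1)
  k2 := (5, 6)
  θ := (1, 8)

/-- Its ranges. -/
def bxC12 : EBox :=
  ⟨(2, 3, 576), (0, 3, 5), (0, 37, 200), (20, 24, 25)⟩

/-- The piece `C13`: D, `g` in (11/25, 3/5], `d` in (1/8, 1/5]. -/
def pcC13 : Piece where
  I := (num 24 * var 0 * var 1)
  d := (num 24 * var 0)
  w := (var 2 * var 3 + num (-12) * var 0 + num 60 * var 0 * var 3 + num (-24) * var 0 * var 1
       + num 40 * var 0 * var 1 * var 3)
  o := (num 24 * var 0 * var 1)
  den := (var 2 + num 60 * var 0 + num 40 * var 0 * var 1)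
  mu := ⟨(142, 100), (239, 100)⟩
  pn := fun b => cond b
    (num 2500 * var 2 + num 150000 * var 0 + num 40000 * var 0 * var 1
       + num (-86040) * var 0 * var 1 * var 2 + num (-3441600) * pow (var 0) 2 * var 1)
    (num 2500 * var 2 + num 150000 * var 0 + num 40000 * var 0 * var 1
       + num (-37488) * var 0 * var 1 * var 2 + num (-1226880) * pow (var 0) 2 * var 1
       + num 545280 * pow (var 0) 2 * pow (var 1) 2)
  pd := (num 2500)
  en := fun b => cond b
    (num 916800 * var 2 + num 36672000 * var 0 + num 440064000 * var 0 * var 2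
       + num 17602560000 * pow (var 0) 2 + num 3520512000 * pow (var 0) 2 * var 1
       + num 253476864000 * pow (var 0) 3 * pow (var 1) 3)
    (num 453035 * var 2 + num 14826600 * var 0 + num 217456800 * var 0 * var 2
       + num (-6589600) * var 0 * var 1 + num 7116768000 * pow (var 0) 2
       + num (-790752000) * pow (var 0) 2 * var 1 + num 170802432000 * pow (var 0) 3 * pow (var 1) 3)
  kk := fun b => cond b
    (num 88545600 * var 0 * var 2 + num 3541824000 * pow (var 0) 2
       + num 6375283200 * pow (var 0) 2 * pow (var 1) 2 * var 2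
       + num 255011328000 * pow (var 0) 3 * pow (var 1) 2)
    (num 45027840 * var 0 * var 2 + num 1473638400 * pow (var 0) 2
       + num (-654950400) * pow (var 0) 2 * var 1 + num 3242004480 * pow (var 0) 2 * pow (var 1) 2 * var 2
       + num 106101964800 * pow (var 0) 3 * pow (var 1) 2
       + num (-47156428800) * pow (var 0) 3 * pow (var 1) 3)
  f0 := (num 12000000 * var 0 + num 864000000 * pow (var 0) 2 * pow (var 1) 2)
  wn := fun b => cond b
    (num (-3776400) * var 0 * var 1 * var 2 + num (-255384000) * pow (var 0) 2 * var 1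
       + num (-83462400) * pow (var 0) 2 * pow (var 1) 2)
    (num (-5887200) * var 0 * var 1 * var 2 + num (-382032000) * pow (var 0) 2 * var 1
       + num (-126451200) * pow (var 0) 2 * pow (var 1) 2)
  wd := (num 25000 * var 2 + num 1500000 * var 0 + num 1000000 * var 0 * var 1)
  tn := fun b => cond b
    (num 43956 * pow (var 2) 2 + num 7992000 * var 0 * var 2 + num (-639360) * var 0 * var 1 * var 2
       + num 249350400 * pow (var 0) 2 + num (-25574400) * pow (var 0) 2 * var 1)
    (num 38214 * pow (var 2) 2 + num 5836320 * var 0 * var 2 + num (-555840) * var 0 * var 1 * var 2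
       + num 150076800 * pow (var 0) 2 + num (-66700800) * pow (var 0) 2 * var 1)
  td := (num 33000 * pow (var 2) 2 + num 8640000 * var 0 * var 2 + num 792000 * var 0 * pow (var 2) 2
       + num (-480000) * var 0 * var 1 * var 2 + num (-1584000) * var 0 * var 1 * pow (var 2) 2
       + num 561600000 * pow (var 0) 2 + num 207360000 * pow (var 0) 2 * var 2
       + num (-57600000) * pow (var 0) 2 * var 1 + num (-426240000) * pow (var 0) 2 * var 1 * var 2
       + num 23040000 * pow (var 0) 2 * pow (var 1) 2 * var 2 + num 13478400000 * pow (var 0) 3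
       + num (-28339200000) * pow (var 0) 3 * var 1 + num 2764800000 * pow (var 0) 3 * pow (var 1) 2)
  cn := (num 1 + num (-1) * var 1 + num (-24) * var 0 * var 1 + num 48 * var 0 * pow (var 1) 2)
  cd := (num 1 + num (-96) * var 0 * var 1 + num 2304 * pow (var 0) 2 * pow (var 1) 2)
  kn := (num 408 * var 0 * var 1)
  kd := (var 2 + num 84 * var 0 + num 40 * var 0 * var 1)
  k2 := (5, 2)
  θ := (7, 13)

/-- Its ranges. -/
def bxC13 : EBox :=
  ⟨(5, 8, 960), (0, 2, 5), (0, 63, 200), (11, 15, 25)⟩

/-- The piece `C14`: D, `g` in (3/5, 4/5], `d` in (1/8, 1/5]. -/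
def pcC14 : Piece where
  I := (num 24 * var 0 * var 1)
  d := (num 24 * var 0)
  w := (var 2 * var 3 + num (-12) * var 0 + num 45 * var 0 * var 3 + num (-24) * var 0 * var 1
       + num 30 * var 0 * var 1 * var 3)
  o := (num 24 * var 0 * var 1)
  den := (var 2 + num 45 * var 0 + num 30 * var 0 * var 1)
  mu := ⟨(142, 100), (239, 100)⟩
  pn := fun b => cond b
    (num 500 * var 2 + num 22500 * var 0 + num 3000 * var 0 * var 1 + num (-22944) * var 0 * var 1 * var 2
       + num (-688320) * pow (var 0) 2 * var 1)
    (num 500 * var 2 + num 22500 * var 0 + num 3000 * var 0 * var 1 + num (-10224) * var 0 * var 1 * var 2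
       + num (-255600) * pow (var 0) 2 * var 1 + num 102240 * pow (var 0) 2 * pow (var 1) 2)
  pd := (num 500)
  en := fun b => cond b
    (num 245980 * var 2 + num 7379400 * var 0 + num 118070400 * var 0 * var 2
       + num 3542112000 * pow (var 0) 2 + num 708422400 * pow (var 0) 2 * var 1
       + num 51006412800 * pow (var 0) 3 * pow (var 1) 3)
    (num 123555 * var 2 + num 3088875 * var 0 + num 59306400 * var 0 * var 2
       + num (-1235550) * var 0 * var 1 + num 1482660000 * pow (var 0) 2
       + num (-118612800) * pow (var 0) 2 * var 1 + num 34160486400 * pow (var 0) 3 * pow (var 1) 3)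
  kk := fun b => cond b
    (num 23932800 * var 0 * var 2 + num 717984000 * pow (var 0) 2
       + num 1723161600 * pow (var 0) 2 * pow (var 1) 2 * var 2
       + num 51694848000 * pow (var 0) 3 * pow (var 1) 2)
    (num 12280320 * var 0 * var 2 + num 307008000 * pow (var 0) 2 + num (-122803200) * pow (var 0) 2 * var 1
       + num 884183040 * pow (var 0) 2 * pow (var 1) 2 * var 2
       + num 22104576000 * pow (var 0) 3 * pow (var 1) 2 + num (-8841830400) * pow (var 0) 3 * pow (var 1) 3)
  f0 := (num 2400000 * var 0 + num 172800000 * pow (var 0) 2 * pow (var 1) 2)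
  wn := fun b => cond b
    (num (-371760) * var 0 * var 1 * var 2 + num (-22489200) * pow (var 0) 2 * var 1
       + num (-4534560) * pow (var 0) 2 * pow (var 1) 2)
    (num (-921720) * var 0 * var 1 * var 2 + num (-47237400) * pow (var 0) 2 * var 1
       + num (-10138320) * pow (var 0) 2 * pow (var 1) 2)
  wd := (num 5000 * var 2 + num 225000 * var 0 + num 150000 * var 0 * var 1)
  tn := fun b => cond b
    (num 16392 * pow (var 2) 2 + num 2212920 * var 0 * var 2 + num (-163920) * var 0 * var 1 * var 2
       + num 51634800 * pow (var 0) 2 + num (-4917600) * pow (var 0) 2 * var 1)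
    (num 13908 * pow (var 2) 2 + num 1599420 * var 0 * var 2 + num (-139080) * var 0 * var 1 * var 2
       + num 31293000 * pow (var 0) 2 + num (-12517200) * pow (var 0) 2 * var 1)
  td := (num 12000 * pow (var 2) 2 + num 2340000 * var 0 * var 2 + num 288000 * var 0 * pow (var 2) 2
       + num (-120000) * var 0 * var 1 * var 2 + num (-576000) * var 0 * var 1 * pow (var 2) 2
       + num 113400000 * pow (var 0) 2 + num 56160000 * pow (var 0) 2 * var 2
       + num (-10800000) * pow (var 0) 2 * var 1 + num (-115200000) * pow (var 0) 2 * var 1 * var 2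
       + num 5760000 * pow (var 0) 2 * pow (var 1) 2 * var 2 + num 2721600000 * pow (var 0) 3
       + num (-5702400000) * pow (var 0) 3 * var 1 + num 518400000 * pow (var 0) 3 * pow (var 1) 2)
  cn := (num 1 + num (-1) * var 1 + num (-24) * var 0 * var 1 + num 48 * var 0 * pow (var 1) 2)
  cd := (num 1 + num (-96) * var 0 * var 1 + num 2304 * pow (var 0) 2 * pow (var 1) 2)
  kn := (num 216 * var 0 * var 1)
  kd := (var 2 + num 45 * var 0 + num 6 * var 0 * var 1)
  k2 := (17, 10)
  θ := (5, 14)

/-- Its ranges. -/
def bxC14 : EBox :=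
  ⟨(5, 8, 960), (0, 2, 5), (0, 28, 125), (3, 4, 5)⟩

/-- The piece `C15`: D, `g` in (4/5, 22/25], `d` in (1/8, 1/5]. -/
def pcC15 : Piece where
  I := (num 24 * var 0 * var 1)
  d := (num 24 * var 0)
  w := (var 2 * var 3 + num (-12) * var 0 + num 40 * var 0 * var 3 + num (-24) * var 0 * var 1
       + num 27 * var 0 * var 1 * var 3)
  o := (num 24 * var 0 * var 1)
  den := (var 2 + num 40 * var 0 + num 27 * var 0 * var 1)
  mu := ⟨(142, 100), (239, 100)⟩
  pn := fun b => cond b
    (num 2500 * var 2 + num 100000 * var 0 + num 7500 * var 0 * var 1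
       + num (-126192) * var 0 * var 1 * var 2 + num (-3326880) * pow (var 0) 2 * var 1
       + num 34416 * pow (var 0) 2 * pow (var 1) 2)
    (num 2500 * var 2 + num 100000 * var 0 + num 7500 * var 0 * var 1 + num (-68160) * var 0 * var 1 * var 2
       + num (-1704000) * pow (var 0) 2 * var 1 + num 204480 * pow (var 0) 2 * pow (var 1) 2)
  pd := (num 2500)
  en := fun b => cond b
    (num 1357510 * var 2 + num 35788900 * var 0 + num 651604800 * var 0 * var 2
       + num (-370230) * var 0 * var 1 + num 17178672000 * pow (var 0) 2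
       + num 3376497600 * pow (var 0) 2 * var 1 + num 255902976000 * pow (var 0) 3 * pow (var 1) 3)
    (num 823700 * var 2 + num 20592500 * var 0 + num 395376000 * var 0 * var 2
       + num (-2471100) * var 0 * var 1 + num 9884400000 * pow (var 0) 2
       + num 1186128000 * pow (var 0) 2 * var 1 + num 170802432000 * pow (var 0) 3 * pow (var 1) 3)
  kk := fun b => cond b
    (num 132549120 * var 0 * var 2 + num 3494476800 * pow (var 0) 2
       + num (-36149760) * pow (var 0) 2 * var 1 + num 9543536640 * pow (var 0) 2 * pow (var 1) 2 * var 2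
       + num 251602329600 * pow (var 0) 3 * pow (var 1) 2 + num (-2602782720) * pow (var 0) 3 * pow (var 1) 3)
    (num 81868800 * var 0 * var 2 + num 2046720000 * pow (var 0) 2
       + num (-245606400) * pow (var 0) 2 * var 1 + num 5894553600 * pow (var 0) 2 * pow (var 1) 2 * var 2
       + num 147363840000 * pow (var 0) 3 * pow (var 1) 2
       + num (-17683660800) * pow (var 0) 3 * pow (var 1) 3)
  f0 := (num 12000000 * var 0 + num 864000000 * pow (var 0) 2 * pow (var 1) 2)
  wn := fun b => cond b
    (num (-1141200) * var 0 * var 1 * var 2 + num (-74448000) * pow (var 0) 2 * var 1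
       + num (-10335600) * pow (var 0) 2 * pow (var 1) 2)
    (num (-3277200) * var 0 * var 1 * var 2 + num (-159888000) * pow (var 0) 2 * var 1
       + num (-21351600) * pow (var 0) 2 * pow (var 1) 2)
  wd := (num 25000 * var 2 + num 1000000 * var 0 + num 675000 * var 0 * var 1)
  tn := fun b => cond b
    (num 122408 * pow (var 2) 2 + num 13631800 * var 0 * var 2 + num (-400608) * var 0 * var 1 * var 2
       + num 274305200 * pow (var 0) 2 + num (-12519000) * pow (var 0) 2 * var 1
       + num 100152 * pow (var 0) 2 * pow (var 1) 2)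
    (num 102696 * pow (var 2) 2 + num 10876440 * var 0 * var 2 + num (-336096) * var 0 * var 1 * var 2
       + num 207726000 * pow (var 0) 2 + num (-25627320) * pow (var 0) 2 * var 1
       + num 84024 * pow (var 0) 2 * pow (var 1) 2)
  td := (num 88000 * pow (var 2) 2 + num 14600000 * var 0 * var 2 + num 2112000 * var 0 * pow (var 2) 2
       + num (-288000) * var 0 * var 1 * var 2 + num (-4224000) * var 0 * var 1 * pow (var 2) 2
       + num 605200000 * pow (var 0) 2 + num 350400000 * pow (var 0) 2 * var 2
       + num (-23400000) * pow (var 0) 2 * var 1 + num (-707712000) * pow (var 0) 2 * var 1 * var 2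
       + num 72000 * pow (var 0) 2 * pow (var 1) 2 + num 13824000 * pow (var 0) 2 * pow (var 1) 2 * var 2
       + num 14524800000 * pow (var 0) 3 + num (-29611200000) * pow (var 0) 3 * var 1
       + num 1124928000 * pow (var 0) 3 * pow (var 1) 2 + num (-3456000) * pow (var 0) 3 * pow (var 1) 3)
  cn := (num 1 + num (-1) * var 1 + num (-24) * var 0 * var 1 + num 48 * var 0 * pow (var 1) 2)
  cd := (num 1 + num (-96) * var 0 * var 1 + num 2304 * pow (var 0) 2 * pow (var 1) 2)
  kn := (num 144 * var 0 * var 1)
  kd := (var 2 + num 40 * var 0 + num 3 * var 0 * var 1)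
  k2 := (11, 10)
  θ := (1, 6)

/-- Its ranges. -/
def bxC15 : EBox :=
  ⟨(5, 8, 960), (0, 2, 5), (0, 127, 1000), (20, 22, 25)⟩

/-- The piece `C16`: D, `g` in (22/25, 24/25], `d` in (1/8, 1/5]. -/
def pcC16 : Piece where
  I := (num 24 * var 0 * var 1)
  d := (num 24 * var 0)
  w := (var 2 * var 3 + num (-12) * var 0 + num 37 * var 0 * var 3 + num (-24) * var 0 * var 1
       + num 25 * var 0 * var 1 * var 3)
  o := (num 24 * var 0 * var 1)
  den := (var 2 + num 37 * var 0 + num 25 * var 0 * var 1)
  mu := ⟨(142, 100), (239, 100)⟩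
  pn := fun b => cond b
    (num 2500 * var 2 + num 92500 * var 0 + num 2500 * var 0 * var 1 + num (-137664) * var 0 * var 1 * var 2
       + num (-3372768) * pow (var 0) 2 * var 1)
    (num 2500 * var 2 + num 92500 * var 0 + num 2500 * var 0 * var 1 + num (-74976) * var 0 * var 1 * var 2
       + num (-1751712) * pow (var 0) 2 * var 1 + num 170400 * pow (var 0) 2 * pow (var 1) 2)
  pd := (num 2500)
  en := fun b => cond b
    (num 7419000 * var 2 + num 181765500 * var 0 + num 3561120000 * var 0 * var 2
       + num 87247440000 * pow (var 0) 2 + num 17805600000 * pow (var 0) 2 * var 1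
       + num 1282003200000 * pow (var 0) 3 * pow (var 1) 3)
    (num 4530350 * var 2 + num 105845450 * var 0 + num 2174568000 * var 0 * var 2
       + num (-10296250) * var 0 * var 1 + num 50805816000 * pow (var 0) 2
       + num 6919080000 * pow (var 0) 2 * var 1 + num 854012160000 * pow (var 0) 3 * pow (var 1) 3)
  kk := fun b => cond b
    (num 726220800 * var 0 * var 2 + num 17792409600 * pow (var 0) 2
       + num 52287897600 * pow (var 0) 2 * pow (var 1) 2 * var 2
       + num 1281053491200 * pow (var 0) 3 * pow (var 1) 2)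
    (num 450278400 * var 0 * var 2 + num 10520140800 * pow (var 0) 2
       + num (-1023360000) * pow (var 0) 2 * var 1 + num 32420044800 * pow (var 0) 2 * pow (var 1) 2 * var 2
       + num 757450137600 * pow (var 0) 3 * pow (var 1) 2
       + num (-73681920000) * pow (var 0) 3 * pow (var 1) 3)
  f0 := (num 60000000 * var 0 + num 4320000000 * pow (var 0) 2 * pow (var 1) 2)
  wn := fun b => cond b
    (num (-256800) * var 0 * var 1 * var 2 + num (-38301600) * pow (var 0) 2 * var 1
       + num (-2560800) * pow (var 0) 2 * pow (var 1) 2)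
    (num (-2877600) * var 0 * var 1 * var 2 + num (-135271200) * pow (var 0) 2 * var 1
       + num (-9789600) * pow (var 0) 2 * pow (var 1) 2)
  wd := (num 25000 * var 2 + num 925000 * var 0 + num 625000 * var 0 * var 1)
  tn := fun b => cond b
    (num 743952 * pow (var 2) 2 + num 76187448 * var 0 * var 2 + num (-1690800) * var 0 * var 1 * var 2
       + num 1420035288 * pow (var 0) 2 + num (-41424600) * pow (var 0) 2 * var 1)
    (num 616704 * pow (var 2) 2 + num 60352896 * var 0 * var 2 + num (-1401600) * var 0 * var 1 * var 2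
       + num 1073429376 * pow (var 0) 2 + num (-104419200) * pow (var 0) 2 * var 1)
  td := (num 528000 * pow (var 2) 2 + num 80472000 * var 0 * var 2 + num 12672000 * var 0 * pow (var 2) 2
       + num (-1200000) * var 0 * var 1 * var 2 + num (-25344000) * var 0 * var 1 * pow (var 2) 2
       + num 3064632000 * pow (var 0) 2 + num 1931328000 * pow (var 0) 2 * var 2
       + num (-89400000) * pow (var 0) 2 * var 1 + num (-3891456000) * pow (var 0) 2 * var 1 * var 2
       + num 57600000 * pow (var 0) 2 * pow (var 1) 2 * var 2 + num 73551168000 * pow (var 0) 3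
       + num (-149247936000) * pow (var 0) 3 * var 1 + num 4291200000 * pow (var 0) 3 * pow (var 1) 2)
  cn := (num 1 + num (-1) * var 1 + num (-24) * var 0 * var 1 + num 48 * var 0 * pow (var 1) 2)
  cd := (num 1 + num (-96) * var 0 * var 1 + num 2304 * pow (var 0) 2 * pow (var 1) 2)
  kn := (num 144 * var 0 * var 1)
  kd := (var 2 + num 37 * var 0 + var 0 * var 1)
  k2 := (15, 16)
  θ := (1, 6)

/-- Its ranges. -/
def bxC16 : EBox :=
  ⟨(5, 8, 960), (0, 2, 5), (0, 111, 1000), (22, 24, 25)⟩

end Vale.Agent.P100.Calib.StripEnd
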