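import Vale.Agent.P100.Calib.SlabStripEndCertSmall

/-!
# The pieces of the charts `I` for `u` near one: `IA` to `IC`
-/

namespace Vale.Agent.P100.Calib.StripEnd

open Pack Pack.Ex

local instance endPcsIAAdd : Add Ex := ⟨Ex.add⟩
local instance endPcsIASub : Sub Ex := ⟨Ex.sub⟩
local instance endPcsIAMul : Mul Ex := ⟨Ex.mul⟩

/-- The piece `IAta`. -/
def pcIAta : Piece where
  I := (var 0 * (num 1))
  d := (var 0 * (var 2 * (num 1)))
  w := (var 0 * (var 1 * (num 1)))
  o := (((num 1000) + (var 3 * (num (-523)))) + (var 1 * ((num (-929)) + (var 3 * (num 484)))))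
  den := (num 1000)
  pd := (num 100)
  f0 := ((var 2 * (num 200000)) + (var 0 * (num 600000)))
  wd := (num 200000)
  td := ((var 2 * (var 3 * (num 1046))) + (var 1 * ((num 1000) + (var 2 * ((num 1858) + (var 3 * (num (-968))))))))
  cn := (num 0)
  cd := (num 1)
  kn := ((var 0 * ((var 2 * (var 3 * (num 4931890))) + (var 1 * ((num 6900000) + (var 2 * ((num 8760470) + (var 3 * (num (-4564120))))))))) + ((pow (var 0) 2) * ((var 3 * (num 14795670)) + (var 1 * ((num 26281410) + (var 3 * (num (-13692360))))))))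
  kd := (((var 1 * (var 3 * (num 130750))) + ((pow (var 1) 2) * ((num 232250) + (var 3 * (num (-121000)))))) + ((var 0 * ((var 2 * ((pow (var 3) 2) * (num 273529))) + ((var 1 * (var 2 * ((var 3 * (num 971734)) + ((pow (var 3) 2) * (num (-506264)))))) + ((pow (var 1) 2) * (var 2 * ((num 863041) + ((var 3 * (num (-899272))) + ((pow (var 3) 2) * (num 234256))))))))) + ((pow (var 0) 2) * (((pow (var 3) 2) * (num 820587)) + ((var 1 * ((var 3 * (num 2915202)) + ((pow (var 3) 2) * (num (-1518792))))) + ((pow (var 1) 2) * ((num 2589123) + ((var 3 * (num (-2697816))) + ((pow (var 3) 2) * (num 702768))))))))))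
  pn b := cond b (((var 3 * (num 52300)) + (var 1 * ((num 92900) + (var 3 * (num (-48400)))))) + (var 0 * ((var 1 * ((num (-208000)) + (var 3 * (num 108784)))) + ((pow (var 1) 2) * ((num 193232) + (var 3 * (num (-100672)))))))) (((var 3 * (num 52300)) + (var 1 * ((num 92900) + (var 3 * (num (-48400)))))) + (var 0 * ((var 1 * ((num (-179000)) + (var 3 * (num 93617)))) + ((pow (var 1) 2) * ((num 166291) + (var 3 * (num (-86636))))))))
  en b := cond b ((var 1 * (num 879250)) + ((var 0 * ((var 2 * (var 3 * (num 1839391))) + (var 1 * (var 2 * ((num 20852293) + (var 3 * (num (-1702228)))))))) + ((pow (var 0) 2) * ((var 3 * (num 5518173)) + (var 1 * ((num 9801879) + (var 3 * (num (-5106684))))))))) ((var 1 * (num 559750)) + ((var 0 * ((var 2 * (var 3 * (num 1170997))) + (var 1 * (var 2 * ((num 13275031) + (var 3 * (num (-1083676)))))))) + ((pow (var 0) 2) * ((var 3 * (num 3512991)) + (var 1 * ((num 6240093) + (var 3 * (num (-3251028)))))))))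
  kk b := cond b ((var 0 * (var 1 * (var 2 * (num 561000)))) + ((pow (var 0) 2) * (var 1 * (num 1683000)))) ((var 0 * (var 1 * (var 2 * (num (-80000))))) + ((pow (var 0) 2) * (var 1 * (num (-240000)))))
  wn b := cond b (var 0 * ((var 3 * (num (-836277))) + ((var 1 * ((num (-313871)) + (var 3 * (num 355516)))) + ((pow (var 1) 2) * ((num (-743200)) + (var 3 * (num 387200))))))) (var 0 * ((var 3 * (num (-1046523))) + ((var 1 * ((num (-687329)) + (var 3 * (num 550084)))) + ((pow (var 1) 2) * ((num (-743200)) + (var 3 * (num 387200)))))))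
  tn b := cond b (var 1 * (num 1115)) (var 1 * (num 995))
  mu := ⟨(179, 100), (208, 100)⟩
  k2 := (29, 80)
  θ := (149, 500)

/-- Its ranges. -/
def bxIAta : EBox := ⟨(0, 1, 20), (0, 1, 20), (0, 3, 20), (0, 1, 2)⟩

/-- The piece `IAtb`. -/
def pcIAtb : Piece where
  I := (var 0 * (num 1))
  d := (var 0 * (var 2 * (num 1)))
  w := (var 0 * (var 1 * (num 1)))
  o := (((num 1000) + (var 3 * (num (-523)))) + (var 1 * ((num (-929)) + (var 3 * (num 484)))))
  den := (num 1000)
  pd := (num 100)
  f0 := ((var 2 * (num 200000)) + (var 0 * (num 600000)))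
  wd := (num 200000)
  td := ((var 2 * (var 3 * (num 1046))) + (var 1 * ((num 1000) + (var 2 * ((num 1858) + (var 3 * (num (-968))))))))
  cn := (num 0)
  cd := (num 1)
  kn := (var 0 * ((var 3 * (num 4184000)) + (var 1 * ((num 15432000) + (var 3 * (num (-3872000)))))))
  kd := (((var 1 * (var 3 * (num 130750))) + ((pow (var 1) 2) * ((num 232250) + (var 3 * (num (-121000)))))) + (var 0 * (((pow (var 3) 2) * (num 273529)) + ((var 1 * ((var 3 * (num 971734)) + ((pow (var 3) 2) * (num (-506264))))) + ((pow (var 1) 2) * ((num 863041) + ((var 3 * (num (-899272))) + ((pow (var 3) 2) * (num 234256)))))))))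
  pn b := cond b (((var 3 * (num 52300)) + (var 1 * ((num 92900) + (var 3 * (num (-48400)))))) + (var 0 * ((var 1 * ((num (-208000)) + (var 3 * (num 108784)))) + ((pow (var 1) 2) * ((num 193232) + (var 3 * (num (-100672)))))))) (((var 3 * (num 52300)) + (var 1 * ((num 92900) + (var 3 * (num (-48400)))))) + (var 0 * ((var 1 * ((num (-179000)) + (var 3 * (num 93617)))) + ((pow (var 1) 2) * ((num 166291) + (var 3 * (num (-86636))))))))
  en b := cond b ((var 1 * (num 879250)) + ((var 0 * ((var 2 * (var 3 * (num 1839391))) + (var 1 * (var 2 * ((num 20852293) + (var 3 * (num (-1702228)))))))) + ((pow (var 0) 2) * ((var 3 * (num 5518173)) + (var 1 * ((num 9801879) + (var 3 * (num (-5106684))))))))) ((var 1 * (num 559750)) + ((var 0 * ((var 2 * (var 3 * (num 1170997))) + (var 1 * (var 2 * ((num 13275031) + (var 3 * (num (-1083676)))))))) + ((pow (var 0) 2) * ((var 3 * (num 3512991)) + (var 1 * ((num 6240093) + (var 3 * (num (-3251028)))))))))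
  kk b := cond b ((var 0 * (var 1 * (var 2 * (num 561000)))) + ((pow (var 0) 2) * (var 1 * (num 1683000)))) ((var 0 * (var 1 * (var 2 * (num (-80000))))) + ((pow (var 0) 2) * (var 1 * (num (-240000)))))
  wn b := cond b (var 0 * ((var 3 * (num (-836277))) + ((var 1 * ((num (-313871)) + (var 3 * (num 355516)))) + ((pow (var 1) 2) * ((num (-743200)) + (var 3 * (num 387200))))))) (var 0 * ((var 3 * (num (-1046523))) + ((var 1 * ((num (-687329)) + (var 3 * (num 550084)))) + ((pow (var 1) 2) * ((num (-743200)) + (var 3 * (num 387200)))))))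
  tn b := cond b (var 1 * (num 1115)) (var 1 * (num 995))
  mu := ⟨(179, 100), (208, 100)⟩
  k2 := (137, 500)
  θ := (77, 500)

/-- Its ranges. -/
def bxIAtb : EBox := ⟨(0, 1, 20), (0, 1, 20), (0, 3, 20), (1, 2, 2)⟩

/-- The piece `IAu`. -/
def pcIAu : Piece where
  I := (var 0 * (num 1))
  d := (var 0 * (var 2 * (num 1)))
  w := (var 0 * (var 1 * (num 1)))
  o := (((num 978) + (var 3 * (num (-555)))) + (var 1 * ((num (-470)) + (var 3 * (num 266)))))
  den := (num 1000)
  pd := (num 100)
  f0 := ((var 2 * (num 200000)) + (var 0 * (num 600000)))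
  wd := (num 200000)
  td := ((var 2 * ((num 44) + (var 3 * (num 1110)))) + (var 1 * ((num 1000) + (var 2 * ((num 940) + (var 3 * (num (-532))))))))
  cn := (num 0)
  cd := (num 1)
  kn := (var 0 * (((num 143000) + (var 3 * (num 3607500))) + (var 1 * ((num 9555000) + (var 3 * (num (-1729000)))))))
  kd := (((var 1 * ((num 5500) + (var 3 * (num 138750)))) + ((pow (var 1) 2) * ((num 117500) + (var 3 * (num (-66500)))))) + (var 0 * (((num 484) + ((var 3 * (num 24420)) + ((pow (var 3) 2) * (num 308025)))) + ((var 1 * ((num 20680) + ((var 3 * (num 509996)) + ((pow (var 3) 2) * (num (-295260)))))) + ((pow (var 1) 2) * ((num 220900) + ((var 3 * (num (-250040))) + ((pow (var 3) 2) * (num 70756)))))))))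
  pn b := cond b ((((num 2200) + (var 3 * (num 55500))) + (var 1 * ((num 47000) + (var 3 * (num (-26600)))))) + (var 0 * ((var 1 * ((num (-203424)) + (var 3 * (num 115440)))) + ((pow (var 1) 2) * ((num 97760) + (var 3 * (num (-55328)))))))) ((((num 2200) + (var 3 * (num 55500))) + (var 1 * ((num 47000) + (var 3 * (num (-26600)))))) + (var 0 * ((var 1 * ((num (-175062)) + (var 3 * (num 99345)))) + ((pow (var 1) 2) * ((num 84130) + (var 3 * (num (-47614))))))))
  en b := cond b ((var 1 * (num 778000)) + ((var 0 * ((var 2 * ((num 68464) + (var 3 * (num 1727160)))) + (var 1 * (var 2 * ((num 17022640) + (var 3 * (num (-827792)))))))) + ((pow (var 0) 2) * (((num 205392) + (var 3 * (num 5181480))) + (var 1 * ((num 4387920) + (var 3 * (num (-2483376))))))))) ((var 1 * (num 559750)) + ((var 0 * ((var 2 * ((num 49258) + (var 3 * (num 1242645)))) + (var 1 * (var 2 * ((num 12247330) + (var 3 * (num (-595574)))))))) + ((pow (var 0) 2) * (((num 147774) + (var 3 * (num 3727935))) + (var 1 * ((num 3156990) + (var 3 * (num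 (-1786722)))))))))
  kk b := cond b ((var 0 * (var 1 * (var 2 * (num 561000)))) + ((pow (var 0) 2) * (var 1 * (num 1683000)))) ((var 0 * (var 1 * (var 2 * (num (-80000))))) + ((pow (var 0) 2) * (var 1 * (num (-240000)))))
  wn b := cond b (var 0 * (((num (-27060)) + (var 3 * (num (-904650)))) + ((var 1 * ((num 204300) + (var 3 * (num (-10420))))) + ((pow (var 1) 2) * ((num (-376000)) + (var 3 * (num 212800))))))) (var 0 * (((num (-35838)) + (var 3 * (num (-1126095)))) + ((var 1 * ((num 16770) + (var 3 * (num 95714)))) + ((pow (var 1) 2) * ((num (-376000)) + (var 3 * (num 212800)))))))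
  tn b := cond b (var 1 * (num 1115)) (var 1 * (num 995))
  mu := ⟨(179, 100), (208, 100)⟩
  k2 := (263, 2000)
  θ := (17, 200)

/-- Its ranges. -/
def bxIAu : EBox := ⟨(0, 1, 20), (1, 20, 20), (0, 3, 20), (0, 1, 1)⟩

/-- The piece `IBta`. -/
def pcIBta : Piece where
  I := (var 0 * (num 1))
  d := (var 0 * (var 2 * (num 1)))
  w := (var 0 * (var 1 * (num 1)))
  o := (((num 1000) + (var 3 * (num (-542)))) + (var 1 * ((num (-929)) + (var 3 * (num 502)))))
  den := (num 1000)
  pd := (num 50)
  f0 := ((var 2 * (num 200000)) + (var 0 * (num 600000)))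
  wd := (num 200000)
  td := ((var 2 * (var 3 * (num 1084))) + (var 1 * ((num 1000) + (var 2 * ((num 1858) + (var 3 * (num (-1004))))))))
  cn := (num 0)
  cd := (num 1)
  kn := (var 0 * ((var 3 * (num 5420000)) + (var 1 * ((num 19290000) + (var 3 * (num (-5020000)))))))
  kd := (((var 1 * (var 3 * (num 135500))) + ((pow (var 1) 2) * ((num 232250) + (var 3 * (num (-125500)))))) + (var 0 * (((pow (var 3) 2) * (num 293764)) + ((var 1 * ((var 3 * (num 1007036)) + ((pow (var 3) 2) * (num (-544168))))) + ((pow (var 1) 2) * ((num 863041) + ((var 3 * (num (-932716))) + ((pow (var 3) 2) * (num 252004)))))))))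
  pn b := cond b (((var 3 * (num 27100)) + (var 1 * ((num 46450) + (var 3 * (num (-25100)))))) + (var 0 * ((var 1 * ((num (-109000)) + (var 3 * (num 59078)))) + ((pow (var 1) 2) * ((num 101261) + (var 3 * (num (-54718)))))))) (((var 3 * (num 27100)) + (var 1 * ((num 46450) + (var 3 * (num (-25100)))))) + (var 0 * ((var 1 * ((num (-89000)) + (var 3 * (num 48238)))) + ((pow (var 1) 2) * ((num 82681) + (var 3 * (num (-44678))))))))
  en b := cond b ((var 1 * (num 877750)) + ((var 0 * ((var 2 * (var 3 * (num 1902962))) + (var 1 * (var 2 * ((num 20816719) + (var 3 * (num (-1762522)))))))) + ((pow (var 0) 2) * ((var 3 * (num 5708886)) + (var 1 * ((num 9785157) + (var 3 * (num (-5287566))))))))) ((var 1 * (num 559750)) + ((var 0 * ((var 2 * (var 3 * (num 1213538))) + (var 1 * (var 2 * ((num 13275031) + (var 3 * (num (-1123978)))))))) + ((pow (var 0) 2) * ((var 3 * (num 3640614)) + (var 1 * ((num 6240093) + (var 3 * (num (-3371934)))))))))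
  kk b := cond b ((var 0 * (var 1 * (var 2 * (num 791000)))) + ((pow (var 0) 2) * (var 1 * (num 2373000)))) ((var 0 * (var 1 * (var 2 * (num 332000)))) + ((pow (var 0) 2) * (var 1 * (num 996000))))
  wn b := cond b (var 0 * ((var 3 * (num (-866658))) + ((var 1 * ((num (-128071)) + (var 3 * (num 369098)))) + ((pow (var 1) 2) * ((num (-743200)) + (var 3 * (num 401600))))))) (var 0 * ((var 3 * (num (-1192942))) + ((var 1 * ((num (-687329)) + (var 3 * (num 671302)))) + ((pow (var 1) 2) * ((num (-743200)) + (var 3 * (num 401600)))))))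
  tn b := cond b (var 1 * (num 1105)) (var 1 * (num 995))
  mu := ⟨(178, 100), (218, 100)⟩
  k2 := (31, 100)
  θ := (329, 2000)

/-- Its ranges. -/
def bxIBta : EBox := ⟨(0, 1, 20), (0, 1, 20), (3, 10, 20), (0, 1, 2)⟩

/-- The piece `IBtb`. -/
def pcIBtb : Piece where
  I := (var 0 * (num 1))
  d := (var 0 * (var 2 * (num 1)))
  w := (var 0 * (var 1 * (num 1)))
  o := (((num 1000) + (var 3 * (num (-542)))) + (var 1 * ((num (-929)) + (var 3 * (num 502)))))
  den := (num 1000)
  pd := (num 50)
  f0 := ((var 2 * (num 200000)) + (var 0 * (num 600000)))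
  wd := (num 200000)
  td := ((var 2 * (var 3 * (num 1084))) + (var 1 * ((num 1000) + (var 2 * ((num 1858) + (var 3 * (num (-1004))))))))
  cn := (num 0)
  cd := (num 1)
  kn := (var 0 * ((var 3 * (num 4607000)) + (var 1 * ((num 16396500) + (var 3 * (num (-4267000)))))))
  kd := (((var 1 * (var 3 * (num 135500))) + ((pow (var 1) 2) * ((num 232250) + (var 3 * (num (-125500)))))) + (var 0 * (((pow (var 3) 2) * (num 293764)) + ((var 1 * ((var 3 * (num 1007036)) + ((pow (var 3) 2) * (num (-544168))))) + ((pow (var 1) 2) * ((num 863041) + ((var 3 * (num (-932716))) + ((pow (var 3) 2) * (num 252004)))))))))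
  pn b := cond b (((var 3 * (num 27100)) + (var 1 * ((num 46450) + (var 3 * (num (-25100)))))) + (var 0 * ((var 1 * ((num (-109000)) + (var 3 * (num 59078)))) + ((pow (var 1) 2) * ((num 101261) + (var 3 * (num (-54718)))))))) (((var 3 * (num 27100)) + (var 1 * ((num 46450) + (var 3 * (num (-25100)))))) + (var 0 * ((var 1 * ((num (-89000)) + (var 3 * (num 48238)))) + ((pow (var 1) 2) * ((num 82681) + (var 3 * (num (-44678))))))))
  en b := cond b ((var 1 * (num 877750)) + ((var 0 * ((var 2 * (var 3 * (num 1902962))) + (var 1 * (var 2 * ((num 20816719) + (var 3 * (num (-1762522)))))))) + ((pow (var 0) 2) * ((var 3 * (num 5708886)) + (var 1 * ((num 9785157) + (var 3 * (num (-5287566))))))))) ((var 1 * (num 559750)) + ((var 0 * ((var 2 * (var 3 * (num 1213538))) + (var 1 * (var 2 * ((num 13275031) + (var 3 * (num (-1123978)))))))) + ((pow (var 0) 2) * ((var 3 * (num 3640614)) + (var 1 * ((num 6240093) + (var 3 * (num (-3371934)))))))))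
  kk b := cond b ((var 0 * (var 1 * (var 2 * (num 791000)))) + ((pow (var 0) 2) * (var 1 * (num 2373000)))) ((var 0 * (var 1 * (var 2 * (num 332000)))) + ((pow (var 0) 2) * (var 1 * (num 996000))))
  wn b := cond b (var 0 * ((var 3 * (num (-866658))) + ((var 1 * ((num (-128071)) + (var 3 * (num 369098)))) + ((pow (var 1) 2) * ((num (-743200)) + (var 3 * (num 401600))))))) (var 0 * ((var 3 * (num (-1192942))) + ((var 1 * ((num (-687329)) + (var 3 * (num 671302)))) + ((pow (var 1) 2) * ((num (-743200)) + (var 3 * (num 401600)))))))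
  tn b := cond b (var 1 * (num 1105)) (var 1 * (num 995))
  mu := ⟨(178, 100), (218, 100)⟩
  k2 := (93, 100)
  θ := (7, 40)

/-- Its ranges. -/
def bxIBtb : EBox := ⟨(0, 1, 20), (0, 1, 20), (3, 10, 20), (1, 2, 2)⟩

/-- The piece `IBu`. -/
def pcIBu : Piece where
  I := (var 0 * (num 1))
  d := (var 0 * (var 2 * (num 1)))
  w := (var 0 * (var 1 * (num 1)))
  o := (((num 978) + (var 3 * (num (-572)))) + (var 1 * ((num (-470)) + (var 3 * (num 274)))))
  den := (num 1000)
  pd := (num 25)
  f0 := ((var 2 * (num 100000)) + (var 0 * (num 300000)))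
  wd := (num 100000)
  td := ((var 2 * ((num 44) + (var 3 * (num 1144)))) + (var 1 * ((num 1000) + (var 2 * ((num 940) + (var 3 * (num (-548))))))))
  cn := (num 0)
  cd := (num 1)
  kn := (var 0 * (((num 41250) + (var 3 * (num 1072500))) + (var 1 * ((num 2756250) + (var 3 * (num (-513750)))))))
  kd := (((var 1 * ((num 1375) + (var 3 * (num 35750)))) + ((pow (var 1) 2) * ((num 29375) + (var 3 * (num (-17125)))))) + (var 0 * (((num 121) + ((var 3 * (num 6292)) + ((pow (var 3) 2) * (num 81796)))) + ((var 1 * ((num 5170) + ((var 3 * (num 131406)) + ((pow (var 3) 2) * (num (-78364)))))) + ((pow (var 1) 2) * ((num 55225) + ((var 3 * (num (-64390))) + ((pow (var 3) 2) * (num 18769)))))))))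
  pn b := cond b ((((num 550) + (var 3 * (num 14300))) + (var 1 * ((num 11750) + (var 3 * (num (-6850)))))) + (var 0 * ((var 1 * ((num (-53301)) + (var 3 * (num 31174)))) + ((pow (var 1) 2) * ((num 25615) + (var 3 * (num (-14933)))))))) ((((num 550) + (var 3 * (num 14300))) + (var 1 * ((num 11750) + (var 3 * (num (-6850)))))) + (var 0 * ((var 1 * ((num (-43521)) + (var 3 * (num 25454)))) + ((pow (var 1) 2) * ((num 20915) + (var 3 * (num (-12193))))))))
  en b := cond b ((var 1 * (num 402000)) + ((var 0 * ((var 2 * ((num 35376) + (var 3 * (num 919776)))) + (var 1 * (var 2 * ((num 8795760) + (var 3 * (num (-440592)))))))) + ((pow (var 0) 2) * (((num 106128) + (var 3 * (num 2759328))) + (var 1 * ((num 2267280) + (var 3 * (num (-1321776))))))))) ((var 1 * (num 279875)) + ((var 0 * ((var 2 * ((num 24629) + (var 3 * (num 640354)))) + (var 1 * (var 2 * ((num 6123665) + (var 3 * (num (-306743)))))))) + ((pow (var 0) 2) * (((num 73887) + (var 3 * (num 1921062))) + (var 1 * ((num 1578495) + (var 3 * (num (-920229)))))))))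
  kk b := cond b ((var 0 * (var 1 * (var 2 * (num 394500)))) + ((pow (var 0) 2) * (var 1 * (num 1183500)))) ((var 0 * (var 1 * (var 2 * (num 165500)))) + ((pow (var 0) 2) * (var 1 * (num 496500))))
  wn b := cond b (var 0 * (((num (-11495)) + (var 3 * (num (-470470)))) + ((var 1 * ((num 145625) + (var 3 * (num (-3435))))) + ((pow (var 1) 2) * ((num (-188000)) + (var 3 * (num 109600))))))) (var 0 * (((num (-17611)) + (var 3 * (num (-629486)))) + ((var 1 * ((num 14965) + (var 3 * (num 72737)))) + ((pow (var 1) 2) * ((num (-188000)) + (var 3 * (num 109600)))))))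
  tn b := cond b (var 1 * (num 1110)) (var 1 * (num 995))
  mu := ⟨(178, 100), (218, 100)⟩
  k2 := (393, 2000)
  θ := (23, 250)

/-- Its ranges. -/
def bxIBu : EBox := ⟨(0, 1, 20), (1, 20, 20), (3, 10, 20), (0, 1, 1)⟩

/-- The piece `ICta`. -/
def pcICta : Piece where
  I := (var 0 * (num 1))
  d := (var 0 * (var 2 * (num 1)))
  w := (var 0 * (var 1 * (num 1)))
  o := (((num 1000) + (var 3 * (num (-560)))) + (var 1 * ((num (-929)) + (var 3 * (num 519)))))
  den := (num 1000)
  pd := (num 100)
  f0 := ((var 2 * (num 200000)) + (var 0 * (num 600000)))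
  wd := (num 200000)
  td := ((var 2 * (var 3 * (num 1120))) + (var 1 * ((num 1000) + (var 2 * ((num 1858) + (var 3 * (num (-1038))))))))
  cn := (num 0)
  cd := (num 1)
  kn := (var 0 * ((var 3 * (num 6720000)) + (var 1 * ((num 23148000) + (var 3 * (num (-6228000)))))))
  kd := (((var 1 * (var 3 * (num 140000))) + ((pow (var 1) 2) * ((num 232250) + (var 3 * (num (-129750)))))) + (var 0 * (((pow (var 3) 2) * (num 313600)) + ((var 1 * ((var 3 * (num 1040480)) + ((pow (var 3) 2) * (num (-581280))))) + ((pow (var 1) 2) * ((num 863041) + ((var 3 * (num (-964302))) + ((pow (var 3) 2) * (num 269361)))))))))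
  pn b := cond b (((var 3 * (num 56000)) + (var 1 * ((num 92900) + (var 3 * (num (-51900)))))) + (var 0 * ((var 1 * ((num (-227000)) + (var 3 * (num 127120)))) + ((pow (var 1) 2) * ((num 210883) + (var 3 * (num (-117813)))))))) (((var 3 * (num 56000)) + (var 1 * ((num 92900) + (var 3 * (num (-51900)))))) + (var 0 * ((var 1 * ((num (-177000)) + (var 3 * (num 99120)))) + ((pow (var 1) 2) * ((num 164433) + (var 3 * (num (-91863))))))))
  en b := cond b ((var 1 * (num 873750)) + ((var 0 * ((var 2 * (var 3 * (num 1957200))) + (var 1 * (var 2 * ((num 20721855) + (var 3 * (num (-1813905)))))))) + ((pow (var 0) 2) * ((var 3 * (num 5871600)) + (var 1 * ((num 9740565) + (var 3 * (num (-5441715))))))))) ((var 1 * (num 559750)) + ((var 0 * ((var 2 * (var 3 * (num 1253840))) + (var 1 * (var 2 * ((num 13275031) + (var 3 * (num (-1162041)))))))) + ((pow (var 0) 2) * ((var 3 * (num 3761520)) + (var 1 * ((num 6240093) + (var 3 * (num (-3486123)))))))))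
  kk b := cond b ((var 0 * (var 1 * (var 2 * (num 1037000)))) + ((pow (var 0) 2) * (var 1 * (num 3111000)))) ((var 0 * (var 1 * (var 2 * (num 559000)))) + ((pow (var 0) 2) * (var 1 * (num 1677000))))
  wn b := cond b (var 0 * ((var 3 * (num (-895440))) + ((var 1 * ((num 57729) + (var 3 * (num 381881)))) + ((pow (var 1) 2) * ((num (-743200)) + (var 3 * (num 415200))))))) (var 0 * ((var 3 * (num (-1344560))) + ((var 1 * ((num (-687329)) + (var 3 * (num 798119)))) + ((pow (var 1) 2) * ((num (-743200)) + (var 3 * (num 415200)))))))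
  tn b := cond b (var 1 * (num 1120)) (var 1 * (num 995))
  mu := ⟨(177, 100), (227, 100)⟩
  k2 := (1161, 2000)
  θ := (139, 1000)

/-- Its ranges. -/
def bxICta : EBox := ⟨(0, 1, 20), (0, 1, 20), (2, 3, 4), (0, 1, 2)⟩

/-- The piece `ICtb`. -/
def pcICtb : Piece where
  I := (var 0 * (num 1))
  d := (var 0 * (var 2 * (num 1)))
  w := (var 0 * (var 1 * (num 1)))
  o := (((num 1000) + (var 3 * (num (-560)))) + (var 1 * ((num (-929)) + (var 3 * (num 519)))))
  den := (num 1000)
  pd := (num 100)
  f0 := ((var 2 * (num 200000)) + (var 0 * (num 600000)))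
  wd := (num 200000)
  td := ((var 2 * (var 3 * (num 1120))) + (var 1 * ((num 1000) + (var 2 * ((num 1858) + (var 3 * (num (-1038))))))))
  cn := (num 0)
  cd := (num 1)
  kn := (var 0 * ((var 3 * (num 4200000)) + (var 1 * ((num 14467500) + (var 3 * (num (-3892500)))))))
  kd := (((var 1 * (var 3 * (num 140000))) + ((pow (var 1) 2) * ((num 232250) + (var 3 * (num (-129750)))))) + (var 0 * (((pow (var 3) 2) * (num 313600)) + ((var 1 * ((var 3 * (num 1040480)) + ((pow (var 3) 2) * (num (-581280))))) + ((pow (var 1) 2) * ((num 863041) + ((var 3 * (num (-964302))) + ((pow (var 3) 2) * (num 269361)))))))))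
  pn b := cond b (((var 3 * (num 56000)) + (var 1 * ((num 92900) + (var 3 * (num (-51900)))))) + (var 0 * ((var 1 * ((num (-227000)) + (var 3 * (num 127120)))) + ((pow (var 1) 2) * ((num 210883) + (var 3 * (num (-117813)))))))) (((var 3 * (num 56000)) + (var 1 * ((num 92900) + (var 3 * (num (-51900)))))) + (var 0 * ((var 1 * ((num (-177000)) + (var 3 * (num 99120)))) + ((pow (var 1) 2) * ((num 164433) + (var 3 * (num (-91863))))))))
  en b := cond b ((var 1 * (num 873750)) + ((var 0 * ((var 2 * (var 3 * (num 1957200))) + (var 1 * (var 2 * ((num 20721855) + (var 3 * (num (-1813905)))))))) + ((pow (var 0) 2) * ((var 3 * (num 5871600)) + (var 1 * ((num 9740565) + (var 3 * (num (-5441715))))))))) ((var 1 * (num 559750)) + ((var 0 * ((var 2 * (var 3 * (num 1253840))) + (var 1 * (var 2 * ((num 13275031) + (var 3 * (num (-1162041)))))))) + ((pow (var 0) 2) * ((var 3 * (num 3761520)) + (var 1 * ((num 6240093) + (var 3 * (num (-3486123)))))))))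
  kk b := cond b ((var 0 * (var 1 * (var 2 * (num 1037000)))) + ((pow (var 0) 2) * (var 1 * (num 3111000)))) ((var 0 * (var 1 * (var 2 * (num 559000)))) + ((pow (var 0) 2) * (var 1 * (num 1677000))))
  wn b := cond b (var 0 * ((var 3 * (num (-895440))) + ((var 1 * ((num 57729) + (var 3 * (num 381881)))) + ((pow (var 1) 2) * ((num (-743200)) + (var 3 * (num 415200))))))) (var 0 * ((var 3 * (num (-1344560))) + ((var 1 * ((num (-687329)) + (var 3 * (num 798119)))) + ((pow (var 1) 2) * ((num (-743200)) + (var 3 * (num 415200)))))))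
  tn b := cond b (var 1 * (num 1120)) (var 1 * (num 995))
  mu := ⟨(177, 100), (227, 100)⟩
  k2 := (2783, 2000)
  θ := (873, 2000)

/-- Its ranges. -/
def bxICtb : EBox := ⟨(0, 1, 20), (0, 1, 20), (2, 3, 4), (1, 2, 2)⟩

/-- The piece `ICu`. -/
def pcICu : Piece where
  I := (var 0 * (num 1))
  d := (var 0 * (var 2 * (num 1)))
  w := (var 0 * (var 1 * (num 1)))
  o := (((num 978) + (var 3 * (num (-588)))) + (var 1 * ((num (-470)) + (var 3 * (num 281)))))
  den := (num 1000)
  pd := (num 100)
  f0 := ((var 2 * (num 200000)) + (var 0 * (num 600000)))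
  wd := (num 200000)
  td := ((var 2 * ((num 44) + (var 3 * (num 1176)))) + (var 1 * ((num 1000) + (var 2 * ((num 940) + (var 3 * (num (-562))))))))
  cn := (num 0)
  cd := (num 1)
  kn := (var 0 * (((num 198000) + (var 3 * (num 5292000))) + (var 1 * ((num 13230000) + (var 3 * (num (-2529000)))))))
  kd := (((var 1 * ((num 5500) + (var 3 * (num 147000)))) + ((pow (var 1) 2) * ((num 117500) + (var 3 * (num (-70250)))))) + (var 0 * (((num 484) + ((var 3 * (num 25872)) + ((pow (var 3) 2) * (num 345744)))) + ((var 1 * ((num 20680) + ((var 3 * (num 540356)) + ((pow (var 3) 2) * (num (-330456)))))) + ((pow (var 1) 2) * ((num 220900) + ((var 3 * (num (-264140))) + ((pow (var 3) 2) * (num 78961)))))))))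
  pn b := cond b ((((num 2200) + (var 3 * (num 58800))) + (var 1 * ((num 47000) + (var 3 * (num (-28100)))))) + (var 0 * ((var 1 * ((num (-222006)) + (var 3 * (num 133476)))) + ((pow (var 1) 2) * ((num 106690) + (var 3 * (num (-63787)))))))) ((((num 2200) + (var 3 * (num 58800))) + (var 1 * ((num 47000) + (var 3 * (num (-28100)))))) + (var 0 * ((var 1 * ((num (-173106)) + (var 3 * (num 104076)))) + ((pow (var 1) 2) * ((num 83190) + (var 3 * (num (-49737))))))))
  en b := cond b ((var 1 * (num 808500)) + ((var 0 * ((var 2 * ((num 71148) + (var 3 * (num 1901592)))) + (var 1 * (var 2 * ((num 17689980) + (var 3 * (num (-908754)))))))) + ((pow (var 0) 2) * (((num 213444) + (var 3 * (num 5704776))) + (var 1 * ((num 4559940) + (var 3 * (num (-2726262))))))))) ((var 1 * (num 559750)) + ((var 0 * ((var 2 * ((num 49258) + (var 3 * (num 1316532)))) + (var 1 * (var 2 * ((num 12247330) + (var 3 * (num (-629159)))))))) + ((pow (var 0) 2) * (((num 147774) + (var 3 * (num 3949596))) + (var 1 * ((num 3156990) + (var 3 *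 (num (-1887477)))))))))
  kk b := cond b ((var 0 * (var 1 * (var 2 * (num 1034000)))) + ((pow (var 0) 2) * (var 1 * (num 3102000)))) ((var 0 * (var 1 * (var 2 * (num 559000)))) + ((pow (var 0) 2) * (var 1 * (num 1677000))))
  wn b := cond b (var 0 * (((num (-18876)) + (var 3 * (num (-974904)))) + ((var 1 * ((num 379140) + (var 3 * (num (-4502))))) + ((pow (var 1) 2) * ((num (-376000)) + (var 3 * (num 224800))))))) (var 0 * (((num (-35222)) + (var 3 * (num (-1411788)))) + ((var 1 * ((num 29930) + (var 3 * (num 204281)))) + ((pow (var 1) 2) * ((num (-376000)) + (var 3 * (num 224800)))))))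
  tn b := cond b (var 1 * (num 1125)) (var 1 * (num 995))
  mu := ⟨(177, 100), (227, 100)⟩
  k2 := (829, 2000)
  θ := (117, 1000)

/-- Its ranges. -/
def bxICu : EBox := ⟨(0, 1, 20), (1, 20, 20), (2, 3, 4), (0, 1, 1)⟩

end Vale.Agent.P100.Calib.StripEnd
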