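import Vale.Agent.P100.Calib.SlabStripEndCertSmall

/-!
# The pieces of the charts `I` for `u` near one: `ID`, `IE`
-/

namespace Vale.Agent.P100.Calib.StripEnd

open Pack Pack.Ex

local instance endPcsIBAdd : Add Ex := ⟨Ex.add⟩
local instance endPcsIBSub : Sub Ex := ⟨Ex.sub⟩
local instance endPcsIBMul : Mul Ex := ⟨Ex.mul⟩

/-- The piece `IDp`. -/
def pcIDp : Piece where
  I := (var 0 * (num 1))
  d := (var 0 * (var 2 * (num 1)))
  w := (var 0 * (var 1 * (num 1)))
  o := (((num 1000) + (var 3 * (num (-555)))) + (var 1 * ((num (-929)) + (var 3 * (num 514)))))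
  den := (num 1000)
  pd := (num 100)
  f0 := ((var 2 * (num 200000)) + (var 0 * (num 600000)))
  wd := (num 200000)
  td := ((var 2 * (var 3 * (num 1110))) + (var 1 * ((num 1000) + (var 2 * ((num 1858) + (var 3 * (num (-1028))))))))
  cn := (num 0)
  cd := (num 1)
  kn := (var 0 * ((var 3 * (num 7978125)) + (var 1 * ((num 27729375) + (var 3 * (num (-7388750)))))))
  kd := (((var 1 * (var 3 * (num 277500))) + ((pow (var 1) 2) * ((num 464500) + (var 3 * (num (-257000)))))) + (var 0 * (((pow (var 3) 2) * (num 616050)) + ((var 1 * ((var 3 * (num 2062380)) + ((pow (var 3) 2) * (num (-1141080))))) + ((pow (var 1) 2) * ((num 1726082) + ((var 3 * (num (-1910024))) + ((pow (var 3) 2) * (num 528392)))))))))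
  pn b := cond b (((var 3 * (num 55500)) + (var 1 * ((num 92900) + (var 3 * (num (-51400)))))) + (var 0 * ((var 1 * ((num (-237000)) + (var 3 * (num 131535)))) + ((pow (var 1) 2) * ((num 220173) + (var 3 * (num (-121818)))))))) (((var 3 * (num 55500)) + (var 1 * ((num 92900) + (var 3 * (num (-51400)))))) + (var 0 * ((var 1 * ((num (-176000)) + (var 3 * (num 97680)))) + ((pow (var 1) 2) * ((num 163504) + (var 3 * (num (-90464))))))))
  en b := cond b ((var 1 * (num 870500)) + ((var 0 * ((var 2 * (var 3 * (num 1932510))) + (var 1 * (var 2 * ((num 20644778) + (var 3 * (num (-1789748)))))))) + ((pow (var 0) 2) * ((var 3 * (num 5797530)) + (var 1 * ((num 9704334) + (var 3 * (num (-5369244))))))))) ((var 1 * (num 559750)) + ((var 0 * ((var 2 * (var 3 * (num 1242645))) + (var 1 * (var 2 * ((num 13275031) + (var 3 * (num (-1150846)))))))) + ((pow (var 0) 2) * ((var 3 * (num 3727935)) + (var 1 * ((num 6240093) + (var 3 * (num (-3452538)))))))))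
  kk b := cond b ((var 0 * (var 1 * (var 2 * (num 1177000)))) + ((pow (var 0) 2) * (var 1 * (num 3531000)))) ((var 0 * (var 1 * (var 2 * (num 559000)))) + ((pow (var 0) 2) * (var 1 * (num 1677000))))
  wn b := cond b (var 0 * ((var 3 * (num (-887445))) + ((var 1 * ((num 57729) + (var 3 * (num 377886)))) + ((pow (var 1) 2) * ((num (-743200)) + (var 3 * (num 411200))))))) (var 0 * ((var 3 * (num (-1332555))) + ((var 1 * ((num (-687329)) + (var 3 * (num 790114)))) + ((pow (var 1) 2) * ((num (-743200)) + (var 3 * (num 411200)))))))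
  tn b := cond b (var 1 * (num 1135)) (var 1 * (num 995))
  mu := ⟨(176, 100), (237, 100)⟩
  k2 := (3183, 2000)
  θ := (247, 400)

/-- Its ranges. -/
def bxIDp : EBox := ⟨(0, 1, 20), (0, 1, 20), (15, 18, 20), (0, 1, 1)⟩

/-- The piece `IDqa`. -/
def pcIDqa : Piece where
  I := (var 0 * (num 1))
  d := (var 0 * (var 2 * (num 1)))
  w := (var 0 * (var 1 * (num 1)))
  o := (((num 1000) + (var 3 * (num (-560)))) + (var 1 * ((num (-929)) + (var 3 * (num 519)))))
  den := (num 1000)
  pd := (num 100)
  f0 := ((var 2 * (num 200000)) + (var 0 * (num 600000)))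
  wd := (num 200000)
  td := ((var 2 * (var 3 * (num 1120))) + (var 1 * ((num 1000) + (var 2 * ((num 1858) + (var 3 * (num (-1038))))))))
  cn := (num 0)
  cd := (num 1)
  kn := (var 0 * ((var 3 * (num 5600000)) + (var 1 * ((num 19290000) + (var 3 * (num (-5190000)))))))
  kd := (((var 1 * (var 3 * (num 140000))) + ((pow (var 1) 2) * ((num 232250) + (var 3 * (num (-129750)))))) + (var 0 * (((pow (var 3) 2) * (num 313600)) + ((var 1 * ((var 3 * (num 1040480)) + ((pow (var 3) 2) * (num (-581280))))) + ((pow (var 1) 2) * ((num 863041) + ((var 3 * (num (-964302))) + ((pow (var 3) 2) * (num 269361)))))))))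
  pn b := cond b (((var 3 * (num 56000)) + (var 1 * ((num 92900) + (var 3 * (num (-51900)))))) + (var 0 * ((var 1 * ((num (-237000)) + (var 3 * (num 132720)))) + ((pow (var 1) 2) * ((num 220173) + (var 3 * (num (-123003)))))))) (((var 3 * (num 56000)) + (var 1 * ((num 92900) + (var 3 * (num (-51900)))))) + (var 0 * ((var 1 * ((num (-176000)) + (var 3 * (num 98560)))) + ((pow (var 1) 2) * ((num 163504) + (var 3 * (num (-91344))))))))
  en b := cond b ((var 1 * (num 868250)) + ((var 0 * ((var 2 * (var 3 * (num 1944880))) + (var 1 * (var 2 * ((num 20591417) + (var 3 * (num (-1802487)))))))) + ((pow (var 0) 2) * ((var 3 * (num 5834640)) + (var 1 * ((num 9679251) + (var 3 * (num (-5407461))))))))) ((var 1 * (num 559750)) + ((var 0 * ((var 2 * (var 3 * (num 1253840))) + (var 1 * (var 2 * ((num 13275031) + (var 3 * (num (-1162041)))))))) + ((pow (var 0) 2) * ((var 3 * (num 3761520)) + (var 1 * ((num 6240093) + (var 3 * (num (-3486123)))))))))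
  kk b := cond b ((var 0 * (var 1 * (var 2 * (num 1229000)))) + ((pow (var 0) 2) * (var 1 * (num 3687000)))) ((var 0 * (var 1 * (var 2 * (num 559000)))) + ((pow (var 0) 2) * (var 1 * (num 1677000))))
  wn b := cond b (var 0 * ((var 3 * (num (-895440))) + ((var 1 * ((num 57729) + (var 3 * (num 381881)))) + ((pow (var 1) 2) * ((num (-743200)) + (var 3 * (num 415200))))))) (var 0 * ((var 3 * (num (-1344560))) + ((var 1 * ((num (-687329)) + (var 3 * (num 798119)))) + ((pow (var 1) 2) * ((num (-743200)) + (var 3 * (num 415200)))))))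
  tn b := cond b (var 1 * (num 1140)) (var 1 * (num 995))
  mu := ⟨(176, 100), (237, 100)⟩
  k2 := (439, 400)
  θ := (659, 2000)

/-- Its ranges. -/
def bxIDqa : EBox := ⟨(0, 1, 20), (0, 1, 20), (45, 48, 50), (0, 7, 10)⟩

/-- The piece `IDqb`. -/
def pcIDqb : Piece where
  I := (var 0 * (num 1))
  d := (var 0 * (var 2 * (num 1)))
  w := (var 0 * (var 1 * (num 1)))
  o := (((num 1000) + (var 3 * (num (-560)))) + (var 1 * ((num (-929)) + (var 3 * (num 519)))))
  den := (num 1000)
  pd := (num 100)
  f0 := ((var 2 * (num 200000)) + (var 0 * (num 600000)))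
  wd := (num 200000)
  td := ((var 2 * (var 3 * (num 1120))) + (var 1 * ((num 1000) + (var 2 * ((num 1858) + (var 3 * (num (-1038))))))))
  cn := (num 0)
  cd := (num 1)
  kn := (var 0 * ((var 3 * (num 2940000)) + (var 1 * ((num 10127250) + (var 3 * (num (-2724750)))))))
  kd := (((var 1 * (var 3 * (num 140000))) + ((pow (var 1) 2) * ((num 232250) + (var 3 * (num (-129750)))))) + (var 0 * (((pow (var 3) 2) * (num 313600)) + ((var 1 * ((var 3 * (num 1040480)) + ((pow (var 3) 2) * (num (-581280))))) + ((pow (var 1) 2) * ((num 863041) + ((var 3 * (num (-964302))) + ((pow (var 3) 2) * (num 269361)))))))))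
  pn b := cond b (((var 3 * (num 56000)) + (var 1 * ((num 92900) + (var 3 * (num (-51900)))))) + (var 0 * ((var 1 * ((num (-237000)) + (var 3 * (num 132720)))) + ((pow (var 1) 2) * ((num 220173) + (var 3 * (num (-123003)))))))) (((var 3 * (num 56000)) + (var 1 * ((num 92900) + (var 3 * (num (-51900)))))) + (var 0 * ((var 1 * ((num (-176000)) + (var 3 * (num 98560)))) + ((pow (var 1) 2) * ((num 163504) + (var 3 * (num (-91344))))))))
  en b := cond b ((var 1 * (num 868250)) + ((var 0 * ((var 2 * (var 3 * (num 1944880))) + (var 1 * (var 2 * ((num 20591417) + (var 3 * (num (-1802487)))))))) + ((pow (var 0) 2) * ((var 3 * (num 5834640)) + (var 1 * ((num 9679251) + (var 3 * (num (-5407461))))))))) ((var 1 * (num 559750)) + ((var 0 * ((var 2 * (var 3 * (num 1253840))) + (var 1 * (var 2 * ((num 13275031) + (var 3 * (num (-1162041)))))))) + ((pow (var 0) 2) * ((var 3 * (num 3761520)) + (var 1 * ((num 6240093) + (var 3 * (num (-3486123)))))))))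
  kk b := cond b ((var 0 * (var 1 * (var 2 * (num 1229000)))) + ((pow (var 0) 2) * (var 1 * (num 3687000)))) ((var 0 * (var 1 * (var 2 * (num 559000)))) + ((pow (var 0) 2) * (var 1 * (num 1677000))))
  wn b := cond b (var 0 * ((var 3 * (num (-895440))) + ((var 1 * ((num 57729) + (var 3 * (num 381881)))) + ((pow (var 1) 2) * ((num (-743200)) + (var 3 * (num 415200))))))) (var 0 * ((var 3 * (num (-1344560))) + ((var 1 * ((num (-687329)) + (var 3 * (num 798119)))) + ((pow (var 1) 2) * ((num (-743200)) + (var 3 * (num 415200)))))))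
  tn b := cond b (var 1 * (num 1140)) (var 1 * (num 995))
  mu := ⟨(176, 100), (237, 100)⟩
  k2 := (1699, 1000)
  θ := (289, 400)

/-- Its ranges. -/
def bxIDqb : EBox := ⟨(0, 1, 20), (0, 1, 20), (45, 48, 50), (7, 10, 10)⟩

/-- The piece `IDr`. -/
def pcIDr : Piece where
  I := (var 0 * (num 1))
  d := (var 0 * (var 2 * (num 1)))
  w := (var 0 * (var 1 * (num 1)))
  o := (((num 1000) + (var 3 * (num (-566)))) + (var 1 * ((num (-929)) + (var 3 * (num 524)))))
  den := (num 1000)
  pd := (num 100)
  f0 := ((var 2 * (num 200000)) + (var 0 * (num 600000)))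
  wd := (num 200000)
  td := ((var 2 * (var 3 * (num 1132))) + (var 1 * ((num 1000) + (var 2 * ((num 1858) + (var 3 * (num (-1048))))))))
  cn := (num 0)
  cd := (num 1)
  kn := (var 0 * ((var 3 * (num 3820500)) + (var 1 * ((num 13020750) + (var 3 * (num (-3537000)))))))
  kd := (((var 1 * (var 3 * (num 141500))) + ((pow (var 1) 2) * ((num 232250) + (var 3 * (num (-131000)))))) + (var 0 * (((pow (var 3) 2) * (num 320356)) + ((var 1 * ((var 3 * (num 1051628)) + ((pow (var 3) 2) * (num (-593168))))) + ((pow (var 1) 2) * ((num 863041) + ((var 3 * (num (-973592))) + ((pow (var 3) 2) * (num 274576)))))))))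
  pn b := cond b (((var 3 * (num 56600)) + (var 1 * ((num 92900) + (var 3 * (num (-52400)))))) + (var 0 * ((var 1 * ((num (-237000)) + (var 3 * (num 134142)))) + ((pow (var 1) 2) * ((num 220173) + (var 3 * (num (-124188)))))))) (((var 3 * (num 56600)) + (var 1 * ((num 92900) + (var 3 * (num (-52400)))))) + (var 0 * ((var 1 * ((num (-176000)) + (var 3 * (num 99616)))) + ((pow (var 1) 2) * ((num 163504) + (var 3 * (num (-92224))))))))
  en b := cond b ((var 1 * (num 867250)) + ((var 0 * ((var 2 * (var 3 * (num 1963454))) + (var 1 * (var 2 * ((num 20567701) + (var 3 * (num (-1817756)))))))) + ((pow (var 0) 2) * ((var 3 * (num 5890362)) + (var 1 * ((num 9668103) + (var 3 * (num (-5453268))))))))) ((var 1 * (num 559750)) + ((var 0 * ((var 2 * (var 3 * (num 1267274))) + (var 1 * (var 2 * ((num 13275031) + (var 3 * (num (-1173236)))))))) + ((pow (var 0) 2) * ((var 3 * (num 3801822)) + (var 1 * ((num 6240093) + (var 3 * (num (-3519708)))))))))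
  kk b := cond b ((var 0 * (var 1 * (var 2 * (num 1263000)))) + ((pow (var 0) 2) * (var 1 * (num 3789000)))) ((var 0 * (var 1 * (var 2 * (num 559000)))) + ((pow (var 0) 2) * (var 1 * (num 1677000))))
  wn b := cond b (var 0 * ((var 3 * (num (-905034))) + ((var 1 * ((num 57729) + (var 3 * (num 385076)))) + ((pow (var 1) 2) * ((num (-743200)) + (var 3 * (num 419200))))))) (var 0 * ((var 3 * (num (-1358966))) + ((var 1 * ((num (-687329)) + (var 3 * (num 805324)))) + ((pow (var 1) 2) * ((num (-743200)) + (var 3 * (num 419200)))))))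
  tn b := cond b (var 1 * (num 1140)) (var 1 * (num 995))
  mu := ⟨(176, 100), (237, 100)⟩
  k2 := (1633, 1000)
  θ := (663, 1000)

/-- Its ranges. -/
def bxIDr : EBox := ⟨(0, 1, 25), (0, 1, 20), (24, 25, 25), (0, 1, 1)⟩

/-- The piece `IDu`. -/
def pcIDu : Piece where
  I := (var 0 * (num 1))
  d := (var 0 * (var 2 * (num 1)))
  w := (var 0 * (var 1 * (num 1)))
  o := (((num 978) + (var 3 * (num (-609)))) + (var 1 * ((num (-470)) + (var 3 * (num 292)))))
  den := (num 1000)
  pd := (num 100)
  f0 := ((var 2 * (num 200000)) + (var 0 * (num 600000)))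
  wd := (num 200000)
  td := ((var 2 * ((num 44) + (var 3 * (num 1218)))) + (var 1 * ((num 1000) + (var 2 * ((num 940) + (var 3 * (num (-584))))))))
  cn := (num 0)
  cd := (num 1)
  kn := (var 0 * (((num 198000) + (var 3 * (num 5481000))) + (var 1 * ((num 13230000) + (var 3 * (num (-2628000)))))))
  kd := (((var 1 * ((num 5500) + (var 3 * (num 152250)))) + ((pow (var 1) 2) * ((num 117500) + (var 3 * (num (-73000)))))) + (var 0 * (((num 484) + ((var 3 * (num 26796)) + ((pow (var 3) 2) * (num 370881)))) + ((var 1 * ((num 20680) + ((var 3 * (num 559612)) + ((pow (var 3) 2) * (num (-355656)))))) + ((pow (var 1) 2) * ((num 220900) + ((var 3 * (num (-274480))) + ((pow (var 3) 2) * (num 85264)))))))))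
  pn b := cond b ((((num 2200) + (var 3 * (num 60900))) + (var 1 * ((num 47000) + (var 3 * (num (-29200)))))) + (var 0 * ((var 1 * ((num (-231786)) + (var 3 * (num 144333)))) + ((pow (var 1) 2) * ((num 111390) + (var 3 * (num (-69204)))))))) ((((num 2200) + (var 3 * (num 60900))) + (var 1 * ((num 47000) + (var 3 * (num (-29200)))))) + (var 0 * ((var 1 * ((num (-172128)) + (var 3 * (num 107184)))) + ((pow (var 1) 2) * ((num 82720) + (var 3 * (num (-51392))))))))
  en b := cond b ((var 1 * (num 809500)) + ((var 0 * ((var 2 * ((num 71236) + (var 3 * (num 1971942)))) + (var 1 * (var 2 * ((num 17711860) + (var 3 * (num (-945496)))))))) + ((pow (var 0) 2) * (((num 213708) + (var 3 * (num 5915826))) + (var 1 * ((num 4565580) + (var 3 * (num (-2836488))))))))) ((var 1 * (num 559750)) + ((var 0 * ((var 2 * ((num 49258) + (var 3 * (num 1363551)))) + (var 1 * (var 2 * ((num 12247330) + (var 3 * (num (-653788)))))))) + ((pow (var 0) 2) * (((num 147774) + (var 3 * (num 4090653))) + (var 1 * ((num 3156990) + (var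 3 * (num (-1961364)))))))))
  kk b := cond b ((var 0 * (var 1 * (var 2 * (num 1257000)))) + ((pow (var 0) 2) * (var 1 * (num 3771000)))) ((var 0 * (var 1 * (var 2 * (num 559000)))) + ((pow (var 0) 2) * (var 1 * (num 1677000))))
  wn b := cond b (var 0 * (((num (-18348)) + (var 3 * (num (-995106)))) + ((var 1 * ((num 390420) + (var 3 * (num (-10072))))) + ((pow (var 1) 2) * ((num (-376000)) + (var 3 * (num 233600))))))) (var 0 * (((num (-35222)) + (var 3 * (num (-1462209)))) + ((var 1 * ((num 29930) + (var 3 * (num 213892)))) + ((pow (var 1) 2) * ((num (-376000)) + (var 3 * (num 233600)))))))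
  tn b := cond b (var 1 * (num 1140)) (var 1 * (num 995))
  mu := ⟨(176, 100), (237, 100)⟩
  k2 := (707, 1000)
  θ := (153, 500)

/-- Its ranges. -/
def bxIDu : EBox := ⟨(0, 1, 20), (1, 20, 20), (3, 4, 4), (0, 1, 1)⟩

/-- The piece `IEpa`. -/
def pcIEpa : Piece where
  I := (var 0 * (num 1))
  d := (var 0 * (var 2 * (num 1)))
  w := (var 0 * (var 1 * (num 1)))
  o := (((num 1000) + (var 3 * (num (-560)))) + (var 1 * ((num (-929)) + (var 3 * (num 519)))))
  den := (num 1000)
  pd := (num 100)
  f0 := ((var 2 * (num 200000)) + (var 0 * (num 600000)))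
  wd := (num 200000)
  td := ((var 2 * (var 3 * (num 1120))) + (var 1 * ((num 1000) + (var 2 * ((num 1858) + (var 3 * (num (-1038))))))))
  cn := (((num (-1)) + (var 2 * (num 1))) + (var 0 * ((num 2) + (var 2 * (num (-1))))))
  cd := ((var 2 * (num 1)) + ((var 0 * (var 2 * (num (-4)))) + ((pow (var 0) 2) * (var 2 * (num 4)))))
  kn := (var 0 * ((var 3 * (num 6440000)) + (var 1 * ((num 22183500) + (var 3 * (num (-5968500)))))))
  kd := (((var 1 * (var 3 * (num 140000))) + ((pow (var 1) 2) * ((num 232250) + (var 3 * (num (-129750)))))) + (var 0 * (((pow (var 3) 2) * (num 313600)) + ((var 1 * ((var 3 * (num 1040480)) + ((pow (var 3) 2) * (num (-581280))))) + ((pow (var 1) 2) * ((num 863041) + ((var 3 * (num (-964302))) + ((pow (var 3) 2) * (num 269361)))))))))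
  pn b := cond b (((var 3 * (num 56000)) + (var 1 * ((num 92900) + (var 3 * (num (-51900)))))) + (var 0 * ((var 1 * ((num (-237000)) + (var 3 * (num 132720)))) + ((pow (var 1) 2) * ((num 220173) + (var 3 * (num (-123003)))))))) (((var 3 * (num 56000)) + (var 1 * ((num 92900) + (var 3 * (num (-51900)))))) + (var 0 * ((var 1 * ((num (-176000)) + (var 3 * (num 98560)))) + ((pow (var 1) 2) * ((num 163504) + (var 3 * (num (-91344))))))))
  en b := cond b ((var 1 * (num 867500)) + ((var 0 * ((var 2 * (var 3 * (num 1943200))) + (var 1 * (var 2 * ((num 20573630) + (var 3 * (num (-1800930)))))))) + ((pow (var 0) 2) * ((var 3 * (num 5829600)) + (var 1 * ((num 9670890) + (var 3 * (num (-5402790))))))))) ((var 1 * (num 559750)) + ((var 0 * ((var 2 * (var 3 * (num 1253840))) + (var 1 * (var 2 * ((num 13275031) + (var 3 * (num (-1162041)))))))) + ((pow (var 0) 2) * ((var 3 * (num 3761520)) + (var 1 * ((num 6240093) + (var 3 * (num (-3486123)))))))))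
  kk b := cond b ((var 0 * (var 1 * (var 2 * (num 1229000)))) + ((pow (var 0) 2) * (var 1 * (num 3687000)))) ((var 0 * (var 1 * (var 2 * (num 559000)))) + ((pow (var 0) 2) * (var 1 * (num 1677000))))
  wn b := cond b (var 0 * ((var 3 * (num (-895440))) + ((var 1 * ((num 57729) + (var 3 * (num 381881)))) + ((pow (var 1) 2) * ((num (-743200)) + (var 3 * (num 415200))))))) (var 0 * ((var 3 * (num (-1344560))) + ((var 1 * ((num (-687329)) + (var 3 * (num 798119)))) + ((pow (var 1) 2) * ((num (-743200)) + (var 3 * (num 415200)))))))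
  tn b := cond b (var 1 * (num 1140)) (var 1 * (num 995))
  mu := ⟨(176, 100), (237, 100)⟩
  k2 := (1889, 2000)
  θ := (503, 2000)

/-- Its ranges. -/
def bxIEpa : EBox := ⟨(19, 25, 500), (0, 1, 20), (47, 48, 50), (0, 3, 5)⟩

/-- The piece `IEpb`. -/
def pcIEpb : Piece where
  I := (var 0 * (num 1))
  d := (var 0 * (var 2 * (num 1)))
  w := (var 0 * (var 1 * (num 1)))
  o := (((num 1000) + (var 3 * (num (-560)))) + (var 1 * ((num (-929)) + (var 3 * (num 519)))))
  den := (num 1000)
  pd := (num 100)
  f0 := ((var 2 * (num 200000)) + (var 0 * (num 600000)))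
  wd := (num 200000)
  td := ((var 2 * (var 3 * (num 1120))) + (var 1 * ((num 1000) + (var 2 * ((num 1858) + (var 3 * (num (-1038))))))))
  cn := (((num (-1)) + (var 2 * (num 1))) + (var 0 * ((num 2) + (var 2 * (num (-1))))))
  cd := ((var 2 * (num 1)) + ((var 0 * (var 2 * (num (-4)))) + ((pow (var 0) 2) * (var 2 * (num 4)))))
  kn := (var 0 * ((var 3 * (num 2940000)) + (var 1 * ((num 10127250) + (var 3 * (num (-2724750)))))))
  kd := (((var 1 * (var 3 * (num 140000))) + ((pow (var 1) 2) * ((num 232250) + (var 3 * (num (-129750)))))) + (var 0 * (((pow (var 3) 2) * (num 313600)) + ((var 1 * ((var 3 * (num 1040480)) + ((pow (var 3) 2) * (num (-581280))))) + ((pow (var 1) 2) * ((num 863041) + ((var 3 * (num (-964302))) + ((pow (var 3) 2) * (num 269361)))))))))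
  pn b := cond b (((var 3 * (num 56000)) + (var 1 * ((num 92900) + (var 3 * (num (-51900)))))) + (var 0 * ((var 1 * ((num (-237000)) + (var 3 * (num 132720)))) + ((pow (var 1) 2) * ((num 220173) + (var 3 * (num (-123003)))))))) (((var 3 * (num 56000)) + (var 1 * ((num 92900) + (var 3 * (num (-51900)))))) + (var 0 * ((var 1 * ((num (-176000)) + (var 3 * (num 98560)))) + ((pow (var 1) 2) * ((num 163504) + (var 3 * (num (-91344))))))))
  en b := cond b ((var 1 * (num 867500)) + ((var 0 * ((var 2 * (var 3 * (num 1943200))) + (var 1 * (var 2 * ((num 20573630) + (var 3 * (num (-1800930)))))))) + ((pow (var 0) 2) * ((var 3 * (num 5829600)) + (var 1 * ((num 9670890) + (var 3 * (num (-5402790))))))))) ((var 1 * (num 559750)) + ((var 0 * ((var 2 * (var 3 * (num 1253840))) + (var 1 * (var 2 * ((num 13275031) + (var 3 * (num (-1162041)))))))) + ((pow (var 0) 2) * ((var 3 * (num 3761520)) + (var 1 * ((num 6240093) + (var 3 * (num (-3486123)))))))))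
  kk b := cond b ((var 0 * (var 1 * (var 2 * (num 1229000)))) + ((pow (var 0) 2) * (var 1 * (num 3687000)))) ((var 0 * (var 1 * (var 2 * (num 559000)))) + ((pow (var 0) 2) * (var 1 * (num 1677000))))
  wn b := cond b (var 0 * ((var 3 * (num (-895440))) + ((var 1 * ((num 57729) + (var 3 * (num 381881)))) + ((pow (var 1) 2) * ((num (-743200)) + (var 3 * (num 415200))))))) (var 0 * ((var 3 * (num (-1344560))) + ((var 1 * ((num (-687329)) + (var 3 * (num 798119)))) + ((pow (var 1) 2) * ((num (-743200)) + (var 3 * (num 415200)))))))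
  tn b := cond b (var 1 * (num 1140)) (var 1 * (num 995))
  mu := ⟨(176, 100), (237, 100)⟩
  k2 := (3437, 2000)
  θ := (183, 250)

/-- Its ranges. -/
def bxIEpb : EBox := ⟨(19, 25, 500), (0, 1, 20), (47, 48, 50), (3, 5, 5)⟩

/-- The piece `IEqa`. -/
def pcIEqa : Piece where
  I := (var 0 * (num 1))
  d := (var 0 * (var 2 * (num 1)))
  w := (var 0 * (var 1 * (num 1)))
  o := (((num 1000) + (var 3 * (num (-566)))) + (var 1 * ((num (-929)) + (var 3 * (num 524)))))
  den := (num 1000)
  pd := (num 100)
  f0 := ((var 2 * (num 200000)) + (var 0 * (num 600000)))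
  wd := (num 200000)
  td := ((var 2 * (var 3 * (num 1132))) + (var 1 * ((num 1000) + (var 2 * ((num 1858) + (var 3 * (num (-1048))))))))
  cn := (((num (-1)) + (var 2 * (num 1))) + (var 0 * ((num 2) + (var 2 * (num (-1))))))
  cd := ((var 2 * (num 1)) + ((var 0 * (var 2 * (num (-4)))) + ((pow (var 0) 2) * (var 2 * (num 4)))))
  kn := (var 0 * ((var 3 * (num 6367500)) + (var 1 * ((num 21701250) + (var 3 * (num (-5895000)))))))
  kd := (((var 1 * (var 3 * (num 141500))) + ((pow (var 1) 2) * ((num 232250) + (var 3 * (num (-131000)))))) + (var 0 * (((pow (var 3) 2) * (num 320356)) + ((var 1 * ((var 3 * (num 1051628)) + ((pow (var 3) 2) * (num (-593168))))) + ((pow (var 1) 2) * ((num 863041) + ((var 3 * (num (-973592))) + ((pow (var 3) 2) * (num 274576)))))))))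
  pn b := cond b (((var 3 * (num 56600)) + (var 1 * ((num 92900) + (var 3 * (num (-52400)))))) + (var 0 * ((var 1 * ((num (-237000)) + (var 3 * (num 134142)))) + ((pow (var 1) 2) * ((num 220173) + (var 3 * (num (-124188)))))))) (((var 3 * (num 56600)) + (var 1 * ((num 92900) + (var 3 * (num (-52400)))))) + (var 0 * ((var 1 * ((num (-176000)) + (var 3 * (num 99616)))) + ((pow (var 1) 2) * ((num 163504) + (var 3 * (num (-92224))))))))
  en b := cond b ((var 1 * (num 867250)) + ((var 0 * ((var 2 * (var 3 * (num 1963454))) + (var 1 * (var 2 * ((num 20567701) + (var 3 * (num (-1817756)))))))) + ((pow (var 0) 2) * ((var 3 * (num 5890362)) + (var 1 * ((num 9668103) + (var 3 * (num (-5453268))))))))) ((var 1 * (num 559750)) + ((var 0 * ((var 2 * (var 3 * (num 1267274))) + (var 1 * (var 2 * ((num 13275031) + (var 3 * (num (-1173236)))))))) + ((pow (var 0) 2) * ((var 3 * (num 3801822)) + (var 1 * ((num 6240093) + (var 3 * (num (-3519708)))))))))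
  kk b := cond b ((var 0 * (var 1 * (var 2 * (num 1263000)))) + ((pow (var 0) 2) * (var 1 * (num 3789000)))) ((var 0 * (var 1 * (var 2 * (num 559000)))) + ((pow (var 0) 2) * (var 1 * (num 1677000))))
  wn b := cond b (var 0 * ((var 3 * (num (-905034))) + ((var 1 * ((num 57729) + (var 3 * (num 385076)))) + ((pow (var 1) 2) * ((num (-743200)) + (var 3 * (num 419200))))))) (var 0 * ((var 3 * (num (-1358966))) + ((var 1 * ((num (-687329)) + (var 3 * (num 805324)))) + ((pow (var 1) 2) * ((num (-743200)) + (var 3 * (num 419200)))))))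
  tn b := cond b (var 1 * (num 1140)) (var 1 * (num 995))
  mu := ⟨(176, 100), (237, 100)⟩
  k2 := (893, 1000)
  θ := (453, 2000)

/-- Its ranges. -/
def bxIEqa : EBox := ⟨(0, 1, 20), (0, 1, 20), (24, 25, 25), (0, 3, 5)⟩

/-- The piece `IEqb`. -/
def pcIEqb : Piece where
  I := (var 0 * (num 1))
  d := (var 0 * (var 2 * (num 1)))
  w := (var 0 * (var 1 * (num 1)))
  o := (((num 1000) + (var 3 * (num (-566)))) + (var 1 * ((num (-929)) + (var 3 * (num 524)))))
  den := (num 1000)
  pd := (num 100)
  f0 := ((var 2 * (num 200000)) + (var 0 * (num 600000)))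
  wd := (num 200000)
  td := ((var 2 * (var 3 * (num 1132))) + (var 1 * ((num 1000) + (var 2 * ((num 1858) + (var 3 * (num (-1048))))))))
  cn := (((num (-1)) + (var 2 * (num 1))) + (var 0 * ((num 2) + (var 2 * (num (-1))))))
  cd := ((var 2 * (num 1)) + ((var 0 * (var 2 * (num (-4)))) + ((pow (var 0) 2) * (var 2 * (num 4)))))
  kn := (var 0 * ((var 3 * (num 3254500)) + (var 1 * ((num 11091750) + (var 3 * (num (-3013000)))))))
  kd := (((var 1 * (var 3 * (num 141500))) + ((pow (var 1) 2) * ((num 232250) + (var 3 * (num (-131000)))))) + (var 0 * (((pow (var 3) 2) * (num 320356)) + ((var 1 * ((var 3 * (num 1051628)) + ((pow (var 3) 2) * (num (-593168))))) + ((pow (var 1) 2) * ((num 863041) + ((var 3 * (num (-973592))) + ((pow (var 3) 2) * (num 274576)))))))))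
  pn b := cond b (((var 3 * (num 56600)) + (var 1 * ((num 92900) + (var 3 * (num (-52400)))))) + (var 0 * ((var 1 * ((num (-237000)) + (var 3 * (num 134142)))) + ((pow (var 1) 2) * ((num 220173) + (var 3 * (num (-124188)))))))) (((var 3 * (num 56600)) + (var 1 * ((num 92900) + (var 3 * (num (-52400)))))) + (var 0 * ((var 1 * ((num (-176000)) + (var 3 * (num 99616)))) + ((pow (var 1) 2) * ((num 163504) + (var 3 * (num (-92224))))))))
  en b := cond b ((var 1 * (num 867250)) + ((var 0 * ((var 2 * (var 3 * (num 1963454))) + (var 1 * (var 2 * ((num 20567701) + (var 3 * (num (-1817756)))))))) + ((pow (var 0) 2) * ((var 3 * (num 5890362)) + (var 1 * ((num 9668103) + (var 3 * (num (-5453268))))))))) ((var 1 * (num 559750)) + ((var 0 * ((var 2 * (var 3 * (num 1267274))) + (var 1 * (var 2 * ((num 13275031) + (var 3 * (num (-1173236)))))))) + ((pow (var 0) 2) * ((var 3 * (num 3801822)) + (var 1 * ((num 6240093) + (var 3 * (num (-3519708)))))))))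
  kk b := cond b ((var 0 * (var 1 * (var 2 * (num 1263000)))) + ((pow (var 0) 2) * (var 1 * (num 3789000)))) ((var 0 * (var 1 * (var 2 * (num 559000)))) + ((pow (var 0) 2) * (var 1 * (num 1677000))))
  wn b := cond b (var 0 * ((var 3 * (num (-905034))) + ((var 1 * ((num 57729) + (var 3 * (num 385076)))) + ((pow (var 1) 2) * ((num (-743200)) + (var 3 * (num 419200))))))) (var 0 * ((var 3 * (num (-1358966))) + ((var 1 * ((num (-687329)) + (var 3 * (num 805324)))) + ((pow (var 1) 2) * ((num (-743200)) + (var 3 * (num 419200)))))))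
  tn b := cond b (var 1 * (num 1140)) (var 1 * (num 995))
  mu := ⟨(176, 100), (237, 100)⟩
  k2 := (329, 200)
  θ := (27, 40)

/-- Its ranges. -/
def bxIEqb : EBox := ⟨(0, 1, 20), (0, 1, 20), (24, 25, 25), (3, 5, 5)⟩

/-- The piece `IEu`. -/
def pcIEu : Piece where
  I := (var 0 * (num 1))
  d := (var 0 * (var 2 * (num 1)))
  w := (var 0 * (var 1 * (num 1)))
  o := (((num 978) + (var 3 * (num (-609)))) + (var 1 * ((num (-470)) + (var 3 * (num 292)))))
  den := (num 1000)
  pd := (num 100)
  f0 := ((var 2 * (num 200000)) + (var 0 * (num 600000)))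
  wd := (num 200000)
  td := ((var 2 * ((num 44) + (var 3 * (num 1218)))) + (var 1 * ((num 1000) + (var 2 * ((num 940) + (var 3 * (num (-584))))))))
  cn := (((num (-1)) + (var 2 * (num 1))) + (var 0 * ((num 2) + (var 2 * (num (-1))))))
  cd := ((var 2 * (num 1)) + ((var 0 * (var 2 * (num (-4)))) + ((pow (var 0) 2) * (var 2 * (num 4)))))
  kn := (var 0 * (((num 220000) + (var 3 * (num 6090000))) + (var 1 * ((num 14700000) + (var 3 * (num (-2920000)))))))
  kd := (((var 1 * ((num 5500) + (var 3 * (num 152250)))) + ((pow (var 1) 2) * ((num 117500) + (var 3 * (num (-73000)))))) + (var 0 * (((num 484) + ((var 3 * (num 26796)) + ((pow (var 3) 2) * (num 370881)))) + ((var 1 * ((num 20680) + ((var 3 * (num 559612)) + ((pow (var 3) 2) * (num (-355656)))))) + ((pow (var 1) 2) * ((num 220900) + ((var 3 * (num (-274480))) + ((pow (var 3) 2) * (num 85264)))))))))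
  pn b := cond b ((((num 2200) + (var 3 * (num 60900))) + (var 1 * ((num 47000) + (var 3 * (num (-29200)))))) + (var 0 * ((var 1 * ((num (-231786)) + (var 3 * (num 144333)))) + ((pow (var 1) 2) * ((num 111390) + (var 3 * (num (-69204)))))))) ((((num 2200) + (var 3 * (num 60900))) + (var 1 * ((num 47000) + (var 3 * (num (-29200)))))) + (var 0 * ((var 1 * ((num (-172128)) + (var 3 * (num 107184)))) + ((pow (var 1) 2) * ((num 82720) + (var 3 * (num (-51392))))))))
  en b := cond b ((var 1 * (num 808750)) + ((var 0 * ((var 2 * ((num 71170) + (var 3 * (num 1970115)))) + (var 1 * (var 2 * ((num 17695450) + (var 3 * (num (-944620)))))))) + ((pow (var 0) 2) * (((num 213510) + (var 3 * (num 5910345))) + (var 1 * ((num 4561350) + (var 3 * (num (-2833860))))))))) ((var 1 * (num 559750)) + ((var 0 * ((var 2 * ((num 49258) + (var 3 * (num 1363551)))) + (var 1 * (var 2 * ((num 12247330) + (var 3 * (num (-653788)))))))) + ((pow (var 0) 2) * (((num 147774) + (var 3 * (num 4090653))) + (var 1 * ((num 3156990) + (var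 3 * (num (-1961364)))))))))
  kk b := cond b ((var 0 * (var 1 * (var 2 * (num 1257000)))) + ((pow (var 0) 2) * (var 1 * (num 3771000)))) ((var 0 * (var 1 * (var 2 * (num 559000)))) + ((pow (var 0) 2) * (var 1 * (num 1677000))))
  wn b := cond b (var 0 * (((num (-18348)) + (var 3 * (num (-995106)))) + ((var 1 * ((num 390420) + (var 3 * (num (-10072))))) + ((pow (var 1) 2) * ((num (-376000)) + (var 3 * (num 233600))))))) (var 0 * (((num (-35222)) + (var 3 * (num (-1462209)))) + ((var 1 * ((num 29930) + (var 3 * (num 213892)))) + ((pow (var 1) 2) * ((num (-376000)) + (var 3 * (num 233600)))))))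
  tn b := cond b (var 1 * (num 1140)) (var 1 * (num 995))
  mu := ⟨(176, 100), (237, 100)⟩
  k2 := (659, 1000)
  θ := (27, 100)

/-- Its ranges. -/
def bxIEu : EBox := ⟨(0, 1, 20), (1, 20, 20), (47, 50, 50), (0, 1, 1)⟩

end Vale.Agent.P100.Calib.StripEnd
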