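import Vale.Agent.P100.Calib.SlabStripEndCertSmall

/-!
# The pieces of the charts `I` for `u` near one: `IF`, `IG`
-/

namespace Vale.Agent.P100.Calib.StripEnd

open Pack Pack.Ex

local instance endPcsIFAdd : Add Ex := ⟨Ex.add⟩
local instance endPcsIFSub : Sub Ex := ⟨Ex.sub⟩
local instance endPcsIFMul : Mul Ex := ⟨Ex.mul⟩

/-- The piece `IFpa`. -/
def pcIFpa : Piece where
  I := (var 0 * (num 1))
  d := (var 0 * (var 2 * (num 1)))
  w := (var 0 * (var 1 * (num 1)))
  o := (((num 1000) + (var 3 * (num (-601)))) + (var 1 * ((num (-929)) + (var 3 * (num 557)))))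
  den := (num 1000)
  pd := (num 50)
  f0 := ((var 2 * (num 200000)) + (var 0 * (num 600000)))
  wd := (num 200000)
  td := ((var 2 * (var 3 * (num 1202))) + (var 1 * ((num 1000) + (var 2 * ((num 1858) + (var 3 * (num (-1114))))))))
  cn := (((num (-1)) + (var 2 * (num 1))) + (var 0 * ((num 2) + (var 2 * (num (-1))))))
  cd := ((var 2 * (num 1)) + ((var 0 * (var 2 * (num (-4)))) + ((pow (var 0) 2) * (var 2 * (num 4)))))
  kn := (var 0 * ((var 3 * (num 8113500)) + (var 1 * ((num 26041500) + (var 3 * (num (-7519500)))))))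
  kd := (((var 1 * (var 3 * (num 150250))) + ((pow (var 1) 2) * ((num 232250) + (var 3 * (num (-139250)))))) + (var 0 * (((pow (var 3) 2) * (num 361201)) + ((var 1 * ((var 3 * (num 1116658)) + ((pow (var 3) 2) * (num (-669514))))) + ((pow (var 1) 2) * ((num 863041) + ((var 3 * (num (-1034906))) + ((pow (var 3) 2) * (num 310249)))))))))
  pn b := cond b (((var 3 * (num 30050)) + (var 1 * ((num 46450) + (var 3 * (num (-27850)))))) + (var 0 * ((var 1 * ((num (-124000)) + (var 3 * (num 74524)))) + ((pow (var 1) 2) * ((num 115196) + (var 3 * (num (-69068)))))))) (((var 3 * (num 30050)) + (var 1 * ((num 46450) + (var 3 * (num (-27850)))))) + (var 0 * ((var 1 * ((num (-95000)) + (var 3 * (num 57095)))) + ((pow (var 1) 2) * ((num 88255) + (var 3 * (num (-52915))))))))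
  en b := cond b ((var 1 * (num 866500)) + ((var 0 * ((var 2 * (var 3 * (num 2083066))) + (var 1 * (var 2 * ((num 20549914) + (var 3 * (num (-1930562)))))))) + ((pow (var 0) 2) * ((var 3 * (num 6249198)) + (var 1 * ((num 9659742) + (var 3 * (num (-5791686))))))))) ((var 1 * (num 559750)) + ((var 0 * ((var 2 * (var 3 * (num 1345639))) + (var 1 * (var 2 * ((num 13275031) + (var 3 * (num (-1247123)))))))) + ((pow (var 0) 2) * ((var 3 * (num 4036917)) + (var 1 * ((num 6240093) + (var 3 * (num (-3741369)))))))))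
  kk b := cond b ((var 0 * (var 1 * (var 2 * (num 1479000)))) + ((pow (var 0) 2) * (var 1 * (num 4437000)))) ((var 0 * (var 1 * (var 2 * (num 559000)))) + ((pow (var 0) 2) * (var 1 * (num 1677000))))
  wn b := cond b (var 0 * ((var 3 * (num (-960999))) + ((var 1 * ((num 57729) + (var 3 * (num 409843)))) + ((pow (var 1) 2) * ((num (-743200)) + (var 3 * (num 445600))))))) (var 0 * ((var 3 * (num (-1443001))) + ((var 1 * ((num (-687329)) + (var 3 * (num 856557)))) + ((pow (var 1) 2) * ((num (-743200)) + (var 3 * (num 445600)))))))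
  tn b := cond b (var 1 * (num 1165)) (var 1 * (num 995))
  mu := ⟨(190, 100), (248, 100)⟩
  k2 := (1361, 2000)
  θ := (69, 500)

/-- Its ranges. -/
def bxIFpa : EBox := ⟨(0, 1, 20), (0, 1, 20), (4, 5, 4), (0, 1, 2)⟩

/-- The piece `IFpb`. -/
def pcIFpb : Piece where
  I := (var 0 * (num 1))
  d := (var 0 * (var 2 * (num 1)))
  w := (var 0 * (var 1 * (num 1)))
  o := (((num 1000) + (var 3 * (num (-601)))) + (var 1 * ((num (-929)) + (var 3 * (num 557)))))
  den := (num 1000)
  pd := (num 50)
  f0 := ((var 2 * (num 200000)) + (var 0 * (num 600000)))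
  wd := (num 200000)
  td := ((var 2 * (var 3 * (num 1202))) + (var 1 * ((num 1000) + (var 2 * ((num 1858) + (var 3 * (num (-1114))))))))
  cn := (((num (-1)) + (var 2 * (num 1))) + (var 0 * ((num 2) + (var 2 * (num (-1))))))
  cd := ((var 2 * (num 1)) + ((var 0 * (var 2 * (num (-4)))) + ((pow (var 0) 2) * (var 2 * (num 4)))))
  kn := (var 0 * ((var 3 * (num 3756250)) + (var 1 * ((num 12056250) + (var 3 * (num (-3481250)))))))
  kd := (((var 1 * (var 3 * (num 150250))) + ((pow (var 1) 2) * ((num 232250) + (var 3 * (num (-139250)))))) + (var 0 * (((pow (var 3) 2) * (num 361201)) + ((var 1 * ((var 3 * (num 1116658)) + ((pow (var 3) 2) * (num (-669514))))) + ((pow (var 1) 2) * ((num 863041) + ((var 3 * (num (-1034906))) + ((pow (var 3) 2) * (num 310249)))))))))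
  pn b := cond b (((var 3 * (num 30050)) + (var 1 * ((num 46450) + (var 3 * (num (-27850)))))) + (var 0 * ((var 1 * ((num (-124000)) + (var 3 * (num 74524)))) + ((pow (var 1) 2) * ((num 115196) + (var 3 * (num (-69068)))))))) (((var 3 * (num 30050)) + (var 1 * ((num 46450) + (var 3 * (num (-27850)))))) + (var 0 * ((var 1 * ((num (-95000)) + (var 3 * (num 57095)))) + ((pow (var 1) 2) * ((num 88255) + (var 3 * (num (-52915))))))))
  en b := cond b ((var 1 * (num 866500)) + ((var 0 * ((var 2 * (var 3 * (num 2083066))) + (var 1 * (var 2 * ((num 20549914) + (var 3 * (num (-1930562)))))))) + ((pow (var 0) 2) * ((var 3 * (num 6249198)) + (var 1 * ((num 9659742) + (var 3 * (num (-5791686))))))))) ((var 1 * (num 559750)) + ((var 0 * ((var 2 * (var 3 * (num 1345639))) + (var 1 * (var 2 * ((num 13275031) + (var 3 * (num (-1247123)))))))) + ((pow (var 0) 2) * ((var 3 * (num 4036917)) + (var 1 * ((num 6240093) + (var 3 * (num (-3741369)))))))))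
  kk b := cond b ((var 0 * (var 1 * (var 2 * (num 1479000)))) + ((pow (var 0) 2) * (var 1 * (num 4437000)))) ((var 0 * (var 1 * (var 2 * (num 559000)))) + ((pow (var 0) 2) * (var 1 * (num 1677000))))
  wn b := cond b (var 0 * ((var 3 * (num (-960999))) + ((var 1 * ((num 57729) + (var 3 * (num 409843)))) + ((pow (var 1) 2) * ((num (-743200)) + (var 3 * (num 445600))))))) (var 0 * ((var 3 * (num (-1443001))) + ((var 1 * ((num (-687329)) + (var 3 * (num 856557)))) + ((pow (var 1) 2) * ((num (-743200)) + (var 3 * (num 445600)))))))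
  tn b := cond b (var 1 * (num 1165)) (var 1 * (num 995))
  mu := ⟨(190, 100), (248, 100)⟩
  k2 := (3203, 2000)
  θ := (51, 80)

/-- Its ranges. -/
def bxIFpb : EBox := ⟨(0, 1, 20), (0, 1, 20), (4, 5, 4), (1, 2, 2)⟩

/-- The piece `IFq`. -/
def pcIFq : Piece where
  I := (var 0 * (num 1))
  d := (var 0 * (var 2 * (num 1)))
  w := (var 0 * (var 1 * (num 1)))
  o := (((num 1000) + (var 3 * (num (-634)))) + (var 1 * ((num (-929)) + (var 3 * (num 588)))))
  den := (num 1000)
  pd := (num 50)
  f0 := ((var 2 * (num 200000)) + (var 0 * (num 600000)))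
  wd := (num 200000)
  td := ((var 2 * (var 3 * (num 1268))) + (var 1 * ((num 1000) + (var 2 * ((num 1858) + (var 3 * (num (-1176))))))))
  cn := (((num (-1)) + (var 2 * (num 1))) + (var 0 * ((num 2) + (var 2 * (num (-1))))))
  cd := ((var 2 * (num 1)) + ((var 0 * (var 2 * (num (-4)))) + ((pow (var 0) 2) * (var 2 * (num 4)))))
  kn := (var 0 * ((var 3 * (num 8717500)) + (var 1 * ((num 26523750) + (var 3 * (num (-8085000)))))))
  kd := (((var 1 * (var 3 * (num 158500))) + ((pow (var 1) 2) * ((num 232250) + (var 3 * (num (-147000)))))) + (var 0 * (((pow (var 3) 2) * (num 401956)) + ((var 1 * ((var 3 * (num 1177972)) + ((pow (var 3) 2) * (num (-745584))))) + ((pow (var 1) 2) * ((num 863041) + ((var 3 * (num (-1092504))) + ((pow (var 3) 2) * (num 345744)))))))))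
  pn b := cond b (((var 3 * (num 31700)) + (var 1 * ((num 46450) + (var 3 * (num (-29400)))))) + (var 0 * ((var 1 * ((num (-129000)) + (var 3 * (num 81786)))) + ((pow (var 1) 2) * ((num 119841) + (var 3 * (num (-75852)))))))) (((var 3 * (num 31700)) + (var 1 * ((num 46450) + (var 3 * (num (-29400)))))) + (var 0 * ((var 1 * ((num (-95000)) + (var 3 * (num 60230)))) + ((pow (var 1) 2) * ((num 88255) + (var 3 * (num (-55860))))))))
  en b := cond b ((var 1 * (num 862500)) + ((var 0 * ((var 2 * (var 3 * (num 2187300))) + (var 1 * (var 2 * ((num 20455050) + (var 3 * (num (-2028600)))))))) + ((pow (var 0) 2) * ((var 3 * (num 6561900)) + (var 1 * ((num 9615150) + (var 3 * (num (-6085800))))))))) ((var 1 * (num 559750)) + ((var 0 * ((var 2 * (var 3 * (num 1419526))) + (var 1 * (var 2 * ((num 13275031) + (var 3 * (num (-1316532)))))))) + ((pow (var 0) 2) * ((var 3 * (num 4258578)) + (var 1 * ((num 6240093) + (var 3 * (num (-3949596)))))))))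
  kk b := cond b ((var 0 * (var 1 * (var 2 * (num 1685000)))) + ((pow (var 0) 2) * (var 1 * (num 5055000)))) ((var 0 * (var 1 * (var 2 * (num 559000)))) + ((pow (var 0) 2) * (var 1 * (num 1677000))))
  wn b := cond b (var 0 * ((var 3 * (num (-1013766))) + ((var 1 * ((num 57729) + (var 3 * (num 433012)))) + ((pow (var 1) 2) * ((num (-743200)) + (var 3 * (num 470400))))))) (var 0 * ((var 3 * (num (-1522234))) + ((var 1 * ((num (-687329)) + (var 3 * (num 904588)))) + ((pow (var 1) 2) * ((num (-743200)) + (var 3 * (num 470400)))))))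
  tn b := cond b (var 1 * (num 1190)) (var 1 * (num 995))
  mu := ⟨(190, 100), (258, 100)⟩
  k2 := (1579, 2000)
  θ := (393, 2000)

/-- Its ranges. -/
def bxIFq : EBox := ⟨(0, 1, 20), (0, 1, 20), (5, 6, 4), (0, 1, 1)⟩

/-- The piece `IFg`. -/
def pcIFg : Piece where
  I := (var 0 * (num 1))
  d := (var 0 * (var 2 * (num 1)))
  w := (var 0 * (var 1 * (num 1)))
  o := (((num 989) + (var 3 * (num (-632)))) + (var 1 * ((num (-693)) + (var 3 * (num 442)))))
  den := (num 1000)
  pd := (num 50)
  f0 := ((var 2 * (num 200000)) + (var 0 * (num 600000)))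
  wd := (num 200000)
  td := ((var 2 * ((num 22) + (var 3 * (num 1264)))) + (var 1 * ((num 1000) + (var 2 * ((num 1386) + (var 3 * (num (-884))))))))
  cn := (((num (-1)) + (var 2 * (num 1))) + (var 0 * ((num 2) + (var 2 * (num (-1))))))
  cd := ((var 2 * (num 1)) + ((var 0 * (var 2 * (num (-4)))) + ((pow (var 0) 2) * (var 2 * (num 4)))))
  kn := (var 0 * (((num 134750) + (var 3 * (num 7742000))) + (var 1 * ((num 20739250) + (var 3 * (num (-5414500)))))))
  kd := (((var 1 * ((num 2750) + (var 3 * (num 158000)))) + ((pow (var 1) 2) * ((num 173250) + (var 3 * (num (-110500)))))) + (var 0 * (((num 121) + ((var 3 * (num 13904)) + ((pow (var 3) 2) * (num 399424)))) + ((var 1 * ((num 15246) + ((var 3 * (num 866228)) + ((pow (var 3) 2) * (num (-558688)))))) + ((pow (var 1) 2) * ((num 480249) + ((var 3 * (num (-612612))) + ((pow (var 3) 2) * (num 195364)))))))))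
  pn b := cond b ((((num 550) + (var 3 * (num 31600))) + (var 1 * ((num 34650) + (var 3 * (num (-22100)))))) + (var 0 * ((var 1 * ((num (-126592)) + (var 3 * (num 80896)))) + ((pow (var 1) 2) * ((num 88704) + (var 3 * (num (-56576)))))))) ((((num 550) + (var 3 * (num 31600))) + (var 1 * ((num 34650) + (var 3 * (num (-22100)))))) + (var 0 * ((var 1 * ((num (-93955)) + (var 3 * (num 60040)))) + ((pow (var 1) 2) * ((num 65835) + (var 3 * (num (-41990))))))))
  en b := cond b ((var 1 * (num 809500)) + ((var 0 * ((var 2 * ((num 35618) + (var 3 * (num 2046416)))) + (var 1 * (var 2 * ((num 18433934) + (var 3 * (num (-1431196)))))))) + ((pow (var 0) 2) * (((num 106854) + (var 3 * (num 6139248))) + (var 1 * ((num 6731802) + (var 3 * (num (-4293588))))))))) ((var 1 * (num 559750)) + ((var 0 * ((var 2 * ((num 24629) + (var 3 * (num 1415048)))) + (var 1 * (var 2 * ((num 12746627) + (var 3 * (num (-989638)))))))) + ((pow (var 0) 2) * (((num 73887) + (var 3 * (num 4245144))) + (var 1 * ((num 4654881) + (var 3 *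 (num (-2968914)))))))))
  kk b := cond b ((var 0 * (var 1 * (var 2 * (num 1672000)))) + ((pow (var 0) 2) * (var 1 * (num 5016000)))) ((var 0 * (var 1 * (var 2 * (num 559000)))) + ((pow (var 0) 2) * (var 1 * (num 1677000))))
  wn b := cond b (var 0 * (((num (-9405)) + (var 3 * (num (-1045960)))) + ((var 1 * ((num 198685) + (var 3 * (num 225910)))) + ((pow (var 1) 2) * ((num (-554400)) + (var 3 * (num 353600))))))) (var 0 * (((num (-17611)) + (var 3 * (num (-1517432)))) + ((var 1 * ((num (-318293)) + (var 3 * (num 555642)))) + ((pow (var 1) 2) * ((num (-554400)) + (var 3 * (num 353600)))))))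
  tn b := cond b (var 1 * (num 1185)) (var 1 * (num 995))
  mu := ⟨(190, 100), (256, 100)⟩
  k2 := (601, 1000)
  θ := (407, 2000)

/-- Its ranges. -/
def bxIFg : EBox := ⟨(0, 1, 20), (1, 7, 20), (2, 3, 2), (0, 1, 1)⟩

/-- The piece `IFh`. -/
def pcIFh : Piece where
  I := (var 0 * (num 1))
  d := (var 0 * (var 2 * (num 1)))
  w := (var 0 * (var 1 * (num 1)))
  o := (((num 882) + (var 3 * (num (-561)))) + (var 1 * ((num (-387)) + (var 3 * (num 245)))))
  den := (num 1000)
  pd := (num 100)
  f0 := ((var 2 * (num 200000)) + (var 0 * (num 600000)))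
  wd := (num 200000)
  td := ((var 2 * ((num 236) + (var 3 * (num 1122)))) + (var 1 * ((num 1000) + (var 2 * ((num 774) + (var 3 * (num (-490))))))))
  cn := (((num (-1)) + (var 2 * (num 1))) + (var 0 * ((num 2) + (var 2 * (num (-1))))))
  cd := ((var 2 * (num 1)) + ((var 0 * (var 2 * (num (-4)))) + ((pow (var 0) 2) * (var 2 * (num 4)))))
  kn := (var 0 * (((num 1416000) + (var 3 * (num 6732000))) + (var 1 * ((num 16644000) + (var 3 * (num (-2940000)))))))
  kd := (((var 1 * ((num 29500) + (var 3 * (num 140250)))) + ((pow (var 1) 2) * ((num 96750) + (var 3 * (num (-61250)))))) + (var 0 * (((num 13924) + ((var 3 * (num 132396)) + ((pow (var 3) 2) * (num 314721)))) + ((var 1 * ((num 91332) + ((var 3 * (num 376394)) + ((pow (var 3) 2) * (num (-274890)))))) + ((pow (var 1) 2) * ((num 149769) + ((var 3 * (num (-189630))) + ((pow (var 3) 2) * (num 60025)))))))))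
  pn b := cond b ((((num 11800) + (var 3 * (num 56100))) + (var 1 * ((num 38700) + (var 3 * (num (-24500)))))) + (var 0 * ((var 1 * ((num (-216090)) + (var 3 * (num 137445)))) + ((pow (var 1) 2) * ((num 94815) + (var 3 * (num (-60025)))))))) ((((num 11800) + (var 3 * (num 56100))) + (var 1 * ((num 38700) + (var 3 * (num (-24500)))))) + (var 0 * ((var 1 * ((num (-161406)) + (var 3 * (num 102663)))) + ((pow (var 1) 2) * ((num 70821) + (var 3 * (num (-44835))))))))
  en b := cond b ((var 1 * (num 763250)) + ((var 0 * ((var 2 * ((num 360254) + (var 3 * (num 1712733)))) + (var 1 * (var 2 * ((num 16446511) + (var 3 * (num (-747985)))))))) + ((pow (var 0) 2) * (((num 1080762) + (var 3 * (num 5138199))) + (var 1 * ((num 3544533) + (var 3 * (num (-2243955))))))))) ((var 1 * (num 559750)) + ((var 0 * ((var 2 * ((num 264202) + (var 3 * (num 1256079)))) + (var 1 * (var 2 * ((num 12061493) + (var 3 * (num (-548555)))))))) + ((pow (var 0) 2) * (((num 792606) + (var 3 * (num 3768237))) + (var 1 * ((num 2599479) +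 (var 3 * (num (-1645665)))))))))
  kk b := cond b ((var 0 * (var 1 * (var 2 * (num 1611000)))) + ((pow (var 0) 2) * (var 1 * (num 4833000)))) ((var 0 * (var 1 * (var 2 * (num 559000)))) + ((pow (var 0) 2) * (var 1 * (num 1677000))))
  wn b := cond b (var 0 * (((num (-114932)) + (var 3 * (num (-995214)))) + ((var 1 * ((num 328662) + (var 3 * (num (-14170))))) + ((pow (var 1) 2) * ((num (-309600)) + (var 3 * (num 196000))))))) (var 0 * (((num (-188918)) + (var 3 * (num (-1346961)))) + ((var 1 * ((num 86013) + (var 3 * (num 139445)))) + ((pow (var 1) 2) * ((num (-309600)) + (var 3 * (num 196000)))))))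
  tn b := cond b (var 1 * (num 1155)) (var 1 * (num 995))
  mu := ⟨(183, 100), (245, 100)⟩
  k2 := (331, 2000)
  θ := (11, 250)

/-- Its ranges. -/
def bxIFh : EBox := ⟨(0, 1, 20), (7, 18, 20), (2, 3, 2), (0, 1, 1)⟩

/-- The piece `IGt`. -/
def pcIGt : Piece where
  I := (var 0 * (num 1))
  d := (var 0 * (var 2 * (num 1)))
  w := (var 0 * (var 1 * (num 1)))
  o := (((num 1000) + (var 3 * (num (-678)))) + (var 1 * ((num (-929)) + (var 3 * (num 628)))))
  den := (num 1000)
  pd := (num 100)
  f0 := ((var 2 * (num 200000)) + (var 0 * (num 600000)))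
  wd := (num 200000)
  td := ((var 2 * (var 3 * (num 1356))) + (var 1 * ((num 1000) + (var 2 * ((num 1858) + (var 3 * (num (-1256))))))))
  cn := (((num (-1)) + (var 2 * (num 1))) + (var 0 * ((num 2) + (var 2 * (num (-1))))))
  cd := ((var 2 * (num 1)) + ((var 0 * (var 2 * (num (-4)))) + ((pow (var 0) 2) * (var 2 * (num 4)))))
  kn := (var 0 * ((var 3 * (num 7881750)) + (var 1 * ((num 22424625) + (var 3 * (num (-7300500)))))))
  kd := (((var 1 * (var 3 * (num 169500))) + ((pow (var 1) 2) * ((num 232250) + (var 3 * (num (-157000)))))) + (var 0 * (((pow (var 3) 2) * (num 459684)) + ((var 1 * ((var 3 * (num 1259724)) + ((pow (var 3) 2) * (num (-851568))))) + ((pow (var 1) 2) * ((num 863041) + ((var 3 * (num (-1166824))) + ((pow (var 3) 2) * (num 394384)))))))))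
  pn b := cond b (((var 3 * (num 67800)) + (var 1 * ((num 92900) + (var 3 * (num (-62800)))))) + (var 0 * ((var 1 * ((num (-243000)) + (var 3 * (num 164754)))) + ((pow (var 1) 2) * ((num 225747) + (var 3 * (num (-152604)))))))) (((var 3 * (num 67800)) + (var 1 * ((num 92900) + (var 3 * (num (-62800)))))) + (var 0 * ((var 1 * ((num (-190000)) + (var 3 * (num 128820)))) + ((pow (var 1) 2) * ((num 176510) + (var 3 * (num (-119320))))))))
  en b := cond b ((var 1 * (num 840250)) + ((var 0 * ((var 2 * (var 3 * (num 2278758))) + (var 1 * (var 2 * ((num 19927369) + (var 3 * (num (-2110708)))))))) + ((pow (var 0) 2) * ((var 3 * (num 6836274)) + (var 1 * ((num 9367107) + (var 3 * (num (-6332124))))))))) ((var 1 * (num 559750)) + ((var 0 * ((var 2 * (var 3 * (num 1518042))) + (var 1 * (var 2 * ((num 13275031) + (var 3 * (num (-1406092)))))))) + ((pow (var 0) 2) * ((var 3 * (num 4554126)) + (var 1 * ((num 6240093) + (var 3 * (num (-4218276)))))))))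
  kk b := cond b ((var 0 * (var 1 * (var 2 * (num 1451000)))) + ((pow (var 0) 2) * (var 1 * (num 4353000)))) ((var 0 * (var 1 * (var 2 * (num 559000)))) + ((pow (var 0) 2) * (var 1 * (num 1677000))))
  wn b := cond b (var 0 * ((var 3 * (num (-1080054))) + ((var 1 * ((num 63303) + (var 3 * (num 458004)))) + ((pow (var 1) 2) * ((num (-743200)) + (var 3 * (num 502400))))))) (var 0 * ((var 3 * (num (-1627878))) + ((var 1 * ((num (-687329)) + (var 3 * (num 965428)))) + ((pow (var 1) 2) * ((num (-743200)) + (var 3 * (num 502400)))))))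
  tn b := cond b (var 1 * (num 1140)) (var 1 * (num 995))
  mu := ⟨(190, 100), (243, 100)⟩
  k2 := (277, 250)
  θ := (3, 8)

/-- Its ranges. -/
def bxIGt : EBox := ⟨(0, 3, 100), (0, 1, 20), (3, 4, 2), (0, 1, 1)⟩

/-- The piece `IGu`. -/
def pcIGu : Piece where
  I := (var 0 * (num 1))
  d := (var 0 * (var 2 * (num 1)))
  w := (var 0 * (var 1 * (num 1)))
  o := (((num 979) + (var 3 * (num (-675)))) + (var 1 * ((num (-495)) + (var 3 * (num 341)))))
  den := (num 1000)
  pd := (num 100)
  f0 := ((var 2 * (num 200000)) + (var 0 * (num 600000)))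
  wd := (num 200000)
  td := ((var 2 * ((num 42) + (var 3 * (num 1350)))) + (var 1 * ((num 1000) + (var 2 * ((num 990) + (var 3 * (num (-682))))))))
  cn := (((num (-1)) + (var 2 * (num 1))) + (var 0 * ((num 2) + (var 2 * (num (-1))))))
  cd := ((var 2 * (num 1)) + ((var 0 * (var 2 * (num (-4)))) + ((pow (var 0) 2) * (var 2 * (num 4)))))
  kn := (var 0 * (((num 283500) + (var 3 * (num 9112500))) + (var 1 * ((num 20182500) + (var 3 * (num (-4603500)))))))
  kd := (((var 1 * ((num 5250) + (var 3 * (num 168750)))) + ((pow (var 1) 2) * ((num 123750) + (var 3 * (num (-85250)))))) + (var 0 * (((num 441) + ((var 3 * (num 28350)) + ((pow (var 3) 2) * (num 455625)))) + ((var 1 * ((num 20790) + ((var 3 * (num 653928)) + ((pow (var 3) 2) * (num (-460350)))))) + ((pow (var 1) 2) * ((num 245025) + ((var 3 * (num (-337590))) + ((pow (var 3) 2) * (num 116281)))))))))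
  pn b := cond b ((((num 2100) + (var 3 * (num 67500))) + (var 1 * ((num 49500) + (var 3 * (num (-34100)))))) + (var 0 * ((var 1 * ((num (-235939)) + (var 3 * (num 162675)))) + ((pow (var 1) 2) * ((num 119295) + (var 3 * (num (-82181)))))))) ((((num 2100) + (var 3 * (num 67500))) + (var 1 * ((num 49500) + (var 3 * (num (-34100)))))) + (var 0 * ((var 1 * ((num (-184052)) + (var 3 * (num 126900)))) + ((pow (var 1) 2) * ((num 93060) + (var 3 * (num (-64108))))))))
  en b := cond b ((var 1 * (num 767500)) + ((var 0 * ((var 2 * ((num 64470) + (var 3 * (num 2072250)))) + (var 1 * (var 2 * ((num 16869650) + (var 3 * (num (-1046870)))))))) + ((pow (var 0) 2) * (((num 193410) + (var 3 * (num 6216750))) + (var 1 * ((num 4558950) + (var 3 * (num (-3140610))))))))) ((var 1 * (num 559750)) + ((var 0 * ((var 2 * ((num 47019) + (var 3 * (num 1511325)))) + (var 1 * (var 2 * ((num 12303305) + (var 3 * (num (-763499)))))))) + ((pow (var 0) 2) * (((num 141057) + (var 3 * (num 4533975))) + (var 1 * ((num 3324915) + (var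 3 * (num (-2290497)))))))))
  kk b := cond b ((var 0 * (var 1 * (var 2 * (num 1442000)))) + ((pow (var 0) 2) * (var 1 * (num 4326000)))) ((var 0 * (var 1 * (var 2 * (num 559000)))) + ((pow (var 0) 2) * (var 1 * (num 1677000))))
  wn b := cond b (var 0 * (((num (-17892)) + (var 3 * (num (-1115100)))) + ((var 1 * ((num 361460) + (var 3 * (num 23332)))) + ((pow (var 1) 2) * ((num (-396000)) + (var 3 * (num 272800))))))) (var 0 * (((num (-33621)) + (var 3 * (num (-1620675)))) + ((var 1 * ((num (-9295)) + (var 3 * (num 278741)))) + ((pow (var 1) 2) * ((num (-396000)) + (var 3 * (num 272800)))))))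
  tn b := cond b (var 1 * (num 1135)) (var 1 * (num 995))
  mu := ⟨(188, 100), (241, 100)⟩
  k2 := (379, 2000)
  θ := (67, 500)

/-- Its ranges. -/
def bxIGu : EBox := ⟨(0, 3, 100), (1, 18, 20), (3, 4, 2), (0, 1, 1)⟩

end Vale.Agent.P100.Calib.StripEnd
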