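import Vale.Agent.P100.Calib.SlabStripEndCertSmall

/-!
# The pieces of the charts `Z` for `u` near one
-/

namespace Vale.Agent.P100.Calib.StripEnd

open Pack Pack.Ex

local instance endPcsZAdd : Add Ex := ⟨Ex.add⟩
local instance endPcsZSub : Sub Ex := ⟨Ex.sub⟩
local instance endPcsZMul : Mul Ex := ⟨Ex.mul⟩

/-- The piece `ZA`. -/
def pcZA : Piece where
  I := (var 0 * (var 1 * (num 1)))
  d := (var 0 * (var 1 * (var 2 * (num 1))))
  w := (var 0 * (num 1))
  o := (var 1 * (var 3 * (num 2)))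
  den := ((num 2) + (var 1 * ((num 2) + (var 2 * (num 1)))))
  pd := (num 50)
  f0 := (((var 1 * (var 2 * (num 1600))) + ((pow (var 1) 2) * ((var 2 * (num 1600)) + ((pow (var 2) 2) * (num 800))))) + (var 0 * (((pow (var 1) 2) * (num 4800)) + ((pow (var 1) 3) * ((num 4800) + (var 2 * (num 2400)))))))
  wd := ((num 400) + (var 1 * ((num 400) + (var 2 * (num 200)))))
  td := (num 200)
  cn := (num 0)
  cd := (num 1)
  kn := ((var 1 * (num 42)) + ((pow (var 1) 2) * ((num 42) + (var 2 * (num 21)))))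
  kd := ((num 8) + ((var 1 * ((num 16) + (var 2 * (num 4)))) + ((pow (var 1) 2) * (((num 8) + (var 3 * (num (-8)))) + (var 2 * (num 4))))))
  pn b := cond b (((num 100) + (var 1 * (((num 100) + (var 3 * (num (-100)))) + (var 2 * (num 50))))) + (var 0 * (var 1 * (var 3 * (num (-218)))))) (((num 100) + (var 1 * (((num 100) + (var 3 * (num (-100)))) + (var 2 * (num 50))))) + (var 0 * (var 1 * (var 3 * (num (-183))))))
  en b := cond b (((num 5928) + (var 1 * ((num 5928) + (var 2 * (num 2964))))) + ((var 0 * ((var 1 * (var 2 * (num 118560))) + (((pow (var 1) 2) * ((var 2 * (num 142272)) + ((pow (var 2) 2) * (num 59280)))) + ((pow (var 1) 3) * ((var 2 * ((num 23712) + (var 3 * (num (-23712))))) + ((pow (var 2) 2) * (num 11856))))))) + ((pow (var 0) 2) * (((pow (var 1) 3) * (num 71136)) + ((pow (var 1) 4) * (((num 71136) + (var 3 * (num (-71136)))) + (var 2 * (num 35568)))))))) (((num 4478) + (var 1 * ((num 4478) + (var 2 * (num 2239))))) + ((var 0 * ((var 1 * (var 2 * (num 89560)))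 + (((pow (var 1) 2) * ((var 2 * (num 107472)) + ((pow (var 2) 2) * (num 44780)))) + ((pow (var 1) 3) * ((var 2 * ((num 17912) + (var 3 * (num (-17912))))) + ((pow (var 2) 2) * (num 8956))))))) + ((pow (var 0) 2) * (((pow (var 1) 3) * (num 53736)) + ((pow (var 1) 4) * (((num 53736) + (var 3 * (num (-53736)))) + (var 2 * (num 26868))))))))
  kk b := cond b ((var 0 * ((var 1 * (var 2 * (num 9440))) + ((pow (var 1) 2) * ((var 2 * (num 9440)) + ((pow (var 2) 2) * (num 4720)))))) + ((pow (var 0) 2) * (((pow (var 1) 2) * (num 28320)) + ((pow (var 1) 3) * ((num 28320) + (var 2 * (num 14160))))))) ((var 0 * ((var 1 * (var 2 * (num (-640)))) + ((pow (var 1) 2) * ((var 2 * (num (-640))) + ((pow (var 2) 2) * (num (-320))))))) + ((pow (var 0) 2) * (((pow (var 1) 2) * (num (-1920))) + ((pow (var 1) 3) * ((num (-1920)) + (var 2 * (num (-960))))))))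
  wn b := cond b (var 0 * ((var 1 * ((num (-2918)) + (var 3 * (num 1600)))) + ((pow (var 1) 2) * (((num (-2918)) + (var 3 * (num 2918))) + (var 2 * (num (-1459))))))) (var 0 * ((var 1 * ((num (-3592)) + (var 3 * (num 1600)))) + ((pow (var 1) 2) * (((num (-3592)) + (var 3 * (num 3592))) + (var 2 * (num (-1796)))))))
  tn b := cond b (num 223) (num 76)
  mu := ⟨(183, 100), (109, 50)⟩
  k2 := (303, 2000)
  θ := (143, 2000)

/-- Its ranges. -/
def bxZA : EBox := ⟨(0, 1, 20), (0, 1, 1), (0, 1, 1), (49, 103, 100)⟩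

/-- The piece `ZB`. -/
def pcZB : Piece where
  I := (var 1 * (num 1))
  d := (var 1 * (var 2 * (num 1)))
  w := (var 0 * (num 1))
  o := (var 1 * (var 3 * (num 2)))
  den := ((var 1 * ((num 2) + (var 2 * (num 1)))) + (var 0 * (num 2)))
  pd := (num 50)
  f0 := ((((pow (var 1) 2) * ((var 2 * (num 1600)) + ((pow (var 2) 2) * (num 800)))) + ((pow (var 1) 3) * ((num 4800) + (var 2 * (num 2400))))) + (var 0 * ((var 1 * (var 2 * (num 1600))) + ((pow (var 1) 2) * (num 4800)))))
  wd := ((var 1 * ((num 50) + (var 2 * (num 25)))) + (var 0 * (num 50)))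
  td := (num 200)
  cn := (num 0)
  cd := (num 1)
  kn := (((pow (var 1) 2) * ((num 48) + (var 2 * (num 24)))) + (var 0 * (var 1 * (num 48))))
  kd := (((pow (var 1) 2) * (((num 10) + (var 3 * (num (-10)))) + (var 2 * (num 5)))) + ((var 0 * (var 1 * ((num 20) + (var 2 * (num 5))))) + ((pow (var 0) 2) * (num 10))))
  pn b := cond b ((var 1 * (((num 100) + (var 3 * (num (-100)))) + (var 2 * (num 50)))) + (var 0 * ((num 100) + (var 1 * (var 3 * (num (-222))))))) ((var 1 * (((num 100) + (var 3 * (num (-100)))) + (var 2 * (num 50)))) + (var 0 * ((num 100) + (var 1 * (var 3 * (num (-149)))))))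
  en b := cond b ((((pow (var 1) 3) * ((var 2 * ((num 23752) + (var 3 * (num (-23752))))) + ((pow (var 2) 2) * (num 11876)))) + ((pow (var 1) 4) * (((num 71256) + (var 3 * (num (-71256)))) + (var 2 * (num 35628))))) + ((var 0 * ((var 1 * ((num 5938) + (var 2 * (num 2969)))) + (((pow (var 1) 2) * ((var 2 * (num 142512)) + ((pow (var 2) 2) * (num 59380)))) + ((pow (var 1) 3) * (num 71256))))) + ((pow (var 0) 2) * ((num 5938) + (var 1 * (var 2 * (num 118760))))))) ((((pow (var 1) 3) * ((var 2 * ((num 17912) + (var 3 * (num (-17912))))) + ((pow (var 2) 2) * (num 8956)))) + ((pow (var 1) 4) * (((num 53736) + (var 3 * (num (-53736)))) + (var 2 * (num 26868))))) + ((var 0 * ((var 1 * ((num 4478) + (var 2 * (num 2239)))) + (((pow (var 1) 2) * ((var 2 * (num 107472)) + ((pow (var 2) 2) * (num 44780)))) + ((pow (var 1) 3) * (num 53736))))) + ((pow (var 0) 2) * ((num 4478) + (var 1 * (var 2 * (num 89560)))))))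
  kk b := cond b ((var 0 * (((pow (var 1) 2) * ((var 2 * (num 9472)) + ((pow (var 2) 2) * (num 4736)))) + ((pow (var 1) 3) * ((num 28416) + (var 2 * (num 14208)))))) + ((pow (var 0) 2) * ((var 1 * (var 2 * (num 9472))) + ((pow (var 1) 2) * (num 28416))))) ((var 0 * (((pow (var 1) 2) * ((var 2 * (num (-640))) + ((pow (var 2) 2) * (num (-320))))) + ((pow (var 1) 3) * ((num (-1920)) + (var 2 * (num (-960))))))) + ((pow (var 0) 2) * ((var 1 * (var 2 * (num (-640)))) + ((pow (var 1) 2) * (num (-1920))))))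
  wn b := cond b (((pow (var 1) 2) * (((num (-314)) + (var 3 * (num 314))) + (var 2 * (num (-157))))) + (var 0 * (var 1 * ((num (-314)) + (var 3 * (num 200)))))) (((pow (var 1) 2) * (((num (-502)) + (var 3 * (num 502))) + (var 2 * (num (-251))))) + (var 0 * (var 1 * ((num (-502)) + (var 3 * (num 200))))))
  tn b := cond b (num 223) (num 80)
  mu := ⟨(149, 100), (111, 50)⟩
  k2 := (129, 250)
  θ := (27, 100)

/-- Its ranges. -/
def bxZB : EBox := ⟨(1, 4, 20), (0, 1, 20), (0, 1, 1), (23, 55, 50)⟩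

end Vale.Agent.P100.Calib.StripEnd
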