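import Vale.Agent.P100.Calib.SlabStripMidPoint
import Vale.Agent.P100.Calib.SlabStripChart
import Vale.Agent.P100.Calib.SlabAllLie

/-!
# The checks of a piece below 153/200 and the signs in the chart
-/

set_option linter.unusedVariables false

namespace Vale.Agent.P100.Calib.StripMid

open Pack

/-- A test passes for some degrees and width. -/
def Chk (C : ℕ → Chart) (e : Ex) : Prop :=
  ∃ K a b c d, checkFour C K a b c d e = true

/-- The ranges: `x₀`, `x₁`, `Y`, `c`, `u`, each `(lo, hi, den)`. -/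
structure Box where
  (q₀ q₁ qY qc qu : ℤ × ℤ × ℕ)

/-- A half open range as a chart. -/
def side (q : ℤ × ℤ × ℕ) : Chart := ⟨q.1, q.2.1, q.2.2, q.2.2⟩

/-- A range closed above as a chart. -/
def sideUp (q : ℤ × ℤ × ℕ) : Chart := ⟨q.2.1, q.1, q.2.2, q.2.2⟩

/-- The charts of the conditions. -/
def Box.vC (B : Box) : ℕ → Chart
  | 0 => side B.q₀
  | 1 => side B.q₁
  | 2 => side B.qY
  | _ => ⟨0, 1, 1, 1⟩

/-- The charts of the bounds. -/
def Box.cC (B : Box) : ℕ → Chart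
  | 0 => side B.q₀
  | 1 => side B.q₁
  | 2 => side B.qc
  | _ => sideUp B.qu

/-- The charts of the gap. -/
def Box.gC (B : Box) (rect : Bool) : ℕ → Chart
  | 0 => side B.q₀
  | 1 => side B.q₁
  | 2 => side (cond rect B.qY B.qc)
  | _ => sideUp B.qu

/-- All checks of a piece. -/
structure Cert (P : Piece) (B : Box) (rect : Bool) : Prop where
  pos : P.Pos3
  gX : ∀ p l, Chk B.vC (subst (sub P ⟨p, l, true, true, false⟩) condX)
  gMG : ∀ p l, Chk B.vC (subst (sub P ⟨p, l, true, false, false⟩) tplMG)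
  g1 : ∀ p l, Chk B.vC (subst (sub P ⟨p, l, false, false, false⟩) P.m1)
  g2 : ∀ s p t, Chk B.vC (subst (sub P ⟨p, s, true, false, t⟩) (strict (P.m2 s)))
  g3 : ∀ s p l t, Chk B.vC (subst (sub P ⟨p, l, true, true, t⟩) (strict (P.m3 s)))
  cMG : Chk B.vC (subst (sub P ⟨false, false, true, true, false⟩) (negEx coMG12))
  c2 : ∀ s, Chk B.vC (subst (sub P ⟨false, false, true, true, false⟩) (negEx (P.curve2 s)))
  c3 : ∀ s, Chk B.vC (subst (sub P ⟨false, false, true, true, false⟩) (negEx (P.curve3 s)))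
  sT : ∀ p, Chk B.vC (subst (sub P ⟨p, false, true, true, false⟩) slopeT)
  bnd : ∀ ze b, Chk B.cC (bound P ze b)
  gap : ∀ ze t, Chk (B.gC rect) (subst (gapSub P rect ze t) tplL)

/-- `x` lies in a half open range. -/
def InR (q : ℤ × ℤ × ℕ) (x : ℝ) : Prop :=
  0 < q.2.2 ∧ (q.1 : ℝ) / q.2.2 ≤ x ∧ x < (q.2.1 : ℝ) / q.2.2

/-- `x` lies in a range closed above. -/
def InU (q : ℤ × ℤ × ℕ) (x : ℝ) : Prop :=
  0 < q.2.2 ∧ (q.1 : ℝ) / q.2.2 < x ∧ x ≤ (q.2.1 : ℝ) / q.2.2

theorem side_mem {q : ℤ × ℤ × ℕ} {x : ℝ} (h : InR q x) :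
    ∃ t : ℝ, 0 ≤ t ∧ 0 < ((side q).c : ℝ) + (side q).d * t ∧
      ((side q).a : ℝ) + (side q).b * t = x * (((side q).c : ℝ) + (side q).d * t) := by
  obtain ⟨hq, h0, h1⟩ := h
  have hq' : (0 : ℝ) < q.2.2 := by exact_mod_cast hq
  rw [div_le_iff₀ hq'] at h0
  rw [lt_div_iff₀ hq'] at h1
  have hd : 0 < (q.2.1 : ℝ) - x * q.2.2 := sub_pos.2 h1
  refine ⟨(x * q.2.2 - q.1) / ((q.2.1 : ℝ) - x * q.2.2), div_nonneg (sub_nonneg.2 h0) hd.le, ?_, ?_⟩
  · simp only [side]; push_cast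
    have := div_nonneg (sub_nonneg.2 h0) hd.le
    positivity
  · simp only [side]; push_cast
    field_simp
    ring

theorem sideUp_mem {q : ℤ × ℤ × ℕ} {x : ℝ} (h : InU q x) :
    ∃ t : ℝ, 0 ≤ t ∧ 0 < ((sideUp q).c : ℝ) + (sideUp q).d * t ∧
      ((sideUp q).a : ℝ) + (sideUp q).b * t = x * (((sideUp q).c : ℝ) + (sideUp q).d * t) := by
  obtain ⟨hq, h0, h1⟩ := h
  have hq' : (0 : ℝ) < q.2.2 := by exact_mod_cast hq
  rw [div_lt_iff₀ hq'] at h0
  rw [le_div_iff₀ hq'] at h1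
  have hd : 0 < x * q.2.2 - (q.1 : ℝ) := sub_pos.2 h0
  refine ⟨((q.2.1 : ℝ) - x * q.2.2) / (x * q.2.2 - q.1), div_nonneg (sub_nonneg.2 h1) hd.le, ?_, ?_⟩
  · simp only [sideUp]; push_cast
    have := div_nonneg (sub_nonneg.2 h1) hd.le
    positivity
  · simp only [sideUp]; push_cast
    field_simp
    ring

theorem Chk.nonneg {C : ℕ → Chart} {e : Ex} (h : Chk C e) {x : ℕ → ℝ}
    (hx : ∀ i < 4, ∃ t : ℝ, 0 ≤ t ∧ 0 < ((C i).c : ℝ) + (C i).d * t ∧
      ((C i).a : ℝ) + (C i).b * t = x i * (((C i).c : ℝ) + (C i).d * t)) :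
    0 ≤ e.eval x := by
  obtain ⟨K, a, b, c, d, h⟩ := h
  exact nonneg_of_checkFour h hx

/-- The point of a kind. -/
noncomputable def mkPt (K : Kind) (d I Y u : ℝ) : ℕ → ℝ
  | 0 => match K with
    | .B => d
    | _ => I
  | 1 => match K with
    | .A => d / I
    | .B => I / d
    | .D => d
  | 2 => Y
  | _ => u

theorem mkPt_coords {P : Piece} {d I Y u : ℝ} (hd : d ≠ 0) (hI : I ≠ 0) :
    xd P (mkPt P.kind d I Y u) = d ∧ xI P (mkPt P.kind d I Y u) = I ∧
      xv P (mkPt P.kind d I Y u) = 2 * I * (1 + Y) ∧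
      (kS P.kind).eval (mkPt P.kind d I Y u) = 1 - 2 * I ∧
      xa P (mkPt P.kind d I Y u) = (1 - 2 * I - d) / 2 := by
  have e1 : xd P (mkPt P.kind d I Y u) = d := by
    unfold xd; cases P.kind <;> simp [kD, Ex.eval, mkPt, hI]
  have e2 : xI P (mkPt P.kind d I Y u) = I := by
    unfold xI; cases P.kind <;> simp [kI, Ex.eval, mkPt, hd]
  refine ⟨e1, e2, ?_, by rw [eval_kS, e2], ?_⟩
  · show ((2 : ℤ) : ℝ) * xI P _ * (((1 : ℤ) : ℝ) + Y) = _
    rw [e2]; norm_num
  · have := eval_kA' (P := P) (x := mkPt P.kind d I Y u)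
    rw [e1, e2] at this
    linarith

/-- What holds at an orbit point for a piece. -/
structure Place (P : Piece) (B : Box) (d S u v t : ℝ) : Prop where
  facts : Closed.All.ChartFacts d S u v t
  d_pos : 0 < d
  I_pos : S < 1
  I_le : (1 - S) / 2 ≤ 1 / 20
  a_low : 31 / 100 < (S - d) / 2
  cy : ∃ c Y, InR B.qc c ∧ InR B.qY Y ∧ v = (1 - S) * (1 + Y) ∧
    Y * (1 - (S - d) * u) = c * ((S - d) * u)
  r₀ : InR B.q₀ (mkPt P.kind d ((1 - S) / 2) 0 u 0)
  r₁ : InR B.q₁ (mkPt P.kind d ((1 - S) / 2) 0 u 1)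
  ru : InU B.qu u
  kap : match P.kind with
    | .A => d * (1 - (1 - S) / 2) ≤ S * ((1 - S) / 2)
    | _ => S * ((1 - S) / 2) ≤ d * (1 - (1 - S) / 2)
  flow : Band.allFlow ((S - d) / 2) ((S + d) / 2) u v (Closed.chH d S u v t) ≤
    fr P.z * ((1 - S) / 2 * Band.allDen ((S - d) / 2) ((S + d) / 2) u v (Closed.chH d S u v t))

/-- `D2 d` is that of the chart. -/
theorem kap_eq {P : Piece} {x : ℕ → ℝ} (h : Good P x) (hI : xI P x ≤ 1 / 20)
    (hk : match P.kind with
      | .A => xd P x * (1 - xI P x) ≤ (kS P.kind).eval x * xI P x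
      | _ => (kS P.kind).eval x * xI P x ≤ xd P x * (1 - xI P x)) :
    (AllN.kapAll (1 / xI P x) (xa P x) + 1) / xd P x = kap P x := by
  have hI0 := h.I
  have hd := h.d
  have hS := h.S
  have eS := eval_kS (P := P) (x := x)
  have eA := eval_kA' (P := P) (x := x)
  have e1 : 2 * (1 / xI P x * xa P x) * (1 / xI P x - 1) / (1 / xI P x - 2) ^ 2 =
      2 * xa P x * (1 - xI P x) / (kS P.kind).eval x ^ 2 := by
    rw [eS] at hS ⊢
    field_simp
  have e2 : -1 + 1 = (0 : ℝ) := by norm_num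
  have e3 : -(2 * xa P x * (1 - xI P x) / (kS P.kind).eval x ^ 2) + 1 =
      (xd P x * (1 - xI P x) - (kS P.kind).eval x * xI P x) / (kS P.kind).eval x ^ 2 := by
    field_simp
    rw [eS, show 2 * xa P x = 1 - 2 * xI P x - xd P x by linarith]
    ring
  rw [AllN.kapAll, e1, ← max_add_add_right, e2, e3]
  unfold kap
  rcases hK : P.kind with _ | _ | _ <;> simp only [hK] at hk hS ⊢
  · rw [max_eq_left (div_nonpos_of_nonpos_of_nonneg (by linarith) (sq_nonneg _)), zero_div]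
  · rw [max_eq_right (div_nonneg (by linarith) (sq_nonneg _))]
    have e0 : xd P x = x 0 := by unfold xd; rw [hK]; rfl
    have e0' : xI P x = x 1 * x 0 := by unfold xI; rw [hK]; rfl
    rw [e0] at hd ⊢
    rw [e0']
    field_simp
  · rw [max_eq_right (div_nonneg (by linarith) (sq_nonneg _))]
    field_simp

/-- **The signs in the chart from the checks of a piece.** -/
theorem chartSigns_of_cert {n : ℕ} {P : Piece} {B : Box} {rect : Bool} (K : Cert P B rect)
    {d S u v t : ℝ} (hcb : Closed.All.ChartBox n d S) (hp : Place P B d S u v t) :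
    Closed.Strip.ChartSigns d S u v t := by
  obtain ⟨hf, hd, hS1, hI, ha, ⟨c, Y, hc, hY, hv, hrel⟩, h0, h1, hu, hk, hfl⟩ := hp
  have hS0 : (9 : ℝ) / 10 ≤ S := by linarith
  obtain ⟨I, hIe⟩ : ∃ I, I = (1 - S) / 2 := ⟨_, rfl⟩
  obtain rfl : S = 1 - 2 * I := by linarith
  have hI0 : 0 < I := by linarith
  simp only [← hIe] at h0 h1 hk hI hfl
  obtain ⟨x, hx⟩ : ∃ x, x = mkPt P.kind d I Y u := ⟨_, rfl⟩
  obtain ⟨y, hy⟩ : ∃ y, y = mkPt P.kind d I c u := ⟨_, rfl⟩
  obtain ⟨ed, eI, ev, eS, ea⟩ := mkPt_coords (P := P) (Y := Y) (u := u) hd.ne' hI0.ne'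
  rw [← hx] at ed eI ev eS ea
  have ev' : xv P x = v := by rw [ev, hv]; ring
  have e3 : x 3 = u := by rw [hx]; rfl
  have e0 : x 0 = mkPt P.kind d I 0 u 0 := by rw [hx]; rfl
  have e1 : x 1 = mkPt P.kind d I 0 u 1 := by rw [hx]; rfl
  have hv0 : 0 < v := by
    have := hf.v_crit
    have : 0 < 2 + (1 - 2 * I - d) * (1 - (1 - 2 * I)) := by nlinarith [ha, hI0]
    nlinarith
  have hea : xa P x = (1 - 2 * I - d) / 2 := ea
  have hG : Good P x := ⟨by rw [eI]; exact hI0, by rw [ed]; exact hd, by rw [ea]; linarith,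
    by rw [ev']; exact hv0, by rw [eS]; linarith⟩
  have he : 0 < 1 - 2 * xa P x * x 3 := by
    rw [ea, e3]
    nlinarith [hf.u_lt, hf.u_pos, hd]
  have hT : Twin P x y := by
    refine ⟨by rw [hx, hy]; rfl, by rw [hx, hy]; rfl, by rw [hx, hy]; rfl,
      by rw [e3]; exact hf.u_pos, he, ?_⟩
    rw [ev', eI, ea, e3, hy]
    show v * _ = 2 * I * (_ + c * _)
    rw [hv]
    linear_combination 2 * I * hrel
  have hvC : ∀ i < 4, ∃ s : ℝ, 0 ≤ s ∧ 0 < ((B.vC i).c : ℝ) + (B.vC i).d * s ∧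
      ((B.vC i).a : ℝ) + (B.vC i).b * s = x i * (((B.vC i).c : ℝ) + (B.vC i).d * s) := by
    intro i hi
    interval_cases i
    · exact e0 ▸ side_mem h0
    · exact e1 ▸ side_mem h1
    · rw [hx]; exact side_mem hY
    · rw [e3]
      have h10 : 0 < 1 - u := sub_pos.2 hf.u_lt
      refine ⟨u / (1 - u), div_nonneg hf.u_pos.le h10.le, ?_, ?_⟩
      · show (0 : ℝ) < ((1 : ℤ) : ℝ) + ((1 : ℤ) : ℝ) * _
        have := div_nonneg hf.u_pos.le h10.le
        push_cast; linarith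
      · show ((0 : ℤ) : ℝ) + ((1 : ℤ) : ℝ) * _ = u * (((1 : ℤ) : ℝ) + ((1 : ℤ) : ℝ) * _)
        push_cast; field_simp; ring
  have hcC : ∀ i < 4, ∃ s : ℝ, 0 ≤ s ∧ 0 < ((B.cC i).c : ℝ) + (B.cC i).d * s ∧
      ((B.cC i).a : ℝ) + (B.cC i).b * s = y i * (((B.cC i).c : ℝ) + (B.cC i).d * s) := by
    intro i hi
    rw [hy]
    interval_cases i
    · exact side_mem h0
    · exact side_mem h1
    · exact side_mem hc
    · exact sideUp_mem hu
  have hchk : Checks P x := ⟨fun p l => (K.gX p l).nonneg hvC, fun p l => (K.gMG p l).nonneg hvC,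
    fun p l => (K.g1 p l).nonneg hvC, fun s p t => (K.g2 s p t).nonneg hvC,
    fun s p l t => (K.g3 s p l t).nonneg hvC, K.cMG.nonneg hvC, fun s => (K.c2 s).nonneg hvC,
    fun s => (K.c3 s).nonneg hvC, fun p => (K.sT p).nonneg hvC⟩
  have hgap : ∀ ze w, 0 ≤ gapFun P x (cEnd P x ze) (tEnd P x w) := by
    intro ze w
    cases rect
    · refine gap_end K.pos.toPos2 hG he false ze w hT.h0 hT.h1 hT.h3 hT.uE hT.uV
        ((K.gap ze w).nonneg fun i hi => ?_)
      interval_cases i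
      · exact hcC 0 (by norm_num)
      · exact hcC 1 (by norm_num)
      · exact hcC 2 (by norm_num)
      · exact hcC 3 (by norm_num)
    · refine gap_end K.pos.toPos2 hG one_pos true ze w rfl rfl rfl (by simp [Ex.eval])
        (by rw [mul_one]; rfl) ((K.gap ze w).nonneg fun i hi => ?_)
      interval_cases i
      · exact hvC 0 (by norm_num)
      · exact hvC 1 (by norm_num)
      · exact hvC 2 (by norm_num)
      · rw [e3]; exact sideUp_mem hu
  obtain ⟨H, hH⟩ : ∃ H, H = Closed.chH d (1 - 2 * I) u v t := ⟨_, rfl⟩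
  rw [← hH] at hfl
  have hH0 : 0 < H := hH ▸ hf.H_pos
  have hdr := hf.drift
  obtain ⟨a, ha'⟩ : ∃ a, a = (1 - 2 * I - d) / 2 := ⟨_, rfl⟩
  obtain ⟨b, hb'⟩ : ∃ b, b = (1 - 2 * I + d) / 2 := ⟨_, rfl⟩
  simp only [← ha', ← hb'] at hfl ha hdr
  have hb0 : 0 < b := by linarith
  obtain ⟨Den, hDen⟩ : ∃ D, D = Band.allDen a b u v H := ⟨_, rfl⟩
  have hDen0 : 0 < Den := by
    rw [hDen, Band.allDen, show b - a = d by linarith]
    have h1 : u * (d * H) ≤ 1 * (d * H) :=
      mul_le_mul_of_nonneg_right hf.u_lt.le (mul_pos hd hH0).le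
    have h2 : d * H < 1 := hH ▸ hf.h_lt
    have := mul_pos hd hv0
    linarith
  obtain ⟨C, hC⟩ : ∃ C, C = Band.allQn a b u v * H / Den := ⟨_, rfl⟩
  have hflow : Band.allFlow a b u v H = (C - (1 - 2 * I) * (1 - a * v)) * Den := by
    rw [hC, Band.allFlow, hDen, show a + b = 1 - 2 * I by linarith]
    rw [hDen] at hDen0
    field_simp
  rw [← hDen, hflow] at hfl
  have hC1 : C ≤ cEnd P x true := by
    simp only [cEnd, cond_true, eS, eI, ev', ea, ← ha']
    have : C - (1 - 2 * I) * (1 - a * v) ≤ fr P.z * I :=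
      le_of_mul_le_mul_right (by linarith) hDen0
    linarith
  have eg : Closed.chG d (1 - 2 * I) u v t = 2 * Band.allQn a b u v / (I * b * Den) := by
    rw [Closed.chG, ← hH, ← hb', hDen, Band.allDen, Band.allQn, show b - a = d by linarith,
      show a + b = 1 - 2 * I by linarith,
      show 2 + d * v - d * u * H = 2 + d * v - u * (d * H) by ring]
    field_simp
    ring
  have hC0 : cEnd P x false ≤ C := by
    simp only [cEnd, cond_false, add_zero, eS, ev', ea, ← ha']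
    rw [eg, ← hH] at hdr
    have e : 2 * Band.allQn a b u v / (I * b * Den) * H / 2 = C / (I * b) := by
      rw [hC]; field_simp
    rw [e, show (1 - (1 - 2 * I)) * b = 2 * (I * b) by ring, ← div_div,
      div_lt_div_iff_of_pos_right (by positivity)] at hdr
    linarith
  have hav : xa P x * xv P x < 1 := by
    rw [ea, ev']; linarith [hf.r_lt]
  have hB := wBound_nonneg K.pos.toPos2 hT (fun ze b => (K.bnd ze b).nonneg hcC) hC0 hC1
  have hP0 : 0 < 2 + d * v := by positivity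
  have eD : wD a d v (1 - 2 * I) u C = Band.allQn a b u v * (2 + d * v) / Den := by
    rw [eq_div_iff hDen0.ne', wD, hC]
    field_simp
    rw [hDen, Band.allDen, Band.allQn, show b - a = d by linarith,
      show a + b = 1 - 2 * I by linarith, show a + d = b by linarith]
    ring
  have eab : a + d = b := by linarith
  have F : Fields P x C (Closed.chG d (1 - 2 * I) u v t) (Closed.chW d (1 - 2 * I) u v t)
      (Closed.chW1 d (1 - 2 * I) u v t) (Closed.chR (1 - 2 * I) u) := by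
    have hu0 := hf.u_pos
    have hS' : 0 < 1 - 2 * I := by linarith
    have hS2 : 0 < 2 - (1 - 2 * I) := by linarith
    refine ⟨?_, ?_, ?_, ?_⟩
    · rw [eI, ea, ed, ev', eS, e3, ← ha', eD, eg, eab]
      field_simp
    · rw [ea, ed, eS, ← ha', eg, eab, Closed.chW, ← hH, hC]
      field_simp
      ring
    · rw [eS, e3, eI, Closed.chR]; ring
    · have et : t = (H - (1 - 2 * I) * (1 + (1 - a) * v) / (b * (2 - (1 - 2 * I)))) / u := by
        rw [hH, Closed.chH, ← ha', ← hb']; field_simp; ring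
      rw [ea, ed, ev', eS, e3, ← ha', eg, eab, Closed.chW1, ← hH, ← ha', ← hb', wN, eD, eab, hC, et]
      field_simp
      ring
  have hk' : (AllN.kapAll (1 / xI P x) (xa P x) + 1) / xd P x = kap P x := by
    refine kap_eq hG (by rw [eI]; exact hI) ?_
    rw [ed, eI, eS]
    exact hk
  have hs := signs_point K.pos hG (by rw [eI]; exact hI) (by rw [ea]; linarith)
    (by rw [ea, ed]; linarith) (by rw [e3]; exact hf.u_pos) hav hchk hC0 hC1 hB hgap F hk'
  rw [ea, ed, ev'] at hs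
  refine Closed.Strip.ChartSigns.of_arrow hcb hv0 ?_ hs
  rw [eg]
  refine div_pos ?_ (by positivity)
  have hD := wD_pos K.pos hG (hB .g0)
  rw [ea, ed, ev', eS, e3, ← ha', eD] at hD
  have := pos_of_mul_pos_left (pos_of_mul_pos_left (by rwa [div_eq_mul_inv] at hD)
    (inv_nonneg.2 hDen0.le)) hP0.le
  linarith

end Vale.Agent.P100.Calib.StripMid
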