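import Vale.Agent.P100.Calib.SlabStripFlowCheck
import Vale.Agent.P100.Calib.SlabStripUpExit

/-!
# The radial speed in the strip

`allFlow <= 2 I allDen` for `u >= 9/20` and `allFlow <= I allDen` for `9/20 <= u <= 3/4`, on orbits,
for real `N >= 20` and `31/100 < a`, from the two upper bands.
-/

namespace Vale.Agent.P100.Calib.Band

open Vale.Agent.P100.Bubble Chart

namespace StripAtoms

variable (p : StripAtoms)

/-- `2 I allDen - allFlow` on the exit band, cleared. -/
def flEnd : ℝ := 2 * (p.I * (p.D0 * (20 * p.P) - p.ud * p.upM)) - (p.f0 * p.upM - p.N * (20 *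
    p.P))

/-- A mean of the two bands, cleared. -/
def flMix : ℝ := 4 * (p.upM * p.upW) + p.upN * (20 * p.P)

/-- `I allDen - allFlow` on this mean, cleared. -/
def flMid : ℝ := p.I * (p.D0 * (100 * (p.P * p.upW)) - p.ud * p.flMix) - (p.f0 * p.flMix - p.N *
    (100 * (p.P * p.upW)))

/-- A mean of the two bands, cleared. -/
def flMixC : ℝ := 7 * (p.upM * p.upW) + 3 * (p.upN * (20 * p.P))

/-- `I allDen - allFlow` on this mean, cleared. -/
def flMidC : ℝ := p.I * (p.D0 * (200 * (p.P * p.upW)) - p.ud * p.flMixC) - (p.f0 * p.flMixC - p.N
    * (200 * (p.P * p.upW)))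

end StripAtoms

namespace AllLow

open Pack

local instance stripFlowAdd : Add Pack.Ex := ⟨Ex.add⟩
local instance stripFlowSub : Sub Pack.Ex := ⟨Ex.sub⟩
local instance stripFlowMul : Mul Pack.Ex := ⟨Ex.mul⟩

variable {x : ℕ → ℝ} {p : StripAtoms} {k k₂ : ℝ}

theorem evalUpA_flEnd (h : StripUpChartA x p k) :
    eStripUpA_flEnd.eval x = p.flEnd * (k ^ 4) := by
  simp only [eStripUpA_flEnd, StripAtoms.flEnd, eval_sub', eval_mul', eval_num', h.h_I,
    evalUpA_D0 h, evalUpA_P h, h.hk, evalUpA_ud h, evalUpA_upM h, evalUpA_f0 h, evalUpA_N h]
  push_cast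
  ring

theorem evalUpA_flMix (h : StripUpChartA x p k) :
    eStripUpA_flMix.eval x = p.flMix * (k ^ 5) := by
  simp only [eStripUpA_flMix, StripAtoms.flMix, eval_add', eval_num', Ex.eval,
    evalUpA_upM h, evalUpA_upW h, h.hk, evalUpA_upN h, evalUpA_P h]
  push_cast
  ring

theorem evalUpA_flMid (h : StripUpChartA x p k) :
    eStripUpA_flMid.eval x = p.flMid * (k ^ 7) := by
  simp only [eStripUpA_flMid, StripAtoms.flMid, eval_sub', eval_num', Ex.eval, h.h_I,
    evalUpA_D0 h, evalUpA_P h, evalUpA_upW h, h.hk, evalUpA_ud h, evalUpA_flMix h, evalUpA_f0 h,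
    evalUpA_N h]
  push_cast
  ring

theorem evalUpC_flEnd (h : StripUpChartC x p k k₂) :
    eStripUpC_flEnd.eval x = p.flEnd * (k ^ 6) := by
  simp only [eStripUpC_flEnd, StripAtoms.flEnd, eval_sub', eval_mul', eval_num', h.h_I,
    evalUpC_D0 h, evalUpC_P h, h.hk, evalUpC_ud h, evalUpC_upM h, evalUpC_f0 h, evalUpC_N h]
  push_cast
  ring

theorem evalUpC_flMixC (h : StripUpChartC x p k k₂) :
    eStripUpC_flMixC.eval x = p.flMixC * (k ^ 6) := by
  simp only [eStripUpC_flMixC, StripAtoms.flMixC, eval_add', eval_num', Ex.eval,
    evalUpC_upM h, evalUpC_upW h, h.hk, evalUpC_upN h, evalUpC_P h]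
  push_cast
  ring

theorem evalUpC_flMidC (h : StripUpChartC x p k k₂) :
    eStripUpC_flMidC.eval x = p.flMidC * (k ^ 9) := by
  simp only [eStripUpC_flMidC, StripAtoms.flMidC, eval_sub', eval_num', Ex.eval,
    h.h_I, evalUpC_D0 h, evalUpC_P h, evalUpC_upW h, h.hk, evalUpC_ud h, evalUpC_flMixC h,
    evalUpC_f0 h, evalUpC_N h]
  push_cast
  ring

theorem evalUpB_flEnd (h : StripUpChartB x p k k₂) :
    eStripUpB_flEnd.eval x = p.flEnd * (k * k₂ ^ 4) := by
  simp only [eStripUpB_flEnd, StripAtoms.flEnd, eval_sub', eval_num', Ex.eval, h.h_I,
    evalUpB_D0 h, evalUpB_P h, h.hk2, evalUpB_ud h, evalUpB_upM h, evalUpB_f0 h, evalUpB_N h]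
  push_cast
  ring

theorem evalUpB_flMix (h : StripUpChartB x p k k₂) :
    eStripUpB_flMix.eval x = p.flMix * (k ^ 3 * k₂ ^ 3) := by
  simp only [eStripUpB_flMix, StripAtoms.flMix, eval_add', eval_num', Ex.eval,
    evalUpB_upM h, evalUpB_upW h, h.hk, evalUpB_upN h, evalUpB_P h]
  push_cast
  ring

theorem evalUpB_flMid (h : StripUpChartB x p k k₂) :
    eStripUpB_flMid.eval x = p.flMid * (k ^ 4 * k₂ ^ 4) := by
  simp only [eStripUpB_flMid, StripAtoms.flMid, eval_sub', eval_num', Ex.eval, h.h_I,
    evalUpB_D0 h, evalUpB_P h, evalUpB_upW h, h.hk, h.hk2, evalUpB_ud h, evalUpB_flMix h,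
    evalUpB_f0 h, evalUpB_N h]
  push_cast
  ring

/-- The two closed conditions. -/
structure StripFlowConds (a b u v : ℝ) : Prop where
  last : 11 / 25 < u → 0 ≤ (stripAt a b u v).flEnd
  mid : 11 / 25 < u → u ≤ 3 / 4 →
    0 ≤ (stripAt a b u v).flMid ∨ 0 ≤ (stripAt a b u v).flMidC

theorem strip_flow_conds {a b u v : ℝ} (h : StripPlace a b u v) : StripFlowConds a b u v := by
  rcases lt_or_ge v (1 / 5) with hy | hy
  · rcases lt_or_ge (5 * allStabI a b) ((a + b) * v) with h2 | h2
    · obtain ⟨r, t, hC, hr0, hr25, ht0, ht1⟩ := strip_up_chart_A h h2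
      obtain ⟨hI0, -, ha, hd, hu, hu1, hv, -, -, -⟩ := h
      have hS0 : 0 < a + b := by linarith
      refine ⟨?_, ?_⟩
      · intro hu4
        have hb1 : 0 ≤ eStripUpA_flEnd.eval (stabPt (1 - u) v r t) :=
          nonneg_of_checkFour stripFlowEndA_ok (strip_point
            (by simp only [stripFlowEndABox]
                exact side_point (den := 25) (by norm_num) (by push_cast; linarith)
                  (by push_cast; linarith))
            (by simp only [stripFlowEndABox]
                exact side_point (den := 5) (by norm_num) (by push_cast; linarith)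
                  (by push_cast; linarith))
            (by simp only [stripFlowEndABox]
                exact side_point (den := 5) (by norm_num) (by push_cast; linarith)
                  (by push_cast; linarith))
            (by simp only [stripFlowEndABox]
                exact side_point (den := 1) (by norm_num) (by push_cast; linarith)
                  (by push_cast; linarith)))
        rw [evalUpA_flEnd hC] at hb1
        exact nonneg_of_mul_nonneg_left hb1 (by positivity)
      · intro hu4 hu3
        have hb1 : 0 ≤ eStripUpA_flMid.eval (stabPt (1 - u) v r t) :=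
          nonneg_of_checkFour stripFlowMidA_ok (strip_point
            (by simp only [stripFlowMidABox]
                exact side_point (den := 100) (by norm_num) (by push_cast; linarith)
                  (by push_cast; linarith))
            (by simp only [stripFlowMidABox]
                exact side_point (den := 5) (by norm_num) (by push_cast; linarith)
                  (by push_cast; linarith))
            (by simp only [stripFlowMidABox]
                exact side_point (den := 5) (by norm_num) (by push_cast; linarith)
                  (by push_cast; linarith))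
            (by simp only [stripFlowMidABox]
                exact side_point (den := 1) (by norm_num) (by push_cast; linarith)
                  (by push_cast; linarith)))
        rw [evalUpA_flMid hC] at hb1
        exact Or.inl <| nonneg_of_mul_nonneg_left hb1 (by positivity)
    · obtain ⟨r, th, hC, hr25, hr76, -, hth0, hth1⟩ := strip_up_chart_C h h2
      obtain ⟨hI0, -, ha, hd, hu, hu1, hv, -, -, -⟩ := h
      have hr0 : 0 < r := by linarith
      have hS0 : 0 < a + b := by linarith
      refine ⟨?_, ?_⟩
      · intro hu4
        have hb1 : 0 ≤ eStripUpC_flEnd.eval (stabPt (1 - u) v r th) :=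
          nonneg_of_checkFour stripFlowEndC_ok (strip_point
            (by simp only [stripFlowEndCBox]
                exact side_point (den := 25) (by norm_num) (by push_cast; linarith)
                  (by push_cast; linarith))
            (by simp only [stripFlowEndCBox]
                exact side_point (den := 5) (by norm_num) (by push_cast; linarith)
                  (by push_cast; linarith))
            (by simp only [stripFlowEndCBox]
                exact side_point (den := 30) (by norm_num) (by push_cast; linarith)
                  (by push_cast; linarith))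
            (by simp only [stripFlowEndCBox]
                exact side_point (den := 1) (by norm_num) (by push_cast; linarith)
                  (by push_cast; linarith)))
        rw [evalUpC_flEnd hC] at hb1
        exact nonneg_of_mul_nonneg_left hb1 (by positivity)
      · intro hu4 hu3
        have hb1 : 0 ≤ eStripUpC_flMidC.eval (stabPt (1 - u) v r th) :=
          nonneg_of_checkFour stripFlowMidC_ok (strip_point
            (by simp only [stripFlowMidCBox]
                exact side_point (den := 100) (by norm_num) (by push_cast; linarith)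
                  (by push_cast; linarith))
            (by simp only [stripFlowMidCBox]
                exact side_point (den := 5) (by norm_num) (by push_cast; linarith)
                  (by push_cast; linarith))
            (by simp only [stripFlowMidCBox]
                exact side_point (den := 30) (by norm_num) (by push_cast; linarith)
                  (by push_cast; linarith))
            (by simp only [stripFlowMidCBox]
                exact side_point (den := 1) (by norm_num) (by push_cast; linarith)
                  (by push_cast; linarith)))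
        rw [evalUpC_flMidC hC] at hb1
        exact Or.inr <| nonneg_of_mul_nonneg_left hb1 (by positivity)
  · obtain ⟨t, hC, hK, ht0, ht1⟩ := strip_up_chart_B h hy
    obtain ⟨hI0, hI20, ha, hd, hu, hu1, hv, hav, -, -⟩ := h
    have hK0 : 0 < 1 - a * v := by linarith
    have hS0 : 0 < a + b := by linarith
    obtain ⟨I, hI⟩ : ∃ I, I = allStabI a b := ⟨_, rfl⟩
    rw [← hI] at hI0 hI20 hC
    refine ⟨?_, ?_⟩
    · intro hu4
      have hb1 : 0 ≤ eStripUpB_flEnd.eval (stabPt (1 - u) (1 - a * v) I t) :=
        nonneg_of_checkFour stripFlowEndB_ok (strip_point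
          (by simp only [stripFlowEndBBox]
              exact side_point (den := 25) (by norm_num) (by push_cast; linarith)
                (by push_cast; linarith))
          (by simp only [stripFlowEndBBox]
              exact side_point (den := 500) (by norm_num) (by push_cast; linarith)
                (by push_cast; linarith))
          (by simp only [stripFlowEndBBox]
              exact strip_back (den := 20) (by norm_num) (by push_cast; linarith)
                (by push_cast; linarith))
          (by simp only [stripFlowEndBBox]
              exact side_point (den := 1) (by norm_num) (by push_cast; linarith)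
                (by push_cast; linarith)))
      rw [evalUpB_flEnd hC] at hb1
      exact nonneg_of_mul_nonneg_left hb1 (by positivity)
    · intro hu4 hu3
      have hb1 : 0 ≤ eStripUpB_flMid.eval (stabPt (1 - u) (1 - a * v) I t) :=
        nonneg_of_checkFour stripFlowMidB_ok (strip_point
          (by simp only [stripFlowMidBBox]
              exact side_point (den := 100) (by norm_num) (by push_cast; linarith)
                (by push_cast; linarith))
          (by simp only [stripFlowMidBBox]
              exact side_point (den := 500) (by norm_num) (by push_cast; linarith)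
                (by push_cast; linarith))
          (by simp only [stripFlowMidBBox]
              exact strip_back (den := 20) (by norm_num) (by push_cast; linarith)
                (by push_cast; linarith))
          (by simp only [stripFlowMidBBox]
              exact side_point (den := 1) (by norm_num) (by push_cast; linarith)
                (by push_cast; linarith)))
      rw [evalUpB_flMid hC] at hb1
      exact Or.inl <| nonneg_of_mul_nonneg_left hb1 (by positivity)
end AllLow

/-- The flow at a point below `HT`. -/
theorem strip_flow_le {c f n D e H y : ℝ} (hf : 0 ≤ f) (he : 0 ≤ e) (hc : 0 ≤ c) (hH : H ≤ y)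
    (h : f * y - n ≤ c * (D - e * y)) : f * H - n ≤ c * (D - e * H) := by
  have h1 := mul_nonneg (add_nonneg hf (mul_nonneg hc he)) (sub_nonneg.2 hH)
  linarith

/-- The radial speed on the two upper bands. -/
theorem strip_flow {a b u v H : ℝ} (hP : StripPlace a b u v) (hu4 : 11 / 25 < u)
    (hT : 0 ≤ stripTop a b u v H) :
    allFlow a b u v H ≤ 2 * allStabI a b * allDen a b u v H ∧
      (u ≤ 3 / 4 → H < stripUp a b u v →
        allFlow a b u v H ≤ allStabI a b * allDen a b u v H) := by
  have hc := AllLow.strip_flow_conds hP
  obtain ⟨e1, -, -⟩ := stripUp_eq (a := a) (b := b) (v := v) hP.u_lt.le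
  rw [e1]
  obtain ⟨hI0, hI20, ha, hd, hu, hu1, hv, hav, hlo, hhi⟩ := hP
  set p := stripAt a b u v with hp
  have hw : 0 < 1 - u := by linarith
  have hK : 0 < 1 - a * v := by linarith
  have hPp : 0 < p.P := by
    have e : p.P = (1 - u) * b + u * ((b - a) * (1 - a * v)) := by
      simp only [hp, stripAt, StripAtoms.P, StripAtoms.qu, StripAtoms.q, StripAtoms.u]
      ring
    rw [e]
    exact add_pos (mul_pos hw (by linarith)) (by positivity)
  have hW : 0 < p.upW := by
    simp only [hp, stripAt, StripAtoms.upW, StripAtoms.u]
    linarith [mul_le_mul_of_nonneg_right hu1.le (show 0 ≤ a by linarith)]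
  have eflow : allFlow a b u v H = p.f0 * H - p.N := by
    simp only [hp, stripAt, StripAtoms.f0, StripAtoms.N, StripAtoms.qn, StripAtoms.D0,
      StripAtoms.qu, StripAtoms.q, StripAtoms.ud, StripAtoms.u, allFlow, allQn, allDen]
    ring
  have eden : allDen a b u v H = p.D0 - p.ud * H := by
    simp only [hp, stripAt, StripAtoms.D0, StripAtoms.ud, StripAtoms.u, allDen]
    ring
  have hud : 0 ≤ p.ud := by
    simp only [hp, stripAt, StripAtoms.ud, StripAtoms.u]
    exact mul_nonneg (by linarith) hd.le
  have hf0 : 0 ≤ p.f0 := by
    have e : p.f0 = (1 - u) * ((2 - (a + b)) * b + b * ((b - a) * v)) +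
        u * ((b - a) * (1 - a * v)) + (a + b) * ((1 - u) * b) +
        (a + b) * ((1 - a * v) * (u * (b - a))) := by
      simp only [hp, stripAt, StripAtoms.f0, StripAtoms.qn, StripAtoms.D0, StripAtoms.qu,
        StripAtoms.q, StripAtoms.ud, StripAtoms.u]
      ring
    have hb : 0 < b := by linarith
    have h2 : 0 ≤ 2 - (a + b) := by
      simp only [allStabI] at hI0
      linarith
    have hS0 : 0 < a + b := by linarith
    rw [e]
    positivity
  have eI : p.I = allStabI a b := rfl
  have eF : 20 * stripTop a b u v H = p.upM - 20 * p.P * H := by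
    simp only [hp, stripAt, StripAtoms.P, StripAtoms.upM, StripAtoms.upG, StripAtoms.upKI,
      StripAtoms.qu, StripAtoms.q, StripAtoms.u, stripTop, stripTopG]
    ring
  rw [eflow, eden]
  refine ⟨?_, fun hu3 hU => ?_⟩
  · refine strip_flow_le hf0 hud (by positivity) (y := p.upM / (20 * p.P)) ?_ ?_
    · rw [le_div_iff₀ (by positivity)]
      linarith
    · have h := hc.last hu4
      simp only [← hp, StripAtoms.flEnd, eI] at h
      refine le_of_mul_le_mul_right (a := 20 * p.P) ?_ (by positivity)
      field_simp
      linarith
  · rw [lt_div_iff₀ hW] at hU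
    rcases hc.mid hu4 hu3 with h | h
    · simp only [← hp, StripAtoms.flMid, eI] at h
      refine strip_flow_le hf0 hud hI0.le (y := p.flMix / (100 * (p.P * p.upW))) ?_ ?_
      · rw [le_div_iff₀ (by positivity)]
        have h1 := mul_le_mul_of_nonneg_left (show 20 * p.P * H ≤ p.upM by linarith) hW.le
        have h2 := mul_le_mul_of_nonneg_left hU.le (show 0 ≤ 20 * p.P by positivity)
        simp only [StripAtoms.flMix]
        linarith
      · refine le_of_mul_le_mul_right (a := 100 * (p.P * p.upW)) ?_ (by positivity)
        field_simp
        linarith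
    · simp only [← hp, StripAtoms.flMidC, eI] at h
      refine strip_flow_le hf0 hud hI0.le (y := p.flMixC / (200 * (p.P * p.upW))) ?_ ?_
      · rw [le_div_iff₀ (by positivity)]
        have h1 := mul_le_mul_of_nonneg_left (show 20 * p.P * H ≤ p.upM by linarith) hW.le
        have h2 := mul_le_mul_of_nonneg_left hU.le (show 0 ≤ 20 * p.P by positivity)
        simp only [StripAtoms.flMixC]
        linarith
      · refine le_of_mul_le_mul_right (a := 200 * (p.P * p.upW)) ?_ (by positivity)
        field_simp
        linarith

variable {N p q : ℝ} {S : Set ℝ} {R x y s dx dy : ℝ → ℝ}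

/-- **The radial speed in the strip** for real `N ≥ 20` and `31/100 < 1/(p+1)`. -/
theorem orbit_strip_flow (hf : IsOrbitFns N p q S R x y s dx dy)
    (hb : SlabBoxAll N (1 / (p + 1)) (1 / (q + 1))) (h20 : 20 ≤ N) (ha : 31 / 100 < 1 / (p + 1))
    {w : ℝ} (hw : w ∈ S) (hw0 : 0 < R w) (hwu : 9 / 20 ≤ uOf N (R w) (x w)) :
    let a := 1 / (p + 1)
    let b := 1 / (q + 1)
    let u := uOf N (R w) (x w)
    let v := vOf a b (y w / x w)
    let H := hOf N (R w) (x w) (y w) w / (b - a)
    allFlow a b u v H ≤ 2 * allStabI a b * allDen a b u v H ∧
      (u ≤ 3 / 4 → allFlow a b u v H ≤ allStabI a b * allDen a b u v H) := by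
  intro a b u v H
  have hP := (orbit_point_all hf hb hw hw0).1
  obtain ⟨h1, h2⟩ := strip_flow (stripPlace_of hb h20 ha hP.u_pos hP.u_lt hP.toVRange)
    (show 11 / 25 < u by linarith) (orbit_strip_top_all hf hb h20 ha hw hw0 hwu)
  exact ⟨h1, fun hu3 => h2 hu3 (orbit_strip_up_all hf hb h20 ha hw hw0 (hu3.trans (by norm_num)))⟩

end Vale.Agent.P100.Calib.Band
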