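import Vale.Agent.P100.Calib.SlabStripSevExit
import Vale.Agent.P100.Calib.SlabStripSevLowSigns
import Vale.Agent.P100.Calib.SlabStripFlow

/-!
# The radial speed under the upper exit band for `N` between seven and twenty

`allFlow <= 2 I allDen` for `u >= 67/100` on orbits, for `31/100 < a`.
-/

set_option linter.defProp false

namespace Vale.Agent.P100.Calib.Band

open Vale.Agent.P100.Bubble Chart

namespace AllLow

open Pack

local instance stripSevFlowAdd : Add Pack.Ex := ⟨Ex.add⟩
local instance stripSevFlowSub : Sub Pack.Ex := ⟨Ex.sub⟩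
local instance stripSevFlowMul : Mul Pack.Ex := ⟨Ex.mul⟩

/-- A packed quantity. -/
def eSlw_upKI : Pack.Ex := eSlw_K * eSlw_IT

/-- A packed quantity. -/
def eSlw_upG : Pack.Ex := ((eN 20) * (eSlw_S * (eSlw_v * eSlw_q))) - ((((eN 14) + ((eN 6) *
    eSlw_u)) * eSlw_upKI) * (Ex.pow eSlwK4 2))

/-- A packed quantity. -/
def eSlw_upM : Pack.Ex := (((eN 20) * eSlw_K) * (Ex.pow eSlwK4 2)) - (eSlw_w * eSlw_upG)

/-- A packed quantity. -/
def eSlw_flEnd : Pack.Ex := ((((eN 2) * (eSlw_I * ((((eSlw_D0 * ((eN 20) * eSlw_P)) * eSlwK3) *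
    eSlwK4) - (eSlw_ud * eSlw_upM)))) * eSlwK3) * eSlwK4) - ((eSlw_f0 * eSlw_upM) - (((eSlw_N *
    ((eN 20) * eSlw_P)) * eSlwK3) * eSlwK4))

variable {x : ℕ → ℝ} {p : StripAtoms} {k₁ k₂ k₃ k₄ : ℝ}

theorem evalSlw_upKI (h : StripSevLowChart x p k₁ k₂ k₃ k₄) :
    eSlw_upKI.eval x = p.upKI * (k₃ * k₄) := by
  simp only [eSlw_upKI, StripAtoms.upKI, eval_mul', h.h_K, h.h_IT]
  ring

theorem evalSlw_upG (h : StripSevLowChart x p k₁ k₂ k₃ k₄) :
    eSlw_upG.eval x = p.upG * (k₃ * k₄ ^ 3) := by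
  simp only [eSlw_upG, StripAtoms.upG, eval_sub', eval_num', Ex.eval,
    h.h_S, h.h_v, evalSlw_q h, evalSlw_u h, evalSlw_upKI h, h.hk4]
  push_cast
  ring

theorem evalSlw_upM (h : StripSevLowChart x p k₁ k₂ k₃ k₄) :
    eSlw_upM.eval x = p.upM * (k₃ * k₄ ^ 3) := by
  simp only [eSlw_upM, StripAtoms.upM, eval_sub', eval_num', Ex.eval, h.h_K, h.hk4,
    h.h_w, evalSlw_upG h]
  push_cast
  ring

theorem evalSlw_flEnd (h : StripSevLowChart x p k₁ k₂ k₃ k₄) :
    eSlw_flEnd.eval x = p.flEnd * (k₁ * k₂ * k₃ ^ 2 * k₄ ^ 4) := by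
  simp only [eSlw_flEnd, StripAtoms.flEnd, eval_sub', eval_mul', eval_num', h.h_I, evalSlw_D0 h,
    evalSlw_P h, h.hk3, h.hk4, evalSlw_ud h, evalSlw_upM h, evalSlw_f0 h, evalSlw_N h]
  push_cast
  ring

/-- A box. -/
def stripSevFlowEndBox : ℕ → Chart
  | 0 => ⟨0, 67, 1, 200⟩ | 1 => ⟨0, 1, 1, 1⟩ | 2 => ⟨1, 1, 7, 20⟩ | _ => ⟨0, 1, 1, 1⟩

/-- The check of this box. -/
def stripSevFlowEnd_ok : checkFour stripSevFlowEndBox 106 3 2 13 4 eSlw_flEnd = true := by
  decide +kernel

theorem strip_sev_flow_cond {a b u v : ℝ} (h : SevPlace a b u v) (hu : 133 / 200 < u) :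
    0 ≤ (stripAt a b u v).flEnd := by
  obtain ⟨I, k, t, k₁, k₂, k₃, k₄, hP⟩ := sev_low_pt h
  obtain ⟨hC, hI20, hI7, hw0, hw1, hk0, hk1, ht0, ht1, h1, h2, h3, h4, hgate⟩ := hP
  have hb : 0 ≤ eSlw_flEnd.eval (stabPt (1 - u) k I t) :=
    nonneg_of_checkFour stripSevFlowEnd_ok (strip_point
      (by simp only [stripSevFlowEndBox]
          exact side_mix (c := 1) (d := 200) (by norm_num) (by norm_num)
            (by push_cast; linarith) (by push_cast; linarith))
      (by simp only [stripSevFlowEndBox]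
          exact side_mix (c := 1) (d := 1) (by norm_num) (by norm_num)
            (by push_cast; linarith) (by push_cast; linarith))
      (by simp only [stripSevFlowEndBox]
          exact strip_back_mix (c := 7) (d := 20) (by norm_num) (by norm_num)
            (by push_cast; linarith) (by push_cast; linarith))
      (by simp only [stripSevFlowEndBox]
          exact side_mix (c := 1) (d := 1) (by norm_num) (by norm_num)
            (by push_cast; linarith) (by push_cast; linarith)))
  rw [evalSlw_flEnd hC] at hb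
  exact nonneg_of_mul_nonneg_left hb (by positivity)

end AllLow

/-- The radial speed on the upper exit band. -/
theorem strip_sev_flow {a b u v H : ℝ} (hP : SevPlace a b u v) (hu6 : 133 / 200 < u)
    (hT : 0 ≤ stripTop a b u v H) :
    allFlow a b u v H ≤ 2 * allStabI a b * allDen a b u v H := by
  have hc := AllLow.strip_sev_flow_cond hP hu6
  obtain ⟨hI20, hI7, ha, hd, hu, hu1, hv, hav, hlo, hhi⟩ := hP
  have hI0 : 0 < allStabI a b := by linarith
  set p := stripAt a b u v with hp
  have hw : 0 < 1 - u := by linarith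
  have hK : 0 < 1 - a * v := by linarith
  have hPp : 0 < p.P := by
    have e : p.P = (1 - u) * b + u * ((b - a) * (1 - a * v)) := by
      simp only [hp, stripAt, StripAtoms.P, StripAtoms.qu, StripAtoms.q, StripAtoms.u]
      ring
    rw [e]
    exact add_pos (mul_pos hw (by linarith)) (by positivity)
  have eflow : allFlow a b u v H = p.f0 * H - p.N := by
    simp only [hp, stripAt, StripAtoms.f0, StripAtoms.N, StripAtoms.qn, StripAtoms.D0,
      StripAtoms.qu, StripAtoms.q, StripAtoms.ud, StripAtoms.u, allFlow, allQn, allDen]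
    ring
  have eden : allDen a b u v H = p.D0 - p.ud * H := by
    simp only [hp, stripAt, StripAtoms.D0, StripAtoms.ud, StripAtoms.u, allDen]
    ring
  have hud : 0 ≤ p.ud := by
    simp only [hp, stripAt, StripAtoms.ud, StripAtoms.u]
    exact mul_nonneg (by linarith) hd.le
  have hf0 : 0 ≤ p.f0 := by
    have e : p.f0 = (1 - u) * ((2 - (a + b)) * b + b * ((b - a) * v)) +
        u * ((b - a) * (1 - a * v)) + (a + b) * ((1 - u) * b) +
        (a + b) * ((1 - a * v) * (u * (b - a))) := by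
      simp only [hp, stripAt, StripAtoms.f0, StripAtoms.qn, StripAtoms.D0, StripAtoms.qu,
        StripAtoms.q, StripAtoms.ud, StripAtoms.u]
      ring
    have hb : 0 < b := by linarith
    have h2 : 0 ≤ 2 - (a + b) := by
      simp only [allStabI] at hI0
      linarith
    have hS0 : 0 < a + b := by linarith
    rw [e]
    positivity
  have eI : p.I = allStabI a b := rfl
  have eF : 20 * stripTop a b u v H = p.upM - 20 * p.P * H := by
    simp only [hp, stripAt, StripAtoms.P, StripAtoms.upM, StripAtoms.upG, StripAtoms.upKI,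
      StripAtoms.qu, StripAtoms.q, StripAtoms.u, stripTop, stripTopG]
    ring
  rw [eflow, eden]
  refine strip_flow_le hf0 hud (by positivity) (y := p.upM / (20 * p.P)) ?_ ?_
  · rw [le_div_iff₀ (by positivity)]
    linarith
  · simp only [StripAtoms.flEnd, eI] at hc
    refine le_of_mul_le_mul_right (a := 20 * p.P) ?_ (by positivity)
    field_simp
    linarith

variable {N p q : ℝ} {S : Set ℝ} {R x y s dx dy : ℝ → ℝ}

/-- **The radial speed for `u ≥ 67/100`** for real `N ∈ [7, 20)` and `31/100 < 1/(p+1)`. -/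
theorem orbit_strip_sev_flow (hf : IsOrbitFns N p q S R x y s dx dy)
    (hb : SlabBoxAll N (1 / (p + 1)) (1 / (q + 1))) (h7 : 7 ≤ N) (h20 : N < 20)
    (ha : 31 / 100 < 1 / (p + 1)) {w : ℝ} (hw : w ∈ S) (hw0 : 0 < R w)
    (hwu : 67 / 100 ≤ uOf N (R w) (x w)) :
    let a := 1 / (p + 1)
    let b := 1 / (q + 1)
    let u := uOf N (R w) (x w)
    let v := vOf a b (y w / x w)
    let H := hOf N (R w) (x w) (y w) w / (b - a)
    allFlow a b u v H ≤ 2 * allStabI a b * allDen a b u v H := by
  intro a b u v H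
  have hP := (orbit_point_all hf hb hw hw0).1
  exact strip_sev_flow (sevPlace_of hb h7 h20 ha hP.u_pos hP.u_lt hP.toVRange)
    (show 133 / 200 < u by linarith) (orbit_strip_sev_top hf hb h7 h20 ha hw hw0 hwu)

end Vale.Agent.P100.Calib.Band
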