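import Vale.Agent.P100.Calib.SlabStripTubeSigns
import Vale.Agent.P100.Calib.SlabStripSevFlow
import Vale.Agent.P100.Calib.SlabStripRange

/-!
# The band of the radial speed near `u = 1` in the strip

On orbits, from `u = 7/10` on, `(4 I + 4 w + 3 d) Flow < 4 (I + w) I Den`, `w = 1 - u`, for real
`N ≥ 7` and `31/100 < 1/(p+1)`.
-/

set_option linter.unusedVariables false

open Set Filter Topology

namespace Vale.Agent.P100.Calib.Band

open Vale.Agent.P100.Bubble Chart

/-- **The band function.** -/
noncomputable def stripTube (a b u v H : ℝ) : ℝ :=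
  4 * ((1 - u + allStabI a b) * allStabI a b) * allDen a b u v H -
    (4 * allStabI a b + 4 * (1 - u) + 3 * (b - a)) * allFlow a b u v H

/-- Its derivative in `u`. -/
noncomputable def stripTubeU (a b u v H : ℝ) : ℝ :=
  (stripAt a b u v).tuNu - (stripAt a b u v).tuMu * H

/-- Its derivative in `v`. -/
noncomputable def stripTubeV (a b u v H : ℝ) : ℝ :=
  (stripAt a b u v).tuNv - (stripAt a b u v).tuMv * H

theorem stripTube_eq (a b u v H : ℝ) :
    stripTube a b u v H = (stripAt a b u v).tuNz - (stripAt a b u v).tuMz * H := by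
  obtain ⟨e1, e2⟩ := strip_flow_eq a b u v H
  rw [stripTube, e1, e2]
  simp only [StripAtoms.tuNz, StripAtoms.tuMz, StripAtoms.tuC, StripAtoms.tuG, stripAt]
  ring

theorem hasGrad_stripTube (a b : ℝ) :
    HasGrad (stripTube a b) (stripTubeU a b) (stripTubeV a b)
      (fun u v _ => -(stripAt a b u v).tuMz) := by
  intro u v H du dv dh t hu hv hh
  have hw := hu.const_sub 1
  have hdv := hv.const_mul (b - a)
  have hK := (hv.const_mul a).const_sub 1
  have hD := (hdv.const_add 2).fun_sub (hu.fun_mul (hh.const_mul (b - a)))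
  have hQ := ((hdv.const_add 2).const_mul b).fun_sub
    ((hu.fun_mul (hdv.const_add 1)).const_mul (a + b))
  have hF := (hQ.fun_mul hh).fun_sub ((hK.fun_mul hD).const_mul (a + b))
  refine ((((hw.add_const (allStabI a b)).mul_const (allStabI a b)).const_mul 4 |>.fun_mul
    hD).fun_sub ((((hw.const_mul 4).const_add (4 * allStabI a b)).add_const (3 * (b - a))).fun_mul
      hF)).congr_deriv ?_
  simp only [stripTubeU, stripTubeV, stripAt, StripAtoms.tuNu, StripAtoms.tuMu, StripAtoms.tuNv,
    StripAtoms.tuMv, StripAtoms.tuMz, StripAtoms.tuC, StripAtoms.tuG, StripAtoms.f0, StripAtoms.N,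
    StripAtoms.qn, StripAtoms.D0, StripAtoms.qu, StripAtoms.q, StripAtoms.ud, StripAtoms.u]
  ring

/-- The sign on the zero of the band. -/
theorem strip_tube_sign {a b u v H : ℝ} (hP : TubePlace a b u v) (hu : 7 / 10 ≤ u)
    (hT : 0 ≤ stripTop a b u v H) (hF : stripTube a b u v H = 0) :
    0 < allDot a b u v H (stripTubeU a b u v H) (stripTubeV a b u v H)
      (-(stripAt a b u v).tuMz) := by
  obtain ⟨hM0, -⟩ := AllLow.strip_tube_cube hP hu
  rw [stripTube_eq] at hF
  have hk := strip_tube_conds hP hu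
  set p := stripAt a b u v with hp
  have eN : p.tuNz = p.tuMz * H := by linarith
  have eF : 20 * stripTop a b u v H = p.upM - 20 * p.P * H := by
    simp only [hp, stripAt, StripAtoms.P, StripAtoms.upM, StripAtoms.upG, StripAtoms.upKI,
      StripAtoms.qu, StripAtoms.q, StripAtoms.u, stripTop, stripTopG]
    ring
  have htop : 0 ≤ p.tuTop := by
    have := mul_nonneg hM0 hT
    simp only [StripAtoms.tuTop, eN]
    have e : p.upM * p.tuMz - 20 * (p.P * (p.tuMz * H)) = p.tuMz * (20 * stripTop a b u v H) := by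
      rw [eF]; ring
    linarith
  have e : p.tuMz ^ 2 * allDot a b u v H (stripTubeU a b u v H) (stripTubeV a b u v H)
      (-p.tuMz) = p.tuT := by
    have eE : ∀ H, allEn a b u v H = p.E0 - p.e1 * H := fun H => by
      simp only [hp, stripAt, StripAtoms.E0, StripAtoms.e1, StripAtoms.qn, StripAtoms.D0,
        StripAtoms.qu, StripAtoms.q, StripAtoms.ud, StripAtoms.u, allEn, allQn, allDen]
      ring
    have eH : ∀ H, allFh a b u v H =
        p.A0 - (p.A1 + p.ud * p.A0 + p.E0) * H + (p.ud * p.A1 + p.e1) * H ^ 2 := fun H => by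
      simp only [hp, stripAt, StripAtoms.A0, StripAtoms.A1, StripAtoms.N, StripAtoms.f0,
        StripAtoms.E0, StripAtoms.e1, StripAtoms.qn, StripAtoms.D0, StripAtoms.qu, StripAtoms.q,
        StripAtoms.ud, StripAtoms.u, allFh, allEn, allFlow, allQn, allDen]
      ring
    have equ : p.qu = (1 + (b - a) * v) * u ∧ p.u = u := by
      simp only [hp, stripAt, StripAtoms.qu, StripAtoms.q, StripAtoms.u]
      refine ⟨by ring, by ring⟩
    simp only [allDot, eE, eH, (strip_flow_eq a b u v H).1, ← hp, stripTubeU, stripTubeV,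
      StripAtoms.tuT, StripAtoms.tuEn, StripAtoms.tuFl, StripAtoms.tuFh, eN, equ.1, equ.2]
    ring
  exact pos_of_mul_pos_right (e ▸ hk htop) (pow_nonneg hM0 2)

theorem strip_tube_pole {a b u v : ℝ} (h : TubePlace a b u v) :
    0 < (stripAt a b u v).P ∧ 0 < (stripAt a b u v).upW ∧ 0 ≤ (stripAt a b u v).f0 := by
  obtain ⟨hI0, hI7, ha, hd, hu0, hu1, hv, hav, -, -⟩ := h
  have hb : 0 < b := by linarith
  have hK : 0 < 1 - a * v := by linarith
  have hw : 0 < 1 - u := by linarith
  have hS0 : 0 < a + b := by linarith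
  refine ⟨?_, ?_, ?_⟩
  · have e : (stripAt a b u v).P = (1 - u) * b + u * ((b - a) * (1 - a * v)) := by
      simp only [stripAt, StripAtoms.P, StripAtoms.qu, StripAtoms.q, StripAtoms.u]
      ring
    rw [e]
    positivity
  · simp only [stripAt, StripAtoms.upW, StripAtoms.u]
    linarith [mul_le_mul_of_nonneg_right hu1.le (show 0 ≤ a by linarith)]
  · have e : (stripAt a b u v).f0 = (1 - u) * ((2 - (a + b)) * b + b * ((b - a) * v)) +
        u * ((b - a) * (1 - a * v)) + (a + b) * ((1 - u) * b) +
        (a + b) * ((1 - a * v) * (u * (b - a))) := by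
      simp only [stripAt, StripAtoms.f0, StripAtoms.qn, StripAtoms.D0, StripAtoms.qu,
        StripAtoms.q, StripAtoms.ud, StripAtoms.u]
      ring
    have h2 : 0 ≤ 2 - (a + b) := by
      simp only [allStabI] at hI0
      linarith
    rw [e]
    positivity

/-- Below both upper bands the function is positive at the entry. -/
theorem strip_tube_mix {Nz Mz P W N₂ M H k : ℝ} (hM : 0 ≤ Mz) (hP : 0 < P) (hW : 0 < W)
    (hk : k = 7 * (M * W) + 3 * (N₂ * (20 * P))) (h1 : 20 * P * H ≤ M) (h2 : H * W ≤ N₂)
    (h : 0 < Nz * (200 * (P * W)) - Mz * k) : 0 < Nz - Mz * H := by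
  have a1 := mul_le_mul_of_nonneg_left h1 hW.le
  have a2 := mul_le_mul_of_nonneg_left h2 hP.le
  have h3 : H * (200 * (P * W)) ≤ k := by rw [hk]; linarith
  have h4 := mul_le_mul_of_nonneg_left h3 hM
  refine pos_of_mul_pos_left (b := 200 * (P * W)) ?_ (by positivity)
  linarith

theorem strip_tube_slope {a b u v : ℝ} (h : TubePlace a b u v) :
    0 ≤ (stripAt a b u v).tuMz := by
  obtain ⟨-, -, hf0⟩ := strip_tube_pole h
  obtain ⟨hI0, hI7, ha, hd, hu0, hu1, hv, hav, -, -⟩ := h
  have e1 : (stripAt a b u v).ud = u * (b - a) := by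
    simp [stripAt, StripAtoms.ud, StripAtoms.u]
  simp only [StripAtoms.tuMz, e1]
  have hw : 0 < 1 - u := by linarith
  have hC : 0 ≤ (stripAt a b u v).tuC := by
    simp only [StripAtoms.tuC, stripAt]
    positivity
  have hG : 0 ≤ (stripAt a b u v).tuG := by
    simp only [StripAtoms.tuG, stripAt]
    positivity
  positivity

variable {N p q : ℝ} {S : Set ℝ} {R x y s dx dy : ℝ → ℝ}

/-- **The band where it is entered.** -/
theorem orbit_strip_tube_entry (hf : IsOrbitFns N p q S R x y s dx dy)
    (hb : SlabBoxAll N (1 / (p + 1)) (1 / (q + 1))) (h7 : 7 ≤ N) (ha : 31 / 100 < 1 / (p + 1))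
    {w : ℝ} (hw : w ∈ S) (hw0 : 0 < R w) (hu : 67 / 100 < uOf N (R w) (x w))
    (hu7 : uOf N (R w) (x w) ≤ 7 / 10) :
    0 < stripTube (1 / (p + 1)) (1 / (q + 1)) (uOf N (R w) (x w))
      (vOf (1 / (p + 1)) (1 / (q + 1)) (y w / x w))
      (hOf N (R w) (x w) (y w) w / (1 / (q + 1) - 1 / (p + 1))) := by
  have hP := (orbit_point_all hf hb hw hw0).1
  have hT := tubePlace_of hb h7 ha hP.u_pos hP.u_lt hP.toVRange
  obtain ⟨hPp, hW, hf0⟩ := strip_tube_pole hT
  have hM := strip_tube_slope hT
  have hfl := hP.flow_pos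
  rw [stripTube_eq]
  obtain ⟨hI0, hI7, hal, hd, hu0, hu1, hv, hav, -, -⟩ := id hT
  have hN : 0 < N := by linarith
  have hIN : N * allStabI (1 / (p + 1)) (1 / (q + 1)) = 1 := by
    have := hb.dim
    simp only [allStabI]
    linarith
  rcases le_or_gt 20 N with h20 | h20
  · have hI20 : allStabI (1 / (p + 1)) (1 / (q + 1)) ≤ 1 / 20 := by
      refine le_of_mul_le_mul_left (a := N) ?_ hN
      linarith
    have hup := orbit_strip_up_all hf hb h20 ha hw hw0 (by linarith)
    have htop := orbit_strip_top_all hf hb h20 ha hw hw0 (by linarith)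
    have hlo := (orbit_strip_lower hf hb h20 ha hw hw0).2.2.2.1 (by linarith) (by linarith)
    have hhi := (orbit_strip_upper hf hb h20 ha hw hw0).2.2.2.2.1 (by linarith) (by linarith)
    generalize hOf N (R w) (x w) (y w) w / (1 / (q + 1) - 1 / (p + 1)) = H at *
    generalize uOf N (R w) (x w) = u at *
    generalize vOf (1 / (p + 1)) (1 / (q + 1)) (y w / x w) = v at *
    generalize 1 / (p + 1) = a at *
    generalize 1 / (q + 1) = b at *
    have ha5 : a < 1 / 2 := by simp only [allStabI] at hI0; linarith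
    have hau1 : 2 * a * u ≤ 7 / 10 := by
      have := mul_le_mul ha5.le hu7 hu0.le (by norm_num)
      linarith
    have hau0 : 2 / 5 ≤ 2 * a * u := by
      have := mul_le_mul ha.le hu.le (by norm_num) (by linarith : (0 : ℝ) ≤ a)
      linarith
    have he : 0 < 1 - 2 * a * u := by linarith
    have x0 : 2 * allStabI a b * (6 / 5) < v := by
      have h1 := mul_le_mul_of_nonneg_right
        (show 1 / 5 * (1 - 2 * a * u) ≤ 53 / 100 * (2 * a * u) by linarith)
        (show 0 ≤ 2 * allStabI a b by linarith)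
      have h2 : 1 / 5 * (2 * allStabI a b) < v - 2 * allStabI a b :=
        lt_of_mul_lt_mul_right (a := 1 - 2 * a * u) (by linarith) he.le
      linarith
    have x1 : v ≤ 2 * allStabI a b * 6 := by
      have h1 := mul_le_mul_of_nonneg_right
        (show 7 / 4 * (2 * a * u) ≤ 5 * (1 - 2 * a * u) by linarith)
        (show 0 ≤ 2 * allStabI a b by linarith)
      have h2 : v - 2 * allStabI a b < 5 * (2 * allStabI a b) :=
        lt_of_mul_lt_mul_right (a := 1 - 2 * a * u) (by linarith) he.le
      linarith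
    obtain ⟨e1, -, -⟩ := stripUp_eq (a := a) (b := b) (v := v) hu1.le
    rw [e1, lt_div_iff₀ hW] at hup
    have eF : 20 * stripTop a b u v H =
        (stripAt a b u v).upM - 20 * (stripAt a b u v).P * H := by
      simp only [stripAt, StripAtoms.P, StripAtoms.upM, StripAtoms.upG, StripAtoms.upKI,
        StripAtoms.qu, StripAtoms.q, StripAtoms.u, stripTop, stripTopG]
      ring
    exact strip_tube_mix hM hPp hW rfl (by linarith) hup.le
      (AllLow.strip_tube_entry hT hI20 hu hu7 x0 x1)
  · have hI20 : 1 / 20 < allStabI (1 / (p + 1)) (1 / (q + 1)) := by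
      refine lt_of_mul_lt_mul_left (a := N) ?_ hN.le
      linarith
    have hup := orbit_strip_sev hf hb h7 h20 ha hw hw0 (by linarith)
    have htop := orbit_strip_sev_top hf hb h7 h20 ha hw hw0 hu.le
    generalize hOf N (R w) (x w) (y w) w / (1 / (q + 1) - 1 / (p + 1)) = H at *
    generalize uOf N (R w) (x w) = u at *
    generalize vOf (1 / (p + 1)) (1 / (q + 1)) (y w / x w) = v at *
    generalize 1 / (p + 1) = a at *
    generalize 1 / (q + 1) = b at *
    obtain ⟨hc1, hc2⟩ := AllLow.strip_tube_entry_sev hT hI20 hu hu7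
    obtain ⟨e1, -, -⟩ := stripSev_eq (a := a) (b := b) (v := v) hu1.le
    rw [e1, lt_div_iff₀ hW] at hup
    rcases le_or_gt v (2 * allStabI a b * (7 / 5)) with hX | hX
    · exfalso
      have h := hc2 hX
      rw [(strip_flow_eq a b u v H).1] at hfl
      simp only [StripAtoms.tuLow] at h
      have h1 := mul_pos hfl hW
      have h2 := mul_le_mul_of_nonneg_left hup.le hf0
      linarith
    have eF : 20 * stripTop a b u v H =
        (stripAt a b u v).upM - 20 * (stripAt a b u v).P * H := by
      simp only [stripAt, StripAtoms.P, StripAtoms.upM, StripAtoms.upG, StripAtoms.upKI,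
        StripAtoms.qu, StripAtoms.q, StripAtoms.u, stripTop, stripTopG]
      ring
    exact strip_tube_mix hM hPp hW rfl (by linarith) hup.le (hc1 hX.le)

/-- **The band of the radial speed from `u = 7/10` on** for real `N ≥ 7` and
`31/100 < 1/(p+1)`. -/
theorem orbit_strip_tube (hf : IsOrbitFns N p q S R x y s dx dy)
    (hb : SlabBoxAll N (1 / (p + 1)) (1 / (q + 1))) (h7 : 7 ≤ N) (ha : 31 / 100 < 1 / (p + 1))
    {w : ℝ} (hw : w ∈ S) (hw0 : 0 < R w) (hwu : 7 / 10 ≤ uOf N (R w) (x w)) :
    0 < stripTube (1 / (p + 1)) (1 / (q + 1)) (uOf N (R w) (x w))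
      (vOf (1 / (p + 1)) (1 / (q + 1)) (y w / x w))
      (hOf N (R w) (x w) (y w) w / (1 / (q + 1) - 1 / (p + 1))) := by
  obtain ⟨ha0, hb0, hd, -⟩ := hb.facts
  have htop : ∀ z ∈ S, 0 < R z → 7 / 10 ≤ uOf N (R z) (x z) →
      0 ≤ stripTop (1 / (p + 1)) (1 / (q + 1)) (uOf N (R z) (x z))
        (vOf (1 / (p + 1)) (1 / (q + 1)) (y z / x z))
        (hOf N (R z) (x z) (y z) z / (1 / (q + 1) - 1 / (p + 1))) := by
    intro z hz hz0 hzu
    rcases le_or_gt 20 N with h20 | h20
    · exact orbit_strip_top_all hf hb h20 ha hz hz0 (by linarith)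
    · exact orbit_strip_sev_top hf hb h7 h20 ha hz hz0 (by linarith)
  refine forward_step_all hf hb (u₀ := 7 / 10) (u₁ := 1)
    (K := 21000 / (1 / (q + 1) - 1 / (p + 1))) (by norm_num) (hasGrad_stripTube _ _)
    (by unfold stripTube allDen allFlow allQn allDen; fun_prop)
    (fun u v H => (67 / 100 < u → u ≤ 7 / 10 →
        0 < stripTube (1 / (p + 1)) (1 / (q + 1)) u v H) ∧
      (7 / 10 ≤ u → 0 ≤ stripTop (1 / (p + 1)) (1 / (q + 1)) u v H))
    (fun z hz hz0 _ => ⟨orbit_strip_tube_entry hf hb h7 ha hz hz0, htop z hz hz0⟩)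
    (fun v h1 h2 h3 => ?_) (fun u v H hP he hu hE => ?_) (fun u v H hP he hu _ hE hF => ?_)
    hw hw0 hwu (orbit_point_all hf hb hw hw0).1.u_lt.le
  · -- the centre
    have hN : 0 < N := by linarith
    generalize 1 / (p + 1) = a at *
    generalize 1 / (q + 1) = b at *
    have hIN : N * allStabI a b = 1 := by
      have := hb.dim
      simp only [allStabI]
      linarith
    have hI0 : 0 < allStabI a b := pos_of_mul_pos_right (hIN ▸ one_pos) hN.le
    have hI7 : allStabI a b ≤ 1 / 7 := by
      refine le_of_mul_le_mul_left (a := N) ?_ hN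
      linarith
    have hS : a + b = 1 - 2 * allStabI a b := by simp only [allStabI]; ring
    have hv : 0 < v := pos_of_mul_pos_right (show 0 < (N + 2 * a) * v by linarith) (by linarith)
    have hv4 : v ≤ 4 := by
      have := mul_lt_mul_of_pos_right ha hv
      linarith
    have hdv : (b - a) * v ≤ 1 := by
      have h5 : 5 * ((b - a) * v) < 5 := by
        have := mul_le_mul_of_nonneg_right (show 5 ≤ N - 2 by linarith)
          (mul_pos hd hv).le
        linarith
      linarith
    have hD : allDen a b 0 v (allHc a b v) = 2 + (b - a) * v := by simp [allDen]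
    have hF : allFlow a b 0 v (allHc a b v) =
        (a + b) * (2 + (b - a) * v) * ((1 + (1 - a) * v) / (2 - (a + b)) - (1 - a * v)) := by
      have hb0 : b ≠ 0 := ne_of_gt (by linarith)
      have h2 : (2 : ℝ) - (a + b) ≠ 0 := ne_of_gt (by linarith)
      rw [allFlow, hD, allQn, allHc]
      field_simp
      ring
    have hq : (1 + (1 - a) * v) / (2 - (a + b)) - (1 - a * v) ≤ 5 := by
      have h1 : (1 + (1 - a) * v) / (2 - (a + b)) ≤ 5 := by
        rw [div_le_iff₀ (by linarith)]
        have := mul_le_mul (show 1 - a ≤ 1 by linarith) hv4 hv.le (by norm_num)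
        linarith
      have : 0 ≤ 1 - a * v := by linarith
      linarith
    have hF1 : allFlow a b 0 v (allHc a b v) ≤ 15 := by
      rw [hF]
      have hm : (a + b) * (2 + (b - a) * v) ≤ 1 * 3 :=
        mul_le_mul (by linarith) (by linarith) (by positivity) (by norm_num)
      have hm0 : 0 ≤ (a + b) * (2 + (b - a) * v) := by
        have : 0 ≤ a + b := by linarith
        positivity
      calc _ ≤ (a + b) * (2 + (b - a) * v) * 5 := mul_le_mul_of_nonneg_left hq hm0
        _ ≤ 15 := by linarith
    have hK : 21000 ≤ 21000 / (b - a) := by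
      rw [le_div_iff₀ hd]
      simp only [allStabI] at hI0
      linarith
    simp only [stripTube, hD]
    have hc : 0 ≤ 4 * ((1 - 0 + allStabI a b) * allStabI a b) * (2 + (b - a) * v) := by
      positivity
    have hg : 0 ≤ 4 * allStabI a b + 4 * (1 - 0) + 3 * (b - a) := by positivity
    have hg8 : 4 * allStabI a b + 4 * (1 - 0) + 3 * (b - a) ≤ 8 := by
      simp only [allStabI] at hI7 hI0 ⊢
      linarith
    have h15 := mul_le_mul_of_nonneg_left hF1 hg
    linarith
  · -- before `7/10`
    rcases lt_or_ge (67 / 100) u with h6 | h6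
    · have := hE.1 h6 hu
      have : 0 ≤ 21000 / (1 / (q + 1) - 1 / (p + 1)) * (7 / 10 - u) ^ 2 := by positivity
      linarith
    have hT := tubePlace_of hb h7 ha hP.u_pos hP.u_lt hP.toVRange
    obtain ⟨hI0, hI7, hal, -, hu0, hu1, hv, hav, -, hhi⟩ := hT
    have hden := hP.den_pos
    have hH := hP.H_pos
    have hH1 := hP.H_lt
    generalize 1 / (p + 1) = a at *
    generalize 1 / (q + 1) = b at *
    have hS : a + b = 1 - 2 * allStabI a b := by simp only [allStabI]; ring
    have hdv : (b - a) * v ≤ 1 := by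
      have h1 := mul_le_mul_of_nonneg_right (show 1 / 2 ≤ a + b by linarith) (mul_pos hd hv).le
      linarith
    have hq : allQn a b u v ≤ 3 := by
      have h1 : 0 ≤ (a + b) * (u * (1 + (b - a) * v)) := by
        have : 0 ≤ a + b := by linarith
        positivity
      have h2 : b * (2 + (b - a) * v) ≤ 1 * 3 :=
        mul_le_mul (by linarith) (by linarith) (by positivity) (by norm_num)
      rw [allQn]
      linarith
    have hFl : allFlow a b u v H * (b - a) ≤ 3 := by
      have hKD : 0 ≤ (a + b) * ((1 - a * v) * allDen a b u v H) :=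
        mul_nonneg (by linarith) (mul_nonneg (by linarith) hden.le)
      have h1 : allFlow a b u v H * (b - a) ≤ allQn a b u v * H * (b - a) :=
        mul_le_mul_of_nonneg_right (by rw [allFlow]; linarith) hd.le
      have h2 := mul_le_mul_of_nonneg_right hq (mul_pos hd hH).le
      linarith
    have hg : 0 ≤ 4 * allStabI a b + 4 * (1 - u) + 3 * (b - a) := by
      have : 0 ≤ 1 - u := by linarith
      positivity
    have hg6 : 4 * allStabI a b + 4 * (1 - u) + 3 * (b - a) ≤ 6 := by linarith
    have hc : 0 ≤ 4 * ((1 - u + allStabI a b) * allStabI a b) * allDen a b u v H := by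
      have : 0 ≤ 1 - u := by linarith
      positivity
    have hsq : 9 / 10000 ≤ (7 / 10 - u) ^ 2 := by
      have := mul_le_mul (show 3 / 100 ≤ 7 / 10 - u by linarith)
        (show 3 / 100 ≤ 7 / 10 - u by linarith) (by norm_num) (by linarith)
      linarith
    refine pos_of_mul_pos_left (b := b - a) ?_ hd.le
    have e : (stripTube a b u v H + 21000 / (b - a) * (7 / 10 - u) ^ 2) * (b - a) =
        stripTube a b u v H * (b - a) + 21000 * (7 / 10 - u) ^ 2 := by
      field_simp
    rw [e, stripTube]
    have h1 := mul_nonneg hc hd.le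
    have h2 := mul_le_mul_of_nonneg_left hFl hg
    have h3 := mul_le_mul_of_nonneg_right hg6 (show (0 : ℝ) ≤ 3 by norm_num)
    linarith
  · exact strip_tube_sign (tubePlace_of hb h7 ha hP.u_pos hP.u_lt hP.toVRange) hu (hE.2 hu) hF

end Vale.Agent.P100.Calib.Band
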