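import Vale.Agent.P100.Calib.SlabStripLow
import Vale.Agent.P100.Calib.SlabStripTube
import Vale.Agent.P100.Calib.SlabStripMidChart

/-!
# The window of `o = a v` and of the Flow for `u` near one

In the variables of a chart: left of the window the lower band is above the tube, right of it the
upper exit band is below `Flow = 0`, and in it the two exit bands pin `C = H Qn / Den` by
`C q = K - μ o w`, `K = 1 - o`, `q = 1 + d v`.
-/

set_option linter.unusedVariables false

namespace Vale.Agent.P100.Calib.StripEnd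

open Pack Pack.Ex Band StripMid

local instance endWinAdd : Add Ex := ⟨Ex.add⟩
local instance endWinSub : Sub Ex := ⟨Ex.sub⟩
local instance endWinMul : Mul Ex := ⟨Ex.mul⟩

/-- The quantities of a chart: `I`, `d`, `w = 1 - u` and `o = a v` over `den`. -/
structure Geo where
  (I d w o den : Ex)

namespace Geo

variable (g : Geo)

/-- `S`. -/
def S : Ex := num 1 - num 2 * g.I

/-- `2 a`. -/
def A : Ex := g.S - g.d

/-- `2 b`. -/
def B : Ex := g.S + g.d

/-- `u`. -/
def U : Ex := num 1 - g.w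

/-- The denominator of `v`. -/
def E : Ex := g.A * g.den

/-- The numerator of `v`. -/
def V : Ex := num 2 * g.o

/-- `2 K`, times `E`. -/
def Kn : Ex := num 2 * (g.A * (g.den - g.o))

/-- `q`, times `E`. -/
def qn : Ex := g.E + g.d * g.V

/-- `2 + d v`, times `E`. -/
def Pn : Ex := num 2 * g.E + g.d * g.V

/-- `2 IT`, times `E`. -/
def ITn : Ex := num 2 * g.I * g.E - g.S * g.d * g.V

/-- `2 (b - a q u)`, times `E`. -/
def Wn : Ex := g.B * g.E - g.A * g.U * g.qn

/-- `2 Qn`, times `E`. -/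
def Qn : Ex := g.B * g.Pn - num 2 * g.S * g.U * g.qn

/-- `u d`. -/
def ud : Ex := g.U * g.d

/-- `80 E²` times the right hand side of the lower band of slope `1/5 + k I`. -/
def lowM (k : ℕ) : Ex :=
  num 40 * g.Kn * g.E -
    g.w * (num 80 * g.S * (g.V * g.qn) + (num 4 + num (20 * k) * g.I) * (g.Kn * g.ITn))

/-- `80 E²` times the right hand side of the upper exit band. -/
def topM : Ex :=
  num 40 * g.Kn * g.E -
    g.w * (num 80 * g.S * (g.V * g.qn) - (num 14 + num 6 * g.U) * (g.Kn * g.ITn))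

/-- `4 I + 4 w + 3 d`. -/
def N4 : Ex := num 4 * g.I + num 4 * g.w + num 3 * g.d

/-- The constant of the tube, times `2 E N4`. -/
def tubeC : Ex := g.S * g.Kn * g.N4 + num 8 * (g.w + g.I) * (g.I * g.E)

/-- The lower band is above the tube. -/
def loWin (k : ℕ) : Ex :=
  g.lowM k * (g.Qn * g.N4 + g.ud * g.tubeC) - num 40 * (g.tubeC * (g.Pn * g.Wn))

/-- The upper exit band is below `Flow = 0`. -/
def hiWin : Ex :=
  num 40 * (g.S * g.Kn * (g.Pn * g.Wn)) - g.topM * (g.Qn + g.ud * (g.S * g.Kn))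

/-- The numerator of `K - μ o w`, at a fraction `μ`. -/
def muR (m : ℤ × ℕ) : Ex := num m.2 * g.Kn - num m.1 * (g.w * (g.A * g.V))

/-- The lower band bounds `μ` by `m`. -/
def muUp (k : ℕ) (m : ℤ × ℕ) : Ex :=
  num m.2 * (g.qn * (g.Qn * g.lowM k)) -
    g.E * (g.muR m * (num 40 * (g.Pn * g.Wn) - g.ud * g.lowM k))

/-- The upper exit band bounds `μ` from below by `m`. -/
def muLo (m : ℤ × ℕ) : Ex :=
  g.E * (g.muR m * (num 40 * (g.Pn * g.Wn) - g.ud * g.topM)) -
    num m.2 * (g.qn * (g.Qn * g.topM))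

end Geo

/-- The right hand side of the lower band of slope `1/5 + k I`. -/
noncomputable def endG (k : ℕ) (a b v : ℝ) : ℝ :=
  (a + b) * (v * (1 + (b - a) * v)) + (1 / 5 + k * allStabI a b) *
    ((1 - a * v) * (allStabI a b - (a + b) * ((b - a) * v) / 2))

/-- The lower band of slope `1/5 + k I`. -/
noncomputable def endLow (k : ℕ) (a b u v H : ℝ) : ℝ :=
  H * (b - a * ((1 + (b - a) * v) * u)) - (1 - a * v) + (1 - u) * endG k a b v

theorem endLow_two (a b u v H : ℝ) : endLow 2 a b u v H = stripLow a b u v H := by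
  simp only [endLow, endG, stripLow, stripG]; push_cast; ring

/-- A point in the variables of a chart. -/
structure GeoAt (g : Geo) (y : ℕ → ℝ) (a b u v : ℝ) : Prop where
  hI : g.I.eval y = allStabI a b
  hd : g.d.eval y = b - a
  hw : g.w.eval y = 1 - u
  den : 0 < g.den.eval y
  ho : g.o.eval y = a * v * g.den.eval y

variable {g : Geo} {y : ℕ → ℝ} {a b u v H : ℝ}

theorem end_add (e f : Ex) : (e + f).eval y = e.eval y + f.eval y := rfl

theorem end_sub (e f : Ex) : (e - f).eval y = e.eval y - f.eval y := rfl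

theorem end_mul (e f : Ex) : (e * f).eval y = e.eval y * f.eval y := rfl

/-- The values of the quantities. -/
structure GeoVal (g : Geo) (y : ℕ → ℝ) (a b u v E : ℝ) : Prop where
  pos : 0 < E
  eE : g.E.eval y = E
  eS : g.S.eval y = a + b
  eA : g.A.eval y = 2 * a
  eU : g.U.eval y = u
  eV : g.V.eval y = v * E
  eK : g.Kn.eval y = 2 * (1 - a * v) * E
  eq : g.qn.eval y = (1 + (b - a) * v) * E
  eP : g.Pn.eval y = (2 + (b - a) * v) * E
  eT : g.ITn.eval y = 2 * (allStabI a b - (a + b) * ((b - a) * v) / 2) * E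
  eW : g.Wn.eval y = 2 * (b - a * ((1 + (b - a) * v) * u)) * E
  eQ : g.Qn.eval y = 2 * allQn a b u v * E
  eud : g.ud.eval y = u * (b - a)

theorem GeoAt.vals (h : GeoAt g y a b u v) (ha : 0 < a) :
    GeoVal g y a b u v (2 * a * g.den.eval y) := by
  have eS : g.S.eval y = a + b := by
    simp only [Geo.S, end_sub, end_mul, Ex.eval, h.hI, allStabI]; push_cast; ring
  have eA : g.A.eval y = 2 * a := by
    simp only [Geo.A, end_sub, eS, h.hd]; ring
  have eB : g.B.eval y = 2 * b := by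
    simp only [Geo.B, end_add, eS, h.hd]; ring
  have eU : g.U.eval y = u := by
    simp only [Geo.U, end_sub, Ex.eval, h.hw]; push_cast; ring
  refine ⟨mul_pos (by linarith) h.den, ?_, eS, eA, eU, ?_, ?_, ?_, ?_, ?_, ?_, ?_, ?_⟩
  all_goals
    simp only [Geo.E, Geo.V, Geo.Kn, Geo.qn, Geo.Pn, Geo.ITn, Geo.Wn, Geo.Qn, Geo.ud, end_add,
      end_sub, end_mul, Ex.eval, h.hI, h.hd, h.ho, eS, eA, eB, eU, allQn]
    try push_cast
    try ring

/-- The facts of a point that the windows use. -/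
theorem end_pos (hP : TubePlace a b u v) :
    0 < a ∧ 0 < b - a * ((1 + (b - a) * v) * u) ∧ 0 < 1 - a * v ∧ 0 < a + b ∧
      (1 - u) * (b * (2 + (b - a) * v)) + u * ((b - a) * (1 - a * v)) = allQn a b u v ∧
      0 < allQn a b u v := by
  obtain ⟨hI0, hI7, ha, hd, hu0, hu1, hv, hav, -, -⟩ := hP
  have ha0 : 0 < a := by linarith
  have hb : 0 < b := by linarith
  have hw : 0 < 1 - u := sub_pos.2 hu1
  have hK : 0 < 1 - a * v := sub_pos.2 hav
  have e : (1 - u) * (b * (2 + (b - a) * v)) + u * ((b - a) * (1 - a * v)) = allQn a b u v := by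
    simp only [allQn]; ring
  refine ⟨ha0, ?_, hK, by linarith, e, ?_⟩
  · rw [show b - a * ((1 + (b - a) * v) * u) = (1 - u) * b + u * ((b - a) * (1 - a * v)) by ring]
    positivity
  · rw [← e]; positivity

/-- Left of the window no point is above the lower band and inside the tube. -/
theorem left_false (h : GeoAt g y a b u v) (hP : TubePlace a b u v)
    {k : ℕ} (hG : 0 ≤ (g.loWin k).eval y) (hl : 0 ≤ endLow k a b u v H) (ht : 0 < stripTube a b u v H) :
    False := by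
  obtain ⟨ha, hW, hK, hS, -, hQ⟩ := end_pos hP
  have V := h.vals ha
  generalize 2 * a * g.den.eval y = E at V
  obtain ⟨hI, hI7, -, hd, hu0, hu1, hv, -, -, -⟩ := hP
  have hE := V.pos
  obtain ⟨I, hIe⟩ : ∃ I, I = allStabI a b := ⟨_, rfl⟩
  obtain ⟨Wp, hWp⟩ : ∃ Wp, Wp = b - a * ((1 + (b - a) * v) * u) := ⟨_, rfl⟩
  obtain ⟨M, hM⟩ : ∃ M, M = 1 - a * v - (1 - u) * endG k a b v := ⟨_, rfl⟩
  obtain ⟨n, hn⟩ : ∃ n, n = 4 * I + 4 * (1 - u) + 3 * (b - a) := ⟨_, rfl⟩
  obtain ⟨C, hC⟩ : ∃ C, C = (a + b) * (1 - a * v) * n + 4 * ((1 - u + I) * I) := ⟨_, rfl⟩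
  obtain ⟨X, hX⟩ : ∃ X, X = allQn a b u v * n + u * (b - a) * C := ⟨_, rfl⟩
  have hn0 : 0 < n := by linarith
  have hC0 : 0 < C := by rw [hC, hIe]; positivity
  have hX0 : 0 < X := by rw [hX]; positivity
  have h1 : M ≤ H * Wp := by
    simp only [endLow] at hl
    rw [hM, hWp]; linarith
  have h2 : H * X < C * (2 + (b - a) * v) := by
    simp only [stripTube, allFlow, allDen, ← hIe] at ht
    rw [hX, hC, hn]
    linarith
  have e : (g.loWin k).eval y = 160 * E ^ 3 * (M * X - C * (2 + (b - a) * v) * Wp) := by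
    simp only [Geo.loWin, Geo.lowM, Geo.tubeC, Geo.N4, end_add, end_sub, end_mul, Ex.eval, V.eE,
      V.eS, V.eV, V.eK, V.eq, V.eP, V.eT, V.eW, V.eQ, V.eud, h.hI, h.hd, h.hw, hX, hC, hn, hM,
      endG, ← hIe, hWp]
    push_cast; ring
  rw [e] at hG
  have h3 := nonneg_of_mul_nonneg_right (by linarith [hG] :
    0 ≤ 160 * E ^ 3 * (M * X - C * (2 + (b - a) * v) * Wp)) (by positivity)
  have h4 := mul_le_mul_of_nonneg_right h1 hX0.le
  have h5 := mul_lt_mul_of_pos_right h2 (hWp ▸ hW : 0 < Wp)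
  linarith

/-- Right of the window no point with positive Flow is below the upper exit band. -/
theorem right_false (h : GeoAt g y a b u v) (hP : TubePlace a b u v)
    (hG : 0 ≤ g.hiWin.eval y) (hX' : 0 ≤ stripTop a b u v H) (hfl : 0 < allFlow a b u v H) :
    False := by
  obtain ⟨ha, hW, hK, hS, -, hQ⟩ := end_pos hP
  have V := h.vals ha
  generalize 2 * a * g.den.eval y = E at V
  obtain ⟨hI, hI7, -, hd, hu0, hu1, hv, -, -, -⟩ := hP
  have hE := V.pos
  obtain ⟨Wp, hWp⟩ : ∃ Wp, Wp = b - a * ((1 + (b - a) * v) * u) := ⟨_, rfl⟩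
  obtain ⟨M, hM⟩ : ∃ M, M = 1 - a * v - (1 - u) * stripTopG a b u v / 20 := ⟨_, rfl⟩
  obtain ⟨C, hC⟩ : ∃ C, C = (a + b) * (1 - a * v) := ⟨_, rfl⟩
  obtain ⟨X, hX⟩ : ∃ X, X = allQn a b u v + u * (b - a) * C := ⟨_, rfl⟩
  have hX0 : 0 < X := by rw [hX, hC]; positivity
  have h1 : H * Wp ≤ M := by
    simp only [stripTop] at hX'
    rw [hM, hWp]; linarith
  have h2 : C * (2 + (b - a) * v) < H * X := by
    simp only [allFlow, allDen] at hfl
    rw [hX, hC]
    linarith
  have e : g.hiWin.eval y = 160 * E ^ 3 * (C * (2 + (b - a) * v) * Wp - M * X) := by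
    simp only [Geo.hiWin, Geo.topM, end_add, end_sub, end_mul, Ex.eval, V.eE,
      V.eS, V.eU, V.eV, V.eK, V.eq, V.eP, V.eT, V.eW, V.eQ, V.eud, h.hI, h.hd, h.hw, hX, hC, hM,
      stripTopG, hWp]
    push_cast; ring
  rw [e] at hG
  have h3 := nonneg_of_mul_nonneg_right (by linarith [hG] :
    0 ≤ 160 * E ^ 3 * (C * (2 + (b - a) * v) * Wp - M * X)) (by positivity)
  have h4 := mul_le_mul_of_nonneg_right h1 hX0.le
  have h5 := mul_lt_mul_of_pos_right h2 (hWp ▸ hW : 0 < Wp)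
  linarith

/-- `C = H Qn / Den`. -/
noncomputable def pinC (a b u v H : ℝ) : ℝ := H * allQn a b u v / allDen a b u v H

/-- **The exit bands pin `C`.** -/
theorem pinned_of (h : GeoAt g y a b u v) (hP : TubePlace a b u v) {lo hi : ℤ × ℕ}
    (hlo : 0 < lo.2) (hhi : 0 < hi.2) (hlo' : (lo.1 : ℝ) ≤ 18 / 5 * lo.2)
    (hhi' : (hi.1 : ℝ) ≤ 18 / 5 * hi.2)
    {k : ℕ} (hU : 0 ≤ (g.muUp k hi).eval y) (hL : 0 ≤ (g.muLo lo).eval y)
    (hl : 0 ≤ endLow k a b u v H) (hX : 0 ≤ stripTop a b u v H) (hH : 0 < H)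
    (hden : 0 < allDen a b u v H) :
    ∃ m : ℝ, (lo.1 : ℝ) / lo.2 ≤ m ∧ m ≤ (hi.1 : ℝ) / hi.2 ∧
      pinC a b u v H * g.qn.eval y =
        g.A.eval y * (g.den.eval y - g.o.eval y - m * g.o.eval y * g.w.eval y) := by
  obtain ⟨ha, hW, hK, hS, eQ, hQ⟩ := end_pos hP
  have V := h.vals ha
  have hdn := h.den
  generalize hEe : 2 * a * g.den.eval y = E at V
  obtain ⟨hI, hI7, ha', hd, hu0, hu1, hv, hav, -, hhigh⟩ := hP
  have hE := V.pos
  obtain ⟨o, ho⟩ : ∃ o, o = a * v := ⟨_, rfl⟩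
  obtain ⟨w, hw⟩ : ∃ w, w = 1 - u := ⟨_, rfl⟩
  obtain ⟨q, hq⟩ : ∃ q, q = 1 + (b - a) * v := ⟨_, rfl⟩
  obtain ⟨Wp, hWp⟩ : ∃ Wp, Wp = b - a * ((1 + (b - a) * v) * u) := ⟨_, rfl⟩
  obtain ⟨P, hPe⟩ : ∃ P, P = 2 + (b - a) * v := ⟨_, rfl⟩
  obtain ⟨C, hC⟩ : ∃ C, C = pinC a b u v H := ⟨_, rfl⟩
  have hWp0 : 0 < Wp := hWp ▸ hW
  have how : 0 < o * w := by rw [ho, hw]; exact mul_pos (mul_pos ha hv) (by linarith)
  have hq1 : 1 ≤ q := by rw [hq]; linarith [mul_pos hd hv]
  have hP2 : 2 ≤ P := by rw [hPe]; linarith [mul_pos hd hv]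
  have eC : C * (P - u * ((b - a) * H)) = H * allQn a b u v := by
    rw [hC, hPe, pinC]; exact div_mul_cancel₀ _ hden.ne'
  have hb : 0 < b := by linarith
  have hX0 : ∀ m : ℝ, m ≤ 18 / 5 → 0 < q * allQn a b u v + (1 - o - m * o * w) * (u * (b - a)) := by
    intro m hm
    have h1 : allQn a b u v ≤ q * allQn a b u v := le_mul_of_one_le_left hQ.le hq1
    have h2 : w * (b * 2) ≤ w * (b * P) := by
      rw [hw]; exact mul_le_mul_of_nonneg_left (mul_le_mul_of_nonneg_left hP2 hb.le) (by linarith)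
    have ho1 : o ≤ 1 := by rw [ho]; exact hav.le
    have h3 : m * (o * w) * (u * (b - a)) ≤ 18 / 5 * w * (b - a) := by
      have g1 : m * (o * w) ≤ 18 / 5 * w := by
        have := mul_le_mul_of_nonneg_right hm how.le
        have := mul_le_mul_of_nonneg_right ho1 (show 0 ≤ w by linarith)
        linarith
      have g2 : u * (b - a) ≤ b - a := mul_le_of_le_one_left hd.le hu1.le
      calc m * (o * w) * (u * (b - a)) ≤ 18 / 5 * w * (u * (b - a)) :=
            mul_le_mul_of_nonneg_right g1 (by positivity)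
        _ ≤ _ := mul_le_mul_of_nonneg_left g2 (by linarith)
    have h4 : 18 / 5 * (b - a) < b * 2 := by
      simp only [allStabI] at hI; linarith
    have h5 := mul_lt_mul_of_pos_left h4 (show 0 < w by linarith)
    have h6 : 0 ≤ (1 - o) * (u * (b - a)) := mul_nonneg (by linarith) (by positivity)
    have h7 : 0 ≤ u * ((b - a) * (1 - a * v)) := by positivity
    rw [← hw, ← hPe] at eQ
    linarith
  refine ⟨(1 - o - q * C) / (o * w), ?_, ?_, ?_⟩
  · have hq' : (0 : ℝ) < lo.2 := by exact_mod_cast hlo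
    obtain ⟨m, hm⟩ : ∃ m, m = (lo.1 : ℝ) / lo.2 := ⟨_, rfl⟩
    have hm' : m ≤ 18 / 5 := by rw [hm, div_le_iff₀ hq']; exact hlo'
    obtain ⟨M, hM⟩ : ∃ M, M = 1 - a * v - (1 - u) * stripTopG a b u v / 20 := ⟨_, rfl⟩
    have e : (g.muLo lo).eval y = 160 * E ^ 4 * lo.2 *
        ((1 - o - m * o * w) * (P * Wp - u * (b - a) * M) - q * allQn a b u v * M) := by
      simp only [Geo.muLo, Geo.muR, Geo.topM, end_add, end_sub, end_mul, Ex.eval, V.eE,
        V.eS, V.eA, V.eU, V.eV, V.eK, V.eq, V.eP, V.eT, V.eW, V.eQ, V.eud, h.hI, h.hd, h.hw,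
        hM, stripTopG, hWp, hPe, ho, hw, hq, hm]
      push_cast; field_simp; ring
    rw [e] at hL
    have h3 := nonneg_of_mul_nonneg_right (by linarith [hL] :
      0 ≤ 160 * E ^ 4 * lo.2 *
        ((1 - o - m * o * w) * (P * Wp - u * (b - a) * M) - q * allQn a b u v * M)) (by positivity)
    have h1 : H * Wp ≤ M := by
      simp only [stripTop] at hX
      rw [hM, hWp]; linarith
    have h4 := mul_le_mul_of_nonneg_right h1 (hX0 m hm').le
    have h5 : H * (q * allQn a b u v + (1 - o - m * o * w) * (u * (b - a))) ≤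
        (1 - o - m * o * w) * P := by
      refine le_of_mul_le_mul_right ?_ hWp0
      linarith
    rw [← hm, le_div_iff₀ how]
    have h6 : q * C * (P - u * ((b - a) * H)) ≤
        (1 - o - m * (o * w)) * (P - u * ((b - a) * H)) := by
      rw [mul_assoc q C, eC]; linarith
    have := le_of_mul_le_mul_right h6 (by rw [hPe]; exact hden)
    linarith
  · have hq' : (0 : ℝ) < hi.2 := by exact_mod_cast hhi
    obtain ⟨m, hm⟩ : ∃ m, m = (hi.1 : ℝ) / hi.2 := ⟨_, rfl⟩
    have hm' : m ≤ 18 / 5 := by rw [hm, div_le_iff₀ hq']; exact hhi'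
    obtain ⟨M, hM⟩ : ∃ M, M = 1 - a * v - (1 - u) * endG k a b v := ⟨_, rfl⟩
    have e : (g.muUp k hi).eval y = 160 * E ^ 4 * hi.2 *
        (q * allQn a b u v * M - (1 - o - m * o * w) * (P * Wp - u * (b - a) * M)) := by
      simp only [Geo.muUp, Geo.muR, Geo.lowM, end_add, end_sub, end_mul, Ex.eval, V.eE,
        V.eS, V.eA, V.eU, V.eV, V.eK, V.eq, V.eP, V.eT, V.eW, V.eQ, V.eud, h.hI, h.hd, h.hw,
        hM, endG, hWp, hPe, ho, hw, hq, hm]
      push_cast; field_simp; ring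
    rw [e] at hU
    have h3 := nonneg_of_mul_nonneg_right (by linarith [hU] :
      0 ≤ 160 * E ^ 4 * hi.2 *
        (q * allQn a b u v * M - (1 - o - m * o * w) * (P * Wp - u * (b - a) * M))) (by positivity)
    have h1 : M ≤ H * Wp := by
      simp only [endLow] at hl
      rw [hM, hWp]; linarith
    have h4 := mul_le_mul_of_nonneg_right h1 (hX0 m hm').le
    have h5 : (1 - o - m * o * w) * P ≤
        H * (q * allQn a b u v + (1 - o - m * o * w) * (u * (b - a))) := by
      refine le_of_mul_le_mul_right ?_ hWp0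
      linarith
    rw [← hm, div_le_iff₀ how]
    have h6 : (1 - o - m * (o * w)) * (P - u * ((b - a) * H)) ≤
        q * C * (P - u * ((b - a) * H)) := by
      rw [mul_assoc q C, eC]; linarith
    have := le_of_mul_le_mul_right h6 (by rw [hPe]; exact hden)
    linarith
  · rw [← hC, V.eq, V.eA, h.ho, h.hw, ← hEe, ← hq, ← hw, ← ho]
    obtain ⟨ho0, hw0⟩ := mul_ne_zero_iff.1 how.ne'
    field_simp
    ring

end Vale.Agent.P100.Calib.StripEnd
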