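import Vale.Agent.P100.Calib.SlabStripEndDataC
import Vale.Agent.P100.Calib.SlabStripEndWindow

/-!
# The windows of the parts of `CA` and `CB`
-/

namespace Vale.Agent.P100.Calib.StripEnd

open Pack StripMid

/-- The windows of `CA1`. -/
theorem endCA1_ok : endCA1.Cert where
  flat := ⟨fun _ _ _ _ => rfl, fun _ _ _ _ => rfl, fun _ _ _ _ => rfl, fun _ _ _ _ => rfl,
    fun _ _ _ _ => rfl, fun _ _ _ _ => rfl⟩
  fits := ⟨by norm_num [endCA1], by norm_num [endCA1], by norm_num [endCA1],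
    by norm_num [endCA1]⟩
  left := ⟨205, 10, 11, 10, 3, by decide +kernel⟩
  right := ⟨181, 9, 9, 8, 3, by decide +kernel⟩
  up := ⟨230, 10, 11, 11, 4, by decide +kernel⟩
  down := ⟨219, 10, 10, 10, 4, by decide +kernel⟩

/-- The windows of `CA2`. -/
theorem endCA2_ok : endCA2.Cert where
  flat := ⟨fun _ _ _ _ => rfl, fun _ _ _ _ => rfl, fun _ _ _ _ => rfl, fun _ _ _ _ => rfl,
    fun _ _ _ _ => rfl, fun _ _ _ _ => rfl⟩
  fits := ⟨by norm_num [endCA2], by norm_num [endCA2], by norm_num [endCA2],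
    by norm_num [endCA2]⟩
  left := ⟨232, 10, 11, 10, 3, by decide +kernel⟩
  right := ⟨203, 9, 9, 8, 3, by decide +kernel⟩
  up := ⟨257, 10, 11, 11, 4, by decide +kernel⟩
  down := ⟨244, 10, 10, 10, 4, by decide +kernel⟩

/-- The windows of `CA3`. -/
theorem endCA3_ok : endCA3.Cert where
  flat := ⟨fun _ _ _ _ => rfl, fun _ _ _ _ => rfl, fun _ _ _ _ => rfl, fun _ _ _ _ => rfl,
    fun _ _ _ _ => rfl, fun _ _ _ _ => rfl⟩
  fits := ⟨by norm_num [endCA3], by norm_num [endCA3], by norm_num [endCA3],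
    by norm_num [endCA3]⟩
  left := ⟨194, 10, 11, 10, 3, by decide +kernel⟩
  right := ⟨172, 9, 9, 8, 3, by decide +kernel⟩
  up := ⟨219, 10, 11, 11, 4, by decide +kernel⟩
  down := ⟨209, 10, 10, 10, 4, by decide +kernel⟩

/-- The windows of `CB1`. -/
theorem endCB1_ok : endCB1.Cert where
  flat := ⟨fun _ _ _ _ => rfl, fun _ _ _ _ => rfl, fun _ _ _ _ => rfl, fun _ _ _ _ => rfl,
    fun _ _ _ _ => rfl, fun _ _ _ _ => rfl⟩
  fits := ⟨by norm_num [endCB1], by norm_num [endCB1], by norm_num [endCB1],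
    by norm_num [endCB1]⟩
  left := ⟨172, 10, 10, 8, 3, by decide +kernel⟩
  right := ⟨158, 10, 8, 7, 3, by decide +kernel⟩
  up := ⟨201, 11, 11, 9, 4, by decide +kernel⟩
  down := ⟨201, 12, 10, 9, 4, by decide +kernel⟩

/-- The windows of `CB2`. -/
theorem endCB2_ok : endCB2.Cert where
  flat := ⟨fun _ _ _ _ => rfl, fun _ _ _ _ => rfl, fun _ _ _ _ => rfl, fun _ _ _ _ => rfl,
    fun _ _ _ _ => rfl, fun _ _ _ _ => rfl⟩
  fits := ⟨by norm_num [endCB2], by norm_num [endCB2], by norm_num [endCB2],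
    by norm_num [endCB2]⟩
  left := ⟨192, 10, 10, 8, 3, by decide +kernel⟩
  right := ⟨175, 10, 8, 7, 3, by decide +kernel⟩
  up := ⟨223, 11, 11, 9, 4, by decide +kernel⟩
  down := ⟨223, 12, 10, 9, 4, by decide +kernel⟩

/-- The windows of `CB3`. -/
theorem endCB3_ok : endCB3.Cert where
  flat := ⟨fun _ _ _ _ => rfl, fun _ _ _ _ => rfl, fun _ _ _ _ => rfl, fun _ _ _ _ => rfl,
    fun _ _ _ _ => rfl, fun _ _ _ _ => rfl⟩
  fits := ⟨by norm_num [endCB3], by norm_num [endCB3], by norm_num [endCB3],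
    by norm_num [endCB3]⟩
  left := ⟨185, 10, 10, 8, 3, by decide +kernel⟩
  right := ⟨173, 10, 8, 7, 3, by decide +kernel⟩
  up := ⟨215, 11, 11, 9, 4, by decide +kernel⟩
  down := ⟨217, 12, 10, 9, 4, by decide +kernel⟩

/-- The windows of `CB4`. -/
theorem endCB4_ok : endCB4.Cert where
  flat := ⟨fun _ _ _ _ => rfl, fun _ _ _ _ => rfl, fun _ _ _ _ => rfl, fun _ _ _ _ => rfl,
    fun _ _ _ _ => rfl, fun _ _ _ _ => rfl⟩
  fits := ⟨by norm_num [endCB4], by norm_num [endCB4], by norm_num [endCB4],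
    by norm_num [endCB4]⟩
  left := ⟨190, 10, 10, 8, 3, by decide +kernel⟩
  right := ⟨176, 10, 8, 7, 3, by decide +kernel⟩
  up := ⟨220, 11, 11, 9, 4, by decide +kernel⟩
  down := ⟨222, 12, 10, 9, 4, by decide +kernel⟩

end Vale.Agent.P100.Calib.StripEnd
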