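import Vale.Agent.P100.Calib.SlabStripEndCertFull
import Vale.Agent.P100.Calib.SlabStripEndSigns
import Vale.Agent.P100.Calib.SlabStripEndWinCheckC

/-!
# The signs over `CA` and `CB` from pieces in the variables `d`, `I / d` and the exit

In a piece `x₀ = d / 24`, `x₁ = I / d`, `x₃ = g` where `a v (w + I + d/2) = g I`, and `den` is a linear
form in `x₀`, `x₀ x₁` plus `x₂`, equal to `(w + I + d/2) / g`.
-/

set_option linter.unusedVariables false

namespace Vale.Agent.P100.Calib.StripEnd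

open Pack hiding ev_add ev_mul
open Pack.Ex Band StripMid

local instance pointCAdd : Add Ex := ⟨Ex.add⟩
local instance pointCSub : Sub Ex := ⟨Ex.sub⟩
local instance pointCMul : Mul Ex := ⟨Ex.mul⟩

/-- A point over `CA` or `CB`: the exit ratio `g` and the pinned `μ`. -/
structure CPt (n : ℕ) (a b u v t H g m : ℝ) : Prop where
  hb : Closed.All.ChartBox n (b - a) (a + b)
  hF : Closed.All.ChartFacts (b - a) (a + b) u v t
  hH : Closed.chH (b - a) (a + b) u v t = H
  hI : 0 < allStabI a b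
  hd : 0 < b - a
  hw : 0 < 1 - u
  eS : a + b = 1 - 2 * allStabI a b
  hI' : allStabI a b ≤ 1 / 20
  side : DHigh a b
  hg : 0 < g
  hgav : a * v * (1 - u + allStabI a b + (b - a) / 2) = g * allStabI a b
  hm : pinC a b u v H * (1 - 2 * allStabI a b - (b - a) + 2 * (b - a) * (a * v)) =
    (1 - 2 * allStabI a b - (b - a)) * (1 - a * v - m * (a * v) * (1 - u))

/-- A piece in these variables. -/
structure ShapeC (P : Piece) (cn c2 : ℕ) : Prop where
  I : ∀ x : ℕ → ℝ, P.I.eval x = 24 * x 0 * x 1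
  d : ∀ x : ℕ → ℝ, P.d.eval x = 24 * x 0
  o : ∀ x : ℕ → ℝ, P.o.eval x = 24 * x 0 * x 1
  den : ∀ x : ℕ → ℝ, P.den.eval x = cn * x 0 + c2 * x 0 * x 1 + x 2
  w : ∀ x : ℕ → ℝ, P.w.eval x = x 3 * P.den.eval x - P.I.eval x - 12 * x 0
  cn : ∀ x : ℕ → ℝ, P.cn.eval x = 1 - P.I.eval x - x 1 * (1 - 2 * P.I.eval x)
  cd : ∀ x : ℕ → ℝ, P.cd.eval x = (1 - 2 * P.I.eval x) ^ 2

/-- The chart of a piece. -/
def Piece.chart (P : Piece) (B : EBox) : EndChart :=
  ⟨P.I, P.d, P.w, P.den, P.o, num 0, B.q₀, B.q₁, B.q₂, (B.q₃.1 - 1, B.q₃.2.1, B.q₃.2.2),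
    P.mu.lo, P.mu.lo, P.mu.lo, P.mu.hi⟩

theorem Piece.over_chart (P : Piece) (B : EBox) : P.Over (P.chart B) :=
  ⟨fun _ => rfl, fun _ => rfl, fun _ => rfl, fun _ => rfl,
    fun x => by simp [Piece.chart, ev_add, ev_mul, Ex.eval], rfl, rfl⟩

/-- The least `g` keeps the last variable positive. -/
theorem den_pos {I d w g cn c2 : ℝ} (hg : 0 < g) (hI : 0 < I)
    (h1 : cn * g * d < 24 * (w + d / 2)) (h2 : c2 * g ≤ 24) :
    0 < (w + I + d / 2) / g - cn * (d / 24) - c2 * (I / 24) := by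
  have e : (w + I + d / 2) / g - cn * (d / 24) - c2 * (I / 24) =
      (24 * (w + d / 2) - cn * g * d + (24 - c2 * g) * I) / (24 * g) := by field_simp; ring
  rw [e]
  exact div_pos (by linarith [mul_nonneg (sub_nonneg.2 h2) hI.le]) (by positivity)

/-- The greatest value of the last variable. -/
theorem den_le {I d w g cn c2 g₀ W : ℝ} (hg : 0 < g₀) (hI : 0 < I) (hd : 0 < d) (hw : 0 < w)
    (hw' : w ≤ W) (h0 : g₀ ≤ g) :
    (w + I + d / 2) / g - cn * (d / 24) - c2 * (I / 24) ≤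
      (W + I + d / 2) / g₀ - cn * (d / 24) - c2 * (I / 24) := by
  have h := div_le_div₀ (c := W + I + d / 2) (by linarith) (show w + I + d / 2 ≤ W + I + d / 2 by linarith)
    hg h0
  linarith

/-- **The signs at a point from a piece.** -/
theorem signs_piece {P : Piece} {B : EBox} {cn c2 n : ℕ} {a b u v t H g m : ℝ}
    (S : ShapeC P cn c2) (hP : P.Pos2)
    (K : ∀ x, B.Mem x → 0 ≤ P.cn.eval x → Place P x ∧ AllChecks P x) (h : CPt n a b u v t H g m)
    (hm0 : (P.mu.lo.1 : ℝ) / P.mu.lo.2 ≤ m) (hm1 : m ≤ (P.mu.hi.1 : ℝ) / P.mu.hi.2)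
    (hd : InU B.q₀ ((b - a) / 24)) (hs : InU B.q₁ (allStabI a b / (b - a)))
    (hy : InU B.q₂ ((1 - u + allStabI a b + (b - a) / 2) / g - cn * ((b - a) / 24) -
      c2 * (allStabI a b / 24)))
    (hg : InR B.q₃ g) : Closed.Strip.ChartSigns (b - a) (a + b) u v t := by
  have hd0 := h.hd
  have hg0 := h.hg
  have hI := h.hI
  obtain ⟨y, hy'⟩ : ∃ y, y = (1 - u + allStabI a b + (b - a) / 2) / g := ⟨_, rfl⟩
  rw [← hy'] at hy
  obtain ⟨x, hx⟩ : ∃ x : ℕ → ℝ, x = pt4 ((b - a) / 24) (allStabI a b / (b - a))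
      (y - cn * ((b - a) / 24) - c2 * (allStabI a b / 24)) g := ⟨_, rfl⟩
  have x0 : x 0 = (b - a) / 24 := by rw [hx]; rfl
  have x1 : x 1 = allStabI a b / (b - a) := by rw [hx]; rfl
  have x2 : x 2 = y - cn * ((b - a) / 24) - c2 * (allStabI a b / 24) := by rw [hx]; rfl
  have x3 : x 3 = g := by rw [hx]; rfl
  have hB : B.Mem x := ⟨by rwa [x0], by rwa [x1], by rwa [x2], by rwa [x3]⟩
  have eI : P.I.eval x = allStabI a b := by rw [S.I, x0, x1]; field_simp
  have ed : P.d.eval x = b - a := by rw [S.d, x0]; ring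
  have eo : P.o.eval x = allStabI a b := by rw [S.o, x0, x1]; field_simp
  have eden : P.den.eval x = y := by rw [S.den, x0, x1, x2]; field_simp; ring
  have ew : P.w.eval x = 1 - u := by
    rw [S.w, eI, eden, x0, x3, hy']; field_simp; ring
  have hw := h.hw
  have hy0 : 0 < y := by rw [hy']; exact div_pos (by linarith) hg0
  have hav : allStabI a b = a * v * y := by
    rw [hy', mul_div_assoc', h.hgav]; field_simp
  have eS : 1 - 2 * allStabI a b = a + b := h.eS.symm
  have hS : 0 < 1 - 2 * allStabI a b := by linarith [h.hI']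
  have hside := h.side
  rw [DHigh, h.eS] at hside
  have ecn : P.cn.eval x =
      ((b - a) * (1 - allStabI a b) - (1 - 2 * allStabI a b) * allStabI a b) / (b - a) := by
    rw [S.cn, eI, x1]; field_simp
  have hcn : 0 ≤ P.cn.eval x := by rw [ecn]; exact div_nonneg (by linarith) hd0.le
  obtain ⟨hp, hA⟩ := K x hB hcn
  refine signs_of_all hP hp hA (P.over_chart B) (a := a) (b := b) (H := H) ?_ h.hb h.hF h.hH ?_
  · refine ⟨⟨hB.h0, hB.h1, hB.h2, ?_, ?_⟩, ⟨eI, ed, ew, ?_, ?_⟩, m, hm0, hm1, ?_⟩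
    · simp only [Piece.chart]; push_cast
      have h3 := hB.h3.2.1
      have : (0 : ℝ) < B.q₃.2.2 := Nat.cast_pos.2 hB.h3.1
      refine lt_of_lt_of_le ?_ h3
      rw [div_lt_div_iff_of_pos_right this]; linarith
    · simpa [Piece.chart] using hB.h3.2.2
    · show 0 < P.den.eval x
      rwa [eden]
    · show (P.o + num 0 * var 3).eval x = a * v * P.den.eval x
      simp only [ev_add, ev_mul, ev_num, eo, eden, ← hav]
      push_cast; ring
    · show pinC a b u v H * (P.chart B).geo.qn.eval x =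
        (P.chart B).geo.A.eval x * (P.den.eval x - (P.o + num 0 * var 3).eval x -
          m * (P.o + num 0 * var 3).eval x * P.w.eval x)
      simp only [Piece.chart, EndChart.geo, Geo.qn, Geo.E, Geo.V, Geo.A, Geo.S, ev_add, ev_sub, ev_mul,
        ev_num, Ex.eval, eI, ed, eo, eden, ew]
      push_cast
      linear_combination y * h.hm + (2 * (b - a) * pinC a b u v H +
        (1 - 2 * allStabI a b - (b - a)) * (1 + m * (1 - u))) * hav
  · rw [eI, ed]
    refine kap_flat hI hd0 hS rfl ?_ ⟨fun hl => ?_, fun _ => ?_⟩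
    · have := eval_A' (P := P) (x := x)
      rw [eI, ed] at this
      linarith
    · have : (b - a) * (1 - allStabI a b) - (1 - 2 * allStabI a b) * allStabI a b = 0 := by linarith
      simp only [kap, ecn, this, zero_div]
    · simp only [kap, ecn, S.cd, eI]
      rw [div_div]; congr 1; ring

end Vale.Agent.P100.Calib.StripEnd
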