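import Vale.Agent.P100.Calib.SlabStripEndCBin

/-!
# The signs from a bin in two pieces of the window
-/

set_option linter.unusedVariables false

namespace Vale.Agent.P100.Calib.StripEndD

open Pack hiding ev_add ev_mul
open Pack.Ex Band StripMid StripEnd

local instance endSevBinAdd : Add Ex := ⟨Ex.add⟩
local instance endSevBinSub : Sub Ex := ⟨Ex.sub⟩
local instance endSevBinMul : Mul Ex := ⟨Ex.mul⟩

/-- What a piece over a chart of the coordinates `(d, I / d, (1 - u) / d, t)` gives. -/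
structure Half (c : EndChart) (P : Piece) (B : StripEnd.EBox) : Prop where
  cert : Cert P B
  lies : P.Over c
  box : B.q₀ = c.q₀ ∧ B.q₁ = c.q₁ ∧ B.q₂ = c.q₂ ∧ 0 < B.q₃.2.2
  pI : P.I = var 0 * var 1
  pd : P.d = var 0
  pcn : P.cn = num 1 - P.I - var 1 * P.S
  pcd : P.cd = P.S * P.S

/-- A chart and two pieces that share its last range, all checked. -/
structure Bin₂ (c : EndChart) (P Q : Piece) (B C : StripEnd.EBox) : Prop where
  ok : c.Cert7
  lo : Half c P B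
  hi : Half c Q C
  ends : (B.q₃.1 : ℝ) / B.q₃.2.2 ≤ (c.q₃.1 : ℝ) / c.q₃.2.2 ∧
    (C.q₃.1 : ℝ) / C.q₃.2.2 ≤ (B.q₃.2.1 : ℝ) / B.q₃.2.2 ∧
    (c.q₃.2.1 : ℝ) / c.q₃.2.2 ≤ (C.q₃.2.1 : ℝ) / C.q₃.2.2
  cI : c.I = var 0 * var 1
  cd : c.d = var 0
  cw : c.w = var 0 * var 2
  cden : c.den = num 100 ∨ c.den = num 1000

variable {c : EndChart} {P Q : Piece} {B C : StripEnd.EBox} {n : ℕ} {a b u v t H : ℝ}

theorem Half.signs (K : Half c P B) (hb : Closed.All.ChartBox n (b - a) (a + b))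
    (hF : Closed.All.ChartFacts (b - a) (a + b) u v t)
    (hH : Closed.chH (b - a) (a + b) u v t = H) (hB : EndBands7 a b u v H) (hk : DHigh a b)
    {x : ℕ → ℝ} (hx : c.Point x a b u v H) (h3 : InR B.q₃ (x 3)) :
    Closed.Strip.ChartSigns (b - a) (a + b) u v t := by
  obtain ⟨hI, hd, -, eS, -⟩ := end_facts7 hB
  obtain ⟨e0, e1, e2, -⟩ := K.box
  have hg := hx.2.1
  have eI' : P.I.eval x = allStabI a b := (K.lies.I x).trans hg.hI
  have ed' : P.d.eval x = b - a := (K.lies.d x).trans hg.hd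
  have hM : B.Mem x := ⟨e0 ▸ hx.1.1, e1 ▸ hx.1.2.1, e2 ▸ hx.1.2.2.1, h3⟩
  have hP := K.cert.place hM (K.lies.vo _)
  refine signs_of_cert K.cert hM K.lies hx hb hF hH ?_
  refine kap_dflat K.pI K.pd K.pcn K.pcd hP ?_ ?_
  · have : x 0 = b - a := by rw [← ed', K.pd]; rfl
    rw [this]; exact hd
  · rw [eval_S, eI', ed', ← eS]
    exact hk

/-- The signs over a bin in two pieces. -/
theorem Bin₂.signs (K : Bin₂ c P Q B C) (hb : Closed.All.ChartBox n (b - a) (a + b))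
    (hF : Closed.All.ChartFacts (b - a) (a + b) u v t)
    (hH : Closed.chH (b - a) (a + b) u v t = H) (hB : EndBands7 a b u v H) (hk : DHigh a b)
    (h0 : InU c.q₀ (b - a)) (h1 : InU c.q₁ (allStabI a b / (b - a)))
    (h2 : InU c.q₂ ((1 - u) / (b - a))) :
    Closed.Strip.ChartSigns (b - a) (a + b) u v t := by
  obtain ⟨hI, hd, hw, eS, -⟩ := end_facts7 hB
  have hn : b - a ≠ 0 := hd.ne'
  obtain ⟨s, hs⟩ := K.ok.point hB h0 h1 h2
    (by rw [K.cI]; simp only [Ex.eval, StripEnd.pt4]; field_simp)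
    (by rw [K.cd]; rfl)
    (by rw [K.cw]; simp only [Ex.eval, StripEnd.pt4]; field_simp)
    (by rcases K.cden with h | h <;> rw [h] <;> simp [Ex.eval])
  obtain ⟨e0, e1, e2⟩ := K.ends
  by_cases h : (StripEnd.pt4 (b - a) (allStabI a b / (b - a)) ((1 - u) / (b - a)) s) 3 <
      (B.q₃.2.1 : ℝ) / B.q₃.2.2
  · exact K.lo.signs hb hF hH hB hk hs
      ⟨K.lo.box.2.2.2, e0.trans hs.1.2.2.2.1.le, h⟩
  · exact K.hi.signs hb hF hH hB hk hs
      ⟨K.hi.box.2.2.2, e1.trans (not_lt.1 h), hs.1.2.2.2.2.trans_le e2⟩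

end Vale.Agent.P100.Calib.StripEndD
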