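import Vale.Agent.P100.Calib.SlabStripEndSevDataJ
import Vale.Agent.P100.Calib.SlabStripEndDCert

/-!
# The checks of the piece `J0a`
-/

namespace Vale.Agent.P100.Calib.StripEndD

open Pack hiding ev_add ev_mul
open Pack.Ex StripMid StripEnd

local instance endSevCJ0aAdd : Add Ex := ⟨Ex.add⟩
local instance endSevCJ0aSub : Sub Ex := ⟨Ex.sub⟩
local instance endSevCJ0aMul : Mul Ex := ⟨Ex.mul⟩

set_option maxRecDepth 4000 in
/-- The checks of the piece `J0a`, one after the other. -/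
theorem sevPcJ0a_cert : Cert sevPcJ0a sevBoxJ0a := by
  have all_g10 : (checkFour sevBoxJ0a.C 225 7 8 0 4 (sevPcJ0a.at ⟨false, false, true, true, false⟩ (c1 false)) &&
      checkFour sevBoxJ0a.C 225 7 8 0 4 (sevPcJ0a.at ⟨false, true, true, true, false⟩ (c1 false)) &&
      checkFour sevBoxJ0a.C 225 7 8 0 4 (sevPcJ0a.at ⟨true, false, true, true, false⟩ (c1 false)) &&
      checkFour sevBoxJ0a.C 225 7 8 0 4 (sevPcJ0a.at ⟨true, true, true, true, false⟩ (c1 false))) = true := by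
    decide +kernel
  have h_g1_f_f_f : Chk sevBoxJ0a.C (sevPcJ0a.at ⟨false, false, true, true, false⟩ (c1 false)) :=
    ⟨225, 7, 8, 0, 4, (Bool.and_eq_true_iff.1 (Bool.and_eq_true_iff.1 (Bool.and_eq_true_iff.1 all_g10).1).1).1⟩
  have h_g1_f_f_t : Chk sevBoxJ0a.C (sevPcJ0a.at ⟨false, true, true, true, false⟩ (c1 false)) :=
    ⟨225, 7, 8, 0, 4, (Bool.and_eq_true_iff.1 (Bool.and_eq_true_iff.1 (Bool.and_eq_true_iff.1 all_g10).1).1).2⟩
  have h_g1_f_t_f : Chk sevBoxJ0a.C (sevPcJ0a.at ⟨true, false, true, true, false⟩ (c1 false)) :=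
    ⟨225, 7, 8, 0, 4, (Bool.and_eq_true_iff.1 (Bool.and_eq_true_iff.1 all_g10).1).2⟩
  have h_g1_f_t_t : Chk sevBoxJ0a.C (sevPcJ0a.at ⟨true, true, true, true, false⟩ (c1 false)) :=
    ⟨225, 7, 8, 0, 4, (Bool.and_eq_true_iff.1 all_g10).2⟩
  have all_g11 : (checkFour sevBoxJ0a.C 228 7 8 0 5 (sevPcJ0a.at ⟨false, false, false, false, false⟩ (c1 true)) &&
      checkFour sevBoxJ0a.C 228 7 8 0 5 (sevPcJ0a.at ⟨false, true, false, false, false⟩ (c1 true)) &&
      checkFour sevBoxJ0a.C 228 7 8 0 5 (sevPcJ0a.at ⟨true, false, false, false, false⟩ (c1 true)) &&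
      checkFour sevBoxJ0a.C 228 7 8 0 5 (sevPcJ0a.at ⟨true, true, false, false, false⟩ (c1 true))) = true := by
    decide +kernel
  have h_g1_t_f_f : Chk sevBoxJ0a.C (sevPcJ0a.at ⟨false, false, false, false, false⟩ (c1 true)) :=
    ⟨228, 7, 8, 0, 5, (Bool.and_eq_true_iff.1 (Bool.and_eq_true_iff.1 (Bool.and_eq_true_iff.1 all_g11).1).1).1⟩
  have h_g1_t_f_t : Chk sevBoxJ0a.C (sevPcJ0a.at ⟨false, true, false, false, false⟩ (c1 true)) :=
    ⟨228, 7, 8, 0, 5, (Bool.and_eq_true_iff.1 (Bool.and_eq_true_iff.1 (Bool.and_eq_true_iff.1 all_g11).1).1).2⟩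
  have h_g1_t_t_f : Chk sevBoxJ0a.C (sevPcJ0a.at ⟨true, false, false, false, false⟩ (c1 true)) :=
    ⟨228, 7, 8, 0, 5, (Bool.and_eq_true_iff.1 (Bool.and_eq_true_iff.1 all_g11).1).2⟩
  have h_g1_t_t_t : Chk sevBoxJ0a.C (sevPcJ0a.at ⟨true, true, false, false, false⟩ (c1 true)) :=
    ⟨228, 7, 8, 0, 5, (Bool.and_eq_true_iff.1 all_g11).2⟩
  have all_g20 : (checkFour sevBoxJ0a.C 622 20 22 0 10 (sevPcJ0a.at ⟨false, false, true, true, false⟩ (StripEnd.strict (c2 false))) &&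
      checkFour sevBoxJ0a.C 622 20 22 0 10 (sevPcJ0a.at ⟨false, true, true, true, false⟩ (StripEnd.strict (c2 false))) &&
      checkFour sevBoxJ0a.C 622 20 22 0 10 (sevPcJ0a.at ⟨true, false, true, true, false⟩ (StripEnd.strict (c2 false))) &&
      checkFour sevBoxJ0a.C 622 20 22 0 10 (sevPcJ0a.at ⟨true, true, true, true, false⟩ (StripEnd.strict (c2 false))) &&
      checkFour sevBoxJ0a.C 622 20 22 0 10 (sevPcJ0a.at ⟨false, false, true, true, false⟩ (StripEnd.strict (c2 true))) &&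
      checkFour sevBoxJ0a.C 622 20 22 0 10 (sevPcJ0a.at ⟨false, true, true, true, false⟩ (StripEnd.strict (c2 true))) &&
      checkFour sevBoxJ0a.C 622 20 22 0 10 (sevPcJ0a.at ⟨true, false, true, true, false⟩ (StripEnd.strict (c2 true))) &&
      checkFour sevBoxJ0a.C 622 20 22 0 10 (sevPcJ0a.at ⟨true, true, true, true, false⟩ (StripEnd.strict (c2 true)))) = true := by
    decide +kernel
  have h_g2_f_f_f_f : Chk sevBoxJ0a.C (sevPcJ0a.at ⟨false, false, true, true, false⟩ (StripEnd.strict (c2 false))) :=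
    ⟨622, 20, 22, 0, 10, (Bool.and_eq_true_iff.1 (Bool.and_eq_true_iff.1 (Bool.and_eq_true_iff.1 (Bool.and_eq_true_iff.1 (Bool.and_eq_true_iff.1 (Bool.and_eq_true_iff.1 (Bool.and_eq_true_iff.1 all_g20).1).1).1).1).1).1).1⟩
  have h_g2_f_f_t_f : Chk sevBoxJ0a.C (sevPcJ0a.at ⟨false, true, true, true, false⟩ (StripEnd.strict (c2 false))) :=
    ⟨622, 20, 22, 0, 10, (Bool.and_eq_true_iff.1 (Bool.and_eq_true_iff.1 (Bool.and_eq_true_iff.1 (Bool.and_eq_true_iff.1 (Bool.and_eq_true_iff.1 (Bool.and_eq_true_iff.1 (Bool.and_eq_true_iff.1 all_g20).1).1).1).1).1).1).2⟩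
  have h_g2_f_t_f_f : Chk sevBoxJ0a.C (sevPcJ0a.at ⟨true, false, true, true, false⟩ (StripEnd.strict (c2 false))) :=
    ⟨622, 20, 22, 0, 10, (Bool.and_eq_true_iff.1 (Bool.and_eq_true_iff.1 (Bool.and_eq_true_iff.1 (Bool.and_eq_true_iff.1 (Bool.and_eq_true_iff.1 (Bool.and_eq_true_iff.1 all_g20).1).1).1).1).1).2⟩
  have h_g2_f_t_t_f : Chk sevBoxJ0a.C (sevPcJ0a.at ⟨true, true, true, true, false⟩ (StripEnd.strict (c2 false))) :=
    ⟨622, 20, 22, 0, 10, (Bool.and_eq_true_iff.1 (Bool.and_eq_true_iff.1 (Bool.and_eq_true_iff.1 (Bool.and_eq_true_iff.1 (Bool.and_eq_true_iff.1 all_g20).1).1).1).1).2⟩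
  have h_g2_t_f_f_f : Chk sevBoxJ0a.C (sevPcJ0a.at ⟨false, false, true, true, false⟩ (StripEnd.strict (c2 true))) :=
    ⟨622, 20, 22, 0, 10, (Bool.and_eq_true_iff.1 (Bool.and_eq_true_iff.1 (Bool.and_eq_true_iff.1 (Bool.and_eq_true_iff.1 all_g20).1).1).1).2⟩
  have h_g2_t_f_t_f : Chk sevBoxJ0a.C (sevPcJ0a.at ⟨false, true, true, true, false⟩ (StripEnd.strict (c2 true))) :=
    ⟨622, 20, 22, 0, 10, (Bool.and_eq_true_iff.1 (Bool.and_eq_true_iff.1 (Bool.and_eq_true_iff.1 all_g20).1).1).2⟩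
  have h_g2_t_t_f_f : Chk sevBoxJ0a.C (sevPcJ0a.at ⟨true, false, true, true, false⟩ (StripEnd.strict (c2 true))) :=
    ⟨622, 20, 22, 0, 10, (Bool.and_eq_true_iff.1 (Bool.and_eq_true_iff.1 all_g20).1).2⟩
  have h_g2_t_t_t_f : Chk sevBoxJ0a.C (sevPcJ0a.at ⟨true, true, true, true, false⟩ (StripEnd.strict (c2 true))) :=
    ⟨622, 20, 22, 0, 10, (Bool.and_eq_true_iff.1 all_g20).2⟩
  have all_g21 : (checkFour sevBoxJ0a.C 626 20 22 0 11 (sevPcJ0a.at ⟨false, false, true, true, true⟩ (StripEnd.strict (c2 false))) &&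
      checkFour sevBoxJ0a.C 626 20 22 0 11 (sevPcJ0a.at ⟨false, true, true, true, true⟩ (StripEnd.strict (c2 false))) &&
      checkFour sevBoxJ0a.C 626 20 22 0 11 (sevPcJ0a.at ⟨true, false, true, true, true⟩ (StripEnd.strict (c2 false))) &&
      checkFour sevBoxJ0a.C 626 20 22 0 11 (sevPcJ0a.at ⟨true, true, true, true, true⟩ (StripEnd.strict (c2 false))) &&
      checkFour sevBoxJ0a.C 626 20 22 0 11 (sevPcJ0a.at ⟨false, false, true, true, true⟩ (StripEnd.strict (c2 true))) &&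
      checkFour sevBoxJ0a.C 626 20 22 0 11 (sevPcJ0a.at ⟨false, true, true, true, true⟩ (StripEnd.strict (c2 true))) &&
      checkFour sevBoxJ0a.C 626 20 22 0 11 (sevPcJ0a.at ⟨true, false, true, true, true⟩ (StripEnd.strict (c2 true))) &&
      checkFour sevBoxJ0a.C 626 20 22 0 11 (sevPcJ0a.at ⟨true, true, true, true, true⟩ (StripEnd.strict (c2 true)))) = true := by
    decide +kernel
  have h_g2_f_f_f_t : Chk sevBoxJ0a.C (sevPcJ0a.at ⟨false, false, true, true, true⟩ (StripEnd.strict (c2 false))) :=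
    ⟨626, 20, 22, 0, 11, (Bool.and_eq_true_iff.1 (Bool.and_eq_true_iff.1 (Bool.and_eq_true_iff.1 (Bool.and_eq_true_iff.1 (Bool.and_eq_true_iff.1 (Bool.and_eq_true_iff.1 (Bool.and_eq_true_iff.1 all_g21).1).1).1).1).1).1).1⟩
  have h_g2_f_f_t_t : Chk sevBoxJ0a.C (sevPcJ0a.at ⟨false, true, true, true, true⟩ (StripEnd.strict (c2 false))) :=
    ⟨626, 20, 22, 0, 11, (Bool.and_eq_true_iff.1 (Bool.and_eq_true_iff.1 (Bool.and_eq_true_iff.1 (Bool.and_eq_true_iff.1 (Bool.and_eq_true_iff.1 (Bool.and_eq_true_iff.1 (Bool.and_eq_true_iff.1 all_g21).1).1).1).1).1).1).2⟩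
  have h_g2_f_t_f_t : Chk sevBoxJ0a.C (sevPcJ0a.at ⟨true, false, true, true, true⟩ (StripEnd.strict (c2 false))) :=
    ⟨626, 20, 22, 0, 11, (Bool.and_eq_true_iff.1 (Bool.and_eq_true_iff.1 (Bool.and_eq_true_iff.1 (Bool.and_eq_true_iff.1 (Bool.and_eq_true_iff.1 (Bool.and_eq_true_iff.1 all_g21).1).1).1).1).1).2⟩
  have h_g2_f_t_t_t : Chk sevBoxJ0a.C (sevPcJ0a.at ⟨true, true, true, true, true⟩ (StripEnd.strict (c2 false))) :=
    ⟨626, 20, 22, 0, 11, (Bool.and_eq_true_iff.1 (Bool.and_eq_true_iff.1 (Bool.and_eq_true_iff.1 (Bool.and_eq_true_iff.1 (Bool.and_eq_true_iff.1 all_g21).1).1).1).1).2⟩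
  have h_g2_t_f_f_t : Chk sevBoxJ0a.C (sevPcJ0a.at ⟨false, false, true, true, true⟩ (StripEnd.strict (c2 true))) :=
    ⟨626, 20, 22, 0, 11, (Bool.and_eq_true_iff.1 (Bool.and_eq_true_iff.1 (Bool.and_eq_true_iff.1 (Bool.and_eq_true_iff.1 all_g21).1).1).1).2⟩
  have h_g2_t_f_t_t : Chk sevBoxJ0a.C (sevPcJ0a.at ⟨false, true, true, true, true⟩ (StripEnd.strict (c2 true))) :=
    ⟨626, 20, 22, 0, 11, (Bool.and_eq_true_iff.1 (Bool.and_eq_true_iff.1 (Bool.and_eq_true_iff.1 all_g21).1).1).2⟩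
  have h_g2_t_t_f_t : Chk sevBoxJ0a.C (sevPcJ0a.at ⟨true, false, true, true, true⟩ (StripEnd.strict (c2 true))) :=
    ⟨626, 20, 22, 0, 11, (Bool.and_eq_true_iff.1 (Bool.and_eq_true_iff.1 all_g21).1).2⟩
  have h_g2_t_t_t_t : Chk sevBoxJ0a.C (sevPcJ0a.at ⟨true, true, true, true, true⟩ (StripEnd.strict (c2 true))) :=
    ⟨626, 20, 22, 0, 11, (Bool.and_eq_true_iff.1 all_g21).2⟩
  have all_g50 : (checkFour sevBoxJ0a.C 611 18 20 0 9 (sevPcJ0a.at ⟨false, false, true, true, false⟩ (StripEnd.strict (c5 false))) &&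
      checkFour sevBoxJ0a.C 611 18 20 0 9 (sevPcJ0a.at ⟨false, true, true, true, false⟩ (StripEnd.strict (c5 false))) &&
      checkFour sevBoxJ0a.C 611 18 20 0 9 (sevPcJ0a.at ⟨true, false, true, true, false⟩ (StripEnd.strict (c5 false))) &&
      checkFour sevBoxJ0a.C 611 18 20 0 9 (sevPcJ0a.at ⟨true, true, true, true, false⟩ (StripEnd.strict (c5 false))) &&
      checkFour sevBoxJ0a.C 611 18 20 0 9 (sevPcJ0a.at ⟨false, false, true, true, false⟩ (StripEnd.strict (c5 true))) &&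
      checkFour sevBoxJ0a.C 611 18 20 0 9 (sevPcJ0a.at ⟨false, true, true, true, false⟩ (StripEnd.strict (c5 true))) &&
      checkFour sevBoxJ0a.C 611 18 20 0 9 (sevPcJ0a.at ⟨true, false, true, true, false⟩ (StripEnd.strict (c5 true))) &&
      checkFour sevBoxJ0a.C 611 18 20 0 9 (sevPcJ0a.at ⟨true, true, true, true, false⟩ (StripEnd.strict (c5 true)))) = true := by
    decide +kernel
  have h_g5_f_f_f_f : Chk sevBoxJ0a.C (sevPcJ0a.at ⟨false, false, true, true, false⟩ (StripEnd.strict (c5 false))) :=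
    ⟨611, 18, 20, 0, 9, (Bool.and_eq_true_iff.1 (Bool.and_eq_true_iff.1 (Bool.and_eq_true_iff.1 (Bool.and_eq_true_iff.1 (Bool.and_eq_true_iff.1 (Bool.and_eq_true_iff.1 (Bool.and_eq_true_iff.1 all_g50).1).1).1).1).1).1).1⟩
  have h_g5_f_f_t_f : Chk sevBoxJ0a.C (sevPcJ0a.at ⟨false, true, true, true, false⟩ (StripEnd.strict (c5 false))) :=
    ⟨611, 18, 20, 0, 9, (Bool.and_eq_true_iff.1 (Bool.and_eq_true_iff.1 (Bool.and_eq_true_iff.1 (Bool.and_eq_true_iff.1 (Bool.and_eq_true_iff.1 (Bool.and_eq_true_iff.1 (Bool.and_eq_true_iff.1 all_g50).1).1).1).1).1).1).2⟩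
  have h_g5_f_t_f_f : Chk sevBoxJ0a.C (sevPcJ0a.at ⟨true, false, true, true, false⟩ (StripEnd.strict (c5 false))) :=
    ⟨611, 18, 20, 0, 9, (Bool.and_eq_true_iff.1 (Bool.and_eq_true_iff.1 (Bool.and_eq_true_iff.1 (Bool.and_eq_true_iff.1 (Bool.and_eq_true_iff.1 (Bool.and_eq_true_iff.1 all_g50).1).1).1).1).1).2⟩
  have h_g5_f_t_t_f : Chk sevBoxJ0a.C (sevPcJ0a.at ⟨true, true, true, true, false⟩ (StripEnd.strict (c5 false))) :=
    ⟨611, 18, 20, 0, 9, (Bool.and_eq_true_iff.1 (Bool.and_eq_true_iff.1 (Bool.and_eq_true_iff.1 (Bool.and_eq_true_iff.1 (Bool.and_eq_true_iff.1 all_g50).1).1).1).1).2⟩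
  have h_g5_t_f_f_f : Chk sevBoxJ0a.C (sevPcJ0a.at ⟨false, false, true, true, false⟩ (StripEnd.strict (c5 true))) :=
    ⟨611, 18, 20, 0, 9, (Bool.and_eq_true_iff.1 (Bool.and_eq_true_iff.1 (Bool.and_eq_true_iff.1 (Bool.and_eq_true_iff.1 all_g50).1).1).1).2⟩
  have h_g5_t_f_t_f : Chk sevBoxJ0a.C (sevPcJ0a.at ⟨false, true, true, true, false⟩ (StripEnd.strict (c5 true))) :=
    ⟨611, 18, 20, 0, 9, (Bool.and_eq_true_iff.1 (Bool.and_eq_true_iff.1 (Bool.and_eq_true_iff.1 all_g50).1).1).2⟩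
  have h_g5_t_t_f_f : Chk sevBoxJ0a.C (sevPcJ0a.at ⟨true, false, true, true, false⟩ (StripEnd.strict (c5 true))) :=
    ⟨611, 18, 20, 0, 9, (Bool.and_eq_true_iff.1 (Bool.and_eq_true_iff.1 all_g50).1).2⟩
  have h_g5_t_t_t_f : Chk sevBoxJ0a.C (sevPcJ0a.at ⟨true, true, true, true, false⟩ (StripEnd.strict (c5 true))) :=
    ⟨611, 18, 20, 0, 9, (Bool.and_eq_true_iff.1 all_g50).2⟩
  have all_g51 : (checkFour sevBoxJ0a.C 614 18 20 0 10 (sevPcJ0a.at ⟨false, false, true, true, true⟩ (StripEnd.strict (c5 false))) &&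
      checkFour sevBoxJ0a.C 614 18 20 0 10 (sevPcJ0a.at ⟨false, true, true, true, true⟩ (StripEnd.strict (c5 false))) &&
      checkFour sevBoxJ0a.C 614 18 20 0 10 (sevPcJ0a.at ⟨true, false, true, true, true⟩ (StripEnd.strict (c5 false))) &&
      checkFour sevBoxJ0a.C 614 18 20 0 10 (sevPcJ0a.at ⟨true, true, true, true, true⟩ (StripEnd.strict (c5 false))) &&
      checkFour sevBoxJ0a.C 614 18 20 0 10 (sevPcJ0a.at ⟨false, false, true, true, true⟩ (StripEnd.strict (c5 true))) &&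
      checkFour sevBoxJ0a.C 614 18 20 0 10 (sevPcJ0a.at ⟨false, true, true, true, true⟩ (StripEnd.strict (c5 true))) &&
      checkFour sevBoxJ0a.C 614 18 20 0 10 (sevPcJ0a.at ⟨true, false, true, true, true⟩ (StripEnd.strict (c5 true))) &&
      checkFour sevBoxJ0a.C 614 18 20 0 10 (sevPcJ0a.at ⟨true, true, true, true, true⟩ (StripEnd.strict (c5 true)))) = true := by
    decide +kernel
  have h_g5_f_f_f_t : Chk sevBoxJ0a.C (sevPcJ0a.at ⟨false, false, true, true, true⟩ (StripEnd.strict (c5 false))) :=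
    ⟨614, 18, 20, 0, 10, (Bool.and_eq_true_iff.1 (Bool.and_eq_true_iff.1 (Bool.and_eq_true_iff.1 (Bool.and_eq_true_iff.1 (Bool.and_eq_true_iff.1 (Bool.and_eq_true_iff.1 (Bool.and_eq_true_iff.1 all_g51).1).1).1).1).1).1).1⟩
  have h_g5_f_f_t_t : Chk sevBoxJ0a.C (sevPcJ0a.at ⟨false, true, true, true, true⟩ (StripEnd.strict (c5 false))) :=
    ⟨614, 18, 20, 0, 10, (Bool.and_eq_true_iff.1 (Bool.and_eq_true_iff.1 (Bool.and_eq_true_iff.1 (Bool.and_eq_true_iff.1 (Bool.and_eq_true_iff.1 (Bool.and_eq_true_iff.1 (Bool.and_eq_true_iff.1 all_g51).1).1).1).1).1).1).2⟩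
  have h_g5_f_t_f_t : Chk sevBoxJ0a.C (sevPcJ0a.at ⟨true, false, true, true, true⟩ (StripEnd.strict (c5 false))) :=
    ⟨614, 18, 20, 0, 10, (Bool.and_eq_true_iff.1 (Bool.and_eq_true_iff.1 (Bool.and_eq_true_iff.1 (Bool.and_eq_true_iff.1 (Bool.and_eq_true_iff.1 (Bool.and_eq_true_iff.1 all_g51).1).1).1).1).1).2⟩
  have h_g5_f_t_t_t : Chk sevBoxJ0a.C (sevPcJ0a.at ⟨true, true, true, true, true⟩ (StripEnd.strict (c5 false))) :=
    ⟨614, 18, 20, 0, 10, (Bool.and_eq_true_iff.1 (Bool.and_eq_true_iff.1 (Bool.and_eq_true_iff.1 (Bool.and_eq_true_iff.1 (Bool.and_eq_true_iff.1 all_g51).1).1).1).1).2⟩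
  have h_g5_t_f_f_t : Chk sevBoxJ0a.C (sevPcJ0a.at ⟨false, false, true, true, true⟩ (StripEnd.strict (c5 true))) :=
    ⟨614, 18, 20, 0, 10, (Bool.and_eq_true_iff.1 (Bool.and_eq_true_iff.1 (Bool.and_eq_true_iff.1 (Bool.and_eq_true_iff.1 all_g51).1).1).1).2⟩
  have h_g5_t_f_t_t : Chk sevBoxJ0a.C (sevPcJ0a.at ⟨false, true, true, true, true⟩ (StripEnd.strict (c5 true))) :=
    ⟨614, 18, 20, 0, 10, (Bool.and_eq_true_iff.1 (Bool.and_eq_true_iff.1 (Bool.and_eq_true_iff.1 all_g51).1).1).2⟩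
  have h_g5_t_t_f_t : Chk sevBoxJ0a.C (sevPcJ0a.at ⟨true, false, true, true, true⟩ (StripEnd.strict (c5 true))) :=
    ⟨614, 18, 20, 0, 10, (Bool.and_eq_true_iff.1 (Bool.and_eq_true_iff.1 all_g51).1).2⟩
  have h_g5_t_t_t_t : Chk sevBoxJ0a.C (sevPcJ0a.at ⟨true, true, true, true, true⟩ (StripEnd.strict (c5 true))) :=
    ⟨614, 18, 20, 0, 10, (Bool.and_eq_true_iff.1 all_g51).2⟩
  have all_gMG0 : (checkFour sevBoxJ0a.C 490 17 19 0 8 (sevPcJ0a.at ⟨false, false, true, false, false⟩ tplMG) &&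
      checkFour sevBoxJ0a.C 490 17 19 0 8 (sevPcJ0a.at ⟨false, false, true, false, true⟩ tplMG) &&
      checkFour sevBoxJ0a.C 490 17 19 0 8 (sevPcJ0a.at ⟨false, true, true, false, false⟩ tplMG) &&
      checkFour sevBoxJ0a.C 490 17 19 0 8 (sevPcJ0a.at ⟨false, true, true, false, true⟩ tplMG) &&
      checkFour sevBoxJ0a.C 490 17 19 0 8 (sevPcJ0a.at ⟨true, false, true, false, false⟩ tplMG) &&
      checkFour sevBoxJ0a.C 490 17 19 0 8 (sevPcJ0a.at ⟨true, false, true, false, true⟩ tplMG) &&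
      checkFour sevBoxJ0a.C 490 17 19 0 8 (sevPcJ0a.at ⟨true, true, true, false, false⟩ tplMG) &&
      checkFour sevBoxJ0a.C 490 17 19 0 8 (sevPcJ0a.at ⟨true, true, true, false, true⟩ tplMG)) = true := by
    decide +kernel
  have h_gMG_f_f_f : Chk sevBoxJ0a.C (sevPcJ0a.at ⟨false, false, true, false, false⟩ tplMG) :=
    ⟨490, 17, 19, 0, 8, (Bool.and_eq_true_iff.1 (Bool.and_eq_true_iff.1 (Bool.and_eq_true_iff.1 (Bool.and_eq_true_iff.1 (Bool.and_eq_true_iff.1 (Bool.and_eq_true_iff.1 (Bool.and_eq_true_iff.1 all_gMG0).1).1).1).1).1).1).1⟩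
  have h_gMG_f_f_t : Chk sevBoxJ0a.C (sevPcJ0a.at ⟨false, false, true, false, true⟩ tplMG) :=
    ⟨490, 17, 19, 0, 8, (Bool.and_eq_true_iff.1 (Bool.and_eq_true_iff.1 (Bool.and_eq_true_iff.1 (Bool.and_eq_true_iff.1 (Bool.and_eq_true_iff.1 (Bool.and_eq_true_iff.1 (Bool.and_eq_true_iff.1 all_gMG0).1).1).1).1).1).1).2⟩
  have h_gMG_f_t_f : Chk sevBoxJ0a.C (sevPcJ0a.at ⟨false, true, true, false, false⟩ tplMG) :=
    ⟨490, 17, 19, 0, 8, (Bool.and_eq_true_iff.1 (Bool.and_eq_true_iff.1 (Bool.and_eq_true_iff.1 (Bool.and_eq_true_iff.1 (Bool.and_eq_true_iff.1 (Bool.and_eq_true_iff.1 all_gMG0).1).1).1).1).1).2⟩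
  have h_gMG_f_t_t : Chk sevBoxJ0a.C (sevPcJ0a.at ⟨false, true, true, false, true⟩ tplMG) :=
    ⟨490, 17, 19, 0, 8, (Bool.and_eq_true_iff.1 (Bool.and_eq_true_iff.1 (Bool.and_eq_true_iff.1 (Bool.and_eq_true_iff.1 (Bool.and_eq_true_iff.1 all_gMG0).1).1).1).1).2⟩
  have h_gMG_t_f_f : Chk sevBoxJ0a.C (sevPcJ0a.at ⟨true, false, true, false, false⟩ tplMG) :=
    ⟨490, 17, 19, 0, 8, (Bool.and_eq_true_iff.1 (Bool.and_eq_true_iff.1 (Bool.and_eq_true_iff.1 (Bool.and_eq_true_iff.1 all_gMG0).1).1).1).2⟩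
  have h_gMG_t_f_t : Chk sevBoxJ0a.C (sevPcJ0a.at ⟨true, false, true, false, true⟩ tplMG) :=
    ⟨490, 17, 19, 0, 8, (Bool.and_eq_true_iff.1 (Bool.and_eq_true_iff.1 (Bool.and_eq_true_iff.1 all_gMG0).1).1).2⟩
  have h_gMG_t_t_f : Chk sevBoxJ0a.C (sevPcJ0a.at ⟨true, true, true, false, false⟩ tplMG) :=
    ⟨490, 17, 19, 0, 8, (Bool.and_eq_true_iff.1 (Bool.and_eq_true_iff.1 all_gMG0).1).2⟩
  have h_gMG_t_t_t : Chk sevBoxJ0a.C (sevPcJ0a.at ⟨true, true, true, false, true⟩ tplMG) :=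
    ⟨490, 17, 19, 0, 8, (Bool.and_eq_true_iff.1 all_gMG0).2⟩
  have all_gap0 : (checkFour sevBoxJ0a.C 481 22 21 3 6 (sevPcJ0a.gap false false) &&
      checkFour sevBoxJ0a.C 481 22 21 3 6 (sevPcJ0a.gap false true) &&
      checkFour sevBoxJ0a.C 481 22 21 3 6 (sevPcJ0a.gap true false) &&
      checkFour sevBoxJ0a.C 481 22 21 3 6 (sevPcJ0a.gap true true)) = true := by
    decide +kernel
  have h_gap_f_f : Chk sevBoxJ0a.C (sevPcJ0a.gap false false) :=
    ⟨481, 22, 21, 3, 6, (Bool.and_eq_true_iff.1 (Bool.and_eq_true_iff.1 (Bool.and_eq_true_iff.1 all_gap0).1).1).1⟩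
  have h_gap_f_t : Chk sevBoxJ0a.C (sevPcJ0a.gap false true) :=
    ⟨481, 22, 21, 3, 6, (Bool.and_eq_true_iff.1 (Bool.and_eq_true_iff.1 (Bool.and_eq_true_iff.1 all_gap0).1).1).2⟩
  have h_gap_t_f : Chk sevBoxJ0a.C (sevPcJ0a.gap true false) :=
    ⟨481, 22, 21, 3, 6, (Bool.and_eq_true_iff.1 (Bool.and_eq_true_iff.1 all_gap0).1).2⟩
  have h_gap_t_t : Chk sevBoxJ0a.C (sevPcJ0a.gap true true) :=
    ⟨481, 22, 21, 3, 6, (Bool.and_eq_true_iff.1 all_gap0).2⟩
  have h_kn : Chk sevBoxJ0a.C sevPcJ0a.kn :=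
    ⟨48, 2, 2, 0, 2, by decide +kernel⟩
  have h_sgns_I : Chk sevBoxJ0a.C (strictVar (sevPcJ0a.posF .I)) :=
    ⟨154, 3, 3, 3, 0, by decide +kernel⟩
  have h_sgns_d : Chk sevBoxJ0a.C (strictVar (sevPcJ0a.posF .d)) :=
    ⟨155, 3, 3, 3, 0, by decide +kernel⟩
  have h_sgns_A : Chk sevBoxJ0a.C (strictVar (sevPcJ0a.posF .A)) :=
    ⟨158, 3, 3, 3, 0, by decide +kernel⟩
  have h_sgns_S : Chk sevBoxJ0a.C (strictVar (sevPcJ0a.posF .S)) :=
    ⟨158, 3, 3, 3, 0, by decide +kernel⟩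
  have h_sgns_U : Chk sevBoxJ0a.C (strictVar (sevPcJ0a.posF .U)) :=
    ⟨157, 3, 3, 3, 0, by decide +kernel⟩
  have h_sgns_den : Chk sevBoxJ0a.C (strictVar (sevPcJ0a.posF .den)) :=
    ⟨164, 3, 3, 3, 0, by decide +kernel⟩
  have h_sgns_o : Chk sevBoxJ0a.C (strictVar (sevPcJ0a.posF .o)) :=
    ⟨167, 3, 3, 3, 1, by decide +kernel⟩
  have h_sgns_olt : Chk sevBoxJ0a.C (strictVar (sevPcJ0a.posF .olt)) :=
    ⟨168, 3, 3, 3, 1, by decide +kernel⟩
  have h_sgns_pd : Chk sevBoxJ0a.C (strictVar (sevPcJ0a.posF .pd)) :=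
    ⟨173, 3, 3, 3, 0, by decide +kernel⟩
  have h_sgns_e0 : Chk sevBoxJ0a.C (strictVar (sevPcJ0a.posF .e0)) :=
    ⟨186, 3, 3, 3, 1, by decide +kernel⟩
  have h_sgns_f0 : Chk sevBoxJ0a.C (strictVar (sevPcJ0a.posF .f0)) :=
    ⟨182, 3, 3, 3, 0, by decide +kernel⟩
  have h_sgns_wd : Chk sevBoxJ0a.C (strictVar (sevPcJ0a.posF .wd)) :=
    ⟨167, 3, 3, 3, 0, by decide +kernel⟩
  have h_sgns_td : Chk sevBoxJ0a.C (strictVar (sevPcJ0a.posF .td)) :=
    ⟨180, 3, 3, 3, 0, by decide +kernel⟩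
  have h_sgns_cd : Chk sevBoxJ0a.C (strictVar (sevPcJ0a.posF .cd)) :=
    ⟨158, 3, 3, 3, 0, by decide +kernel⟩
  have h_sgns_kd : Chk sevBoxJ0a.C (strictVar (sevPcJ0a.posF .kd)) :=
    ⟨164, 3, 3, 3, 0, by decide +kernel⟩
  have h_k2n : Chk sevBoxJ0a.C (strictVar sevPcJ0a.k2n) :=
    ⟨172, 3, 3, 3, 2, by decide +kernel⟩
  have h_k2d : Chk sevBoxJ0a.C (strictVar sevPcJ0a.k2d) :=
    ⟨164, 3, 3, 3, 0, by decide +kernel⟩
  have h_vs : Chk sevBoxJ0a.C (strictVar sevPcJ0a.vs) :=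
    ⟨157, 3, 3, 3, 0, by decide +kernel⟩
  have h_v2_f : Chk sevBoxJ0a.C (sevPcJ0a.at ⟨false, false, true, true, false⟩ (curve2 false)) :=
    ⟨135, 5, 5, 0, 5, by decide +kernel⟩
  have h_v2_t : Chk sevBoxJ0a.C (sevPcJ0a.at ⟨false, false, true, true, false⟩ (curve2 true)) :=
    ⟨135, 5, 5, 0, 5, by decide +kernel⟩
  have h_v5_f : Chk sevBoxJ0a.C (sevPcJ0a.at ⟨false, false, true, true, false⟩ (curve5 false)) :=
    ⟨149, 6, 6, 0, 5, by decide +kernel⟩
  have h_v5_t : Chk sevBoxJ0a.C (sevPcJ0a.at ⟨false, false, true, true, false⟩ (curve5 true)) :=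
    ⟨149, 6, 6, 0, 5, by decide +kernel⟩
  have h_vMG : Chk sevBoxJ0a.C (sevPcJ0a.at ⟨false, false, true, true, false⟩ Piece.curveMG) :=
    ⟨122, 5, 5, 0, 4, by decide +kernel⟩
  have h_wP_f_f : Chk sevBoxJ0a.C (sevPcJ0a.winP false false) :=
    ⟨76, 2, 2, 1, 1, by decide +kernel⟩
  have h_wP_f_t : Chk sevBoxJ0a.C (sevPcJ0a.winP false true) :=
    ⟨76, 2, 2, 1, 1, by decide +kernel⟩
  have h_wP_t_f : Chk sevBoxJ0a.C (sevPcJ0a.winP true false) :=
    ⟨76, 2, 2, 1, 1, by decide +kernel⟩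
  have h_wP_t_t : Chk sevBoxJ0a.C (sevPcJ0a.winP true true) :=
    ⟨76, 2, 2, 1, 1, by decide +kernel⟩
  have h_wE_f_f : Chk sevBoxJ0a.C (sevPcJ0a.winE false false) :=
    ⟨263, 11, 11, 2, 3, by decide +kernel⟩
  have h_wE_f_t : Chk sevBoxJ0a.C (sevPcJ0a.winE false true) :=
    ⟨263, 11, 11, 2, 3, by decide +kernel⟩
  have h_wE_t_f : Chk sevBoxJ0a.C (sevPcJ0a.winE true false) :=
    ⟨263, 11, 11, 2, 3, by decide +kernel⟩
  have h_wE_t_t : Chk sevBoxJ0a.C (sevPcJ0a.winE true true) :=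
    ⟨263, 11, 11, 2, 3, by decide +kernel⟩
  have h_wK_f_f : Chk sevBoxJ0a.C (sevPcJ0a.winK false false) :=
    ⟨250, 12, 10, 2, 2, by decide +kernel⟩
  have h_wK_f_t : Chk sevBoxJ0a.C (sevPcJ0a.winK false true) :=
    ⟨253, 12, 10, 2, 3, by decide +kernel⟩
  have h_wK_t_f : Chk sevBoxJ0a.C (sevPcJ0a.winK true false) :=
    ⟨250, 12, 10, 2, 2, by decide +kernel⟩
  have h_wK_t_t : Chk sevBoxJ0a.C (sevPcJ0a.winK true true) :=
    ⟨253, 12, 10, 2, 3, by decide +kernel⟩
  have h_wW_f : Chk sevBoxJ0a.C (sevPcJ0a.winW false) :=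
    ⟨189, 8, 7, 2, 3, by decide +kernel⟩
  have h_wW_t : Chk sevBoxJ0a.C (sevPcJ0a.winW true) :=
    ⟨189, 8, 7, 2, 3, by decide +kernel⟩
  have h_wY_f : Chk sevBoxJ0a.C (sevPcJ0a.winY false) :=
    ⟨401, 17, 16, 3, 5, by decide +kernel⟩
  have h_wY_t : Chk sevBoxJ0a.C (sevPcJ0a.winY true) :=
    ⟨401, 17, 16, 3, 5, by decide +kernel⟩
  have h_wT_f_f : Chk sevBoxJ0a.C (sevPcJ0a.winT false false) :=
    ⟨168, 6, 5, 2, 3, by decide +kernel⟩
  have h_wT_f_t : Chk sevBoxJ0a.C (sevPcJ0a.winT false true) :=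
    ⟨187, 7, 6, 2, 4, by decide +kernel⟩
  have h_wT_t_f : Chk sevBoxJ0a.C (sevPcJ0a.winT true false) :=
    ⟨168, 6, 5, 2, 3, by decide +kernel⟩
  have h_wT_t_t : Chk sevBoxJ0a.C (sevPcJ0a.winT true true) :=
    ⟨187, 7, 6, 2, 4, by decide +kernel⟩
  exact { pos := ⟨⟨by norm_num [sevPcJ0a], by norm_num [sevPcJ0a]⟩⟩
          low := by norm_num [sevBoxJ0a]
          kn := h_kn
          sgns := fun
            | .I => h_sgns_I
            | .d => h_sgns_d
            | .A => h_sgns_A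
            | .S => h_sgns_S
            | .U => h_sgns_U
            | .den => h_sgns_den
            | .o => h_sgns_o
            | .olt => h_sgns_olt
            | .pd => h_sgns_pd
            | .e0 => h_sgns_e0
            | .f0 => h_sgns_f0
            | .wd => h_sgns_wd
            | .td => h_sgns_td
            | .cd => h_sgns_cd
            | .kd => h_sgns_kd
          k2n := h_k2n
          k2d := h_k2d
          vs := h_vs
          g1 := fun
            | false, false, false => h_g1_f_f_f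
            | false, false, true => h_g1_f_f_t
            | false, true, false => h_g1_f_t_f
            | false, true, true => h_g1_f_t_t
            | true, false, false => h_g1_t_f_f
            | true, false, true => h_g1_t_f_t
            | true, true, false => h_g1_t_t_f
            | true, true, true => h_g1_t_t_t
          g2 := fun
            | false, false, false, false => h_g2_f_f_f_f
            | false, false, false, true => h_g2_f_f_f_t
            | false, false, true, false => h_g2_f_f_t_f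
            | false, false, true, true => h_g2_f_f_t_t
            | false, true, false, false => h_g2_f_t_f_f
            | false, true, false, true => h_g2_f_t_f_t
            | false, true, true, false => h_g2_f_t_t_f
            | false, true, true, true => h_g2_f_t_t_t
            | true, false, false, false => h_g2_t_f_f_f
            | true, false, false, true => h_g2_t_f_f_t
            | true, false, true, false => h_g2_t_f_t_f
            | true, false, true, true => h_g2_t_f_t_t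
            | true, true, false, false => h_g2_t_t_f_f
            | true, true, false, true => h_g2_t_t_f_t
            | true, true, true, false => h_g2_t_t_t_f
            | true, true, true, true => h_g2_t_t_t_t
          g5 := fun
            | false, false, false, false => h_g5_f_f_f_f
            | false, false, false, true => h_g5_f_f_f_t
            | false, false, true, false => h_g5_f_f_t_f
            | false, false, true, true => h_g5_f_f_t_t
            | false, true, false, false => h_g5_f_t_f_f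
            | false, true, false, true => h_g5_f_t_f_t
            | false, true, true, false => h_g5_f_t_t_f
            | false, true, true, true => h_g5_f_t_t_t
            | true, false, false, false => h_g5_t_f_f_f
            | true, false, false, true => h_g5_t_f_f_t
            | true, false, true, false => h_g5_t_f_t_f
            | true, false, true, true => h_g5_t_f_t_t
            | true, true, false, false => h_g5_t_t_f_f
            | true, true, false, true => h_g5_t_t_f_t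
            | true, true, true, false => h_g5_t_t_t_f
            | true, true, true, true => h_g5_t_t_t_t
          gMG := fun
            | false, false, false => h_gMG_f_f_f
            | false, false, true => h_gMG_f_f_t
            | false, true, false => h_gMG_f_t_f
            | false, true, true => h_gMG_f_t_t
            | true, false, false => h_gMG_t_f_f
            | true, false, true => h_gMG_t_f_t
            | true, true, false => h_gMG_t_t_f
            | true, true, true => h_gMG_t_t_t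
          v2 := fun
            | false => h_v2_f
            | true => h_v2_t
          v5 := fun
            | false => h_v5_f
            | true => h_v5_t
          vMG := h_vMG
          wP := fun
            | false, false => h_wP_f_f
            | false, true => h_wP_f_t
            | true, false => h_wP_t_f
            | true, true => h_wP_t_t
          wE := fun
            | false, false => h_wE_f_f
            | false, true => h_wE_f_t
            | true, false => h_wE_t_f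
            | true, true => h_wE_t_t
          wK := fun
            | false, false => h_wK_f_f
            | false, true => h_wK_f_t
            | true, false => h_wK_t_f
            | true, true => h_wK_t_t
          wW := fun
            | false => h_wW_f
            | true => h_wW_t
          wY := fun
            | false => h_wY_f
            | true => h_wY_t
          wT := fun
            | false, false => h_wT_f_f
            | false, true => h_wT_f_t
            | true, false => h_wT_t_f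
            | true, true => h_wT_t_t
          gap := fun
            | false, false => h_gap_f_f
            | false, true => h_gap_f_t
            | true, false => h_gap_t_f
            | true, true => h_gap_t_t
        }

end Vale.Agent.P100.Calib.StripEndD
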