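import Vale.Agent.P100.Calib.SlabStripEndDExpr
import Vale.Agent.P100.Calib.SlabStripEndCert
import Vale.Agent.P100.Calib.SlabStripEndChart

/-!
# The bins `B` of the `D` region for `N` between seven and twenty

`x = (d, I / d, (1 - u) / d, t)`, with `v` affine in `t`.
-/

namespace Vale.Agent.P100.Calib.StripEndD

open Pack hiding ev_add ev_mul
open Pack.Ex StripMid StripEnd

local instance endSevDataBAdd : Add Ex := ⟨Ex.add⟩
local instance endSevDataBSub : Sub Ex := ⟨Ex.sub⟩
local instance endSevDataBMul : Mul Ex := ⟨Ex.mul⟩

/-- The chart of the bin `B0`. -/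
def sevBinB0 : EndChart where
  I := var 0 * var 1
  d := var 0
  w := var 0 * var 2
  den := num 100
  n₀ := (num 1 - num 2 * (var 0 * var 1) - var 0) * ((num 28) * var 1 + (num 121) * var 0 + num 17)
  n₁ := (num 1 - num 2 * (var 0 * var 1) - var 0) * ((num 103) * var 1 + (num 120) * var 0 + num (-46))
  q₀ := (5, 9, 100)
  q₁ := (4, 5, 5)
  q₂ := (0, 3, 1000)
  q₃ := (0, 1, 1)
  t₀ := (0, 1)
  t₁ := (1, 1)
  mu₀ := (208, 100)
  mu₁ := (273, 100)

/-- The piece `B0a`. -/
def sevPcB0a : Piece where
  I := var 0 * var 1
  d := var 0
  w := var 0 * var 2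
  o := sevBinB0.n₀ + sevBinB0.n₁ * var 3
  den := num 100
  vn := num 2 * (((num 103) * var 1 + (num 120) * var 0 + num (-46)) * var 3 + (num 28) * var 1 + (num 121) * var 0 + num 17)
  vs := num 1
  mu := ⟨(208, 100), (273, 100)⟩
  pn := fun b => cond b
    ((((((num 168714) * var 0 + num 20600000) * var 0) * var 1 + (((num 196560) * var 0 + num 24009009) * var 0 + num 1015643) * var 0 + num (-10300000)) * var 1 + (((num 98280) * var 0 + num 11864046) * var 0 + num (-16562326)) * var 0 + num 4600000) * var 3 + ((((num 45864) * var 0 + num 5600000) * var 0) * var 1 + (((num 198198) * var 0 + num 24250778) * var 0 + num 6177068) * var 0 + num (-2800000)) * var 1 + (((num 99099) * var 0 + num 12014824) * var 0 + num (-10413923)) * var 0 + num 8300000)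
    (((((num 20600000) * var 0) * var 1 + ((num 24000000) * var 0 + num 1100000) * var 0 + num (-10300000)) * var 1 + ((num 12000000) * var 0 + num (-16600000)) * var 0 + num 4600000) * var 3 + (((num 5600000) * var 0) * var 1 + ((num 24200000) * var 0 + num 6200000) * var 0 + num (-2800000)) * var 1 + ((num 12100000) * var 0 + num (-10400000)) * var 0 + num 8300000)
  pd := num 100000
  en := fun b => cond b
    (((((num 2068000) * var 0) * var 1) * var 3 + (((num (-1422784000)) * var 0) * var 1 + ((num 641080000) * var 0 + num 433246000) * var 0) * var 1 + num 353628) * var 3 + (((num (-187154000)) * var 0) * var 1 + ((num 1654400000) * var 0 + num 1127060000) * var 0) * var 1 + (num 12451428) * var 0 + num 1414512)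
    (((((num 1954000) * var 0) * var 1) * var 3 + (((num (-1344352000)) * var 0) * var 1 + ((num 605740000) * var 0 + num 409363000) * var 0) * var 1) * var 3 + (((num (-176837000)) * var 0) * var 1 + ((num 1563200000) * var 0 + num 1064930000) * var 0) * var 1)
  kk := fun b => cond b
    (((num 141450) * var 0) * var 3 + ((num (-98400)) * var 0) * var 1 + ((num 18997350) * var 0 + num 974775) * var 0)
    (num 0)
  f0 := num 100000000
  wn := fun b => cond b
    ((((((num (-16480)) * var 0 * var 0) * var 1 + (((num (-19200)) * var 0 + num 11150) * var 0 + num 8240) * var 0) * var 1 + (((num (-9600)) * var 0 + num 13280) * var 0 + num (-3680)) * var 0) * var 1) * var 3 + ((((num (-4480)) * var 0 * var 0) * var 1 + (((num (-44370)) * var 0 + num (-5023)) * var 0 + num 2240) * var 0) * var 1 + (((num (-9680)) * var 0 + num 320) * var 0 + num (-6640)) * var 0) * var 1)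
    ((((((num (-16480)) * var 0 * var 0) * var 1 + (((num (-19200)) * var 0 + num 11150) * var 0 + num 8240) * var 0) * var 1 + (((num (-9600)) * var 0 + num 13280) * var 0 + num (-3680)) * var 0) * var 1) * var 3 + ((((num (-4480)) * var 0 * var 0) * var 1 + (((num (-44370)) * var 0 + num (-6795)) * var 0 + num 2240) * var 0) * var 1 + (((num (-9680)) * var 0 + num 320) * var 0 + num (-6640)) * var 0) * var 1)
  wd := num 1000
  tn := fun b => cond b
    (((num 10983) * var 1 + num (-3138)) * var 3 + (num 3138) * var 1 + (num 56484) * var 0 + num 155331)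
    (num 0)
  td := ((num (-70500000)) * var 1 + num 20000000) * var 3 + (num (-17000000)) * var 1 + (num 29500000) * var 0 + num 70500000
  cn := num 1 - var 0 * var 1 - var 1 * (num 1 - num 2 * (var 0 * var 1))
  cd := (num 1 - num 2 * (var 0 * var 1)) * (num 1 - num 2 * (var 0 * var 1))
  kn := var 0 * var 1 * ((((num 176247) * var 1 + num (-434329)) * var 3 + (num 116571) * var 1 + (num 2148459) * var 0 + num (-559559)) * var 3 + ((num 16922) * var 1 + (num (-2075338)) * var 0 + num 148988) * var 1 + (num (-3552187)) * var 0 + num 657376)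
  kd := ((num (-14100)) * var 1 + num 4000) * var 3 + (num (-3400)) * var 1 + (num 5900) * var 0 + num 14100
  k2n := (((num 1579) * var 0) * var 3 + ((num (-10291)) * var 0) * var 1 + (num 6435) * var 0) * var 3 + ((num 7166) * var 0) * var 1 + ((num (-8234)) * var 0 + num (-3779)) * var 0
  k2d := num 100

/-- Its ranges. -/
def sevBoxB0a : EBox :=
  ⟨(5, 9, 100), (4, 5, 5), (0, 3, 1000), (0, 3, 5)⟩

/-- The piece `B0b`. -/
def sevPcB0b : Piece where
  I := var 0 * var 1
  d := var 0
  w := var 0 * var 2
  o := sevBinB0.n₀ + sevBinB0.n₁ * var 3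
  den := num 100
  vn := num 2 * (((num 103) * var 1 + (num 120) * var 0 + num (-46)) * var 3 + (num 28) * var 1 + (num 121) * var 0 + num 17)
  vs := num 1
  mu := ⟨(208, 100), (273, 100)⟩
  pn := fun b => cond b
    ((((((num 168714) * var 0 + num 20600000) * var 0) * var 1 + (((num 196560) * var 0 + num 24009009) * var 0 + num 1015643) * var 0 + num (-10300000)) * var 1 + (((num 98280) * var 0 + num 11864046) * var 0 + num (-16562326)) * var 0 + num 4600000) * var 3 + ((((num 45864) * var 0 + num 5600000) * var 0) * var 1 + (((num 198198) * var 0 + num 24250778) * var 0 + num 6177068) * var 0 + num (-2800000)) * var 1 + (((num 99099) * var 0 + num 12014824) * var 0 + num (-10413923)) * var 0 + num 8300000)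
    (((((num 20600000) * var 0) * var 1 + ((num 24000000) * var 0 + num 1100000) * var 0 + num (-10300000)) * var 1 + ((num 12000000) * var 0 + num (-16600000)) * var 0 + num 4600000) * var 3 + (((num 5600000) * var 0) * var 1 + ((num 24200000) * var 0 + num 6200000) * var 0 + num (-2800000)) * var 1 + ((num 12100000) * var 0 + num (-10400000)) * var 0 + num 8300000)
  pd := num 100000
  en := fun b => cond b
    (((((num 8920000) * var 0) * var 1) * var 3 + (((num (-1532010000)) * var 0) * var 1 + ((num 1312355000) * var 0 + num 409205000) * var 0) * var 1 + num 498405) * var 3 + (((num (-219655000)) * var 0) * var 1 + ((num 1406015000) * var 0 + num 1264410000) * var 0) * var 1 + (num 6626445) * var 0 + num 1742745)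
    (((((num 7072000) * var 0) * var 1) * var 3 + (((num (-1214616000)) * var 0) * var 1 + ((num 1040468000) * var 0 + num 324428000) * var 0) * var 1) * var 3 + (((num (-174148000)) * var 0) * var 1 + ((num 1114724000) * var 0 + num 1002456000) * var 0) * var 1)
  kk := fun b => cond b
    (((num 135432) * var 0) * var 3 + ((num 18468) * var 0) * var 1 + ((num 20394828) * var 0 + num 781812) * var 0)
    (num 0)
  f0 := num 100000000
  wn := fun b => cond b
    ((((((num (-16480)) * var 0 * var 0) * var 1 + (((num (-19200)) * var 0 + num 6510) * var 0 + num 8240) * var 0) * var 1 + (((num (-9600)) * var 0 + num 13280) * var 0 + num (-3680)) * var 0) * var 1) * var 3 + ((((num (-4480)) * var 0 * var 0) * var 1 + (((num (-34220)) * var 0 + num (-3494)) * var 0 + num 2240) * var 0) * var 1 + (((num (-9680)) * var 0 + num 320) * var 0 + num (-6640)) * var 0) * var 1)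
    ((((((num (-16480)) * var 0 * var 0) * var 1 + (((num (-19200)) * var 0 + num 6510) * var 0 + num 8240) * var 0) * var 1 + (((num (-9600)) * var 0 + num 13280) * var 0 + num (-3680)) * var 0) * var 1) * var 3 + ((((num (-4480)) * var 0 * var 0) * var 1 + (((num (-34220)) * var 0 + num (-4129)) * var 0 + num 2240) * var 0) * var 1 + (((num (-9680)) * var 0 + num 320) * var 0 + num (-6640)) * var 0) * var 1)
  wd := num 1000
  tn := fun b => cond b
    (((num (-5751)) * var 1 + num 5325) * var 3 + (num 5112) * var 1 + (num 426) * var 0 + num 17466)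
    (num 0)
  td := ((num (-6500000)) * var 1 + num 1650000) * var 3 + (num (-2100000)) * var 1 + (num 6350000) * var 0 + num 7050000
  cn := num 1 - var 0 * var 1 - var 1 * (num 1 - num 2 * (var 0 * var 1))
  cd := (num 1 - num 2 * (var 0 * var 1)) * (num 1 - num 2 * (var 0 * var 1))
  kn := var 0 * var 1 * ((((num 28785859) * var 1 + num (-19226504)) * var 3 + (num (-38414702)) * var 1 + (num 11353483) * var 0 + num 24573807) * var 3 + ((num 1286506) * var 1 + (num (-4881542)) * var 0 + num 10921647) * var 1 + (num (-3255591)) * var 0 + num (-6888878))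
  kd := ((num (-13000)) * var 1 + num 3300) * var 3 + (num (-4200)) * var 1 + (num 12700) * var 0 + num 14100
  k2n := (((num 1806) * var 0) * var 3 + ((num (-2571)) * var 0) * var 1 + (num (-2143)) * var 0) * var 3 + ((num 3091) * var 0) * var 1 + ((num (-877)) * var 0 + num 231) * var 0
  k2d := num 100

/-- Its ranges. -/
def sevBoxB0b : EBox :=
  ⟨(5, 9, 100), (4, 5, 5), (0, 3, 1000), (3, 5, 5)⟩

/-- The chart of the bin `B1`. -/
def sevBinB1 : EndChart where
  I := var 0 * var 1
  d := var 0
  w := var 0 * var 2
  den := num 100
  n₀ := (num 1 - num 2 * (var 0 * var 1) - var 0) * ((num 31) * var 1 + (num 127) * var 0 + num 13)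
  n₁ := (num 1 - num 2 * (var 0 * var 1) - var 0) * ((num 90) * var 1 + (num 116) * var 0 + num (-36))
  q₀ := (5, 9, 100)
  q₁ := (4, 5, 5)
  q₂ := (3, 10, 1000)
  q₃ := (0, 1, 1)
  t₀ := (0, 1)
  t₁ := (1, 1)
  mu₀ := (207, 100)
  mu₁ := (271, 100)

/-- The piece `B1a`. -/
def sevPcB1a : Piece where
  I := var 0 * var 1
  d := var 0
  w := var 0 * var 2
  o := sevBinB1.n₀ + sevBinB1.n₁ * var 3
  den := num 100
  vn := num 2 * (((num 90) * var 1 + (num 116) * var 0 + num (-36)) * var 3 + (num 31) * var 1 + (num 127) * var 0 + num 13)
  vs := num 1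
  mu := ⟨(207, 100), (271, 100)⟩
  pn := fun b => cond b
    ((((((num 487800) * var 0 + num 18000000) * var 0) * var 1 + (((num 628720) * var 0 + num 23248780) * var 0 + num 1556100) * var 0 + num (-9000000)) * var 1 + (((num 314360) * var 0 + num 11188080) * var 0 + num (-15102440)) * var 0 + num 3600000) * var 3 + ((((num 168020) * var 0 + num 6200000) * var 0) * var 1 + (((num 688340) * var 0 + num 25554470) * var 0 + num 5615990) * var 0 + num (-3100000)) * var 1 + (((num 344170) * var 0 + num 12391060) * var 0 + num (-11435230)) * var 0 + num 8700000)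
    ((((((num 111780) * var 0 + num 18000000) * var 0) * var 1 + (((num 144072) * var 0 + num 23211178) * var 0 + num 1744110) * var 0 + num (-9000000)) * var 1 + (((num 72036) * var 0 + num 11505608) * var 0 + num (-15177644)) * var 0 + num 3600000) * var 3 + ((((num 38502) * var 0 + num 6200000) * var 0) * var 1 + (((num 157734) * var 0 + num 25435397) * var 0 + num 5680749) * var 0 + num (-3100000)) * var 1 + (((num 78867) * var 0 + num 12629206) * var 0 + num (-11408073)) * var 0 + num 8700000)
  pd := num 100000
  en := fun b => cond b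
    (((((num 3090000) * var 0) * var 1) * var 3 + (((num (-1220550000)) * var 0) * var 1 + ((num 691130000) * var 0 + num 277070000) * var 0) * var 1 + num 751900) * var 3 + (((num (-231750000)) * var 0) * var 1 + ((num 1631520000) * var 0 + num 1177290000) * var 0) * var 1 + (num 50748100) * var 0 + num 4192100)
    (((((num 2937000) * var 0) * var 1) * var 3 + (((num (-1160115000)) * var 0) * var 1 + ((num 656909000) * var 0 + num 263351000) * var 0) * var 1 + num 214401) * var 3 + (((num (-220275000)) * var 0) * var 1 + ((num 1550736000) * var 0 + num 1118997000) * var 0) * var 1 + (num 14470599) * var 0 + num 1195359)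
  kk := fun b => cond b
    (((num 460800) * var 0) * var 3 + ((num (-337920)) * var 0) * var 1 + ((num 62996480) * var 0 + num 3256320) * var 0)
    (((num 131490) * var 0) * var 3 + ((num (-96426)) * var 0) * var 1 + ((num 17976144) * var 0 + num 929196) * var 0)
  f0 := num 100000000
  wn := fun b => cond b
    ((((((num (-14400000)) * var 0 * var 0) * var 1 + (((num (-18560000)) * var 0 + num 10618400) * var 0 + num 7200000) * var 0) * var 1 + (((num (-9307840)) * var 0 + num 12092410) * var 0 + num (-2869200)) * var 0) * var 1 + (((num (-13920)) * var 0 + num 18240) * var 0 + num (-4320)) * var 0) * var 3 + ((((num (-4960000)) * var 0 * var 0) * var 1 + (((num (-45550000)) * var 0 + num (-5030440)) * var 0 + num 2480000) * var 0) * var 1 + (((num (-9333950)) * var 0 + num 1169911) * var 0 + num (-6956280)) * var 0) * var 1 + (((num (-15240)) * var 0 + num 13680) * var 0 + num 1560) * var 0)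
    ((((((num (-14400000)) * var 0 * var 0) * var 1 + (((num (-18560000)) * var 0 + num 10618400) * var 0 + num 7200000) * var 0) * var 1 + (((num (-9307840)) * var 0 + num 12092410) * var 0 + num (-2869200)) * var 0) * var 1 + (((num (-13920)) * var 0 + num 18240) * var 0 + num (-4320)) * var 0) * var 3 + ((((num (-4960000)) * var 0 * var 0) * var 1 + (((num (-45550000)) * var 0 + num (-6579440)) * var 0 + num 2480000) * var 0) * var 1 + (((num (-9333950)) * var 0 + num 1165264) * var 0 + num (-6956280)) * var 0) * var 1 + (((num (-15240)) * var 0 + num 13680) * var 0 + num 1560) * var 0)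
  wd := num 1000000
  tn := fun b => cond b
    (((num 41600) * var 1) * var 3 + (num 20800) * var 1 + (num 364000) * var 0 + num 1019200)
    (((num 11244) * var 1) * var 3 + (num 5622) * var 1 + (num 98385) * var 0 + num 275478)
  td := ((num (-121000000)) * var 1 + num 25000000) * var 3 + (num (-39000000)) * var 1 + (num 41000000) * var 0 + num 148000000
  cn := num 1 - var 0 * var 1 - var 1 * (num 1 - num 2 * (var 0 * var 1))
  cd := (num 1 - num 2 * (var 0 * var 1)) * (num 1 - num 2 * (var 0 * var 1))
  kn := var 0 * var 1 * ((((num 78774) * var 1 + num (-283473)) * var 3 + (num 206497) * var 1 + (num 922471) * var 0 + num (-481426)) * var 3 + ((num (-33502)) * var 1 + (num (-2203374)) * var 0 + num 222450) * var 1 + (num (-2860876)) * var 0 + num 581677)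
  kd := ((num (-12100)) * var 1 + num 2500) * var 3 + (num (-3900)) * var 1 + (num 4100) * var 0 + num 14800
  k2n := (((num 1283) * var 0) * var 3 + ((num (-9295)) * var 0) * var 1 + (num 5882) * var 0) * var 3 + ((num 6458) * var 0) * var 1 + ((num (-6665)) * var 0 + num (-3459)) * var 0
  k2d := num 100

/-- Its ranges. -/
def sevBoxB1a : EBox :=
  ⟨(5, 9, 100), (4, 5, 5), (3, 10, 1000), (0, 3, 5)⟩

/-- The piece `B1b`. -/
def sevPcB1b : Piece where
  I := var 0 * var 1
  d := var 0
  w := var 0 * var 2
  o := sevBinB1.n₀ + sevBinB1.n₁ * var 3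
  den := num 100
  vn := num 2 * (((num 90) * var 1 + (num 116) * var 0 + num (-36)) * var 3 + (num 31) * var 1 + (num 127) * var 0 + num 13)
  vs := num 1
  mu := ⟨(207, 100), (271, 100)⟩
  pn := fun b => cond b
    ((((((num 487800) * var 0 + num 18000000) * var 0) * var 1 + (((num 628720) * var 0 + num 23248780) * var 0 + num 1556100) * var 0 + num (-9000000)) * var 1 + (((num 314360) * var 0 + num 11188080) * var 0 + num (-15102440)) * var 0 + num 3600000) * var 3 + ((((num 168020) * var 0 + num 6200000) * var 0) * var 1 + (((num 688340) * var 0 + num 25554470) * var 0 + num 5615990) * var 0 + num (-3100000)) * var 1 + (((num 344170) * var 0 + num 12391060) * var 0 + num (-11435230)) * var 0 + num 8700000)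
    ((((((num 111780) * var 0 + num 18000000) * var 0) * var 1 + (((num 144072) * var 0 + num 23211178) * var 0 + num 1744110) * var 0 + num (-9000000)) * var 1 + (((num 72036) * var 0 + num 11505608) * var 0 + num (-15177644)) * var 0 + num 3600000) * var 3 + ((((num 38502) * var 0 + num 6200000) * var 0) * var 1 + (((num 157734) * var 0 + num 25435397) * var 0 + num 5680749) * var 0 + num (-3100000)) * var 1 + (((num 78867) * var 0 + num 12629206) * var 0 + num (-11408073)) * var 0 + num 8700000)
  pd := num 100000
  en := fun b => cond b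
    (((((num 12960000) * var 0) * var 1) * var 3 + (((num (-1266840000)) * var 0) * var 1 + ((num 1064880000) * var 0 + num 234360000) * var 0) * var 1 + num 972000) * var 3 + (((num (-266760000)) * var 0) * var 1 + ((num 1572480000) * var 0 + num 1276560000) * var 0) * var 1 + (num 41115600) * var 0 + num 4903200)
    (((((num 11460000) * var 0) * var 1) * var 3 + (((num (-1120215000)) * var 0) * var 1 + ((num 941630000) * var 0 + num 207235000) * var 0) * var 1 + num 257850) * var 3 + (((num (-235885000)) * var 0) * var 1 + ((num 1390480000) * var 0 + num 1128810000) * var 0) * var 1 + (num 10907055) * var 0 + num 1300710)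
  kk := fun b => cond b
    (((num 430920) * var 0) * var 3 + ((num (-10260)) * var 0) * var 1 + ((num 67541580) * var 0 + num 2677860) * var 0)
    (((num 122724) * var 0) * var 3 + ((num (-2922)) * var 0) * var 1 + ((num 19235526) * var 0 + num 762642) * var 0)
  f0 := num 100000000
  wn := fun b => cond b
    ((((((num (-7200000)) * var 0 * var 0) * var 1 + (((num (-9280000)) * var 0 + num 3039200) * var 0 + num 3600000) * var 0) * var 1 + (((num (-4653920)) * var 0 + num 6105050) * var 0 + num (-1434600)) * var 0) * var 1 + (((num (-6960)) * var 0 + num 9120) * var 0 + num (-2160)) * var 0) * var 3 + ((((num (-2480000)) * var 0 * var 0) * var 1 + (((num (-18170000)) * var 0 + num (-1769720)) * var 0 + num 1240000) * var 0) * var 1 + (((num (-4637485)) * var 0 + num 558797) * var 0 + num (-3478140)) * var 0) * var 1 + (((num (-7620)) * var 0 + num 6840) * var 0 + num 780) * var 0)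
    ((((((num (-7200000)) * var 0 * var 0) * var 1 + (((num (-9280000)) * var 0 + num 3039200) * var 0 + num 3600000) * var 0) * var 1 + (((num (-4653920)) * var 0 + num 6105050) * var 0 + num (-1434600)) * var 0) * var 1 + (((num (-6960)) * var 0 + num 9120) * var 0 + num (-2160)) * var 0) * var 3 + ((((num (-2480000)) * var 0 * var 0) * var 1 + (((num (-18170000)) * var 0 + num (-2044720)) * var 0 + num 1240000) * var 0) * var 1 + (((num (-4637485)) * var 0 + num 557972) * var 0 + num (-3478140)) * var 0) * var 1 + (((num (-7620)) * var 0 + num 6840) * var 0 + num 780) * var 0)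
  wd := num 500000
  tn := fun b => cond b
    (((num (-11840)) * var 1 + num 47360) * var 3 + (num 94720) * var 1 + (num 201280) * var 0 + num 1124800)
    (((num (-2517)) * var 1 + num 10068) * var 3 + (num 20136) * var 1 + (num 42789) * var 0 + num 239115)
  td := ((num (-112000000)) * var 1 + num 19000000) * var 3 + (num (-46000000)) * var 1 + (num 107000000) * var 0 + num 149000000
  cn := num 1 - var 0 * var 1 - var 1 * (num 1 - num 2 * (var 0 * var 1))
  cd := (num 1 - num 2 * (var 0 * var 1)) * (num 1 - num 2 * (var 0 * var 1))
  kn := var 0 * var 1 * ((((num 37351064) * var 1 + num (-27774389)) * var 3 + (num (-53497707)) * var 1 + (num 21933826) * var 0 + num 38090648) * var 3 + ((num 2901038) * var 1 + (num (-20156815)) * var 0 + num 15616501) * var 1 + (num (-2908305)) * var 0 + num (-11405678))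
  kd := ((num (-11200)) * var 1 + num 1900) * var 3 + (num (-4600)) * var 1 + (num 10700) * var 0 + num 14900
  k2n := (((num 1491) * var 0) * var 3 + ((num (-2660)) * var 0) * var 1 + (num (-1388)) * var 0) * var 3 + ((num 2955) * var 0) * var 1 + ((num (-687)) * var 0 + num (-45)) * var 0
  k2d := num 100

/-- Its ranges. -/
def sevBoxB1b : EBox :=
  ⟨(5, 9, 100), (4, 5, 5), (3, 10, 1000), (3, 5, 5)⟩

/-- The chart of the bin `B2`. -/
def sevBinB2 : EndChart where
  I := var 0 * var 1
  d := var 0
  w := var 0 * var 2
  den := num 100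
  n₀ := (num 1 - num 2 * (var 0 * var 1) - var 0) * ((num 31) * var 1 + (num 122) * var 0 + num 12)
  n₁ := (num 1 - num 2 * (var 0 * var 1) - var 0) * ((num 78) * var 1 + (num 124) * var 0 + num (-27))
  q₀ := (5, 9, 100)
  q₁ := (4, 5, 5)
  q₂ := (1, 3, 100)
  q₃ := (0, 1, 1)
  t₀ := (0, 1)
  t₁ := (1, 1)
  mu₀ := (207, 100)
  mu₁ := (269, 100)

/-- The piece `B2a`. -/
def sevPcB2a : Piece where
  I := var 0 * var 1
  d := var 0
  w := var 0 * var 2
  o := sevBinB2.n₀ + sevBinB2.n₁ * var 3
  den := num 100
  vn := num 2 * (((num 78) * var 1 + (num 124) * var 0 + num (-27)) * var 3 + (num 31) * var 1 + (num 122) * var 0 + num 12)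
  vs := num 1
  mu := ⟨(207, 100), (269, 100)⟩
  pn := fun b => cond b
    ((((((num 125892) * var 0 + num 1560000) * var 0) * var 1 + (((num 200136) * var 0 + num 2499368) * var 0 + num 177054) * var 0 + num (-780000)) * var 1 + (((num 100068) * var 0 + num 1118143) * var 0 + num (-1488211)) * var 0 + num 270000) * var 3 + ((((num 50034) * var 0 + num 620000) * var 0) * var 1 + (((num 196908) * var 0 + num 2484385) * var 0 + num 524983) * var 0 + num (-310000)) * var 1 + (((num 98454) * var 0 + num 1131230) * var 0 + num (-1109684)) * var 0 + num 880000)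
    ((((((num 32292) * var 0 + num 1560000) * var 0) * var 1 + (((num 51336) * var 0 + num 2484968) * var 0 + num 223854) * var 0 + num (-780000)) * var 1 + (((num 25668) * var 0 + num 1208743) * var 0 + num (-1504411)) * var 0 + num 270000) * var 3 + ((((num 12834) * var 0 + num 620000) * var 0) * var 1 + (((num 50508) * var 0 + num 2451385) * var 0 + num 543583) * var 0 + num (-310000)) * var 1 + (((num 25254) * var 0 + num 1197230) * var 0 + num (-1102484)) * var 0 + num 880000)
  pd := num 10000
  en := fun b => cond b
    (((((num 209200) * var 0) * var 1) * var 3 + (((num (-104913800)) * var 0) * var 1 + ((num 78450000) * var 0 + num 12342800) * var 0) * var 1 + num 163176) * var 3 + (((num (-24058000)) * var 0) * var 1 + ((num 156900000) * var 0 + num 122695800) * var 0) * var 1 + (num 19330080) * var 0 + num 1032402)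
    (((((num 192600) * var 0) * var 1) * var 3 + (((num (-96588900)) * var 0) * var 1 + ((num 72225000) * var 0 + num 11363400) * var 0) * var 1 + num 50076) * var 3 + (((num (-22149000)) * var 0) * var 1 + ((num 144450000) * var 0 + num 112959900) * var 0) * var 1 + (num 5932080) * var 0 + num 316827)
  kk := fun b => cond b
    (((num 133128) * var 0) * var 3 + ((num (-77400)) * var 0) * var 1 + ((num 19464552) * var 0 + num 928800) * var 0)
    (((num 41667) * var 0) * var 3 + ((num (-24225)) * var 0) * var 1 + ((num 6092103) * var 0 + num 290700) * var 0)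
  f0 := num 10000000
  wn := fun b => cond b
    ((((((num (-1248000)) * var 0 * var 0) * var 1 + (((num (-1984000)) * var 0 + num 838760) * var 0 + num 624000) * var 0) * var 1 + (((num (-1001920)) * var 0 + num 1220470) * var 0 + num (-212880)) * var 0) * var 1 + (((num (-4960)) * var 0 + num 6040) * var 0 + num (-1080)) * var 0) * var 3 + ((((num (-496000)) * var 0 * var 0) * var 1 + (((num (-3939000)) * var 0 + num (-504280)) * var 0 + num 248000) * var 0) * var 1 + (((num (-999170)) * var 0 + num 102962) * var 0 + num (-702760)) * var 0) * var 1 + (((num (-4880)) * var 0 + num 4400) * var 0 + num 480) * var 0)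
    ((((((num (-1248000)) * var 0 * var 0) * var 1 + (((num (-1984000)) * var 0 + num 838760) * var 0 + num 624000) * var 0) * var 1 + (((num (-1001920)) * var 0 + num 1220470) * var 0 + num (-212880)) * var 0) * var 1 + (((num (-4960)) * var 0 + num 6040) * var 0 + num (-1080)) * var 0) * var 3 + ((((num (-496000)) * var 0 * var 0) * var 1 + (((num (-3939000)) * var 0 + num (-727380)) * var 0 + num 248000) * var 0) * var 1 + (((num (-999170)) * var 0 + num 100731) * var 0 + num (-702760)) * var 0) * var 1 + (((num (-4880)) * var 0 + num 4400) * var 0 + num 480) * var 0)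
  wd := num 100000
  tn := fun b => cond b
    (((num 15120) * var 1 + num (-6720)) * var 3 + (num 5040) * var 1 + (num 35280) * var 0 + num 166320)
    (((num 3969) * var 1 + num (-1764)) * var 3 + (num 1323) * var 1 + (num 9261) * var 0 + num 43659)
  td := ((num (-5000000)) * var 1 + num 450000) * var 3 + (num (-2000000)) * var 1 + (num 2800000) * var 0 + num 7600000
  cn := num 1 - var 0 * var 1 - var 1 * (num 1 - num 2 * (var 0 * var 1))
  cd := (num 1 - num 2 * (var 0 * var 1)) * (num 1 - num 2 * (var 0 * var 1))
  kn := var 0 * var 1 * ((((num 7047464) * var 1 + num (-5437183)) * var 3 + (num (-3299448)) * var 1 + (num 303219) * var 0 + num 2285558) * var 3 + ((num (-7042)) * var 1 + (num (-4250651)) * var 0 + num 788564) * var 1 + (num (-1347704)) * var 0 + num 315829)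
  kd := ((num (-10000)) * var 1 + num 900) * var 3 + (num (-4000)) * var 1 + (num 5600) * var 0 + num 15200
  k2n := (((num 953) * var 0) * var 3 + ((num (-5117)) * var 0) * var 1 + (num 2251) * var 0) * var 3 + ((num 4579) * var 0) * var 1 + ((num (-2556)) * var 0 + num (-2192)) * var 0
  k2d := num 100

/-- Its ranges. -/
def sevBoxB2a : EBox :=
  ⟨(5, 9, 100), (4, 5, 5), (1, 3, 100), (0, 1, 1)⟩

/-- The chart of the bin `B3`. -/
def sevBinB3 : EndChart where
  I := var 0 * var 1
  d := var 0
  w := var 0 * var 2
  den := num 100
  n₀ := (num 1 - num 2 * (var 0 * var 1) - var 0) * ((num 29) * var 1 + (num 112) * var 0 + num 14)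
  n₁ := (num 1 - num 2 * (var 0 * var 1) - var 0) * ((num 68) * var 1 + (num 102) * var 0 + num (-23))
  q₀ := (5, 9, 100)
  q₁ := (4, 5, 5)
  q₂ := (15, 21, 500)
  q₃ := (0, 1, 1)
  t₀ := (0, 1)
  t₁ := (1, 1)
  mu₀ := (207, 100)
  mu₁ := (265, 100)

/-- The piece `B3a`. -/
def sevPcB3a : Piece where
  I := var 0 * var 1
  d := var 0
  w := var 0 * var 2
  o := sevBinB3.n₀ + sevBinB3.n₁ * var 3
  den := num 100
  vn := num 2 * (((num 68) * var 1 + (num 102) * var 0 + num (-23)) * var 3 + (num 29) * var 1 + (num 112) * var 0 + num 14)
  vs := num 1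
  mu := ⟨(207, 100), (265, 100)⟩
  pn := fun b => cond b
    ((((((num 151368) * var 0 + num 1360000) * var 0) * var 1 + (((num 227052) * var 0 + num 2064486) * var 0 + num 144316) * var 0 + num (-680000)) * var 1 + (((num 113526) * var 0 + num 880875) * var 0 + num (-1224401)) * var 0 + num 230000) * var 3 + ((((num 64554) * var 0 + num 580000) * var 0) * var 1 + (((num 249312) * var 0 + num 2303441) * var 0 + num 537723) * var 0 + num (-290000)) * var 1 + (((num 124656) * var 0 + num 1010926) * var 0 + num (-995582)) * var 0 + num 860000)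
    ((((((num 84456) * var 0 + num 1360000) * var 0) * var 1 + (((num 126684) * var 0 + num 2053662) * var 0 + num 177772) * var 0 + num (-680000)) * var 1 + (((num 63342) * var 0 + num 942375) * var 0 + num (-1235717)) * var 0 + num 230000) * var 3 + ((((num 36018) * var 0 + num 580000) * var 0) * var 1 + (((num 139104) * var 0 + num 2275397) * var 0 + num 551991) * var 0 + num (-290000)) * var 1 + (((num 69552) * var 0 + num 1059142) * var 0 + num (-988694)) * var 0 + num 860000)
  pd := num 10000
  en := fun b => cond b
    ((((num (-353419500)) * var 0) * var 1 + num 2339127) * var 3 + (((num (-370596000)) * var 0) * var 1 + ((num 1406391000) * var 0 + num 809377500) * var 0) * var 1 + (num 116431686) * var 0 + num 7520184)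
    ((((num (-312679500)) * var 0) * var 1 + num 1478205) * var 3 + (((num (-327876000)) * var 0) * var 1 + ((num 1244271000) * var 0 + num 716077500) * var 0) * var 1 + (num 73578690) * var 0 + num 4752360)
  kk := fun b => cond b
    (((num 798756) * var 0) * var 3 + ((num (-669228)) * var 0) * var 1 + ((num 133931952) * var 0 + num 6692280) * var 0)
    (((num 539460) * var 0) * var 3 + ((num (-451980)) * var 0) * var 1 + ((num 90454320) * var 0 + num 4519800) * var 0)
  f0 := num 50000000
  wn := fun b => cond b
    ((((((num (-544000)) * var 0 * var 0) * var 1 + (((num (-816000)) * var 0 + num 448340) * var 0 + num 272000) * var 0) * var 1 + (((num (-420240)) * var 0 + num 475970) * var 0 + num (-87920)) * var 0) * var 1 + (((num (-6120)) * var 0 + num 7500) * var 0 + num (-1380)) * var 0) * var 3 + ((((num (-232000)) * var 0 * var 0) * var 1 + (((num (-2828000)) * var 0 + num (-267080)) * var 0 + num 116000) * var 0) * var 1 + (((num 130790) * var 0 + num 12592) * var 0 + num (-342260)) * var 0) * var 1 + (((num (-6720)) * var 0 + num 5880) * var 0 + num 840) * var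 0)
    ((((((num (-544000)) * var 0 * var 0) * var 1 + (((num (-816000)) * var 0 + num 448340) * var 0 + num 272000) * var 0) * var 1 + (((num (-420240)) * var 0 + num 475970) * var 0 + num (-87920)) * var 0) * var 1 + (((num (-6120)) * var 0 + num 7500) * var 0 + num (-1380)) * var 0) * var 3 + ((((num (-232000)) * var 0 * var 0) * var 1 + (((num (-2828000)) * var 0 + num (-349980)) * var 0 + num 116000) * var 0) * var 1 + (((num 130790) * var 0 + num 10105) * var 0 + num (-342260)) * var 0) * var 1 + (((num (-6720)) * var 0 + num 5880) * var 0 + num 840) * var 0)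
  wd := num 50000
  tn := fun b => cond b
    (((num 1017450) * var 1 + num (-592515)) * var 3 + (num (-35910)) * var 1 + (num 11970) * var 0 + num 257355)
    (((num 423810) * var 1 + num (-246807)) * var 3 + (num (-14958)) * var 1 + (num 4986) * var 0 + num 107199)
  td := num 5000000
  cn := num 1 - var 0 * var 1 - var 1 * (num 1 - num 2 * (var 0 * var 1))
  cd := (num 1 - num 2 * (var 0 * var 1)) * (num 1 - num 2 * (var 0 * var 1))
  kn := var 0 * var 1 * ((((num 63461) * var 1 + num (-48418)) * var 3 + (num (-24634)) * var 1 + (num (-17164)) * var 0 + num 19980) * var 3 + ((num 3744) * var 1 + (num (-74197)) * var 0 + num 4791) * var 1 + (num 31026) * var 0 + num 531)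
  kd := num 100
  k2n := (((num 948) * var 0) * var 3 + ((num (-3987)) * var 0) * var 1 + (num 1722) * var 0) * var 3 + ((num 3443) * var 0) * var 1 + ((num (-1168)) * var 0 + num (-1750)) * var 0
  k2d := num 100

/-- Its ranges. -/
def sevBoxB3a : EBox :=
  ⟨(5, 9, 100), (4, 5, 5), (15, 21, 500), (0, 1, 1)⟩

end Vale.Agent.P100.Calib.StripEndD
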