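import Vale.Agent.P100.Calib.SlabStripEndDExpr
import Vale.Agent.P100.Calib.SlabStripEndCert
import Vale.Agent.P100.Calib.SlabStripEndChart

/-!
# The bins `C` of the `D` region for `N` between seven and twenty

`x = (d, I / d, (1 - u) / d, t)`, with `v` affine in `t`.
-/

namespace Vale.Agent.P100.Calib.StripEndD

open Pack hiding ev_add ev_mul
open Pack.Ex StripMid StripEnd

local instance endSevDataCAdd : Add Ex := ⟨Ex.add⟩
local instance endSevDataCSub : Sub Ex := ⟨Ex.sub⟩
local instance endSevDataCMul : Mul Ex := ⟨Ex.mul⟩

/-- The chart of the bin `C0`. -/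
def sevBinC0 : EndChart where
  I := var 0 * var 1
  d := var 0
  w := var 0 * var 2
  den := num 100
  n₀ := (num 1 - num 2 * (var 0 * var 1) - var 0) * ((num 33) * var 1 + (num 107) * var 0 + num 7)
  n₁ := (num 1 - num 2 * (var 0 * var 1) - var 0) * ((num 58) * var 1 + (num 91) * var 0 + num (-12))
  q₀ := (5, 9, 100)
  q₁ := (111, 200, 200)
  q₂ := (21, 50, 500)
  q₃ := (0, 1, 1)
  t₀ := (0, 1)
  t₁ := (1, 1)
  mu₀ := (203, 100)
  mu₁ := (263, 100)

/-- The piece `C0a`. -/
def sevPcC0a : Piece where
  I := var 0 * var 1
  d := var 0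
  w := var 0 * var 2
  o := sevBinC0.n₀ + sevBinC0.n₁ * var 3
  den := num 100
  vn := num 2 * (((num 58) * var 1 + (num 91) * var 0 + num (-12)) * var 3 + (num 33) * var 1 + (num 107) * var 0 + num 7)
  vs := num 1
  mu := ⟨(203, 100), (263, 100)⟩
  pn := fun b => cond b
    ((((((num 1525400) * var 0 + num 5800000) * var 0) * var 1 + (((num 2393300) * var 0 + num 9547100) * var 0 + num 937300) * var 0 + num (-2900000)) * var 1 + (((num 1196650) * var 0 + num 3195550) * var 0 + num (-4992200)) * var 0 + num 600000) * var 3 + ((((num 867900) * var 0 + num 3300000) * var 0) * var 1 + (((num 2814100) * var 0 + num 11318050) * var 0 + num 1916050) * var 0 + num (-1650000)) * var 1 + (((num 1407050) * var 0 + num 4035000) * var 0 + num (-5092050)) * var 0 + num 4650000)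
    ((((((num 494508) * var 0 + num 5800000) * var 0) * var 1 + (((num 775866) * var 0 + num 9244942) * var 0 + num 1452746) * var 0 + num (-2900000)) * var 1 + (((num 387933) * var 0 + num 4110911) * var 0 + num (-5098844)) * var 0 + num 600000) * var 3 + ((((num 281358) * var 0 + num 3300000) * var 0) * var 1 + (((num 912282) * var 0 + num 10900361) * var 0 + num 2209321) * var 0 + num (-1650000)) * var 1 + (((num 456141) * var 0 + num 4923700) * var 0 + num (-5029841)) * var 0 + num 4650000)
  pd := num 50000
  en := fun b => cond b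
    (((((num 5670500) * var 0) * var 1) * var 3 + (((num (-366520500)) * var 0) * var 1 + ((num 696956000) * var 0 + num (-60313500)) * var 0) * var 1 + num 2010450) * var 3 + (((num (-120627000)) * var 0) * var 1 + ((num 746959500) * var 0 + num 641797500) * var 0) * var 1 + (num 308217450) * var 0 + num 17269250)
    (((((num 5307500) * var 0) * var 1) * var 3 + (((num (-343057500)) * var 0) * var 1 + ((num 652340000) * var 0 + num (-56452500)) * var 0) * var 1 + num 790335) * var 3 + (((num (-112905000)) * var 0) * var 1 + ((num 699142500) * var 0 + num 600712500) * var 0) * var 1 + (num 121164435) * var 0 + num 6788775)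
  kk := fun b => cond b
    (((num 1696200) * var 0) * var 3 + ((num (-411200)) * var 0) * var 1 + ((num 315287600) * var 0 + num 15111600) * var 0)
    (((num 669438) * var 0) * var 3 + ((num (-162288)) * var 0) * var 1 + ((num 124434324) * var 0 + num 5964084) * var 0)
  f0 := num 50000000
  wn := fun b => cond b
    ((((((num (-4640000)) * var 0 * var 0) * var 1 + (((num (-7280000)) * var 0 + num 3997560) * var 0 + num 2320000) * var 0) * var 1 + (((num (-3792880)) * var 0 + num 4294510) * var 0 + num (-431280)) * var 0) * var 1 + (((num (-76440)) * var 0 + num 86520) * var 0 + num (-10080)) * var 0) * var 3 + ((((num (-2640000)) * var 0 * var 0) * var 1 + (((num (-27935000)) * var 0 + num (-2169940)) * var 0 + num 1320000) * var 0) * var 1 + (((num 1875310) * var 0 + num 21231) * var 0 + num (-3692280)) * var 0) * var 1 + (((num (-89880)) * var 0 + num 84000) * var 0 + num 5880) * var 0)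
    ((((((num (-4640000)) * var 0 * var 0) * var 1 + (((num (-7280000)) * var 0 + num 3997560) * var 0 + num 2320000) * var 0) * var 1 + (((num (-3792880)) * var 0 + num 4294510) * var 0 + num (-431280)) * var 0) * var 1 + (((num (-76440)) * var 0 + num 86520) * var 0 + num (-10080)) * var 0) * var 3 + ((((num (-2640000)) * var 0 * var 0) * var 1 + (((num (-27935000)) * var 0 + num (-3356940)) * var 0 + num 1320000) * var 0) * var 1 + (((num 1875310) * var 0 + num (-28623)) * var 0 + num (-3692280)) * var 0) * var 1 + (((num (-89880)) * var 0 + num 84000) * var 0 + num 5880) * var 0)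
  wd := num 500000
  tn := fun b => cond b
    ((num 10360) * var 3 + (num 31080) * var 1 + (num 207200) * var 0 + num 1025640)
    ((num 3843) * var 3 + (num 11529) * var 1 + (num 76860) * var 0 + num 380457)
  td := ((num (-7800000)) * var 1 + num (-400000)) * var 3 + (num (-4700000)) * var 1 + (num (-2200000)) * var 0 + num 17500000
  cn := num 1 - var 0 * var 1 - var 1 * (num 1 - num 2 * (var 0 * var 1))
  cd := (num 1 - num 2 * (var 0 * var 1)) * (num 1 - num 2 * (var 0 * var 1))
  kn := var 0 * var 1 * ((((num 1852933) * var 1 + num (-930855)) * var 3 + (num (-607713)) * var 1 + (num 976349) * var 0 + num 157120) * var 3 + ((num (-164066)) * var 1 + (num (-3952923)) * var 0 + num 713302) * var 1 + (num (-124684)) * var 0 + num 320995)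
  kd := ((num (-7800)) * var 1 + num (-400)) * var 3 + (num (-4700)) * var 1 + (num (-2200)) * var 0 + num 17500
  k2n := (((num 482) * var 0) * var 3 + ((num (-2136)) * var 0) * var 1 + (num 577) * var 0) * var 3 + ((num 2160) * var 0) * var 1 + ((num (-419)) * var 0 + num (-828)) * var 0
  k2d := num 100

/-- Its ranges. -/
def sevBoxC0a : EBox :=
  ⟨(5, 9, 100), (111, 200, 200), (21, 50, 500), (0, 1, 1)⟩

/-- The chart of the bin `C1`. -/
def sevBinC1 : EndChart where
  I := var 0 * var 1
  d := var 0
  w := var 0 * var 2
  den := num 100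
  n₀ := (num 1 - num 2 * (var 0 * var 1) - var 0) * ((num 33) * var 1 + (num 97) * var 0 + num 3)
  n₁ := (num 1 - num 2 * (var 0 * var 1) - var 0) * ((num 45) * var 1 + (num 78) * var 0 + num (-4))
  q₀ := (5, 9, 100)
  q₁ := (111, 200, 200)
  q₂ := (5, 11, 50)
  q₃ := (0, 1, 1)
  t₀ := (0, 1)
  t₁ := (1, 1)
  mu₀ := (199, 100)
  mu₁ := (257, 100)

/-- The piece `C1a`. -/
def sevPcC1a : Piece where
  I := var 0 * var 1
  d := var 0
  w := var 0 * var 2
  o := sevBinC1.n₀ + sevBinC1.n₁ * var 3
  den := num 100
  vn := num 2 * (((num 45) * var 1 + (num 78) * var 0 + num (-4)) * var 3 + (num 33) * var 1 + (num 97) * var 0 + num 3)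
  vs := num 1
  mu := ⟨(199, 100), (257, 100)⟩
  pn := fun b => cond b
    ((((((num 254430) * var 0 + num 450000) * var 0) * var 1 + (((num 441012) * var 0 + num 884599) * var 0 + num 57785) * var 0 + num (-225000)) * var 1 + (((num 220506) * var 0 + num 158186) * var 0 + num (-398692)) * var 0 + num 20000) * var 3 + ((((num 186582) * var 0 + num 330000) * var 0) * var 1 + (((num 548438) * var 0 + num 1080253) * var 0 + num 101709) * var 0 + num (-165000)) * var 1 + (((num 274219) * var 0 + num 219262) * var 0 + num (-478481)) * var 0 + num 485000)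
    ((((((num 89550) * var 0 + num 450000) * var 0) * var 1 + (((num 155220) * var 0 + num 816815) * var 0 + num 140225) * var 0 + num (-225000)) * var 1 + (((num 77610) * var 0 + num 308410) * var 0 + num (-406020)) * var 0 + num 20000) * var 3 + ((((num 65670) * var 0 + num 330000) * var 0) * var 1 + (((num 193030) * var 0 + num 1008805) * var 0 + num 162165) * var 0 + num (-165000)) * var 1 + (((num 96515) * var 0 + num 391470) * var 0 + num (-472985)) * var 0 + num 485000)
  pd := num 5000
  en := fun b => cond b
    ((((num (-29762150)) * var 0) * var 1 + num 584012) * var 3 + (((num (-24248750)) * var 0) * var 1 + ((num 105877700) * var 0 + num 75962400) * var 0) * var 1 + (num 70261136) * var 0 + num 3391762)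
    ((((num (-27517600)) * var 0) * var 1 + num 245440) * var 3 + (((num (-22420000)) * var 0) * var 1 + ((num 97892800) * var 0 + num 70233600) * var 0) * var 1 + (num 29528320) * var 0 + num 1425440)
  kk := fun b => cond b
    (((num 337920) * var 0) * var 3 + ((num (-157696)) * var 0) * var 1 + ((num 67538944) * var 0 + num 3412992) * var 0)
    (((num 145350) * var 0) * var 3 + ((num (-67830)) * var 0) * var 1 + ((num 29050620) * var 0 + num 1468035) * var 0)
  f0 := num 5000000
  wn := fun b => cond b
    ((((((num (-72000)) * var 0 * var 0) * var 1 + (((num (-124800)) * var 0 + num 76200) * var 0 + num 36000) * var 0) * var 1 + (((num (-68640)) * var 0 + num 79780) * var 0 + num (-1400)) * var 0) * var 1 + (((num (-3120)) * var 0 + num 3280) * var 0 + num (-160)) * var 0) * var 3 + ((((num (-52800)) * var 0 * var 0) * var 1 + (((num (-625000)) * var 0 + num (-52530)) * var 0 + num 26400) * var 0) * var 1 + (((num 100390) * var 0 + num (-6099)) * var 0 + num (-76280)) * var 0) * var 1 + (((num (-3880)) * var 0 + num 3760) * var 0 + num 120) * var 0)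
    ((((((num (-72000)) * var 0 * var 0) * var 1 + (((num (-124800)) * var 0 + num 76200) * var 0 + num 36000) * var 0) * var 1 + (((num (-68640)) * var 0 + num 79780) * var 0 + num (-1400)) * var 0) * var 1 + (((num (-3120)) * var 0 + num 3280) * var 0 + num (-160)) * var 0) * var 3 + ((((num (-52800)) * var 0 * var 0) * var 1 + (((num (-625000)) * var 0 + num (-71610)) * var 0 + num 26400) * var 0) * var 1 + (((num 100390) * var 0 + num (-8007)) * var 0 + num (-76280)) * var 0) * var 1 + (((num (-3880)) * var 0 + num 3760) * var 0 + num 120) * var 0)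
  wd := num 10000
  tn := fun b => cond b
    (((num 151800) * var 1 + num (-50094)) * var 3 + (num 21252) * var 1 + (num 100188) * var 0 + num 74382)
    (((num 59500) * var 1 + num (-19635)) * var 3 + (num 8330) * var 1 + (num 39270) * var 0 + num 29155)
  td := num 625000
  cn := num 1 - var 0 * var 1 - var 1 * (num 1 - num 2 * (var 0 * var 1))
  cd := (num 1 - num 2 * (var 0 * var 1)) * (num 1 - num 2 * (var 0 * var 1))
  kn := var 0 * var 1 * ((((num 28035) * var 1 + num (-14122)) * var 3 + (num (-7896)) * var 1 + (num 24528) * var 0 + num 3551) * var 3 + ((num 1153) * var 1 + (num (-37009)) * var 0 + num 4285) * var 1 + (num 11872) * var 0 + num 1020)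
  kd := num 100
  k2n := (((num 434) * var 0) * var 3 + ((num (-816)) * var 0) * var 1 + (num (-203)) * var 0) * var 3 + ((num 1100) * var 0) * var 1 + ((num (-714)) * var 0 + num (-196)) * var 0
  k2d := num 100

/-- Its ranges. -/
def sevBoxC1a : EBox :=
  ⟨(5, 9, 100), (111, 200, 200), (5, 11, 50), (0, 1, 1)⟩

/-- The chart of the bin `C2`. -/
def sevBinC2 : EndChart where
  I := var 0 * var 1
  d := var 0
  w := var 0 * var 2
  den := num 100
  n₀ := (num 1 - num 2 * (var 0 * var 1) - var 0) * ((num 28) * var 1 + (num 70) * var 0 + num 2)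
  n₁ := (num 1 - num 2 * (var 0 * var 1) - var 0) * ((num 40) * var 1 + (num 109) * var 0 + num (-5))
  q₀ := (5, 9, 100)
  q₁ := (111, 200, 200)
  q₂ := (11, 24, 50)
  q₃ := (0, 1, 1)
  t₀ := (0, 1)
  t₁ := (1, 1)
  mu₀ := (191, 100)
  mu₁ := (252, 100)

/-- The piece `C2a`. -/
def sevPcC2a : Piece where
  I := var 0 * var 1
  d := var 0
  w := var 0 * var 2
  o := sevBinC2.n₀ + sevBinC2.n₁ * var 3
  den := num 100
  vn := num 2 * (((num 40) * var 1 + (num 109) * var 0 + num (-5)) * var 3 + (num 28) * var 1 + (num 70) * var 0 + num 2)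
  vs := num 1
  mu := ⟨(191, 100), (252, 100)⟩
  pn := fun b => cond b
    ((((((num 483840) * var 0 + num 400000) * var 0) * var 1 + (((num 1318464) * var 0 + num 1271440) * var 0 + num (-91920)) * var 0 + num (-200000)) * var 1 + (((num 659232) * var 0 + num (-144472)) * var 0 + num (-539760)) * var 0 + num 25000) * var 3 + ((((num 338688) * var 0 + num 280000) * var 0) * var 1 + (((num 846720) * var 0 + num 893536) * var 0 + num (-9344)) * var 0 + num (-140000)) * var 1 + (((num 423360) * var 0 + num (-61264)) * var 0 + num (-352096)) * var 0 + num 490000)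
    ((((((num 168080) * var 0 + num 400000) * var 0) * var 1 + (((num 458018) * var 0 + num 1153030) * var 0 + num 65960) * var 0 + num (-200000)) * var 1 + (((num 229009) * var 0 + num 305486) * var 0 + num (-559495)) * var 0 + num 25000) * var 3 + ((((num 117656) * var 0 + num 280000) * var 0) * var 1 + (((num 294140) * var 0 + num 767232) * var 0 + num 101172) * var 0 + num (-140000)) * var 1 + (((num 147070) * var 0 + num 207132) * var 0 + num (-344202)) * var 0 + num 490000)
  pd := num 5000
  en := fun b => cond b
    ((((num (-12406325)) * var 0) * var 1 + num 354612) * var 3 + (((num (-7464175)) * var 0) * var 1 + ((num 30493575) * var 0 + num 37601100) * var 0) * var 1 + (num 77476608) * var 0 + num 3668400)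
    ((((num (-11688000)) * var 0) * var 1 + num 153120) * var 3 + (((num (-7032000)) * var 0) * var 1 + ((num 28728000) * var 0 + num 35424000) * var 0) * var 1 + (num 33454080) * var 0 + num 1584000)
  kk := fun b => cond b
    (((num 330804) * var 0) * var 3 + ((num (-245040)) * var 0) * var 1 + ((num 71343396) * var 0 + num 3834876) * var 0)
    (((num 144045) * var 0) * var 3 + ((num (-106700)) * var 0) * var 1 + ((num 31065705) * var 0 + num 1669855) * var 0)
  f0 := num 2500000
  wn := fun b => cond b
    ((((((num (-320000)) * var 0 * var 0) * var 1 + (((num (-872000)) * var 0 + num 433800) * var 0 + num 160000) * var 0) * var 1 + (((num (-531920)) * var 0 + num 622870) * var 0 + num (-2400)) * var 0) * var 1 + (((num (-47960)) * var 0 + num 50160) * var 0 + num (-2200)) * var 0) * var 3 + ((((num (-224000)) * var 0 * var 0) * var 1 + (((num (-3279500)) * var 0 + num (-356890)) * var 0 + num 112000) * var 0) * var 1 + (((num 1016680) * var 0 + num (-153465)) * var 0 + num (-379680)) * var 0) * var 1 + (((num (-30800)) * var 0 + num 29920) * var 0 + num 880)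 * var 0)
    ((((((num (-320000)) * var 0 * var 0) * var 1 + (((num (-872000)) * var 0 + num 433800) * var 0 + num 160000) * var 0) * var 1 + (((num (-531920)) * var 0 + num 622870) * var 0 + num (-2400)) * var 0) * var 1 + (((num (-47960)) * var 0 + num 50160) * var 0 + num (-2200)) * var 0) * var 3 + ((((num (-224000)) * var 0 * var 0) * var 1 + (((num (-3279500)) * var 0 + num (-488840)) * var 0 + num 112000) * var 0) * var 1 + (((num 1016680) * var 0 + num (-182494)) * var 0 + num (-379680)) * var 0) * var 1 + (((num (-30800)) * var 0 + num 29920) * var 0 + num 880) * var 0)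
  wd := num 50000
  tn := fun b => cond b
    (((num 1142784) * var 1 + num (-261888)) * var 3 + (num 261888) * var 1 + (num 1642752) * var 0 + num 999936)
    (((num 540144) * var 1 + num (-123783)) * var 3 + (num 123783) * var 1 + (num 776457) * var 0 + num 472626)
  td := num 5000000
  cn := num 1 - var 0 * var 1 - var 1 * (num 1 - num 2 * (var 0 * var 1))
  cd := (num 1 - num 2 * (var 0 * var 1)) * (num 1 - num 2 * (var 0 * var 1))
  kn := var 0 * var 1 * ((((num 12706) * var 1 + num (-5814)) * var 3 + (num (-2516)) * var 1 + (num 25798) * var 0 + num 254) * var 3 + ((num 685) * var 1 + (num (-15629)) * var 0 + num 2349) * var 1 + (num 3301) * var 0 + num 1182)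
  kd := num 100
  k2n := (((num 419) * var 0) * var 3 + ((num (-7)) * var 0) * var 1 + (num (-685)) * var 0) * var 3 + ((num 469) * var 0) * var 1 + ((num (-1004)) * var 0 + num 196) * var 0
  k2d := num 100

/-- Its ranges. -/
def sevBoxC2a : EBox :=
  ⟨(5, 9, 100), (111, 200, 200), (11, 24, 50), (0, 1, 1)⟩

/-- The chart of the bin `C3`. -/
def sevBinC3 : EndChart where
  I := var 0 * var 1
  d := var 0
  w := var 0 * var 2
  den := num 100
  n₀ := (num 1 - num 2 * (var 0 * var 1) - var 0) * ((num 23) * var 1 + (num 49) * var 0 + num (-1))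
  n₁ := (num 1 - num 2 * (var 0 * var 1) - var 0) * ((num 32) * var 1 + (num 101) * var 0 + num (-2))
  q₀ := (5, 9, 100)
  q₁ := (111, 200, 200)
  q₂ := (12, 25, 25)
  q₃ := (0, 1, 1)
  t₀ := (0, 1)
  t₁ := (1, 1)
  mu₀ := (168, 100)
  mu₁ := (246, 100)

/-- The piece `C3a`. -/
def sevPcC3a : Piece where
  I := var 0 * var 1
  d := var 0
  w := var 0 * var 2
  o := sevBinC3.n₀ + sevBinC3.n₁ * var 3
  den := num 100
  vn := num 2 * (((num 32) * var 1 + (num 101) * var 0 + num (-2)) * var 3 + (num 23) * var 1 + (num 49) * var 0 + num (-1))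
  vs := num 1
  mu := ⟨(168, 100), (246, 100)⟩
  pn := fun b => cond b
    ((((((num 196800) * var 0 + num 80000) * var 0) * var 1 + (((num 621150) * var 0 + num 338600) * var 0 + num (-63400)) * var 0 + num (-40000)) * var 1 + (((num 310575) * var 0 + num (-190475)) * var 0 + num (-122600)) * var 0 + num 2500) * var 3 + ((((num 141450) * var 0 + num 57500) * var 0) * var 1 + (((num 301350) * var 0 + num 187075) * var 0 + num (-44475)) * var 0 + num (-28750)) * var 1 + (((num 150675) * var 0 + num (-92500)) * var 0 + num (-59425)) * var 0 + num 126250)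
    ((((((num 64512) * var 0 + num 80000) * var 0) * var 1 + (((num 203616) * var 0 + num 280724) * var 0 + num 2744) * var 0 + num (-40000)) * var 1 + (((num 101808) * var 0 + num 22426) * var 0 + num (-126734)) * var 0 + num 2500) * var 3 + ((((num 46368) * var 0 + num 57500) * var 0) * var 1 + (((num 98784) * var 0 + num 143668) * var 0 + num 3066) * var 0 + num (-28750)) * var 1 + (((num 49392) * var 0 + num 10850) * var 0 + num (-61492)) * var 0 + num 126250)
  pd := num 1250
  en := fun b => cond b
    ((((num (-4161075)) * var 0) * var 1 + num 203600) * var 3 + (((num (-1297950)) * var 0) * var 1 + ((num (-4657350)) * var 0 + num 19252925) * var 0) * var 1 + (num 78882275) * var 0 + num 3868400)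
    ((((num (-3956700)) * var 0) * var 1 + num 92928) * var 3 + (((num (-1234200)) * var 0) * var 1 + ((num (-4428600)) * var 0 + num 18307300) * var 0) * var 1 + (num 36003792) * var 0 + num 1765632)
  kk := fun b => cond b
    (((num 280500) * var 0) * var 3 + ((num (-369750)) * var 0) * var 1 + ((num 71208750) * var 0 + num 4169250) * var 0)
    (((num 128568) * var 0) * var 3 + ((num (-169476)) * var 0) * var 1 + ((num 32638740) * var 0 + num 1910988) * var 0)
  f0 := num 1250000
  wn := fun b => cond b
    ((((((num (-128000)) * var 0 * var 0) * var 1 + (((num (-404000)) * var 0 + num 201780) * var 0 + num 64000) * var 0) * var 1 + (((num (-298960)) * var 0 + num 402320) * var 0 + num 11360) * var 0) * var 1 + (((num (-48480)) * var 0 + num 49440) * var 0 + num (-960)) * var 0) * var 3 + ((((num (-92000)) * var 0 * var 0) * var 1 + (((num (-2023000)) * var 0 + num (-203880)) * var 0 + num 46000) * var 0) * var 1 + (((num 904480) * var 0 + num (-153784)) * var 0 + num (-190960)) * var 0) * var 1 + (((num (-23520)) * var 0 + num 24000) * var 0 + num (-480)) * var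 0)
    ((((((num (-128000)) * var 0 * var 0) * var 1 + (((num (-404000)) * var 0 + num 201780) * var 0 + num 64000) * var 0) * var 1 + (((num (-298960)) * var 0 + num 402320) * var 0 + num 11360) * var 0) * var 1 + (((num (-48480)) * var 0 + num 49440) * var 0 + num (-960)) * var 0) * var 3 + ((((num (-92000)) * var 0 * var 0) * var 1 + (((num (-2023000)) * var 0 + num (-301955)) * var 0 + num 46000) * var 0) * var 1 + (((num 904480) * var 0 + num (-200860)) * var 0 + num (-190960)) * var 0) * var 1 + (((num (-23520)) * var 0 + num 24000) * var 0 + num (-480)) * var 0)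
  wd := num 25000
  tn := fun b => cond b
    (((num 201875) * var 1) * var 3 + (num 95000) * var 1 + (num 712500) * var 0 + num 391875)
    (((num 112302) * var 1) * var 3 + (num 52848) * var 1 + (num 396360) * var 0 + num 217998)
  td := num 1250000
  cn := num 1 - var 0 * var 1 - var 1 * (num 1 - num 2 * (var 0 * var 1))
  cd := (num 1 - num 2 * (var 0 * var 1)) * (num 1 - num 2 * (var 0 * var 1))
  kn := var 0 * var 1 * ((((num 4339) * var 1 + num (-1710)) * var 3 + (num 363) * var 1 + (num 14420) * var 0 + num (-970)) * var 3 + ((num 230) * var 1 + (num (-3764)) * var 0 + num 1161) * var 1 + (num 293) * var 0 + num 1179)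
  kd := num 100
  k2n := (((num 826) * var 0) * var 3 + ((num 1132) * var 0) * var 1 + (num (-1959)) * var 0) * var 3 + ((num (-194)) * var 0) * var 1 + ((num (-1105)) * var 0 + num 884) * var 0
  k2d := num 100

/-- Its ranges. -/
def sevBoxC3a : EBox :=
  ⟨(5, 9, 100), (111, 200, 200), (12, 25, 25), (0, 1, 1)⟩

end Vale.Agent.P100.Calib.StripEndD
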