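import Vale.Agent.P100.Calib.SlabStripEndDExpr
import Vale.Agent.P100.Calib.SlabStripEndCert
import Vale.Agent.P100.Calib.SlabStripEndChart

/-!
# The bins `D` of the `D` region for `N` between seven and twenty

`x = (d, I / d, (1 - u) / d, t)`, with `v` affine in `t`.
-/

namespace Vale.Agent.P100.Calib.StripEndD

open Pack hiding ev_add ev_mul
open Pack.Ex StripMid StripEnd

local instance endSevDataDAdd : Add Ex := ⟨Ex.add⟩
local instance endSevDataDSub : Sub Ex := ⟨Ex.sub⟩
local instance endSevDataDMul : Mul Ex := ⟨Ex.mul⟩

/-- The chart of the bin `D0`. -/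
def sevBinD0 : EndChart where
  I := var 0 * var 1
  d := var 0
  w := var 0 * var 2
  den := num 100
  n₀ := (num 1 - num 2 * (var 0 * var 1) - var 0) * ((num 32) * var 1 + (num 69) * var 0 + num 17)
  n₁ := (num 1 - num 2 * (var 0 * var 1) - var 0) * ((num 108) * var 1 + (num 252) * var 0 + num (-63))
  q₀ := (9, 13, 100)
  q₁ := (7, 10, 10)
  q₂ := (0, 1, 100)
  q₃ := (0, 1, 1)
  t₀ := (0, 1)
  t₁ := (1, 1)
  mu₀ := (218, 100)
  mu₁ := (323, 100)

/-- The piece `D0a`. -/
def sevPcD0a : Piece where
  I := var 0 * var 1
  d := var 0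
  w := var 0 * var 2
  o := sevBinD0.n₀ + sevBinD0.n₁ * var 3
  den := num 100
  vn := num 2 * (((num 108) * var 1 + (num 252) * var 0 + num (-63)) * var 3 + (num 32) * var 1 + (num 69) * var 0 + num 17)
  vs := num 1
  mu := ⟨(218, 100), (323, 100)⟩
  pn := fun b => cond b
    ((((((num 69768) * var 0 + num 2160000) * var 0) * var 1 + (((num 162792) * var 0 + num 5034186) * var 0 + num (-214884)) * var 0 + num (-1080000)) * var 1 + (((num 81396) * var 0 + num 2418255) * var 0 + num (-3129651)) * var 0 + num 630000) * var 3 + ((((num 20672) * var 0 + num 640000) * var 0) * var 1 + (((num 44574) * var 0 + num 1401318) * var 0 + num 649664) * var 0 + num (-320000)) * var 1 + (((num 22287) * var 0 + num 673204) * var 0 + num (-525491)) * var 0 + num 830000)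
    (((((num 2160000) * var 0) * var 1 + ((num 5040000) * var 0 + num (-180000)) * var 0 + num (-1080000)) * var 1 + ((num 2520000) * var 0 + num (-3150000)) * var 0 + num 630000) * var 3 + (((num 640000) * var 0) * var 1 + ((num 1380000) * var 0 + num 660000) * var 0 + num (-320000)) * var 1 + ((num 690000) * var 0 + num (-520000)) * var 0 + num 830000)
  pd := num 10000
  en := fun b => cond b
    (((((num 104600) * var 0) * var 1) * var 3 + (((num (-61191000)) * var 0) * var 1 + ((num (-7426600)) * var 0 + num 16108400) * var 0) * var 1 + num 70082) * var 3 + (((num (-4707000)) * var 0) * var 1 + ((num 94349200) * var 0 + num 52666100) * var 0) * var 1 + (num 2026102) * var 0 + num 302294)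
    (((((num 96900) * var 0) * var 1) * var 3 + (((num (-56686500)) * var 0) * var 1 + ((num (-6879900)) * var 0 + num 14922600) * var 0) * var 1) * var 3 + (((num (-4360500)) * var 0) * var 1 + ((num 87403800) * var 0 + num 48789150) * var 0) * var 1)
  kk := fun b => cond b
    (((num 48116) * var 0) * var 3 + ((num (-2615)) * var 0) * var 1 + ((num 3016664) * var 0 + num 170498) * var 0)
    (num 0)
  f0 := num 5000000
  wn := fun b => cond b
    ((((((num (-17280)) * var 0 * var 0) * var 1 + (((num (-40320)) * var 0 + num 14760) * var 0 + num 8640) * var 0) * var 1 + (((num (-20160)) * var 0 + num 25200) * var 0 + num (-5040)) * var 0) * var 1) * var 3 + ((((num (-5120)) * var 0 * var 0) * var 1 + (((num (-50340)) * var 0 + num (-3701)) * var 0 + num 2560) * var 0) * var 1 + (((num (-5520)) * var 0 + num (-3840)) * var 0 + num (-6640)) * var 0) * var 1)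
    ((((((num (-17280)) * var 0 * var 0) * var 1 + (((num (-40320)) * var 0 + num 14760) * var 0 + num 8640) * var 0) * var 1 + (((num (-20160)) * var 0 + num 25200) * var 0 + num (-5040)) * var 0) * var 1) * var 3 + ((((num (-5120)) * var 0 * var 0) * var 1 + (((num (-50340)) * var 0 + num (-7313)) * var 0 + num 2560) * var 0) * var 1 + (((num (-5520)) * var 0 + num (-3840)) * var 0 + num (-6640)) * var 0) * var 1)
  wd := num 1000
  tn := fun b => cond b
    (((num 11583) * var 1 + num (-3159)) * var 3 + (num 3159) * var 1 + (num 18954) * var 0 + num 106353)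
    (num 0)
  td := ((num (-11900000)) * var 1 + num 2300000) * var 3 + (num (-2600000)) * var 1 + (num 8900000) * var 0 + num 13400000
  cn := num 1 - var 0 * var 1 - var 1 * (num 1 - num 2 * (var 0 * var 1))
  cd := (num 1 - num 2 * (var 0 * var 1)) * (num 1 - num 2 * (var 0 * var 1))
  kn := var 0 * var 1 * ((((num 710847) * var 1 + num (-478213)) * var 3 + (num (-26592)) * var 1 + (num 4304364) * var 0 + num (-801640)) * var 3 + ((num (-72642)) * var 1 + (num (-1805314)) * var 0 + num 326190) * var 1 + (num (-1478971)) * var 0 + num 442626)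
  kd := ((num (-11900)) * var 1 + num 2300) * var 3 + (num (-2600)) * var 1 + (num 8900) * var 0 + num 13400
  k2n := (((num 1120) * var 0) * var 3 + ((num (-6008)) * var 0) * var 1 + (num 3362) * var 0) * var 3 + ((num 4659) * var 0) * var 1 + ((num (-602)) * var 0 + num (-2480)) * var 0
  k2d := num 100

/-- Its ranges. -/
def sevBoxD0a : EBox :=
  ⟨(9, 13, 100), (7, 10, 10), (0, 1, 100), (0, 3, 5)⟩

/-- The piece `D0b`. -/
def sevPcD0b : Piece where
  I := var 0 * var 1
  d := var 0
  w := var 0 * var 2
  o := sevBinD0.n₀ + sevBinD0.n₁ * var 3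
  den := num 100
  vn := num 2 * (((num 108) * var 1 + (num 252) * var 0 + num (-63)) * var 3 + (num 32) * var 1 + (num 69) * var 0 + num 17)
  vs := num 1
  mu := ⟨(218, 100), (323, 100)⟩
  pn := fun b => cond b
    ((((((num 69768) * var 0 + num 2160000) * var 0) * var 1 + (((num 162792) * var 0 + num 5034186) * var 0 + num (-214884)) * var 0 + num (-1080000)) * var 1 + (((num 81396) * var 0 + num 2418255) * var 0 + num (-3129651)) * var 0 + num 630000) * var 3 + ((((num 20672) * var 0 + num 640000) * var 0) * var 1 + (((num 44574) * var 0 + num 1401318) * var 0 + num 649664) * var 0 + num (-320000)) * var 1 + (((num 22287) * var 0 + num 673204) * var 0 + num (-525491)) * var 0 + num 830000)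
    (((((num 2160000) * var 0) * var 1 + ((num 5040000) * var 0 + num (-180000)) * var 0 + num (-1080000)) * var 1 + ((num 2520000) * var 0 + num (-3150000)) * var 0 + num 630000) * var 3 + (((num 640000) * var 0) * var 1 + ((num 1380000) * var 0 + num 660000) * var 0 + num (-320000)) * var 1 + ((num 690000) * var 0 + num (-520000)) * var 0 + num 830000)
  pd := num 10000
  en := fun b => cond b
    (((((num 784700) * var 0) * var 1) * var 3 + (((num (-127457700)) * var 0) * var 1 + ((num 57395200) * var 0 + num 22083700) * var 0) * var 1 + num 188328) * var 3 + (((num (-14348800)) * var 0) * var 1 + ((num 162545000) * var 0 + num 121516400) * var 0) * var 1 + (num 1996501) * var 0 + num 847476)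
    (((((num 646100) * var 0) * var 1) * var 3 + (((num (-104945100)) * var 0) * var 1 + ((num 47257600) * var 0 + num 18183100) * var 0) * var 1) * var 3 + (((num (-11814400)) * var 0) * var 1 + ((num 133835000) * var 0 + num 100053200) * var 0) * var 1)
  kk := fun b => cond b
    (((num 89165) * var 0) * var 3 + ((num 70283) * var 0) * var 1 + ((num 6678983) * var 0 + num 213996) * var 0)
    (num 0)
  f0 := num 10000000
  wn := fun b => cond b
    ((((((num (-17280)) * var 0 * var 0) * var 1 + (((num (-40320)) * var 0 + num 9860) * var 0 + num 8640) * var 0) * var 1 + (((num (-20160)) * var 0 + num 25200) * var 0 + num (-5040)) * var 0) * var 1) * var 3 + ((((num (-5120)) * var 0 * var 0) * var 1 + (((num (-26650)) * var 0 + num (-4441)) * var 0 + num 2560) * var 0) * var 1 + (((num (-5520)) * var 0 + num (-3840)) * var 0 + num (-6640)) * var 0) * var 1)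
    ((((((num (-17280)) * var 0 * var 0) * var 1 + (((num (-40320)) * var 0 + num 9860) * var 0 + num 8640) * var 0) * var 1 + (((num (-20160)) * var 0 + num 25200) * var 0 + num (-5040)) * var 0) * var 1) * var 3 + ((((num (-5120)) * var 0 * var 0) * var 1 + (((num (-26650)) * var 0 + num (-5847)) * var 0 + num 2560) * var 0) * var 1 + (((num (-5520)) * var 0 + num (-3840)) * var 0 + num (-6640)) * var 0) * var 1)
  wd := num 1000
  tn := fun b => cond b
    (((num 3477) * var 1 + num 2318) * var 3 + (num 9272) * var 1 + (num (-13908)) * var 0 + num 117059)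
    (num 0)
  td := ((num (-10400000)) * var 1 + num 1400000) * var 3 + (num (-3600000)) * var 1 + (num 7000000) * var 0 + num 14200000
  cn := num 1 - var 0 * var 1 - var 1 * (num 1 - num 2 * (var 0 * var 1))
  cd := (num 1 - num 2 * (var 0 * var 1)) * (num 1 - num 2 * (var 0 * var 1))
  kn := var 0 * var 1 * ((((num 8815908) * var 1 + num (-5022158)) * var 3 + (num (-11725928)) * var 1 + (num 7821646) * var 0 + num 6208427) * var 3 + ((num 411664) * var 1 + (num 1903633) * var 0 + num 3177019) * var 1 + (num (-5123163)) * var 0 + num (-1590679))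
  kd := ((num (-10400)) * var 1 + num 1400) * var 3 + (num (-3600)) * var 1 + (num 7000) * var 0 + num 14200
  k2n := (((num 213) * var 0) * var 3 + ((num (-1600)) * var 0) * var 1 + (num 289) * var 0) * var 3 + ((num 2433) * var 0) * var 1 + ((num 85) * var 0 + num (-818)) * var 0
  k2d := num 100

/-- Its ranges. -/
def sevBoxD0b : EBox :=
  ⟨(9, 13, 100), (7, 10, 10), (0, 1, 100), (3, 5, 5)⟩

/-- The chart of the bin `D1`. -/
def sevBinD1 : EndChart where
  I := var 0 * var 1
  d := var 0
  w := var 0 * var 2
  den := num 100
  n₀ := (num 1 - num 2 * (var 0 * var 1) - var 0) * ((num 32) * var 1 + (num 65) * var 0 + num 16)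
  n₁ := (num 1 - num 2 * (var 0 * var 1) - var 0) * ((num 88) * var 1 + (num 265) * var 0 + num (-51))
  q₀ := (9, 13, 100)
  q₁ := (7, 10, 10)
  q₂ := (1, 3, 100)
  q₃ := (0, 1, 1)
  t₀ := (0, 1)
  t₁ := (1, 1)
  mu₀ := (216, 100)
  mu₁ := (317, 100)

/-- The piece `D1a`. -/
def sevPcD1a : Piece where
  I := var 0 * var 1
  d := var 0
  w := var 0 * var 2
  o := sevBinD1.n₀ + sevBinD1.n₁ * var 3
  den := num 100
  vn := num 2 * (((num 88) * var 1 + (num 265) * var 0 + num (-51)) * var 3 + (num 32) * var 1 + (num 65) * var 0 + num 16)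
  vs := num 1
  mu := ⟨(216, 100), (317, 100)⟩
  pn := fun b => cond b
    ((((((num 167376) * var 0 + num 1760000) * var 0) * var 1 + (((num 504030) * var 0 + num 5286686) * var 0 + num (-223688)) * var 0 + num (-880000)) * var 1 + (((num 252015) * var 0 + num 2349484) * var 0 + num (-3111499)) * var 0 + num 510000) * var 3 + ((((num 60864) * var 0 + num 640000) * var 0) * var 1 + (((num 123630) * var 0 + num 1360864) * var 0 + num 609568) * var 0 + num (-320000)) * var 1 + (((num 61815) * var 0 + num 603401) * var 0 + num (-505216)) * var 0 + num 840000)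
    ((((((num 38016) * var 0 + num 1760000) * var 0) * var 1 + (((num 114480) * var 0 + num 5296976) * var 0 + num (-159008)) * var 0 + num (-880000)) * var 1 + (((num 57240) * var 0 + num 2581744) * var 0 + num (-3148984)) * var 0 + num 510000) * var 3 + ((((num 13824) * var 0 + num 640000) * var 0) * var 1 + (((num 28080) * var 0 + num 1313824) * var 0 + num 633088) * var 0 + num (-320000)) * var 1 + (((num 14040) * var 0 + num 639416) * var 0 + num (-493456)) * var 0 + num 840000)
  pd := num 10000
  en := fun b => cond b
    (((((num 321900) * var 0) * var 1) * var 3 + (((num (-97106500)) * var 0) * var 1 + ((num (-21889200)) * var 0 + num 13949000) * var 0) * var 1 + num 337995) * var 3 + (((num (-10300800)) * var 0) * var 1 + ((num 224686200) * var 0 + num 107300000) * var 0) * var 1 + (num 11598057) * var 0 + num 1960371)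
    (((((num 285600) * var 0) * var 1) * var 3 + (((num (-86156000)) * var 0) * var 1 + ((num (-19420800)) * var 0 + num 12376000) * var 0) * var 1 + num 99960) * var 3 + (((num (-9139200)) * var 0) * var 1 + ((num 199348800) * var 0 + num 95200000) * var 0) * var 1 + (num 3430056) * var 0 + num 579768)
  kk := fun b => cond b
    (((num 262695) * var 0) * var 3 + ((num 22155) * var 0) * var 1 + ((num 18777945) * var 0 + num 930510) * var 0)
    (((num 79099) * var 0) * var 3 + ((num 6671) * var 0) * var 1 + ((num 5654149) * var 0 + num 280182) * var 0)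
  f0 := num 10000000
  wn := fun b => cond b
    ((((((num (-1408000)) * var 0 * var 0) * var 1 + (((num (-4240000)) * var 0 + num 1267960) * var 0 + num 704000) * var 0) * var 1 + (((num (-2141200)) * var 0 + num 2525670) * var 0 + num (-404480)) * var 0) * var 1 + (((num (-10600)) * var 0 + num 12640) * var 0 + num (-2040)) * var 0) * var 3 + ((((num (-512000)) * var 0 * var 0) * var 1 + (((num (-4496000)) * var 0 + num (-446960)) * var 0 + num 256000) * var 0) * var 1 + (((num (-199300)) * var 0 + num (-397854)) * var 0 + num (-670720)) * var 0) * var 1 + (((num (-2600)) * var 0 + num 1960) * var 0 + num 640) * var 0)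
    ((((((num (-1408000)) * var 0 * var 0) * var 1 + (((num (-4240000)) * var 0 + num 1267960) * var 0 + num 704000) * var 0) * var 1 + (((num (-2141200)) * var 0 + num 2525670) * var 0 + num (-404480)) * var 0) * var 1 + (((num (-10600)) * var 0 + num 12640) * var 0 + num (-2040)) * var 0) * var 3 + ((((num (-512000)) * var 0 * var 0) * var 1 + (((num (-4496000)) * var 0 + num (-855660)) * var 0 + num 256000) * var 0) * var 1 + (((num (-199300)) * var 0 + num (-401941)) * var 0 + num (-670720)) * var 0) * var 1 + (((num (-2600)) * var 0 + num 1960) * var 0 + num 640) * var 0)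
  wd := num 100000
  tn := fun b => cond b
    (((num 3198) * var 1 + num 1599) * var 3 + (num 7995) * var 1 + (num 30381) * var 0 + num 158301)
    (((num 854) * var 1 + num 427) * var 3 + (num 2135) * var 1 + (num 8113) * var 0 + num 42273)
  td := ((num (-4500000)) * var 1 + num 200000) * var 3 + (num (-1400000)) * var 1 + (num 2900000) * var 0 + num 7050000
  cn := num 1 - var 0 * var 1 - var 1 * (num 1 - num 2 * (var 0 * var 1))
  cd := (num 1 - num 2 * (var 0 * var 1)) * (num 1 - num 2 * (var 0 * var 1))
  kn := var 0 * var 1 * ((((num 2534393) * var 1 + num (-1611981)) * var 3 + (num (-1253185)) * var 1 + (num 2674660) * var 0 + num 312816) * var 3 + ((num (-95867)) * var 1 + (num (-5109742)) * var 0 + num 938093) * var 1 + (num 1293173) * var 0 + num 43587)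
  kd := ((num (-9000)) * var 1 + num 400) * var 3 + (num (-2800)) * var 1 + (num 5800) * var 0 + num 14100
  k2n := (((num 281) * var 0) * var 3 + ((num (-1646)) * var 0) * var 1 + (num 685) * var 0) * var 3 + ((num 1644) * var 0) * var 1 + ((num 80) * var 0 + num (-786)) * var 0
  k2d := num 50

/-- Its ranges. -/
def sevBoxD1a : EBox :=
  ⟨(9, 13, 100), (7, 10, 10), (1, 3, 100), (0, 1, 1)⟩

/-- The chart of the bin `D2`. -/
def sevBinD2 : EndChart where
  I := var 0 * var 1
  d := var 0
  w := var 0 * var 2
  den := num 100
  n₀ := (num 1 - num 2 * (var 0 * var 1) - var 0) * ((num 33) * var 1 + (num 70) * var 0 + num 13)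
  n₁ := (num 1 - num 2 * (var 0 * var 1) - var 0) * ((num 76) * var 1 + (num 207) * var 0 + num (-39))
  q₀ := (9, 13, 100)
  q₁ := (7, 10, 10)
  q₂ := (6, 11, 200)
  q₃ := (0, 1, 1)
  t₀ := (0, 1)
  t₁ := (1, 1)
  mu₀ := (214, 100)
  mu₁ := (310, 100)

/-- The piece `D2a`. -/
def sevPcD2a : Piece where
  I := var 0 * var 1
  d := var 0
  w := var 0 * var 2
  o := sevBinD2.n₀ + sevBinD2.n₁ * var 3
  den := num 100
  vn := num 2 * (((num 76) * var 1 + (num 207) * var 0 + num (-39)) * var 3 + (num 33) * var 1 + (num 70) * var 0 + num 13)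
  vs := num 1
  mu := ⟨(214, 100), (310, 100)⟩
  pn := fun b => cond b
    ((((((num 259160) * var 0 + num 1520000) * var 0) * var 1 + (((num 705870) * var 0 + num 4136590) * var 0 + num (-149580)) * var 0 + num (-760000)) * var 1 + (((num 352935) * var 0 + num 1650570) * var 0 + num (-2393505)) * var 0 + num 390000) * var 3 + ((((num 112530) * var 0 + num 660000) * var 0) * var 1 + (((num 238700) * var 0 + num 1500595) * var 0 + num 533735) * var 0 + num (-330000)) * var 1 + (((num 119350) * var 0 + num 602815) * var 0 + num (-592165)) * var 0 + num 870000)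
    ((((((num 97584) * var 0 + num 1520000) * var 0) * var 1 + (((num 265788) * var 0 + num 4138716) * var 0 + num (-68792)) * var 0 + num (-760000)) * var 1 + (((num 132894) * var 0 + num 1912068) * var 0 + num (-2434962)) * var 0 + num 390000) * var 3 + ((((num 42372) * var 0 + num 660000) * var 0) * var 1 + (((num 89880) * var 0 + num 1437878) * var 0 + num 568814) * var 0 + num (-330000)) * var 1 + (((num 44940) * var 0 + num 663406) * var 0 + num (-578346)) * var 0 + num 870000)
  pd := num 10000
  en := fun b => cond b
    ((((num (-151632000)) * var 0) * var 1 + num 3868722) * var 3 + (((num (-113934600)) * var 0) * var 1 + ((num 601684200) * var 0 + num 291049200) * var 0) * var 1 + (num 38872548) * var 0 + num 5675670)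
    ((((num (-132768000)) * var 0) * var 1 + num 1847688) * var 3 + (((num (-99760400)) * var 0) * var 1 + ((num 526830800) * var 0 + num 254840800) * var 0) * var 1 + (num 18565392) * var 0 + num 2710680)
  kk := fun b => cond b
    (((num 865425) * var 0) * var 3 + ((num (-11539)) * var 0) * var 1 + ((num 67064668) * var 0 + num 3565551) * var 0)
    (((num 430650) * var 0) * var 3 + ((num (-5742)) * var 0) * var 1 + ((num 33372504) * var 0 + num 1774278) * var 0)
  f0 := num 20000000
  wn := fun b => cond b
    ((((((num (-1216000)) * var 0 * var 0) * var 1 + (((num (-3312000)) * var 0 + num 1209760) * var 0 + num 608000) * var 0) * var 1 + (((num (-1705680)) * var 0 + num 1952220) * var 0 + num (-302880)) * var 0) * var 1 + (((num (-24840)) * var 0 + num 29520) * var 0 + num (-4680)) * var 0) * var 3 + ((((num (-528000)) * var 0 * var 0) * var 1 + (((num (-6359000)) * var 0 + num (-393820)) * var 0 + num 264000) * var 0) * var 1 + (((num 796720) * var 0 + num (-357047)) * var 0 + num (-692040)) * var 0) * var 1 + (((num (-8400)) * var 0 + num 6840) * var 0 +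 num 1560) * var 0)
    ((((((num (-1216000)) * var 0 * var 0) * var 1 + (((num (-3312000)) * var 0 + num 1209760) * var 0 + num 608000) * var 0) * var 1 + (((num (-1705680)) * var 0 + num 1952220) * var 0 + num (-302880)) * var 0) * var 1 + (((num (-24840)) * var 0 + num 29520) * var 0 + num (-4680)) * var 0) * var 3 + ((((num (-528000)) * var 0 * var 0) * var 1 + (((num (-6359000)) * var 0 + num (-708920)) * var 0 + num 264000) * var 0) * var 1 + (((num 796720) * var 0 + num (-366500)) * var 0 + num (-692040)) * var 0) * var 1 + (((num (-8400)) * var 0 + num 6840) * var 0 + num 1560) * var 0)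
  wd := num 100000
  tn := fun b => cond b
    (((num 3288549) * var 1 + num (-1535622)) * var 3 + (num (-43461)) * var 1 + (num (-376662)) * var 0 + num 1173447)
    (((num 1138632) * var 1 + num (-531696)) * var 3 + (num (-15048)) * var 1 + (num (-130416)) * var 0 + num 406296)
  td := num 20000000
  cn := num 1 - var 0 * var 1 - var 1 * (num 1 - num 2 * (var 0 * var 1))
  cd := (num 1 - num 2 * (var 0 * var 1)) * (num 1 - num 2 * (var 0 * var 1))
  kn := var 0 * var 1 * ((((num 50406) * var 1 + num (-31260)) * var 3 + (num (-18996)) * var 1 + (num (-6178)) * var 0 + num 12137) * var 3 + ((num 1236) * var 1 + (num (-56549)) * var 0 + num 8184) * var 1 + (num 31180) * var 0 + num (-1239))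
  kd := num 100
  k2n := (((num 640) * var 0) * var 3 + ((num (-2471)) * var 0) * var 1 + (num 826) * var 0) * var 3 + ((num 2400) * var 0) * var 1 + ((num 524) * var 0 + num (-1131)) * var 0
  k2d := num 100

/-- Its ranges. -/
def sevBoxD2a : EBox :=
  ⟨(9, 13, 100), (7, 10, 10), (6, 11, 200), (0, 1, 1)⟩

/-- The chart of the bin `D3`. -/
def sevBinD3 : EndChart where
  I := var 0 * var 1
  d := var 0
  w := var 0 * var 2
  den := num 100
  n₀ := (num 1 - num 2 * (var 0 * var 1) - var 0) * ((num 32) * var 1 + (num 85) * var 0 + num 10)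
  n₁ := (num 1 - num 2 * (var 0 * var 1) - var 0) * ((num 68) * var 1 + (num 172) * var 0 + num (-32))
  q₀ := (9, 13, 100)
  q₁ := (7, 10, 10)
  q₂ := (11, 20, 200)
  q₃ := (0, 1, 1)
  t₀ := (0, 1)
  t₁ := (1, 1)
  mu₀ := (211, 100)
  mu₁ := (305, 100)

/-- The piece `D3a`. -/
def sevPcD3a : Piece where
  I := var 0 * var 1
  d := var 0
  w := var 0 * var 2
  o := sevBinD3.n₀ + sevBinD3.n₁ * var 3
  den := num 100
  vn := num 2 * (((num 68) * var 1 + (num 172) * var 0 + num (-32)) * var 3 + (num 32) * var 1 + (num 85) * var 0 + num 10)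
  vs := num 1
  mu := ⟨(211, 100), (305, 100)⟩
  pn := fun b => cond b
    ((((((num 829600) * var 0 + num 2720000) * var 0) * var 1 + (((num 2098400) * var 0 + num 6904400) * var 0 + num (-334800)) * var 0 + num (-1360000)) * var 1 + (((num 1049200) * var 0 + num 2195600) * var 0 + num (-3884800)) * var 0 + num 640000) * var 3 + ((((num 390400) * var 0 + num 1280000) * var 0) * var 1 + (((num 1037000) * var 0 + num 3717200) * var 0 + num 844800) * var 0 + num (-640000)) * var 1 + (((num 518500) * var 0 + num 1242500) * var 0 + num (-1561000)) * var 0 + num 1800000)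
    ((((((num 315656) * var 0 + num 2720000) * var 0) * var 1 + (((num 798424) * var 0 + num 6889284) * var 0 + num (-77828)) * var 0 + num (-1360000)) * var 1 + (((num 399212) * var 0 + num 2966516) * var 0 + num (-4005728)) * var 0 + num 640000) * var 3 + ((((num 148544) * var 0 + num 1280000) * var 0) * var 1 + (((num 394570) * var 0 + num 3520692) * var 0 + num 965728) * var 0 + num (-640000)) * var 1 + (((num 197285) * var 0 + num 1525925) * var 0 + num (-1523210)) * var 0 + num 1800000)
  pd := num 20000
  en := fun b => cond b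
    ((((num (-132480000)) * var 0) * var 1 + num 3601800) * var 3 + (((num (-91701000)) * var 0) * var 1 + ((num 517293000) * var 0 + num 278001000) * var 0) * var 1 + (num 101078100) * var 0 + num 8549100)
    ((((num (-119680000)) * var 0) * var 1 + num 1789590) * var 3 + (((num (-82841000)) * var 0) * var 1 + ((num 467313000) * var 0 + num 251141000) * var 0) * var 1 + (num 50221655) * var 0 + num 4247705)
  kk := fun b => cond b
    (((num 1442100) * var 0) * var 3 + ((num (-188100)) * var 0) * var 1 + ((num 119589800) * var 0 + num 6688000) * var 0)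
    (((num 729399) * var 0) * var 3 + ((num (-95139)) * var 0) * var 1 + ((num 60487262) * var 0 + num 3382720) * var 0)
  f0 := num 20000000
  wn := fun b => cond b
    ((((((num (-2176000)) * var 0 * var 0) * var 1 + (((num (-5504000)) * var 0 + num 2286160) * var 0 + num 1088000) * var 0) * var 1 + (((num (-2903360)) * var 0 + num 3321530) * var 0 + num (-482080)) * var 0) * var 1 + (((num (-75680)) * var 0 + num 89760) * var 0 + num (-14080)) * var 0) * var 3 + ((((num (-1024000)) * var 0 * var 0) * var 1 + (((num (-13744000)) * var 0 + num (-837560)) * var 0 + num 512000) * var 0) * var 1 + (((num 1967500) * var 0 + num (-428897)) * var 0 + num (-1425920)) * var 0) * var 1 + (((num (-37400)) * var 0 + num 33000) * var 0 + num 4400) * var 0)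
    ((((((num (-2176000)) * var 0 * var 0) * var 1 + (((num (-5504000)) * var 0 + num 2286160) * var 0 + num 1088000) * var 0) * var 1 + (((num (-2903360)) * var 0 + num 3321530) * var 0 + num (-482080)) * var 0) * var 1 + (((num (-75680)) * var 0 + num 89760) * var 0 + num (-14080)) * var 0) * var 3 + ((((num (-1024000)) * var 0 * var 0) * var 1 + (((num (-13744000)) * var 0 + num (-1377760)) * var 0 + num 512000) * var 0) * var 1 + (((num 1967500) * var 0 + num (-458608)) * var 0 + num (-1425920)) * var 0) * var 1 + (((num (-37400)) * var 0 + num 33000) * var 0 + num 4400) * var 0)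
  wd := num 200000
  tn := fun b => cond b
    (((num 3844680) * var 1 + num (-1647720)) * var 3 + (num 71640) * var 1 + (num (-71640)) * var 0 + num 1695480)
    (((num 1556709) * var 1 + num (-667161)) * var 3 + (num 29007) * var 1 + (num (-29007)) * var 0 + num 686499)
  td := num 20000000
  cn := num 1 - var 0 * var 1 - var 1 * (num 1 - num 2 * (var 0 * var 1))
  cd := (num 1 - num 2 * (var 0 * var 1)) * (num 1 - num 2 * (var 0 * var 1))
  kn := var 0 * var 1 * ((((num 35541) * var 1 + num (-20189)) * var 3 + (num (-11309)) * var 1 + (num 3223) * var 0 + num 6337) * var 3 + ((num 505) * var 1 + (num (-44057)) * var 0 + num 6997) * var 1 + (num 24352) * var 0 + num (-333))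
  kd := num 100
  k2n := (((num 380) * var 0) * var 3 + ((num (-1989)) * var 0) * var 1 + (num 860) * var 0) * var 3 + ((num 1981) * var 0) * var 1 + ((num 590) * var 0 + num (-1029)) * var 0
  k2d := num 100

/-- Its ranges. -/
def sevBoxD3a : EBox :=
  ⟨(9, 13, 100), (7, 10, 10), (11, 20, 200), (0, 1, 1)⟩

/-- The chart of the bin `D4`. -/
def sevBinD4 : EndChart where
  I := var 0 * var 1
  d := var 0
  w := var 0 * var 2
  den := num 100
  n₀ := (num 1 - num 2 * (var 0 * var 1) - var 0) * ((num 34) * var 1 + (num 80) * var 0 + num 5)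
  n₁ := (num 1 - num 2 * (var 0 * var 1) - var 0) * ((num 61) * var 1 + (num 110) * var 0 + num (-22))
  q₀ := (9, 13, 100)
  q₁ := (7, 10, 10)
  q₂ := (10, 17, 100)
  q₃ := (0, 1, 1)
  t₀ := (0, 1)
  t₁ := (1, 1)
  mu₀ := (206, 100)
  mu₁ := (299, 100)

/-- The piece `D4a`. -/
def sevPcD4a : Piece where
  I := var 0 * var 1
  d := var 0
  w := var 0 * var 2
  o := sevBinD4.n₀ + sevBinD4.n₁ * var 3
  den := num 100
  vn := num 2 * (((num 61) * var 1 + (num 110) * var 0 + num (-22)) * var 3 + (num 34) * var 1 + (num 80) * var 0 + num 5)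
  vs := num 1
  mu := ⟨(206, 100), (299, 100)⟩
  pn := fun b => cond b
    ((((((num 620126) * var 0 + num 1220000) * var 0) * var 1 + (((num 1118260) * var 0 + num 2286411) * var 0 + num (-140063)) * var 0 + num (-610000)) * var 1 + (((num 559130) * var 0 + num 429044) * var 0 + num (-1208174)) * var 0 + num 220000) * var 3 + ((((num 345644) * var 0 + num 680000) * var 0) * var 1 + (((num 813280) * var 0 + num 1823652) * var 0 + num 267178) * var 0 + num (-340000)) * var 1 + (((num 406640) * var 0 + num 418775) * var 0 + num (-775415)) * var 0 + num 950000)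
    ((((((num 251320) * var 0 + num 1220000) * var 0) * var 1 + (((num 453200) * var 0 + num 2235020) * var 0 + num 44340) * var 0 + num (-610000)) * var 1 + (((num 226600) * var 0 + num 828080) * var 0 + num (-1274680)) * var 0 + num 220000) * var 3 + ((((num 140080) * var 0 + num 680000) * var 0) * var 1 + (((num 329600) * var 0 + num 1690640) * var 0 + num 369960) * var 0 + num (-340000)) * var 1 + (((num 164800) * var 0 + num 645500) * var 0 + num (-760300)) * var 0 + num 950000)
  pd := num 10000
  en := fun b => cond b
    ((((num (-57661200)) * var 0) * var 1 + num 1691874) * var 3 + (((num (-39501000)) * var 0) * var 1 + ((num 259475400) * var 0 + num 134508600) * var 0) * var 1 + (num 94587966) * var 0 + num 6732612)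
    ((((num (-53052800)) * var 0) * var 1 + num 915680) * var 3 + (((num (-36344000)) * var 0) * var 1 + ((num 238737600) * var 0 + num 123758400) * var 0) * var 1 + (num 51193120) * var 0 + num 3643840)
  kk := fun b => cond b
    (((num 1130432) * var 0) * var 3 + ((num (-194293)) * var 0) * var 1 + ((num 98029650) * var 0 + num 5881779) * var 0)
    (((num 616320) * var 0) * var 3 + ((num (-105930)) * var 0) * var 1 + ((num 53446500) * var 0 + num 3206790) * var 0)
  f0 := num 10000000
  wn := fun b => cond b
    ((((((num (-97600)) * var 0 * var 0) * var 1 + (((num (-176000)) * var 0 + num 106520) * var 0 + num 48800) * var 0) * var 1 + (((num (-96800)) * var 0 + num 114780) * var 0 + num (-15160)) * var 0) * var 1 + (((num (-4400)) * var 0 + num 5280) * var 0 + num (-880)) * var 0) * var 3 + ((((num (-54400)) * var 0 * var 0) * var 1 + (((num (-805500)) * var 0 + num (-39220)) * var 0 + num 27200) * var 0) * var 1 + (((num 144760) * var 0 + num (-23160)) * var 0 + num (-74640)) * var 0) * var 1 + (((num (-3200)) * var 0 + num 3000) * var 0 + num 200) * var 0)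
    ((((((num (-97600)) * var 0 * var 0) * var 1 + (((num (-176000)) * var 0 + num 106520) * var 0 + num 48800) * var 0) * var 1 + (((num (-96800)) * var 0 + num 114780) * var 0 + num (-15160)) * var 0) * var 1 + (((num (-4400)) * var 0 + num 5280) * var 0 + num (-880)) * var 0) * var 3 + ((((num (-54400)) * var 0 * var 0) * var 1 + (((num (-805500)) * var 0 + num (-61930)) * var 0 + num 27200) * var 0) * var 1 + (((num 144760) * var 0 + num (-25431)) * var 0 + num (-74640)) * var 0) * var 1 + (((num (-3200)) * var 0 + num 3000) * var 0 + num 200) * var 0)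
  wd := num 10000
  tn := fun b => cond b
    (((num 1081472) * var 1 + num (-424864)) * var 3 + (num 96560) * var 1 + (num (-164152)) * var 0 + num 598672)
    (((num 513520) * var 1 + num (-201740)) * var 3 + (num 45850) * var 1 + (num (-77945)) * var 0 + num 284270)
  td := num 5000000
  cn := num 1 - var 0 * var 1 - var 1 * (num 1 - num 2 * (var 0 * var 1))
  cd := (num 1 - num 2 * (var 0 * var 1)) * (num 1 - num 2 * (var 0 * var 1))
  kn := var 0 * var 1 * ((((num 25711) * var 1 + num (-14800)) * var 3 + (num (-7426)) * var 1 + (num 1290) * var 0 + num 4732) * var 3 + ((num 408) * var 1 + (num (-33899)) * var 0 + num 5632) * var 1 + (num 22234) * var 0 + num (-828))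
  kd := num 100
  k2n := (((num 223) * var 0) * var 3 + ((num (-1502)) * var 0) * var 1 + (num 781) * var 0) * var 3 + ((num 1515) * var 0) * var 1 + ((num 590) * var 0 + num (-849)) * var 0
  k2d := num 100

/-- Its ranges. -/
def sevBoxD4a : EBox :=
  ⟨(9, 13, 100), (7, 10, 10), (10, 17, 100), (0, 1, 1)⟩

/-- The chart of the bin `D5`. -/
def sevBinD5 : EndChart where
  I := var 0 * var 1
  d := var 0
  w := var 0 * var 2
  den := num 100
  n₀ := (num 1 - num 2 * (var 0 * var 1) - var 0) * ((num 32) * var 1 + (num 65) * var 0 + num 5)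
  n₁ := (num 1 - num 2 * (var 0 * var 1) - var 0) * ((num 46) * var 1 + (num 148) * var 0 + num (-17))
  q₀ := (9, 13, 100)
  q₁ := (7, 10, 10)
  q₂ := (17, 28, 100)
  q₃ := (0, 1, 1)
  t₀ := (0, 1)
  t₁ := (1, 1)
  mu₀ := (202, 100)
  mu₁ := (293, 100)

/-- The piece `D5a`. -/
def sevPcD5a : Piece where
  I := var 0 * var 1
  d := var 0
  w := var 0 * var 2
  o := sevBinD5.n₀ + sevBinD5.n₁ * var 3
  den := num 100
  vn := num 2 * (((num 46) * var 1 + (num 148) * var 0 + num (-17)) * var 3 + (num 32) * var 1 + (num 65) * var 0 + num 5)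
  vs := num 1
  mu := ⟨(202, 100), (293, 100)⟩
  pn := fun b => cond b
    ((((((num 377384) * var 0 + num 460000) * var 0) * var 1 + (((num 1214192) * var 0 + num 1529224) * var 0 + num (-128692)) * var 0 + num (-230000)) * var 1 + (((num 607096) * var 0 + num 63170) * var 0 + num (-755266)) * var 0 + num 85000) * var 3 + ((((num 262528) * var 0 + num 320000) * var 0) * var 1 + (((num 533260) * var 0 + num 822284) * var 0 + num 78736) * var 0 + num (-160000)) * var 1 + (((num 266630) * var 0 + num 78880) * var 0 + num (-320510)) * var 0 + num 475000)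
    ((((((num 157964) * var 0 + num 460000) * var 0) * var 1 + (((num 508232) * var 0 + num 1500604) * var 0 + num (-18982)) * var 0 + num (-230000)) * var 1 + (((num 254116) * var 0 + num 456695) * var 0 + num (-795811)) * var 0 + num 85000) * var 3 + ((((num 109888) * var 0 + num 320000) * var 0) * var 1 + (((num 223210) * var 0 + num 722114) * var 0 + num 155056) * var 0 + num (-160000)) * var 1 + (((num 111605) * var 0 + num 221980) * var 0 + num (-308585)) * var 0 + num 475000)
  pd := num 5000
  en := fun b => cond b
    ((((num (-48025600)) * var 0) * var 1 + num 1720320) * var 3 + (((num (-25190400)) * var 0) * var 1 + ((num 181760000) * var 0 + num 132300800) * var 0) * var 1 + (num 164548608) * var 0 + num 10321920)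
    ((((num (-44977100)) * var 0) * var 1 + num 978180) * var 3 + (((num (-23591400)) * var 0) * var 1 + ((num 170222500) * var 0 + num 123902800) * var 0) * var 1 + (num 93562917) * var 0 + num 5869080)
  kk := fun b => cond b
    (((num 1651860) * var 0) * var 3 + ((num (-753480)) * var 0) * var 1 + ((num 157680180) * var 0 + num 10143000) * var 0)
    (((num 937023) * var 0) * var 3 + ((num (-427414)) * var 0) * var 1 + ((num 89444599) * var 0 + num 5753650) * var 0)
  f0 := num 10000000
  wn := fun b => cond b
    ((((((num (-736000)) * var 0 * var 0) * var 1 + (((num (-2368000)) * var 0 + num 1048440) * var 0 + num 368000) * var 0) * var 1 + (((num (-1385280)) * var 0 + num 1556980) * var 0 + num (-104720)) * var 0) * var 1 + (((num (-100640)) * var 0 + num 112200) * var 0 + num (-11560)) * var 0) * var 3 + ((((num (-512000)) * var 0 * var 0) * var 1 + (((num (-8421000)) * var 0 + num (-477720)) * var 0 + num 256000) * var 0) * var 1 + (((num 2348070) * var 0 + num (-374434)) * var 0 + num (-738240)) * var 0) * var 1 + (((num (-44200)) * var 0 + num 40800) *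 var 0 + num 3400) * var 0)
    ((((((num (-736000)) * var 0 * var 0) * var 1 + (((num (-2368000)) * var 0 + num 1048440) * var 0 + num 368000) * var 0) * var 1 + (((num (-1385280)) * var 0 + num 1556980) * var 0 + num (-104720)) * var 0) * var 1 + (((num (-100640)) * var 0 + num 112200) * var 0 + num (-11560)) * var 0) * var 3 + ((((num (-512000)) * var 0 * var 0) * var 1 + (((num (-8421000)) * var 0 + num (-699020)) * var 0 + num 256000) * var 0) * var 1 + (((num 2348070) * var 0 + num (-412055)) * var 0 + num (-738240)) * var 0) * var 1 + (((num (-44200)) * var 0 + num 40800) * var 0 + num 3400) * var 0)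
  wd := num 100000
  tn := fun b => cond b
    (((num 453964) * var 1 + num (-117152)) * var 3 + (num 87864) * var 1 + (num 109830) * var 0 + num 388066)
    (((num 249798) * var 1 + num (-64464)) * var 3 + (num 48348) * var 1 + (num 60435) * var 0 + num 213537)
  td := num 2500000
  cn := num 1 - var 0 * var 1 - var 1 * (num 1 - num 2 * (var 0 * var 1))
  cd := (num 1 - num 2 * (var 0 * var 1)) * (num 1 - num 2 * (var 0 * var 1))
  kn := var 0 * var 1 * ((((num 14498) * var 1 + num (-8237)) * var 3 + (num (-4217)) * var 1 + (num 26840) * var 0 + num 736) * var 3 + ((num (-120)) * var 1 + (num (-25210)) * var 0 + num 5273) * var 1 + (num 12236) * var 0 + num (-305))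
  kd := num 100
  k2n := (((num 97) * var 0) * var 3 + ((num (-958)) * var 0) * var 1 + (num 570) * var 0) * var 3 + ((num 1124) * var 0) * var 1 + ((num 513) * var 0 + num (-667)) * var 0
  k2d := num 100

/-- Its ranges. -/
def sevBoxD5a : EBox :=
  ⟨(9, 13, 100), (7, 10, 10), (17, 28, 100), (0, 1, 1)⟩

/-- The chart of the bin `D6`. -/
def sevBinD6 : EndChart where
  I := var 0 * var 1
  d := var 0
  w := var 0 * var 2
  den := num 100
  n₀ := (num 1 - num 2 * (var 0 * var 1) - var 0) * ((num 28) * var 1 + (num 45) * var 0 + num 4)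
  n₁ := (num 1 - num 2 * (var 0 * var 1) - var 0) * ((num 40) * var 1 + (num 168) * var 0 + num (-16))
  q₀ := (9, 13, 100)
  q₁ := (7, 10, 10)
  q₂ := (7, 12, 25)
  q₃ := (0, 1, 1)
  t₀ := (0, 1)
  t₁ := (1, 1)
  mu₀ := (183, 100)
  mu₁ := (287, 100)

/-- The piece `D6a`. -/
def sevPcD6a : Piece where
  I := var 0 * var 1
  d := var 0
  w := var 0 * var 2
  o := sevBinD6.n₀ + sevBinD6.n₁ * var 3
  den := num 100
  vn := num 2 * (((num 40) * var 1 + (num 168) * var 0 + num (-16)) * var 3 + (num 28) * var 1 + (num 45) * var 0 + num 4)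
  vs := num 1
  mu := ⟨(183, 100), (287, 100)⟩
  pn := fun b => cond b
    ((((((num 275520) * var 0 + num 200000) * var 0) * var 1 + (((num 1157184) * var 0 + num 867552) * var 0 + num (-117760)) * var 0 + num (-100000)) * var 1 + (((num 578592) * var 0 + num (-213696)) * var 0 + num (-404896)) * var 0 + num 40000) * var 3 + ((((num 192864) * var 0 + num 140000) * var 0) * var 1 + (((num 309960) * var 0 + num 348984) * var 0 + num (-6432)) * var 0 + num (-70000)) * var 1 + (((num 154980) * var 0 + num (-28704)) * var 0 + num (-116276)) * var 0 + num 240000)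
    ((((((num 102480) * var 0 + num 200000) * var 0) * var 1 + (((num 430416) * var 0 + num 850248) * var 0 + num (-31240)) * var 0 + num (-100000)) * var 1 + (((num 215208) * var 0 + num 184296) * var 0 + num (-439504)) * var 0 + num 40000) * var 3 + ((((num 71736) * var 0 + num 140000) * var 0) * var 1 + (((num 115290) * var 0 + num 271116) * var 0 + num 54132) * var 0 + num (-70000)) * var 1 + (((num 57645) * var 0 + num 59979) * var 0 + num (-107624)) * var 0 + num 240000)
  pd := num 2500
  en := fun b => cond b
    ((((num (-9968125)) * var 0) * var 1 + num 516600) * var 3 + (((num (-3895000)) * var 0) * var 1 + ((num 23139375) * var 0 + num 34926875) * var 0) * var 1 + (num 70737300) * var 0 + num 4305000)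
    ((((num (-9365175)) * var 0) * var 1 + num 283122) * var 3 + (((num (-3659400)) * var 0) * var 1 + ((num 21739725) * var 0 + num 32814225) * var 0) * var 1 + (num 38767491) * var 0 + num 2359350)
  kk := fun b => cond b
    (((num 644592) * var 0) * var 3 + ((num (-458652)) * var 0) * var 1 + ((num 64880664) * var 0 + num 4561728) * var 0)
    (((num 351988) * var 0) * var 3 + ((num (-250453)) * var 0) * var 1 + ((num 35428946) * var 0 + num 2490992) * var 0)
  f0 := num 2500000
  wn := fun b => cond b
    ((((((num (-160000)) * var 0 * var 0) * var 1 + (((num (-672000)) * var 0 + num 269850) * var 0 + num 80000) * var 0) * var 1 + (((num (-430080)) * var 0 + num 485740) * var 0 + num (-20800)) * var 0) * var 1 + (((num (-47040)) * var 0 + num 51520) * var 0 + num (-4480)) * var 0) * var 3 + ((((num (-112000)) * var 0 * var 0) * var 1 + (((num (-2115750)) * var 0 + num (-162105)) * var 0 + num 56000) * var 0) * var 1 + (((num 722210) * var 0 + num (-140519)) * var 0 + num (-184160)) * var 0) * var 1 + (((num (-12600)) * var 0 + num 11480) * var 0 + num 1120)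 * var 0)
    ((((((num (-160000)) * var 0 * var 0) * var 1 + (((num (-672000)) * var 0 + num 269850) * var 0 + num 80000) * var 0) * var 1 + (((num (-430080)) * var 0 + num 485740) * var 0 + num (-20800)) * var 0) * var 1 + (((num (-47040)) * var 0 + num 51520) * var 0 + num (-4480)) * var 0) * var 3 + ((((num (-112000)) * var 0 * var 0) * var 1 + (((num (-2115750)) * var 0 + num (-232005)) * var 0 + num 56000) * var 0) * var 1 + (((num 722210) * var 0 + num (-160091)) * var 0 + num (-184160)) * var 0) * var 1 + (((num (-12600)) * var 0 + num 11480) * var 0 + num 1120) * var 0)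
  wd := num 25000
  tn := fun b => cond b
    (((num 420420) * var 1 + num (-60060)) * var 3 + (num 132132) * var 1 + (num 396396) * var 0 + num 528528)
    (((num 241325) * var 1 + num (-34475)) * var 3 + (num 75845) * var 1 + (num 227535) * var 0 + num 303380)
  td := num 2500000
  cn := num 1 - var 0 * var 1 - var 1 * (num 1 - num 2 * (var 0 * var 1))
  cd := (num 1 - num 2 * (var 0 * var 1)) * (num 1 - num 2 * (var 0 * var 1))
  kn := var 0 * var 1 * ((((num 7427) * var 1 + num (-3698)) * var 3 + (num (-724)) * var 1 + (num 26696) * var 0 + num (-1815)) * var 3 + ((num (-78)) * var 1 + (num (-14064)) * var 0 + num 3080) * var 1 + (num 5753) * var 0 + num 549)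
  kd := num 100
  k2n := (((num 29) * var 0) * var 3 + ((num (-695)) * var 0) * var 1 + (num 497) * var 0) * var 3 + ((num 954) * var 0) * var 1 + ((num 622) * var 0 + num (-619)) * var 0
  k2d := num 100

/-- Its ranges. -/
def sevBoxD6a : EBox :=
  ⟨(9, 13, 100), (7, 10, 10), (7, 12, 25), (0, 1, 1)⟩

/-- The chart of the bin `D7`. -/
def sevBinD7 : EndChart where
  I := var 0 * var 1
  d := var 0
  w := var 0 * var 2
  den := num 100
  n₀ := (num 1 - num 2 * (var 0 * var 1) - var 0) * ((num 24) * var 1 + (num 36) * var 0 + num 1)
  n₁ := (num 1 - num 2 * (var 0 * var 1) - var 0) * ((num 39) * var 1 + (num 114) * var 0 + num (-12))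
  q₀ := (9, 13, 100)
  q₁ := (7, 10, 10)
  q₂ := (24, 45, 50)
  q₃ := (0, 1, 1)
  t₀ := (0, 1)
  t₁ := (1, 1)
  mu₀ := (158, 100)
  mu₁ := (284, 100)

/-- The piece `D7a`. -/
def sevPcD7a : Piece where
  I := var 0 * var 1
  d := var 0
  w := var 0 * var 2
  o := sevBinD7.n₀ + sevBinD7.n₁ * var 3
  den := num 100
  vn := num 2 * (((num 39) * var 1 + (num 114) * var 0 + num (-12)) * var 3 + (num 24) * var 1 + (num 36) * var 0 + num 1)
  vs := num 1
  mu := ⟨(158, 100), (284, 100)⟩
  pn := fun b => cond b
    ((((((num 249210) * var 0 + num 97500) * var 0) * var 1 + (((num 728460) * var 0 + num 332925) * var 0 + num (-105855)) * var 0 + num (-48750)) * var 1 + (((num 364230) * var 0 + num (-260070)) * var 0 + num (-119160)) * var 0 + num 15000) * var 3 + ((((num 153360) * var 0 + num 60000) * var 0) * var 1 + (((num 230040) * var 0 + num 173070) * var 0 + num (-44180)) * var 0 + num (-30000)) * var 1 + (((num 115020) * var 0 + num (-66825)) * var 0 + num (-46945)) * var 0 + num 123750)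
    ((((((num 73944) * var 0 + num 97500) * var 0) * var 1 + (((num 216144) * var 0 + num 299220) * var 0 + num (-18222)) * var 0 + num (-48750)) * var 1 + (((num 108072) * var 0 + num 23052) * var 0 + num (-146124)) * var 0 + num 15000) * var 3 + ((((num 45504) * var 0 + num 60000) * var 0) * var 1 + (((num 68256) * var 0 + num 114648) * var 0 + num 9748) * var 0 + num (-30000)) * var 1 + (((num 34128) * var 0 + num 11820) * var 0 + num (-44698)) * var 0 + num 123750)
  pd := num 1250
  en := fun b => cond b
    ((((num (-14532050)) * var 0) * var 1 + num 1432665) * var 3 + (((num (-4518800)) * var 0) * var 1 + ((num 2464800) * var 0 + num 75381800) * var 0) * var 1 + (num 256862970) * var 0 + num 16406325)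
    ((((num (-13626450)) * var 0) * var 1 + num 716472) * var 3 + (((num (-4237200)) * var 0) * var 1 + ((num 2311200) * var 0 + num 70684200) * var 0) * var 1 + (num 128456496) * var 0 + num 8204760)
  kk := fun b => cond b
    (((num 2043360) * var 0) * var 3 + ((num (-2089800)) * var 0) * var 1 + ((num 230760360) * var 0 + num 18018720) * var 0)
    (((num 1022208) * var 0) * var 3 + ((num (-1045440)) * var 0) * var 1 + ((num 115439808) * var 0 + num 9014016) * var 0)
  f0 := num 5000000
  wn := fun b => cond b
    ((((((num (-156000)) * var 0 * var 0) * var 1 + (((num (-456000)) * var 0 + num 231310) * var 0 + num 78000) * var 0) * var 1 + (((num (-337440)) * var 0 + num 474600) * var 0 + num (-5280)) * var 0) * var 1 + (((num (-54720)) * var 0 + num 60480) * var 0 + num (-5760)) * var 0) * var 3 + ((((num (-96000)) * var 0 * var 0) * var 1 + (((num (-2366250)) * var 0 + num (-185465)) * var 0 + num 48000) * var 0) * var 1 + (((num 708600) * var 0 + num (-156844)) * var 0 + num (-186480)) * var 0) * var 1 + (((num (-17280)) * var 0 + num 16800) * var 0 + num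 480) * var 0)
    ((((((num (-156000)) * var 0 * var 0) * var 1 + (((num (-456000)) * var 0 + num 231310) * var 0 + num 78000) * var 0) * var 1 + (((num (-337440)) * var 0 + num 474600) * var 0 + num (-5280)) * var 0) * var 1 + (((num (-54720)) * var 0 + num 60480) * var 0 + num (-5760)) * var 0) * var 3 + ((((num (-96000)) * var 0 * var 0) * var 1 + (((num (-2366250)) * var 0 + num (-289240)) * var 0 + num 48000) * var 0) * var 1 + (((num 708600) * var 0 + num (-206656)) * var 0 + num (-186480)) * var 0) * var 1 + (((num (-17280)) * var 0 + num 16800) * var 0 + num 480) * var 0)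
  wd := num 25000
  tn := fun b => cond b
    (((num 195210) * var 1 + num (-10845)) * var 3 + (num 97605) * var 1 + (num 390420) * var 0 + num 390420)
    (((num 112644) * var 1 + num (-6258)) * var 3 + (num 56322) * var 1 + (num 225288) * var 0 + num 225288)
  td := num 1250000
  cn := num 1 - var 0 * var 1 - var 1 * (num 1 - num 2 * (var 0 * var 1))
  cd := (num 1 - num 2 * (var 0 * var 1)) * (num 1 - num 2 * (var 0 * var 1))
  kn := var 0 * var 1 * ((((num 5009) * var 1 + num (-2405)) * var 3 + (num (-320)) * var 1 + (num 13151) * var 0 + num (-711)) * var 3 + ((num (-29)) * var 1 + (num (-9136)) * var 0 + num 2354) * var 1 + (num 5846) * var 0 + num 370)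
  kd := num 100
  k2n := (((num (-20)) * var 0) * var 3 + ((num (-269)) * var 0) * var 1 + (num 228) * var 0) * var 3 + ((num 552) * var 0) * var 1 + ((num (-437)) * var 0 + num (-205)) * var 0
  k2d := num 100

/-- Its ranges. -/
def sevBoxD7a : EBox :=
  ⟨(9, 13, 100), (7, 10, 10), (24, 45, 50), (0, 1, 1)⟩

/-- The chart of the bin `D8`. -/
def sevBinD8 : EndChart where
  I := var 0 * var 1
  d := var 0
  w := var 0 * var 2
  den := num 100
  n₀ := (num 1 - num 2 * (var 0 * var 1) - var 0) * ((num 22) * var 1 + (num 21) * var 0 + num 3)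
  n₁ := (num 1 - num 2 * (var 0 * var 1) - var 0) * ((num 30) * var 1 + (num 91) * var 0 + num (-12))
  q₀ := (9, 13, 100)
  q₁ := (7, 10, 10)
  q₂ := (9, 10, 10)
  q₃ := (0, 1, 1)
  t₀ := (0, 1)
  t₁ := (1, 1)
  mu₀ := (158, 100)
  mu₁ := (282, 100)

/-- The piece `D8a`. -/
def sevPcD8a : Piece where
  I := var 0 * var 1
  d := var 0
  w := var 0 * var 2
  o := sevBinD8.n₀ + sevBinD8.n₁ * var 3
  den := num 100
  vn := num 2 * (((num 30) * var 1 + (num 91) * var 0 + num (-12)) * var 3 + (num 22) * var 1 + (num 21) * var 0 + num 3)
  vs := num 1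
  mu := ⟨(158, 100), (282, 100)⟩
  pn := fun b => cond b
    ((((((num 84600) * var 0 + num 30000) * var 0) * var 1 + (((num 256620) * var 0 + num 99460) * var 0 + num (-39300)) * var 0 + num (-15000)) * var 1 + (((num 128310) * var 0 + num (-99730)) * var 0 + num (-34580)) * var 0 + num 6000) * var 3 + ((((num 62040) * var 0 + num 22000) * var 0) * var 1 + (((num 59220) * var 0 + num 60480) * var 0 + num (-17020)) * var 0 + num (-11000)) * var 1 + (((num 29610) * var 0 + num (-14880)) * var 0 + num (-13230)) * var 0 + num 48500)
    ((((((num 42660) * var 0 + num 30000) * var 0) * var 1 + (((num 129402) * var 0 + num 95266) * var 0 + num (-18330)) * var 0 + num (-15000)) * var 1 + (((num 64701) * var 0 + num (-27733)) * var 0 + num (-42968)) * var 0 + num 6000) * var 3 + ((((num 31284) * var 0 + num 22000) * var 0) * var 1 + (((num 29862) * var 0 + num 40908) * var 0 + num (-1642)) * var 0 + num (-11000)) * var 1 + (((num 14931) * var 0 + num (-2298)) * var 0 + num (-11133)) * var 0 + num 48500)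
  pd := num 500
  en := fun b => cond b
    ((((num 723490) * var 0) * var 1 + num (-10190)) * var 3 + (((num (-917100)) * var 0) * var 1 + ((num (-26585710)) * var 0 + num 17251670) * var 0) * var 1 + (num 56890770) * var 0 + num 3627640)
    ((((num 690830) * var 0) * var 1 + num (-8757)) * var 3 + (((num (-875700)) * var 0) * var 1 + ((num (-25385570)) * var 0 + num 16472890) * var 0) * var 1 + (num 48890331) * var 0 + num 3117492)
  kk := fun b => cond b
    (((num 307800) * var 0) * var 3 + ((num (-543780)) * var 0) * var 1 + ((num 49494240) * var 0 + num 4186080) * var 0)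
    (((num 262710) * var 0) * var 3 + ((num (-464121)) * var 0) * var 1 + ((num 42243768) * var 0 + num 3572856) * var 0)
  f0 := num 1000000
  wn := fun b => cond b
    ((((((num (-48000)) * var 0 * var 0) * var 1 + (((num (-145600)) * var 0 + num 195100) * var 0 + num 24000) * var 0) * var 1 + (((num (-138320)) * var 0 + num 104810) * var 0 + num 1200) * var 0) * var 1 + (((num (-32760)) * var 0 + num 37080) * var 0 + num (-4320)) * var 0) * var 3 + ((((num (-35200)) * var 0 * var 0) * var 1 + (((num (-1805900)) * var 0 + num 2720) * var 0 + num 17600) * var 0) * var 1 + (((num 936030) * var 0 + num (-126476)) * var 0 + num (-69680)) * var 0) * var 1 + (((num (-7560)) * var 0 + num 6480) * var 0 + num 1080) * var 0)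
    ((((((num (-48000)) * var 0 * var 0) * var 1 + (((num (-145600)) * var 0 + num 195100) * var 0 + num 24000) * var 0) * var 1 + (((num (-138320)) * var 0 + num 104810) * var 0 + num 1200) * var 0) * var 1 + (((num (-32760)) * var 0 + num 37080) * var 0 + num (-4320)) * var 0) * var 3 + ((((num (-35200)) * var 0 * var 0) * var 1 + (((num (-1805900)) * var 0 + num (-31650)) * var 0 + num 17600) * var 0) * var 1 + (((num 936030) * var 0 + num (-157409)) * var 0 + num (-69680)) * var 0) * var 1 + (((num (-7560)) * var 0 + num 6480) * var 0 + num 1080) * var 0)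
  wd := num 10000
  tn := fun b => cond b
    (((num 112750) * var 1 + num (-20500)) * var 3 + (num 82000) * var 1 + (num 328000) * var 0 + num 338250)
    (((num 97713) * var 1 + num (-17766)) * var 3 + (num 71064) * var 1 + (num 284256) * var 0 + num 293139)
  td := num 1000000
  cn := num 1 - var 0 * var 1 - var 1 * (num 1 - num 2 * (var 0 * var 1))
  cd := (num 1 - num 2 * (var 0 * var 1)) * (num 1 - num 2 * (var 0 * var 1))
  kn := var 0 * var 1 * ((((num 1087) * var 1 + num (-650)) * var 3 + (num 628) * var 1 + (num 4351) * var 0 + num (-977)) * var 3 + ((num (-87)) * var 1 + (num 1040) * var 0 + num 986) * var 1 + (num 54) * var 0 + num 809)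
  kd := num 100
  k2n := (((num 17) * var 0) * var 3 + ((num 91) * var 0) * var 1 + (num (-39)) * var 0) * var 3 + ((num 295) * var 0) * var 1 + ((num (-797)) * var 0 + num (-27)) * var 0
  k2d := num 100

/-- Its ranges. -/
def sevBoxD8a : EBox :=
  ⟨(9, 13, 100), (7, 10, 10), (9, 10, 10), (0, 1, 1)⟩

end Vale.Agent.P100.Calib.StripEndD
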