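import Vale.Agent.P100.Calib.SlabStripEndDExpr
import Vale.Agent.P100.Calib.SlabStripEndCert
import Vale.Agent.P100.Calib.SlabStripEndChart

/-!
# The bins `E` of the `D` region for `N` between seven and twenty

`x = (d, I / d, (1 - u) / d, t)`, with `v` affine in `t`.
-/

namespace Vale.Agent.P100.Calib.StripEndD

open Pack hiding ev_add ev_mul
open Pack.Ex StripMid StripEnd

local instance endSevDataEAdd : Add Ex := ⟨Ex.add⟩
local instance endSevDataESub : Sub Ex := ⟨Ex.sub⟩
local instance endSevDataEMul : Mul Ex := ⟨Ex.mul⟩

/-- The chart of the bin `E0`. -/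
def sevBinE0 : EndChart where
  I := var 0 * var 1
  d := var 0
  w := var 0 * var 2
  den := num 100
  n₀ := (num 1 - num 2 * (var 0 * var 1) - var 0) * ((num 52) * var 1 + (num 72) * var 0)
  n₁ := (num 1 - num 2 * (var 0 * var 1) - var 0) * ((num 79) * var 1 + (num 20) * var 0 + num (-17))
  q₀ := (9, 13, 100)
  q₁ := (96, 175, 250)
  q₂ := (0, 11, 200)
  q₃ := (0, 1, 1)
  t₀ := (0, 1)
  t₁ := (1, 1)
  mu₀ := (207, 100)
  mu₁ := (280, 100)

/-- The piece `E0a`. -/
def sevPcE0a : Piece where
  I := var 0 * var 1
  d := var 0
  w := var 0 * var 2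
  o := sevBinE0.n₀ + sevBinE0.n₁ * var 3
  den := num 100
  vn := num 2 * (((num 79) * var 1 + (num 20) * var 0 + num (-17)) * var 3 + (num 52) * var 1 + (num 72) * var 0)
  vs := num 1
  mu := ⟨(207, 100), (280, 100)⟩
  pn := fun b => cond b
    ((((((num 12166) * var 0 + num 79000) * var 0) * var 1 + (((num 3080) * var 0 + num 23465) * var 0 + num 16417) * var 0 + num (-39500)) * var 1 + (((num 1540) * var 0 + num 7151) * var 0 + num (-17191)) * var 0 + num 8500) * var 3 + ((((num 8008) * var 0 + num 52000) * var 0) * var 1 + (((num 11088) * var 0 + num 76004) * var 0 + num 21996) * var 0 + num (-26000)) * var 1 + (((num 5544) * var 0 + num 30456) * var 0 + num (-36000)) * var 0 + num 50000)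
    (((((num 79000) * var 0) * var 1 + ((num 20000) * var 0 + num 22500) * var 0 + num (-39500)) * var 1 + ((num 10000) * var 0 + num (-18500)) * var 0 + num 8500) * var 3 + (((num 52000) * var 0) * var 1 + ((num 72000) * var 0 + num 26000) * var 0 + num (-26000)) * var 1 + ((num 36000) * var 0 + num (-36000)) * var 0 + num 50000)
  pd := num 500
  en := fun b => cond b
    ((((num (-42652200)) * var 0) * var 1 + num 618563) * var 3 + (((num (-89654500)) * var 0) * var 1 + ((num 127107800) * var 0 + num 167531900) * var 0) * var 1 + (num 29702695) * var 0 + num 2229161)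
    ((((num (-35134800)) * var 0) * var 1) * var 3 + (((num (-73853000)) * var 0) * var 1 + ((num 104705200) * var 0 + num 138004600) * var 0) * var 1)
  kk := fun b => cond b
    (((num 250470) * var 0) * var 3 + ((num 876645) * var 0) * var 1 + ((num 30386565) * var 0 + num 1525590) * var 0)
    (num 0)
  f0 := num 10000000
  wn := fun b => cond b
    ((((((num (-12640)) * var 0 * var 0) * var 1 + (((num (-3200)) * var 0 + num 6220) * var 0 + num 6320) * var 0) * var 1 + (((num (-1600)) * var 0 + num 2960) * var 0 + num (-1360)) * var 0) * var 1) * var 3 + ((((num (-8320)) * var 0 * var 0) * var 1 + (((num (-36130)) * var 0 + num (-2616)) * var 0 + num 4160) * var 0) * var 1 + (((num (-5760)) * var 0 + num (-2240)) * var 0 + num (-8000)) * var 0) * var 1)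
    ((((((num (-12640)) * var 0 * var 0) * var 1 + (((num (-3200)) * var 0 + num 6220) * var 0 + num 6320) * var 0) * var 1 + (((num (-1600)) * var 0 + num 2960) * var 0 + num (-1360)) * var 0) * var 1) * var 3 + ((((num (-8320)) * var 0 * var 0) * var 1 + (((num (-36130)) * var 0 + num (-5563)) * var 0 + num 4160) * var 0) * var 1 + (((num (-5760)) * var 0 + num (-2240)) * var 0 + num (-8000)) * var 0) * var 1)
  wd := num 1000
  tn := fun b => cond b
    (((num 479864) * var 1 + num (-148379)) * var 3 + (num 88396) * var 1 + (num 28413) * var 0 + num 173635)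
    (num 0)
  td := num 5000000
  cn := num 1 - var 0 * var 1 - var 1 * (num 1 - num 2 * (var 0 * var 1))
  cd := (num 1 - num 2 * (var 0 * var 1)) * (num 1 - num 2 * (var 0 * var 1))
  kn := var 0 * var 1 * ((((num 31505) * var 1 + num (-11901)) * var 3 + (num (-10748)) * var 1 + (num (-5986)) * var 0 + num 4313) * var 3 + ((num 5683) * var 1 + (num (-54279)) * var 0 + num 4108) * var 1 + (num 10650) * var 0 + num 1872)
  kd := num 100
  k2n := (((num 1736) * var 0) * var 3 + ((num 1992) * var 0) * var 1 + (num (-3428)) * var 0) * var 3 + ((num (-353)) * var 0) * var 1 + ((num 497) * var 0 + num 1436) * var 0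
  k2d := num 100

/-- Its ranges. -/
def sevBoxE0a : EBox :=
  ⟨(9, 13, 100), (96, 175, 250), (0, 11, 200), (0, 1, 1)⟩

/-- The chart of the bin `E1`. -/
def sevBinE1 : EndChart where
  I := var 0 * var 1
  d := var 0
  w := var 0 * var 2
  den := num 100
  n₀ := (num 1 - num 2 * (var 0 * var 1) - var 0) * ((num 48) * var 1 + (num 66) * var 0 + num (-1))
  n₁ := (num 1 - num 2 * (var 0 * var 1) - var 0) * ((num 68) * var 1 + (num 18) * var 0 + num (-12))
  q₀ := (9, 13, 100)
  q₁ := (96, 175, 250)
  q₂ := (11, 26, 200)
  q₃ := (0, 1, 1)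
  t₀ := (0, 1)
  t₁ := (1, 1)
  mu₀ := (201, 100)
  mu₁ := (274, 100)

/-- The piece `E1a`. -/
def sevPcE1a : Piece where
  I := var 0 * var 1
  d := var 0
  w := var 0 * var 2
  o := sevBinE1.n₀ + sevBinE1.n₁ * var 3
  den := num 100
  vn := num 2 * (((num 68) * var 1 + (num 18) * var 0 + num (-12)) * var 3 + (num 48) * var 1 + (num 66) * var 0 + num (-1))
  vs := num 1
  mu := ⟨(201, 100), (274, 100)⟩
  pn := fun b => cond b
    ((((((num 968864) * var 0 + num 2720000) * var 0) * var 1 + (((num 256464) * var 0 + num 1033456) * var 0 + num 395568) * var 0 + num (-1360000)) * var 1 + (((num 128232) * var 0 + num 146280) * var 0 + num (-514512)) * var 0 + num 240000) * var 3 + ((((num 683904) * var 0 + num 1920000) * var 0) * var 1 + (((num 940368) * var 0 + num 2967704) * var 0 + num 578048) * var 0 + num (-960000)) * var 1 + (((num 470184) * var 0 + num 842692) * var 0 + num (-1332876)) * var 0 + num 2020000)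
    ((((((num 300696) * var 0 + num 2720000) * var 0) * var 1 + (((num 79596) * var 0 + num 817284) * var 0 + num 729652) * var 0 + num (-1360000)) * var 1 + (((num 39798) * var 0 + num 293670) * var 0 + num (-573468)) * var 0 + num 240000) * var 3 + ((((num 212256) * var 0 + num 1920000) * var 0) * var 1 + (((num 291852) * var 0 + num 2741706) * var 0 + num 813872) * var 0 + num (-960000)) * var 1 + (((num 145926) * var 0 + num 1171863) * var 0 + num (-1337789)) * var 0 + num 2020000)
  pd := num 20000
  en := fun b => cond b
    ((((num (-91552800)) * var 0) * var 1 + num 2680600) * var 3 + (((num (-94852000)) * var 0) * var 1 + ((num 306207000) * var 0 + num 292391600) * var 0) * var 1 + (num 138533408) * var 0 + num 9945026)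
    ((((num (-83294400)) * var 0) * var 1 + num 1031800) * var 3 + (((num (-86296000)) * var 0) * var 1 + ((num 278586000) * var 0 + num 266016800) * var 0) * var 1 + (num 53323424) * var 0 + num 3827978)
  kk := fun b => cond b
    (((num 1099046) * var 0) * var 3 + ((num 3645616) * var 0) * var 1 + ((num 139954126) * var 0 + num 7586098) * var 0)
    (((num 437921) * var 0) * var 3 + ((num 1452616) * var 0) * var 1 + ((num 55765501) * var 0 + num 3022723) * var 0)
  f0 := num 20000000
  wn := fun b => cond b
    ((((((num (-2176000)) * var 0 * var 0) * var 1 + (((num (-576000)) * var 0 + num 1540160) * var 0 + num 1088000) * var 0) * var 1 + (((num (-303840)) * var 0 + num 541380) * var 0 + num (-162080)) * var 0) * var 1 + (((num (-7920)) * var 0 + num 13200) * var 0 + num (-5280)) * var 0) * var 3 + ((((num (-1536000)) * var 0 * var 0) * var 1 + (((num (-10816000)) * var 0 + num (-642440)) * var 0 + num 768000) * var 0) * var 1 + (((num 540760) * var 0 + num (-561451)) * var 0 + num (-1594880)) * var 0) * var 1 + (((num (-29040)) * var 0 + num 29480) * var 0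 + num (-440)) * var 0)
    ((((((num (-2176000)) * var 0 * var 0) * var 1 + (((num (-576000)) * var 0 + num 1540160) * var 0 + num 1088000) * var 0) * var 1 + (((num (-303840)) * var 0 + num 541380) * var 0 + num (-162080)) * var 0) * var 1 + (((num (-7920)) * var 0 + num 13200) * var 0 + num (-5280)) * var 0) * var 3 + ((((num (-1536000)) * var 0 * var 0) * var 1 + (((num (-10816000)) * var 0 + num (-1175840)) * var 0 + num 768000) * var 0) * var 1 + (((num 540760) * var 0 + num (-590788)) * var 0 + num (-1594880)) * var 0) * var 1 + (((num (-29040)) * var 0 + num 29480) * var 0 + num (-440)) * var 0)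
  wd := num 200000
  tn := fun b => cond b
    (((num 2894918) * var 1 + num (-786968)) * var 3 + (num 702650) * var 1 + (num 393484) * var 0 + num 1433406)
    (((num 1093345) * var 1 + num (-297220)) * var 3 + (num 265375) * var 1 + (num 148610) * var 0 + num 541365)
  td := num 20000000
  cn := num 1 - var 0 * var 1 - var 1 * (num 1 - num 2 * (var 0 * var 1))
  cd := (num 1 - num 2 * (var 0 * var 1)) * (num 1 - num 2 * (var 0 * var 1))
  kn := var 0 * var 1 * ((((num 15489) * var 1 + num (-5610)) * var 3 + (num (-2732)) * var 1 + (num 2048) * var 0 + num 757) * var 3 + ((num 1499) * var 1 + (num (-27960)) * var 0 + num 4716) * var 1 + (num 8380) * var 0 + num 480)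
  kd := num 100
  k2n := (((num 921) * var 0) * var 3 + ((num 1780) * var 0) * var 1 + (num (-2236)) * var 0) * var 3 + ((num (-679)) * var 0) * var 1 + ((num 880) * var 0 + num 975) * var 0
  k2d := num 100

/-- Its ranges. -/
def sevBoxE1a : EBox :=
  ⟨(9, 13, 100), (96, 175, 250), (11, 26, 200), (0, 1, 1)⟩

/-- The chart of the bin `E2`. -/
def sevBinE2 : EndChart where
  I := var 0 * var 1
  d := var 0
  w := var 0 * var 2
  den := num 100
  n₀ := (num 1 - num 2 * (var 0 * var 1) - var 0) * ((num 41) * var 1 + (num 58) * var 0 + num (-3))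
  n₁ := (num 1 - num 2 * (var 0 * var 1) - var 0) * ((num 56) * var 1 + (num 22) * var 0 + num (-6))
  q₀ := (9, 13, 100)
  q₁ := (96, 175, 250)
  q₂ := (13, 34, 100)
  q₃ := (0, 1, 1)
  t₀ := (0, 1)
  t₁ := (1, 1)
  mu₀ := (191, 100)
  mu₁ := (268, 100)

/-- The piece `E2a`. -/
def sevPcE2a : Piece where
  I := var 0 * var 1
  d := var 0
  w := var 0 * var 2
  o := sevBinE2.n₀ + sevBinE2.n₁ * var 3
  den := num 100
  vn := num 2 * (((num 56) * var 1 + (num 22) * var 0 + num (-6)) * var 3 + (num 41) * var 1 + (num 58) * var 0 + num (-3))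
  vs := num 1
  mu := ⟨(191, 100), (268, 100)⟩
  pn := fun b => cond b
    ((((((num 1020544) * var 0 + num 1120000) * var 0) * var 1 + (((num 400928) * var 0 + num 840928) * var 0 + num (-70272)) * var 0 + num (-560000)) * var 1 + (((num 200464) * var 0 + num (-35136)) * var 0 + num (-225328)) * var 0 + num 60000) * var 3 + ((((num 747184) * var 0 + num 820000) * var 0) * var 1 + (((num 1056992) * var 0 + num 1478920) * var 0 + num (-23592)) * var 0 + num (-410000)) * var 1 + (((num 528496) * var 0 + num 24168) * var 0 + num (-582664)) * var 0 + num 1030000)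
    ((((((num 278096) * var 0 + num 1120000) * var 0) * var 1 + (((num 109252) * var 0 + num 549252) * var 0 + num 300952) * var 0 + num (-560000)) * var 1 + (((num 54626) * var 0 + num 150476) * var 0 + num (-265102)) * var 0 + num 60000) * var 3 + ((((num 203606) * var 0 + num 820000) * var 0) * var 1 + (((num 288028) * var 0 + num 1246905) * var 0 + num 248197) * var 0 + num (-410000)) * var 1 + (((num 144014) * var 0 + num 428537) * var 0 + num (-602551)) * var 0 + num 1030000)
  pd := num 10000
  en := fun b => cond b
    ((((num (-19660800)) * var 0) * var 1 + num 870400) * var 3 + (((num 3993600) * var 0) * var 1 + ((num 29184000) * var 0 + num 65587200) * var 0) * var 1 + (num 94525440) * var 0 + num 6179840)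
    ((((num (-18163200)) * var 0) * var 1 + num 307450) * var 3 + (((num 3689400) * var 0) * var 1 + ((num 26961000) * var 0 + num 60591300) * var 0) * var 1 + (num 33389070) * var 0 + num 2182895)
  kk := fun b => cond b
    (((num 698360) * var 0) * var 3 + ((num 1955408) * var 0) * var 1 + ((num 88272704) * var 0 + num 5237700) * var 0)
    (((num 253240) * var 0) * var 3 + ((num 709072) * var 0) * var 1 + ((num 32009536) * var 0 + num 1899300) * var 0)
  f0 := num 5000000
  wn := fun b => cond b
    ((((((num (-896000)) * var 0 * var 0) * var 1 + (((num (-352000)) * var 0 + num 814760) * var 0 + num 448000) * var 0) * var 1 + (((num (-198880)) * var 0 + num 394690) * var 0 + num (-18880)) * var 0) * var 1 + (((num (-11440)) * var 0 + num 14560) * var 0 + num (-3120)) * var 0) * var 3 + ((((num (-656000)) * var 0 * var 0) * var 1 + (((num (-5609000)) * var 0 + num (-547340)) * var 0 + num 328000) * var 0) * var 1 + (((num 508790) * var 0 + num (-343161)) * var 0 + num (-802680)) * var 0) * var 1 + (((num (-30160)) * var 0 + num 31720) * var 0 + num (-1560)) *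 var 0)
    ((((((num (-896000)) * var 0 * var 0) * var 1 + (((num (-352000)) * var 0 + num 814760) * var 0 + num 448000) * var 0) * var 1 + (((num (-198880)) * var 0 + num 394690) * var 0 + num (-18880)) * var 0) * var 1 + (((num (-11440)) * var 0 + num 14560) * var 0 + num (-3120)) * var 0) * var 3 + ((((num (-656000)) * var 0 * var 0) * var 1 + (((num (-5609000)) * var 0 + num (-822640)) * var 0 + num 328000) * var 0) * var 1 + (((num 508790) * var 0 + num (-378950)) * var 0 + num (-802680)) * var 0) * var 1 + (((num (-30160)) * var 0 + num 31720) * var 0 + num (-1560)) * var 0)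
  wd := num 100000
  tn := fun b => cond b
    (((num 1898288) * var 1 + num (-338980)) * var 3 + (num 644062) * var 1 + (num 915246) * var 0 + num 1491512)
    (((num 738920) * var 1 + num (-131950)) * var 3 + (num 250705) * var 1 + (num 356265) * var 0 + num 580580)
  td := num 10000000
  cn := num 1 - var 0 * var 1 - var 1 * (num 1 - num 2 * (var 0 * var 1))
  cd := (num 1 - num 2 * (var 0 * var 1)) * (num 1 - num 2 * (var 0 * var 1))
  kn := var 0 * var 1 * ((((num 12341) * var 1 + num (-3973)) * var 3 + (num (-366)) * var 1 + (num 7150) * var 0 + num (-177)) * var 3 + ((num 219) * var 1 + (num (-18638)) * var 0 + num 4513) * var 1 + (num 7506) * var 0 + num 329)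
  kd := num 100
  k2n := (((num 715) * var 0) * var 3 + ((num 2403) * var 0) * var 1 + (num (-2362)) * var 0) * var 3 + ((num (-1362)) * var 0) * var 1 + ((num 870) * var 0 + num 1234) * var 0
  k2d := num 100

/-- Its ranges. -/
def sevBoxE2a : EBox :=
  ⟨(9, 13, 100), (96, 175, 250), (13, 34, 100), (0, 1, 1)⟩

/-- The chart of the bin `E3`. -/
def sevBinE3 : EndChart where
  I := var 0 * var 1
  d := var 0
  w := var 0 * var 2
  den := num 100
  n₀ := (num 1 - num 2 * (var 0 * var 1) - var 0) * ((num 33) * var 1 + (num 34) * var 0 + num (-2))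
  n₁ := (num 1 - num 2 * (var 0 * var 1) - var 0) * ((num 43) * var 1 + (num 36) * var 0 + num (-4))
  q₀ := (9, 13, 100)
  q₁ := (96, 175, 250)
  q₂ := (17, 33, 50)
  q₃ := (0, 1, 1)
  t₀ := (0, 1)
  t₁ := (1, 1)
  mu₀ := (174, 100)
  mu₁ := (259, 100)

/-- The piece `E3a`. -/
def sevPcE3a : Piece where
  I := var 0 * var 1
  d := var 0
  w := var 0 * var 2
  o := sevBinE3.n₀ + sevBinE3.n₁ * var 3
  den := num 100
  vn := num 2 * (((num 43) * var 1 + (num 36) * var 0 + num (-4)) * var 3 + (num 33) * var 1 + (num 34) * var 0 + num (-2))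
  vs := num 1
  mu := ⟨(174, 100), (259, 100)⟩
  pn := fun b => cond b
    ((((((num 735042) * var 0 + num 430000) * var 0) * var 1 + (((num 615384) * var 0 + num 659145) * var 0 + num (-192521)) * var 0 + num (-215000)) * var 1 + (((num 307692) * var 0 + num (-161880)) * var 0 + num (-165812)) * var 0 + num 20000) * var 3 + ((((num 564102) * var 0 + num 330000) * var 0) * var 1 + (((num 581196) * var 0 + num 587863) * var 0 + num (-137051)) * var 0 + num (-165000)) * var 1 + (((num 290598) * var 0 + num (-137692)) * var 0 + num (-162906)) * var 0 + num 510000)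
    ((((((num 254388) * var 0 + num 430000) * var 0) * var 1 + (((num 212976) * var 0 + num 463530) * var 0 + num 47806) * var 0 + num (-215000)) * var 1 + (((num 106488) * var 0 + num 61680) * var 0 + num (-188168)) * var 0 + num 20000) * var 3 + ((((num 195228) * var 0 + num 330000) * var 0) * var 1 + (((num 201144) * var 0 + num 425782) * var 0 + num 47386) * var 0 + num (-165000)) * var 1 + (((num 100572) * var 0 + num 63512) * var 0 + num (-174084)) * var 0 + num 510000)
  pd := num 5000
  en := fun b => cond b
    ((((num (-6643000)) * var 0) * var 1 + num 489027) * var 3 + (((num 21538650) * var 0) * var 1 + ((num (-13234900)) * var 0 + num 26444250) * var 0) * var 1 + (num 89289585) * var 0 + num 6121269)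
    ((((num (-6240000)) * var 0) * var 1 + num 236640) * var 3 + (((num 20232000) * var 0) * var 1 + ((num (-12432000)) * var 0 + num 24840000) * var 0) * var 1 + (num 43207200) * var 0 + num 2962080)
  kk := fun b => cond b
    (((num 539616) * var 0) * var 3 + ((num 1433355) * var 0) * var 1 + ((num 81718098) * var 0 + num 5497338) * var 0)
    (((num 265472) * var 0) * var 3 + ((num 705160) * var 0) * var 1 + ((num 40202416) * var 0 + num 2704496) * var 0)
  f0 := num 2500000
  wn := fun b => cond b
    ((((((num (-344000)) * var 0 * var 0) * var 1 + (((num (-288000)) * var 0 + num 455020) * var 0 + num 172000) * var 0) * var 1 + (((num (-192960)) * var 0 + num 374200) * var 0 + num 13240) * var 0) * var 1 + (((num (-24480)) * var 0 + num 27200) * var 0 + num (-2720)) * var 0) * var 3 + ((((num (-264000)) * var 0 * var 0) * var 1 + (((num (-3764500)) * var 0 + num (-287280)) * var 0 + num 132000) * var 0) * var 1 + (((num 805970) * var 0 + num (-325326)) * var 0 + num (-385560)) * var 0) * var 1 + (((num (-23120)) * var 0 + num 24480) * var 0 + num (-1360)) *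 var 0)
    ((((((num (-344000)) * var 0 * var 0) * var 1 + (((num (-288000)) * var 0 + num 455020) * var 0 + num 172000) * var 0) * var 1 + (((num (-192960)) * var 0 + num 374200) * var 0 + num 13240) * var 0) * var 1 + (((num (-24480)) * var 0 + num 27200) * var 0 + num (-2720)) * var 0) * var 3 + ((((num (-264000)) * var 0 * var 0) * var 1 + (((num (-3764500)) * var 0 + num (-464130)) * var 0 + num 132000) * var 0) * var 1 + (((num 805970) * var 0 + num (-385455)) * var 0 + num (-385560)) * var 0) * var 1 + (((num (-23120)) * var 0 + num 24480) * var 0 + num (-1360)) * var 0)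
  wd := num 50000
  tn := fun b => cond b
    (((num 801075) * var 1 + num (-64086)) * var 3 + (num 416559) * var 1 + (num 929247) * var 0 + num 1217634)
    (((num 447100) * var 1 + num (-35768)) * var 3 + (num 232492) * var 1 + (num 518636) * var 0 + num 679592)
  td := num 5000000
  cn := num 1 - var 0 * var 1 - var 1 * (num 1 - num 2 * (var 0 * var 1))
  cd := (num 1 - num 2 * (var 0 * var 1)) * (num 1 - num 2 * (var 0 * var 1))
  kn := var 0 * var 1 * ((((num 3942) * var 1 + num (-1156)) * var 3 + (num 1278) * var 1 + (num 4622) * var 0 + num (-963)) * var 3 + ((num (-103)) * var 1 + (num (-4313)) * var 0 + num 2251) * var 1 + (num 2147) * var 0 + num 706)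
  kd := num 100
  k2n := (((num 462) * var 0) * var 3 + ((num 2283) * var 0) * var 1 + (num (-1958)) * var 0) * var 3 + ((num (-1413)) * var 0) * var 1 + ((num (-147)) * var 0 + num 1230) * var 0
  k2d := num 100

/-- Its ranges. -/
def sevBoxE3a : EBox :=
  ⟨(9, 13, 100), (96, 175, 250), (17, 33, 50), (0, 1, 1)⟩

/-- The chart of the bin `E4`. -/
def sevBinE4 : EndChart where
  I := var 0 * var 1
  d := var 0
  w := var 0 * var 2
  den := num 100
  n₀ := (num 1 - num 2 * (var 0 * var 1) - var 0) * ((num 28) * var 1 + (num 30) * var 0 + num (-3))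
  n₁ := (num 1 - num 2 * (var 0 * var 1) - var 0) * ((num 31) * var 1 + (num 34) * var 0 + num (-2))
  q₀ := (9, 13, 100)
  q₁ := (96, 175, 250)
  q₂ := (33, 50, 50)
  q₃ := (0, 1, 1)
  t₀ := (0, 1)
  t₁ := (1, 1)
  mu₀ := (156, 100)
  mu₁ := (257, 100)

/-- The piece `E4a`. -/
def sevPcE4a : Piece where
  I := var 0 * var 1
  d := var 0
  w := var 0 * var 2
  o := sevBinE4.n₀ + sevBinE4.n₁ * var 3
  den := num 100
  vn := num 2 * (((num 31) * var 1 + (num 34) * var 0 + num (-2)) * var 3 + (num 28) * var 1 + (num 30) * var 0 + num (-3))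
  vs := num 1
  mu := ⟨(156, 100), (257, 100)⟩
  pn := fun b => cond b
    ((((((num 398350) * var 0 + num 155000) * var 0) * var 1 + (((num 436900) * var 0 + num 343475) * var 0 + num (-131675)) * var 0 + num (-77500)) * var 1 + (((num 218450) * var 0 + num (-146300)) * var 0 + num (-77150)) * var 0 + num 5000) * var 3 + ((((num 359800) * var 0 + num 140000) * var 0) * var 1 + (((num 385500) * var 0 + num 291350) * var 0 + num (-124900)) * var 0 + num (-70000)) * var 1 + (((num 192750) * var 0 + num (-137025)) * var 0 + num (-63225)) * var 0 + num 257500)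
    ((((((num 159588) * var 0 + num 155000) * var 0) * var 1 + (((num 175032) * var 0 + num 239498) * var 0 + num (-12294)) * var 0 + num (-77500)) * var 1 + (((num 87516) * var 0 + num (-7664)) * var 0 + num (-84852)) * var 0 + num 5000) * var 3 + ((((num 144144) * var 0 + num 140000) * var 0) * var 1 + (((num 154440) * var 0 + num 206628) * var 0 + num (-17072)) * var 0 + num (-70000)) * var 1 + (((num 77220) * var 0 + num (-9942)) * var 0 + num (-74778)) * var 0 + num 257500)
  pd := num 2500
  en := fun b => cond b
    ((((num (-4539000)) * var 0) * var 1 + num 765000) * var 3 + (((num 76296000) * var 0) * var 1 + ((num (-112863000)) * var 0 + num 47175000) * var 0) * var 1 + (num 262752000) * var 0 + num 18870000)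
    ((((num (-4303150)) * var 0) * var 1 + num 478665) * var 3 + (((num 72331600) * var 0) * var 1 + ((num (-106998550)) * var 0 + num 44723750) * var 0) * var 1 + (num 164405472) * var 0 + num 11807070)
  kk := fun b => cond b
    (((num 1222800) * var 0) * var 3 + ((num 3362700) * var 0) * var 1 + ((num 239312150) * var 0 + num 17526800) * var 0)
    (((num 773784) * var 0) * var 3 + ((num 2127906) * var 0) * var 1 + ((num 151435977) * var 0 + num 11090904) * var 0)
  f0 := num 5000000
  wn := fun b => cond b
    ((((((num (-248000)) * var 0 * var 0) * var 1 + (((num (-272000)) * var 0 + num 488660) * var 0 + num 124000) * var 0) * var 1 + (((num (-225760)) * var 0 + num 491820) * var 0 + num 32920) * var 0) * var 1 + (((num (-44880)) * var 0 + num 47520) * var 0 + num (-2640)) * var 0) * var 3 + ((((num (-224000)) * var 0 * var 0) * var 1 + (((num (-5481500)) * var 0 + num (-134020)) * var 0 + num 112000) * var 0) * var 1 + (((num 1751100) * var 0 + num (-511606)) * var 0 + num (-375040)) * var 0) * var 1 + (((num (-39600)) * var 0 + num 43560) * var 0 + num (-3960))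 * var 0)
    ((((((num (-248000)) * var 0 * var 0) * var 1 + (((num (-272000)) * var 0 + num 488660) * var 0 + num 124000) * var 0) * var 1 + (((num (-225760)) * var 0 + num 491820) * var 0 + num 32920) * var 0) * var 1 + (((num (-44880)) * var 0 + num 47520) * var 0 + num (-2640)) * var 0) * var 3 + ((((num (-224000)) * var 0 * var 0) * var 1 + (((num (-5481500)) * var 0 + num (-311170)) * var 0 + num 112000) * var 0) * var 1 + (((num 1751100) * var 0 + num (-628525)) * var 0 + num (-375040)) * var 0) * var 1 + (((num (-39600)) * var 0 + num 43560) * var 0 + num (-3960)) * var 0)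
  wd := num 50000
  tn := fun b => cond b
    (((num 265925) * var 1) * var 3 + (num 241750) * var 1 + (num 773600) * var 0 + num 797775)
    (((num 189849) * var 1) * var 3 + (num 172590) * var 1 + (num 552288) * var 0 + num 569547)
  td := num 2500000
  cn := num 1 - var 0 * var 1 - var 1 * (num 1 - num 2 * (var 0 * var 1))
  cd := (num 1 - num 2 * (var 0 * var 1)) * (num 1 - num 2 * (var 0 * var 1))
  kn := var 0 * var 1 * ((((num 1129) * var 1 + num (-324)) * var 3 + (num 1243) * var 1 + (num 2484) * var 0 + num (-1025)) * var 3 + (var 1 + (num 4403) * var 0 + num 622) * var 1 + (num (-1811)) * var 0 + num 1147)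
  kd := num 100
  k2n := (((num 201) * var 0) * var 3 + ((num 1165) * var 0) * var 1 + (num (-943)) * var 0) * var 3 + ((num (-784)) * var 0) * var 1 + ((num (-625)) * var 0 + num 699) * var 0
  k2d := num 50

/-- Its ranges. -/
def sevBoxE4a : EBox :=
  ⟨(9, 13, 100), (96, 175, 250), (33, 50, 50), (0, 1, 1)⟩

end Vale.Agent.P100.Calib.StripEndD
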